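import Crest.Agent.R143.Expl_253

/-!
# Row 143 (S0194), route without E3 / ZF: stopping times and the Abel step (helper253)

(308's STEP 4 in 763's pathwise form, notes 2908 and 3147.)

* `Adp M o τ f` : the function `f` of the configuration is known at the time `τ`
* `sum_ce` : sums of conditional expectations
* `mean_st` : `Σ_x a(x) Z_τ(x; u) = Σ_x a(x) EV (explored map at τ(x)) u`
* `frame_st`, `frame_st1` : **conditional frame at a stopping time**, with a field known at this time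
* `abel` : **STEP 4**: `|Σ_x Z_0(φ u)|` in terms of the totals of the explored maps
-/

set_option autoImplicit false

noncomputable section

open scoped Classical

namespace Crest.Agent.R143.Abelx253

open Crest.Agent.R143.Frame1x395 Crest.Agent.R143.Frame2x395 Crest.Agent.R143.Frame3x395
  Crest.Agent.R143.Frame4x395 Crest.Agent.R143.Frame8x395 Crest.Agent.R143.DefsNx346
  Crest.Agent.R143.Explx253

variable {D C : Type} [Fintype D] {M : CMap D C} {x y : D → ZMod 2} {o g : D} {n : ℕ}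

/-- `f` is known at the time `τ` -/
def Adp {A : Type} (M : CMap D C) (o : D) (τ : (D → ZMod 2) → ℕ) (f : (D → ZMod 2) → A) : Prop :=
  ∀ x ∈ A0 M o, ∀ y ∈ cl M x o (τ x), f y = f x

/-- `τ` is a stopping time -/
abbrev St (M : CMap D C) (o : D) (τ : (D → ZMod 2) → ℕ) : Prop := Adp M o τ τ

/-- the class of `x` at the time `τ` -/
def ct (M : CMap D C) (o : D) (τ : (D → ZMod 2) → ℕ) (x : D → ZMod 2) : Finset (D → ZMod 2) :=
  cl M x o (τ x)

variable {τ σ : (D → ZMod 2) → ℕ}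

theorem cl_sub_A0 : cl M x o n ⊆ A0 M o := Finset.filter_subset _ _

theorem cl_mono {m : ℕ} (h : n ≤ m) : cl M x o m ⊆ cl M x o n := by
  intro y hy
  obtain ⟨h1, h2⟩ := mem_cl.1 hy
  exact mem_cl.2 ⟨h1, fun j hj => h2 j (hj.trans h)⟩

theorem Adp.mono {A : Type} {f : (D → ZMod 2) → A} (h : Adp M o τ f)
    (hle : ∀ x ∈ A0 M o, τ x ≤ σ x) : Adp M o σ f := fun x hx y hy =>
  h x hx y (cl_mono (hle x hx) hy)

theorem Adp.comp {A B : Type} {f : (D → ZMod 2) → A} (h : Adp M o τ f) (F : A → B) :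
    Adp M o τ fun x => F (f x) := fun x hx y hy => congrArg F (h x hx y hy)

theorem Adp.comp2 {A B E : Type} {f : (D → ZMod 2) → A} {f' : (D → ZMod 2) → B}
    (h : Adp M o τ f) (h' : Adp M o τ f') (F : A → B → E) :
    Adp M o τ fun x => F (f x) (f' x) := fun x hx y hy => by
  show F (f y) (f' y) = F (f x) (f' x)
  rw [h x hx y hy, h' x hx y hy]

theorem ct_eq (hτ : St M o τ) (hx : x ∈ A0 M o) (hy : y ∈ ct M o τ x) : ct M o τ y = ct M o τ x := by
  unfold ct at hy ⊢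
  rw [hτ x hx y hy]
  exact cl_cl hy

theorem self_ct (hx : x ∈ A0 M o) : x ∈ ct M o τ x :=
  self_cl (mem_A0.1 hx).1 (mem_A0.1 hx).2

theorem ct_symm (hτ : St M o τ) (hx : x ∈ A0 M o) (hy : y ∈ ct M o τ x) : x ∈ ct M o τ y := by
  rw [ct_eq hτ hx hy]
  exact self_ct hx

theorem ct_card_pos (hx : x ∈ A0 M o) : (0 : ℝ) < ((ct M o τ x).card : ℝ) := by
  have h1 : 0 < (ct M o τ x).card := Finset.card_pos.2 ⟨x, self_ct hx⟩
  exact_mod_cast h1

/-- **sums of conditional expectations** -/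
theorem sum_ce {E : Type} [AddCommGroup E] [Module ℝ E] (hτ : St M o τ)
    (f : (D → ZMod 2) → E) :
    ∑ x ∈ A0 M o, ((ct M o τ x).card : ℝ)⁻¹ • ∑ y ∈ ct M o τ x, f y = ∑ x ∈ A0 M o, f x := by
  have e1 : ∀ x ∈ A0 M o, ((ct M o τ x).card : ℝ)⁻¹ • ∑ y ∈ ct M o τ x, f y =
      ∑ y ∈ A0 M o, if y ∈ ct M o τ x then ((ct M o τ x).card : ℝ)⁻¹ • f y else 0 := by
    intro x _
    rw [Finset.smul_sum, ← Finset.sum_filter]
    refine Finset.sum_congr ?_ fun _ _ => rfl
    ext y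
    rw [Finset.mem_filter]
    exact ⟨fun h => ⟨cl_sub_A0 h, h⟩, fun h => h.2⟩
  rw [Finset.sum_congr rfl e1, Finset.sum_comm]
  refine Finset.sum_congr rfl fun y hy => ?_
  have e2 : ∀ x ∈ A0 M o, (if y ∈ ct M o τ x then ((ct M o τ x).card : ℝ)⁻¹ • f y else 0) =
      if x ∈ ct M o τ y then ((ct M o τ y).card : ℝ)⁻¹ • f y else 0 := by
    intro x hx
    by_cases h : y ∈ ct M o τ x
    · rw [if_pos h, if_pos (ct_symm hτ hx h), ct_eq hτ hx h]
    · rw [if_neg h, if_neg fun h' => h (ct_symm hτ hy h')]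
  rw [Finset.sum_congr rfl e2, ← Finset.sum_filter, Finset.sum_const]
  have e3 : (A0 M o).filter (fun x => x ∈ ct M o τ y) = ct M o τ y := by
    ext x
    rw [Finset.mem_filter]
    exact ⟨fun h => h.2, fun h => ⟨cl_sub_A0 h, h⟩⟩
  rw [e3, ← Nat.cast_smul_eq_nsmul ℝ, smul_smul, mul_inv_cancel₀ (ct_card_pos hy).ne', one_smul]

/-- the total of the field `u` over the root block of the explored map -/
def tot (M : CMap D C) (x : D → ZMod 2) (o : D) (n : ℕ) (u : D → ℂ) : ℂ := EV (ek M x o n) u o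

theorem card_cl (h : IsC M ∅ x) (ho : Gp M x o) : (cl M x o n).card = nG (ek M x o n) o := by
  rw [cl_eq h ho, card_A0]

/-- **mean at a stopping time** -/
theorem mean_st {u : D → ℂ} (hu : u o = 0) (hτ : St M o τ) {a : (D → ZMod 2) → ℂ}
    (ha : Adp M o τ a) :
    ∑ x ∈ A0 M o, a x * zs M x o (τ x) u = ∑ x ∈ A0 M o, a x * tot M x o (τ x) u := by
  rw [← sum_ce hτ]
  refine Finset.sum_congr rfl fun x hx => ?_
  have h := mem_A0.1 hx
  have e1 : ∀ y ∈ ct M o τ x, a y * zs M y o (τ y) u = a x * zs M y o (τ x) u := by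
    intro y hy
    rw [ha x hx y hy, hτ x hx y hy]
  rw [Finset.sum_congr rfl e1, ← Finset.mul_sum]
  unfold ct tot EV
  rw [sum_cl h.1 h.2 hu, card_cl h.1 h.2]
  rw [Complex.real_smul]
  push_cast
  ring

/-- conditional frame at a stopping time, for a field known at this time -/
theorem frame_st {w : ℂ} (w3 : w ^ 3 = 1) (w1 : w ≠ 1) (wc : (starRingEnd ℂ) w = w ^ 2)
    {u : (D → ZMod 2) → D → ℂ} (hτ : St M o τ) (ha : Adp M o τ u)
    (hu : ∀ x ∈ A0 M o, u x o = 0) (hs : ∀ x ∈ A0 M o, Spin M w (u x)) :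
    ∑ x ∈ A0 M o, ‖zs M x o (τ x) (u x)‖ ^ 2 ≤ ∑ x ∈ A0 M o, ∑ g, ‖u x g‖ ^ 2 := by
  rw [← sum_ce hτ fun x => ‖zs M x o (τ x) (u x)‖ ^ 2]
  refine Finset.sum_le_sum fun x hx => ?_
  have h := mem_A0.1 hx
  have e1 : ∀ y ∈ ct M o τ x, ‖zs M y o (τ y) (u y)‖ ^ 2 = ‖zs M y o (τ x) (u x)‖ ^ 2 := by
    intro y hy
    rw [ha x hx y hy, hτ x hx y hy]
  rw [Finset.sum_congr rfl e1, smul_eq_mul, inv_mul_le_iff₀ (ct_card_pos hx)]
  exact frame_cl w3 w1 wc h.1 h.2 (hu x hx) (hs x hx)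

/-- conditional frame at a stopping time, first moment -/
theorem frame_st1 {w : ℂ} (w3 : w ^ 3 = 1) (w1 : w ≠ 1) (wc : (starRingEnd ℂ) w = w ^ 2)
    {u : (D → ZMod 2) → D → ℂ} (hτ : St M o τ) (ha : Adp M o τ u)
    (hu : ∀ x ∈ A0 M o, u x o = 0) (hs : ∀ x ∈ A0 M o, Spin M w (u x)) :
    ∑ x ∈ A0 M o, ‖zs M x o (τ x) (u x)‖ ≤ ∑ x ∈ A0 M o, √(∑ g, ‖u x g‖ ^ 2) := by
  rw [← sum_ce hτ fun x => ‖zs M x o (τ x) (u x)‖]
  refine Finset.sum_le_sum fun x hx => ?_
  have h := mem_A0.1 hx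
  have e1 : ∀ y ∈ ct M o τ x, ‖zs M y o (τ y) (u y)‖ = ‖zs M y o (τ x) (u x)‖ := by
    intro y hy
    rw [ha x hx y hy, hτ x hx y hy]
  rw [Finset.sum_congr rfl e1, smul_eq_mul, inv_mul_le_iff₀ (ct_card_pos hx)]
  exact frame_cl1 w3 w1 wc h.1 h.2 (hu x hx) (hs x hx)

/-! ### the Abel step -/

theorem ub_anti {m : ℕ} (h : n ≤ m) : ub M x o m ⊆ ub M x o n := by
  intro g hg
  obtain ⟨h1, h2⟩ := Finset.mem_filter.1 hg
  exact Finset.mem_filter.2 ⟨h1, fun j hj => h2 j (hj.trans_le h)⟩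

theorem zs_congr {u v : D → ℂ} (h : ∀ g ∈ ub M x o n, u g = v g) : zs M x o n u = zs M x o n v :=
  Finset.sum_congr rfl h

theorem zs_sub {m : ℕ} (h : n ≤ m) (u : D → ℂ) :
    zs M x o n u - zs M x o m u = ∑ g ∈ ub M x o n \ ub M x o m, u g := by
  unfold zs
  rw [← Finset.sum_sdiff (ub_anti h), add_sub_cancel_right]

/-- data of the exploration by steps -/
structure Steps (M : CMap D C) (o : D) (u φ : D → ℂ) (τ : ℕ → (D → ZMod 2) → ℕ)
    (a : ℕ → (D → ZMod 2) → ℂ) (B : ℕ → (D → ZMod 2) → Set D) (L : ℕ → (D → ZMod 2) → Prop)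
    (J : ℕ) (lam R : ℝ) : Prop where
  st : ∀ j, St M o (τ j)
  mono : ∀ j, ∀ x ∈ A0 M o, τ j x ≤ τ (j + 1) x
  zero : ∀ x ∈ A0 M o, τ 0 x = 0
  a_adp : ∀ j, Adp M o (τ j) (a j)
  B_adp : ∀ j, Adp M o (τ j) (B j)
  L_adp : ∀ j, Adp M o (τ j) (L j)
  B_rho : ∀ j, ∀ x ∈ A0 M o, ∀ d, M.rho d ∈ B j x ↔ d ∈ B j x
  phi_rho : ∀ d, φ (M.rho d) = φ d
  /-- the faces explored during the step `j` belong to the ball `j` -/
  ball : ∀ j, ∀ x ∈ A0 M o, ∀ k, τ j x ≤ k → k < τ (j + 1) x → sq M x o k ∈ B j x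
  /-- finished -/
  fin : ∀ j, ∀ x ∈ A0 M o, ¬ L j x → ∀ g ∈ ub M x o (τ j x), u g = 0
  last : ∀ x ∈ A0 M o, ¬ L J x
  anti : ∀ j, ∀ x ∈ A0 M o, L (j + 1) x → L j x
  lam0 : 0 ≤ lam
  R0 : 0 ≤ R
  osc : ∀ j, ∀ x ∈ A0 M o, L j x → ∀ g ∈ B j x, ‖φ g - a j x‖ ≤ lam
  jump : ∀ j, ∀ x ∈ A0 M o, L (j + 1) x → ‖a (j + 1) x - a j x‖ ≤ lam
  en : ∀ j, ∀ x ∈ A0 M o, L j x → ∑ g ∈ Finset.univ.filter (fun g => g ∈ B j x), ‖u g‖ ^ 2 ≤ R ^ 2

variable {u φ : D → ℂ} {t : ℕ → (D → ZMod 2) → ℕ} {a : ℕ → (D → ZMod 2) → ℂ}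
  {B : ℕ → (D → ZMod 2) → Set D} {L : ℕ → (D → ZMod 2) → Prop} {J : ℕ} {lam R : ℝ}

/-- the correction field of the step `j` -/
def vj (u φ : D → ℂ) (a : ℂ) (B : Set D) (g : D) : ℂ := if g ∈ B then (φ g - a) * u g else 0

/-- pathwise identity for one step -/
theorem Steps.one (H : Steps M o u φ t a B L J lam R) (hx : x ∈ A0 M o) (j : ℕ) :
    zs M x o (t j x) (fun g => φ g * u g) - zs M x o (t (j + 1) x) (fun g => φ g * u g) =
      a j x * (zs M x o (t j x) u - zs M x o (t (j + 1) x) u) +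
      (zs M x o (t j x) (vj u φ (a j x) (B j x)) -
        zs M x o (t (j + 1) x) (vj u φ (a j x) (B j x))) := by
  have hm := H.mono j x hx
  rw [zs_sub hm, zs_sub hm, zs_sub hm, Finset.mul_sum, ← Finset.sum_add_distrib]
  refine Finset.sum_congr rfl fun g hg => ?_
  obtain ⟨h1, h2⟩ := Finset.mem_sdiff.1 hg
  obtain ⟨h3, h4⟩ := Finset.mem_filter.1 h1
  have h5 : ¬ ∀ k < t (j + 1) x, sq M x o k ≠ M.rho g := fun h => h2 (Finset.mem_filter.2 ⟨h3, h⟩)
  push Not at h5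
  obtain ⟨k, hk, ek⟩ := h5
  have hk2 : t j x ≤ k := by
    by_contra hc
    push Not at hc
    exact h4 k hc ek
  have h6 := H.ball j x hx k hk2 hk
  rw [ek, H.B_rho j x hx] at h6
  unfold vj
  rw [if_pos h6]
  ring

/-- Abel summation -/
theorem abel_sum (z a : ℕ → ℂ) (J : ℕ) :
    ∑ j ∈ Finset.range (J + 1), a j * (z j - z (j + 1)) =
      a 0 * z 0 + ∑ j ∈ Finset.range J, (a (j + 1) - a j) * z (j + 1) - a J * z (J + 1) := by
  induction J with
  | zero => simp; ring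
  | succ J ih =>
    rw [Finset.sum_range_succ, ih, Finset.sum_range_succ]
    ring

theorem Steps.le (H : Steps M o u φ t a B L J lam R) (hx : x ∈ A0 M o) (i k : ℕ) :
    t i x ≤ t (i + k) x := by
  induction k with
  | zero => exact le_rfl
  | succ k ih => exact ih.trans (H.mono (i + k) x hx)

theorem Steps.dead (H : Steps M o u φ t a B L J lam R) (hx : x ∈ A0 M o) {j : ℕ} (hj : ¬ L j x)
    {v : D → ℂ} (hv : ∀ g, u g = 0 → v g = 0) {k : ℕ} (hk : j ≤ k) : zs M x o (t k x) v = 0 := by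
  unfold zs
  refine Finset.sum_eq_zero fun g hg => hv g (H.fin j x hx hj g ?_)
  obtain ⟨i, rfl⟩ := Nat.exists_eq_add_of_le hk
  exact ub_anti (H.le hx j i) hg

theorem Steps.anti' (H : Steps M o u φ t a B L J lam R) (hx : x ∈ A0 M o) {j k : ℕ} (hk : j ≤ k)
    (h : L k x) : L j x := by
  obtain ⟨i, rfl⟩ := Nat.exists_eq_add_of_le hk
  induction i with
  | zero => exact h
  | succ i ih => exact ih (by omega) (H.anti (j + i) x hx h)

omit [Fintype D] in
theorem vj_zero {c : ℂ} {S : Set D} {g : D} (h : u g = 0) : vj u φ c S g = 0 := by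
  unfold vj
  split_ifs
  · rw [h, mul_zero]
  · rfl

/-- pathwise bound -/
theorem Steps.path (H : Steps M o u φ t a B L J lam R) (hx : x ∈ A0 M o) :
    zs M x o 0 (fun g => φ g * u g) =
      a 0 x * zs M x o (t 0 x) u +
      ∑ j ∈ Finset.range J, (a (j + 1) x - a j x) * zs M x o (t (j + 1) x) u +
      ∑ j ∈ Finset.range (J + 1), (zs M x o (t j x) (vj u φ (a j x) (B j x)) -
        zs M x o (t (j + 1) x) (vj u φ (a j x) (B j x))) := by
  have e1 : ∑ j ∈ Finset.range (J + 1), (zs M x o (t j x) (fun g => φ g * u g) -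
      zs M x o (t (j + 1) x) (fun g => φ g * u g)) =
      zs M x o (t 0 x) (fun g => φ g * u g) - zs M x o (t (J + 1) x) (fun g => φ g * u g) :=
    Finset.sum_range_sub' (fun j => zs M x o (t j x) (fun g => φ g * u g)) (J + 1)
  have e2 : zs M x o (t (J + 1) x) (fun g => φ g * u g) = 0 :=
    H.dead hx (H.last x hx) (fun g h => by rw [h, mul_zero]) (Nat.le_succ J)
  have e3 : zs M x o (t (J + 1) x) u = 0 :=
    H.dead hx (H.last x hx) (fun g h => h) (Nat.le_succ J)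
  rw [e2, sub_zero, H.zero x hx] at e1
  rw [← e1]
  rw [Finset.sum_congr rfl fun j _ => H.one hx j, Finset.sum_add_distrib,
    abel_sum (fun j => zs M x o (t j x) u) (fun j => a j x) J]
  simp only [e3, mul_zero, sub_zero]

theorem cl_zero : cl M x o 0 = A0 M o := by
  ext y
  rw [mem_cl, mem_A0]
  exact ⟨fun h => h.1, fun h => ⟨h, fun j hj => by rw [Nat.le_zero.1 hj]; rfl⟩⟩

/-- nothing is explored at time `0` -/
theorem tot_zero (hx : x ∈ A0 M o) (hu : u o = 0) : tot M x o 0 u = EV M u o := by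
  have h := mem_A0.1 hx
  unfold tot EV
  rw [← sum_cl h.1 h.2 hu, ← card_cl h.1 h.2, cl_zero, card_A0]
  congr 1
  unfold rs
  exact Finset.sum_congr rfl fun y _ => zs_zero u

/-- the correction field, `0` after the end -/
def wj (u φ : D → ℂ) (a : ℂ) (B : Set D) (L : Prop) : D → ℂ :=
  if L then vj u φ a B else fun _ => 0

omit [Fintype D] in
theorem wj_spin {w : ℂ} (hs : Spin M w u) (hφ : ∀ d, φ (M.rho d) = φ d) {c : ℂ} {S : Set D}
    (hS : ∀ d, M.rho d ∈ S ↔ d ∈ S) {P : Prop} : Spin M w (wj u φ c S P) := by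
  intro d
  unfold wj
  split_ifs with hP
  · unfold vj
    rw [hφ, hs]
    by_cases h : d ∈ S
    · rw [if_pos h, if_pos ((hS d).2 h)]; ring
    · rw [if_neg h, if_neg fun h' => h ((hS d).1 h'), mul_zero]
  · rw [mul_zero]

theorem Steps.wj_en (H : Steps M o u φ t a B L J lam R) (hx : x ∈ A0 M o) (j : ℕ) :
    √(∑ g, ‖wj u φ (a j x) (B j x) (L j x) g‖ ^ 2) ≤ if L j x then lam * R else 0 := by
  unfold wj
  split_ifs with hL
  · have h1 : ∑ g, ‖vj u φ (a j x) (B j x) g‖ ^ 2 ≤ (lam * R) ^ 2 := by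
      calc ∑ g, ‖vj u φ (a j x) (B j x) g‖ ^ 2
          = ∑ g ∈ Finset.univ.filter (fun g => g ∈ B j x), ‖(φ g - a j x) * u g‖ ^ 2 := by
            rw [Finset.sum_filter]
            refine Finset.sum_congr rfl fun g _ => ?_
            unfold vj
            split_ifs
            · rfl
            · rw [norm_zero]; norm_num
        _ ≤ ∑ g ∈ Finset.univ.filter (fun g => g ∈ B j x), lam ^ 2 * ‖u g‖ ^ 2 := by
            refine Finset.sum_le_sum fun g hg => ?_
            rw [norm_mul, mul_pow]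
            have h2 := H.osc j x hx hL g (Finset.mem_filter.1 hg).2
            exact mul_le_mul_of_nonneg_right (pow_le_pow_left₀ (norm_nonneg _) h2 2)
              (sq_nonneg _)
        _ ≤ lam ^ 2 * R ^ 2 := by
            rw [← Finset.mul_sum]
            exact mul_le_mul_of_nonneg_left (H.en j x hx hL) (sq_nonneg _)
        _ = (lam * R) ^ 2 := by ring
    calc _ ≤ √((lam * R) ^ 2) := Real.sqrt_le_sqrt h1
      _ = lam * R := Real.sqrt_sq (mul_nonneg H.lam0 H.R0)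
  · simp

theorem Steps.wj_adp (H : Steps M o u φ t a B L J lam R) (j : ℕ) :
    Adp M o (t j) fun x => wj u φ (a j x) (B j x) (L j x) := fun x hx y hy => by
  show wj u φ (a j y) (B j y) (L j y) = wj u φ (a j x) (B j x) (L j x)
  rw [H.a_adp j x hx y hy, H.B_adp j x hx y hy, H.L_adp j x hx y hy]

/-- **the Abel step (308's STEP 4)** -/
theorem abel {w : ℂ} (w3 : w ^ 3 = 1) (w1 : w ≠ 1) (wc : (starRingEnd ℂ) w = w ^ 2)
    (hu : ∀ d ∈ Fa M o, u d = 0) (hs : Spin M w u) (H : Steps M o u φ t a B L J lam R) :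
    ‖∑ x ∈ A0 M o, bs M x (fun g => φ g * u g) o‖ ≤
      ∑ x ∈ A0 M o, ‖a 0 x‖ * ‖EV M u o‖ +
      lam * ∑ j ∈ Finset.range J, ∑ x ∈ (A0 M o).filter (fun x => L (j + 1) x),
        ‖tot M x o (t (j + 1) x) u‖ +
      2 * lam * R * ∑ j ∈ Finset.range (J + 1), (((A0 M o).filter (fun x => L j x)).card : ℝ) := by
  have hu0 : u o = 0 := hu o (fa0 M o)
  -- first term
  have t1 : ‖∑ x ∈ A0 M o, a 0 x * zs M x o (t 0 x) u‖ ≤
      ∑ x ∈ A0 M o, ‖a 0 x‖ * ‖EV M u o‖ := by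
    rw [mean_st hu0 (H.st 0) (H.a_adp 0)]
    refine (norm_sum_le _ _).trans (Finset.sum_le_sum fun x hx => ?_)
    rw [norm_mul, H.zero x hx, tot_zero hx hu0]
  -- second term
  have t2 : ∀ j, ‖∑ x ∈ A0 M o, (a (j + 1) x - a j x) * zs M x o (t (j + 1) x) u‖ ≤
      lam * ∑ x ∈ (A0 M o).filter (fun x => L (j + 1) x), ‖tot M x o (t (j + 1) x) u‖ := by
    intro j
    have hb : Adp M o (t (j + 1)) fun x => if L (j + 1) x then a (j + 1) x - a j x else 0 := by
      have ha := (H.a_adp j).mono (H.mono j)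
      intro x hx y hy
      show (if L (j + 1) y then a (j + 1) y - a j y else 0) =
        if L (j + 1) x then a (j + 1) x - a j x else 0
      rw [H.L_adp (j + 1) x hx y hy, H.a_adp (j + 1) x hx y hy, ha x hx y hy]
    have e1 : ∑ x ∈ A0 M o, (a (j + 1) x - a j x) * zs M x o (t (j + 1) x) u =
        ∑ x ∈ A0 M o, (if L (j + 1) x then a (j + 1) x - a j x else 0) *
          zs M x o (t (j + 1) x) u := by
      refine Finset.sum_congr rfl fun x hx => ?_
      by_cases hL : L (j + 1) x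
      · rw [if_pos hL]
      · rw [if_neg hL, H.dead hx hL (fun g h => h) le_rfl, mul_zero, mul_zero]
    rw [e1, mean_st hu0 (H.st (j + 1)) hb, Finset.mul_sum, Finset.sum_filter]
    refine (norm_sum_le _ _).trans (Finset.sum_le_sum fun x hx => ?_)
    rw [norm_mul]
    by_cases hL : L (j + 1) x
    · rw [if_pos hL, if_pos hL]
      exact mul_le_mul_of_nonneg_right (H.jump j x hx hL) (norm_nonneg _)
    · rw [if_neg hL, if_neg hL, norm_zero, zero_mul]
  -- third term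
  have t3 : ∀ j, ‖∑ x ∈ A0 M o, (zs M x o (t j x) (vj u φ (a j x) (B j x)) -
      zs M x o (t (j + 1) x) (vj u φ (a j x) (B j x)))‖ ≤
      2 * lam * R * (((A0 M o).filter (fun x => L j x)).card : ℝ) := by
    intro j
    have e1 : ∀ x ∈ A0 M o, (zs M x o (t j x) (vj u φ (a j x) (B j x)) -
        zs M x o (t (j + 1) x) (vj u φ (a j x) (B j x))) =
        zs M x o (t j x) (wj u φ (a j x) (B j x) (L j x)) -
          zs M x o (t (j + 1) x) (wj u φ (a j x) (B j x) (L j x)) := by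
      intro x hx
      unfold wj
      split_ifs with hL
      · rfl
      · rw [H.dead hx hL (fun g h => vj_zero h) le_rfl,
          H.dead hx hL (fun g h => vj_zero h) (Nat.le_succ j)]
        unfold zs
        simp
    have w0 : ∀ x ∈ A0 M o, wj u φ (a j x) (B j x) (L j x) o = 0 := by
      intro x _
      unfold wj
      split_ifs
      · exact vj_zero hu0
      · rfl
    have wS : ∀ x ∈ A0 M o, Spin M w (wj u φ (a j x) (B j x) (L j x)) := fun x hx =>
      wj_spin hs H.phi_rho (H.B_rho j x hx)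
    have f1 := frame_st1 w3 w1 wc (H.st j) (H.wj_adp j) w0 wS
    have f2 := frame_st1 w3 w1 wc (H.st (j + 1)) ((H.wj_adp j).mono (H.mono j)) w0 wS
    have f3 : ∑ x ∈ A0 M o, √(∑ g, ‖wj u φ (a j x) (B j x) (L j x) g‖ ^ 2) ≤
        lam * R * (((A0 M o).filter (fun x => L j x)).card : ℝ) := by
      refine (Finset.sum_le_sum fun x hx => H.wj_en hx j).trans (le_of_eq ?_)
      rw [← Finset.sum_filter, Finset.sum_const, nsmul_eq_mul, mul_comm]
    rw [Finset.sum_congr rfl e1, Finset.sum_sub_distrib]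
    calc _ ≤ ‖∑ x ∈ A0 M o, zs M x o (t j x) (wj u φ (a j x) (B j x) (L j x))‖ +
          ‖∑ x ∈ A0 M o, zs M x o (t (j + 1) x) (wj u φ (a j x) (B j x) (L j x))‖ :=
          norm_sub_le _ _
      _ ≤ _ := by
        have g1 := norm_sum_le (A0 M o)
          fun x => zs M x o (t j x) (wj u φ (a j x) (B j x) (L j x))
        have g2 := norm_sum_le (A0 M o)
          fun x => zs M x o (t (j + 1) x) (wj u φ (a j x) (B j x) (L j x))
        linarith
  have e0 : ∑ x ∈ A0 M o, bs M x (fun g => φ g * u g) o =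
      ∑ x ∈ A0 M o, a 0 x * zs M x o (t 0 x) u +
      ∑ j ∈ Finset.range J, ∑ x ∈ A0 M o, (a (j + 1) x - a j x) * zs M x o (t (j + 1) x) u +
      ∑ j ∈ Finset.range (J + 1), ∑ x ∈ A0 M o, (zs M x o (t j x) (vj u φ (a j x) (B j x)) -
        zs M x o (t (j + 1) x) (vj u φ (a j x) (B j x))) := by
    rw [Finset.sum_comm (s := Finset.range J), Finset.sum_comm (s := Finset.range (J + 1)),
      ← Finset.sum_add_distrib, ← Finset.sum_add_distrib]
    refine Finset.sum_congr rfl fun x hx => ?_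
    rw [← zs_zero]
    exact H.path hx
  rw [e0]
  refine (norm_add₃_le).trans ?_
  refine add_le_add (add_le_add t1 ?_) ?_
  · rw [Finset.mul_sum]
    exact (norm_sum_le _ _).trans (Finset.sum_le_sum fun j _ => t2 j)
  · rw [Finset.mul_sum]
    exact (norm_sum_le _ _).trans (Finset.sum_le_sum fun j _ => t3 j)

end Crest.Agent.R143.Abelx253
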