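import Crest.Agent.R143.K33R_877

/-!
# Row 143 (S0194), CONT: a small centre of the bigger classes is a small centre (helper877)

`A l ⊆ A' l`, thin next to the free sites of `A'` : a centre `X` of `A'` in `closedBall p R` plus its
three links is a centre of `A` in `closedBall p (R + m + d)`.
-/

set_option autoImplicit false

noncomputable section

open scoped Classical

namespace Crest.Agent.R143.CtrUpx877

open Set
open Crest.Agent.R143.B0x346 Crest.Agent.R143.DelGx806 Crest.Agent.R143.DelRx806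
  Crest.Agent.R143.JColx54 Crest.Agent.R143.RE0x723 Crest.Agent.R143.K33x877

variable {S : Finset ℂ} {A A' : ZMod 3 → Set ℂ} {X : Set ℂ} {p : ℂ} {d m R : ℝ}

/-- thin next to the free sites of `A'` -/
def ThinF (S : Finset ℂ) (A A' : ZMod 3 → Set ℂ) (d : ℝ) : Prop :=
  ∀ l, ∀ x ∈ A' l, (∃ y ∈ fr S A', Adj S x y) →
    ∃ a ∈ A l, Pth S {w | w ∈ A' l ∧ ‖w - x‖ ≤ d} x a

/-- the link of a site of `A' l` -/
theorem link (hs : ∀ l, A l ⊆ A' l) (hd : ∀ i j, i ≠ j → Disjoint (A' i) (A' j)) {l : ZMod 3}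
    {x a : ℂ} (ha : a ∈ A l) (hp : Pth S {w | w ∈ A' l ∧ ‖w - x‖ ≤ d} x a) (hx : x ∉ A l) :
    ∃ σ : Set ℂ, x ∈ σ ∧ (∀ u ∈ σ, ∀ v ∈ σ, Pth S σ u v) ∧ (∀ w ∈ σ, ‖w - x‖ ≤ d) ∧
      (∀ i, Disjoint σ (A i)) ∧ ∃ w ∈ σ, ∃ y ∈ A l, Adj S w y := by
  have hxd := hp.1
  set V : Set ℂ := {w | (w ∈ A' l ∧ ‖w - x‖ ≤ d) ∧ w ∉ A l} with hV
  have hxV : x ∈ V := ⟨hxd, hx⟩
  refine ⟨{w | Pth S V w x}, Pth.refl hxV, ?_, fun w hw => hw.1.1.2, ?_, ?_⟩
  · have key : ∀ u ∈ {w | Pth S V w x}, Pth S {w | Pth S V w x} u x := by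
      intro u hu
      exact (hu.self).mono fun w hw => hw.2
    intro u hu v hv
    exact (key u hu).trans (key v hv).symm
  · intro i
    refine Set.disjoint_left.2 fun w hw hwi => ?_
    have h1 : w ∈ V := hw.1
    by_cases hi : i = l
    · subst hi
      exact h1.2 hwi
    · exact Set.disjoint_left.1 (hd i l hi) (hs i hwi) h1.1.1
  · -- first exit from `V`
    have key : ∀ z, Pth S {w | w ∈ A' l ∧ ‖w - x‖ ≤ d} x z →
        Pth S V z x ∨ ∃ w, Pth S V w x ∧ ∃ y ∈ A l, Adj S w y := by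
      intro z hz
      refine hz.ind (P := fun z => Pth S V z x ∨ ∃ w, Pth S V w x ∧ ∃ y ∈ A l, Adj S w y)
        (Or.inl (Pth.refl hxV)) ?_
      rintro u w - hw huw ih
      rcases ih with ih | ih
      · by_cases hwl : w ∈ A l
        · exact Or.inr ⟨u, ih, w, hwl, huw⟩
        · have hwV : w ∈ V := ⟨hw, hwl⟩
          exact Or.inl ((Pth.single hwV huw.symm ih.1).trans ih)
      · exact Or.inr ih
    rcases key a hp with h | h
    · exact absurd ha h.1.2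
    · exact h

/-- **a centre of the bigger classes plus its links** -/
theorem ctr_up (hs : ∀ l, A l ⊆ A' l) (hd : ∀ i j, i ≠ j → Disjoint (A' i) (A' j))
    (hth : ThinF S A A' d) (hX : CtrX S A' X) (hXf : X ⊆ fr S A')
    (hb : ∀ x ∈ X, ‖x - p‖ ≤ R) (hm : ∀ x ∈ X, ∀ y, Adj S x y → ‖y - x‖ ≤ m) (d0 : 0 ≤ d)
    (m0 : 0 ≤ m) : ∃ X', X ⊆ X' ∧ CtrX S A X' ∧ ∀ x ∈ X', ‖x - p‖ ≤ R + m + d := by
  obtain ⟨h1, h2, h3⟩ := hX
  have hne : ∀ l, ∃ σ : Set ℂ, ∃ c ∈ X, (∀ u ∈ X ∪ σ, Pth S (X ∪ σ) u c) ∧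
      (∀ w ∈ X ∪ σ, ‖w - p‖ ≤ R + m + d) ∧ (∀ i, Disjoint (X ∪ σ) (A i)) ∧
      ∃ w ∈ X ∪ σ, ∃ y ∈ A l, Adj S w y := by
    intro l
    obtain ⟨c, hc, y, hy, hcy⟩ := h3 l
    have hXd : ∀ i, Disjoint X (A i) := fun i => (h1 i).mono_right (hs i)
    by_cases hyl : y ∈ A l
    · refine ⟨∅, c, hc, ?_, ?_, ?_, c, Or.inl hc, y, hyl, hcy⟩
      · intro u hu
        rw [Set.union_empty] at hu ⊢
        exact h2 u hu c hc
      · intro w hw
        rw [Set.union_empty] at hw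
        have := hb w hw
        linarith
      · intro i
        rw [Set.union_empty]
        exact hXd i
    · obtain ⟨a, ha, hp⟩ := hth l y hy ⟨c, hXf hc, hcy.symm⟩
      obtain ⟨σ, g1, g2, g3, g4, w, hw, z, hz, hwz⟩ := link hs hd ha hp hyl
      refine ⟨σ, c, hc, ?_, ?_, ?_, w, Or.inr hw, z, hz, hwz⟩
      · rintro u (hu | hu)
        · exact (h2 u hu c hc).mono Set.subset_union_left
        · have e1 : Pth S (X ∪ σ) u y := (g2 u hu y g1).mono Set.subset_union_right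
          exact e1.tail hcy.symm (Or.inl hc)
      · rintro u (hu | hu)
        · have := hb u hu
          linarith
        · have e1 := g3 u hu
          have e2 := hm c hc y hcy
          have e3 := hb c hc
          have e4 : ‖u - p‖ ≤ ‖u - y‖ + ‖y - c‖ + ‖c - p‖ := by
            have : u - p = (u - y) + (y - c) + (c - p) := by ring
            rw [this]
            exact (norm_add_le _ _).trans (add_le_add_left (norm_add_le _ _) _)
          linarith
      · intro i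
        exact Set.disjoint_union_left.2 ⟨hXd i, g4 i⟩
  choose σ c hc g1 g2 g3 g4 using hne
  refine ⟨⋃ l, (X ∪ σ l), ?_, ⟨?_, ?_, ?_⟩, ?_⟩
  · intro x hx
    exact Set.mem_iUnion.2 ⟨0, Or.inl hx⟩
  · intro i
    exact Set.disjoint_iUnion_left.2 fun l => g3 l i
  · have key : ∀ u ∈ ⋃ l, (X ∪ σ l), Pth S (⋃ l, (X ∪ σ l)) u (c 0) := by
      intro u hu
      obtain ⟨l, hu⟩ := Set.mem_iUnion.1 hu
      have e1 : Pth S (⋃ l, (X ∪ σ l)) u (c l) :=
        (g1 l u hu).mono (Set.subset_iUnion (fun l => X ∪ σ l) l)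
      have e2 : Pth S (⋃ l, (X ∪ σ l)) (c l) (c 0) :=
        (h2 _ (hc l) _ (hc 0)).mono (Set.subset_union_left.trans
          (Set.subset_iUnion (fun l => X ∪ σ l) l))
      exact e1.trans e2
    intro u hu v hv
    exact (key u hu).trans (key v hv).symm
  · intro l
    obtain ⟨w, hw, y, hy, hwy⟩ := g4 l
    exact ⟨w, Set.mem_iUnion.2 ⟨l, hw⟩, y, hy, hwy⟩
  · intro x hx
    obtain ⟨l, hx⟩ := Set.mem_iUnion.1 hx
    exact g2 l x hx

end Crest.Agent.R143.CtrUpx877
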