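import Crest.Agent.R143.B0_346
import Crest.Prelude.Def_Voronoi

/-!
# Row 143 (S0194), PART B: domains and the observable as a function of the sample (helper346)

* `Dom` : centre `c` and radius `L` of the big disc, three open connected outside regions
  `R 0, R 1, R 2` (`R i` = outside of the domain between the marks `i` and `i + 1`, counterclockwise),
  directions `q 0, q 1, q 2` of the three tentacles.  The domain is the complement of the three
  closed-up regions: a bounded simply connected body with three tentacles going to infinity in the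
  directions `q k`.
* `Dom.sites ε ω` : the points of the sample in the big disc
* `Dom.net S` : Delaunay triangulation of `S`, edge `{a,b}` killed iff the Voronoi edge meets the
  outside; mark `k` = the hull edge crossed by the ray `c + t q k`
* `hval N S z` : the observable at the point `z` (mean of `F` over the three sides of the triangle
  containing `z`); `Dom.h ε ω z` quenched, `Dom.H ε z` annealed.
-/

set_option autoImplicit false

noncomputable section

open scoped Classical

namespace Crest.Agent.R143.B0Dx346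

open Crest.ProbabilityR.Voronoi MeasureTheory
open Crest.Agent.R143.B0x346

/-- the Voronoi edge of `a, b` with respect to `S` -/
def vedge (S : Set ℂ) (a b : ℂ) : Set ℂ :=
  {z | ‖z - a‖ = ‖z - b‖ ∧ ∀ s ∈ S, ‖z - a‖ ≤ ‖z - s‖}

/-- domain data -/
structure Dom where
  /-- centre of the big disc -/
  c : ℂ
  /-- radius of the big disc -/
  L : ℝ
  /-- outside regions -/
  R : ZMod 3 → Set ℂ
  /-- directions of the tentacles -/
  q : ZMod 3 → ℂ

/-- the outside -/
def Dom.out (D : Dom) : Set ℂ := ⋃ i, D.R i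

/-- admissible domain data: `δ` = width of the tentacles -/
structure Dom.OK (D : Dom) (δ : ℝ) : Prop where
  Lpos : 0 < D.L
  dpos : 0 < δ
  opn : ∀ i, IsOpen (D.R i)
  con : ∀ i, IsConnected (D.R i)
  qn : ∀ k, ‖D.q k‖ = 1
  /-- the regions are far from each other: every path from one to another crosses a tentacle or the body -/
  far : ∀ i j, i ≠ j → ∀ z ∈ D.R i, ∀ w ∈ D.R j, δ ≤ ‖z - w‖
  /-- the tentacle `k` outside the disc of radius `L / 2` is a CONE around the ray : the points whose distance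
  from the ray is at most `δ / L` times their distance from the centre (half width `δ / 2` on the circle of
  radius `L / 2`) -/
  tent : ∀ z : ℂ, D.L / 2 < ‖z - D.c‖ → ((∀ i, z ∉ D.R i) ↔ ∃ k : ZMod 3, ∃ t : ℝ, 0 ≤ t ∧
    ‖z - (D.c + t * D.q k)‖ ≤ δ / D.L * ‖z - D.c‖)
  /-- between the tentacles `k` and `k + 1` (counterclockwise) lies the region `R k` -/
  sect : ∀ k : ZMod 3, ∀ r : ℝ, D.L / 2 < r → ∃ e > 0, ∀ φ : ℝ, Real.arcsin (δ / D.L) < φ →
    φ < Real.arcsin (δ / D.L) + e →
    D.c + r * (D.q k * Complex.exp (φ * Complex.I)) ∈ D.R k ∧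
    D.c + r * (D.q k * Complex.exp (-(φ * Complex.I))) ∈ D.R (k - 1)

/-- the sites in the big disc -/
def Dom.sites (D : Dom) (ε : ℝ) (ω : Sample) : Finset ℂ :=
  if h : (points ε ω ∩ Metric.closedBall D.c D.L).Finite then h.toFinset else ∅

/-- killed edges -/
def Dom.kl (D : Dom) (S : Finset ℂ) : Set (ℂ × ℂ) :=
  {p | (vedge (S : Set ℂ) p.1 p.2 ∩ D.out).Nonempty}

theorem Dom.kl_symm (D : Dom) (S : Finset ℂ) (a b : ℂ) (h : (a, b) ∈ D.kl S) :
    (b, a) ∈ D.kl S := by
  obtain ⟨z, ⟨h1, h2⟩, h3⟩ := h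
  exact ⟨z, ⟨h1.symm, fun s hs => h1 ▸ h2 s hs⟩, h3⟩

/-- the hull edge `(a, b)` (left triangle inside) is crossed by the ray `c + t q` -/
def crossRay (S : Finset ℂ) (c q : ℂ) (p : ℂ × ℂ) : Prop :=
  hullE S p.1 p.2 ∧ ∃ t : ℝ, 0 ≤ t ∧ c + t * q ∈ segment ℝ p.1 p.2

/-- the mark in the direction `q` -/
def rayMark (S : Finset ℂ) (c q : ℂ) : ℂ × ℂ :=
  if h : ∃ p, crossRay S c q p then h.choose else (0, 0)

/-- the network of the domain. The marks themselves are not killed. -/
def Dom.net (D : Dom) (S : Finset ℂ) (hT : ∀ a b c : ℂ, (a, b, c) ∈ delT S → (b, c, a) ∈ delT S)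
    (hU : ∀ a b c e : ℂ, (a, b, c) ∈ delT S → (a, b, e) ∈ delT S → c = e)
    (hN : ∀ a b c : ℂ, (a, b, c) ∈ delT S → a ≠ b) : Net ℂ where
  T := delT S
  rot := fun {a b c} h => hT a b c h
  uniq := fun {a b c e} h h' => hU a b c e h h'
  ne := fun {a b c} h => hN a b c h
  kl := {p | p ∈ D.kl S ∧ (∀ k, rayMark S D.c (D.q k) ≠ p) ∧
    ∀ k, rayMark S D.c (D.q k) ≠ (p.2, p.1)}
  klsym := fun a b h => ⟨D.kl_symm S a b h.1, h.2.2, h.2.1⟩
  ex := fun k => rayMark S D.c (D.q k)

/-- total version -/
def Dom.netS (D : Dom) (S : Finset ℂ) : Net ℂ :=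
  if h : (∀ a b c : ℂ, (a, b, c) ∈ delT S → (b, c, a) ∈ delT S) ∧
      (∀ a b c e : ℂ, (a, b, c) ∈ delT S → (a, b, e) ∈ delT S → c = e) ∧
      (∀ a b c : ℂ, (a, b, c) ∈ delT S → a ≠ b) then D.net S h.1 h.2.1 h.2.2
  else { T := ∅, rot := by simp, uniq := by simp, ne := by simp, kl := ∅, klsym := by simp,
         ex := fun _ => (0, 0) }

/-- the point `z` is in the open triangle -/
def InTri (z a b c : ℂ) : Prop := Lft z a b ∧ Lft z b c ∧ Lft z c a

/-- mean of the observable over the sides of the triangle containing `z` -/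
def hval (N : Net ℂ) (z : ℂ) : ℂ :=
  if h : ∃ t : ℂ × ℂ × ℂ, t ∈ N.T ∧ InTri z t.1 t.2.1 t.2.2 then
    (N.F h.choose.1 h.choose.2.1 + N.F h.choose.2.1 h.choose.2.2 +
      N.F h.choose.2.2 h.choose.1) / 3
  else 0

/-- quenched observable -/
def Dom.h (D : Dom) (ε : ℝ) (ω : Sample) (z : ℂ) : ℂ := hval (D.netS (D.sites ε ω)) z

/-- annealed observable -/
def Dom.H (D : Dom) (ε : ℝ) (z : ℂ) : ℂ := ∫ ω, D.h ε ω z ∂sampleLaw

/-- good environment at the scale `d` in the disc: every ball of radius `d` with centre in the big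
disc contains a site, at most `M` sites in every such ball, general position -/
structure Env (ε d M : ℝ) (c : ℂ) (L : ℝ) (ω : Sample) : Prop where
  fin : (points ε ω ∩ Metric.closedBall c L).Finite
  gp : GP (points ε ω)
  hole : ∀ z ∈ Metric.closedBall c (L - d), (points ε ω ∩ Metric.ball z d).Nonempty
  cnt : ∀ z ∈ Metric.closedBall c L, ((points ε ω ∩ Metric.closedBall z d).ncard : ℝ) ≤ M

end Crest.Agent.R143.B0Dx346
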