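import Crest.Agent.R143.DelR_806
import Crest.Agent.R143.B0D_346

/-!
# Row 143 (S0194), block G, leaf G5: locality (helper922)

* `Hol S W d`   : every ball of radius `d` with centre at distance `≤ d` from `W` contains a site of `S`
* `Agr S S' W r`: `S` and `S'` have the same sites at distance `< r` from `W`

Locality of Voronoi cells, Voronoi edges, killed edges, Delaunay triangles, rings, steps of the
walker; the points of `W` are strictly inside of the hull. The sites in the big disc against the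
whole sample: `Env.hol`, `Env.agr`.
-/

set_option autoImplicit false
set_option linter.all false

noncomputable section

open scoped Classical

namespace Crest.Agent.R143.Locx922

open Crest.ProbabilityR.Voronoi
open Crest.Agent.R143.B0x346 Crest.Agent.R143.B0Dx346 Crest.Agent.R143.DelGx806
  Crest.Agent.R143.DelRx806

/-- every ball of radius `d` with centre at distance at most `d` from `W` contains a site -/
def Hol (S W : Set ℂ) (d : ℝ) : Prop := ∀ w ∈ W, ∀ z, ‖z - w‖ ≤ d → ∃ s ∈ S, ‖s - z‖ < d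

/-- the same sites at distance `< r` from `W` -/
def Agr (S S' W : Set ℂ) (r : ℝ) : Prop := ∀ w ∈ W, ∀ s, ‖s - w‖ < r → (s ∈ S ↔ s ∈ S')

variable {S S' W W' : Set ℂ} {d r : ℝ} {a b c e o v w z : ℂ}

theorem Hol.mono (h : Hol S W d) (hW : W' ⊆ W) : Hol S W' d := fun w hw => h w (hW hw)

theorem Agr.mono (h : Agr S S' W r) (hW : W' ⊆ W) {r' : ℝ} (hr : r' ≤ r) : Agr S S' W' r' :=
  fun w hw s hs => h w (hW hw) s (hs.trans_le hr)

theorem Agr.symm (h : Agr S S' W r) : Agr S' S W r := fun w hw s hs => (h w hw s hs).symm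

theorem Agr.trans {S'' : Set ℂ} (h : Agr S S' W r) (h' : Agr S' S'' W r) : Agr S S'' W r :=
  fun w hw s hs => (h w hw s hs).trans (h' w hw s hs)

theorem Hol.pos (h : Hol S W d) (hw : w ∈ W) (hd : 0 ≤ d) : 0 < d := by
  obtain ⟨s, -, hs⟩ := h w hw w (by simpa using hd)
  exact (norm_nonneg _).trans_lt hs

theorem Hol.agr (h : Hol S W d) (hA : Agr S S' W (2 * d)) : Hol S' W d := by
  intro w hw z hz
  obtain ⟨s, hs, hsz⟩ := h w hw z hz
  refine ⟨s, (hA w hw s ?_).1 hs, hsz⟩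
  calc ‖s - w‖ = ‖(s - z) + (z - w)‖ := by ring_nf
    _ ≤ ‖s - z‖ + ‖z - w‖ := norm_add_le _ _
    _ < 2 * d := by linarith

/-! ### (L1) pointwise locality of the cells -/

theorem cell_dist (h0 : ∃ s ∈ S, ‖s - z‖ < d) (hz : z ∈ voronoiCell S v) : ‖z - v‖ < d := by
  obtain ⟨s, hs, hsz⟩ := h0
  have := hz s hs
  rw [norm_sub_rev z s] at this
  linarith

theorem cell_local_imp (h0 : ∃ s ∈ S, ‖s - z‖ < d) (hA : ∀ s, ‖s - z‖ < d → (s ∈ S ↔ s ∈ S'))
    (hz : z ∈ voronoiCell S v) : z ∈ voronoiCell S' v := by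
  have h1 := cell_dist h0 hz
  intro s hs
  by_cases h : ‖s - z‖ < d
  · exact hz s ((hA s h).2 hs)
  · rw [norm_sub_rev z s]
    linarith

/-- **(L1) the cells containing `z` are determined by the sites at distance `< d`** -/
theorem cell_local (h0 : ∃ s ∈ S, ‖s - z‖ < d) (hA : ∀ s, ‖s - z‖ < d → (s ∈ S ↔ s ∈ S')) :
    z ∈ voronoiCell S v ↔ z ∈ voronoiCell S' v := by
  refine ⟨cell_local_imp h0 hA, cell_local_imp ?_ fun s hs => (hA s hs).symm⟩
  obtain ⟨s, hs, hsz⟩ := h0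
  exact ⟨s, (hA s hsz).1 hs, hsz⟩

theorem mem_cell_local (h0 : ∃ s ∈ S, ‖s - z‖ < d) (hA : ∀ s, ‖s - z‖ < d → (s ∈ S ↔ s ∈ S')) :
    (v ∈ S ∧ z ∈ voronoiCell S v) ↔ (v ∈ S' ∧ z ∈ voronoiCell S' v) := by
  constructor
  · rintro ⟨h1, h2⟩
    have h3 := cell_dist h0 h2
    rw [norm_sub_rev] at h3
    exact ⟨(hA v h3).1 h1, (cell_local h0 hA).1 h2⟩
  · rintro ⟨h1, h2⟩
    have h4 := (cell_local (v := v) h0 hA).2 h2
    have h3 := cell_dist h0 h4
    rw [norm_sub_rev] at h3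
    exact ⟨(hA v h3).2 h1, h4⟩

theorem vedge_eq_inter (a b : ℂ) :
    vedge S a b = voronoiCell S a ∩ {z | ‖z - a‖ = ‖z - b‖} := by
  ext z
  unfold vedge voronoiCell
  simp only [Set.mem_inter_iff, Set.mem_ofPred_eq]
  exact and_comm

theorem vedge_symm (a b : ℂ) : vedge S a b = vedge S b a := by
  ext z
  unfold vedge
  simp only [Set.mem_ofPred_eq]
  constructor
  · rintro ⟨h1, h2⟩
    exact ⟨h1.symm, fun s hs => h1 ▸ h2 s hs⟩
  · rintro ⟨h1, h2⟩
    exact ⟨h1.symm, fun s hs => h1 ▸ h2 s hs⟩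

/-- **(L1) for Voronoi edges** -/
theorem mem_vedge_local (h0 : ∃ s ∈ S, ‖s - z‖ < d) (hA : ∀ s, ‖s - z‖ < d → (s ∈ S ↔ s ∈ S')) :
    z ∈ vedge S a b ↔ z ∈ vedge S' a b := by
  rw [vedge_eq_inter, vedge_eq_inter, Set.mem_inter_iff, Set.mem_inter_iff, cell_local h0 hA]

theorem vedge_dist (h0 : ∃ s ∈ S, ‖s - z‖ < d) (hz : z ∈ vedge S a b) :
    ‖z - a‖ < d ∧ ‖z - b‖ < d := by
  rw [vedge_eq_inter] at hz
  have h1 := cell_dist h0 hz.1
  exact ⟨h1, hz.2 ▸ h1⟩

/-! ### (L2) the whole cell of `v ∈ W` -/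

/-- cells are star-shaped -/
theorem cell_star (hz : z ∈ voronoiCell S v) {t : ℝ} (h0 : 0 ≤ t) (h1 : t ≤ 1) :
    v + t * (z - v) ∈ voronoiCell S v := by
  intro s hs
  have h := hz s hs
  rw [← sq_le_sq₀ (norm_nonneg _) (norm_nonneg _), sq_norm_sub, sq_norm_sub] at h ⊢
  simp only [Complex.add_re, Complex.add_im, Complex.mul_re, Complex.mul_im, Complex.ofReal_re,
    Complex.ofReal_im, Complex.sub_re, Complex.sub_im]
  have e1 : (v.re + (t * (z.re - v.re) - 0 * (z.im - v.im)) - s.re) ^ 2 +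
      (v.im + (t * (z.im - v.im) + 0 * (z.re - v.re)) - s.im) ^ 2 -
      ((v.re + (t * (z.re - v.re) - 0 * (z.im - v.im)) - v.re) ^ 2 +
      (v.im + (t * (z.im - v.im) + 0 * (z.re - v.re)) - v.im) ^ 2) =
      t * ((z.re - s.re) ^ 2 + (z.im - s.im) ^ 2 - ((z.re - v.re) ^ 2 + (z.im - v.im) ^ 2)) +
      (1 - t) * ((v.re - s.re) ^ 2 + (v.im - s.im) ^ 2) := by ring
  have e2 : 0 ≤ t * ((z.re - s.re) ^ 2 + (z.im - s.im) ^ 2 -
      ((z.re - v.re) ^ 2 + (z.im - v.im) ^ 2)) := mul_nonneg h0 (by linarith)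
  have e3 : 0 ≤ (1 - t) * ((v.re - s.re) ^ 2 + (v.im - s.im) ^ 2) :=
    mul_nonneg (by linarith) (by positivity)
  linarith

/-- **(L2) the cell of a point of `W` has radius `< d`** -/
theorem cell_sub_ball (hd : 0 < d) (hH : Hol S W d) (hv : v ∈ W) (hz : z ∈ voronoiCell S v) :
    ‖z - v‖ < d := by
  by_contra hcon
  push Not at hcon
  have hpos : 0 < ‖z - v‖ := hd.trans_le hcon
  set t := d / ‖z - v‖ with ht
  have ht0 : 0 ≤ t := by positivity
  have ht1 : t ≤ 1 := (div_le_one hpos).2 hcon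
  have hn : ‖v + t * (z - v) - v‖ = d := by
    rw [add_sub_cancel_left, norm_mul, Complex.norm_real, Real.norm_of_nonneg ht0, ht]
    field_simp
  obtain ⟨s, hs, hsz⟩ := hH v hv (v + t * (z - v)) hn.le
  have := cell_star hz ht0 ht1 s hs
  rw [hn, norm_sub_rev] at this
  linarith

theorem norm_tri (x y z : ℂ) : ‖x - z‖ ≤ ‖x - y‖ + ‖y - z‖ := norm_sub_le_norm_sub_add_norm_sub x y z

theorem cell_eq_sub (hd : 0 < d) (hH : Hol S W d) (hA : Agr S S' W (2 * d)) (hv : v ∈ W) :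
    voronoiCell S v ⊆ voronoiCell S' v := by
  intro z hz s hs
  have h1 := cell_sub_ball hd hH hv hz
  by_cases h : ‖s - v‖ < 2 * d
  · exact hz s ((hA v hv s h).2 hs)
  · have := norm_tri s z v
    rw [norm_sub_rev s z] at this
    linarith

/-- **(L2) locality of the cell of a point of `W`** -/
theorem cell_eq (hd : 0 < d) (hH : Hol S W d) (hA : Agr S S' W (2 * d)) (hv : v ∈ W) :
    voronoiCell S v = voronoiCell S' v :=
  (cell_eq_sub hd hH hA hv).antisymm (cell_eq_sub hd (hH.agr hA) hA.symm hv)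

theorem vedge_eq (hd : 0 < d) (hH : Hol S W d) (hA : Agr S S' W (2 * d)) (ha : a ∈ W) (b : ℂ) :
    vedge S a b = vedge S' a b := by
  rw [vedge_eq_inter, vedge_eq_inter, cell_eq hd hH hA ha]

theorem vedge_eq' (hd : 0 < d) (hH : Hol S W d) (hA : Agr S S' W (2 * d)) (hb : b ∈ W) (a : ℂ) :
    vedge S a b = vedge S' a b := by
  rw [vedge_symm a b, vedge_symm a b, vedge_eq hd hH hA hb]

theorem vedge_sub_ball (hd : 0 < d) (hH : Hol S W d) (ha : a ∈ W) (hz : z ∈ vedge S a b) :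
    ‖z - a‖ < d ∧ ‖z - b‖ < d ∧ ‖a - b‖ < 2 * d := by
  rw [vedge_eq_inter] at hz
  have h1 := cell_sub_ball hd hH ha hz.1
  have h2 : ‖z - b‖ < d := hz.2 ▸ h1
  refine ⟨h1, h2, ?_⟩
  have := norm_tri a z b
  rw [norm_sub_rev a z] at this
  linarith

/-! ### (L3) Delaunay triangles -/

/-- **the Delaunay disc which meets `W` has radius `< d`** -/
theorem disc_small (hd : 0 < d) (hH : Hol S W d) (hw : w ∈ W) (hemp : ∀ s ∈ S, r ≤ ‖s - o‖)
    (hr : ‖w - o‖ ≤ r) : r < d := by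
  by_contra hcon
  push Not at hcon
  have hpos : 0 < r := hd.trans_le hcon
  set t := d / r with ht
  have ht0 : 0 ≤ t := by positivity
  have ht1 : t ≤ 1 := (div_le_one hpos).2 hcon
  have htr : t * r = d := by rw [ht]; field_simp
  have e1 : ‖(w + t * (o - w)) - w‖ ≤ d := by
    rw [add_sub_cancel_left, norm_mul, Complex.norm_real, Real.norm_of_nonneg ht0,
      norm_sub_rev o w, ← htr]
    exact mul_le_mul_of_nonneg_left hr ht0
  have e2 : ‖(w + t * (o - w)) - o‖ ≤ r - d := by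
    have : (w + t * (o - w)) - o = ((1 - t : ℝ) : ℂ) * (w - o) := by push_cast; ring
    rw [this, norm_mul, Complex.norm_real, Real.norm_of_nonneg (by linarith)]
    calc (1 - t) * ‖w - o‖ ≤ (1 - t) * r := mul_le_mul_of_nonneg_left hr (by linarith)
      _ = r - d := by rw [← htr]; ring
  obtain ⟨s, hs, hsz⟩ := hH w hw _ e1
  have h1 := hemp s hs
  have h2 := norm_tri s (w + t * (o - w)) o
  linarith

/-- points of a closed triangle are in the closed circumdisc -/
theorem inT_disc (hp : 0 < cr (b - a) (c - a)) (h1 : ‖b - o‖ = ‖a - o‖) (h2 : ‖c - o‖ = ‖a - o‖)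
    (hw : InT w a b c) : ‖w - o‖ ≤ ‖a - o‖ := by
  have hT : Tri {a, b, c} a b c o := by
    refine ⟨by simp, by simp, by simp, hp, norm_eq_iff.1 h1, norm_eq_iff.1 h2, fun s hs => ?_⟩
    simp only [Finset.mem_insert, Finset.mem_singleton] at hs
    rcases hs with rfl | rfl | rfl
    · rw [pw_self]
    · exact (norm_eq_iff.1 h1).ge
    · exact (norm_eq_iff.1 h2).ge
  have h3 := pw_nonpos hT hw
  rw [pw_eq, sub_nonpos, sq_le_sq₀ (norm_nonneg _) (norm_nonneg _)] at h3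
  exact h3

/-- `w` is in the closed circumdisc of the triangle -/
def InD (w a b c : ℂ) : Prop := ∀ o : ℂ, ‖b - o‖ = ‖a - o‖ → ‖c - o‖ = ‖a - o‖ → ‖w - o‖ ≤ ‖a - o‖

theorem InT.inD (hp : 0 < cr (b - a) (c - a)) (hw : InT w a b c) : InD w a b c :=
  fun _ h1 h2 => inT_disc hp h1 h2 hw

theorem inD_self (a b c : ℂ) : InD a a b c := fun _ _ _ => le_rfl

theorem inD_snd (a b c : ℂ) : InD b a b c := fun _ h _ => h.le

theorem inD_trd (a b c : ℂ) : InD c a b c := fun _ _ h => h.le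

/-- **(L3) a Delaunay triangle whose closed circumdisc meets `W` is small** -/
theorem del_small (hd : 0 < d) (hH : Hol S W d) (hw : w ∈ W) (hD : InD w a b c)
    (h : Del S a b c) : ∃ o, ‖b - o‖ = ‖a - o‖ ∧ ‖c - o‖ = ‖a - o‖ ∧ (∀ s ∈ S, ‖a - o‖ ≤ ‖s - o‖) ∧
      ‖w - o‖ ≤ ‖a - o‖ ∧ ‖a - o‖ < d ∧ ‖a - w‖ < 2 * d ∧ ‖b - w‖ < 2 * d ∧ ‖c - w‖ < 2 * d := by
  obtain ⟨-, -, -, hp, o, h1, h2, h3⟩ := h
  have h4 := hD o h1 h2
  have h5 := disc_small hd hH hw h3 h4
  refine ⟨o, h1, h2, h3, h4, h5, ?_, ?_, ?_⟩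
  · have := norm_tri a o w
    rw [norm_sub_rev o w] at this
    linarith
  · have := norm_tri b o w
    rw [norm_sub_rev o w] at this
    linarith
  · have := norm_tri c o w
    rw [norm_sub_rev o w] at this
    linarith

/-- the sides are short -/
theorem del_side (hd : 0 < d) (hH : Hol S W d) (hw : w ∈ W) (hD : InD w a b c)
    (h : Del S a b c) : ‖a - b‖ < 2 * d ∧ ‖b - c‖ < 2 * d ∧ ‖c - a‖ < 2 * d := by
  obtain ⟨o, h1, h2, -, -, h5, -⟩ := del_small hd hH hw hD h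
  refine ⟨?_, ?_, ?_⟩
  · have := norm_tri a o b
    rw [norm_sub_rev o b] at this
    linarith
  · have := norm_tri b o c
    rw [norm_sub_rev o c] at this
    linarith
  · have := norm_tri c o a
    rw [norm_sub_rev o a] at this
    linarith

theorem del_local_imp (hd : 0 < d) (hH : Hol S W d) (hA : Agr S S' W (2 * d)) (hw : w ∈ W)
    (hD : InD w a b c) (h : Del S a b c) : Del S' a b c := by
  obtain ⟨o, h1, h2, h3, h4, h5, ga, gb, gc⟩ := del_small hd hH hw hD h
  obtain ⟨ma, mb, mc, hp, -⟩ := h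
  refine ⟨(hA w hw a ga).1 ma, (hA w hw b gb).1 mb, (hA w hw c gc).1 mc, hp, o, h1, h2,
    fun s hs => ?_⟩
  by_cases h : ‖s - w‖ < 2 * d
  · exact h3 s ((hA w hw s h).2 hs)
  · have := norm_tri s o w
    rw [norm_sub_rev o w] at this
    linarith

/-- **(L3) locality of the Delaunay triangles whose closed circumdisc meets `W`** -/
theorem del_local_disc (hd : 0 < d) (hH : Hol S W d) (hA : Agr S S' W (2 * d)) (hw : w ∈ W)
    (hD : InD w a b c) : Del S a b c ↔ Del S' a b c :=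
  ⟨del_local_imp hd hH hA hw hD, del_local_imp hd (hH.agr hA) hA.symm hw hD⟩

/-- **(L3) locality of the Delaunay triangles meeting `W`** -/
theorem del_local (hd : 0 < d) (hH : Hol S W d) (hA : Agr S S' W (2 * d)) (hw : w ∈ W)
    (hD : InT w a b c) : Del S a b c ↔ Del S' a b c :=
  ⟨fun h => (del_local_disc hd hH hA hw (InT.inD h.2.2.2.1 hD)).1 h,
    fun h => (del_local_disc hd hH hA hw (InT.inD h.2.2.2.1 hD)).2 h⟩

/-- all the triangles at a vertex of `W` -/
theorem del_vertex (hd : 0 < d) (hH : Hol S W d) (hA : Agr S S' W (2 * d)) (ha : a ∈ W) :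
    Del S a b c ↔ Del S' a b c :=
  del_local_disc hd hH hA ha (inD_self a b c)

theorem del_vertex2 (hd : 0 < d) (hH : Hol S W d) (hA : Agr S S' W (2 * d)) (hb : b ∈ W) :
    Del S a b c ↔ Del S' a b c :=
  del_local_disc hd hH hA hb (inD_snd a b c)

theorem del_vertex3 (hd : 0 < d) (hH : Hol S W d) (hA : Agr S S' W (2 * d)) (hc : c ∈ W) :
    Del S a b c ↔ Del S' a b c :=
  del_local_disc hd hH hA hc (inD_trd a b c)

/-! ### finite sets -/

section Fin

variable {F F' : Finset ℂ}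

theorem delT_local (hd : 0 < d) (hH : Hol (F : Set ℂ) W d) (hA : Agr (F : Set ℂ) (F' : Set ℂ) W (2 * d))
    (hw : w ∈ W) (hD : InT w a b c) : (a, b, c) ∈ delT F ↔ (a, b, c) ∈ delT F' := by
  rw [mem_delT, mem_delT]; exact del_local hd hH hA hw hD

theorem delT_local_disc (hd : 0 < d) (hH : Hol (F : Set ℂ) W d)
    (hA : Agr (F : Set ℂ) (F' : Set ℂ) W (2 * d))
    (hw : w ∈ W) (hD : InD w a b c) : (a, b, c) ∈ delT F ↔ (a, b, c) ∈ delT F' := by
  rw [mem_delT, mem_delT]; exact del_local_disc hd hH hA hw hD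

theorem delT_vertex (hd : 0 < d) (hH : Hol (F : Set ℂ) W d)
    (hA : Agr (F : Set ℂ) (F' : Set ℂ) W (2 * d)) (ha : a ∈ W) :
    (a, b, c) ∈ delT F ↔ (a, b, c) ∈ delT F' :=
  delT_local_disc hd hH hA ha (inD_self a b c)

theorem delT_vertex2 (hd : 0 < d) (hH : Hol (F : Set ℂ) W d)
    (hA : Agr (F : Set ℂ) (F' : Set ℂ) W (2 * d)) (hb : b ∈ W) :
    (a, b, c) ∈ delT F ↔ (a, b, c) ∈ delT F' :=
  delT_local_disc hd hH hA hb (inD_snd a b c)

theorem delT_vertex3 (hd : 0 < d) (hH : Hol (F : Set ℂ) W d)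
    (hA : Agr (F : Set ℂ) (F' : Set ℂ) W (2 * d)) (hc : c ∈ W) :
    (a, b, c) ∈ delT F ↔ (a, b, c) ∈ delT F' :=
  delT_local_disc hd hH hA hc (inD_trd a b c)

theorem mem_local (hd : 0 < d) (hA : Agr (F : Set ℂ) (F' : Set ℂ) W (2 * d)) (hv : v ∈ W) :
    v ∈ F ↔ v ∈ F' := by
  have := hA v hv v (by simpa using hd)
  exact_mod_cast this

theorem nbs_local (hd : 0 < d) (hH : Hol (F : Set ℂ) W d)
    (hA : Agr (F : Set ℂ) (F' : Set ℂ) W (2 * d)) (hv : v ∈ W) : nbs F v = nbs F' v := by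
  ext u
  rw [mem_nbs, mem_nbs]
  exact exists_congr fun c => delT_vertex hd hH hA hv

/-- **(L3) rings** -/
theorem ring_local (hd : 0 < d) (hH : Hol (F : Set ℂ) W d)
    (hA : Agr (F : Set ℂ) (F' : Set ℂ) W (2 * d)) (hv : v ∈ W) {G G' : Trg ℂ} (hG : G.T = delT F)
    (hG' : G'.T = delT F') {n : ℕ} {u : ℤ → ℂ} (h : Ring G v n u) : Ring G' v n u :=
  ⟨h.pos, h.per, h.inj, fun i => by
    have := h.mem i
    rw [hG] at this
    rw [hG']
    exact (delT_vertex hd hH hA hv).1 this⟩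

/-! ### (L4) the points of `W` are strictly inside of the hull -/

theorem cr_norm_le (x y : ℂ) : |cr x y| ≤ ‖x‖ * ‖y‖ := by
  rw [← sq_le_sq₀ (abs_nonneg _) (by positivity), sq_abs, mul_pow, Complex.sq_norm,
    Complex.sq_norm, Complex.normSq_apply, Complex.normSq_apply]
  unfold cr
  nlinarith [sq_nonneg (x.re * y.re + x.im * y.im)]

/-- a half plane free of sites does not come close to `W` -/
theorem side_pos (hd : 0 < d) (hH : Hol S W d) (hw : w ∈ W) (hab : a ≠ b)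
    (h : ∀ s ∈ S, 0 ≤ cr (b - a) (s - a)) : 0 < cr (b - a) (w - a) := by
  by_contra hcon
  push Not at hcon
  have hn : 0 < ‖b - a‖ := norm_pos_iff.2 (sub_ne_zero.2 hab.symm)
  set z : ℂ := w - ((d / ‖b - a‖ : ℝ) : ℂ) * (Complex.I * (b - a)) with hz
  have e1 : ‖z - w‖ ≤ d := by
    have : z - w = -(((d / ‖b - a‖ : ℝ) : ℂ) * (Complex.I * (b - a))) := by rw [hz]; ring
    rw [this, norm_neg, norm_mul, norm_mul, Complex.norm_I, Complex.norm_real,
      Real.norm_of_nonneg (by positivity), one_mul, div_mul_cancel₀ _ hn.ne']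
  obtain ⟨s, hs, hsz⟩ := hH w hw z e1
  have h1 := h s hs
  have e2 : cr (b - a) (s - a) = cr (b - a) (s - z) + cr (b - a) (w - a) -
      d / ‖b - a‖ * ‖b - a‖ ^ 2 := by
    rw [Complex.sq_norm, Complex.normSq_apply, hz]
    unfold cr
    simp only [Complex.sub_re, Complex.sub_im, Complex.mul_re, Complex.mul_im, Complex.ofReal_re,
      Complex.ofReal_im, Complex.I_re, Complex.I_im]
    ring
  have e3 : d / ‖b - a‖ * ‖b - a‖ ^ 2 = d * ‖b - a‖ := by field_simp
  have e4 := (le_abs_self _).trans (cr_norm_le (b - a) (s - z))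
  have e5 : ‖b - a‖ * ‖s - z‖ < ‖b - a‖ * d := mul_lt_mul_of_pos_left hsz hn
  rw [e2, e3] at h1
  nlinarith

/-- **(L4) the points of `W` are strictly on the left of every hull edge** -/
theorem lft_hull (hd : 0 < d) (hH : Hol (F : Set ℂ) W d) (hw : w ∈ W) (h : hullE F a b) :
    Lft w a b :=
  side_pos hd hH hw (hullE.ne h) (hull_side h)

theorem inHull (hd : 0 < d) (hH : Hol (F : Set ℂ) W d) (hw : w ∈ W) : InHull F w :=
  fun _ _ h => (lft_hull hd hH hw h).le

/-- **(L4) no hull edge at a vertex of `W`** -/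
theorem not_hull (hd : 0 < d) (hH : Hol (F : Set ℂ) W d) (ha : a ∈ W) (b : ℂ) :
    ¬ hullE F a b ∧ ¬ hullE F b a := by
  constructor
  · intro h
    have h1 := lft_hull hd hH ha h
    unfold Lft at h1
    rw [cr_left] at h1
    exact lt_irrefl _ h1
  · intro h
    have h1 := lft_hull hd hH ha h
    unfold Lft at h1
    rw [cr_right] at h1
    exact lt_irrefl _ h1

/-- **(L4) at least three sites** -/
theorem three_le (hd : 0 < d) (hH : Hol (F : Set ℂ) W d) (hw : w ∈ W) : 3 ≤ F.card := by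
  by_contra hcon
  have hcard : F.card ≤ 2 := by omega
  -- a closed half plane with `w` on the boundary contains no site
  have key : ∃ e : ℂ, e ≠ 0 ∧ ∀ s ∈ F, 0 ≤ cr e (s - w) := by
    obtain h0 | ⟨s0, hs0⟩ := F.eq_empty_or_nonempty
    · exact ⟨1, one_ne_zero, by simp [h0]⟩
    have hcard' : (F.erase s0).card ≤ 1 := by
      rw [Finset.card_erase_of_mem hs0]; omega
    -- the second site
    obtain ⟨s1, hs1⟩ : ∃ s1, ∀ s ∈ F, s = s0 ∨ s = s1 := by
      obtain h1 | ⟨s1, hs1⟩ := (F.erase s0).eq_empty_or_nonempty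
      · refine ⟨s0, fun s hs => ?_⟩
        by_contra hne
        push Not at hne
        have : s ∈ F.erase s0 := Finset.mem_erase.2 ⟨hne.1, hs⟩
        rw [h1] at this
        simp at this
      · refine ⟨s1, fun s hs => ?_⟩
        by_cases h : s = s0
        · exact Or.inl h
        · right
          exact Finset.card_le_one.1 hcard' s (Finset.mem_erase.2 ⟨h, hs⟩) s1 hs1
    by_cases h0 : s0 = w
    · by_cases h1 : s1 = w
      · refine ⟨1, one_ne_zero, fun s hs => ?_⟩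
        rcases hs1 s hs with rfl | rfl
        · rw [h0]; unfold cr; simp
        · rw [h1]; unfold cr; simp
      · refine ⟨s1 - w, sub_ne_zero.2 h1, fun s hs => ?_⟩
        rcases hs1 s hs with rfl | rfl
        · rw [h0]; unfold cr; simp
        · exact (cr_right _ _).ge
    · rcases le_total 0 (cr (s0 - w) (s1 - w)) with h | h
      · refine ⟨s0 - w, sub_ne_zero.2 h0, fun s hs => ?_⟩
        rcases hs1 s hs with rfl | rfl
        · exact (cr_right _ _).ge
        · exact h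
      · refine ⟨-(s0 - w), neg_ne_zero.2 (sub_ne_zero.2 h0), fun s hs => ?_⟩
        rcases hs1 s hs with rfl | rfl
        · unfold cr
          simp only [Complex.neg_re, Complex.neg_im]
          linarith
        · unfold cr at h ⊢
          simp only [Complex.neg_re, Complex.neg_im]
          linarith
  obtain ⟨e, he, hs⟩ := key
  have := side_pos (a := w) (b := w + e) hd hH hw (by
    intro h
    apply he
    have : w + e - w = w - w := by rw [← h]
    simpa using this) (fun s hs' => by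
    have := hs s hs'
    simpa using this)
  rw [cr_left] at this
  exact lt_irrefl _ this

/-- **(L4) every point of `W` is in a closed Delaunay triangle** -/
theorem exists_tri_W (hS : GP (F : Set ℂ)) (hd : 0 < d) (hH : Hol (F : Set ℂ) W d) (hw : w ∈ W) :
    ∃ a b c, (a, b, c) ∈ delT F ∧ InT w a b c := by
  obtain ⟨a, b, c, o, h, h1, -⟩ := cover hS (three_le hd hH hw) (inHull hd hH hw)
  exact ⟨a, b, c, mem_delT_iff.2 ⟨o, h⟩, h1⟩

/-- **(L4) the ring at a site in `W`**: all the triangles at `v` -/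
theorem ring_W (hS : GP (F : Set ℂ)) (hd : 0 < d) (hH : Hol (F : Set ℂ) W d) (hv : v ∈ W)
    (hvF : v ∈ F) {G : Trg ℂ} (hG : G.T = delT F) :
    ∃ (n : ℕ) (u : ℤ → ℂ), Ring G v n u ∧
      ∀ a b, (v, a, b) ∈ delT F → ∃ i : ℤ, u i = a ∧ u (i + 1) = b := by
  obtain ⟨u0, hu0⟩ := exists_tri_at hS (three_le hd hH hv) hvF
  obtain ⟨n, u, h1, -, h3⟩ := ring_exists hS hu0 (fun a => (not_hull hd hH hv a).2) hG
  exact ⟨n, u, h1, h3⟩

end Fin

/-! ### killed edges -/

/-- **killed edges at a vertex of `W`**, two domains with the same outside in the ball -/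
theorem kl_local (hd : 0 < d) {F F' : Finset ℂ} (hH : Hol (F : Set ℂ) W d)
    (hA : Agr (F : Set ℂ) (F' : Set ℂ) W (2 * d)) (ha : a ∈ W) {D D' : Dom}
    (hO : ∀ z, ‖z - a‖ < d → (z ∈ D.out ↔ z ∈ D'.out)) :
    (a, b) ∈ D.kl F ↔ (a, b) ∈ D'.kl F' := by
  unfold Dom.kl
  rw [Set.mem_ofPred_eq, Set.mem_ofPred_eq]
  dsimp only
  rw [← vedge_eq hd hH hA ha]
  constructor
  · rintro ⟨z, h1, h2⟩
    exact ⟨z, h1, (hO z (vedge_sub_ball hd hH ha h1).1).1 h2⟩
  · rintro ⟨z, h1, h2⟩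
    exact ⟨z, h1, (hO z (vedge_sub_ball hd hH ha h1).1).2 h2⟩

theorem kl_local' (hd : 0 < d) {F F' : Finset ℂ} (hH : Hol (F : Set ℂ) W d)
    (hA : Agr (F : Set ℂ) (F' : Set ℂ) W (2 * d)) (ha : a ∈ W) {D D' : Dom}
    (hO : ∀ z, ‖z - a‖ < d → (z ∈ D.out ↔ z ∈ D'.out)) :
    (b, a) ∈ D.kl F ↔ (b, a) ∈ D'.kl F' := by
  have h := kl_local (b := b) hd hH hA ha hO
  exact ⟨fun h1 => D'.kl_symm _ _ _ (h.1 (D.kl_symm _ _ _ h1)),
    fun h1 => D.kl_symm _ _ _ (h.2 (D'.kl_symm _ _ _ h1))⟩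

/-! ### the network of a domain -/

theorem netS_T (D : Dom) {F : Finset ℂ} (hS : GP (F : Set ℂ)) : (D.netS F).T = delT F := by
  unfold Dom.netS
  rw [dif_pos (g1 F hS)]
  rfl

theorem netS_kl (D : Dom) {F : Finset ℂ} (hS : GP (F : Set ℂ)) :
    (D.netS F).kl = {p | p ∈ D.kl F ∧ (∀ k, rayMark F D.c (D.q k) ≠ p) ∧
      ∀ k, rayMark F D.c (D.q k) ≠ (p.2, p.1)} := by
  unfold Dom.netS
  rw [dif_pos (g1 F hS)]
  rfl

theorem netS_ex (D : Dom) {F : Finset ℂ} (hS : GP (F : Set ℂ)) (k : ZMod 3) :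
    (D.netS F).ex k = rayMark F D.c (D.q k) := by
  unfold Dom.netS
  rw [dif_pos (g1 F hS)]
  rfl

/-- the marks are far from `W` -/
theorem mark_W (hd : 0 < d) {F : Finset ℂ} {N : Net ℂ} (hN : HNet F N) (hH : Hol (F : Set ℂ) W d)
    (ha : a ∈ W) (k : ZMod 3) : N.ex k ≠ (a, b) ∧ N.ex k ≠ (b, a) := by
  have h1 := hN.hex k
  constructor
  · intro h
    rw [h] at h1
    exact (not_hull hd hH ha b).1 h1
  · intro h
    rw [h] at h1
    exact (not_hull hd hH ha b).2 h1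

theorem netS_kl_W (hd : 0 < d) {F : Finset ℂ} {D : Dom} (hN : HNet F (D.netS F))
    (hH : Hol (F : Set ℂ) W d) (ha : a ∈ W) :
    ((a, b) ∈ (D.netS F).kl ↔ (a, b) ∈ D.kl F) ∧ ((b, a) ∈ (D.netS F).kl ↔ (b, a) ∈ D.kl F) := by
  have hm := fun b k => mark_W (b := b) hd hN hH ha k
  have he := fun k => netS_ex D hN.gp k
  rw [netS_kl D hN.gp, Set.mem_ofPred_eq, Set.mem_ofPred_eq]
  constructor
  · exact ⟨fun h => h.1, fun h => ⟨h, fun k => he k ▸ (hm b k).1, fun k => he k ▸ (hm b k).2⟩⟩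
  · exact ⟨fun h => h.1, fun h => ⟨h, fun k => he k ▸ (hm b k).2, fun k => he k ▸ (hm b k).1⟩⟩

/-- **locality of the killed edges of the network** -/
theorem netS_kl_local (hd : 0 < d) {F F' : Finset ℂ} {D D' : Dom} (hN : HNet F (D.netS F))
    (hN' : HNet F' (D'.netS F')) (hH : Hol (F : Set ℂ) W d)
    (hA : Agr (F : Set ℂ) (F' : Set ℂ) W (2 * d)) (ha : a ∈ W)
    (hO : ∀ z, ‖z - a‖ < d → (z ∈ D.out ↔ z ∈ D'.out)) :
    ((a, b) ∈ (D.netS F).kl ↔ (a, b) ∈ (D'.netS F').kl) ∧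
      ((b, a) ∈ (D.netS F).kl ↔ (b, a) ∈ (D'.netS F').kl) := by
  rw [(netS_kl_W hd hN hH ha).1, (netS_kl_W hd hN hH ha).2,
    (netS_kl_W hd hN' (hH.agr hA) ha).1, (netS_kl_W hd hN' (hH.agr hA) ha).2]
  exact ⟨kl_local hd hH hA ha hO, kl_local' hd hH hA ha hO⟩

/-! ### (L5) the sites in the big disc -/

theorem GP.mono {T T' : Set ℂ} (h : GP T) (hT : T' ⊆ T) : GP T' :=
  ⟨fun a ha b hb c hc => h.line a (hT ha) b (hT hb) c (hT hc),
    fun a ha b hb c hc e he => h.circ a (hT ha) b (hT hb) c (hT hc) e (hT he)⟩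

variable {ε M L : ℝ} {ω ω' : Sample} {D : Dom}

theorem mem_sites (h : (points ε ω ∩ Metric.closedBall D.c D.L).Finite) {s : ℂ} :
    s ∈ D.sites ε ω ↔ s ∈ points ε ω ∧ ‖s - D.c‖ ≤ D.L := by
  unfold Dom.sites
  rw [dif_pos h, Set.Finite.mem_toFinset, Set.mem_inter_iff, Metric.mem_closedBall, dist_eq_norm]

theorem Env.gp_sites (h : Env ε d M D.c D.L ω) : GP (D.sites ε ω : Set ℂ) :=
  GP.mono h.gp fun s hs => ((mem_sites h.fin).1 (Finset.mem_coe.1 hs)).1

/-- **(L5)** -/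
theorem Env.hol (h : Env ε d M o L ω) :
    Hol (points ε ω) (Metric.closedBall o (L - 2 * d)) d := by
  intro w hw z hz
  rw [Metric.mem_closedBall, dist_eq_norm] at hw
  have : z ∈ Metric.closedBall o (L - d) := by
    rw [Metric.mem_closedBall, dist_eq_norm]
    have := norm_tri z w o
    linarith
  obtain ⟨s, hs, hsz⟩ := h.hole z this
  rw [Metric.mem_ball, dist_eq_norm] at hsz
  exact ⟨s, hs, hsz⟩

/-- **(L5)** the sites in the disc and the whole sample are the same near the smaller disc -/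
theorem Env.agr (h : Env ε d M D.c D.L ω) {r : ℝ} :
    Agr (points ε ω) (D.sites ε ω : Set ℂ) (Metric.closedBall D.c (D.L - r)) r := by
  intro w hw s hs
  rw [Metric.mem_closedBall, dist_eq_norm] at hw
  rw [Finset.mem_coe, mem_sites h.fin]
  refine ⟨fun h1 => ⟨h1, ?_⟩, fun h1 => h1.1⟩
  have := norm_tri s w D.c
  linarith

theorem Env.hol_sites (h : Env ε d M D.c D.L ω) :
    Hol (D.sites ε ω : Set ℂ) (Metric.closedBall D.c (D.L - 2 * d)) d :=
  (Env.hol h).agr (Env.agr h)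

/-- cells at a point of the disc of radius `L - d` -/
theorem Env.mem_cell (h : Env ε d M D.c D.L ω) (hz : z ∈ Metric.closedBall D.c (D.L - d)) :
    (v ∈ D.sites ε ω ∧ z ∈ voronoiCell (D.sites ε ω : Set ℂ) v) ↔
      (v ∈ points ε ω ∧ z ∈ voronoiCell (points ε ω) v) := by
  obtain ⟨s, hs, hsz⟩ := h.hole z hz
  rw [Metric.mem_ball, dist_eq_norm] at hsz
  have := mem_cell_local (v := v) ⟨s, hs, hsz⟩ (fun s hs => (Env.agr h (r := d)) z hz s hs)
  rw [this, Finset.mem_coe]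

/-- the whole cell -/
theorem Env.cell_eq (hd : 0 < d) (h : Env ε d M D.c D.L ω)
    (hv : v ∈ Metric.closedBall D.c (D.L - 2 * d)) :
    voronoiCell (D.sites ε ω : Set ℂ) v = voronoiCell (points ε ω) v :=
  (Locx922.cell_eq hd (Env.hol h) (Env.agr h) hv).symm

theorem Env.vedge_eq (hd : 0 < d) (h : Env ε d M D.c D.L ω)
    (ha : a ∈ Metric.closedBall D.c (D.L - 2 * d)) (b : ℂ) :
    vedge (D.sites ε ω : Set ℂ) a b = vedge (points ε ω) a b :=
  (Locx922.vedge_eq hd (Env.hol h) (Env.agr h) ha b).symm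

/-- Voronoi edges at a point -/
theorem Env.mem_vedge (h : Env ε d M D.c D.L ω) (hz : z ∈ Metric.closedBall D.c (D.L - d)) :
    z ∈ vedge (D.sites ε ω : Set ℂ) a b ↔ z ∈ vedge (points ε ω) a b := by
  obtain ⟨s, hs, hsz⟩ := h.hole z hz
  rw [Metric.mem_ball, dist_eq_norm] at hsz
  exact (mem_vedge_local ⟨s, hs, hsz⟩ (fun s hs => (Env.agr h (r := d)) z hz s hs)).symm

/-- killed edges -/
theorem Env.mem_kl (hd : 0 < d) (h : Env ε d M D.c D.L ω)
    (ha : a ∈ Metric.closedBall D.c (D.L - 2 * d)) :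
    (a, b) ∈ D.kl (D.sites ε ω) ↔ (vedge (points ε ω) a b ∩ D.out).Nonempty := by
  unfold Dom.kl
  rw [Set.mem_ofPred_eq, Env.vedge_eq hd h ha]

/-- **(L5) the Delaunay triangles meeting the smaller disc** -/
theorem Env.mem_delT (hd : 0 < d) (h : Env ε d M D.c D.L ω)
    (hw : w ∈ Metric.closedBall D.c (D.L - 2 * d)) (hD : InT w a b c) :
    (a, b, c) ∈ delT (D.sites ε ω) ↔ Del (points ε ω) a b c := by
  rw [DelGx806.mem_delT]
  exact (del_local hd (Env.hol h) (Env.agr h) hw hD).symm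

theorem Env.mem_delT_disc (hd : 0 < d) (h : Env ε d M D.c D.L ω)
    (hw : w ∈ Metric.closedBall D.c (D.L - 2 * d)) (hD : InD w a b c) :
    (a, b, c) ∈ delT (D.sites ε ω) ↔ Del (points ε ω) a b c := by
  rw [DelGx806.mem_delT]
  exact (del_local_disc hd (Env.hol h) (Env.agr h) hw hD).symm

/-- every point of the smaller disc is in a triangle -/
theorem Env.exists_tri (hd : 0 < d) (h : Env ε d M D.c D.L ω)
    (hw : w ∈ Metric.closedBall D.c (D.L - 2 * d)) :
    ∃ a b c, (a, b, c) ∈ delT (D.sites ε ω) ∧ InT w a b c :=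
  exists_tri_W (Env.gp_sites h) hd (Env.hol_sites h) hw

/-- two samples with the same points in a ball -/
theorem points_agr {z0 : ℂ} {R : ℝ}
    (h : ∀ s, ‖s - z0‖ < R → (s ∈ points ε ω ↔ s ∈ points ε ω')) (r : ℝ) :
    Agr (points ε ω) (points ε ω') (Metric.closedBall z0 (R - r)) r := by
  intro w hw s hs
  rw [Metric.mem_closedBall, dist_eq_norm] at hw
  have := norm_tri s w z0
  exact h s (by linarith)

/-- sites of two samples with the same points in a ball, in two domains -/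
theorem sites_agr {D D' : Dom} (h : (points ε ω ∩ Metric.closedBall D.c D.L).Finite)
    (h' : (points ε ω' ∩ Metric.closedBall D'.c D'.L).Finite) {z0 : ℂ} {R : ℝ}
    (hp : ∀ s, ‖s - z0‖ < R → (s ∈ points ε ω ↔ s ∈ points ε ω'))
    (hD : ‖z0 - D.c‖ + R ≤ D.L) (hD' : ‖z0 - D'.c‖ + R ≤ D'.L) (r : ℝ) :
    Agr (D.sites ε ω : Set ℂ) (D'.sites ε ω' : Set ℂ) (Metric.closedBall z0 (R - r)) r := by
  intro w hw s hs
  rw [Metric.mem_closedBall, dist_eq_norm] at hw
  have h1 := norm_tri s w z0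
  have h2 := norm_tri s z0 D.c
  have h3 := norm_tri s z0 D'.c
  rw [Finset.mem_coe, Finset.mem_coe, mem_sites h, mem_sites h', hp s (by linarith)]
  constructor
  · rintro ⟨h4, -⟩
    exact ⟨h4, by linarith⟩
  · rintro ⟨h4, -⟩
    exact ⟨h4, by linarith⟩

/-! ### (L6) the walker -/

section Walk

variable {V : Type} {G G' : Trg V} {O O' : Set (V × V × V)} {X X' : Set (V × V)}
  {J J' : Finset (V × V)} {p q : V × V}

/-- **(L6) a step depends on the triangle on the left of the walker** -/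
theorem step_local (hT : ∀ c, (p.1, p.2, c) ∈ G.T → (p.1, p.2, c) ∈ G'.T ∧
      ((p.1, p.2, c) ∉ O → (p.1, p.2, c) ∉ O') ∧ ((p.2, c) ∈ J ↔ (p.2, c) ∈ J') ∧
      ((c, p.1) ∈ J ↔ (c, p.1) ∈ J')) (hX : (p.2, p.1) ∉ X → (p.2, p.1) ∉ X')
    (h : Step G O X J p q) : Step G' O' X' J' p q := by
  obtain ⟨c, h1, h2, h3, h4⟩ := h
  obtain ⟨g1, g2, g3, g4⟩ := hT c h1
  refine ⟨c, g1, g2 h2, hX h3, ?_⟩
  rcases h4 with ⟨h4, h5⟩ | ⟨h4, h5, h6⟩
  · exact Or.inl ⟨g3.1 h4, h5⟩
  · exact Or.inr ⟨g4.1 h4, fun h => h5 (g3.2 h), h6⟩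

/-- the walker goes from `p` to `q`, all the positions before `q` in `P` -/
def LeadsIn (G : Trg V) (O : Set (V × V × V)) (X : Set (V × V)) (J : Finset (V × V))
    (P : Set (V × V)) (p q : V × V) : Prop :=
  Relation.ReflTransGen (fun x y => x ∈ P ∧ Step G O X J x y) p q

theorem LeadsIn.leads {P : Set (V × V)} (h : LeadsIn G O X J P p q) : Leads G O X J p q :=
  Relation.ReflTransGen.mono (fun _ _ h => h.2) _ _ h

/-- **(L6)** the walkers in two networks which are the same at the positions in `P` -/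
theorem LeadsIn.congr {P : Set (V × V)}
    (hP : ∀ x ∈ P, ∀ y, Step G O X J x y → Step G' O' X' J' x y) (h : LeadsIn G O X J P p q) :
    LeadsIn G' O' X' J' P p q :=
  Relation.ReflTransGen.mono (fun _ _ h => ⟨h.1, hP _ h.1 _ h.2⟩) _ _ h

/-- a walker which goes from `p` to `q` either stays in `P` or leaves `P` for the first time -/
theorem Leads.split {P : Set (V × V)} (h : Leads G O X J p q) :
    LeadsIn G O X J P p q ∨ ∃ x, x ∉ P ∧ LeadsIn G O X J P p x ∧ Leads G O X J x q := by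
  induction h using Relation.ReflTransGen.head_induction_on with
  | refl => exact Or.inl Relation.ReflTransGen.refl
  | @head x y hxy hy ih =>
    by_cases hx : x ∈ P
    · rcases ih with ih | ⟨u, h1, h2, h3⟩
      · exact Or.inl (Relation.ReflTransGen.head ⟨hx, hxy⟩ ih)
      · exact Or.inr ⟨u, h1, Relation.ReflTransGen.head ⟨hx, hxy⟩ h2, h3⟩
    · exact Or.inr ⟨x, hx, Relation.ReflTransGen.refl, Relation.ReflTransGen.head hxy hy⟩

end Walk

end Crest.Agent.R143.Locx922
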