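import Crest.Agent.R143.JCol2_54

/-!
# Row 143, leaf P1: planarity of the legs (helper54)

* `Wk`, `Fl` : explicit walks of the walker and their crossing number `Fl n p a b` through the
  directed edge `(a, b)`; `Fl_tri` : it is a closed edge function up to the two ends
* `P1` : three legs from `t` end at `ex (i + k)`
-/

set_option autoImplicit false

noncomputable section

open scoped Classical

namespace Crest.Agent.R143.Planarx54

open Crest.Agent.R143.B0x346 Crest.Agent.R143.DelGx806 Crest.Agent.R143.DelRx806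
  Crest.Agent.R143.B0Dx346 Crest.Agent.R143.JColx54 Crest.Agent.R143.JCol2x54
  Crest.Agent.R143.JWalkx872 Crest.Agent.R143.JCardx872

/-! ### walks -/

section Walk

variable {V : Type} {G : Trg V} {kl : Set (V × V)} {O : Set (V × V × V)} {D : Set (V × V)}
  {J : Finset (V × V)}

/-- explicit walk with `n` steps -/
def Wk (G : Trg V) (O : Set (V × V × V)) (D : Set (V × V)) (J : Finset (V × V)) (n : ℕ)
    (p : ℕ → V × V) : Prop := ∀ k, k < n → Step G O D J (p k) (p (k + 1))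

theorem exists_wk {s e : V × V} (h : Leads G O D J s e) :
    ∃ n p, Wk G O D J n p ∧ p 0 = s ∧ p n = e := by
  induction h with
  | refl => exact ⟨0, fun _ => s, fun k hk => absurd hk (Nat.not_lt_zero _), rfl, rfl⟩
  | tail _ h2 ih =>
    rename_i q r _
    obtain ⟨n, p, hp, h0, hn⟩ := ih
    refine ⟨n + 1, fun k => if k ≤ n then p k else r, fun k hk => ?_, ?_, ?_⟩
    · dsimp only
      rcases Nat.lt_or_ge k n with h | h
      · rw [if_pos h.le, if_pos (by omega)]
        exact hp k h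
      · have : k = n := by omega
        subst this
        rw [if_pos le_rfl, if_neg (by omega), hn]
        exact h2
    · dsimp only
      rw [if_pos (Nat.zero_le _)]
      exact h0
    · dsimp only
      rw [if_neg (by omega)]

theorem Wk.leads {n : ℕ} {p : ℕ → V × V} (h : Wk G O D J n p) : ∀ k, k ≤ n →
    Leads G O D J (p 0) (p k) := by
  intro k
  induction k with
  | zero => intro _; exact Relation.ReflTransGen.refl
  | succ k ih => intro hk; exact (ih (by omega)).tail (h k (by omega))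

/-- number of visits -/
def vis (n : ℕ) (p : ℕ → V × V) (e : V × V) : ℤ :=
  ∑ k ∈ Finset.range (n + 1), if p k = e then 1 else 0

/-- crossing number of the walk through the directed edge `(a, b)`: the walker `(b, a)` (left hand
`b`, right hand `a`) counts `+ 1` -/
def Fl (n : ℕ) (p : ℕ → V × V) (a b : V) : ℤ := vis n p (b, a) - vis n p (a, b)

theorem Fl_anti (n : ℕ) (p : ℕ → V × V) (a b : V) : Fl n p b a = - Fl n p a b := by
  unfold Fl; ring

theorem vis_zero (p : ℕ → V × V) (e : V × V) : vis 0 p e = if p 0 = e then 1 else 0 := by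
  unfold vis
  rw [zero_add, Finset.range_one, Finset.sum_singleton]

theorem vis_succ (n : ℕ) (p : ℕ → V × V) (e : V × V) :
    vis (n + 1) p e = vis n p e + if p (n + 1) = e then 1 else 0 := by
  unfold vis; rw [Finset.sum_range_succ]

theorem vis_eq_zero {n : ℕ} {p : ℕ → V × V} {e : V × V} (h : ∀ k, k ≤ n → p k ≠ e) :
    vis n p e = 0 := by
  unfold vis
  apply Finset.sum_eq_zero
  intro k hk
  rw [Finset.mem_range] at hk
  rw [if_neg (h k (by omega))]

/-- `e` is a side of the triangle `(a, b, c)` -/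
def OnS (a b c : V) (e : V × V) : Prop := e = (a, b) ∨ e = (b, c) ∨ e = (c, a)

theorem onS_sum {a b c : V} (h : (a, b, c) ∈ G.T) (e : V × V) :
    ((if e = (a, b) then 1 else 0) + (if e = (b, c) then 1 else 0) +
      (if e = (c, a) then 1 else 0) : ℤ) = if OnS a b c e then 1 else 0 := by
  have n1 := G.ne h
  have n2 := G.ne (G.rot h)
  have n3 := G.ne (G.rot (G.rot h))
  unfold OnS
  obtain ⟨x, y⟩ := e
  simp only [Prod.mk.injEq]
  by_cases h1 : x = a ∧ y = b
  · have h2 : ¬ (x = b ∧ y = c) := fun h => n1 (h1.1.symm.trans h.1)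
    have h3 : ¬ (x = c ∧ y = a) := fun h => n1.symm (h1.2.symm.trans h.2)
    rw [if_pos h1, if_neg h2, if_neg h3, if_pos (Or.inl h1)]
    rfl
  · by_cases h2 : x = b ∧ y = c
    · have h3 : ¬ (x = c ∧ y = a) := fun h => n2 (h2.1.symm.trans h.1)
      rw [if_neg h1, if_pos h2, if_neg h3, if_pos (Or.inr (Or.inl h2))]
      rfl
    · by_cases h3 : x = c ∧ y = a
      · rw [if_neg h1, if_neg h2, if_pos h3, if_pos (Or.inr (Or.inr h3))]
        rfl
      · rw [if_neg h1, if_neg h2, if_neg h3, if_neg (by tauto)]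
        rfl

/-- the side `(x, y)` belongs to the triangle `(a, b, c)` iff the triangle `(x, y, z)` is a
rotation of it -/
theorem onS_iff {a b c x y z : V} (h : (a, b, c) ∈ G.T) (h' : (x, y, z) ∈ G.T) :
    OnS a b c (x, y) ↔ (x, y, z) ∈ rots (a, b, c) := by
  unfold OnS rots
  simp only [Set.mem_insert_iff, Set.mem_singleton_iff, Prod.mk.injEq]
  constructor
  · rintro (⟨rfl, rfl⟩ | ⟨rfl, rfl⟩ | ⟨rfl, rfl⟩)
    · exact Or.inl ⟨rfl, rfl, G.uniq h' h⟩
    · exact Or.inr (Or.inl ⟨rfl, rfl, G.uniq h' (G.rot h)⟩)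
    · exact Or.inr (Or.inr ⟨rfl, rfl, G.uniq h' (G.rot (G.rot h))⟩)
  · rintro (⟨rfl, rfl, rfl⟩ | ⟨rfl, rfl, rfl⟩ | ⟨rfl, rfl, rfl⟩)
    · exact Or.inl ⟨rfl, rfl⟩
    · exact Or.inr (Or.inl ⟨rfl, rfl⟩)
    · exact Or.inr (Or.inr ⟨rfl, rfl⟩)

/-- a walker leaves every triangle which he enters -/
theorem step_onS {a b c : V} (h : (a, b, c) ∈ G.T) {p q : V × V} (hs : Step G O D J p q) :
    OnS a b c p ↔ OnS a b c (q.2, q.1) := by
  obtain ⟨z, hz, _, _, hq⟩ := hs
  have e1 : OnS a b c p ↔ (p.1, p.2, z) ∈ rots (a, b, c) := onS_iff h hz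
  have r := rotInv_rots (a, b, c)
  have e2 : (p.1, p.2, z) ∈ rots (a, b, c) ↔ (p.2, z, p.1) ∈ rots (a, b, c) :=
    ⟨fun h => r _ _ _ h, fun h => r _ _ _ (r _ _ _ h)⟩
  have e3 : (p.2, z, p.1) ∈ rots (a, b, c) ↔ (z, p.1, p.2) ∈ rots (a, b, c) :=
    ⟨fun h => r _ _ _ h, fun h => r _ _ _ (r _ _ _ h)⟩
  rcases hq with ⟨_, rfl⟩ | ⟨_, _, rfl⟩
  · rw [e1, e2]
    exact (onS_iff h (G.rot hz)).symm
  · rw [e1, e2, e3]
    exact (onS_iff h (G.rot (G.rot hz))).symm

/-- **the crossing number is closed** up to the two ends of the walk -/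
theorem Fl_tri {n : ℕ} {p : ℕ → V × V} (hW : Wk G O D J n p) {a b c : V} (h : (a, b, c) ∈ G.T) :
    Fl n p a b + Fl n p b c + Fl n p c a =
      (if OnS a b c ((p 0).2, (p 0).1) then 1 else 0) - if OnS a b c (p n) then 1 else 0 := by
  have swp : ∀ (e : V × V) (x y : V), (e = (y, x)) ↔ ((e.2, e.1) = (x, y)) := by
    rintro ⟨u, v⟩ x y
    simp only [Prod.mk.injEq]
    tauto
  induction n with
  | zero =>
    unfold Fl
    simp only [vis_zero]
    rw [← onS_sum h, ← onS_sum h]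
    simp only [swp (p 0) a b, swp (p 0) b c, swp (p 0) c a]
    ring
  | succ n ih =>
    have ih := ih (fun k hk => hW k (by omega))
    have hs := step_onS h (hW n (by omega))
    unfold Fl at ih ⊢
    simp only [vis_succ]
    rw [← onS_sum h (p n)] at ih
    have h1 := onS_sum h (p (n + 1))
    have h2 := onS_sum h ((p (n + 1)).2, (p (n + 1)).1)
    have h3 := onS_sum h (p n)
    have h4 : (if OnS a b c (p n) then 1 else 0 : ℤ) =
        if OnS a b c ((p (n + 1)).2, (p (n + 1)).1) then 1 else 0 := by simp only [hs]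
    rw [h3, h4, ← h2] at ih
    rw [← h1]
    simp only [swp (p (n + 1)) a b, swp (p (n + 1)) b c, swp (p (n + 1)) c a]
    linarith

theorem Wk.occ {n : ℕ} {p : ℕ → V × V} (hW : Wk G O D J n p) (h0 : ((p 0).2, (p 0).1) ∈ J) :
    ∀ k, k ≤ n → ((p k).2, (p k).1) ∈ J := by
  intro k hk
  rcases k with _ | k
  · exact h0
  · exact step_exit (hW k (by omega))

/-- the walk does not cross the empty edges -/
theorem Fl_unocc {n : ℕ} {p : ℕ → V × V} (hW : Wk G O D J n p) (h0 : ((p 0).2, (p 0).1) ∈ J)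
    {a b : V} (h1 : (a, b) ∉ J) (h2 : (b, a) ∉ J) : Fl n p a b = 0 := by
  unfold Fl
  rw [vis_eq_zero, vis_eq_zero, sub_zero]
  · rintro k hk h
    have := hW.occ h0 k hk
    rw [h] at this
    exact h2 this
  · rintro k hk h
    have := hW.occ h0 k hk
    rw [h] at this
    exact h1 this

/-- the walk is occupied as long as it goes on -/
theorem Wk.mem (hJ : IsJoin G kl O D J) {n : ℕ} {p : ℕ → V × V} (hW : Wk G O D J n p)
    (h0 : ((p 0).2, (p 0).1) ∈ J) (hD : p 0 ∉ D) : ∀ k, k < n → p k ∈ J := by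
  intro k hk
  have hpre := step_pre (hW k hk)
  rcases k with _ | k
  · exact (hJ.sym _ _ hD hpre).2 h0
  · rcases step_mem hJ (hW k (by omega)) with h | h
    · exact h
    · exact absurd h hpre

end Walk

/-! ### walks on the Delaunay triangulation -/

variable {S : Finset ℂ} {G : Trg ℂ} {kl : Set (ℂ × ℂ)} {O : Set (ℂ × ℂ × ℂ)} {D : Set (ℂ × ℂ)}
  {J : Finset (ℂ × ℂ)}

/-- the left sites and the right sites of a walker are connected by empty edges -/
theorem step_lr (hS : GP (S : Set ℂ)) (hG : G.T = delT S) (hD : HullM S D)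
    (hJ : IsJoin G kl O D J) {B : Type} {σ : ℂ → B}
    (hσ : ∀ a b, Adj S a b → (a, b) ∉ J → (b, a) ∉ J → σ a = σ b) {p q : ℂ × ℂ} (hp : p ∈ J)
    (h : Step G O D J p q) : σ p.1 = σ q.1 ∧ σ p.2 = σ q.2 := by
  obtain ⟨c, hc, hcO, _, hq⟩ := h
  have hpar := hJ.par _ _ _ hc
  rw [if_neg hcO] at hpar
  have hp' : (p.1, p.2) ∈ J := hp
  rw [hG] at hc
  have hr := delT_rot hS hc
  have hr' := delT_rot hS hr
  rcases hq with ⟨h1, rfl⟩ | ⟨h1, h2, rfl⟩
  · have h3 : (c, p.1) ∉ J := by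
      intro h'
      simp only [hp', h1, h', if_true] at hpar
      omega
    refine ⟨?_, rfl⟩
    have h4 : ¬ ((c, p.1) ∈ J ∨ (p.1, c) ∈ J) := fun h => h3 ((occ_iff hG hD hJ hr').1 h)
    push Not at h4
    exact (hσ _ _ (adj_tri hr') h4.1 h4.2).symm
  · refine ⟨rfl, ?_⟩
    have h4 : ¬ ((p.2, c) ∈ J ∨ (c, p.2) ∈ J) := fun h => h2 ((occ_iff hG hD hJ hr).1 h)
    push Not at h4
    exact hσ _ _ (adj_tri hr) h4.1 h4.2

theorem wk_lr (hS : GP (S : Set ℂ)) (hG : G.T = delT S) (hD : HullM S D)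
    (hJ : IsJoin G kl O D J) {B : Type} {σ : ℂ → B}
    (hσ : ∀ a b, Adj S a b → (a, b) ∉ J → (b, a) ∉ J → σ a = σ b) {n : ℕ} {p : ℕ → ℂ × ℂ}
    (hW : Wk G O D J n p) (h0 : ((p 0).2, (p 0).1) ∈ J) (h0D : p 0 ∉ D) :
    ∀ k, k ≤ n → σ (p k).1 = σ (p 0).1 ∧ σ (p k).2 = σ (p 0).2 := by
  intro k
  induction k with
  | zero => intro _; exact ⟨rfl, rfl⟩
  | succ k ih =>
    intro hk
    have h1 := ih (by omega)
    have h2 := step_lr hS hG hD hJ hσ (hW.mem hJ h0 h0D k (by omega)) (hW k (by omega))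
    exact ⟨h2.1.symm.trans h1.1, h2.2.symm.trans h1.2⟩

/-- **the crossing number at a hull edge**: only the end mark counts -/
theorem Fl_hull (hG : G.T = delT S) (hJ : IsJoin G kl O D J) {n : ℕ} {p : ℕ → ℂ × ℂ}
    (hW : Wk G O D J n p) (h0 : ((p 0).2, (p 0).1) ∈ J) {a b : ℂ} (h : hullE S a b) :
    Fl n p a b = if p n = (b, a) then 1 else 0 := by
  have hba : (b, a) ∉ J := by
    by_cases h' : (a, b) ∈ D
    · exact (hJ.mark _ _ h').2
    · exact (hJ.bdr a b (by rw [hG]; exact h.2) h').2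
  unfold Fl
  rw [vis_eq_zero (e := (a, b)), sub_zero]
  · unfold vis
    rw [Finset.sum_range_succ, Finset.sum_eq_zero, zero_add]
    intro k hk
    rw [Finset.mem_range] at hk
    rw [if_neg]
    intro he
    obtain ⟨c, hc, _⟩ := hW k hk
    rw [he, hG] at hc
    exact h.2 c hc
  · intro k hk he
    have := hW.occ h0 k hk
    rw [he] at this
    exact hba this

/-! ### positions on the hull -/

/-- cyclic order -/
def Cyc (a b c : ℤ) : Prop := (a < b ∧ b < c) ∨ (b < c ∧ c < a) ∨ (c < a ∧ a < b)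

theorem cr_area (a b c : ℂ) : cr (b - a) (c - a) = cr a b + cr b c + cr c a := by
  unfold cr; simp only [Complex.sub_re, Complex.sub_im]; ring

theorem cr_mid3 (a a' b b' c c' : ℂ) :
    8 * cr (mid (b, b') - mid (a, a')) (mid (c, c') - mid (a, a')) =
      cr (b - a) (c - a) + cr (b - a) (c' - a) + cr (b' - a) (c - a) + cr (b' - a) (c' - a) +
      cr (b - a') (c - a') + cr (b - a') (c' - a') + cr (b' - a') (c - a') +
      cr (b' - a') (c' - a') := by
  unfold cr mid
  simp only [Complex.sub_re, Complex.sub_im, Complex.add_re, Complex.add_im, Complex.div_re,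
    Complex.div_im]
  norm_num [Complex.normSq]
  ring

/-- three hull edges in order: their middles are a counterclockwise triangle -/
theorem mid_pos {n : ℕ} {w : ℤ → ℂ} (hw : HullCyc S n w) {a b c : ℤ} (h1 : a < b) (h2 : b < c)
    (h3 : c < a + n) :
    0 < cr (mid (w b, w (b + 1)) - mid (w a, w (a + 1)))
      (mid (w c, w (c + 1)) - mid (w a, w (a + 1))) := by
  have hge : ∀ i j k : ℤ, i ≤ j → j ≤ k → k ≤ i + n → 0 ≤ cr (w j - w i) (w k - w i) := by
    intro i j k hij hjk hki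
    rcases eq_or_lt_of_le hij with h | h
    · rw [h, sub_self]; unfold cr; simp
    rcases eq_or_lt_of_le hjk with h' | h'
    · rw [h']; unfold cr; nlinarith
    rcases eq_or_lt_of_le hki with h'' | h''
    · rw [h'', hw.per, sub_self]; unfold cr; simp
    exact (hw.conv i j k h h' h'').le
  have key := cr_mid3 (w a) (w (a + 1)) (w b) (w (b + 1)) (w c) (w (c + 1))
  have k1 := hw.conv a b c h1 h2 h3
  have k2 := hge a b (c + 1) (by omega) (by omega) (by omega)
  have k3 := hge a (b + 1) c (by omega) (by omega) (by omega)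
  have k4 := hge a (b + 1) (c + 1) (by omega) (by omega) (by omega)
  have k5 := hge (a + 1) b c (by omega) (by omega) (by omega)
  have k6 := hge (a + 1) b (c + 1) (by omega) (by omega) (by omega)
  have k7 := hge (a + 1) (b + 1) c (by omega) (by omega) (by omega)
  have k8 := hge (a + 1) (b + 1) (c + 1) (by omega) (by omega) (by omega)
  linarith

theorem cyc_pos {n : ℕ} {w : ℤ → ℂ} (hw : HullCyc S n w) {a b c : ℤ} (ha : 0 ≤ a) (ha' : a < n)
    (hb : 0 ≤ b) (hb' : b < n) (hc : 0 ≤ c) (hc' : c < n) (h : Cyc a b c) :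
    0 < cr (mid (w b, w (b + 1)) - mid (w a, w (a + 1)))
      (mid (w c, w (c + 1)) - mid (w a, w (a + 1))) := by
  rcases h with ⟨h1, h2⟩ | ⟨h1, h2⟩ | ⟨h1, h2⟩
  · exact mid_pos hw h1 h2 (by omega)
  · have := mid_pos hw h1 h2 (by omega)
    rw [cr_rot']
    rw [cr_area] at this ⊢
    linarith
  · have := mid_pos hw h1 h2 (by omega)
    rw [cr_area] at this ⊢
    linarith

/-- `Cyc` for the positions of the three marks -/
theorem cyc_of_pos {n : ℕ} {w : ℤ → ℂ} (hw : HullCyc S n w) {a b c : ℤ} (ha : 0 ≤ a) (ha' : a < n)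
    (hb : 0 ≤ b) (hb' : b < n) (hc : 0 ≤ c) (hc' : c < n)
    (h : 0 < cr (mid (w b, w (b + 1)) - mid (w a, w (a + 1)))
      (mid (w c, w (c + 1)) - mid (w a, w (a + 1)))) : Cyc a b c := by
  by_cases h1 : a = b
  · exfalso
    rw [h1, sub_self] at h
    unfold cr at h
    simp at h
  by_cases h2 : b = c
  · exfalso
    rw [h2] at h
    unfold cr at h
    nlinarith
  by_cases h4 : a = c
  · exfalso
    rw [h4, sub_self] at h
    unfold cr at h
    simp at h
  by_contra hcon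
  have : Cyc a c b := by unfold Cyc at hcon ⊢; omega
  have := cyc_pos hw ha ha' hc hc' hb hb' this
  rw [cr_area] at h this
  have e : ∀ u v : ℂ, cr u v = - cr v u := cr_swap'
  rw [e (mid (w a, w (a + 1))) (mid (w c, w (c + 1))), e (mid (w c, w (c + 1))) (mid (w b, w (b + 1))),
    e (mid (w b, w (b + 1))) (mid (w a, w (a + 1)))] at this
  linarith

/-! ### three legs -/

/-- the vertices of a triangle, indexed by `ZMod 3` -/
def vt (t : ℂ × ℂ × ℂ) (i : ZMod 3) : ℂ := if i = 0 then t.1 else if i = 1 then t.2.1 else t.2.2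

theorem vt_zero (t : ℂ × ℂ × ℂ) : vt t 0 = t.1 := rfl
theorem vt_one (t : ℂ × ℂ × ℂ) : vt t 1 = t.2.1 := rfl
theorem vt_two (t : ℂ × ℂ × ℂ) : vt t 2 = t.2.2 := rfl

theorem z3 (i : ZMod 3) : i = 0 ∨ i = 1 ∨ i = 2 := by revert i; decide

theorem vt_tri (hS : GP (S : Set ℂ)) {t : ℂ × ℂ × ℂ} (ht : t ∈ delT S) (i : ZMod 3) :
    (vt t i, vt t (i + 1), vt t (i + 2)) ∈ delT S := by
  have ht : (t.1, t.2.1, t.2.2) ∈ delT S := ht
  rcases z3 i with rfl | rfl | rfl
  · exact ht
  · exact delT_rot hS ht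
  · exact delT_rot hS (delT_rot hS ht)

theorem rots_vt (t : ℂ × ℂ × ℂ) (i : ZMod 3) : (vt t i, vt t (i + 1), vt t (i + 2)) ∈ rots t := by
  unfold rots
  rcases z3 i with rfl | rfl | rfl
  · exact Or.inl rfl
  · exact Or.inr (Or.inl rfl)
  · exact Or.inr (Or.inr rfl)

/-- the start of the leg `i` of the triangle `t` -/
def st (t : ℂ × ℂ × ℂ) (i : ZMod 3) : ℂ × ℂ := (vt t (i + 1), vt t i)

theorem onS_st (hS : GP (S : Set ℂ)) (hG : G.T = delT S) {t : ℂ × ℂ × ℂ} (ht : t ∈ delT S)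
    (i : ZMod 3) {a b c : ℂ} (h : (a, b, c) ∈ delT S) :
    OnS a b c ((st t i).2, (st t i).1) ↔ (a, b, c) ∈ rots t := by
  have h1 := vt_tri hS ht i
  rw [← hG] at h h1
  have h2 := onS_iff h h1
  unfold st
  dsimp only
  rw [h2]
  have h3 := rots_vt t i
  constructor
  · intro h4
    obtain ⟨t1, t2, t3⟩ := t
    unfold rots at h3 h4 ⊢
    simp only [Set.mem_insert_iff, Set.mem_singleton_iff, Prod.mk.injEq] at h3 h4 ⊢
    rcases h4 with ⟨h5, h6, h7⟩ | ⟨h5, h6, h7⟩ | ⟨h5, h6, h7⟩ <;> rw [h5, h6, h7] at h3 <;> tauto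
  · intro h4
    obtain ⟨t1, t2, t3⟩ := t
    unfold rots at h3 h4 ⊢
    simp only [Set.mem_insert_iff, Set.mem_singleton_iff, Prod.mk.injEq] at h3 h4 ⊢
    rcases h4 with ⟨h5, h6, h7⟩ | ⟨h5, h6, h7⟩ | ⟨h5, h6, h7⟩ <;> rw [h5, h6, h7] <;> tauto

/-- three legs: explicit walks -/
structure Legs (G : Trg ℂ) (S : Finset ℂ) (D : Set (ℂ × ℂ)) (t : ℂ × ℂ × ℂ) (J : Finset (ℂ × ℂ))
    (x : ZMod 3 → ℂ × ℂ) (n : ZMod 3 → ℕ) (p : ZMod 3 → ℕ → ℂ × ℂ) : Prop where
  occ : ∀ i, (vt t i, vt t (i + 1)) ∈ J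
  mark : ∀ i, x i ∈ D
  wk : ∀ i, Wk G (rots t) D J (n i) (p i)
  st : ∀ i, p i 0 = st t i
  en : ∀ i, p i (n i) = ((x i).2, (x i).1)

section legs

variable {t : ℂ × ℂ × ℂ} {x : ZMod 3 → ℂ × ℂ} {n : ZMod 3 → ℕ} {p : ZMod 3 → ℕ → ℂ × ℂ}

theorem Legs.occ0 (h : Legs G S D t J x n p) (i : ZMod 3) : ((p i 0).2, (p i 0).1) ∈ J := by
  rw [h.st]; exact h.occ i

theorem Legs.notD (hS : GP (S : Set ℂ)) (ht : t ∈ delT S) (hD : HullM S D)
    (h : Legs G S D t J x n p) (i : ZMod 3) : p i 0 ∉ D := by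
  rw [h.st]
  exact fun h' => hD _ _ h' _ (vt_tri hS ht i)

/-- crossing numbers of a leg around a triangle -/
theorem Legs.tri (hS : GP (S : Set ℂ)) (hG : G.T = delT S) (ht : t ∈ delT S) (hD : HullM S D)
    (h : Legs G S D t J x n p) (i : ZMod 3) {a b c : ℂ} (habc : (a, b, c) ∈ delT S) :
    Fl (n i) (p i) a b + Fl (n i) (p i) b c + Fl (n i) (p i) c a =
      if (a, b, c) ∈ rots t then 1 else 0 := by
  have habc' : (a, b, c) ∈ G.T := by rw [hG]; exact habc
  rw [Fl_tri (h.wk i) habc', h.en i]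
  have h1 : ¬ OnS a b c ((x i).2, (x i).1) := by
    rintro (h2 | h2 | h2) <;> rw [Prod.mk.injEq] at h2
    · exact hD _ _ (h.mark i) c (by rw [h2.1, h2.2]; exact habc)
    · exact hD _ _ (h.mark i) a (by rw [h2.1, h2.2]; exact delT_rot hS habc)
    · exact hD _ _ (h.mark i) b (by rw [h2.1, h2.2]; exact delT_rot hS (delT_rot hS habc))
  rw [if_neg h1, sub_zero, h.st i]
  simp only [onS_st hS hG ht i habc]

/-- two legs end at different marks -/
theorem Legs.inj (hS : GP (S : Set ℂ)) (hG : G.T = delT S) (ht : t ∈ delT S) (hD : HullM S D)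
    (hJ : IsJoin G kl (rots t) D J) (h : Legs G S D t J x n p) {i j : ZMod 3}
    (hx : x i = x j) : i = j := by
  have key : ∀ i, Leads G (rots t) D J (x i) (vt t i, vt t (i + 1)) := by
    intro i
    have h1 := (h.wk i).leads (n i) le_rfl
    rw [h.en i] at h1
    by_cases h2 : p i 0 ∈ J
    · have := leads_rev hJ (rotInv_rots t) h2 h1
      rw [h.st i] at this
      exact this
    · have h3 : n i = 0 := by
        by_contra hne
        exact h2 ((h.wk i).mem hJ (h.occ0 i) (h.notD hS ht hD i) 0 (by omega))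
      have h4 := h.en i
      rw [h3, h.st i] at h4
      unfold Planarx54.st at h4
      rw [Prod.mk.injEq] at h4
      have h5 : x i = (vt t i, vt t (i + 1)) := Prod.ext h4.2.symm h4.1.symm
      rw [h5]
      exact Relation.ReflTransGen.refl
  have hterm : ∀ i, Term G (rots t) D J (vt t i, vt t (i + 1)) := by
    intro i
    refine Or.inr ⟨h.occ i, _, ?_, rots_vt t i⟩
    rw [hG]
    exact vt_tri hS ht i
  have h1 := key i
  have h2 := key j
  rw [hx] at h1
  have h3 := term_unique (hterm i) (hterm j) h1 h2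
  rw [Prod.mk.injEq] at h3
  have ht' : (t.1, t.2.1, t.2.2) ∈ delT S := ht
  obtain ⟨o, ho⟩ := mem_delT_iff.1 ht'
  have hne := ho.ne
  have h4 := h3.1
  rcases z3 i with rfl | rfl | rfl <;> rcases z3 j with rfl | rfl | rfl <;>
    first
      | rfl
      | (exfalso
         simp only [vt_zero, vt_one, vt_two] at h4
         first
           | exact hne.1 h4
           | exact hne.1 h4.symm
           | exact hne.2.1 h4
           | exact hne.2.1 h4.symm
           | exact hne.2.2 h4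
           | exact hne.2.2 h4.symm)

/-- **planarity**: the end marks of three legs are in counterclockwise order -/
theorem Legs.cyc (hS : GP (S : Set ℂ)) (hG : G.T = delT S) (ht : t ∈ delT S) (hD : HullM S D)
    (hJ : IsJoin G kl (rots t) D J) (h : Legs G S D t J x n p) {N : ℕ} {w : ℤ → ℂ}
    (hw : HullCyc S N w) {a : ZMod 3 → ℤ} (ha : ∀ i, 0 ≤ a i ∧ a i < N)
    (hx : ∀ i, x i = (w (a i), w (a i + 1))) : Cyc (a 0) (a 1) (a 2) := by
  obtain ⟨σ, hσ⟩ := exact hS (A := ℤ)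
    (f := fun u v => Fl (n 1) (p 1) u v - Fl (n 0) (p 0) u v)
    (by intro u v _; rw [Fl_anti (n 1), Fl_anti (n 0)]; ring)
    (by
      intro u v z huv
      have h1 := h.tri hS hG ht hD 1 huv
      have h0 := h.tri hS hG ht hD 0 huv
      linarith)
  -- empty edges
  have hun : ∀ u v, Adj S u v → (u, v) ∉ J → (v, u) ∉ J → σ u = σ v := by
    intro u v huv h1 h2
    have h3 := hσ u v huv
    rw [Fl_unocc (h.wk 1) (h.occ0 1) h1 h2, Fl_unocc (h.wk 0) (h.occ0 0) h1 h2] at h3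
    linarith
  have hlr := fun i => wk_lr hS hG hD hJ hun (h.wk i) (h.occ0 i) (h.notD hS ht hD i) (n i) le_rfl
  -- the values on the hull
  have hN : (0 : ℤ) < N := by exact_mod_cast hw.pos
  have hFl : ∀ i, ∀ m : ℤ, 0 ≤ m → m < N →
      Fl (n i) (p i) (w m) (w (m + 1)) = if m = a i then 1 else 0 := by
    intro i m hm hm'
    rw [Fl_hull hG hJ (h.wk i) (h.occ0 i) (hw.edge m), h.en i]
    by_cases hma : m = a i
    · rw [if_pos hma, if_pos]
      rw [hx i, hma]
    · rw [if_neg hma, if_neg]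
      intro he
      rw [Prod.mk.injEq, hx i] at he
      exact hma (hw.inj m (a i) hm hm' (ha i).1 (ha i).2 he.2.symm)
  have hval : ∀ m : ℕ, (m : ℤ) ≤ N → σ (w m) = σ (w 0) + (if a 1 < m then 1 else 0) -
      (if a 0 < m then 1 else 0) := by
    intro m
    induction m with
    | zero =>
      intro _
      rw [if_neg (by have := (ha 1).1; push_cast; omega),
        if_neg (by have := (ha 0).1; push_cast; omega)]
      push_cast
      ring
    | succ m ih =>
      intro hm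
      push_cast at hm ⊢
      have h1 := ih (by omega)
      have h2 := hσ (w m) (w (m + 1)) (Or.inl (hw.edge m).1)
      rw [hFl 1 m (by omega) (by omega), hFl 0 m (by omega) (by omega), h1] at h2
      have h3 : σ (w (m + 1)) = σ (w 0) + (if a 1 < m then 1 else 0) - (if a 0 < m then 1 else 0) +
        ((if (m : ℤ) = a 1 then 1 else 0) - (if (m : ℤ) = a 0 then 1 else 0)) := by linarith
      rw [h3]
      split_ifs <;> omega
  have hval' : ∀ m : ℤ, 0 ≤ m → m ≤ N → σ (w m) = σ (w 0) + (if a 1 < m then 1 else 0) -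
      (if a 0 < m then 1 else 0) := by
    intro m hm hm'
    obtain ⟨k, rfl⟩ := Int.eq_ofNat_of_zero_le hm
    exact hval k hm'
  -- left of leg 1 = right of leg 2
  have e1 : σ (w (a 1 + 1)) = σ (w (a 2)) := by
    have h1 := (hlr 1).1
    have h2 := (hlr 2).2
    rw [h.en, h.st, hx] at h1 h2
    exact h1.trans h2.symm
  rw [hval' _ (by have := ha 1; omega) (by have := ha 1; omega),
    hval' _ (ha 2).1 (ha 2).2.le] at e1
  have d01 : a 0 ≠ a 1 := by
    intro he
    have : (0 : ZMod 3) = 1 := h.inj hS hG ht hD hJ (by rw [hx, hx, he])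
    exact absurd this (by decide)
  have d12 : a 1 ≠ a 2 := by
    intro he
    have : (1 : ZMod 3) = 2 := h.inj hS hG ht hD hJ (by rw [hx, hx, he])
    exact absurd this (by decide)
  have d02 : a 0 ≠ a 2 := by
    intro he
    have : (0 : ZMod 3) = 2 := h.inj hS hG ht hD hJ (by rw [hx, hx, he])
    exact absurd this (by decide)
  unfold Cyc
  split_ifs at e1 <;> omega

end legs

/-! ### HNet -/

section hnet

variable {N : Net ℂ}

theorem HNet.hullM (H : HNet S N) : HullM S N.exS := by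
  rintro a b ⟨k, hk⟩ c
  have := H.hex k
  rw [hk] at this
  exact this.2 c

theorem HNet.card (H : HNet S N) : 3 ≤ S.card := by
  obtain ⟨⟨c, hc⟩, -⟩ := H.hex 0
  obtain ⟨o, ho⟩ := mem_delT_iff.1 hc
  have h3 : ({(N.ex 0).1, (N.ex 0).2, c} : Finset ℂ).card = 3 :=
    Finset.card_eq_three.2 ⟨_, _, _, ho.ne.1, ho.ne.2.2, ho.ne.2.1, rfl⟩
  rw [← h3]
  apply Finset.card_le_card
  intro x hx
  simp only [Finset.mem_insert, Finset.mem_singleton] at hx
  rcases hx with rfl | rfl | rfl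
  · exact ho.ma
  · exact ho.mb
  · exact ho.mc

theorem HNet.ex_inj (H : HNet S N) : Function.Injective N.ex := by
  have h := H.ccw
  have key : N.ex 0 ≠ N.ex 1 ∧ N.ex 0 ≠ N.ex 2 ∧ N.ex 1 ≠ N.ex 2 := by
    refine ⟨?_, ?_, ?_⟩ <;> intro he
    · rw [he, sub_self] at h; unfold cr at h; simp at h
    · rw [he, sub_self] at h; unfold cr at h; simp at h
    · rw [he] at h; unfold cr at h; nlinarith
  intro i j hij
  rcases z3 i with rfl | rfl | rfl <;> rcases z3 j with rfl | rfl | rfl <;>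
    first
      | rfl
      | (exfalso
         first
           | exact key.1 hij
           | exact key.1 hij.symm
           | exact key.2.1 hij
           | exact key.2.1 hij.symm
           | exact key.2.2 hij
           | exact key.2.2 hij.symm)

/-- the positions of the marks on the hull cycle -/
theorem HNet.pos (H : HNet S N) {n : ℕ} {w : ℤ → ℂ} (hw : HullCyc S n w) :
    ∃ b : ZMod 3 → ℤ, (∀ i, 0 ≤ b i ∧ b i < n) ∧ (∀ i, N.ex i = (w (b i), w (b i + 1))) ∧
      Cyc (b 0) (b 1) (b 2) := by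
  have h1 : ∀ i, ∃ m : ℤ, (0 ≤ m ∧ m < n) ∧ N.ex i = (w m, w (m + 1)) := by
    intro i
    obtain ⟨m, h1, h2, h3, h4⟩ := hw.all _ _ (H.hex i)
    exact ⟨m, ⟨h1, h2⟩, Prod.ext h3.symm h4.symm⟩
  choose b hb hb' using h1
  refine ⟨b, hb, hb', ?_⟩
  have h := H.ccw
  rw [hb' 0, hb' 1, hb' 2] at h
  exact cyc_of_pos hw (hb 0).1 (hb 0).2 (hb 1).1 (hb 1).2 (hb 2).1 (hb 2).2 h

theorem cyc_perm {b : ZMod 3 → ℤ} {π : ZMod 3 → ZMod 3} (h : Cyc (b 0) (b 1) (b 2))
    (h' : Cyc (b (π 0)) (b (π 1)) (b (π 2))) : ∃ k, ∀ i, π i = i + k := by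
  unfold Cyc at h h'
  refine ⟨π 0, ?_⟩
  have key : π 1 = 1 + π 0 ∧ π 2 = 2 + π 0 := by
    rcases z3 (π 0) with e0 | e0 | e0 <;> rcases z3 (π 1) with e1 | e1 | e1 <;>
      rcases z3 (π 2) with e2 | e2 | e2 <;> rw [e0, e1, e2] at h' ⊢ <;>
      first
        | exact ⟨by decide, by decide⟩
        | (exfalso; omega)
  intro i
  rcases z3 i with rfl | rfl | rfl
  · rw [zero_add]
  · exact key.1
  · exact key.2

/-- explicit legs -/
theorem HNet.legs {t : ℂ × ℂ × ℂ} {J : Finset (ℂ × ℂ)} {π : ZMod 3 → ZMod 3}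
    (hocc : ∀ i, (vt t i, vt t (i + 1)) ∈ J)
    (hE : ∀ i, Ends N.toTrg (rots t) N.exS J (st t i) (N.ex (π i))) :
    ∃ n p, Legs N.toTrg S N.exS t J (fun i => N.ex (π i)) n p := by
  have h1 := fun i => exists_wk (hE i)
  choose n p h1 using h1
  exact ⟨n, p, hocc, fun i => ⟨π i, rfl⟩, fun i => (h1 i).1, fun i => (h1 i).2.1,
    fun i => (h1 i).2.2⟩

/-- **P1**: three legs from `t` end at `ex (i + k)` -/
theorem P1 (H : HNet S N) {t : ℂ × ℂ × ℂ} (ht : t ∈ delT S) {J : Finset (ℂ × ℂ)}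
    (hJ : J ∈ N.tj t) {π : ZMod 3 → ZMod 3} (hocc : ∀ i, (vt t i, vt t (i + 1)) ∈ J)
    (hE : ∀ i, Ends N.toTrg (rots t) N.exS J (st t i) (N.ex (π i))) :
    ∃ k, ∀ i, π i = i + k := by
  obtain ⟨n, p, hL⟩ := HNet.legs (S := S) hocc hE
  obtain ⟨m, w, hw⟩ := hull_cycle H.gp (HNet.card H)
  obtain ⟨b, hb, hb', hcyc⟩ := HNet.pos H hw
  refine cyc_perm hcyc ?_
  exact hL.cyc H.gp H.tri ht (HNet.hullM H) (mem_joins.1 hJ) hw (a := fun i => b (π i))
    (fun i => hb _) (fun i => hb' _)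

/-- `Tri3` in the indexed form -/
theorem tri3_iff {t : ℂ × ℂ × ℂ} {k : ZMod 3} {J : Finset (ℂ × ℂ)} :
    N.Tri3 t k J ↔ (∀ i, (vt t i, vt t (i + 1)) ∈ J) ∧
      ∀ i, Ends N.toTrg (rots t) N.exS J (st t i) (N.ex (i + k)) := by
  unfold Net.Tri3
  constructor
  · rintro ⟨h1, h2, h3, h4, h5, h6⟩
    constructor
    · intro i
      rcases z3 i with rfl | rfl | rfl
      · exact h1
      · exact h2
      · exact h3
    · intro i
      rcases z3 i with rfl | rfl | rfl
      · exact h4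
      · exact h5
      · exact h6
  · rintro ⟨h1, h2⟩
    exact ⟨h1 0, h1 1, h1 2, h2 0, h2 1, h2 2⟩

end hnet

end Crest.Agent.R143.Planarx54
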