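import Crest.Agent.R143.Rel_63
import Crest.Agent.R143.Planar_54

/-!
# Row 143 (S0194): `P1all` (block P, from `Planar_54`) and the relations `RelAt` (helper63)
-/

set_option autoImplicit false

noncomputable section

open scoped Classical

namespace Crest.Agent.R143.Rel2x63

open Crest.Agent.R143.B0x346 Crest.Agent.R143.Oscx63
open Crest.Agent.R143.J1x872 Crest.Agent.R143.Planarx54

theorem sd_eq (t : ℂ × ℂ × ℂ) (i : ZMod 3) : sd t i = (vt t i, vt t (i + 1)) := by
  rcases cases_z3 i with rfl | rfl | rfl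
  · rw [sd0]; rfl
  · rw [sd1]; rfl
  · rw [sd2]; rfl

theorem st_eq (t : ℂ × ℂ × ℂ) (i : ZMod 3) : st t i = sw (sd t i) := by
  rcases cases_z3 i with rfl | rfl | rfl
  · rw [sd0]; rfl
  · rw [sd1]; rfl
  · rw [sd2]; rfl

/-- planarity P1 in the form used by `J1_872` -/
theorem p1all : P1all := by
  intro N S H t ht J hJ hall e he
  obtain ⟨k, hk⟩ := Planarx54.P1 H ht (J := J) (Crest.Agent.R143.JCardx872.mem_joins.2 hJ) (π := e)
    (fun i => by rw [← sd_eq]; exact hall i)
    (fun i => by rw [st_eq]; exact he i)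
  constructor
  · rw [hk 1, hk 0]; ring
  · rw [hk 2, hk 0]; ring

/-- the relations at a triangle (no hypothesis left except nonemptiness at a mark) -/
theorem relAt {S : Finset ℂ} {N : Net ℂ} (hN : HNet S N) {t : ℂ × ℂ × ℂ}
    (ht : t ∈ delT S) (hne : (N.tj t).Nonempty ∨
      ((t.1, t.2.1) ∉ N.exS ∧ (t.2.1, t.2.2) ∉ N.exS ∧ (t.2.2, t.1) ∉ N.exS)) : RelAt N t :=
  Relx63.relAt_of p1all hN ht hne

end Crest.Agent.R143.Rel2x63
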