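import Crest.Agent.R143.EQ2_63
import Crest.Agent.R143.Rel2_63
import Crest.Agent.R143.Loc_922
import Crest.Agent.R143.PP1_831

/-!
# Row 143 (S0194), block EQ, part 4 (deterministic): `Room` from `Env` and M4 (helper63)

* `T5` : the maximum principle, for any set of inner sites
* `room_of_env` : the hypotheses of `EQ2x63.osc_int` on the good event
* `inTri_of` : a point of the inner disc which is on no line through two sites is in an open triangle
-/

set_option autoImplicit false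

noncomputable section

namespace Crest.Agent.R143.EQ4x63

open Set MeasureTheory
open scoped Classical ENNReal
open Crest.ProbabilityR.Voronoi
open Crest.Agent.R143.B0x346 Crest.Agent.R143.B0Dx346 Crest.Agent.R143.Oscx63
open Crest.Agent.R143.DelGx806 Crest.Agent.R143.Circx63 Crest.Agent.R143.Scalx63
open Crest.Agent.R143.EQ2x63 Crest.Agent.R143.Locx922 Crest.Agent.R143.PP1x831

/-- **leaf T5** (maximum principle): `W` a finite set of sites with complete live rings -/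
def T5 : Prop := ∀ (S : Finset ℂ) (N : Net ℂ), HNet S N → ∀ W : Finset ℂ,
  (∀ v ∈ W, ∃ (n : ℕ) (u : ℤ → ℂ), Ring N.toTrg v n u ∧ (∀ i, (v, u i) ∉ N.kl) ∧
    ∀ a b, (v, a, b) ∈ N.T → ∃ i : ℤ, u i = a ∧ u (i + 1) = b) →
  (∀ v ∈ W, ∀ a b, (v, a, b) ∈ delT S → RelAt N (v, a, b)) → MaxP S N W

/-- the side lengths of a triangle with circumradius `r` -/
theorem dm_le {a b c o : ℂ} {r : ℝ} (ha : ‖a - o‖ ≤ r) (hb : ‖b - o‖ ≤ r) (hc : ‖c - o‖ ≤ r) :
    dm (a, b, c) ≤ 2 * r := by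
  have key : ∀ u v : ℂ, ‖u - o‖ ≤ r → ‖v - o‖ ≤ r → ‖u - v‖ ≤ 2 * r := by
    intro u v hu hv
    have := norm_tri u o v
    rw [norm_sub_rev o v] at this
    linarith
  exact max_le (max_le (key _ _ ha hb) (key _ _ hb hc)) (key _ _ hc ha)

variable {D : Dom} {ε d M : ℝ} {ω : Sample}

/-- the sum of the squares of the longest sides -/
theorem sum_dm (hd : 0 < d) (h : Env ε d M D.c D.L ω) {x : ℂ} {k : ℤ} {C : ℝ} (hC : 0 ≤ C)
    (hx : Metric.closedBall x ((2 : ℝ) ^ (k + 1)) ⊆ Metric.closedBall D.c (D.L - 2 * d))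
    (hdk : 2 * d ≤ (2 : ℝ) ^ (k + 1))
    (hM : diamSum (points ε ω) (Metric.ball x ((2 : ℝ) ^ (k + 2))) ≤
      ENNReal.ofReal (C * ((2 : ℝ) ^ (k + 2)) ^ 2)) :
    ∑ t ∈ (delT (D.sites ε ω)).filter
        (fun t => lo x t ≤ (2 : ℝ) ^ (k + 1) ∧ (2 : ℝ) ^ k ≤ hi x t),
      dm t ^ 2 ≤ 64 * C * (4 : ℝ) ^ k := by
  set F := (delT (D.sites ε ω)).filter
    (fun t => lo x t ≤ (2 : ℝ) ^ (k + 1) ∧ (2 : ℝ) ^ k ≤ hi x t) with hF
  set P : Set (ℂ × ℂ × ℂ) := {t : ℂ × ℂ × ℂ | Del (points ε ω) t.1 t.2.1 t.2.2 ∧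
    ((voronoiCell (points ε ω) t.1 ∪ voronoiCell (points ε ω) t.2.1 ∪
      voronoiCell (points ε ω) t.2.2) ∩ Metric.ball x ((2 : ℝ) ^ (k + 2))).Nonempty} with hP
  -- every triangle of `F`
  have key : ∀ t ∈ F, t ∈ P ∧
      ENNReal.ofReal (dm t ^ 2) ≤ 4 * (Metric.ediam (voronoiCell (points ε ω) t.1)) ^ 2 := by
    rintro ⟨a, b, c⟩ ht
    rw [hF, Finset.mem_filter] at ht
    obtain ⟨htS, hlo, -⟩ := ht
    obtain ⟨o', hT⟩ := mem_delT_iff.1 htS
    -- a point of the triangle in the disc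
    obtain ⟨y, hy, he⟩ := (isClosed_cT (a, b, c)).exists_infDist_eq_dist
      ⟨a, (vertex_mem hT.pos).1⟩ x
    have hyx : ‖y - x‖ ≤ (2 : ℝ) ^ (k + 1) := by
      have h1 : lo x (a, b, c) = ‖y - x‖ := by
        unfold lo
        rw [he, dist_comm, dist_eq_norm]
      rw [← h1]; exact hlo
    have hyW : y ∈ Metric.closedBall D.c (D.L - 2 * d) := hx (by
      rw [mem_closedBall_iff_norm]; exact hyx)
    have hyT : InT y a b c := hy
    have hDel : Del (points ε ω) a b c := (Env.mem_delT hd h hyW hyT).1 htS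
    obtain ⟨o, h1, h2, h3, h4, h5, ga, gb, gc⟩ := del_small hd (Env.hol h) hyW
      (InT.inD hT.pos hyT) hDel
    constructor
    · refine ⟨hDel, a, Or.inl (Or.inl ?_), ?_⟩
      · intro s hs
        simp
      · rw [mem_ball_iff_norm]
        have := norm_tri a y x
        have e : (2 : ℝ) ^ (k + 2) = (2 : ℝ) ^ (k + 1) + (2 : ℝ) ^ (k + 1) := by
          rw [show k + 2 = (k + 1) + 1 by ring, zpow_add₀ (by norm_num)]
          ring
        rw [e]
        linarith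
    · have hdm : dm (a, b, c) ≤ 2 * ‖a - o‖ := dm_le le_rfl h1.le h2.le
      have hdm0 : 0 ≤ dm (a, b, c) := le_max_of_le_right (norm_nonneg _)
      have ha : a ∈ voronoiCell (points ε ω) a := fun s hs => by simp
      have ho : o ∈ voronoiCell (points ε ω) a := by
        intro s hs
        rw [norm_sub_rev o a, norm_sub_rev o s]
        exact h3 s hs
      have h6 : ENNReal.ofReal ‖a - o‖ ≤ Metric.ediam (voronoiCell (points ε ω) a) := by
        have := Metric.edist_le_ediam_of_mem ha ho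
        rwa [edist_dist, dist_eq_norm] at this
      calc ENNReal.ofReal (dm (a, b, c) ^ 2) ≤ ENNReal.ofReal (4 * ‖a - o‖ ^ 2) := by
            apply ENNReal.ofReal_le_ofReal
            nlinarith [norm_nonneg (a - o)]
        _ = 4 * (ENNReal.ofReal ‖a - o‖) ^ 2 := by
            rw [ENNReal.ofReal_mul (by norm_num), ENNReal.ofReal_pow (norm_nonneg _)]
            norm_num
        _ ≤ 4 * (Metric.ediam (voronoiCell (points ε ω) a)) ^ 2 := by gcongr
  have hsum : ∑ t ∈ F, ENNReal.ofReal (dm t ^ 2) ≤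
      4 * diamSum (points ε ω) (Metric.ball x ((2 : ℝ) ^ (k + 2))) := by
    have e1 : diamSum (points ε ω) (Metric.ball x ((2 : ℝ) ^ (k + 2))) =
        ∑' t : ℂ × ℂ × ℂ, P.indicator
          (fun t => (Metric.ediam (voronoiCell (points ε ω) t.1)) ^ 2) t := by
      rw [← tsum_subtype]
      rfl
    rw [e1]
    calc ∑ t ∈ F, ENNReal.ofReal (dm t ^ 2)
        ≤ ∑ t ∈ F, 4 * P.indicator
          (fun t => (Metric.ediam (voronoiCell (points ε ω) t.1)) ^ 2) t := by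
          apply Finset.sum_le_sum
          intro t ht
          rw [Set.indicator_of_mem (key t ht).1]
          exact (key t ht).2
      _ = 4 * ∑ t ∈ F, P.indicator
          (fun t => (Metric.ediam (voronoiCell (points ε ω) t.1)) ^ 2) t := by
          rw [Finset.mul_sum]
      _ ≤ _ := by
          gcongr
          exact ENNReal.sum_le_tsum _
  have h7 : ENNReal.ofReal (∑ t ∈ F, dm t ^ 2) ≤ ENNReal.ofReal (64 * C * (4 : ℝ) ^ k) := by
    rw [ENNReal.ofReal_sum_of_nonneg fun t _ => sq_nonneg _]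
    refine hsum.trans ((mul_le_mul_right hM 4).trans (le_of_eq ?_))
    have e2 : (4 : ℝ≥0∞) = ENNReal.ofReal 4 := by norm_num
    rw [e2, ← ENNReal.ofReal_mul (by norm_num)]
    congr 1
    have e3 : (2 : ℝ) ^ (k + 2) = (2 : ℝ) ^ k * 4 := by
      rw [zpow_add₀ (by norm_num)]; norm_num
    have e4 : (4 : ℝ) ^ k = (2 : ℝ) ^ k * (2 : ℝ) ^ k := by
      rw [← mul_zpow]; norm_num
    rw [e3, e4]
    ring
  exact (ENNReal.ofReal_le_ofReal_iff (by positivity)).1 h7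

/-- **the good event gives `Room`** -/
theorem room_of_env (hT5 : T5) (hd : 0 < d) (h : Env ε d M D.c D.L ω)
    (hN : HNet (D.sites ε ω) (D.netS (D.sites ε ω)))
    (hen : ∀ U ⊆ delT (D.sites ε ω), ∑ t ∈ U, ‖(D.netS (D.sites ε ω)).Q t‖ ^ 2 ≤ 12)
    {x : ℂ} {ρ0 : ℝ} (hr1 : Disjoint (Metric.closedBall x ρ0) D.out)
    (hr2 : Metric.closedBall x ρ0 ⊆ Metric.closedBall D.c (D.L / 2)) {k0 : ℤ} {n : ℕ}
    (hn : 0 < n) (hk : (2 : ℝ) ^ k0 + 3 * d ≤ ρ0) (hdL : 4 * d ≤ D.L)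
    (hdn : 2 * d ≤ (2 : ℝ) ^ (k0 - n)) {C : ℝ} (hC : 0 ≤ C)
    (hM : ∀ k ∈ Finset.Ico (k0 - n) k0,
      diamSum (points ε ω) (Metric.ball x ((2 : ℝ) ^ (k + 2))) ≤
        ENNReal.ofReal (C * ((2 : ℝ) ^ (k + 2)) ^ 2)) :
    EQ2x63.Room (D.sites ε ω) (D.netS (D.sites ε ω)) x k0 n (2 * d) (64 * C) := by
  set S := D.sites ε ω with hS
  set W := Metric.closedBall D.c (D.L - 2 * d) with hW
  have hgp : GP (S : Set ℂ) := hN.gp
  have hH : Hol (S : Set ℂ) W d := Env.hol_sites h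
  have hTN : (D.netS S).T = delT S := hN.tri
  have hsubW : Metric.closedBall x ρ0 ⊆ W := by
    refine hr2.trans (Metric.closedBall_subset_closedBall ?_)
    linarith
  have hk' : Metric.closedBall x ((2 : ℝ) ^ k0) ⊆ Metric.closedBall x ρ0 :=
    Metric.closedBall_subset_closedBall (by linarith)
  have hkd : ∀ y ∈ Metric.closedBall x ((2 : ℝ) ^ k0), ∀ u, ‖u - y‖ < 2 * d →
      u ∈ W ∧ ∀ p, ‖p - u‖ < d → p ∉ D.out := by
    intro y hy u hu
    rw [mem_closedBall_iff_norm] at hy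
    have h1 := norm_tri u y x
    refine ⟨hsubW ?_, fun p hp => ?_⟩
    · rw [mem_closedBall_iff_norm]; linarith
    · have h2 := norm_tri p u x
      have hp' : p ∈ Metric.closedBall x ρ0 := by
        rw [mem_closedBall_iff_norm]; linarith
      exact Set.disjoint_left.1 hr1 hp'
  -- triangles meeting the disc
  have htri : ∀ a b c : ℂ, (a, b, c) ∈ delT S → ∀ y ∈ Metric.closedBall x ((2 : ℝ) ^ k0),
      InT y a b c → (‖a - b‖ < 2 * d ∧ ‖b - c‖ < 2 * d ∧ ‖c - a‖ < 2 * d) ∧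
        (‖a - y‖ < 2 * d ∧ ‖b - y‖ < 2 * d ∧ ‖c - y‖ < 2 * d) := by
    intro a b c ht y hy hyT
    obtain ⟨o', hT⟩ := mem_delT_iff.1 ht
    have hDel : Del (S : Set ℂ) a b c := mem_delT.1 ht
    have hyW : y ∈ W := hsubW (hk' hy)
    obtain ⟨o, h1, h2, h3, h4, h5, ga, gb, gc⟩ := del_small hd hH hyW
      (InT.inD hT.pos hyT) hDel
    exact ⟨del_side hd hH hyW (InT.inD hT.pos hyT) hDel, ga, gb, gc⟩
  have hrel : ∀ t ∈ delT S, (cT t ∩ Metric.closedBall x ((2 : ℝ) ^ k0)).Nonempty →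
      RelAt (D.netS S) t := by
    rintro ⟨a, b, c⟩ ht ⟨y, hy1, hy2⟩
    obtain ⟨-, g1, g2, g3⟩ := htri a b c ht y hy2 hy1
    refine Rel2x63.relAt hN ht (Or.inr ⟨?_, ?_, ?_⟩)
    · rintro ⟨k, hk⟩
      exact (mark_W hd hN hH (hkd y hy2 a g1).1 k).1 hk
    · rintro ⟨k, hk⟩
      exact (mark_W hd hN hH (hkd y hy2 b g2).1 k).1 hk
    · rintro ⟨k, hk⟩
      exact (mark_W hd hN hH (hkd y hy2 c g3).1 k).1 hk
  have hlive : ∀ u v : ℂ, u ∈ W → (∀ p, ‖p - u‖ < d → p ∉ D.out) → (u, v) ∉ (D.netS S).kl := by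
    intro u v huW hp hkill
    have h1 : (u, v) ∈ D.kl S := ((netS_kl_W hd hN hH huW).1).1 hkill
    obtain ⟨p, hpv, hpo⟩ := h1
    exact hp p (vedge_sub_ball hd hH huW hpv).1 hpo
  constructor
  · exact hn
  · positivity
  · -- mesh
    rintro ⟨a, b, c⟩ ht ⟨y, hy1, hy2⟩
    obtain ⟨⟨h1, h2, h3⟩, -⟩ := htri a b c ht y hy2 hy1
    exact max_le (max_le h1.le h2.le) h3.le
  · -- cover
    intro y hy
    obtain ⟨a, b, c, ht, hy'⟩ := exists_tri_W hgp hd hH (hsubW (hk' hy))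
    exact ⟨(a, b, c), ht, hy'⟩
  · -- live
    intro u v w ht y hy hseg
    obtain ⟨o', hT⟩ := mem_delT_iff.1 ht
    have hyT : InT y u v w := seg_sub_cT hT.pos hseg
    obtain ⟨-, g1, -, -⟩ := htri u v w ht y hy hyT
    obtain ⟨h1, h2⟩ := hkd y hy u g1
    exact hlive u v h1 h2
  · exact hrel
  · exact hen
  · -- M4
    intro k hk
    have hk2 := Finset.mem_Ico.1 hk
    apply sum_dm hd h hC _ _ (hM k hk)
    · refine (Metric.closedBall_subset_closedBall ?_).trans (hk'.trans hsubW)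
      exact zpow_le_zpow_right₀ (by norm_num) (by omega)
    · exact hdn.trans (zpow_le_zpow_right₀ (by norm_num) (by omega))
  · -- maximum principle
    intro ρ hρ hρk
    apply hT5 S _ hN
    swap
    · intro v hv a b hab
      rw [Finset.mem_filter] at hv
      obtain ⟨o', hT⟩ := mem_delT_iff.1 hab
      exact hrel _ hab ⟨v, (vertex_mem hT.pos).1, by
        rw [mem_closedBall_iff_norm]; linarith [hv.2]⟩
    intro v hv
    rw [Finset.mem_filter] at hv
    have hvb : v ∈ Metric.closedBall x ((2 : ℝ) ^ k0) := by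
      rw [mem_closedBall_iff_norm]; linarith [hv.2]
    obtain ⟨h1, h2⟩ := hkd v hvb v (by simp; linarith)
    obtain ⟨m, u, hu, hu'⟩ := ring_W hgp hd hH h1 hv.1 hTN
    refine ⟨m, u, hu, fun i => hlive v (u i) h1 h2, fun a b hab => ?_⟩
    rw [hTN] at hab
    exact hu' a b hab

/-- a point on no line through two sites is in an open triangle -/
theorem inTri_of {S : Finset ℂ} {z : ℂ} {t : ℂ × ℂ × ℂ} (ht : t ∈ delT S) (hz : z ∈ cT t)
    (hl : ∀ a ∈ S, ∀ b ∈ S, a ≠ b → cr (b - a) (z - a) ≠ 0) :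
    ∃ t ∈ delT S, InTri z t.1 t.2.1 t.2.2 := by
  obtain ⟨a, b, c⟩ := t
  obtain ⟨o, hT⟩ := mem_delT_iff.1 ht
  obtain ⟨n1, n2, n3⟩ := hT.ne
  obtain ⟨z1, z2, z3⟩ := hz
  exact ⟨(a, b, c), ht, lt_of_le_of_ne z1 (hl a hT.ma b hT.mb n1).symm,
    lt_of_le_of_ne z2 (hl b hT.mb c hT.mc n2).symm,
    lt_of_le_of_ne z3 (hl c hT.mc a hT.ma n3.symm).symm⟩

end Crest.Agent.R143.EQ4x63
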