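import Crest.Agent.R143.DelR_806

/-!
# Row 143, block D, leaf D1 (helper722)

* `Dns S c L d` : finite set of sites in general position, in the disc `B(c, L)`, every ball of
  radius `d` well inside the disc contains a site; `dns_of_env`
* `edge_dist`   : a hull edge has distance `≥ L - 2 d` from the centre; `edge_len` : length `≤ 4 √(L d)`
* `crossRay_exists`, `crossRay_near` : the hull edge crossed by a ray from the centre
* `lt_L`, `ang_sep`, `q_sep`, `q_ccw` : the directions of the tentacles are `2 δ / L` apart and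
  counterclockwise
* `d1`          : **D1**, the network of a domain is an `HNet`
-/

set_option autoImplicit false

noncomputable section

open scoped Classical

namespace Crest.Agent.R143.DomAx722

open Crest.ProbabilityR.Voronoi MeasureTheory
open Crest.Agent.R143.B0x346 Crest.Agent.R143.B0Dx346 Crest.Agent.R143.DelGx806
open Crest.Agent.R143.DelRx806

variable {S : Finset ℂ}

/-! ### cross product -/

theorem cr_im (u v : ℂ) : cr u v = ((starRingEnd ℂ) u * v).im := by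
  unfold cr
  simp only [Complex.mul_im, Complex.conj_re, Complex.conj_im]
  ring

theorem abs_cr_le (u v : ℂ) : |cr u v| ≤ ‖u‖ * ‖v‖ := by
  rw [cr_im]
  refine (Complex.abs_im_le_norm _).trans ?_
  rw [norm_mul, Complex.norm_conj]

theorem cr_le (u v : ℂ) : cr u v ≤ ‖u‖ * ‖v‖ := (le_abs_self _).trans (abs_cr_le u v)

theorem cr_add_left (u v w : ℂ) : cr (u + v) w = cr u w + cr v w := by
  unfold cr; simp only [Complex.add_re, Complex.add_im]; ring

theorem cr_add_right (u v w : ℂ) : cr u (v + w) = cr u v + cr u w := by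
  unfold cr; simp only [Complex.add_re, Complex.add_im]; ring

theorem cr_smul_right (t : ℝ) (u v : ℂ) : cr u ((t : ℂ) * v) = t * cr u v := by
  unfold cr; simp; ring

theorem cr_smul_left (t : ℝ) (u v : ℂ) : cr ((t : ℂ) * u) v = t * cr u v := by
  unfold cr; simp; ring

theorem cr_self (u : ℂ) : cr u u = 0 := by unfold cr; ring

theorem sq_norm (u : ℂ) : ‖u‖ ^ 2 = u.re ^ 2 + u.im ^ 2 := by
  rw [Complex.sq_norm, Complex.normSq_apply]; ring

/-! ### dense sets of sites -/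

/-- sites in general position in the disc, every ball of radius `d` well inside contains one -/
structure Dns (S : Finset ℂ) (c : ℂ) (L d : ℝ) : Prop where
  gp : GP (S : Set ℂ)
  dpos : 0 < d
  dL : 8 * d ≤ L
  sub : ∀ s ∈ S, ‖s - c‖ ≤ L
  hole : ∀ z : ℂ, ‖z - c‖ ≤ L - d → ∃ s ∈ S, ‖s - z‖ < d

theorem gp_mono {A B : Set ℂ} (h : A ⊆ B) (hB : GP B) : GP A :=
  ⟨fun a ha b hb c hc => hB.line a (h ha) b (h hb) c (h hc),
    fun a ha b hb c hc e he => hB.circ a (h ha) b (h hb) c (h hc) e (h he)⟩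

theorem mem_sites {D : Dom} {ε : ℝ} {ω : Sample}
    (h : (points ε ω ∩ Metric.closedBall D.c D.L).Finite) {s : ℂ} :
    s ∈ D.sites ε ω ↔ s ∈ points ε ω ∧ ‖s - D.c‖ ≤ D.L := by
  unfold Dom.sites
  rw [dif_pos h, Set.Finite.mem_toFinset, Set.mem_inter_iff, Metric.mem_closedBall, dist_eq_norm]

theorem dns_of_env {D : Dom} {ε d M : ℝ} {ω : Sample} (hL : 0 < D.L) (hdL : 8 * d ≤ D.L)
    (hE : Env ε d M D.c D.L ω) : Dns (D.sites ε ω) D.c D.L d := by
  have hd : 0 < d := by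
    by_contra hcon
    push Not at hcon
    obtain ⟨s, -, hs⟩ := hE.hole D.c (by rw [Metric.mem_closedBall, dist_self]; linarith)
    rw [Metric.mem_ball] at hs
    have := dist_nonneg (x := s) (y := D.c)
    linarith
  refine ⟨gp_mono (fun s hs => ((mem_sites hE.fin).1 hs).1) hE.gp, hd, hdL,
    fun s hs => ((mem_sites hE.fin).1 hs).2, fun z hz => ?_⟩
  obtain ⟨s, hs1, hs2⟩ := hE.hole z (by rw [Metric.mem_closedBall, dist_eq_norm]; exact hz)
  rw [Metric.mem_ball, dist_eq_norm] at hs2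
  refine ⟨s, (mem_sites hE.fin).2 ⟨hs1, ?_⟩, hs2⟩
  calc ‖s - D.c‖ = ‖(s - z) + (z - D.c)‖ := by congr 1; ring
    _ ≤ ‖s - z‖ + ‖z - D.c‖ := norm_add_le _ _
    _ ≤ D.L := by linarith

theorem Dns.card {c : ℂ} {L d : ℝ} (h : Dns S c L d) : 3 ≤ S.card := by
  have hd := h.dpos
  have hL := h.dL
  have hn : ∀ u : ℂ, ‖u‖ = 1 → ‖c + (L / 2 : ℝ) * u - c‖ ≤ L - d := by
    intro u hu
    rw [add_sub_cancel_left, norm_mul, hu, Complex.norm_real, Real.norm_eq_abs,
      abs_of_nonneg (by linarith)]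
    linarith
  obtain ⟨s1, h1, h1'⟩ := h.hole _ (hn 1 (by simp))
  obtain ⟨s2, h2, h2'⟩ := h.hole _ (hn (-1) (by simp))
  obtain ⟨s3, h3, h3'⟩ := h.hole _ (hn Complex.I (by simp))
  have key : ∀ u v s : ℂ, 1 ≤ ‖u - v‖ → ‖s - (c + (L / 2 : ℝ) * u)‖ < d →
      ‖s - (c + (L / 2 : ℝ) * v)‖ < d → False := by
    intro u v s huv hu hv
    have e : ((L / 2 : ℝ) : ℂ) * (u - v) =
        (s - (c + (L / 2 : ℝ) * v)) - (s - (c + (L / 2 : ℝ) * u)) := by ring
    have := norm_sub_le (s - (c + (L / 2 : ℝ) * v)) (s - (c + (L / 2 : ℝ) * u))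
    rw [← e, norm_mul, Complex.norm_real, Real.norm_eq_abs, abs_of_nonneg (by linarith)] at this
    nlinarith
  have n12 : s1 ≠ s2 := by
    rintro rfl
    refine key 1 (-1) s1 ?_ h1' h2'
    norm_num
  have n13 : s1 ≠ s3 := by
    rintro rfl
    refine key 1 Complex.I s1 ?_ h1' h3'
    have : |((1 : ℂ) - Complex.I).re| ≤ ‖(1 : ℂ) - Complex.I‖ := Complex.abs_re_le_norm _
    simpa using this
  have n23 : s2 ≠ s3 := by
    rintro rfl
    refine key (-1) Complex.I s2 ?_ h2' h3'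
    have : |(-(1 : ℂ) - Complex.I).re| ≤ ‖-(1 : ℂ) - Complex.I‖ := Complex.abs_re_le_norm _
    simpa using this
  have hsub : ({s1, s2, s3} : Finset ℂ) ⊆ S := by
    intro x hx
    simp only [Finset.mem_insert, Finset.mem_singleton] at hx
    rcases hx with rfl | rfl | rfl
    · exact h1
    · exact h2
    · exact h3
  have hc : ({s1, s2, s3} : Finset ℂ).card = 3 := by
    rw [Finset.card_insert_of_notMem, Finset.card_insert_of_notMem, Finset.card_singleton]
    · simpa using n23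
    · simp only [Finset.mem_insert, Finset.mem_singleton, not_or]
      exact ⟨n12, n13⟩
  rw [← hc]
  exact Finset.card_le_card hsub

/-! ### hull edges -/

/-- **a hull edge is far from the centre** -/
theorem edge_dist {c : ℂ} {L d : ℝ} (hD : Dns S c L d) {a b : ℂ} (h : hullE S a b) :
    (L - 2 * d) * ‖b - a‖ ≤ cr (b - a) (c - a) := by
  have hd := hD.dpos
  have hL := hD.dL
  have hab : b - a ≠ 0 := sub_ne_zero.2 (hullE.ne h).symm
  have hn : 0 < ‖b - a‖ := norm_pos_iff.2 hab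
  set v := b - a with hv
  set n : ℂ := ((-(1 / ‖v‖) : ℝ) : ℂ) * (Complex.I * v) with hnn
  have hn1 : ‖n‖ = 1 := by
    rw [hnn, norm_mul, norm_mul, Complex.norm_I, one_mul, Complex.norm_real, Real.norm_eq_abs,
      abs_neg, abs_of_pos (by positivity)]
    field_simp
  have hcn : cr v n = -‖v‖ := by
    rw [hnn, cr_smul_right]
    have : cr v (Complex.I * v) = ‖v‖ ^ 2 := by
      rw [sq_norm]; unfold cr; simp; ring
    rw [this]
    field_simp
  obtain ⟨s, hs, hs'⟩ := hD.hole (c + ((L - d : ℝ) : ℂ) * n) (by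
    rw [add_sub_cancel_left, norm_mul, hn1, Complex.norm_real, Real.norm_eq_abs,
      abs_of_nonneg (by linarith), mul_one])
  have h1 := hull_side h s hs
  rw [← hv] at h1
  have e : s - a = (c - a) + (((L - d : ℝ) : ℂ) * n + (s - (c + ((L - d : ℝ) : ℂ) * n))) := by ring
  rw [e, cr_add_right, cr_add_right, cr_smul_right, hcn] at h1
  have h2 := cr_le v (s - (c + ((L - d : ℝ) : ℂ) * n))
  have h3 : ‖v‖ * ‖s - (c + ((L - d : ℝ) : ℂ) * n)‖ ≤ ‖v‖ * d :=
    mul_le_mul_of_nonneg_left hs'.le hn.le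
  nlinarith

/-- **a hull edge is short** -/
theorem edge_len {c : ℂ} {L d : ℝ} (hD : Dns S c L d) {a b : ℂ} (h : hullE S a b) :
    ‖b - a‖ ≤ 4 * Real.sqrt (L * d) := by
  have hd := hD.dpos
  have hL := hD.dL
  have hn : 0 < ‖b - a‖ := norm_pos_iff.2 (sub_ne_zero.2 (hullE.ne h).symm)
  have h0 := edge_dist hD h
  have ha := hD.sub a (hullE.mem h).1
  have hb := hD.sub b (hullE.mem h).2
  have hp : ‖b - a‖ ^ 2 + ‖(a - c) + (b - c)‖ ^ 2 = 2 * ‖a - c‖ ^ 2 + 2 * ‖b - c‖ ^ 2 := by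
    rw [sq_norm, sq_norm, sq_norm, sq_norm]
    simp only [Complex.sub_re, Complex.sub_im, Complex.add_re, Complex.add_im]
    ring
  have h1 := abs_cr_le (b - a) ((a - c) + (b - c))
  have h2 : cr (b - a) ((a - c) + (b - c)) = - (2 * cr (b - a) (c - a)) := by
    unfold cr
    simp only [Complex.sub_re, Complex.sub_im, Complex.add_re, Complex.add_im]
    ring
  rw [h2, abs_neg] at h1
  have h3 : 2 * ((L - 2 * d) * ‖b - a‖) ≤ ‖b - a‖ * ‖(a - c) + (b - c)‖ :=
    (mul_le_mul_of_nonneg_left h0 zero_le_two).trans ((le_abs_self _).trans h1)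
  have h4 : 2 * (L - 2 * d) ≤ ‖(a - c) + (b - c)‖ := by
    by_contra hcon
    push Not at hcon
    have := mul_lt_mul_of_pos_left hcon hn
    nlinarith
  have h5 : (2 * (L - 2 * d)) ^ 2 ≤ ‖(a - c) + (b - c)‖ ^ 2 :=
    pow_le_pow_left₀ (by linarith) h4 2
  have h6 : ‖a - c‖ ^ 2 ≤ L ^ 2 := pow_le_pow_left₀ (norm_nonneg _) ha 2
  have h7 : ‖b - c‖ ^ 2 ≤ L ^ 2 := pow_le_pow_left₀ (norm_nonneg _) hb 2
  have h8 : ‖b - a‖ ^ 2 ≤ (4 * Real.sqrt (L * d)) ^ 2 := by
    rw [mul_pow, Real.sq_sqrt (by nlinarith)]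
    nlinarith [sq_nonneg d]
  exact le_of_sq_le_sq h8 (by positivity)

/-! ### the ray from the centre -/

/-- barycentric coordinates in a closed triangle -/
theorem inT_bary {a b c x : ℂ} (hp : 0 < cr (b - a) (c - a)) (hx : InT x a b c) :
    ∃ α β γ : ℝ, 0 ≤ α ∧ 0 ≤ β ∧ 0 ≤ γ ∧ α + β + γ = 1 ∧ x = α * a + β * b + γ * c := by
  obtain ⟨x1, x2, x3⟩ := hx
  have e0 := bary a b c x 1 0 0
  have e1 := bary a b c x 0 1 0
  have e2 := bary a b c x 0 0 1
  refine ⟨cr (c - b) (x - b) / cr (b - a) (c - a), cr (a - c) (x - c) / cr (b - a) (c - a),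
    cr (b - a) (x - a) / cr (b - a) (c - a), by positivity, by positivity, by positivity, ?_, ?_⟩
  · rw [← add_div, ← add_div, div_eq_one_iff_eq hp.ne']
    linarith
  · apply Complex.ext
    · simp only [Complex.add_re, Complex.mul_re, Complex.ofReal_re, Complex.ofReal_im, zero_mul,
        sub_zero]
      field_simp
      linarith
    · simp only [Complex.add_im, Complex.mul_im, Complex.ofReal_re, Complex.ofReal_im, zero_mul,
        add_zero]
      field_simp
      linarith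

theorem inT_ball {a b c x z : ℂ} {r : ℝ} (hp : 0 < cr (b - a) (c - a)) (hx : InT x a b c)
    (ha : ‖a - z‖ ≤ r) (hb : ‖b - z‖ ≤ r) (hc : ‖c - z‖ ≤ r) : ‖x - z‖ ≤ r := by
  obtain ⟨α, β, γ, h1, h2, h3, h4, rfl⟩ := inT_bary hp hx
  have e : (α : ℂ) * a + β * b + γ * c - z = α * (a - z) + β * (b - z) + γ * (c - z) := by
    have : ((α + β + γ : ℝ) : ℂ) = 1 := by rw [h4]; simp
    push_cast at this
    linear_combination z * this
  rw [e]
  calc ‖(α : ℂ) * (a - z) + β * (b - z) + γ * (c - z)‖ ≤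
      ‖(α : ℂ) * (a - z)‖ + ‖(β : ℂ) * (b - z)‖ + ‖(γ : ℂ) * (c - z)‖ := norm_add₃_le
    _ = α * ‖a - z‖ + β * ‖b - z‖ + γ * ‖c - z‖ := by
        rw [norm_mul, norm_mul, norm_mul, Complex.norm_real, Complex.norm_real, Complex.norm_real,
          Real.norm_eq_abs, Real.norm_eq_abs, Real.norm_eq_abs, abs_of_nonneg h1,
          abs_of_nonneg h2, abs_of_nonneg h3]
    _ ≤ α * r + β * r + γ * r := by gcongr
    _ = r := by rw [← add_mul, ← add_mul, h4, one_mul]

/-- a point of the hull on the line of a hull edge is on the edge -/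
theorem mem_edge (hS : GP (S : Set ℂ)) (h3 : 3 ≤ S.card) {a b x : ℂ} (h : hullE S a b)
    (hx : InHull S x) (h0 : cr (b - a) (x - a) = 0) : x ∈ segment ℝ a b := by
  obtain ⟨a', b', c', o, hT, hx', -⟩ := cover hS h3 hx
  obtain ⟨α, β, γ, h1, h2, h3, h4, hxe⟩ := inT_bary hT.pos hx'
  have hsum : α * cr (b - a) (a' - a) + β * cr (b - a) (b' - a) + γ * cr (b - a) (c' - a) = 0 := by
    rw [← h0, hxe]
    have : γ = 1 - α - β := by linarith
    subst this
    unfold cr
    simp only [Complex.sub_re, Complex.sub_im, Complex.add_re, Complex.add_im, Complex.mul_re,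
      Complex.mul_im, Complex.ofReal_re, Complex.ofReal_im]
    ring
  have ka := mul_nonneg h1 (hull_side h a' hT.ma)
  have kb := mul_nonneg h2 (hull_side h b' hT.mb)
  have kc := mul_nonneg h3 (hull_side h c' hT.mc)
  have key : ∀ (l : ℝ) (s : ℂ), s ∈ S → l * cr (b - a) (s - a) = 0 →
      ∃ w ∈ segment ℝ a b, (l : ℂ) * s = l * w := by
    intro l s hs hl
    rcases mul_eq_zero.1 hl with h | h'
    · exact ⟨a, left_mem_segment ℝ a b, by rw [h]; simp⟩
    · by_cases e1 : a = s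
      · exact ⟨a, left_mem_segment ℝ a b, by rw [e1]⟩
      by_cases e2 : b = s
      · exact ⟨b, right_mem_segment ℝ a b, by rw [e2]⟩
      have := hull_side_lt hS h hs e1 e2
      linarith
  obtain ⟨w1, hw1, e1⟩ := key α a' hT.ma (by linarith)
  obtain ⟨w2, hw2, e2⟩ := key β b' hT.mb (by linarith)
  obtain ⟨w3, hw3, e3⟩ := key γ c' hT.mc (by linarith)
  have hc := convex_segment (𝕜 := ℝ) a b
  have := hc.sum_mem (t := (Finset.univ : Finset (Fin 3))) (w := ![α, β, γ]) (z := ![w1, w2, w3])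
    (by intro i _; fin_cases i <;> simpa) (by rw [Fin.sum_univ_three]; simpa using h4)
    (by intro i _; fin_cases i <;> simpa)
  rw [Fin.sum_univ_three] at this
  simp only [Matrix.cons_val_zero, Matrix.cons_val_one, Matrix.cons_val, Complex.real_smul] at this
  rw [hxe, e1, e2, e3]
  exact this

/-- **the ray from the centre crosses a hull edge** -/
theorem crossRay_exists {c : ℂ} {L d : ℝ} (hD : Dns S c L d) {q : ℂ} (hq : ‖q‖ = 1) :
    ∃ p, crossRay S c q p := by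
  have hL := hD.dL
  have hd := hD.dpos
  set E : Finset (ℂ × ℂ) := (S ×ˢ S).filter fun e => hullE S e.1 e.2 with hE
  have memE : ∀ a b, hullE S a b → (a, b) ∈ E := fun a b h => by
    rw [hE, Finset.mem_filter, Finset.mem_product]
    exact ⟨hullE.mem h, h⟩
  set E' : Finset (ℂ × ℂ) := E.filter fun e => cr (e.2 - e.1) q < 0 with hE'
  have hA : ∀ a b, hullE S a b → 0 < cr (b - a) (c - a) := fun a b h => by
    have h1 := edge_dist hD h
    have : 0 < ‖b - a‖ := norm_pos_iff.2 (sub_ne_zero.2 (hullE.ne h).symm)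
    exact lt_of_lt_of_le (mul_pos (by linarith) this) h1
  have hexp : ∀ (a b : ℂ) (t : ℝ), cr (b - a) (c + t * q - a) =
      cr (b - a) (c - a) + t * cr (b - a) q := by
    intro a b t
    have : c + t * q - a = (c - a) + (t : ℂ) * q := by ring
    rw [this, cr_add_right, cr_smul_right]
  have hbd : ∀ t : ℝ, 0 ≤ t → InHull S (c + t * q) → t ≤ L := by
    intro t ht hx
    obtain ⟨a', b', c', o, hT, hx', -⟩ := cover hD.gp hD.card hx
    have := inT_ball hT.pos hx' (hD.sub _ hT.ma) (hD.sub _ hT.mb) (hD.sub _ hT.mc)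
    rw [add_sub_cancel_left, norm_mul, hq, Complex.norm_real, Real.norm_eq_abs, abs_of_nonneg ht,
      mul_one] at this
    exact this
  have hne : E'.Nonempty := by
    by_contra hcon
    rw [Finset.not_nonempty_iff_eq_empty] at hcon
    have hall : ∀ a b, hullE S a b → 0 ≤ cr (b - a) q := by
      intro a b h
      by_contra h'
      push Not at h'
      have : (a, b) ∈ E' := Finset.mem_filter.2 ⟨memE a b h, h'⟩
      rw [hcon] at this
      exact absurd this (Finset.notMem_empty _)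
    have := hbd (L + 1) (by linarith) (fun a b h => by
      rw [hexp]
      have h1 := hA a b h
      have h2 := mul_nonneg (show (0 : ℝ) ≤ L + 1 by linarith) (hall a b h)
      linarith)
    linarith
  obtain ⟨⟨a, b⟩, hab, hmin⟩ := Finset.exists_min_image E'
    (fun e => cr (e.2 - e.1) (c - e.1) / (-cr (e.2 - e.1) q)) hne
  dsimp only at hmin
  obtain ⟨hab1, hB⟩ := Finset.mem_filter.1 hab
  have h := (Finset.mem_filter.1 hab1).2
  dsimp only at hB h
  set t : ℝ := cr (b - a) (c - a) / (-cr (b - a) q) with ht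
  have ht0 : 0 < t := div_pos (hA a b h) (by linarith)
  have hin : InHull S (c + t * q) := by
    intro a' b' h'
    rw [hexp]
    have h1 := hA a' b' h'
    rcases le_or_gt 0 (cr (b' - a') q) with h2 | h2
    · have := mul_nonneg ht0.le h2
      linarith
    · have h3 := hmin (a', b') (Finset.mem_filter.2 ⟨memE _ _ h', h2⟩)
      dsimp only at h3
      rw [le_div_iff₀ (by linarith)] at h3
      linarith
  have hzero : cr (b - a) (c + t * q - a) = 0 := by
    rw [hexp, ht]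
    have : cr (b - a) q ≠ 0 := hB.ne
    field_simp
    ring
  exact ⟨(a, b), h, t, ht0.le, mem_edge hD.gp hD.card h hin hzero⟩

/-- **the hull edge crossed by a ray is close to the end of the ray** -/
theorem crossRay_near {c : ℂ} {L d : ℝ} (hD : Dns S c L d) {q : ℂ} (hq : ‖q‖ = 1) {p : ℂ × ℂ}
    (hp : crossRay S c q p) : ‖mid p - (c + L * q)‖ ≤ 4 * Real.sqrt (L * d) := by
  have hL := hD.dL
  have hd := hD.dpos
  obtain ⟨h, t, ht0, ht⟩ := hp
  obtain ⟨a, b⟩ := p
  dsimp only at h ht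
  have hn : 0 < ‖b - a‖ := norm_pos_iff.2 (sub_ne_zero.2 (hullE.ne h).symm)
  have h1 := edge_dist hD h
  have h2 := edge_len hD h
  rw [segment_eq_image] at ht
  obtain ⟨r, ⟨hr0, hr1⟩, hr⟩ := ht
  simp only [Complex.real_smul] at hr
  have hr' : c + t * q = a + (r : ℂ) * (b - a) := by rw [← hr]; push_cast; ring
  have hzero : cr (b - a) (c + t * q - a) = 0 := by
    rw [hr', add_sub_cancel_left, cr_smul_right, cr_self, mul_zero]
  have hexp : cr (b - a) (c + t * q - a) = cr (b - a) (c - a) + t * cr (b - a) q := by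
    have : c + t * q - a = (c - a) + (t : ℂ) * q := by ring
    rw [this, cr_add_right, cr_smul_right]
  have h3 := abs_cr_le (b - a) q
  rw [hq, mul_one] at h3
  have h3' := neg_abs_le (cr (b - a) q)
  have ht1 : L - 2 * d ≤ t := by
    by_contra hcon
    push Not at hcon
    have h5 : t * (-cr (b - a) q) ≤ t * ‖b - a‖ := mul_le_mul_of_nonneg_left (by linarith) ht0
    have h6 : t * ‖b - a‖ < (L - 2 * d) * ‖b - a‖ := mul_lt_mul_of_pos_right hcon hn
    nlinarith
  have ht2 : t ≤ L := by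
    have e : c + t * q - c = (((1 - r : ℝ) : ℂ)) * (a - c) + (r : ℂ) * (b - c) := by
      rw [hr']; push_cast; ring
    have h7 : ‖c + t * q - c‖ = t := by
      rw [add_sub_cancel_left, norm_mul, hq, Complex.norm_real, Real.norm_eq_abs,
        abs_of_nonneg ht0, mul_one]
    rw [← h7, e]
    have ha := hD.sub a (hullE.mem h).1
    have hb := hD.sub b (hullE.mem h).2
    calc ‖(((1 - r : ℝ) : ℂ)) * (a - c) + (r : ℂ) * (b - c)‖ ≤
        ‖(((1 - r : ℝ) : ℂ)) * (a - c)‖ + ‖(r : ℂ) * (b - c)‖ := norm_add_le _ _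
      _ = (1 - r) * ‖a - c‖ + r * ‖b - c‖ := by
          rw [norm_mul, norm_mul, Complex.norm_real, Complex.norm_real, Real.norm_eq_abs,
            Real.norm_eq_abs, abs_of_nonneg hr0, abs_of_nonneg (by linarith)]
      _ ≤ (1 - r) * L + r * L := by gcongr
      _ = L := by ring
  have e : mid (a, b) - (c + L * q) = ((1 / 2 - r : ℝ) : ℂ) * (b - a) +
      ((t - L : ℝ) : ℂ) * q := by
    unfold mid
    have : c = a + (r : ℂ) * (b - a) - t * q := by rw [← hr']; ring
    rw [this]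
    push_cast
    ring
  rw [e]
  have hsq : d ≤ Real.sqrt (L * d) := by
    rw [show d = Real.sqrt (d * d) by rw [Real.sqrt_mul_self hd.le]]
    apply Real.sqrt_le_sqrt
    rw [Real.sqrt_mul_self hd.le]
    nlinarith
  calc ‖((1 / 2 - r : ℝ) : ℂ) * (b - a) + ((t - L : ℝ) : ℂ) * q‖ ≤
      ‖((1 / 2 - r : ℝ) : ℂ) * (b - a)‖ + ‖((t - L : ℝ) : ℂ) * q‖ := norm_add_le _ _
    _ = |1 / 2 - r| * ‖b - a‖ + |t - L| := by
        rw [norm_mul, norm_mul, Complex.norm_real, Complex.norm_real, Real.norm_eq_abs,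
          Real.norm_eq_abs, hq, mul_one]
    _ ≤ (1 / 2) * (4 * Real.sqrt (L * d)) + 2 * d := by
        gcongr
        · rw [abs_le]; constructor <;> linarith
        · rw [abs_le]; constructor <;> linarith
    _ ≤ 4 * Real.sqrt (L * d) := by linarith

/-! ### directions of the tentacles -/

theorem norm_rot {q w : ℂ} (hq : ‖q‖ = 1) : ‖q * w‖ = ‖w‖ := by rw [norm_mul, hq, one_mul]

/-- the tentacle around the ray in the direction `q` : a cone -/
def cone (c q : ℂ) (η : ℝ) : Set ℂ := {z | ∃ t : ℝ, 0 ≤ t ∧ ‖z - (c + t * q)‖ ≤ η * ‖z - c‖}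

theorem mem_out_of {D : Dom} {δ : ℝ} (hD : D.OK δ) {z : ℂ} (h : D.L / 2 < ‖z - D.c‖)
    (hs : ∀ k, z ∉ cone D.c (D.q k) (δ / D.L)) : ∃ i, z ∈ D.R i := by
  by_contra hcon
  push Not at hcon
  obtain ⟨k, t, h1, h2⟩ := (hD.tent z h).1 hcon
  exact hs k ⟨t, h1, h2⟩

theorem not_cone_of {D : Dom} {δ : ℝ} (hD : D.OK δ) {z : ℂ} (h : D.L / 2 < ‖z - D.c‖) {i : ZMod 3}
    (hz : z ∈ D.R i) (k : ZMod 3) : z ∉ cone D.c (D.q k) (δ / D.L) := by
  rintro ⟨t, h1, h2⟩
  exact (hD.tent z h).2 ⟨k, t, h1, h2⟩ i hz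

theorem disj_R {D : Dom} {δ : ℝ} (hD : D.OK δ) {i j : ZMod 3} (hij : i ≠ j) {z : ℂ}
    (hi : z ∈ D.R i) (hj : z ∈ D.R j) : False := by
  have := hD.far i j hij z hi z hj
  rw [sub_self, norm_zero] at this
  linarith [hD.dpos]

/-- relative direction -/
theorem rel_dir {q q' : ℂ} (hq : ‖q‖ = 1) : q' = q * ((starRingEnd ℂ) q * q') := by
  have : q * (starRingEnd ℂ) q = 1 := by
    rw [Complex.mul_conj, Complex.normSq_eq_norm_sq, hq]; simp
  rw [← mul_assoc, this, one_mul]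

theorem norm_pol {c q : ℂ} (hq : ‖q‖ = 1) {r : ℝ} (hr : 0 ≤ r) (θ : ℝ) :
    ‖c + r * (q * Complex.exp (θ * Complex.I)) - c‖ = r := by
  rw [add_sub_cancel_left, norm_mul, norm_mul, hq, Complex.norm_exp_ofReal_mul_I, one_mul, mul_one,
    Complex.norm_real, Real.norm_eq_abs, abs_of_nonneg hr]

theorem sub_pol {c q : ℂ} (hq : ‖q‖ = 1) (r t θ : ℝ) :
    ‖c + r * (q * Complex.exp (θ * Complex.I)) - (c + t * q)‖ ^ 2 =
      r ^ 2 - 2 * r * t * Real.cos θ + t ^ 2 := by
  have e : c + r * (q * Complex.exp (θ * Complex.I)) - (c + t * q) =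
      q * (r * Complex.exp (θ * Complex.I) - t) := by ring
  rw [e, norm_rot hq, sq_norm]
  simp only [Complex.sub_re, Complex.sub_im, Complex.mul_re, Complex.mul_im, Complex.ofReal_re,
    Complex.ofReal_im, Complex.exp_ofReal_mul_I_re, Complex.exp_ofReal_mul_I_im]
  linear_combination r ^ 2 * Real.sin_sq_add_cos_sq θ

/-- the half angle of the cones -/
def ang (η : ℝ) : ℝ := Real.arcsin η

theorem ang_pos {η : ℝ} (h0 : 0 < η) : 0 < ang η := Real.arcsin_pos.2 h0

theorem ang_lt {η : ℝ} (h1 : η < 1) : ang η < Real.pi / 2 := Real.arcsin_lt_pi_div_two.2 h1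

theorem sin_ang {η : ℝ} (h0 : 0 ≤ η) (h1 : η ≤ 1) : Real.sin (ang η) = η :=
  Real.sin_arcsin (by linarith) h1

theorem cos_ang_nonneg {η : ℝ} : 0 ≤ Real.cos (ang η) :=
  Real.cos_arcsin_nonneg η

/-- points in the cone -/
theorem cone_mem {c q : ℂ} (hq : ‖q‖ = 1) {r η θ : ℝ} (hr : 0 ≤ r) (h0 : 0 ≤ η) (h1 : η ≤ 1)
    (h : Real.cos (ang η) ≤ Real.cos θ) : c + r * (q * Complex.exp (θ * Complex.I)) ∈ cone c q η := by
  have hc := cos_ang_nonneg (η := η)
  refine ⟨r * Real.cos θ, mul_nonneg hr (hc.trans h), ?_⟩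
  rw [norm_pol hq hr]
  refine le_of_sq_le_sq ?_ (mul_nonneg h0 hr)
  rw [sub_pol hq]
  have h2 := Real.sin_sq_add_cos_sq (ang η)
  rw [sin_ang h0 h1] at h2
  have h3 : Real.cos (ang η) ^ 2 ≤ Real.cos θ ^ 2 := pow_le_pow_left₀ hc h 2
  nlinarith [mul_nonneg (sq_nonneg r) (sub_nonneg.2 h3)]

/-- points not in the cone -/
theorem cone_notMem {c q : ℂ} (hq : ‖q‖ = 1) {r η θ : ℝ} (hr : 0 < r) (h0 : 0 ≤ η) (h1 : η < 1)
    (h : Real.cos θ < Real.cos (ang η)) :
    c + r * (q * Complex.exp (θ * Complex.I)) ∉ cone c q η := by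
  rintro ⟨t, ht, hle⟩
  rw [norm_pol hq hr.le] at hle
  have h2 := pow_le_pow_left₀ (norm_nonneg _) hle 2
  rw [sub_pol hq] at h2
  have h3 := Real.sin_sq_add_cos_sq (ang η)
  rw [sin_ang h0 h1.le] at h3
  rcases ht.eq_or_lt with h4 | h4
  · rw [← h4] at h2
    have : r ^ 2 * η ^ 2 < r ^ 2 * 1 := by
      apply mul_lt_mul_of_pos_left _ (by positivity)
      nlinarith
    nlinarith
  · have h5 : r * t * Real.cos θ < r * t * Real.cos (ang η) :=
      mul_lt_mul_of_pos_left h (by positivity)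
    nlinarith [sq_nonneg (r * Real.cos (ang η) - t)]

/-- the width is smaller than the radius -/
theorem lt_L {D : Dom} {δ : ℝ} (hD : D.OK δ) : δ < D.L := by
  have hL := hD.Lpos
  by_contra hcon
  push Not at hcon
  obtain ⟨e, he, h⟩ := hD.sect 0 D.L (by linarith)
  have hz := (h (Real.arcsin (δ / D.L) + e / 2) (by linarith) (by linarith)).1
  refine not_cone_of hD ?_ hz 0 ⟨0, le_rfl, ?_⟩
  · rw [norm_pol (hD.qn 0) hL.le]; linarith
  · have : 1 ≤ δ / D.L := by rw [le_div_iff₀ hL]; linarith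
    rw [Complex.ofReal_zero, zero_mul, add_zero]
    nlinarith [norm_nonneg (D.c + (D.L : ℂ) * (D.q 0 * Complex.exp
      (((Real.arcsin (δ / D.L) + e / 2 : ℝ) : ℂ) * Complex.I)) - D.c)]

theorem eta_pos {D : Dom} {δ : ℝ} (hD : D.OK δ) : 0 < δ / D.L := div_pos hD.dpos hD.Lpos

theorem eta_lt {D : Dom} {δ : ℝ} (hD : D.OK δ) : δ / D.L < 1 := by
  rw [div_lt_one hD.Lpos]; exact lt_L hD

/-- points on the left of a tentacle -/
theorem sect_left {D : Dom} {δ : ℝ} (hD : D.OK δ) (k : ZMod 3) {r : ℝ} (hr : D.L / 2 < r) {m : ℝ}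
    (hm : 0 < m) : ∃ φ, ang (δ / D.L) < φ ∧ φ < ang (δ / D.L) + m ∧
      D.c + r * (D.q k * Complex.exp (φ * Complex.I)) ∈ D.R k ∧
      D.c + r * (D.q k * Complex.exp (-(φ * Complex.I))) ∈ D.R (k - 1) := by
  obtain ⟨e, he, h⟩ := hD.sect k r hr
  have h0 : 0 < min m e := lt_min hm he
  have h1 := min_le_left m e
  have h2 := min_le_right m e
  have := h (ang (δ / D.L) + min m e / 2) (by unfold ang; linarith) (by unfold ang; linarith)
  exact ⟨ang (δ / D.L) + min m e / 2, by linarith, by linarith, this⟩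

/-- the directions are different -/
theorem q_ne {D : Dom} {δ : ℝ} (hD : D.OK δ) {i j : ZMod 3} (hij : i ≠ j) : D.q i ≠ D.q j := by
  intro h
  have hL := hD.Lpos
  obtain ⟨e1, he1, h1⟩ := hD.sect i D.L (by linarith)
  obtain ⟨e2, he2, h2⟩ := hD.sect j D.L (by linarith)
  have hs := lt_min he1 he2
  have k1 := (h1 (Real.arcsin (δ / D.L) + min e1 e2 / 2) (by linarith)
    (by have := min_le_left e1 e2; linarith)).1
  have k2 := (h2 (Real.arcsin (δ / D.L) + min e1 e2 / 2) (by linarith)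
    (by have := min_le_right e1 e2; linarith)).1
  rw [← h] at k2
  exact disj_R hD hij k1 k2

/-- lifted argument in `(0, 2π)` -/
theorem exists_angle {w : ℂ} (hw : ‖w‖ = 1) (h1 : w ≠ 1) :
    ∃ α : ℝ, 0 < α ∧ α < 2 * Real.pi ∧ w = Complex.exp (α * Complex.I) := by
  have hp := Real.pi_pos
  have e0 : w = Complex.exp (w.arg * Complex.I) := by
    have := Complex.norm_mul_exp_arg_mul_I w
    rw [hw, Complex.ofReal_one, one_mul] at this
    exact this.symm
  rcases lt_trichotomy w.arg 0 with h | h | h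
  · refine ⟨w.arg + 2 * Real.pi, by linarith [Complex.neg_pi_lt_arg w], by linarith, ?_⟩
    have : (((w.arg + 2 * Real.pi : ℝ) : ℂ)) * Complex.I = w.arg * Complex.I +
        2 * Real.pi * Complex.I := by push_cast; ring
    rw [this, Complex.exp_add, Complex.exp_two_pi_mul_I, mul_one]
    exact e0
  · rw [h] at e0
    simp at e0
    exact absurd e0 h1
  · exact ⟨w.arg, h, by linarith [Complex.arg_le_pi w], e0⟩

theorem cos_le_of {φ θ : ℝ} (h0 : 0 ≤ φ) (h1 : φ ≤ θ) (h2 : θ ≤ 2 * Real.pi - φ) :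
    Real.cos θ ≤ Real.cos φ := by
  rcases le_or_gt θ Real.pi with h | h
  · exact Real.cos_le_cos_of_nonneg_of_le_pi h0 h h1
  · rw [← Real.cos_two_pi_sub θ]
    exact Real.cos_le_cos_of_nonneg_of_le_pi h0 (by linarith) (by linarith)

/-- `cr (e^{iβ} - 1) (e^{iα} - 1)` -/
theorem cr_exp (α β : ℝ) : cr (Complex.exp (β * Complex.I) - 1) (Complex.exp (α * Complex.I) - 1) =
    4 * Real.sin (β / 2) * Real.sin (α / 2) * Real.sin ((α - β) / 2) := by
  unfold cr
  simp only [Complex.sub_re, Complex.sub_im, Complex.exp_ofReal_mul_I_re,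
    Complex.exp_ofReal_mul_I_im, Complex.one_re, Complex.one_im, sub_zero]
  have ha : α = 2 * (α / 2) := by ring
  have hb : β = 2 * (β / 2) := by ring
  have hab : (α - β) / 2 = α / 2 - β / 2 := by ring
  rw [hab, Real.sin_sub]
  conv_lhs => rw [ha, hb]
  rw [Real.cos_two_mul', Real.sin_two_mul, Real.cos_two_mul', Real.sin_two_mul]
  have e1 := Real.sin_sq_add_cos_sq (α / 2)
  have e2 := Real.sin_sq_add_cos_sq (β / 2)
  set x := Real.sin (α / 2)
  set y := Real.cos (α / 2)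
  set z := Real.sin (β / 2)
  set t := Real.cos (β / 2)
  have f1 : y ^ 2 = 1 - x ^ 2 := by linarith
  have f2 : t ^ 2 = 1 - z ^ 2 := by linarith
  rw [f1, f2]
  ring

/-- the angle between two tentacles -/
theorem ang_sep {D : Dom} {δ : ℝ} (hD : D.OK δ) {i j : ZMod 3} {α : ℝ} (hα : 0 < α)
    (e : D.q j = D.q i * Complex.exp (α * Complex.I)) : 2 * ang (δ / D.L) < α := by
  by_contra hcon
  push Not at hcon
  have hL := hD.Lpos
  have h0 := eta_pos hD
  have h1 := eta_lt hD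
  have ha := ang_pos h0
  have ha' := ang_lt h1
  have hpi := Real.pi_pos
  obtain ⟨φ, f1, f2, hz, -⟩ := sect_left hD i (r := D.L) (by linarith) hα
  refine not_cone_of hD (by rw [norm_pol (hD.qn i) hL.le]; linarith) hz j ?_
  have e2 : D.c + (D.L : ℂ) * (D.q i * Complex.exp (φ * Complex.I)) =
      D.c + D.L * (D.q j * Complex.exp (((φ - α : ℝ) : ℂ) * Complex.I)) := by
    rw [e, mul_assoc (D.q i), ← Complex.exp_add]
    congr 4
    push_cast
    ring
  rw [e2]
  refine cone_mem (hD.qn j) hL.le h0.le h1.le ?_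
  rw [← Real.cos_abs (φ - α)]
  apply Real.cos_le_cos_of_nonneg_of_le_pi (abs_nonneg _) (by linarith)
  rw [abs_le]
  constructor <;> linarith

theorem norm_one_sub_exp (α : ℝ) : ‖1 - Complex.exp (α * Complex.I)‖ ^ 2 =
    (2 * Real.sin (α / 2)) ^ 2 := by
  rw [sq_norm]
  simp only [Complex.sub_re, Complex.sub_im, Complex.exp_ofReal_mul_I_re,
    Complex.exp_ofReal_mul_I_im, Complex.one_re, Complex.one_im]
  have h1 := Real.sin_sq_add_cos_sq α
  have h2 : Real.cos α = 1 - 2 * Real.sin (α / 2) ^ 2 := by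
    have := Real.cos_two_mul' (α / 2)
    have h3 := Real.sin_sq_add_cos_sq (α / 2)
    rw [show 2 * (α / 2) = α by ring] at this
    linarith
  rw [h2] at h1 ⊢
  linear_combination h1

/-- relative angle of two tentacles -/
theorem rel_angle {D : Dom} {δ : ℝ} (hD : D.OK δ) {i j : ZMod 3} (hij : i ≠ j) :
    ∃ α : ℝ, 2 * ang (δ / D.L) < α ∧ α < 2 * Real.pi - 2 * ang (δ / D.L) ∧
      D.q j = D.q i * Complex.exp (α * Complex.I) := by
  have hi := hD.qn i
  have hw1 : ‖(starRingEnd ℂ) (D.q i) * D.q j‖ = 1 := by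
    rw [norm_mul, Complex.norm_conj, hi, hD.qn j, one_mul]
  have hne : (starRingEnd ℂ) (D.q i) * D.q j ≠ 1 := by
    intro h
    have := rel_dir (q' := D.q j) hi
    rw [h, mul_one] at this
    exact q_ne hD hij this.symm
  obtain ⟨α, h1, h2, h3⟩ := exists_angle hw1 hne
  have e : D.q j = D.q i * Complex.exp (α * Complex.I) := by rw [← h3]; exact rel_dir hi
  have e' : D.q i = D.q j * Complex.exp (((2 * Real.pi - α : ℝ) : ℂ) * Complex.I) := by
    rw [e, mul_assoc, ← Complex.exp_add]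
    have : (α : ℂ) * Complex.I + ((2 * Real.pi - α : ℝ) : ℂ) * Complex.I =
        2 * Real.pi * Complex.I := by push_cast; ring
    rw [this, Complex.exp_two_pi_mul_I, mul_one]
  have := ang_sep hD (by linarith) e'
  exact ⟨α, ang_sep hD h1 e, by linarith, e⟩

/-- **the directions are `2 δ / L` apart** -/
theorem q_sep {D : Dom} {δ : ℝ} (hD : D.OK δ) {i j : ZMod 3} (hij : i ≠ j) :
    2 * (δ / D.L) ≤ ‖D.q i - D.q j‖ := by
  obtain ⟨α, h1, h2, e⟩ := rel_angle hD hij
  have h0 := eta_pos hD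
  have h3 := eta_lt hD
  have ha := ang_pos h0
  have ha' := ang_lt h3
  have hpi := Real.pi_pos
  have hs : δ / D.L ≤ Real.sin (α / 2) := by
    conv_lhs => rw [← sin_ang h0.le h3.le]
    rcases le_or_gt (α / 2) (Real.pi / 2) with h | h
    · exact Real.sin_le_sin_of_le_of_le_pi_div_two (by linarith) h (by linarith)
    · rw [← Real.sin_pi_sub (α / 2)]
      exact Real.sin_le_sin_of_le_of_le_pi_div_two (by linarith) (by linarith) (by linarith)
  have e1 : D.q i - D.q j = D.q i * (1 - Complex.exp (α * Complex.I)) := by rw [e]; ring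
  rw [e1, norm_rot (hD.qn i)]
  refine le_of_sq_le_sq ?_ (norm_nonneg _)
  rw [norm_one_sub_exp]
  exact pow_le_pow_left₀ (by linarith) (by linarith) 2

/-- the arc between two tentacles which does not meet the third one is impossible -/
theorem arc_false {D : Dom} {δ : ℝ} (hD : D.OK δ) {i j k : ZMod 3} (hall : ∀ l, l = i ∨ l = j ∨ l = k)
    (hij : i ≠ j - 1) {α β : ℝ} (hα : 0 < α) (hαβ : α < β) (hβ : β < 2 * Real.pi)
    (ej : D.q j = D.q i * Complex.exp (α * Complex.I))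
    (ek : D.q k = D.q i * Complex.exp (β * Complex.I)) : False := by
  have hL := hD.Lpos
  have hd := hD.dpos
  have hpi := Real.pi_pos
  have hqi := hD.qn i
  have h0 := eta_pos hD
  have h1 := eta_lt hD
  have ha := ang_pos h0
  have ha' := ang_lt h1
  have hsep := ang_sep hD hα ej
  -- two points at the same angle
  obtain ⟨e1, he1, s1⟩ := hD.sect i D.L (by linarith)
  obtain ⟨e2, he2, s2⟩ := hD.sect j D.L (by linarith)
  set m : ℝ := min (min e1 e2) (α - 2 * ang (δ / D.L)) with hm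
  have hm0 : 0 < m := lt_min (lt_min he1 he2) (by linarith)
  have hm1 : m ≤ e1 := (min_le_left _ _).trans (min_le_left _ _)
  have hm2 : m ≤ e2 := (min_le_left _ _).trans (min_le_right _ _)
  have hm3 : m ≤ α - 2 * ang (δ / D.L) := min_le_right _ _
  set φ : ℝ := ang (δ / D.L) + m / 2 with hφ
  have hφa : ang (δ / D.L) < φ := by rw [hφ]; linarith
  have P0 := (s1 φ hφa (by rw [hφ]; unfold ang; linarith)).1
  have P2 := (s2 φ hφa (by rw [hφ]; unfold ang; linarith)).2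
  have hφα : φ ≤ α - φ := by rw [hφ]; linarith
  have hφpi : φ ≤ Real.pi := by linarith
  have hφ0 : 0 ≤ φ := by linarith
  have hcosφ : Real.cos φ < Real.cos (ang (δ / D.L)) :=
    Real.cos_lt_cos_of_nonneg_of_le_pi ha.le hφpi hφa
  -- the arc
  set Γ : Set ℂ := (fun θ : ℝ => D.c + (D.L : ℂ) * (D.q i * Complex.exp (θ * Complex.I))) ''
    Set.Icc φ (α - φ) with hΓ
  have hcont : Continuous fun θ : ℝ =>
      D.c + (D.L : ℂ) * (D.q i * Complex.exp (θ * Complex.I)) := by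
    fun_prop
  have hpre : IsPreconnected Γ := isPreconnected_Icc.image _ hcont.continuousOn
  have hrot : ∀ ψ θ : ℝ, ∀ q : ℂ, q = D.q i * Complex.exp (ψ * Complex.I) →
      D.c + (D.L : ℂ) * (D.q i * Complex.exp (θ * Complex.I)) =
      D.c + D.L * (q * Complex.exp (((θ - ψ : ℝ) : ℂ) * Complex.I)) := by
    intro ψ θ q hq
    rw [hq, mul_assoc (D.q i), ← Complex.exp_add]
    congr 4
    push_cast
    ring
  have hmem2 : D.c + (D.L : ℂ) * (D.q i * Complex.exp (((α - φ : ℝ) : ℂ) * Complex.I)) ∈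
      D.R (j - 1) := by
    rw [hrot α (α - φ) _ ej]
    have : ((α - φ - α : ℝ) : ℂ) * Complex.I = -(φ * Complex.I) := by push_cast; ring
    rw [this]
    exact P2
  have hsub : ∀ θ ∈ Set.Icc φ (α - φ), ∃ l,
      D.c + (D.L : ℂ) * (D.q i * Complex.exp (θ * Complex.I)) ∈ D.R l := by
    rintro θ ⟨h2, h3⟩
    apply mem_out_of hD
    · rw [norm_pol hqi hL.le]
      linarith
    · have gen : ∀ ψ : ℝ, ∀ q : ℂ, ‖q‖ = 1 → q = D.q i * Complex.exp (ψ * Complex.I) →
          Real.cos (θ - ψ) ≤ Real.cos φ →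
          D.c + (D.L : ℂ) * (D.q i * Complex.exp (θ * Complex.I)) ∉ cone D.c q (δ / D.L) := by
        intro ψ q hq1 hq hcos
        rw [hrot ψ θ q hq]
        exact cone_notMem hq1 hL h0.le h1 (hcos.trans_lt hcosφ)
      intro l
      rcases hall l with rfl | rfl | rfl
      · refine gen 0 _ hqi (by simp) ?_
        rw [sub_zero]
        exact cos_le_of hφ0 h2 (by linarith)
      · refine gen α _ (hD.qn _) ej ?_
        rw [← Real.cos_neg, neg_sub]
        exact cos_le_of hφ0 (by linarith) (by linarith)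
      · refine gen β _ (hD.qn _) ek ?_
        rw [← Real.cos_neg, neg_sub]
        exact cos_le_of hφ0 (by linarith) (by linarith)
  -- connectedness
  have hsplit := hpre (D.R i) (⋃ l, ⋃ _ : l ≠ i, D.R l) (hD.opn i)
    (isOpen_iUnion fun l => isOpen_iUnion fun _ => hD.opn l) ?_ ?_ ?_
  · obtain ⟨z, -, hz1, hz2⟩ := hsplit
    simp only [Set.mem_iUnion] at hz2
    obtain ⟨l, hl, hz2⟩ := hz2
    exact disj_R hD hl hz2 hz1
  · rintro z ⟨θ, hθ, rfl⟩
    obtain ⟨l, hl⟩ := hsub θ hθ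
    by_cases h : l = i
    · exact Or.inl (h ▸ hl)
    · exact Or.inr (by simp only [Set.mem_iUnion]; exact ⟨l, h, hl⟩)
  · exact ⟨_, ⟨φ, ⟨le_rfl, hφα⟩, rfl⟩, P0⟩
  · refine ⟨_, ⟨α - φ, ⟨hφα, le_rfl⟩, rfl⟩, ?_⟩
    simp only [Set.mem_iUnion]
    exact ⟨j - 1, Ne.symm hij, hmem2⟩

/-- **the directions are counterclockwise** -/
theorem q_ccw {D : Dom} {δ : ℝ} (hD : D.OK δ) :
    0 < cr (D.q 1 - D.q 0) (D.q 2 - D.q 0) := by
  have h0 := hD.qn 0
  have rel : ∀ j : ZMod 3, j ≠ 0 → ∃ α : ℝ, 0 < α ∧ α < 2 * Real.pi ∧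
      D.q j = D.q 0 * Complex.exp (α * Complex.I) := by
    intro j hj
    have hw1 : ‖(starRingEnd ℂ) (D.q 0) * D.q j‖ = 1 := by
      rw [norm_mul, Complex.norm_conj, h0, hD.qn j, one_mul]
    have hne : (starRingEnd ℂ) (D.q 0) * D.q j ≠ 1 := by
      intro h
      have := rel_dir (q' := D.q j) h0
      rw [h, mul_one] at this
      exact q_ne hD hj this
    obtain ⟨α, h1, h2, h3⟩ := exists_angle hw1 hne
    exact ⟨α, h1, h2, by rw [← h3]; exact rel_dir h0⟩
  obtain ⟨β, hβ0, hβ1, eβ⟩ := rel 1 (by decide)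
  obtain ⟨α, hα0, hα1, eα⟩ := rel 2 (by decide)
  have hcr : cr (D.q 1 - D.q 0) (D.q 2 - D.q 0) =
      4 * Real.sin (β / 2) * Real.sin (α / 2) * Real.sin ((α - β) / 2) := by
    rw [← cr_exp, eβ, eα]
    have e1 : D.q 0 * Complex.exp (β * Complex.I) - D.q 0 =
        D.q 0 * (Complex.exp (β * Complex.I) - 1) := by ring
    have e2 : D.q 0 * Complex.exp (α * Complex.I) - D.q 0 =
        D.q 0 * (Complex.exp (α * Complex.I) - 1) := by ring
    rw [e1, e2]
    have hn : (D.q 0).re ^ 2 + (D.q 0).im ^ 2 = 1 := by rw [← sq_norm, h0, one_pow]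
    set u := Complex.exp (β * Complex.I) - 1
    set v := Complex.exp (α * Complex.I) - 1
    unfold cr
    simp only [Complex.mul_re, Complex.mul_im]
    linear_combination (u.re * v.im - u.im * v.re) * hn
  have hne12 : α ≠ β := by
    rintro rfl
    exact q_ne hD (i := 1) (j := 2) (by decide) (by rw [eα, eβ])
  rcases lt_or_gt_of_ne hne12 with h | h
  · exact (arc_false hD (i := 0) (j := 2) (k := 1) (by decide) (by decide) hα0 h hβ1 eα eβ).elim
  · rw [hcr]
    have s1 : 0 < Real.sin (β / 2) := Real.sin_pos_of_pos_of_lt_pi (by linarith) (by linarith)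
    have s2 : 0 < Real.sin (α / 2) := Real.sin_pos_of_pos_of_lt_pi (by linarith) (by linarith)
    have s3 : 0 < Real.sin ((α - β) / 2) :=
      Real.sin_pos_of_pos_of_lt_pi (by linarith) (by linarith)
    positivity

/-- the orientation is the product of the distances -/
theorem cr_units {a b c : ℂ} (ha : ‖a‖ = 1) (hb : ‖b‖ = 1) (hc : ‖c‖ = 1) :
    (2 * cr (b - a) (c - a)) ^ 2 = (‖b - a‖ * ‖c - a‖ * ‖c - b‖) ^ 2 := by
  have h1 : a.re ^ 2 + a.im ^ 2 = 1 := by rw [← sq_norm, ha, one_pow]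
  have h2 : b.re ^ 2 + b.im ^ 2 = 1 := by rw [← sq_norm, hb, one_pow]
  have h3 : c.re ^ 2 + c.im ^ 2 = 1 := by rw [← sq_norm, hc, one_pow]
  rw [mul_pow, mul_pow (‖b - a‖ * ‖c - a‖), mul_pow ‖b - a‖, sq_norm, sq_norm, sq_norm]
  unfold cr
  simp only [Complex.sub_re, Complex.sub_im]
  generalize a.re = a1 at *
  generalize a.im = a2 at *
  generalize b.re = b1 at *
  generalize b.im = b2 at *
  generalize c.re = c1 at *
  generalize c.im = c2 at *
  have k1 : (b1 - a1) ^ 2 + (b2 - a2) ^ 2 = 2 - 2 * (a1 * b1 + a2 * b2) := by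
    linear_combination h1 + h2
  have k2 : (c1 - a1) ^ 2 + (c2 - a2) ^ 2 = 2 - 2 * (a1 * c1 + a2 * c2) := by
    linear_combination h1 + h3
  have k3 : (c1 - b1) ^ 2 + (c2 - b2) ^ 2 = 2 - 2 * (b1 * c1 + b2 * c2) := by
    linear_combination h2 + h3
  rw [k1, k2, k3]
  obtain ⟨x, hx⟩ : ∃ x, x = a1 * b1 + a2 * b2 := ⟨_, rfl⟩
  obtain ⟨y, hy⟩ : ∃ y, y = a1 * c1 + a2 * c2 := ⟨_, rfl⟩
  obtain ⟨z, hz⟩ : ∃ z, z = b1 * c1 + b2 * c2 := ⟨_, rfl⟩
  obtain ⟨X, hX⟩ : ∃ X, X = a1 * b2 - a2 * b1 := ⟨_, rfl⟩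
  obtain ⟨Y, hY⟩ : ∃ Y, Y = b1 * c2 - b2 * c1 := ⟨_, rfl⟩
  obtain ⟨Z, hZ⟩ : ∃ Z, Z = c1 * a2 - c2 * a1 := ⟨_, rfl⟩
  have g1 : X ^ 2 = 1 - x ^ 2 := by
    rw [hX, hx]; linear_combination (b1 ^ 2 + b2 ^ 2) * h1 + h2
  have g2 : Y ^ 2 = 1 - z ^ 2 := by
    rw [hY, hz]; linear_combination (c1 ^ 2 + c2 ^ 2) * h2 + h3
  have g3 : Z ^ 2 = 1 - y ^ 2 := by
    rw [hZ, hy]; linear_combination (c1 ^ 2 + c2 ^ 2) * h1 + h3
  have g4 : X * Y = x * z - y := by
    rw [hX, hY, hx, hy, hz]; linear_combination (-(a1 * c1 + a2 * c2)) * h2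
  have g5 : X * Z = x * y - z := by
    rw [hX, hZ, hx, hy, hz]; linear_combination (-(b1 * c1 + b2 * c2)) * h1
  have g6 : Y * Z = y * z - x := by
    rw [hY, hZ, hx, hy, hz]; linear_combination (-(a1 * b1 + a2 * b2)) * h3
  have g7 : 1 - x ^ 2 - y ^ 2 - z ^ 2 + 2 * (x * y * z) = 0 := by
    have e1 : X ^ 2 * Y ^ 2 = (X * Y) ^ 2 := by ring
    rw [g1, g2, g4] at e1
    linear_combination e1
  have e0 : (b1 - a1) * (c2 - a2) - (b2 - a2) * (c1 - a1) = X + Y + Z := by
    rw [hX, hY, hZ]; ring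
  rw [e0, ← hx, ← hy, ← hz]
  linear_combination 4 * g1 + 4 * g2 + 4 * g3 + 8 * g4 + 8 * g5 + 8 * g6 + 4 * g7

theorem q_cr {D : Dom} {δ : ℝ} (hD : D.OK δ) :
    (δ / D.L) ^ 3 / 2 ≤ cr (D.q 1 - D.q 0) (D.q 2 - D.q 0) := by
  have hL := hD.Lpos
  have hd := hD.dpos
  have h0 := q_ccw hD
  have hη := eta_pos hD
  have h1 := q_sep hD (i := 1) (j := 0) (by decide)
  have h2 := q_sep hD (i := 2) (j := 0) (by decide)
  have h3 := q_sep hD (i := 2) (j := 1) (by decide)
  have h4 := cr_units (hD.qn 0) (hD.qn 1) (hD.qn 2)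
  have h5 : 2 * cr (D.q 1 - D.q 0) (D.q 2 - D.q 0) =
      ‖D.q 1 - D.q 0‖ * ‖D.q 2 - D.q 0‖ * ‖D.q 2 - D.q 1‖ := by
    rw [sq_eq_sq₀ (by linarith) (by positivity)] at h4
    exact h4
  have h6 : (δ / D.L) ^ 3 ≤ ‖D.q 1 - D.q 0‖ * ‖D.q 2 - D.q 0‖ * ‖D.q 2 - D.q 1‖ := by
    have hx : 0 ≤ δ / D.L := by positivity
    calc (δ / D.L) ^ 3 = δ / D.L * (δ / D.L) * (δ / D.L) := by ring
      _ ≤ _ := by gcongr <;> linarith
  linarith

/-! ### D1 -/

theorem netS_eq {D : Dom} (hS : GP (S : Set ℂ)) :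
    D.netS S = D.net S (g1 S hS).1 (g1 S hS).2.1 (g1 S hS).2.2 := by
  unfold Dom.netS
  rw [dif_pos (g1 S hS)]

theorem netS_T {D : Dom} (hS : GP (S : Set ℂ)) : (D.netS S).T = delT S := by rw [netS_eq hS]; rfl

theorem netS_ex {D : Dom} (hS : GP (S : Set ℂ)) (k : ZMod 3) :
    (D.netS S).ex k = rayMark S D.c (D.q k) := by rw [netS_eq hS]; rfl

theorem netS_kl {D : Dom} (hS : GP (S : Set ℂ)) (p : ℂ × ℂ) : p ∈ (D.netS S).kl ↔
    p ∈ D.kl S ∧ (∀ k, rayMark S D.c (D.q k) ≠ p) ∧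
    ∀ k, rayMark S D.c (D.q k) ≠ (p.2, p.1) := by rw [netS_eq hS]; rfl

theorem rayMark_spec {c q : ℂ} (h : ∃ p, crossRay S c q p) : crossRay S c q (rayMark S c q) := by
  unfold rayMark
  rw [dif_pos h]
  exact h.choose_spec

/-- smallness of the mesh -/
theorem small_d {L d δ : ℝ} (hL : 0 < L) (hδ0 : 0 < δ) (hδ : δ ≤ L)
    (hd : 40000 * L ^ 5 * d ≤ δ ^ 6) : 8 * d ≤ L := by
  have h1 : δ ^ 6 ≤ L ^ 6 := pow_le_pow_left₀ hδ0.le hδ 6
  have h2 : 40000 * L ^ 5 * d ≤ L ^ 5 * L := by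
    calc 40000 * L ^ 5 * d ≤ L ^ 6 := hd.trans h1
      _ = L ^ 5 * L := by ring
  have h3 : 40000 * d ≤ L := by
    have h5 : 0 < L ^ 5 := by positivity
    by_contra hcon
    push Not at hcon
    have := mul_lt_mul_of_pos_left hcon h5
    linarith
  rcases le_or_gt d 0 with h | h
  · linarith
  · linarith

/-- **D1 for a finite set of sites** -/
theorem d1_S {D : Dom} {δ d : ℝ} (hD : D.OK δ) (hS : Dns S D.c D.L d)
    (hd : 40000 * D.L ^ 5 * d ≤ δ ^ 6) : HNet S (D.netS S) := by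
  have hδ := (lt_L hD).le
  have hL := hD.Lpos
  have hδ0 := hD.dpos
  have hdp := hS.dpos
  have hm : ∀ k, crossRay S D.c (D.q k) ((D.netS S).ex k) := fun k => by
    rw [netS_ex hS.gp]
    exact rayMark_spec (crossRay_exists hS (hD.qn k))
  refine ⟨hS.gp, netS_T hS.gp, fun k => (hm k).1, fun k h => ?_, ?_⟩
  · rw [netS_kl hS.gp] at h
    exact h.2.1 k (netS_ex hS.gp k).symm
  · -- margin
    set E : ℝ := Real.sqrt (D.L * d) with hE
    have hE0 : 0 ≤ E := Real.sqrt_nonneg _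
    have hE2 : E ^ 2 = D.L * d := Real.sq_sqrt (by positivity)
    have hn := fun k => crossRay_near hS (hD.qn k) (hm k)
    rw [← hE] at hn
    set e : ZMod 3 → ℂ := fun k => mid ((D.netS S).ex k) - (D.c + D.L * D.q k) with he
    have hek : ∀ k, mid ((D.netS S).ex k) = D.c + D.L * D.q k + e k := fun k => by
      rw [he]; ring
    have hne : ∀ k, ‖e k‖ ≤ 4 * E := fun k => hn k
    rw [hek 0, hek 1, hek 2]
    have r1 : D.c + D.L * D.q 1 + e 1 - (D.c + D.L * D.q 0 + e 0) =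
        (D.L : ℂ) * (D.q 1 - D.q 0) + (e 1 - e 0) := by ring
    have r2 : D.c + D.L * D.q 2 + e 2 - (D.c + D.L * D.q 0 + e 0) =
        (D.L : ℂ) * (D.q 2 - D.q 0) + (e 2 - e 0) := by ring
    rw [r1, r2, cr_add_left, cr_add_right, cr_add_right, cr_smul_left, cr_smul_right,
      cr_smul_left, cr_smul_right]
    have b1 : ‖e 1 - e 0‖ ≤ 8 * E := by
      have := norm_sub_le (e 1) (e 0)
      linarith [hne 1, hne 0]
    have b2 : ‖e 2 - e 0‖ ≤ 8 * E := by
      have := norm_sub_le (e 2) (e 0)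
      linarith [hne 2, hne 0]
    have c1 : ‖D.q 1 - D.q 0‖ ≤ 2 := by
      have := norm_sub_le (D.q 1) (D.q 0)
      linarith [hD.qn 1, hD.qn 0]
    have c2 : ‖D.q 2 - D.q 0‖ ≤ 2 := by
      have := norm_sub_le (D.q 2) (D.q 0)
      linarith [hD.qn 2, hD.qn 0]
    have k1 := neg_abs_le (cr (D.q 1 - D.q 0) (e 2 - e 0))
    have k2 := neg_abs_le (cr (e 1 - e 0) (D.q 2 - D.q 0))
    have k3 := neg_abs_le (cr (e 1 - e 0) (e 2 - e 0))
    have l1 : |cr (D.q 1 - D.q 0) (e 2 - e 0)| ≤ 2 * (8 * E) :=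
      (abs_cr_le _ _).trans (by gcongr)
    have l2 : |cr (e 1 - e 0) (D.q 2 - D.q 0)| ≤ 8 * E * 2 :=
      (abs_cr_le _ _).trans (by gcongr)
    have l3 : |cr (e 1 - e 0) (e 2 - e 0)| ≤ 8 * E * (8 * E) :=
      (abs_cr_le _ _).trans (by gcongr)
    have hq := q_cr hD
    have hEL : E ≤ D.L := by
      have h8 := small_d hL hδ0 hδ hd
      have : E ^ 2 ≤ D.L ^ 2 := by rw [hE2]; nlinarith
      exact le_of_sq_le_sq this hL.le
    -- `200 L² E ≤ δ³`
    have hEd : 200 * D.L ^ 2 * E ≤ δ ^ 3 := by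
      have h9 : (200 * D.L ^ 2 * E) ^ 2 ≤ (δ ^ 3) ^ 2 := by
        calc (200 * D.L ^ 2 * E) ^ 2 = 40000 * D.L ^ 4 * E ^ 2 := by ring
          _ = 40000 * D.L ^ 5 * d := by rw [hE2]; ring
          _ ≤ δ ^ 6 := hd
          _ = (δ ^ 3) ^ 2 := by ring
      exact le_of_sq_le_sq h9 (by positivity)
    have h10 : D.L * (D.L * ((δ / D.L) ^ 3 / 2)) ≤
        D.L * (D.L * cr (D.q 1 - D.q 0) (D.q 2 - D.q 0)) := by gcongr
    have h11 : D.L * (D.L * ((δ / D.L) ^ 3 / 2)) = δ ^ 3 / (2 * D.L) := by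
      field_simp
    have h12 : 100 * D.L * E ≤ δ ^ 3 / (2 * D.L) := by
      rw [le_div_iff₀ (by positivity)]
      nlinarith
    have hEp : 0 < E := Real.sqrt_pos.2 (by positivity)
    have h13 : 8 * E * (8 * E) ≤ 64 * D.L * E := by nlinarith
    have h14 : D.L * -(2 * (8 * E)) ≤ D.L * cr (D.q 1 - D.q 0) (e 2 - e 0) :=
      mul_le_mul_of_nonneg_left (by linarith) hL.le
    have h15 : D.L * -(8 * E * 2) ≤ D.L * cr (e 1 - e 0) (D.q 2 - D.q 0) :=
      mul_le_mul_of_nonneg_left (by linarith) hL.le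
    have h16 : 0 < D.L * E := by positivity
    nlinarith

/-- **D1** -/
theorem d1 {D : Dom} {δ ε d M : ℝ} {ω : Sample} (hD : D.OK δ)
    (hE : Env ε d M D.c D.L ω) (hd : 40000 * D.L ^ 5 * d ≤ δ ^ 6) :
    HNet (D.sites ε ω) (D.netS (D.sites ε ω)) :=
  d1_S hD (dns_of_env hD.Lpos (small_d hD.Lpos hD.dpos (lt_L hD).le hd) hE) hd

end Crest.Agent.R143.DomAx722
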