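import Crest.Agent.R143.B0_346

/-!
# Row 143 (S0194), leaf EXJ: common definitions (helper395's text, typed by helper922)
-/

set_option autoImplicit false
set_option linter.all false

noncomputable section

open scoped Classical

namespace Crest.Agent.R143.Ex0x922

open Crest.Agent.R143.B0x346

variable {V : Type}

/-- the triangles share a live edge -/
def LAdj (N : Net V) (t t' : V × V × V) : Prop :=
  ∃ a b c c', (a, b, c) ∈ N.T ∧ (b, a, c') ∈ N.T ∧ (a, b, c) ∈ rots t ∧ (b, a, c') ∈ rots t' ∧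
    (a, b) ∉ N.kl

/-- live dual chains (rotations are free) -/
def Lk (N : Net V) : V × V × V → V × V × V → Prop :=
  Relation.ReflTransGen fun t t' => t' ∈ rots t ∨ LAdj N t t'

/-- `t` is joined to the three marks -/
structure ExM (N : Net V) (t : V × V × V) : Prop where
  mem : t ∈ N.T
  lk : ∀ k, ∃ c, ((N.ex k).1, (N.ex k).2, c) ∈ N.T ∧ Lk N t ((N.ex k).1, (N.ex k).2, c)

variable {N : Net V} {t t' t'' : V × V × V}

theorem mem_rots_self (t : V × V × V) : t ∈ rots t := by simp [rots]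

theorem rots_symm (h : t' ∈ rots t) : t ∈ rots t' := by
  obtain ⟨a, b, c⟩ := t
  obtain ⟨a', b', c'⟩ := t'
  simp only [rots, Set.mem_insert_iff, Set.mem_singleton_iff, Prod.mk.injEq] at h ⊢
  tauto

theorem rots_trans (h : t' ∈ rots t) (h' : t'' ∈ rots t') : t'' ∈ rots t := by
  obtain ⟨a, b, c⟩ := t
  obtain ⟨a', b', c'⟩ := t'
  obtain ⟨a'', b'', c''⟩ := t''
  simp only [rots, Set.mem_insert_iff, Set.mem_singleton_iff, Prod.mk.injEq] at h h' ⊢
  rcases h with ⟨rfl, rfl, rfl⟩ | ⟨rfl, rfl, rfl⟩ | ⟨rfl, rfl, rfl⟩ <;>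
  rcases h' with ⟨rfl, rfl, rfl⟩ | ⟨rfl, rfl, rfl⟩ | ⟨rfl, rfl, rfl⟩ <;> simp

theorem rots_mem_T (h : t' ∈ rots t) (ht : t ∈ N.T) : t' ∈ N.T := by
  obtain ⟨a, b, c⟩ := t
  simp only [rots, Set.mem_insert_iff, Set.mem_singleton_iff] at h
  rcases h with rfl | rfl | rfl
  · exact ht
  · exact N.rot ht
  · exact N.rot (N.rot ht)

theorem LAdj.symm (h : LAdj N t t') : LAdj N t' t := by
  obtain ⟨a, b, c, c', h1, h2, h3, h4, h5⟩ := h
  exact ⟨b, a, c', c, h2, h1, h4, h3, fun h => h5 (N.klsym _ _ h)⟩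

theorem Lk.refl (t : V × V × V) : Lk N t t := Relation.ReflTransGen.refl

theorem Lk.trans (h : Lk N t t') (h' : Lk N t' t'') : Lk N t t'' := Relation.ReflTransGen.trans h h'

theorem Lk.of_rots (h : t' ∈ rots t) : Lk N t t' := Relation.ReflTransGen.single (Or.inl h)

theorem Lk.of_adj (h : LAdj N t t') : Lk N t t' := Relation.ReflTransGen.single (Or.inr h)

theorem Lk.symm (h : Lk N t t') : Lk N t' t := by
  induction h with
  | refl => exact Relation.ReflTransGen.refl
  | tail _ h2 ih =>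
    refine Relation.ReflTransGen.head ?_ ih
    rcases h2 with h2 | h2
    · exact Or.inl (rots_symm h2)
    · exact Or.inr h2.symm

theorem Lk.mem (h : Lk N t t') (ht : t ∈ N.T) : t' ∈ N.T := by
  induction h with
  | refl => exact ht
  | tail _ h2 ih =>
    rcases h2 with h2 | h2
    · exact rots_mem_T h2 ih
    · obtain ⟨a, b, c, c', h1, h2, h3, h4, h5⟩ := h2
      exact rots_mem_T (rots_symm h4) h2

theorem ExM.of_lk (h : ExM N t) (hl : Lk N t t') : ExM N t' :=
  ⟨hl.mem h.mem, fun k => by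
    obtain ⟨c, h1, h2⟩ := h.lk k
    exact ⟨c, h1, hl.symm.trans h2⟩⟩

end Crest.Agent.R143.Ex0x922
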