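import Crest.Agent.R143.Circ_63
import Crest.Agent.R143.Loc_922
import Crest.Agent.R143.Ex0_922
import Crest.Agent.R143.DomA_722
import Crest.Agent.R143.Ad_422

/-!
# Row 143 (S0194), leaf EXJ, geometric half (helper922)

* `chain_all`    : `C` preconnected, inside of the hull (it may contain sites which are not on the
  hull), all sides of the triangles meeting `C` live: the triangles meeting `C` are joined by
  live dual chains
* `cell_bound`, `lens`, `tri_near`, `cone_of_near` : the cells and the triangles near the boundary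
  of the big disc
* `exm_of_linked` : **the triangles meeting `C` are joined to the three marks**
-/

set_option autoImplicit false
set_option linter.all false

noncomputable section

open scoped Classical

namespace Crest.Agent.R143.Ex2x922

open Crest.ProbabilityR.Voronoi
open Crest.Agent.R143.B0x346 Crest.Agent.R143.B0Dx346 Crest.Agent.R143.DelGx806
  Crest.Agent.R143.DelRx806
open Crest.Agent.R143.Circx63 (cT meet seg_sub_cT delT_rots isClosed_cT cT_rots)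
open Crest.Agent.R143.Locx922 (Hol norm_tri vedge_eq_inter vedge_sub_ball InD InT.inD del_small
  lft_hull inHull)
open Crest.Agent.R143.Ex0x922
open Crest.Agent.R143.DomAx722 (Dns edge_dist edge_len inT_ball crossRay_exists crossRay_near
  rayMark_spec small_d abs_cr_le)
open Crest.Agent.R143.Adx422 (d1_S)

variable {S : Finset ℂ}

/-! ### chains -/

/-- a site in a closed Delaunay triangle is a vertex -/
theorem vertex_of_cT (hS : GP (S : Set ℂ)) {x : ℂ} (hx : x ∈ S) {t : ℂ × ℂ × ℂ} (ht : t ∈ delT S)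
    (hxt : x ∈ cT t) : ∃ a b, (x, a, b) ∈ rots t := by
  obtain ⟨a, b, c⟩ := t
  obtain ⟨o, h⟩ := mem_delT_iff.1 ht
  have h1 := pw_nonpos h hxt
  rcases eq_or_ne a x with rfl | ha
  · exact ⟨b, c, by simp [rots]⟩
  rcases eq_or_ne b x with rfl | hb
  · exact ⟨c, a, by simp [rots]⟩
  rcases eq_or_ne c x with rfl | hc
  · exact ⟨a, b, by simp [rots]⟩
  have := h.out hS hx ha hb hc
  linarith

/-- chains around an inner site -/
theorem chain_ring {N : Net ℂ} (hS : GP (S : Set ℂ)) (hT : N.T = delT S) {v a b a' b' : ℂ}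
    (hv : ∀ a, ¬ hullE S a v) (hl : ∀ u c, (v, u, c) ∈ delT S → (v, u) ∉ N.kl)
    (h : (v, a, b) ∈ delT S) (h' : (v, a', b') ∈ delT S) : Lk N (v, a, b) (v, a', b') := by
  obtain ⟨n, u, hR, -, hall⟩ := ring_exists (G := N.toTrg) hS (mem_nbs.2 ⟨b, h⟩) hv hT
  have hm : ∀ i, (v, u i, u (i + 1)) ∈ delT S := fun i => by
    have := hR.mem i; rwa [hT] at this
  have step : ∀ i, Lk N (v, u i, u (i + 1)) (v, u (i + 1), u (i + 1 + 1)) := by
    intro i
    refine Lk.of_adj ⟨u (i + 1), v, u i, u (i + 1 + 1), ?_, ?_, by simp [rots], by simp [rots], ?_⟩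
    · rw [hT]; exact (g1 S hS).1 _ _ _ ((g1 S hS).1 _ _ _ (hm i))
    · rw [hT]; exact hm (i + 1)
    exact fun hk => hl _ _ (hm (i + 1)) (N.klsym _ _ hk)
  have run : ∀ (k : ℕ) (i : ℤ), Lk N (v, u i, u (i + 1)) (v, u (i + k), u (i + k + 1)) := by
    intro k
    induction k with
    | zero => intro i; simpa using Lk.refl _
    | succ k ih =>
      intro i
      refine (ih i).trans ?_
      have := step (i + k)
      have e : i + ((k + 1 : ℕ) : ℤ) = i + k + 1 := by push_cast; ring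
      rw [e]
      exact this
  obtain ⟨i, rfl, rfl⟩ := hall a b h
  obtain ⟨j, rfl, rfl⟩ := hall a' b' h'
  rcases le_total i j with hij | hij
  · obtain ⟨k, hk⟩ := Int.eq_ofNat_of_zero_le (sub_nonneg.2 hij)
    have : j = i + k := by omega
    rw [this]
    exact run k i
  · obtain ⟨k, hk⟩ := Int.eq_ofNat_of_zero_le (sub_nonneg.2 hij)
    have : i = j + k := by omega
    rw [this]
    exact (run k j).symm

/-- **the triangles meeting a preconnected set are joined by live dual chains** -/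
theorem chain_all {N : Net ℂ} (hS : GP (S : Set ℂ)) (hT : N.T = delT S) {C : Set ℂ}
    (hC : IsPreconnected C) (hcov : ∀ x ∈ C, ∃ t ∈ delT S, x ∈ cT t)
    (hint : ∀ x ∈ C, x ∈ S → ∀ a, ¬ hullE S a x)
    (hl : ∀ t ∈ delT S, (cT t ∩ C).Nonempty → ∀ u v w, (u, v, w) ∈ rots t → (u, v) ∉ N.kl)
    {t t' : ℂ × ℂ × ℂ} (ht : t ∈ delT S) (hm : (cT t ∩ C).Nonempty) (ht' : t' ∈ delT S)
    (hm' : (cT t' ∩ C).Nonempty) : Lk N t t' := by
  set P : ℂ × ℂ × ℂ → Prop := fun s => Lk N t s with hPdef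
  have Pt : P t := Lk.refl t
  by_contra hcon
  set X : Set ℂ := ⋃ s ∈ (delT S).filter (fun s => P s ∧ (cT s ∩ C).Nonempty), cT s with hX
  set Y : Set ℂ := ⋃ s ∈ (delT S).filter (fun s => ¬ P s ∧ (cT s ∩ C).Nonempty), cT s with hY
  have hXc : IsClosed X := isClosed_biUnion_finset fun s _ => isClosed_cT s
  have hYc : IsClosed Y := isClosed_biUnion_finset fun s _ => isClosed_cT s
  have hsub : C ⊆ X ∪ Y := by
    intro x hx
    obtain ⟨s, hs, hxs⟩ := hcov x hx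
    by_cases hPs : P s
    · left
      rw [hX]
      simp only [Set.mem_iUnion, Finset.mem_filter]
      exact ⟨s, ⟨hs, hPs, ⟨x, hxs, hx⟩⟩, hxs⟩
    · right
      rw [hY]
      simp only [Set.mem_iUnion, Finset.mem_filter]
      exact ⟨s, ⟨hs, hPs, ⟨x, hxs, hx⟩⟩, hxs⟩
  have hXne : (C ∩ X).Nonempty := by
    obtain ⟨x, hxt, hx⟩ := hm
    refine ⟨x, hx, ?_⟩
    rw [hX]
    simp only [Set.mem_iUnion, Finset.mem_filter]
    exact ⟨t, ⟨ht, Pt, ⟨x, hxt, hx⟩⟩, hxt⟩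
  have hYne : (C ∩ Y).Nonempty := by
    obtain ⟨x, hxs, hx⟩ := hm'
    refine ⟨x, hx, ?_⟩
    rw [hY]
    simp only [Set.mem_iUnion, Finset.mem_filter]
    exact ⟨t', ⟨ht', hcon, ⟨x, hxs, hx⟩⟩, hxs⟩
  obtain ⟨x, hxC, hxX, hxY⟩ := isPreconnected_closed_iff.1 hC X Y hXc hYc hsub hXne hYne
  rw [hX] at hxX
  rw [hY] at hxY
  simp only [Set.mem_iUnion, Finset.mem_filter] at hxX hxY
  obtain ⟨s1, ⟨hs1, hP1, hC1⟩, hx1⟩ := hxX
  obtain ⟨s2, ⟨hs2, hP2, hC2⟩, hx2⟩ := hxY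
  apply hP2
  by_cases hxS : x ∈ S
  · -- a site
    obtain ⟨a, b, hab⟩ := vertex_of_cT hS hxS hs1 hx1
    obtain ⟨a', b', hab'⟩ := vertex_of_cT hS hxS hs2 hx2
    have h1 := delT_rots hS hab hs1
    have h2 := delT_rots hS hab' hs2
    have key := chain_ring (N := N) hS hT (hint x hxC hxS) (fun u c huc => by
      obtain ⟨o, hh⟩ := mem_delT_iff.1 huc
      refine hl _ huc ⟨x, ?_, hxC⟩ x u c (mem_rots_self _)
      exact seg_sub_cT hh.pos (left_mem_segment ℝ x u)) h1 h2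
    exact (hP1.trans (Lk.of_rots hab)).trans (key.trans (Lk.of_rots (rots_symm hab')))
  · rcases meet hS hs1 hs2 hx1 hx2 hxS with hr | ⟨u, v, w, w', h1, h2, hseg⟩
    · exact hP1.trans (Lk.of_rots hr)
    · refine hP1.trans (Lk.of_adj ⟨u, v, w, w', ?_, ?_, h1, h2, hl s1 hs1 hC1 u v w h1⟩)
      · rw [hT]; exact delT_rots hS h1 hs1
      · rw [hT]; exact delT_rots hS h2 hs2

/-! ### the boundary of the big disc -/

variable {c : ℂ} {L d : ℝ}

/-- the distance of a point to its nearest site -/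
theorem cell_bound (hD : Dns S c L d) {u z : ℂ} (hz : ∀ s ∈ S, ‖z - u‖ ≤ ‖z - s‖) :
    ‖z - u‖ ≤ d ∨ (‖z - u‖ ≤ ‖z - c‖ - L + 2 * d ∧ L - d ≤ ‖z - c‖) := by
  have hd := hD.dpos
  have hL := hD.dL
  rcases le_or_gt ‖z - c‖ (L - d) with h | h
  · left
    obtain ⟨s, hs, hsz⟩ := hD.hole z h
    have := hz s hs
    rw [norm_sub_rev z s] at this
    linarith
  · right
    have hR : 0 < ‖z - c‖ := by linarith
    set R := ‖z - c‖ with hRdef
    set z' : ℂ := c + (((L - d) / R : ℝ) : ℂ) * (z - c) with hz'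
    have h1 : ‖z' - c‖ ≤ L - d := by
      rw [hz', add_sub_cancel_left, norm_mul, Complex.norm_real,
        Real.norm_of_nonneg (div_nonneg (by linarith) hR.le), ← hRdef, div_mul_cancel₀ _ hR.ne']
    obtain ⟨s, hs, hsz⟩ := hD.hole z' h1
    have h2 : ‖z - z'‖ = R - (L - d) := by
      have e : z - z' = ((1 - (L - d) / R : ℝ) : ℂ) * (z - c) := by
        rw [hz']; push_cast; ring
      have h3 : (L - d) / R ≤ 1 := (div_le_one hR).2 h.le
      rw [e, norm_mul, Complex.norm_real, Real.norm_of_nonneg (by linarith), ← hRdef]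
      field_simp
    have h4 := hz s hs
    have h5 := norm_tri z z' s
    rw [norm_sub_rev z' s] at h5
    exact ⟨by linarith, h.le⟩

/-- **lens estimate**: `z` sees `u` from outside, `u` in the disc: they have nearly the same
direction -/
theorem lens (hd : 0 < d) (hL : 8 * d ≤ L) {z u : ℂ} (hz : L / 2 ≤ ‖z - c‖) (hu : ‖u - c‖ ≤ L)
    (h : ‖z - u‖ ≤ d ∨ (‖z - u‖ ≤ ‖z - c‖ - L + 2 * d ∧ L - d ≤ ‖z - c‖)) :
    ‖z - c‖ * ‖u - c‖ - dt (z - c) (u - c) ≤ 2 * d * ‖z - c‖ ∧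
      cr (z - c) (u - c) ^ 2 ≤ 4 * d * L * ‖z - c‖ ^ 2 := by
  have hR0 := norm_nonneg (z - c)
  have hU0 := norm_nonneg (u - c)
  have hz2 := sq_norm_sub z c
  have hu2 := sq_norm_sub u c
  have hzu2 := sq_norm_sub z u
  set R := ‖z - c‖ with hR
  set U := ‖u - c‖ with hU
  set w := ‖z - u‖ with hw
  have hw0 : 0 ≤ w := norm_nonneg _
  have e1 : 2 * (R * U - dt (z - c) (u - c)) = w ^ 2 - (R - U) ^ 2 := by
    have : (R - U) ^ 2 = R ^ 2 + U ^ 2 - 2 * (R * U) := by ring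
    rw [this, hz2, hu2, hzu2]
    unfold dt
    simp only [Complex.sub_re, Complex.sub_im]
    ring
  have h2 : R * U - dt (z - c) (u - c) ≤ 2 * d * R := by
    rcases h with h | ⟨h, h'⟩
    · have : w ^ 2 ≤ d ^ 2 := pow_le_pow_left₀ hw0 h 2
      nlinarith [sq_nonneg (R - U)]
    · rcases le_or_gt L R with hLR | hLR
      · have h3 : w ^ 2 ≤ (R - L + 2 * d) ^ 2 := pow_le_pow_left₀ hw0 h 2
        have h4 : (R - L) ^ 2 ≤ (R - U) ^ 2 := pow_le_pow_left₀ (by linarith) (by linarith) 2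
        nlinarith
      · have h3 : w ^ 2 ≤ (2 * d) ^ 2 := pow_le_pow_left₀ hw0 (by linarith) 2
        nlinarith [sq_nonneg (R - U)]
  refine ⟨h2, ?_⟩
  have e2 : cr (z - c) (u - c) ^ 2 + dt (z - c) (u - c) ^ 2 = (R * U) ^ 2 := by
    rw [mul_pow, hz2, hu2]
    unfold dt cr
    simp only [Complex.sub_re, Complex.sub_im]
    ring
  have e3 : |dt (z - c) (u - c)| ≤ R * U := by
    rw [← sq_le_sq₀ (abs_nonneg _) (mul_nonneg hR0 hU0), sq_abs]
    nlinarith [sq_nonneg (cr (z - c) (u - c))]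
  have e4 := abs_le.1 e3
  have e5 : cr (z - c) (u - c) ^ 2 =
      (R * U - dt (z - c) (u - c)) * (R * U + dt (z - c) (u - c)) := by
    have : (R * U - dt (z - c) (u - c)) * (R * U + dt (z - c) (u - c)) =
      (R * U) ^ 2 - dt (z - c) (u - c) ^ 2 := by ring
    rw [this]; linarith
  rw [e5]
  have h6 : R * U + dt (z - c) (u - c) ≤ 2 * (R * L) := by
    have : R * U ≤ R * L := mul_le_mul_of_nonneg_left hu hR0
    linarith
  calc (R * U - dt (z - c) (u - c)) * (R * U + dt (z - c) (u - c)) ≤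
        (2 * d * R) * (2 * (R * L)) :=
        mul_le_mul h2 h6 (by linarith) (by positivity)
    _ = 4 * d * L * R ^ 2 := by ring

theorem sq_norm' (w : ℂ) : ‖w‖ ^ 2 = w.re ^ 2 + w.im ^ 2 := by
  rw [Complex.sq_norm, Complex.normSq_apply]; ring

theorem cr_dt_sq (z u : ℂ) : cr z u ^ 2 + dt z u ^ 2 = (‖z‖ * ‖u‖) ^ 2 := by
  rw [mul_pow, sq_norm', sq_norm']
  unfold dt cr
  ring

theorem abs_dt_le (z u : ℂ) : |dt z u| ≤ ‖z‖ * ‖u‖ := by
  rw [← sq_le_sq₀ (abs_nonneg _) (by positivity), sq_abs, ← cr_dt_sq]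
  linarith [sq_nonneg (cr z u)]

theorem dt_sub (z u x : ℂ) : dt z (u - x) = dt z u - dt z x := by
  unfold dt; simp only [Complex.sub_re, Complex.sub_im]; ring

theorem cr_subr (z u x : ℂ) : cr z (u - x) = cr z u - cr z x := by
  unfold cr; simp only [Complex.sub_re, Complex.sub_im]; ring

/-- two points of a lens -/
theorem lens_pair {R L d E : ℝ} {z u x : ℂ} (hR : ‖z‖ = R) (hRp : 0 < R) (hd : 0 < d)
    (hE0 : 0 ≤ E) (hE2 : E ^ 2 = L * d) (hdE : 2 * d ≤ E)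
    (du : dt z u ≤ R * L) (dx : dt z x ≤ R * L) (du' : R * (L - 4 * d) ≤ dt z u)
    (dx' : R * (L - 4 * d) ≤ dt z x) (u2 : cr z u ^ 2 ≤ 4 * d * L * R ^ 2)
    (x2 : cr z x ^ 2 ≤ 4 * d * L * R ^ 2) : ‖u - x‖ ≤ 5 * E := by
  have a0 : 0 ≤ 2 * E * R := by positivity
  have a1 : |cr z u| ≤ 2 * E * R := by
    rw [← sq_le_sq₀ (abs_nonneg _) a0, sq_abs]
    calc cr z u ^ 2 ≤ 4 * d * L * R ^ 2 := u2
      _ = (2 * E * R) ^ 2 := by rw [mul_pow, mul_pow, hE2]; ring
  have a2 : |cr z x| ≤ 2 * E * R := by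
    rw [← sq_le_sq₀ (abs_nonneg _) a0, sq_abs]
    calc cr z x ^ 2 ≤ 4 * d * L * R ^ 2 := x2
      _ = (2 * E * R) ^ 2 := by rw [mul_pow, mul_pow, hE2]; ring
  have k1 : dt z (u - x) ^ 2 ≤ (4 * d * R) ^ 2 := by
    rw [dt_sub]
    have e1 : R * (L - 4 * d) = R * L - 4 * d * R := by ring
    rw [e1] at du' dx'
    apply sq_le_sq' <;> linarith
  have b1 := abs_le.1 a1
  have b2 := abs_le.1 a2
  have k2 : cr z (u - x) ^ 2 ≤ (4 * E * R) ^ 2 := by
    rw [cr_subr]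
    apply sq_le_sq'
    · linarith [b1.1, b2.2]
    · linarith [b1.2, b2.1]
  have k3 := cr_dt_sq z (u - x)
  rw [hR, mul_pow] at k3
  have k6 : (4 * d * R) ^ 2 ≤ 4 * (E ^ 2 * R ^ 2) := by
    have h1 : (2 * d) ^ 2 ≤ E ^ 2 := pow_le_pow_left₀ (by linarith) hdE 2
    have h2 := mul_le_mul_of_nonneg_right h1 (sq_nonneg R)
    have h3 : (4 * d * R) ^ 2 = 4 * ((2 * d) ^ 2 * R ^ 2) := by ring
    rw [h3]; linarith
  have k7 : (4 * E * R) ^ 2 = 16 * (E ^ 2 * R ^ 2) := by ring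
  have k8 : 0 ≤ E ^ 2 * R ^ 2 := by positivity
  have k4 : R ^ 2 * ‖u - x‖ ^ 2 ≤ R ^ 2 * (5 * E) ^ 2 := by
    have : R ^ 2 * (5 * E) ^ 2 = 25 * (E ^ 2 * R ^ 2) := by ring
    rw [this, ← k3]
    linarith
  have k5 : ‖u - x‖ ^ 2 ≤ (5 * E) ^ 2 := le_of_mul_le_mul_left k4 (by positivity)
  exact (sq_le_sq₀ (norm_nonneg _) (by positivity)).1 k5

/-- **the Delaunay triangles are small**: also near the boundary of the disc -/
theorem tri_near (hD : Dns S c L d) {u v w x : ℂ} (ht : (u, v, w) ∈ delT S)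
    (hx : InT x u v w) : ‖u - x‖ ≤ 5 * Real.sqrt (L * d) := by
  have hd := hD.dpos
  have hL := hD.dL
  obtain ⟨o, hT⟩ := mem_delT_iff.1 ht
  have hxo := pw_nonpos hT hx
  rw [pw_eq, sub_nonpos, sq_le_sq₀ (norm_nonneg _) (norm_nonneg _)] at hxo
  have hemp : ∀ s ∈ S, ‖o - u‖ ≤ ‖o - s‖ := fun s hs => by
    rw [norm_sub_rev o u, norm_sub_rev o s]; exact norm_le_iff.2 (hT.emp s hs)
  have hE0 : 0 ≤ Real.sqrt (L * d) := Real.sqrt_nonneg _
  have hLd : 0 ≤ L * d := mul_nonneg (by linarith) hd.le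
  have hE2 : Real.sqrt (L * d) ^ 2 = L * d := Real.sq_sqrt hLd
  have hdE : 2 * d ≤ Real.sqrt (L * d) := by
    rw [← sq_le_sq₀ (by linarith) hE0, hE2]
    have := mul_le_mul_of_nonneg_right hL hd.le
    have e : (2 * d) ^ 2 = 4 * (d * d) := by ring
    have : 0 ≤ d * d := mul_nonneg hd.le hd.le
    rw [e]; linarith
  set E := Real.sqrt (L * d) with hE
  rcases cell_bound hD hemp with h | ⟨h, hR⟩
  · have h1 := norm_tri u o x
    rw [norm_sub_rev u o, norm_sub_rev o x] at h1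
    rw [norm_sub_rev u o] at hxo
    linarith
  · -- lens
    have hub := hD.sub u hT.ma
    have hxb : ‖x - c‖ ≤ L := inT_ball hT.pos hx hub (hD.sub v hT.mb) (hD.sub w hT.mc)
    have hR2 : L / 2 ≤ ‖o - c‖ := by linarith
    obtain ⟨u1, u2⟩ := lens hd hL hR2 hub (Or.inr ⟨h, hR⟩)
    have hxo' : ‖o - x‖ ≤ ‖o - c‖ - L + 2 * d := by
      rw [norm_sub_rev o x]; rw [norm_sub_rev o u] at h; linarith
    obtain ⟨x1, x2⟩ := lens hd hL hR2 hxb (Or.inr ⟨hxo', hR⟩)
    have hRp : 0 < ‖o - c‖ := by linarith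
    have hu3 : ‖o - c‖ * (L - 2 * d) ≤ ‖o - c‖ * ‖u - c‖ := by
      have := norm_tri o u c
      exact mul_le_mul_of_nonneg_left (by linarith) hRp.le
    have hx3 : ‖o - c‖ * (L - 2 * d) ≤ ‖o - c‖ * ‖x - c‖ := by
      have := norm_tri o x c
      exact mul_le_mul_of_nonneg_left (by linarith) hRp.le
    have du := (le_abs_self _).trans ((abs_dt_le (o - c) (u - c)).trans
      (mul_le_mul_of_nonneg_left hub hRp.le))
    have dx := (le_abs_self _).trans ((abs_dt_le (o - c) (x - c)).trans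
      (mul_le_mul_of_nonneg_left hxb hRp.le))
    have e1 : ‖o - c‖ * (L - 4 * d) = ‖o - c‖ * (L - 2 * d) - 2 * d * ‖o - c‖ := by ring
    have key := lens_pair (z := o - c) (u := u - c) (x := x - c) rfl hRp hd hE0 hE2 hdE du dx
      (by rw [e1]; linarith) (by rw [e1]; linarith) u2 x2
    have e2 : u - c - (x - c) = u - x := by ring
    rwa [e2] at key

/-! ### the cones -/

/-- coordinates along the unit vector `q` -/
theorem dt_cr_decomp {q w : ℂ} (hq : ‖q‖ = 1) : w = ((dt q w : ℝ) : ℂ) * q + ((cr q w : ℝ) : ℂ) * (Complex.I * q) := by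
  have h1 : q.re ^ 2 + q.im ^ 2 = 1 := by rw [← sq_norm', hq]; norm_num
  unfold dt cr
  apply Complex.ext
  · simp only [Complex.add_re, Complex.mul_re, Complex.ofReal_re, Complex.ofReal_im, Complex.I_re,
      Complex.I_im, Complex.mul_im]
    linear_combination (-w.re) * h1
  · simp only [Complex.add_im, Complex.mul_re, Complex.ofReal_re, Complex.ofReal_im, Complex.I_re,
      Complex.I_im, Complex.mul_im]
    linear_combination (-w.im) * h1

theorem rot_cr {q z u : ℂ} (hq : ‖q‖ = 1) : cr z u = dt q z * cr q u - cr q z * dt q u := by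
  have h1 : q.re ^ 2 + q.im ^ 2 = 1 := by rw [← sq_norm', hq]; norm_num
  unfold dt cr
  linear_combination (-(z.re * u.im - z.im * u.re)) * h1

theorem rot_dt {q z u : ℂ} (hq : ‖q‖ = 1) : dt z u = dt q z * dt q u + cr q z * cr q u := by
  have h1 : q.re ^ 2 + q.im ^ 2 = 1 := by rw [← sq_norm', hq]; norm_num
  unfold dt cr
  linear_combination (-(z.re * u.re + z.im * u.im)) * h1

/-- **a point whose nearest site is near the axis is in the cone** -/
theorem cone_of_near (hD : Dns S c L d) {q u z : ℂ} (hq : ‖q‖ = 1) {δ Y : ℝ}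
    (hu : u ∈ S) (hz : ∀ s ∈ S, ‖z - u‖ ≤ ‖z - s‖) (hzL : L / 2 ≤ ‖z - c‖)
    (hY : |cr q (u - c)| ≤ Y) (hX : L / 2 ≤ dt q (u - c)) (hY8 : 8 * Y ≤ L)
    (hδ : 2 * (Y + 2 * Real.sqrt (L * d)) ≤ δ) :
    ∃ t : ℝ, 0 ≤ t ∧ ‖z - (c + t * q)‖ ≤ δ / L * ‖z - c‖ := by
  have hd := hD.dpos
  have hL := hD.dL
  have hLp : 0 < L := by linarith
  have hE0 : 0 ≤ Real.sqrt (L * d) := Real.sqrt_nonneg _
  have hLd : 0 ≤ L * d := mul_nonneg hLp.le hd.le
  have hE2 : Real.sqrt (L * d) ^ 2 = L * d := Real.sq_sqrt hLd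
  set E := Real.sqrt (L * d) with hE
  have hY0 : 0 ≤ Y := (abs_nonneg _).trans hY
  obtain ⟨h1, h2⟩ := lens hd hL hzL (hD.sub u hu) (cell_bound hD hz)
  have hR : 0 < ‖z - c‖ := by linarith
  set R := ‖z - c‖ with hRdef
  have h3 : |cr (z - c) (u - c)| ≤ 2 * E * R := by
    rw [← sq_le_sq₀ (abs_nonneg _) (by positivity), sq_abs]
    calc cr (z - c) (u - c) ^ 2 ≤ 4 * d * L * R ^ 2 := h2
      _ = (2 * E * R) ^ 2 := by rw [mul_pow, mul_pow, hE2]; ring
  have x1 : |dt q (z - c)| ≤ R := by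
    have := abs_dt_le q (z - c)
    rwa [hq, one_mul] at this
  have y1 : |cr q (z - c)| ≤ R := by
    have := abs_cr_le q (z - c)
    rwa [hq, one_mul] at this
  -- transversal coordinate
  have h4 : |cr q (z - c)| * dt q (u - c) ≤ R * Y + 2 * E * R := by
    have e := rot_cr (q := q) (z := z - c) (u := u - c) hq
    have e' : cr q (z - c) * dt q (u - c) =
        dt q (z - c) * cr q (u - c) - cr (z - c) (u - c) := by linarith
    have hX0 : 0 ≤ dt q (u - c) := by linarith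
    calc |cr q (z - c)| * dt q (u - c) = |cr q (z - c) * dt q (u - c)| := by
          rw [abs_mul, abs_of_nonneg hX0]
      _ = |dt q (z - c) * cr q (u - c) - cr (z - c) (u - c)| := by rw [e']
      _ ≤ |dt q (z - c) * cr q (u - c)| + |cr (z - c) (u - c)| := abs_sub _ _
      _ ≤ R * Y + 2 * E * R := by
          rw [abs_mul]
          exact add_le_add (mul_le_mul x1 hY (abs_nonneg _) hR.le) h3
  have h5 : |cr q (z - c)| * L ≤ δ * R := by
    have h6 : |cr q (z - c)| * (L / 2) ≤ |cr q (z - c)| * dt q (u - c) :=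
      mul_le_mul_of_nonneg_left hX (abs_nonneg _)
    have h7 : 2 * (Y + 2 * E) * R ≤ δ * R := mul_le_mul_of_nonneg_right hδ hR.le
    nlinarith
  -- longitudinal coordinate
  have h8 : 0 ≤ dt q (z - c) := by
    by_contra hcon
    push Not at hcon
    have e := rot_dt (q := q) (z := z - c) (u := u - c) hq
    have hU : L / 2 ≤ ‖u - c‖ := by
      have := (le_abs_self _).trans (abs_dt_le q (u - c))
      rw [hq, one_mul] at this
      linarith
    have h9 : R * (L / 2) ≤ R * ‖u - c‖ := mul_le_mul_of_nonneg_left hU hR.le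
    have h10 : dt q (z - c) * dt q (u - c) ≤ 0 :=
      mul_nonpos_of_nonpos_of_nonneg hcon.le (by linarith)
    have h11 : cr q (z - c) * cr q (u - c) ≤ R * Y := by
      refine (le_abs_self _).trans ?_
      rw [abs_mul]
      exact mul_le_mul y1 hY (abs_nonneg _) hR.le
    have h12 : R * (8 * Y) ≤ R * L := mul_le_mul_of_nonneg_left hY8 hR.le
    have h13 : R * (8 * d) ≤ R * L := mul_le_mul_of_nonneg_left hL hR.le
    have h14 : 0 < R * L := mul_pos hR hLp
    nlinarith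
  refine ⟨dt q (z - c), h8, ?_⟩
  have e : z - (c + ((dt q (z - c) : ℝ) : ℂ) * q) =
      ((cr q (z - c) : ℝ) : ℂ) * (Complex.I * q) := by
    have := dt_cr_decomp (q := q) (w := z - c) hq
    linear_combination this
  rw [e, norm_mul, norm_mul, Complex.norm_I, hq, Complex.norm_real, Real.norm_eq_abs, mul_one,
    mul_one, div_mul_eq_mul_div, le_div_iff₀ hLp]
  exact h5

/-! ### the domain -/

theorem hol_dns (hD : Dns S c L d) : Hol (S : Set ℂ) {w | ‖w - c‖ ≤ L - 2 * d} d := by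
  intro w hw z hz
  have hw' : ‖w - c‖ ≤ L - 2 * d := hw
  have := norm_tri z w c
  obtain ⟨s, hs, hsz⟩ := hD.hole z (by linarith)
  exact ⟨s, hs, hsz⟩

theorem inHull_convex {x y : ℂ} (hx : InHull S x) (hy : InHull S y) {r : ℝ} (h0 : 0 ≤ r)
    (h1 : r ≤ 1) : InHull S ((1 - r : ℝ) * x + (r : ℂ) * y) := by
  intro a b hab
  have e : cr (b - a) (((1 - r : ℝ) : ℂ) * x + (r : ℂ) * y - a) =
      (1 - r) * cr (b - a) (x - a) + r * cr (b - a) (y - a) := by
    unfold cr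
    simp only [Complex.sub_re, Complex.sub_im, Complex.add_re, Complex.add_im, Complex.mul_re,
      Complex.mul_im, Complex.ofReal_re, Complex.ofReal_im]
    ring
  rw [e]
  have := mul_nonneg (sub_nonneg.2 h1) (hx a b hab)
  have := mul_nonneg h0 (hy a b hab)
  linarith

/-- `E = √(L d)` is small -/
theorem small_E {δ : ℝ} (hL : 0 < L) (hd0 : 0 < d) (hδ0 : 0 < δ) (hδ : δ ≤ L)
    (hd : 40000 * L ^ 5 * d ≤ δ ^ 6) : 200 * Real.sqrt (L * d) ≤ δ := by
  have hLd : 0 ≤ L * d := mul_nonneg hL.le hd0.le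
  have hE0 : 0 ≤ Real.sqrt (L * d) := Real.sqrt_nonneg _
  rw [← sq_le_sq₀ (by positivity) hδ0.le, mul_pow, Real.sq_sqrt hLd]
  have h1 : δ ^ 4 ≤ L ^ 4 := pow_le_pow_left₀ hδ0.le hδ 4
  have h2 : δ ^ 6 ≤ L ^ 4 * δ ^ 2 := by
    calc δ ^ 6 = δ ^ 4 * δ ^ 2 := by ring
      _ ≤ L ^ 4 * δ ^ 2 := mul_le_mul_of_nonneg_right h1 (sq_nonneg _)
  have h3 : L ^ 4 * (200 ^ 2 * (L * d)) ≤ L ^ 4 * δ ^ 2 := by
    calc L ^ 4 * (200 ^ 2 * (L * d)) = 40000 * L ^ 5 * d := by ring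
      _ ≤ δ ^ 6 := hd
      _ ≤ L ^ 4 * δ ^ 2 := h2
  exact le_of_mul_le_mul_left h3 (by positivity)

/-- **edges near the axis of a tentacle are live** -/
theorem live_coneW {D : Dom} {δ : ℝ} (hD : D.W δ) (hS : Dns S D.c D.L d)
    (hd : 40000 * D.L ^ 5 * d ≤ δ ^ 6) (k : ZMod 3) {τ : ℝ} (h1 : 3 / 4 * D.L ≤ τ)
    {x : ℂ} (hx : ‖x - (D.c + (τ : ℂ) * D.q k)‖ ≤ 4 * Real.sqrt (D.L * d)) {t : ℂ × ℂ × ℂ}
    (ht : t ∈ delT S) (hxt : x ∈ cT t) {u v w : ℂ} (hu : (u, v, w) ∈ rots t) :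
    (u, v) ∉ D.kl S := by
  have hL := hD.Lpos
  have hd0 := hS.dpos
  have hE := small_E hL hd0 hD.dpos hD.lt.le hd
  have hδL := hD.lt
  have hE0 : 0 ≤ Real.sqrt (D.L * d) := Real.sqrt_nonneg _
  have hLd : 0 ≤ D.L * d := mul_nonneg hL.le hd0.le
  have hE2 : Real.sqrt (D.L * d) ^ 2 = D.L * d := Real.sq_sqrt hLd
  have hdE : d ≤ Real.sqrt (D.L * d) := by
    rw [← sq_le_sq₀ hd0.le hE0, hE2, sq]
    exact mul_le_mul_of_nonneg_right (by linarith [hS.dL]) hd0.le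
  have hT := delT_rots hS.gp hu ht
  have hxT : InT x u v w := by
    have : x ∈ cT (u, v, w) := by rw [cT_rots hu]; exact hxt
    exact this
  have hux := tri_near hS hT hxT
  set E := Real.sqrt (D.L * d) with hEdef
  have huq : ‖u - (D.c + (τ : ℂ) * D.q k)‖ ≤ 9 * E := by
    have := norm_tri u x (D.c + (τ : ℂ) * D.q k)
    linarith
  have hq := hD.qn k
  have e1 : u - D.c = (τ : ℂ) * D.q k + (u - (D.c + (τ : ℂ) * D.q k)) := by ring
  set f := u - (D.c + (τ : ℂ) * D.q k) with hf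
  have hqq : dt (D.q k) ((τ : ℂ) * D.q k) = τ := by
    have h : (D.q k).re ^ 2 + (D.q k).im ^ 2 = 1 := by rw [← sq_norm', hq]; norm_num
    unfold dt
    simp only [Complex.mul_re, Complex.mul_im, Complex.ofReal_re, Complex.ofReal_im]
    linear_combination τ * h
  have hcq : cr (D.q k) ((τ : ℂ) * D.q k) = 0 := by
    unfold cr
    simp only [Complex.mul_re, Complex.mul_im, Complex.ofReal_re, Complex.ofReal_im]
    ring
  have hdt : dt (D.q k) (u - D.c) = τ + dt (D.q k) f := by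
    rw [e1]
    have : dt (D.q k) ((τ : ℂ) * D.q k + f) = dt (D.q k) ((τ : ℂ) * D.q k) + dt (D.q k) f := by
      unfold dt; simp only [Complex.add_re, Complex.add_im]; ring
    rw [this, hqq]
  have hcr : cr (D.q k) (u - D.c) = cr (D.q k) f := by
    rw [e1]
    have : cr (D.q k) ((τ : ℂ) * D.q k + f) = cr (D.q k) ((τ : ℂ) * D.q k) + cr (D.q k) f := by
      unfold cr; simp only [Complex.add_re, Complex.add_im]; ring
    rw [this, hcq, zero_add]
  have hdtf := abs_dt_le (D.q k) f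
  have hcrf := abs_cr_le (D.q k) f
  rw [hq, one_mul] at hdtf hcrf
  have hX : 3 / 4 * D.L - 9 * E ≤ dt (D.q k) (u - D.c) := by
    rw [hdt]
    have := (abs_le.1 hdtf).1
    linarith
  have hY : |cr (D.q k) (u - D.c)| ≤ 9 * E := by rw [hcr]; linarith
  rintro ⟨z, hz, hzo⟩
  dsimp only at hz
  rw [vedge_eq_inter] at hz
  have hzc : ∀ s ∈ S, ‖z - u‖ ≤ ‖z - s‖ := fun s hs => hz.1 s hs
  have huS : u ∈ S := (mem_delT.1 hT).1
  have hzL : D.L / 2 < ‖z - D.c‖ := by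
    rcases cell_bound hS hzc with h | ⟨h, -⟩
    · have h3 := norm_tri u z D.c
      have h4 := (le_abs_self _).trans (abs_dt_le (D.q k) (u - D.c))
      rw [hq, one_mul] at h4
      rw [norm_sub_rev u z] at h3
      linarith
    · have := norm_nonneg (z - u)
      linarith [hS.dL]
  obtain ⟨t', ht0, htz⟩ := cone_of_near hS hq huS hzc hzL.le hY (by linarith) (by linarith)
    (δ := δ) (by rw [← hEdef]; linarith)
  have := hD.tent z hzL ⟨k, t', ht0, htz⟩
  unfold Dom.out at hzo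
  rw [Set.mem_iUnion] at hzo
  obtain ⟨i, hi⟩ := hzo
  exact this i hi

/-- **edges near a point with room are live** -/
theorem live_room {D : Dom} (hS : Dns S D.c D.L d) (hd16 : 16 * d ≤ D.L) {η : ℝ} (hη : 3 * d ≤ η)
    {x : ℂ} (hx : ‖x - D.c‖ ≤ 3 / 4 * D.L) (hout : ∀ z, ‖z - x‖ < η → z ∉ D.out)
    {t : ℂ × ℂ × ℂ} (ht : t ∈ delT S) (hxt : x ∈ cT t) {u v w : ℂ} (hu : (u, v, w) ∈ rots t) :
    (u, v) ∉ D.kl S := by
  have hd0 := hS.dpos
  have hH := hol_dns hS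
  have hT := delT_rots hS.gp hu ht
  have hxT : InT x u v w := by
    have : x ∈ cT (u, v, w) := by rw [cT_rots hu]; exact hxt
    exact this
  have hxW : x ∈ {w | ‖w - D.c‖ ≤ D.L - 2 * d} := by
    show ‖x - D.c‖ ≤ D.L - 2 * d
    linarith
  have hdel := mem_delT.1 hT
  obtain ⟨o, -, -, -, -, -, h6, -, -⟩ := del_small hd0 hH hxW (InT.inD hdel.2.2.2.1 hxT) hdel
  have huW : u ∈ {w | ‖w - D.c‖ ≤ D.L - 2 * d} := by
    show ‖u - D.c‖ ≤ D.L - 2 * d
    have := norm_tri u x D.c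
    linarith
  rintro ⟨z, hz, hzo⟩
  dsimp only at hz
  have h7 := (vedge_sub_ball hd0 hH huW hz).1
  have h8 := norm_tri z u x
  exact hout z (by linarith) hzo

/-- the path from the body to the middle of the mark edge -/
theorem seg_pt {D : Dom} {m : ℂ} (k : ZMod 3) {x : ℂ}
    (hx : x ∈ segment ℝ (D.c + ((3 / 4 * D.L : ℝ) : ℂ) * D.q k) m)
    {E : ℝ} (hE : 0 ≤ E) (hm : ‖m - (D.c + D.L * D.q k)‖ ≤ 4 * E) (hL : 0 < D.L) :
    ∃ r : ℝ, 0 ≤ r ∧ r ≤ 1 ∧
      x = ((1 - r : ℝ) : ℂ) * (D.c + ((3 / 4 * D.L : ℝ) : ℂ) * D.q k) + (r : ℂ) * m ∧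
      ∃ τ : ℝ, 3 / 4 * D.L ≤ τ ∧ ‖x - (D.c + (τ : ℂ) * D.q k)‖ ≤ 4 * E := by
  rw [segment_eq_image] at hx
  obtain ⟨r, ⟨h0, h1⟩, rfl⟩ := hx
  refine ⟨r, h0, h1, by simp only [Complex.real_smul], 3 / 4 * D.L * (1 - r) + D.L * r, by nlinarith, ?_⟩
  have e : (1 - r) • (D.c + ((3 / 4 * D.L : ℝ) : ℂ) * D.q k) + r • m -
      (D.c + ((3 / 4 * D.L * (1 - r) + D.L * r : ℝ) : ℂ) * D.q k) =
      (r : ℂ) * (m - (D.c + D.L * D.q k)) := by
    simp only [Complex.real_smul]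
    push_cast
    ring
  rw [e, norm_mul, Complex.norm_real, Real.norm_of_nonneg h0]
  calc r * ‖m - (D.c + D.L * D.q k)‖ ≤ 1 * (4 * E) :=
        mul_le_mul h1 hm (norm_nonneg _) zero_le_one
    _ = 4 * E := one_mul _

/-- **the triangles which meet `C` are joined to the marks** -/
theorem exm_of_linkedW {D : Dom} {δ η : ℝ} (hD : D.W δ) (hS : Dns S D.c D.L d)
    (hd : 40000 * D.L ^ 5 * d ≤ δ ^ 6) (hη : 3 * d ≤ η) {C : Set ℂ} (hC : IsPreconnected C)
    (hsub : ∀ y ∈ C, ‖y - D.c‖ ≤ 3 / 4 * D.L)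
    (hq : ∀ k, D.c + ((3 / 4 * D.L : ℝ) : ℂ) * D.q k ∈ C)
    (hout : ∀ y ∈ C, ∀ z, ‖z - y‖ < η → z ∉ D.out) {t : ℂ × ℂ × ℂ} (ht : t ∈ delT S)
    (hm : (cT t ∩ C).Nonempty) :
    ExM (D.netS S) t ∧ ∀ u v w, (u, v, w) ∈ rots t → (u, v) ∉ D.kl S := by
  have hL := hD.Lpos
  have hd0 := hS.dpos
  have hgp := hS.gp
  have hN := d1_S hD hS hd
  have hδL := hD.lt
  have hE := small_E hL hd0 hD.dpos hδL.le hd
  have hE0 : 0 ≤ Real.sqrt (D.L * d) := Real.sqrt_nonneg _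
  have hLd : 0 ≤ D.L * d := mul_nonneg hL.le hd0.le
  have hE2 : Real.sqrt (D.L * d) ^ 2 = D.L * d := Real.sq_sqrt hLd
  have hd16 : 16 * d ≤ D.L := by
    have h1 : (200 * Real.sqrt (D.L * d)) ^ 2 ≤ D.L ^ 2 :=
      pow_le_pow_left₀ (by positivity) (hE.trans hδL.le) 2
    rw [mul_pow, hE2] at h1
    have h2 : D.L * (40000 * d) ≤ D.L * D.L := by nlinarith
    have := le_of_mul_le_mul_left h2 hL
    linarith
  set N := D.netS S with hNdef
  have hT : N.T = delT S := hN.tri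
  have hkl : ∀ u v : ℂ, (u, v) ∉ D.kl S → (u, v) ∉ N.kl := fun u v h h' => by
    rw [hNdef, DomAx722.netS_kl hgp] at h'
    exact h h'.1
  have hH := hol_dns hS
  have hCW : ∀ y ∈ C, y ∈ {w | ‖w - D.c‖ ≤ D.L - 2 * d} := fun y hy => by
    show ‖y - D.c‖ ≤ D.L - 2 * d
    linarith [hsub y hy]
  have hroom : ∀ s ∈ delT S, (cT s ∩ C).Nonempty → ∀ u v w, (u, v, w) ∈ rots s →
      (u, v) ∉ D.kl S := by
    rintro s hs ⟨x, hxs, hxC⟩ u v w hu
    exact live_room hS hd16 hη (hsub x hxC) (hout x hxC) hs hxs hu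
  refine ⟨⟨by rw [hT]; exact ht, fun k => ?_⟩, hroom t ht hm⟩
  -- the mark
  have hex := hN.hex k
  have hmk : crossRay S D.c (D.q k) (N.ex k) := by
    rw [hNdef, DomAx722.netS_ex hgp]
    exact rayMark_spec (crossRay_exists hS (hD.qn k))
  have hnear := crossRay_near hS (hD.qn k) hmk
  obtain ⟨⟨w0, hw0⟩, hw1⟩ := id hex
  set a := (N.ex k).1 with ha
  set b := (N.ex k).2 with hb
  set m := mid (N.ex k) with hmdef
  have hab : a ≠ b := hullE.ne hex
  have hmab : m = (a + b) / 2 := rfl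
  have hmseg : m ∈ segment ℝ a b := by
    refine ⟨1 / 2, 1 / 2, by norm_num, by norm_num, by norm_num, ?_⟩
    rw [hmab]
    simp only [Complex.real_smul]
    push_cast
    ring
  refine ⟨w0, by rw [hT]; exact hw0, ?_⟩
  obtain ⟨o, hTr⟩ := mem_delT_iff.1 hw0
  have hmT : m ∈ cT (a, b, w0) := seg_sub_cT hTr.pos hmseg
  -- the enlarged set
  set y0 := D.c + ((3 / 4 * D.L : ℝ) : ℂ) * D.q k with hy0
  set C' : Set ℂ := C ∪ segment ℝ y0 m with hC'
  have hy0C := hq k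
  rw [← hy0] at hy0C
  have hC'p : IsPreconnected C' :=
    hC.union y0 hy0C (left_mem_segment ℝ y0 m) (convex_segment y0 m).isPreconnected
  have hin0 : InHull S y0 := inHull hd0 hH (hCW y0 hy0C)
  have hinm : InHull S m := by
    intro a' b' h'
    have h1 := hull_side h' a hTr.ma
    have h2 := hull_side h' b hTr.mb
    have e : cr (b' - a') (m - a') = (cr (b' - a') (a - a') + cr (b' - a') (b - a')) / 2 := by
      rw [hmab]
      unfold cr
      simp only [Complex.sub_re, Complex.sub_im, Complex.add_re, Complex.add_im,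
        Complex.div_ofNat_re, Complex.div_ofNat_im]
      ring
    rw [e]
    linarith
  have h3 := hS.card
  have hcov : ∀ x ∈ C', ∃ t ∈ delT S, x ∈ cT t := by
    intro x hx
    have hxH : InHull S x := by
      rcases hx with hx | hx
      · exact inHull hd0 hH (hCW x hx)
      · obtain ⟨r, h0, h1, rfl, -⟩ := seg_pt k hx hE0 hnear hL
        exact inHull_convex hin0 hinm h0 h1
    obtain ⟨a', b', c', o', hT', hx', -⟩ := cover hgp h3 hxH
    exact ⟨(a', b', c'), mem_delT_iff.2 ⟨o', hT'⟩, hx'⟩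
  have hint : ∀ x ∈ C', x ∈ S → ∀ a, ¬ hullE S a x := by
    intro x hx hxS a' h'
    rcases hx with hx | hx
    · exact (Locx922.not_hull hd0 hH (hCW x hx) a').2 h'
    · obtain ⟨r, h0, h1, hxe, -⟩ := seg_pt k hx hE0 hnear hL
      rcases h1.lt_or_eq with h1 | h1
      · -- strictly inside
        have s1 := lft_hull hd0 hH (hCW y0 hy0C) h'
        have s2 := hinm a' x h'
        have s3 : cr (x - a') (x - a') = 0 := cr_right a' x
        have e : cr (x - a') (((1 - r : ℝ) : ℂ) * y0 + (r : ℂ) * m - a') =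
            (1 - r) * cr (x - a') (y0 - a') + r * cr (x - a') (m - a') := by
          unfold cr
          simp only [Complex.sub_re, Complex.sub_im, Complex.add_re, Complex.add_im,
            Complex.mul_re, Complex.mul_im, Complex.ofReal_re, Complex.ofReal_im]
          ring
        rw [← hxe, s3] at e
        unfold Lft at s1
        have := mul_pos (sub_pos.2 h1) s1
        have := mul_nonneg h0 s2
        linarith
      · -- the middle of the mark edge is not a site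
        have hxm : x = m := by rw [hxe, h1]; simp
        rw [hxm] at hxS
        have hne1 : m ≠ a := by
          intro h
          apply hab
          rw [hmab] at h
          linear_combination (-2 : ℂ) * h
        have hne2 : m ≠ b := by
          intro h
          apply hab
          rw [hmab] at h
          linear_combination (2 : ℂ) * h
        have := hgp.line a hTr.ma b hTr.mb m hxS hab hne2.symm hne1.symm
        apply this
        rw [hmab]
        unfold cr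
        simp only [Complex.sub_re, Complex.sub_im, Complex.add_re, Complex.add_im,
          Complex.div_ofNat_re, Complex.div_ofNat_im]
        ring
  have hl : ∀ s ∈ delT S, (cT s ∩ C').Nonempty → ∀ u v w, (u, v, w) ∈ rots s → (u, v) ∉ N.kl := by
    rintro s hs ⟨x, hxs, hx⟩ u v w hu
    apply hkl
    rcases hx with hx | hx
    · exact hroom s hs ⟨x, hxs, hx⟩ u v w hu
    · obtain ⟨r, h0, h1, -, τ, hτ, hτx⟩ := seg_pt k hx hE0 hnear hL
      exact live_coneW hD hS hd k hτ hτx hs hxs hu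
  exact chain_all hgp hT hC'p hcov hint hl ht (hm.mono (Set.inter_subset_inter_right _
    Set.subset_union_left)) hw0 ⟨m, hmT, Or.inr (right_mem_segment ℝ y0 m)⟩

/-- for the sample -/
theorem exm_envW {D : Dom} {δ η ε M : ℝ} {ω : Sample} (hD : D.W δ) (hE : Env ε d M D.c D.L ω)
    (hd : 40000 * D.L ^ 5 * d ≤ δ ^ 6) (hη : 3 * d ≤ η) {C : Set ℂ} (hC : IsPreconnected C)
    (hsub : C ⊆ Metric.closedBall D.c (3 / 4 * D.L))
    (hq : ∀ k, D.c + ((3 / 4 * D.L : ℝ) : ℂ) * D.q k ∈ C)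
    (hout : ∀ y ∈ C, Disjoint (Metric.ball y η) D.out) {t : ℂ × ℂ × ℂ}
    (ht : t ∈ delT (D.sites ε ω)) (hm : (cT t ∩ C).Nonempty) :
    ExM (D.netS (D.sites ε ω)) t ∧ ∀ u v w, (u, v, w) ∈ rots t → (u, v) ∉ D.kl (D.sites ε ω) := by
  refine exm_of_linkedW hD (DomAx722.dns_of_env hD.Lpos
    (small_d hD.Lpos hD.dpos hD.lt.le hd) hE) hd hη hC (fun y hy => ?_) hq
    (fun y hy z hz h => ?_) ht hm
  · have := hsub hy
    rwa [Metric.mem_closedBall, dist_eq_norm] at this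
  · refine Set.disjoint_left.1 (hout y hy) ?_ h
    rwa [Metric.mem_ball, dist_eq_norm]

/-! ### the versions for `Dom.OK` -/

theorem live_cone {D : Dom} {δ : ℝ} (hD : D.OK δ) (hS : Dns S D.c D.L d)
    (hd : 40000 * D.L ^ 5 * d ≤ δ ^ 6) (k : ZMod 3) {τ : ℝ} (h1 : 3 / 4 * D.L ≤ τ)
    {x : ℂ} (hx : ‖x - (D.c + (τ : ℂ) * D.q k)‖ ≤ 4 * Real.sqrt (D.L * d)) {t : ℂ × ℂ × ℂ}
    (ht : t ∈ delT S) (hxt : x ∈ cT t) {u v w : ℂ} (hu : (u, v, w) ∈ rots t) :
    (u, v) ∉ D.kl S := live_coneW hD.w hS hd k h1 hx ht hxt hu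

theorem exm_of_linked {D : Dom} {δ η : ℝ} (hD : D.OK δ) (hS : Dns S D.c D.L d)
    (hd : 40000 * D.L ^ 5 * d ≤ δ ^ 6) (hη : 3 * d ≤ η) {C : Set ℂ} (hC : IsPreconnected C)
    (hsub : ∀ y ∈ C, ‖y - D.c‖ ≤ 3 / 4 * D.L)
    (hq : ∀ k, D.c + ((3 / 4 * D.L : ℝ) : ℂ) * D.q k ∈ C)
    (hout : ∀ y ∈ C, ∀ z, ‖z - y‖ < η → z ∉ D.out) {t : ℂ × ℂ × ℂ} (ht : t ∈ delT S)
    (hm : (cT t ∩ C).Nonempty) :
    ExM (D.netS S) t ∧ ∀ u v w, (u, v, w) ∈ rots t → (u, v) ∉ D.kl S :=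
  exm_of_linkedW hD.w hS hd hη hC hsub hq hout ht hm

theorem exm_env {D : Dom} {δ η ε M : ℝ} {ω : Sample} (hD : D.OK δ) (hE : Env ε d M D.c D.L ω)
    (hd : 40000 * D.L ^ 5 * d ≤ δ ^ 6) (hη : 3 * d ≤ η) {C : Set ℂ} (hC : IsPreconnected C)
    (hsub : C ⊆ Metric.closedBall D.c (3 / 4 * D.L))
    (hq : ∀ k, D.c + ((3 / 4 * D.L : ℝ) : ℂ) * D.q k ∈ C)
    (hout : ∀ y ∈ C, Disjoint (Metric.ball y η) D.out) {t : ℂ × ℂ × ℂ}
    (ht : t ∈ delT (D.sites ε ω)) (hm : (cT t ∩ C).Nonempty) :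
    ExM (D.netS (D.sites ε ω)) t ∧ ∀ u v w, (u, v, w) ∈ rots t → (u, v) ∉ D.kl (D.sites ε ω) :=
  exm_envW hD.w hE hd hη hC hsub hq hout ht hm

end Crest.Agent.R143.Ex2x922
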