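import Crest.Agent.R143.B0_346

/-!
# Row 143, block G: Delaunay triangulations (helper806)

* `g1 : G1`, `g2 : G2`
* `exists_left`  : an empty circle through two sites extends to a Delaunay triangle on any side which
  contains a site
* `exists_tri`   : three sites in general position have a Delaunay triangle
* `hull_side`    : all the sites are on the left of a hull edge
* `cover`        : every point of the convex hull is in a closed Delaunay triangle (the one of the
  smallest power)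
* `disj`         : an interior point is in one Delaunay triangle only
-/

set_option autoImplicit false

noncomputable section

open scoped Classical

namespace Crest.Agent.R143.DelGx806

open Crest.Agent.R143.B0x346

/-! ### coordinates -/

/-- power of `x` with respect to the circle with centre `o` through `a` -/
def pw (o a x : ℂ) : ℝ :=
  (x.re - o.re) ^ 2 + (x.im - o.im) ^ 2 - ((a.re - o.re) ^ 2 + (a.im - o.im) ^ 2)

theorem sq_norm_sub (x o : ℂ) : ‖x - o‖ ^ 2 = (x.re - o.re) ^ 2 + (x.im - o.im) ^ 2 := by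
  rw [Complex.sq_norm, Complex.normSq_apply, Complex.sub_re, Complex.sub_im]; ring

theorem pw_eq (o a x : ℂ) : pw o a x = ‖x - o‖ ^ 2 - ‖a - o‖ ^ 2 := by
  rw [sq_norm_sub, sq_norm_sub]; rfl

theorem norm_le_iff {o a x : ℂ} : ‖a - o‖ ≤ ‖x - o‖ ↔ 0 ≤ pw o a x := by
  rw [pw_eq, sub_nonneg, sq_le_sq₀ (norm_nonneg _) (norm_nonneg _)]

theorem norm_eq_iff {o a x : ℂ} : ‖x - o‖ = ‖a - o‖ ↔ pw o a x = 0 := by
  rw [pw_eq, sub_eq_zero, sq_eq_sq₀ (norm_nonneg _) (norm_nonneg _)]

theorem cr_sub (a b x : ℂ) :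
    cr (b - a) (x - a) = (b.re - a.re) * (x.im - a.im) - (b.im - a.im) * (x.re - a.re) := by
  unfold cr
  simp only [Complex.sub_re, Complex.sub_im]

theorem pw_self (o a : ℂ) : pw o a a = 0 := by unfold pw; ring

theorem pw_base {o a b : ℂ} (h : pw o a b = 0) (x : ℂ) : pw o b x = pw o a x := by
  unfold pw at *; linarith

theorem cr_rot (a b x : ℂ) : cr (b - a) (x - a) = cr (x - b) (a - b) := by
  rw [cr_sub, cr_sub]; ring

theorem cr_rot' (a b x : ℂ) : cr (b - a) (x - a) = cr (a - x) (b - x) := by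
  rw [cr_sub, cr_sub]; ring

theorem cr_swap (a b x : ℂ) : cr (a - b) (x - b) = - cr (b - a) (x - a) := by
  rw [cr_sub, cr_sub]; ring

theorem cr_left (a b : ℂ) : cr (b - a) (a - a) = 0 := by rw [cr_sub]; ring

theorem cr_right (a b : ℂ) : cr (b - a) (b - a) = 0 := by rw [cr_sub]; ring

theorem ne_of_cr_pos {a b x : ℂ} (h : cr (b - a) (x - a) ≠ 0) : a ≠ b ∧ b ≠ x ∧ a ≠ x := by
  refine ⟨?_, ?_, ?_⟩ <;> rintro rfl <;> apply h <;> rw [cr_sub] <;> ring

theorem nsq_pos {a b : ℂ} (h : a ≠ b) : 0 < (b.re - a.re) ^ 2 + (b.im - a.im) ^ 2 := by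
  by_contra hcon
  push Not at hcon
  have h1 := sq_nonneg (b.re - a.re)
  have h2 := sq_nonneg (b.im - a.im)
  have h3 : (b.re - a.re) ^ 2 = 0 := by linarith
  have h4 : (b.im - a.im) ^ 2 = 0 := by linarith
  apply h
  apply Complex.ext
  · nlinarith [pow_eq_zero_iff (two_ne_zero) |>.1 h3]
  · nlinarith [pow_eq_zero_iff (two_ne_zero) |>.1 h4]

/-- **the difference of the powers for two circles through `a`, `b`** -/
theorem pw_diff {o o' a b : ℂ} (h : pw o a b = 0) (h' : pw o' a b = 0) (x : ℂ) :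
    ((b.re - a.re) ^ 2 + (b.im - a.im) ^ 2) * (pw o a x - pw o' a x) =
      -2 * ((b.re - a.re) * (o.im - o'.im) - (b.im - a.im) * (o.re - o'.re)) *
        cr (b - a) (x - a) := by
  rw [cr_sub]
  unfold pw at *
  linear_combination ((b.re - a.re) * (x.re - a.re) + (b.im - a.im) * (x.im - a.im)) * (h - h')

/-- two circles through `a`, `b`: the difference of the powers is proportional to the signed distance
to the line -/
theorem pw_diff_exists {o o' a b : ℂ} (hab : a ≠ b) (h : pw o a b = 0) (h' : pw o' a b = 0) :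
    ∃ m : ℝ, ∀ x, pw o a x - pw o' a x = m * cr (b - a) (x - a) := by
  have hn := nsq_pos hab
  refine ⟨-2 * ((b.re - a.re) * (o.im - o'.im) - (b.im - a.im) * (o.re - o'.re)) /
    ((b.re - a.re) ^ 2 + (b.im - a.im) ^ 2), fun x => ?_⟩
  have := pw_diff h h' x
  field_simp
  linarith

/-- moving the centre along the bisector -/
theorem pw_move (o a b x : ℂ) (t : ℝ) :
    pw (o + t * (Complex.I * (b - a))) a x = pw o a x - 2 * t * cr (b - a) (x - a) := by
  rw [cr_sub]
  unfold pw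
  simp only [Complex.add_re, Complex.add_im, Complex.mul_re, Complex.mul_im, Complex.ofReal_re,
    Complex.ofReal_im, Complex.I_re, Complex.I_im, Complex.sub_re, Complex.sub_im]
  ring

/-- the circumcentre is unique -/
theorem centre_unique {o o' a b c : ℂ} (hc : cr (b - a) (c - a) ≠ 0) (h1 : pw o a b = 0)
    (h2 : pw o a c = 0) (h1' : pw o' a b = 0) (h2' : pw o' a c = 0) : o = o' := by
  rw [cr_sub] at hc
  unfold pw at *
  have e1 : ((b.re - a.re) * (c.im - a.im) - (b.im - a.im) * (c.re - a.re)) * (o.re - o'.re) = 0 := by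
    linear_combination -(1/2) * (c.im - a.im) * (h1 - h1') + (1/2) * (b.im - a.im) * (h2 - h2')
  have e2 : ((b.re - a.re) * (c.im - a.im) - (b.im - a.im) * (c.re - a.re)) * (o.im - o'.im) = 0 := by
    linear_combination (1/2) * (c.re - a.re) * (h1 - h1') - (1/2) * (b.re - a.re) * (h2 - h2')
  apply Complex.ext
  · have := (mul_eq_zero.1 e1).resolve_left hc
    linarith
  · have := (mul_eq_zero.1 e2).resolve_left hc
    linarith

/-! ### Delaunay triangles -/

variable {S : Finset ℂ}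

theorem mem_delT {a b c : ℂ} : (a, b, c) ∈ delT S ↔ Del (S : Set ℂ) a b c := by
  unfold delT
  simp only [Finset.mem_filter, Finset.mem_product]
  constructor
  · exact fun h => h.2
  · intro h
    exact ⟨⟨h.1, h.2.1, h.2.2.1⟩, h⟩

/-- the data of a Delaunay triangle -/
structure Tri (S : Finset ℂ) (a b c o : ℂ) : Prop where
  ma : a ∈ S
  mb : b ∈ S
  mc : c ∈ S
  pos : 0 < cr (b - a) (c - a)
  pb : pw o a b = 0
  pc : pw o a c = 0
  emp : ∀ s ∈ S, 0 ≤ pw o a s

theorem mem_delT_iff {a b c : ℂ} : (a, b, c) ∈ delT S ↔ ∃ o, Tri S a b c o := by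
  rw [mem_delT]
  constructor
  · rintro ⟨h1, h2, h3, h4, o, h5, h6, h7⟩
    exact ⟨o, h1, h2, h3, h4, norm_eq_iff.1 h5, norm_eq_iff.1 h6,
      fun s hs => norm_le_iff.1 (h7 s hs)⟩
  · rintro ⟨o, h⟩
    exact ⟨h.ma, h.mb, h.mc, h.pos, o, norm_eq_iff.2 h.pb, norm_eq_iff.2 h.pc,
      fun s hs => norm_le_iff.2 (h.emp s hs)⟩

theorem Tri.rot {a b c o : ℂ} (h : Tri S a b c o) : Tri S b c a o where
  ma := h.mb
  mb := h.mc
  mc := h.ma
  pos := by rw [← cr_rot]; exact h.pos
  pb := by rw [pw_base h.pb]; exact h.pc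
  pc := by rw [pw_base h.pb]; exact pw_self _ _
  emp s hs := by rw [pw_base h.pb]; exact h.emp s hs

theorem Tri.ne {a b c o : ℂ} (h : Tri S a b c o) : a ≠ b ∧ b ≠ c ∧ a ≠ c :=
  ne_of_cr_pos h.pos.ne'

/-- four sites on a circle -/
theorem GP.pw_ne (hS : GP (S : Set ℂ)) {a b c e o : ℂ} (ha : a ∈ S) (hb : b ∈ S) (hc : c ∈ S)
    (he : e ∈ S) (h1 : a ≠ b) (h2 : a ≠ c) (h3 : a ≠ e) (h4 : b ≠ c) (h5 : b ≠ e) (h6 : c ≠ e)
    (p1 : pw o a b = 0) (p2 : pw o a c = 0) : pw o a e ≠ 0 := fun p3 =>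
  hS.circ a ha b hb c hc e he h1 h2 h3 h4 h5 h6 o
    ⟨norm_eq_iff.2 p1, norm_eq_iff.2 p2, norm_eq_iff.2 p3⟩

/-- the other sites are strictly outside -/
theorem Tri.out (hS : GP (S : Set ℂ)) {a b c o s : ℂ} (h : Tri S a b c o) (hs : s ∈ S)
    (ha : a ≠ s) (hb : b ≠ s) (hc : c ≠ s) : 0 < pw o a s :=
  lt_of_le_of_ne (h.emp s hs) (GP.pw_ne hS h.ma h.mb h.mc hs h.ne.1 h.ne.2.2 ha h.ne.2.1 hb hc h.pb
    h.pc).symm

theorem Tri.uniq (hS : GP (S : Set ℂ)) {a b c e o o' : ℂ} (h : Tri S a b c o)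
    (h' : Tri S a b e o') : c = e := by
  by_contra hce
  obtain ⟨m, hm⟩ := pw_diff_exists h.ne.1 h.pb h'.pb
  have h1 := hm c
  rw [h.pc] at h1
  have h2 := hm e
  rw [h'.pc] at h2
  have h3 : 0 < pw o a e := h.out hS h'.mc h'.ne.2.2 h'.ne.2.1 hce
  have h4 : 0 < pw o' a c := h'.out hS h.mc h.ne.2.2 h.ne.2.1 (Ne.symm hce)
  have h5 := h.pos
  have h6 := h'.pos
  have h7 : m < 0 := by
    by_contra hcon
    push Not at hcon
    have := mul_nonneg hcon h5.le
    linarith
  have h8 := mul_neg_of_neg_of_pos h7 h6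
  linarith

/-- **G1** -/
theorem g1 : G1 := by
  intro S hS
  refine ⟨fun a b c h => ?_, fun a b c e h h' => ?_, fun a b c h => ?_⟩
  · obtain ⟨o, h⟩ := mem_delT_iff.1 h
    exact mem_delT_iff.2 ⟨o, h.rot⟩
  · obtain ⟨o, h⟩ := mem_delT_iff.1 h
    obtain ⟨o', h'⟩ := mem_delT_iff.1 h'
    exact h.uniq hS h'
  · obtain ⟨o, h⟩ := mem_delT_iff.1 h
    exact h.ne.1

theorem Tri.centre {a b c o o' : ℂ} (h : Tri S a b c o) (h1 : pw o' a b = 0)
    (h2 : pw o' a c = 0) : o = o' := centre_unique h.pos.ne' h.pb h.pc h1 h2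

theorem isPow_iff {a b c o x : ℂ} (h : Tri S a b c o) {w : ℝ} : IsPow x a b c w ↔ w = pw o a x := by
  constructor
  · rintro ⟨o', h1, h2, rfl⟩
    have := h.centre (norm_eq_iff.1 h1) (norm_eq_iff.1 h2)
    rw [this, pw_eq]
  · rintro rfl
    exact ⟨o, norm_eq_iff.2 h.pb, norm_eq_iff.2 h.pc, pw_eq _ _ _⟩

theorem Tri.pow_lt (hS : GP (S : Set ℂ)) {a b c e o o' x : ℂ} (h : Tri S a b c o)
    (h' : Tri S b a e o') (hx : Lft x a b) : pw o a x < pw o' b x := by
  have hb : pw o' a b = 0 := by rw [pw_base h'.pb]; exact pw_self _ _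
  obtain ⟨m, hm⟩ := pw_diff_exists h.ne.1 h.pb hb
  have h5 := h.pos
  have h6 : cr (b - a) (e - a) < 0 := by
    have := h'.pos
    rw [cr_swap] at this
    linarith
  have hce : e ≠ c := by
    rintro rfl
    linarith
  have h4 : 0 < pw o' b c := h'.out hS h.mc h.ne.2.1 h.ne.2.2 hce
  have h1 := hm c
  rw [h.pc] at h1
  rw [pw_base h'.pb] at h1
  have h7 : m < 0 := by
    by_contra hcon
    push Not at hcon
    have := mul_nonneg hcon h5.le
    linarith
  have h8 := mul_neg_of_neg_of_pos h7 hx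
  have h9 := hm x
  rw [pw_base h'.pb] at h9
  linarith

/-- **G2** -/
theorem g2 : G2 := by
  intro S hS a b c e x w w' h h' hx hw hw'
  obtain ⟨o, h⟩ := mem_delT_iff.1 h
  obtain ⟨o', h'⟩ := mem_delT_iff.1 h'
  rw [(isPow_iff h).1 hw, (isPow_iff h').1 hw']
  exact h.pow_lt hS h' hx

/-! ### extension of an edge -/

/-- **extension**: an empty circle through `a`, `b` and a site on the left of `a → b` give a Delaunay
triangle on the left of `a → b` -/
theorem exists_left {a b o' : ℂ} (ha : a ∈ S) (hb : b ∈ S) (hb0 : pw o' a b = 0)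
    (hemp : ∀ s ∈ S, 0 ≤ pw o' a s) (hl : ∃ s ∈ S, 0 < cr (b - a) (s - a)) :
    ∃ c o t, 0 ≤ t ∧ o = o' + (t : ℝ) * (Complex.I * (b - a)) ∧ Tri S a b c o := by
  have hne : (S.filter fun s => 0 < cr (b - a) (s - a)).Nonempty := by
    obtain ⟨s, hs, h⟩ := hl
    exact ⟨s, Finset.mem_filter.2 ⟨hs, h⟩⟩
  obtain ⟨c, hc, hmin⟩ := Finset.exists_min_image _ (fun s => pw o' a s / cr (b - a) (s - a)) hne
  rw [Finset.mem_filter] at hc
  obtain ⟨hcS, hc⟩ := hc
  set t := pw o' a c / cr (b - a) (c - a) / 2 with ht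
  have ht0 : 0 ≤ t := by
    have := hemp c hcS
    positivity
  refine ⟨c, _, t, ht0, rfl, ha, hb, hcS, hc, ?_, ?_, ?_⟩
  · rw [pw_move, cr_right, hb0]; ring
  · rw [pw_move, ht]; field_simp; ring
  · intro s hs
    rw [pw_move]
    by_cases h : 0 < cr (b - a) (s - a)
    · have h1 := hmin s (Finset.mem_filter.2 ⟨hs, h⟩)
      have h2 : 2 * t = pw o' a c / cr (b - a) (c - a) := by rw [ht]; ring
      rw [h2]
      rw [le_div_iff₀ h] at h1
      linarith
    · push Not at h
      have h1 := hemp s hs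
      have h2 : t * cr (b - a) (s - a) ≤ 0 := mul_nonpos_of_nonneg_of_nonpos ht0 h
      linarith

/-- the reversed edge of a triangle has a triangle iff there is a site on the other side -/
theorem Tri.across {a b c o : ℂ} (h : Tri S a b c o) (hl : ∃ s ∈ S, cr (b - a) (s - a) < 0) :
    ∃ e o', Tri S b a e o' := by
  obtain ⟨s, hs, hl⟩ := hl
  have hba : pw o b a = 0 := by rw [pw_base h.pb]; exact pw_self _ _
  obtain ⟨e, o', t, -, -, h'⟩ := exists_left (a := b) (b := a) h.mb h.ma hba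
    (fun s hs => by rw [pw_base h.pb]; exact h.emp s hs) ⟨s, hs, by rw [cr_swap]; linarith⟩
  exact ⟨e, o', h'⟩

/-- **all the sites are on the left of a hull edge** -/
theorem hull_side {a b : ℂ} (h : hullE S a b) : ∀ s ∈ S, 0 ≤ cr (b - a) (s - a) := by
  intro s hs
  by_contra hcon
  push Not at hcon
  obtain ⟨⟨c, hc⟩, h2⟩ := h
  obtain ⟨o, hc⟩ := mem_delT_iff.1 hc
  obtain ⟨e, o', h'⟩ := hc.across ⟨s, hs, hcon⟩
  exact h2 e (mem_delT_iff.2 ⟨o', h'⟩)

/-- the other sites are strictly on the left -/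
theorem hull_side_lt (hS : GP (S : Set ℂ)) {a b : ℂ} (h : hullE S a b) {s : ℂ} (hs : s ∈ S)
    (ha : a ≠ s) (hb : b ≠ s) : 0 < cr (b - a) (s - a) := by
  obtain ⟨⟨c, hc⟩, h2⟩ := id h
  obtain ⟨o, hc⟩ := mem_delT_iff.1 hc
  exact lt_of_le_of_ne (hull_side h s hs) (hS.line a hc.ma b hc.mb s hs hc.ne.1 hb ha).symm

/-- **hull edges = supporting edges** -/
theorem hull_iff (hS : GP (S : Set ℂ)) {a b : ℂ} (ha : a ∈ S) (hb : b ∈ S) (hab : a ≠ b)
    (h3 : ∃ s ∈ S, s ≠ a ∧ s ≠ b) :
    hullE S a b ↔ ∀ s ∈ S, 0 ≤ cr (b - a) (s - a) := by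
  refine ⟨hull_side, fun h => ?_⟩
  constructor
  · -- a circle with a very far centre
    have hpos : ∀ s ∈ S, s ≠ a → s ≠ b → 0 < cr (b - a) (s - a) := fun s hs h1 h2 =>
      lt_of_le_of_ne (h s hs) (hS.line a ha b hb s hs hab h2.symm h1.symm).symm
    set m : ℂ := (a + b) / 2 with hm
    have hm0 : pw m a b = 0 := by
      rw [hm]
      unfold pw
      simp only [Complex.div_ofNat_re, Complex.div_ofNat_im, Complex.add_re, Complex.add_im]
      ring
    -- move the centre to the right until the circle is empty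
    obtain ⟨T, hT0, hT⟩ : ∃ T : ℝ, 0 ≤ T ∧ ∀ s ∈ S, 0 < cr (b - a) (s - a) →
        -pw m a s / cr (b - a) (s - a) ≤ T := by
      refine ⟨∑ s ∈ S, |(-pw m a s / cr (b - a) (s - a))|, Finset.sum_nonneg fun _ _ =>
        abs_nonneg _, fun s hs _ => ?_⟩
      exact (le_abs_self _).trans (Finset.single_le_sum
        (f := fun s => |(-pw m a s / cr (b - a) (s - a))|) (fun _ _ => abs_nonneg _) hs)
    have hemp : ∀ s ∈ S, 0 ≤ pw (m + (-(T / 2) : ℝ) * (Complex.I * (b - a))) a s := by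
      intro s hs
      rw [pw_move]
      by_cases h1 : s = a
      · rw [h1, pw_self, cr_left]; linarith
      by_cases h2 : s = b
      · rw [h2, hm0, cr_right]; linarith
      have h4 := hpos s hs h1 h2
      have h5 := hT s hs h4
      rw [div_le_iff₀ h4] at h5
      linarith
    obtain ⟨s, hs, h1, h2⟩ := h3
    obtain ⟨c, o, t, -, -, h'⟩ := exists_left ha hb (by rw [pw_move, cr_right, hm0]; ring) hemp
      ⟨s, hs, hpos s hs h1 h2⟩
    exact ⟨c, mem_delT_iff.2 ⟨o, h'⟩⟩
  · intro c hc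
    obtain ⟨o, hc⟩ := mem_delT_iff.1 hc
    have h1 := hc.pos
    rw [cr_swap] at h1
    have h2 := h c hc.mc
    linarith

/-! ### existence of a triangle -/

/-- **three sites in general position have a Delaunay triangle** -/
theorem exists_tri (hS : GP (S : Set ℂ)) (h3 : 3 ≤ S.card) : ∃ a b c o, Tri S a b c o := by
  -- a closest pair
  have hne : (S.offDiag).Nonempty := by
    obtain ⟨a, ha, b, hb, hab⟩ := Finset.one_lt_card.1 (by omega : 1 < S.card)
    exact ⟨(a, b), Finset.mem_offDiag.2 ⟨ha, hb, hab⟩⟩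
  obtain ⟨⟨a, b⟩, hab, hmin⟩ := Finset.exists_min_image _
    (fun p : ℂ × ℂ => (p.2.re - p.1.re) ^ 2 + (p.2.im - p.1.im) ^ 2) hne
  rw [Finset.mem_offDiag] at hab
  obtain ⟨ha, hb, hab⟩ := hab
  dsimp only at ha hb hab hmin
  set m : ℂ := (a + b) / 2 with hm
  have hm0 : pw m a b = 0 := by
    rw [hm]
    unfold pw
    simp only [Complex.div_ofNat_re, Complex.div_ofNat_im, Complex.add_re, Complex.add_im]
    ring
  have hemp : ∀ s ∈ S, 0 ≤ pw m a s := by
    intro s hs
    by_cases h1 : s = a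
    · rw [h1, pw_self]
    have h2 := hmin (a, s) (Finset.mem_offDiag.2 ⟨ha, hs, Ne.symm h1⟩)
    by_cases h4 : s = b
    · rw [h4, hm0]
    have h5 := hmin (b, s) (Finset.mem_offDiag.2 ⟨hb, hs, Ne.symm h4⟩)
    dsimp only at h2 h5
    rw [hm]
    unfold pw
    simp only [Complex.div_ofNat_re, Complex.div_ofNat_im, Complex.add_re, Complex.add_im]
    have hn := nsq_pos hab
    nlinarith
  -- a third site
  obtain ⟨s, hs, hsa, hsb⟩ : ∃ s ∈ S, s ≠ a ∧ s ≠ b := by
    by_contra hcon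
    push Not at hcon
    have hsub : S ⊆ {a, b} := by
      intro s hs
      rw [Finset.mem_insert, Finset.mem_singleton]
      by_cases h : s = a
      · exact Or.inl h
      · exact Or.inr (hcon s hs h)
    have := (Finset.card_le_card hsub).trans Finset.card_le_two
    omega
  have hl := hS.line a ha b hb s hs hab hsb.symm hsa.symm
  rcases lt_or_gt_of_ne hl with h | h
  · obtain ⟨c, o, t, -, -, h'⟩ := exists_left (a := b) (b := a) hb ha
      (by rw [pw_base hm0]; exact pw_self _ _)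
      (fun s hs => by rw [pw_base hm0]; exact hemp s hs) ⟨s, hs, by rw [cr_swap]; linarith⟩
    exact ⟨b, a, c, o, h'⟩
  · obtain ⟨c, o, t, -, -, h'⟩ := exists_left ha hb hm0 hemp ⟨s, hs, h⟩
    exact ⟨a, b, c, o, h'⟩

/-! ### cover -/

/-- `x` is in the closed triangle -/
def InT (x a b c : ℂ) : Prop :=
  0 ≤ cr (b - a) (x - a) ∧ 0 ≤ cr (c - b) (x - b) ∧ 0 ≤ cr (a - c) (x - c)

/-- `x` is on the inner side of every hull edge -/
def InHull (S : Finset ℂ) (x : ℂ) : Prop := ∀ a b, hullE S a b → 0 ≤ cr (b - a) (x - a)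

theorem inHull_of_mem_convexHull {x : ℂ} (h : x ∈ convexHull ℝ (S : Set ℂ)) : InHull S x := by
  intro a b hab
  have hc : Convex ℝ {y : ℂ | 0 ≤ cr (b - a) (y - a)} := by
    intro y hy z hz s t hs ht hst
    simp only [Set.mem_ofPred_eq, cr_sub] at hy hz ⊢
    simp only [Complex.add_re, Complex.add_im, Complex.real_smul, Complex.mul_re, Complex.mul_im,
      Complex.ofReal_re, Complex.ofReal_im]
    have e : (b.re - a.re) * (s * y.im + 0 * y.re + (t * z.im + 0 * z.re) - a.im) -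
        (b.im - a.im) * (s * y.re - 0 * y.im + (t * z.re - 0 * z.im) - a.re) =
        s * ((b.re - a.re) * (y.im - a.im) - (b.im - a.im) * (y.re - a.re)) +
        t * ((b.re - a.re) * (z.im - a.im) - (b.im - a.im) * (z.re - a.re)) := by
      have : t = 1 - s := by linarith
      subst this
      ring
    rw [e]
    positivity
  exact (convexHull_min (fun s hs => hull_side hab s hs) hc) h

/-- **the triangle with the smallest power contains the point** -/
theorem cover (hS : GP (S : Set ℂ)) (h3 : 3 ≤ S.card) {x : ℂ} (hx : InHull S x) :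
    ∃ a b c o, Tri S a b c o ∧ InT x a b c ∧
      ∀ a' b' c' o', Tri S a' b' c' o' → pw o a x ≤ pw o' a' x := by
  -- centres
  obtain ⟨a0, b0, c0, o0, h0⟩ := exists_tri hS h3
  have hch : ∀ t ∈ delT S, ∃ o, Tri S t.1 t.2.1 t.2.2 o := fun t ht => mem_delT_iff.1 ht
  choose! ctr hctr using hch
  obtain ⟨⟨a, b, c⟩, ht, hmin⟩ := Finset.exists_min_image (delT S)
    (fun t => pw (ctr t) t.1 x) ⟨(a0, b0, c0), mem_delT_iff.2 ⟨o0, h0⟩⟩
  have hT := hctr _ ht
  dsimp only at hT
  have hm : ∀ a' b' c' o', Tri S a' b' c' o' → pw (ctr (a, b, c)) a x ≤ pw o' a' x := by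
    intro a' b' c' o' h'
    have h1 := mem_delT_iff.2 ⟨o', h'⟩
    have h2 := hmin _ h1
    have h3 := hctr _ h1
    dsimp only at h2 h3
    rw [h'.centre h3.pb h3.pc]
    exact h2
  -- one side
  have key : ∀ a b c o, Tri S a b c o → (∀ a' b' c' o', Tri S a' b' c' o' →
      pw o a x ≤ pw o' a' x) → 0 ≤ cr (b - a) (x - a) := by
    intro a b c o h hm
    by_contra hcon
    push Not at hcon
    by_cases hh : ∀ e, (b, a, e) ∉ delT S
    · have := hx a b ⟨⟨c, mem_delT_iff.2 ⟨o, h⟩⟩, hh⟩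
      linarith
    · push Not at hh
      obtain ⟨e, he⟩ := hh
      obtain ⟨o', he⟩ := mem_delT_iff.1 he
      have h1 := he.pow_lt hS h (x := x) (by unfold Lft; rw [cr_swap]; linarith)
      have h2 := hm _ _ _ _ he
      linarith
  refine ⟨a, b, c, _, hT, ⟨key _ _ _ _ hT hm, ?_, ?_⟩, hm⟩
  · refine key _ _ _ _ hT.rot fun a' b' c' o' h' => ?_
    rw [pw_base hT.pb]
    exact hm _ _ _ _ h'
  · refine key _ _ _ _ hT.rot.rot fun a' b' c' o' h' => ?_
    rw [pw_base hT.rot.pb, pw_base hT.pb]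
    exact hm _ _ _ _ h'

/-! ### disjointness -/

/-- barycentric form of an affine function on a triangle -/
theorem bary (a b c x : ℂ) (p q r : ℝ) :
    cr (b - a) (c - a) * (p + q * x.re + r * x.im) =
      cr (c - b) (x - b) * (p + q * a.re + r * a.im) +
      cr (a - c) (x - c) * (p + q * b.re + r * b.im) +
      cr (b - a) (x - a) * (p + q * c.re + r * c.im) := by
  rw [cr_sub, cr_sub, cr_sub, cr_sub]; ring

/-- the difference of two powers is affine -/
theorem pw_affine (o a o' a' : ℂ) : ∃ p q r : ℝ, ∀ x : ℂ,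
    pw o a x - pw o' a' x = p + q * x.re + r * x.im := by
  refine ⟨-((a.re - o.re) ^ 2 + (a.im - o.im) ^ 2) + ((a'.re - o'.re) ^ 2 + (a'.im - o'.im) ^ 2) +
    o.re ^ 2 + o.im ^ 2 - o'.re ^ 2 - o'.im ^ 2, -2 * (o.re - o'.re), -2 * (o.im - o'.im),
    fun x => ?_⟩
  unfold pw; ring

/-- `x` is in the open triangle -/
def InO (x a b c : ℂ) : Prop := Lft x a b ∧ Lft x b c ∧ Lft x c a

theorem InO.inT {x a b c : ℂ} (h : InO x a b c) : InT x a b c := ⟨h.1.le, h.2.1.le, h.2.2.le⟩

/-- **disjointness**: if the open triangle `(a, b, c)` and the closed triangle `(a', b', c')` meet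
then they are the same triangle -/
theorem disj (hS : GP (S : Set ℂ)) {a b c o a' b' c' o' x : ℂ} (h : Tri S a b c o)
    (h' : Tri S a' b' c' o') (hx : InO x a b c) (hx' : InT x a' b' c') :
    (a', b', c') ∈ rots (a, b, c) := by
  obtain ⟨p, q, r, hp⟩ := pw_affine o a o' a'
  have e1 := bary a b c x p q r
  have e2 := bary a' b' c' x p q r
  rw [← hp, ← hp, ← hp, ← hp, pw_self, h.pb, h.pc] at e1
  rw [← hp, ← hp, ← hp, ← hp, pw_self, h'.pb, h'.pc] at e2
  have g1 := h'.emp a h.ma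
  have g2 := h'.emp b h.mb
  have g3 := h'.emp c h.mc
  have k1 := h.emp a' h'.ma
  have k2 := h.emp b' h'.mb
  have k3 := h.emp c' h'.mc
  obtain ⟨x1, x2, x3⟩ := hx
  obtain ⟨y1, y2, y3⟩ := hx'
  unfold Lft at x1 x2 x3
  have hpos := h.pos
  have hpos' := h'.pos
  have s1 : 0 ≤ pw o a x - pw o' a' x := by
    by_contra hcon
    push Not at hcon
    have := mul_neg_of_pos_of_neg hpos' hcon
    have t1 := mul_nonneg y2 k1
    have t2 := mul_nonneg y3 k2
    have t3 := mul_nonneg y1 k3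
    linarith
  have t1 := mul_nonneg x2.le g1
  have t2 := mul_nonneg x3.le g2
  have t3 := mul_nonneg x1.le g3
  have t4 := mul_nonneg hpos.le s1
  have u1 : pw o' a' a = 0 := by
    have : cr (c - b) (x - b) * pw o' a' a = 0 := by linarith
    exact (mul_eq_zero.1 this).resolve_left x2.ne'
  have u2 : pw o' a' b = 0 := by
    have : cr (a - c) (x - c) * pw o' a' b = 0 := by linarith
    exact (mul_eq_zero.1 this).resolve_left x3.ne'
  have u3 : pw o' a' c = 0 := by
    have : cr (b - a) (x - a) * pw o' a' c = 0 := by linarith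
    exact (mul_eq_zero.1 this).resolve_left x1.ne'
  -- every vertex of the first triangle is a vertex of the second one
  have mem : ∀ s ∈ S, pw o' a' s = 0 → s = a' ∨ s = b' ∨ s = c' := by
    intro s hs h0
    by_contra hcon
    push Not at hcon
    have := h'.out hS hs hcon.1.symm hcon.2.1.symm hcon.2.2.symm
    linarith
  have ma := mem a h.ma u1
  have mb := mem b h.mb u2
  have mc := mem c h.mc u3
  obtain ⟨n1, n2, n3⟩ := h.ne
  unfold rots
  simp only [Set.mem_insert_iff, Set.mem_singleton_iff, Prod.mk.injEq]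
  rcases ma with rfl | rfl | rfl <;> rcases mb with rfl | rfl | rfl <;>
    rcases mc with rfl | rfl | rfl <;> first
    | exact absurd rfl n1
    | exact absurd rfl n2
    | exact absurd rfl n3
    | exact Or.inl ⟨rfl, rfl, rfl⟩
    | exact Or.inr (Or.inl ⟨rfl, rfl, rfl⟩)
    | exact Or.inr (Or.inr ⟨rfl, rfl, rfl⟩)
    | (exfalso
       have e := hpos'
       rw [cr_sub] at hpos e
       linarith)

end Crest.Agent.R143.DelGx806
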