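import Crest.Agent.R143.Osc_63
import Crest.Agent.R143.DelG_806

/-!
# Row 143 (S0194), block EQ, part 1: faces met by a connected set (helper63)

* `cT t` : the closed triangle
* `meet` : two closed Delaunay triangles with a common point which is not a site are equal or share
  the edge which contains the point
* `conn_alt` : `C` preconnected, covered by the triangles, no sites in `C` : starting from a live
  side of a triangle which meets `C`, either all live sides of triangles meeting `C` are connected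
  to it, or the connected part contains a triangle with a killed side meeting `C`
* `conn_all` : no killed edge meets `C`
-/

set_option autoImplicit false

noncomputable section

namespace Crest.Agent.R143.Circx63

open Set
open scoped Classical
open Crest.Agent.R143.B0x346 Crest.Agent.R143.Oscx63 Crest.Agent.R143.DelGx806

/-- closed triangle -/
def cT (t : ℂ × ℂ × ℂ) : Set ℂ := {x | InT x t.1 t.2.1 t.2.2}

theorem continuous_cr (a b : ℂ) : Continuous fun x : ℂ => cr (b - a) (x - a) := by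
  unfold cr
  fun_prop

theorem isClosed_cT (t : ℂ × ℂ × ℂ) : IsClosed (cT t) := by
  unfold cT InT
  exact ((isClosed_Ici.preimage (continuous_cr _ _)).inter
    ((isClosed_Ici.preimage (continuous_cr _ _)).inter
      (isClosed_Ici.preimage (continuous_cr _ _))))

theorem InT.rot {x a b c : ℂ} (h : InT x a b c) : InT x b c a := ⟨h.2.1, h.2.2, h.1⟩

theorem mem_rots_self {V : Type} (t : V × V × V) : t ∈ rots t := by simp [rots]

theorem rots_cases {V : Type} {a b c : V} {t : V × V × V} (h : t ∈ rots (a, b, c)) :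
    t = (a, b, c) ∨ t = (b, c, a) ∨ t = (c, a, b) := by
  simpa [rots] using h

theorem rots_eq {V : Type} {t t' : V × V × V} (h : t' ∈ rots t) : rots t' = rots t := by
  obtain ⟨a, b, c⟩ := t
  rcases rots_cases h with rfl | rfl | rfl
  · rfl
  · exact rots_rot a b c
  · rw [rots_rot b c a, rots_rot a b c]

theorem rots_symm {V : Type} {t t' : V × V × V} (h : t' ∈ rots t) : t ∈ rots t' := by
  rw [rots_eq h]; exact mem_rots_self t

theorem cT_rots {t t' : ℂ × ℂ × ℂ} (h : t' ∈ rots t) : cT t' = cT t := by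
  obtain ⟨a, b, c⟩ := t
  rcases rots_cases h with rfl | rfl | rfl
  · rfl
  · ext x; exact ⟨fun h => InT.rot (InT.rot h), fun h => InT.rot h⟩
  · ext x; exact ⟨fun h => InT.rot h, fun h => InT.rot (InT.rot h)⟩

theorem LSide_rots {V : Type} {N : Net V} {t t' : V × V × V} (h : t' ∈ rots t) {e : V × V} :
    LSide N t' e ↔ LSide N t e := by
  obtain ⟨a, b, c⟩ := t
  unfold LSide
  rcases rots_cases h with rfl | rfl | rfl
  · rfl
  · simp only; tauto
  · simp only; tauto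

theorem delT_rots {S : Finset ℂ} (hS : GP (S : Set ℂ)) {t t' : ℂ × ℂ × ℂ} (h : t' ∈ rots t)
    (ht : t ∈ delT S) : t' ∈ delT S := by
  obtain ⟨a, b, c⟩ := t
  have h1 := (g1 S hS).1
  rcases rots_cases h with rfl | rfl | rfl
  · exact ht
  · exact h1 _ _ _ ht
  · exact h1 _ _ _ (h1 _ _ _ ht)

/-- total of the barycentric coordinates -/
theorem cr_total (a b c x : ℂ) :
    cr (b - a) (c - a) = cr (c - b) (x - b) + cr (a - c) (x - c) + cr (b - a) (x - a) := by
  simp only [cr_sub]; ring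

/-- a point of a closed triangle on the line of the side `a b` is in the segment -/
theorem mem_seg {a b c x : ℂ} (hp : 0 < cr (b - a) (c - a)) (hx : InT x a b c)
    (h0 : cr (b - a) (x - a) = 0) : x ∈ segment ℝ a b := by
  have ht := cr_total a b c x
  rw [h0, add_zero] at ht
  obtain ⟨-, h2, h3⟩ := hx
  set T := cr (b - a) (c - a) with hT
  refine ⟨cr (c - b) (x - b) / T, cr (a - c) (x - c) / T, by positivity, by positivity, ?_, ?_⟩
  · rw [← add_div, ← ht, div_self hp.ne']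
  · -- barycentric formula
    have e1 := bary a b c x 0 1 0
    have e2 := bary a b c x 0 0 1
    rw [h0] at e1 e2
    rw [← hT] at e1 e2
    apply Complex.ext
    · simp only [Complex.add_re, Complex.real_smul, Complex.mul_re, Complex.ofReal_re,
        Complex.ofReal_im, zero_mul, sub_zero]
      field_simp
      linarith
    · simp only [Complex.add_im, Complex.real_smul, Complex.mul_im, Complex.ofReal_re,
        Complex.ofReal_im, zero_mul, add_zero]
      field_simp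
      linarith

/-- vertex: two vanishing barycentric coordinates -/
theorem eq_of_two {a b c x : ℂ} (hp : 0 < cr (b - a) (c - a)) (h1 : cr (b - a) (x - a) = 0)
    (h2 : cr (c - b) (x - b) = 0) : x = b := by
  have ht := cr_total a b c x
  have e1 := bary a b c x 0 1 0
  have e2 := bary a b c x 0 0 1
  rw [h1, h2] at e1 e2 ht
  have h3 : cr (a - c) (x - c) = cr (b - a) (c - a) := by linarith
  rw [h3] at e1 e2
  apply Complex.ext
  · have := mul_left_cancel₀ hp.ne' (show cr (b - a) (c - a) * x.re = cr (b - a) (c - a) * b.re by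
      linarith)
    exact this
  · have := mul_left_cancel₀ hp.ne' (show cr (b - a) (c - a) * x.im = cr (b - a) (c - a) * b.im by
      linarith)
    exact this

variable {S : Finset ℂ}

/-- the case of a point in the open edge `(a, b)` -/
theorem edge_meet (hS : GP (S : Set ℂ)) {a b c o a' b' c' o' x : ℂ} (h : Tri S a b c o)
    (h' : Tri S a' b' c' o') (x1 : cr (b - a) (x - a) = 0) (x2 : 0 < cr (c - b) (x - b))
    (x3 : 0 < cr (a - c) (x - c)) (hx' : InT x a' b' c') :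
    (a', b', c') ∈ rots (a, b, c) ∨ ∃ e, (b, a, e) ∈ rots (a', b', c') := by
  obtain ⟨p, q, r, hp⟩ := pw_affine o a o' a'
  have e1 := bary a b c x p q r
  have e2 := bary a' b' c' x p q r
  rw [← hp, ← hp, ← hp, ← hp, pw_self, h.pb, h.pc] at e1
  rw [← hp, ← hp, ← hp, ← hp, pw_self, h'.pb, h'.pc] at e2
  have g1 := h'.emp a h.ma
  have g2 := h'.emp b h.mb
  have k1 := h.emp a' h'.ma
  have k2 := h.emp b' h'.mb
  have k3 := h.emp c' h'.mc
  obtain ⟨y1, y2, y3⟩ := hx'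
  have hpos := h.pos
  have hpos' := h'.pos
  have s1 : 0 ≤ pw o a x - pw o' a' x := by
    by_contra hcon
    push Not at hcon
    have := mul_neg_of_pos_of_neg hpos' hcon
    have t1 := mul_nonneg y2 k1
    have t2 := mul_nonneg y3 k2
    have t3 := mul_nonneg y1 k3
    linarith
  rw [x1] at e1
  have t1 := mul_nonneg x2.le g1
  have t2 := mul_nonneg x3.le g2
  have t4 := mul_nonneg hpos.le s1
  have u1 : pw o' a' a = 0 := by
    have : cr (c - b) (x - b) * pw o' a' a = 0 := by linarith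
    exact (mul_eq_zero.1 this).resolve_left x2.ne'
  have u2 : pw o' a' b = 0 := by
    have : cr (a - c) (x - c) * pw o' a' b = 0 := by linarith
    exact (mul_eq_zero.1 this).resolve_left x3.ne'
  have mem : ∀ s ∈ S, pw o' a' s = 0 → s = a' ∨ s = b' ∨ s = c' := by
    intro s hs h0
    by_contra hcon
    push Not at hcon
    have := h'.out hS hs hcon.1.symm hcon.2.1.symm hcon.2.2.symm
    linarith
  have ma := mem a h.ma u1
  have mb := mem b h.mb u2
  obtain ⟨n1, n2, n3⟩ := h.ne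
  rcases ma with rfl | rfl | rfl <;> rcases mb with rfl | rfl | rfl
  · exact absurd rfl n1
  · -- (a, b) = (a', b')
    left
    rw [h.uniq hS h']
    exact mem_rots_self _
  · -- (a, b) = (a', c') : reversed edge
    right
    exact ⟨b', by simp [rots]⟩
  · right
    exact ⟨c', by simp [rots]⟩
  · exact absurd rfl n1
  · left
    rw [h.uniq hS h'.rot]
    simp [rots]
  · left
    rw [h.uniq hS h'.rot.rot]
    simp [rots]
  · right
    exact ⟨a', by simp [rots]⟩
  · exact absurd rfl n1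

/-- **two closed triangles with a common point which is not a site** -/
theorem meet (hS : GP (S : Set ℂ)) {t t' : ℂ × ℂ × ℂ} (ht : t ∈ delT S) (ht' : t' ∈ delT S)
    {x : ℂ} (hx : x ∈ cT t) (hx' : x ∈ cT t') (hxS : x ∉ S) :
    t' ∈ rots t ∨ ∃ u v w w' : ℂ, (u, v, w) ∈ rots t ∧ (v, u, w') ∈ rots t' ∧
      x ∈ segment ℝ u v := by
  obtain ⟨a, b, c⟩ := t
  obtain ⟨a', b', c'⟩ := t'
  obtain ⟨o, h⟩ := mem_delT_iff.1 ht
  obtain ⟨o', h'⟩ := mem_delT_iff.1 ht'
  have hxi : InT x a b c := hx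
  obtain ⟨x1, x2, x3⟩ := hxi
  have hp1 := h.pos
  have hp2 := h.rot.pos
  have hp3 := h.rot.rot.pos
  -- no two coordinates vanish
  have n12 : ¬ (cr (b - a) (x - a) = 0 ∧ cr (c - b) (x - b) = 0) := by
    rintro ⟨e1, e2⟩
    exact hxS (eq_of_two hp1 e1 e2 ▸ h.mb)
  have n23 : ¬ (cr (c - b) (x - b) = 0 ∧ cr (a - c) (x - c) = 0) := by
    rintro ⟨e1, e2⟩
    exact hxS (eq_of_two hp2 e1 e2 ▸ h.mc)
  have n31 : ¬ (cr (a - c) (x - c) = 0 ∧ cr (b - a) (x - a) = 0) := by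
    rintro ⟨e1, e2⟩
    exact hxS (eq_of_two hp3 e1 e2 ▸ h.ma)
  rcases x1.eq_or_lt with z1 | z1
  · -- edge a b
    have p2 : 0 < cr (c - b) (x - b) := lt_of_le_of_ne x2 (fun e => n12 ⟨z1.symm, e.symm⟩)
    have p3 : 0 < cr (a - c) (x - c) := lt_of_le_of_ne x3 (fun e => n31 ⟨e.symm, z1.symm⟩)
    rcases edge_meet hS h h' z1.symm p2 p3 hx' with h1 | ⟨e, he⟩
    · exact Or.inl h1
    · exact Or.inr ⟨a, b, c, e, mem_rots_self _, he, mem_seg hp1 hx z1.symm⟩
  rcases x2.eq_or_lt with z2 | z2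
  · -- edge b c
    have p3 : 0 < cr (a - c) (x - c) := lt_of_le_of_ne x3 (fun e => n23 ⟨z2.symm, e.symm⟩)
    rcases edge_meet hS h.rot h' z2.symm p3 z1 hx' with h1 | ⟨e, he⟩
    · rw [rots_rot] at h1; exact Or.inl h1
    · exact Or.inr ⟨b, c, a, e, by simp [rots], he, mem_seg hp2 (InT.rot hx) z2.symm⟩
  rcases x3.eq_or_lt with z3 | z3
  · rcases edge_meet hS h.rot.rot h' z3.symm z1 z2 hx' with h1 | ⟨e, he⟩
    · rw [rots_rot, rots_rot] at h1; exact Or.inl h1
    · exact Or.inr ⟨c, a, b, e, by simp [rots], he, mem_seg hp3 (InT.rot (InT.rot hx)) z3.symm⟩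
  · exact Or.inl (disj hS h h' ⟨z1, z2, z3⟩ hx')

theorem seg_sub_cT {a b c x : ℂ} (hp : 0 < cr (b - a) (c - a)) (hx : x ∈ segment ℝ a b) :
    x ∈ cT (a, b, c) := by
  obtain ⟨p, q, hp0, hq0, hpq, rfl⟩ := hx
  have hp' : p = 1 - q := by linarith
  subst hp'
  refine ⟨?_, ?_, ?_⟩ <;> simp only [cr_sub, Complex.add_re, Complex.add_im, Complex.real_smul,
    Complex.mul_re, Complex.mul_im, Complex.ofReal_re, Complex.ofReal_im] at hp ⊢
  · apply le_of_eq; ring
  · have := mul_nonneg hp0 hp.le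
    nlinarith [this]
  · have := mul_nonneg hq0 hp.le
    nlinarith [this]

/-- a side `(u, v)` of `t` is live -/
theorem LSide_of {V : Type} {N : Net V} {t : V × V × V} {u v w : V} (h : (u, v, w) ∈ rots t)
    (hk : (u, v) ∉ N.kl) : LSide N t (u, v) := by
  rw [← LSide_rots h]
  exact ⟨hk, Or.inl rfl⟩

theorem LSide_of' {V : Type} {N : Net V} {t : V × V × V} {u v w : V} (h : (v, u, w) ∈ rots t)
    (hk : (u, v) ∉ N.kl) : LSide N t (u, v) := by
  rw [← LSide_rots h]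
  exact ⟨hk, Or.inr (Or.inr (Or.inr (Or.inl rfl)))⟩

/-- **main lemma**: faces met by a preconnected set -/
theorem conn_alt {N : Net ℂ} (hS : GP (S : Set ℂ)) {C : Set ℂ} (hC : IsPreconnected C)
    (hcov : ∀ x ∈ C, ∃ t ∈ delT S, x ∈ cT t) (hCS : ∀ x ∈ C, x ∉ S)
    {A : Finset (ℂ × ℂ × ℂ)}
    (hA : ∀ t ∈ delT S, (cT t ∩ C).Nonempty → ∃ t' ∈ A, t' ∈ rots t)
    {t : ℂ × ℂ × ℂ} (ht : t ∈ delT S) (hm : (cT t ∩ C).Nonempty) {e : ℂ × ℂ}
    (he : LSide N t e) :
    (∃ s ∈ delT S, (cT s ∩ C).Nonempty ∧ (∃ f, LSide N s f) ∧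
      (∀ f, LSide N s f → Conn N A e f) ∧
      ∃ u v w : ℂ, (u, v, w) ∈ rots s ∧ (u, v) ∈ N.kl ∧ ∃ x ∈ C, x ∈ segment ℝ u v) ∨
    ∀ s ∈ delT S, (cT s ∩ C).Nonempty → (∃ f, LSide N s f) ∧ ∀ f, LSide N s f → Conn N A e f := by
  -- the class of `e`
  set P : ℂ × ℂ × ℂ → Prop := fun s => ∃ f, LSide N s f ∧ Conn N A e f with hPdef
  -- one more step
  have ext : ∀ s ∈ delT S, (cT s ∩ C).Nonempty → ∀ f f', LSide N s f → LSide N s f' →
      Conn N A e f → Conn N A e f' := by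
    intro s hs hsC f f' hf hf' hc
    obtain ⟨s', hs', hr⟩ := hA s hs hsC
    exact Relation.ReflTransGen.tail hc ⟨s', hs', (LSide_rots hr).2 hf, (LSide_rots hr).2 hf'⟩
  have P_all : ∀ s ∈ delT S, (cT s ∩ C).Nonempty → P s → ∀ f, LSide N s f → Conn N A e f := by
    rintro s hs hsC ⟨f, hf, hc⟩ f' hf'
    exact ext s hs hsC f f' hf hf' hc
  have Pt : P t := ⟨e, he, Relation.ReflTransGen.refl⟩
  by_cases hkill : ∃ s ∈ delT S, (cT s ∩ C).Nonempty ∧ P s ∧
      ∃ u v w : ℂ, (u, v, w) ∈ rots s ∧ (u, v) ∈ N.kl ∧ ∃ x ∈ C, x ∈ segment ℝ u v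
  · obtain ⟨s, hs, hsC, hPs, hu⟩ := hkill
    obtain ⟨f, hf, _⟩ := id hPs
    exact Or.inl ⟨s, hs, hsC, ⟨f, hf⟩, P_all s hs hsC hPs, hu⟩
  right
  -- closed sets
  set X : Set ℂ := ⋃ s ∈ (delT S).filter (fun s => P s ∧ (cT s ∩ C).Nonempty), cT s with hX
  set Y : Set ℂ := ⋃ s ∈ (delT S).filter (fun s => ¬ P s ∧ (cT s ∩ C).Nonempty), cT s with hY
  have hXc : IsClosed X := isClosed_biUnion_finset fun s _ => isClosed_cT s
  have hYc : IsClosed Y := isClosed_biUnion_finset fun s _ => isClosed_cT s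
  have hsub : C ⊆ X ∪ Y := by
    intro x hx
    obtain ⟨s, hs, hxs⟩ := hcov x hx
    by_cases hPs : P s
    · left
      rw [hX]
      simp only [Set.mem_iUnion, Finset.mem_filter]
      exact ⟨s, ⟨hs, hPs, ⟨x, hxs, hx⟩⟩, hxs⟩
    · right
      rw [hY]
      simp only [Set.mem_iUnion, Finset.mem_filter]
      exact ⟨s, ⟨hs, hPs, ⟨x, hxs, hx⟩⟩, hxs⟩
  have hXne : (C ∩ X).Nonempty := by
    obtain ⟨x, hxt, hx⟩ := hm
    refine ⟨x, hx, ?_⟩
    rw [hX]
    simp only [Set.mem_iUnion, Finset.mem_filter]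
    exact ⟨t, ⟨ht, Pt, ⟨x, hxt, hx⟩⟩, hxt⟩
  have hall : ∀ s ∈ delT S, (cT s ∩ C).Nonempty → P s := by
    intro s hs hsC
    by_contra hPs
    have hYne : (C ∩ Y).Nonempty := by
      obtain ⟨x, hxs, hx⟩ := hsC
      refine ⟨x, hx, ?_⟩
      rw [hY]
      simp only [Set.mem_iUnion, Finset.mem_filter]
      exact ⟨s, ⟨hs, hPs, ⟨x, hxs, hx⟩⟩, hxs⟩
    obtain ⟨x, hxC, hxX, hxY⟩ := isPreconnected_closed_iff.1 hC X Y hXc hYc hsub hXne hYne
    rw [hX] at hxX
    rw [hY] at hxY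
    simp only [Set.mem_iUnion, Finset.mem_filter] at hxX hxY
    obtain ⟨s1, ⟨hs1, hP1, hC1⟩, hx1⟩ := hxX
    obtain ⟨s2, ⟨hs2, hP2, hC2⟩, hx2⟩ := hxY
    rcases meet hS hs1 hs2 hx1 hx2 (hCS x hxC) with hr | ⟨u, v, w, w', h1, h2, hseg⟩
    · apply hP2
      obtain ⟨f, hf, hc⟩ := hP1
      exact ⟨f, (LSide_rots hr).2 hf, hc⟩
    · by_cases hk : (u, v) ∈ N.kl
      · exact hkill ⟨s1, hs1, hC1, hP1, u, v, w, h1, hk, x, hxC, hseg⟩
      · apply hP2
        exact ⟨(u, v), LSide_of' h2 hk, P_all s1 hs1 hC1 hP1 (u, v) (LSide_of h1 hk)⟩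
  intro s hs hsC
  obtain ⟨f, hf, hc⟩ := hall s hs hsC
  exact ⟨⟨f, hf⟩, P_all s hs hsC (hall s hs hsC)⟩

/-- no killed edge meets `C` -/
theorem conn_all {N : Net ℂ} (hS : GP (S : Set ℂ)) {C : Set ℂ} (hC : IsPreconnected C)
    (hcov : ∀ x ∈ C, ∃ t ∈ delT S, x ∈ cT t) (hCS : ∀ x ∈ C, x ∉ S)
    (hl : ∀ u v w : ℂ, (u, v, w) ∈ delT S → ∀ x ∈ C, x ∈ segment ℝ u v → (u, v) ∉ N.kl)
    {A : Finset (ℂ × ℂ × ℂ)}
    (hA : ∀ t ∈ delT S, (cT t ∩ C).Nonempty → ∃ t' ∈ A, t' ∈ rots t)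
    {t t' : ℂ × ℂ × ℂ} (ht : t ∈ delT S) (hm : (cT t ∩ C).Nonempty) (ht' : t' ∈ delT S)
    (hm' : (cT t' ∩ C).Nonempty) {e e' : ℂ × ℂ} (he : LSide N t e) (he' : LSide N t' e') :
    Conn N A e e' := by
  rcases conn_alt hS hC hcov hCS hA ht hm he with h | h
  · obtain ⟨s, hs, -, -, -, u, v, w, hr, hk, x, hx, hseg⟩ := h
    exact absurd hk (hl u v w (delT_rots hS hr hs) x hx hseg)
  · exact (h t' ht' hm').2 e' he'

/-- a killed edge meets `C`: the connected part of every live side contains a triangle with a killed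
side -/
theorem conn_kill {N : Net ℂ} (hS : GP (S : Set ℂ)) {C : Set ℂ} (hC : IsPreconnected C)
    (hcov : ∀ x ∈ C, ∃ t ∈ delT S, x ∈ cT t) (hCS : ∀ x ∈ C, x ∉ S)
    {A : Finset (ℂ × ℂ × ℂ)}
    (hA : ∀ t ∈ delT S, (cT t ∩ C).Nonempty → ∃ t' ∈ A, t' ∈ rots t)
    {u v w x : ℂ} (huv : (u, v, w) ∈ delT S) (hk : (u, v) ∈ N.kl) (hx : x ∈ C)
    (hseg : x ∈ segment ℝ u v)
    {t : ℂ × ℂ × ℂ} (ht : t ∈ delT S) (hm : (cT t ∩ C).Nonempty) {e : ℂ × ℂ}
    (he : LSide N t e) :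
    ∃ s ∈ delT S, (cT s ∩ C).Nonempty ∧ (∃ f, LSide N s f) ∧
      (∀ f, LSide N s f → Conn N A e f) ∧
      ∃ u v w : ℂ, (u, v, w) ∈ rots s ∧ (u, v) ∈ N.kl ∧ ∃ x ∈ C, x ∈ segment ℝ u v := by
  rcases conn_alt hS hC hcov hCS hA ht hm he with h | h
  · exact h
  · obtain ⟨o, hT⟩ := mem_delT_iff.1 huv
    have hxT := seg_sub_cT hT.pos hseg
    obtain ⟨h1, h2⟩ := h (u, v, w) huv ⟨x, hxT, hx⟩
    exact ⟨(u, v, w), huv, ⟨x, hxT, hx⟩, h1, h2, u, v, w, mem_rots_self _, hk, x, hx, hseg⟩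

end Crest.Agent.R143.Circx63
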