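import Crest.Agent.R143.DelG_806
import Crest.Agent.R143.B0D_346

/-!
# Row 143, block G: rings, hull, Voronoi edges (helper806)

* `sector`       : rotation lemma: if `nx` maps a finite nonempty set into itself and turns always to
  the left around `v` then every direction is in a sector `(u, nx u)`
* `ring_exists`  : the triangles at a site which is not on the hull form one `Ring`
* `exists_tri_at`: every site is a vertex of a triangle
* `hull_succ`    : the successor of a hull edge, `hull_pred`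
* `hull_cycle`   : the hull edges form one counterclockwise cycle, strictly convex
* `vedge_inner`, `vedge_hull`, `vedge_del` : Voronoi edges
-/

set_option autoImplicit false

noncomputable section

open scoped Classical

namespace Crest.Agent.R143.DelRx806

open Crest.Agent.R143.B0x346 Crest.Agent.R143.DelGx806 Crest.Agent.R143.B0Dx346

/-! ### rotation lemma -/

/-- scalar product -/
def dt (u v : ℂ) : ℝ := u.re * v.re + u.im * v.im

theorem cr_swap' (u v : ℂ) : cr u v = - cr v u := by unfold cr; ring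

/-- `|e|² cr(u, w) = cr(u, e) dt(w, e) - dt(u, e) cr(w, e)` -/
theorem cr_dt (u w e : ℂ) : dt e e * cr u w = cr u e * dt w e - dt u e * cr w e := by
  unfold cr dt; ring

theorem dt_pos {e : ℂ} (he : e ≠ 0) : 0 < dt e e := by
  have := nsq_pos (a := 0) (b := e) he.symm
  unfold dt
  simp only [Complex.zero_re, Complex.zero_im, sub_zero] at this
  nlinarith

/-- **rotation lemma**: if `nx` maps the finite nonempty set `O` into itself and `nx u` is
always strictly to the left of `u`, seen from the origin, then every direction `e` is in a sector -/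
theorem sector {ι : Type} {O : Finset ι} (hO : O.Nonempty) {f : ι → ℂ} {nx : ι → ι}
    (hnx : ∀ u ∈ O, nx u ∈ O) (hl : ∀ u ∈ O, 0 < cr (f u) (f (nx u))) {e : ℂ} (he : e ≠ 0) :
    ∃ u ∈ O, 0 ≤ cr (f u) e ∧ 0 < cr e (f (nx u)) := by
  by_contra hcon
  push Not at hcon
  have hdt := dt_pos he
  -- all the points have `cr (f u) e < 0`
  have hneg : ∀ u ∈ O, cr (f u) e < 0 := by
    by_contra h0
    push Not at h0
    have hne : (O.filter fun u => 0 ≤ cr (f u) e).Nonempty := by
      obtain ⟨u, hu, h⟩ := h0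
      exact ⟨u, Finset.mem_filter.2 ⟨hu, h⟩⟩
    -- zero is excluded
    have hz : ∀ u ∈ O, cr (f u) e ≠ 0 := by
      intro u hu h
      have h1 := hcon u hu h.ge
      have h2 := hl u hu
      have h3 := cr_dt (f u) (f (nx u)) e
      rw [h, zero_mul, zero_sub] at h3
      have h4 : cr (f (nx u)) e = - cr e (f (nx u)) := cr_swap' _ _
      rw [h4] at h3
      -- `dt (f u) e < 0`, the next point is on the other side
      have h5 : 0 < dt e e * cr (f u) (f (nx u)) := by positivity
      have h6 : cr e (f (nx u)) < 0 := by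
        rcases lt_or_eq_of_le h1 with h7 | h7
        · exact h7
        · rw [h7] at h3
          linarith
      have h7 : dt (f u) e < 0 := by
        by_contra h8
        push Not at h8
        have := mul_nonneg_of_nonpos_of_nonpos h6.le (neg_nonpos.2 h8)
        nlinarith
      -- go on: points with `cr > 0`; `w = nx u` has `cr w e > 0`
      -- choose the point of maximal slope among those with `cr > 0`
      have hne2 : (O.filter fun u => 0 < cr (f u) e).Nonempty :=
        ⟨nx u, Finset.mem_filter.2 ⟨hnx u hu, by rw [h4]; linarith⟩⟩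
      obtain ⟨m, hm, hmax⟩ := Finset.exists_max_image _
        (fun u => dt (f u) e / cr (f u) e) hne2
      rw [Finset.mem_filter] at hm
      have g1 := hcon m hm.1 hm.2.le
      have g2 := hl m hm.1
      have g3 := cr_dt (f m) (f (nx m)) e
      have g4 : cr (f (nx m)) e = - cr e (f (nx m)) := cr_swap' _ _
      have g5 : 0 < dt e e * cr (f m) (f (nx m)) := by positivity
      rcases lt_or_eq_of_le g1 with g6 | g6
      · have g7 := hmax (nx m) (Finset.mem_filter.2 ⟨hnx m hm.1, by rw [g4]; linarith⟩)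
        rw [div_le_div_iff₀ (by rw [g4]; linarith) hm.2] at g7
        linarith
      · rw [g4, g6, neg_zero, mul_zero, sub_zero] at g3
        -- `nx m` is in the direction `± e`
        have g8 : 0 < dt (f (nx m)) e := by
          by_contra g9
          push Not at g9
          have := mul_nonpos_of_nonneg_of_nonpos hm.2.le g9
          linarith
        have k1 := hl (nx m) (hnx m hm.1)
        have k2 := hcon (nx m) (hnx m hm.1) (by rw [g4, g6, neg_zero])
        have k3 := cr_dt (f (nx m)) (f (nx (nx m))) e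
        rw [g4, g6, neg_zero, zero_mul, zero_sub, cr_swap' (f (nx (nx m))) e] at k3
        have k5 : 0 < dt e e * cr (f (nx m)) (f (nx (nx m))) := by positivity
        have := mul_nonneg g8.le (neg_nonneg.2 k2)
        nlinarith
    obtain ⟨m, hm, hmax⟩ := Finset.exists_max_image _ (fun u => dt (f u) e / cr (f u) e) hne
    rw [Finset.mem_filter] at hm
    have hm0 : 0 < cr (f m) e := lt_of_le_of_ne hm.2 (hz m hm.1).symm
    have g1 := hcon m hm.1 hm.2
    have g2 := hl m hm.1
    have g3 := cr_dt (f m) (f (nx m)) e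
    have g4 : cr (f (nx m)) e = - cr e (f (nx m)) := cr_swap' _ _
    have g5 : 0 < dt e e * cr (f m) (f (nx m)) := by positivity
    have g10 : 0 < cr (f (nx m)) e :=
      lt_of_le_of_ne (by rw [g4]; linarith) (hz _ (hnx m hm.1)).symm
    have g7 := hmax (nx m) (Finset.mem_filter.2 ⟨hnx m hm.1, g10.le⟩)
    rw [div_le_div_iff₀ g10 hm0] at g7
    linarith
  obtain ⟨m, hm, hmax⟩ := Finset.exists_max_image _ (fun u => dt (f u) e / cr (f u) e) hO
  have g2 := hl m hm
  have g3 := cr_dt (f m) (f (nx m)) e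
  have g5 : 0 < dt e e * cr (f m) (f (nx m)) := by positivity
  have g6 := hneg m hm
  have g7 := hneg _ (hnx m hm)
  have g8 := hmax _ (hnx m hm)
  rw [div_le_iff_of_neg g7, div_mul_eq_mul_div, div_le_iff_of_neg g6] at g8
  linarith

/-! ### the ring of a site -/

variable {S : Finset ℂ}

/-- the neighbours of `v` (first side of a triangle at `v`) -/
def nbs (S : Finset ℂ) (v : ℂ) : Finset ℂ := S.filter fun u => ∃ c, (v, u, c) ∈ delT S

theorem mem_nbs {v u : ℂ} : u ∈ nbs S v ↔ ∃ c, (v, u, c) ∈ delT S := by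
  unfold nbs
  rw [Finset.mem_filter]
  refine ⟨fun h => h.2, fun h => ⟨?_, h⟩⟩
  obtain ⟨c, hc⟩ := h
  exact (mem_delT.1 hc).2.1

/-- the next neighbour -/
def nxt (S : Finset ℂ) (v u : ℂ) : ℂ := if h : ∃ c, (v, u, c) ∈ delT S then h.choose else u

theorem nxt_spec {v u : ℂ} (h : u ∈ nbs S v) : (v, u, nxt S v u) ∈ delT S := by
  have h := mem_nbs.1 h
  unfold nxt
  rw [dif_pos h]
  exact h.choose_spec

theorem nxt_eq (hS : GP (S : Set ℂ)) {v u c : ℂ} (h : (v, u, c) ∈ delT S) : nxt S v u = c :=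
  (g1 S hS).2.1 _ _ _ _ (nxt_spec (mem_nbs.2 ⟨c, h⟩)) h

theorem nxt_mem (hS : GP (S : Set ℂ)) {v u : ℂ} (hv : ∀ a, ¬ hullE S a v) (h : u ∈ nbs S v) :
    nxt S v u ∈ nbs S v := by
  by_contra hcon
  rw [mem_nbs] at hcon
  push Not at hcon
  have h1 := nxt_spec h
  have h2 := (g1 S hS).1 _ _ _ ((g1 S hS).1 _ _ _ h1)
  exact hv (nxt S v u) ⟨⟨_, h2⟩, hcon⟩

theorem nxt_inj (hS : GP (S : Set ℂ)) {v u u' : ℂ} (h : u ∈ nbs S v) (h' : u' ∈ nbs S v)
    (he : nxt S v u = nxt S v u') : u = u' := by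
  have h1 := nxt_spec h
  have h2 := nxt_spec h'
  rw [← he] at h2
  have rot := (g1 S hS).1
  exact (g1 S hS).2.1 _ _ _ _ (rot _ _ _ (rot _ _ _ h1)) (rot _ _ _ (rot _ _ _ h2))

/-- iteration with integer indices -/
theorem exists_cycle {X : Type} {O : Finset X} {f : X → X} (hf : ∀ x ∈ O, f x ∈ O)
    (hinj : ∀ x ∈ O, ∀ y ∈ O, f x = f y → x = y) {x0 : X} (hx0 : x0 ∈ O) :
    ∃ (d : ℕ) (u : ℤ → X), 0 < d ∧ u 0 = x0 ∧ (∀ i, u (i + d) = u i) ∧
      (∀ i j : ℤ, 0 ≤ i → i < d → 0 ≤ j → j < d → u i = u j → i = j) ∧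
      (∀ i, u i ∈ O) ∧ ∀ i, u (i + 1) = f (u i) := by
  -- a periodic point
  have hper : x0 ∈ Function.periodicPts f := by
    have hb : Set.BijOn f O O := by
      refine ⟨fun x hx => hf x hx, fun x hx y hy h => hinj x hx y hy h, ?_⟩
      exact Finset.surjOn_of_injOn_of_card_le f (fun x hx => hf x hx)
        (fun x hx y hy h => hinj x hx y hy h) le_rfl
    have hmem : ∀ n, f^[n] x0 ∈ O := by
      intro n
      induction n with
      | zero => exact hx0
      | succ n ih => rw [Function.iterate_succ_apply']; exact hf _ ih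
    obtain ⟨m, n, hmn, he⟩ : ∃ m n : ℕ, m < n ∧ f^[m] x0 = f^[n] x0 := by
      by_contra hcon
      push Not at hcon
      have hi : Function.Injective fun n : ℕ => (⟨f^[n] x0, hmem n⟩ : {x // x ∈ O}) := by
        intro m n h
        have h' : f^[m] x0 = f^[n] x0 := congrArg Subtype.val h
        rcases lt_trichotomy m n with h1 | h1 | h1
        · exact absurd h' (hcon m n h1)
        · exact h1
        · exact absurd h'.symm (hcon n m h1)
      exact not_injective_infinite_finite _ hi
    have hback : ∀ m : ℕ, ∀ n, m ≤ n → f^[m] x0 = f^[n] x0 → f^[n - m] x0 = x0 := by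
      intro m
      induction m with
      | zero => intro n _ h; simpa using h.symm
      | succ m ih =>
        intro n hmn h
        obtain ⟨n', rfl⟩ : ∃ n', n = n' + 1 := ⟨n - 1, by omega⟩
        rw [Function.iterate_succ_apply', Function.iterate_succ_apply'] at h
        have := hinj _ (hmem m) _ (hmem n') h
        have h2 := ih n' (by omega) this
        have e : n' + 1 - (m + 1) = n' - m := by omega
        rw [e]; exact h2
    exact ⟨n - m, by omega, hback m n hmn.le he⟩
  set d := Function.minimalPeriod f x0 with hd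
  have hd0 : 0 < d := Function.minimalPeriod_pos_of_mem_periodicPts hper
  have hdz : (0 : ℤ) < d := by exact_mod_cast hd0
  have hfd : f^[d] x0 = x0 := Function.isPeriodicPt_minimalPeriod f x0
  have hmem : ∀ n, f^[n] x0 ∈ O := by
    intro n
    induction n with
    | zero => exact hx0
    | succ n ih => rw [Function.iterate_succ_apply']; exact hf _ ih
  refine ⟨d, fun i => f^[(i % d).toNat] x0, hd0, ?_, ?_, ?_, fun i => hmem _, ?_⟩
  · simp
  · intro i
    simp
  · intro i j hi hi' hj hj' h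
    dsimp only at h
    rw [Int.emod_eq_of_lt hi hi', Int.emod_eq_of_lt hj hj'] at h
    have := Function.iterate_injOn_Iio_minimalPeriod (f := f) (x := x0)
      (show i.toNat ∈ Set.Iio (Function.minimalPeriod f x0) by
        rw [Set.mem_Iio, ← hd]; omega)
      (show j.toNat ∈ Set.Iio (Function.minimalPeriod f x0) by
        rw [Set.mem_Iio, ← hd]; omega) h
    omega
  · intro i
    dsimp only
    rw [← Function.iterate_succ_apply' f]
    have h1 := Int.emod_nonneg i hdz.ne'
    have h2 := Int.emod_lt_of_pos i hdz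
    rcases lt_or_eq_of_le (show i % d + 1 ≤ d by omega) with h3 | h3
    · have e : (i + 1) % d = i % d + 1 := by
        rw [Int.add_emod, ← Int.emod_emod_of_dvd i (dvd_refl (d : ℤ))]
        by_cases h1d : (d : ℤ) = 1
        · omega
        · rw [Int.emod_eq_of_lt (a := 1) (by omega) (by omega)]
          rw [Int.emod_emod_of_dvd i (dvd_refl (d : ℤ))]
          exact Int.emod_eq_of_lt (by omega) h3
      rw [e]
      congr 1
      omega
    · have e : (i + 1) % d = 0 := by
        have : (i + 1) = d * (i / d + 1) := by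
          have := Int.mul_ediv_add_emod i d
          rw [mul_add]; omega
        rw [this, Int.mul_emod_right]
      rw [e]
      have e2 : (i % d).toNat.succ = d := by omega
      rw [e2, hfd]
      rfl

/-- a point close to the vertex `v` in a direction of the (closed) sector is in the triangle -/
theorem near_inT {v a b e : ℂ} (hp : 0 < cr (a - v) (b - v)) (h1 : 0 ≤ cr (a - v) e)
    (h2 : 0 ≤ cr e (b - v)) : ∃ t0 > 0, ∀ t : ℝ, 0 < t → t ≤ t0 → InT (v + t * e) v a b := by
  refine ⟨cr (a - v) (b - v) / (1 + |cr (b - a) e|), by positivity, fun t ht htt => ?_⟩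
  rw [le_div_iff₀ (by positivity)] at htt
  refine ⟨?_, ?_, ?_⟩
  · have e1 : cr (a - v) (v + t * e - v) = t * cr (a - v) e := by
      unfold cr; simp; ring
    rw [e1]; positivity
  · have e1 : cr (b - a) (v + t * e - a) = cr (a - v) (b - v) + t * cr (b - a) e := by
      unfold cr; simp; ring
    rw [e1]
    have h3 := neg_abs_le (cr (b - a) e)
    nlinarith
  · have e1 : cr (v - b) (v + t * e - b) = t * cr e (b - v) := by
      unfold cr; simp; ring
    rw [e1]; positivity

theorem near_inO {v a b e : ℂ} (hp : 0 < cr (a - v) (b - v)) (h1 : 0 < cr (a - v) e)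
    (h2 : 0 < cr e (b - v)) : ∃ t0 > 0, ∀ t : ℝ, 0 < t → t ≤ t0 → InO (v + t * e) v a b := by
  refine ⟨cr (a - v) (b - v) / (1 + |cr (b - a) e|), by positivity, fun t ht htt => ?_⟩
  rw [le_div_iff₀ (by positivity)] at htt
  refine ⟨?_, ?_, ?_⟩
  · have e1 : cr (a - v) (v + t * e - v) = t * cr (a - v) e := by
      unfold cr; simp; ring
    unfold Lft
    rw [e1]; positivity
  · have e1 : cr (b - a) (v + t * e - a) = cr (a - v) (b - v) + t * cr (b - a) e := by
      unfold cr; simp; ring
    unfold Lft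
    rw [e1]
    have h3 := neg_abs_le (cr (b - a) e)
    nlinarith
  · have e1 : cr (v - b) (v + t * e - b) = t * cr e (b - v) := by
      unfold cr; simp; ring
    unfold Lft
    rw [e1]; positivity

/-- two triangles at `v` whose sectors meet are equal -/
theorem sector_unique (hS : GP (S : Set ℂ)) {v a b a' b' e : ℂ} (h : (v, a, b) ∈ delT S)
    (h' : (v, a', b') ∈ delT S) (h1 : 0 < cr (a - v) e) (h2 : 0 < cr e (b - v))
    (h1' : 0 ≤ cr (a' - v) e) (h2' : 0 ≤ cr e (b' - v)) : a = a' ∧ b = b' := by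
  obtain ⟨o, h⟩ := mem_delT_iff.1 h
  obtain ⟨o', h'⟩ := mem_delT_iff.1 h'
  obtain ⟨t0, ht0, ht⟩ := near_inO h.pos h1 h2
  obtain ⟨t1, ht1, ht'⟩ := near_inT h'.pos h1' h2'
  have key := disj hS h h' (ht (min t0 t1) (lt_min ht0 ht1) (min_le_left _ _))
    (ht' (min t0 t1) (lt_min ht0 ht1) (min_le_right _ _))
  obtain ⟨n1, n2, n3⟩ := h.ne
  unfold rots at key
  simp only [Set.mem_insert_iff, Set.mem_singleton_iff, Prod.mk.injEq] at key
  rcases key with ⟨-, rfl, rfl⟩ | ⟨rfl, -⟩ | ⟨rfl, -⟩
  · exact ⟨rfl, rfl⟩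
  · exact absurd rfl n1
  · exact absurd rfl n3

/-- **the ring of a site which is not on the hull**: it contains all the triangles at the site -/
theorem ring_exists (hS : GP (S : Set ℂ)) {v u0 : ℂ} (hu0 : u0 ∈ nbs S v)
    (hv : ∀ a, ¬ hullE S a v) {G : Trg ℂ} (hG : G.T = delT S) :
    ∃ (d : ℕ) (u : ℤ → ℂ), Ring G v d u ∧ u 0 = u0 ∧
      ∀ a b, (v, a, b) ∈ delT S → ∃ i : ℤ, u i = a ∧ u (i + 1) = b := by
  obtain ⟨d, u, hd, h0, hper, hinj, hmem, hs⟩ := exists_cycle (O := nbs S v) (f := nxt S v)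
    (fun x hx => nxt_mem hS hv hx) (fun x hx y hy h => nxt_inj hS hx hy h) hu0
  have htri : ∀ i, (v, u i, u (i + 1)) ∈ delT S := fun i => by
    rw [hs]; exact nxt_spec (hmem i)
  refine ⟨d, u, ⟨hd, hper, hinj, fun i => by rw [hG]; exact htri i⟩, h0, fun a b hab => ?_⟩
  -- the orbit as a finite set of integers
  have hpos : ∀ i, 0 < cr (u i - v) (u (i + 1) - v) := fun i => (mem_delT.1 (htri i)).2.2.2.1
  have hp := (mem_delT.1 hab).2.2.2.1
  set e : ℂ := (a - v) + (b - v) with he
  have he1 : cr (a - v) e = cr (a - v) (b - v) := by rw [he]; unfold cr; simp; ring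
  have he2 : cr e (b - v) = cr (a - v) (b - v) := by rw [he]; unfold cr; simp; ring
  have he0 : e ≠ 0 := by
    intro h
    rw [h] at he1
    unfold cr at he1 hp
    simp only [Complex.zero_re, Complex.zero_im] at he1
    linarith
  have hdz : (0 : ℤ) < d := by exact_mod_cast hd
  have hmod : ∀ i : ℤ, u (i % d) = u i := by
    have h1 : ∀ (n : ℕ) (i : ℤ), u (i + n * d) = u i := by
      intro n
      induction n with
      | zero => intro i; simp
      | succ n ih =>
        intro i
        have : i + ((n + 1 : ℕ) : ℤ) * d = (i + n * d) + d := by push_cast; ring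
        rw [this, hper, ih]
    have h2 : ∀ (m i : ℤ), u (i + m * d) = u i := by
      intro m i
      rcases le_total 0 m with hm | hm
      · obtain ⟨n, rfl⟩ := Int.eq_ofNat_of_zero_le hm
        exact h1 n i
      · obtain ⟨n, hn⟩ := Int.eq_ofNat_of_zero_le (neg_nonneg.2 hm)
        have := h1 n (i + m * d)
        rw [← this]
        congr 1
        have : m = -(n : ℤ) := by omega
        rw [this]; ring
    intro i
    have := h2 (i / d) (i % d)
    rw [← this]
    congr 1
    have := Int.mul_ediv_add_emod i d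
    linarith
  obtain ⟨i, -, h3, h4⟩ := sector (O := Finset.Ico (0 : ℤ) d)
    ⟨0, Finset.mem_Ico.2 ⟨le_rfl, hdz⟩⟩ (f := fun i => u i - v) (nx := fun i => (i + 1) % d)
    (fun i _ => Finset.mem_Ico.2 ⟨Int.emod_nonneg _ hdz.ne', Int.emod_lt_of_pos _ hdz⟩)
    (fun i _ => by rw [hmod]; exact hpos i) he0
  rw [hmod] at h4
  have := sector_unique hS hab (htri i) (by rw [he1]; exact hp) (by rw [he2]; exact hp) h3 h4.le
  exact ⟨i, this.1.symm, this.2.symm⟩

/-- points of a closed triangle have power `≤ 0` -/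
theorem pw_nonpos {a b c o x : ℂ} (h : Tri S a b c o) (hx : InT x a b c) : pw o a x ≤ 0 := by
  -- the power is convex
  have h1 := h.pb
  have h2 := h.pc
  have hp := h.pos
  obtain ⟨x1, x2, x3⟩ := hx
  have key : cr (b - a) (c - a) ^ 2 * pw o a x =
      -(cr (c - b) (x - b) * cr (a - c) (x - c) * ((b.re - a.re) ^ 2 + (b.im - a.im) ^ 2) +
        cr (a - c) (x - c) * cr (b - a) (x - a) * ((c.re - b.re) ^ 2 + (c.im - b.im) ^ 2) +
        cr (b - a) (x - a) * cr (c - b) (x - b) * ((a.re - c.re) ^ 2 + (a.im - c.im) ^ 2)) +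
      cr (b - a) (c - a) * (cr (a - c) (x - c) * pw o a b + cr (b - a) (x - a) * pw o a c) := by
    rw [cr_sub, cr_sub, cr_sub, cr_sub]
    unfold pw
    ring
  rw [h1, h2] at key
  have y1 := mul_nonneg (mul_nonneg x2 x3) (add_nonneg (sq_nonneg (b.re - a.re))
    (sq_nonneg (b.im - a.im)))
  have y2 := mul_nonneg (mul_nonneg x3 x1) (add_nonneg (sq_nonneg (c.re - b.re))
    (sq_nonneg (c.im - b.im)))
  have y3 := mul_nonneg (mul_nonneg x1 x2) (add_nonneg (sq_nonneg (a.re - c.re))
    (sq_nonneg (a.im - c.im)))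
  by_contra hcon
  push Not at hcon
  have : 0 < cr (b - a) (c - a) ^ 2 * pw o a x := by positivity
  linarith

/-- **every site is a vertex of a Delaunay triangle** -/
theorem exists_tri_at (hS : GP (S : Set ℂ)) (h3 : 3 ≤ S.card) {v : ℂ} (hv : v ∈ S) :
    ∃ u, u ∈ nbs S v := by
  obtain ⟨a, b, c, o, h, hx, -⟩ := cover hS h3 (x := v) (fun a b hab => hull_side hab v hv)
  have h1 := pw_nonpos h hx
  rcases eq_or_ne a v with rfl | ha
  · exact ⟨b, mem_nbs.2 ⟨c, mem_delT_iff.2 ⟨o, h⟩⟩⟩
  rcases eq_or_ne b v with rfl | hb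
  · exact ⟨c, mem_nbs.2 ⟨a, mem_delT_iff.2 ⟨o, h.rot⟩⟩⟩
  rcases eq_or_ne c v with rfl | hc
  · exact ⟨a, mem_nbs.2 ⟨b, mem_delT_iff.2 ⟨o, h.rot.rot⟩⟩⟩
  have := h.out hS hv ha hb hc
  linarith

/-! ### the hull -/

/-- **successor of a hull edge** -/
theorem hull_succ (hS : GP (S : Set ℂ)) {a b : ℂ} (h : hullE S a b) :
    ∃ c, hullE S b c ∧ ∀ c', hullE S b c' → c' = c := by
  obtain ⟨⟨c0, hc0⟩, -⟩ := id h
  obtain ⟨o0, h0⟩ := mem_delT_iff.1 hc0
  have hlt : ∀ s ∈ S, s ≠ a → s ≠ b → 0 < cr (b - a) (s - b) := by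
    intro s hs h1 h2
    have := hull_side_lt hS h hs h1.symm h2.symm
    have e : cr (b - a) (s - b) = cr (b - a) (s - a) := by rw [cr_sub]; unfold cr; simp; ring
    rw [e]; exact this
  have hne : (S.filter fun s => s ≠ a ∧ s ≠ b).Nonempty :=
    ⟨c0, Finset.mem_filter.2 ⟨h0.mc, h0.ne.2.2.symm, h0.ne.2.1.symm⟩⟩
  obtain ⟨c, hc, hmax⟩ := Finset.exists_max_image _
    (fun s => dt (s - b) (b - a) / cr (b - a) (s - b)) hne
  rw [Finset.mem_filter] at hc
  obtain ⟨hcS, hca, hcb⟩ := hc
  have hcp := hlt c hcS hca hcb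
  have hall : ∀ s ∈ S, 0 ≤ cr (c - b) (s - b) := by
    intro s hs
    rcases eq_or_ne s b with rfl | hsb
    · rw [sub_self]; unfold cr; simp
    rcases eq_or_ne s a with rfl | hsa
    · have e : cr (c - b) (s - b) = cr (b - s) (c - b) := by unfold cr; simp; ring
      rw [e]; exact hcp.le
    have h1 := hmax s (Finset.mem_filter.2 ⟨hs, hsa, hsb⟩)
    have hsp := hlt s hs hsa hsb
    rw [div_le_div_iff₀ hsp hcp] at h1
    have h2 := cr_dt (c - b) (s - b) (b - a)
    rw [cr_swap' (c - b) (b - a), cr_swap' (s - b) (b - a)] at h2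
    have h3 := dt_pos (sub_ne_zero.2 h0.ne.1.symm)
    by_contra hcon
    push Not at hcon
    have := mul_neg_of_pos_of_neg h3 hcon
    linarith
  have hbc : hullE S b c := (hull_iff hS h0.mb hcS hcb.symm ⟨a, h0.ma, h0.ne.1, hca.symm⟩).2 hall
  refine ⟨c, hbc, fun c' h' => ?_⟩
  by_contra hne'
  obtain ⟨⟨e', he'⟩, -⟩ := id h'
  obtain ⟨o', he'⟩ := mem_delT_iff.1 he'
  have h1 := hull_side_lt hS h' hcS hcb.symm hne'
  have h2 := hall c' he'.mb
  rw [cr_swap'] at h1
  linarith

/-- every hull edge has a predecessor -/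
theorem hull_pred (hS : GP (S : Set ℂ)) {b c : ℂ} (h : hullE S b c) : ∃ a, hullE S a b := by
  -- iterate the successor
  have hsucc : ∀ e : ℂ × ℂ, hullE S e.1 e.2 → ∃ e' : ℂ × ℂ, hullE S e'.1 e'.2 ∧ e'.1 = e.2 := by
    intro e he
    obtain ⟨c, hc, -⟩ := hull_succ hS he
    exact ⟨(e.2, c), hc, rfl⟩
  choose! nx hnx using hsucc
  have hsc : ∀ e, hullE S e.1 e.2 → nx e = (e.2, (nx e).2) := fun e he =>
    Prod.ext (hnx e he).2 rfl
  set O : Finset (ℂ × ℂ) := (S ×ˢ S).filter fun e => hullE S e.1 e.2 with hO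
  have hmem : ∀ e : ℂ × ℂ, hullE S e.1 e.2 → e ∈ O := by
    intro e he
    rw [hO, Finset.mem_filter, Finset.mem_product]
    obtain ⟨⟨c, hc⟩, -⟩ := id he
    have := mem_delT.1 hc
    exact ⟨⟨this.1, this.2.1⟩, he⟩
  -- `nx` is injective: a site is the end of one hull edge only
  have hend : ∀ a a' b, hullE S a b → hullE S a' b → a = a' := by
    intro a a' b h1 h2
    by_contra hne
    obtain ⟨⟨c1, hc1⟩, -⟩ := id h1
    obtain ⟨⟨c2, hc2⟩, -⟩ := id h2
    obtain ⟨o1, hc1⟩ := mem_delT_iff.1 hc1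
    obtain ⟨o2, hc2⟩ := mem_delT_iff.1 hc2
    have k1 := hull_side_lt hS h1 hc2.ma hne hc2.ne.1.symm
    have k2 := hull_side_lt hS h2 hc1.ma (Ne.symm hne) hc1.ne.1.symm
    rw [cr_rot] at k1 k2
    rw [cr_swap'] at k1
    linarith
  obtain ⟨d, u, hd, h0, hper, -, hu, hs⟩ := exists_cycle (O := O) (f := nx)
    (fun e he => hmem _ (hnx e (Finset.mem_filter.1 he).2).1)
    (fun e he e' he' hee => by
      have k := (Finset.mem_filter.1 he).2
      have k' := (Finset.mem_filter.1 he').2
      have h1 := (hnx e k).2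
      have h2 := (hnx e' k').2
      rw [hee, h2] at h1
      have h3 : e.2 = e'.2 := h1.symm
      refine Prod.ext ?_ h3
      rw [← h3] at k'
      exact hend _ _ _ k k') (hmem (b, c) h)
  have h1 := hs (-1)
  rw [show (-1 : ℤ) + 1 = 0 by ring, h0] at h1
  have h2 := (Finset.mem_filter.1 (hu (-1))).2
  have h3 := (hnx _ h2).2
  rw [← h1] at h3
  exact ⟨(u (-1)).1, by rw [show b = (u (-1)).2 from h3]; exact h2⟩

/-- a site is the end of one hull edge only -/
theorem hull_end_unique (hS : GP (S : Set ℂ)) {a a' b : ℂ} (h1 : hullE S a b)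
    (h2 : hullE S a' b) : a = a' := by
  by_contra hne
  obtain ⟨⟨c1, hc1⟩, -⟩ := id h1
  obtain ⟨⟨c2, hc2⟩, -⟩ := id h2
  obtain ⟨o1, hc1⟩ := mem_delT_iff.1 hc1
  obtain ⟨o2, hc2⟩ := mem_delT_iff.1 hc2
  have k1 := hull_side_lt hS h1 hc2.ma hne hc2.ne.1.symm
  have k2 := hull_side_lt hS h2 hc1.ma (Ne.symm hne) hc1.ne.1.symm
  rw [cr_rot] at k1 k2
  rw [cr_swap'] at k1
  linarith

theorem hullE.ne {a b : ℂ} (h : hullE S a b) : a ≠ b := by
  obtain ⟨⟨c, hc⟩, -⟩ := h
  obtain ⟨o, hc⟩ := mem_delT_iff.1 hc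
  exact hc.ne.1

theorem hullE.mem {a b : ℂ} (h : hullE S a b) : a ∈ S ∧ b ∈ S := by
  obtain ⟨⟨c, hc⟩, -⟩ := h
  obtain ⟨o, hc⟩ := mem_delT_iff.1 hc
  exact ⟨hc.ma, hc.mb⟩

/-- there is a hull edge -/
theorem exists_hull (hS : GP (S : Set ℂ)) (h3 : 3 ≤ S.card) : ∃ a b, hullE S a b := by
  by_contra hcon
  push Not at hcon
  obtain ⟨a, b, c, o, h, hx, -⟩ := cover hS h3
    (x := (((∑ s ∈ S, |s.re|) + 1 : ℝ) : ℂ)) (fun a b hab => absurd hab (hcon a b))
  have hb : ∀ s ∈ S, s.re ≤ ∑ s ∈ S, |s.re| := fun s hs => (le_abs_self _).trans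
    (Finset.single_le_sum (f := fun s : ℂ => |s.re|) (fun _ _ => abs_nonneg _) hs)
  set M := ∑ s ∈ S, |s.re| with hM
  have e1 := bary a b c ((M + 1 : ℝ) : ℂ) 0 1 0
  have e2 := bary a b c ((M + 1 : ℝ) : ℂ) 1 0 0
  obtain ⟨x1, x2, x3⟩ := hx
  have hp := h.pos
  rw [Complex.ofReal_re] at e1
  simp only [zero_add, one_mul, zero_mul, add_zero, mul_one] at e1 e2
  have g1 := mul_le_mul_of_nonneg_left (hb a h.ma) x2
  have g2 := mul_le_mul_of_nonneg_left (hb b h.mb) x3
  have g3 := mul_le_mul_of_nonneg_left (hb c h.mc) x1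
  have g4 : cr (b - a) (c - a) * (M + 1) ≤ cr (b - a) (c - a) * M := by
    rw [e1, e2]
    linarith
  linarith

/-- a site with no outgoing hull edge has no incoming hull edge -/
theorem hull_in_iff_out (hS : GP (S : Set ℂ)) (v : ℂ) :
    (∃ a, hullE S a v) ↔ ∃ c, hullE S v c := by
  constructor
  · rintro ⟨a, h⟩
    obtain ⟨c, hc, -⟩ := hull_succ hS h
    exact ⟨c, hc⟩
  · rintro ⟨c, h⟩
    exact hull_pred hS h

/-- **the hull**: one counterclockwise strictly convex cycle -/
structure HullCyc (S : Finset ℂ) (n : ℕ) (w : ℤ → ℂ) : Prop where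
  pos : 0 < n
  per : ∀ i, w (i + n) = w i
  inj : ∀ i j : ℤ, 0 ≤ i → i < n → 0 ≤ j → j < n → w i = w j → i = j
  edge : ∀ i, hullE S (w i) (w (i + 1))
  all : ∀ a b, hullE S a b → ∃ i : ℤ, 0 ≤ i ∧ i < n ∧ w i = a ∧ w (i + 1) = b
  conv : ∀ i j k : ℤ, i < j → j < k → k < i + n → 0 < cr (w j - w i) (w k - w i)

theorem mod_per {X : Type} {n : ℕ} (_hn : 0 < n) {w : ℤ → X} (hper : ∀ i, w (i + n) = w i)
    (i : ℤ) : w (i % n) = w i := by
  have h1 : ∀ (m : ℕ) (i : ℤ), w (i + m * n) = w i := by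
    intro m
    induction m with
    | zero => intro i; simp
    | succ m ih =>
      intro i
      have : i + ((m + 1 : ℕ) : ℤ) * n = (i + m * n) + n := by push_cast; ring
      rw [this, hper, ih]
  have h2 : ∀ (m i : ℤ), w (i + m * n) = w i := by
    intro m i
    rcases le_total 0 m with hm | hm
    · obtain ⟨k, rfl⟩ := Int.eq_ofNat_of_zero_le hm
      exact h1 k i
    · obtain ⟨k, hk⟩ := Int.eq_ofNat_of_zero_le (neg_nonneg.2 hm)
      have := h1 k (i + m * n)
      rw [← this]
      congr 1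
      have : m = -(k : ℤ) := by omega
      rw [this]; ring
  have := h2 (i / n) (i % n)
  rw [← this]
  congr 1
  have := Int.mul_ediv_add_emod i n
  linarith

/-- values of a periodic injective sequence -/
theorem eq_mod {X : Type} {n : ℕ} (hn : 0 < n) {w : ℤ → X} (hper : ∀ i, w (i + n) = w i)
    (hinj : ∀ i j : ℤ, 0 ≤ i → i < n → 0 ≤ j → j < n → w i = w j → i = j) {i j : ℤ}
    (h : w i = w j) : i % n = j % n := by
  have hnz : (0 : ℤ) < n := by exact_mod_cast hn
  rw [← mod_per hn hper i, ← mod_per hn hper j] at h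
  exact hinj _ _ (Int.emod_nonneg _ hnz.ne') (Int.emod_lt_of_pos _ hnz)
    (Int.emod_nonneg _ hnz.ne') (Int.emod_lt_of_pos _ hnz) h

theorem ne_of_lt {X : Type} {n : ℕ} (hn : 0 < n) {w : ℤ → X} (hper : ∀ i, w (i + n) = w i)
    (hinj : ∀ i j : ℤ, 0 ≤ i → i < n → 0 ≤ j → j < n → w i = w j → i = j) {i j : ℤ}
    (h1 : i < j) (h2 : j < i + n) : w i ≠ w j := by
  intro h
  have h3 := eq_mod hn hper hinj h
  have h4 := Int.emod_emod_of_dvd (j - i) (dvd_refl (n : ℤ))
  have h5 : (n : ℤ) ∣ j - i := (Int.ModEq.dvd h3)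
  have := Int.le_of_dvd (by omega) h5
  omega

/-- **the hull is one counterclockwise strictly convex cycle** -/
theorem hull_cycle (hS : GP (S : Set ℂ)) (h3 : 3 ≤ S.card) : ∃ n w, HullCyc S n w := by
  obtain ⟨a0, b0, h0⟩ := exists_hull hS h3
  set O : Finset ℂ := S.filter fun a => ∃ b, hullE S a b with hO
  have hmem : ∀ a b, hullE S a b → a ∈ O := fun a b h =>
    Finset.mem_filter.2 ⟨(hullE.mem h).1, b, h⟩
  set f : ℂ → ℂ := fun a => if h : ∃ b, hullE S a b then h.choose else a with hf
  have hfs : ∀ a ∈ O, hullE S a (f a) := by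
    intro a ha
    have h := (Finset.mem_filter.1 ha).2
    have : f a = h.choose := dif_pos h
    rw [this]
    exact h.choose_spec
  have hfO : ∀ a ∈ O, f a ∈ O := by
    intro a ha
    obtain ⟨c, hc, -⟩ := hull_succ hS (hfs a ha)
    exact hmem _ _ hc
  obtain ⟨n, w, hn, -, hper, hinj, hu, hs⟩ := exists_cycle hfO
    (fun x hx y hy h => by
      have h1 := hfs x hx
      have h2 := hfs y hy
      rw [h] at h1
      exact hull_end_unique hS h1 h2) (hmem _ _ h0)
  have hedge : ∀ i, hullE S (w i) (w (i + 1)) := fun i => by rw [hs]; exact hfs _ (hu i)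
  have hnz : (0 : ℤ) < n := by exact_mod_cast hn
  refine ⟨n, w, hn, hper, hinj, hedge, ?_, ?_⟩
  · intro a b hab
    have hex : ∃ i, w i = a := by
      by_contra hcon
      push Not at hcon
      have haS := (hullE.mem hab).1
      have hpos : ∀ i, 0 < cr (w i - a) (w (i + 1) - a) := by
        intro i
        have := hull_side_lt hS (hedge i) haS (hcon i) (hcon (i + 1))
        rwa [cr_rot'] at this
      set e : ℂ := ⟨(b - a).im, -(b - a).re⟩ with he
      have he0 : e ≠ 0 := by
        intro h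
        have h1 : e.re = 0 := by rw [h]; rfl
        have h2 : e.im = 0 := by rw [h]; rfl
        rw [he] at h1 h2
        dsimp only at h1 h2
        apply hullE.ne hab
        have : b - a = 0 := Complex.ext (by simpa using neg_eq_zero.1 h2) (by simpa using h1)
        exact (sub_eq_zero.1 this).symm
      have hdt : ∀ y : ℂ, dt y e = - cr (b - a) y := by
        intro y
        rw [he]
        unfold dt cr
        ring
      obtain ⟨i, -, g1, g2⟩ := sector (O := Finset.Ico (0 : ℤ) n)
        ⟨0, Finset.mem_Ico.2 ⟨le_rfl, hnz⟩⟩ (f := fun i => w i - a) (nx := fun i => (i + 1) % n)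
        (fun i _ => Finset.mem_Ico.2 ⟨Int.emod_nonneg _ hnz.ne', Int.emod_lt_of_pos _ hnz⟩)
        (fun i _ => by rw [mod_per hn hper]; exact hpos i) he0
      rw [mod_per hn hper] at g2
      have k := cr_dt (w i - a) (w (i + 1) - a) e
      have k0 := dt_pos he0
      have k1 := hull_side hab (w i) (Finset.mem_filter.1 (hu i)).1
      have k2 := hull_side hab (w (i + 1)) (Finset.mem_filter.1 (hu (i + 1))).1
      rw [hdt (w (i + 1) - a), hdt (w i - a), cr_swap' (w (i + 1) - a) e] at k
      have k3 := mul_pos k0 (hpos i)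
      have k4 := mul_nonneg g1 k2
      have k5 := mul_nonneg k1 g2.le
      linarith
    obtain ⟨i, rfl⟩ := hex
    obtain ⟨c, hc, huq⟩ : ∃ c, hullE S (w i) c ∧ ∀ c', hullE S (w i) c' → c' = c := by
      obtain ⟨p, hp⟩ := hull_pred hS hab
      exact hull_succ hS hp
    have h1 := huq _ hab
    have h2 := huq _ (hedge i)
    refine ⟨i % n, Int.emod_nonneg _ hnz.ne', Int.emod_lt_of_pos _ hnz, mod_per hn hper i, ?_⟩
    rw [h1, ← h2, hs, hs, mod_per hn hper]
  · intro i j k hij hjk hk
    have hne : ∀ p q : ℤ, p < q → q < p + n → w p ≠ w q := fun p q => ne_of_lt hn hper hinj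
    have hwS : ∀ p, w p ∈ S := fun p => (Finset.mem_filter.1 (hu p)).1
    have hbase : ∀ q : ℤ, i + 1 < q → q < i + n → 0 < cr (w (i + 1) - w i) (w q - w i) :=
      fun q h1 h2 => hull_side_lt hS (hedge i) (hwS q) (hne i q (by omega) h2)
        (hne (i + 1) q h1 (by omega))
    have hstep : ∀ q : ℤ, i < q → q + 1 < i + n → 0 < cr (w q - w i) (w (q + 1) - w i) := by
      intro q h1 h2
      have := hull_side_lt hS (hedge q) (hwS i) (hne i q h1 (by omega)).symm
        (hne i (q + 1) (by omega) h2).symm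
      rwa [cr_rot'] at this
    have key : ∀ m : ℕ, j + 1 + m < i + n →
        0 < cr (w j - w i) (w (j + 1 + m) - w i) := by
      intro m
      induction m with
      | zero => intro h; simpa using hstep j hij (by simpa using h)
      | succ m ih =>
        intro h
        push_cast at h
        have h1 := ih (by omega)
        have e : j + 1 + ((m + 1 : ℕ) : ℤ) = (j + 1 + m) + 1 := by push_cast; ring
        rw [e]
        have h2 := hstep (j + 1 + m) (by omega) (by omega)
        have h4 := hbase (j + 1 + m) (by omega) (by omega)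
        have h5 := hbase (j + 1 + m + 1) (by omega) (by omega)
        have h6 : 0 ≤ cr (w (i + 1) - w i) (w j - w i) := by
          rcases eq_or_lt_of_le (show i + 1 ≤ j by omega) with h7 | h7
          · rw [← h7]; unfold cr; apply le_of_eq; ring
          · exact (hbase j h7 (by omega)).le
        have pl : ∀ E X Y Z : ℂ, cr E Y * cr X Z = cr E X * cr Y Z + cr E Z * cr X Y := by
          intro E X Y Z
          unfold cr; ring
        have h8 := pl (w (i + 1) - w i) (w j - w i) (w (j + 1 + m) - w i)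
          (w (j + 1 + m + 1) - w i)
        have h9 := mul_nonneg h6 h2.le
        have h10 := mul_pos h5 h1
        by_contra hcon
        push Not at hcon
        have := mul_nonpos_of_nonneg_of_nonpos h4.le hcon
        linarith
    obtain ⟨m, hm⟩ := Int.eq_ofNat_of_zero_le (show 0 ≤ k - (j + 1) by omega)
    have e : k = j + 1 + m := by omega
    rw [e]
    exact key m (by omega)

/-! ### Voronoi edges -/

theorem mem_vedge {a b z : ℂ} (ha : a ∈ S) :
    z ∈ vedge (S : Set ℂ) a b ↔ pw z a b = 0 ∧ ∀ s ∈ S, 0 ≤ pw z a s := by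
  unfold vedge
  rw [Set.mem_ofPred_eq]
  constructor
  · rintro ⟨h1, h2⟩
    refine ⟨norm_eq_iff.1 ?_, fun s hs => norm_le_iff.1 ?_⟩
    · rw [norm_sub_rev b z, norm_sub_rev a z]; exact h1.symm
    · rw [norm_sub_rev a z, norm_sub_rev s z]; exact h2 s hs
  · rintro ⟨h1, h2⟩
    refine ⟨?_, fun s hs => ?_⟩
    · rw [norm_sub_rev z a, norm_sub_rev z b]; exact (norm_eq_iff.2 h1).symm
    · rw [norm_sub_rev z a, norm_sub_rev z s]; exact norm_le_iff.2 (h2 s hs)

/-- points of the bisector -/
theorem bisector {a b o z : ℂ} (hab : a ≠ b) (h : pw o a b = 0) (hz : pw z a b = 0) :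
    ∃ t : ℝ, z = o + t * (Complex.I * (b - a)) := by
  have hn := nsq_pos hab
  refine ⟨((b.re - a.re) * (z.im - o.im) - (b.im - a.im) * (z.re - o.re)) /
    ((b.re - a.re) ^ 2 + (b.im - a.im) ^ 2), ?_⟩
  unfold pw at h hz
  have hk : (b.re - a.re) * (z.re - o.re) + (b.im - a.im) * (z.im - o.im) = 0 := by
    linear_combination (1/2) * (h - hz)
  apply Complex.ext
  · simp only [Complex.add_re, Complex.mul_re, Complex.ofReal_re, Complex.ofReal_im,
      Complex.I_re, Complex.I_im, Complex.sub_re, Complex.sub_im, Complex.mul_im]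
    field_simp
    linear_combination (b.re - a.re) * hk
  · simp only [Complex.add_im, Complex.mul_re, Complex.ofReal_re, Complex.ofReal_im,
      Complex.I_re, Complex.I_im, Complex.sub_re, Complex.sub_im, Complex.mul_im]
    field_simp
    linear_combination (b.im - a.im) * hk

/-- **Voronoi edge between two triangles** -/
theorem vedge_inner {a b c o e o' : ℂ} (h : Tri S a b c o) (h' : Tri S b a e o') :
    vedge (S : Set ℂ) a b = segment ℝ o' o := by
  have hb' : pw o' a b = 0 := by rw [pw_base h'.pb]; exact pw_self _ _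
  obtain ⟨t', rfl⟩ := bisector h.ne.1 h.pb hb'
  have hemp' : ∀ s ∈ S, 0 ≤ pw (o + t' * (Complex.I * (b - a))) a s := fun s hs => by
    rw [pw_base h'.pb]; exact h'.emp s hs
  have he' : pw (o + t' * (Complex.I * (b - a))) a e = 0 := by
    rw [pw_base h'.pb]; exact h'.pc
  rw [pw_move] at he'
  have hce : cr (b - a) (e - a) < 0 := by
    have := h'.pos
    rw [cr_swap] at this
    linarith
  have ht' : t' ≤ 0 := by
    have := hemp' c h.mc
    rw [pw_move, h.pc] at this
    by_contra hcon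
    push Not at hcon
    have := mul_pos hcon h.pos
    linarith
  ext z
  rw [mem_vedge h.ma, segment_eq_image]
  constructor
  · rintro ⟨hz1, hz2⟩
    obtain ⟨t, rfl⟩ := bisector h.ne.1 h.pb hz1
    have h1 := hz2 c h.mc
    have h2 := hz2 e h'.mc
    rw [pw_move, h.pc] at h1
    rw [pw_move] at h2
    have ht : t ≤ 0 := by
      by_contra hcon
      push Not at hcon
      have := mul_pos hcon h.pos
      linarith
    have htt : t' ≤ t := by
      by_contra hcon
      push Not at hcon
      have := mul_neg_of_pos_of_neg (sub_pos.2 hcon) hce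
      nlinarith
    rcases eq_or_lt_of_le ht' with h0 | h0
    · have : t = 0 := by linarith
      refine ⟨0, ⟨le_rfl, zero_le_one⟩, ?_⟩
      rw [this, h0]
      simp
    · refine ⟨1 - t / t', ⟨?_, ?_⟩, ?_⟩
      · rw [sub_nonneg, div_le_one_of_neg h0]; exact htt
      · have : 0 ≤ t / t' := div_nonneg_of_nonpos ht ht'
        linarith
      · simp only [Complex.real_smul, Complex.ofReal_sub, Complex.ofReal_one, Complex.ofReal_div]
        have h5 : (t' : ℂ) ≠ 0 := by exact_mod_cast h0.ne
        field_simp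
        ring
  · rintro ⟨s, ⟨hs0, hs1⟩, rfl⟩
    have e1 : ((1 - s) • (o + (t' : ℂ) * (Complex.I * (b - a))) + s • o : ℂ) =
        o + (((1 - s) * t' : ℝ) : ℂ) * (Complex.I * (b - a)) := by
      simp only [Complex.real_smul]
      push_cast
      ring
    dsimp only
    rw [e1]
    refine ⟨by rw [pw_move, h.pb, cr_right]; ring, fun x hx => ?_⟩
    rw [pw_move]
    have k1 := h.emp x hx
    have k2 := hemp' x hx
    rw [pw_move] at k2
    nlinarith [mul_nonneg hs0 k1, mul_nonneg (sub_nonneg.2 hs1) k2]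

/-- **Voronoi edge at the hull** : a half line -/
theorem vedge_hull {a b c o : ℂ} (h : Tri S a b c o) (hh : hullE S a b) :
    vedge (S : Set ℂ) a b = {z | ∃ t : ℝ, 0 ≤ t ∧ z = o - t * (Complex.I * (b - a))} := by
  ext z
  rw [mem_vedge h.ma, Set.mem_ofPred_eq]
  constructor
  · rintro ⟨hz1, hz2⟩
    obtain ⟨t, rfl⟩ := bisector h.ne.1 h.pb hz1
    have h1 := hz2 c h.mc
    rw [pw_move, h.pc] at h1
    refine ⟨-t, ?_, by push_cast; ring⟩
    by_contra hcon
    push Not at hcon
    have := mul_pos (neg_lt_zero.1 hcon) h.pos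
    linarith
  · rintro ⟨t, ht, rfl⟩
    have e1 : o - (t : ℂ) * (Complex.I * (b - a)) =
        o + ((-t : ℝ) : ℂ) * (Complex.I * (b - a)) := by push_cast; ring
    rw [e1]
    refine ⟨by rw [pw_move, h.pb, cr_right]; ring, fun x hx => ?_⟩
    rw [pw_move]
    have k1 := h.emp x hx
    have k2 := mul_nonneg ht (hull_side hh x hx)
    linarith

/-- **a nonempty Voronoi edge is dual to a Delaunay edge** -/
theorem vedge_del (hS : GP (S : Set ℂ)) (h3 : 3 ≤ S.card) {a b z : ℂ} (ha : a ∈ S) (hb : b ∈ S)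
    (hab : a ≠ b) (hz : z ∈ vedge (S : Set ℂ) a b) :
    (∃ c, (a, b, c) ∈ delT S) ∨ ∃ c, (b, a, c) ∈ delT S := by
  obtain ⟨h1, h2⟩ := (mem_vedge ha).1 hz
  obtain ⟨s, hs, hsa, hsb⟩ : ∃ s ∈ S, s ≠ a ∧ s ≠ b := by
    by_contra hcon
    push Not at hcon
    have hsub : S ⊆ {a, b} := by
      intro s hs
      rw [Finset.mem_insert, Finset.mem_singleton]
      by_cases h : s = a
      · exact Or.inl h
      · exact Or.inr (hcon s hs h)
    have := (Finset.card_le_card hsub).trans Finset.card_le_two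
    omega
  have hl := hS.line a ha b hb s hs hab hsb.symm hsa.symm
  rcases lt_or_gt_of_ne hl with h | h
  · obtain ⟨c, o, t, -, -, h'⟩ := exists_left (a := b) (b := a) hb ha
      (by rw [pw_base h1]; exact pw_self _ _)
      (fun s hs => by rw [pw_base h1]; exact h2 s hs) ⟨s, hs, by rw [cr_swap]; linarith⟩
    exact Or.inr ⟨c, mem_delT_iff.2 ⟨o, h'⟩⟩
  · obtain ⟨c, o, t, -, -, h'⟩ := exists_left ha hb h1 h2 ⟨s, hs, h⟩
    exact Or.inl ⟨c, mem_delT_iff.2 ⟨o, h'⟩⟩

end Crest.Agent.R143.DelRx806
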