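import Crest.Agent.R143.DelR_806

/-!
# Row 143, block J/P: the Delaunay complex is simply connected (helper54)

* `Adj S a b` : Delaunay edge
* `exact`  : every closed antisymmetric edge function (values in any commutative group) on `delT S`
  is the difference of a function of the sites
* `const`  : a function of the sites which is constant along the Delaunay edges is constant
-/

set_option autoImplicit false

noncomputable section

open scoped Classical

namespace Crest.Agent.R143.JColx54

open Crest.Agent.R143.B0x346 Crest.Agent.R143.DelGx806 Crest.Agent.R143.DelRx806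
  Crest.Agent.R143.B0Dx346

variable {S : Finset ℂ}

/-- Delaunay edge (undirected) -/
def Adj (S : Finset ℂ) (a b : ℂ) : Prop := (∃ c, (a, b, c) ∈ delT S) ∨ ∃ c, (b, a, c) ∈ delT S

theorem Adj.symm {a b : ℂ} (h : Adj S a b) : Adj S b a := Or.symm h

theorem Adj.mem {a b : ℂ} (h : Adj S a b) : a ∈ S ∧ b ∈ S := by
  rcases h with ⟨c, h⟩ | ⟨c, h⟩
  · exact ⟨(mem_delT.1 h).1, (mem_delT.1 h).2.1⟩
  · exact ⟨(mem_delT.1 h).2.1, (mem_delT.1 h).1⟩

theorem Adj.ne {a b : ℂ} (h : Adj S a b) : a ≠ b := by
  rcases h with ⟨c, h⟩ | ⟨c, h⟩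
  · obtain ⟨o, h⟩ := mem_delT_iff.1 h
    exact h.ne.1
  · obtain ⟨o, h⟩ := mem_delT_iff.1 h
    exact h.ne.1.symm

theorem adj_tri {a b c : ℂ} (h : (a, b, c) ∈ delT S) : Adj S a b := Or.inl ⟨c, h⟩

theorem delT_rot (hS : GP (S : Set ℂ)) {a b c : ℂ} (h : (a, b, c) ∈ delT S) :
    (b, c, a) ∈ delT S := (g1 S hS).1 _ _ _ h

theorem adj_tri' (hS : GP (S : Set ℂ)) {a b c : ℂ} (h : (a, b, c) ∈ delT S) : Adj S b c :=
  adj_tri (delT_rot hS h)

theorem adj_tri'' (hS : GP (S : Set ℂ)) {a b c : ℂ} (h : (a, b, c) ∈ delT S) : Adj S c a :=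
  adj_tri (delT_rot hS (delT_rot hS h))

theorem dt_sub_left (u v e : ℂ) : dt (u - v) e = dt u e - dt v e := by
  unfold dt; simp only [Complex.sub_re, Complex.sub_im]; ring

/-! ### lower neighbours -/

/-- every site which is not extreme in the direction `e` has a neighbour further in the
direction `e` -/
theorem lower_nb (hS : GP (S : Set ℂ)) (h3 : 3 ≤ S.card) {v e : ℂ} (hv : v ∈ S)
    (hs : ∃ s ∈ S, 0 < dt (s - v) e) : ∃ u, Adj S v u ∧ 0 < dt (u - v) e := by
  have hne : (S.filter fun s => 0 < dt (s - v) e).Nonempty := by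
    obtain ⟨s, hs, h⟩ := hs
    exact ⟨s, Finset.mem_filter.2 ⟨hs, h⟩⟩
  obtain ⟨u, hu, hmin⟩ := Finset.exists_min_image _
    (fun s => dt (s - v) (s - v) / dt (s - v) e) hne
  rw [Finset.mem_filter] at hu
  obtain ⟨huS, hu⟩ := hu
  have huv : v ≠ u := by
    rintro rfl
    unfold dt at hu
    simp at hu
  set t : ℝ := dt (u - v) (u - v) / dt (u - v) e / 2 with ht
  have ht0 : 0 ≤ t := by
    have : 0 ≤ dt (u - v) (u - v) := by
      unfold dt; nlinarith [sq_nonneg (u - v).re, sq_nonneg (u - v).im]
    positivity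
  have hpw : ∀ s : ℂ, pw (v + t * e) v s = dt (s - v) (s - v) - 2 * t * dt (s - v) e := by
    intro s
    unfold pw dt
    simp only [Complex.add_re, Complex.mul_re, Complex.ofReal_re, Complex.ofReal_im,
      Complex.add_im, Complex.mul_im, Complex.sub_re, Complex.sub_im]
    ring
  have h2t : 2 * t = dt (u - v) (u - v) / dt (u - v) e := by rw [ht]; ring
  have hz : (v + t * e) ∈ vedge (S : Set ℂ) v u := by
    rw [mem_vedge hv]
    refine ⟨?_, fun s hs => ?_⟩
    · rw [hpw, h2t]
      field_simp
      ring
    · rw [hpw]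
      rcases le_or_gt (dt (s - v) e) 0 with h0 | h0
      · have h1 : 0 ≤ dt (s - v) (s - v) := by
          unfold dt; nlinarith [sq_nonneg (s - v).re, sq_nonneg (s - v).im]
        have h2 : 2 * t * dt (s - v) e ≤ 0 := mul_nonpos_of_nonneg_of_nonpos (by linarith) h0
        linarith
      · have h1 := hmin s (Finset.mem_filter.2 ⟨hs, h0⟩)
        rw [← h2t, le_div_iff₀ h0] at h1
        linarith
  exact ⟨u, vedge_del hS h3 hv huS huv hz, hu⟩

/-- three vectors of the plane -/
theorem cr3 (u c s e : ℂ) : cr u s * dt c e = cr u c * dt s e + cr c s * dt u e := by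
  unfold cr dt; ring

/-- the neighbours of `v` in the open half plane `e` are connected by triangles at `v` -/
theorem lower_chain (hS : GP (S : Set ℂ)) {v e : ℂ} (hv : v ∈ S) :
    ∀ (n : ℕ) (u u' : ℂ), (S.filter fun s => 0 < dt (s - v) e ∧ 0 ≤ cr (u - v) (s - v)).card ≤ n →
    Adj S v u → Adj S v u' → 0 < dt (u - v) e → 0 < dt (u' - v) e → 0 ≤ cr (u - v) (u' - v) →
    Relation.ReflTransGen (fun x y => (v, x, y) ∈ delT S ∧ 0 < dt (x - v) e ∧ 0 < dt (y - v) e)
      u u' := by
  intro n
  induction n with
  | zero =>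
    intro u u' hn hu hu' he he' hc
    exfalso
    have : u ∈ S.filter fun s => 0 < dt (s - v) e ∧ 0 ≤ cr (u - v) (s - v) := by
      rw [Finset.mem_filter]
      refine ⟨hu.mem.2, he, ?_⟩
      unfold cr; nlinarith
    rw [Nat.le_zero, Finset.card_eq_zero] at hn
    rw [hn] at this
    exact absurd this (Finset.notMem_empty _)
  | succ n ih =>
    intro u u' hn hu hu' he he' hc
    by_cases huu : u = u'
    · rw [huu]
    have hne : cr (u - v) (u' - v) ≠ 0 :=
      hS.line v hv u hu.mem.2 u' hu'.mem.2 hu.ne huu hu'.ne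
    have hc : 0 < cr (u - v) (u' - v) := lt_of_le_of_ne hc hne.symm
    -- the next triangle
    obtain ⟨c, hc1⟩ : ∃ c, (v, u, c) ∈ delT S := by
      rcases hu with h | ⟨c', h⟩
      · exact h
      · obtain ⟨o, h⟩ := mem_delT_iff.1 h
        obtain ⟨c, o', h'⟩ := h.across ⟨u', hu'.mem.2, by
          rw [cr_swap]; linarith⟩
        exact ⟨c, mem_delT_iff.2 ⟨o', h'⟩⟩
    have hpos : 0 < cr (u - v) (c - v) := (mem_delT.1 hc1).2.2.2.1
    have hcv : Adj S v c := (adj_tri'' hS hc1).symm
    -- `c` is not beyond `u'`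
    have hcu' : 0 ≤ cr (c - v) (u' - v) := by
      by_contra hcon
      push Not at hcon
      have hcon : 0 < cr (u' - v) (c - v) := by rw [cr_swap']; linarith
      have hself : cr (u' - v) (u' - v) = 0 := by unfold cr; ring
      rcases hu' with ⟨b', h'⟩ | ⟨b', h'⟩
      · have := sector_unique hS hc1 h' hc hcon hself.ge (mem_delT.1 h').2.2.2.1.le
        exact huu this.1
      · have h2 := delT_rot hS h'
        have := sector_unique hS hc1 h2 hc hcon (mem_delT.1 h2).2.2.2.1.le hself.ge
        rw [this.2] at hcon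
        linarith
    -- `c` is in the half plane
    have hce : 0 < dt (c - v) e := by
      have h1 := cr3 (u - v) (c - v) (u' - v) e
      have h2 : 0 < cr (u - v) (c - v) * dt (u' - v) e := mul_pos hpos he'
      have h3 : 0 ≤ cr (c - v) (u' - v) * dt (u - v) e := mul_nonneg hcu' he.le
      by_contra hcon
      push Not at hcon
      have := mul_nonpos_of_nonneg_of_nonpos hc.le hcon
      linarith
    refine Relation.ReflTransGen.head ⟨hc1, he, hce⟩ (ih c u' ?_ hcv hu' hce he' hcu')
    have hlt : (S.filter fun s => 0 < dt (s - v) e ∧ 0 ≤ cr (c - v) (s - v)) ⊂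
        S.filter fun s => 0 < dt (s - v) e ∧ 0 ≤ cr (u - v) (s - v) := by
      rw [Finset.ssubset_iff_of_subset]
      · refine ⟨u, ?_, ?_⟩
        · rw [Finset.mem_filter]
          exact ⟨hu.mem.2, he, by unfold cr; nlinarith⟩
        · rw [Finset.mem_filter]
          rintro ⟨-, -, h⟩
          rw [cr_swap'] at h
          linarith
      · intro s hs
        rw [Finset.mem_filter] at hs ⊢
        refine ⟨hs.1, hs.2.1, ?_⟩
        have h1 := cr3 (u - v) (c - v) (s - v) e
        have h2 : 0 ≤ cr (u - v) (c - v) * dt (s - v) e := mul_nonneg hpos.le hs.2.1.le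
        have h3 : 0 ≤ cr (c - v) (s - v) * dt (u - v) e := mul_nonneg hs.2.2 he.le
        by_contra hcon
        push Not at hcon
        have := mul_neg_of_neg_of_pos hcon hce
        linarith
    have := Finset.card_lt_card hlt
    omega

/-- symmetric version -/
theorem lower_conn (hS : GP (S : Set ℂ)) {v e : ℂ} (hv : v ∈ S) {u u' : ℂ} (hu : Adj S v u)
    (hu' : Adj S v u') (he : 0 < dt (u - v) e) (he' : 0 < dt (u' - v) e) :
    Relation.EqvGen (fun x y => (v, x, y) ∈ delT S ∧ 0 < dt (x - v) e ∧ 0 < dt (y - v) e)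
      u u' := by
  have key : ∀ x y : ℂ, Relation.ReflTransGen
      (fun x y => (v, x, y) ∈ delT S ∧ 0 < dt (x - v) e ∧ 0 < dt (y - v) e) x y →
      Relation.EqvGen (fun x y => (v, x, y) ∈ delT S ∧ 0 < dt (x - v) e ∧ 0 < dt (y - v) e) x y := by
    intro x y h
    induction h with
    | refl => exact Relation.EqvGen.refl _
    | tail _ h ih => exact Relation.EqvGen.trans _ _ _ ih (Relation.EqvGen.rel _ _ h)
  rcases le_total 0 (cr (u - v) (u' - v)) with h | h
  · exact key _ _ (lower_chain hS hv _ u u' le_rfl hu hu' he he' h)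
  · refine Relation.EqvGen.symm _ _ (key _ _ (lower_chain hS hv _ u' u le_rfl hu' hu he' he ?_))
    rw [cr_swap']; linarith

/-! ### a generic direction -/

theorem exists_dir (S : Finset ℂ) : ∃ e : ℂ, ∀ a ∈ S, ∀ b ∈ S, dt a e = dt b e → a = b := by
  set B : Finset ℝ := (S ×ˢ S).image fun p => (p.2.re - p.1.re) / (p.1.im - p.2.im) with hB
  obtain ⟨y, hy⟩ := Set.Infinite.exists_notMem_finset (s := (Set.univ : Set ℝ)) Set.infinite_univ B
  refine ⟨⟨1, y⟩, fun a ha b hb h => ?_⟩
  unfold dt at h
  simp only [mul_one] at h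
  by_cases him : a.im = b.im
  · rw [him] at h
    exact Complex.ext (by linarith) him
  · exfalso
    apply hy.2
    rw [hB, Finset.mem_image]
    refine ⟨(a, b), Finset.mem_product.2 ⟨ha, hb⟩, ?_⟩
    have h0 : a.im - b.im ≠ 0 := sub_ne_zero.2 him
    rw [div_eq_iff h0]
    linarith

/-! ### exactness -/

/-- **simple connectivity** of the Delaunay complex -/
theorem exact (hS : GP (S : Set ℂ)) {A : Type} [AddCommGroup A] {f : ℂ → ℂ → A}
    (anti : ∀ a b, Adj S a b → f b a = - f a b)
    (closed : ∀ a b c, (a, b, c) ∈ delT S → f a b + f b c + f c a = 0) :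
    ∃ σ : ℂ → A, ∀ a b, Adj S a b → f a b = σ b - σ a := by
  obtain ⟨e, he⟩ := exists_dir S
  have key : ∀ (n : ℕ) (L : Finset ℂ), L.card = n → L ⊆ S →
      (∀ s ∈ L, ∀ s' ∈ S, dt s e < dt s' e → s' ∈ L) →
      ∃ σ : ℂ → A, ∀ a b, a ∈ L → b ∈ L → Adj S a b → f a b = σ b - σ a := by
    intro n
    induction n with
    | zero =>
      intro L hL _ _
      rw [Finset.card_eq_zero] at hL
      exact ⟨fun _ => 0, fun a b ha => by rw [hL] at ha; exact absurd ha (Finset.notMem_empty _)⟩
    | succ n ih =>
      intro L hL hLS hup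
      have hne : L.Nonempty := by
        rw [← Finset.card_pos]; omega
      obtain ⟨v, hv, hmin⟩ := Finset.exists_min_image L (fun s => dt s e) hne
      have hlow : ∀ a ∈ L, a ≠ v → 0 < dt (a - v) e := by
        intro a ha hav
        rw [dt_sub_left]
        have h1 := hmin a ha
        have h2 : dt v e ≠ dt a e := fun h => hav (he v (hLS hv) a (hLS ha) h).symm
        have h3 := lt_of_le_of_ne h1 h2
        linarith
      obtain ⟨σ, hσ⟩ := ih (L.erase v) (by rw [Finset.card_erase_of_mem hv]; omega)
        ((Finset.erase_subset _ _).trans hLS) (by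
          intro s hs s' hs' h
          rw [Finset.mem_erase] at hs ⊢
          refine ⟨?_, hup s hs.2 s' hs' h⟩
          rintro rfl
          have := hmin s hs.2
          linarith)
      have hmem : ∀ x ∈ S, 0 < dt (x - v) e → x ∈ L.erase v := by
        intro x hx h
        rw [Finset.mem_erase]
        rw [dt_sub_left] at h
        refine ⟨?_, hup v hv x hx (by linarith)⟩
        rintro rfl
        simp at h
      have heq : ∀ u u', Adj S v u → Adj S v u' → 0 < dt (u - v) e → 0 < dt (u' - v) e →
          σ u + f u v = σ u' + f u' v := by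
        intro u u' hu hu' h h'
        have hc := lower_conn hS (hLS hv) hu hu' h h'
        clear hu hu' h h'
        induction hc with
        | rel x y hxy =>
          obtain ⟨ht, hx, hy⟩ := hxy
          have a1 := adj_tri ht
          have a2 := adj_tri' hS ht
          have a3 := adj_tri'' hS ht
          have h1 := closed _ _ _ ht
          have h2 := hσ x y (hmem x a1.mem.2 hx) (hmem y a3.mem.1 hy) a2
          have h4 := anti _ _ a1
          rw [h2] at h1
          rw [h4]
          have h5 : f y v = -(f v x + (σ y - σ x)) := eq_neg_of_add_eq_zero_right h1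
          rw [h5]
          abel
        | refl x => rfl
        | symm x y _ ih => exact ih.symm
        | trans x y z _ _ ih1 ih2 => exact ih1.trans ih2
      set w : A := if h : ∃ u, Adj S v u ∧ 0 < dt (u - v) e then σ h.choose + f h.choose v else 0
        with hw
      have hwu : ∀ u, Adj S v u → 0 < dt (u - v) e → w = σ u + f u v := by
        intro u hu h
        have hex : ∃ u, Adj S v u ∧ 0 < dt (u - v) e := ⟨u, hu, h⟩
        rw [hw, dif_pos hex]
        exact heq _ _ hex.choose_spec.1 hu hex.choose_spec.2 h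
      refine ⟨Function.update σ v w, fun a b ha hb hab => ?_⟩
      by_cases hav : a = v
      · subst hav
        have hbv : b ≠ a := hab.ne.symm
        rw [Function.update_self, Function.update_of_ne hbv, hwu b hab (hlow b hb hbv),
          anti _ _ hab]
        abel
      · by_cases hbv : b = v
        · subst hbv
          rw [Function.update_self, Function.update_of_ne hav,
            hwu a hab.symm (hlow a ha hav)]
          abel
        · rw [Function.update_of_ne hav, Function.update_of_ne hbv]
          exact hσ a b (Finset.mem_erase.2 ⟨hav, ha⟩) (Finset.mem_erase.2 ⟨hbv, hb⟩) hab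
  obtain ⟨σ, hσ⟩ := key S.card S rfl subset_rfl (fun s _ s' hs' _ => hs')
  exact ⟨σ, fun a b hab => hσ a b hab.mem.1 hab.mem.2 hab⟩

/-- the Delaunay graph is connected -/
theorem const (hS : GP (S : Set ℂ)) (h3 : 3 ≤ S.card) {B : Type} {σ : ℂ → B}
    (h : ∀ a b, Adj S a b → σ a = σ b) : ∀ a ∈ S, ∀ b ∈ S, σ a = σ b := by
  obtain ⟨e, he⟩ := exists_dir S
  have hne : S.Nonempty := by rw [← Finset.card_pos]; omega
  obtain ⟨m, hm, hmax⟩ := Finset.exists_max_image S (fun s => dt s e) hne
  have key : ∀ (n : ℕ) (a : ℂ), a ∈ S → (S.filter fun s => dt a e < dt s e).card ≤ n →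
      σ a = σ m := by
    intro n
    induction n with
    | zero =>
      intro a ha hn
      have h1 := hmax a ha
      rcases eq_or_lt_of_le h1 with h2 | h2
      · rw [he a ha m hm h2]
      · exfalso
        rw [Nat.le_zero, Finset.card_eq_zero] at hn
        have : m ∈ S.filter fun s => dt a e < dt s e := Finset.mem_filter.2 ⟨hm, h2⟩
        rw [hn] at this
        exact absurd this (Finset.notMem_empty _)
    | succ n ih =>
      intro a ha hn
      have h1 := hmax a ha
      rcases eq_or_lt_of_le h1 with h2 | h2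
      · rw [he a ha m hm h2]
      · obtain ⟨u, hu, hue⟩ := lower_nb hS h3 (e := e) ha ⟨m, hm, by
          rw [dt_sub_left]; linarith⟩
        rw [dt_sub_left] at hue
        rw [h a u hu]
        apply ih u hu.mem.2
        have hlt : (S.filter fun s => dt u e < dt s e) ⊂ S.filter fun s => dt a e < dt s e := by
          rw [Finset.ssubset_iff_of_subset]
          · refine ⟨u, Finset.mem_filter.2 ⟨hu.mem.2, by linarith⟩, ?_⟩
            rw [Finset.mem_filter]
            rintro ⟨-, h⟩
            exact lt_irrefl _ h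
          · intro s hs
            rw [Finset.mem_filter] at hs ⊢
            exact ⟨hs.1, by linarith⟩
        have := Finset.card_lt_card hlt
        omega
  intro a ha b hb
  rw [key _ a ha le_rfl, key _ b hb le_rfl]

end Crest.Agent.R143.JColx54
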