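import Crest.Agent.R143.JWalk_872

/-!
# Row 143, block J: leaves J1 and J2 (modulo the planarity statement P1)

`main` : at a live side `(a, b)` of the triangle `t` the observable is `h t + Q t`; `h` does not
depend on the rotation of `t`, and `Q (b, c, a) = om * Q (a, b, c)`.

WARNING. `J1` and `J2` of `B0_346` are false for degenerate networks: a side of `t` is a mark and
there is no join at all with the odd triangle `t` (killed edges separate the marks). Corrected
versions `j1`, `j2` below with the hypothesis `(N.tj t).Nonempty` (or: no side of `t` is a mark).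
-/

set_option autoImplicit false

noncomputable section

open scoped Classical

namespace Crest.Agent.R143.J1x872

open Crest.Agent.R143.B0x346 Crest.Agent.R143.JCardx872 Crest.Agent.R143.JWalkx872

variable {V : Type}

theorem forall_z3 {P : ZMod 3 → Prop} : (∀ i, P i) ↔ P 0 ∧ P 1 ∧ P 2 := by
  constructor
  · intro h
    exact ⟨h 0, h 1, h 2⟩
  · rintro ⟨h0, h1, h2⟩ i
    fin_cases i
    · exact h0
    · exact h1
    · exact h2

theorem exists_z3 {P : ZMod 3 → Prop} : (∃ i, P i) ↔ P 0 ∨ P 1 ∨ P 2 := by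
  constructor
  · rintro ⟨i, hi⟩
    fin_cases i
    · exact Or.inl hi
    · exact Or.inr (Or.inl hi)
    · exact Or.inr (Or.inr hi)
  · rintro (h | h | h)
    exacts [⟨0, h⟩, ⟨1, h⟩, ⟨2, h⟩]

theorem cases_z3 (i : ZMod 3) : i = 0 ∨ i = 1 ∨ i = 2 := by
  fin_cases i
  · exact Or.inl rfl
  · exact Or.inr (Or.inl rfl)
  · exact Or.inr (Or.inr rfl)

theorem third (i j : ZMod 3) : ∃ l : ZMod 3, l ≠ i ∧ l ≠ j := by revert i j; decide

theorem third_cases (i j l m : ZMod 3) : j ≠ i → l ≠ i → l ≠ j → m = i ∨ m = j ∨ m = l := by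
  revert i j l m; decide

theorem third_two (i j l m : ZMod 3) : j ≠ i → l ≠ i → l ≠ j → m ≠ l → m = i ∨ m = j := by
  revert i j l m; decide

/-- directed sides of `t` (the triangle `t` is on their left) -/
def sd (t : V × V × V) (i : ZMod 3) : V × V :=
  if i = 0 then (t.1, t.2.1) else if i = 1 then (t.2.1, t.2.2) else (t.2.2, t.1)

theorem sd0 (t : V × V × V) : sd t 0 = (t.1, t.2.1) := by simp [sd]
theorem sd1 (t : V × V × V) : sd t 1 = (t.2.1, t.2.2) := by
  have : (1 : ZMod 3) ≠ 0 := by decide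
  simp [sd, this]
theorem sd2 (t : V × V × V) : sd t 2 = (t.2.2, t.1) := by
  have h1 : (2 : ZMod 3) ≠ 0 := by decide
  have h2 : (2 : ZMod 3) ≠ 1 := by decide
  simp [sd, h1, h2]

/-- the reversed edge -/
def sw (p : V × V) : V × V := (p.2, p.1)

theorem sw_sw (p : V × V) : sw (sw p) = p := rfl

/-- general position of the marks: distinct, on the boundary, live -/
structure Good (N : Net V) : Prop where
  inj : Function.Injective N.ex
  bd : ∀ k c, ((N.ex k).2, (N.ex k).1, c) ∉ N.T
  live : ∀ k, N.ex k ∉ N.kl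

section tri

variable {N : Net V} {t : V × V × V} {J : Finset (V × V)}

theorem sd_tri (ht : t ∈ N.T) (i : ZMod 3) :
    ∃ z, ((sd t i).1, (sd t i).2, z) ∈ N.T ∧ ((sd t i).1, (sd t i).2, z) ∈ rots t := by
  obtain ⟨a, b, c⟩ := t
  revert i
  rw [forall_z3, sd0, sd1, sd2]
  refine ⟨⟨c, ht, ?_⟩, ⟨a, N.rot ht, ?_⟩, ⟨b, N.rot (N.rot ht), ?_⟩⟩ <;> simp [rots]

theorem of_rots {x y z : V} (h : (x, y, z) ∈ rots t) : ∃ i, (x, y) = sd t i := by
  obtain ⟨a, b, c⟩ := t
  rw [exists_z3, sd0, sd1, sd2]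
  unfold rots at h
  simp only [Set.mem_insert_iff, Set.mem_singleton_iff, Prod.mk.injEq] at h ⊢
  tauto

theorem sd_inj (ht : t ∈ N.T) {i j : ZMod 3} (h : sd t i = sd t j) : i = j := by
  obtain ⟨a, b, c⟩ := t
  have h1 := N.ne ht
  have h2 := N.ne (N.rot ht)
  have h3 := N.ne (N.rot (N.rot ht))
  rcases cases_z3 i with rfl | rfl | rfl <;> rcases cases_z3 j with rfl | rfl | rfl <;>
    first
    | rfl
    | (exfalso
       simp only [sd0, sd1, sd2, Prod.mk.injEq] at h
       first
       | exact h1 h.1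
       | exact h2 h.1
       | exact h3 h.1
       | exact h1 h.1.symm
       | exact h2 h.1.symm
       | exact h3 h.1.symm)

theorem sd_ne_sw (ht : t ∈ N.T) (i j : ZMod 3) : sd t i ≠ sw (sd t j) := by
  obtain ⟨a, b, c⟩ := t
  have h1 := N.ne ht
  have h2 := N.ne (N.rot ht)
  have h3 := N.ne (N.rot (N.rot ht))
  intro h
  rcases cases_z3 i with rfl | rfl | rfl <;> rcases cases_z3 j with rfl | rfl | rfl <;>
    (simp only [sd0, sd1, sd2, sw, Prod.mk.injEq] at h
     first
     | exact h1 h.1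
     | exact h2 h.1
     | exact h3 h.1
     | exact h1 h.1.symm
     | exact h2 h.1.symm
     | exact h3 h.1.symm
     | exact h1 h.2
     | exact h2 h.2
     | exact h3 h.2)

/-- the walker which leaves `t` through the side `i` ends at the mark `k` -/
def En (N : Net V) (t : V × V × V) (J : Finset (V × V)) (i k : ZMod 3) : Prop :=
  Ends N.toTrg (rots t) N.exS J (sw (sd t i)) (N.ex k)

/-- the walker which leaves `t` through the side `i` comes back through the side `j` -/
def Ba (N : Net V) (t : V × V × V) (J : Finset (V × V)) (i j : ZMod 3) : Prop :=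
  Leads N.toTrg (rots t) N.exS J (sw (sd t i)) (sd t j)

theorem sw_sd_notMark (hg : Good N) (ht : t ∈ N.T) (i : ZMod 3) : sw (sd t i) ∉ N.exS := by
  rintro ⟨k, hk⟩
  obtain ⟨z, hz, _⟩ := sd_tri ht i
  apply hg.bd k z
  rw [hk]
  exact hz

theorem term_side (ht : t ∈ N.T) {j : ZMod 3} (hj : sd t j ∈ J) :
    Term N.toTrg (rots t) N.exS J (sd t j) := by
  obtain ⟨z, hz, hz'⟩ := sd_tri ht j
  exact Or.inr ⟨hj, z, hz, hz'⟩

theorem term_mark {O : Set (V × V × V)} {D : Set (V × V)} (k : ZMod 3) (h : N.ex k ∈ D) :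
    Term N.toTrg O D J ((N.ex k).2, (N.ex k).1) := Or.inl h

theorem mem_exS (k : ZMod 3) : N.ex k ∈ N.exS := ⟨k, rfl⟩

/-- the mark is unique -/
theorem ends_unique (hg : Good N) {O : Set (V × V × V)} {D : Set (V × V)}
    (hD : N.exS ⊆ D) {s : V × V} {k k' : ZMod 3}
    (h : Ends N.toTrg O D J s (N.ex k)) (h' : Ends N.toTrg O D J s (N.ex k')) : k = k' := by
  have := term_unique (term_mark k (hD (mem_exS k))) (term_mark k' (hD (mem_exS k'))) h h'
  rw [Prod.mk.injEq] at this
  exact hg.inj (Prod.ext this.2 this.1)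

theorem en_ba (hg : Good N) (ht : t ∈ N.T) {i j k : ZMod 3} (hj : sd t j ∈ J)
    (h : En N t J i k) (h' : Ba N t J i j) : False := by
  have := term_unique (term_mark k (mem_exS k)) (term_side ht hj) h h'
  obtain ⟨z, hz, _⟩ := sd_tri ht j
  rw [← this] at hz
  exact hg.bd k z hz

theorem ba_unique (ht : t ∈ N.T) {i j j' : ZMod 3} (hj : sd t j ∈ J)
    (hj' : sd t j' ∈ J) (h : Ba N t J i j) (h' : Ba N t J i j') : j = j' :=
  sd_inj ht (term_unique (term_side ht hj) (term_side ht hj') h h')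

/-- the outer side of an occupied side which is not a mark is occupied -/
theorem sw_mem (hg : Good N) (ht : t ∈ N.T) (hJ : IsJoin N.toTrg N.kl (rots t) N.exS J)
    {i : ZMod 3} (hi : sd t i ∈ J) (hm : sd t i ∉ N.exS) : sw (sd t i) ∈ J :=
  (hJ.sym _ _ hm (sw_sd_notMark hg ht i)).1 hi

/-- each leg ends at a mark or comes back through another side -/
theorem leg_end (hg : Good N) (ht : t ∈ N.T) (hJ : IsJoin N.toTrg N.kl (rots t) N.exS J)
    {i : ZMod 3} (hi : sd t i ∈ J) :
    (∃ k, En N t J i k) ∨ ∃ j, j ≠ i ∧ sd t j ∈ J ∧ Ba N t J i j := by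
  by_cases hm : sd t i ∈ N.exS
  · obtain ⟨k, hk⟩ := hm
    left
    refine ⟨k, ?_⟩
    unfold En Ends
    rw [hk]
    exact Relation.ReflTransGen.refl
  · have hs := sw_mem hg ht hJ hi hm
    obtain ⟨z, hz, hz'⟩ := sd_tri ht i
    obtain ⟨e, he, hT⟩ := exists_end hJ (rotInv_rots t) hs
      (fun p _ => side_pre (rotInv_rots t) hz hz' p)
    rcases hT with ⟨k, hk⟩ | ⟨heJ, c, hc, hc'⟩
    · left
      refine ⟨k, ?_⟩
      unfold En Ends
      rw [hk]
      exact he
    · right
      obtain ⟨j, hj⟩ := of_rots hc'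
      have hj' : e = sd t j := hj
      subst hj'
      refine ⟨j, ?_, heJ, he⟩
      rintro rfl
      exact not_leads_swap hJ (rotInv_rots t) hs he

theorem ba_start (hg : Good N) (ht : t ∈ N.T) (hJ : IsJoin N.toTrg N.kl (rots t) N.exS J)
    {i j : ZMod 3} (hi : sd t i ∈ J) (h : Ba N t J i j) : sw (sd t i) ∈ J := by
  by_cases hm : sd t i ∈ N.exS
  · exfalso
    rcases Relation.ReflTransGen.cases_head h with h | ⟨q, hq, _⟩
    · exact sd_ne_sw ht j i h.symm
    · exact step_pre hq hm
  · exact sw_mem hg ht hJ hi hm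

theorem ba_symm (hg : Good N) (ht : t ∈ N.T) (hJ : IsJoin N.toTrg N.kl (rots t) N.exS J)
    {i j : ZMod 3} (hi : sd t i ∈ J) (h : Ba N t J i j) : Ba N t J j i :=
  leads_rev hJ (rotInv_rots t) (ba_start hg ht hJ hi h) h

/-- parity at `t` -/
theorem sides_odd (ht : t ∈ N.T) (hJ : IsJoin N.toTrg N.kl (rots t) N.exS J) :
    (∃ i, sd t i ∈ J ∧ ∀ j, sd t j ∈ J → j = i) ∨ ∀ i, sd t i ∈ J := by
  obtain ⟨a, b, c⟩ := t
  have hp := hJ.par a b c ht
  have hO : (a, b, c) ∈ rots (a, b, c) := by simp [rots]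
  rw [if_pos hO] at hp
  rw [exists_z3, forall_z3, forall_z3, forall_z3, forall_z3, sd0, sd1, sd2]
  by_cases h1 : (a, b) ∈ J <;> by_cases h2 : (b, c) ∈ J <;> by_cases h3 : (c, a) ∈ J <;>
    simp [h1, h2, h3] at hp ⊢

/-- the planarity statement P1 at `t`: three legs end in cyclic order -/
def P1 (N : Net V) (t : V × V × V) : Prop := ∀ J : Finset (V × V),
  IsJoin N.toTrg N.kl (rots t) N.exS J → (∀ i, sd t i ∈ J) → ∀ e : ZMod 3 → ZMod 3,
    (∀ i, En N t J i (e i)) → e 1 = e 0 + 1 ∧ e 2 = e 0 + 2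

theorem tri3_iff (k : ZMod 3) :
    N.Tri3 t k J ↔ (∀ i, sd t i ∈ J) ∧ ∀ i, En N t J i (i + k) := by
  unfold Net.Tri3 En sw
  rw [forall_z3, forall_z3, sd0, sd1, sd2]
  tauto

/-- no three legs, and one leg ends at the mark `k` -/
def Rk (N : Net V) (t : V × V × V) (J : Finset (V × V)) (k : ZMod 3) : Prop :=
  (¬ ∃ k', N.Tri3 t k' J) ∧ ∃ i, sd t i ∈ J ∧ En N t J i k

/-- the mark which the leg of the middle of side `0` reaches -/
def qk (N : Net V) (t : V × V × V) (J : Finset (V × V)) (k : ZMod 3) : Prop :=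
  N.Tri3 t k J ∨ Rk N t J k

theorem rk_unique (hg : Good N) (ht : t ∈ N.T) (hJ : IsJoin N.toTrg N.kl (rots t) N.exS J)
    (hP : P1 N t) (hT : ¬ ∃ k', N.Tri3 t k' J) : ∃! k, ∃ i, sd t i ∈ J ∧ En N t J i k := by
  rcases sides_odd ht hJ with ⟨i, hi, hu⟩ | hall
  · rcases leg_end hg ht hJ hi with ⟨k, hk⟩ | ⟨j, hj, hj', _⟩
    · refine ⟨k, ⟨i, hi, hk⟩, ?_⟩
      rintro k' ⟨i', hi', hk'⟩
      have := hu i' hi'
      subst this
      exact ends_unique hg (le_refl _) hk' hk
    · exact absurd (hu j hj') hj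
  · by_cases hE : ∀ i, ∃ k, En N t J i k
    · choose e he using hE
      have := hP J hJ hall e he
      refine absurd ⟨e 0, ?_⟩ hT
      rw [tri3_iff]
      refine ⟨hall, ?_⟩
      rw [forall_z3]
      refine ⟨?_, ?_, ?_⟩
      · rw [zero_add]; exact he 0
      · rw [add_comm, ← this.1]; exact he 1
      · rw [add_comm, ← this.2]; exact he 2
    · push Not at hE
      obtain ⟨i, hi⟩ := hE
      rcases leg_end hg ht hJ (hall i) with ⟨k, hk⟩ | ⟨j, hj, hj', hb⟩
      · exact absurd hk (hi k)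
      · have hb' := ba_symm hg ht hJ (hall i) hb
        obtain ⟨l, hl, hl'⟩ := third i j
        rcases leg_end hg ht hJ (hall l) with ⟨k, hk⟩ | ⟨m, hm, _, hbm⟩
        · refine ⟨k, ⟨l, hall l, hk⟩, ?_⟩
          rintro k' ⟨i', _, hk'⟩
          rcases third_cases i j l i' hj hl hl' with rfl | rfl | rfl
          · exact absurd hk' (hi k')
          · exact (en_ba hg ht (hall i) hk' hb').elim
          · exact ends_unique hg (le_refl _) hk' hk
        · exfalso
          have hbm' := ba_symm hg ht hJ (hall l) hbm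
          rcases third_two i j l m hj hl hl' hm with rfl | rfl
          · exact hl' (ba_unique ht (hall l) (hall j) hbm' hb)
          · exact hl (ba_unique ht (hall l) (hall i) hbm' hb')

theorem tri3_unique (hg : Good N) {k k' : ZMod 3} (h : N.Tri3 t k J) (h' : N.Tri3 t k' J) :
    k = k' := by
  rw [tri3_iff] at h h'
  have := ends_unique hg (le_refl _) (h.2 0) (h'.2 0)
  simpa using this

theorem qk_unique (hg : Good N) (ht : t ∈ N.T) (hJ : IsJoin N.toTrg N.kl (rots t) N.exS J)
    (hP : P1 N t) : ∃! k, qk N t J k := by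
  by_cases hT : ∃ k', N.Tri3 t k' J
  · obtain ⟨k, hk⟩ := hT
    refine ⟨k, Or.inl hk, ?_⟩
    rintro k' (h | h)
    · exact tri3_unique hg h hk
    · exact absurd ⟨k, hk⟩ h.1
  · obtain ⟨k, hk, hu⟩ := rk_unique hg ht hJ hP hT
    refine ⟨k, Or.inr ⟨hT, hk⟩, ?_⟩
    rintro k' (h | h)
    · exact absurd ⟨k', h⟩ hT
    · exact hu k' h.2

/-- changing `J` at a side of `t` and opening `t` does not change a walk outside `t` -/
theorem leads_open (ht : t ∈ N.T) (hJ : IsJoin N.toTrg N.kl (rots t) N.exS J)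
    {J' : Finset (V × V)} {x : V × V}
    (hx : x = sd t 0 ∨ (x = sw (sd t 0)))
    (hxJ : sw x ∉ J ∨ sw x = sd t 0)
    (hJ' : ∀ p, p ≠ sd t 0 → (p ∈ J ↔ p ∈ J'))
    {s e : V × V} (hs : s ∈ J ∨ (s.2, s.1) ∈ N.exS)
    (h : Leads N.toTrg (rots t) N.exS J s e) :
    Leads N.toTrg ∅ (N.exS ∪ {x}) J' s e := by
  rcases hs with hs | hs
  · refine leads_mono hJ ?_ hs h
    intro p q hp hpq
    refine step_change (fun _ _ _ h => h.elim) ?_ ?_ hpq
    · rintro (h' | h')
      · exact step_pre hpq h'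
      · rw [Set.mem_singleton_iff] at h'
        have hpx : p = sw x := by rw [← h']; rfl
        rcases hxJ with hxJ | hxJ
        · exact hxJ (hpx ▸ hp)
        · rw [hxJ] at hpx
          rw [hpx] at hpq hp
          exact term_noStep (term_side ht hp) hpq
    · intro c hc hcO
      constructor
      · refine hJ' _ ?_
        intro e'
        obtain ⟨a, b, d⟩ := t
        rw [sd0] at e'
        exact hcO (mem_rots_of_side ht hc (Or.inr (Or.inl e')))
      · refine hJ' _ ?_
        intro e'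
        obtain ⟨a, b, d⟩ := t
        rw [sd0] at e'
        exact hcO (mem_rots_of_side ht hc (Or.inr (Or.inr e')))
  · rcases Relation.ReflTransGen.cases_head h with h | ⟨q, hq, _⟩
    · rw [h]
      exact Relation.ReflTransGen.refl
    · exact absurd hs (step_pre hq)

theorem sw_occ (hg : Good N) (ht : t ∈ N.T) (hJ : IsJoin N.toTrg N.kl (rots t) N.exS J)
    {i : ZMod 3} (hi : sd t i ∈ J) : sw (sd t i) ∈ J ∨ ((sw (sd t i)).2, (sw (sd t i)).1) ∈ N.exS := by
  by_cases hm : sd t i ∈ N.exS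
  · exact Or.inr hm
  · exact Or.inl (sw_mem hg ht hJ hi hm)

/-- left half leg -/
theorem left_half (hg : Good N) (ht : t ∈ N.T) (hJ : IsJoin N.toTrg N.kl (rots t) N.exS J)
    (hP : P1 N t) (h0 : sd t 0 ∉ J) (k : ZMod 3) :
    qk N t J k ↔ Ends N.toTrg ∅ (N.exS ∪ {sd t 0}) (insert (sd t 0) J) (sd t 0) (N.ex k) := by
  have hm : sd t 0 ∉ N.exS := fun h => h0 (hJ.mark _ _ h).1
  have hm' := sw_sd_notMark hg ht 0
  have h0' : sw (sd t 0) ∉ J := fun h => h0 ((hJ.sym _ _ hm hm').2 h)
  have key : ∀ k, qk N t J k →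
      Ends N.toTrg ∅ (N.exS ∪ {sd t 0}) (insert (sd t 0) J) (sd t 0) (N.ex k) := by
    intro k hk
    have hR : ∃ i, sd t i ∈ J ∧ En N t J i k := by
      rcases hk with h | h
      · exact absurd ((tri3_iff k).1 h).1 (fun h => h0 (h 0))
      · exact h.2
    obtain ⟨i, hi, hk⟩ := hR
    have hi0 : i ≠ 0 := by
      rintro rfl
      exact h0 hi
    have hu : ∀ j, sd t j ∈ J → j = i := by
      rcases sides_odd ht hJ with ⟨i', hi', hu⟩ | hall
      · have := hu i hi
        subst this
        exact hu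
      · exact absurd (hall 0) h0
    have hl := leads_open (x := sd t 0) (J' := insert (sd t 0) J) ht hJ (Or.inl rfl) (Or.inl h0')
      (fun p hp => by rw [Finset.mem_insert]; tauto) (sw_occ hg ht hJ hi) hk
    refine Relation.ReflTransGen.head ?_ hl
    obtain ⟨a, b, c⟩ := t
    rw [sd0] at *
    have hne := sides_ne ht
    have hba : (b, a) ≠ (a, b) := by
      intro e
      rw [Prod.mk.injEq] at e
      exact N.ne ht e.2
    refine ⟨c, ht, Set.notMem_empty _, ?_, ?_⟩
    · rintro (h | h)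
      · exact hm' h
      · exact hba h
    · rcases cases_z3 i with rfl | rfl | rfl
      · exact absurd rfl hi0
      · left
        rw [sd1] at hi ⊢
        exact ⟨Finset.mem_insert_of_mem hi, rfl⟩
      · right
        rw [sd2] at hi ⊢
        refine ⟨Finset.mem_insert_of_mem hi, ?_, rfl⟩
        intro h
        rcases Finset.mem_insert.1 h with h | h
        · exact hne.1 h.symm
        · have := hu 1 (by rw [sd1]; exact h)
          revert this; decide
  constructor
  · exact key k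
  · intro h
    obtain ⟨k', hk', _⟩ := qk_unique hg ht hJ hP
    have := ends_unique hg (Set.subset_union_left) h (key k' hk')
    rw [this]
    exact hk'

/-- right half leg -/
theorem right_half (hg : Good N) (ht : t ∈ N.T) (hJ : IsJoin N.toTrg N.kl (rots t) N.exS J)
    (hP : P1 N t) (h0 : sd t 0 ∈ J) (hm : sd t 0 ∉ N.exS) (k : ZMod 3) :
    qk N t J k ↔
      Ends N.toTrg ∅ (N.exS ∪ {sw (sd t 0)}) (J.erase (sd t 0)) (sw (sd t 0)) (N.ex k) := by
  have hm' := sw_sd_notMark hg ht 0
  have h0' : sw (sd t 0) ∈ J := sw_mem hg ht hJ h0 hm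
  have open' : ∀ {s e : V × V}, (s ∈ J ∨ (s.2, s.1) ∈ N.exS) →
      Leads N.toTrg (rots t) N.exS J s e →
      Leads N.toTrg ∅ (N.exS ∪ {sw (sd t 0)}) (J.erase (sd t 0)) s e := by
    intro s e hs h
    exact leads_open (x := sw (sd t 0)) ht hJ (Or.inr rfl) (Or.inr rfl)
      (fun p hp => by rw [Finset.mem_erase]; tauto) hs h
  have key : ∀ k, qk N t J k →
      Ends N.toTrg ∅ (N.exS ∪ {sw (sd t 0)}) (J.erase (sd t 0)) (sw (sd t 0)) (N.ex k) := by
    intro k hk
    rcases leg_end hg ht hJ h0 with ⟨k', hk'⟩ | ⟨j, hj, hjJ, hb⟩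
    · -- the leg of the side `0` ends at `k'`
      have : k = k' := by
        obtain ⟨k'', _, hu⟩ := qk_unique hg ht hJ hP
        have h1 := hu k hk
        by_cases hT : ∃ k', N.Tri3 t k' J
        · obtain ⟨m, hm3⟩ := hT
          have h2 := hu m (Or.inl hm3)
          have h3 := ends_unique hg (le_refl _) (((tri3_iff m).1 hm3).2 0) hk'
          rw [zero_add] at h3
          rw [h1, ← h2, h3]
        · have h2 := hu k' (Or.inr ⟨hT, 0, h0, hk'⟩)
          rw [h1, h2]
      rw [this]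
      exact open' (Or.inl h0') hk'
    · -- it comes back through the side `j`
      have hR : ∃ i, sd t i ∈ J ∧ En N t J i k := by
        rcases hk with h | h
        · exact ⟨0, h0, by simpa using ((tri3_iff k).1 h).2 0⟩
        · exact h.2
      obtain ⟨i, hi, hk⟩ := hR
      have hi0 : i ≠ 0 := by
        rintro rfl
        exact en_ba hg ht hjJ hk hb
      have hij : i ≠ j := by
        rintro rfl
        exact en_ba hg ht h0 hk (ba_symm hg ht hJ h0 hb)
      have h1 : Leads N.toTrg ∅ (N.exS ∪ {sw (sd t 0)}) (J.erase (sd t 0)) (sw (sd t 0)) (sd t j) :=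
        open' (Or.inl h0') hb
      have h2 : Leads N.toTrg ∅ (N.exS ∪ {sw (sd t 0)}) (J.erase (sd t 0)) (sw (sd t i))
          ((N.ex k).2, (N.ex k).1) := open' (sw_occ hg ht hJ hi) hk
      refine h1.trans (Relation.ReflTransGen.head ?_ h2)
      have hjm : ((sd t j).2, (sd t j).1) ∉ N.exS ∪ {sw (sd t 0)} := by
        rintro (h | h)
        · exact sw_sd_notMark hg ht j h
        · rw [Set.mem_singleton_iff] at h
          have h4 : sw (sd t j) = sw (sd t 0) := h
          have h5 : sd t j = sd t 0 := by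
            rw [← sw_sw (sd t j), h4, sw_sw]
          exact hj (sd_inj ht h5)
      obtain ⟨a, b, c⟩ := t
      have hne := sides_ne ht
      rcases cases_z3 j with rfl | rfl | rfl
      · exact absurd rfl hj
      · rcases cases_z3 i with rfl | rfl | rfl
        · exact absurd rfl hi0
        · exact absurd rfl hij
        · rw [sd0, sd1, sd2] at *
          refine ⟨a, N.rot ht, Set.notMem_empty _, hjm, Or.inl ⟨?_, rfl⟩⟩
          exact Finset.mem_erase.2 ⟨hne.2.2.symm, hi⟩
      · rcases cases_z3 i with rfl | rfl | rfl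
        · exact absurd rfl hi0
        · rw [sd0, sd1, sd2] at *
          refine ⟨b, N.rot (N.rot ht), Set.notMem_empty _, hjm, Or.inr ⟨?_, ?_, rfl⟩⟩
          · exact Finset.mem_erase.2 ⟨hne.1.symm, hi⟩
          · intro h
            exact (Finset.mem_erase.1 h).1 rfl
        · exact absurd rfl hij
  constructor
  · exact key k
  · intro h
    obtain ⟨k', hk', _⟩ := qk_unique hg ht hJ hP
    have := ends_unique hg (Set.subset_union_left) h (key k' hk')
    rw [this]
    exact hk'

/-- the part of the observable which is common to the three sides of `t` -/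
def hh (N : Net V) (t : V × V × V) : ℂ :=
  (∑ k : ZMod 3, (((N.tj t).filter fun J => Rk N t J k).card : ℂ) * omz k) / ((N.tj t).card : ℂ)

theorem tj_join {t : V × V × V} (h : J ∈ N.tj t) : IsJoin N.toTrg N.kl (rots t) N.exS J :=
  mem_joins.1 h

theorem card_qk (k : ZMod 3) :
    ((N.tj t).filter fun J => qk N t J k).card =
      ((N.tj t).filter (N.Tri3 t k)).card + ((N.tj t).filter fun J => Rk N t J k).card := by
  rw [← Finset.card_union_of_disjoint]
  · congr 1
    ext J
    rw [Finset.mem_union, Finset.mem_filter, Finset.mem_filter, Finset.mem_filter]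
    unfold qk
    tauto
  · rw [Finset.disjoint_filter]
    intro J _ h h'
    exact h'.1 ⟨k, h⟩

theorem sum_qk :
    (∑ k : ZMod 3, (((N.tj t).filter fun J => qk N t J k).card : ℂ) * omz k) /
      ((N.tj t).card : ℂ) = hh N t + N.Q t := by
  unfold hh Net.Q Net.triA
  rw [Finset.sum_div, Finset.sum_div, ← Finset.sum_add_distrib]
  refine Finset.sum_congr rfl fun k _ => ?_
  rw [card_qk]
  push_cast
  ring

/-- at a live side of `t` -/
theorem F_side (hg : Good N) (ht : t ∈ N.T) (hP : P1 N t)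
    (hk : (t.1, t.2.1) ∉ N.kl) (hk' : (t.2.1, t.1) ∉ N.kl)
    (hne : (N.tj t).Nonempty ∨ (t.1, t.2.1) ∉ N.exS) :
    N.F t.1 t.2.1 = hh N t + N.Q t := by
  rw [← sum_qk]
  have hm' : (t.2.1, t.1) ∉ N.exS := by
    have := sw_sd_notMark hg ht 0
    rw [sd0] at this
    exact this
  by_cases hm : (t.1, t.2.1) ∈ N.exS
  · -- the side is a mark
    have hne' : (N.tj t).Nonempty := hne.resolve_right (fun h => h hm)
    obtain ⟨k0, hk0⟩ := hm
    have hF : N.F t.1 t.2.1 = omz k0 := by
      have hex : ∃ k, N.ex k = (t.1, t.2.1) ∨ N.ex k = (t.2.1, t.1) := ⟨k0, Or.inl hk0⟩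
      unfold Net.F
      rw [dif_pos hex]
      congr 1
      rcases hex.choose_spec with h | h
      · exact hg.inj (h.trans hk0.symm)
      · exact absurd ⟨_, h⟩ hm'
    rw [hF]
    have hc : ∀ k, ((N.tj t).filter fun J => qk N t J k).card =
        if k = k0 then (N.tj t).card else 0 := by
      intro k
      have hall : ∀ J ∈ N.tj t, (qk N t J k ↔ k = k0) := by
        intro J hJ
        have hJ' := tj_join hJ
        have h0 : sd t 0 ∈ J := by
          rw [sd0, ← hk0]
          exact (hJ'.mark (N.ex k0).1 (N.ex k0).2 (mem_exS k0)).1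
        have hE : En N t J 0 k0 := by
          unfold En Ends
          rw [sd0, hk0]
          exact Relation.ReflTransGen.refl
        have hq : qk N t J k0 := by
          by_cases hT : ∃ k', N.Tri3 t k' J
          · obtain ⟨m, hm3⟩ := hT
            have h3 := ends_unique hg (le_refl _) (((tri3_iff m).1 hm3).2 0) hE
            rw [zero_add] at h3
            rw [← h3]
            exact Or.inl hm3
          · exact Or.inr ⟨hT, 0, h0, hE⟩
        constructor
        · intro h
          obtain ⟨k'', _, hu⟩ := qk_unique hg ht hJ' hP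
          rw [hu k h, hu k0 hq]
        · rintro rfl
          exact hq
      by_cases hkk : k = k0
      · rw [if_pos hkk, Finset.filter_true_of_mem fun J hJ => (hall J hJ).2 hkk]
      · rw [if_neg hkk, Finset.filter_false_of_mem fun J hJ h => hkk ((hall J hJ).1 h),
          Finset.card_empty]
    have hpos : ((N.tj t).card : ℂ) ≠ 0 := by
      rw [Nat.cast_ne_zero]
      exact (Finset.card_pos.2 hne').ne'
    rw [eq_div_iff hpos, Finset.sum_eq_single k0]
    · rw [hc k0, if_pos rfl]
      ring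
    · intro k _ hkk
      rw [hc k, if_neg hkk]
      simp
    · intro h
      exact absurd (Finset.mem_univ _) h
  · -- the side is not a mark
    have hF : N.F t.1 t.2.1 = N.Fob t.1 t.2.1 := by
      unfold Net.F
      rw [dif_neg]
      rintro ⟨k, h | h⟩
      · exact hm ⟨k, h⟩
      · exact hm' ⟨k, h⟩
    rw [hF]
    unfold Net.Fob
    obtain ⟨a, b, c⟩ := t
    simp only at hk hk' hm hm' hne ⊢
    have hcard : (N.hj a b).card + (N.hj b a).card = (N.tj (a, b, c)).card :=
      card_half ht hk hk' hm hm'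
    rw [hcard]
    congr 1
    refine Finset.sum_congr rfl fun k _ => ?_
    congr 2
    have h1 : N.cnt a b k = ((N.tj (a, b, c)).filter
        (fun J => (a, b) ∉ J ∧ qk N (a, b, c) J k)).card := by
      refine card_half_left ht hk hk' hm hm' _ _ ?_
      intro J hJ h0
      have := left_half hg ht hJ hP (by rw [sd0]; exact h0) k
      rw [sd0] at this
      exact this
    have h2 : N.cnt b a k = ((N.tj (a, b, c)).filter
        (fun J => (a, b) ∈ J ∧ qk N (a, b, c) J k)).card := by
      refine card_half_right ht hk hk' hm hm' _ _ ?_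
      intro J hJ h0
      have := right_half hg ht hJ hP (by rw [sd0]; exact h0) (by rw [sd0]; exact hm) k
      rw [sd0] at this
      exact this
    rw [h1, h2, ← Finset.card_union_of_disjoint]
    · congr 1
      ext J
      simp only [Finset.mem_filter, Finset.mem_union]
      tauto
    · rw [Finset.disjoint_filter]
      intro J _ h h'
      exact h.1 h'.1

/-- `h` does not depend on the rotation -/
theorem tj_rot (a b c : V) : N.tj (b, c, a) = N.tj (a, b, c) := by
  unfold Net.tj
  rw [rots_rot]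

theorem tri3_rot (a b c : V) (k : ZMod 3) (J : Finset (V × V)) :
    N.Tri3 (b, c, a) (k + 1) J ↔ N.Tri3 (a, b, c) k J := by
  unfold Net.Tri3
  rw [rots_rot]
  simp only
  have e0 : (0 : ZMod 3) + (k + 1) = 1 + k := by ring
  have e1 : (1 : ZMod 3) + (k + 1) = 2 + k := by ring
  have e2 : (2 : ZMod 3) + (k + 1) = 0 + k := by
    have : (2 : ZMod 3) + 1 = 0 := by decide
    rw [add_comm k 1, ← add_assoc, this]
  rw [e0, e1, e2]
  tauto

theorem rk_rot (a b c : V) (k : ZMod 3) (J : Finset (V × V)) :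
    Rk N (b, c, a) J k ↔ Rk N (a, b, c) J k := by
  unfold Rk En
  rw [rots_rot, exists_z3 (P := fun i => _ ∧ _), exists_z3 (P := fun i => _ ∧ _)]
  simp only [sd0, sd1, sd2]
  have : (∃ k', N.Tri3 (b, c, a) k' J) ↔ ∃ k', N.Tri3 (a, b, c) k' J := by
    constructor
    · rintro ⟨k', h⟩
      refine ⟨k' - 1, ?_⟩
      rw [← tri3_rot, sub_add_cancel]
      exact h
    · rintro ⟨k', h⟩
      exact ⟨k' + 1, (tri3_rot a b c k' J).2 h⟩
  rw [this]
  tauto

theorem hh_rot (a b c : V) : hh N (b, c, a) = hh N (a, b, c) := by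
  unfold hh
  rw [tj_rot]
  congr 1
  refine Finset.sum_congr rfl fun k _ => ?_
  congr 3
  ext J
  rw [Finset.mem_filter, Finset.mem_filter, rk_rot]

theorem om_cube : om ^ 3 = 1 := by
  unfold om
  rw [← Complex.exp_nat_mul]
  have : ((3 : ℕ) : ℂ) * (((2 * Real.pi / 3 : ℝ) : ℂ) * Complex.I) =
      2 * (Real.pi : ℂ) * Complex.I := by
    push_cast
    ring
  rw [this, Complex.exp_two_pi_mul_I]

theorem omz_add_one (k : ZMod 3) : omz (k + 1) = om * omz k := by
  rcases cases_z3 k with rfl | rfl | rfl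
  · have h0 : ((0 : ZMod 3) + 1).val = 1 := by decide
    have h1 : (0 : ZMod 3).val = 0 := by decide
    unfold omz
    rw [h0, h1]
    ring
  · have h0 : ((1 : ZMod 3) + 1).val = 2 := by decide
    have h1 : (1 : ZMod 3).val = 1 := by decide
    unfold omz
    rw [h0, h1]
    ring
  · have h0 : ((2 : ZMod 3) + 1).val = 0 := by decide
    have h1 : (2 : ZMod 3).val = 2 := by decide
    unfold omz
    rw [h0, h1]
    have := om_cube
    rw [pow_zero, ← this]
    ring

theorem q_rot (a b c : V) : N.Q (b, c, a) = om * N.Q (a, b, c) := by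
  unfold Net.Q
  rw [Finset.mul_sum]
  rw [← Equiv.sum_comp (Equiv.addRight (1 : ZMod 3))]
  refine Finset.sum_congr rfl fun k _ => ?_
  simp only [Equiv.coe_addRight]
  rw [omz_add_one]
  have : N.triA (b, c, a) (k + 1) = N.triA (a, b, c) k := by
    unfold Net.triA
    rw [tj_rot]
    congr 2
    congr 1
    ext J
    rw [Finset.mem_filter, Finset.mem_filter, tri3_rot]
  rw [this]
  ring

theorem p1_rot (a b c : V) (h : P1 N (a, b, c)) : P1 N (b, c, a) := by
  intro J hJ hall e he
  rw [rots_rot] at hJ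
  rw [forall_z3, sd0, sd1, sd2] at hall
  have := h J hJ (by rw [forall_z3, sd0, sd1, sd2]; tauto) (fun i => e (i - 1)) (by
    intro i
    have hi := he (i - 1)
    unfold En at hi ⊢
    rw [rots_rot] at hi
    have : sd (b, c, a) (i - 1) = sd (a, b, c) i := by
      rcases cases_z3 i with rfl | rfl | rfl
      · have : (0 : ZMod 3) - 1 = 2 := by decide
        rw [this, sd2, sd0]
      · have : (1 : ZMod 3) - 1 = 0 := by decide
        rw [this, sd1, sd0]
      · have : (2 : ZMod 3) - 1 = 1 := by decide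
        rw [this, sd2, sd1]
    rw [this] at hi
    exact hi)
  have e0 : (0 : ZMod 3) - 1 = 2 := by decide
  have e1 : (1 : ZMod 3) - 1 = 0 := by decide
  have e2 : (2 : ZMod 3) - 1 = 1 := by decide
  simp only [e0, e1, e2] at this
  rw [this.1, this.2]
  refine ⟨?_, ?_⟩
  · generalize e 2 = x
    revert x; decide
  · generalize e 2 = x
    revert x; decide

end tri

/-- **J1** (corrected), for any network -/
theorem j1_gen {N : Net V} (hg : Good N) {a b c : V} (ht : (a, b, c) ∈ N.T) (hP : P1 N (a, b, c))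
    (h1 : (a, b) ∉ N.kl) (h2 : (b, c) ∉ N.kl) (h3 : (c, a) ∉ N.kl)
    (hne : (N.tj (a, b, c)).Nonempty ∨
      ((a, b) ∉ N.exS ∧ (b, c) ∉ N.exS ∧ (c, a) ∉ N.exS)) :
    ∃ h : ℂ, N.F a b = h + N.Q (a, b, c) ∧ N.F b c = h + om * N.Q (a, b, c) ∧
      N.F c a = h + om ^ 2 * N.Q (a, b, c) := by
  have ks : ∀ x y : V, (x, y) ∉ N.kl → (y, x) ∉ N.kl := fun x y h h' => h (N.klsym _ _ h')
  refine ⟨hh N (a, b, c), ?_, ?_, ?_⟩
  · exact F_side hg ht hP h1 (ks _ _ h1) (by tauto)
  · have := F_side (t := (b, c, a)) hg (N.rot ht) (p1_rot a b c hP) h2 (ks _ _ h2)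
      (by rw [tj_rot]; tauto)
    rw [hh_rot, q_rot] at this
    exact this
  · have := F_side (t := (c, a, b)) hg (N.rot (N.rot ht)) (p1_rot b c a (p1_rot a b c hP)) h3
      (ks _ _ h3) (by rw [tj_rot, tj_rot]; tauto)
    rw [hh_rot, hh_rot, q_rot, q_rot] at this
    rw [pow_two, mul_assoc]
    exact this

/-- a side which is killed is empty -/
theorem q_killed {N : Net V} (hg : Good N) {a b c : V} (ht : (a, b, c) ∈ N.T)
    (h1 : (a, b) ∈ N.kl) : N.Q (a, b, c) = 0 := by
  have hm : (a, b) ∉ N.exS := by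
    rintro ⟨k, hk⟩
    exact hg.live k (hk ▸ h1)
  have hm' : (b, a) ∉ N.exS := by
    have := sw_sd_notMark hg ht 0
    rw [sd0] at this
    exact this
  unfold Net.Q
  refine Finset.sum_eq_zero fun k _ => ?_
  have : N.triA (a, b, c) k = 0 := by
    unfold Net.triA
    rw [Finset.filter_false_of_mem]
    · simp
    · intro J hJ h
      exact ((tj_join hJ).kill a b h1 hm hm').1 h.1
  rw [this]
  simp

/-- **J2** (corrected), for any network -/
theorem j2_gen {N : Net V} (hg : Good N) {a b c : V} (ht : (a, b, c) ∈ N.T) (hP : P1 N (a, b, c))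
    (h1 : (a, b) ∈ N.kl) (h2 : (b, c) ∉ N.kl) (h3 : (c, a) ∉ N.kl)
    (hne : (N.tj (a, b, c)).Nonempty ∨ ((b, c) ∉ N.exS ∧ (c, a) ∉ N.exS)) :
    N.F b c = N.F c a := by
  have ks : ∀ x y : V, (x, y) ∉ N.kl → (y, x) ∉ N.kl := fun x y h h' => h (N.klsym _ _ h')
  have e2 := F_side (t := (b, c, a)) hg (N.rot ht) (p1_rot a b c hP) h2 (ks _ _ h2)
      (by rw [tj_rot]; tauto)
  have e3 := F_side (t := (c, a, b)) hg (N.rot (N.rot ht)) (p1_rot b c a (p1_rot a b c hP)) h3
      (ks _ _ h3) (by rw [tj_rot, tj_rot]; tauto)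
  rw [hh_rot, q_rot, q_killed hg ht h1] at e2
  rw [hh_rot, hh_rot, q_rot, q_rot, q_killed hg ht h1] at e3
  simp only at e2 e3
  rw [e2, e3]
  simp

/-- networks on Delaunay triangulations are good -/
theorem good_of_hnet {S : Finset ℂ} {N : Net ℂ} (h : HNet S N) : Good N where
  inj := by
    -- the three middles are not collinear
    have hc := h.ccw
    intro i j hij
    by_contra hne
    rcases cases_z3 i with rfl | rfl | rfl <;> rcases cases_z3 j with rfl | rfl | rfl <;>
      first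
      | exact hne rfl
      | (rw [hij] at hc; simp [cr, mul_comm] at hc)
  bd := by
    intro k c hc
    rw [h.tri] at hc
    exact (h.hex k).2 c hc
  live := h.live

/-- P1 for networks on Delaunay triangulations (block P) -/
def P1all : Prop := ∀ (N : Net ℂ) (S : Finset ℂ), HNet S N → ∀ t ∈ delT S, P1 N t

theorem j1 (hP : P1all) (N : Net ℂ) (S : Finset ℂ) (h : HNet S N) (t : ℂ × ℂ × ℂ) (ht : t ∈ delT S)
    (h1 : (t.1, t.2.1) ∉ N.kl) (h2 : (t.2.1, t.2.2) ∉ N.kl) (h3 : (t.2.2, t.1) ∉ N.kl)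
    (hne : (N.tj t).Nonempty ∨
      ((t.1, t.2.1) ∉ N.exS ∧ (t.2.1, t.2.2) ∉ N.exS ∧ (t.2.2, t.1) ∉ N.exS)) :
    ∃ h : ℂ, N.F t.1 t.2.1 = h + N.Q t ∧ N.F t.2.1 t.2.2 = h + om * N.Q t ∧
      N.F t.2.2 t.1 = h + om ^ 2 * N.Q t :=
  j1_gen (good_of_hnet h) (by rw [h.tri]; exact ht) (hP N S h t ht) h1 h2 h3 hne

theorem j2 (hP : P1all) (N : Net ℂ) (S : Finset ℂ) (h : HNet S N) (a b c : ℂ)
    (ht : (a, b, c) ∈ delT S) (h1 : (a, b) ∈ N.kl) (h2 : (b, c) ∉ N.kl) (h3 : (c, a) ∉ N.kl)
    (hne : (N.tj (a, b, c)).Nonempty ∨ ((b, c) ∉ N.exS ∧ (c, a) ∉ N.exS)) :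
    N.F b c = N.F c a :=
  j2_gen (good_of_hnet h) (by rw [h.tri]; exact ht) (hP N S h _ ht) h1 h2 h3 hne

end Crest.Agent.R143.J1x872
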