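import Crest.Agent.R143.Y0_831
import Crest.Agent.R143.J1_872

/-!
# Row 143, block Y: the leaves Y3s and Y3c (helper877)

* `exists_ends` : the leg of the half edge at the left side of `(a, b)` ends at a mark.
* `y3s_gen`, `y3s` : the numbers of joins with a half leg ending at the three marks sum up to the
  number of joins.
* `flip_half` : flipping the star of an inner site `v` exchanges the joins with a half leg on the
  left of `(v, u 0)` and on the left of `(u 0, v)`.
* `y3c_gen`, `y3c` : these two numbers agree.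
-/

set_option autoImplicit false

noncomputable section

open scoped Classical

namespace Crest.Agent.R143.Y3sx877

open Crest.Agent.R143.B0x346 Crest.Agent.R143.Y0x831 Crest.Agent.R143.JCardx872
open Crest.Agent.R143.JWalkx872 Crest.Agent.R143.J1x872

variable {V : Type}

theorem hj_join {N : Net V} {a b : V} {J : Finset (V × V)} (h : J ∈ N.hj a b) :
    IsJoin N.toTrg N.kl ∅ (N.exS ∪ {(a, b)}) J := mem_joins.1 h

/-- the leg of the half edge on the left of `(a, b)` ends at a mark -/
theorem exists_ends {N : Net V} {a b : V} {J : Finset (V × V)}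
    (hJ : IsJoin N.toTrg N.kl ∅ (N.exS ∪ {(a, b)}) J) :
    ∃ k, Ends N.toTrg ∅ (N.exS ∪ {(a, b)}) J (a, b) (N.ex k) := by
  have hm : (a, b) ∈ N.exS ∪ {(a, b)} := by simp
  have hs := (hJ.mark a b hm).1
  obtain ⟨e, he, hT⟩ := exists_end hJ rotInv_empty hs (fun p _ => mark_pre hJ hm p)
  rcases hT with (⟨k, hk⟩ | h) | ⟨_, c, _, hc⟩
  · refine ⟨k, ?_⟩
    unfold Ends
    rw [hk]
    exact he
  · exfalso
    rw [Set.mem_singleton_iff, Prod.mk.injEq] at h
    have h' : e = (b, a) := Prod.ext h.2 h.1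
    rw [h'] at he
    exact not_leads_swap hJ rotInv_empty hs he
  · exact absurd hc (Set.notMem_empty _)

/-- the mark at the end is unique -/
theorem ends_unique' {N : Net V} (hg : Good N) {a b : V} {J : Finset (V × V)} {k k' : ZMod 3}
    (h : Ends N.toTrg ∅ (N.exS ∪ {(a, b)}) J (a, b) (N.ex k))
    (h' : Ends N.toTrg ∅ (N.exS ∪ {(a, b)}) J (a, b) (N.ex k')) : k = k' :=
  ends_unique hg Set.subset_union_left h h'

theorem y3s_gen {N : Net V} (hg : Good N) (a b : V) :
    (∑ k : ZMod 3, N.cnt a b k) = (N.hj a b).card := by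
  unfold Net.cnt
  rw [← Finset.card_biUnion]
  · congr 1
    ext J
    simp only [Finset.mem_biUnion, Finset.mem_univ, true_and, Finset.mem_filter]
    constructor
    · rintro ⟨k, h, _⟩
      exact h
    · intro h
      obtain ⟨k, hk⟩ := exists_ends (hj_join h)
      exact ⟨k, h, hk⟩
  · intro k _ k' _ hne
    change Disjoint _ _
    rw [Finset.disjoint_left]
    intro J h h'
    rw [Finset.mem_filter] at h h'
    exact hne (ends_unique' hg h.2 h'.2)

/-- **leaf Y3s** -/
theorem y3s : Y3s := by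
  intro S N h a b c _ _ _ _ _
  exact y3s_gen (good_of_hnet h) a b

/-! ### Y3c -/

/-- flipping the star of an inner vertex moves the half edge to the other side -/
theorem flip_half {G : Trg V} {kl : Set (V × V)} {O : Set (V × V × V)} {D : Set (V × V)}
    {v : V} {d : ℕ} {u : ℤ → V} (hR : Ring G v d u) (hk : ∀ i, (v, u i) ∉ kl ∧ (u i, v) ∉ kl)
    (hD : ∀ i, (v, u i) ∉ D ∧ (u i, v) ∉ D) {x y : V} (hxy : (x, y) ∈ star v d u)
    {J : Finset (V × V)} (hJ : IsJoin G kl O (D ∪ {(x, y)}) J) :
    IsJoin G kl O (D ∪ {(y, x)}) (symmDiff (star v d u) J) := by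
  have hS := star_isJoin (kl := kl) hR hk
  have sS : ∀ a b : V, ((a, b) ∈ star v d u ↔ (b, a) ∈ star v d u) :=
    fun a b => hS.sym a b (by simp) (by simp)
  have hyx : (y, x) ∈ star v d u := (sS x y).1 hxy
  have hDS : ∀ p ∈ D, p ∉ star v d u := by
    rintro ⟨p, q⟩ hp h
    rw [mem_star hR] at h
    rcases h with ⟨rfl, i, rfl⟩ | ⟨rfl, i, rfl⟩
    · exact (hD i).1 hp
    · exact (hD i).2 hp
  refine ⟨?_, ?_, ?_, ?_, ?_, ?_⟩
  · intro p hp
    rw [Finset.mem_symmDiff] at hp
    rcases hp with h | h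
    · exact hS.sub h.1
    · exact hJ.sub h.1
  · intro p q h1 h2
    simp only [Set.mem_union, Set.mem_singleton_iff, Prod.mk.injEq, not_or] at h1 h2
    have := hJ.sym p q (by simp only [Set.mem_union, Set.mem_singleton_iff, Prod.mk.injEq]; tauto)
      (by simp only [Set.mem_union, Set.mem_singleton_iff, Prod.mk.injEq]; tauto)
    have := sS p q
    rw [Finset.mem_symmDiff, Finset.mem_symmDiff]
    tauto
  · intro p q h
    rcases h with h | h
    · have h1 := hJ.mark p q (Set.mem_union_left _ h)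
      have h2 := hDS _ h
      have h3 := sS p q
      rw [Finset.mem_symmDiff, Finset.mem_symmDiff]
      tauto
    · rw [Set.mem_singleton_iff, Prod.mk.injEq] at h
      obtain ⟨rfl, rfl⟩ := h
      have h1 := hJ.mark q p (by simp)
      rw [Finset.mem_symmDiff, Finset.mem_symmDiff]
      tauto
  · intro p q h1 h2
    have h3 := hS.bdr p q h1 (by simp)
    have h4 : (p, q) ≠ (x, y) := fun e => h3.1 (e ▸ hxy)
    simp only [Set.mem_union, Set.mem_singleton_iff, not_or] at h2
    have := hJ.bdr p q h1 (by simp only [Set.mem_union, Set.mem_singleton_iff]; tauto)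
    rw [Finset.mem_symmDiff, Finset.mem_symmDiff]
    tauto
  · intro p q h1 h2 h2'
    have h3 := hS.kill p q h1 (by simp) (by simp)
    have h4 : (p, q) ≠ (x, y) := fun e => h3.1 (e ▸ hxy)
    have h5 : (q, p) ≠ (x, y) := fun e => h3.2 (e ▸ hxy)
    simp only [Set.mem_union, Set.mem_singleton_iff, not_or] at h2 h2'
    have := hJ.kill p q h1 (by simp only [Set.mem_union, Set.mem_singleton_iff]; tauto)
      (by simp only [Set.mem_union, Set.mem_singleton_iff]; tauto)
    rw [Finset.mem_symmDiff, Finset.mem_symmDiff]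
    tauto
  · intro p q r h
    have h1 := hS.par p q r h
    have h2 := hJ.par p q r h
    rw [if_neg (Set.notMem_empty _)] at h1
    rw [par_symmDiff, h1, h2]
    by_cases g : (p, q, r) ∈ O <;> simp [g]

theorem card_flip_half {G : Trg V} {kl : Set (V × V)} {O : Set (V × V × V)} {D : Set (V × V)}
    {v : V} {d : ℕ} {u : ℤ → V} (hR : Ring G v d u) (hk : ∀ i, (v, u i) ∉ kl ∧ (u i, v) ∉ kl)
    (hD : ∀ i, (v, u i) ∉ D ∧ (u i, v) ∉ D) {x y : V} (hxy : (x, y) ∈ star v d u)
    (hyx : (y, x) ∈ star v d u) :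
    (joins G kl O (D ∪ {(x, y)})).card = (joins G kl O (D ∪ {(y, x)})).card := by
  have hinv : ∀ J : Finset (V × V), symmDiff (star v d u) (symmDiff (star v d u) J) = J := by
    intro J
    rw [← symmDiff_assoc, symmDiff_self, bot_symmDiff]
  refine Finset.card_bij' (fun J _ => symmDiff (star v d u) J)
    (fun J _ => symmDiff (star v d u) J) ?_ ?_ ?_ ?_
  · intro J hJ
    rw [mem_joins] at hJ ⊢
    exact flip_half hR hk hD hxy hJ
  · intro J hJ
    rw [mem_joins] at hJ ⊢
    exact flip_half hR hk hD hyx hJ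
  · intro J _
    exact hinv J
  · intro J _
    exact hinv J

/-- the spokes of a ring are not marks -/
theorem spoke_notMark {N : Net V} (hg : Good N) {v : V} {d : ℕ} {u : ℤ → V}
    (hR : Ring N.toTrg v d u) (i : ℤ) : (v, u i) ∉ N.exS ∧ (u i, v) ∉ N.exS := by
  have h1 := hR.mem i
  have h2 := hR.mem (i - 1)
  rw [show i - 1 + 1 = i by ring] at h2
  have h3 := N.rot (N.rot h2)
  constructor
  · rintro ⟨k, hk⟩
    apply hg.bd k (u (i - 1))
    rw [hk]
    exact h3
  · rintro ⟨k, hk⟩
    apply hg.bd k (u (i + 1))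
    rw [hk]
    exact h1

theorem y3c_gen {N : Net V} (hg : Good N) {v : V} {d : ℕ} {u : ℤ → V}
    (hR : Ring N.toTrg v d u) (hk : ∀ i, (v, u i) ∉ N.kl) (i : ℤ) :
    (N.hj v (u i)).card = (N.hj (u i) v).card := by
  unfold Net.hj
  apply card_flip_half hR
  · intro i
    exact ⟨hk i, fun h => hk i (N.klsym _ _ h)⟩
  · exact spoke_notMark hg hR
  · rw [mem_star hR]
    exact Or.inl ⟨rfl, i, rfl⟩
  · rw [mem_star hR]
    exact Or.inr ⟨rfl, i, rfl⟩

/-- **leaf Y3c** -/
theorem y3c : Y3c := by
  intro S N h a b d u hR hu hk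
  have := y3c_gen (good_of_hnet h) hR hk 0
  rw [hu] at this
  exact this

end Crest.Agent.R143.Y3sx877
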