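import Crest.Agent.R143.Rel_63
import Crest.Agent.R143.Circ_63
import Crest.Agent.R143.Y3s_877
import Crest.Agent.R143.Ex0_922
import Crest.Agent.R143.Rel2_63
import Crest.Agent.R143.Sides_697

/-!
# Row 143 (S0194), leaf EXJ, abstract half: existence of joins (helper395)

* `LAdj`, `Lk`, `ExM` (file `Ex0_922`): the triangle is linked to the marks by live dual chains.
* `tj_ne`, `hj_pos`, `hj_ne_ring`, `hj_ne_kill` : existence of joins.
* `relAt` : the relations `RelAt`.
-/

set_option autoImplicit false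

noncomputable section

open scoped Classical

namespace Crest.Agent.R143.Exx395

open Crest.Agent.R143.B0x346 Crest.Agent.R143.Y0x831 Crest.Agent.R143.JCardx872
open Crest.Agent.R143.J1x872 Crest.Agent.R143.Oscx63 Crest.Agent.R143.Circx63
open Crest.Agent.R143.Ex0x922 hiding mem_rots_self rots_symm

variable {V : Type}

/-- two triangles which share the live edge `{a, b}` -/
theorem lk_edge {N : Net V} {a b c c' : V} (h : (a, b, c) ∈ N.T) (h' : (b, a, c') ∈ N.T)
    (hk : (a, b) ∉ N.kl) : Lk N (a, b, c) (b, a, c') :=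
  Lk.of_adj ⟨a, b, c, c', h, h', mem_rots_self _, mem_rots_self _, hk⟩

theorem exM_rot {N : Net V} {t t' : V × V × V} (h : ExM N t) (ht' : t' ∈ rots t) : ExM N t' :=
  h.of_lk (Lk.of_rots ht')

/-! ### chain indicators -/

theorem empty_isJoin {G : Trg V} {kl : Set (V × V)} : IsJoin G kl ∅ ∅ ∅ := by
  refine ⟨?_, ?_, ?_, ?_, ?_, ?_⟩ <;> simp

/-- parity of a single directed edge -/
theorem par_single {G : Trg V} {a b c x y z : V} (ht : (a, b, c) ∈ G.T) (h : (x, y, z) ∈ G.T) :
    (((if (x, y) ∈ ({(a, b)} : Finset (V × V)) then 1 else 0) +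
      (if (y, z) ∈ ({(a, b)} : Finset (V × V)) then 1 else 0) +
      (if (z, x) ∈ ({(a, b)} : Finset (V × V)) then 1 else 0) : ℕ) % 2) =
      if (x, y, z) ∈ rots (a, b, c) then 1 else 0 := by
  simp only [Finset.mem_singleton]
  obtain ⟨h1, h2, h3⟩ := sides_ne h
  by_cases hr : (x, y, z) ∈ rots (a, b, c)
  · rw [if_pos hr]
    rcases side_of_mem_rots hr with e | e | e
    · rw [if_pos e, if_neg (fun e' => h1 (e.trans e'.symm)),
        if_neg (fun e' => h3 (e.trans e'.symm))]
    · rw [if_pos e, if_neg (fun e' => h1 (e'.trans e.symm)),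
        if_neg (fun e' => h2 (e.trans e'.symm))]
    · rw [if_pos e, if_neg (fun e' => h3 (e'.trans e.symm)),
        if_neg (fun e' => h2 (e'.trans e.symm))]
  · rw [if_neg hr, if_neg (fun e => hr (mem_rots_of_side ht h (Or.inl e))),
      if_neg (fun e => hr (mem_rots_of_side ht h (Or.inr (Or.inl e)))),
      if_neg (fun e => hr (mem_rots_of_side ht h (Or.inr (Or.inr e))))]

/-- the two half edges of a live inner edge -/
theorem edge_isJoin {G : Trg V} {kl : Set (V × V)} {a b c c' : V} (ht : (a, b, c) ∈ G.T)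
    (ht' : (b, a, c') ∈ G.T) (hk : (a, b) ∉ kl) (hk' : (b, a) ∉ kl) :
    IsJoin G kl (symmDiff (rots (a, b, c)) (rots (b, a, c'))) ∅
      (symmDiff {(a, b)} {(b, a)}) := by
  have hne := G.ne ht
  have hne' : (a, b) ≠ (b, a) := fun e => hne (Prod.mk.inj e).1
  have hm : ∀ x : V × V, x ∈ (symmDiff {(a, b)} {(b, a)} : Finset (V × V)) ↔
      x = (a, b) ∨ x = (b, a) := by
    intro x
    simp only [Finset.mem_symmDiff, Finset.mem_singleton]
    constructor
    · rintro (h | h)
      · exact Or.inl h.1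
      · exact Or.inr h.1
    · rintro (rfl | rfl)
      · exact Or.inl ⟨rfl, hne'⟩
      · exact Or.inr ⟨rfl, fun e => hne' e.symm⟩
  refine ⟨?_, ?_, ?_, ?_, ?_, ?_⟩
  · intro x hx
    rcases (hm x).1 hx with rfl | rfl
    · exact (mem_E_of_tri ht).1
    · exact (mem_E_of_tri ht').1
  · intro x y _ _
    rw [hm, hm]
    simp only [Prod.mk.injEq]
    tauto
  · intro x y h
    simp at h
  · intro x y h1 _
    rw [hm, hm]
    simp only [Prod.mk.injEq]
    constructor
    · rintro (⟨rfl, rfl⟩ | ⟨rfl, rfl⟩)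
      · exact h1 _ ht'
      · exact h1 _ ht
    · rintro (⟨rfl, rfl⟩ | ⟨rfl, rfl⟩)
      · exact h1 _ ht
      · exact h1 _ ht'
  · intro x y h1 _ _
    rw [hm, hm]
    simp only [Prod.mk.injEq]
    constructor
    · rintro (⟨rfl, rfl⟩ | ⟨rfl, rfl⟩)
      · exact hk h1
      · exact hk' h1
    · rintro (⟨rfl, rfl⟩ | ⟨rfl, rfl⟩)
      · exact hk' h1
      · exact hk h1
  · intro x y z h
    rw [par_symmDiff, par_single ht h, par_single ht' h]
    by_cases g1 : (x, y, z) ∈ rots (a, b, c) <;> by_cases g2 : (x, y, z) ∈ rots (b, a, c') <;>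
      simp [Set.mem_symmDiff, g1, g2]

theorem symmDiff_cancel_mid {A : Type} (X Y Z : Set A) :
    symmDiff (symmDiff X Y) (symmDiff Y Z) = symmDiff X Z := by
  rw [symmDiff_assoc, ← symmDiff_assoc Y Y Z, symmDiff_self, bot_symmDiff]

theorem symmDiff_five {A : Type} (X Y Z W : Set A) :
    symmDiff (symmDiff (symmDiff (symmDiff (symmDiff ∅ X) Y) Z) (symmDiff X Y))
      (symmDiff Z W) = W := by
  ext x
  simp only [Set.mem_symmDiff, Set.mem_empty_iff_false]
  by_cases h1 : x ∈ X <;> by_cases h2 : x ∈ Y <;> by_cases h3 : x ∈ Z <;> by_cases h4 : x ∈ W <;>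
    simp [h1, h2, h3, h4]

/-- the indicator of a chain -/
theorem chain_isJoin {N : Net V} {t t' : V × V × V} (h : Lk N t t') :
    ∃ K, IsJoin N.toTrg N.kl (symmDiff (rots t) (rots t')) ∅ K := by
  induction h with
  | refl => exact ⟨∅, by rw [symmDiff_self]; exact empty_isJoin⟩
  | @tail s s' _ hs ih =>
    obtain ⟨K, hK⟩ := ih
    rcases hs with hs | hs
    · refine ⟨K, ?_⟩
      rw [rots_eq hs]
      exact hK
    · obtain ⟨a, b, c, c', h1, h2, h3, h4, h5⟩ := hs
      have hE := edge_isJoin h1 h2 h5 (fun h => h5 (N.klsym _ _ h))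
      rw [rots_eq h3, rots_eq h4] at hE
      have := xor_isJoin hE (by simp) hK
      rw [symmDiff_cancel_mid] at this
      exact ⟨_, this⟩

/-- add a mark at a boundary edge -/
theorem add_mark {G : Trg V} {kl : Set (V × V)} {O : Set (V × V × V)} {D : Set (V × V)}
    {J : Finset (V × V)} {a b c : V} (ht : (a, b, c) ∈ G.T) (hb : ∀ e, (b, a, e) ∉ G.T)
    (hD : (a, b) ∉ D) (hJ : IsJoin G kl O D J) :
    IsJoin G kl (symmDiff O (rots (a, b, c))) (D ∪ {(a, b)}) (symmDiff {(a, b)} J) := by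
  obtain ⟨n1, n2⟩ := hJ.bdr a b hb hD
  have hne := G.ne ht
  have hne' : (b, a) ≠ (a, b) := fun e => hne (Prod.mk.inj e).2
  have hm : ∀ x : V × V, x ∈ (symmDiff {(a, b)} J : Finset (V × V)) ↔ x = (a, b) ∨ x ∈ J := by
    intro x
    simp only [Finset.mem_symmDiff, Finset.mem_singleton]
    constructor
    · rintro (h | h)
      · exact Or.inl h.1
      · exact Or.inr h.1
    · rintro (rfl | h)
      · exact Or.inl ⟨rfl, n1⟩
      · exact Or.inr ⟨h, fun e => n1 (e ▸ h)⟩
  refine ⟨?_, ?_, ?_, ?_, ?_, ?_⟩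
  · intro x hx
    rcases (hm x).1 hx with rfl | h
    · exact (mem_E_of_tri ht).1
    · exact hJ.sub h
  · intro x y h1 h2
    simp only [Set.mem_union, Set.mem_singleton_iff, not_or] at h1 h2
    rw [hm, hm]
    have := hJ.sym x y h1.1 h2.1
    tauto
  · intro x y h
    rw [hm, hm]
    rcases h with h | h
    · obtain ⟨m1, m2⟩ := hJ.mark x y h
      refine ⟨Or.inr m1, ?_⟩
      rintro (e | e)
      · rw [Prod.mk.injEq] at e
        obtain ⟨rfl, rfl⟩ := e
        exact n2 m1
      · exact m2 e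
    · rw [Set.mem_singleton_iff, Prod.mk.injEq] at h
      obtain ⟨rfl, rfl⟩ := h
      exact ⟨Or.inl rfl, fun e => e.elim (fun e => hne' e) n2⟩
  · intro x y h1 h2
    simp only [Set.mem_union, Set.mem_singleton_iff, not_or] at h2
    obtain ⟨m1, m2⟩ := hJ.bdr x y h1 h2.1
    rw [hm, hm]
    refine ⟨fun e => e.elim h2.2 m1, ?_⟩
    rintro (e | e)
    · rw [Prod.mk.injEq] at e
      obtain ⟨rfl, rfl⟩ := e
      exact h1 _ ht
    · exact m2 e
  · intro x y h1 h2 h3
    simp only [Set.mem_union, Set.mem_singleton_iff, not_or] at h2 h3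
    obtain ⟨m1, m2⟩ := hJ.kill x y h1 h2.1 h3.1
    rw [hm, hm]
    exact ⟨fun e => e.elim h2.2 m1, fun e => e.elim h3.2 m2⟩
  · intro x y z h
    rw [par_symmDiff, par_single ht h, hJ.par x y z h]
    by_cases g1 : (x, y, z) ∈ rots (a, b, c) <;> by_cases g2 : (x, y, z) ∈ O <;>
      simp [Set.mem_symmDiff, g1, g2]

theorem exS_eq (N : Net V) : N.exS = ((∅ ∪ {N.ex 0}) ∪ {N.ex 1}) ∪ {N.ex 2} := by
  ext x
  simp only [Net.exS, Set.mem_range, Set.mem_union, Set.mem_singleton_iff, Set.mem_empty_iff_false,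
    false_or]
  rw [exists_z3]
  tauto

theorem good_ne {N : Net V} (hg : Good N) {i j : ZMod 3} (h : i ≠ j) : N.ex i ≠ N.ex j :=
  fun e => h (hg.inj e)

/-- **joins with the odd triangle `t` exist** -/
theorem tj_ne {N : Net V} (hg : Good N) {t : V × V × V} (h : ExM N t) : (N.tj t).Nonempty := by
  obtain ⟨c0, h0, l0⟩ := h.lk 0
  obtain ⟨c1, h1, l1⟩ := h.lk 1
  obtain ⟨c2, h2, l2⟩ := h.lk 2
  have e01 : N.ex 1 ≠ N.ex 0 := good_ne hg (by decide)
  have e02 : N.ex 2 ≠ N.ex 0 := good_ne hg (by decide)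
  have e12 : N.ex 2 ≠ N.ex 1 := good_ne hg (by decide)
  have j0 := add_mark (kl := N.kl) (D := ∅) (J := ∅) (O := ∅) h0 (hg.bd 0) (by simp) empty_isJoin
  have j1 := add_mark h1 (hg.bd 1) (D := ∅ ∪ {((N.ex 0).1, (N.ex 0).2)})
    (by simpa using e01) j0
  have j2 := add_mark h2 (hg.bd 2)
    (D := ∅ ∪ {((N.ex 0).1, (N.ex 0).2)} ∪ {((N.ex 1).1, (N.ex 1).2)})
    (by
      simp only [Prod.mk.eta, Set.empty_union, Set.mem_union, Set.mem_singleton_iff, not_or]
      exact ⟨e02, e12⟩) j1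
  obtain ⟨K1, hK1⟩ := chain_isJoin (l0.symm.trans l1)
  obtain ⟨K2, hK2⟩ := chain_isJoin (l2.symm)
  have hD : (∅ ∪ {((N.ex 0).1, (N.ex 0).2)} ∪ {((N.ex 1).1, (N.ex 1).2)} ∪
      {((N.ex 2).1, (N.ex 2).2)} : Set (V × V)) = N.exS := (exS_eq N).symm
  rw [hD] at j2
  have av : ∀ {O : Set (V × V × V)} {K : Finset (V × V)}, IsJoin N.toTrg N.kl O ∅ K →
      ∀ x ∈ N.exS, x ∉ K := by
    rintro O K hK _ ⟨k, rfl⟩
    exact avoid_bdry hK (N.ex k).1 (N.ex k).2 (hg.bd k)
  have j3 := xor_isJoin hK1 (av hK1) j2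
  have j4 := xor_isJoin hK2 (av hK2) j3
  rw [symmDiff_five] at j4
  exact ⟨_, mem_joins.2 j4⟩

/-- half legs at the live side `{a, b}` of `t` (left or right) -/
theorem hj_pos {N : Net V} (hg : Good N) {a b c : V} (h : ExM N (a, b, c)) (hk : (a, b) ∉ N.kl)
    (hm : (a, b) ∉ N.exS) : 0 < (N.hj a b).card + (N.hj b a).card := by
  have hm' : (b, a) ∉ N.exS := by
    rintro ⟨k, e⟩
    apply hg.bd k c
    rw [e]
    exact h.mem
  have := card_half (G := N.toTrg) (kl := N.kl) (D := N.exS) h.mem hk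
    (fun h => hk (N.klsym _ _ h)) hm hm'
  unfold Net.hj
  rw [this]
  exact Finset.card_pos.2 (tj_ne hg h)

/-- half legs at a live spoke of a complete live ring -/
theorem hj_ne_ring {N : Net V} (hg : Good N) {v : V} {d : ℕ} {u : ℤ → V}
    (hR : Ring N.toTrg v d u) (hk : ∀ i, (v, u i) ∉ N.kl) {i : ℤ}
    (h : ExM N (v, u i, u (i + 1))) : (N.hj v (u i)).Nonempty ∧ (N.hj (u i) v).Nonempty := by
  have h1 := hj_pos hg h (hk i) (Y3sx877.spoke_notMark hg hR i).1
  have h2 := Y3sx877.y3c_gen hg hR hk i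
  constructor
  · exact Finset.card_pos.1 (by omega)
  · exact Finset.card_pos.1 (by omega)

/-- half legs on the left of `(a, b)` : the triangle on the left is linked to the marks without
using the edge `{a, b}` -/
theorem hj_ne_kill {N : Net V} (hg : Good N) {a b c : V} (hm : (a, b) ∉ N.exS)
    (h : ExM (killE N a b) (a, b, c)) : (N.hj a b).Nonempty := by
  have ht : (a, b, c) ∈ N.T := h.mem
  have hm' : (b, a) ∉ N.exS := by
    rintro ⟨k, e⟩
    apply hg.bd k c
    rw [e]
    exact ht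
  have hlive : ∀ k, N.ex k ∉ (killE N a b).kl := by
    rintro k (hk | hk)
    · exact hg.live k hk
    · simp only [Set.mem_insert_iff, Set.mem_singleton_iff] at hk
      rcases hk with hk | hk
      · exact hm ⟨k, hk⟩
      · exact hm' ⟨k, hk⟩
  obtain ⟨J, hJ⟩ := tj_ne (N := killE N a b) ⟨hg.inj, hg.bd, hlive⟩ h
  have hJ' := mem_joins.1 hJ
  have hab := (hJ'.kill a b (Or.inr (by simp)) hm hm').1
  have hJ2 : IsJoin N.toTrg N.kl (rots (a, b, c)) N.exS J :=
    ⟨hJ'.sub, hJ'.sym, hJ'.mark, hJ'.bdr, fun x y h => hJ'.kill x y (Or.inl h), hJ'.par⟩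
  exact ⟨_, mem_joins.2 (insert_isJoin ht hm hm' hJ2 hab)⟩

/-- the relations at a triangle linked to the marks -/
theorem relAt {S : Finset ℂ} {N : Net ℂ} (hN : HNet S N) {t : ℂ × ℂ × ℂ}
    (h : ExM N t) : RelAt N t :=
  Rel2x63.relAt hN (by rw [← hN.tri]; exact h.mem) (Or.inl (tj_ne (good_of_hnet hN) h))

/-- linked triangles of `N` and links through a smaller set of killed edges -/
theorem lk_mono {N N' : Net V} (hT : N.T ⊆ N'.T) (hk : N'.kl ⊆ N.kl) {t t' : V × V × V}
    (h : Lk N t t') : Lk N' t t' := by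
  induction h with
  | refl => exact Relation.ReflTransGen.refl
  | tail _ hs ih =>
    refine Relation.ReflTransGen.tail ih ?_
    rcases hs with h | ⟨a, b, c, c', h1, h2, h3, h4, h5⟩
    · exact Or.inl h
    · exact Or.inr ⟨a, b, c, c', hT h1, hT h2, h3, h4, fun h => h5 (hk h)⟩

/-- the triangles around a vertex with live spokes are linked -/
theorem lk_ring {N : Net V} {v : V} {d : ℕ} {u : ℤ → V} (hR : Ring N.toTrg v d u)
    (hk : ∀ i, (v, u i) ∉ N.kl) (i j : ℤ) :
    Lk N (v, u i, u (i + 1)) (v, u j, u (j + 1)) := by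
  have step : ∀ i : ℤ, Lk N (v, u i, u (i + 1)) (v, u (i + 1), u (i + 1 + 1)) := by
    intro i
    refine Lk.of_adj ⟨u (i + 1), v, u i, u (i + 1 + 1), N.rot (N.rot (hR.mem i)), hR.mem (i + 1),
      by simp [rots], mem_rots_self _, fun h => hk (i + 1) (N.klsym _ _ h)⟩
  have up : ∀ (n : ℕ) (i : ℤ), Lk N (v, u i, u (i + 1)) (v, u (i + n), u (i + n + 1)) := by
    intro n
    induction n with
    | zero => intro i; simpa using Lk.refl _
    | succ n ih =>
      intro i
      refine (ih i).trans ?_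
      have := step (i + n)
      push_cast
      rw [show i + ((n : ℤ) + 1) = i + n + 1 by ring]
      exact this
  rcases le_total i j with h | h
  · have := up (j - i).toNat i
    rw [Int.toNat_of_nonneg (by omega), show i + (j - i) = j by ring] at this
    exact this
  · have := up (i - j).toNat j
    rw [Int.toNat_of_nonneg (by omega), show j + (i - j) = i by ring] at this
    exact this.symm

/-- two triangles with the common vertex `v`, complete live ring -/
theorem lk_star {N : Net V} {v : V} {d : ℕ} {u : ℤ → V} (hR : Ring N.toTrg v d u)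
    (hk : ∀ i, (v, u i) ∉ N.kl) {a b a' b' : V} (h : (v, a, b) ∈ N.T) (h' : (v, a', b') ∈ N.T)
    (ha : ∃ i, u i = a) (ha' : ∃ i, u i = a') : Lk N (v, a, b) (v, a', b') := by
  obtain ⟨i, rfl⟩ := ha
  obtain ⟨j, rfl⟩ := ha'
  have e1 : b = u (i + 1) := N.uniq h (hR.mem i)
  have e2 : b' = u (j + 1) := N.uniq h' (hR.mem j)
  rw [e1, e2]
  exact lk_ring hR hk i j

/-! ### the observable lies in the big triangle -/

theorem omz_mem (k : ZMod 3) : omz k ∈ convexHull ℝ {1, om, om ^ 2} := by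
  apply subset_convexHull
  rcases cases_z3 k with rfl | rfl | rfl
  · left; exact pow_zero om
  · right; left; exact pow_one om
  · right; right; rfl

theorem zero_mem : (0 : ℂ) ∈ convexHull ℝ {1, om, om ^ 2} := by
  have h : (0 : ℂ) = ∑ k : ZMod 3, (1 / 3 : ℝ) • omz k := by
    have hs : ∑ k : ZMod 3, (1 / 3 : ℝ) • omz k =
        (1 / 3 : ℝ) • omz 0 + (1 / 3 : ℝ) • omz 1 + (1 / 3 : ℝ) • omz 2 := Fin.sum_univ_three _
    have e0 : omz 0 = 1 := pow_zero om
    have e1 : omz 1 = om := pow_one om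
    have e2 : omz 2 = om ^ 2 := rfl
    rw [hs, e0, e1, e2, ← smul_add, ← smul_add, Rswx63.one_add_om, smul_zero]
  rw [h]
  refine (convex_convexHull ℝ _).sum_mem (fun _ _ => by norm_num) ?_ (fun k _ => omz_mem k)
  simp

theorem sum_pe {N : Net V} (hg : Good N) {a b : V}
    (hpos : 0 < (N.hj a b).card + (N.hj b a).card) :
    ∑ k : ZMod 3, Sidesx697.Net.pe N a b k = 1 := by
  unfold Sidesx697.Net.pe
  rw [← Finset.sum_div, div_eq_one_iff_eq (by exact_mod_cast hpos.ne')]
  have h1 := Y3sx877.y3s_gen hg a b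
  have h2 := Y3sx877.y3s_gen hg b a
  have : ∑ k : ZMod 3, (N.cnt a b k + N.cnt b a k) = (N.hj a b).card + (N.hj b a).card := by
    rw [Finset.sum_add_distrib, h1, h2]
  exact_mod_cast this

/-- **the observable lies in the big triangle** (any edge) -/
theorem F_mem {N : Net V} (hg : Good N) (a b : V) : N.F a b ∈ convexHull ℝ {1, om, om ^ 2} := by
  unfold Net.F
  split_ifs with h
  · exact omz_mem _
  · by_cases hpos : 0 < (N.hj a b).card + (N.hj b a).card
    · rw [Sidesx697.Fob_eq]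
      have := (convex_convexHull ℝ {1, om, om ^ 2}).sum_mem
        (t := (Finset.univ : Finset (ZMod 3))) (w := fun k => Sidesx697.Net.pe N a b k)
        (z := fun k => omz k)
        (fun k _ => Sidesx697.pe_nonneg a b k) (sum_pe hg hpos) (fun k _ => omz_mem k)
      simpa only [Complex.real_smul] using this
    · have h0 : (N.hj a b).card + (N.hj b a).card = 0 := by omega
      unfold Net.Fob
      rw [h0, Nat.cast_zero, div_zero]
      exact zero_mem

/-- no joins: the observable is zero -/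
theorem F_pocket {N : Net V} {a b : V} (h : (N.hj a b).card + (N.hj b a).card = 0)
    (hab : (a, b) ∉ N.exS) (hba : (b, a) ∉ N.exS) : N.F a b = 0 := by
  rw [Sidesx697.F_eq_Fob N hab hba]
  unfold Net.Fob
  rw [h, Nat.cast_zero, div_zero]

theorem Q_pocket {N : Net V} {t : V × V × V} (h : ¬ (N.tj t).Nonempty) : N.Q t = 0 := by
  have h0 : (N.tj t).card = 0 := by
    rw [Finset.card_eq_zero]
    exact Finset.not_nonempty_iff_eq_empty.1 h
  unfold Net.Q Net.triA
  rw [h0]
  simp

end Crest.Agent.R143.Exx395
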