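import Mathlib
import Crest.Prelude.Def_Voronoi

/-!
# Row 143 (S0194), block B-complex: interface (helper336)

* `dbar` : the Cauchy-Riemann operator
* `BC3` : vanishing `dbar` in the limit gives holomorphic limits (any filter)
* `tau3` : the third root of unity; `LB` : weak boundary line condition
* `Ident` : identification of a function on `D` with the boundary conditions of the equilateral
  triangle `1, tau3, tau3 ^ 2` at the marks `φ = 0, 1, ∞`
-/

set_option autoImplicit false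

noncomputable section

namespace Crest.Agent.R143.BC0x336

open Complex Set Filter Topology MeasureTheory
open Crest.ProbabilityR.Voronoi

/-- the Cauchy-Riemann operator -/
def dbar (f : ℂ → ℂ) (z : ℂ) : ℂ := (fderiv ℝ f z 1 + I * fderiv ℝ f z I) / 2

/-- (BC3) -/
def BC3 : Prop := ∀ (Ω : Set ℂ), IsOpen Ω → ∀ (ι : Type) (l : Filter ι) (_ : l.NeBot)
  (g : ι → ℂ → ℂ) (h : ℂ → ℂ), (∀ i, ContDiff ℝ 1 (g i)) → TendstoLocallyUniformlyOn g h l Ω →
  (∀ K, IsCompact K → K ⊆ Ω → Tendsto (fun i => ∫ z in K, ‖dbar (g i) z‖) l (𝓝 0)) →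
  DifferentiableOn ℂ h Ω

/-- the third root of unity -/
def tau3 : ℂ := exp (((2 * Real.pi / 3 : ℝ) : ℂ) * I)

/-- the line condition: `h` tends to the line `A + ℝ B` at the boundary point `p` of `D` -/
def LB (D : Set ℂ) (h : ℂ → ℂ) (A B p : ℂ) : Prop :=
  Tendsto (fun z => ((h z - A) / B).im) (𝓝[D] p) (𝓝 0)

/-- the three boundary conditions of the triangle with vertices `1` (at `φ = 0`), `tau3` (at
`φ = 1`), `tau3 ^ 2` (at `φ = ∞`, the point `d`) -/
structure TriBC (D : Set ℂ) (φ : ℂ → ℂ) (d : ℂ) (h : ℂ → ℂ) : Prop where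
  bd : ∃ M : ℝ, ∀ z ∈ D, ‖h z‖ ≤ M
  b1 : ∀ p ∈ frontier D, p ≠ d → (φ p).im = 0 → 0 < (φ p).re → (φ p).re < 1 →
    LB D h 1 (tau3 - 1) p
  b2 : ∀ p ∈ frontier D, p ≠ d → (φ p).im = 0 → 1 < (φ p).re →
    LB D h tau3 (tau3 ^ 2 - tau3) p
  b3 : ∀ p ∈ frontier D, p ≠ d → (φ p).im = 0 → (φ p).re < 0 →
    LB D h (tau3 ^ 2) (1 - tau3 ^ 2) p

/-- (BC5) identification on `D` -/
def Ident (D : Set ℂ) (φ : ℂ → ℂ) (d : ℂ) : Prop :=
  ∀ h : ℂ → ℂ, TriBC D φ d h →
    (DifferentiableOn ℂ h D ∨ DifferentiableOn ℂ (fun z => (starRingEnd ℂ) (h z)) D) →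
    ∀ b ∈ frontier D, b ≠ d → ∀ x : ℝ, 0 < x → x < 1 → φ b = x →
      Tendsto h (𝓝[D] b) (𝓝 (1 + (crossingFormula x : ℂ) * (tau3 - 1)))

/-- the statement of BC5 (b): `Ident` under the hypotheses of S0194 -/
def BC5 : Prop := ∀ (D : Set ℂ), IsOpen D → Bornology.IsBounded D → IsConnected D →
  ∀ φ : ℂ → ℂ, DifferentiableOn ℂ φ D → Set.InjOn φ D → φ '' D = {z : ℂ | 0 < z.im} →
  ∀ d ∈ frontier D, ContinuousOn φ (closure D \ {d}) →
    Tendsto (fun z => ‖φ z‖) (𝓝[D] d) atTop → Ident D φ d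

end Crest.Agent.R143.BC0x336
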