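import Mathlib
import Crest.Agent.R143.BC0_336

/-!
# Row 143 (S0194), BC4: the radial mollifier (helper887)

`moll r h z₀ = ∫ r⁻² ρ(|z|²/r²) h(z₀+z) dz`, `Sb r h z₀ = -r⁻⁴ ∫ ρ'(|z|²/r²) z h(z₀+z) dz`;
`dbar (moll r h) = Sb r h`, bounds, rotations, expectations.
-/

set_option autoImplicit false

noncomputable section

namespace Crest.Agent.R143.Mollx887

open Complex Set Filter Topology MeasureTheory
open Crest.Agent.R143.BC0x336

/-! ### the profile -/

/-- unnormalised profile -/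
def rho0 (s : ℝ) : ℝ := Real.smoothTransition (1 - s)

theorem rho0_nonneg (s : ℝ) : 0 ≤ rho0 s := Real.smoothTransition.nonneg _

theorem rho0_zero {s : ℝ} (h : 1 ≤ s) : rho0 s = 0 :=
  Real.smoothTransition.zero_of_nonpos (by linarith)

theorem rho0_contDiff {n : ℕ∞} : ContDiff ℝ n rho0 :=
  (Real.smoothTransition.contDiff (n := n)).comp (contDiff_const.sub contDiff_id)

theorem rho0_at_zero : rho0 0 = 1 := Real.smoothTransition.one_of_one_le (by norm_num)

/-- the radial function -/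
def phi0 (z : ℂ) : ℝ := rho0 (‖z‖ ^ 2)

theorem phi0_contDiff {n : ℕ∞} : ContDiff ℝ n phi0 :=
  rho0_contDiff.comp (contDiff_norm_sq ℝ)

theorem phi0_support : Function.support phi0 ⊆ Metric.closedBall 0 1 := by
  intro z hz
  rw [Function.mem_support] at hz
  rw [mem_closedBall_zero_iff]
  by_contra h
  push Not at h
  exact hz (rho0_zero (by nlinarith))

theorem phi0_compact : HasCompactSupport phi0 :=
  HasCompactSupport.of_support_subset_isCompact (isCompact_closedBall 0 1) phi0_support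

theorem phi0_integral_pos : 0 < ∫ z, phi0 z := by
  have hc : Continuous phi0 := (phi0_contDiff (n := 0)).continuous
  refine hc.integral_pos_of_hasCompactSupport_nonneg_nonzero phi0_compact
    (fun z => rho0_nonneg _) (x := 0) ?_
  simp [phi0, rho0_at_zero]

/-- the total mass of the unnormalised profile -/
def c0 : ℝ := ∫ z, phi0 z

theorem c0_pos : 0 < c0 := phi0_integral_pos

/-- the profile -/
def rho (s : ℝ) : ℝ := rho0 s / c0

theorem rho_nonneg (s : ℝ) : 0 ≤ rho s := div_nonneg (rho0_nonneg s) c0_pos.le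

theorem rho_zero {s : ℝ} (h : 1 ≤ s) : rho s = 0 := by rw [rho, rho0_zero h, zero_div]

theorem rho_contDiff {n : ℕ∞} : ContDiff ℝ n rho := rho0_contDiff.div_const _

theorem rho_hasDerivAt (s : ℝ) : HasDerivAt rho (deriv rho s) s :=
  ((rho_contDiff (n := 1)).differentiable (by norm_num)).differentiableAt.hasDerivAt

theorem deriv_rho_zero {s : ℝ} (h : 1 < s) : deriv rho s = 0 := by
  have h1 : rho =ᶠ[𝓝 s] fun _ => (0 : ℝ) := by
    filter_upwards [lt_mem_nhds h] with t ht using rho_zero ht.le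
  rw [h1.deriv_eq]; simp

theorem deriv_rho_zero' {s : ℝ} (h : 1 ≤ s) : deriv rho s = 0 := by
  rcases h.eq_or_lt with rfl | h
  · have hc : Continuous (deriv rho) :=
      (rho_contDiff (n := 1)).continuous_deriv (by norm_num)
    have h1 : Tendsto (deriv rho) (𝓝[>] 1) (𝓝 (deriv rho 1)) :=
      (hc.tendsto 1).mono_left nhdsWithin_le_nhds
    have h2 : Tendsto (deriv rho) (𝓝[>] (1 : ℝ)) (𝓝 0) := by
      refine tendsto_const_nhds.congr' ?_
      filter_upwards [self_mem_nhdsWithin] with t ht using (deriv_rho_zero ht).symm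
    exact tendsto_nhds_unique h1 h2
  · exact deriv_rho_zero h

theorem continuous_deriv_rho : Continuous (deriv rho) :=
  (rho_contDiff (n := 1)).continuous_deriv (by norm_num)

theorem integral_rho : ∫ z : ℂ, rho (‖z‖ ^ 2) = 1 := by
  have h : (fun z : ℂ => rho (‖z‖ ^ 2)) = fun z => phi0 z / c0 := rfl
  rw [h, integral_div]
  exact div_self c0_pos.ne'

/-! ### kernels -/

/-- the mollifier kernel -/
def ker (r : ℝ) (z : ℂ) : ℝ := (r ^ 2)⁻¹ * rho (‖z‖ ^ 2 / r ^ 2)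

/-- the kernel of `dbar` -/
def kb (r : ℝ) (z : ℂ) : ℂ := ((-((r ^ 4)⁻¹ * deriv rho (‖z‖ ^ 2 / r ^ 2)) : ℝ) : ℂ) * z

/-- the radial mollification -/
def moll (r : ℝ) (h : ℂ → ℂ) (z₀ : ℂ) : ℂ := ∫ z, (ker r z : ℂ) * h (z₀ + z)

/-- `dbar` of the radial mollification -/
def Sb (r : ℝ) (h : ℂ → ℂ) (z₀ : ℂ) : ℂ := ∫ z, kb r z * h (z₀ + z)

theorem ker_nonneg (r : ℝ) (z : ℂ) : 0 ≤ ker r z :=
  mul_nonneg (inv_nonneg.2 (sq_nonneg r)) (rho_nonneg _)

theorem ker_zero {r : ℝ} (hr : 0 < r) {z : ℂ} (h : r ≤ ‖z‖) : ker r z = 0 := by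
  have : 1 ≤ ‖z‖ ^ 2 / r ^ 2 := by
    rw [le_div_iff₀ (by positivity), one_mul]
    exact pow_le_pow_left₀ hr.le h 2
  rw [ker, rho_zero this, mul_zero]

theorem kb_zero {r : ℝ} (hr : 0 < r) {z : ℂ} (h : r ≤ ‖z‖) : kb r z = 0 := by
  have : 1 ≤ ‖z‖ ^ 2 / r ^ 2 := by
    rw [le_div_iff₀ (by positivity), one_mul]
    exact pow_le_pow_left₀ hr.le h 2
  rw [kb, deriv_rho_zero' this]; simp

theorem ker_contDiff (r : ℝ) {n : ℕ∞} : ContDiff ℝ n (ker r) :=
  contDiff_const.mul (rho_contDiff.comp ((contDiff_norm_sq ℝ).div_const _))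

theorem ker_continuous (r : ℝ) : Continuous (ker r) := (ker_contDiff r (n := 0)).continuous

theorem kb_continuous (r : ℝ) : Continuous (kb r) := by
  have h := continuous_deriv_rho
  unfold kb
  fun_prop

theorem ker_even (r : ℝ) (z : ℂ) : ker r (-z) = ker r z := by rw [ker, ker, norm_neg]

theorem kb_odd (r : ℝ) (z : ℂ) : kb r (-z) = -kb r z := by rw [kb, kb, norm_neg, mul_neg]

theorem ker_rot (r : ℝ) {e : ℂ} (he : ‖e‖ = 1) (z : ℂ) : ker r (e * z) = ker r z := by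
  rw [ker, ker, norm_mul, he, one_mul]

theorem kb_rot (r : ℝ) {e : ℂ} (he : ‖e‖ = 1) (z : ℂ) : kb r (e * z) = e * kb r z := by
  rw [kb, kb, norm_mul, he, one_mul]; ring

theorem ker_compact {r : ℝ} (hr : 0 < r) : HasCompactSupport (ker r) := by
  refine HasCompactSupport.of_support_subset_isCompact (isCompact_closedBall 0 r) ?_
  intro z hz
  rw [Function.mem_support] at hz
  rw [mem_closedBall_zero_iff]
  by_contra h
  push Not at h
  exact hz (ker_zero hr h.le)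

theorem kb_compact {r : ℝ} (hr : 0 < r) : HasCompactSupport (kb r) := by
  refine HasCompactSupport.of_support_subset_isCompact (isCompact_closedBall 0 r) ?_
  intro z hz
  rw [Function.mem_support] at hz
  rw [mem_closedBall_zero_iff]
  by_contra h
  push Not at h
  exact hz (kb_zero hr h.le)

theorem ker_integrable {r : ℝ} (hr : 0 < r) : Integrable (ker r) :=
  (ker_continuous r).integrable_of_hasCompactSupport (ker_compact hr)

theorem kb_integrable {r : ℝ} (hr : 0 < r) : Integrable (kb r) :=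
  (kb_continuous r).integrable_of_hasCompactSupport (kb_compact hr)

theorem scale_norm {r : ℝ} (hr : 0 < r) (z : ℂ) : ‖z‖ ^ 2 / r ^ 2 = ‖(r⁻¹ : ℝ) • z‖ ^ 2 := by
  rw [norm_smul, Real.norm_eq_abs, abs_of_pos (inv_pos.2 hr), mul_pow, inv_pow]
  field_simp

theorem integral_ker {r : ℝ} (hr : 0 < r) : ∫ z, ker r z = 1 := by
  have h : ∀ z : ℂ, ker r z = (r ^ 2)⁻¹ * (fun y : ℂ => rho (‖y‖ ^ 2)) ((r⁻¹ : ℝ) • z) := by
    intro z
    rw [ker, scale_norm hr]
  simp_rw [h]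
  rw [integral_const_mul,
    Measure.integral_comp_smul volume (fun y : ℂ => rho (‖y‖ ^ 2)) (r⁻¹ : ℝ), integral_rho,
    Complex.finrank_real_complex]
  rw [smul_eq_mul, mul_one, abs_of_pos (by positivity), inv_pow, inv_inv]
  field_simp

/-- the constant of the bounds of `Sb` -/
def CS : ℝ := ∫ z : ℂ, |deriv rho (‖z‖ ^ 2)| * ‖z‖

theorem CS_nonneg : 0 ≤ CS := integral_nonneg fun z => by positivity

theorem integral_norm_kb {r : ℝ} (hr : 0 < r) : ∫ z, ‖kb r z‖ = CS / r := by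
  have h : ∀ z : ℂ, ‖kb r z‖ =
      (r ^ 3)⁻¹ * (fun y : ℂ => |deriv rho (‖y‖ ^ 2)| * ‖y‖) ((r⁻¹ : ℝ) • z) := by
    intro z
    simp only [kb]
    rw [norm_mul, Complex.norm_real, Real.norm_eq_abs, abs_neg, abs_mul,
      abs_of_pos (by positivity : (0 : ℝ) < (r ^ 4)⁻¹), scale_norm hr, norm_smul,
      Real.norm_eq_abs, abs_of_pos (inv_pos.2 hr)]
    field_simp
  simp_rw [h]
  rw [integral_const_mul,
    Measure.integral_comp_smul volume (fun y : ℂ => |deriv rho (‖y‖ ^ 2)| * ‖y‖) (r⁻¹ : ℝ),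
    Complex.finrank_real_complex]
  rw [smul_eq_mul, abs_of_pos (by positivity), inv_pow, inv_inv, ← CS]
  field_simp

theorem integral_kb (r : ℝ) : ∫ z, kb r z = 0 := by
  have h := integral_neg_eq_self (kb r) volume
  simp_rw [kb_odd, integral_neg] at h
  have h2 : (2 : ℂ) * ∫ z, kb r z = 0 := by linear_combination (-1 : ℂ) * h
  exact (mul_eq_zero.1 h2).resolve_left two_ne_zero

/-! ### bounded functions -/

/-- bounded measurable functions -/
structure BM (h : ℂ → ℂ) (M : ℝ) : Prop where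
  meas : AEStronglyMeasurable h volume
  bd : ∀ z, ‖h z‖ ≤ M

theorem BM.locInt {h : ℂ → ℂ} {M : ℝ} (hh : BM h M) : LocallyIntegrable h volume := by
  refine (locallyIntegrable_const M).mono hh.meas (ae_of_all _ fun z => ?_)
  rw [Real.norm_eq_abs]
  exact (hh.bd z).trans (le_abs_self M)

theorem BM.shift {h : ℂ → ℂ} {M : ℝ} (hh : BM h M) (z₀ : ℂ) : BM (fun z => h (z₀ + z)) M :=
  ⟨hh.meas.comp_measurePreserving (measurePreserving_add_left volume z₀), fun _ => hh.bd _⟩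

theorem BM.int_ker {h : ℂ → ℂ} {M : ℝ} (hh : BM h M) {r : ℝ} (hr : 0 < r) (z₀ : ℂ) :
    Integrable fun z => (ker r z : ℂ) * h (z₀ + z) := by
  have h1 : Integrable fun z => (ker r z : ℂ) := (ker_integrable hr).ofReal
  refine (h1.bdd_mul (hh.shift z₀).meas (c := M) (ae_of_all _ fun z => hh.bd _)).congr ?_
  exact ae_of_all _ fun z => mul_comm _ _

theorem BM.int_kb {h : ℂ → ℂ} {M : ℝ} (hh : BM h M) {r : ℝ} (hr : 0 < r) (z₀ : ℂ) :
    Integrable fun z => kb r z * h (z₀ + z) := by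
  refine ((kb_integrable hr).bdd_mul (hh.shift z₀).meas (c := M)
    (ae_of_all _ fun z => hh.bd _)).congr ?_
  exact ae_of_all _ fun z => mul_comm _ _

theorem BM.const (c : ℂ) : BM (fun _ => c) ‖c‖ :=
  ⟨aestronglyMeasurable_const, fun _ => le_rfl⟩

theorem BM.add {h h' : ℂ → ℂ} {M M' : ℝ} (hh : BM h M) (hh' : BM h' M') :
    BM (fun z => h z + h' z) (M + M') :=
  ⟨hh.meas.add hh'.meas, fun z => (norm_add_le _ _).trans (add_le_add (hh.bd z) (hh'.bd z))⟩

theorem BM.sub {h h' : ℂ → ℂ} {M M' : ℝ} (hh : BM h M) (hh' : BM h' M') :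
    BM (fun z => h z - h' z) (M + M') :=
  ⟨hh.meas.sub hh'.meas, fun z => (norm_sub_le _ _).trans (add_le_add (hh.bd z) (hh'.bd z))⟩

theorem BM.mul_left {h : ℂ → ℂ} {M : ℝ} (hh : BM h M) (a : ℂ) :
    BM (fun z => a * h z) (‖a‖ * M) :=
  ⟨hh.meas.const_mul a, fun z => by
    rw [norm_mul]; exact mul_le_mul_of_nonneg_left (hh.bd z) (norm_nonneg _)⟩

/-! ### the derivative -/

/-- the bilinear map `(c, s) ↦ s c` -/
def LL : ℂ →L[ℝ] ℝ →L[ℝ] ℂ := (ContinuousLinearMap.lsmul ℝ ℝ).flip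

theorem LL_apply (c : ℂ) (s : ℝ) : LL c s = (s : ℂ) * c := by
  simp [LL]

theorem moll_eq_conv (r : ℝ) (h : ℂ → ℂ) : moll r h = convolution h (ker r) LL volume := by
  funext z₀
  rw [convolution_def]
  simp_rw [LL_apply]
  have h1 := integral_add_left_eq_self (μ := (volume : Measure ℂ))
    (fun t => (ker r (z₀ - t) : ℂ) * h t) z₀
  rw [← h1]
  refine integral_congr_ae (ae_of_all _ fun z => ?_)
  simp only
  rw [sub_add_cancel_left, ker_even]

theorem ker_fderiv (r : ℝ) (z v : ℂ) :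
    fderiv ℝ (ker r) z v =
      2 * ((r ^ 4)⁻¹ * deriv rho (‖z‖ ^ 2 / r ^ 2)) * (z.re * v.re + z.im * v.im) := by
  have h1 : HasFDerivAt (fun z : ℂ => ‖z‖ ^ 2) (2 • (innerSL ℝ z)) z :=
    (hasStrictFDerivAt_norm_sq z).hasFDerivAt
  have h2 : HasFDerivAt (fun z : ℂ => ‖z‖ ^ 2 / r ^ 2) ((r ^ 2)⁻¹ • (2 • (innerSL ℝ z))) z := by
    have := h1.const_mul ((r ^ 2)⁻¹)
    refine this.congr_of_eventuallyEq (Eventually.of_forall fun y => ?_)
    simp only
    rw [div_eq_inv_mul]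
  have h3 := (rho_hasDerivAt (‖z‖ ^ 2 / r ^ 2)).comp_hasFDerivAt z h2
  have h4 := h3.const_mul ((r ^ 2)⁻¹)
  have h5 : HasFDerivAt (ker r) ((r ^ 2)⁻¹ • (deriv rho (‖z‖ ^ 2 / r ^ 2) •
      ((r ^ 2)⁻¹ • (2 • (innerSL ℝ z))))) z := h4
  rw [h5.fderiv]
  simp only [smul_apply, innerSL_apply_apply, smul_eq_mul, nsmul_eq_mul,
    Complex.inner, Nat.cast_ofNat]
  simp only [Complex.mul_re, Complex.conj_re, Complex.conj_im]
  rw [show (r ^ 4)⁻¹ = (r ^ 2)⁻¹ * (r ^ 2)⁻¹ by rw [← mul_inv]; ring_nf]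
  ring

theorem moll_contDiff {h : ℂ → ℂ} {M : ℝ} (hh : BM h M) {r : ℝ} (hr : 0 < r) {n : ℕ∞} :
    ContDiff ℝ n (moll r h) := by
  rw [moll_eq_conv]
  exact (ker_compact hr).contDiff_convolution_right LL hh.locInt (ker_contDiff r)

/-- (i) `dbar` of the mollification -/
theorem dbar_moll {h : ℂ → ℂ} {M : ℝ} (hh : BM h M) {r : ℝ} (hr : 0 < r) (z₀ : ℂ) :
    dbar (moll r h) z₀ = Sb r h z₀ := by
  have hc : HasCompactSupport (ker r) := ker_compact hr
  have hd : HasFDerivAt (convolution h (ker r) LL volume)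
      ((convolution h (fderiv ℝ (ker r)) (LL.precompR ℂ) volume) z₀) z₀ :=
    hc.hasFDerivAt_convolution_right LL hh.locInt (ker_contDiff r (n := 1)) z₀
  have hint : Integrable (fun t => (LL.precompR ℂ) (h t) (fderiv ℝ (ker r) (z₀ - t))) := by
    have hcf : HasCompactSupport (fderiv ℝ (ker r)) := hc.fderiv ℝ
    have hcont : Continuous (fderiv ℝ (ker r)) :=
      (ker_contDiff r (n := 1)).continuous_fderiv (by norm_num)
    exact (hcf.convolutionExists_right (LL.precompR ℂ) hh.locInt hcont) z₀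
  have hv : ∀ v : ℂ, fderiv ℝ (moll r h) z₀ v =
      ∫ t, ((fderiv ℝ (ker r) (z₀ - t) v : ℝ) : ℂ) * h t := by
    intro v
    rw [moll_eq_conv, hd.fderiv, convolution_def,
      ContinuousLinearMap.integral_apply hint]
    refine integral_congr_ae (ae_of_all _ fun t => ?_)
    exact LL_apply _ _
  have hi : ∀ v : ℂ, Integrable fun t => ((fderiv ℝ (ker r) (z₀ - t) v : ℝ) : ℂ) * h t := by
    intro v
    have h1 := hint.apply_continuousLinearMap v
    refine h1.congr (ae_of_all _ fun t => ?_)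
    exact LL_apply _ _
  rw [dbar, hv, hv, ← integral_const_mul, ← integral_add (hi 1) ((hi I).const_mul I),
    ← integral_div, Sb]
  have h1 := integral_add_left_eq_self (μ := (volume : Measure ℂ))
    (fun t => kb r (t - z₀) * h t) z₀
  simp_rw [add_sub_cancel_left] at h1
  rw [h1]
  refine integral_congr_ae (ae_of_all _ fun t => ?_)
  simp only
  rw [ker_fderiv, ker_fderiv, kb]
  have hn : ‖t - z₀‖ = ‖z₀ - t‖ := norm_sub_rev _ _
  rw [hn]
  have hz : (t - z₀ : ℂ) = -(((z₀ - t).re : ℂ) + ((z₀ - t).im : ℂ) * I) := by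
    rw [Complex.re_add_im]; ring
  rw [hz]
  simp only [Complex.one_re, Complex.one_im, Complex.I_re, Complex.I_im]
  push_cast
  ring

/-- `Sb r h` is continuous -/
theorem Sb_continuous {h : ℂ → ℂ} {M : ℝ} (hh : BM h M) {r : ℝ} (hr : 0 < r) :
    Continuous (Sb r h) := by
  have h1 : Sb r h = fun z₀ => dbar (moll r h) z₀ := by
    funext z₀; exact (dbar_moll hh hr z₀).symm
  rw [h1]
  have h2 : Continuous (fderiv ℝ (moll r h)) :=
    (moll_contDiff hh hr (n := 1)).continuous_fderiv (by norm_num)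
  unfold dbar
  fun_prop

/-! ### bounds -/

/-- (ii) -/
theorem moll_close {h : ℂ → ℂ} {M : ℝ} (hh : BM h M) {r : ℝ} (hr : 0 < r) {z₀ c : ℂ} {η : ℝ}
    (hη : ∀ z, ‖z‖ < r → ‖h (z₀ + z) - c‖ ≤ η) : ‖moll r h z₀ - c‖ ≤ η := by
  have h1 : moll r h z₀ - c = ∫ z, (ker r z : ℂ) * (h (z₀ + z) - c) := by
    have h2 : Integrable fun z => (ker r z : ℂ) * c := (ker_integrable hr).ofReal.mul_const c
    simp_rw [mul_sub]
    rw [integral_sub (hh.int_ker hr z₀) h2,
      integral_mul_const, integral_complex_ofReal, integral_ker hr, Complex.ofReal_one, one_mul]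
    rfl
  rw [h1]
  calc ‖∫ z, (ker r z : ℂ) * (h (z₀ + z) - c)‖
      ≤ ∫ z, ker r z * η := by
        refine norm_integral_le_of_norm_le ((ker_integrable hr).mul_const η)
          (ae_of_all _ fun z => ?_)
        rw [norm_mul, Complex.norm_real, Real.norm_eq_abs, abs_of_nonneg (ker_nonneg r z)]
        by_cases hz : ‖z‖ < r
        · exact mul_le_mul_of_nonneg_left (hη z hz) (ker_nonneg r z)
        · rw [ker_zero hr (not_lt.1 hz), zero_mul, zero_mul]
    _ = η := by rw [integral_mul_const, integral_ker hr, one_mul]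

theorem moll_norm {h : ℂ → ℂ} {M : ℝ} (hh : BM h M) {r : ℝ} (hr : 0 < r) (z₀ : ℂ) :
    ‖moll r h z₀‖ ≤ M := by
  have := moll_close hh hr (z₀ := z₀) (c := 0) (η := M) (fun z _ => by simpa using hh.bd _)
  simpa using this

theorem Sb_add {h h' : ℂ → ℂ} {M M' : ℝ} (hh : BM h M) (hh' : BM h' M') {r : ℝ} (hr : 0 < r)
    (z₀ : ℂ) : Sb r (fun z => h z + h' z) z₀ = Sb r h z₀ + Sb r h' z₀ := by
  unfold Sb
  rw [← integral_add (hh.int_kb hr z₀) (hh'.int_kb hr z₀)]
  refine integral_congr_ae (ae_of_all _ fun z => ?_)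
  simp only
  ring

theorem Sb_sub {h h' : ℂ → ℂ} {M M' : ℝ} (hh : BM h M) (hh' : BM h' M') {r : ℝ} (hr : 0 < r)
    (z₀ : ℂ) : Sb r (fun z => h z - h' z) z₀ = Sb r h z₀ - Sb r h' z₀ := by
  unfold Sb
  rw [← integral_sub (hh.int_kb hr z₀) (hh'.int_kb hr z₀)]
  refine integral_congr_ae (ae_of_all _ fun z => ?_)
  simp only
  ring

theorem Sb_mul (a : ℂ) (h : ℂ → ℂ) (r : ℝ) (z₀ : ℂ) :
    Sb r (fun z => a * h z) z₀ = a * Sb r h z₀ := by
  unfold Sb
  rw [← integral_const_mul]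
  refine integral_congr_ae (ae_of_all _ fun z => ?_)
  simp only
  ring

theorem Sb_const (c : ℂ) (r : ℝ) (z₀ : ℂ) : Sb r (fun _ => c) z₀ = 0 := by
  unfold Sb
  rw [integral_mul_const, integral_kb, zero_mul]

theorem Sb_sub_const {h : ℂ → ℂ} {M : ℝ} (hh : BM h M) {r : ℝ} (hr : 0 < r) (z₀ c : ℂ) :
    Sb r (fun z => h z - c) z₀ = Sb r h z₀ := by
  rw [Sb_sub hh (BM.const c) hr, Sb_const, sub_zero]

/-- only the values in the ball count -/
theorem Sb_congr {h h' : ℂ → ℂ} {r : ℝ} (hr : 0 < r) {z₀ : ℂ}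
    (he : ∀ z, ‖z‖ < r → h (z₀ + z) = h' (z₀ + z)) : Sb r h z₀ = Sb r h' z₀ := by
  unfold Sb
  refine integral_congr_ae (ae_of_all _ fun z => ?_)
  simp only
  by_cases hz : ‖z‖ < r
  · rw [he z hz]
  · rw [kb_zero hr (not_lt.1 hz), zero_mul, zero_mul]

/-- (iii) -/
theorem Sb_bound {h : ℂ → ℂ} {M : ℝ} (hh : BM h M) {r : ℝ} (hr : 0 < r) {z₀ c : ℂ} {η : ℝ}
    (hη : ∀ z, ‖z‖ < r → ‖h (z₀ + z) - c‖ ≤ η) : ‖Sb r h z₀‖ ≤ CS / r * η := by
  rw [← Sb_sub_const hh hr z₀ c, Sb]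
  calc ‖∫ z, kb r z * (h (z₀ + z) - c)‖
      ≤ ∫ z, ‖kb r z‖ * η := by
        refine norm_integral_le_of_norm_le ((kb_integrable hr).norm.mul_const η)
          (ae_of_all _ fun z => ?_)
        rw [norm_mul]
        by_cases hz : ‖z‖ < r
        · exact mul_le_mul_of_nonneg_left (hη z hz) (norm_nonneg _)
        · rw [kb_zero hr (not_lt.1 hz), norm_zero, zero_mul, zero_mul]
    _ = CS / r * η := by rw [integral_mul_const, integral_norm_kb hr]

/-- (iii) for a difference -/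
theorem Sb_close {h h' : ℂ → ℂ} {M M' : ℝ} (hh : BM h M) (hh' : BM h' M') {r : ℝ} (hr : 0 < r)
    {z₀ c : ℂ} {η : ℝ} (hη : ∀ z, ‖z‖ < r → ‖h (z₀ + z) - h' (z₀ + z) - c‖ ≤ η) :
    ‖Sb r h z₀ - Sb r h' z₀‖ ≤ CS / r * η := by
  rw [← Sb_sub hh hh' hr]
  exact Sb_bound (hh.sub hh') hr hη

/-! ### rotations and translations -/

theorem integral_rot {e : ℂ} (he : ‖e‖ = 1) (f : ℂ → ℂ) : ∫ z, f (e * z) = ∫ z, f z := by
  let a : Circle := ⟨e, mem_sphere_zero_iff_norm.2 he⟩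
  have h1 : MeasurePreserving (rotation a) := (rotation a).measurePreserving
  have h2 := h1.integral_comp (rotation a).toHomeomorph.measurableEmbedding f
  rw [← h2]
  rfl

/-- rotations: kernel form -/
theorem Sb_rot_ker {e : ℂ} (he : ‖e‖ = 1) (h : ℂ → ℂ) (r : ℝ) (z₀ : ℂ) :
    ∫ z, kb r z * h (z₀ + e * z) = e⁻¹ * Sb r h z₀ := by
  have he0 : e ≠ 0 := by intro h0; rw [h0, norm_zero] at he; exact zero_ne_one he
  have h1 : ∫ z, kb r (e * z) * h (z₀ + e * z) = ∫ z, kb r z * h (z₀ + z) :=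
    integral_rot he (fun z => kb r z * h (z₀ + z))
  rw [Sb, ← h1, ← integral_const_mul]
  refine integral_congr_ae (ae_of_all _ fun z => ?_)
  simp only
  rw [kb_rot r he]
  field_simp

/-- (iv) rotation covariance: the function `z ↦ h (z₀ + e (z - z₀))` -/
theorem Sb_rot {e : ℂ} (he : ‖e‖ = 1) (h : ℂ → ℂ) (r : ℝ) (z₀ : ℂ) :
    Sb r (fun z => h (z₀ + e * (z - z₀))) z₀ = e⁻¹ * Sb r h z₀ := by
  rw [← Sb_rot_ker he h r z₀, Sb]
  refine integral_congr_ae (ae_of_all _ fun z => ?_)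
  simp only
  rw [add_sub_cancel_left]

/-- (iv) if `h (z₀ + e z) = e h (z₀ + z) + c` in the ball, `|e| = 1`, `e² ≠ 1`, then
`Sb r h z₀ = 0` (in particular for `e = e^{2πi/3}`) -/
theorem Sb_sym {e : ℂ} (he : ‖e‖ = 1) (he2 : e ^ 2 ≠ 1) {h : ℂ → ℂ} {M : ℝ} (hh : BM h M)
    {r : ℝ} (hr : 0 < r) {z₀ c : ℂ}
    (hs : ∀ z, ‖z‖ < r → h (z₀ + e * z) = e * h (z₀ + z) + c) : Sb r h z₀ = 0 := by
  have he0 : e ≠ 0 := by intro h0; rw [h0, norm_zero] at he; exact zero_ne_one he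
  have h1 := Sb_rot he h r z₀
  have h2 : Sb r (fun z => h (z₀ + e * (z - z₀))) z₀ = Sb r (fun z => e * h z + c) z₀ := by
    refine Sb_congr hr fun z hz => ?_
    rw [add_sub_cancel_left, hs z hz]
  rw [h2, Sb_add (hh.mul_left e) (BM.const c) hr, Sb_const, add_zero, Sb_mul] at h1
  have h3 : (e ^ 2 - 1) * Sb r h z₀ = 0 := by
    have h4 : e * (e * Sb r h z₀) = e * (e⁻¹ * Sb r h z₀) := by rw [h1]
    rw [← mul_assoc e e⁻¹, mul_inv_cancel₀ he0, one_mul] at h4
    linear_combination h4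
  exact (mul_eq_zero.1 h3).resolve_left (sub_ne_zero.2 he2)

theorem tau3_norm : ‖tau3‖ = 1 := by
  rw [tau3, Complex.norm_exp_ofReal_mul_I]

theorem tau3_sq_ne : tau3 ^ 2 ≠ 1 := by
  intro h
  have h3 : tau3 ^ 3 = 1 := by
    rw [tau3, ← Complex.exp_nat_mul]
    rw [show ((3 : ℕ) : ℂ) * (((2 * Real.pi / 3 : ℝ) : ℂ) * I) = 2 * Real.pi * I by
      push_cast; ring]
    exact Complex.exp_two_pi_mul_I
  have h1 : tau3 = 1 := by
    have : tau3 ^ 3 = tau3 ^ 2 * tau3 := by ring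
    rw [h3, h, one_mul] at this
    exact this.symm
  have hre : tau3.re = Real.cos (2 * Real.pi / 3) := by
    rw [tau3, Complex.exp_ofReal_mul_I_re]
  rw [h1, Complex.one_re, show (2 * Real.pi / 3 : ℝ) = Real.pi - Real.pi / 3 by ring,
    Real.cos_pi_sub, Real.cos_pi_div_three] at hre
  norm_num at hre

/-- (iv) for `tau3` -/
theorem Sb_tau {h : ℂ → ℂ} {M : ℝ} (hh : BM h M) {r : ℝ} (hr : 0 < r) {z₀ c : ℂ}
    (hs : ∀ z, ‖z‖ < r → h (z₀ + tau3 * z) = tau3 * h (z₀ + z) + c) : Sb r h z₀ = 0 :=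
  Sb_sym tau3_norm tau3_sq_ne hh hr hs

/-- translations -/
theorem Sb_trans (h : ℂ → ℂ) (r : ℝ) (z₀ w : ℂ) :
    Sb r (fun z => h (w + z)) z₀ = Sb r h (w + z₀) := by
  unfold Sb
  simp_rw [add_assoc]

/-! ### expectations -/

variable {Ωs : Type*} [MeasurableSpace Ωs]

/-- (v) `Sb` commutes with expectations -/
theorem Sb_integral (P : Measure Ωs) [IsFiniteMeasure P] {H : Ωs → ℂ → ℂ} {M : ℝ}
    (hm : AEStronglyMeasurable (fun p : Ωs × ℂ => H p.1 p.2) (P.prod volume))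
    (hb : ∀ ω z, ‖H ω z‖ ≤ M) {r : ℝ} (hr : 0 < r) (z₀ : ℂ) :
    ∫ ω, Sb r (H ω) z₀ ∂P = Sb r (fun z => ∫ ω, H ω z ∂P) z₀ := by
  unfold Sb
  have hmp : MeasurePreserving (fun p : Ωs × ℂ => (p.1, z₀ + p.2)) (P.prod volume)
      (P.prod volume) :=
    (MeasurePreserving.id P).prod (measurePreserving_add_left volume z₀)
  have h1 : Integrable (fun p : Ωs × ℂ => kb r p.2 * H p.1 (z₀ + p.2)) (P.prod volume) := by
    have hk : Integrable (fun p : Ωs × ℂ => kb r p.2) (P.prod volume) :=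
      (kb_integrable hr).comp_snd P
    refine (hk.bdd_mul (hm.comp_measurePreserving hmp) (c := M)
      (ae_of_all _ fun p => hb _ _)).congr ?_
    exact ae_of_all _ fun p => mul_comm _ _
  rw [integral_integral_swap h1]
  refine integral_congr_ae (ae_of_all _ fun z => ?_)
  simp only
  rw [integral_const_mul]

/-- (v) the expectation is again bounded and measurable -/
theorem BM.integral (P : Measure Ωs) [IsProbabilityMeasure P] {H : Ωs → ℂ → ℂ} {M : ℝ}
    (hm : AEStronglyMeasurable (fun p : Ωs × ℂ => H p.1 p.2) (P.prod volume))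
    (hb : ∀ ω z, ‖H ω z‖ ≤ M) : BM (fun z => ∫ ω, H ω z ∂P) M := by
  refine ⟨?_, fun z => ?_⟩
  · exact hm.prod_swap.integral_prod_right'
  · refine (norm_integral_le_of_norm_le (integrable_const M) (ae_of_all _ fun ω => hb ω z)).trans ?_
    simp

/-! ### integrals over compact sets -/

/-- (vi) -/
theorem setIntegral_Sb_le {h : ℂ → ℂ} {M : ℝ} (hh : BM h M) {r : ℝ} (hr : 0 < r) {K : Set ℂ}
    (hK : IsCompact K) {F : ℂ → ℝ} (hF : IntegrableOn F K)
    (hle : ∀ᵐ z ∂(volume.restrict K), ‖Sb r h z‖ ≤ F z) :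
    ∫ z in K, ‖Sb r h z‖ ≤ ∫ z in K, F z :=
  integral_mono_ae ((Sb_continuous hh hr).norm.continuousOn.integrableOn_compact hK) hF hle

/-- (vi) for constants -/
theorem setIntegral_Sb_le_const {h : ℂ → ℂ} {r : ℝ} {K : Set ℂ} (hK : IsCompact K) {η : ℝ}
    (hle : ∀ z ∈ K, ‖Sb r h z‖ ≤ η) : ∫ z in K, ‖Sb r h z‖ ≤ η * (volume K).toReal := by
  have h1 := norm_setIntegral_le_of_norm_le_const (μ := volume) (s := K) (C := η)
    (f := fun z => ‖Sb r h z‖) hK.measure_lt_top (fun z hz => by rw [norm_norm]; exact hle z hz)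
  rw [Real.norm_eq_abs] at h1
  exact (le_abs_self _).trans h1

/-- the form used by the end theorem -/
theorem setIntegral_dbar {h : ℂ → ℂ} {M : ℝ} (hh : BM h M) {r : ℝ} (hr : 0 < r) (K : Set ℂ) :
    ∫ z in K, ‖dbar (moll r h) z‖ = ∫ z in K, ‖Sb r h z‖ := by
  refine integral_congr_ae (ae_of_all _ fun z => ?_)
  simp only
  rw [dbar_moll hh hr]

end Crest.Agent.R143.Mollx887
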