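import Crest.Agent.R143.B0D_346
import Crest.Agent.R143.Moll_887

/-!
# Row 143 (S0194), PART B, leaf B1 (second half): the mollified `dbar` and `d/dz` of the observable as
sums over the Delaunay triangles; comparison of two networks (helper796)
-/

set_option autoImplicit false

noncomputable section

open scoped Classical

namespace Crest.Agent.R143.B1bx796

open Complex Set Filter Topology MeasureTheory
open Crest.Agent.R143.B0x346 Crest.Agent.R143.B0Dx346 Crest.Agent.R143.BC0x336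
  Crest.Agent.R143.Mollx887

/-- complex conjugation -/
abbrev cj (z : ℂ) : ℂ := (starRingEnd ℂ) z

/-- `d/dz` of the radial mollification -/
def Sd (r : ℝ) (h : ℂ → ℂ) (z₀ : ℂ) : ℂ := ∫ z, cj (kb r z) * h (z₀ + z)

theorem Sd_eq (r : ℝ) (h : ℂ → ℂ) (z₀ : ℂ) :
    Sd r h z₀ = cj (Sb r (fun z => cj (h z)) z₀) := by
  unfold Sd Sb
  rw [cj, ← integral_conj]
  refine integral_congr_ae (ae_of_all _ fun z => ?_)
  simp only [cj, map_mul, Complex.conj_conj]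

/-- the mollifier as a complex function -/
def phi (r : ℝ) (z₀ : ℂ) (z : ℂ) : ℂ := ((ker r (z - z₀) : ℝ) : ℂ)

theorem phi_contDiff (r : ℝ) (z₀ : ℂ) {n : ℕ∞} : ContDiff ℝ n (phi r z₀) := by
  have h1 : ContDiff ℝ n fun z : ℂ => ker r (z - z₀) :=
    (ker_contDiff r).comp (contDiff_id.sub contDiff_const)
  exact Complex.ofRealCLM.contDiff.comp h1

theorem cj_phi (r : ℝ) (z₀ z : ℂ) : cj (phi r z₀ z) = phi r z₀ z := Complex.conj_ofReal _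

theorem phi_zero {r : ℝ} (hr : 0 < r) {z₀ z : ℂ} (h : r ≤ ‖z - z₀‖) : phi r z₀ z = 0 := by
  rw [phi, ker_zero hr h, Complex.ofReal_zero]

/-- the constant of the bounds -/
def CK : ℝ := c0⁻¹

theorem CK_pos : 0 < CK := inv_pos.2 c0_pos

theorem ker_le {r : ℝ} (z : ℂ) : ker r z ≤ CK / r ^ 2 := by
  have h1 : rho0 (‖z‖ ^ 2 / r ^ 2) ≤ 1 := Real.smoothTransition.le_one _
  have h2 : rho (‖z‖ ^ 2 / r ^ 2) ≤ CK := by
    rw [rho, CK, div_eq_mul_inv]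
    exact mul_le_of_le_one_left (inv_nonneg.2 c0_pos.le) h1
  have h3 := mul_le_mul_of_nonneg_left h2 (inv_nonneg.2 (sq_nonneg r))
  rw [Mollx887.ker, div_eq_mul_inv CK, mul_comm CK]
  exact h3

theorem norm_phi_le (r : ℝ) (z₀ z : ℂ) : ‖phi r z₀ z‖ ≤ CK / r ^ 2 := by
  rw [phi, Complex.norm_real, Real.norm_eq_abs, abs_of_nonneg (ker_nonneg r _)]
  exact ker_le _

theorem phi_fderiv (r : ℝ) (z₀ z v : ℂ) :
    fderiv ℝ (phi r z₀) z v = ((fderiv ℝ (ker r) (z - z₀) v : ℝ) : ℂ) := by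
  have h1 : HasFDerivAt (ker r) (fderiv ℝ (ker r) (z - z₀)) (z - z₀) :=
    ((ker_contDiff r (n := 1)).differentiable (by norm_num)).differentiableAt.hasFDerivAt
  have h2 : HasFDerivAt (fun z : ℂ => z - z₀) (ContinuousLinearMap.id ℝ ℂ) z :=
    (hasFDerivAt_id z).sub_const z₀
  have h3 : HasFDerivAt (fun z : ℂ => ker r (z - z₀)) (fderiv ℝ (ker r) (z - z₀)) z := by
    have := h1.comp z h2
    rw [ContinuousLinearMap.comp_id] at this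
    exact this
  have h4 : HasFDerivAt (phi r z₀) (Complex.ofRealCLM.comp (fderiv ℝ (ker r) (z - z₀))) z :=
    Complex.ofRealCLM.hasFDerivAt.comp z h3
  rw [h4.fderiv]
  rfl

/-- `dbar` of the mollifier -/
theorem dbar_phi (r : ℝ) (z₀ z : ℂ) : dbar (phi r z₀) z = -kb r (z - z₀) := by
  rw [dbar, phi_fderiv, phi_fderiv, ker_fderiv, ker_fderiv, kb]
  have hz : (z - z₀ : ℂ) = (((z - z₀).re : ℂ) + ((z - z₀).im : ℂ) * I) :=
    (Complex.re_add_im _).symm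
  generalize ‖z - z₀‖ = n
  generalize z - z₀ = y at hz ⊢
  simp only [Complex.one_re, Complex.one_im, Complex.I_re, Complex.I_im]
  conv_rhs => rw [hz]
  push_cast
  ring

theorem Sb_eq_int (r : ℝ) (h : ℂ → ℂ) (z₀ : ℂ) :
    Sb r h z₀ = -∫ z, h z * dbar (phi r z₀) z := by
  have h1 := integral_add_left_eq_self (μ := (volume : Measure ℂ))
    (fun t => kb r (t - z₀) * h t) z₀
  simp_rw [add_sub_cancel_left] at h1
  rw [Sb, h1, ← integral_neg]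
  refine integral_congr_ae (ae_of_all _ fun z => ?_)
  simp only [dbar_phi]
  ring

theorem Sd_eq_int (r : ℝ) (h : ℂ → ℂ) (z₀ : ℂ) :
    Sd r h z₀ = -∫ z, h z * cj (dbar (phi r z₀) z) := by
  rw [Sd_eq, Sb_eq_int, cj, map_neg, ← integral_conj]
  congr 1
  refine integral_congr_ae (ae_of_all _ fun z => ?_)
  simp only [map_mul, Complex.conj_conj]

/-- average over a segment -/
def seg (φ : ℂ → ℂ) (a b : ℂ) : ℂ := ∫ s in (0:ℝ)..1, φ (a + s * (b - a))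

theorem norm_seg_le {φ : ℂ → ℂ} {M : ℝ} (h : ∀ z, ‖φ z‖ ≤ M) (a b : ℂ) : ‖seg φ a b‖ ≤ M := by
  have := intervalIntegral.norm_integral_le_of_norm_le_const (a := (0:ℝ)) (b := 1) (C := M)
    (f := fun s : ℝ => φ (a + s * (b - a))) (fun s _ => h _)
  simpa [seg] using this

theorem seg_zero {φ : ℂ → ℂ} {a b : ℂ} (h : ∀ z ∈ segment ℝ a b, φ z = 0) : seg φ a b = 0 := by
  rw [seg, intervalIntegral.integral_congr (g := fun _ => (0 : ℂ)) ?_]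
  · simp
  · intro s hs
    rw [uIcc_of_le (by norm_num)] at hs
    refine h _ ?_
    rw [segment_eq_image']
    exact ⟨s, hs, by simp [Complex.real_smul]⟩

/-- the oriented triangles whose first side meets the ball -/
def touch (z₀ : ℂ) (r : ℝ) (S : Finset ℂ) : Finset (ℂ × ℂ × ℂ) :=
  (delT S).filter fun t => ∃ x ∈ segment ℝ t.1 t.2.1, ‖x - z₀‖ < r

theorem seg_off {r : ℝ} (hr : 0 < r) {z₀ a b : ℂ} (h : ¬ ∃ x ∈ segment ℝ a b, ‖x - z₀‖ < r) :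
    seg (phi r z₀) a b = 0 := by
  push Not at h
  exact seg_zero fun z hz => phi_zero hr (h z hz)

/-- Stokes for the mollifier (output of the first half) -/
structure Stk (S : Finset ℂ) (N : Net ℂ) (r : ℝ) (z₀ : ℂ) : Prop where
  db : ∫ z, hval N z * dbar (phi r z₀) z =
    (I / 2) * ∑ t ∈ delT S, N.Q t * (t.2.1 - t.1) * seg (phi r z₀) t.1 t.2.1
  dd : ∫ z, hval N z * cj (dbar (phi r z₀) z) =
    -(I / 2) * ∑ t ∈ delT S, N.Q t * cj (t.2.1 - t.1) * seg (phi r z₀) t.1 t.2.1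

variable {S S' : Finset ℂ} {N N' : Net ℂ} {r : ℝ} {z₀ : ℂ}

theorem sum_touch (hr : 0 < r) (f : ℂ × ℂ × ℂ → ℂ) :
    ∑ t ∈ delT S, f t * seg (phi r z₀) t.1 t.2.1 =
      ∑ t ∈ touch z₀ r S, f t * seg (phi r z₀) t.1 t.2.1 := by
  rw [touch, Finset.sum_filter]
  refine Finset.sum_congr rfl fun t _ => ?_
  split_ifs with h
  · rfl
  · rw [seg_off hr h, mul_zero]

/-- **B1 for `dbar`** -/
theorem Sb_net (hr : 0 < r) (h : Stk S N r z₀) :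
    Sb r (hval N) z₀ =
      -(I / 2) * ∑ t ∈ touch z₀ r S, N.Q t * (t.2.1 - t.1) * seg (phi r z₀) t.1 t.2.1 := by
  rw [Sb_eq_int, h.db, sum_touch hr fun t => N.Q t * (t.2.1 - t.1)]
  ring

/-- **B1 for `d/dz`** -/
theorem Sd_net (hr : 0 < r) (h : Stk S N r z₀) :
    Sd r (hval N) z₀ =
      (I / 2) * ∑ t ∈ touch z₀ r S, N.Q t * cj (t.2.1 - t.1) * seg (phi r z₀) t.1 t.2.1 := by
  rw [Sd_eq_int, h.dd, sum_touch hr fun t => N.Q t * cj (t.2.1 - t.1)]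
  ring

theorem norm_I_half : ‖(I / 2 : ℂ)‖ = 1 / 2 := by
  rw [norm_div, Complex.norm_I]; norm_num

/-- abstract comparison of two sums -/
theorem cmp_sum (T : Finset (ℂ × ℂ × ℂ)) (Q Q' w : ℂ × ℂ × ℂ → ℂ) (lam : ℂ)
    (hw : ∀ t ∈ T, ‖w t‖ ≤ ‖t.2.1 - t.1‖) (r : ℝ) (z₀ : ℂ) :
    ‖∑ t ∈ T, Q t * w t * seg (phi r z₀) t.1 t.2.1 -
      lam * ∑ t ∈ T, Q' t * w t * seg (phi r z₀) t.1 t.2.1‖ ≤
      CK / r ^ 2 * ∑ t ∈ T, ‖Q t - lam * Q' t‖ * ‖t.2.1 - t.1‖ := by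
  rw [Finset.mul_sum, ← Finset.sum_sub_distrib, Finset.mul_sum]
  refine (norm_sum_le _ _).trans (Finset.sum_le_sum fun t ht => ?_)
  have e : Q t * w t * seg (phi r z₀) t.1 t.2.1 - lam * (Q' t * w t * seg (phi r z₀) t.1 t.2.1) =
      (Q t - lam * Q' t) * w t * seg (phi r z₀) t.1 t.2.1 := by ring
  rw [e, norm_mul, norm_mul, mul_comm]
  refine mul_le_mul (norm_seg_le (norm_phi_le r z₀) _ _)
    (mul_le_mul_of_nonneg_left (hw t ht) (norm_nonneg _)) (by positivity) ?_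
  have := CK_pos
  positivity

/-- two networks with the same triangles near `z₀`, `dbar` -/
theorem Sb_cmp (hr : 0 < r) (h : Stk S N r z₀) (h' : Stk S' N' r z₀)
    (hT : touch z₀ r S = touch z₀ r S') (lam : ℂ) :
    ‖Sb r (hval N) z₀ - lam * Sb r (hval N') z₀‖ ≤
      CK / r ^ 2 * ∑ t ∈ touch z₀ r S, ‖N.Q t - lam * N'.Q t‖ * ‖t.2.1 - t.1‖ := by
  have hc := cmp_sum (touch z₀ r S) N.Q N'.Q (fun t => t.2.1 - t.1) lam (fun _ _ => le_rfl) r z₀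
  rw [Sb_net hr h, Sb_net hr h', ← hT]
  set A := ∑ t ∈ touch z₀ r S, N.Q t * (t.2.1 - t.1) * seg (phi r z₀) t.1 t.2.1
  set B := ∑ t ∈ touch z₀ r S, N'.Q t * (t.2.1 - t.1) * seg (phi r z₀) t.1 t.2.1
  have e : -(I / 2) * A - lam * (-(I / 2) * B) = -(I / 2) * (A - lam * B) := by ring
  rw [e, norm_mul, norm_neg, norm_I_half]
  have h0 : 0 ≤ ‖A - lam * B‖ := norm_nonneg _
  linarith

/-- two networks with the same triangles near `z₀`, `d/dz` -/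
theorem Sd_cmp (hr : 0 < r) (h : Stk S N r z₀) (h' : Stk S' N' r z₀)
    (hT : touch z₀ r S = touch z₀ r S') (lam : ℂ) :
    ‖Sd r (hval N) z₀ - lam * Sd r (hval N') z₀‖ ≤
      CK / r ^ 2 * ∑ t ∈ touch z₀ r S, ‖N.Q t - lam * N'.Q t‖ * ‖t.2.1 - t.1‖ := by
  have hc := cmp_sum (touch z₀ r S) N.Q N'.Q (fun t => cj (t.2.1 - t.1)) lam
    (fun t _ => by rw [cj, RCLike.norm_conj]) r z₀
  rw [Sd_net hr h, Sd_net hr h', ← hT]
  set A := ∑ t ∈ touch z₀ r S, N.Q t * cj (t.2.1 - t.1) * seg (phi r z₀) t.1 t.2.1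
  set B := ∑ t ∈ touch z₀ r S, N'.Q t * cj (t.2.1 - t.1) * seg (phi r z₀) t.1 t.2.1
  have e : (I / 2) * A - lam * ((I / 2) * B) = (I / 2) * (A - lam * B) := by ring
  rw [e, norm_mul, norm_I_half]
  have h0 : 0 ≤ ‖A - lam * B‖ := norm_nonneg _
  linarith

/-- Cauchy-Schwarz form of the right-hand side -/
theorem sum_cs (T : Finset (ℂ × ℂ × ℂ)) (Q Q' : ℂ × ℂ × ℂ → ℂ) (lam : ℂ) {η : ℝ} (hη : 0 ≤ η)
    (hQ : ∀ t ∈ T, ‖Q t - lam * Q' t‖ ≤ η * ‖Q t‖) :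
    ∑ t ∈ T, ‖Q t - lam * Q' t‖ * ‖t.2.1 - t.1‖ ≤
      η * (Real.sqrt (∑ t ∈ T, ‖Q t‖ ^ 2) * Real.sqrt (∑ t ∈ T, ‖t.2.1 - t.1‖ ^ 2)) := by
  calc ∑ t ∈ T, ‖Q t - lam * Q' t‖ * ‖t.2.1 - t.1‖
      ≤ ∑ t ∈ T, η * (‖Q t‖ * ‖t.2.1 - t.1‖) := by
        refine Finset.sum_le_sum fun t ht => ?_
        rw [← mul_assoc]
        exact mul_le_mul_of_nonneg_right (hQ t ht) (norm_nonneg _)
    _ = η * ∑ t ∈ T, ‖Q t‖ * ‖t.2.1 - t.1‖ := by rw [Finset.mul_sum]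
    _ ≤ _ := mul_le_mul_of_nonneg_left (Real.sum_mul_le_sqrt_mul_sqrt T _ _) hη

/-- **output of B1, `dbar`** -/
theorem Sb_out (hr : 0 < r) (h : Stk S N r z₀) (h' : Stk S' N' r z₀)
    (hT : touch z₀ r S = touch z₀ r S') (lam : ℂ) {η : ℝ} (hη : 0 ≤ η)
    (hQ : ∀ t ∈ touch z₀ r S, ‖N.Q t - lam * N'.Q t‖ ≤ η * ‖N.Q t‖) :
    ‖Sb r (hval N) z₀ - lam * Sb r (hval N') z₀‖ ≤
      CK / r ^ 2 * (η * (Real.sqrt (∑ t ∈ touch z₀ r S, ‖N.Q t‖ ^ 2) *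
        Real.sqrt (∑ t ∈ touch z₀ r S, ‖t.2.1 - t.1‖ ^ 2))) := by
  refine (Sb_cmp hr h h' hT lam).trans (mul_le_mul_of_nonneg_left (sum_cs _ _ _ lam hη hQ) ?_)
  have := CK_pos
  positivity

/-- **output of B1, `d/dz`** -/
theorem Sd_out (hr : 0 < r) (h : Stk S N r z₀) (h' : Stk S' N' r z₀)
    (hT : touch z₀ r S = touch z₀ r S') (lam : ℂ) {η : ℝ} (hη : 0 ≤ η)
    (hQ : ∀ t ∈ touch z₀ r S, ‖N.Q t - lam * N'.Q t‖ ≤ η * ‖N.Q t‖) :
    ‖Sd r (hval N) z₀ - lam * Sd r (hval N') z₀‖ ≤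
      CK / r ^ 2 * (η * (Real.sqrt (∑ t ∈ touch z₀ r S, ‖N.Q t‖ ^ 2) *
        Real.sqrt (∑ t ∈ touch z₀ r S, ‖t.2.1 - t.1‖ ^ 2))) := by
  refine (Sd_cmp hr h h' hT lam).trans (mul_le_mul_of_nonneg_left (sum_cs _ _ _ lam hη hQ) ?_)
  have := CK_pos
  positivity

end Crest.Agent.R143.B1bx796
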