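import Crest.Agent.R143.EQ2_63
import Crest.Agent.R143.B1b_796

/-!
# Row 143 (S0194), leaf LOW, part (ii): the energy near a point bounds the oscillation (helper991)

* `circle_en` : `circle_osc` of `EQ2_63` with the energy `E` of the triangles which meet the disc
* `low_ii` : the oscillation of `N.F` on the live sides of the triangles which meet a small disc is
  bounded by the energy of the triangles `touch z₀ r S`
* `low_asm` : with the lower bound of the oscillation (part (i), helper697) : the energy is large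
-/

set_option autoImplicit false

noncomputable section

namespace Crest.Agent.R143.Lowx991

open Set MeasureTheory
open scoped Classical
open Crest.Agent.R143.B0x346 Crest.Agent.R143.B0Dx346 Crest.Agent.R143.Oscx63
open Crest.Agent.R143.DelGx806 Crest.Agent.R143.Circx63 Crest.Agent.R143.Scalx63
open Crest.Agent.R143.EQ2x63
open Crest.Agent.R143.B1bx796 (touch)

/-- the inputs of part (ii): as `EQ2x63.Room` without the energy -/
structure RoomE (S : Finset ℂ) (N : Net ℂ) (x : ℂ) (k0 : ℤ) (n : ℕ) (d C : ℝ) : Prop where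
  hn : 0 < n
  C0 : 0 ≤ C
  mesh : ∀ t ∈ delT S, (cT t ∩ Metric.closedBall x ((2 : ℝ) ^ k0)).Nonempty → dm t ≤ d
  cov : ∀ y ∈ Metric.closedBall x ((2 : ℝ) ^ k0), ∃ t ∈ delT S, y ∈ cT t
  live : ∀ u v w : ℂ, (u, v, w) ∈ delT S → ∀ y ∈ Metric.closedBall x ((2 : ℝ) ^ k0),
    y ∈ segment ℝ u v → (u, v) ∉ N.kl
  rel : ∀ t ∈ delT S, (cT t ∩ Metric.closedBall x ((2 : ℝ) ^ k0)).Nonempty → RelAt N t
  m4 : ∀ k ∈ Finset.Ico (k0 - n) k0,
    ∑ t ∈ (delT S).filter (fun t => lo x t ≤ (2 : ℝ) ^ (k + 1) ∧ (2 : ℝ) ^ k ≤ hi x t),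
      dm t ^ 2 ≤ C * (4 : ℝ) ^ k
  max : ∀ ρ : ℝ, 0 < ρ → ρ ≤ (2 : ℝ) ^ k0 → MaxP S N (S.filter fun s => ‖s - x‖ < ρ)

theorem RoomE.of {S : Finset ℂ} {N : Net ℂ} {x : ℂ} {k0 : ℤ} {n : ℕ} {d C : ℝ}
    (h : Room S N x k0 n d C) : RoomE S N x k0 n d C :=
  ⟨h.hn, h.C0, h.mesh, h.cov, h.live, h.rel, h.m4, h.max⟩

/-- a circle such that `F` has small oscillation on the triangles which meet it -/
theorem circle_en {S : Finset ℂ} {N : Net ℂ} (hS : GP (S : Set ℂ)) {x : ℂ} {k0 : ℤ} {n : ℕ}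
    {d C : ℝ} (h : RoomE S N x k0 n d C) {E : ℝ}
    (hE : ∑ t ∈ (delT S).filter fun t =>
      (cT t ∩ Metric.closedBall x ((2 : ℝ) ^ k0)).Nonempty, ‖N.Q t‖ ^ 2 ≤ E) :
    ∃ ρ : ℝ, (2 : ℝ) ^ (k0 - n) ≤ ρ ∧ ρ ≤ (2 : ℝ) ^ k0 ∧ (∀ s ∈ S, ‖s - x‖ ≠ ρ) ∧
      ∀ t ∈ delT S, ∀ t' ∈ delT S, (cT t ∩ Metric.sphere x ρ).Nonempty →
      (cT t' ∩ Metric.sphere x ρ).Nonempty → ∀ e e' : ℂ × ℂ, LSide N t e → LSide N t' e' →
      ‖N.F e.1 e.2 - N.F e'.1 e'.2‖ ≤ Real.sqrt 3 * Real.sqrt (C * (Real.sqrt C + 2) * E / n) := by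
  set U := (delT S).filter fun t => (cT t ∩ Metric.closedBall x ((2 : ℝ) ^ k0)).Nonempty with hU
  have hK : (Finset.Ico (k0 - n) k0).Nonempty := by
    rw [Finset.nonempty_Ico]
    have := h.hn
    omega
  have hcard : ((Finset.Ico (k0 - n) k0).card : ℝ) = n := by
    rw [Int.card_Ico]
    norm_num
  obtain ⟨k, hk, ρ, ⟨hρ1, hρ2⟩, hρS, hosc⟩ := good_radius (N := N) x U (Finset.filter_subset _ _)
    (fun t ht => h.rel t (Finset.mem_filter.mp ht).1 (Finset.mem_filter.mp ht).2) h.C0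
    (Finset.Ico (k0 - n) k0) hK
    (by
      intro k hk
      refine le_trans (Finset.sum_le_sum_of_subset_of_nonneg ?_ fun t _ _ => sq_nonneg _)
        (h.m4 k hk)
      intro t ht
      rw [Finset.mem_filter] at ht ⊢
      exact ⟨(Finset.mem_filter.mp ht.1).1, ht.2⟩)
    hE
  rw [Finset.mem_Ico] at hk
  have hρ3 : (2 : ℝ) ^ (k0 - n) ≤ ρ := (zpow_le_zpow_right₀ (by norm_num) hk.1).trans hρ1
  have hρ4 : ρ ≤ (2 : ℝ) ^ k0 := hρ2.trans (zpow_le_zpow_right₀ (by norm_num) (by omega))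
  refine ⟨ρ, hρ3, hρ4, hρS, ?_⟩
  intro t ht t' ht' hm hm' e e' he he'
  rw [hcard] at hosc
  have hsph : Metric.sphere x ρ ⊆ Metric.closedBall x ((2 : ℝ) ^ k0) :=
    Metric.sphere_subset_closedBall.trans (Metric.closedBall_subset_closedBall hρ4)
  apply hosc
  refine conn_all hS (isPreconnected_sph x ρ) (fun y hy => h.cov y (hsph hy)) ?_
    (fun u v w huv y hy hseg => h.live u v w huv y (hsph hy) hseg) ?_ ht hm ht' hm' he he'
  · intro y hy hyS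
    rw [mem_sphere_iff_norm] at hy
    exact hρS y hyS hy
  · intro s hs hsm
    refine ⟨s, ?_, mem_rots_self s⟩
    obtain ⟨y, hy1, hy2⟩ := hsm
    obtain ⟨o, hT⟩ := mem_delT_iff.1 (show (s.1, s.2.1, s.2.2) ∈ delT S from hs)
    have hy3 : ‖y - x‖ = ρ := by rw [mem_sphere_iff_norm] at hy2; exact hy2
    rw [Finset.mem_filter, Finset.mem_filter]
    refine ⟨⟨hs, ⟨y, hy1, hsph hy2⟩⟩, ?_, ?_⟩
    · rw [← hy3]; exact lo_le hy1
    · rw [← hy3]; exact le_hi hT.pos hy1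

/-- `e` is a live side of a triangle which meets the closed ball of radius `r0` -/
def LiveIn (S : Finset ℂ) (N : Net ℂ) (x : ℂ) (r0 : ℝ) (e : ℂ × ℂ) : Prop :=
  ∃ t ∈ delT S, (cT t ∩ Metric.closedBall x r0).Nonempty ∧ LSide N t e

/-- a side of a triangle is an edge, its first site is near the ball -/
theorem LiveIn.edge {S : Finset ℂ} {N : Net ℂ} (hS : GP (S : Set ℂ)) {x : ℂ} {r0 : ℝ} {e : ℂ × ℂ}
    (h : LiveIn S N x r0 e) {d : ℝ}
    (hd : ∀ t ∈ delT S, (cT t ∩ Metric.closedBall x r0).Nonempty → dm t ≤ d) :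
    e.1 ∈ S ∧ ‖e.1 - x‖ ≤ r0 + d ∧ Edg S e.1 e.2 := by
  obtain ⟨t, ht, hm, hkl, he⟩ := h
  obtain ⟨a, b, c⟩ := t
  have hdt := hd _ ht hm
  obtain ⟨o, hT⟩ := mem_delT_iff.1 ht
  obtain ⟨y, hy1, hy2⟩ := hm
  rw [mem_closedBall_iff_norm] at hy2
  have hhi := hi_le_add (x := x) hT.pos hy1
  have ha : ‖a - x‖ ≤ r0 + d := ((le_max_left _ _).trans (le_max_left _ _)).trans
    (hhi.trans (by linarith))
  have hb : ‖b - x‖ ≤ r0 + d := ((le_max_right _ _).trans (le_max_left _ _)).trans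
    (hhi.trans (by linarith))
  have hc : ‖c - x‖ ≤ r0 + d := (le_max_right _ _).trans (hhi.trans (by linarith))
  have h1 : (b, c, a) ∈ delT S := (g1 S hS).1 _ _ _ ht
  have h2 : (c, a, b) ∈ delT S := (g1 S hS).1 _ _ _ h1
  simp only at he
  rcases he with rfl | rfl | rfl | rfl | rfl | rfl
  · exact ⟨hT.ma, ha, Or.inl ⟨c, ht⟩⟩
  · exact ⟨hT.mb, hb, Or.inl ⟨a, h1⟩⟩
  · exact ⟨hT.mc, hc, Or.inl ⟨b, h2⟩⟩
  · exact ⟨hT.mb, hb, Or.inr ⟨c, ht⟩⟩
  · exact ⟨hT.mc, hc, Or.inr ⟨a, h1⟩⟩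
  · exact ⟨hT.ma, ha, Or.inr ⟨b, h2⟩⟩

/-- **oscillation on a small disc, by the energy of the triangles which meet the larger disc** -/
theorem osc_en {S : Finset ℂ} {N : Net ℂ} (hS : GP (S : Set ℂ)) {x : ℂ} {k0 : ℤ} {n : ℕ}
    {d C : ℝ} (h : RoomE S N x k0 n d C) {E : ℝ}
    (hE : ∑ t ∈ (delT S).filter fun t =>
      (cT t ∩ Metric.closedBall x ((2 : ℝ) ^ k0)).Nonempty, ‖N.Q t‖ ^ 2 ≤ E)
    {r0 : ℝ} (hr0 : r0 + d < (2 : ℝ) ^ (k0 - n)) {e e' : ℂ × ℂ}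
    (he : LiveIn S N x r0 e) (he' : LiveIn S N x r0 e') :
    ‖N.F e.1 e.2 - N.F e'.1 e'.2‖ ≤ Real.sqrt 3 * Real.sqrt (C * (Real.sqrt C + 2) * E / n) := by
  obtain ⟨ρ, hρ1, hρ2, hρS, hosc⟩ := circle_en hS h hE
  set M := Real.sqrt 3 * Real.sqrt (C * (Real.sqrt C + 2) * E / n) with hM
  have hρ0 : 0 < ρ := lt_of_lt_of_le (by positivity) hρ1
  set W := S.filter fun s => ‖s - x‖ < ρ with hW
  set B : Set ℂ := {y : ℂ | ∃ a ∈ W, ∃ b, b ∉ W ∧ Edg S a b ∧ y = N.F a b} with hB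
  have hmax : MaxP S N W := h.max ρ hρ0 hρ2
  -- the values on the boundary are close to each other
  have hBe : ∀ y ∈ B, ∃ t ∈ delT S, (cT t ∩ Metric.sphere x ρ).Nonempty ∧
      ∃ e : ℂ × ℂ, LSide N t e ∧ y = N.F e.1 e.2 := by
    rintro y ⟨a, haW, b, hbW, hab, rfl⟩
    have ha : ‖a - x‖ ≤ ρ := (Finset.mem_filter.mp haW).2.le
    have hbS : b ∈ S := by
      rcases hab with ⟨c, hc⟩ | ⟨c, hc⟩
      · obtain ⟨o, hT⟩ := mem_delT_iff.1 hc; exact hT.mb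
      · obtain ⟨o, hT⟩ := mem_delT_iff.1 hc; exact hT.ma
    have hb : ρ ≤ ‖b - x‖ := by
      by_contra hcon
      exact hbW (Finset.mem_filter.mpr ⟨hbS, not_le.mp hcon⟩)
    obtain ⟨y, hy1, hy2⟩ := seg_sph ha hb
    have hyB : y ∈ Metric.closedBall x ((2 : ℝ) ^ k0) :=
      (Metric.sphere_subset_closedBall.trans (Metric.closedBall_subset_closedBall hρ2)) hy2
    rcases hab with ⟨c, hc⟩ | ⟨c, hc⟩
    · obtain ⟨o, hT⟩ := mem_delT_iff.1 hc
      refine ⟨(a, b, c), hc, ⟨y, seg_sub_cT hT.pos hy1, hy2⟩, (a, b), ?_, rfl⟩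
      exact LSide_of (mem_rots_self _) (h.live a b c hc y hyB hy1)
    · obtain ⟨o, hT⟩ := mem_delT_iff.1 hc
      rw [segment_symm] at hy1
      refine ⟨(b, a, c), hc, ⟨y, seg_sub_cT hT.pos hy1, hy2⟩, (b, a), ?_, ?_⟩
      · exact LSide_of (mem_rots_self _) (h.live b a c hc y hyB hy1)
      · exact F_comm N a b
  have hBd : ∀ y ∈ B, ∀ y' ∈ B, ‖y - y'‖ ≤ M := by
    intro y hy y' hy'
    obtain ⟨t, ht, hm, e, he, rfl⟩ := hBe y hy
    obtain ⟨t', ht', hm', e', he', rfl⟩ := hBe y' hy'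
    exact hosc t ht t' ht' hm hm' e e' he he'
  -- the convex hull
  have hconv : ∀ y ∈ convexHull ℝ B, ∀ y' ∈ convexHull ℝ B, ‖y - y'‖ ≤ M := by
    intro y hy y' hy'
    have h1 : ∀ u ∈ B, convexHull ℝ B ⊆ Metric.closedBall u M := by
      intro u hu
      refine convexHull_min (fun v hv => ?_) (convex_closedBall _ _)
      rw [mem_closedBall_iff_norm]
      exact hBd v hv u hu
    have h2 : convexHull ℝ B ⊆ Metric.closedBall y' M := by
      refine convexHull_min (fun v hv => ?_) (convex_closedBall _ _)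
      have := h1 v hv hy'
      rw [mem_closedBall_iff_norm] at this ⊢
      rwa [norm_sub_rev]
    have := h2 hy
    rwa [mem_closedBall_iff_norm] at this
  have key : ∀ e : ℂ × ℂ, LiveIn S N x r0 e → N.F e.1 e.2 ∈ convexHull ℝ B := by
    intro e he
    obtain ⟨h1, h2, h3⟩ := he.edge hS (d := d) (by
      intro t ht hm
      refine h.mesh t ht (hm.mono (inter_subset_inter_right _ ?_))
      apply Metric.closedBall_subset_closedBall
      have hd0 : 0 ≤ d := by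
        obtain ⟨t, ht, hxt⟩ := h.cov x (by
          rw [mem_closedBall_iff_norm]; simp; positivity)
        have h1 := h.mesh t ht ⟨x, hxt, by rw [mem_closedBall_iff_norm]; simp; positivity⟩
        have h2 : 0 ≤ dm t := by
          unfold dm
          exact le_max_of_le_right (norm_nonneg _)
        linarith
      have hle : (2 : ℝ) ^ (k0 - n) ≤ (2 : ℝ) ^ k0 := zpow_le_zpow_right₀ (by norm_num) (by omega)
      linarith)
    have he1 : e.1 ∈ W := Finset.mem_filter.mpr ⟨h1, by linarith⟩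
    exact hmax e.1 he1 e.2 h3
  exact hconv _ (key e he) _ (key e' he')

/-- the triangles which meet the closed ball of radius `s` are in `touch` -/
theorem sub_touch {S : Finset ℂ} {x : ℂ} {s d r : ℝ} (hs : s + d < r)
    (mesh : ∀ t ∈ delT S, (cT t ∩ Metric.closedBall x s).Nonempty → dm t ≤ d) :
    ((delT S).filter fun t => (cT t ∩ Metric.closedBall x s).Nonempty) ⊆ touch x r S := by
  intro t ht
  rw [Finset.mem_filter] at ht
  obtain ⟨ht, hm⟩ := ht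
  have hdt := mesh t ht hm
  obtain ⟨a, b, c⟩ := t
  obtain ⟨o, hT⟩ := mem_delT_iff.1 ht
  obtain ⟨y, hy1, hy2⟩ := hm
  rw [mem_closedBall_iff_norm] at hy2
  have hhi := hi_le_add (x := x) hT.pos hy1
  have ha : ‖a - x‖ ≤ s + d := ((le_max_left _ _).trans (le_max_left _ _)).trans
    (hhi.trans (by linarith))
  rw [touch, Finset.mem_filter]
  exact ⟨ht, a, left_mem_segment ℝ a b, by linarith⟩

/-- **part (ii) of LOW** (`k0` : the dyadic scale just below `r`) -/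
theorem low_ii {S : Finset ℂ} {N : Net ℂ} (hS : GP (S : Set ℂ)) {x : ℂ} {k0 : ℤ}
    {d C : ℝ} (h : RoomE S N x k0 1 d C) {r : ℝ} (hr : (2 : ℝ) ^ k0 + d < r)
    {r0 : ℝ} (hr0 : r0 + d < (2 : ℝ) ^ (k0 - 1)) {e e' : ℂ × ℂ}
    (he : LiveIn S N x r0 e) (he' : LiveIn S N x r0 e') :
    ‖N.F e.1 e.2 - N.F e'.1 e'.2‖ ^ 2 ≤
      3 * (C * (Real.sqrt C + 2)) * ∑ t ∈ touch x r S, ‖N.Q t‖ ^ 2 := by
  set E := ∑ t ∈ touch x r S, ‖N.Q t‖ ^ 2 with hE
  have hE0 : 0 ≤ E := Finset.sum_nonneg fun _ _ => sq_nonneg _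
  have h1 := osc_en hS h (E := E)
    (Finset.sum_le_sum_of_subset_of_nonneg (sub_touch hr h.mesh) fun _ _ _ => sq_nonneg _)
    (by simpa using hr0) he he'
  have hC := h.C0
  have h2 : 0 ≤ C * (Real.sqrt C + 2) * E := by positivity
  calc ‖N.F e.1 e.2 - N.F e'.1 e'.2‖ ^ 2
      ≤ (Real.sqrt 3 * Real.sqrt (C * (Real.sqrt C + 2) * E / (1 : ℕ))) ^ 2 := by gcongr
    _ = 3 * (C * (Real.sqrt C + 2)) * E := by
      rw [mul_pow, Real.sq_sqrt (by norm_num), Nat.cast_one, div_one, Real.sq_sqrt h2]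
      ring

/-- **LOW from the lower bound of the oscillation** (part (i)) -/
theorem low_asm {S : Finset ℂ} {N : Net ℂ} (hS : GP (S : Set ℂ)) {x : ℂ} {k0 : ℤ}
    {d C : ℝ} (h : RoomE S N x k0 1 d C) {r : ℝ} (hr : (2 : ℝ) ^ k0 + d < r)
    {r0 : ℝ} (hr0 : r0 + d < (2 : ℝ) ^ (k0 - 1)) {e e' : ℂ × ℂ}
    (he : LiveIn S N x r0 e) (he' : LiveIn S N x r0 e') {b : ℝ} (hb : 0 ≤ b)
    (hosc : b ≤ ‖N.F e.1 e.2 - N.F e'.1 e'.2‖) {C1 : ℝ} (hC1 : 0 < C1)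
    (hCC : 3 * (C * (Real.sqrt C + 2)) ≤ C1) :
    b ^ 2 / C1 ≤ ∑ t ∈ touch x r S, ‖N.Q t‖ ^ 2 := by
  have h1 := low_ii hS h hr hr0 he he'
  have hE0 : 0 ≤ ∑ t ∈ touch x r S, ‖N.Q t‖ ^ 2 := Finset.sum_nonneg fun _ _ => sq_nonneg _
  rw [div_le_iff₀ hC1]
  calc b ^ 2 ≤ ‖N.F e.1 e.2 - N.F e'.1 e'.2‖ ^ 2 := by gcongr
    _ ≤ _ := h1
    _ ≤ C1 * ∑ t ∈ touch x r S, ‖N.Q t‖ ^ 2 := mul_le_mul_of_nonneg_right hCC hE0
    _ = _ := mul_comm _ _

end Crest.Agent.R143.Lowx991
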