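import Crest.Agent.R143.B0D_346

/-!
# Row 143 (S0194), leaf LOW : the arc `i` is seen from `z` in a sector of directions (helper697)
-/

set_option autoImplicit false

noncomputable section

namespace Crest.Agent.R143.Sec0x697

open Crest.Agent.R143.B0x346 Crest.Agent.R143.B0Dx346

/-- every ray from `z` with direction in `[φ, φ + θ]` meets only `R i` up to the distance `ρ`, and
is well inside `R i` at the distance `ρ` -/
structure Sector (D : Dom) (z : ℂ) (i : ZMod 3) (φ θ ρ m : ℝ) : Prop where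
  θpos : 0 < θ
  θle : θ ≤ 1
  ρpos : 0 < ρ
  mpos : 0 < m
  hit : ∀ x ∈ Set.Icc φ (φ + θ),
    Metric.ball (z + ρ * Complex.exp (x * Complex.I)) m ⊆ D.R i
  miss : ∀ x ∈ Set.Icc φ (φ + θ), ∀ s ∈ Set.Icc 0 ρ, ∀ j, j ≠ i →
    Disjoint (Metric.ball (z + s * Complex.exp (x * Complex.I)) m) (D.R j)
  inn : ‖z - D.c‖ + ρ + m ≤ D.L / 2

end Crest.Agent.R143.Sec0x697
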