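import Crest.Agent.R143.Front_336

/-!
# Row 143 (S0194): end theorem with the alternative holomorphic / antiholomorphic (helper336)

* `del` : the operator `∂/∂z`; `dbar_conj`
* `EndM` : as `EndH`, but only the minimum of the two masses tends to zero
* `end_coreM`, `frontM`, `front194M`
-/

set_option autoImplicit false

noncomputable section

namespace Crest.Agent.R143.EndBx336

open Complex Set Filter Topology MeasureTheory
open Crest.ProbabilityR.Voronoi Crest.Agent.R143.BC0x336 Crest.Agent.R143.EndAx336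

/-- the operator `∂/∂z` -/
def del (f : ℂ → ℂ) (z : ℂ) : ℂ := (fderiv ℝ f z 1 - I * fderiv ℝ f z I) / 2

/-- complex conjugate of a function -/
def cj (f : ℂ → ℂ) : ℂ → ℂ := fun z => (starRingEnd ℂ) (f z)

theorem fderiv_cj {f : ℂ → ℂ} {z : ℂ} (hf : DifferentiableAt ℝ f z) (v : ℂ) :
    fderiv ℝ (cj f) z v = (starRingEnd ℂ) (fderiv ℝ f z v) := by
  have h : HasFDerivAt (cj f) ((Complex.conjCLE : ℂ →L[ℝ] ℂ).comp (fderiv ℝ f z)) z :=
    (Complex.conjCLE : ℂ →L[ℝ] ℂ).hasFDerivAt.comp z hf.hasFDerivAt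
  rw [h.fderiv]
  rfl

theorem dbar_cj {f : ℂ → ℂ} (hf : ContDiff ℝ 1 f) (z : ℂ) :
    dbar (cj f) z = (starRingEnd ℂ) (del f z) := by
  have hd : DifferentiableAt ℝ f z := (hf.differentiable (by norm_num)) z
  unfold dbar del
  rw [fderiv_cj hd, fderiv_cj hd]
  simp only [map_div₀, map_sub, map_mul, Complex.conj_I, map_ofNat]
  ring

theorem norm_dbar_cj {f : ℂ → ℂ} (hf : ContDiff ℝ 1 f) (z : ℂ) :
    ‖dbar (cj f) z‖ = ‖del f z‖ := by
  rw [dbar_cj hf, Complex.norm_conj]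

theorem contDiff_cj {f : ℂ → ℂ} (hf : ContDiff ℝ 1 f) : ContDiff ℝ 1 (cj f) :=
  (Complex.conjCLE : ℂ →L[ℝ] ℂ).contDiff.comp hf

variable {ι : Type} {D : Set ℂ}

/-- hypotheses of the end theorem, alternative version -/
structure EndM (D : Set ℂ) (φ : ℂ → ℂ) (d b : ℂ) (l : Filter ι) (H g : ι → ℂ → ℂ) (c : ι → ℝ) :
    Prop where
  bd : ∃ M : ℝ, ∀ i, ∀ z ∈ D, ‖H i z‖ ≤ M
  equi : AEqui D l H
  smooth : ∀ i, ContDiff ℝ 1 (g i)
  close : ∀ K, IsCompact K → K ⊆ D → ∀ η > 0, ∀ᶠ i in l, ∀ z ∈ K, dist (g i z) (H i z) ≤ η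
  /-- holomorphic or antiholomorphic -/
  mn : ∀ K, IsCompact K → K ⊆ D →
    Tendsto (fun i => min (∫ z in K, ‖dbar (g i) z‖) (∫ z in K, ‖del (g i) z‖)) l (𝓝 0)
  b1 : ∀ p ∈ frontier D, p ≠ d → (φ p).im = 0 → 0 < (φ p).re → (φ p).re < 1 →
    ALB D l H 1 (tau3 - 1) p
  b2 : ∀ p ∈ frontier D, p ≠ d → (φ p).im = 0 → 1 < (φ p).re →
    ALB D l H tau3 (tau3 ^ 2 - tau3) p
  b3 : ∀ p ∈ frontier D, p ≠ d → (φ p).im = 0 → (φ p).re < 0 →
    ALB D l H (tau3 ^ 2) (1 - tau3 ^ 2) p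
  /-- the value near `b` is the crossing probability -/
  val : ∀ η > 0, ∃ δ > 0, ∀ᶠ i in l, ∀ z ∈ D, dist z b < δ →
    dist (H i z) (1 + (c i : ℂ) * (tau3 - 1)) ≤ η

theorem EndM.mono {φ : ℂ → ℂ} {d b : ℂ} {l l' : Filter ι} {H g : ι → ℂ → ℂ} {c : ι → ℝ}
    (h : EndM D φ d b l H g c) (hl : l' ≤ l) : EndM D φ d b l' H g c where
  bd := h.bd
  equi := h.equi.mono hl
  smooth := h.smooth
  close K hK hKD η hη := hl (h.close K hK hKD η hη)
  mn K hK hKD := (h.mn K hK hKD).mono_left hl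
  b1 p hp h1 h2 h3 h4 := (h.b1 p hp h1 h2 h3 h4).mono hl
  b2 p hp h1 h2 h3 := (h.b2 p hp h1 h2 h3).mono hl
  b3 p hp h1 h2 h3 := (h.b3 p hp h1 h2 h3).mono hl
  val η hη := by
    obtain ⟨δ, hδ, h1⟩ := h.val η hη
    exact ⟨δ, hδ, hl h1⟩

/-- `EndH` implies `EndM` -/
theorem _root_.Crest.Agent.R143.EndAx336.EndH.toM {φ : ℂ → ℂ} {d b : ℂ} {l : Filter ι}
    {H g : ι → ℂ → ℂ} {c : ι → ℝ} (h : EndH D φ d b l H g c) : EndM D φ d b l H g c where
  bd := h.bd
  equi := h.equi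
  smooth := h.smooth
  close := h.close
  mn K hK hKD := by
    refine squeeze_zero (fun i => ?_) (fun i => min_le_left _ _) (h.dbar0 K hK hKD)
    exact le_min (integral_nonneg fun _ => norm_nonneg _) (integral_nonneg fun _ => norm_nonneg _)
  b1 := h.b1
  b2 := h.b2
  b3 := h.b3
  val := h.val

/-- integrability of the norm of a continuous function on a compact set -/
theorem intOn_dbar {f : ℂ → ℂ} (hf : ContDiff ℝ 1 f) {K : Set ℂ} (hK : IsCompact K) :
    IntegrableOn (fun z => ‖dbar f z‖) K := by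
  have h1 : Continuous (fderiv ℝ f) := hf.continuous_fderiv (by norm_num)
  have h2 : Continuous fun z => dbar f z := by
    unfold dbar
    have e1 : Continuous fun z => fderiv ℝ f z 1 := h1.clm_apply continuous_const
    have e2 : Continuous fun z => fderiv ℝ f z I := h1.clm_apply continuous_const
    fun_prop
  exact h2.norm.continuousOn.integrableOn_compact hK

theorem intOn_del {f : ℂ → ℂ} (hf : ContDiff ℝ 1 f) {K : Set ℂ} (hK : IsCompact K) :
    IntegrableOn (fun z => ‖del f z‖) K := by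
  have h1 : Continuous (fderiv ℝ f) := hf.continuous_fderiv (by norm_num)
  have h2 : Continuous fun z => del f z := by
    unfold del
    have e1 : Continuous fun z => fderiv ℝ f z 1 := h1.clm_apply continuous_const
    have e2 : Continuous fun z => fderiv ℝ f z I := h1.clm_apply continuous_const
    fun_prop
  exact h2.norm.continuousOn.integrableOn_compact hK

/-- compact exhaustion of an open set, as a sequence: every compact subset is contained in a member -/
theorem exists_exh (hD : IsOpen D) : ∃ E : ℕ → Set ℂ, (∀ n, IsCompact (E n)) ∧ (∀ n, E n ⊆ D) ∧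
    Monotone E ∧ ∀ K, IsCompact K → K ⊆ D → ∃ n, K ⊆ E n := by
  refine ⟨fun n => Metric.closedBall 0 n ∩ {z | ∀ w ∉ D, 1 / ((n : ℝ) + 1) ≤ dist z w},
    ?_, ?_, ?_, ?_⟩
  · intro n
    refine (isCompact_closedBall _ _).inter_right ?_
    have : {z : ℂ | ∀ w ∉ D, 1 / ((n : ℝ) + 1) ≤ dist z w} =
        ⋂ w ∈ Dᶜ, {z | 1 / ((n : ℝ) + 1) ≤ dist z w} := by
      ext z; simp
    rw [this]
    exact isClosed_biInter fun w _ => isClosed_le continuous_const (by fun_prop)
  · rintro n z ⟨_, hz⟩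
    by_contra hzD
    have h1 := hz z hzD
    rw [dist_self] at h1
    have : (0 : ℝ) < 1 / ((n : ℝ) + 1) := by positivity
    linarith
  · intro m n hmn z hz
    have hmn' : (m : ℝ) ≤ n := by exact_mod_cast hmn
    refine ⟨Metric.closedBall_subset_closedBall hmn' hz.1, fun w hw => ?_⟩
    refine le_trans ?_ (hz.2 w hw)
    exact one_div_le_one_div_of_le (by positivity) (by linarith)
  · intro K hK hKD
    obtain ⟨δ, hδ, hδK⟩ := hK.exists_thickening_subset_open hD hKD
    obtain ⟨R, hR⟩ := hK.isBounded.subset_closedBall (0 : ℂ)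
    obtain ⟨n, hn⟩ := exists_nat_gt (max R (1 / δ))
    refine ⟨n, fun z hz => ⟨?_, fun w hw => ?_⟩⟩
    · exact Metric.closedBall_subset_closedBall ((le_max_left _ _).trans hn.le) (hR hz)
    · by_contra hlt
      push Not at hlt
      have h1 : 1 / δ < (n : ℝ) + 1 := ((le_max_right _ _).trans_lt hn).trans (by linarith)
      have h2 : 1 / ((n : ℝ) + 1) < δ := by
        rw [div_lt_iff₀ (by positivity)]
        rw [div_lt_iff₀ hδ] at h1
        linarith
      apply hw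
      apply hδK
      rw [Metric.mem_thickening_iff]
      exact ⟨z, hz, by rw [dist_comm]; exact hlt.trans h2⟩

/-- along an ultrafilter, one of the two alternatives holds for all compact sets -/
theorem alt_of_min (hD : IsOpen D) {U : Ultrafilter ι} {g : ι → ℂ → ℂ}
    (hs : ∀ i, ContDiff ℝ 1 (g i))
    (h : ∀ K, IsCompact K → K ⊆ D →
      Tendsto (fun i => min (∫ z in K, ‖dbar (g i) z‖) (∫ z in K, ‖del (g i) z‖)) U (𝓝 0)) :
    (∀ K, IsCompact K → K ⊆ D → Tendsto (fun i => ∫ z in K, ‖dbar (g i) z‖) U (𝓝 0)) ∨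
    (∀ K, IsCompact K → K ⊆ D → Tendsto (fun i => ∫ z in K, ‖del (g i) z‖) U (𝓝 0)) := by
  -- monotonicity in the compact set
  have mono1 : ∀ K L, IsCompact L → K ⊆ L → IsCompact K →
      Tendsto (fun i => ∫ z in L, ‖dbar (g i) z‖) U (𝓝 0) →
      Tendsto (fun i => ∫ z in K, ‖dbar (g i) z‖) U (𝓝 0) := by
    intro K L hL hKL _ hlim
    refine squeeze_zero (fun i => integral_nonneg fun _ => norm_nonneg _) (fun i => ?_) hlim
    exact setIntegral_mono_set (intOn_dbar (hs i) hL)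
      (Eventually.of_forall fun _ => norm_nonneg _) (LE.le.eventuallyLE hKL)
  have mono2 : ∀ K L, IsCompact L → K ⊆ L → IsCompact K →
      Tendsto (fun i => ∫ z in L, ‖del (g i) z‖) U (𝓝 0) →
      Tendsto (fun i => ∫ z in K, ‖del (g i) z‖) U (𝓝 0) := by
    intro K L hL hKL _ hlim
    refine squeeze_zero (fun i => integral_nonneg fun _ => norm_nonneg _) (fun i => ?_) hlim
    exact setIntegral_mono_set (intOn_del (hs i) hL)
      (Eventually.of_forall fun _ => norm_nonneg _) (LE.le.eventuallyLE hKL)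
  -- for one compact set
  have one : ∀ K, IsCompact K → K ⊆ D →
      Tendsto (fun i => ∫ z in K, ‖dbar (g i) z‖) U (𝓝 0) ∨
      Tendsto (fun i => ∫ z in K, ‖del (g i) z‖) U (𝓝 0) := by
    intro K hK hKD
    have h1 := h K hK hKD
    rcases U.eventually_or.1 (Eventually.of_forall fun i =>
      le_total (∫ z in K, ‖dbar (g i) z‖) (∫ z in K, ‖del (g i) z‖)) with h2 | h2
    · left
      refine h1.congr' ?_
      filter_upwards [h2] with i hi using min_eq_left hi
    · right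
      refine h1.congr' ?_
      filter_upwards [h2] with i hi using min_eq_right hi
  obtain ⟨E, hE1, hE2, hE3, hE4⟩ := exists_exh hD
  by_cases hall : ∀ n, Tendsto (fun i => ∫ z in E n, ‖dbar (g i) z‖) U (𝓝 0)
  · left
    intro K hK hKD
    obtain ⟨n, hn⟩ := hE4 K hK hKD
    exact mono1 K (E n) (hE1 n) hn hK (hall n)
  · right
    push Not at hall
    obtain ⟨m, hm⟩ := hall
    intro K hK hKD
    obtain ⟨n, hn⟩ := hE4 K hK hKD
    have h3 : ¬ Tendsto (fun i => ∫ z in E (max m n), ‖dbar (g i) z‖) U (𝓝 0) := fun h4 =>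
      hm (mono1 _ _ (hE1 _) (hE3 (le_max_left m n)) (hE1 m) h4)
    have h5 := (one (E (max m n)) (hE1 _) (hE2 _)).resolve_left h3
    exact mono2 K _ (hE1 _) (hn.trans (hE3 (le_max_right m n))) hK h5

/-- **END THEOREM**, alternative version -/
theorem end_coreM (hbc3 : BC3) (hD : IsOpen D) {φ : ℂ → ℂ} {d b : ℂ} (hid : Ident D φ d)
    (hb : b ∈ frontier D) (hbd : b ≠ d) {x : ℝ} (hx0 : 0 < x) (hx1 : x < 1) (hφb : φ b = x)
    {l : Filter ι} {H g : ι → ℂ → ℂ} {c : ι → ℝ} (h : EndM D φ d b l H g c) :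
    Tendsto c l (𝓝 (crossingFormula x)) := by
  rw [tendsto_iff_ultrafilter]
  intro U hU
  have hU' := h.mono hU
  obtain ⟨M, hM⟩ := h.bd
  obtain ⟨f, hfM, hf⟩ := exists_ulim U hM
  have hunif : ∀ K, IsCompact K → K ⊆ D → TendstoUniformlyOn H f U K := fun K hK hKD =>
    unif_of_equi hU'.equi hf hK hKD
  have hg : TendstoLocallyUniformlyOn g f U D := by
    rw [tendstoLocallyUniformlyOn_iff_forall_isCompact hD]
    intro K hKD hK
    rw [Metric.tendstoUniformlyOn_iff]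
    intro η hη
    have h1 := Metric.tendstoUniformlyOn_iff.1 (hunif K hK hKD) (η / 2) (by linarith)
    filter_upwards [h1, hU'.close K hK hKD (η / 3) (by linarith)] with i hi1 hi2 z hz
    calc dist (f z) (g i z) ≤ dist (f z) (H i z) + dist (H i z) (g i z) := dist_triangle _ _ _
      _ ≤ η / 2 + η / 3 := add_le_add (hi1 z hz).le (by rw [dist_comm]; exact hi2 z hz)
      _ < η := by linarith
  have hol : DifferentiableOn ℂ f D ∨ DifferentiableOn ℂ (fun z => (starRingEnd ℂ) (f z)) D := by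
    rcases alt_of_min hD hU'.smooth hU'.mn with h1 | h1
    · left
      exact hbc3 D hD ι U inferInstance g f hU'.smooth hg h1
    · right
      have hg2 : TendstoLocallyUniformlyOn (fun i => cj (g i)) (cj f) U D := by
        rw [Metric.tendstoLocallyUniformlyOn_iff] at hg ⊢
        intro e he z hz
        obtain ⟨t, ht, h2⟩ := hg e he z hz
        refine ⟨t, ht, ?_⟩
        filter_upwards [h2] with i hi y hy
        have := hi y hy
        rwa [cj, cj, dist_eq_norm, ← map_sub, Complex.norm_conj, ← dist_eq_norm]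
      refine hbc3 D hD ι U inferInstance (fun i => cj (g i)) (cj f)
        (fun i => contDiff_cj (hU'.smooth i)) hg2 ?_
      intro K hK hKD
      refine (h1 K hK hKD).congr fun i => ?_
      exact integral_congr_ae (Eventually.of_forall fun z => (norm_dbar_cj (hU'.smooth i) z).symm)
  have htri : TriBC D φ d f :=
    ⟨⟨M, hfM⟩, fun p hp h1 h2 h3 h4 => (hU'.b1 p hp h1 h2 h3 h4).LB hf,
      fun p hp h1 h2 h3 => (hU'.b2 p hp h1 h2 h3).LB hf,
      fun p hp h1 h2 h3 => (hU'.b3 p hp h1 h2 h3).LB hf⟩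
  have hlim := hid f htri hol b hb hbd x hx0 hx1 hφb
  -- compare with the crossing probabilities near `b`
  have hne : (𝓝[D] b).NeBot := by
    rw [← mem_closure_iff_nhdsWithin_neBot]
    exact frontier_subset_closure hb
  have hT : 0 < ‖tau3 - 1‖ := norm_pos_iff.2 tau3_ne_one
  rw [Metric.tendsto_nhds]
  intro η hη
  set η' := η * ‖tau3 - 1‖ / 4 with hη'
  have hη'0 : 0 < η' := by positivity
  obtain ⟨δ, hδ, h1⟩ := hU'.val η' hη'0
  have h2 := Metric.tendsto_nhds.1 hlim η' hη'0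
  have h3 : Metric.ball b δ ∩ D ∈ 𝓝[D] b := by
    rw [inter_comm]
    exact inter_mem_nhdsWithin D (Metric.ball_mem_nhds b hδ)
  obtain ⟨z, hz1, hz2, hz3⟩ := (h2.and h3).exists
  have h4 := Metric.tendsto_nhds.1 (hf z hz3) η' hη'0
  filter_upwards [h1, h4] with i hi1 hi4
  have e1 : dist (1 + (c i : ℂ) * (tau3 - 1)) (1 + (crossingFormula x : ℂ) * (tau3 - 1)) <
      4 * η' := by
    calc dist (1 + (c i : ℂ) * (tau3 - 1)) (1 + (crossingFormula x : ℂ) * (tau3 - 1))
        ≤ dist (1 + (c i : ℂ) * (tau3 - 1)) (H i z) + dist (H i z) (f z) +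
          dist (f z) (1 + (crossingFormula x : ℂ) * (tau3 - 1)) := dist_triangle4 _ _ _ _
      _ ≤ η' + η' + η' := by
          refine add_le_add (add_le_add ?_ hi4.le) hz1.le
          rw [dist_comm]; exact hi1 z hz3 hz2
      _ < 4 * η' := by linarith
  have e2 : dist (1 + (c i : ℂ) * (tau3 - 1)) (1 + (crossingFormula x : ℂ) * (tau3 - 1)) =
      dist (c i) (crossingFormula x) * ‖tau3 - 1‖ := by
    rw [dist_add_left, dist_eq_norm, ← sub_mul, norm_mul, Real.dist_eq, ← Complex.ofReal_sub,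
      Complex.norm_real, Real.norm_eq_abs]
  rw [e2, hη'] at e1
  have e3 : dist (c i) (crossingFormula x) * ‖tau3 - 1‖ < η * ‖tau3 - 1‖ := by linarith
  exact lt_of_mul_lt_mul_right e3 hT.le

/-- **FRONT**, alternative version -/
theorem frontM (hbc3 : BC3) (hD : IsOpen D) {φ : ℂ → ℂ} {d b : ℂ} (hid : Ident D φ d)
    (hb : b ∈ frontier D) (hbd : b ≠ d) {x : ℝ} (hx0 : 0 < x) (hx1 : x < 1) (hφb : φ b = x)
    {l : Filter ℝ} {A₁ A₂ : Set ℂ} {H g H' g' : ℝ → ℂ → ℂ} {c c' : ℝ → ℝ}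
    (h : EndM D φ d b l H g c) (h' : EndM D φ d b l H' g' c')
    (hle : ∀ η > 0, ∀ᶠ ε in l, c ε - η ≤ (sampleLaw (crossingEvent ε D A₁ A₂)).toReal)
    (hle' : ∀ η > 0, ∀ᶠ ε in l, (sampleLaw (crossingEvent ε D A₁ A₂)).toReal ≤ c' ε + η) :
    Tendsto (fun ε : ℝ => sampleLaw (crossingEvent ε D A₁ A₂)) l
      (𝓝 (ENNReal.ofReal (crossingFormula x))) := by
  have h1 := end_coreM hbc3 hD hid hb hbd hx0 hx1 hφb h
  have h2 := end_coreM hbc3 hD hid hb hbd hx0 hx1 hφb h'
  have h3 : Tendsto (fun ε : ℝ => (sampleLaw (crossingEvent ε D A₁ A₂)).toReal) l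
      (𝓝 (crossingFormula x)) := by
    rw [Metric.tendsto_nhds]
    intro η hη
    filter_upwards [Metric.tendsto_nhds.1 h1 (η / 2) (by linarith),
      Metric.tendsto_nhds.1 h2 (η / 2) (by linarith), hle (η / 2) (by linarith),
      hle' (η / 2) (by linarith)] with ε e1 e2 e3 e4
    rw [Real.dist_eq, abs_lt] at e1 e2 ⊢
    constructor <;> linarith [e1.1, e1.2, e2.1, e2.2]
  have h4 := ENNReal.tendsto_ofReal h3
  refine h4.congr fun ε => ?_
  exact ENNReal.ofReal_toReal (measure_ne_top _ _)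

/-- **FRONT of S0194**, alternative version -/
theorem front194M
    (D : Set ℂ) (hD : IsOpen D) (hDb : Bornology.IsBounded D) (hDc : IsConnected D)
    (φ : ℂ → ℂ) (hφ : DifferentiableOn ℂ φ D) (hφi : Set.InjOn φ D)
    (hφD : φ '' D = {z : ℂ | 0 < z.im}) (d : ℂ) (hd : d ∈ frontier D)
    (hφc : ContinuousOn φ (closure D \ {d}))
    (hφd : Filter.Tendsto (fun z => ‖φ z‖) (nhdsWithin d D) Filter.atTop)
    (x : ℝ) (hx0 : 0 < x) (hx1 : x < 1) {A₁ A₂ : Set ℂ} {l : Filter ℝ}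
    (key : ∀ b ∈ frontier D, b ≠ d → φ b = x → ∃ (H g H' g' : ℝ → ℂ → ℂ) (c c' : ℝ → ℝ),
      EndM D φ d b l H g c ∧ EndM D φ d b l H' g' c' ∧
      (∀ η > 0, ∀ᶠ ε in l, c ε - η ≤ (sampleLaw (crossingEvent ε D A₁ A₂)).toReal) ∧
      (∀ η > 0, ∀ᶠ ε in l, (sampleLaw (crossingEvent ε D A₁ A₂)).toReal ≤ c' ε + η)) :
    Filter.Tendsto (fun ε : ℝ => sampleLaw (crossingEvent ε D A₁ A₂)) l
      (nhds (ENNReal.ofReal (crossingFormula x))) := by
  obtain ⟨b, hb, hbd, hφb⟩ := Frontx336.exists_bdry hD hDb hφ hφD hφc hφd x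
  obtain ⟨H, g, H', g', c, c', h, h', h1, h2⟩ := key b hb hbd hφb
  exact frontM DbarMorx63.bc3 hD
    (IdentDx439.bc5 D hD hDb hDc φ hφ hφi hφD d hd hφc hφd) hb hbd hx0 hx1 hφb h h' h1 h2

end Crest.Agent.R143.EndBx336
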