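import Mathlib

/-!
# Row 143 (S0194), leaf BC10: the length-area lemma, abstract (helper63)

* `mean_le` : general form: for a measurable set `A` of positive finite measure and measurable sets
  `B t`, some `ρ ∈ A` has `(∑_{t : ρ ∈ B t} q t) μ(A) ≤ ∑ q t μ(A ∩ B t)`.
* `len_area` : `A = [r, R]` with the measure `dρ / ρ`, faces with radii intervals `[a t, b t]`.
* `len_area_dyadic` : good dyadic annuli `K`, allowed radii `A k ⊆ [2 ^ k, 2 ^ (k + 1)]`.
-/

set_option autoImplicit false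

noncomputable section

namespace Crest.Agent.R143.LenAreax63

open Set Filter Topology MeasureTheory
open scoped Classical

variable {ι : Type}

/-- mean value form of the length-area lemma -/
theorem mean_le {X : Type} [MeasurableSpace X] (μ : Measure X) (s : Finset ι) (q : ι → ℝ)
    (B : ι → Set X) (hB : ∀ t ∈ s, MeasurableSet (B t)) (A : Set X)
    (hA : MeasurableSet A) (h0 : μ A ≠ 0) (h1 : μ A ≠ ⊤) :
    ∃ ρ ∈ A, (∑ t ∈ s.filter (fun t => ρ ∈ B t), q t) * μ.real A ≤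
      ∑ t ∈ s, q t * μ.real (A ∩ B t) := by
  by_contra hcon
  push Not at hcon
  have hpos : 0 < μ.real A := by
    rw [measureReal_def]; exact ENNReal.toReal_pos h0 h1
  set f : X → ℝ := fun ρ => ∑ t ∈ s, (B t).indicator (fun _ => q t) ρ with hf
  have hfeq : ∀ ρ, f ρ = ∑ t ∈ s.filter (fun t => ρ ∈ B t), q t := by
    intro ρ
    rw [hf, Finset.sum_filter]
    apply Finset.sum_congr rfl
    intro t _
    simp [Set.indicator_apply]
  have hint : ∀ t ∈ s, IntegrableOn ((B t).indicator (fun _ => q t)) A μ := by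
    intro t ht
    have : IntegrableOn (fun _ : X => q t) A μ := by
      rw [integrableOn_const_iff]
      right
      exact lt_top_iff_ne_top.mpr h1
    exact this.indicator (hB t ht)
  have hfint : IntegrableOn f A μ := by
    have := integrable_finsetSum (μ := μ.restrict A) s hint
    simpa [hf, IntegrableOn] using this
  have hI : ∫ ρ in A, f ρ ∂μ = ∑ t ∈ s, q t * μ.real (A ∩ B t) := by
    rw [hf, integral_finsetSum s hint]
    apply Finset.sum_congr rfl
    intro t ht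
    rw [setIntegral_indicator (hB t ht), setIntegral_const, smul_eq_mul, mul_comm]
  set M : ℝ := (∑ t ∈ s, q t * μ.real (A ∩ B t)) / μ.real A with hM
  have hlt : ∀ ρ ∈ A, M < f ρ := by
    intro ρ hρ
    rw [hM, div_lt_iff₀ hpos, hfeq]
    exact hcon ρ hρ
  have hconst : IntegrableOn (fun _ : X => M) A μ := by
    rw [integrableOn_const_iff]
    right
    exact lt_top_iff_ne_top.mpr h1
  have h2 : ∫ ρ in A, (f ρ - M) ∂μ = 0 := by
    rw [integral_sub hfint hconst, hI, setIntegral_const, smul_eq_mul, hM]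
    field_simp
    ring
  have h3 : 0 ≤ᵐ[μ.restrict A] fun ρ => f ρ - M := by
    rw [Filter.EventuallyLE, ae_restrict_iff' hA]
    exact Filter.Eventually.of_forall fun ρ hρ => by
      simpa using (hlt ρ hρ).le
  rw [integral_eq_zero_iff_of_nonneg_ae h3 (hfint.sub hconst)] at h2
  have h4 : ∀ᵐ ρ ∂(μ.restrict A), False := by
    have h5 : ∀ᵐ ρ ∂(μ.restrict A), ρ ∈ A := ae_restrict_mem hA
    filter_upwards [h2, h5] with ρ h6 h7
    have := hlt ρ h7
    have h6' : f ρ - M = 0 := h6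
    linarith
  have h5 : μ.restrict A = 0 := by
    rwa [Filter.eventually_false_iff_eq_bot, ae_eq_bot] at h4
  rw [Measure.restrict_eq_zero] at h5
  exact h0 h5

/-- Cauchy-Schwarz -/
theorem cs (s : Finset ι) (f g : ι → ℝ) :
    ∑ t ∈ s, f t * g t ≤ Real.sqrt (∑ t ∈ s, f t ^ 2) * Real.sqrt (∑ t ∈ s, g t ^ 2) := by
  exact Real.sum_mul_le_sqrt_mul_sqrt s f g

/-- **length-area**, logarithmic form -/
theorem len_area (s : Finset ι) (q a b : ι → ℝ) (hq : ∀ t ∈ s, 0 ≤ q t)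
    (ha : ∀ t ∈ s, 0 < a t) (hab : ∀ t ∈ s, a t ≤ b t) {r R : ℝ} (hr : 0 < r) (hrR : r < R) :
    ∃ ρ ∈ Icc r R, (∑ t ∈ s.filter (fun t => a t ≤ ρ ∧ ρ ≤ b t), q t) * Real.log (R / r) ≤
      Real.sqrt (∑ t ∈ s.filter (fun t => a t ≤ R ∧ r ≤ b t), q t ^ 2) *
      Real.sqrt (∑ t ∈ s.filter (fun t => a t ≤ R ∧ r ≤ b t), Real.log (b t / a t) ^ 2) := by
  -- work with `u = log ρ`
  set s' := s.filter (fun t => a t ≤ R ∧ r ≤ b t) with hs'
  have hlog : Real.log r < Real.log R := Real.log_lt_log hr hrR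
  obtain ⟨u, hu, h⟩ := mean_le (volume : Measure ℝ) s' q
    (fun t => Icc (Real.log (a t)) (Real.log (b t))) (fun t _ => measurableSet_Icc)
    (Icc (Real.log r) (Real.log R)) measurableSet_Icc
    (by rw [Real.volume_Icc]; simp [hlog]) (by rw [Real.volume_Icc]; exact ENNReal.ofReal_ne_top)
  have hR : 0 < R := hr.trans hrR
  refine ⟨Real.exp u, ⟨?_, ?_⟩, ?_⟩
  · rw [← Real.log_le_iff_le_exp hr]; exact hu.1
  · rw [← Real.le_log_iff_exp_le hR]; exact hu.2
  have h1 : (volume : Measure ℝ).real (Icc (Real.log r) (Real.log R)) = Real.log (R / r) := by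
    rw [Real.volume_real_Icc_of_le hlog.le, Real.log_div hR.ne' hr.ne']
  have h2 : s.filter (fun t => a t ≤ Real.exp u ∧ Real.exp u ≤ b t) =
      s'.filter (fun t => u ∈ Icc (Real.log (a t)) (Real.log (b t))) := by
    ext t
    simp only [hs', Finset.mem_filter, mem_Icc]
    constructor
    · rintro ⟨h3, h4, h5⟩
      have h6 := ha t h3
      have h7 := h6.trans_le (hab t h3)
      refine ⟨⟨h3, ?_, ?_⟩, ?_, ?_⟩
      · exact h4.trans ((Real.le_log_iff_exp_le hR).mp hu.2)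
      · exact ((Real.log_le_iff_le_exp hr).mp hu.1).trans h5
      · exact (Real.log_le_iff_le_exp h6).mpr h4
      · exact (Real.le_log_iff_exp_le h7).mpr h5
    · rintro ⟨⟨h3, -, -⟩, h4, h5⟩
      have h6 := ha t h3
      have h7 := h6.trans_le (hab t h3)
      exact ⟨h3, (Real.log_le_iff_le_exp h6).mp h4, (Real.le_log_iff_exp_le h7).mp h5⟩
  rw [h1] at h
  rw [h2]
  have h' : (∑ t ∈ s'.filter (fun t => u ∈ Icc (Real.log (a t)) (Real.log (b t))), q t) *
      Real.log (R / r) ≤ ∑ t ∈ s', q t * (volume : Measure ℝ).real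
        (Icc (Real.log r) (Real.log R) ∩ Icc (Real.log (a t)) (Real.log (b t))) := by
    convert h
  refine le_trans ?_ (h'.trans (le_trans ?_ (cs s' q fun t => Real.log (b t / a t))))
  · apply le_of_eq
    congr!
  apply Finset.sum_le_sum
  intro t ht
  have ht' := (Finset.mem_filter.mp ht).1
  have h6 := ha t ht'
  have h7 := h6.trans_le (hab t ht')
  apply mul_le_mul_of_nonneg_left _ (hq t ht')
  calc (volume : Measure ℝ).real (Icc (Real.log r) (Real.log R) ∩
        Icc (Real.log (a t)) (Real.log (b t)))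
      ≤ (volume : Measure ℝ).real (Icc (Real.log (a t)) (Real.log (b t))) := by
        exact measureReal_mono inter_subset_right
          (by rw [Real.volume_Icc]; exact ENNReal.ofReal_ne_top)
    _ = Real.log (b t / a t) := by
        rw [Real.volume_real_Icc_of_le (Real.log_le_log h6 (hab t ht')),
          Real.log_div h7.ne' h6.ne']

/-- number of good dyadic annuli met by one face -/
theorem card_met {C x y : ℝ} (hC : 0 ≤ C) (K : Finset ℤ)
    (hm : ∀ k ∈ K, x ≤ (2 : ℝ) ^ (k + 1) ∧ (2 : ℝ) ^ k ≤ y)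
    (hd : ∀ k ∈ K, (y - x) ^ 2 ≤ C * (4 : ℝ) ^ k) : (K.card : ℝ) ≤ Real.sqrt C + 2 := by
  rcases K.eq_empty_or_nonempty with h | hne
  · subst h; simp; positivity
  set k0 := K.min' hne with hk0
  have hk0K : k0 ∈ K := K.min'_mem hne
  have h2k : (0 : ℝ) < (2 : ℝ) ^ k0 := by positivity
  have h4 : (4 : ℝ) ^ k0 = ((2 : ℝ) ^ k0) ^ 2 := by
    rw [← zpow_natCast, ← zpow_mul, mul_comm k0 _, zpow_mul]; norm_num
  have hdd : y - x ≤ Real.sqrt C * (2 : ℝ) ^ k0 := by
    have h5 : (y - x) ^ 2 ≤ (Real.sqrt C * (2 : ℝ) ^ k0) ^ 2 := by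
      rw [mul_pow, Real.sq_sqrt hC, ← h4]; exact hd k0 hk0K
    exact (abs_le_of_sq_le_sq' h5 (by positivity)).2
  -- every `k ∈ K` is `k0 + j` with `j + 1 ≤ sqrt C + 2`
  have hj : ∀ k ∈ K, ((k - k0 : ℤ) : ℝ) + 1 ≤ Real.sqrt C + 2 := by
    intro k hk
    have hle : k0 ≤ k := K.min'_le k hk
    obtain ⟨j, hj⟩ := Int.eq_ofNat_of_zero_le (sub_nonneg.mpr hle)
    have hkj : k = k0 + j := by omega
    have h6 : (2 : ℝ) ^ k ≤ (Real.sqrt C + 2) * (2 : ℝ) ^ k0 := by
      have h7 := (hm k hk).2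
      have h8 := (hm k0 hk0K).1
      rw [zpow_add₀ (by norm_num : (2 : ℝ) ≠ 0), zpow_one] at h8
      nlinarith
    rw [hkj, zpow_add₀ (by norm_num : (2 : ℝ) ≠ 0), zpow_natCast, mul_comm] at h6
    have h9 : (2 : ℝ) ^ j ≤ Real.sqrt C + 2 := le_of_mul_le_mul_right h6 h2k
    have h10 : ((j + 1 : ℕ) : ℝ) ≤ (2 : ℝ) ^ j := by
      exact_mod_cast Nat.lt_two_pow_self
    have h11 : ((k - k0 : ℤ) : ℝ) = (j : ℝ) := by rw [hj]; simp
    rw [h11]
    push_cast at h10
    linarith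
  -- `K` is contained in an interval
  set m : ℕ := ⌊Real.sqrt C + 2⌋₊ with hmdef
  have hsub : K ⊆ Finset.Ico k0 (k0 + m) := by
    intro k hk
    rw [Finset.mem_Ico]
    refine ⟨K.min'_le k hk, ?_⟩
    have h12 := hj k hk
    have h13 : ((k - k0 + 1).toNat : ℝ) ≤ Real.sqrt C + 2 := by
      have h14 : (0 : ℤ) ≤ k - k0 + 1 := by
        have : k0 ≤ k := K.min'_le k hk
        omega
      have h15 : (((k - k0 + 1).toNat : ℤ) : ℝ) = ((k - k0 + 1 : ℤ) : ℝ) := by
        rw [Int.toNat_of_nonneg h14]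
      rw [Int.cast_natCast] at h15
      rw [h15]
      push_cast
      push_cast at h12
      linarith
    have h16 : (k - k0 + 1).toNat ≤ m := Nat.le_floor h13
    omega
  have hcard := Finset.card_le_card hsub
  rw [Int.card_Ico] at hcard
  have h17 : (K.card : ℝ) ≤ (m : ℝ) := by
    have : (k0 + (m : ℤ) - k0).toNat = m := by omega
    rw [this] at hcard
    exact_mod_cast hcard
  exact h17.trans (Nat.floor_le (by positivity))

/-- **length-area**, dyadic form: `K` good annuli, `A k` allowed radii in the annulus `k` -/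
theorem len_area_dyadic (s : Finset ι) (q a b : ι → ℝ) (hq : ∀ t ∈ s, 0 ≤ q t)
    (hab : ∀ t ∈ s, a t ≤ b t) {C : ℝ} (hC : 0 ≤ C) (K : Finset ℤ) (hK : K.Nonempty)
    (hd : ∀ k ∈ K, ∑ t ∈ s.filter (fun t => a t ≤ (2 : ℝ) ^ (k + 1) ∧ (2 : ℝ) ^ k ≤ b t),
      (b t - a t) ^ 2 ≤ C * (4 : ℝ) ^ k)
    (A : ℤ → Set ℝ) (hA : ∀ k ∈ K, MeasurableSet (A k))
    (hAs : ∀ k ∈ K, A k ⊆ Icc ((2 : ℝ) ^ k) ((2 : ℝ) ^ (k + 1)))
    {c : ℝ} (hc : 0 < c) (hAc : ∀ k ∈ K, c * (2 : ℝ) ^ k ≤ (volume : Measure ℝ).real (A k)) :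
    ∃ k ∈ K, ∃ ρ ∈ A k, ∑ t ∈ s.filter (fun t => a t ≤ ρ ∧ ρ ≤ b t), q t ≤
      c⁻¹ * Real.sqrt (C * (Real.sqrt C + 2) * (∑ t ∈ s, q t ^ 2) / K.card) := by
  set S : ℤ → Finset ι :=
    fun k => s.filter (fun t => a t ≤ (2 : ℝ) ^ (k + 1) ∧ (2 : ℝ) ^ k ≤ b t) with hS
  set E : ℤ → ℝ := fun k => ∑ t ∈ S k, q t ^ 2 with hE
  have hKpos : (0 : ℝ) < K.card := by exact_mod_cast hK.card_pos
  -- total energy of the good annuli
  have hsum : ∑ k ∈ K, E k ≤ (Real.sqrt C + 2) * ∑ t ∈ s, q t ^ 2 := by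
    have h1 : ∑ k ∈ K, E k = ∑ t ∈ s, ∑ k ∈ K,
        if (a t ≤ (2 : ℝ) ^ (k + 1) ∧ (2 : ℝ) ^ k ≤ b t) then q t ^ 2 else 0 := by
      rw [Finset.sum_comm]
      apply Finset.sum_congr rfl
      intro k _
      rw [hE, hS]
      simp only [Finset.sum_filter]
    rw [h1, Finset.mul_sum]
    apply Finset.sum_le_sum
    intro t ht
    rw [← Finset.sum_filter, Finset.sum_const, nsmul_eq_mul]
    apply mul_le_mul_of_nonneg_right _ (sq_nonneg _)
    apply card_met hC (x := a t) (y := b t)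
    · intro k hk; exact (Finset.mem_filter.mp hk).2
    · intro k hk
      obtain ⟨h2, h3⟩ := Finset.mem_filter.mp hk
      refine le_trans ?_ (hd k h2)
      exact Finset.single_le_sum (f := fun t => (b t - a t) ^ 2) (fun i _ => sq_nonneg _)
        (Finset.mem_filter.mpr ⟨ht, h3⟩)
  -- an annulus of small energy
  obtain ⟨k, hk, hEk⟩ : ∃ k ∈ K, E k ≤ (Real.sqrt C + 2) * (∑ t ∈ s, q t ^ 2) / K.card := by
    by_contra hcon
    push Not at hcon
    have h2 : ∑ k ∈ K, (Real.sqrt C + 2) * (∑ t ∈ s, q t ^ 2) / K.card < ∑ k ∈ K, E k :=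
      Finset.sum_lt_sum_of_nonempty hK hcon
    rw [Finset.sum_const, nsmul_eq_mul, mul_div_cancel₀ _ hKpos.ne'] at h2
    linarith
  have h2k : (0 : ℝ) < (2 : ℝ) ^ k := by positivity
  have hAk : (0 : ℝ) < (volume : Measure ℝ).real (A k) := lt_of_lt_of_le (by positivity) (hAc k hk)
  have hAtop : (volume : Measure ℝ) (A k) ≠ ⊤ := by
    intro h
    rw [measureReal_def, h] at hAk
    simp at hAk
  have hA0 : (volume : Measure ℝ) (A k) ≠ 0 := by
    intro h
    rw [measureReal_def, h] at hAk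
    simp at hAk
  obtain ⟨ρ, hρ, h3⟩ := mean_le (volume : Measure ℝ) (S k) q
    (fun t => Icc (a t) (b t)) (fun t _ => measurableSet_Icc) (A k) (hA k hk) hA0 hAtop
  refine ⟨k, hk, ρ, hρ, ?_⟩
  have h4 : s.filter (fun t => a t ≤ ρ ∧ ρ ≤ b t) =
      (S k).filter (fun t => ρ ∈ Icc (a t) (b t)) := by
    ext t
    simp only [hS, Finset.mem_filter, mem_Icc]
    have h5 := hAs k hk hρ
    constructor
    · rintro ⟨h6, h7, h8⟩
      exact ⟨⟨h6, h7.trans h5.2, h5.1.trans h8⟩, h7, h8⟩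
    · rintro ⟨⟨h6, -, -⟩, h7, h8⟩
      exact ⟨h6, h7, h8⟩
  rw [h4]
  set Q1 := ∑ t ∈ (S k).filter (fun t => ρ ∈ Icc (a t) (b t)), q t with hQ1
  have hQ0 : 0 ≤ Q1 := Finset.sum_nonneg fun t ht =>
    hq t (Finset.mem_filter.mp (Finset.mem_filter.mp ht).1).1
  have h5 : ∑ t ∈ S k, q t * (volume : Measure ℝ).real (A k ∩ Icc (a t) (b t)) ≤
      Real.sqrt (E k) * Real.sqrt (C * (4 : ℝ) ^ k) := by
    calc ∑ t ∈ S k, q t * (volume : Measure ℝ).real (A k ∩ Icc (a t) (b t))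
        ≤ ∑ t ∈ S k, q t * (b t - a t) := by
          apply Finset.sum_le_sum
          intro t ht
          have ht' := (Finset.mem_filter.mp ht).1
          apply mul_le_mul_of_nonneg_left _ (hq t ht')
          calc (volume : Measure ℝ).real (A k ∩ Icc (a t) (b t))
              ≤ (volume : Measure ℝ).real (Icc (a t) (b t)) := by
                exact measureReal_mono inter_subset_right
                  (by rw [Real.volume_Icc]; exact ENNReal.ofReal_ne_top)
            _ = b t - a t := Real.volume_real_Icc_of_le (hab t ht')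
      _ ≤ Real.sqrt (∑ t ∈ S k, q t ^ 2) * Real.sqrt (∑ t ∈ S k, (b t - a t) ^ 2) :=
          cs (S k) q fun t => b t - a t
      _ ≤ Real.sqrt (E k) * Real.sqrt (C * (4 : ℝ) ^ k) := by
          apply mul_le_mul_of_nonneg_left _ (Real.sqrt_nonneg _)
          exact Real.sqrt_le_sqrt (hd k hk)
  have h6 : Real.sqrt (C * (4 : ℝ) ^ k) = Real.sqrt C * (2 : ℝ) ^ k := by
    rw [Real.sqrt_mul hC]
    congr 1
    have h4' : (4 : ℝ) ^ k = ((2 : ℝ) ^ k) ^ 2 := by
      rw [← zpow_natCast, ← zpow_mul, mul_comm k _, zpow_mul]; norm_num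
    rw [h4', Real.sqrt_sq h2k.le]
  have h3' : Q1 * (volume : Measure ℝ).real (A k) ≤
      ∑ t ∈ S k, q t * (volume : Measure ℝ).real (A k ∩ Icc (a t) (b t)) := by
    rw [hQ1]; convert h3
  have h7 : Q1 * (c * (2 : ℝ) ^ k) ≤ Real.sqrt (E k) * (Real.sqrt C * (2 : ℝ) ^ k) := by
    calc Q1 * (c * (2 : ℝ) ^ k) ≤ Q1 * (volume : Measure ℝ).real (A k) :=
          mul_le_mul_of_nonneg_left (hAc k hk) hQ0
      _ ≤ ∑ t ∈ S k, q t * (volume : Measure ℝ).real (A k ∩ Icc (a t) (b t)) := h3'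
      _ ≤ Real.sqrt (E k) * (Real.sqrt C * (2 : ℝ) ^ k) := by rw [← h6]; exact h5
  have h8 : Q1 * c ≤ Real.sqrt (E k) * Real.sqrt C := by
    have : (Q1 * c) * (2 : ℝ) ^ k ≤ (Real.sqrt (E k) * Real.sqrt C) * (2 : ℝ) ^ k := by
      linarith
    exact le_of_mul_le_mul_right this h2k
  have h9 : Q1 ≤ c⁻¹ * (Real.sqrt C * Real.sqrt (E k)) := by
    rw [← div_eq_inv_mul, le_div_iff₀ hc]
    linarith
  refine h9.trans ?_
  apply mul_le_mul_of_nonneg_left _ (by positivity)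
  rw [← Real.sqrt_mul hC]
  apply Real.sqrt_le_sqrt
  calc C * E k ≤ C * ((Real.sqrt C + 2) * (∑ t ∈ s, q t ^ 2) / K.card) :=
        mul_le_mul_of_nonneg_left hEk hC
    _ = C * (Real.sqrt C + 2) * (∑ t ∈ s, q t ^ 2) / K.card := by ring

end Crest.Agent.R143.LenAreax63
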