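import Mathlib
import Crest.Agent.R143.B0_346
import Crest.Agent.R143.LenArea_63

/-!
# Row 143 (S0194), leaf T4 : oscillation of the observable along dual paths (helper63)

* `walk_bound` : abstract: a walk through the sets of a finite family `A`, each of `F`-diameter
  `≤ q t`, has `F`-diameter `≤ ∑ q t` (every set is counted once).
* `family` : for a finite weighted family of subfamilies, one of them has
  `∑ q t ≤ √(∑ c²) √(∑ q²)`.
* `F_comm`, `Q_rot`, `step`, `step'` : the observable at two live sides of a triangle differs by at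
  most `√3 ‖Q t‖` (leaves J1, J2).
* `osc_conn`, `T4`, `T4_circles`.
-/

set_option autoImplicit false

noncomputable section

namespace Crest.Agent.R143.Oscx63

open Set Filter Topology MeasureTheory
open scoped Classical
open Crest.Agent.R143.B0x346 Crest.Agent.R143.LenAreax63

/-! ### abstract part -/

theorem walk_aux {E T : Type} (A : Finset T) (inc : T → E → Prop) (F : E → ℂ) (q : T → ℝ)
    (hq : ∀ t ∈ A, 0 ≤ q t)
    (h : ∀ t ∈ A, ∀ e e', inc t e → inc t e' → ‖F e - F e'‖ ≤ q t) {x y : E}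
    (hxy : Relation.ReflTransGen (fun e e' => ∃ t ∈ A, inc t e ∧ inc t e') x y) :
    ∃ B : Finset T, B ⊆ A ∧ (∀ t ∈ B, ∀ e, inc t e → ‖F x - F e‖ ≤ ∑ t ∈ B, q t) ∧
      (y = x ∨ ∃ t ∈ B, inc t y) := by
  induction hxy with
  | refl => exact ⟨∅, by simp, by simp, Or.inl rfl⟩
  | @tail y y' _ hstep ih =>
    obtain ⟨B, hBA, hB, hy⟩ := ih
    obtain ⟨t, htA, hty, hty'⟩ := hstep
    by_cases htB : t ∈ B
    · exact ⟨B, hBA, hB, Or.inr ⟨t, htB, hty'⟩⟩
    · have hB0 : 0 ≤ ∑ t ∈ B, q t := Finset.sum_nonneg fun s hs => hq s (hBA hs)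
      have hxy : ‖F x - F y‖ ≤ ∑ t ∈ B, q t := by
        rcases hy with rfl | ⟨s, hs, hsy⟩
        · simpa using hB0
        · exact hB s hs y hsy
      refine ⟨insert t B, Finset.insert_subset htA hBA, ?_, Or.inr ⟨t, by simp, hty'⟩⟩
      intro s hs e hse
      rw [Finset.sum_insert htB]
      rcases Finset.mem_insert.mp hs with rfl | hs'
      · calc ‖F x - F e‖ = ‖(F x - F y) + (F y - F e)‖ := by ring_nf
          _ ≤ ‖F x - F y‖ + ‖F y - F e‖ := norm_add_le _ _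
          _ ≤ ∑ t ∈ B, q t + q s := add_le_add hxy (h s htA y e hty hse)
          _ = q s + ∑ t ∈ B, q t := by ring
      · have := hB s hs' e hse
        have := hq t htA
        linarith

/-- a walk through the sets of the family `A` -/
theorem walk_bound {E T : Type} (A : Finset T) (inc : T → E → Prop) (F : E → ℂ) (q : T → ℝ)
    (hq : ∀ t ∈ A, 0 ≤ q t)
    (h : ∀ t ∈ A, ∀ e e', inc t e → inc t e' → ‖F e - F e'‖ ≤ q t) {x y : E}
    (hxy : Relation.ReflTransGen (fun e e' => ∃ t ∈ A, inc t e ∧ inc t e') x y) :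
    ‖F x - F y‖ ≤ ∑ t ∈ A, q t := by
  obtain ⟨B, hBA, hB, hy⟩ := walk_aux A inc F q hq h hxy
  have h1 : ∑ t ∈ B, q t ≤ ∑ t ∈ A, q t :=
    Finset.sum_le_sum_of_subset_of_nonneg hBA fun t ht _ => hq t ht
  rcases hy with rfl | ⟨t, ht, hty⟩
  · simpa using Finset.sum_nonneg hq
  · exact (hB t ht y hty).trans h1

/-- one member of a weighted family has a small sum -/
theorem family {I T : Type} (J : Finset I) (lam : I → ℝ) (hl : ∀ i ∈ J, 0 ≤ lam i)
    (hs : ∑ i ∈ J, lam i = 1) (A : I → Finset T) (U : Finset T) (hU : ∀ i ∈ J, A i ⊆ U)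
    (q : T → ℝ) :
    ∃ i ∈ J, ∑ t ∈ A i, q t ≤
      Real.sqrt (∑ t ∈ U, (∑ i ∈ J.filter (fun i => t ∈ A i), lam i) ^ 2) *
      Real.sqrt (∑ t ∈ U, q t ^ 2) := by
  by_contra hcon
  push Not at hcon
  set M := Real.sqrt (∑ t ∈ U, (∑ i ∈ J.filter (fun i => t ∈ A i), lam i) ^ 2) *
      Real.sqrt (∑ t ∈ U, q t ^ 2) with hM
  have h1 : ∑ i ∈ J, lam i * ∑ t ∈ A i, q t ≤ M := by
    have h2 : ∑ i ∈ J, lam i * ∑ t ∈ A i, q t =
        ∑ t ∈ U, (∑ i ∈ J.filter (fun i => t ∈ A i), lam i) * q t := by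
      have h3 : ∀ i ∈ J, lam i * ∑ t ∈ A i, q t =
          ∑ t ∈ U, if t ∈ A i then lam i * q t else 0 := by
        intro i hi
        rw [Finset.mul_sum, ← Finset.sum_filter]
        apply Finset.sum_congr _ fun _ _ => rfl
        ext t
        simp only [Finset.mem_filter]
        exact ⟨fun h => ⟨hU i hi h, h⟩, fun h => h.2⟩
      rw [Finset.sum_congr rfl h3, Finset.sum_comm]
      apply Finset.sum_congr rfl
      intro t _
      rw [Finset.sum_mul, Finset.sum_filter]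
    rw [h2]
    exact cs U _ _
  have hne : ∃ i ∈ J, 0 < lam i := by
    by_contra hc
    push Not at hc
    have : ∑ i ∈ J, lam i ≤ 0 := Finset.sum_nonpos hc
    linarith
  have h4 : M < ∑ i ∈ J, lam i * ∑ t ∈ A i, q t := by
    calc M = ∑ i ∈ J, lam i * M := by rw [← Finset.sum_mul, hs, one_mul]
      _ < ∑ i ∈ J, lam i * ∑ t ∈ A i, q t := by
        apply Finset.sum_lt_sum
        · intro i hi
          exact mul_le_mul_of_nonneg_left (hcon i hi).le (hl i hi)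
        · obtain ⟨i, hi, hi0⟩ := hne
          exact ⟨i, hi, mul_lt_mul_of_pos_left (hcon i hi) hi0⟩
  linarith

/-! ### the observable -/

theorem om_pow_three : om ^ 3 = 1 := by
  rw [om, ← Complex.exp_nat_mul]
  rw [show ((3 : ℕ) : ℂ) * (((2 * Real.pi / 3 : ℝ) : ℂ) * Complex.I) =
    2 * Real.pi * Complex.I by push_cast; ring]
  exact Complex.exp_two_pi_mul_I

theorem norm_om : ‖om‖ = 1 := by
  rw [om]; exact Complex.norm_exp_ofReal_mul_I _

theorem om_re : om.re = -1 / 2 := by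
  rw [om, Complex.exp_ofReal_mul_I_re]
  rw [show (2 * Real.pi / 3 : ℝ) = Real.pi - Real.pi / 3 by ring, Real.cos_pi_sub,
    Real.cos_pi_div_three]
  norm_num

theorem norm_one_sub_om : ‖1 - om‖ = Real.sqrt 3 := by
  have h1 : ‖1 - om‖ ^ 2 = 3 := by
    rw [← Complex.normSq_eq_norm_sq, Complex.normSq_sub]
    have h2 : Complex.normSq om = 1 := by rw [Complex.normSq_eq_norm_sq, norm_om]; norm_num
    rw [h2]
    simp [om_re]
    norm_num
  rw [← h1, Real.sqrt_sq (norm_nonneg _)]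

theorem omz_add_one (k : ZMod 3) : omz (k + 1) = om * omz k := by
  have h3 := om_pow_three
  fin_cases k
  · change om ^ (ZMod.val (1 : ZMod 3)) = om * om ^ (ZMod.val (0 : ZMod 3))
    have e1 : ZMod.val (1 : ZMod 3) = 1 := rfl
    have e0 : ZMod.val (0 : ZMod 3) = 0 := rfl
    rw [e1, e0]; ring
  · change om ^ (ZMod.val (2 : ZMod 3)) = om * om ^ (ZMod.val (1 : ZMod 3))
    have e1 : ZMod.val (1 : ZMod 3) = 1 := rfl
    have e2 : ZMod.val (2 : ZMod 3) = 2 := rfl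
    rw [e1, e2]; ring
  · change om ^ (ZMod.val (0 : ZMod 3)) = om * om ^ (ZMod.val (2 : ZMod 3))
    have e0 : ZMod.val (0 : ZMod 3) = 0 := rfl
    have e2 : ZMod.val (2 : ZMod 3) = 2 := rfl
    rw [e0, e2, pow_zero, ← h3]; ring

variable {V : Type}

theorem Fob_comm (N : Net V) (a b : V) : N.Fob a b = N.Fob b a := by
  unfold Net.Fob
  congr 1
  · apply Finset.sum_congr rfl
    intro k _
    rw [add_comm]
  · rw [add_comm]

theorem choose_congr {P Q : ZMod 3 → Prop} (e : P = Q) (h : ∃ k, P k) (h' : ∃ k, Q k) :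
    h.choose = h'.choose := by
  subst e; rfl

theorem F_comm (N : Net V) (a b : V) : N.F a b = N.F b a := by
  unfold Net.F
  by_cases h : ∃ k, N.ex k = (a, b) ∨ N.ex k = (b, a)
  · have h' : ∃ k, N.ex k = (b, a) ∨ N.ex k = (a, b) := by
      obtain ⟨k, hk⟩ := h
      exact ⟨k, hk.symm⟩
    rw [dif_pos h, dif_pos h']
    congr 1
    exact choose_congr (funext fun k => propext or_comm) h h'
  · have h' : ¬ ∃ k, N.ex k = (b, a) ∨ N.ex k = (a, b) := by
      rintro ⟨k, hk⟩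
      exact h ⟨k, hk.symm⟩
    rw [dif_neg h, dif_neg h', Fob_comm]

theorem rots_rot (a b c : V) : rots (b, c, a) = rots (a, b, c) := by
  ext t
  simp only [rots, Set.mem_insert_iff, Set.mem_singleton_iff]
  tauto

theorem tj_rot (N : Net V) (a b c : V) : N.tj (b, c, a) = N.tj (a, b, c) := by
  unfold Net.tj
  rw [rots_rot]

theorem Tri3_rot (N : Net V) (a b c : V) (k : ZMod 3) (J : Finset (V × V)) :
    N.Tri3 (b, c, a) (k + 1) J ↔ N.Tri3 (a, b, c) k J := by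
  unfold Net.Tri3
  rw [rots_rot]
  have e0 : (0 : ZMod 3) + (k + 1) = 1 + k := by ring
  have e1 : (1 : ZMod 3) + (k + 1) = 2 + k := by ring
  have e2 : (2 : ZMod 3) + (k + 1) = 0 + k := by
    have : (3 : ZMod 3) = 0 := rfl
    calc (2 : ZMod 3) + (k + 1) = 3 + k := by ring
      _ = 0 + k := by rw [this]
  simp only [e0, e1, e2]
  tauto

theorem triA_rot (N : Net V) (a b c : V) (k : ZMod 3) :
    N.triA (b, c, a) (k + 1) = N.triA (a, b, c) k := by
  unfold Net.triA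
  rw [tj_rot]
  have : (N.tj (a, b, c)).filter (N.Tri3 (b, c, a) (k + 1)) =
      (N.tj (a, b, c)).filter (N.Tri3 (a, b, c) k) := by
    apply Finset.filter_congr
    intro J _
    exact Tri3_rot N a b c k J
  rw [this]

theorem Q_rot (N : Net V) (a b c : V) : N.Q (b, c, a) = om * N.Q (a, b, c) := by
  unfold Net.Q
  rw [Finset.mul_sum]
  rw [← Equiv.sum_comp (Equiv.addRight (1 : ZMod 3))]
  apply Finset.sum_congr rfl
  intro k _
  simp only [Equiv.coe_addRight]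
  rw [triA_rot, omz_add_one]
  ring

theorem norm_Q_rot (N : Net V) (a b c : V) : ‖N.Q (b, c, a)‖ = ‖N.Q (a, b, c)‖ := by
  rw [Q_rot, norm_mul, norm_om, one_mul]

/-! ### one triangle -/

/-- the relations J1 and J2 at the triangle `t`. (For networks this is `relAt_of` in `Rel_63`: the
versions `J1`, `J2` of `B0_346` without the nonemptiness hypothesis are false, see `J1_872`.) -/
structure RelAt (N : Net V) (t : V × V × V) : Prop where
  j1 : (t.1, t.2.1) ∉ N.kl → (t.2.1, t.2.2) ∉ N.kl → (t.2.2, t.1) ∉ N.kl →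
    ∃ h : ℂ, N.F t.1 t.2.1 = h + N.Q t ∧ N.F t.2.1 t.2.2 = h + om * N.Q t ∧
      N.F t.2.2 t.1 = h + om ^ 2 * N.Q t
  j2 : ∀ a b c : V, (a, b, c) ∈ rots t → (a, b) ∈ N.kl → (b, c) ∉ N.kl → (c, a) ∉ N.kl →
    N.F b c = N.F c a

theorem RelAt.rot {N : Net V} {a b c : V} (h : RelAt N (a, b, c)) : RelAt N (b, c, a) where
  j1 := by
    intro h1 h2 h3
    simp only at h1 h2 h3 ⊢
    obtain ⟨g, e1, e2, e3⟩ := h.j1 h3 h1 h2
    simp only at e1 e2 e3
    refine ⟨g, ?_, ?_, ?_⟩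
    · rw [e2, Q_rot N a b c]
    · rw [e3, Q_rot N a b c]; ring
    · rw [e1, Q_rot N a b c]
      have := om_pow_three
      linear_combination (-N.Q (a, b, c)) * this
  j2 := by
    intro x y z hx
    rw [rots_rot] at hx
    exact h.j2 x y z hx

/-- two live sides of a triangle -/
theorem step {N : Net V} {a b c : V} (hR : RelAt N (a, b, c)) (h1 : (a, b) ∉ N.kl)
    (h2 : (b, c) ∉ N.kl) : ‖N.F a b - N.F b c‖ ≤ Real.sqrt 3 * ‖N.Q (a, b, c)‖ := by
  by_cases h3 : (c, a) ∈ N.kl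
  · have h4 := hR.j2 c a b (by simp [rots]) h3 h1 h2
    rw [h4, sub_self, norm_zero]
    positivity
  · obtain ⟨h, e1, e2, -⟩ := hR.j1 h1 h2 h3
    simp only at e1 e2
    rw [e1, e2]
    have : h + N.Q (a, b, c) - (h + om * N.Q (a, b, c)) = (1 - om) * N.Q (a, b, c) := by ring
    rw [this, norm_mul, norm_one_sub_om]

/-- `e` is a live side of `t` (in one of the two directions) -/
def LSide (N : Net V) (t : V × V × V) (e : V × V) : Prop :=
  e ∉ N.kl ∧ (e = (t.1, t.2.1) ∨ e = (t.2.1, t.2.2) ∨ e = (t.2.2, t.1) ∨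
    e = (t.2.1, t.1) ∨ e = (t.2.2, t.2.1) ∨ e = (t.1, t.2.2))

theorem step' {N : Net V} {t : V × V × V} (hR : RelAt N t) {e e' : V × V} (he : LSide N t e)
    (he' : LSide N t e') : ‖N.F e.1 e.2 - N.F e'.1 e'.2‖ ≤ Real.sqrt 3 * ‖N.Q t‖ := by
  obtain ⟨a, b, c⟩ := t
  -- reduce to the three standard sides
  have key : ∀ {e : V × V}, LSide N (a, b, c) e → ∃ f : V × V, N.F e.1 e.2 = N.F f.1 f.2 ∧
      f ∉ N.kl ∧ (f = (a, b) ∨ f = (b, c) ∨ f = (c, a)) := by
    intro e ⟨h1, h2⟩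
    simp only at h2
    rcases h2 with h | h | h | h | h | h
    · exact ⟨e, rfl, h1, Or.inl h⟩
    · exact ⟨e, rfl, h1, Or.inr (Or.inl h)⟩
    · exact ⟨e, rfl, h1, Or.inr (Or.inr h)⟩
    · refine ⟨(a, b), ?_, ?_, Or.inl rfl⟩
      · rw [h]; exact F_comm N b a
      · intro h3; exact h1 (h ▸ N.klsym a b h3)
    · refine ⟨(b, c), ?_, ?_, Or.inr (Or.inl rfl)⟩
      · rw [h]; exact F_comm N c b
      · intro h3; exact h1 (h ▸ N.klsym b c h3)
    · refine ⟨(c, a), ?_, ?_, Or.inr (Or.inr rfl)⟩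
      · rw [h]; exact F_comm N a c
      · intro h3; exact h1 (h ▸ N.klsym c a h3)
  obtain ⟨f, hf, hfk, hf3⟩ := key he
  obtain ⟨f', hf', hfk', hf3'⟩ := key he'
  rw [hf, hf']
  have n1 : ‖N.Q (b, c, a)‖ = ‖N.Q (a, b, c)‖ := norm_Q_rot N a b c
  have n2 : ‖N.Q (c, a, b)‖ = ‖N.Q (a, b, c)‖ := by rw [norm_Q_rot N b c a, n1]
  have hpos : 0 ≤ Real.sqrt 3 * ‖N.Q (a, b, c)‖ := by positivity
  rcases hf3 with rfl | rfl | rfl <;> rcases hf3' with rfl | rfl | rfl
  · simp only [sub_self, norm_zero]; exact hpos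
  · exact step hR hfk hfk'
  · rw [norm_sub_rev, ← n2]; exact step hR.rot.rot hfk' hfk
  · rw [norm_sub_rev]; exact step hR hfk' hfk
  · simp only [sub_self, norm_zero]; exact hpos
  · rw [← n1]; exact step hR.rot hfk hfk'
  · rw [← n2]; exact step hR.rot.rot hfk hfk'
  · rw [norm_sub_rev, ← n1]; exact step hR.rot hfk' hfk
  · simp only [sub_self, norm_zero]; exact hpos

/-- `e` and `e'` are connected through live sides of triangles of `A` -/
def Conn (N : Net V) (A : Finset (V × V × V)) (e e' : V × V) : Prop :=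
  Relation.ReflTransGen (fun e e' => ∃ t ∈ A, LSide N t e ∧ LSide N t e') e e'

/-- oscillation on a connected set of triangles -/
theorem osc_conn {N : Net V} (A : Finset (V × V × V)) (hA : ∀ t ∈ A, RelAt N t) {e e' : V × V}
    (h : Conn N A e e') :
    ‖N.F e.1 e.2 - N.F e'.1 e'.2‖ ≤ Real.sqrt 3 * ∑ t ∈ A, ‖N.Q t‖ := by
  rw [Finset.mul_sum]
  exact walk_bound A (LSide N) (fun e => N.F e.1 e.2) (fun t => Real.sqrt 3 * ‖N.Q t‖)
    (fun t _ => by positivity) (fun t ht e e' he he' => step' (hA t ht) he he') h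

/-- **T4** for finite families (one oriented representative per triangle in `A i` is enough) -/
theorem T4 {N : Net V} {I : Type} (J : Finset I) (lam : I → ℝ) (hl : ∀ i ∈ J, 0 ≤ lam i)
    (hs : ∑ i ∈ J, lam i = 1) (A : I → Finset (V × V × V)) (U : Finset (V × V × V))
    (hU : ∀ i ∈ J, A i ⊆ U) (hR : ∀ t ∈ U, RelAt N t) :
    ∃ i ∈ J, ∀ e e' : V × V, Conn N (A i) e e' → ‖N.F e.1 e.2 - N.F e'.1 e'.2‖ ≤
      Real.sqrt 3 * (Real.sqrt (∑ t ∈ U, (∑ i ∈ J.filter (fun i => t ∈ A i), lam i) ^ 2) *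
      Real.sqrt (∑ t ∈ U, ‖N.Q t‖ ^ 2)) := by
  obtain ⟨i, hi, h⟩ := family J lam hl hs A U hU (fun t => ‖N.Q t‖)
  refine ⟨i, hi, fun e e' hc => ?_⟩
  refine (osc_conn (A i) (fun t ht => hR t (hU i hi ht)) hc).trans ?_
  refine mul_le_mul_of_nonneg_left (le_trans h (le_of_eq ?_)) (Real.sqrt_nonneg _)
  congr!

/-- **T4** for circles: `[a t, b t]` = range of the distance to the centre on the face `t`, `K` =
dyadic scales with `∑ diam² ≤ C 4 ^ k`, `A k` = allowed radii -/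
theorem T4_circles {N : Net V} (U : Finset (V × V × V)) (hR : ∀ t ∈ U, RelAt N t)
    (a b : V × V × V → ℝ)
    (hab : ∀ t ∈ U, a t ≤ b t) {C : ℝ} (hC : 0 ≤ C) (K : Finset ℤ) (hK : K.Nonempty)
    (hd : ∀ k ∈ K, ∑ t ∈ U.filter (fun t => a t ≤ (2 : ℝ) ^ (k + 1) ∧ (2 : ℝ) ^ k ≤ b t),
      (b t - a t) ^ 2 ≤ C * (4 : ℝ) ^ k)
    (A : ℤ → Set ℝ) (hA : ∀ k ∈ K, MeasurableSet (A k))
    (hAs : ∀ k ∈ K, A k ⊆ Icc ((2 : ℝ) ^ k) ((2 : ℝ) ^ (k + 1)))
    {c : ℝ} (hc : 0 < c) (hAc : ∀ k ∈ K, c * (2 : ℝ) ^ k ≤ (volume : Measure ℝ).real (A k)) :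
    ∃ k ∈ K, ∃ ρ ∈ A k, ∀ e e' : V × V,
      Conn N (U.filter (fun t => a t ≤ ρ ∧ ρ ≤ b t)) e e' →
      ‖N.F e.1 e.2 - N.F e'.1 e'.2‖ ≤ Real.sqrt 3 *
      (c⁻¹ * Real.sqrt (C * (Real.sqrt C + 2) * (∑ t ∈ U, ‖N.Q t‖ ^ 2) / K.card)) := by
  obtain ⟨k, hk, ρ, hρ, h⟩ := len_area_dyadic U (fun t => ‖N.Q t‖) a b (fun t _ => norm_nonneg _)
    hab hC K hK hd A hA hAs hc hAc
  refine ⟨k, hk, ρ, hρ, fun e e' hcn => ?_⟩
  refine (osc_conn _ (fun t ht => hR t (Finset.mem_filter.mp ht).1) hcn).trans ?_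
  apply mul_le_mul_of_nonneg_left _ (Real.sqrt_nonneg _)
  convert h

end Crest.Agent.R143.Oscx63
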