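import Mathlib

/-!
Row 143, B4 of CORE-B: transport of a small log-ratio from the real segment `[1, 1+d]` to an
arbitrary point of a simply connected domain on which the functions have no zero
(log branch + Borel--Caratheodory chain + two constants theorem).
-/

open Complex Set Metric
open scoped Topology Real

namespace Crest.Agent.R143.TwoCx640

/-! ### three circles and segment to disc -/

/-- Three circles (disc to disc): `g` holomorphic on `ball q R`, bounded by `M` there and by `η`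
on `ball q r`. -/
theorem tc_disc {g : ℂ → ℂ} {q : ℂ} {r ρ R' R M η : ℝ} (hr : 0 < r) (hρ : ρ < R') (hrR : r < R')
    (hR : R' < R) (hg : DifferentiableOn ℂ g (ball q R)) (hM : ∀ z ∈ ball q R, ‖g z‖ ≤ M)
    (hη0 : 0 < η) (hηM : η ≤ M) (hη : ∀ z ∈ closedBall q r, ‖g z‖ ≤ η) {w : ℂ}
    (hw : w ∈ closedBall q ρ) :
    ‖g w‖ ≤ η ^ (1 - (Real.log (max ρ r) - Real.log r) / (Real.log R' - Real.log r)) *
      M ^ ((Real.log (max ρ r) - Real.log r) / (Real.log R' - Real.log r)) := by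
  have hM0 : 0 < M := lt_of_lt_of_le hη0 hηM
  have hR'0 : 0 < R' := hr.trans hrR
  have hlog : Real.log r < Real.log R' := Real.log_lt_log hr hrR
  have hden : 0 < Real.log R' - Real.log r := by linarith
  have hmaxr : r ≤ max ρ r := le_max_right _ _
  have hmaxR : max ρ r < R' := max_lt hρ hrR
  have hmax0 : 0 < max ρ r := lt_of_lt_of_le hr hmaxr
  -- monotonicity in the exponent
  have hmono : ∀ s t : ℝ, s ≤ t → η ^ (1 - s) * M ^ s ≤ η ^ (1 - t) * M ^ t := by
    intro s t hst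
    have h1 : η ^ (1 - s) = η ^ (1 - t) * η ^ (t - s) := by
      rw [← Real.rpow_add hη0]; ring_nf
    have h2 : M ^ t = M ^ s * M ^ (t - s) := by
      rw [← Real.rpow_add hM0]; ring_nf
    rw [h1, h2]
    have h3 : η ^ (t - s) ≤ M ^ (t - s) := Real.rpow_le_rpow hη0.le hηM (by linarith)
    have h4 : 0 < η ^ (1 - t) := Real.rpow_pos_of_pos hη0 _
    have h5 : 0 < M ^ s := Real.rpow_pos_of_pos hM0 _
    calc η ^ (1 - t) * η ^ (t - s) * M ^ s = (η ^ (1 - t) * M ^ s) * η ^ (t - s) := by ring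
      _ ≤ (η ^ (1 - t) * M ^ s) * M ^ (t - s) := by gcongr
      _ = η ^ (1 - t) * (M ^ s * M ^ (t - s)) := by ring
  rw [mem_closedBall, dist_eq_norm] at hw
  by_cases hwr : ‖w - q‖ ≤ r
  · have h1 := hη w (by rw [mem_closedBall, dist_eq_norm]; exact hwr)
    refine h1.trans ?_
    have h2 := hmono 0 ((Real.log (max ρ r) - Real.log r) / (Real.log R' - Real.log r)) (by
      apply div_nonneg _ hden.le
      linarith [Real.log_le_log hr hmaxr])
    simpa using h2
  · rw [not_le] at hwr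
    have hwq : w - q ≠ 0 := by
      intro h; rw [h, norm_zero] at hwr; linarith
    have hwmax : ‖w - q‖ ≤ max ρ r := hw.trans (le_max_left _ _)
    set ζ : ℂ := Complex.log (w - q) with hζ
    have hζre : ζ.re = Real.log ‖w - q‖ := by rw [hζ, Complex.log_re]
    have hζe : q + Complex.exp ζ = w := by rw [hζ, Complex.exp_log hwq]; ring
    have hstrip : ∀ z : ℂ, z.re ≤ Real.log R' → q + Complex.exp z ∈ ball q R := by
      intro z hz
      rw [mem_ball, dist_eq_norm, add_sub_cancel_left, Complex.norm_exp]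
      calc Real.exp z.re ≤ Real.exp (Real.log R') := Real.exp_le_exp.mpr hz
        _ = R' := Real.exp_log hR'0
        _ < R := hR
    have hdiff : ∀ z : ℂ, z.re ≤ Real.log R' → DifferentiableAt ℂ (fun z => g (q + Complex.exp z)) z := by
      intro z hz
      have h1 : DifferentiableAt ℂ g (q + Complex.exp z) :=
        hg.differentiableAt (isOpen_ball.mem_nhds (hstrip z hz))
      exact h1.comp z (by fun_prop)
    have key := Complex.HadamardThreeLines.norm_le_interp_of_mem_verticalClosedStrip'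
      (f := fun z => g (q + Complex.exp z)) (z := ζ) (a := η) (b := M) hlog
      (by
        refine ⟨?_, ?_⟩
        · rw [hζre]; exact Real.log_le_log hr hwr.le
        · rw [hζre]; exact Real.log_le_log (by linarith) (hwmax.trans hmaxR.le))
      (by
        have hcl : closure (Complex.HadamardThreeLines.verticalStrip (Real.log r) (Real.log R'))
            ⊆ {z : ℂ | z.re ≤ Real.log R'} := by
          apply closure_minimal _ (isClosed_le Complex.continuous_re continuous_const)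
          intro z hz
          exact hz.2.le
        refine ⟨?_, ?_⟩
        · intro z hz
          exact (hdiff z hz.2.le).differentiableWithinAt
        · intro z hz
          exact (hdiff z (hcl hz)).continuousAt.continuousWithinAt)
      (by
        refine ⟨M, ?_⟩
        rintro _ ⟨z, hz, rfl⟩
        exact hM _ (hstrip z hz.2))
      (by
        intro z hz
        apply hη
        rw [mem_closedBall, dist_eq_norm, add_sub_cancel_left, Complex.norm_exp]
        have hz' : z.re = Real.log r := hz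
        rw [hz', Real.exp_log hr])
      (by
        intro z hz
        have hz' : z.re = Real.log R' := hz
        exact hM _ (hstrip z hz'.le))
    simp only [hζe] at key
    refine key.trans (hmono _ _ ?_)
    rw [hζre]
    apply div_le_div_of_nonneg_right _ hden.le
    linarith [Real.log_le_log (by linarith : 0 < ‖w - q‖) hwmax]

/-- every `u` with `‖u‖ ≤ sinh a` is `cosh ζ` with `0 ≤ Re ζ ≤ a`. -/
theorem exists_cosh {a : ℝ} {u : ℂ} (hu : ‖u‖ ≤ Real.sinh a) :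
    ∃ ζ : ℂ, Complex.cosh ζ = u ∧ 0 ≤ ζ.re ∧ ζ.re ≤ a := by
  obtain ⟨θ, hθ⟩ := Complex.cos_surjective u
  have h1 : ∃ ζ : ℂ, Complex.cosh ζ = u ∧ 0 ≤ ζ.re := by
    have h2 : Complex.cosh (θ * I) = u := by rw [Complex.cosh_mul_I, hθ]
    rcases le_total 0 (θ * I).re with h | h
    · exact ⟨θ * I, h2, h⟩
    · refine ⟨-(θ * I), by rw [Complex.cosh_neg, h2], ?_⟩
      rw [Complex.neg_re]; linarith
  obtain ⟨ζ, hζ, h0⟩ := h1
  refine ⟨ζ, hζ, h0, ?_⟩
  have h3 : Real.sinh ζ.re ≤ ‖u‖ := by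
    rw [← hζ]
    have h4 : Complex.cosh ζ = Complex.ofReal (Real.cosh ζ.re * Real.cos ζ.im) +
        Complex.ofReal (Real.sinh ζ.re * Real.sin ζ.im) * I := by
      conv_lhs => rw [← Complex.re_add_im ζ]
      rw [Complex.cosh_add, Complex.cosh_mul_I, Complex.sinh_mul_I]
      push_cast
      ring
    have h5 : Real.sinh ζ.re ^ 2 ≤ ‖Complex.cosh ζ‖ ^ 2 := by
      rw [← Complex.normSq_eq_norm_sq, h4, Complex.normSq_add_mul_I]
      have h6 := Real.cosh_sq ζ.re
      have h7 := Real.sin_sq_add_cos_sq ζ.im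
      nlinarith [sq_nonneg (Real.cos ζ.im), sq_nonneg (Real.sinh ζ.re)]
    exact le_of_sq_le_sq h5 (norm_nonneg _) |> fun h => h
  exact Real.sinh_le_sinh.mp (h3.trans hu)

/-- monotonicity of the interpolation in the exponent. -/
theorem interp_mono {η M : ℝ} (hη0 : 0 < η) (hηM : η ≤ M) {s t : ℝ} (hst : s ≤ t) :
    η ^ (1 - s) * M ^ s ≤ η ^ (1 - t) * M ^ t := by
  have hM0 : 0 < M := lt_of_lt_of_le hη0 hηM
  have h1 : η ^ (1 - s) = η ^ (1 - t) * η ^ (t - s) := by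
    rw [← Real.rpow_add hη0]; ring_nf
  have h2 : M ^ t = M ^ s * M ^ (t - s) := by
    rw [← Real.rpow_add hM0]; ring_nf
  rw [h1, h2]
  have h3 : η ^ (t - s) ≤ M ^ (t - s) := Real.rpow_le_rpow hη0.le hηM (by linarith)
  have h4 : 0 < η ^ (1 - t) := Real.rpow_pos_of_pos hη0 _
  have h5 : 0 < M ^ s := Real.rpow_pos_of_pos hM0 _
  calc η ^ (1 - t) * η ^ (t - s) * M ^ s = (η ^ (1 - t) * M ^ s) * η ^ (t - s) := by ring
    _ ≤ (η ^ (1 - t) * M ^ s) * M ^ (t - s) := by gcongr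
    _ = η ^ (1 - t) * (M ^ s * M ^ (t - s)) := by ring

/-- `‖cosh z‖ ≤ cosh (re z)`. -/
theorem norm_cosh_le (z : ℂ) : ‖Complex.cosh z‖ ≤ Real.cosh z.re := by
  have h4 : Complex.cosh z = Complex.ofReal (Real.cosh z.re * Real.cos z.im) +
      Complex.ofReal (Real.sinh z.re * Real.sin z.im) * I := by
    conv_lhs => rw [← Complex.re_add_im z]
    rw [Complex.cosh_add, Complex.cosh_mul_I, Complex.sinh_mul_I]
    push_cast
    ring
  have h5 : ‖Complex.cosh z‖ ^ 2 ≤ Real.cosh z.re ^ 2 := by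
    rw [← Complex.normSq_eq_norm_sq, h4, Complex.normSq_add_mul_I]
    have h6 := Real.cosh_sq z.re
    have h7 := Real.sin_sq_add_cos_sq z.im
    nlinarith [sq_nonneg (Real.sin z.im), sq_nonneg (Real.sinh z.re)]
  exact (abs_le_of_sq_le_sq' h5 (Real.cosh_pos _).le).2

/-- Segment to disc: `g` holomorphic and bounded by `M` on `ball c R`, bounded by `η` on the
horizontal segment of half length `s` around `c`. -/
theorem tc_seg {g : ℂ → ℂ} {c : ℂ} {R s M η a : ℝ} (hs : 0 < s) (ha : 0 < a)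
    (hsR : s * Real.cosh a < R) (hg : DifferentiableOn ℂ g (ball c R))
    (hM : ∀ z ∈ ball c R, ‖g z‖ ≤ M) (hη0 : 0 < η) (hηM : η ≤ M)
    (hη : ∀ x : ℝ, |x| ≤ s → ‖g (c + x)‖ ≤ η) {w : ℂ} (hw : ‖w - c‖ ≤ s * Real.sinh (a / 2)) :
    ‖g w‖ ≤ η ^ (1 - (1 / 2 : ℝ)) * M ^ (1 / 2 : ℝ) := by
  have hsC : (s : ℂ) ≠ 0 := by exact_mod_cast hs.ne'
  obtain ⟨ζ, hζ, h0, h1⟩ := exists_cosh (a := a / 2) (u := (w - c) / s) (by
    rw [norm_div, Complex.norm_real, Real.norm_eq_abs, abs_of_pos hs, div_le_iff₀ hs]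
    linarith)
  have hw' : c + s * Complex.cosh ζ = w := by
    rw [hζ]; field_simp; ring
  have hstrip : ∀ z : ℂ, 0 ≤ z.re → z.re ≤ a → c + s * Complex.cosh z ∈ ball c R := by
    intro z hz0 hz
    rw [mem_ball, dist_eq_norm, add_sub_cancel_left, norm_mul, Complex.norm_real,
      Real.norm_eq_abs, abs_of_pos hs]
    have h2 : Real.cosh z.re ≤ Real.cosh a := by
      rw [Real.cosh_le_cosh, abs_of_nonneg hz0, abs_of_pos ha]; exact hz
    calc s * ‖Complex.cosh z‖ ≤ s * Real.cosh a := by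
          apply mul_le_mul_of_nonneg_left _ hs.le
          exact (norm_cosh_le z).trans h2
      _ < R := hsR
  have hdiff : ∀ z : ℂ, 0 ≤ z.re → z.re ≤ a →
      DifferentiableAt ℂ (fun z => g (c + s * Complex.cosh z)) z := by
    intro z hz0 hz
    have h1 : DifferentiableAt ℂ g (c + s * Complex.cosh z) :=
      hg.differentiableAt (isOpen_ball.mem_nhds (hstrip z hz0 hz))
    exact h1.comp z (by fun_prop)
  have key := Complex.HadamardThreeLines.norm_le_interp_of_mem_verticalClosedStrip'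
    (f := fun z => g (c + s * Complex.cosh z)) (z := ζ) (a := η) (b := M) ha
    ⟨h0, h1.trans (by linarith)⟩
    (by
      have hcl : closure (Complex.HadamardThreeLines.verticalStrip 0 a)
          ⊆ {z : ℂ | 0 ≤ z.re ∧ z.re ≤ a} := by
        apply closure_minimal _ ((isClosed_le continuous_const Complex.continuous_re).inter
          (isClosed_le Complex.continuous_re continuous_const))
        intro z hz
        exact ⟨hz.1.le, hz.2.le⟩
      refine ⟨?_, ?_⟩
      · intro z hz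
        exact (hdiff z hz.1.le hz.2.le).differentiableWithinAt
      · intro z hz
        exact (hdiff z (hcl hz).1 (hcl hz).2).continuousAt.continuousWithinAt)
    (by
      refine ⟨M, ?_⟩
      rintro _ ⟨z, hz, rfl⟩
      exact hM _ (hstrip z hz.1 hz.2))
    (by
      intro z hz
      have hz' : z.re = 0 := hz
      have hz2 : z = (z.im : ℂ) * I := by
        apply Complex.ext <;> simp [hz']
      have h3 : c + s * Complex.cosh z = c + ((s * Real.cos z.im : ℝ) : ℂ) := by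
        conv_lhs => rw [hz2, Complex.cosh_mul_I]
        push_cast
        ring
      rw [h3]
      apply hη
      rw [abs_mul, abs_of_pos hs]
      calc s * |Real.cos z.im| ≤ s * 1 := by
            apply mul_le_mul_of_nonneg_left (Real.abs_cos_le_one _) hs.le
        _ = s := mul_one s)
    (by
      intro z hz
      have hz' : z.re = a := hz
      exact hM _ (hstrip z (by rw [hz']; exact ha.le) hz'.le))
  simp only [hw'] at key
  refine key.trans (interp_mono hη0 hηM ?_)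
  rw [sub_zero, sub_zero, div_le_iff₀ ha]
  linarith

/-! ### the chain arguments in a preconnected open set -/

/-- Open--closed principle: a property of points of a preconnected open set, true at one point,
stable in the sense that it holds in a neighbourhood (inside `U`) and passes to nearby points. -/
theorem chain {U : Set ℂ} (hUc : IsPreconnected U) (S : ℂ → Prop) {q0 : ℂ}
    (hq0 : q0 ∈ U) (hS0 : S q0)
    (hstep : ∀ q ∈ U, ∃ δ > 0, ball q δ ⊆ U ∧ ∀ q' ∈ ball q δ, S q' → ∀ q'' ∈ ball q δ, S q'')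
    {q : ℂ} (hq : q ∈ U) : S q := by
  by_contra hSq
  have h1 : IsOpen {q | q ∈ U ∧ S q} := by
    rw [Metric.isOpen_iff]
    rintro q ⟨hqU, hSq⟩
    obtain ⟨δ, hδ, hsub, h⟩ := hstep q hqU
    refine ⟨δ, hδ, fun q' hq' => ⟨hsub hq', h q (mem_ball_self hδ) hSq q' hq'⟩⟩
  have h2 : IsOpen {q | q ∈ U ∧ ¬ S q} := by
    rw [Metric.isOpen_iff]
    rintro q ⟨hqU, hSq⟩
    obtain ⟨δ, hδ, hsub, h⟩ := hstep q hqU
    refine ⟨δ, hδ, fun q' hq' => ⟨hsub hq', fun hS => hSq (h q' hq' hS q (mem_ball_self hδ))⟩⟩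
  obtain ⟨x, hxU, hx1, hx2⟩ := hUc _ _ h1 h2
    (fun x hx => by
      by_cases h : S x
      · exact Or.inl ⟨hx, h⟩
      · exact Or.inr ⟨hx, h⟩)
    ⟨q0, hq0, hq0, hS0⟩ ⟨q, hq, hq, hSq⟩
  exact hx2.2 hx1.2

/-- Borel--Caratheodory chain. -/
theorem bc_chain {U : Set ℂ} (hUo : IsOpen U) (hUc : IsPreconnected U) {q0 : ℂ} (hq0 : q0 ∈ U)
    {q : ℂ} (hq : q ∈ U) :
    ∃ C r : ℝ, 1 ≤ C ∧ 0 < r ∧ ball q r ⊆ U ∧ ∀ (g : ℂ → ℂ) (L : ℝ), 0 < L →
      DifferentiableOn ℂ g U → (∀ z ∈ U, (g z).re ≤ L) → ‖g q0‖ ≤ L →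
      ∀ z ∈ ball q r, ‖g z‖ ≤ C * L := by
  -- first the bound at a point
  have hpt : ∀ q ∈ U, ∃ C : ℝ, 1 ≤ C ∧ ∀ (g : ℂ → ℂ) (L : ℝ), 0 < L →
      DifferentiableOn ℂ g U → (∀ z ∈ U, (g z).re ≤ L) → ‖g q0‖ ≤ L → ‖g q‖ ≤ C * L := by
    intro q hq
    refine chain hUc (fun q => ∃ C : ℝ, 1 ≤ C ∧ ∀ (g : ℂ → ℂ) (L : ℝ), 0 < L →
      DifferentiableOn ℂ g U → (∀ z ∈ U, (g z).re ≤ L) → ‖g q0‖ ≤ L → ‖g q‖ ≤ C * L) hq0
      ⟨1, le_refl _, fun g L hL _ _ h => by simpa using h⟩ ?_ hq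
    intro q hq
    obtain ⟨δ, hδ, hsub⟩ := Metric.isOpen_iff.mp hUo q hq
    refine ⟨δ / 5, by positivity, (ball_subset_ball (by linarith)).trans hsub, ?_⟩
    rintro q' hq' ⟨C, hC, h⟩ q'' hq''
    refine ⟨4 + 3 * C, by linarith, fun g L hL hg hre h0 => ?_⟩
    have hqq' := mem_ball.mp hq'
    have hqq'' := mem_ball.mp hq''
    have hb : ball q' (4 * δ / 5) ⊆ U := by
      refine Subset.trans ?_ hsub
      intro z hz
      rw [mem_ball] at hz ⊢
      have := dist_triangle z q' q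
      linarith
    have hdist : ‖q'' - q'‖ < 2 * δ / 5 := by
      rw [← dist_eq_norm]
      have := dist_triangle q'' q q'
      rw [dist_comm q q'] at this
      linarith
    have h3 := Complex.borelCaratheodory (f := fun z => g (q' + z)) (M := L) (R := 4 * δ / 5)
      (z := q'' - q') hL
      (by
        intro z hz
        have hz' : q' + z ∈ U := hb (by
          rw [mem_ball, dist_eq_norm, add_sub_cancel_left]
          simpa using hz)
        have h1 : DifferentiableAt ℂ g (q' + z) := hg.differentiableAt (hUo.mem_nhds hz')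
        exact (h1.comp z (by fun_prop)).differentiableWithinAt)
      (by
        intro z hz
        apply hre
        apply hb
        rw [mem_ball, dist_eq_norm, add_sub_cancel_left]
        simpa using hz)
      (by positivity)
      (by rw [mem_ball_zero_iff]; linarith)
    simp only [add_zero, add_sub_cancel] at h3
    have h4 := h g L hL hg hre h0
    have hden : 0 < 4 * δ / 5 - ‖q'' - q'‖ := by linarith
    have h5 : 2 * L * ‖q'' - q'‖ / (4 * δ / 5 - ‖q'' - q'‖) ≤ 4 * L := by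
      rw [div_le_iff₀ hden]
      nlinarith [norm_nonneg (q'' - q')]
    have h6 : ‖g q'‖ * (4 * δ / 5 + ‖q'' - q'‖) / (4 * δ / 5 - ‖q'' - q'‖) ≤ ‖g q'‖ * 3 := by
      rw [mul_div_assoc]
      apply mul_le_mul_of_nonneg_left _ (norm_nonneg _)
      rw [div_le_iff₀ hden]
      nlinarith
    calc ‖g q''‖ ≤ _ := h3
      _ ≤ 4 * L + ‖g q'‖ * 3 := by linarith
      _ ≤ 4 * L + (C * L) * 3 := by linarith
      _ = (4 + 3 * C) * L := by ring
  obtain ⟨C, hC, h⟩ := hpt q hq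
  obtain ⟨δ, hδ, hsub⟩ := Metric.isOpen_iff.mp hUo q hq
  refine ⟨4 + 3 * C, δ / 2, by linarith, by positivity,
    (ball_subset_ball (by linarith)).trans hsub, fun g L hL hg hre h0 z hz => ?_⟩
  have hdist : ‖z - q‖ < δ / 2 := by rw [← dist_eq_norm]; exact hz
  have h3 := Complex.borelCaratheodory (f := fun z => g (q + z)) (M := L) (R := δ)
      (z := z - q) hL
      (by
        intro z hz
        have hz' : q + z ∈ U := hsub (by
          rw [mem_ball, dist_eq_norm, add_sub_cancel_left]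
          simpa using hz)
        have h1 : DifferentiableAt ℂ g (q + z) := hg.differentiableAt (hUo.mem_nhds hz')
        exact (h1.comp z (by fun_prop)).differentiableWithinAt)
      (by
        intro z hz
        apply hre
        apply hsub
        rw [mem_ball, dist_eq_norm, add_sub_cancel_left]
        simpa using hz)
      hδ
      (by rw [mem_ball_zero_iff]; linarith)
  simp only [add_zero, add_sub_cancel] at h3
  have h4 := h g L hL hg hre h0
  have hden : 0 < δ - ‖z - q‖ := by linarith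
  have h5 : 2 * L * ‖z - q‖ / (δ - ‖z - q‖) ≤ 4 * L := by
    rw [div_le_iff₀ hden]
    nlinarith [norm_nonneg (z - q)]
  have h6 : ‖g q‖ * (δ + ‖z - q‖) / (δ - ‖z - q‖) ≤ ‖g q‖ * 3 := by
    rw [mul_div_assoc]
    apply mul_le_mul_of_nonneg_left _ (norm_nonneg _)
    rw [div_le_iff₀ hden]
    nlinarith
  calc ‖g z‖ ≤ _ := h3
    _ ≤ 4 * L + ‖g q‖ * 3 := by linarith
    _ ≤ 4 * L + (C * L) * 3 := by linarith
    _ = (4 + 3 * C) * L := by ring

/-- Two constants chain: for a class `𝓕` of triples `(g, L, η)` of holomorphic functions on `U`,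
locally bounded by `C L`, and of size `C η^ω L^(1-ω)` near `q0`, the same holds near every
point of `U`. -/
theorem tc_chain {U : Set ℂ} (hUc : IsPreconnected U) (𝓕 : (ℂ → ℂ) → ℝ → ℝ → Prop)
    (h𝓕 : ∀ g L η, 𝓕 g L η → 0 < η ∧ η ≤ L ∧ DifferentiableOn ℂ g U)
    (hloc : ∀ q ∈ U, ∃ C r : ℝ, 1 ≤ C ∧ 0 < r ∧ ball q r ⊆ U ∧
      ∀ g L η, 𝓕 g L η → ∀ z ∈ ball q r, ‖g z‖ ≤ C * L)
    {q0 : ℂ} (hq0 : q0 ∈ U)
    (hstart : ∃ C r ω : ℝ, 1 ≤ C ∧ 0 < r ∧ 0 < ω ∧ ω ≤ 1 ∧
      ∀ g L η, 𝓕 g L η → ∀ z ∈ ball q0 r, ‖g z‖ ≤ C * (η ^ ω * L ^ (1 - ω)))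
    {q : ℂ} (hq : q ∈ U) :
    ∃ C r ω : ℝ, 1 ≤ C ∧ 0 < r ∧ 0 < ω ∧ ω ≤ 1 ∧
      ∀ g L η, 𝓕 g L η → ∀ z ∈ ball q r, ‖g z‖ ≤ C * (η ^ ω * L ^ (1 - ω)) := by
  refine chain hUc (fun q => ∃ C r ω : ℝ, 1 ≤ C ∧ 0 < r ∧ 0 < ω ∧ ω ≤ 1 ∧
      ∀ g L η, 𝓕 g L η → ∀ z ∈ ball q r, ‖g z‖ ≤ C * (η ^ ω * L ^ (1 - ω))) hq0 hstart ?_ hq
  intro q hq
  obtain ⟨C0, r0, hC0, hr0, hsub, hb⟩ := hloc q hq
  refine ⟨r0 / 5, by positivity, (ball_subset_ball (by linarith)).trans hsub, ?_⟩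
  rintro q' hq' ⟨C', r', ω, hC', hr', hω0, hω1, h⟩ q'' hq''
  set δ : ℝ := r0 / 5 with hδ
  have hδ0 : 0 < δ := by positivity
  set r1 : ℝ := min (r' / 2) δ with hr1
  have hr10 : 0 < r1 := by rw [hr1]; positivity
  have hr1' : r1 < r' := lt_of_le_of_lt (min_le_left _ _) (by linarith)
  have hr1δ : r1 ≤ δ := min_le_right _ _
  set θ : ℝ := (Real.log (max (3 * δ) r1) - Real.log r1) / (Real.log (7 / 2 * δ) - Real.log r1)
    with hθ
  have hmax : max (3 * δ) r1 = 3 * δ := max_eq_left (by linarith)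
  have hl1 : Real.log r1 < Real.log (3 * δ) := Real.log_lt_log hr10 (by linarith)
  have hl2 : Real.log (3 * δ) < Real.log (7 / 2 * δ) := Real.log_lt_log (by positivity) (by linarith)
  have hden : 0 < Real.log (7 / 2 * δ) - Real.log r1 := by linarith
  have hθ0 : 0 ≤ θ := by rw [hθ, hmax]; exact div_nonneg (by linarith) hden.le
  have hθ1 : θ < 1 := by rw [hθ, hmax, div_lt_one hden]; linarith
  set C1 : ℝ := max C0 C' with hC1
  have hC11 : 1 ≤ C1 := hC0.trans (le_max_left _ _)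
  refine ⟨C1, δ, ω * (1 - θ), hC11, hδ0, mul_pos hω0 (by linarith), ?_, ?_⟩
  · nlinarith
  intro g L η hF z hz
  obtain ⟨hη0, hηL, hg⟩ := h𝓕 g L η hF
  have hL0 : 0 < L := lt_of_lt_of_le hη0 hηL
  have hqq' := mem_ball.mp hq'
  have hqq'' := mem_ball.mp hq''
  have hzq := mem_ball.mp hz
  have hN0 : 0 < C' * (η ^ ω * L ^ (1 - ω)) := by positivity
  have hNL : η ^ ω * L ^ (1 - ω) ≤ L := by
    calc η ^ ω * L ^ (1 - ω) ≤ L ^ ω * L ^ (1 - ω) := by
          gcongr
      _ = L := by rw [← Real.rpow_add hL0]; simp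
  have hballs : ball q' (4 * δ) ⊆ ball q r0 := by
    intro y hy
    rw [mem_ball] at hy ⊢
    have := dist_triangle y q' q
    linarith
  have key := tc_disc (g := g) (q := q') (r := r1) (ρ := 3 * δ) (R' := 7 / 2 * δ) (R := 4 * δ)
    (M := C1 * L) (η := C' * (η ^ ω * L ^ (1 - ω))) hr10 (by linarith) (by linarith)
    (by linarith) (hg.mono (hballs.trans hsub))
    (by
      intro y hy
      refine (hb g L η hF y (hballs hy)).trans ?_
      gcongr
      exact le_max_left _ _)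
    hN0
    (by
      calc C' * (η ^ ω * L ^ (1 - ω)) ≤ C' * L := by gcongr
        _ ≤ C1 * L := by
          gcongr
          exact le_max_right _ _)
    (by
      intro y hy
      apply h g L η hF
      rw [mem_ball]
      exact lt_of_le_of_lt (mem_closedBall.mp hy) hr1')
    (w := z)
    (by
      rw [mem_closedBall]
      have h1 := dist_triangle z q'' q'
      have h2 := dist_triangle q'' q q'
      rw [dist_comm q q'] at h2
      linarith)
  rw [← hθ] at key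
  refine key.trans ?_
  have hC'0 : 0 < C' := by linarith
  have hC10 : 0 < C1 := by linarith
  have h1 : (C' * (η ^ ω * L ^ (1 - ω))) ^ (1 - θ) =
      C' ^ (1 - θ) * (η ^ (ω * (1 - θ)) * L ^ ((1 - ω) * (1 - θ))) := by
    rw [Real.mul_rpow hC'0.le (by positivity), Real.mul_rpow (by positivity) (by positivity),
      ← Real.rpow_mul hη0.le, ← Real.rpow_mul hL0.le]
  have h2 : (C1 * L) ^ θ = C1 ^ θ * L ^ θ := Real.mul_rpow hC10.le hL0.le
  have h3 : C' ^ (1 - θ) ≤ C1 ^ (1 - θ) :=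
    Real.rpow_le_rpow hC'0.le (le_max_right _ _) (by linarith)
  have h4 : C1 ^ (1 - θ) * C1 ^ θ = C1 := by rw [← Real.rpow_add hC10]; simp
  have h5 : L ^ ((1 - ω) * (1 - θ)) * L ^ θ = L ^ (1 - ω * (1 - θ)) := by
    rw [← Real.rpow_add hL0]; congr 1; ring
  rw [h1, h2]
  calc C' ^ (1 - θ) * (η ^ (ω * (1 - θ)) * L ^ ((1 - ω) * (1 - θ))) * (C1 ^ θ * L ^ θ)
      ≤ C1 ^ (1 - θ) * (η ^ (ω * (1 - θ)) * L ^ ((1 - ω) * (1 - θ))) * (C1 ^ θ * L ^ θ) := by
        gcongr
    _ = (C1 ^ (1 - θ) * C1 ^ θ) *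
          (η ^ (ω * (1 - θ)) * (L ^ ((1 - ω) * (1 - θ)) * L ^ θ)) := by ring
    _ = C1 * (η ^ (ω * (1 - θ)) * L ^ (1 - ω * (1 - θ))) := by rw [h4, h5]

/-! ### logarithm -/

/-- Holomorphic logarithm of a zero-free holomorphic function. -/
theorem exists_log {U : Set ℂ} (hUo : IsOpen U) (hUs : IsSimplyConnected U) {X : ℂ → ℂ}
    (hX : DifferentiableOn ℂ X U) (h0 : ∀ z ∈ U, X z ≠ 0) :
    ∃ g : ℂ → ℂ, DifferentiableOn ℂ g U ∧ ∀ z ∈ U, Complex.exp (g z) = X z := by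
  obtain ⟨g, hgc, hg⟩ := Complex.exists_continuousOn_eqOn_exp_comp hUs hUo hX.continuousOn
    (by rintro ⟨z, hz, h⟩; exact h0 z hz h)
  refine ⟨g, ?_, fun z hz => hg hz⟩
  intro z hz
  have h1 : HasDerivAt X (deriv X z) z := (hX.differentiableAt (hUo.mem_nhds hz)).hasDerivAt
  have h2 : HasDerivAt Complex.exp (Complex.exp (g z)) (g z) := Complex.hasDerivAt_exp _
  -- local inverse of exp at `g z`
  have h3 : ContinuousAt g z := hgc.continuousAt (hUo.mem_nhds hz)
  -- write g as composition of the local inverse with X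
  have h4 := (Complex.hasStrictDerivAt_exp (g z)).eventually_left_inverse (Complex.exp_ne_zero _)
  have h5 := (Complex.hasStrictDerivAt_exp (g z)).to_localInverse (Complex.exp_ne_zero _)
  have h6 : (fun w => (Complex.hasStrictDerivAt_exp (g z)).localInverse Complex.exp _ _
      (Complex.exp_ne_zero _) (X w)) =ᶠ[𝓝 z] g := by
    have h7 := h3.eventually h4
    filter_upwards [h7, hUo.mem_nhds hz] with w hw hwU
    have h8 : X w = Complex.exp (g w) := (hg hwU).symm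
    rw [h8]; exact hw
  have h7 : DifferentiableAt ℂ (fun w => (Complex.hasStrictDerivAt_exp (g z)).localInverse
      Complex.exp _ _ (Complex.exp_ne_zero _) (X w)) z := by
    have h8 : X z = Complex.exp (g z) := (hg hz).symm
    have h9 : ∀ F : ℂ → ℂ, DifferentiableAt ℂ F (Complex.exp (g z)) →
        DifferentiableAt ℂ (fun w => F (X w)) z := by
      intro F hF
      rw [← h8] at hF
      exact hF.comp z h1.differentiableAt
    exact h9 _ h5.hasDerivAt.differentiableAt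
  exact (h7.congr_of_eventuallyEq h6.symm).differentiableWithinAt

/-- Normalised logarithm: `X > 0` on the real segment `[1, 1+d]`, then `g` is real there and
`g x = log (X x)`. -/
theorem exists_log_real {U : Set ℂ} (hUo : IsOpen U) (hUs : IsSimplyConnected U) {d : ℝ}
    (hd : 0 ≤ d) (hseg : ∀ x ∈ Icc (1 : ℝ) (1 + d), (x : ℂ) ∈ U) {X : ℂ → ℂ}
    (hX : DifferentiableOn ℂ X U) (h0 : ∀ z ∈ U, X z ≠ 0)
    (hpos : ∀ x ∈ Icc (1 : ℝ) (1 + d), (X x).im = 0 ∧ 0 < (X x).re) :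
    ∃ g : ℂ → ℂ, DifferentiableOn ℂ g U ∧ (∀ z ∈ U, Complex.exp (g z) = X z) ∧
      ∀ x ∈ Icc (1 : ℝ) (1 + d), g x = (Real.log (X x).re : ℝ) := by
  obtain ⟨g0, hg0, he0⟩ := exists_log hUo hUs hX h0
  have h1mem : (1 : ℝ) ∈ Icc (1 : ℝ) (1 + d) := ⟨le_refl _, by linarith⟩
  have hX1 : ∀ x ∈ Icc (1 : ℝ) (1 + d), X x = Complex.exp (Real.log (X x).re : ℝ) := by
    intro x hx
    obtain ⟨h1, h2⟩ := hpos x hx
    rw [← Complex.ofReal_exp, Real.exp_log h2]
    apply Complex.ext <;> simp [h1]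
  have h1 : Complex.exp (g0 (1 : ℝ)) = Complex.exp (Real.log (X (1 : ℝ)).re : ℝ) := by
    rw [he0 _ (hseg 1 h1mem), ← hX1 1 h1mem]
  obtain ⟨n, hn⟩ := Complex.exp_eq_exp_iff_exists_int.mp h1
  set g : ℂ → ℂ := fun z => g0 z - n * (2 * π * I) with hg
  have hgd : DifferentiableOn ℂ g U := hg0.sub (differentiableOn_const _)
  have hge : ∀ z ∈ U, Complex.exp (g z) = X z := by
    intro z hz
    rw [hg]
    simp only
    rw [Complex.exp_sub, he0 z hz]
    have : Complex.exp (n * (2 * π * I)) = 1 := by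
      rw [Complex.exp_int_mul_two_pi_mul_I]
    rw [this, div_one]
  refine ⟨g, hgd, hge, ?_⟩
  have hg1 : (g (1 : ℝ)).im = 0 := by
    have : g (1 : ℝ) = (Real.log (X (1 : ℝ)).re : ℝ) := by
      rw [hg]; simp only; rw [hn]; ring
    rw [this]; simp
  -- the imaginary part on the segment
  have hcont : ContinuousOn (fun x : ℝ => (g x).im) (Icc (1 : ℝ) (1 + d)) := by
    apply Complex.continuous_im.comp_continuousOn
    exact hgd.continuousOn.comp Complex.continuous_ofReal.continuousOn (fun x hx => hseg x hx)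
  have hcos : ∀ x ∈ Icc (1 : ℝ) (1 + d), 0 < Real.cos (g x).im ∧ Real.sin (g x).im = 0 := by
    intro x hx
    obtain ⟨h2, h3⟩ := hpos x hx
    rw [← hge x (hseg x hx)] at h2 h3
    rw [Complex.exp_im] at h2
    rw [Complex.exp_re] at h3
    have h4 := Real.exp_pos (g x).re
    refine ⟨?_, ?_⟩
    · by_contra h
      rw [not_lt] at h
      nlinarith
    · rcases mul_eq_zero.mp h2 with h | h
      · exact absurd h h4.ne'
      · exact h
  have him : ∀ x ∈ Icc (1 : ℝ) (1 + d), (g x).im = 0 := by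
    intro x hx
    have hsub : Icc 1 x ⊆ Icc (1 : ℝ) (1 + d) := Icc_subset_Icc_right hx.2
    have hlt : |(g x).im| < π := by
      by_contra hcon
      rw [not_lt] at hcon
      rcases le_abs.mp hcon with h | h
      · obtain ⟨y, hy, hyv⟩ := intermediate_value_Icc hx.1 (hcont.mono hsub)
          (show π ∈ Icc (g (1 : ℝ)).im (g x).im from ⟨by rw [hg1]; exact Real.pi_pos.le, h⟩)
        have := (hcos y (hsub hy)).1
        simp only at hyv
        rw [hyv, Real.cos_pi] at this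
        linarith
      · obtain ⟨y, hy, hyv⟩ := intermediate_value_Icc' hx.1 (hcont.mono hsub)
          (show -π ∈ Icc (g x).im (g (1 : ℝ)).im from
            ⟨by linarith, by rw [hg1]; linarith [Real.pi_pos]⟩)
        have := (hcos y (hsub hy)).1
        simp only at hyv
        rw [hyv, Real.cos_neg, Real.cos_pi] at this
        linarith
    have hs := (hcos x hx).2
    rw [abs_lt] at hlt
    exact (Real.sin_eq_zero_iff_of_lt_of_lt hlt.1 hlt.2).mp hs
  intro x hx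
  have h2 := him x hx
  have h3 := hge x (hseg x hx)
  rw [hX1 x hx] at h3
  have h4 : g x = ((g x).re : ℂ) := by
    apply Complex.ext <;> simp [h2]
  rw [h4, ← Complex.ofReal_exp, ← Complex.ofReal_exp] at h3
  have h5 := Real.exp_injective (Complex.ofReal_injective h3)
  rw [h4, h5]

/-- the class of log-ratios -/
def LogClass (U : Set ℂ) (d : ℝ) (ℓ : ℂ → ℂ) (L η : ℝ) : Prop :=
  0 < η ∧ η ≤ L ∧ DifferentiableOn ℂ ℓ U ∧ (∀ x ∈ Icc (1 : ℝ) (1 + d), ‖ℓ x‖ ≤ η) ∧
  ∃ g : Fin 4 → ℂ → ℂ, (∀ z, ℓ z = g 0 z + g 1 z - g 2 z - g 3 z) ∧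
    ∀ i, DifferentiableOn ℂ (g i) U ∧ (∀ z ∈ U, (g i z).re ≤ L) ∧ ‖g i (1 : ℝ)‖ ≤ L

/-- Two constants for log-ratios. -/
theorem logClass_bound {U : Set ℂ} (hUo : IsOpen U) (hUc : IsPreconnected U) {d : ℝ} (hd : 0 < d)
    (hseg : ∀ x ∈ Icc (1 : ℝ) (1 + d), (x : ℂ) ∈ U) {p : ℂ} (hp : p ∈ U) :
    ∃ C r ω : ℝ, 1 ≤ C ∧ 0 < r ∧ 0 < ω ∧ ω ≤ 1 ∧
      ∀ ℓ L η, LogClass U d ℓ L η → ∀ z ∈ ball p r, ‖ℓ z‖ ≤ C * (η ^ ω * L ^ (1 - ω)) := by
  have h1U : ((1 : ℝ) : ℂ) ∈ U := hseg 1 ⟨le_refl _, by linarith⟩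
  have hloc : ∀ q ∈ U, ∃ C r : ℝ, 1 ≤ C ∧ 0 < r ∧ ball q r ⊆ U ∧
      ∀ ℓ L η, LogClass U d ℓ L η → ∀ z ∈ ball q r, ‖ℓ z‖ ≤ C * L := by
    intro q hq
    obtain ⟨C, r, hC, hr, hsub, h⟩ := bc_chain hUo hUc h1U hq
    refine ⟨4 * C, r, by linarith, hr, hsub, ?_⟩
    rintro ℓ L η ⟨hη0, hηL, hℓ, -, g, hg, hgi⟩ z hz
    have hL0 : 0 < L := lt_of_lt_of_le hη0 hηL
    have hb : ∀ i, ‖g i z‖ ≤ C * L := fun i =>
      h (g i) L hL0 (hgi i).1 (hgi i).2.1 (hgi i).2.2 z hz
    rw [hg z]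
    calc ‖g 0 z + g 1 z - g 2 z - g 3 z‖ ≤ ‖g 0 z‖ + ‖g 1 z‖ + ‖g 2 z‖ + ‖g 3 z‖ := by
          have h1 := norm_sub_le (g 0 z + g 1 z - g 2 z) (g 3 z)
          have h2 := norm_sub_le (g 0 z + g 1 z) (g 2 z)
          have h3 := norm_add_le (g 0 z) (g 1 z)
          linarith
      _ ≤ 4 * C * L := by
          have h0 := hb 0
          have h1 := hb 1
          have h2 := hb 2
          have h3 := hb 3
          linarith
  have hcmem : (1 + d / 2 : ℝ) ∈ Icc (1 : ℝ) (1 + d) := ⟨by linarith, by linarith⟩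
  refine tc_chain hUc (LogClass U d) (fun ℓ L η h => ⟨h.1, h.2.1, h.2.2.1⟩) hloc
    (hseg _ hcmem) ?_ hp
  obtain ⟨C, r, hC, hr, hsub, h⟩ := hloc _ (hseg _ hcmem)
  set s : ℝ := min r d / 4 with hs
  have hs0 : 0 < s := by rw [hs]; positivity
  have hsr : s ≤ r / 4 := by rw [hs]; linarith [min_le_left r d]
  have hsd : s ≤ d / 4 := by rw [hs]; linarith [min_le_right r d]
  refine ⟨C, s * Real.sinh (1 / 2), 1 / 2, hC, by
    have : 0 < Real.sinh (1 / 2) := Real.sinh_pos_iff.mpr (by norm_num)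
    positivity, by norm_num, by norm_num, ?_⟩
  intro ℓ L η hF z hz
  have hF' := hF
  obtain ⟨hη0, hηL, hℓ, hsmall, -⟩ := hF'
  have hL0 : 0 < L := lt_of_lt_of_le hη0 hηL
  have key := tc_seg (g := ℓ) (c := ((1 + d / 2 : ℝ) : ℂ)) (R := r) (s := s) (M := C * L) (η := η)
    (a := 1) hs0 one_pos
    (by
      have h1 : Real.cosh 1 ≤ Real.exp 1 := by
        rw [Real.cosh_eq]
        have := Real.exp_le_exp.mpr (show (-1 : ℝ) ≤ 1 by norm_num)
        linarith
      have h2 : Real.exp 1 < 3 := Real.exp_one_lt_three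
      have h3 := Real.cosh_pos 1
      nlinarith)
    (hℓ.mono hsub) (fun y hy => h ℓ L η hF y hy) hη0 (by nlinarith)
    (by
      intro x hx
      rw [← Complex.ofReal_add]
      apply hsmall
      have := abs_le.mp hx
      exact ⟨by linarith, by linarith⟩)
    (w := z)
    (by rw [← dist_eq_norm]; exact (mem_ball.mp hz).le)
  refine key.trans ?_
  have h1 : (C * L) ^ (1 / 2 : ℝ) = C ^ (1 / 2 : ℝ) * L ^ (1 / 2 : ℝ) :=
    Real.mul_rpow (by linarith) hL0.le
  have h2 : C ^ (1 / 2 : ℝ) ≤ C := by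
    calc C ^ (1 / 2 : ℝ) ≤ C ^ (1 : ℝ) := Real.rpow_le_rpow_of_exponent_le hC (by norm_num)
      _ = C := Real.rpow_one C
  have h3 : (1 : ℝ) - 1 / 2 = 1 / 2 := by norm_num
  rw [h1, h3]
  calc η ^ (1 / 2 : ℝ) * (C ^ (1 / 2 : ℝ) * L ^ (1 / 2 : ℝ))
      = C ^ (1 / 2 : ℝ) * (η ^ (1 / 2 : ℝ) * L ^ (1 / 2 : ℝ)) := by ring
    _ ≤ C * (η ^ (1 / 2 : ℝ) * L ^ (1 / 2 : ℝ)) := by gcongr

/-- **B4, transport.** `X 0 X 1 / (X 2 X 3)` is close to `1` on the real segment `[1, 1+d]`, the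
four functions have no zero on `U`, polynomial upper bounds on `U` and a lower bound at `1`.
Then the ratio is close to `1` at every `p ∈ U`. -/
theorem transport {U : Set ℂ} (hUo : IsOpen U) (hUs : IsSimplyConnected U) {d : ℝ} (hd : 0 < d)
    (hseg : ∀ x ∈ Icc (1 : ℝ) (1 + d), (x : ℂ) ∈ U) {p : ℂ} (hp : p ∈ U) :
    ∃ C ω : ℝ, 1 ≤ C ∧ 0 < ω ∧ ω ≤ 1 ∧ ∀ (X : Fin 4 → ℂ → ℂ) (L η : ℝ), 1 ≤ L → 0 < η → η ≤ 1 →
      (∀ i, DifferentiableOn ℂ (X i) U) → (∀ i, ∀ z ∈ U, X i z ≠ 0) →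
      (∀ i, ∀ z ∈ U, ‖X i z‖ ≤ Real.exp L) →
      (∀ i, ∀ x ∈ Icc (1 : ℝ) (1 + d), (X i x).im = 0 ∧ 0 < (X i x).re) →
      (∀ i, Real.exp (-L) ≤ (X i (1 : ℝ)).re) →
      (∀ x ∈ Icc (1 : ℝ) (1 + d), |Real.log (X 0 x).re + Real.log (X 1 x).re -
        Real.log (X 2 x).re - Real.log (X 3 x).re| ≤ η) →
      (∀ i, Real.exp (-(C * L)) ≤ ‖X i p‖) ∧
      ∃ ℓ : ℂ, X 0 p * X 1 p = Complex.exp ℓ * (X 2 p * X 3 p) ∧
        ‖ℓ‖ ≤ C * (η ^ ω * L ^ (1 - ω)) := by
  have hUc : IsPreconnected U := hUs.isPathConnected.isConnected.isPreconnected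
  have h1U : ((1 : ℝ) : ℂ) ∈ U := hseg 1 ⟨le_refl _, by linarith⟩
  obtain ⟨C1, r1, hC1, hr1, -, hbc⟩ := bc_chain hUo hUc h1U hp
  obtain ⟨C2, r2, ω, hC2, hr2, hω0, hω1, htc⟩ := logClass_bound hUo hUc hd hseg hp
  refine ⟨max C1 C2, ω, hC1.trans (le_max_left _ _), hω0, hω1, ?_⟩
  intro X L η hL hη0 hη1 hX h0 hup hpos hlow hratio
  have hL0 : 0 < L := by linarith
  choose g hgd hge hgr using fun i => exists_log_real hUo hUs hd.le hseg (hX i) (h0 i) (hpos i)
  have h1mem : (1 : ℝ) ∈ Icc (1 : ℝ) (1 + d) := ⟨le_refl _, by linarith⟩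
  have hre : ∀ i, ∀ z ∈ U, (g i z).re ≤ L := by
    intro i z hz
    have h1 := hup i z hz
    rw [← hge i z hz, Complex.norm_exp] at h1
    exact Real.exp_le_exp.mp h1
  have hg1 : ∀ i, ‖g i (1 : ℝ)‖ ≤ L := by
    intro i
    rw [hgr i 1 h1mem, Complex.norm_real, Real.norm_eq_abs, abs_le]
    have hp1 := (hpos i 1 h1mem).2
    refine ⟨?_, ?_⟩
    · rw [Real.le_log_iff_exp_le hp1]
      exact hlow i
    · have h1 := hre i _ h1U
      rw [hgr i 1 h1mem, Complex.ofReal_re] at h1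
      exact h1
  refine ⟨?_, ?_⟩
  · intro i
    have h1 := hbc (g i) L hL0 (hgd i) (hre i) (hg1 i) p (mem_ball_self hr1)
    rw [← hge i p hp, Complex.norm_exp]
    apply Real.exp_le_exp.mpr
    have h2 := Complex.abs_re_le_norm (g i p)
    have h3 := neg_abs_le (g i p).re
    have h4 : C1 * L ≤ max C1 C2 * L := by
      gcongr
      exact le_max_left _ _
    linarith
  · refine ⟨g 0 p + g 1 p - g 2 p - g 3 p, ?_, ?_⟩
    · rw [← hge 0 p hp, ← hge 1 p hp, ← hge 2 p hp, ← hge 3 p hp, ← Complex.exp_add,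
        ← Complex.exp_add, ← Complex.exp_add]
      congr 1
      ring
    · have hF : LogClass U d (fun z => g 0 z + g 1 z - g 2 z - g 3 z) L η := by
        refine ⟨hη0, by linarith, ?_, ?_, g, fun _ => rfl, fun i => ⟨hgd i, hre i, hg1 i⟩⟩
        · exact (((hgd 0).add (hgd 1)).sub (hgd 2)).sub (hgd 3)
        · intro x hx
          have h1 := hratio x hx
          simp only
          rw [hgr 0 x hx, hgr 1 x hx, hgr 2 x hx, hgr 3 x hx, ← Complex.ofReal_add,
            ← Complex.ofReal_sub, ← Complex.ofReal_sub, Complex.norm_real, Real.norm_eq_abs]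
          exact h1
      have h1 := htc _ L η hF p (mem_ball_self hr2)
      refine h1.trans ?_
      have h2 : 0 < η ^ ω * L ^ (1 - ω) := by positivity
      exact mul_le_mul_of_nonneg_right (le_max_right _ _) h2.le

/-- Final form: when `C η^ω L^(1-ω) ≤ 1`, the products are comparable up to that error. -/
theorem transport_diff {U : Set ℂ} (hUo : IsOpen U) (hUs : IsSimplyConnected U) {d : ℝ}
    (hd : 0 < d) (hseg : ∀ x ∈ Icc (1 : ℝ) (1 + d), (x : ℂ) ∈ U) {p : ℂ} (hp : p ∈ U) :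
    ∃ C ω : ℝ, 1 ≤ C ∧ 0 < ω ∧ ω ≤ 1 ∧ ∀ (X : Fin 4 → ℂ → ℂ) (L η : ℝ), 1 ≤ L → 0 < η → η ≤ 1 →
      (∀ i, DifferentiableOn ℂ (X i) U) → (∀ i, ∀ z ∈ U, X i z ≠ 0) →
      (∀ i, ∀ z ∈ U, ‖X i z‖ ≤ Real.exp L) →
      (∀ i, ∀ x ∈ Icc (1 : ℝ) (1 + d), (X i x).im = 0 ∧ 0 < (X i x).re) →
      (∀ i, Real.exp (-L) ≤ (X i (1 : ℝ)).re) →
      (∀ x ∈ Icc (1 : ℝ) (1 + d), |Real.log (X 0 x).re + Real.log (X 1 x).re -
        Real.log (X 2 x).re - Real.log (X 3 x).re| ≤ η) →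
      C * (η ^ ω * L ^ (1 - ω)) ≤ 1 →
      (∀ i, Real.exp (-(C * L)) ≤ ‖X i p‖) ∧
      ‖X 0 p * X 1 p - X 2 p * X 3 p‖ ≤
        2 * (C * (η ^ ω * L ^ (1 - ω))) * ‖X 2 p * X 3 p‖ := by
  obtain ⟨C, ω, hC, hω0, hω1, h⟩ := transport hUo hUs hd hseg hp
  refine ⟨C, ω, hC, hω0, hω1, fun X L η hL hη0 hη1 hX h0 hup hpos hlow hratio hsm => ?_⟩
  obtain ⟨h1, ℓ, hℓ, hℓ2⟩ := h X L η hL hη0 hη1 hX h0 hup hpos hlow hratio
  refine ⟨h1, ?_⟩
  rw [hℓ]
  have h2 : Complex.exp ℓ * (X 2 p * X 3 p) - X 2 p * X 3 p =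
      (Complex.exp ℓ - 1) * (X 2 p * X 3 p) := by ring
  rw [h2, norm_mul]
  apply mul_le_mul_of_nonneg_right _ (norm_nonneg _)
  have h3 := Complex.norm_exp_sub_one_le (hℓ2.trans hsm)
  linarith

/-! ### an explicit domain -/

/-- The convex open set `{2/5 < Re (z e^{-iπ/3})} ∩ ball 0 (11/10)` contains `[1, 1+1/20]` and
`e^{2πi/3}`, and lies in the sector `|arg z| < 3π/4`. -/
def U0 : Set ℂ := {z : ℂ | 2 / 5 < (z * Complex.exp (-(π / 3) * I)).re} ∩ ball 0 (11 / 10)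

theorem exp_neg_third : Complex.exp (-(π / 3) * I) = (1 / 2 : ℝ) - (Real.sqrt 3 / 2 : ℝ) * I := by
  have h : (-(π / 3) : ℂ) = ((-(π / 3) : ℝ) : ℂ) := by push_cast; ring
  rw [h, Complex.exp_mul_I, ← Complex.ofReal_cos, ← Complex.ofReal_sin, Real.cos_neg,
    Real.sin_neg, Real.cos_pi_div_three, Real.sin_pi_div_three]
  push_cast
  ring

theorem re_rot (z : ℂ) : (z * Complex.exp (-(π / 3) * I)).re =
    z.re / 2 + Real.sqrt 3 / 2 * z.im := by
  rw [exp_neg_third]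
  simp [Complex.mul_re]
  ring

theorem isOpen_U0 : IsOpen U0 := by
  apply IsOpen.inter _ isOpen_ball
  exact isOpen_lt continuous_const (by fun_prop)

theorem convex_U0 : Convex ℝ U0 := by
  apply Convex.inter _ (convex_ball 0 _)
  intro z hz w hw a b ha hb hab
  simp only [mem_ofPred_eq, re_rot] at hz hw ⊢
  simp only [Complex.add_re, Complex.add_im, Complex.real_smul, Complex.mul_re, Complex.mul_im,
    Complex.ofReal_re, Complex.ofReal_im, zero_mul, sub_zero, add_zero]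
  have : a * (z.re / 2 + Real.sqrt 3 / 2 * z.im) + b * (w.re / 2 + Real.sqrt 3 / 2 * w.im)
      > 2 / 5 := by
    rcases eq_or_lt_of_le ha with h | h
    · have hb1 : b = 1 := by linarith
      rw [← h, hb1]; linarith
    · nlinarith
  linarith

theorem mem_U0_iff (z : ℂ) : z ∈ U0 ↔ 2 / 5 < z.re / 2 + Real.sqrt 3 / 2 * z.im ∧
    ‖z‖ < 11 / 10 := by
  unfold U0
  rw [mem_inter_iff, mem_ofPred_eq, re_rot, mem_ball_zero_iff]

theorem seg_mem_U0 : ∀ x ∈ Icc (1 : ℝ) (1 + 1 / 20), (x : ℂ) ∈ U0 := by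
  intro x hx
  rw [mem_U0_iff]
  refine ⟨?_, ?_⟩
  · simp only [Complex.ofReal_re, Complex.ofReal_im]
    linarith [hx.1]
  · rw [Complex.norm_real, Real.norm_eq_abs, abs_of_nonneg (by linarith [hx.1])]
    linarith [hx.2]

/-- the point `τ = e^{2πi/3}`. -/
theorem tau_mem_U0 : Complex.exp (2 * π / 3 * I) ∈ U0 := by
  unfold U0
  refine ⟨?_, ?_⟩
  · rw [mem_ofPred_eq, ← Complex.exp_add]
    have : (2 * π / 3 * I + -(π / 3) * I : ℂ) = ((π / 3 : ℝ) : ℂ) * I := by push_cast; ring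
    rw [this, Complex.exp_ofReal_mul_I_re, Real.cos_pi_div_three]
    norm_num
  · rw [mem_ball_zero_iff]
    have : (2 * π / 3 * I : ℂ) = ((2 * π / 3 : ℝ) : ℂ) * I := by push_cast; ring
    rw [this, Complex.norm_exp_ofReal_mul_I]
    norm_num

theorem re_of_mem_U0 {z : ℂ} (hz : z ∈ U0) : -|z.im| < z.re := by
  rw [mem_U0_iff] at hz
  obtain ⟨h1, h2⟩ := hz
  have h3 : z.re ^ 2 + z.im ^ 2 < 121 / 100 := by
    have h4 : ‖z‖ ^ 2 < (11 / 10) ^ 2 := by
      have := norm_nonneg z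
      nlinarith
    rw [← Complex.normSq_eq_norm_sq, Complex.normSq_apply] at h4
    nlinarith
  have hs1 : Real.sqrt 3 < 1.75 := by
    rw [Real.sqrt_lt' (by norm_num)]; norm_num
  have hs0 : 0 < Real.sqrt 3 := Real.sqrt_pos.mpr (by norm_num)
  by_contra hcon
  rw [not_lt] at hcon
  rcases le_total 0 z.im with h | h
  · rw [abs_of_nonneg h] at hcon
    have h5 : Real.sqrt 3 * z.im ≤ 1.75 * z.im := by gcongr
    have h6 : z.im ^ 2 < 121 / 200 := by nlinarith
    have h7 : z.im < 0.8 := by nlinarith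
    nlinarith
  · rw [abs_of_nonpos h] at hcon
    nlinarith

theorem ne_zero_of_mem_U0 {z : ℂ} (hz : z ∈ U0) : z ≠ 0 := by
  rintro rfl
  have := re_of_mem_U0 hz
  simp at this

theorem mem_slitPlane_of_mem_U0 {z : ℂ} (hz : z ∈ U0) : z ∈ Complex.slitPlane := by
  have h := re_of_mem_U0 hz
  rw [Complex.mem_slitPlane_iff]
  by_cases h0 : z.im = 0
  · left; rw [h0] at h; simpa using h
  · right; exact h0

theorem abs_arg_lt_of_mem_U0 {z : ℂ} (hz : z ∈ U0) : |z.arg| < 3 * π / 4 := by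
  have h := re_of_mem_U0 hz
  have h0 := ne_zero_of_mem_U0 hz
  have hn : 0 < ‖z‖ := norm_pos_iff.mpr h0
  have hcos : Real.cos (3 * π / 4) < Real.cos |z.arg| := by
    rw [Real.cos_abs, Complex.cos_arg h0]
    have h1 : Real.cos (3 * π / 4) = -(Real.sqrt 2 / 2) := by
      have : 3 * π / 4 = π - π / 4 := by ring
      rw [this, Real.cos_pi_sub, Real.cos_pi_div_four]
    rw [h1, lt_div_iff₀ hn]
    have hs : Real.sqrt 2 ^ 2 = 2 := Real.sq_sqrt (by norm_num)
    have hs0 : 0 < Real.sqrt 2 := Real.sqrt_pos.mpr (by norm_num)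
    rcases le_or_gt 0 z.re with h2 | h2
    · have : 0 < Real.sqrt 2 / 2 * ‖z‖ := by positivity
      nlinarith
    · have h3 : z.re ^ 2 < z.im ^ 2 := by
        rw [← sq_abs z.im]
        nlinarith [abs_nonneg z.im]
      have h4 : 2 * z.re ^ 2 < ‖z‖ ^ 2 := by
        rw [← Complex.normSq_eq_norm_sq, Complex.normSq_apply]
        nlinarith
      have h5 : (-z.re) ^ 2 < (Real.sqrt 2 / 2 * ‖z‖) ^ 2 := by
        have : (Real.sqrt 2 / 2 * ‖z‖) ^ 2 = ‖z‖ ^ 2 / 2 := by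
          rw [mul_pow, div_pow, hs]; ring
        rw [this]; nlinarith
      have h6 : -z.re < Real.sqrt 2 / 2 * ‖z‖ :=
        lt_of_pow_lt_pow_left₀ 2 (by positivity) h5
      linarith
  by_contra hcon
  rw [not_lt] at hcon
  have h1 : |z.arg| ≤ π := Complex.abs_arg_le_pi z
  have h2 := Real.cos_le_cos_of_nonneg_of_le_pi (by positivity : 0 ≤ 3 * π / 4) h1 hcon
  linarith

theorem isSimplyConnected_U0 : IsSimplyConnected U0 := by
  have hne : U0.Nonempty := ⟨_, tau_mem_U0⟩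
  have := convex_U0.contractibleSpace hne
  exact SimplyConnectedSpace.ofContractible U0

theorem isSimplyConnected_convex {U : Set ℂ} (hU : Convex ℝ U) (hne : U.Nonempty) :
    IsSimplyConnected U := by
  have := hU.contractibleSpace hne
  exact SimplyConnectedSpace.ofContractible U

end Crest.Agent.R143.TwoCx640
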