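import Crest.Agent.R143.B0D_346
import Crest.Agent.R143.PP1_831
import Crest.Agent.R143.Moll_887
import Crest.Agent.R143.EndB_336
import Crest.Agent.R143.TwoC_640
import Crest.Agent.R143.Osc_63

/-!
# Row 143 (S0194), PART B: the spine of the assembly (helper422)

* `Dat` : the data of S0194; `Body` : its conclusion for all data; `literal` : the literal S0194
* `lc` : the filter "first `ε → 0`, then `n → ∞`" on `ℕ × ℝ`
* `ALBP`, `EndP`, `end_coreP` : pointwise form of the boundary conditions of `EndM`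
* `top` : two `EndP` families along `lc` and the sandwich give the conclusion
* `Room`, `Linked`, `GoodFam`, `HG` : points with room, joined to the marks, measurable good events,
  the annealed observable
* leaves `LGood` (M3 + M5), `LEqui` (T2, T4, M4), `LMin` (B5, B6), `LDom` (block D)
* `final : Leaves Adm → Body`
-/

set_option autoImplicit false

noncomputable section

namespace Crest.Agent.R143.Spinex422

open Complex Set Filter Topology MeasureTheory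
open Crest.ProbabilityR.Voronoi
open Crest.Agent.R143.B0x346 Crest.Agent.R143.B0Dx346 Crest.Agent.R143.PP1x831
open Crest.Agent.R143.BC0x336 Crest.Agent.R143.EndAx336 Crest.Agent.R143.EndBx336
open Crest.Agent.R143.Mollx887

/-! ### data -/

/-- the data of S0194 -/
structure Dat where
  D : Set ℂ
  hD : IsOpen D
  hDb : Bornology.IsBounded D
  hDc : IsConnected D
  γ : ℝ → ℂ
  hγ : Continuous γ
  hγp : Function.Periodic γ 1
  hγi : Set.InjOn γ (Set.Ico 0 1)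
  hγD : Set.range γ = frontier D
  φ : ℂ → ℂ
  hφ : DifferentiableOn ℂ φ D
  hφi : Set.InjOn φ D
  hφD : φ '' D = {z : ℂ | 0 < z.im}
  a : ℂ
  b : ℂ
  c : ℂ
  d : ℂ
  ha : a ∈ frontier D
  hb : b ∈ frontier D
  hc : c ∈ frontier D
  hd : d ∈ frontier D
  hφc : ContinuousOn φ (closure D \ {d})
  hφd : Filter.Tendsto (fun z => ‖φ z‖) (nhdsWithin d D) Filter.atTop
  x : ℝ
  hx0 : 0 < x
  hx1 : x < 1
  hφa : φ a = 0
  hφb : φ b = x
  hφc1 : φ c = 1

/-- the arc `ab` -/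
def Dat.A1 (S : Dat) : Set ℂ :=
  {z | z ∈ frontier S.D ∧ z ≠ S.d ∧ (S.φ z).im = 0 ∧ 0 ≤ (S.φ z).re ∧ (S.φ z).re ≤ S.x}

/-- the arc `cd` -/
def Dat.A2 (S : Dat) : Set ℂ :=
  {z | z ∈ frontier S.D ∧ z ≠ S.d ∧ (S.φ z).im = 0 ∧ 1 ≤ (S.φ z).re} ∪ {S.d}

/-- the crossing probability -/
def Dat.P (S : Dat) (ε : ℝ) : ℝ := (sampleLaw (crossingEvent ε S.D S.A1 S.A2)).toReal

/-- the conclusion of S0194 -/
def Body : Prop := ∀ S : Dat,
  Tendsto (fun ε : ℝ => sampleLaw (crossingEvent ε S.D S.A1 S.A2)) (𝓝[>] 0)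
    (𝓝 (ENNReal.ofReal (crossingFormula S.x)))

/-- the boundary point `b` may be any point with `φ b = x` (needed because `b = d` is not excluded
literally) -/
theorem Dat.exists_b (S : Dat) : ∃ b ∈ frontier S.D, b ≠ S.d ∧ S.φ b = S.x :=
  Frontx336.exists_bdry S.hD S.hDb S.hφ S.hφD S.hφc S.hφd S.x

/-! ### the filter -/

/-- first `ε → 0`, then `n → ∞` -/
def lc : Filter (ℕ × ℝ) := (atTop : Filter ℕ).curry (𝓝[>] (0 : ℝ))

theorem ev_lc {p : ℕ × ℝ → Prop} :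
    (∀ᶠ i in lc, p i) ↔ ∀ᶠ n in (atTop : Filter ℕ), ∀ᶠ ε in 𝓝[>] (0 : ℝ), p (n, ε) :=
  eventually_curry_iff

theorem tendsto_lc {f : ℕ × ℝ → ℝ} {y : ℝ}
    (h : ∀ᶠ n in (atTop : Filter ℕ), Tendsto (fun ε => f (n, ε)) (𝓝[>] 0) (𝓝 y)) :
    Tendsto f lc (𝓝 y) := by
  rw [Metric.tendsto_nhds]
  intro η hη
  rw [ev_lc]
  filter_upwards [h] with n hn
  exact Metric.tendsto_nhds.1 hn η hη

/-! ### pointwise boundary conditions -/

section ptw

variable {ι : Type} {D : Set ℂ}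

/-- asymptotic boundary condition at `p`, pointwise form -/
def ALBP (D : Set ℂ) (l : Filter ι) (H : ι → ℂ → ℂ) (A B p : ℂ) : Prop :=
  ∀ η > 0, ∃ δ > 0, ∀ z ∈ D, dist z p < δ → ∀ᶠ i in l, |((H i z - A) / B).im| ≤ η

theorem ALBP.mono {l l' : Filter ι} {H : ι → ℂ → ℂ} {A B p : ℂ} (h : ALBP D l H A B p)
    (hl : l' ≤ l) : ALBP D l' H A B p := by
  intro η hη
  obtain ⟨δ, hδ, h1⟩ := h η hη
  exact ⟨δ, hδ, fun z hz hzp => hl (h1 z hz hzp)⟩

theorem _root_.Crest.Agent.R143.EndAx336.ALB.toP {l : Filter ι} {H : ι → ℂ → ℂ} {A B p : ℂ}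
    (h : ALB D l H A B p) : ALBP D l H A B p := by
  intro η hη
  obtain ⟨δ, hδ, h1⟩ := h η hη
  exact ⟨δ, hδ, fun z hz hzp => h1.mono fun i hi => hi z hz hzp⟩

theorem ALBP.LB {l : Filter ι} [l.NeBot] {H : ι → ℂ → ℂ} {A B p : ℂ} (hA : ALBP D l H A B p)
    {h : ℂ → ℂ} (hp : ∀ z ∈ D, Tendsto (fun i => H i z) l (𝓝 (h z))) : LB D h A B p := by
  unfold BC0x336.LB
  rw [Metric.tendsto_nhds]
  intro η hη
  obtain ⟨δ, hδ, h1⟩ := hA (η / 2) (by linarith)
  have h2 : Metric.ball p δ ∩ D ∈ 𝓝[D] p := by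
    rw [inter_comm]
    exact inter_mem_nhdsWithin D (Metric.ball_mem_nhds p hδ)
  filter_upwards [h2] with z hz
  have h3 : Tendsto (fun i => |((H i z - A) / B).im|) l (𝓝 |((h z - A) / B).im|) := by
    have h4 : Continuous fun y : ℂ => |((y - A) / B).im| := by fun_prop
    exact (h4.tendsto _).comp (hp z hz.2)
  have h5 : |((h z - A) / B).im| ≤ η / 2 := le_of_tendsto h3 (h1 z hz.2 hz.1)
  rw [Real.dist_eq, sub_zero]
  linarith

/-- hypotheses of the end theorem: as `EndM`, boundary conditions in pointwise form -/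
structure EndP (D : Set ℂ) (φ : ℂ → ℂ) (d b : ℂ) (l : Filter ι) (H g : ι → ℂ → ℂ) (c : ι → ℝ) :
    Prop where
  bd : ∃ M : ℝ, ∀ i, ∀ z ∈ D, ‖H i z‖ ≤ M
  equi : AEqui D l H
  smooth : ∀ i, ContDiff ℝ 1 (g i)
  close : ∀ K, IsCompact K → K ⊆ D → ∀ η > 0, ∀ᶠ i in l, ∀ z ∈ K, dist (g i z) (H i z) ≤ η
  mn : ∀ K, IsCompact K → K ⊆ D →
    Tendsto (fun i => min (∫ z in K, ‖dbar (g i) z‖) (∫ z in K, ‖del (g i) z‖)) l (𝓝 0)
  b1 : ∀ p ∈ frontier D, p ≠ d → (φ p).im = 0 → 0 < (φ p).re → (φ p).re < 1 →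
    ALBP D l H 1 (tau3 - 1) p
  b2 : ∀ p ∈ frontier D, p ≠ d → (φ p).im = 0 → 1 < (φ p).re →
    ALBP D l H tau3 (tau3 ^ 2 - tau3) p
  b3 : ∀ p ∈ frontier D, p ≠ d → (φ p).im = 0 → (φ p).re < 0 →
    ALBP D l H (tau3 ^ 2) (1 - tau3 ^ 2) p
  val : ∀ η > 0, ∃ δ > 0, ∀ z ∈ D, dist z b < δ → ∀ᶠ i in l,
    dist (H i z) (1 + (c i : ℂ) * (tau3 - 1)) ≤ η

theorem EndP.mono {φ : ℂ → ℂ} {d b : ℂ} {l l' : Filter ι} {H g : ι → ℂ → ℂ} {c : ι → ℝ}
    (h : EndP D φ d b l H g c) (hl : l' ≤ l) : EndP D φ d b l' H g c where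
  bd := h.bd
  equi := h.equi.mono hl
  smooth := h.smooth
  close K hK hKD η hη := hl (h.close K hK hKD η hη)
  mn K hK hKD := (h.mn K hK hKD).mono_left hl
  b1 p hp h1 h2 h3 h4 := (h.b1 p hp h1 h2 h3 h4).mono hl
  b2 p hp h1 h2 h3 := (h.b2 p hp h1 h2 h3).mono hl
  b3 p hp h1 h2 h3 := (h.b3 p hp h1 h2 h3).mono hl
  val η hη := by
    obtain ⟨δ, hδ, h1⟩ := h.val η hη
    exact ⟨δ, hδ, fun z hz hzb => hl (h1 z hz hzb)⟩

theorem _root_.Crest.Agent.R143.EndBx336.EndM.toP {φ : ℂ → ℂ} {d b : ℂ} {l : Filter ι}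
    {H g : ι → ℂ → ℂ} {c : ι → ℝ} (h : EndM D φ d b l H g c) : EndP D φ d b l H g c where
  bd := h.bd
  equi := h.equi
  smooth := h.smooth
  close := h.close
  mn := h.mn
  b1 p hp h1 h2 h3 h4 := (h.b1 p hp h1 h2 h3 h4).toP
  b2 p hp h1 h2 h3 := (h.b2 p hp h1 h2 h3).toP
  b3 p hp h1 h2 h3 := (h.b3 p hp h1 h2 h3).toP
  val η hη := by
    obtain ⟨δ, hδ, h1⟩ := h.val η hη
    exact ⟨δ, hδ, fun z hz hzb => h1.mono fun i hi => hi z hz hzb⟩

/-- **end theorem**, pointwise boundary conditions (proof of 336's `end_coreM`) -/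
theorem end_coreP (hbc3 : BC3) (hD : IsOpen D) {φ : ℂ → ℂ} {d b : ℂ} (hid : Ident D φ d)
    (hb : b ∈ frontier D) (hbd : b ≠ d) {x : ℝ} (hx0 : 0 < x) (hx1 : x < 1) (hφb : φ b = x)
    {l : Filter ι} {H g : ι → ℂ → ℂ} {c : ι → ℝ} (h : EndP D φ d b l H g c) :
    Tendsto c l (𝓝 (crossingFormula x)) := by
  rw [tendsto_iff_ultrafilter]
  intro U hU
  have hU' := h.mono hU
  obtain ⟨M, hM⟩ := h.bd
  obtain ⟨f, hfM, hf⟩ := exists_ulim U hM
  have hunif : ∀ K, IsCompact K → K ⊆ D → TendstoUniformlyOn H f U K := fun K hK hKD =>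
    unif_of_equi hU'.equi hf hK hKD
  have hg : TendstoLocallyUniformlyOn g f U D := by
    rw [tendstoLocallyUniformlyOn_iff_forall_isCompact hD]
    intro K hKD hK
    rw [Metric.tendstoUniformlyOn_iff]
    intro η hη
    have h1 := Metric.tendstoUniformlyOn_iff.1 (hunif K hK hKD) (η / 2) (by linarith)
    filter_upwards [h1, hU'.close K hK hKD (η / 3) (by linarith)] with i hi1 hi2 z hz
    calc dist (f z) (g i z) ≤ dist (f z) (H i z) + dist (H i z) (g i z) := dist_triangle _ _ _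
      _ ≤ η / 2 + η / 3 := add_le_add (hi1 z hz).le (by rw [dist_comm]; exact hi2 z hz)
      _ < η := by linarith
  have hol : DifferentiableOn ℂ f D ∨ DifferentiableOn ℂ (fun z => (starRingEnd ℂ) (f z)) D := by
    rcases alt_of_min hD hU'.smooth hU'.mn with h1 | h1
    · left
      exact hbc3 D hD ι U inferInstance g f hU'.smooth hg h1
    · right
      have hg2 : TendstoLocallyUniformlyOn (fun i => cj (g i)) (cj f) U D := by
        rw [Metric.tendstoLocallyUniformlyOn_iff] at hg ⊢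
        intro e he z hz
        obtain ⟨t, ht, h2⟩ := hg e he z hz
        refine ⟨t, ht, ?_⟩
        filter_upwards [h2] with i hi y hy
        have := hi y hy
        rwa [cj, cj, dist_eq_norm, ← map_sub, Complex.norm_conj, ← dist_eq_norm]
      refine hbc3 D hD ι U inferInstance (fun i => cj (g i)) (cj f)
        (fun i => contDiff_cj (hU'.smooth i)) hg2 ?_
      intro K hK hKD
      refine (h1 K hK hKD).congr fun i => ?_
      exact integral_congr_ae (Eventually.of_forall fun z => (norm_dbar_cj (hU'.smooth i) z).symm)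
  have htri : TriBC D φ d f :=
    ⟨⟨M, hfM⟩, fun p hp h1 h2 h3 h4 => (hU'.b1 p hp h1 h2 h3 h4).LB hf,
      fun p hp h1 h2 h3 => (hU'.b2 p hp h1 h2 h3).LB hf,
      fun p hp h1 h2 h3 => (hU'.b3 p hp h1 h2 h3).LB hf⟩
  have hlim := hid f htri hol b hb hbd x hx0 hx1 hφb
  have hne : (𝓝[D] b).NeBot := by
    rw [← mem_closure_iff_nhdsWithin_neBot]
    exact frontier_subset_closure hb
  have hT : 0 < ‖tau3 - 1‖ := norm_pos_iff.2 tau3_ne_one
  rw [Metric.tendsto_nhds]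
  intro η hη
  set η' := η * ‖tau3 - 1‖ / 4 with hη'
  have hη'0 : 0 < η' := by positivity
  obtain ⟨δ, hδ, h1⟩ := hU'.val η' hη'0
  have h2 := Metric.tendsto_nhds.1 hlim η' hη'0
  have h3 : Metric.ball b δ ∩ D ∈ 𝓝[D] b := by
    rw [inter_comm]
    exact inter_mem_nhdsWithin D (Metric.ball_mem_nhds b hδ)
  obtain ⟨z, hz1, hz2, hz3⟩ := (h2.and h3).exists
  have h4 := Metric.tendsto_nhds.1 (hf z hz3) η' hη'0
  filter_upwards [h1 z hz3 hz2, h4] with i hi1 hi4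
  have e1 : dist (1 + (c i : ℂ) * (tau3 - 1)) (1 + (crossingFormula x : ℂ) * (tau3 - 1)) <
      4 * η' := by
    calc dist (1 + (c i : ℂ) * (tau3 - 1)) (1 + (crossingFormula x : ℂ) * (tau3 - 1))
        ≤ dist (1 + (c i : ℂ) * (tau3 - 1)) (H i z) + dist (H i z) (f z) +
          dist (f z) (1 + (crossingFormula x : ℂ) * (tau3 - 1)) := dist_triangle4 _ _ _ _
      _ ≤ η' + η' + η' := by
          refine add_le_add (add_le_add ?_ hi4.le) hz1.le
          rw [dist_comm]; exact hi1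
      _ < 4 * η' := by linarith
  have e2 : dist (1 + (c i : ℂ) * (tau3 - 1)) (1 + (crossingFormula x : ℂ) * (tau3 - 1)) =
      dist (c i) (crossingFormula x) * ‖tau3 - 1‖ := by
    rw [dist_add_left, dist_eq_norm, ← sub_mul, norm_mul, Real.dist_eq, ← Complex.ofReal_sub,
      Complex.norm_real, Real.norm_eq_abs]
  rw [e2, hη'] at e1
  have e3 : dist (c i) (crossingFormula x) * ‖tau3 - 1‖ < η * ‖tau3 - 1‖ := by linarith
  exact lt_of_mul_lt_mul_right e3 hT.le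

end ptw

/-- **top of the assembly** -/
theorem top (S : Dat) {b : ℂ} (hb : b ∈ frontier S.D) (hbd : b ≠ S.d) (hφb : S.φ b = S.x)
    {H g H' g' : ℕ × ℝ → ℂ → ℂ} {c c' : ℕ × ℝ → ℝ}
    (h : EndP S.D S.φ S.d b lc H g c) (h' : EndP S.D S.φ S.d b lc H' g' c')
    (hle : ∀ η > 0, ∀ᶠ i in lc, c i - η ≤ S.P i.2)
    (hle' : ∀ η > 0, ∀ᶠ i in lc, S.P i.2 ≤ c' i + η) :
    Tendsto (fun ε : ℝ => sampleLaw (crossingEvent ε S.D S.A1 S.A2)) (𝓝[>] 0)
      (𝓝 (ENNReal.ofReal (crossingFormula S.x))) := by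
  have hid : Ident S.D S.φ S.d :=
    IdentDx439.bc5 S.D S.hD S.hDb S.hDc S.φ S.hφ S.hφi S.hφD S.d S.hd S.hφc S.hφd
  have h1 := end_coreP DbarMorx63.bc3 S.hD hid hb hbd S.hx0 S.hx1 hφb h
  have h2 := end_coreP DbarMorx63.bc3 S.hD hid hb hbd S.hx0 S.hx1 hφb h'
  have h3 : Tendsto S.P (𝓝[>] 0) (𝓝 (crossingFormula S.x)) := by
    rw [Metric.tendsto_nhds]
    intro η hη
    have h4 : ∀ᶠ i in lc, dist (S.P i.2) (crossingFormula S.x) < η := by
      filter_upwards [Metric.tendsto_nhds.1 h1 (η / 2) (by linarith),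
        Metric.tendsto_nhds.1 h2 (η / 2) (by linarith), hle (η / 2) (by linarith),
        hle' (η / 2) (by linarith)] with i e1 e2 e3 e4
      rw [Real.dist_eq, abs_lt] at e1 e2 ⊢
      constructor <;> linarith [e1.1, e1.2, e2.1, e2.2]
    rw [ev_lc] at h4
    exact h4.exists.choose_spec
  have h4 := ENNReal.tendsto_ofReal h3
  refine h4.congr fun ε => ?_
  exact ENNReal.ofReal_toReal (measure_ne_top _ _)

/-- the literal S0194 -/
theorem literal (h : Body)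
    (D : Set ℂ) (hD : IsOpen D) (hDb : Bornology.IsBounded D) (hDc : IsConnected D)
    (γ : ℝ → ℂ) (hγ : Continuous γ) (hγp : Function.Periodic γ 1) (hγi : Set.InjOn γ (Set.Ico 0 1))
    (hγD : Set.range γ = frontier D)
    (φ : ℂ → ℂ) (hφ : DifferentiableOn ℂ φ D) (hφi : Set.InjOn φ D)
    (hφD : φ '' D = {z : ℂ | 0 < z.im})
    (a b c d : ℂ) (ha : a ∈ frontier D) (hb : b ∈ frontier D) (hc : c ∈ frontier D)
    (hd : d ∈ frontier D)
    (hφc : ContinuousOn φ (closure D \ {d}))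
    (hφd : Filter.Tendsto (fun z => ‖φ z‖) (nhdsWithin d D) Filter.atTop)
    (x : ℝ) (hx0 : 0 < x) (hx1 : x < 1)
    (hφa : φ a = 0) (hφb : φ b = x) (hφc1 : φ c = 1) :
    Filter.Tendsto
      (fun ε : ℝ => sampleLaw (crossingEvent ε D
        {z | z ∈ frontier D ∧ z ≠ d ∧ (φ z).im = 0 ∧ 0 ≤ (φ z).re ∧ (φ z).re ≤ x}
        ({z | z ∈ frontier D ∧ z ≠ d ∧ (φ z).im = 0 ∧ 1 ≤ (φ z).re} ∪ {d})))
      (nhdsWithin 0 (Set.Ioi 0))
      (nhds (ENNReal.ofReal (crossingFormula x))) :=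
  h ⟨D, hD, hDb, hDc, γ, hγ, hγp, hγi, hγD, φ, hφ, hφi, hφD, a, b, c, d, ha, hb, hc, hd, hφc, hφd,
    x, hx0, hx1, hφa, hφb, hφc1⟩

/-! ### the annealed observable -/

/-- measurable good events for the domain `D` (failure probability at most `ε ^ 10`) -/
structure GoodFam (D : Dom) (G : ℝ → Set Sample) : Prop where
  meas : ∀ ε, MeasurableSet (G ε)
  prob : ∀ᶠ ε : ℝ in 𝓝[>] 0, sampleLaw (G ε)ᶜ ≤ ENNReal.ofReal (ε ^ (10 : ℝ))
  hm1 : ∀ᶠ ε : ℝ in 𝓝[>] 0, ∀ z : ℂ,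
    AEStronglyMeasurable (fun ω => D.h ε ω z) (sampleLaw.restrict (G ε))
  hm2 : ∀ᶠ ε : ℝ in 𝓝[>] 0, AEStronglyMeasurable (fun p : Sample × ℂ => D.h ε p.1 p.2)
    ((sampleLaw.restrict (G ε)).prod volume)

/-- the annealed observable on the good event -/
def HG (D : Dom) (G : ℝ → Set Sample) (ε : ℝ) (z : ℂ) : ℂ := ∫ ω in G ε, D.h ε ω z ∂sampleLaw

/-- the ball of radius `ρ` around `z` is in the body of the domain -/
def Room (D : Dom) (ρ : ℝ) (z : ℂ) : Prop :=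
  Disjoint (Metric.closedBall z ρ) D.out ∧
    Metric.closedBall z ρ ⊆ Metric.closedBall D.c (D.L / 2)

theorem Room.mono {D : Dom} {ρ ρ' : ℝ} {z z' : ℂ} (h : Room D ρ z) (hz : dist z' z + ρ' ≤ ρ) :
    Room D ρ' z' := by
  have h1 : Metric.closedBall z' ρ' ⊆ Metric.closedBall z ρ :=
    Metric.closedBall_subset_closedBall' (by linarith)
  exact ⟨h.1.mono_left h1, h1.trans h.2⟩

/-- `z` is joined, inside the disc of radius `3 L / 4`, to the axes of the three tentacles by a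
connected set of points at distance at least `η` from the outside -/
def Linked (D : Dom) (η : ℝ) (z : ℂ) : Prop := ∃ C : Set ℂ, IsPreconnected C ∧ z ∈ C ∧
  C ⊆ Metric.closedBall D.c (3 / 4 * D.L) ∧
  (∀ k : ZMod 3, D.c + ((3 / 4 * D.L : ℝ) : ℂ) * D.q k ∈ C) ∧
  ∀ y ∈ C, Disjoint (Metric.ball y η) D.out

theorem Linked.mono {D : Dom} {η η' : ℝ} {z : ℂ} (h : Linked D η z) (hη : η' ≤ η) :
    Linked D η' z := by
  obtain ⟨C, h1, h2, h3, h4, h5⟩ := h
  exact ⟨C, h1, h2, h3, h4, fun y hy => (h5 y hy).mono_left (Metric.ball_subset_ball hη)⟩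

/-- a point near a linked point with room is linked -/
theorem Linked.move {D : Dom} {η ρ : ℝ} {z w : ℂ} (h : Linked D η z) (hR : Room D ρ z)
    (hη : 0 < η) (hw : dist w z + η ≤ ρ) : Linked D η w := by
  obtain ⟨C, h1, h2, h3, h4, h5⟩ := h
  have hseg : ∀ y ∈ segment ℝ z w, dist y z ≤ dist w z := by
    intro y hy
    have h6 : y ∈ Metric.closedBall z (dist w z) :=
      (convex_closedBall z (dist w z)).segment_subset
        (Metric.mem_closedBall_self dist_nonneg) (Metric.mem_closedBall.2 le_rfl) hy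
    exact h6
  have hL : 0 ≤ D.L := by
    have h6 : z ∈ Metric.closedBall D.c (D.L / 2) :=
      hR.2 (Metric.mem_closedBall_self (by linarith [dist_nonneg (x := w) (y := z)]))
    have h7 : dist z D.c ≤ D.L / 2 := h6
    linarith [dist_nonneg (x := z) (y := D.c)]
  refine ⟨C ∪ segment ℝ z w, ?_, Or.inr (right_mem_segment ℝ z w), ?_, fun k => Or.inl (h4 k), ?_⟩
  · exact h1.union z h2 (left_mem_segment ℝ z w) (convex_segment z w).isPreconnected
  · refine Set.union_subset h3 fun y hy => ?_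
    have h6 : y ∈ Metric.closedBall D.c (D.L / 2) :=
      hR.2 (Metric.mem_closedBall.2 (by linarith [hseg y hy]))
    exact Metric.closedBall_subset_closedBall (by linarith) h6
  · rintro y (hy | hy)
    · exact h5 y hy
    · refine hR.1.mono_left fun u hu => ?_
      have h7 : dist u y < η := hu
      exact Metric.mem_closedBall.2 ((dist_triangle u y z).trans (by linarith [hseg y hy]))

theorem norm_omz (k : ZMod 3) : ‖omz k‖ = 1 := by
  rw [omz, norm_pow, Oscx63.norm_om, one_pow]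

theorem norm_Fob_le {V : Type} (N : Net V) (a b : V) : ‖N.Fob a b‖ ≤ 3 := by
  classical
  unfold Net.Fob
  rw [norm_div, Complex.norm_natCast]
  have h0 : ∀ k : ZMod 3, ‖((N.cnt a b k + N.cnt b a k : ℕ) : ℂ) * omz k‖ ≤
      (((N.hj a b).card + (N.hj b a).card : ℕ) : ℝ) := by
    intro k
    rw [norm_mul, norm_omz, mul_one, Complex.norm_natCast]
    exact_mod_cast add_le_add (Finset.card_filter_le _ _) (Finset.card_filter_le _ _)
  have h1 : ‖∑ k : ZMod 3, ((N.cnt a b k + N.cnt b a k : ℕ) : ℂ) * omz k‖ ≤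
      3 * (((N.hj a b).card + (N.hj b a).card : ℕ) : ℝ) := by
    refine (norm_sum_le _ _).trans ((Finset.sum_le_sum fun k _ => h0 k).trans ?_)
    rw [Finset.sum_const, Finset.card_univ, ZMod.card, nsmul_eq_mul]
    push_cast
    exact le_rfl
  rcases Nat.eq_zero_or_pos ((N.hj a b).card + (N.hj b a).card) with h2 | h2
  · rw [h2]
    simp
  · rw [div_le_iff₀ (by exact_mod_cast h2)]
    exact h1

theorem norm_F_le {V : Type} (N : Net V) (a b : V) : ‖N.F a b‖ ≤ 3 := by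
  classical
  unfold Net.F
  split_ifs
  · rw [norm_omz]; norm_num
  · exact norm_Fob_le N a b

theorem norm_hval_le (N : Net ℂ) (z : ℂ) : ‖hval N z‖ ≤ 3 := by
  classical
  unfold hval
  split_ifs with h
  · rw [norm_div]
    have h1 := norm_F_le N h.choose.1 h.choose.2.1
    have h2 := norm_F_le N h.choose.2.1 h.choose.2.2
    have h3 := norm_F_le N h.choose.2.2 h.choose.1
    have h4 := norm_add₃_le (a := N.F h.choose.1 h.choose.2.1) (b := N.F h.choose.2.1 h.choose.2.2)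
      (c := N.F h.choose.2.2 h.choose.1)
    have h5 : ‖(3 : ℂ)‖ = 3 := by simp
    rw [h5, div_le_iff₀ (by norm_num)]
    linarith
  · simp

theorem norm_h_le (D : Dom) (ε : ℝ) (ω : Sample) (z : ℂ) : ‖D.h ε ω z‖ ≤ 3 := norm_hval_le _ _

theorem norm_HG_le (D : Dom) (G : ℝ → Set Sample) (ε : ℝ) (z : ℂ) : ‖HG D G ε z‖ ≤ 3 := by
  unfold HG
  refine (norm_integral_le_of_norm_le_const (ae_of_all _ fun ω => norm_h_le D ε ω z)).trans ?_
  have h1 : (sampleLaw.restrict (G ε)).real univ ≤ 1 := by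
    rw [measureReal_def, Measure.restrict_apply_univ]
    exact ENNReal.toReal_le_of_le_ofReal zero_le_one (by simpa using prob_le_one)
  nlinarith

theorem bm_HG {D : Dom} {G : ℝ → Set Sample} {ε : ℝ}
    (h : AEStronglyMeasurable (fun p : Sample × ℂ => D.h ε p.1 p.2)
      ((sampleLaw.restrict (G ε)).prod volume)) : BM (HG D G ε) 3 :=
  ⟨h.prod_swap.integral_prod_right', fun z => norm_HG_le D G ε z⟩

/-! ### leaves -/

/-- **leaf GOOD** (M3 + M5); `Adm D δ` : admissible domains -/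
def LGood (Adm : Dom → ℝ → Prop) : Prop := ∀ (D : Dom) (δ : ℝ), Adm D δ →
  ∃ G : ℝ → Set Sample, GoodFam D G

/-- **leaf EQ** (T2, T4, M4; from E3): equicontinuity with universal constants -/
def LEqui (Adm : Dom → ℝ → Prop) : Prop := ∀ ρ > 0, ∀ η > 0, ∃ s > 0, ∀ (D : Dom) (δ : ℝ),
  Adm D δ → ∀ G : ℝ → Set Sample, GoodFam D G → ∀ m > 0, ∀ᶠ ε : ℝ in 𝓝[>] 0, ∀ z w : ℂ,
    Room D ρ z → Room D ρ w → Linked D m z → Linked D m w →
    dist z w < s → dist (HG D G ε z) (HG D G ε w) ≤ η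

/-- **leaf MN** (B5, B6; from E3 and ZF): the annealed observable is asymptotically holomorphic or
antiholomorphic -/
def LMin (Adm : Dom → ℝ → Prop) : Prop := ∀ (D : Dom) (δ : ℝ), Adm D δ →
  ∀ G : ℝ → Set Sample, GoodFam D G →
  ∀ ρ > 0, ∀ m > 0, ∃ κ : ℝ, 0 < κ ∧ ∀ K : Set ℂ, IsCompact K →
    (∀ z ∈ K, Room D ρ z ∧ Linked D m z) →
    Tendsto (fun ε : ℝ => min (∫ z in K, ‖dbar (moll (ε ^ κ) (HG D G ε)) z‖)
      (∫ z in K, ‖del (moll (ε ^ κ) (HG D G ε)) z‖)) (𝓝[>] 0) (𝓝 0)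

/-- compact subsets of `D` are in the body of `Dm n` for large `n`, with some room `ρ` (the same for
all `n`), and joined to the marks with a margin `m n` -/
def RoomOK (D : Set ℂ) (Dm : ℕ → Dom) (m : ℕ → ℝ) : Prop := (∀ n, 0 < m n) ∧
  ∀ K, IsCompact K → K ⊆ D →
    ∃ ρ > 0, ∀ᶠ n in (atTop : Filter ℕ), ∀ z ∈ K, Room (Dm n) ρ z ∧ Linked (Dm n) (m n) z

/-- boundary conditions and value near `b` (pointwise in `z`: `z` fixed, then `n` large, then
`ε → 0`) -/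
structure Bdry (S : Dat) (b : ℂ) (H : ℕ × ℝ → ℂ → ℂ) (c : ℕ × ℝ → ℝ) : Prop where
  b1 : ∀ p ∈ frontier S.D, p ≠ S.d → (S.φ p).im = 0 → 0 < (S.φ p).re → (S.φ p).re < 1 →
    ALBP S.D lc H 1 (tau3 - 1) p
  b2 : ∀ p ∈ frontier S.D, p ≠ S.d → (S.φ p).im = 0 → 1 < (S.φ p).re →
    ALBP S.D lc H tau3 (tau3 ^ 2 - tau3) p
  b3 : ∀ p ∈ frontier S.D, p ≠ S.d → (S.φ p).im = 0 → (S.φ p).re < 0 →
    ALBP S.D lc H (tau3 ^ 2) (1 - tau3 ^ 2) p
  val : ∀ η > 0, ∃ δ > 0, ∀ z ∈ S.D, dist z b < δ → ∀ᶠ i in lc,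
    dist (H i z) (1 + (c i : ℂ) * (tau3 - 1)) ≤ η

/-- lower (`up = false`) or upper (`up = true`) comparison with the official probability -/
def Sand (S : Dat) (up : Bool) (c : ℕ × ℝ → ℝ) : Prop :=
  ∀ η > 0, ∀ᶠ i in lc, if up then S.P i.2 ≤ c i + η else c i - η ≤ S.P i.2

/-- reflection: exchanges `1` and `om`, fixes `om ^ 2` (used when the marks of the domain come out
clockwise) -/
def tr (r : Bool) (w : ℂ) : ℂ := if r then om * (starRingEnd ℂ) w else w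

/-- the observable of the approximating sequence; `rv n` : the marks of `Dm n` are reversed -/
def Hs (rv : ℕ → Bool) (Dm : ℕ → Dom) (G : ℕ → ℝ → Set Sample) (i : ℕ × ℝ) (z : ℂ) : ℂ :=
  tr (rv i.1) (HG (Dm i.1) (G i.1) i.2 z)

/-- **leaf DOM** (block D; from E3) -/
def LDom (Adm : Dom → ℝ → Prop) : Prop :=
  ∀ (S : Dat) (b : ℂ), b ∈ frontier S.D → b ≠ S.d → S.φ b = S.x → ∀ up : Bool,
  ∃ (rv : ℕ → Bool) (Dm : ℕ → Dom) (δ m : ℕ → ℝ), (∀ n, Adm (Dm n) (δ n)) ∧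
    RoomOK S.D Dm m ∧ ∀ G : ℕ → ℝ → Set Sample, (∀ n, GoodFam (Dm n) (G n)) →
      ∃ c : ℕ × ℝ → ℝ, Bdry S b (Hs rv Dm G) c ∧ Sand S up c

/-- the four leaves -/
structure Leaves (Adm : Dom → ℝ → Prop) : Prop where
  good : LGood Adm
  equi : LEqui Adm
  mn : LMin Adm
  dom : LDom Adm

/-! ### assembly -/

theorem norm_om : ‖om‖ = 1 := Oscx63.norm_om

theorem tr_dist (r : Bool) (w w' : ℂ) : dist (tr r w) (tr r w') = dist w w' := by
  unfold tr
  cases r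
  · rfl
  · simp only [if_true]
    rw [dist_eq_norm, ← mul_sub, ← map_sub, norm_mul, Complex.norm_conj, norm_om, one_mul,
      ← dist_eq_norm]

theorem norm_tr (r : Bool) (w : ℂ) : ‖tr r w‖ = ‖w‖ := by
  unfold tr
  cases r
  · rfl
  · simp only [if_true]
    rw [norm_mul, Complex.norm_conj, norm_om, one_mul]

theorem dbar_const_mul {f : ℂ → ℂ} {z : ℂ} (hf : DifferentiableAt ℝ f z) (a : ℂ) :
    dbar (fun z => a * f z) z = a * dbar f z := by
  have h : HasFDerivAt (fun z => a * f z) (a • fderiv ℝ f z) z := hf.hasFDerivAt.const_mul a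
  unfold dbar
  rw [h.fderiv]
  simp only [ContinuousLinearMap.smul_apply, smul_eq_mul]
  ring

theorem del_const_mul {f : ℂ → ℂ} {z : ℂ} (hf : DifferentiableAt ℝ f z) (a : ℂ) :
    del (fun z => a * f z) z = a * del f z := by
  have h : HasFDerivAt (fun z => a * f z) (a • fderiv ℝ f z) z := hf.hasFDerivAt.const_mul a
  unfold del
  rw [h.fderiv]
  simp only [ContinuousLinearMap.smul_apply, smul_eq_mul]
  ring

theorem tr_contDiff (r : Bool) {f : ℂ → ℂ} (hf : ContDiff ℝ 1 f) :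
    ContDiff ℝ 1 (fun z => tr r (f z)) := by
  unfold tr
  cases r
  · exact hf
  · exact contDiff_const.mul (contDiff_cj hf)

/-- the reflection exchanges `dbar` and `del` -/
theorem min_tr (r : Bool) {f : ℂ → ℂ} (hf : ContDiff ℝ 1 f) (K : Set ℂ) :
    min (∫ z in K, ‖dbar (fun z => tr r (f z)) z‖) (∫ z in K, ‖del (fun z => tr r (f z)) z‖) =
      min (∫ z in K, ‖dbar f z‖) (∫ z in K, ‖del f z‖) := by
  cases r
  · rfl
  · have hd : ∀ z, DifferentiableAt ℝ (cj f) z := fun z =>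
      ((contDiff_cj hf).differentiable (by norm_num)) z
    have e0 : (fun z => tr true (f z)) = fun z => om * cj f z := rfl
    rw [e0]
    have e1 : ∀ z, ‖dbar (fun z => om * cj f z) z‖ = ‖del f z‖ := by
      intro z
      rw [dbar_const_mul (hd z), norm_mul, norm_om, one_mul, norm_dbar_cj hf]
    have e2 : ∀ z, ‖del (fun z => om * cj f z) z‖ = ‖dbar f z‖ := by
      intro z
      rw [del_const_mul (hd z), norm_mul, norm_om, one_mul]
      have h3 := norm_dbar_cj (contDiff_cj hf) z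
      have h4 : cj (cj f) = f := by
        funext w; simp [cj]
      rw [h4] at h3
      exact h3.symm
    simp_rw [e1, e2]
    exact min_comm _ _

/-- the smooth approximation -/
def gG (H : ℕ × ℝ → ℂ → ℂ) (κ : ℕ → ℝ) (i : ℕ × ℝ) : ℂ → ℂ :=
  open Classical in
  if BM (H i) 3 ∧ 0 < i.2 ^ κ i.1 then moll (i.2 ^ κ i.1) (H i) else fun _ => 0

theorem gG_smooth (H : ℕ × ℝ → ℂ → ℂ) (κ : ℕ → ℝ) (i : ℕ × ℝ) : ContDiff ℝ 1 (gG H κ i) := by
  unfold gG
  split_ifs with h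
  · exact moll_contDiff h.1 h.2 (n := 1)
  · exact contDiff_const

theorem endP_of {Adm : Dom → ℝ → Prop} (hE : LEqui Adm) (hM : LMin Adm) (hG : LGood Adm)
    (S : Dat) (b : ℂ) {rv : ℕ → Bool} {Dm : ℕ → Dom} {δ m : ℕ → ℝ}
    (hOK : ∀ n, Adm (Dm n) (δ n)) (hR : RoomOK S.D Dm m) {P : (ℕ × ℝ → ℝ) → Prop}
    (h : ∀ G : ℕ → ℝ → Set Sample, (∀ n, GoodFam (Dm n) (G n)) →
      ∃ c : ℕ × ℝ → ℝ, Bdry S b (Hs rv Dm G) c ∧ P c) :
    ∃ (H g : ℕ × ℝ → ℂ → ℂ) (c : ℕ × ℝ → ℝ), EndP S.D S.φ S.d b lc H g c ∧ P c := by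
  choose G hGf using fun n => hG (Dm n) (δ n) (hOK n)
  obtain ⟨c, hc, hP⟩ := h G hGf
  have hρ : ∀ n : ℕ, (0 : ℝ) < 1 / ((n : ℝ) + 1) := fun n => by positivity
  obtain ⟨hm0, hR⟩ := hR
  choose κ hκ0 hκ using fun n => hM (Dm n) (δ n) (hOK n) (G n) (hGf n) (1 / ((n : ℝ) + 1)) (hρ n)
    (m n) (hm0 n)
  set H : ℕ × ℝ → ℂ → ℂ := fun i => HG (Dm i.1) (G i.1) i.2 with hH
  have hbm : ∀ n, ∀ᶠ ε in 𝓝[>] (0 : ℝ), BM (H (n, ε)) 3 := by
    intro n
    filter_upwards [(hGf n).hm2] with ε hε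
    exact bm_HG hε
  have hpos : ∀ᶠ ε in 𝓝[>] (0 : ℝ), 0 < ε := eventually_mem_nhdsWithin
  have hg : ∀ n, ∀ᶠ ε in 𝓝[>] (0 : ℝ), gG H κ (n, ε) = moll (ε ^ κ n) (H (n, ε)) := by
    intro n
    filter_upwards [hbm n, hpos] with ε h1 h2
    unfold gG
    rw [if_pos ⟨h1, Real.rpow_pos_of_pos h2 _⟩]
  refine ⟨Hs rv Dm G, fun i z => tr (rv i.1) (gG H κ i z), c, ?_, hP⟩
  refine ⟨⟨3, fun i z _ => ?_⟩, ?_, fun i => tr_contDiff _ (gG_smooth H κ i), ?_, ?_, hc.b1, hc.b2,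
    hc.b3, hc.val⟩
  · rw [Hs, norm_tr]; exact norm_HG_le _ _ _ _
  · -- equicontinuity
    intro K hK hKD η hη
    obtain ⟨ρ, hρ0, hρ1⟩ := hR K hK hKD
    obtain ⟨s, hs, h1⟩ := hE ρ hρ0 η hη
    refine ⟨s, hs, ?_⟩
    rw [ev_lc]
    filter_upwards [hρ1] with n hn
    filter_upwards [h1 (Dm n) (δ n) (hOK n) (G n) (hGf n) (m n) (hm0 n)] with ε hε z hz w hw hzw
    rw [Hs, Hs, tr_dist]
    exact hε z w (hn z hz).1 (hn w hw).1 (hn z hz).2 (hn w hw).2 hzw
  · -- the mollification is close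
    intro K hK hKD η hη
    obtain ⟨ρ, hρ0, hρ1⟩ := hR K hK hKD
    obtain ⟨s, hs, h1⟩ := hE (ρ / 2) (by linarith) η hη
    rw [ev_lc]
    filter_upwards [hρ1] with n hn
    have ht : Tendsto (fun ε : ℝ => ε ^ κ n) (𝓝[>] 0) (𝓝 0) := by
      have h2 : Tendsto (fun ε : ℝ => ε ^ κ n) (𝓝 0) (𝓝 ((0 : ℝ) ^ κ n)) :=
        (Real.continuousAt_rpow_const 0 (κ n) (Or.inr (hκ0 n).le)).tendsto
      rw [Real.zero_rpow (hκ0 n).ne'] at h2
      exact h2.mono_left nhdsWithin_le_nhds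
    have hm : (0 : ℝ) < min s (ρ / 2) := lt_min hs (by linarith)
    have hm' : 0 < min (m n) (ρ / 2) := lt_min (hm0 n) (by linarith)
    filter_upwards [h1 (Dm n) (δ n) (hOK n) (G n) (hGf n) _ hm', hbm n, hg n, hpos,
      ht.eventually (gt_mem_nhds hm)] with ε h2 h3 h4 h5 h6 z hz
    have h5' : 0 < ε ^ κ n := Real.rpow_pos_of_pos h5 _
    rw [Hs, tr_dist, h4, dist_eq_norm]
    refine moll_close h3 h5' fun w hw => ?_
    rw [← dist_eq_norm]
    have hwd : dist (z + w) z = ‖w‖ := by rw [dist_eq_norm, add_sub_cancel_left]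
    have hl : Linked (Dm n) (min (m n) (ρ / 2)) z := (hn z hz).2.mono (min_le_left _ _)
    have h7 : ‖w‖ < ρ / 2 := hw.trans (lt_min_iff.1 h6).2
    refine h2 (z + w) z ((hn z hz).1.mono ?_) ((hn z hz).1.mono ?_)
      (hl.move (hn z hz).1 hm' ?_) hl ?_
    · rw [hwd]; linarith
    · rw [dist_self]; linarith
    · rw [hwd]
      have := min_le_right (m n) (ρ / 2)
      linarith
    · rw [hwd]; exact hw.trans (lt_min_iff.1 h6).1
  · -- the minimum
    intro K hK hKD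
    obtain ⟨ρ, hρ0, hρ1⟩ := hR K hK hKD
    simp only [min_tr _ (gG_smooth H κ _)]
    refine tendsto_lc ?_
    have hn0 : ∀ᶠ n : ℕ in atTop, 1 / ((n : ℝ) + 1) < ρ :=
      tendsto_one_div_add_atTop_nhds_zero_nat.eventually (gt_mem_nhds hρ0)
    filter_upwards [hρ1, hn0] with n hn hn1
    have h1 := hκ n K hK fun z hz =>
      ⟨(hn z hz).1.mono (by rw [dist_self]; linarith), (hn z hz).2⟩
    refine h1.congr' ?_
    filter_upwards [hg n] with ε h2
    rw [h2]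

/-- **the spine** -/
theorem final {Adm : Dom → ℝ → Prop} (L : Leaves Adm) : Body := by
  intro S
  obtain ⟨b, hb, hbd, hφb⟩ := S.exists_b
  obtain ⟨v1, D1, d1, m1, ok1, r1, e1⟩ := L.dom S b hb hbd hφb false
  obtain ⟨v2, D2, d2, m2, ok2, r2, e2⟩ := L.dom S b hb hbd hφb true
  obtain ⟨H, g, c, h, hc⟩ := endP_of L.equi L.mn L.good S b ok1 r1 e1
  obtain ⟨H', g', c', h', hc'⟩ := endP_of L.equi L.mn L.good S b ok2 r2 e2
  exact top S hb hbd hφb h h' (fun η hη => by simpa using hc η hη)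
    (fun η hη => by simpa using hc' η hη)

end Crest.Agent.R143.Spinex422
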