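import Crest.Agent.R143.T6_697
import Crest.Agent.R143.Sec0_697
import Crest.Agent.R143.Ex_395
import Crest.Agent.R143.Ex2_922
import Crest.Agent.R143.DomB_722
import Crest.Agent.R143.Low_991
import Crest.Agent.R143.EQ4_63
import Crest.Agent.R143.Ad_422
import Crest.Agent.R143.Spine_422

/-!
# Row 143 (S0194), leaf LOW (i) = T6 at the level of the domains (helper697)

* `reps` : one rotation of every triangle
* `lk_side`, `exM_conn` : triangles with a common live side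
* `far_side` : every point of the plane is at distance `≥ 1 / 2` from one side of the big triangle
* `Cls D S` : the sites whose cell meets `R i` are on the side `i` (output of 722's D2)
* `hdir` : a generic ray of a sector is connected to an edge on the side `i`
* `T6D` : lower bound for the oscillation of `F` on the small disc
-/

set_option autoImplicit false
set_option linter.unusedSimpArgs false

noncomputable section

namespace Crest.Agent.R143.T6Dx697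

open Set
open scoped Classical
open Crest.ProbabilityR.Voronoi
open Crest.Agent.R143.B0x346 Crest.Agent.R143.B0Dx346 Crest.Agent.R143.Oscx63
open Crest.Agent.R143.DelGx806 Crest.Agent.R143.Circx63 Crest.Agent.R143.Scalx63
open Crest.Agent.R143.Rswx63 Crest.Agent.R143.T6x697 Crest.Agent.R143.Sec0x697
open Crest.Agent.R143.DomAx722 (Dns)
open Crest.Agent.R143.DomBx722 (cell)
open Crest.Agent.R143.Lowx991 (LiveIn)
open Crest.Agent.R143.Sidesx697 (Side)
open Crest.Agent.R143.Ex0x922 (Lk LAdj ExM)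

/-! ### combinatorics -/

/-- one rotation of every triangle -/
theorem reps {V : Type} (A : Finset (V × V × V)) : ∃ U ⊆ A,
    (∀ s ∈ U, ∀ t ∈ U, s ≠ t → t ∉ rots s) ∧ ∀ t ∈ A, ∃ t' ∈ U, t' ∈ rots t := by
  induction A using Finset.induction_on with
  | empty => exact ⟨∅, subset_rfl, by simp, by simp⟩
  | insert a A ha ih =>
    obtain ⟨U, hU, h1, h2⟩ := ih
    by_cases h3 : ∃ t' ∈ U, t' ∈ rots a
    · refine ⟨U, hU.trans (Finset.subset_insert _ _), h1, ?_⟩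
      intro t ht
      rcases Finset.mem_insert.mp ht with rfl | ht
      · exact h3
      · exact h2 t ht
    · refine ⟨insert a U, Finset.insert_subset_insert _ hU, ?_, ?_⟩
      · intro s hs t ht hst
        rcases Finset.mem_insert.mp hs with hs | hs <;> rcases Finset.mem_insert.mp ht with ht | ht
        · exact absurd (hs.trans ht.symm) hst
        · rw [hs]; exact fun h => h3 ⟨t, ht, h⟩
        · rw [ht]; exact fun h => h3 ⟨s, hs, rots_symm h⟩
        · exact h1 s hs t ht hst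
      · intro t ht
        rcases Finset.mem_insert.mp ht with rfl | ht
        · exact ⟨t, Finset.mem_insert_self _ _, mem_rots_self t⟩
        · obtain ⟨t', h4, h5⟩ := h2 t ht
          exact ⟨t', Finset.mem_insert_of_mem h4, h5⟩

/-- the orientation of a side -/
theorem side_cases {V : Type} {N : Net V} {t : V × V × V} {e : V × V} (h : LSide N t e) :
    (∃ c, (e.1, e.2, c) ∈ rots t) ∨ ∃ c, (e.2, e.1, c) ∈ rots t := by
  obtain ⟨a, b, c⟩ := t
  obtain ⟨-, h⟩ := h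
  simp only [rots, Set.mem_insert_iff, Set.mem_singleton_iff]
  rcases h with rfl | rfl | rfl | rfl | rfl | rfl
  · exact Or.inl ⟨c, by simp⟩
  · exact Or.inl ⟨a, by simp⟩
  · exact Or.inl ⟨b, by simp⟩
  · exact Or.inr ⟨c, by simp⟩
  · exact Or.inr ⟨a, by simp⟩
  · exact Or.inr ⟨b, by simp⟩

/-- two triangles with a common live side are linked -/
theorem lk_side {V : Type} {N : Net V} {t t' : V × V × V} (ht : t ∈ N.T) (ht' : t' ∈ N.T)
    {e : V × V} (he : LSide N t e) (he' : LSide N t' e) : Lk N t t' := by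
  have key : ∀ x y c c', (x, y, c) ∈ rots t → (x, y, c') ∈ rots t' → Lk N t t' := by
    intro x y c c' h h'
    have h1 := Ex0x922.rots_mem_T h ht
    have h2 := Ex0x922.rots_mem_T h' ht'
    have h3 := N.uniq h1 h2
    subst h3
    exact Lk.of_rots (by rw [← rots_eq h, rots_eq h']; exact mem_rots_self _)
  have key' : ∀ x y c c', (x, y) ∉ N.kl → (x, y, c) ∈ rots t → (y, x, c') ∈ rots t' →
      Lk N t t' := by
    intro x y c c' hk h h'
    exact Lk.of_adj ⟨x, y, c, c', Ex0x922.rots_mem_T h ht, Ex0x922.rots_mem_T h' ht', h, h', hk⟩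
  have hk : (e.1, e.2) ∉ N.kl := he.1
  have hk' : (e.2, e.1) ∉ N.kl := fun h => he.1 (N.klsym _ _ h)
  rcases side_cases he with ⟨c, h⟩ | ⟨c, h⟩ <;> rcases side_cases he' with ⟨c', h'⟩ | ⟨c', h'⟩
  · exact key _ _ _ _ h h'
  · exact key' _ _ _ _ hk h h'
  · exact key' _ _ _ _ hk' h h'
  · exact key _ _ _ _ h h'

/-- links along a walk -/
theorem exM_conn {V : Type} {N : Net V} {A : Finset (V × V × V)} (hA : ∀ t ∈ A, t ∈ N.T)
    {t0 : V × V × V} (h0 : ExM N t0) {e f : V × V} (he : LSide N t0 e) (h : Conn N A e f) :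
    ∀ s ∈ N.T, LSide N s f → ExM N s := by
  induction h with
  | refl => exact fun s hs hf => h0.of_lk (lk_side h0.mem hs he hf)
  | tail _ hst ih =>
    obtain ⟨t, ht, h1, h2⟩ := hst
    intro s hs hf
    exact (ih t (hA t ht) h1).of_lk (lk_side (hA t ht) hs h2 hf)

/-! ### the big triangle -/

theorem om_re : om.re = -(1 / 2) := by rw [Oscx63.om_re]; norm_num

theorem om2_re : (om ^ 2).re = -(1 / 2) := by
  have h := one_add_om
  have h1 := congrArg Complex.re h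
  simp only [Complex.add_re, Complex.one_re, Complex.zero_re] at h1
  rw [om_re] at h1
  linarith

/-- a side of the big triangle on the other side of the centre -/
theorem far_side (v : ℂ) : ∃ i : ZMod 3, ∀ p : ℝ, 0 ≤ p → p ≤ 1 →
    1 / 2 ≤ ‖((1 - p : ℝ) : ℂ) * omz i + (p : ℂ) * omz (i + 1) - v‖ := by
  have h3 := om_pow_three
  have hn := norm_om
  -- three linear functions
  have key : ∀ (c : ℂ) (i : ZMod 3), ‖c‖ = 1 → (omz i * c).re = -(1 / 2) →
      (omz (i + 1) * c).re = -(1 / 2) → 0 ≤ (v * c).re → ∀ p : ℝ, 0 ≤ p → p ≤ 1 →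
      1 / 2 ≤ ‖((1 - p : ℝ) : ℂ) * omz i + (p : ℂ) * omz (i + 1) - v‖ := by
    intro c i hc h1 h2 h0 p _ _
    set w := ((1 - p : ℝ) : ℂ) * omz i + (p : ℂ) * omz (i + 1) with hw
    have e1 : (w * c).re = -(1 / 2) := by
      have : w * c = ((1 - p : ℝ) : ℂ) * (omz i * c) + (p : ℂ) * (omz (i + 1) * c) := by
        rw [hw]; ring
      rw [this, Complex.add_re, Complex.re_ofReal_mul, Complex.re_ofReal_mul, h1, h2]
      ring
    have e2 : ((w - v) * c).re ≤ -(1 / 2) := by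
      rw [sub_mul, Complex.sub_re, e1]
      linarith
    have e3 : ‖w - v‖ = ‖(w - v) * c‖ := by rw [norm_mul, hc, mul_one]
    rw [e3]
    have e4 := Complex.abs_re_le_norm ((w - v) * c)
    have e5 := neg_le_abs ((w - v) * c).re
    linarith
  have hz0 : omz 0 = 1 := pow_zero om
  have hz1 : omz 1 = om := pow_one om
  have hz2 : omz 2 = om ^ 2 := rfl
  have hn2 : ‖om ^ 2‖ = 1 := by rw [norm_pow, hn, one_pow]
  have hsum : (v * 1).re + (v * om ^ 2).re + (v * om).re = 0 := by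
    rw [← Complex.add_re, ← Complex.add_re, ← mul_add, ← mul_add]
    have : (1 : ℂ) + om ^ 2 + om = 0 := by rw [← one_add_om]; ring
    rw [this]; simp
  have h4 : om ^ 2 * om = 1 := by rw [← h3]; ring
  have h5 : om ^ 2 * om ^ 2 = om := by
    calc om ^ 2 * om ^ 2 = om ^ 3 * om := by ring
      _ = om := by rw [h3, one_mul]
  by_cases c0 : 0 ≤ (v * 1).re
  · -- the vertex `1`, the side `1`
    refine ⟨1, key 1 1 (by simp) ?_ ?_ c0⟩
    · rw [hz1, mul_one]; exact om_re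
    · rw [show (1 + 1 : ZMod 3) = 2 by decide, hz2, mul_one]; exact om2_re
  · by_cases c1 : 0 ≤ (v * om ^ 2).re
    · -- the vertex `om`, the side `2`
      refine ⟨2, key (om ^ 2) 2 hn2 ?_ ?_ c1⟩
      · rw [hz2, h5]; exact om_re
      · rw [show (2 + 1 : ZMod 3) = 0 by decide, hz0, one_mul]; exact om2_re
    · have c2 : 0 ≤ (v * om).re := by linarith
      refine ⟨0, key om 0 hn ?_ ?_ c2⟩
      · rw [hz0, one_mul]; exact om_re
      · rw [show (0 + 1 : ZMod 3) = 1 by decide, hz1]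
        have : om * om = om ^ 2 := by ring
        rw [this]; exact om2_re

/-! ### rays -/

/-- the sites whose Voronoi cell meets `R i` are on the side `i` -/
def Cls (D : Dom) (S : Finset ℂ) : Prop := ∀ i : ZMod 3, ∀ v ∈ S,
  (cell (S : Set ℂ) v ∩ D.R i).Nonempty → Side (D.netS S) i v

theorem continuous_pt (z : ℂ) (α : ℝ) : Continuous fun s : ℝ => pt z α s := by
  unfold pt
  fun_prop

theorem seg_preconnected (z : ℂ) (α r ρ : ℝ) : IsPreconnected (seg z α r ρ) :=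
  (isPreconnected_Icc).image _ (continuous_pt z α).continuousOn

variable {S : Finset ℂ} {D : Dom} {δ d : ℝ}

theorem hull_not (hS : Dns S D.c D.L d) {a b : ℂ} (ha : ‖a - D.c‖ < D.L - 2 * d) :
    ¬ hullE S a b ∧ ¬ hullE S b a :=
  ⟨fun h => by have := (DomBx722.hull_far hS h).1; linarith,
    fun h => by have := (DomBx722.hull_far hS h).2; linarith⟩

theorem exS_not (hN : HNet S (D.netS S)) (hS : Dns S D.c D.L d) {a b : ℂ}
    (ha : ‖a - D.c‖ < D.L - 2 * d) : (a, b) ∉ (D.netS S).exS ∧ (b, a) ∉ (D.netS S).exS := by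
  constructor
  · rintro ⟨k, hk⟩
    have := hN.hex k
    rw [hk] at this
    exact (hull_not hS ha).1 this
  · rintro ⟨k, hk⟩
    have := hN.hex k
    rw [hk] at this
    exact (hull_not hS ha).2 this

/-- killed edges of the network, away from the boundary of the big disc -/
theorem kl_of (hN : HNet S (D.netS S)) (hS : Dns S D.c D.L d) {a b : ℂ}
    (ha : ‖a - D.c‖ < D.L - 2 * d) (h : (a, b) ∈ D.kl S) :
    (a, b) ∈ (D.netS S).kl ∧ (b, a) ∈ (D.netS S).kl := by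
  have h1 : (a, b) ∈ (D.netS S).kl := by
    rw [DomAx722.netS_kl hS.gp]
    have hx := exS_not hN hS ha (b := b)
    refine ⟨h, fun k hk => hx.1 ⟨k, ?_⟩, fun k hk => hx.2 ⟨k, ?_⟩⟩
    · rw [DomAx722.netS_ex hS.gp]; exact hk
    · rw [DomAx722.netS_ex hS.gp]; exact hk
  exact ⟨h1, (D.netS S).klsym _ _ h1⟩

/-- the point of a sector: all sites near it are well inside the big disc -/
theorem hdir (hD : D.W δ) (hS : Dns S D.c D.L d) (hsm : 40000 * D.L ^ 5 * d ≤ δ ^ 6)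
    (hcls : Cls D S) {z : ℂ} {i : ZMod 3} {φ θ ρ m : ℝ} (hSec : Sector D z i φ θ ρ m)
    (hdm : 4 * d ≤ m) {r : ℝ} (hr : 0 < r) (hrρ : r ≤ ρ)
    (hex : ∀ t ∈ delT S, (cT t ∩ Metric.sphere z r).Nonempty → ExM (D.netS S) t ∧
      ∀ u v w, (u, v, w) ∈ rots t → (u, v) ∉ D.kl S)
    {U : Finset (ℂ × ℂ × ℂ)} (hUS : U ⊆ delT S)
    (hU : ∀ t ∈ delT S, (cT t ∩ Metric.closedBall z ρ).Nonempty → ∃ t' ∈ U, t' ∈ rots t)
    {α : ℝ} (hα : φ ≤ α) (hα' : α ≤ φ + θ)
    (hav : ∀ p ∈ S, p ≠ z → ∀ s : ℝ, 0 ≤ s → pt z α s ≠ p) :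
    ∃ e e' : ℂ × ℂ, Conn (D.netS S) (U.filter fun t => (cT t ∩ seg z α r ρ).Nonempty) e e' ∧
      LiveIn S (D.netS S) z r e ∧ ∃ p : ℝ, 0 ≤ p ∧ p ≤ 1 ∧
        (D.netS S).F e'.1 e'.2 = ((1 - p : ℝ) : ℂ) * omz i + (p : ℂ) * omz (i + 1) := by
  have hN := Adx422.d1_S hD hS hsm
  set N := D.netS S with hNdef
  have hgp := hS.gp
  have hd := hS.dpos
  have hL := hS.dL
  have hH := Ex2x922.hol_dns hS
  set W : Set ℂ := {w | ‖w - D.c‖ ≤ D.L - 2 * d} with hW
  have hinn := hSec.inn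
  have hm := hSec.mpos
  set C := seg z α r ρ with hC
  -- points of `C`
  have hCz : ∀ y ∈ C, ‖y - z‖ ≤ ρ ∧ r ≤ ‖y - z‖ := by
    rintro y ⟨s, hs, rfl⟩
    rw [pt_norm z α (hr.le.trans hs.1)]
    exact ⟨hs.2, hs.1⟩
  have hCc : ∀ y ∈ C, ‖y - D.c‖ ≤ D.L / 2 - m := by
    intro y hy
    have h1 := (hCz y hy).1
    have h2 : ‖y - D.c‖ ≤ ‖y - z‖ + ‖z - D.c‖ := by
      have := norm_add_le (y - z) (z - D.c)
      simpa using this
    linarith
  have hCW : ∀ y ∈ C, y ∈ W := by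
    intro y hy
    have := hCc y hy
    show ‖y - D.c‖ ≤ D.L - 2 * d
    linarith
  have hcov : ∀ x ∈ C, ∃ t ∈ delT S, x ∈ cT t := by
    intro x hx
    obtain ⟨a, b, c, h1, h2⟩ := Locx922.exists_tri_W hgp hd hH (hCW x hx)
    exact ⟨(a, b, c), h1, h2⟩
  have hCS : ∀ x ∈ C, x ∉ S := by
    rintro x hx hxS
    have h1 := (hCz x hx).2
    obtain ⟨s, hs, rfl⟩ := hx
    refine hav _ hxS ?_ s (hr.le.trans hs.1) rfl
    intro h2
    rw [h2, sub_self, norm_zero] at h1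
    linarith
  set A := U.filter fun t => (cT t ∩ C).Nonempty with hA
  have hAc : ∀ t ∈ delT S, (cT t ∩ C).Nonempty → ∃ t' ∈ A, t' ∈ rots t := by
    intro t ht hmt
    obtain ⟨t', h1, h2⟩ := hU t ht (by
      obtain ⟨y, hy1, hy2⟩ := hmt
      refine ⟨y, hy1, ?_⟩
      rw [mem_closedBall_iff_norm]
      exact (hCz y hy2).1)
    refine ⟨t', Finset.mem_filter.mpr ⟨h1, ?_⟩, h2⟩
    rw [cT_rots h2]
    exact hmt
  have hAT : ∀ t ∈ A, t ∈ N.T := by
    intro t ht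
    rw [hN.tri]
    exact hUS (Finset.mem_filter.mp ht).1
  -- the sites of a triangle which meets `C`
  have near : ∀ a b c : ℂ, (a, b, c) ∈ delT S → ∀ x ∈ C, x ∈ cT (a, b, c) →
      ∃ o, o ∈ cell (S : Set ℂ) a ∧ o ∈ cell (S : Set ℂ) b ∧ ‖o - x‖ < d ∧ ‖a - x‖ < 2 * d := by
    intro a b c ht x hx hxT
    obtain ⟨o', hT⟩ := mem_delT_iff.1 ht
    obtain ⟨o, h1, h2, h3, h4, h5, ga, gb, gc⟩ := Locx922.del_small hd hH (hCW x hx)
      (Locx922.InT.inD hT.pos hxT) (mem_delT.1 ht)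
    refine ⟨o, ?_, ?_, ?_, ga⟩
    · intro s hs
      rw [norm_sub_rev o a, norm_sub_rev o s]
      exact h3 s hs
    · intro s hs
      rw [norm_sub_rev o b, norm_sub_rev o s, h1]
      exact h3 s hs
    · rw [norm_sub_rev]
      linarith
  have nearL : ∀ a x : ℂ, x ∈ C → ‖a - x‖ < 2 * d → ‖a - D.c‖ < D.L - 2 * d := by
    intro a x hx ha
    have h1 := hCc x hx
    have h2 : ‖a - D.c‖ ≤ ‖a - x‖ + ‖x - D.c‖ := by
      have := norm_add_le (a - x) (x - D.c)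
      simpa using this
    linarith
  -- the start
  have hy0 : pt z α r ∈ C := ⟨r, ⟨le_rfl, hrρ⟩, rfl⟩
  obtain ⟨t0, ht0, hyt0⟩ := hcov _ hy0
  have hm0 : (cT t0 ∩ C).Nonempty := ⟨_, hyt0, hy0⟩
  obtain ⟨hex0, hlive0⟩ := hex t0 ht0 ⟨_, hyt0, by
    rw [mem_sphere_iff_norm]; exact pt_norm z α hr.le⟩
  have he0 : LSide N t0 (t0.1, t0.2.1) := by
    refine ⟨fun h => hlive0 t0.1 t0.2.1 t0.2.2 (mem_rots_self t0) ?_, Or.inl rfl⟩
    rw [hNdef, DomAx722.netS_kl hgp] at h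
    exact h.1
  rcases conn_alt (N := N) hgp (seg_preconnected z α r ρ) hcov hCS hAc ht0 hm0 he0 with h | h
  · obtain ⟨s, hs, ⟨x, hxs, hx⟩, ⟨f, hf⟩, hconn, u, v, w, huvw, hkl, -⟩ := h
    -- the killed side
    have hs' : (u, v, w) ∈ delT S := delT_rots hgp huvw hs
    have hxs' : x ∈ cT (u, v, w) := by rw [cT_rots huvw]; exact hxs
    obtain ⟨o, -, -, -, hux⟩ := near u v w hs' x hx hxs'
    have hvwu : (v, w, u) ∈ delT S := JColx54.delT_rot hgp hs'
    have hxv : x ∈ cT (v, w, u) := InT.rot hxs'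
    obtain ⟨o', -, -, -, hvx⟩ := near v w u hvwu x hx hxv
    have huL := nearL u x hx hux
    have hvL := nearL v x hx hvx
    obtain ⟨o1, hT⟩ := mem_delT_iff.1 hs'
    have hklD : (u, v) ∈ D.kl S := by
      rw [hNdef, DomAx722.netS_kl hgp] at hkl
      exact hkl.1
    obtain ⟨y, hy, hyo⟩ := hklD
    obtain ⟨j, hj⟩ := Set.mem_iUnion.1 hyo
    have hyu := (Locx922.vedge_sub_ball hd hH (show u ∈ W from huL.le) hy).1
    have hji : j = i := by
      by_contra hne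
      have hx' := hx
      obtain ⟨s', hs'', hxe⟩ := hx'
      have h1 := hSec.miss α ⟨hα, hα'⟩ s' ⟨hr.le.trans hs''.1, hs''.2⟩ j hne
      refine Set.disjoint_left.1 h1 ?_ hj
      rw [mem_ball_iff_norm]
      have h2 : z + s' * Complex.exp (α * Complex.I) = x := hxe
      rw [h2]
      have h3 : ‖y - x‖ ≤ ‖y - u‖ + ‖u - x‖ := by
        have := norm_add_le (y - u) (u - x)
        simpa using this
      linarith
    rw [hji] at hj
    have hu : Side N i u := hcls i u hT.ma ⟨y, DomBx722.vedge_sub_left _ _ _ hy, hj⟩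
    have hv : Side N i v := hcls i v hT.mb ⟨y, DomBx722.vedge_sub_right _ _ _ hy, hj⟩
    -- the live side
    have hf' : LSide N (u, v, w) f := (LSide_rots huvw).2 hf
    have hfc := hconn f hf
    have hexs : ExM N (u, v, w) := Exx395.exM_rot
      (exM_conn hAT hex0 he0 hfc s (by rw [hN.tri]; exact hs) hf) huvw
    have hg := J1x872.good_of_hnet hN
    have e1 : ExM N (v, w, u) := Exx395.exM_rot hexs (by simp [rots])
    have e2 : ExM N (w, u, v) := Exx395.exM_rot hexs (by simp [rots])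
    have xv := fun b => exS_not hN hS hvL (b := b)
    have xu := fun b => exS_not hN hS huL (b := b)
    have pos_of : ∀ a b : ℂ, 0 < (N.hj a b).card + (N.hj b a).card →
        (N.hj a b).Nonempty ∨ (N.hj b a).Nonempty := by
      intro a b h
      rcases Nat.eq_zero_or_pos (N.hj a b).card with h1 | h1
      · right
        exact Finset.card_pos.1 (by omega)
      · left
        exact Finset.card_pos.1 h1
    have fin : ∀ a b : ℂ, (a, b) ∉ N.exS → (b, a) ∉ N.exS → (Side N i a ∨ Side N i b) →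
        0 < (N.hj a b).card + (N.hj b a).card → ∃ p : ℝ, 0 ≤ p ∧ p ≤ 1 ∧
        N.F a b = ((1 - p : ℝ) : ℂ) * omz i + (p : ℂ) * omz (i + 1) := by
      intro a b h1 h2 h3 h4
      have h5 := Sidesx697.F_side hN h1 h2 h3 (pos_of a b h4)
      exact ⟨_, h5.1, h5.2.1, h5.2.2⟩
    refine ⟨(t0.1, t0.2.1), f, hfc, ⟨t0, ht0, ⟨_, hyt0, ?_⟩, he0⟩, ?_⟩
    · rw [mem_closedBall_iff_norm, pt_norm z α hr.le]
    obtain ⟨hfk, hf'⟩ := hf'
    simp only at hf'
    rcases hf' with rfl | rfl | rfl | rfl | rfl | rfl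
    · exact absurd hkl hfk
    · exact fin v w (xv w).1 (xv w).2 (Or.inl hv)
        (Exx395.hj_pos hg e1 hfk (xv w).1)
    · exact fin w u (xu w).2 (xu w).1 (Or.inr hu)
        (Exx395.hj_pos hg e2 hfk (xu w).2)
    · exact absurd (N.klsym _ _ hkl) hfk
    · refine fin w v (xv w).2 (xv w).1 (Or.inr hv) ?_
      rw [add_comm]
      exact Exx395.hj_pos hg e1 (fun h => hfk (N.klsym _ _ h)) (xv w).1
    · refine fin u w (xu w).1 (xu w).2 (Or.inl hu) ?_
      rw [add_comm]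
      exact Exx395.hj_pos hg e2 (fun h => hfk (N.klsym _ _ h)) (xu w).2
  · -- the triangle at the end is dead
    exfalso
    have hy1 : pt z α ρ ∈ C := ⟨ρ, ⟨hrρ, le_rfl⟩, rfl⟩
    obtain ⟨t1, ht1, hyt1⟩ := hcov _ hy1
    obtain ⟨⟨f, hf⟩, -⟩ := h t1 ht1 ⟨_, hyt1, hy1⟩
    obtain ⟨a, b, c⟩ := t1
    have hbc := JColx54.delT_rot hgp ht1
    have hca := JColx54.delT_rot hgp hbc
    have hball := hSec.hit α ⟨hα, hα'⟩
    have dead : ∀ a b c : ℂ, (a, b, c) ∈ delT S → pt z α ρ ∈ cT (a, b, c) →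
        (a, b) ∈ N.kl ∧ (b, a) ∈ N.kl := by
      intro a b c ht hp
      obtain ⟨o, ho1, ho2, ho3, ho4⟩ := near a b c ht _ hy1 hp
      obtain ⟨o', hT⟩ := mem_delT_iff.1 ht
      refine kl_of hN hS (nearL a _ hy1 ho4) ⟨o, ?_, ?_⟩
      · rw [DomBx722.vedge_eq (Finset.mem_coe.2 hT.ma) (Finset.mem_coe.2 hT.mb)]
        exact ⟨ho1, ho2⟩
      · refine Set.mem_iUnion.2 ⟨i, hball ?_⟩
        rw [mem_ball_iff_norm]
        have : z + ρ * Complex.exp (α * Complex.I) = pt z α ρ := rfl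
        rw [this]
        linarith
    have d1 := dead a b c ht1 hyt1
    have d2 := dead b c a hbc (InT.rot hyt1)
    have d3 := dead c a b hca (InT.rot (InT.rot hyt1))
    obtain ⟨hfk, hf⟩ := hf
    simp only at hf
    rcases hf with rfl | rfl | rfl | rfl | rfl | rfl
    · exact hfk d1.1
    · exact hfk d2.1
    · exact hfk d3.1
    · exact hfk d1.2
    · exact hfk d2.2
    · exact hfk d3.2

/-- **T6 for domains** -/
theorem T6D (hD : D.W δ) (hS : Dns S D.c D.L d) (hsm : 40000 * D.L ^ 5 * d ≤ δ ^ 6)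
    (hcls : Cls D S) {z : ℂ} {θ ρ m : ℝ} (hSec : ∀ i : ZMod 3, ∃ φ : ℝ, Sector D z i φ θ ρ m)
    (hdm : 4 * d ≤ m) {r C : ℝ} {k1 k2 : ℤ} (hr : 0 < r) (hrρ : r ≤ ρ) (hrd : 12800 * d ≤ θ * r)
    (hk1 : (2 : ℝ) ^ k1 ≤ r) (hk2 : ρ ≤ (2 : ℝ) ^ k2) (hC : 0 ≤ C)
    (m4 : ∀ k ∈ Finset.Icc k1 (k2 + 1),
      ∑ t ∈ (delT S).filter (fun t => (cT t ∩ Metric.closedBall z ρ).Nonempty ∧
        lo z t ≤ (2 : ℝ) ^ (k + 1) ∧ (2 : ℝ) ^ k ≤ hi z t), dm t ^ 2 ≤ C * (4 : ℝ) ^ k)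
    (hex : ∀ t ∈ delT S, (cT t ∩ Metric.sphere z r).Nonempty → ExM (D.netS S) t ∧
      ∀ u v w, (u, v, w) ∈ rots t → (u, v) ∉ D.kl S)
    (hDis : ∀ U ⊆ delT S, (∀ s ∈ U, ∀ t ∈ U, s ≠ t → t ∉ rots s) →
      Dis U (hcen (D.netS S)) (D.netS S).Q) (e0 : ℂ × ℂ) :
    ∃ e, LiveIn S (D.netS S) z r e ∧
      1 / 4 * Real.exp (-(1 + 73728 * C * ((k2 - k1 + 2 : ℤ) : ℝ) / θ ^ 2)) ≤
        ‖(D.netS S).F e.1 e.2 - (D.netS S).F e0.1 e0.2‖ := by
  have hN := Adx422.d1_S hD hS hsm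
  set N := D.netS S with hNdef
  have hgp := hS.gp
  have hd := hS.dpos
  have hL := hS.dL
  have hH := Ex2x922.hol_dns hS
  by_contra hcon
  push Not at hcon
  set β := 1 / 4 * Real.exp (-(1 + 73728 * C * ((k2 - k1 + 2 : ℤ) : ℝ) / θ ^ 2)) with hβ
  have hβ0 : 0 < β := by rw [hβ]; positivity
  obtain ⟨i, hfar⟩ := far_side (N.F e0.1 e0.2)
  obtain ⟨φ, hSi⟩ := hSec i
  have hθ := hSi.θpos
  have hm := hSi.mpos
  have hinn := hSi.inn
  -- the triangles which meet the ball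
  set A := (delT S).filter fun t => (cT t ∩ Metric.closedBall z ρ).Nonempty with hA
  obtain ⟨U, hUA, hrep, hcovU⟩ := reps A
  have hUS : U ⊆ delT S := hUA.trans (Finset.filter_subset _ _)
  have hU : ∀ t ∈ delT S, (cT t ∩ Metric.closedBall z ρ).Nonempty → ∃ t' ∈ U, t' ∈ rots t :=
    fun t ht hmt => hcovU t (Finset.mem_filter.mpr ⟨ht, hmt⟩)
  -- the triangles are small and have no mark
  have small : ∀ t ∈ delT S, (cT t ∩ Metric.closedBall z ρ).Nonempty →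
      dm t ≤ 2 * d ∧ ‖t.1 - D.c‖ < D.L - 2 * d ∧ ‖t.2.1 - D.c‖ < D.L - 2 * d ∧
        ‖t.2.2 - D.c‖ < D.L - 2 * d := by
    rintro ⟨a, b, c⟩ ht ⟨x, hxT, hx⟩
    rw [mem_closedBall_iff_norm] at hx
    have hxc : ‖x - D.c‖ ≤ D.L / 2 - m := by
      have := norm_add_le (x - z) (z - D.c)
      rw [sub_add_sub_cancel] at this
      linarith
    obtain ⟨o', hT⟩ := mem_delT_iff.1 ht
    obtain ⟨o, h1, h2, h3, h4, h5, ga, gb, gc⟩ := Locx922.del_small hd hH
      (show x ∈ {w | ‖w - D.c‖ ≤ D.L - 2 * d} by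
        show ‖x - D.c‖ ≤ D.L - 2 * d
        linarith) (Locx922.InT.inD hT.pos hxT) (mem_delT.1 ht)
    refine ⟨?_, ?_, ?_, ?_⟩
    · have h6 := EQ4x63.dm_le (a := a) (b := b) (c := c) (o := o) (r := d) h5.le
        (h1.trans_le h5.le) (h2.trans_le h5.le)
      exact h6
    · show ‖a - D.c‖ < D.L - 2 * d
      have := norm_add_le (a - x) (x - D.c)
      rw [sub_add_sub_cancel] at this
      linarith
    · show ‖b - D.c‖ < D.L - 2 * d
      have := norm_add_le (b - x) (x - D.c)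
      rw [sub_add_sub_cancel] at this
      linarith
    · show ‖c - D.c‖ < D.L - 2 * d
      have := norm_add_le (c - x) (x - D.c)
      rw [sub_add_sub_cancel] at this
      linarith
  have hUm : ∀ t ∈ U, (cT t ∩ Metric.closedBall z ρ).Nonempty := fun t ht =>
    (Finset.mem_filter.mp (hUA ht)).2
  have hR : ∀ t ∈ U, RelAt N t := by
    intro t ht
    obtain ⟨-, h1, h2, h3⟩ := small t (hUS ht) (hUm t ht)
    exact Rel2x63.relAt hN (hUS ht) (Or.inr ⟨(exS_not hN hS h1).1, (exS_not hN hS h2).1,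
      (exS_not hN hS h3).1⟩)
  have m4' : ∀ k ∈ Finset.Icc k1 (k2 + 1),
      ∑ t ∈ U.filter (fun t => lo z t ≤ (2 : ℝ) ^ (k + 1) ∧ (2 : ℝ) ^ k ≤ hi z t),
        dm t ^ 2 ≤ C * (4 : ℝ) ^ k := by
    intro k hk
    refine le_trans (Finset.sum_le_sum_of_subset_of_nonneg ?_ fun t _ _ => sq_nonneg _) (m4 k hk)
    intro t ht
    obtain ⟨h1, h2⟩ := Finset.mem_filter.mp ht
    exact Finset.mem_filter.mpr ⟨hUS h1, hUm t h1, h2⟩
  have key := T6 hN z hθ hSi.θle hr (d := 2 * d) (by linarith) hrρ hk1 hk2 hC U hUS m4' hR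
    (hDis U hUS hrep) (fun t ht _ => (small t (hUS ht) (hUm t ht)).1) (N.F e0.1 e0.2) hβ0
    (φ := φ) (by
      intro α hα hα' hav
      obtain ⟨e, e', h1, h2, p, hp0, hp1, hp⟩ := hdir hD hS hsm hcls hSi hdm hr hrρ hex hUS hU
        hα hα' hav
      refine ⟨e, e', h1, (hcon e h2).le, ?_⟩
      rw [hp]
      exact hfar p hp0 hp1)
  rw [hβ] at key
  have := Real.exp_pos (-(1 + 73728 * C * ((k2 - k1 + 2 : ℤ) : ℝ) / θ ^ 2))
  linarith

/-- the triangles which meet a circle around a point with room which is linked to the marks -/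
theorem hex_of (hD : D.W δ) (hS : Dns S D.c D.L d) (hsm : 40000 * D.L ^ 5 * d ≤ δ ^ 6)
    {z : ℂ} {R η r : ℝ} (hR : Spinex422.Room D R z) (hl : Spinex422.Linked D η z) (hη : 3 * d ≤ η)
    (hr : 0 ≤ r) (hrR : r + 3 * d ≤ R) : ∀ t ∈ delT S, (cT t ∩ Metric.sphere z r).Nonempty →
      ExM (D.netS S) t ∧ ∀ u v w, (u, v, w) ∈ rots t → (u, v) ∉ D.kl S := by
  intro t ht hm
  obtain ⟨C, hC1, hC2, hC3, hC4, hC5⟩ := hl
  have hd := hS.dpos
  have hzB : z ∈ Metric.closedBall z r := Metric.mem_closedBall_self hr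
  refine Ex2x922.exm_of_linkedW hD hS hsm le_rfl (C := C ∪ Metric.closedBall z r)
    (hC1.union z hC2 hzB (convex_closedBall z r).isPreconnected) ?_ (fun k => Or.inl (hC4 k)) ?_
    ht (hm.mono (Set.inter_subset_inter_right _
      (Metric.sphere_subset_closedBall.trans Set.subset_union_right)))
  · intro y hy
    rcases hy with hy | hy
    · have := hC3 hy
      rwa [mem_closedBall_iff_norm] at this
    · have h1 : y ∈ Metric.closedBall z R := Metric.closedBall_subset_closedBall (by linarith) hy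
      have h2 := hR.2 h1
      rw [mem_closedBall_iff_norm] at h2
      have := hD.Lpos
      linarith
  · intro y hy x hx hxo
    rcases hy with hy | hy
    · refine Set.disjoint_left.1 (hC5 y hy) ?_ hxo
      rw [mem_ball_iff_norm]
      linarith
    · refine Set.disjoint_left.1 hR.1 ?_ hxo
      rw [mem_closedBall_iff_norm] at hy ⊢
      have := norm_add_le (x - y) (y - z)
      rw [sub_add_sub_cancel] at this
      linarith

/-- **T6 for the sample** -/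
theorem T6EW {ε M : ℝ} {ω : Sample} (hD : D.W δ) (hE : Env ε d M D.c D.L ω)
    (hsm : 40000 * D.L ^ 5 * d ≤ δ ^ 6) (hcls : Cls D (D.sites ε ω)) {z : ℂ} {R η θ ρ m : ℝ}
    (hRoom : Spinex422.Room D R z) (hl : Spinex422.Linked D η z) (hη : 3 * d ≤ η)
    (hSec : ∀ i : ZMod 3, ∃ φ : ℝ, Sector D z i φ θ ρ m)
    (hdm : 4 * d ≤ m) {r C : ℝ} {k1 k2 : ℤ} (hr : 0 < r) (hrR : r + 3 * d ≤ R) (hrρ : r ≤ ρ)
    (hrd : 12800 * d ≤ θ * r)
    (hk1 : (2 : ℝ) ^ k1 ≤ r) (hk2 : ρ ≤ (2 : ℝ) ^ k2) (hC : 0 ≤ C)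
    (m4 : ∀ k ∈ Finset.Icc k1 (k2 + 1),
      ∑ t ∈ (delT (D.sites ε ω)).filter (fun t => (cT t ∩ Metric.closedBall z ρ).Nonempty ∧
        lo z t ≤ (2 : ℝ) ^ (k + 1) ∧ (2 : ℝ) ^ k ≤ hi z t), dm t ^ 2 ≤ C * (4 : ℝ) ^ k)
    (hDis : ∀ U ⊆ delT (D.sites ε ω), (∀ s ∈ U, ∀ t ∈ U, s ≠ t → t ∉ rots s) →
      Dis U (hcen (D.netS (D.sites ε ω))) (D.netS (D.sites ε ω)).Q) (e0 : ℂ × ℂ) :
    ∃ e, LiveIn (D.sites ε ω) (D.netS (D.sites ε ω)) z r e ∧
      1 / 4 * Real.exp (-(1 + 73728 * C * ((k2 - k1 + 2 : ℤ) : ℝ) / θ ^ 2)) ≤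
        ‖(D.netS (D.sites ε ω)).F e.1 e.2 - (D.netS (D.sites ε ω)).F e0.1 e0.2‖ := by
  have hS := DomAx722.dns_of_env hD.Lpos
    (DomAx722.small_d hD.Lpos hD.dpos hD.lt.le hsm) hE
  exact T6D hD hS hsm hcls hSec hdm hr hrρ hrd hk1 hk2 hC m4
    (hex_of hD hS hsm hRoom hl hη hr.le hrR) hDis e0

/-- the same for `D.OK` -/
theorem T6E {ε M : ℝ} {ω : Sample} (hD : D.OK δ) (hE : Env ε d M D.c D.L ω)
    (hsm : 40000 * D.L ^ 5 * d ≤ δ ^ 6) (hcls : Cls D (D.sites ε ω)) {z : ℂ} {R η θ ρ m : ℝ}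
    (hRoom : Spinex422.Room D R z) (hl : Spinex422.Linked D η z) (hη : 3 * d ≤ η)
    (hSec : ∀ i : ZMod 3, ∃ φ : ℝ, Sector D z i φ θ ρ m)
    (hdm : 4 * d ≤ m) {r C : ℝ} {k1 k2 : ℤ} (hr : 0 < r) (hrR : r + 3 * d ≤ R) (hrρ : r ≤ ρ)
    (hrd : 12800 * d ≤ θ * r)
    (hk1 : (2 : ℝ) ^ k1 ≤ r) (hk2 : ρ ≤ (2 : ℝ) ^ k2) (hC : 0 ≤ C)
    (m4 : ∀ k ∈ Finset.Icc k1 (k2 + 1),
      ∑ t ∈ (delT (D.sites ε ω)).filter (fun t => (cT t ∩ Metric.closedBall z ρ).Nonempty ∧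
        lo z t ≤ (2 : ℝ) ^ (k + 1) ∧ (2 : ℝ) ^ k ≤ hi z t), dm t ^ 2 ≤ C * (4 : ℝ) ^ k)
    (hDis : ∀ U ⊆ delT (D.sites ε ω), (∀ s ∈ U, ∀ t ∈ U, s ≠ t → t ∉ rots s) →
      Dis U (hcen (D.netS (D.sites ε ω))) (D.netS (D.sites ε ω)).Q) (e0 : ℂ × ℂ) :
    ∃ e, LiveIn (D.sites ε ω) (D.netS (D.sites ε ω)) z r e ∧
      1 / 4 * Real.exp (-(1 + 73728 * C * ((k2 - k1 + 2 : ℤ) : ℝ) / θ ^ 2)) ≤
        ‖(D.netS (D.sites ε ω)).F e.1 e.2 - (D.netS (D.sites ε ω)).F e0.1 e0.2‖ :=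
  T6EW hD.w hE hsm hcls hRoom hl hη hSec hdm hr hrR hrρ hrd hk1 hk2 hC m4 hDis e0

end Crest.Agent.R143.T6Dx697
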