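import Crest.Agent.R143.Tiling_395
import Crest.Agent.R143.Ex_395

/-!
# Row 143 (S0194), leaves T1, T2 with pockets (helper395)

A live edge can be cut off from the marks by killed edges (no joins, `F = 0 / 0 = 0`). The
description of the boundary `Sides2` asks the values of `F` only at edges with joins.

* `ends_lk`, `Q_exM` : `N.Q t ≠ 0` implies that `t` is joined to the three marks (`ExM N t`).
* `til2`, `dis2` (**T1**), `tri_sub2`, `energy2` (**T2**, `≤ 12`), `energy_rep2` (`≤ 4`).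
* `sides2_of` : `Sides2` from the sides of `Sides_697` : every killed edge is on a side, the sides
  are disjoint.
-/

set_option autoImplicit false

noncomputable section

namespace Crest.Agent.R143.Tiling2x395

open Set MeasureTheory
open scoped Classical
open Crest.Agent.R143.B0x346 Crest.Agent.R143.Oscx63 Crest.Agent.R143.Rswx63
open Crest.Agent.R143.Energyx395 Crest.Agent.R143.Tilingx395 Crest.Agent.R143.Ex0x922
open Crest.Agent.R143.Exx395 Crest.Agent.R143.JCardx872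

/-! ### legs and chains -/

section legs

variable {V : Type} {N : Net V}

theorem leads_lk (hg : J1x872.Good N) {O : Set (V × V × V)} {J : Finset (V × V)}
    (hJ : IsJoin N.toTrg N.kl O N.exS J) {t : V × V × V} {p : V × V}
    (hp : ∃ c, (p.2, p.1, c) ∈ N.T ∧ Lk N t (p.2, p.1, c)) (hpJ : (p.2, p.1) ∈ J) {q : V × V}
    (h : Leads N.toTrg O N.exS J p q) :
    (∃ c, (q.2, q.1, c) ∈ N.T ∧ Lk N t (q.2, q.1, c)) ∧ (q.2, q.1) ∈ J := by
  induction h with
  | refl => exact ⟨hp, hpJ⟩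
  | @tail q r _ hs ih =>
    obtain ⟨⟨c, hc, hl⟩, hqJ⟩ := ih
    obtain ⟨c', hc', -, hD, hr⟩ := hs
    have hD' : (q.1, q.2) ∉ N.exS := by
      rintro ⟨k, hk⟩
      apply hg.bd k c
      rw [hk]
      exact hc
    have hlive : (q.2, q.1) ∉ N.kl := fun hk => (hJ.kill _ _ hk hD hD').1 hqJ
    have hl' : Lk N t (q.1, q.2, c') := hl.trans (lk_edge hc hc' hlive)
    rcases hr with ⟨h1, rfl⟩ | ⟨h1, -, rfl⟩
    · exact ⟨⟨q.1, N.rot hc', hl'.trans (Lk.of_rots (by simp [rots]))⟩, h1⟩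
    · exact ⟨⟨q.2, N.rot (N.rot hc'), hl'.trans (Lk.of_rots (by simp [rots]))⟩, h1⟩

theorem ends_lk (hg : J1x872.Good N) {O : Set (V × V × V)} {J : Finset (V × V)}
    (hJ : IsJoin N.toTrg N.kl O N.exS J) {a b c : V} (ht : (a, b, c) ∈ N.T) (hab : (a, b) ∈ J)
    {j : ZMod 3} (h : Ends N.toTrg O N.exS J (b, a) (N.ex j)) :
    ∃ c', ((N.ex j).1, (N.ex j).2, c') ∈ N.T ∧ Lk N (a, b, c) ((N.ex j).1, (N.ex j).2, c') :=
  (leads_lk hg hJ (t := (a, b, c)) (p := (b, a)) ⟨c, ht, Lk.refl _⟩ hab h).1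

/-- a triangle with nonzero amplitude is joined to the marks -/
theorem Q_exM (hg : J1x872.Good N) {t : V × V × V} (ht : t ∈ N.T) (hq : N.Q t ≠ 0) :
    ExM N t := by
  obtain ⟨k, J, hJ, hT⟩ : ∃ k, ∃ J ∈ N.tj t, N.Tri3 t k J := by
    by_contra hc
    push Not at hc
    apply hq
    unfold Net.Q
    apply Finset.sum_eq_zero
    intro k _
    unfold Net.triA
    rw [Finset.filter_eq_empty_iff.mpr fun J hJ => hc k J hJ]
    simp
  obtain ⟨a, b, c⟩ := t
  have hJ' := mem_joins.1 hJ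
  obtain ⟨h1, h2, h3, e1, e2, e3⟩ := hT
  simp only at h1 h2 h3 e1 e2 e3
  have r1 := N.rot ht
  have r2 := N.rot r1
  have l1 := ends_lk hg hJ' ht h1 e1
  have l2 := ends_lk hg hJ' r1 h2 e2
  have l3 := ends_lk hg hJ' r2 h3 e3
  have t2 : Lk N (a, b, c) (b, c, a) := Lk.of_rots (by simp [rots])
  have t3 : Lk N (a, b, c) (c, a, b) := Lk.of_rots (by simp [rots])
  have key : ∀ k j : ZMod 3, j = 0 + k ∨ j = 1 + k ∨ j = 2 + k := by decide
  refine ⟨ht, fun j => ?_⟩
  rcases key k j with rfl | rfl | rfl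
  · exact l1
  · obtain ⟨x, hx, hl⟩ := l2
    exact ⟨x, hx, t2.trans hl⟩
  · obtain ⟨x, hx, hl⟩ := l3
    exact ⟨x, hx, t3.trans hl⟩

end legs

/-! ### edges with joins -/

/-- there are joins at the edge `{a, b}` -/
def Jn (N : Net ℂ) (a b : ℂ) : Prop :=
  (a, b) ∈ N.exS ∨ (b, a) ∈ N.exS ∨ 0 < (N.hj a b).card + (N.hj b a).card

/-- live edge with joins -/
def ML (N : Net ℂ) (a b : ℂ) : Prop := LV N a b ∧ Jn N a b

/-- the description of the boundary (leaf P2), values only at edges with joins -/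
structure Sides2 (N : Net ℂ) (inn : ℂ → Prop) (arc : ℂ → ZMod 3) : Prop where
  /-- inner vertices: complete ring of live edges -/
  ring : ∀ v, inn v → ∃ (d : ℕ) (u : ℤ → ℂ), Ring N.toTrg v d u ∧ (∀ i, (v, u i) ∉ N.kl) ∧
    ∀ x y, (v, x, y) ∈ N.T → ∃ i : ℤ, x = u i ∧ y = u (i + 1)
  /-- an edge which is not live joins two vertices of the same arc -/
  dead : ∀ a b c, (a, b, c) ∈ N.T → ¬ LV N a b → ¬ inn a ∧ ¬ inn b ∧ arc a = arc b
  /-- values on the sides, only where there are joins -/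
  side : ∀ a b, ¬ inn a → LV N a b → ((∃ c, (a, b, c) ∈ N.T) ∨ ∃ c, (b, a, c) ∈ N.T) →
    (a, b) ∉ N.exS → (b, a) ∉ N.exS → 0 < (N.hj a b).card + (N.hj b a).card →
    N.F a b ∈ segment ℝ (omz (arc a)) (omz (arc a + 1))
  m1 : ∀ k, ¬ inn (N.ex k).1 ∧ arc (N.ex k).1 = k - 1
  m2 : ∀ k, ¬ inn (N.ex k).2 ∧ arc (N.ex k).2 = k

/-- `Sides` implies `Sides2` -/
theorem Sides2.of {N : Net ℂ} {inn : ℂ → Prop} {arc : ℂ → ZMod 3} (h : Sides N inn arc) :
    Sides2 N inn arc :=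
  ⟨h.ring, h.dead, fun a b h1 h2 h3 _ _ _ => h.side a b h1 h2 h3, h.m1, h.m2⟩

theorem Jn.symm {N : Net ℂ} {a b : ℂ} (h : Jn N a b) : Jn N b a := by
  rcases h with h | h | h
  · exact Or.inr (Or.inl h)
  · exact Or.inl h
  · exact Or.inr (Or.inr (by omega))

theorem ML.symm {N : Net ℂ} {a b : ℂ} (h : ML N a b) : ML N b a := ⟨h.1.symm, h.2.symm⟩

section net

variable {S : Finset ℂ} {N : Net ℂ} {inn : ℂ → Prop} {arc : ℂ → ZMod 3}

theorem not_sw {a b c : ℂ} (hN : HNet S N) (ht : (a, b, c) ∈ N.T) : (b, a) ∉ N.exS := by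
  rintro ⟨k, e⟩
  apply (J1x872.good_of_hnet hN).bd k c
  rw [e]
  exact ht

/-- joins with the odd triangle `t` exist if there are joins at a side -/
theorem tj_of_ML (hN : HNet S N) (hM : ∃ t, ExM N t) {a b c : ℂ} (ht : (a, b, c) ∈ N.T)
    (h : ML N a b) : (N.tj (a, b, c)).Nonempty := by
  have hg := J1x872.good_of_hnet hN
  by_cases hm : (a, b) ∈ N.exS
  · obtain ⟨k, hk⟩ := hm
    obtain ⟨t, hE⟩ := hM
    obtain ⟨x, hx, hl⟩ := hE.lk k
    rw [hk] at hx hl
    have hxc := N.uniq ht hx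
    rw [← hxc] at hl
    exact tj_ne hg (hE.of_lk hl)
  · have hm' := not_sw hN ht
    have h1 : 0 < (N.hj a b).card + (N.hj b a).card := by
      rcases h.2 with h | h | h
      · exact absurd h hm
      · exact absurd h hm'
      · exact h
    have := card_half (G := N.toTrg) (kl := N.kl) (D := N.exS) ht h.1.1
      (fun h' => h.1.1 (N.klsym _ _ h')) hm hm'
    unfold Net.hj at h1
    rw [this] at h1
    exact Finset.card_pos.1 h1

theorem ML_of_tj (hN : HNet S N) {a b c : ℂ} (ht : (a, b, c) ∈ N.T)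
    (hne : (N.tj (a, b, c)).Nonempty) (h : LV N a b) : ML N a b := by
  refine ⟨h, ?_⟩
  by_cases hm : (a, b) ∈ N.exS
  · exact Or.inl hm
  · have hm' := not_sw hN ht
    have := card_half (G := N.toTrg) (kl := N.kl) (D := N.exS) ht h.1
      (fun h' => h.1 (N.klsym _ _ h')) hm hm'
    right; right
    unfold Net.hj
    rw [this]
    exact Finset.card_pos.2 hne

theorem tj_rot' {a b c : ℂ} (h : (N.tj (a, b, c)).Nonempty) : (N.tj (b, c, a)).Nonempty := by
  rw [J1x872.tj_rot]; exact h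

theorem tj_rot_iff {a b c : ℂ} : (N.tj (a, b, c)).Nonempty ↔ (N.tj (b, c, a)).Nonempty :=
  ⟨tj_rot', fun h => tj_rot' (tj_rot' h)⟩

/-- nonzero amplitude: three live sides with joins -/
theorem live_of_Q (hN : HNet S N) {t : ℂ × ℂ × ℂ} (ht : t ∈ N.T) (hq : N.Q t ≠ 0) :
    LiveT (ML N) t := by
  have hl : LiveT (LV N) t := by
    by_contra h
    exact hq (Q_zero' hN ht h)
  have hne := tj_ne (J1x872.good_of_hnet hN) (Q_exM (J1x872.good_of_hnet hN) ht hq)
  obtain ⟨a, b, c⟩ := t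
  exact ⟨ML_of_tj hN ht hne hl.1, ML_of_tj hN (N.rot ht) (tj_rot' hne) hl.2.1,
    ML_of_tj hN (N.rot (N.rot ht)) (tj_rot' (tj_rot' hne)) hl.2.2⟩

theorem relAt_tj (hN : HNet S N) {t : ℂ × ℂ × ℂ} (ht : t ∈ N.T) (hne : (N.tj t).Nonempty) :
    RelAt N t := Rel2x63.relAt hN (by rw [← hN.tri]; exact ht) (Or.inl hne)

/-- the inner vertices with joins -/
def inn2 (N : Net ℂ) (inn : ℂ → Prop) (v : ℂ) : Prop := inn v ∧ ∃ x, ML N v x

theorem ring_ML (hN : HNet S N) (hM : ∃ t, ExM N t) {v : ℂ} {d : ℕ} {u : ℤ → ℂ}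
    (hR : Ring N.toTrg v d u) (hk : ∀ i, (v, u i) ∉ N.kl)
    (hc : ∀ x y, (v, x, y) ∈ N.T → ∃ i : ℤ, x = u i ∧ y = u (i + 1)) (hx : ∃ x, ML N v x)
    (i : ℤ) : ML N v (u i) := by
  have hLV : ∀ i, LV N v (u i) := by
    intro i
    refine ⟨hk i, Or.inl ⟨⟨_, hR.mem i⟩, ?_⟩⟩
    have h1 := hR.mem (i - 1)
    rw [sub_add_cancel] at h1
    exact ⟨_, N.rot (N.rot h1)⟩
  obtain ⟨x, hx⟩ := hx
  obtain ⟨j, rfl⟩ : ∃ j : ℤ, x = u j := by
    rcases hx.1.2 with ⟨⟨c, hc1⟩, -⟩ | ⟨k, hk⟩ | ⟨k, hk⟩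
    · obtain ⟨i, h1, -⟩ := hc _ _ hc1
      exact ⟨i, h1⟩
    · obtain ⟨c, hc1⟩ := (hN.hex k).1
      rw [hk, ← hN.tri] at hc1
      obtain ⟨i, h1, -⟩ := hc _ _ hc1
      exact ⟨i, h1⟩
    · obtain ⟨c, hc1⟩ := (hN.hex k).1
      rw [hk, ← hN.tri] at hc1
      obtain ⟨i, -, h1⟩ := hc _ _ (N.rot hc1)
      exact ⟨i + 1, h1⟩
  have step : ∀ n : ℕ, ML N v (u (j + n)) := by
    intro n
    induction n with
    | zero => simpa using hx
    | succ n ih =>
      have h1 := tj_of_ML hN hM (hR.mem (j + n)) ih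
      have h2 := ML_of_tj hN (N.rot (N.rot (hR.mem (j + n)))) (tj_rot' (tj_rot' h1))
        (hLV (j + n + 1)).symm
      have h3 := h2.symm
      rw [show j + ((n + 1 : ℕ) : ℤ) = j + n + 1 by push_cast; ring]
      exact h3
  have hper : ∀ m : ℕ, u (i + m * d) = u i := by
    intro m
    induction m with
    | zero => simp
    | succ m ih =>
      rw [show i + ((m + 1 : ℕ) : ℤ) * d = (i + m * d) + d by push_cast; ring, hR.per, ih]
  have hd : (1 : ℤ) ≤ d := by exact_mod_cast hR.pos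
  have hm : j ≤ i + ((j - i).toNat : ℤ) * d := by
    have h1 : j - i ≤ ((j - i).toNat : ℤ) := Int.self_le_toNat _
    have h2 : (0 : ℤ) ≤ ((j - i).toNat : ℤ) := by positivity
    nlinarith
  have h4 := step (i + ((j - i).toNat : ℤ) * d - j).toNat
  rw [Int.toNat_of_nonneg (by linarith), add_sub_cancel, hper] at h4
  exact h4

theorem til2 (hN : HNet S N) (hE : E3) (hB : Sides2 N inn arc) (hM : ∃ t, ExM N t) :
    Til N.toTrg (ML N) N.F N.Q N.ex (inn2 N inn) arc where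
  lvs a b h := h.symm
  Fs := F_comm N
  tri3 a b c ht h1 h2 h3 :=
    (relAt_tj hN ht (tj_of_ML hN hM ht h1)).j1 h1.1.1 h2.1.1 h3.1.1
  tri2 a b c ht h1 h2 h3 := by
    have hne : (N.tj (a, b, c)).Nonempty := tj_rot_iff.2 (tj_of_ML hN hM (N.rot ht) h2)
    have hR := relAt_tj hN ht hne
    have hnl : ¬ LV N a b := fun h => h1 (ML_of_tj hN ht hne h)
    by_cases hk : (a, b) ∈ N.kl
    · exact hR.j2 a b c (by simp [rots]) hk h2.1.1 h3.1.1
    · obtain ⟨h, -, e2, e3⟩ := hR.j1 hk h2.1.1 h3.1.1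
      simp only at e2 e3
      rw [e2, e3, Q_zero hN ht hnl]
      ring
  inner v hv := by
    obtain ⟨d, u, hr, hl, hc⟩ := hB.ring v hv.1
    refine ⟨d, u, hr, ring_ML hN hM hr hl hc hv.2, hc, ?_⟩
    obtain ⟨al, h1, h2, h3⟩ := hE S N hN v d u hr hl
    exact ⟨al, fun i => (h1 i).1, h2, h3⟩
  dead a b c ht h h' := by
    have hne : (N.tj (a, b, c)).Nonempty := by
      rcases h' with h' | h'
      · exact tj_rot_iff.2 (tj_of_ML hN hM (N.rot ht) h')
      · exact tj_rot' (tj_of_ML hN hM (N.rot (N.rot ht)) h')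
    have hnl : ¬ LV N a b := fun h1 => h (ML_of_tj hN ht hne h1)
    obtain ⟨h1, h2, h3⟩ := hB.dead a b c ht hnl
    exact ⟨fun h => h1 h.1, fun h => h2 h.1, h3⟩
  side a b hi hl he := by
    have hi' : ¬ inn a := fun h => hi ⟨h, b, hl⟩
    have key : ∀ k : ZMod 3, k = k - 1 + 1 := fun k => by ring
    rcases hl.2 with ⟨k, hk⟩ | ⟨k, hk⟩ | hj
    · have h1 := F_ex hN k
      have h2 := (hB.m1 k).2
      rw [hk] at h1 h2
      simp only at h1 h2
      rw [h1, h2, sub_add_cancel]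
      exact right_mem_segment ℝ _ _
    · have h1 := F_ex hN k
      have h2 := (hB.m2 k).2
      rw [hk] at h1 h2
      simp only at h1 h2
      rw [F_comm N a b, h1, h2]
      exact left_mem_segment ℝ _ _
    · by_cases m1 : (a, b) ∈ N.exS
      · obtain ⟨k, hk⟩ := m1
        have h1 := F_ex hN k
        have h2 := (hB.m1 k).2
        rw [hk] at h1 h2
        simp only at h1 h2
        rw [h1, h2, sub_add_cancel]
        exact right_mem_segment ℝ _ _
      · by_cases m2 : (b, a) ∈ N.exS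
        · obtain ⟨k, hk⟩ := m2
          have h1 := F_ex hN k
          have h2 := (hB.m2 k).2
          rw [hk] at h1 h2
          simp only at h1 h2
          rw [F_comm N a b, h1, h2]
          exact left_mem_segment ℝ _ _
        · exact hB.side a b hi' hl.1 he m1 m2 hj
  hull a b c _ h2 h3 := by
    rcases h3.1.2 with ⟨-, x, hx⟩ | ⟨k, hk⟩ | ⟨k, hk⟩
    · exact absurd hx (h2 x)
    · exact ⟨k, hk⟩
    · exfalso
      obtain ⟨x, hx⟩ := (hN.hex k).1
      rw [hk, ← hN.tri] at hx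
      exact h2 x hx
  exI := ex_inj hN
  exT k := by
    obtain ⟨x, hx⟩ := (hN.hex k).1
    rw [← hN.tri] at hx
    exact ⟨x, hx⟩
  exH := ex_hull hN
  exl k := ⟨⟨hN.live k, Or.inr (Or.inl ⟨k, rfl⟩)⟩, Or.inl ⟨k, rfl⟩⟩
  ex1 k := ⟨fun h => (hB.m1 k).1 h.1, (hB.m1 k).2⟩
  ex2 k := ⟨fun h => (hB.m2 k).1 h.1, (hB.m2 k).2⟩
  exF := F_ex hN

theorem live_LV {t : ℂ × ℂ × ℂ} (h : LiveT (ML N) t) : LiveT (LV N) t :=
  ⟨h.1.1, h.2.1.1, h.2.2.1⟩

/-- **T1** with pockets -/
theorem dis2 (hN : HNet S N) (hE : E3) (hB : Sides2 N inn arc) {U : Finset (ℂ × ℂ × ℂ)}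
    (hU : U ⊆ delT S) (hrep : ∀ s ∈ U, ∀ t ∈ U, s ≠ t → t ∉ rots s) : Dis U (hcen N) N.Q := by
  intro s hs t ht hst
  have hs' : s ∈ N.T := by rw [hN.tri]; exact hU hs
  have ht' : t ∈ N.T := by rw [hN.tri]; exact hU ht
  rw [Set.disjoint_left]
  intro w hw hw'
  by_cases q1 : N.Q s = 0
  · rw [q1, tri_zero, interior_singleton] at hw
    exact hw
  by_cases q2 : N.Q t = 0
  · rw [q2, tri_zero, interior_singleton] at hw'
    exact hw'
  have hg := J1x872.good_of_hnet hN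
  have e1 := Q_exM hg hs' q1
  have e2 := Q_exM hg ht' q2
  have H := til2 hN hE hB ⟨s, e1⟩
  have l1 := live_of_Q hN hs' q1
  have l2 := live_of_Q hN ht' q2
  exact H.disj_ins hs' ht' l1 l2 (hrep s hs t ht hst) w
    ⟨ins_of_int (relAt_tj hN hs' (tj_ne hg e1)) (live_LV l1) hw,
      ins_of_int (relAt_tj hN ht' (tj_ne hg e2)) (live_LV l2) hw'⟩

/-- the drawn triangles are in the unit disc -/
theorem tri_sub2 (hN : HNet S N) (hE : E3) (hB : Sides2 N inn arc) {t : ℂ × ℂ × ℂ}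
    (ht : t ∈ delT S) (hq : N.Q t ≠ 0) : tri (hcen N t) (N.Q t) ⊆ Metric.closedBall 0 1 := by
  have ht' : t ∈ N.T := by rw [hN.tri]; exact ht
  have hg := J1x872.good_of_hnet hN
  have hx := Q_exM hg ht' hq
  have H := til2 hN hE hB ⟨t, hx⟩
  have hl := live_of_Q hN ht' hq
  exact tri_sub_gen (relAt_tj hN ht' (tj_ne hg hx)) (live_LV hl) hq
    fun w hw => (H.ins_sub ht' hl hw).norm_le

/-- **T2** with pockets: total energy (every triangle may be counted three times) -/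
theorem energy2 (hN : HNet S N) (hE : E3) (hB : Sides2 N inn arc) {U : Finset (ℂ × ℂ × ℂ)}
    (hU : U ⊆ delT S) : ∑ t ∈ U, ‖N.Q t‖ ^ 2 ≤ 12 := by
  by_cases hM : ∃ t, ExM N t
  · apply (til2 hN hE hB hM).energy_le U
    · intro t ht
      rw [hN.tri]
      exact hU ht
    · intro t ht
      by_cases h : N.Q t = 0
      · exact Or.inr h
      · exact Or.inl (live_of_Q hN (by rw [hN.tri]; exact hU ht) h)
  · have h0 : ∀ t ∈ U, ‖N.Q t‖ ^ 2 = 0 := by
      intro t ht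
      have : N.Q t = 0 := by
        by_contra h
        exact hM ⟨t, Q_exM (J1x872.good_of_hnet hN) (by rw [hN.tri]; exact hU ht) h⟩
      rw [this]; simp
    rw [Finset.sum_eq_zero h0]
    norm_num

/-- **T2** for representatives -/
theorem energy_rep2 (hN : HNet S N) (hE : E3) (hB : Sides2 N inn arc)
    {U : Finset (ℂ × ℂ × ℂ)} (hU : U ⊆ delT S)
    (hrep : ∀ s ∈ U, ∀ t ∈ U, s ≠ t → t ∉ rots s) :
    ∑ t ∈ U, ‖N.Q t‖ ^ 2 ≤ 4 := by
  have h1 : ∑ t ∈ U, ‖N.Q t‖ ^ 2 = ∑ t ∈ U.filter (fun t => N.Q t ≠ 0), ‖N.Q t‖ ^ 2 := by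
    rw [Finset.sum_filter]
    apply Finset.sum_congr rfl
    intro t _
    by_cases h : N.Q t = 0 <;> simp [h]
  rw [h1]
  have h2 := energy_ball (U := U.filter fun t => N.Q t ≠ 0) (h := hcen N) (Q := N.Q)
    (dis2 hN hE hB ((Finset.filter_subset _ _).trans hU) (fun s hs t ht hst =>
      hrep s (Finset.filter_subset _ _ hs) t (Finset.filter_subset _ _ ht) hst)) 0 zero_le_one
    (by
      intro t ht
      rw [Finset.mem_filter] at ht
      exact tri_sub2 hN hE hB (hU ht.1) ht.2)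
  linarith

end net

/-! ### the sides of `Sides_697` -/

section sides

open Crest.Agent.R143.Sidesx697 Crest.Agent.R143.DelRx806

variable {S : Finset ℂ} {N : Net ℂ}

theorem wall_hull (hN : HNet S N) {a b : ℂ} (h : hullE S a b) (hm : (a, b) ∉ N.exS) :
    Wall N a b := by
  refine ⟨mem_E_of_hull hN h, hm, ?_, Or.inr (Or.inl fun c hc => ?_)⟩
  · rintro ⟨k, hk⟩
    have h5 := hN.hex k
    rw [hk] at h5
    exact hullE_asymm h h5
  · rw [hN.tri] at hc
    exact h.2 c hc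

/-- every hull vertex is on a side -/
theorem hull_on_side (hN : HNet S N) {a b : ℂ} (h : hullE S a b) : ∃ i, Side N i a := by
  obtain ⟨n, w, H⟩ := hull_cycle hN.gp (card3 hN)
  obtain ⟨i0, -, -, a0, b0⟩ := H.all _ _ (hN.hex 0)
  have step : ∀ m : ℕ, ∃ i, Side N i (w (i0 + 1 + m)) := by
    intro m
    induction m with
    | zero =>
      refine ⟨0, ?_⟩
      simp only [Nat.cast_zero, add_zero, b0]
      exact Relation.ReflTransGen.refl
    | succ m ih =>
      obtain ⟨i, hi⟩ := ih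
      have hE := H.edge (i0 + 1 + m)
      rw [show i0 + 1 + ((m + 1 : ℕ) : ℤ) = i0 + 1 + m + 1 by push_cast; ring]
      by_cases hm : (w (i0 + 1 + m), w (i0 + 1 + m + 1)) ∈ N.exS
      · obtain ⟨k, hk⟩ := hm
        refine ⟨k, ?_⟩
        have : w (i0 + 1 + m + 1) = (N.ex k).2 := by rw [hk]
        rw [this]
        exact Relation.ReflTransGen.refl
      · exact ⟨i, hi.tail (wall_hull hN hE hm)⟩
  obtain ⟨j, -, -, rfl, -⟩ := H.all _ _ h
  have hn : (1 : ℤ) ≤ n := by exact_mod_cast H.pos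
  have hq : i0 + 1 ≤ j + n * ((i0 + 1 - j).toNat : ℤ) := by
    have h1 : i0 + 1 - j ≤ ((i0 + 1 - j).toNat : ℤ) := Int.self_le_toNat _
    have h2 : (0 : ℤ) ≤ ((i0 + 1 - j).toNat : ℤ) := by positivity
    nlinarith
  obtain ⟨i, hi⟩ := step (j + n * ((i0 + 1 - j).toNat : ℤ) - (i0 + 1)).toNat
  rw [Int.toNat_of_nonneg (by linarith), add_sub_cancel, hull_per H] at hi
  exact ⟨i, hi⟩

/-- vertices which are not on a side -/
def innS (S : Finset ℂ) (N : Net ℂ) (v : ℂ) : Prop := v ∈ S ∧ ∀ i, ¬ Side N i v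

/-- the side of a vertex -/
def arcS (N : Net ℂ) (v : ℂ) : ZMod 3 := if h : ∃ i, Side N i v then h.choose else 0

/-- **the description of the boundary** from: the sides are disjoint, every killed edge is on a
side -/
theorem sides2_of (hN : HNet S N) (hU : ∀ v i j, Side N i v → Side N j v → i = j)
    (hK : ∀ a b c, (a, b, c) ∈ N.T → (a, b) ∈ N.kl → ∃ i, Side N i a) :
    Sides2 N (innS S N) (arcS N) := by
  have harc : ∀ v i, Side N i v → arcS N v = i := by
    intro v i hi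
    have h : ∃ i, Side N i v := ⟨i, hi⟩
    unfold arcS
    rw [dif_pos h]
    exact hU v _ _ h.choose_spec hi
  have hout : ∀ v i, Side N i v → ¬ innS S N v := fun v i hi h => h.2 i hi
  have hmem : ∀ a b c, (a, b, c) ∈ N.T → a ∈ S ∧ b ∈ S ∧ c ∈ S := by
    intro a b c h
    rw [hN.tri] at h
    have := DelGx806.mem_delT.1 h
    exact ⟨this.1, this.2.1, this.2.2.1⟩
  constructor
  · rintro v ⟨hv, hs⟩
    have hh : ∀ a, ¬ hullE S a v := by
      intro a ha
      obtain ⟨c, hc⟩ := (hull_in_iff_out hN.gp v).1 ⟨a, ha⟩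
      obtain ⟨i, hi⟩ := hull_on_side hN hc
      exact hs i hi
    obtain ⟨u0, hu0⟩ := exists_tri_at hN.gp (card3 hN) hv
    obtain ⟨d, u, hR, -, hc⟩ := ring_exists hN.gp hu0 hh hN.tri
    refine ⟨d, u, hR, fun i hk => ?_, fun x y hxy => ?_⟩
    · obtain ⟨j, hj⟩ := hK _ _ _ (hR.mem i) hk
      exact hs j hj
    · rw [hN.tri] at hxy
      obtain ⟨i, h1, h2⟩ := hc x y hxy
      exact ⟨i, h1.symm, h2.symm⟩
  · intro a b c ht hl
    have hw : Wall N a b ∧ ∃ i, Side N i a := by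
      by_cases hk : (a, b) ∈ N.kl
      · refine ⟨⟨(mem_E_of_tri ht).1, ?_, not_sw hN ht, Or.inl hk⟩, hK a b c ht hk⟩
        rintro ⟨k, e⟩
        exact hN.live k (e ▸ hk)
      · unfold LV at hl
        push Not at hl
        obtain ⟨h1, h2, -⟩ := hl hk
        have h3 : hullE S a b := by
          refine ⟨⟨c, by rw [← hN.tri]; exact ht⟩, fun x => ?_⟩
          rw [← hN.tri]
          exact h1 ⟨c, ht⟩ x
        exact ⟨wall_hull hN h3 h2, hull_on_side hN h3⟩
    obtain ⟨hw, i, hi⟩ := hw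
    have hi' : Side N i b := Relation.ReflTransGen.tail hi hw
    exact ⟨hout a i hi, hout b i hi', (harc a i hi).trans (harc b i hi').symm⟩
  · intro a b hi _ he m1 m2 hj
    have haS : a ∈ S := by
      rcases he with ⟨c, h⟩ | ⟨c, h⟩
      · exact (hmem _ _ _ h).1
      · exact (hmem _ _ _ h).2.1
    obtain ⟨i, hi⟩ : ∃ i, Side N i a := by
      by_contra hc
      push Not at hc
      exact hi ⟨haS, hc⟩
    have hne : (N.hj a b).Nonempty ∨ (N.hj b a).Nonempty := by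
      rcases Nat.eq_zero_or_pos (N.hj a b).card with h | h
      · right; exact Finset.card_pos.1 (by omega)
      · left; exact Finset.card_pos.1 h
    obtain ⟨p0, p1, hF⟩ := F_side hN m1 m2 (Or.inl hi) hne
    rw [harc a i hi, hF]
    refine ⟨1 - Net.pe N a b (i + 1), Net.pe N a b (i + 1), by linarith, p0, by ring, ?_⟩
    simp only [Complex.real_smul]
  · intro k
    have h := (marks3_of hN).next (k - 1)
    rw [sub_add_cancel] at h
    exact ⟨hout _ _ h, harc _ _ h⟩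
  · intro k
    have h : Side N k (N.ex k).2 := Relation.ReflTransGen.refl
    exact ⟨hout _ _ h, harc _ _ h⟩

end sides

end Crest.Agent.R143.Tiling2x395
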