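import Crest.Agent.R143.Cfg_416
import Crest.Agent.R143.T6D_697
import Crest.Agent.R143.Tiling2_395

/-!
# Row 143 (S0194), block D: the classes of a configuration are the sides of its network
(helper697)

`C : Cfg n`, `O : C.Out S` (output of D2), `N = C.dom.netS S`.

* `mk` : the tentacle of the mark `i`
* `cls_side` : class `-2` -> side `1`, class `-1` -> side `2`, other classes -> side `0`
* `side_cls` : the converse
* `cls_of_out` : `Cls C.dom S`
* `side_unique`, `kill_side`, `sides2` : the description of the boundary for T1, T2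
-/

set_option autoImplicit false

noncomputable section

open scoped Classical

namespace Crest.Agent.R143.ClsCx697

open Set
open Crest.Agent.R143.B0x346 Crest.Agent.R143.B0Dx346 Crest.Agent.R143.Cfgx416
open Crest.Agent.R143.Sidesx697

variable {n : ℕ} {C : Cfg n} {S : Finset ℂ}

theorem z3c (i : ZMod 3) : i = 0 ∨ i = 1 ∨ i = 2 := by revert i; decide

/-- the tentacle of the mark `i` -/
def mk (n : ℕ) (i : ZMod 3) : ZMod n := if i = 1 then -2 else if i = 2 then -1 else 0

theorem mk0 : mk n 0 = 0 := by unfold mk; rw [if_neg (by decide), if_neg (by decide)]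
theorem mk1 : mk n 1 = -2 := by unfold mk; rw [if_pos rfl]
theorem mk2 : mk n 2 = -1 := by unfold mk; rw [if_neg (by decide), if_pos rfl]

theorem ex_ray (O : C.Out S) (i : ZMod 3) : (C.dom.netS S).ex i = C.ray S (mk n i) := by
  rw [DomAx722.netS_ex O.gp]
  unfold Cfg.ray Cfg.dom mk
  simp only
  split_ifs <;> rfl

theorem ray_inj (O : C.Out S) {k k' : ZMod n} (h : C.ray S k = C.ray S k') : k = k' := by
  by_contra hne
  refine Set.disjoint_left.1 (O.disj k k' hne) (O.end2 k) ?_
  rw [h]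
  exact O.end2 k'

theorem ray_hull (O : C.Out S) (k : ZMod n) : hullE S (C.ray S k).1 (C.ray S k).2 := (O.ray k).1

theorem not_swap (O : C.Out S) {k k' : ZMod n} : C.ray S k ≠ ((C.ray S k').2, (C.ray S k').1) := by
  intro h
  have h1 := ray_hull O k
  rw [h] at h1
  exact hullE_asymm h1 (ray_hull O k')

theorem E_of_adj (O : C.Out S) {a b : ℂ} (h : Adj S a b) : (a, b) ∈ (C.dom.netS S).E := by
  unfold Trg.E
  rw [Finset.mem_union, Finset.mem_image, Finset.mem_image]
  obtain ⟨c, hc | hc⟩ := h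
  · exact Or.inl ⟨(a, b, c), by rw [O.hnet.tri]; exact hc, rfl⟩
  · exact Or.inr ⟨(b, a, c), by rw [O.hnet.tri]; exact hc, rfl⟩

theorem E_adj (O : C.Out S) {a b : ℂ} (h : (a, b) ∈ (C.dom.netS S).E) : Adj S a b := by
  unfold Trg.E at h
  rw [Finset.mem_union, Finset.mem_image, Finset.mem_image] at h
  rcases h with ⟨⟨x, y, z⟩, h1, h2⟩ | ⟨⟨x, y, z⟩, h1, h2⟩
  · rw [O.hnet.tri] at h1
    rw [Prod.mk.injEq] at h2
    obtain ⟨rfl, rfl⟩ := h2
    exact ⟨z, Or.inl h1⟩
  · rw [O.hnet.tri] at h1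
    rw [Prod.mk.injEq] at h2
    obtain ⟨rfl, rfl⟩ := h2
    exact ⟨z, Or.inr h1⟩

theorem adj_hull {a b : ℂ} (h : hullE S a b ∨ hullE S b a) : Adj S a b := by
  rcases h with ⟨⟨c, hc⟩, -⟩ | ⟨⟨c, hc⟩, -⟩
  · exact ⟨c, Or.inl hc⟩
  · exact ⟨c, Or.inr hc⟩

/-- a ray edge is not killed -/
theorem ray_live (O : C.Out S) (k : ZMod n) {a b : ℂ} (h : C.ray S k = (a, b) ∨ C.ray S k = (b, a)) :
    (a, b) ∉ C.dom.kl S := by
  rintro ⟨y, hy, hyo⟩
  rw [Cfg.dom_out] at hyo
  rcases h with h | h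
  · have h1 := O.miss1 k
    rw [h] at h1
    exact Set.disjoint_left.1 h1 (DomBx722.vedge_sub_left _ _ _ hy) hyo
  · have h1 := O.miss1 k
    rw [h] at h1
    exact Set.disjoint_left.1 h1 (DomBx722.vedge_sub_right _ _ _ hy) hyo

theorem kl_iff (O : C.Out S) {a b : ℂ} : (a, b) ∈ (C.dom.netS S).kl ↔ (a, b) ∈ C.dom.kl S := by
  rw [DomAx722.netS_kl O.gp]
  constructor
  · exact fun h => h.1
  · intro h
    have hex : ∀ i, rayMark S C.dom.c (C.dom.q i) = C.ray S (mk n i) := fun i => by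
      rw [← ex_ray O i, DomAx722.netS_ex O.gp]
    refine ⟨h, fun i hi => ?_, fun i hi => ?_⟩
    · rw [hex] at hi
      exact ray_live O _ (Or.inl hi) h
    · rw [hex] at hi
      exact ray_live O _ (Or.inr hi) h

theorem mem_exS (O : C.Out S) {p : ℂ × ℂ} : p ∈ (C.dom.netS S).exS ↔ ∃ i, C.ray S (mk n i) = p := by
  unfold Net.exS
  rw [Set.mem_range]
  simp only [ex_ray O]

/-- a dead edge is a wall -/
theorem wall_of (O : C.Out S) {a b : ℂ} (h : (Adj S a b ∧ (a, b) ∈ C.dom.kl S) ∨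
    ((hullE S a b ∨ hullE S b a) ∧ ∀ i : ZMod 3, C.ray S (mk n i) ≠ (a, b) ∧
      C.ray S (mk n i) ≠ (b, a))) :
    Wall (C.dom.netS S) a b := by
  rcases h with ⟨h1, h2⟩ | ⟨h1, h2⟩
  · refine ⟨E_of_adj O h1, fun h => ?_, fun h => ?_, Or.inl ((kl_iff O).2 h2)⟩
    · obtain ⟨i, hi⟩ := (mem_exS O).1 h
      exact ray_live O _ (Or.inl hi) h2
    · obtain ⟨i, hi⟩ := (mem_exS O).1 h
      exact ray_live O _ (Or.inr hi) h2
  · refine ⟨E_of_adj O (adj_hull h1), fun h => ?_, fun h => ?_, Or.inr ?_⟩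
    · obtain ⟨i, hi⟩ := (mem_exS O).1 h
      exact (h2 i).1 hi
    · obtain ⟨i, hi⟩ := (mem_exS O).1 h
      exact (h2 i).2 hi
    · rw [O.hnet.tri]
      rcases h1 with h1 | h1
      · exact Or.inl h1.2
      · exact Or.inr h1.2

/-- walls join the sites of a class -/
theorem cls_conn (O : C.Out S) {j : ZMod n} {v w : ℂ} (hv : v ∈ C.cls S j) (hw : w ∈ C.cls S j) :
    Relation.ReflTransGen (Wall (C.dom.netS S)) v w := by
  have key := O.con j v hv w hw
  induction key with
  | refl => exact Relation.ReflTransGen.refl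
  | tail _ hs ih =>
    obtain ⟨h1, h2, h⟩ := hs
    refine (ih h1).tail (wall_of O ?_)
    rcases h with h | ⟨h3, h4⟩
    · exact Or.inl h
    · exact Or.inr ⟨h3, fun i => h4 _⟩

/-- the arc of the class `j` -/
def arcOf (n : ℕ) (j : ZMod n) : ZMod 3 := if j = -2 then 1 else if j = -1 then 2 else 0

theorem cast_ne {n m : ℕ} (h0 : 0 < m) (h : m < n) : (m : ZMod n) ≠ 0 := by
  rw [Ne, ZMod.natCast_eq_zero_iff]
  exact fun hd => absurd (Nat.le_of_dvd h0 hd) (by omega)

theorem neg2_ne (hn : 3 ≤ n) : (-2 : ZMod n) ≠ -1 ∧ (0 : ZMod n) ≠ -2 ∧ (0 : ZMod n) ≠ -1 := by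
  have h1 := cast_ne (n := n) (m := 1) (by norm_num) (by omega)
  have h2 := cast_ne (n := n) (m := 2) (by norm_num) (by omega)
  push_cast at h1 h2
  refine ⟨fun h => h1 ?_, fun h => h2 ?_, fun h => h1 ?_⟩
  · linear_combination -h
  · linear_combination h
  · linear_combination h

theorem arcOf_mk (hn : 3 ≤ n) (i : ZMod 3) : arcOf n (mk n i) = i := by
  obtain ⟨h1, h2, h3⟩ := neg2_ne hn
  have hi := z3c i
  rcases hi with rfl | rfl | rfl
  · rw [mk0]; unfold arcOf; rw [if_neg h2, if_neg h3]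
  · rw [mk1]; unfold arcOf; rw [if_pos rfl]
  · rw [mk2]; unfold arcOf; rw [if_neg h1.symm, if_pos rfl]

theorem side_mk (O : C.Out S) (i : ZMod 3) {v : ℂ} (hv : v ∈ C.cls S (mk n i)) :
    Side (C.dom.netS S) i v := by
  unfold Side
  rw [ex_ray O]
  exact cls_conn O (O.end2 _) hv

/-- the classes `0, 1, ..., n - 3` are on the side `0` -/
theorem side_zero (O : C.Out S) : ∀ m : ℕ, m + 3 ≤ n → ∀ v ∈ C.cls S (m : ZMod n),
    Side (C.dom.netS S) 0 v := by
  intro m
  induction m with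
  | zero =>
    intro _ v hv
    apply side_mk O
    rw [mk0]
    simpa using hv
  | succ m ih =>
    intro hm v hv
    have h1 := O.end1 ((m + 1 : ℕ) : ZMod n)
    have e : (((m + 1 : ℕ) : ZMod n) - 1) = (m : ZMod n) := by push_cast; ring
    rw [e] at h1
    have h2 := ih (by omega) _ h1
    have h3 : Wall (C.dom.netS S) (C.ray S ((m + 1 : ℕ) : ZMod n)).1
        (C.ray S ((m + 1 : ℕ) : ZMod n)).2 := by
      refine wall_of O (Or.inr ⟨Or.inl (ray_hull O _), fun i => ⟨fun h => ?_, fun h => ?_⟩⟩)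
      · have h4 := ray_inj O h
        have hi := z3c i
        rcases hi with rfl | rfl | rfl
        · rw [mk0] at h4
          exact cast_ne (n := n) (m := m + 1) (by omega) (by omega) h4.symm
        · rw [mk1] at h4
          refine cast_ne (n := n) (m := m + 3) (by omega) (by omega) ?_
          push_cast at h4 ⊢
          linear_combination -h4
        · rw [mk2] at h4
          refine cast_ne (n := n) (m := m + 2) (by omega) (by omega) ?_
          push_cast at h4 ⊢
          linear_combination -h4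
      · exact not_swap O h
    exact (h2.tail h3).trans (cls_conn O (O.end2 _) hv)

theorem cast_val (hn : 3 ≤ n) (j : ZMod n) (h2 : j ≠ -2) (h1 : j ≠ -1) :
    ∃ m : ℕ, m + 3 ≤ n ∧ j = (m : ZMod n) := by
  have : NeZero n := ⟨by omega⟩
  refine ⟨j.val, ?_, (ZMod.natCast_zmod_val j).symm⟩
  have hlt := ZMod.val_lt j
  by_contra hcon
  have hn0 : ((n : ℕ) : ZMod n) = 0 := ZMod.natCast_self n
  have hv := ZMod.natCast_zmod_val j
  rcases (by omega : j.val + 1 = n ∨ j.val + 2 = n) with h | h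
  · apply h1
    rw [← h] at hn0
    push_cast at hn0
    rw [h] at hn0
    rw [hv] at hn0
    linear_combination hn0
  · apply h2
    rw [← h] at hn0
    push_cast at hn0
    rw [h] at hn0
    rw [hv] at hn0
    linear_combination hn0

/-- **the classes are on the sides** -/
theorem cls_side (hn : 3 ≤ n) (O : C.Out S) {j : ZMod n} {v : ℂ} (hv : v ∈ C.cls S j) :
    Side (C.dom.netS S) (arcOf n j) v := by
  unfold arcOf
  by_cases h2 : j = -2
  · rw [if_pos h2]
    apply side_mk O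
    rw [mk1, ← h2]
    exact hv
  · rw [if_neg h2]
    by_cases h1 : j = -1
    · rw [if_pos h1]
      apply side_mk O
      rw [mk2, ← h1]
      exact hv
    · rw [if_neg h1]
      obtain ⟨m, hm, rfl⟩ := cast_val hn j h2 h1
      exact side_zero O m hm v hv

/-- **the sites of a side are in the classes of this side** -/
theorem side_cls (hn : 3 ≤ n) (O : C.Out S) {i : ZMod 3} {v : ℂ}
    (h : Side (C.dom.netS S) i v) : ∃ j, v ∈ C.cls S j ∧ arcOf n j = i := by
  have hdis : ∀ {j j' : ZMod n} {x : ℂ}, x ∈ C.cls S j → x ∈ C.cls S j' → j = j' := by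
    intro j j' x h1 h2
    by_contra hne
    exact Set.disjoint_left.1 (O.disj j j' hne) h1 h2
  have hray : ∀ k : ZMod n, (∀ i, C.ray S (mk n i) ≠ C.ray S k) →
      arcOf n (k - 1) = 0 ∧ arcOf n k = 0 := by
    intro k hk
    have k0 : k ≠ 0 := fun e => hk 0 (by rw [mk0, e])
    have k1 : k ≠ -2 := fun e => hk 1 (by rw [mk1, e])
    have k2 : k ≠ -1 := fun e => hk 2 (by rw [mk2, e])
    unfold arcOf
    constructor
    · rw [if_neg, if_neg]
      · intro e; exact k0 (by linear_combination e)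
      · intro e; exact k2 (by linear_combination e)
    · rw [if_neg k1, if_neg k2]
  induction h with
  | refl =>
    refine ⟨mk n i, ?_, arcOf_mk hn i⟩
    rw [ex_ray O]
    exact O.end2 _
  | @tail u v _ hw ih =>
    obtain ⟨j, hj, hji⟩ := ih
    obtain ⟨hE, m1, m2, h⟩ := hw
    have same : (∃ i, u ∈ C.cls S i ∧ v ∈ C.cls S i) → ∃ j, v ∈ C.cls S j ∧ arcOf n j = i := by
      rintro ⟨j', h1, h2⟩
      have := hdis hj h1
      subst this
      exact ⟨j, h2, hji⟩
    have hadj := E_adj O hE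
    rw [mem_exS O] at m1 m2
    push Not at m1 m2
    rcases h with h | h | h
    · exact same (O.kill _ _ hadj ((kl_iff O).1 h))
    · have hh : hullE S u v := by
        rw [O.hnet.tri] at h
        obtain ⟨c, hc | hc⟩ := hadj
        · exact ⟨⟨c, hc⟩, h⟩
        · exact absurd hc (h c)
      rcases O.hull _ _ hh with ⟨k, hk⟩ | h
      · obtain ⟨a1, a2⟩ := hray k (fun i => by rw [hk]; exact m1 i)
        have e1 := O.end1 k
        have e2 := O.end2 k
        rw [hk] at e1 e2
        have := hdis hj e1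
        rw [← hji, this, a1]
        exact ⟨k, e2, a2⟩
      · exact same h
    · have hh : hullE S v u := by
        rw [O.hnet.tri] at h
        obtain ⟨c, hc | hc⟩ := hadj
        · exact absurd hc (h c)
        · exact ⟨⟨c, hc⟩, h⟩
      rcases O.hull _ _ hh with ⟨k, hk⟩ | ⟨j', h1, h2⟩
      · obtain ⟨a1, a2⟩ := hray k (fun i => by rw [hk]; exact m2 i)
        have e1 := O.end1 k
        have e2 := O.end2 k
        rw [hk] at e1 e2
        have := hdis hj e2
        rw [← hji, this, a2]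
        exact ⟨k - 1, e1, a1⟩
      · exact same ⟨j', h2, h1⟩

/-- **the sides are disjoint** -/
theorem side_unique (hn : 3 ≤ n) (O : C.Out S) (v : ℂ) (i j : ZMod 3)
    (h : Side (C.dom.netS S) i v) (h' : Side (C.dom.netS S) j v) : i = j := by
  obtain ⟨k, h1, rfl⟩ := side_cls hn O h
  obtain ⟨k', h2, rfl⟩ := side_cls hn O h'
  by_contra hne
  refine Set.disjoint_left.1 (O.disj k k' fun e => hne (by rw [e])) h1 h2

theorem kill_side (hn : 3 ≤ n) (O : C.Out S) (a b c : ℂ) (ht : (a, b, c) ∈ (C.dom.netS S).T)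
    (hk : (a, b) ∈ (C.dom.netS S).kl) : ∃ i, Side (C.dom.netS S) i a := by
  rw [O.hnet.tri] at ht
  obtain ⟨j, h1, -⟩ := O.kill a b ⟨c, Or.inl ht⟩ ((kl_iff O).1 hk)
  exact ⟨_, cls_side hn O h1⟩

/-- **the description of the boundary** (T1, T2) -/
theorem sides2 (hn : 3 ≤ n) (O : C.Out S) : Tiling2x395.Sides2 (C.dom.netS S)
    (Tiling2x395.innS S (C.dom.netS S)) (Tiling2x395.arcS (C.dom.netS S)) :=
  Tiling2x395.sides2_of O.hnet (side_unique hn O) (kill_side hn O)

/-- the regions of the domain -/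
theorem dom_R {i : ZMod 3} {z : ℂ} (h : z ∈ C.dom.R i) (hn : 3 ≤ n) :
    ∃ j : ZMod n, z ∈ C.R j ∧ arcOf n j = i := by
  have hi := z3c i
  obtain ⟨n1, n2, n3⟩ := neg2_ne hn
  unfold Cfg.dom at h
  simp only at h
  rcases hi with rfl | rfl | rfl
  · rw [if_neg (by decide), if_neg (by decide)] at h
    simp only [mem_iUnion, Set.mem_ofPred_eq] at h
    obtain ⟨j, ⟨h2, h1⟩, hj⟩ := h
    refine ⟨j, hj, ?_⟩
    unfold arcOf
    rw [if_neg h2, if_neg h1]
  · rw [if_pos rfl] at h
    refine ⟨-2, h, ?_⟩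
    unfold arcOf
    rw [if_pos rfl]
  · rw [if_neg (by decide), if_pos rfl] at h
    refine ⟨-1, h, ?_⟩
    unfold arcOf
    rw [if_neg n1.symm, if_pos rfl]

/-- **sites whose cell meets the region `i` are on the side `i`** -/
theorem cls_of_out (hn : 3 ≤ n) (O : C.Out S) : T6Dx697.Cls C.dom S := by
  rintro i v hv ⟨y, hy, hyR⟩
  obtain ⟨j, hj, rfl⟩ := dom_R hyR hn
  exact cls_side hn O (Or.inl ⟨hv, y, hy, hj⟩)

end Crest.Agent.R143.ClsCx697
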