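import Mathlib
import Crest.Prelude.Def_Voronoi

/-!
# R143 (helper831): the coloured Poisson configuration, interface for its invariance

* `cfg ε ω` : the set of (position, colour) of the present points, colour `true` = black
* `JAN` : the Janossy formula on a bounded Borel set `B`
* `ISO` : the law of the coloured configuration is invariant under the measure preserving
  homeomorphisms (isometries) of the plane, for local functionals
-/

set_option autoImplicit false

noncomputable section

namespace Crest.Agent.R143.PP0x831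

open MeasureTheory Set
open Crest.ProbabilityR.Voronoi
open scoped ENNReal Nat

open Classical in
/-- the colour of the point `(k, j)`; `true` is black -/
def col (ω : Sample) (k : ℤ × ℤ) (j : ℕ) : Bool := decide ((ω.2 k j 2 : ℝ) < 1 / 2)

/-- the coloured configuration at scale `ε` -/
def cfg (ε : ℝ) (ω : Sample) : Set (ℂ × Bool) :=
  (fun p : ℤ × ℤ × ℕ => (point ε ω (p.1, p.2.1) p.2.2, col ω (p.1, p.2.1) p.2.2)) '' present ω

/-- the fair coin -/
def coin : Measure Bool := (2 : ℝ≥0∞)⁻¹ • Measure.count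

/-- `F` only looks at the points in `B` -/
def LocalOn (B : Set ℂ) {E : Type*} (F : Set (ℂ × Bool) → E) : Prop :=
  ∀ S : Set (ℂ × Bool), F S = F (S ∩ {p | p.1 ∈ B})

/-- `F` of `n` points is a measurable function of the points -/
def FinMeas {E : Type*} [MeasurableSpace E] (F : Set (ℂ × Bool) → E) : Prop :=
  ∀ n : ℕ, Measurable fun z : Fin n → ℂ × Bool => F (range z)

/-- the Janossy sum of `F` over the configurations in `B` at intensity `lam` -/
def janossy (lam : ℝ≥0∞) (B : Set ℂ) (F : Set (ℂ × Bool) → ℝ≥0∞) : ℝ≥0∞ :=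
  ENNReal.ofReal (Real.exp (-(lam * volume B).toReal)) *
    ∑' n : ℕ, lam ^ n / (n ! : ℝ≥0∞) *
      ∫⁻ z, F (range z) ∂(Measure.pi fun _ : Fin n => (volume.restrict B).prod coin)

/-- (JAN) the Janossy formula -/
def JAN : Prop := ∀ (ε : ℝ), 0 < ε → ∀ B : Set ℂ, MeasurableSet B → Bornology.IsBounded B →
  ∀ F : Set (ℂ × Bool) → ℝ≥0∞, LocalOn B F → FinMeas F →
    Measurable (fun ω => F (cfg ε ω)) ∧
    ∫⁻ ω, F (cfg ε ω) ∂sampleLaw = janossy (ENNReal.ofReal (ε ^ 2))⁻¹ B F

/-- (ISO) invariance in law of the coloured configuration under measure preserving maps `g` of the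
plane (rotations about `z0`, translations, ...) -/
def ISO : Prop := ∀ (ε : ℝ), 0 < ε → ∀ B : Set ℂ, MeasurableSet B → Bornology.IsBounded B →
  ∀ g : ℂ ≃ᵐ ℂ, MeasurePreserving g volume volume → Bornology.IsBounded (g ⁻¹' B) →
  ∀ F : Set (ℂ × Bool) → ℝ≥0∞, LocalOn B F → FinMeas F →
    ∫⁻ ω, F ((fun p : ℂ × Bool => (g p.1, p.2)) '' cfg ε ω) ∂sampleLaw =
      ∫⁻ ω, F (cfg ε ω) ∂sampleLaw

end Crest.Agent.R143.PP0x831
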