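import Crest.Agent.R143.Crs5_117
import Crest.Agent.R143.Cfg_416
import Crest.Agent.R143.DomA_722

/-!
# Row 143, block P: `P2b` of `Cfg_416` (helper117)

`p2b : P2b` : for the quadrilateral configuration (tentacle `1` = `b` inside the arc `0` of the
reference network) `pr 0 + pr 1 = 1` and the observable at the `b`-tentacle is `1 + pr 0 (om - 1)`.
-/

set_option autoImplicit false

noncomputable section

open scoped Classical

namespace Crest.Agent.R143.Crs6x117

open Crest.Agent.R143.B0x346 Crest.Agent.R143.DelGx806 Crest.Agent.R143.DelRx806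
  Crest.Agent.R143.B0Dx346 Crest.Agent.R143.JColx54 Crest.Agent.R143.JCol2x54
  Crest.Agent.R143.JWalkx872 Crest.Agent.R143.JCardx872 Crest.Agent.R143.Crsx117
open Crest.Agent.R143.Cfgx416 (Cfg cell)

variable {S : Finset ℂ} {C : Cfg 4}

theorem adj_iff {a b : ℂ} : Cfgx416.Adj S a b ↔ Adj S a b := by
  unfold Cfgx416.Adj Adj
  exact exists_or

theorem adj_of_hull {a b : ℂ} (h : hullE S a b) : Adj S a b := Or.inl h.1

section out

variable (O : C.Out S)

include O

/-- the class of a site is unique -/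
theorem cls_uniq {v : ℂ} {i j : ZMod 4} (hi : v ∈ C.cls S i) (hj : v ∈ C.cls S j) : i = j := by
  by_contra h
  exact Set.disjoint_left.1 (O.disj i j h) hi hj

theorem ray_ne {i j : ZMod 4} (h : i ≠ j) : C.ray S i ≠ C.ray S j := fun e => by
  have h1 := O.end2 i
  rw [e] at h1
  exact h (cls_uniq O h1 (O.end2 j))

/-- the two ends of a ray edge are in no common class -/
theorem ray_not_same {k i : ZMod 4} (h1 : (C.ray S k).1 ∈ C.cls S i)
    (h2 : (C.ray S k).2 ∈ C.cls S i) : False := by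
  have e1 := cls_uniq O h1 (O.end1 k)
  have e2 := cls_uniq O h2 (O.end2 k)
  have e3 : k - 1 = k := e1.symm.trans e2
  have : ∀ k : ZMod 4, k - 1 ≠ k := by decide
  exact this k e3

theorem hull_cls {a b : ℂ} (h : hullE S a b) : (∃ i, a ∈ C.cls S i) ∧ ∃ i, b ∈ C.cls S i := by
  rcases O.hull a b h with ⟨k, hk⟩ | ⟨i, h1, h2⟩
  · have e1 : a = (C.ray S k).1 := by rw [hk]
    have e2 : b = (C.ray S k).2 := by rw [hk]
    exact ⟨⟨_, e1 ▸ O.end1 k⟩, ⟨_, e2 ▸ O.end2 k⟩⟩
  · exact ⟨⟨i, h1⟩, ⟨i, h2⟩⟩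

theorem ex0 : (C.dom.netS S).ex 0 = C.ray S 0 := by
  rw [DomAx722.netS_ex O.gp]
  show rayMark S C.c _ = rayMark S C.c _
  congr 1
theorem ex1 : (C.dom.netS S).ex 1 = C.ray S 2 := by
  rw [DomAx722.netS_ex O.gp]
  show rayMark S C.c _ = rayMark S C.c _
  congr 1
theorem ex2 : (C.dom.netS S).ex 2 = C.ray S 3 := by
  rw [DomAx722.netS_ex O.gp]
  show rayMark S C.c _ = rayMark S C.c _
  congr 1

theorem mem_exS {p : ℂ × ℂ} : p ∈ (C.dom.netS S).exS ↔ ∃ k : ZMod 4, k ≠ 1 ∧ C.ray S k = p := by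
  constructor
  · rintro ⟨k, hk⟩
    have h3 : ∀ k : ZMod 3, k = 0 ∨ k = 1 ∨ k = 2 := by decide
    rcases h3 k with rfl | rfl | rfl
    · rw [ex0 O] at hk; exact ⟨0, by decide, hk⟩
    · rw [ex1 O] at hk; exact ⟨2, by decide, hk⟩
    · rw [ex2 O] at hk; exact ⟨3, by decide, hk⟩
  · rintro ⟨k, h1, hk⟩
    have h4 : ∀ k : ZMod 4, k = 0 ∨ k = 1 ∨ k = 2 ∨ k = 3 := by decide
    rcases h4 k with rfl | rfl | rfl | rfl
    · exact ⟨0, by rw [ex0 O]; exact hk⟩
    · exact absurd rfl h1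
    · exact ⟨1, by rw [ex1 O]; exact hk⟩
    · exact ⟨2, by rw [ex2 O]; exact hk⟩

/-- an edge inside one class is no mark -/
theorem not_exS {a b : ℂ} {i : ZMod 4} (ha : a ∈ C.cls S i) (hb : b ∈ C.cls S i) :
    (a, b) ∉ (C.dom.netS S).exS := by
  rw [mem_exS O]
  rintro ⟨k, -, hk⟩
  apply ray_not_same O (k := k) (i := i)
  · rw [hk]; exact ha
  · rw [hk]; exact hb

theorem mem_kl {a b : ℂ} (h : (a, b) ∈ C.dom.kl S) {i : ZMod 4} (ha : a ∈ C.cls S i)
    (hb : b ∈ C.cls S i) : (a, b) ∈ (C.dom.netS S).kl := by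
  rw [DomAx722.netS_kl O.gp]
  refine ⟨h, fun k hk => not_exS O ha hb ⟨k, ?_⟩, fun k hk => not_exS O hb ha ⟨k, ?_⟩⟩
  · rw [DomAx722.netS_ex O.gp]; exact hk
  · rw [DomAx722.netS_ex O.gp]; exact hk

theorem kl_sub {a b : ℂ} (h : (a, b) ∈ (C.dom.netS S).kl) : (a, b) ∈ C.dom.kl S :=
  ((DomAx722.netS_kl O.gp (a, b)).1 h).1

/-- dead edges of a class are walls -/
theorem wall_of {a b : ℂ} {i : ZMod 4} (ha : a ∈ C.cls S i) (hb : b ∈ C.cls S i)
    (h : (Cfgx416.Adj S a b ∧ (a, b) ∈ C.dom.kl S) ∨ hullE S a b ∨ hullE S b a) :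
    Sidesx697.Wall (C.dom.netS S) a b := by
  have hT := O.hnet.tri
  have hadj : Adj S a b := by
    rcases h with h | h | h
    · exact adj_iff.1 h.1
    · exact adj_of_hull h
    · exact (adj_of_hull h).symm
  refine ⟨(mem_E hT).2 hadj, not_exS O ha hb, not_exS O hb ha, ?_⟩
  rcases h with h | h | h
  · exact Or.inl (mem_kl O h.2 ha hb)
  · right; left
    intro c
    rw [hT]
    exact h.2 c
  · right; right
    intro c
    rw [hT]
    exact h.2 c

variable {n : ℕ} {w : ℤ → ℂ} {m : ℤ → ℤ}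

theorem pp0 (Pm : Sidesx697.Pos (C.dom.netS S) n w m) : C.ray S 0 = hm w (m 0) := by
  have e := Pm.ex 0
  rw [Int.cast_zero, ex0 O] at e
  exact e

theorem pp1 (Pm : Sidesx697.Pos (C.dom.netS S) n w m) : C.ray S 2 = hm w (m 1) := by
  have e := Pm.ex 1
  rw [Int.cast_one, ex1 O] at e
  exact e

theorem pp2 (Pm : Sidesx697.Pos (C.dom.netS S) n w m) : C.ray S 3 = hm w (m 2) := by
  have e := Pm.ex 2
  rw [show (((2 : ℤ)) : ZMod 3) = 2 from rfl, ex2 O] at e
  exact e

omit O in
theorem mem_inn {v : ℂ} : v ∈ C.inn S ↔ v ∈ S ∧ ∀ i, v ∉ C.cls S i := by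
  unfold Cfg.inn
  simp only [Finset.mem_filter]

/-- along the hull, as long as there is no ray edge, the class is constant -/
theorem run (H : HullCyc S n w) {i : ZMod 4} {a b : ℤ} (hab : a ≤ b) (ha : w a ∈ C.cls S i)
    (h : ∀ j, a ≤ j → j < b → ∀ k, C.ray S k ≠ hm w j) : w b ∈ C.cls S i := by
  obtain ⟨q, rfl⟩ := Int.le.dest hab
  induction q with
  | zero => simpa using ha
  | succ q ih =>
    have h1 := ih (by linarith) (fun j h1 h2 => h j h1 (by push_cast; linarith))
    rcases O.hull _ _ (H.edge (a + q)) with ⟨k, hk⟩ | ⟨l, h2, h3⟩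
    · exact absurd hk (h (a + q) (by linarith) (by push_cast; linarith) k)
    · have : l = i := cls_uniq O h2 h1
      subst this
      have e : a + ((q + 1 : ℕ) : ℤ) = a + q + 1 := by push_cast; ring
      rw [e]
      exact h3

/-- **the b-tentacle lies between the marks `0` and `1`** -/
theorem pos1 (H : HullCyc S n w) (Pm : Sidesx697.Pos (C.dom.netS S) n w m) :
    ∃ j1, m 0 < j1 ∧ j1 < m 1 ∧ C.ray S 1 = hm w j1 := by
  have hn : (0 : ℤ) < n := by exact_mod_cast H.pos
  have p0 := pp0 O Pm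
  have p1 := pp1 O Pm
  have p2 := pp2 O Pm
  have m01 : m 0 < m 1 := Pm.mono (by norm_num)
  have m12 : m 1 < m 2 := Pm.mono (by norm_num)
  have m23 : m 2 < m 0 + n := by
    rw [← Pm.per 0]
    exact Pm.mono (by norm_num)
  by_contra hcon
  push Not at hcon
  have key : ∀ j, m 0 + 1 ≤ j → j < m 1 → ∀ k, C.ray S k ≠ hm w j := by
    intro j h1 h2 k hk
    have h4 : ∀ k : ZMod 4, k = 0 ∨ k = 1 ∨ k = 2 ∨ k = 3 := by decide
    rcases h4 k with rfl | rfl | rfl | rfl
    · rw [p0] at hk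
      exact hm_ne H (by linarith) (by linarith) hk
    · exact hcon j (by linarith) h2 hk
    · rw [p1] at hk
      exact hm_ne H h2 (by linarith) hk.symm
    · rw [p2] at hk
      exact hm_ne H (by linarith) (by linarith) hk.symm
  have h1 : w (m 0 + 1) ∈ C.cls S 0 := by
    have := O.end2 0
    rw [p0] at this
    exact this
  have h2 := run O H (by linarith) h1 key
  have h3 := O.end1 2
  rw [p1] at h3
  have h4 := cls_uniq O h2 h3
  revert h4
  decide

theorem free_inn (H : HullCyc S n w) (Pm : Sidesx697.Pos (C.dom.netS S) n w m) :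
    Free S (C.dom.netS S) (C.inn S) where
  sub := fun v hv => (mem_inn.1 hv).1
  live := fun a ha b _ h' => (O.inn a ha).1 b (kl_sub O h')
  nh := by
    intro a ha b
    have ha' := (mem_inn.1 ha).2
    constructor
    · intro h
      obtain ⟨i, hi⟩ := (hull_cls O h).1
      exact ha' i hi
    · intro h
      obtain ⟨i, hi⟩ := (hull_cls O h).2
      exact ha' i hi
  out := by
    intro v hv hvI
    have : ∃ i, v ∈ C.cls S i := by
      by_contra hc
      push Not at hc
      exact hvI (mem_inn.2 ⟨hv, hc⟩)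
    obtain ⟨i, hi⟩ := this
    have hcon : Relation.ReflTransGen (Sidesx697.Wall (C.dom.netS S)) (C.ray S i).2 v := by
      have h1 := O.con i _ (O.end2 i) v hi
      refine Relation.ReflTransGen.mono ?_ _ _ h1
      rintro a b ⟨h2, h3, h4⟩
      refine wall_of O h2 h3 ?_
      rcases h4 with h4 | h4
      · exact Or.inl h4
      · exact Or.inr h4.1
    have h4 : ∀ k : ZMod 4, k = 0 ∨ k = 1 ∨ k = 2 ∨ k = 3 := by decide
    rcases h4 i with rfl | rfl | rfl | rfl
    · refine ⟨0, ?_⟩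
      unfold Sidesx697.Side
      rw [ex0 O]
      exact hcon
    · -- the arc from the mark 0 to the b-tentacle
      refine ⟨0, ?_⟩
      obtain ⟨j1, h1, h2, h3⟩ := pos1 O H Pm
      have hT := O.hnet.tri
      have hn : (0 : ℤ) < n := by exact_mod_cast H.pos
      have p0 := pp0 O Pm
      have m12 : m 1 < m 2 := Pm.mono (by norm_num)
      have m23 : m 2 < m 0 + n := by
        rw [← Pm.per 0]
        exact Pm.mono (by norm_num)
      have key : ∀ q : ℕ, m 0 + 1 + q ≤ m 1 →
          Sidesx697.Side (C.dom.netS S) 0 (w (m 0 + 1 + q)) := by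
        intro q
        induction q with
        | zero =>
          intro _
          unfold Sidesx697.Side
          rw [ex0 O, p0]
          simp only [hm, Nat.cast_zero, add_zero]
          exact Relation.ReflTransGen.refl
        | succ q ih =>
          intro hq
          push_cast at hq
          have h5 := ih (by linarith)
          refine Relation.ReflTransGen.tail h5 ?_
          have e : m 0 + 1 + ((q + 1 : ℕ) : ℤ) = m 0 + 1 + q + 1 := by push_cast; ring
          rw [e]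
          have hh := H.edge (m 0 + 1 + q)
          have hx : (w (m 0 + 1 + q), w (m 0 + 1 + q + 1)) ∉ (C.dom.netS S).exS := by
            rintro ⟨k, hk⟩
            have h3 : ∀ k : ZMod 3, k = 0 ∨ k = 1 ∨ k = 2 := by decide
            have e0 := Pm.ex 0
            have e1 := Pm.ex 1
            have e2 := Pm.ex 2
            simp only [Int.cast_zero, Int.cast_one, Int.cast_ofNat] at e0 e1 e2
            rcases h3 k with rfl | rfl | rfl
            · rw [e0] at hk
              exact hm_ne H (by linarith) (by linarith) hk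
            · rw [e1] at hk
              exact hm_ne H (by linarith) (by linarith) hk.symm
            · rw [e2] at hk
              exact hm_ne H (by linarith) (by linarith) hk.symm
          refine ⟨(mem_E hT).2 (adj_of_hull hh), hx, ?_, Or.inr (Or.inl ?_)⟩
          · intro h'
            exact hullE_asymm hh (exS_hull O.hnet h')
          · intro c
            rw [hT]
            exact hh.2 c
      have h6 := key (j1 - m 0).toNat (by rw [Int.toNat_of_nonneg (by linarith)]; linarith)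
      rw [Int.toNat_of_nonneg (by linarith)] at h6
      have e : m 0 + 1 + (j1 - m 0) = j1 + 1 := by ring
      rw [e] at h6
      have h7 : (C.ray S 1).2 = w (j1 + 1) := by rw [h3]; rfl
      rw [h7] at hcon
      exact Relation.ReflTransGen.trans h6 hcon
    · refine ⟨1, ?_⟩
      unfold Sidesx697.Side
      rw [ex1 O]
      exact hcon
    · refine ⟨2, ?_⟩
      unfold Sidesx697.Side
      rw [ex2 O]
      exact hcon

/-! ### the colouring -/

omit O in
/-- the sites of the classes `0` and `2` -/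
def B02 (C : Cfg 4) (S : Finset ℂ) : Finset ℂ := S.filter fun v => v ∈ C.cls S 0 ∨ v ∈ C.cls S 2

theorem mem_B02 {v : ℂ} : v ∈ B02 C S ↔ v ∈ C.cls S 0 ∨ v ∈ C.cls S 2 := by
  unfold B02
  rw [Finset.mem_filter]
  constructor
  · exact fun h => h.2
  · intro h
    exact ⟨by rcases h with h | h; exacts [O.sub _ h, O.sub _ h], h⟩

theorem B02_cls {v : ℂ} {i : ZMod 4} (h : v ∈ C.cls S i) : v ∈ B02 C S ↔ (i = 0 ∨ i = 2) := by
  rw [mem_B02 O]
  constructor
  · rintro (h1 | h1)
    · exact Or.inl (cls_uniq O h h1)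
    · exact Or.inr (cls_uniq O h h1)
  · rintro (rfl | rfl)
    · exact Or.inl h
    · exact Or.inr h

theorem hdd {p : ℂ × ℂ} :
    p ∈ DD (C.dom.netS S) (C.ray S 1) ↔ ∃ k, C.ray S k = p := by
  constructor
  · rintro (h | h)
    · obtain ⟨k, -, hk⟩ := (mem_exS O).1 h
      exact ⟨k, hk⟩
    · exact ⟨1, h.symm⟩
  · rintro ⟨k, hk⟩
    by_cases h1 : k = 1
    · right
      rw [← hk, h1]
      rfl
    · left
      exact (mem_exS O).2 ⟨k, h1, hk⟩

theorem ray_hull (k : ZMod 4) : hullE S (C.ray S k).1 (C.ray S k).2 := (O.ray k).1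

theorem ray1_exS : C.ray S 1 ∉ (C.dom.netS S).exS := by
  rw [mem_exS O]
  rintro ⟨k, h1, hk⟩
  exact ray_ne O h1 hk

theorem px : PX S (C.dom.netS S) (C.ray S 1) ∅ := PX.empty (ray_hull O 1) (ray1_exS O)

/-- the boundary colouring is valid -/
theorem B02_VC :
    B02 C S ∈ VC S (C.dom.netS S) (C.ray S 1) ∅ := by
  rw [PX.mem_VC]
  have same : ∀ {a b : ℂ} {i : ZMod 4}, a ∈ C.cls S i → b ∈ C.cls S i →
      blk (B02 C S) a = blk (B02 C S) b := by
    intro a b i ha hb
    unfold blk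
    rw [decide_eq_decide, B02_cls O ha, B02_cls O hb]
  refine ⟨Finset.filter_subset _ _, ⟨?_, ?_, ?_⟩, by simp⟩
  · intro a b hab hk _ _
    obtain ⟨i, h1, h2⟩ := O.kill a b (adj_iff.2 hab) (kl_sub O hk.1)
    exact same h1 h2
  · intro a b hab hn
    rcases O.hull a b hab with ⟨k, hk⟩ | ⟨i, h1, h2⟩
    · exact absurd ((hdd O).2 ⟨k, hk⟩) hn
    · exact same h1 h2
  · intro a b hab
    obtain ⟨k, hk⟩ := (hdd O).1 hab
    have h1 := O.end1 k
    have h2 := O.end2 k
    rw [hk] at h1 h2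
    unfold blk
    rw [ne_eq, decide_eq_decide, B02_cls O h1, B02_cls O h2]
    have : ∀ k : ZMod 4, ¬ ((k - 1 = 0 ∨ k - 1 = 2) ↔ (k = 0 ∨ k = 2)) := by decide
    exact this k

theorem hj_ne :
    ((C.dom.netS S).hj (C.ray S 1).1 (C.ray S 1).2).Nonempty := by
  have h1 := B02_VC O
  unfold VC at h1
  have h2 := setJ_mem O.gp O.hnet.tri ((px O).hD O.hnet) klx_symm (Finset.mem_filter.1 h1).1
  have hkl : klx (C.dom.netS S) ∅ = (C.dom.netS S).kl := by
    ext p
    simp [klx]
  rw [hkl] at h2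
  exact ⟨_, h2⟩

/-- chain inside the boundary class -/
theorem cls_chn {i : ZMod 4} {σ : ℂ → Bool} (hσ : ∀ a ∈ C.cls S i, ∀ b ∈ C.cls S i, σ a = σ b)
    {a b : ℂ} (ha : a ∈ C.cls S i) (hb : b ∈ C.cls S i) : Chn S σ a b := by
  refine Relation.ReflTransGen.mono ?_ _ _ (O.con i a ha b hb)
  rintro x y ⟨h1, h2, h3⟩
  refine ⟨?_, hσ x h1 y h2⟩
  rcases h3 with h3 | ⟨h3 | h3, -⟩
  · exact adj_iff.1 h3.1
  · exact adj_of_hull h3
  · exact (adj_of_hull h3).symm

/-- **chain of colour = network crossing** -/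
theorem chn_iff {i : ZMod 4} {T B : Finset ℂ}
    (hB : ∀ v ∈ S, v ∈ B ↔ v ∈ T ∨ v ∈ C.cls S i ∨ v ∈ C.cls S (i + 2)) {a b : ℂ}
    (ha : a ∈ C.cls S i) (hb : b ∈ C.cls S (i + 2)) :
    Chn S (blk B) a b ↔ C.Crs S (T : Set ℂ) i := by
  have haB : a ∈ B := (hB a (O.sub _ ha)).2 (Or.inr (Or.inl ha))
  constructor
  · intro h
    refine ⟨a, ha, b, hb, ?_⟩
    clear hb
    induction h with
    | refl => exact Relation.ReflTransGen.refl
    | tail h1 h2 ih =>
      rename_i x y
      refine Relation.ReflTransGen.tail ih ⟨adj_iff.2 h2.1, ?_⟩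
      have h3 : blk B a = blk B y := (Chn.col h1).trans h2.2
      have h4 : y ∈ B := by
        unfold blk at h3
        rw [decide_eq_decide] at h3
        exact h3.1 haB
      have h5 := (hB y h2.1.mem.2).1 h4
      rcases h5 with h5 | h5 | h5
      · exact Or.inl (by exact_mod_cast h5)
      · exact Or.inr (Or.inl h5)
      · exact Or.inr (Or.inr h5)
  · rintro ⟨a', ha', b', hb', h⟩
    have ca : ∀ x ∈ C.cls S i, ∀ y ∈ C.cls S i, blk B x = blk B y := by
      intro x hx y hy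
      unfold blk
      rw [decide_eq_decide]
      exact ⟨fun _ => (hB y (O.sub _ hy)).2 (Or.inr (Or.inl hy)),
        fun _ => (hB x (O.sub _ hx)).2 (Or.inr (Or.inl hx))⟩
    have cb : ∀ x ∈ C.cls S (i + 2), ∀ y ∈ C.cls S (i + 2), blk B x = blk B y := by
      intro x hx y hy
      unfold blk
      rw [decide_eq_decide]
      exact ⟨fun _ => (hB y (O.sub _ hy)).2 (Or.inr (Or.inr hy)),
        fun _ => (hB x (O.sub _ hx)).2 (Or.inr (Or.inr hx))⟩
    have h1 : Chn S (blk B) a' b' ∧ b' ∈ B := by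
      clear hb'
      induction h with
      | refl => exact ⟨Chn.refl _ _, (hB a' (O.sub _ ha')).2 (Or.inr (Or.inl ha'))⟩
      | tail _ h2 ih =>
        rename_i x y _
        have h3 : Adj S x y := adj_iff.1 h2.1
        have h4 : y ∈ B := by
          rw [hB y h3.mem.2]
          rcases h2.2 with h5 | h5 | h5
          · exact Or.inl (by exact_mod_cast h5)
          · exact Or.inr (Or.inl h5)
          · exact Or.inr (Or.inr h5)
        refine ⟨ih.1.trans (Chn.single h3 ?_), h4⟩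
        unfold blk
        rw [decide_eq_decide]
        exact ⟨fun _ => h4, fun _ => ih.2⟩
    exact ((cls_chn O ca ha ha').trans h1.1).trans (cls_chn O cb hb' hb)

theorem inn_notB {v : ℂ} (hv : v ∈ C.inn S) : v ∉ B02 C S := by
  rw [mem_B02 O]
  rintro (h | h)
  · exact (mem_inn.1 hv).2 _ h
  · exact (mem_inn.1 hv).2 _ h

/-- chains of the colour `B02 ∪ T` -/
theorem chn0 {T : Finset ℂ} {a b : ℂ} (ha : a ∈ C.cls S 0)
    (hb : b ∈ C.cls S 2) : Chn S (blk (B02 C S ∪ T)) a b ↔ C.Crs S (T : Set ℂ) 0 := by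
  refine chn_iff O ?_ ha hb
  intro v _
  rw [Finset.mem_union, mem_B02 O]
  have : (0 : ZMod 4) + 2 = 2 := by decide
  rw [this]
  tauto

/-- chains of the other colour -/
theorem chn1 {T : Finset ℂ} (hT : T ⊆ C.inn S) {a b : ℂ} (ha : a ∈ C.cls S 1)
    (hb : b ∈ C.cls S 3) :
    Chn S (blk (B02 C S ∪ T)) a b ↔ C.Crs S ((C.inn S \ T : Finset ℂ) : Set ℂ) 1 := by
  rw [← chn_compl]
  have e : (1 : ZMod 4) + 2 = 3 := by decide
  refine chn_iff O ?_ ha (e ▸ hb)
  intro v hv
  rw [e, Finset.mem_sdiff, Finset.mem_union, Finset.mem_sdiff]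
  by_cases hin : v ∈ C.inn S
  · have h1 := inn_notB O hin
    have h2 := (mem_inn.1 hin).2
    have h3 := h2 1
    have h4 := h2 3
    tauto
  · have h1 : v ∉ T := fun h' => hin (hT h')
    have h2 : ∃ i, v ∈ C.cls S i := by
      by_contra hc
      push Not at hc
      exact hin (mem_inn.2 ⟨hv, hc⟩)
    obtain ⟨i, hi⟩ := h2
    have h3 := B02_cls O hi
    have h4 : v ∈ C.cls S 1 ↔ i = 1 := ⟨fun h => cls_uniq O hi h, fun h => h ▸ hi⟩
    have h5 : v ∈ C.cls S 3 ↔ i = 3 := ⟨fun h => cls_uniq O hi h, fun h => h ▸ hi⟩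
    rw [h3, h4, h5]
    have h6 : ∀ i : ZMod 4, (¬ (i = 0 ∨ i = 2)) ↔ (i = 1 ∨ i = 3) := by decide
    have := h6 i
    tauto

end out

theorem chn_xor {N : Net ℂ} {P : Finset (ℂ × ℂ)} {n : ℕ} {w : ℤ → ℂ} {m : ℤ → ℤ} {i j1 : ℤ}
    (h : HNet S N) (H : HullCyc S n w) (Pm : Sidesx697.Pos N n w m) (h1 : m i < j1)
    (h2 : j1 < m (i + 1)) {B : Finset ℂ} (hB : B ∈ VC S N (hm w j1) P) :
    Chn S (blk B) (w j1) (w (m (i + 2))) ↔ ¬ Chn S (blk B) (w (m (i + 1))) (w (m i)) := by
  have M := m4_of H Pm h1 h2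
  have hDD := dd_eq (j1 := j1) (i := i) Pm
  have hT := h.tri
  have hks := klx_symm (N := N) (P := P)
  have hcol := (PX.mem_VC.1 hB).2.1
  rw [hDD] at hcol
  have ex0 : N.ex (i : ZMod 3) = hm w (m i) := Pm.ex i
  have ex1 : N.ex ((i : ZMod 3) + 1) = hm w (m (i + 1)) := by
    have := Pm.ex (i + 1)
    push_cast at this
    exact this
  have c := cross_iff h.gp hT hks M hcol
  constructor
  · intro q q'
    have e1 := c.1.2 q
    have e2 := c.2.2 q'
    rw [← hDD, ← ex1] at e1
    rw [← hDD, ← ex0] at e2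
    have := J1x872.ends_unique (J1x872.good_of_hnet h) Set.subset_union_left e1 e2
    have h3 : ∀ k : ZMod 3, k + 1 ≠ k := by decide
    exact h3 _ this
  · intro q
    rcases cross_ends h.gp hT hks M hcol with e | e
    · exact c.1.1 e
    · exact absurd (c.2.1 e) q

/-- the leg from `f` when the next side is the mark `ex k` on the left -/
theorem ends_step0 {N : Net ℂ} {P : Finset (ℂ × ℂ)} {f : ℂ × ℂ} (h : HNet S N)
    (E : PX S N f P) {B : Finset ℂ} (hB : B ∈ VC S N f P) {x : ℂ} (hx : (f.1, f.2, x) ∈ delT S)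
    {k : ZMod 3} (hk : N.ex k = (x, f.1)) :
    Ends N.toTrg ∅ (DD N f) (setJ N.toTrg (DD N f) B) f (N.ex k) := by
  have hJ := colJ_isJoin h.gp h.tri (E.hD h) (klx_symm (N := N) (P := P)) (PX.mem_VC.1 hB).2.1
  have m1 := hJ.mark x f.1 (Or.inl ⟨k, hk⟩)
  have m2 := hJ.mark f.1 f.2 (Or.inr rfl)
  have hT : (f.1, f.2, x) ∈ N.T := by rw [h.tri]; exact hx
  have hp := hJ.par f.1 f.2 x hT
  rw [if_neg (Set.notMem_empty _)] at hp
  have m3 : (f.2, x) ∉ colJ N.toTrg (DD N f) (blk B) := by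
    intro h3
    rw [if_pos m2.1, if_pos h3, if_pos m1.1] at hp
    omega
  have hnD : (f.2, f.1) ∉ DD N f := fun h' => hullE_asymm E.hull (E.hD h _ _ h')
  unfold Ends
  rw [hk]
  exact Relation.ReflTransGen.single ⟨x, hT, Set.notMem_empty _, hnD, Or.inr ⟨m1.1, m3, rfl⟩⟩

/-- the leg from `f` when the next side is the mark `ex k` on the right -/
theorem ends_step1 {N : Net ℂ} {P : Finset (ℂ × ℂ)} {f : ℂ × ℂ} (h : HNet S N)
    (E : PX S N f P) {B : Finset ℂ} (hB : B ∈ VC S N f P) {x : ℂ} (hx : (f.1, f.2, x) ∈ delT S)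
    {k : ZMod 3} (hk : N.ex k = (f.2, x)) :
    Ends N.toTrg ∅ (DD N f) (setJ N.toTrg (DD N f) B) f (N.ex k) := by
  have hJ := colJ_isJoin h.gp h.tri (E.hD h) (klx_symm (N := N) (P := P)) (PX.mem_VC.1 hB).2.1
  have m1 := hJ.mark f.2 x (Or.inl ⟨k, hk⟩)
  have hT : (f.1, f.2, x) ∈ N.T := by rw [h.tri]; exact hx
  have hnD : (f.2, f.1) ∉ DD N f := fun h' => hullE_asymm E.hull (E.hD h _ _ h')
  unfold Ends
  rw [hk]
  exact Relation.ReflTransGen.single ⟨x, hT, Set.notMem_empty _, hnD, Or.inl ⟨m1.1, rfl⟩⟩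

/-- end of the leg and chains -/
theorem chn_ends {N : Net ℂ} {P : Finset (ℂ × ℂ)} {n : ℕ} {w : ℤ → ℂ} {m : ℤ → ℤ} {i j1 : ℤ}
    (h : HNet S N) (H : HullCyc S n w) (Pm : Sidesx697.Pos N n w m) (h1 : m i < j1)
    (h2 : j1 < m (i + 1)) {B : Finset ℂ} (hB : B ∈ VC S N (hm w j1) P) :
    (Ends N.toTrg ∅ (DD N (hm w j1)) (setJ N.toTrg (DD N (hm w j1)) B) (hm w j1)
      (N.ex ((i : ZMod 3) + 1)) ↔ Chn S (blk B) (w j1) (w (m (i + 2)))) ∧
    (Ends N.toTrg ∅ (DD N (hm w j1)) (setJ N.toTrg (DD N (hm w j1)) B) (hm w j1)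
      (N.ex (i : ZMod 3)) ↔ Chn S (blk B) (w (m (i + 1))) (w (m i))) := by
  have M := m4_of H Pm h1 h2
  have hDD := dd_eq (j1 := j1) (i := i) Pm
  have hcol := (PX.mem_VC.1 hB).2.1
  have ex0 : N.ex (i : ZMod 3) = hm w (m i) := Pm.ex i
  have ex1 : N.ex ((i : ZMod 3) + 1) = hm w (m (i + 1)) := by
    have := Pm.ex (i + 1)
    push_cast at this
    exact this
  rw [hDD] at hcol ⊢
  rw [ex0, ex1]
  exact cross_iff h.gp h.tri (klx_symm (N := N) (P := P)) M hcol

/-- the observable at a mark -/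
theorem F_mark {N : Net ℂ} (h : HNet S N) {k : ZMod 3} {a b : ℂ} (hk : N.ex k = (a, b)) :
    N.F a b = omz k := by
  have h0 : ∃ j, N.ex j = (a, b) ∨ N.ex j = (b, a) := ⟨k, Or.inl hk⟩
  unfold Net.F
  rw [dif_pos h0]
  rcases h0.choose_spec with h1 | h1
  · congr 1
    exact (J1x872.good_of_hnet h).inj (h1.trans hk.symm)
  · exfalso
    have h2 := h.hex h0.choose
    have h3 := h.hex k
    rw [h1] at h2
    rw [hk] at h3
    exact hullE_asymm h2 h3

/-- **P2b** -/
theorem p2b : Cfgx416.P2b := by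
  intro C S O
  obtain ⟨n, w, H⟩ := hull_cycle O.gp (Sidesx697.card3 O.hnet)
  obtain ⟨m, Pm⟩ := Sidesx697.exists_pos O.hnet H
  obtain ⟨j1, q1, q2, hf⟩ := pos1 O H Pm
  have hF := free_inn O H Pm
  have e0 := pp0 O Pm
  have e1 := pp1 O Pm
  have e2 := pp2 O Pm
  have f1 : (C.ray S 1).1 = w j1 := by rw [hf]; rfl
  have f2 : (C.ray S 1).2 = w (j1 + 1) := by rw [hf]; rfl
  have a0 : w j1 ∈ C.cls S 0 := by
    have := O.end1 1
    rw [f1] at this
    exact this
  have a2 : w (m 2) ∈ C.cls S 2 := by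
    have := O.end1 3
    rw [e2] at this
    exact this
  have a1 : w (m 1) ∈ C.cls S 1 := by
    have := O.end1 2
    rw [e1] at this
    exact this
  have a3 : w (m 0) ∈ C.cls S 3 := by
    have := O.end1 0
    rw [e0] at this
    exact this
  have hBV := B02_VC O
  rw [hf] at hBV
  have hpx := px O
  rw [hf] at hpx
  have hj := hj_ne O
  rw [f1, f2] at hj
  have hnotin : ∀ v ∈ C.inn S, v ∉ B02 C S := fun v hv => inn_notB O hv
  have hsd : B02 C S \ C.inn S = B02 C S := by
    ext v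
    rw [Finset.mem_sdiff]
    exact ⟨fun h => h.1, fun h => ⟨h, fun h' => hnotin v h' h⟩⟩
  have hw0 : w j1 ∈ B02 C S := (mem_B02 O).2 (Or.inl a0)
  have valid : ∀ T : Finset ℂ, T ⊆ C.inn S →
      B02 C S ∪ T ∈ VC S (C.dom.netS S) (hm w j1) ∅ := by
    intro T hT
    have := free_mem O.hnet hpx hF hBV hT
    rw [hsd] at this
    exact this
  -- the probabilities
  have p0 : C.pr S 0 = crossP S (C.inn S) (B02 C S) (w j1) (w (m 2)) := by
    unfold Cfg.pr crossP crossT
    congr 2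
    refine congrArg Finset.card (Finset.filter_congr ?_)
    intro T _
    exact (chn0 O a0 a2).symm
  have sum1 : C.pr S 0 + C.pr S 1 = 1 := by
    have hxor : ∀ T : Finset ℂ, T ⊆ C.inn S →
        (C.Crs S (T : Set ℂ) 0 ↔ ¬ C.Crs S ((C.inn S \ T : Finset ℂ) : Set ℂ) 1) := by
      intro T hT
      rw [← chn0 O a0 a2, ← chn1 O hT a1 a3]
      have := chn_xor (i := 0) O.hnet H Pm q1 q2 (valid T hT)
      simpa using this
    have hcard : ((C.inn S).powerset.filter fun T : Finset ℂ => C.Crs S (T : Set ℂ) 1).card =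
        ((C.inn S).powerset.filter fun T : Finset ℂ => ¬ C.Crs S (T : Set ℂ) 0).card := by
      have hss : ∀ T ∈ (C.inn S).powerset, C.inn S \ (C.inn S \ T) = T := fun T hT =>
        Finset.sdiff_sdiff_eq_self (Finset.mem_powerset.1 hT)
      refine Finset.card_bij' (fun T _ => C.inn S \ T) (fun T _ => C.inn S \ T) ?_ ?_ ?_ ?_
      · intro T hT
        rw [Finset.mem_filter] at hT ⊢
        refine ⟨Finset.mem_powerset.2 Finset.sdiff_subset, ?_⟩
        rw [hxor _ Finset.sdiff_subset, not_not, hss T hT.1]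
        exact hT.2
      · intro T hT
        rw [Finset.mem_filter] at hT ⊢
        refine ⟨Finset.mem_powerset.2 Finset.sdiff_subset, ?_⟩
        have h1 := hT.2
        rw [hxor _ (Finset.mem_powerset.1 hT.1), not_not] at h1
        exact h1
      · intro T hT
        exact hss T (Finset.mem_filter.1 hT).1
      · intro T hT
        exact hss T (Finset.mem_filter.1 hT).1
    unfold Cfg.pr
    rw [hcard, ← add_div, ← Nat.cast_add, Finset.card_filter_add_card_filter_not,
      Finset.card_powerset]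
    push_cast
    exact div_self (by positivity)
  refine ⟨sum1, fun x hx => ?_⟩
  rw [f1, f2] at hx ⊢
  obtain ⟨B0, g1, g2, g3, g4, g5⟩ := F_hull O.hnet H Pm q1 q2 hx hF hj
  have hB0 : B0 = B02 C S := by
    rw [← g4 _ hBV hw0, hsd]
  subst hB0
  have hval : ((1 - crossP S (C.inn S) (B02 C S) (w j1) (w (m (0 + 2))) : ℝ) : ℂ) *
      omz ((0 : ℤ) : ZMod 3) + ((crossP S (C.inn S) (B02 C S) (w j1) (w (m (0 + 2))) : ℝ) : ℂ) *
      omz (((0 : ℤ) : ZMod 3) + 1) = 1 + (C.pr S 0 : ℂ) * (om - 1) := by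
    rw [p0]
    have o0 : omz ((0 : ℤ) : ZMod 3) = 1 := by
      rw [Int.cast_zero]
      unfold omz
      simp
    have o1 : omz (((0 : ℤ) : ZMod 3) + 1) = om := by
      rw [Int.cast_zero, zero_add]
      unfold omz
      rw [show ZMod.val (1 : ZMod 3) = 1 from rfl, pow_one]
    rw [o0, o1, show (0 : ℤ) + 2 = 2 from rfl]
    push_cast
    ring
  rw [hval] at g5
  have b1 : w (j1 + 1) ∈ C.cls S 1 := by
    have := O.end2 1
    rw [f2] at this
    exact this
  have lv1 : Disjoint (cell S (w j1)) C.out := by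
    have := O.miss1 1
    rw [f1] at this
    exact this
  have lv2 : Disjoint (cell S (w (j1 + 1))) C.out := by
    have := O.miss2 1
    rw [f2] at this
    exact this
  have n1 : (x, w j1) ∉ (C.dom.netS S).kl := by
    intro h'
    obtain ⟨z, ⟨hz1, hz2⟩, hz3⟩ := kl_sub O h'
    rw [C.dom_out] at hz3
    refine Set.disjoint_left.1 lv1 ?_ hz3
    intro s hs
    have hz1 : ‖z - x‖ = ‖z - w j1‖ := hz1
    rw [← hz1]
    exact hz2 s hs
  have n2 : (w (j1 + 1), x) ∉ (C.dom.netS S).kl := by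
    intro h'
    obtain ⟨z, ⟨hz1, hz2⟩, hz3⟩ := kl_sub O h'
    rw [C.dom_out] at hz3
    exact Set.disjoint_left.1 lv2 (fun s hs => hz2 s hs) hz3
  have fin : ∀ T ∈ (C.inn S).powerset, (C.Crs S (T : Set ℂ) 0 ↔
      Chn S (blk (B02 C S ∪ T)) (w j1) (w (m (0 + 2)))) := fun T _ => (chn0 O a0 a2).symm
  constructor
  · by_cases n4 : (w (j1 + 1), x) ∈ (C.dom.netS S).exS
    · obtain ⟨k, hk1, hk⟩ := (mem_exS O).1 n4
      have h2 := O.end1 k
      rw [hk] at h2
      have h3 : k - 1 = 1 := cls_uniq O h2 b1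
      have h5 : k = 2 := by
        have : ∀ k : ZMod 4, k - 1 = 1 → k = 2 := by decide
        exact this k h3
      subst h5
      rw [← ex1 O] at hk
      have hp : C.pr S 0 = 1 := by
        unfold Cfg.pr
        have : (C.inn S).powerset.filter (fun T : Finset ℂ => C.Crs S (T : Set ℂ) 0) =
            (C.inn S).powerset := by
          rw [Finset.filter_eq_self]
          intro T hT
          rw [fin T hT]
          have hv := valid T (Finset.mem_powerset.1 hT)
          refine (chn_ends (i := 0) O.hnet H Pm q1 q2 hv).1.1 ?_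
          rw [Int.cast_zero, zero_add]
          exact ends_step1 O.hnet hpx hv hx hk
        rw [this, Finset.card_powerset]
        push_cast
        exact div_self (by positivity)
      rw [F_mark O.hnet hk, hp]
      unfold omz
      rw [show ZMod.val (1 : ZMod 3) = 1 from rfl, pow_one]
      push_cast
      ring
    · exact g5 _ (Or.inr rfl) n2 n4
  · by_cases n3 : (x, w j1) ∈ (C.dom.netS S).exS
    · obtain ⟨k, hk1, hk⟩ := (mem_exS O).1 n3
      have h1 := O.end2 k
      rw [hk] at h1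
      have h3 : k = 0 := cls_uniq O h1 a0
      subst h3
      rw [← ex0 O] at hk
      have hp : C.pr S 0 = 0 := by
        unfold Cfg.pr
        have : (C.inn S).powerset.filter (fun T : Finset ℂ => C.Crs S (T : Set ℂ) 0) = ∅ := by
          rw [Finset.filter_eq_empty_iff]
          intro T hT
          rw [fin T hT]
          have hv := valid T (Finset.mem_powerset.1 hT)
          rw [chn_xor (i := 0) O.hnet H Pm q1 q2 hv, not_not]
          refine (chn_ends (i := 0) O.hnet H Pm q1 q2 hv).2.1 ?_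
          rw [Int.cast_zero]
          exact ends_step0 O.hnet hpx hv hx hk
        rw [this]
        simp
      rw [F_mark O.hnet hk, hp]
      unfold omz
      simp
    · exact g5 _ (Or.inl rfl) n1 n3

end Crest.Agent.R143.Crs6x117
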