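import Crest.Agent.R143.RB1_54
import Crest.Agent.R143.Crs6_117
import Crest.Agent.R143.ClsC_697
import Crest.Agent.R143.Fam_930

/-!
# Row 143 (S0194), leaf RB (box crossings), file 2 (helper54)

* `exists_box` : the network of a configuration with four tentacles is a `Box`, the class `0` is the
  arc `A`, `p = C.pr S 0`
* `lk_f` : a triangle linked to a site of the class `0` and to a site of the class `2` is linked to
  the hull edge of the ray `1`
* `extract` : walks from the class `0` to the class `2`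
* `core` : lower bound for the crossing probability from T3 for a family of parallel segments
-/

set_option autoImplicit false
set_option linter.all false

noncomputable section

open scoped Classical

namespace Crest.Agent.R143.RB2x54

open Set
open Crest.Agent.R143.B0x346 Crest.Agent.R143.B0Dx346 Crest.Agent.R143.DelGx806
  Crest.Agent.R143.DelRx806 Crest.Agent.R143.Oscx63 Crest.Agent.R143.Rswx63
  Crest.Agent.R143.Circx63 Crest.Agent.R143.Famx930
  Crest.Agent.R143.Crsx117 Crest.Agent.R143.JCardx872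
open Crest.Agent.R143.JCol2x54 (HullM join_col isCol_of_join IsCol mem_E)
open Crest.Agent.R143.JColx54 (delT_rot)
open Crest.Agent.R143.Cfgx416 (Cfg)
open Crest.Agent.R143.Ex0x922 (Lk LAdj)
open Crest.Agent.R143.RB1x54 (Box WallF)
open Crest.Agent.R143.Scalx63 (dm)

variable {C : Cfg 4} {S : Finset ℂ}

/-! ### the box of a configuration -/

theorem exists_box (O : C.Out S) : ∃ (n : ℕ) (w : ℤ → ℂ) (i0 i1 i2 i3 : ℤ),
    ∃ B : Box S (C.dom.netS S) n w i0 i1 i2 i3, C.ray S 1 = hm w i1 ∧ C.ray S 0 = hm w i0 ∧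
      (∀ v ∈ C.cls S 0, v ∈ B.A) ∧ Box.p (C.dom.netS S) w i1 = C.pr S 0 := by
  obtain ⟨n, w, H⟩ := hull_cycle O.gp (Sidesx697.card3 O.hnet)
  obtain ⟨m, Pm⟩ := Sidesx697.exists_pos O.hnet H
  obtain ⟨j1, q1, q2, hf⟩ := Crs6x117.pos1 O H Pm
  have hF := Crs6x117.free_inn O H Pm
  have e0 := Crs6x117.pp0 O Pm
  have e1 := Crs6x117.pp1 O Pm
  have e2 := Crs6x117.pp2 O Pm
  have hM := m4_of H Pm (i := 0) q1 q2
  rw [zero_add, zero_add] at hM
  have h01 := hM.h01
  have h12 := hM.h12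
  have h23 := hM.h23
  have h30 := hM.h30
  have f1 : (C.ray S 1).1 = w j1 := by rw [hf]; rfl
  have f2 : (C.ray S 1).2 = w (j1 + 1) := by rw [hf]; rfl
  have a0 : w j1 ∈ C.cls S 0 := by
    have := O.end1 1
    rw [f1] at this
    exact this
  -- the class is closed under walls
  have hclosed : ∀ u v, WallF S (C.dom.netS S) (hm w j1) u v → u ∈ C.cls S 0 → v ∈ C.cls S 0 := by
    intro u v h hu
    have same : ∀ i, u ∈ C.cls S i → v ∈ C.cls S i → v ∈ C.cls S 0 := by
      intro i h1 h2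
      have := Crs6x117.cls_uniq O h1 hu
      rw [← this]; exact h2
    rcases h.2.2.2.2.2 with h1 | h1 | h1
    · obtain ⟨i, h2, h3⟩ := O.kill u v (Crs6x117.adj_iff.2 h.1) (Crs6x117.kl_sub O h1)
      exact same i h2 h3
    · rcases O.hull u v h1 with ⟨k, hk⟩ | ⟨i, h2, h3⟩
      · exfalso
        by_cases hk1 : k = 1
        · rw [hk1, hf] at hk
          exact h.2.2.2.1 hk.symm
        · exact h.2.1 ((Crs6x117.mem_exS O).2 ⟨k, hk1, hk⟩)
      · exact same i h2 h3
    · rcases O.hull v u h1 with ⟨k, hk⟩ | ⟨i, h2, h3⟩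
      · exfalso
        by_cases hk1 : k = 1
        · rw [hk1, hf] at hk
          exact h.2.2.2.2.1 hk.symm
        · exact h.2.2.1 ((Crs6x117.mem_exS O).2 ⟨k, hk1, hk⟩)
      · exact same i h3 h2
  have hA0 : ∀ v, v ∈ RB1x54.cls S (C.dom.netS S) (hm w j1) (w j1) → v ∈ C.cls S 0 := by
    intro v hv
    have hv' : Relation.ReflTransGen (WallF S (C.dom.netS S) (hm w j1)) (w j1) v := hv
    induction hv' with
    | refl => exact a0
    | tail h1 h2 ih => exact hclosed _ _ h2 (ih h1)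
  -- no ray edge between two positions
  have nray : ∀ j, m 0 < j → j < m 0 + n → j ≠ j1 → j ≠ m 1 → j ≠ m 2 → ∀ k, C.ray S k ≠ hm w j := by
    intro j h1 h2 h3 h4 h5 k hk
    have key : ∀ i, m 0 ≤ i → i < m 0 + n → j ≠ i → hm w i ≠ hm w j := by
      intro i hi hi' hne
      rcases lt_or_gt_of_ne hne with h6 | h6
      · exact (hm_ne H h6 (by linarith)).symm
      · exact hm_ne H h6 (by linarith)
    have h4' : ∀ k : ZMod 4, k = 0 ∨ k = 1 ∨ k = 2 ∨ k = 3 := by decide
    rcases h4' k with rfl | rfl | rfl | rfl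
    · rw [e0] at hk; exact key _ le_rfl (by linarith) (by linarith) hk
    · rw [hf] at hk; exact key _ (by linarith) (by linarith) h3 hk
    · rw [e1] at hk; exact key _ (by linarith) (by linarith) h4 hk
    · rw [e2] at hk; exact key _ (by linarith) (by linarith) h5 hk
  have hout : ∀ k, j1 < k → k ≤ m 0 + n → ∃ i, i ≠ 0 ∧ w k ∈ C.cls S i := by
    intro k h1 h2
    rcases le_or_gt k (m 1) with h3 | h3
    · refine ⟨1, by decide, Crs6x117.run O H (a := j1 + 1) (by linarith) ?_ ?_⟩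
      · have := O.end2 1
        rw [f2] at this
        exact this
      · intro j h4 h5
        exact nray j (by linarith) (by linarith) (by linarith) (by linarith) (by linarith)
    · rcases le_or_gt k (m 2) with h4 | h4
      · refine ⟨2, by decide, Crs6x117.run O H (a := m 1 + 1) (by linarith) ?_ ?_⟩
        · have := O.end2 2
          rw [e1] at this
          exact this
        · intro j h5 h6
          exact nray j (by linarith) (by linarith) (by linarith) (by linarith) (by linarith)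
      · refine ⟨3, by decide, Crs6x117.run O H (a := m 2 + 1) (by linarith) ?_ ?_⟩
        · have := O.end2 3
          rw [e2] at this
          exact this
        · intro j h5 h6
          exact nray j (by linarith) (by linarith) (by linarith) (by linarith) (by linarith)
  have hlive : hm w j1 ∉ (C.dom.netS S).kl := by
    intro h'
    rw [← hf] at h'
    have h'' := Crs6x117.kl_sub O (a := (C.ray S 1).1) (b := (C.ray S 1).2) h'
    exact ClsCx697.ray_live O 1 (Or.inl rfl) h''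
  have B : Box S (C.dom.netS S) n w (m 0) j1 (m 1) (m 2) :=
    { net := O.hnet
      m4 := hM
      e0 := by rw [Crs6x117.ex0 O, e0]
      e1 := by rw [Crs6x117.ex1 O, e1]
      e2 := by rw [Crs6x117.ex2 O, e2]
      live := hlive
      out := by
        intro k h1 h2 h3
        obtain ⟨i, hi, h4⟩ := hout k h1 h2
        exact hi (Crs6x117.cls_uniq O h4 (hA0 _ h3)) }
  refine ⟨n, w, m 0, j1, m 1, m 2, B, hf, e0, ?_, ?_⟩
  · intro v hv
    have h1 := O.con 0 _ a0 v hv
    have h2 : Relation.ReflTransGen (WallF S (C.dom.netS S) (hm w j1)) (w j1) v := by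
      refine Relation.ReflTransGen.mono ?_ _ _ h1
      rintro x y ⟨h3, h4, h5⟩
      rcases h5 with ⟨h5, h6⟩ | ⟨h5, h6⟩
      · exact B.wall_kill (Crs6x117.adj_iff.1 h5) ((ClsCx697.kl_iff O).2 h6)
      · have hD : ∀ x y, (∀ k, C.ray S k ≠ (x, y) ∧ C.ray S k ≠ (y, x)) →
            (x, y) ∉ D4 w (m 0) j1 (m 1) (m 2) := by
          intro x y h7 h8
          rcases h8 with h8 | h8 | h8 | h8
          · exact (h7 0).1 (by rw [e0]; exact h8.symm)
          · exact (h7 1).1 (by rw [hf]; exact h8.symm)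
          · exact (h7 2).1 (by rw [e1]; exact h8.symm)
          · exact (h7 3).1 (by rw [e2]; exact h8.symm)
        rcases h5 with h5 | h5
        · exact B.wall_hull h5 (hD _ _ h6)
        · exact (B.wall_hull h5 (hD _ _ fun k => (h6 k).symm)).symm
    exact h2
  · -- the crossing probability
    have hbx := O.end1 1
    have a2 : w (m 2) ∈ C.cls S 2 := by
      have := O.end1 3
      rw [e2] at this
      exact this
    have hBV := Crs6x117.B02_VC O
    rw [hf] at hBV
    have hpx := Crs6x117.px O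
    rw [hf] at hpx
    have hj := Crs6x117.hj_ne O
    rw [f1, f2] at hj
    have hnotin : ∀ v ∈ C.inn S, v ∉ Crs6x117.B02 C S := fun v hv => Crs6x117.inn_notB O hv
    have hsd : Crs6x117.B02 C S \ C.inn S = Crs6x117.B02 C S := by
      ext v
      rw [Finset.mem_sdiff]
      exact ⟨fun h => h.1, fun h => ⟨h, fun h' => hnotin v h' h⟩⟩
    have hw0 : w j1 ∈ Crs6x117.B02 C S := (Crs6x117.mem_B02 O).2 (Or.inl a0)
    have p0 : C.pr S 0 = crossP S (C.inn S) (Crs6x117.B02 C S) (w j1) (w (m 2)) := by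
      unfold Cfg.pr crossP crossT
      congr 2
      refine congrArg Finset.card (Finset.filter_congr ?_)
      intro T _
      exact (Crs6x117.chn0 O a0 a2).symm
    have hkl : klx (C.dom.netS S) ∅ = (C.dom.netS S).kl := by
      ext p
      simp [klx]
    obtain ⟨B0, g1, g2, g3, g4, g5⟩ := main O.hnet H Pm q1 q2 hpx hF
      (c := fun k => (C.dom.netS S).cnt (w j1) (w (j1 + 1)) k)
      (Hn := ((C.dom.netS S).hj (w j1) (w (j1 + 1))).card)
      (fun k => by
        rw [hkl]
        unfold Net.cnt Net.hj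
        simp only [Finset.empty_subset, true_and]
        rfl)
      (by
        rw [hkl]
        unfold Net.hj
        simp only [Finset.empty_subset, Finset.filter_true]
        rfl)
      (Finset.card_pos.2 hj)
    have hB0 : B0 = Crs6x117.B02 C S := by
      rw [← g4 _ hBV hw0, hsd]
    subst hB0
    rw [show (0 : ℤ) + 2 = 2 from rfl, ← p0] at g5
    have hHn : (0 : ℝ) < (((C.dom.netS S).hj (w j1) (w (j1 + 1))).card : ℝ) := by
      exact_mod_cast Finset.card_pos.2 hj
    have hsum := Sidesx697.sum_cnt (J1x872.good_of_hnet O.hnet) (w j1) (w (j1 + 1)) 0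
    set N := C.dom.netS S with hN
    have o0 : omz ((0 : ℤ) : ZMod 3) = 1 := by
      rw [Int.cast_zero]
      exact Box.omz_zero
    have o1 : omz (((0 : ℤ) : ZMod 3) + 1) = om := by
      rw [Int.cast_zero, zero_add]
      exact Box.omz_one
    have hfin : ∀ f : ZMod 3 → ℂ, ∑ k : ZMod 3, f k = f 0 + f 1 + f 2 := fun f =>
      Fin.sum_univ_three f
    have o2 : omz 2 = om ^ 2 := by
      unfold omz
      rw [show ZMod.val (2 : ZMod 3) = 2 from rfl]
    rw [hfin, o0, o1, Box.omz_zero, Box.omz_one, o2, mul_one, mul_one] at g5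
    rw [show (0 : ZMod 3) + 1 = 1 from rfl, show (0 : ZMod 3) + 2 = 2 from rfl] at hsum
    set α0 : ℝ := (N.cnt (w j1) (w (j1 + 1)) 0 : ℝ) / ((N.hj (w j1) (w (j1 + 1))).card : ℝ) with hα0
    set α1 : ℝ := (N.cnt (w j1) (w (j1 + 1)) 1 : ℝ) / ((N.hj (w j1) (w (j1 + 1))).card : ℝ) with hα1
    set α2 : ℝ := (N.cnt (w j1) (w (j1 + 1)) 2 : ℝ) / ((N.hj (w j1) (w (j1 + 1))).card : ℝ) with hα2
    have hs : α0 + α1 + α2 = 1 := by
      rw [hα0, hα1, hα2, ← add_div, ← add_div, div_eq_one_iff_eq hHn.ne']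
      exact_mod_cast hsum
    have g6 : (α0 : ℂ) + α1 * om + α2 * om ^ 2 = ((1 - C.pr S 0 : ℝ) : ℂ) + (C.pr S 0 : ℂ) * om := by
      rw [← g5, hα0, hα1, hα2]
      push_cast
      ring
    have him := congrArg Complex.im g6
    have hre := congrArg Complex.re g6
    have r1 := Oscx63.om_re
    have n1 : om.re * om.re + om.im * om.im = 1 := by
      rw [← Complex.normSq_apply, Complex.normSq_eq_norm_sq, Oscx63.norm_om]
      norm_num
    simp only [Complex.add_im, Complex.add_re, Complex.mul_im, Complex.mul_re, Complex.ofReal_re,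
      Complex.ofReal_im, pow_two, zero_mul, add_zero, sub_zero, zero_add] at him hre
    rw [r1] at him hre n1
    have hii : om.im ≠ 0 := by
      intro h0
      rw [h0] at n1
      norm_num at n1
    have h2 : α1 - α2 = C.pr S 0 := by
      have : om.im * (α1 - α2 - C.pr S 0) = 0 := by linarith
      rcases mul_eq_zero.1 this with h3 | h3
      · exact absurd h3 hii
      · linarith
    have h3 : om.im * om.im = 3 / 4 := by linarith
    rw [h3] at hre
    show α1 = C.pr S 0
    linarith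

/-! ### links -/

theorem rot3 {V : Type} (x y z : V) : (y, z, x) ∈ rots (x, y, z) ∧ (z, x, y) ∈ rots (x, y, z) := by
  simp [rots]

/-- a triangle linked to triangles with vertices in the class `0` and in the class `2` is linked to
the hull edge of the ray `1` -/
theorem lk_f (O : C.Out S) {t s s' : ℂ × ℂ × ℂ} (hs : Lk (C.dom.netS S) t s)
    (hs' : Lk (C.dom.netS S) t s') {v v' : ℂ} (hv : v = s.1 ∨ v = s.2.1 ∨ v = s.2.2)
    (hv' : v' = s'.1 ∨ v' = s'.2.1 ∨ v' = s'.2.2) (h0 : v ∈ C.cls S 0) (h2 : v' ∈ C.cls S 2)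
    (ht : t ∈ delT S) {x : ℂ} (hx : ((C.ray S 1).1, (C.ray S 1).2, x) ∈ delT S) :
    Lk (C.dom.netS S) t ((C.ray S 1).1, (C.ray S 1).2, x) := by
  by_contra hcon
  have hS := O.gp
  set N := C.dom.netS S with hN
  have hT : N.T = delT S := O.hnet.tri
  obtain ⟨n, w, i0, i1, i2, i3, B, r1, r0, hA, -⟩ := exists_box O
  set g0 : ℂ → Bool := fun v => decide (v ∈ C.cls S 0) with hg0
  have same : ∀ {a b : ℂ} {i : ZMod 4}, a ∈ C.cls S i → b ∈ C.cls S i → g0 a = g0 b := by
    intro a b i ha hb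
    rw [hg0]
    simp only [decide_eq_decide]
    constructor
    · intro h
      rw [← Crs6x117.cls_uniq O ha h]; exact hb
    · intro h
      rw [← Crs6x117.cls_uniq O hb h]; exact ha
  set J : Finset (ℂ × ℂ) := N.E.filter fun p => g0 p.1 ≠ g0 p.2 ∧
    ∃ c, (p.1, p.2, c) ∈ delT S ∧ Lk N t (p.1, p.2, c) with hJ
  have mJ : ∀ a b, (a, b) ∈ J ↔ g0 a ≠ g0 b ∧ ∃ c, (a, b, c) ∈ delT S ∧ Lk N t (a, b, c) := by
    intro a b
    rw [hJ, Finset.mem_filter]
    constructor
    · exact fun h => h.2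
    · intro h
      refine ⟨?_, h⟩
      obtain ⟨-, c, hc, -⟩ := h
      rw [mem_E hT]
      exact Or.inl ⟨c, hc⟩
  -- hull edges in `J`
  have hullJ : ∀ a b, hullE S a b → (a, b) ∈ J → (a, b) = C.ray S 0 := by
    intro a b hab h
    obtain ⟨h1, c, h3, h4⟩ := (mJ a b).1 h
    rcases O.hull a b hab with ⟨k, hk⟩ | ⟨i, h5, h6⟩
    · have e1 := O.end1 k
      have e2 := O.end2 k
      rw [hk] at e1 e2
      have h5 : k = 0 ∨ k = 1 := by
        by_contra hc
        push Not at hc
        apply h1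
        have f1 : ¬ (a ∈ C.cls S 0) := fun h => by
          have := Crs6x117.cls_uniq O e1 h
          apply hc.2
          have h7 : ∀ k : ZMod 4, k - 1 = 0 → k = 1 := by decide
          exact h7 k this
        have f2 : ¬ (b ∈ C.cls S 0) := fun h => hc.1 (Crs6x117.cls_uniq O e2 h)
        rw [hg0]
        simp only [f1, f2, decide_false]
      rcases h5 with rfl | rfl
      · exact hk.symm
      · exfalso
        apply hcon
        have hab' : ((C.ray S 1).1, (C.ray S 1).2) = (a, b) := by rw [← hk]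
        rw [Prod.mk.injEq] at hab'
        rw [hab'.1, hab'.2] at hx ⊢
        have : c = x := N.uniq (by rw [hT]; exact h3) (by rw [hT]; exact hx)
        rw [← this]; exact h4
    · exact absurd (same h5 h6) h1
  have hr0 : hullE S (C.ray S 0).1 (C.ray S 0).2 := (O.ray 0).1
  set D' : Set (ℂ × ℂ) := {p | p = C.ray S 0 ∧ p ∈ J} with hD'
  have hDh : ∀ a b, (a, b) ∈ D' → hullE S a b := by
    rintro a b ⟨h1, -⟩
    rw [← h1] at hr0
    exact hr0
  have killg : ∀ a b, (a, b) ∈ N.kl → Crest.Agent.R143.JColx54.Adj S a b → g0 a = g0 b := by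
    intro a b h1 h3
    obtain ⟨i, h4, h5⟩ := O.kill a b (Crs6x117.adj_iff.2 h3) (Crs6x117.kl_sub O h1)
    exact same h4 h5
  -- crossing an edge
  have cross : ∀ a b, (a, b) ∈ J → (∃ c, (b, a, c) ∈ delT S) → (b, a) ∈ J := by
    rintro a b h ⟨c', hc'⟩
    obtain ⟨h1, c, h3, h4⟩ := (mJ a b).1 h
    have hk : (a, b) ∉ N.kl := fun h5 => h1 (killg a b h5 (Or.inl ⟨c, h3⟩))
    refine (mJ b a).2 ⟨fun e => h1 e.symm, c', hc', h4.trans (Lk.of_adj ?_)⟩
    exact ⟨a, b, c, c', by rw [hT]; exact h3, by rw [hT]; exact hc', Ex0x922.mem_rots_self _,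
      Ex0x922.mem_rots_self _, hk⟩
  have key : ∀ a b, (a, b) ∈ J → (a, b) ∉ D' → (b, a) ∈ J := by
    intro a b h h'
    by_cases hh : ∃ c, (b, a, c) ∈ delT S
    · exact cross a b h hh
    · exfalso
      push Not at hh
      obtain ⟨h1, c, h3, h4⟩ := (mJ a b).1 h
      exact h' ⟨hullJ a b ⟨⟨c, h3⟩, hh⟩ h, h⟩
  have hJoin : IsJoin N.toTrg N.kl ∅ D' J := by
    refine ⟨Finset.filter_subset _ _, ?_, ?_, ?_, ?_, ?_⟩
    · intro a b h1 h3
      exact ⟨fun h => key a b h h1, fun h => key b a h h3⟩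
    · rintro a b ⟨h1, h3⟩
      refine ⟨h3, fun h4 => ?_⟩
      obtain ⟨-, c, h5, -⟩ := (mJ b a).1 h4
      have := hr0.2
      rw [← h1] at this
      exact this c h5
    · intro a b h1 h3
      rw [hT] at h1
      have h4 : (b, a) ∉ J := fun h => by
        obtain ⟨-, c, h5, -⟩ := (mJ b a).1 h
        exact h1 c h5
      exact ⟨fun h => h4 (key a b h h3), h4⟩
    · intro a b h1 h3 h4
      refine ⟨fun h => ?_, fun h => ?_⟩
      · obtain ⟨h5, c, h6, -⟩ := (mJ a b).1 h
        exact h5 (killg a b h1 (Or.inl ⟨c, h6⟩))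
      · obtain ⟨h5, c, h6, -⟩ := (mJ b a).1 h
        exact h5 (killg b a (N.klsym _ _ h1) (Or.inl ⟨c, h6⟩))
    · intro a b c h
      have hdt : (a, b, c) ∈ delT S := by rw [← hT]; exact h
      have hr1 := delT_rot hS hdt
      have hr2 := delT_rot hS hr1
      simp only [Set.mem_empty_iff_false, if_false]
      by_cases hl : Lk N t (a, b, c)
      · have m1 : (a, b) ∈ J ↔ g0 a ≠ g0 b := by
          rw [mJ]; exact ⟨fun h => h.1, fun h => ⟨h, c, hdt, hl⟩⟩
        have m2 : (b, c) ∈ J ↔ g0 b ≠ g0 c := by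
          rw [mJ]; exact ⟨fun h => h.1, fun h => ⟨h, a, hr1, hl.trans (Lk.of_rots (rot3 a b c).1)⟩⟩
        have m3 : (c, a) ∈ J ↔ g0 c ≠ g0 a := by
          rw [mJ]; exact ⟨fun h => h.1, fun h => ⟨h, b, hr2, hl.trans (Lk.of_rots (rot3 a b c).2)⟩⟩
        simp only [m1, m2, m3]
        generalize g0 a = p, g0 b = q, g0 c = r
        revert p q r
        decide
      · have m1 : (a, b) ∉ J := by
          rw [mJ]
          rintro ⟨-, e, h5, h6⟩
          have := N.uniq h (by rw [hT]; exact h5)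
          rw [← this] at h6
          exact hl h6
        have m2 : (b, c) ∉ J := by
          rw [mJ]
          rintro ⟨-, e, h5, h6⟩
          have := N.uniq (N.rot h) (by rw [hT]; exact h5)
          rw [← this] at h6
          exact hl (h6.trans (Lk.of_rots (rot3 b c a).2))
        have m3 : (c, a) ∉ J := by
          rw [mJ]
          rintro ⟨-, e, h5, h6⟩
          have := N.uniq (N.rot (N.rot h)) (by rw [hT]; exact h5)
          rw [← this] at h6
          exact hl (h6.trans (Lk.of_rots (rot3 c a b).1))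
        simp [m1, m2, m3]
  obtain ⟨χ, hχ⟩ := join_col hS hT (fun a b h => (hDh a b h).2) hJoin
  have hχc := isCol_of_join hT hDh hJoin hχ
  -- the hull
  have q30 := B.m4.h30
  have q0 := B.m4.h01
  have q1 := B.m4.h12
  have q2 := B.m4.h23
  have hullc : ∀ j, i0 + 1 ≤ j → j < i0 + n → χ (w j) = χ (w (j + 1)) := by
    intro j h1 h3
    refine hχc.hull _ _ (B.m4.cyc.edge j) ?_
    rintro ⟨h4, -⟩
    rw [r0] at h4
    exact hm_ne B.m4.cyc (i := i0) (j := j) (by linarith) (by linarith) h4.symm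
  have hullk : ∀ j, i0 + 1 ≤ j → j ≤ i0 + n → χ (w (i0 + 1)) = χ (w j) := fun j h1 h3 =>
    w_const h1 fun k h4 h5 => hullc k h4 (by linarith)
  have hD0 : D' = ∅ := by
    rw [Set.eq_empty_iff_forall_notMem]
    rintro p hp
    have h1 := hχc.mark p.1 p.2 hp
    obtain ⟨h3, -⟩ := hp
    rw [h3, r0] at h1
    apply h1
    show χ (w i0) = χ (w (i0 + 1))
    rw [hullk (i0 + n) (by linarith) le_rfl, B.m4.cyc.per]
  -- all the classes have one colour
  have clsc : ∀ i, ∀ a ∈ C.cls S i, ∀ b ∈ C.cls S i, χ a = χ b := by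
    intro i a ha b hb
    have h1 := O.con i a ha b hb
    clear hb
    induction h1 with
    | refl => rfl
    | @tail x y _ hxy ih =>
      rw [ih]
      obtain ⟨-, -, h3⟩ := hxy
      rcases h3 with ⟨h3, h4⟩ | ⟨h3, -⟩
      · refine hχc.kill _ _ (Crs6x117.adj_iff.1 h3) ((ClsCx697.kl_iff O).2 h4) ?_ ?_
        · rw [hD0]; simp
        · rw [hD0]; simp
      · rcases h3 with h3 | h3
        · exact hχc.hull _ _ h3 (by rw [hD0]; simp)
        · exact (hχc.hull _ _ h3 (by rw [hD0]; simp)).symm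
  have hc0 : ∀ i a, a ∈ C.cls S i → χ a = χ (w (i0 + 1)) := by
    intro i a ha
    have h1 := clsc i a ha _ (O.end2 i)
    rw [h1]
    obtain ⟨k, h3, h4, h5, h6⟩ := B.m4.cyc.all _ _ ((O.ray i).1)
    -- shift the position
    rw [← h6]
    have hn : (0 : ℤ) < n := by exact_mod_cast B.m4.cyc.pos
    have h7 := mod_per B.m4.cyc.pos B.m4.cyc.per (k + 1 - (i0 + 1))
    obtain ⟨q, hq1, hq2, hq3⟩ : ∃ q, i0 + 1 ≤ q ∧ q < i0 + 1 + n ∧ w q = w (k + 1) := by
      refine ⟨i0 + 1 + (k + 1 - (i0 + 1)) % n, by linarith [Int.emod_nonneg (k + 1 - (i0 + 1)) hn.ne'],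
        by linarith [Int.emod_lt_of_pos (k + 1 - (i0 + 1)) hn], ?_⟩
      have hper : ∀ i, (fun j => w (i0 + 1 + j)) (i + n) = (fun j => w (i0 + 1 + j)) i := by
        intro i
        show w (i0 + 1 + (i + n)) = w (i0 + 1 + i)
        rw [← add_assoc, B.m4.cyc.per]
      have := mod_per (w := fun j => w (i0 + 1 + j)) B.m4.cyc.pos hper (k + 1 - (i0 + 1))
      rw [this]
      congr 1
      ring
    rw [← hq3]
    exact (hullk q hq1 (by linarith)).symm
  -- the function `χ xor g0` is constant on the linked triangles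
  have tri1 : ∀ a b c, (a, b, c) ∈ delT S → Lk N t (a, b, c) → xor (χ a) (g0 a) = xor (χ b) (g0 b) := by
    intro a b c h hl
    have h1 := hχ a b (Or.inl ⟨c, h⟩)
    have h3 : ((a, b) ∈ J ∨ (b, a) ∈ J) ↔ g0 a ≠ g0 b := by
      constructor
      · rintro (h4 | h4)
        · exact ((mJ a b).1 h4).1
        · exact fun e => ((mJ b a).1 h4).1 e.symm
      · intro h4
        exact Or.inl ((mJ a b).2 ⟨h4, c, h, hl⟩)
    rw [h3] at h1
    revert h1
    generalize χ a = p, χ b = q, g0 a = r, g0 b = u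
    revert p q r u
    decide
  set ps : ℂ → Bool := fun v => xor (χ v) (g0 v) with hps
  have tri2 : ∀ s ∈ delT S, Lk N t s → ps s.2.1 = ps s.1 ∧ ps s.2.2 = ps s.1 := by
    rintro ⟨a, b, c⟩ h hl
    have h1 := tri1 a b c h hl
    have h3 := tri1 b c a (delT_rot hS h) (hl.trans (Lk.of_rots (rot3 a b c).1))
    exact ⟨h1.symm, (h1.trans h3).symm⟩
  have tri3 : ∀ s, Lk N t s → ps s.1 = ps t.1 ∧ s ∈ delT S := by
    intro s hs
    have hs2 : Lk N t s := hs
    induction hs with
    | refl => exact ⟨rfl, ht⟩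
    | @tail a b h1 h3 ih =>
      obtain ⟨ih1, ih2⟩ := ih h1
      have hb : b ∈ delT S := by
        rw [← hT]
        exact Lk.mem (N := N) (t := a) (Relation.ReflTransGen.single h3) (by rw [hT]; exact ih2)
      refine ⟨?_, hb⟩
      rw [← ih1]
      have ta := tri2 a ih2 h1
      have tb := tri2 b hb hs2
      rcases h3 with h3 | ⟨p, q, c, c', h4, h5, h6, h7, h8⟩
      · simp only [rots, Set.mem_insert_iff, Set.mem_singleton_iff] at h3
        rcases h3 with rfl | rfl | rfl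
        · rfl
        · exact ta.1
        · exact ta.2
      · simp only [rots, Set.mem_insert_iff, Set.mem_singleton_iff] at h6 h7
        have pa : ps p = ps a.1 := by
          rcases h6 with h6 | h6 | h6
          · rw [show p = a.1 from congrArg (fun t => t.1) h6]
          · rw [show p = a.2.1 from congrArg (fun t => t.1) h6]; exact ta.1
          · rw [show p = a.2.2 from congrArg (fun t => t.1) h6]; exact ta.2
        have pb : ps p = ps b.1 := by
          rcases h7 with h7 | h7 | h7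
          · rw [show p = b.2.1 from congrArg (fun t => t.2.1) h7]; exact tb.1
          · rw [show p = b.2.2 from congrArg (fun t => t.2.1) h7]; exact tb.2
          · rw [show p = b.1 from congrArg (fun t => t.2.1) h7]
        rw [← pa, pb]
  have e1 : ps v = ps t.1 := by
    obtain ⟨h1, h3⟩ := tri3 s hs
    have h4 := tri2 s h3 hs
    rcases hv with rfl | rfl | rfl
    · exact h1
    · rw [h4.1]; exact h1
    · rw [h4.2]; exact h1
  have e2 : ps v' = ps t.1 := by
    obtain ⟨h1, h3⟩ := tri3 s' hs'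
    have h4 := tri2 s' h3 hs'
    rcases hv' with rfl | rfl | rfl
    · exact h1
    · rw [h4.1]; exact h1
    · rw [h4.2]; exact h1
  have e3 : ps v = ps v' := e1.trans e2.symm
  rw [hps] at e3
  simp only at e3
  rw [hc0 0 v h0, hc0 2 v' h2] at e3
  have g1 : g0 v = true := by rw [hg0]; simpa using h0
  have g2 : g0 v' = false := by
    rw [hg0]
    simp only [decide_eq_false_iff_not]
    intro h
    have := Crs6x117.cls_uniq O h h2
    exact absurd this (by decide)
  rw [g1, g2] at e3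
  revert e3
  generalize χ (w (i0 + 1)) = p
  revert p
  decide

/-! ### walks from the class `0` to the class `2` -/

/-- vertex of a triangle -/
def Vt (t : ℂ × ℂ × ℂ) (v : ℂ) : Prop := v = t.1 ∨ v = t.2.1 ∨ v = t.2.2

theorem vt_of_side {N : Net ℂ} {t : ℂ × ℂ × ℂ} {e : ℂ × ℂ} (h : LSide N t e) :
    Vt t e.1 ∧ Vt t e.2 := by
  obtain ⟨-, h⟩ := h
  unfold Vt
  rcases h with rfl | rfl | rfl | rfl | rfl | rfl <;> simp

/-- at most three vertices -/
theorem four {t : ℂ × ℂ × ℂ} {x y z u : ℂ} (hx : Vt t x) (hy : Vt t y) (hz : Vt t z) (hu : Vt t u)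
    (h1 : x ≠ y) (h2 : x ≠ z) (h3 : x ≠ u) (h4 : y ≠ z) (h5 : y ≠ u) (h6 : z ≠ u) : False := by
  have hc : ({x, y, z, u} : Finset ℂ).card = 4 := by
    rw [Finset.card_insert_of_notMem (by simp [h1, h2, h3]),
      Finset.card_insert_of_notMem (by simp [h4, h5]), Finset.card_pair h6]
  have hs : ({x, y, z, u} : Finset ℂ) ⊆ {t.1, t.2.1, t.2.2} := by
    intro v hv
    simp only [Finset.mem_insert, Finset.mem_singleton] at hv ⊢
    rcases hv with rfl | rfl | rfl | rfl
    · exact hx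
    · exact hy
    · exact hz
    · exact hu
  have h7 := Finset.card_le_card hs
  have h8 : ({t.1, t.2.1, t.2.2} : Finset ℂ).card ≤ 3 := Finset.card_le_three
  omega

/-- the network without killed edges -/
def net0 (N : Net ℂ) : Net ℂ where
  toTrg := N.toTrg
  kl := ∅
  klsym := fun _ _ h => h
  ex := N.ex

/-- **walks between two sets of sites**: every vertex is in `P`, in `Q` or inner -/
theorem extract {N : Net ℂ} {A : Finset (ℂ × ℂ × ℂ)} {P Q I : Set ℂ}
    (hA : ∀ t ∈ A, t ∈ N.T)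
    (hvert : ∀ t ∈ A, ∀ v, Vt t v → v ∈ P ∨ v ∈ Q ∨ v ∈ I)
    (hno : ∀ t ∈ A, ∀ v v', Vt t v → Vt t v' → v ∈ P → v' ∉ Q)
    (hIP : ∀ v ∈ I, v ∉ P) (hIQ : ∀ v ∈ I, v ∉ Q)
    (hlive : ∀ v ∈ I, ∀ u, (v, u) ∉ N.kl) {g g' : ℂ × ℂ}
    (h : Conn (net0 N) A g g') (hg : g.1 ∈ P ∨ g.2 ∈ P) (hg' : g'.1 ∈ Q ∨ g'.2 ∈ Q) :
    (g = g') ∨ ∃ e e', (e.1 ∈ P ∨ e.2 ∈ P) ∧ (e'.1 ∈ Q ∨ e'.2 ∈ Q) ∧ Conn N A e e' ∧
      (∃ t ∈ A, LSide N t e) ∧ ∃ t ∈ A, LSide N t e' := by
  have hlive' : ∀ v ∈ I, ∀ u, (u, v) ∉ N.kl := fun v hv u h => hlive v hv u (N.klsym _ _ h)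
  set Con : Prop := ∃ e e', (e.1 ∈ P ∨ e.2 ∈ P) ∧ (e'.1 ∈ Q ∨ e'.2 ∈ Q) ∧ Conn N A e e' ∧
      (∃ t ∈ A, LSide N t e) ∧ ∃ t ∈ A, LSide N t e' with hCon
  set W : ℂ × ℂ → Prop := fun e => ∃ e', (e'.1 ∈ Q ∨ e'.2 ∈ Q) ∧ Conn N A e e' ∧
    ∃ t ∈ A, LSide N t e' with hW
  have side_ne : ∀ t ∈ A, ∀ e, LSide (net0 N) t e → e.1 ≠ e.2 := by
    intro t ht e he
    have h1 := N.ne (hA t ht)
    have h2 := N.ne (N.rot (hA t ht))
    have h3 := N.ne (N.rot (N.rot (hA t ht)))
    obtain ⟨-, he⟩ := he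
    rcases he with rfl | rfl | rfl | rfl | rfl | rfl
    · exact h1
    · exact h2
    · exact h3
    · exact h1.symm
    · exact h2.symm
    · exact h3.symm
  -- a side of a triangle with two inner vertices, and another vertex, is live
  have liveside : ∀ t ∈ A, ∀ e e1, LSide (net0 N) t e → LSide (net0 N) t e1 →
      (e.1 ∈ I ∧ e.2 ∈ I) → LSide N t e1 := by
    intro t ht e e1 he he1 hI
    refine ⟨?_, he1.2⟩
    have v1 := vt_of_side he
    have v2 := vt_of_side he1
    have n1 := side_ne t ht e he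
    have n2 := side_ne t ht e1 he1
    by_contra hk
    have a1 : e1.1 ∉ I := fun h => hlive _ h _ hk
    have a2 : e1.2 ∉ I := fun h => hlive' _ h _ hk
    exact four v1.1 v1.2 v2.1 v2.2 n1 (fun h => a1 (h ▸ hI.1)) (fun h => a2 (h ▸ hI.1))
      (fun h => a1 (h ▸ hI.2)) (fun h => a2 (h ▸ hI.2)) n2
  have main : ((g.1 ∈ I ∧ g.2 ∈ I) → W g ∨ Con) ∧ ((g.1 ∈ P ∨ g.2 ∈ P) → g = g' ∨ Con) := by
    clear hg
    induction h using Relation.ReflTransGen.head_induction_on with
    | refl =>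
      refine ⟨fun h => ?_, fun _ => Or.inl rfl⟩
      exfalso
      rcases hg' with h1 | h1
      · exact hIQ _ h.1 h1
      · exact hIQ _ h.2 h1
    | @head e e1 hst hrest ih =>
      obtain ⟨t, ht, hs, hs1⟩ := hst
      obtain ⟨ihI, ihP⟩ := ih
      have v1 := vt_of_side hs
      have v2 := vt_of_side hs1
      -- type of `e1`
      have hty : (e1.1 ∈ P ∨ e1.2 ∈ P) ∨ (e1.1 ∈ Q ∨ e1.2 ∈ Q) ∨ (e1.1 ∈ I ∧ e1.2 ∈ I) := by
        rcases hvert t ht _ v2.1 with a | a | a
        · exact Or.inl (Or.inl a)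
        · exact Or.inr (Or.inl (Or.inl a))
        · rcases hvert t ht _ v2.2 with b | b | b
          · exact Or.inl (Or.inr b)
          · exact Or.inr (Or.inl (Or.inr b))
          · exact Or.inr (Or.inr ⟨a, b⟩)
      constructor
      · intro hI
        have hsL : LSide N t e := liveside t ht e e hs hs hI
        have hs1L : LSide N t e1 := liveside t ht e e1 hs hs1 hI
        have hstep : Conn N A e e1 := Relation.ReflTransGen.single ⟨t, ht, hsL, hs1L⟩
        by_cases hQ : e1.1 ∈ Q ∨ e1.2 ∈ Q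
        · exact Or.inl ⟨e1, hQ, hstep, t, ht, hs1L⟩
        · rcases hty with h1 | h1 | h1
          · rcases ihP h1 with h2 | h2
            · rw [h2] at hQ
              exact absurd hg' hQ
            · exact Or.inr h2
          · exact absurd h1 hQ
          · rcases ihI h1 with ⟨e', h2, h3, h4⟩ | h2
            · exact Or.inl ⟨e', h2, hstep.trans h3, h4⟩
            · exact Or.inr h2
      · intro hP
        right
        have noQ : ¬ (e1.1 ∈ Q ∨ e1.2 ∈ Q) := by
          rintro (h1 | h1) <;> rcases hP with h2 | h2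
          · exact hno t ht _ _ v1.1 v2.1 h2 h1
          · exact hno t ht _ _ v1.2 v2.1 h2 h1
          · exact hno t ht _ _ v1.1 v2.2 h2 h1
          · exact hno t ht _ _ v1.2 v2.2 h2 h1
        rcases hty with h1 | h1 | h1
        · rcases ihP h1 with h2 | h2
          · rw [h2] at noQ
            exact absurd hg' noQ
          · exact h2
        · exact absurd h1 noQ
        · have hs1L : LSide N t e1 := liveside t ht e1 e1 hs1 hs1 h1
          have hsL : LSide N t e := liveside t ht e1 e hs1 hs h1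
          rcases ihI h1 with ⟨e', h2, h3, h4⟩ | h2
          · exact ⟨e, e', hP, h2, Relation.ReflTransGen.head ⟨t, ht, hsL, hs1L⟩ h3, ⟨t, ht, hsL⟩, h4⟩
          · exact h2
  exact main.2 hg

/-- links along a walk -/
theorem lk_conn {N : Net ℂ} {A : Finset (ℂ × ℂ × ℂ)} (hA : ∀ t ∈ A, t ∈ N.T)
    {t0 : ℂ × ℂ × ℂ} (h0 : t0 ∈ N.T) {e f : ℂ × ℂ} (he : LSide N t0 e) (h : Conn N A e f) :
    ∀ s ∈ N.T, LSide N s f → Lk N t0 s := by
  induction h with
  | refl => exact fun s hs hf => T6Dx697.lk_side h0 hs he hf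
  | tail _ hst ih =>
    obtain ⟨t, ht, h1, h2⟩ := hst
    intro s hs hf
    exact (ih t (hA t ht) h1).trans (T6Dx697.lk_side (hA t ht) hs h2 hf)

/-! ### the lower bound -/

theorem norm_om_ge {k : ZMod 3} (hk : k = 1 ∨ k = 2) : 3 / 2 ≤ ‖omz k - 1‖ := by
  have r1 := Oscx63.om_re
  have h1 : (omz k).re = -1 / 2 := by
    rcases hk with rfl | rfl
    · rw [Box.omz_one]; exact r1
    · have : omz 2 = om ^ 2 := by
        unfold omz
        rw [show ZMod.val (2 : ZMod 3) = 2 from rfl]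
      rw [this, ← Rswx63.conj_om]
      simpa using r1
  have h2 := Complex.abs_re_le_norm (omz k - 1)
  rw [Complex.sub_re, Complex.one_re, h1] at h2
  norm_num at h2
  linarith

/-- values at the class `2` -/
theorem far_two (O : C.Out S) {e : ℂ × ℂ} (he : e.1 ∈ C.cls S 2 ∨ e.2 ∈ C.cls S 2)
    {a b c : ℂ} (ht : (a, b, c) ∈ delT S) (hab : e = (a, b) ∨ e = (b, a))
    (hk : (a, b) ∉ (C.dom.netS S).kl) (hne : ((C.dom.netS S).tj (a, b, c)).Nonempty) :
    3 / 2 ≤ ‖(C.dom.netS S).F e.1 e.2 - 1‖ := by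
  set N := C.dom.netS S with hN
  have hT : N.T = delT S := O.hnet.tri
  have hFc : N.F e.1 e.2 = N.F a b := by
    rcases hab with rfl | rfl
    · rfl
    · exact Oscx63.F_comm N b a
  have hA : a ∈ C.cls S 2 ∨ b ∈ C.cls S 2 := by
    rcases hab with rfl | rfl
    · exact he
    · exact he.symm
  rw [hFc]
  by_cases hex : ∃ k, N.ex k = (a, b) ∨ N.ex k = (b, a)
  · have hF : N.F a b = omz hex.choose := by
      unfold Net.F
      rw [dif_pos hex]
    rw [hF]
    apply norm_om_ge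
    have h0 : hex.choose ≠ 0 := by
      intro h0
      have h1 := hex.choose_spec
      rw [h0, hN, Crs6x117.ex0 O] at h1
      have e1 := O.end1 0
      have e2 := O.end2 0
      rcases h1 with h1 | h1
      · rw [h1] at e1 e2
        rcases hA with h2 | h2
        · exact absurd (Crs6x117.cls_uniq O e1 h2) (by decide)
        · exact absurd (Crs6x117.cls_uniq O e2 h2) (by decide)
      · rw [h1] at e1 e2
        rcases hA with h2 | h2
        · exact absurd (Crs6x117.cls_uniq O e2 h2) (by decide)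
        · exact absurd (Crs6x117.cls_uniq O e1 h2) (by decide)
    rcases Box.z3 hex.choose with h1 | h1 | h1
    · exact absurd h1 h0
    · exact Or.inl h1
    · exact Or.inr h1
  · push Not at hex
    have h1 : (a, b) ∉ N.exS := by rintro ⟨k, hk'⟩; exact (hex k).1 hk'
    have h2 : (b, a) ∉ N.exS := by rintro ⟨k, hk'⟩; exact (hex k).2 hk'
    have ht' : (a, b, c) ∈ N.T := by rw [hT]; exact ht
    have hk' : (b, a) ∉ N.kl := fun h => hk (N.klsym _ _ h)
    have hcard := card_half (G := N.toTrg) (kl := N.kl) (D := N.exS) ht' hk hk' h1 h2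
    have hpos : 0 < (N.tj (a, b, c)).card := Finset.card_pos.2 hne
    have hne' : (N.hj a b).Nonempty ∨ (N.hj b a).Nonempty := by
      by_contra hcon
      push Not at hcon
      unfold Net.tj at hpos
      unfold Net.hj at hcon
      rw [← hcard, hcon.1, hcon.2] at hpos
      simp at hpos
    have hsd : ∀ v ∈ C.cls S 2, Sidesx697.Side N 1 v := by
      intro v hv
      have := ClsCx697.cls_side (by norm_num) O hv
      have h3 : ClsCx697.arcOf 4 2 = 1 := by decide
      rwa [h3] at this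
    have hside : Sidesx697.Side N 1 a ∨ Sidesx697.Side N 1 b := by
      rcases hA with h | h
      · exact Or.inl (hsd _ h)
      · exact Or.inr (hsd _ h)
    obtain ⟨p0, p1, pF⟩ := Sidesx697.F_side O.hnet h1 h2 (i := 1) hside hne'
    rw [show (1 : ZMod 3) + 1 = 2 from rfl] at p0 p1 pF
    have hre : (N.F a b).re = -1 / 2 := by
      have r1 := Oscx63.om_re
      have h3 : (omz 1).re = -1 / 2 := by rw [Box.omz_one]; exact r1
      have h4 : (omz 2).re = -1 / 2 := by
        have : omz 2 = om ^ 2 := by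
          unfold omz
          rw [show ZMod.val (2 : ZMod 3) = 2 from rfl]
        rw [this, ← Rswx63.conj_om]
        simpa using r1
      rw [pF, Complex.add_re, Complex.re_ofReal_mul, Complex.re_ofReal_mul, h3, h4]
      ring
    have h2 := Complex.abs_re_le_norm (N.F a b - 1)
    rw [Complex.sub_re, Complex.one_re, hre] at h2
    norm_num at h2
    linarith

/-- joins exist at a triangle linked to the hull edge of the ray `1` -/
theorem tj_of_lk (O : C.Out S) {t : ℂ × ℂ × ℂ} (ht : t ∈ delT S) {x : ℂ}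
    (hx : ((C.ray S 1).1, (C.ray S 1).2, x) ∈ delT S)
    (h : Lk (C.dom.netS S) t ((C.ray S 1).1, (C.ray S 1).2, x)) :
    ((C.dom.netS S).tj t).Nonempty := by
  set N := C.dom.netS S with hN
  have hT : N.T = delT S := O.hnet.tri
  obtain ⟨J, hJ⟩ := Crs6x117.hj_ne O
  obtain ⟨K, hK⟩ := Exx395.chain_isJoin h
  have hJ := mem_joins.1 hJ
  have hr1 : hullE S (C.ray S 1).1 (C.ray S 1).2 := (O.ray 1).1
  have hlive : ((C.ray S 1).1, (C.ray S 1).2) ∉ N.kl := by
    intro h'
    exact ClsCx697.ray_live O 1 (Or.inl rfl) (Crs6x117.kl_sub O h')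
  have hnx : ((C.ray S 1).1, (C.ray S 1).2) ∉ N.exS := Crs6x117.ray1_exS O
  have hnx' : ((C.ray S 1).2, (C.ray S 1).1) ∉ N.exS := by
    intro h'
    exact hullE_asymm hr1 (exS_hull O.hnet h')
  have h1 := erase_isJoin (G := N.toTrg) (kl := N.kl) (D := N.exS) (by rw [hT]; exact hx) hlive
    (fun h' => hlive (N.klsym _ _ h')) hnx hnx' hJ
  have h2 := xor_isJoin hK (D := N.exS) (fun x hx => by
    obtain ⟨k, rfl⟩ := hx
    exact (hK.bdr _ _ (by rw [hT]; exact (O.hnet.hex k).2) (by simp)).1) h1.1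
  have e : symmDiff (rots ((C.ray S 1).1, (C.ray S 1).2, x))
      (symmDiff (rots t) (rots ((C.ray S 1).1, (C.ray S 1).2, x))) = rots t := by
    rw [symmDiff_comm (rots t), symmDiff_symmDiff_cancel_left]
  rw [e] at h2
  exact ⟨_, mem_joins.2 h2⟩

/-- **lower bound for the crossing probability** -/
theorem core (hE : E3) (O : C.Out S) {z1 u : ℂ} (hu : ‖u‖ = 1) {l w C4 : ℝ} (hl : 0 ≤ l)
    (hw : 0 < w) (hC4 : 0 ≤ C4)
    (hcov : ∀ h ∈ Icc 0 w, ∀ x ∈ par z1 u l h, ∃ t ∈ delT S, x ∈ cT t)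
    (hvert : ∀ h ∈ Icc 0 w, ∀ t ∈ delT S, (cT t ∩ par z1 u l h).Nonempty → ∀ v, Vt t v →
      v ∈ C.cls S 0 ∨ v ∈ C.cls S 2 ∨ v ∈ (C.inn S : Set ℂ))
    (hno : ∀ h ∈ Icc 0 w, ∀ t ∈ delT S, (cT t ∩ par z1 u l h).Nonempty → ∀ v v', Vt t v → Vt t v' →
      v ∈ C.cls S 0 → v' ∉ C.cls S 2)
    (hfst : ∀ h ∈ Icc 0 w, ∃ t ∈ delT S, (cT t ∩ par z1 u l h).Nonempty ∧ ∃ v, Vt t v ∧
      v ∈ C.cls S 0)
    (hlst : ∀ h ∈ Icc 0 w, ∃ t ∈ delT S, (cT t ∩ par z1 u l h).Nonempty ∧ ∃ v, Vt t v ∧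
      v ∈ C.cls S 2)
    (hdm : ∀ h ∈ Icc 0 w, ∀ t ∈ delT S, (cT t ∩ par z1 u l h).Nonempty → dm t ≤ w / 800)
    (hM : ∀ s ∈ Icc 0 l, ∑ t ∈ (delT S).filter (fun t => (cT t ∩
      Metric.closedBall (z1 + u * ((s : ℂ) + ((w / 2 : ℝ) : ℂ) * Complex.I)) w).Nonempty),
      dm t ^ 2 ≤ C4 * w ^ 2) :
    Real.sqrt 3 / 2 * Real.exp (-(1 + 1152 * (C4 * (l / w + 1)))) ≤ C.pr S 0 := by
  by_contra hcon
  push Not at hcon
  have hS := O.gp
  set N := C.dom.netS S with hN
  have hT : N.T = delT S := O.hnet.tri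
  set K : ℝ := 1 + 1152 * (C4 * (l / w + 1)) with hK
  have hK0 : 0 ≤ K := by rw [hK]; positivity
  obtain ⟨n, ww, i0, i1, i2, i3, B, r1, r0, hA, hp⟩ := exists_box O
  have hpr : 0 ≤ C.pr S 0 := by rw [← hp]; unfold Box.p; positivity
  -- representatives of the triangles of the strip
  set T0 : Finset (ℂ × ℂ × ℂ) := (delT S).filter fun t => ∃ h ∈ Icc (0 : ℝ) w,
    (cT t ∩ par z1 u l h).Nonempty with hT0
  obtain ⟨U, hUT, hrep, hcovU⟩ := T6Dx697.reps T0
  have hUS : U ⊆ delT S := hUT.trans (Finset.filter_subset _ _)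
  have hUm : ∀ t ∈ U, ∃ h ∈ Icc (0 : ℝ) w, (cT t ∩ par z1 u l h).Nonempty := fun t ht =>
    (Finset.mem_filter.1 (hUT ht)).2
  -- relations
  have vtU : ∀ t ∈ U, ∀ v, Vt t v → v ∈ C.cls S 0 ∨ v ∈ C.cls S 2 ∨ v ∈ (C.inn S : Set ℂ) := by
    intro t ht v hv
    obtain ⟨h, hh, hm⟩ := hUm t ht
    exact hvert h hh t (hUS ht) hm v hv
  have hnoex : ∀ t ∈ U, ∀ a b, Vt t a → Vt t b → (a, b) ∉ N.exS := by
    intro t ht a b ha hb hex
    obtain ⟨k, hk1, hk⟩ := (Crs6x117.mem_exS O).1 hex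
    have e1 := O.end1 k
    have e2 := O.end2 k
    rw [hk] at e1 e2
    have a1 : k - 1 = 0 ∨ k - 1 = 2 := by
      rcases vtU t ht a ha with h | h | h
      · exact Or.inl (Crs6x117.cls_uniq O e1 h)
      · exact Or.inr (Crs6x117.cls_uniq O e1 h)
      · exact absurd e1 ((Crs6x117.mem_inn.1 (Finset.mem_coe.1 h)).2 _)
    have a2 : k = 0 ∨ k = 2 := by
      rcases vtU t ht b hb with h | h | h
      · exact Or.inl (Crs6x117.cls_uniq O e2 h)
      · exact Or.inr (Crs6x117.cls_uniq O e2 h)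
      · exact absurd e2 ((Crs6x117.mem_inn.1 (Finset.mem_coe.1 h)).2 _)
    have h3 : ∀ k : ZMod 4, (k - 1 = 0 ∨ k - 1 = 2) → ¬ (k = 0 ∨ k = 2) := by decide
    exact h3 k a1 a2
  have hR : ∀ t ∈ U, RelAt N t := by
    intro t ht
    refine Rel2x63.relAt O.hnet (hUS ht) (Or.inr ⟨?_, ?_, ?_⟩)
    · exact hnoex t ht _ _ (Or.inl rfl) (Or.inr (Or.inl rfl))
    · exact hnoex t ht _ _ (Or.inr (Or.inl rfl)) (Or.inr (Or.inr rfl))
    · exact hnoex t ht _ _ (Or.inr (Or.inr rfl)) (Or.inl rfl)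
  have hdis : Dis U (hcen N) N.Q :=
    Tiling2x395.dis2 O.hnet hE (ClsCx697.sides2 (by norm_num) O) hUS hrep
  -- the family
  obtain ⟨J, lam, p, hG, hcw⟩ := par_fam U hUS z1 hu l hw
  have hF := hG.fam (hcen N) N.Q
  have hc : ∀ t ∈ U, cw J lam (fun s => s) t ≤ 1 / 800 := by
    intro t ht
    obtain ⟨h, hh, hm⟩ := hUm t ht
    refine (hcw t ht).trans ?_
    rw [div_le_iff₀ hw]
    have := hdm h hh t (hUS ht) hm
    linarith
  have hsq : ∑ t ∈ U, cw J lam (fun s => s) t ^ 2 ≤ C4 * (l / w + 1) := by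
    refine par_sq hu hw hC4 hl hG hcw fun s hs => ?_
    refine le_trans (Finset.sum_le_sum_of_subset_of_nonneg ?_ fun t _ _ => sq_nonneg _) (hM s hs)
    intro t ht
    obtain ⟨h1, h2⟩ := Finset.mem_filter.1 ht
    exact Finset.mem_filter.2 ⟨hUS h1, h2⟩
  -- the walks
  have hwalk : ∀ s ∈ J, ∃ e e' : ℂ × ℂ, Conn N s e e' ∧ ‖N.F e.1 e.2 - 1‖ ≤ Real.sqrt 3 * C.pr S 0 ∧
      3 / 2 ≤ ‖N.F e'.1 e'.2 - 1‖ := by
    intro s hs
    have hh := hG.mem s hs
    have hsU := hG.sub s hs
    have hAc : ∀ t ∈ delT S, (cT t ∩ par z1 u l (p s)).Nonempty → ∃ t' ∈ s, t' ∈ rots t := by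
      intro t ht hm
      obtain ⟨t', ht', hr⟩ := hcovU t (Finset.mem_filter.2 ⟨ht, _, hh, hm⟩)
      refine ⟨t', hG.hit s hs t' ht' ?_, hr⟩
      rwa [cT_rots hr]
    obtain ⟨t1, ht1, hm1, v1, hv1, hv1c⟩ := hfst _ hh
    obtain ⟨t2, ht2, hm2, v2, hv2, hv2c⟩ := hlst _ hh
    have side_at : ∀ t : ℂ × ℂ × ℂ, ∀ v, Vt t v → ∃ e, LSide (net0 N) t e ∧ e.1 = v := by
      rintro ⟨a, b, c⟩ v hv
      rcases hv with h | h | h
      · exact ⟨(a, b), ⟨fun h => h, Or.inl rfl⟩, h.symm⟩
      · exact ⟨(b, c), ⟨fun h => h, Or.inr (Or.inl rfl)⟩, h.symm⟩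
      · exact ⟨(c, a), ⟨fun h => h, Or.inr (Or.inr (Or.inl rfl))⟩, h.symm⟩
    obtain ⟨g, hg1, hg2⟩ := side_at t1 v1 hv1
    obtain ⟨g', hg1', hg2'⟩ := side_at t2 v2 hv2
    have hconn : Conn (net0 N) s g g' := by
      refine conn_all (N := net0 N) hS (par_conn z1 u l (p s)) (hcov _ hh) (hG.off s hs)
        (fun _ _ _ _ _ _ _ h => h) hAc ht1 hm1 ht2 hm2 hg1 hg1'
    have hsT : ∀ t ∈ s, t ∈ N.T := fun t ht => by rw [hT]; exact hUS (hsU ht)
    have hext := extract (N := N) (A := s) (P := C.cls S 0) (Q := C.cls S 2)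
      (I := (C.inn S : Set ℂ)) hsT (fun t ht v hv => vtU t (hsU ht) v hv)
      (fun t ht v v' hv hv' h1 => by
        obtain ⟨h, hh', hm⟩ := hUm t (hsU ht)
        exact hno h hh' t (hUS (hsU ht)) hm v v' hv hv' h1)
      (fun v hv => (Crs6x117.mem_inn.1 (Finset.mem_coe.1 hv)).2 0)
      (fun v hv => (Crs6x117.mem_inn.1 (Finset.mem_coe.1 hv)).2 2)
      (fun v hv x hx => (O.inn v (Finset.mem_coe.1 hv)).1 x (Crs6x117.kl_sub O hx))
      hconn (Or.inl (by rw [hg2]; exact hv1c)) (Or.inl (by rw [hg2']; exact hv2c))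
    rcases hext with hgg | ⟨e, e', he, he', hconn', ⟨t, ht, hte⟩, t', ht', hte'⟩
    · exfalso
      -- one edge with two ends in the two classes
      have a1 := (vt_of_side hg1').1
      have a2 := (vt_of_side hg1').2
      rw [← hgg] at a1 a2
      have b1 : g.1 ∈ C.cls S 0 := by rw [hg2]; exact hv1c
      have b2 : g.1 ∈ C.cls S 2 := by rw [hgg, hg2']; exact hv2c
      exact absurd (Crs6x117.cls_uniq O b1 b2) (by decide)
    refine ⟨e, e', hconn', ?_, ?_⟩
    · -- the start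
      have htT := hsT t ht
      have htT' := hsT t' ht'
      have hlk : Lk N t t' := lk_conn hsT htT hte hconn' t' htT' hte'
      obtain ⟨x, hx⟩ := (O.ray 1).1.1
      have hva := vt_of_side hte
      have hvb := vt_of_side hte'
      have hlf : Lk N t ((C.ray S 1).1, (C.ray S 1).2, x) := by
        rcases he with h1 | h1 <;> rcases he' with h2 | h2
        · exact lk_f O (Lk.refl t) hlk hva.1 hvb.1 h1 h2 (hUS (hsU ht)) hx
        · exact lk_f O (Lk.refl t) hlk hva.1 hvb.2 h1 h2 (hUS (hsU ht)) hx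
        · exact lk_f O (Lk.refl t) hlk hva.2 hvb.1 h1 h2 (hUS (hsU ht)) hx
        · exact lk_f O (Lk.refl t) hlk hva.2 hvb.2 h1 h2 (hUS (hsU ht)) hx
      have key : ∀ a b c : ℂ, (a, b, c) ∈ rots t → (e = (a, b) ∨ e = (b, a)) →
          ‖N.F e.1 e.2 - 1‖ ≤ Real.sqrt 3 * C.pr S 0 := by
        intro a b c hr hab
        have h3 : (a, b, c) ∈ delT S := by rw [← hT]; exact Ex0x922.rots_mem_T hr htT
        have h4 : Lk N (a, b, c) ((C.ray S 1).1, (C.ray S 1).2, x) :=
          (Lk.of_rots (Ex0x922.rots_symm hr)).trans hlf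
        have h5 := tj_of_lk O h3 hx h4
        have hFc : N.F e.1 e.2 = N.F a b := by
          rcases hab with rfl | rfl
          · rfl
          · exact Oscx63.F_comm N b a
        have hkl : (a, b) ∉ N.kl := by
          rcases hab with rfl | rfl
          · exact hte.1
          · exact fun h => hte.1 (N.klsym _ _ h)
        have hAB : a ∈ B.A ∨ b ∈ B.A := by
          rcases hab with rfl | rfl
          · exact he.imp (hA _) (hA _)
          · exact he.symm.imp (hA _) (hA _)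
        rw [hFc, ← hp]
        exact B.near_one h3 hAB hkl h5
      rcases T6Dx697.side_cases hte with ⟨c, hc⟩ | ⟨c, hc⟩
      · exact key _ _ c hc (Or.inl rfl)
      · exact key _ _ c hc (Or.inr rfl)
    · -- the end
      have htT := hsT t ht
      have htT' := hsT t' ht'
      have hlk : Lk N t' t := (lk_conn hsT htT hte hconn' t' htT' hte').symm
      obtain ⟨x, hx⟩ := (O.ray 1).1.1
      have hva := vt_of_side hte
      have hvb := vt_of_side hte'
      have hlf : Lk N t' ((C.ray S 1).1, (C.ray S 1).2, x) := by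
        rcases he with h1 | h1 <;> rcases he' with h2 | h2
        · exact lk_f O hlk (Lk.refl t') hva.1 hvb.1 h1 h2 (hUS (hsU ht')) hx
        · exact lk_f O hlk (Lk.refl t') hva.1 hvb.2 h1 h2 (hUS (hsU ht')) hx
        · exact lk_f O hlk (Lk.refl t') hva.2 hvb.1 h1 h2 (hUS (hsU ht')) hx
        · exact lk_f O hlk (Lk.refl t') hva.2 hvb.2 h1 h2 (hUS (hsU ht')) hx
      have key : ∀ a b c : ℂ, (a, b, c) ∈ rots t' → (e' = (a, b) ∨ e' = (b, a)) →
          3 / 2 ≤ ‖N.F e'.1 e'.2 - 1‖ := by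
        intro a b c hr hab
        have h3 : (a, b, c) ∈ delT S := by rw [← hT]; exact Ex0x922.rots_mem_T hr htT'
        have h4 : Lk N (a, b, c) ((C.ray S 1).1, (C.ray S 1).2, x) :=
          (Lk.of_rots (Ex0x922.rots_symm hr)).trans hlf
        have h5 := tj_of_lk O h3 hx h4
        have hkl : (a, b) ∉ N.kl := by
          rcases hab with rfl | rfl
          · exact hte'.1
          · exact fun h => hte'.1 (N.klsym _ _ h)
        exact far_two O he' h3 hab hkl h5
      rcases T6Dx697.side_cases hte' with ⟨c, hc⟩ | ⟨c, hc⟩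
      · exact key _ _ c hc (Or.inl rfl)
      · exact key _ _ c hc (Or.inr rfl)
  choose! e e' hw1 hw2 hw3 using hwalk
  have h3pos : 0 < Real.sqrt 3 := Real.sqrt_pos.2 (by norm_num)
  have h33 : Real.sqrt 3 * Real.sqrt 3 = 3 := Real.mul_self_sqrt (by norm_num)
  have hexp : 0 < Real.exp (-K) := Real.exp_pos _
  set r : ℝ := Real.sqrt 3 * max (C.pr S 0) (Real.sqrt 3 / 4 * Real.exp (-K)) with hr
  have hr0 : 0 < r := by
    rw [hr]
    exact mul_pos h3pos (lt_max_of_lt_right (by positivity))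
  have hrlt : r < 3 / 2 * Real.exp (-K) := by
    have h4 : max (C.pr S 0) (Real.sqrt 3 / 4 * Real.exp (-K)) < Real.sqrt 3 / 2 * Real.exp (-K) := by
      apply max_lt hcon
      nlinarith
    calc r < Real.sqrt 3 * (Real.sqrt 3 / 2 * Real.exp (-K)) := by
          rw [hr]; exact mul_lt_mul_of_pos_left h4 h3pos
      _ = (Real.sqrt 3 * Real.sqrt 3) / 2 * Real.exp (-K) := by ring
      _ = 3 / 2 * Real.exp (-K) := by rw [h33]
  have hexp1 : Real.exp (-K) ≤ 1 := Real.exp_le_one_iff.2 (by linarith)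
  have hrR : r ≤ 3 / 2 := by nlinarith
  have hT3 := T3 O.hnet hR hdis hF hc (1 : ℂ) hr0 hrR e e' (fun s hs => hw1 s hs)
    (fun s hs => (hw2 s hs).trans (by
      rw [hr]
      exact mul_le_mul_of_nonneg_left (le_max_left _ _) h3pos.le)) (fun s hs => hw3 s hs)
  have h5 : Real.log (3 / 2 / r) ≤ K := by
    refine hT3.trans ?_
    rw [hK]
    linarith
  have h6 : Real.exp K < 3 / 2 / r := by
    rw [lt_div_iff₀ hr0]
    calc Real.exp K * r < Real.exp K * (3 / 2 * Real.exp (-K)) :=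
          mul_lt_mul_of_pos_left hrlt (Real.exp_pos _)
      _ = 3 / 2 * (Real.exp K * Real.exp (-K)) := by ring
      _ = 3 / 2 := by rw [← Real.exp_add]; simp
  have h7 := Real.lt_log_iff_exp_lt (by positivity) |>.2 h6
  linarith

end Crest.Agent.R143.RB2x54
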