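import Crest.Agent.R143.G6W_723
import Crest.Agent.R143.RE0_723

/-!
# Row 143 (S0194), CONT: nearest-site segments (helper440)

`E ⊆ S` = giant sites, `Nst E p b` : `b` is a nearest site of `E` to the point `p`.

* `Nst.seg` : `b` is a nearest site of `E` to every point of `[p, b]`
* `Nst.uniq` : the only one, except at `p`
* `Nst.disj` : two such segments with different feet are disjoint (or start at the same point)
* `Nst.cell` : the cells (of `S`) of the sites of `E` other than `b` do not meet `(p, b]`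
* `Nst.path` : free path from the site of the cell of `p` to `b`, in the ball of radius `‖p - b‖`
* `Nst.site` : the same from a free site `x` (`p = x`), no uniqueness needed
* `Nst.mesh` : all its sites are within the mesh of the segment
-/

set_option autoImplicit false

noncomputable section

open scoped Classical

namespace Crest.Agent.R143.Nearx440

open Crest.ProbabilityR.Voronoi
open Crest.Agent.R143.B0x346 Crest.Agent.R143.DelGx806 Crest.Agent.R143.B0Dx346
  Crest.Agent.R143.RE0x723 Crest.Agent.R143.G6Wx723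

variable {S E : Finset ℂ} {p q b e v x p' b' : ℂ}

/-- `b` is a nearest site of `E` to `p` -/
def Nst (E : Finset ℂ) (p b : ℂ) : Prop := b ∈ E ∧ ∀ e ∈ E, ‖p - b‖ ≤ ‖p - e‖

theorem exists_nst (hE : E.Nonempty) (p : ℂ) : ∃ b, Nst E p b := by
  obtain ⟨b, hb, h⟩ := E.exists_min_image (fun e => ‖p - e‖) hE
  exact ⟨b, hb, h⟩

/-- on a segment the distances add up -/
theorem seg_add (hq : q ∈ segment ℝ p b) : ‖p - q‖ + ‖q - b‖ = ‖p - b‖ := by
  have := dist_add_dist_of_mem_segment hq
  simpa [dist_eq_norm] using this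

theorem Nst.seg (h : Nst E p b) (hq : q ∈ segment ℝ p b) : Nst E q b := by
  refine ⟨h.1, fun e he => ?_⟩
  have h1 := h.2 e he
  have h2 := seg_add hq
  have h3 : ‖p - e‖ ≤ ‖p - q‖ + ‖q - e‖ := by
    have := norm_add_le (p - q) (q - e)
    rwa [sub_add_sub_cancel] at this
  linarith

/-- **uniqueness of the foot, except at the starting point** -/
theorem Nst.uniq (h : Nst E p b) (hq : q ∈ segment ℝ p b) (hqp : q ≠ p) (he : e ∈ E)
    (hle : ‖q - e‖ ≤ ‖q - b‖) : e = b := by
  have h1 := h.2 e he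
  have h2 := seg_add hq
  have h3 : ‖p - e‖ ≤ ‖p - q‖ + ‖q - e‖ := by
    have := norm_add_le (p - q) (q - e)
    rwa [sub_add_sub_cancel] at this
  have h4 : ‖(p - q) + (q - e)‖ = ‖p - q‖ + ‖q - e‖ := by
    rw [sub_add_sub_cancel]; linarith
  have h5 : ‖q - e‖ = ‖q - b‖ := by linarith
  have h6 : ‖(p - q) + (q - b)‖ = ‖p - q‖ + ‖q - b‖ := by
    rw [sub_add_sub_cancel]; exact h2.symm
  have r1 : SameRay ℝ (p - q) (q - e) := sameRay_iff_norm_add.2 h4
  have r2 : SameRay ℝ (p - q) (q - b) := sameRay_iff_norm_add.2 h6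
  have hne : p - q ≠ 0 := sub_ne_zero.2 (Ne.symm hqp)
  have r3 : SameRay ℝ (q - e) (q - b) :=
    r1.symm.trans r2 (fun h0 => absurd h0 hne)
  have h7 : q - e = q - b := r3.eq_of_norm_eq h5
  have : e = b := by linear_combination -h7
  exact this

/-- **two nearest-site segments with different feet do not meet** (except at a common start) -/
theorem Nst.disj (h : Nst E p b) (h' : Nst E p' b') (hb : b ≠ b') (hq : q ∈ segment ℝ p b)
    (hq' : q ∈ segment ℝ p' b') : q = p ∧ q = p' := by
  constructor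
  · by_contra hqp
    exact hb (h.uniq hq hqp h'.1 ((h'.seg hq').2 b h.1)).symm
  · by_contra hqp
    exact hb (h'.uniq hq' hqp h.1 ((h.seg hq).2 b' h'.1))

/-- the cells of the other sites of `E` do not meet `(p, b]` -/
theorem Nst.cell (h : Nst E p b) (hE : E ⊆ S) (hq : q ∈ segment ℝ p b) (hqp : q ≠ p)
    (he : e ∈ E) (hc : q ∈ voronoiCell (S : Set ℂ) e) : e = b :=
  h.uniq hq hqp he (hc b (Finset.mem_coe.2 (hE h.1)))

/-- every site of a cell which meets the segment is in the ball of radius `‖p - b‖` -/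
theorem Nst.ball (h : Nst E p b) (hE : E ⊆ S) (hq : q ∈ segment ℝ p b)
    (hc : q ∈ voronoiCell (S : Set ℂ) v) : ‖v - p‖ ≤ ‖p - b‖ := by
  have h1 : ‖q - v‖ ≤ ‖q - b‖ := hc b (Finset.mem_coe.2 (hE h.1))
  have h2 := seg_add hq
  have h3 : ‖v - p‖ ≤ ‖p - q‖ + ‖q - v‖ := by
    rw [norm_sub_rev v p]
    have := norm_add_le (p - q) (q - v)
    rwa [sub_add_sub_cancel] at this
  linarith

/-- sites which may be used on the way from `p` to `b` -/
def Way (S E : Finset ℂ) (p b : ℂ) : Set ℂ :=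
  {z | (z ∉ E ∨ z = b) ∧ ‖z - p‖ ≤ ‖p - b‖ ∧
    ∃ q ∈ segment ℝ p b, q ∈ voronoiCell (S : Set ℂ) z}

/-- **the cells met by a nearest-site segment** form a path of free sites from the site of the cell
of `p` to the foot `b` -/
theorem Nst.path (h : Nst E p b) (hS : GP (S : Set ℂ)) (h3 : 3 ≤ S.card) (hE : E ⊆ S)
    (hu : ∀ e ∈ E, e ≠ b → p ∉ voronoiCell (S : Set ℂ) e) (hx : x ∈ S)
    (hpx : p ∈ voronoiCell (S : Set ℂ) x) : Pth S (Way S E p b) x b := by
  have hb : b ∈ S := hE h.1
  have key : ∀ z ∈ S, ∀ q ∈ segment ℝ p b, q ∈ voronoiCell (S : Set ℂ) z → z ∈ Way S E p b := by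
    intro z hz q hq hc
    refine ⟨?_, h.ball hE hq hc, q, hq, hc⟩
    by_cases hzE : z ∈ E
    · right
      by_contra hzb
      by_cases hqp : q = p
      · rw [hqp] at hc
        exact hu z hzE hzb hc
      · exact hzb (h.cell hE hq hqp hzE hc)
    · exact Or.inl hzE
  have hbb : b ∈ voronoiCell (S : Set ℂ) b := fun s _ => by
    rw [sub_self, norm_zero]; exact norm_nonneg _
  refine ⟨key x hx p (left_mem_segment ℝ p b) hpx, ?_⟩
  have hch := chain_of_conn_fin hS h3 (C := segment ℝ p b)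
    (convex_segment p b).isPreconnected hx hb
    ⟨p, left_mem_segment ℝ p b, hpx⟩ ⟨b, right_mem_segment ℝ p b, hbb⟩
  refine Relation.ReflTransGen.mono ?_ _ _ hch
  rintro u w ⟨h1, q, hq1, hq2⟩
  refine ⟨h1, key w h1.mem.2 q hq2 ?_⟩
  intro s hs
  have := hq1.2 s hs
  rw [← hq1.1]
  exact this

/-- the same from a free site, without uniqueness of the foot -/
theorem Nst.site (h : Nst E x b) (hS : GP (S : Set ℂ)) (h3 : 3 ≤ S.card) (hE : E ⊆ S)
    (hx : x ∈ S) (hxE : x ∉ E) : Pth S (Way S E x b) x b := by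
  refine h.path hS h3 hE (fun e he _ hc => ?_) hx ?_
  · have h1 := hc x (Finset.mem_coe.2 hx)
    rw [sub_self, norm_zero] at h1
    have h2 : x - e = 0 := norm_le_zero_iff.1 h1
    exact hxE (by rw [sub_eq_zero.1 h2]; exact he)
  · intro s _
    rw [sub_self, norm_zero]
    exact norm_nonneg _

/-- with covering mesh `d` near the segment, the sites of the way are within `d` of the segment -/
theorem way_mesh {d : ℝ} (hd : ∀ q ∈ segment ℝ p b, ∃ s ∈ S, ‖q - s‖ ≤ d) {z : ℂ}
    (hz : z ∈ Way S E p b) : ∃ q ∈ segment ℝ p b, ‖q - z‖ ≤ d := by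
  obtain ⟨_, _, q, hq, hc⟩ := hz
  obtain ⟨s, hs, h1⟩ := hd q hq
  exact ⟨q, hq, (hc s (Finset.mem_coe.2 hs)).trans h1⟩

end Crest.Agent.R143.Nearx440
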