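import Crest.Agent.R143.K33D_877
import Crest.Agent.R143.Near_440

/-!
# Row 143 (S0194), CONT: the rainbow disc (helper683; 802's (D))

`Tr S A` three classes (877), `Es S A` all the sites of the classes.

* `adj_Es`, `hull_Es`, `hull_of_Es`, `tr_Es` : the classes on the Delaunay triangulation of `Es S A`
* `rainbow` : a Delaunay triangle of `Es S A` with a vertex in every class (parity)
* `disc` : an empty disc (no site of a class inside) with one site of every class on its circle, and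
  a centre (`CtrT` or `CtrX`) inside the closed disc
-/

set_option autoImplicit false

noncomputable section

open scoped Classical

namespace Crest.Agent.R143.Discx683

open Set
open Crest.ProbabilityR.Voronoi
open Crest.Agent.R143.B0x346 Crest.Agent.R143.DelGx806 Crest.Agent.R143.DelRx806
  Crest.Agent.R143.JColx54 Crest.Agent.R143.RE0x723 Crest.Agent.R143.K33x877
  Crest.Agent.R143.G6Wx723 Crest.Agent.R143.Nearx440
open Crest.Agent.R143.RB2x54 (Vt)

variable {S E : Finset ℂ} {A : ZMod 3 → Set ℂ}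

/-- the sites of the classes -/
def Es (S : Finset ℂ) (A : ZMod 3 → Set ℂ) : Finset ℂ := S.filter fun v => ∃ i, v ∈ A i

theorem mem_Es {v : ℂ} : v ∈ Es S A ↔ v ∈ S ∧ ∃ i, v ∈ A i := Finset.mem_filter

theorem sub_Es : Es S A ⊆ S := Finset.filter_subset _ _

theorem cls_Es (h : Tr S A) {i : ZMod 3} {v : ℂ} (hv : v ∈ A i) : v ∈ Es S A :=
  mem_Es.2 ⟨Finset.mem_coe.1 (h.sub i hv), i, hv⟩

theorem cls_ne (h : Tr S A) (i : ZMod 3) : (A i).Nonempty := by
  have hi : i ≠ i + 1 := by revert i; decide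
  obtain ⟨a, b, -, ha, -, -⟩ := h.one i (i + 1) hi
  exact ⟨a, ha⟩

theorem cls_uniq (h : Tr S A) {i j : ZMod 3} {v : ℂ} (hi : v ∈ A i) (hj : v ∈ A j) : i = j := by
  by_contra hij
  exact Set.disjoint_left.1 (h.disj i j hij) hi hj

theorem card_Es (h : Tr S A) : 3 ≤ (Es S A).card := by
  choose a ha using fun i => cls_ne h i
  have inj : Function.Injective a := fun i j e => cls_uniq h (ha i) (e ▸ ha j)
  have h1 : Finset.image a Finset.univ ⊆ Es S A := by
    intro v hv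
    obtain ⟨i, -, rfl⟩ := Finset.mem_image.1 hv
    exact cls_Es h (ha i)
  have h2 := Finset.card_le_card h1
  rw [Finset.card_image_of_injective _ inj] at h2
  exact h2

theorem card_S (h : Tr S A) : 3 ≤ S.card := (card_Es h).trans (Finset.card_le_card sub_Es)

theorem gp_Es (h : Tr S A) : GP ((Es S A : Finset ℂ) : Set ℂ) :=
  Crest.Agent.R143.Locx922.GP.mono h.gp fun _ hs => sub_Es hs

/-- **a Delaunay edge of `S` between two sites of the classes is a Delaunay edge of `Es S A`** -/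
theorem adj_Es (h : Tr S A) {a b : ℂ} (ha : a ∈ Es S A) (hb : b ∈ Es S A) (hab : Adj S a b) :
    Adj (Es S A) a b := by
  obtain ⟨z, hz1, hz2⟩ := (adj_iff h.gp (card_S h) (sub_Es ha) (sub_Es hb) hab.ne).1 hab
  exact adj_of_mem (gp_Es h) (card_Es h) ha hb hab.ne
    (fun s hs => hz1 s (Finset.mem_coe.2 (sub_Es hs)))
    (fun s hs => hz2 s (Finset.mem_coe.2 (sub_Es hs)))

theorem hull_cls (h : Tr S A) {a b : ℂ} (hab : hullE S a b) : a ∈ Es S A ∧ b ∈ Es S A := by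
  obtain ⟨c, hc, -⟩ := hull_succ h.gp hab
  obtain ⟨i, hi⟩ := h.hull a b hab
  obtain ⟨j, hj⟩ := h.hull b c hc
  exact ⟨cls_Es h hi, cls_Es h hj⟩

theorem third (h : Tr S A) (a b : ℂ) : ∃ s ∈ Es S A, s ≠ a ∧ s ≠ b := by
  by_contra hcon
  push Not at hcon
  have h1 : Es S A ⊆ {a, b} := by
    intro s hs
    rw [Finset.mem_insert, Finset.mem_singleton]
    by_cases hsa : s = a
    · exact Or.inl hsa
    · exact Or.inr (hcon s hs hsa)
  have h2 := Finset.card_le_card h1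
  have h3 := card_Es h
  have h4 : ({a, b} : Finset ℂ).card ≤ 2 := Finset.card_le_two
  omega

theorem hull_Es (h : Tr S A) {a b : ℂ} (hab : hullE S a b) : hullE (Es S A) a b :=
  (hull_iff (gp_Es h) (hull_cls h hab).1 (hull_cls h hab).2 (hullE.ne hab) (third h a b)).2
    fun s hs => hull_side hab s (sub_Es hs)

/-- **the hull of the classes is the hull of `S`** -/
theorem hull_of_Es (h : Tr S A) {a b : ℂ} (hab : hullE (Es S A) a b) : hullE S a b := by
  obtain ⟨n, w, H⟩ := hull_cycle (gp_Es h) (card_Es h)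
  obtain ⟨x, y, hxy⟩ := exists_hull h.gp (card_S h)
  obtain ⟨j, hj0, hjn, hj1, hj2⟩ := H.all x y (hull_Es h hxy)
  have key : ∀ k : ℕ, hullE S (w (j + k)) (w (j + k + 1)) := by
    intro k
    induction k with
    | zero =>
      simp only [Nat.cast_zero, add_zero]
      rw [hj1, hj2]
      exact hxy
    | succ k ih =>
      obtain ⟨c, hc, -⟩ := hull_succ h.gp ih
      obtain ⟨c', -, hu⟩ := hull_succ (gp_Es h) (H.edge (j + k))
      have e1 := hu _ (hull_Es h hc)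
      have e2 := hu _ (H.edge (j + k + 1))
      rw [e1, ← e2] at hc
      have e3 : j + ((k + 1 : ℕ) : ℤ) = j + k + 1 := by push_cast; ring
      rw [e3]
      exact hc
  obtain ⟨i, hi0, hin, hi1, hi2⟩ := H.all a b hab
  have h1 := key (i + n - j).toNat
  have e : (((i + n - j).toNat : ℕ) : ℤ) = i + n - j := Int.toNat_of_nonneg (by omega)
  rw [e, show j + (i + n - j) = i + n by ring, H.per, show i + (n : ℤ) + 1 = (i + 1) + n by ring,
    H.per, hi1, hi2] at h1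
  exact h1

theorem pth_Es (h : Tr S A) {i : ZMod 3} {x y : ℂ} (hp : Pth S (A i) x y) :
    Pth (Es S A) (A i) x y :=
  hp.ind (P := fun b => Pth (Es S A) (A i) x b) (Pth.refl hp.1) fun _ _ ha hb hab ih =>
    ih.tail (adj_Es h (cls_Es h ha) (cls_Es h hb) hab) hb

/-- **the classes on the Delaunay triangulation of their sites** -/
theorem tr_Es (h : Tr S A) : Tr (Es S A) A where
  gp := gp_Es h
  sub i v hv := Finset.mem_coe.2 (cls_Es h hv)
  disj := h.disj
  con i x hx y hy := pth_Es h (h.con i x hx y hy)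
  hull a b hab := h.hull a b (hull_of_Es h hab)
  one i j hij := by
    obtain ⟨a, b, h1, ha, hb, hu⟩ := h.one i j hij
    refine ⟨a, b, h1.imp (hull_Es h) (hull_Es h), ha, hb, fun a' b' h2 => ?_⟩
    exact hu a' b' (h2.imp (hull_of_Es h) (hull_of_Es h))

/-! ### the rainbow triangle -/

section rainbow

variable (h : Tr E A)

include h

theorem rot1 {a b c : ℂ} (ht : (a, b, c) ∈ delT E) : (b, c, a) ∈ delT E := (g1 E h.gp).1 _ _ _ ht

theorem rot2 {a b c : ℂ} (ht : (a, b, c) ∈ delT E) : (c, a, b) ∈ delT E := rot1 h (rot1 h ht)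

theorem tuq {a b c e : ℂ} (ht : (a, b, c) ∈ delT E) (ht' : (a, b, e) ∈ delT E) : c = e :=
  (g1 E h.gp).2.1 _ _ _ _ ht ht'

/-- triangles with first edge from the class `i` to the class `j` -/
def Fij (E : Finset ℂ) (A : ZMod 3 → Set ℂ) (i j : ZMod 3) : Finset (ℂ × ℂ × ℂ) :=
  (delT E).filter fun t => t.1 ∈ A i ∧ t.2.1 ∈ A j

omit h in
theorem mem_Fij {i j : ZMod 3} {t : ℂ × ℂ × ℂ} :
    t ∈ Fij E A i j ↔ t ∈ delT E ∧ t.1 ∈ A i ∧ t.2.1 ∈ A j := Finset.mem_filter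

omit h in
theorem z3 (i : ZMod 3) : i = 0 ∨ i = 1 ∨ i = 2 := by revert i; decide

/-- the other edge of a triangle with two colours -/
theorem card_Fij (hcov : ∀ v ∈ E, ∃ i, v ∈ A i)
    (hno : ∀ a b c, (a, b, c) ∈ delT E → a ∈ A 0 → b ∈ A 1 → c ∉ A 2)
    (hno' : ∀ a b c, (a, b, c) ∈ delT E → a ∈ A 1 → b ∈ A 0 → c ∉ A 2) :
    (Fij E A 0 1).card = (Fij E A 1 0).card := by
  have two : ∀ c ∈ E, c ∉ A 2 → c ∉ A 0 → c ∈ A 1 := by
    intro c hc h2 h0
    obtain ⟨i, hi⟩ := hcov c hc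
    rcases z3 i with rfl | rfl | rfl
    · exact absurd hi h0
    · exact hi
    · exact absurd hi h2
  have n01 : ∀ v, v ∈ A 1 → v ∉ A 0 := fun v h1 h0 =>
    absurd (cls_uniq h h1 h0) (by decide)
  refine Finset.card_nbij' (fun t => if t.2.2 ∈ A 0 then (t.2.1, t.2.2, t.1) else
    (t.2.2, t.1, t.2.1)) (fun t => if t.2.2 ∈ A 0 then (t.2.2, t.1, t.2.1) else
    (t.2.1, t.2.2, t.1)) ?_ ?_ ?_ ?_
  · rintro ⟨a, b, c⟩ ht
    rw [Finset.mem_coe, mem_Fij] at ht
    obtain ⟨ht, ha, hb⟩ := ht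
    simp only at ha hb
    by_cases hc : c ∈ A 0
    · simp only [hc, if_true]
      rw [Finset.mem_coe, mem_Fij]
      exact ⟨rot1 h ht, hb, hc⟩
    · simp only [hc, if_false]
      rw [Finset.mem_coe, mem_Fij]
      exact ⟨rot2 h ht, two c (mem_delT.1 ht).2.2.1 (hno _ _ _ ht ha hb) hc, ha⟩
  · rintro ⟨a, b, c⟩ ht
    rw [Finset.mem_coe, mem_Fij] at ht
    obtain ⟨ht, ha, hb⟩ := ht
    simp only at ha hb
    by_cases hc : c ∈ A 0
    · simp only [hc, if_true]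
      rw [Finset.mem_coe, mem_Fij]
      exact ⟨rot2 h ht, hc, ha⟩
    · simp only [hc, if_false]
      rw [Finset.mem_coe, mem_Fij]
      exact ⟨rot1 h ht, hb, two c (mem_delT.1 ht).2.2.1 (hno' _ _ _ ht ha hb) hc⟩
  · rintro ⟨a, b, c⟩ ht
    rw [Finset.mem_coe, mem_Fij] at ht
    obtain ⟨ht, ha, hb⟩ := ht
    simp only at ha hb
    by_cases hc : c ∈ A 0
    · simp only [hc, if_true, ha]
    · simp only [hc, if_false, n01 b hb]
  · rintro ⟨a, b, c⟩ ht
    rw [Finset.mem_coe, mem_Fij] at ht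
    obtain ⟨ht, ha, hb⟩ := ht
    simp only at ha hb
    by_cases hc : c ∈ A 0
    · simp only [hc, if_true, hb]
    · simp only [hc, if_false, n01 a ha]

/-- the triangle on the other side of the first edge -/
def opp (E : Finset ℂ) (t : ℂ × ℂ × ℂ) : ℂ × ℂ × ℂ :=
  (t.2.1, t.1, if h : ∃ e, (t.2.1, t.1, e) ∈ delT E then h.choose else 0)

theorem opp_opp {t : ℂ × ℂ × ℂ} (ht : t ∈ delT E) (he : ∃ e, (t.2.1, t.1, e) ∈ delT E) :
    opp E t ∈ delT E ∧ opp E (opp E t) = t := by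
  obtain ⟨a, b, c⟩ := t
  simp only at he
  have h1 : opp E (a, b, c) = (b, a, he.choose) := by
    unfold opp; simp only [he, dif_pos]
  have h2 : (b, a, he.choose) ∈ delT E := he.choose_spec
  have h3 : ∃ e, (a, b, e) ∈ delT E := ⟨c, ht⟩
  refine ⟨by rw [h1]; exact h2, ?_⟩
  rw [h1]
  unfold opp
  simp only [h3, dif_pos]
  rw [← tuq h ht h3.choose_spec]

/-- the inner edges -/
theorem card_inner :
    ((Fij E A 0 1).filter fun t => ∃ e, (t.2.1, t.1, e) ∈ delT E).card =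
      ((Fij E A 1 0).filter fun t => ∃ e, (t.2.1, t.1, e) ∈ delT E).card := by
  have key : ∀ i j : ZMod 3, ∀ t ∈ (Fij E A i j).filter (fun t => ∃ e, (t.2.1, t.1, e) ∈ delT E),
      opp E t ∈ (Fij E A j i).filter (fun t => ∃ e, (t.2.1, t.1, e) ∈ delT E) := by
    intro i j t ht
    rw [Finset.mem_filter, mem_Fij] at ht ⊢
    obtain ⟨⟨h1, h2, h3⟩, h4⟩ := ht
    exact ⟨⟨(opp_opp h h1 h4).1, h3, h2⟩, t.2.2, h1⟩
  refine Finset.card_nbij' (opp E) (opp E) (fun t ht => key 0 1 t ht) (fun t ht => key 1 0 t ht)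
    ?_ ?_
  · intro t ht
    rw [Finset.mem_coe, Finset.mem_filter, mem_Fij] at ht
    exact (opp_opp h ht.1.1 ht.2).2
  · intro t ht
    rw [Finset.mem_coe, Finset.mem_filter, mem_Fij] at ht
    exact (opp_opp h ht.1.1 ht.2).2

omit h in
theorem hull_anti {a b : ℂ} (h1 : hullE E a b) (h2 : hullE E b a) : False := by
  obtain ⟨c, hc⟩ := h2.1
  exact h1.2 c hc

/-- the hull edges -/
theorem card_outer {i j : ZMod 3} {a b : ℂ} (hab : hullE E a b) (ha : a ∈ A i) (hb : b ∈ A j)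
    (hu : ∀ a' b', (hullE E a' b' ∨ hullE E b' a') → a' ∈ A i → b' ∈ A j → a' = a ∧ b' = b) :
    ((Fij E A i j).filter fun t => ¬ ∃ e, (t.2.1, t.1, e) ∈ delT E).card = 1 ∧
      ((Fij E A j i).filter fun t => ¬ ∃ e, (t.2.1, t.1, e) ∈ delT E).card = 0 := by
  have hh : ∀ t : ℂ × ℂ × ℂ, t ∈ delT E → (¬ ∃ e, (t.2.1, t.1, e) ∈ delT E) → hullE E t.1 t.2.1 :=
    fun t h1 h2 => ⟨⟨t.2.2, h1⟩, fun c hc => h2 ⟨c, hc⟩⟩
  obtain ⟨c, hc⟩ := hab.1
  constructor
  · rw [Finset.card_eq_one]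
    refine ⟨(a, b, c), ?_⟩
    ext t
    rw [Finset.mem_filter, mem_Fij, Finset.mem_singleton]
    constructor
    · rintro ⟨⟨h1, h2, h3⟩, h4⟩
      obtain ⟨e1, e2⟩ := hu _ _ (Or.inl (hh t h1 h4)) h2 h3
      obtain ⟨x, y, z⟩ := t
      simp only at e1 e2
      subst e1 e2
      rw [tuq h h1 hc]
    · rintro rfl
      exact ⟨⟨hc, ha, hb⟩, fun ⟨e, he⟩ => hab.2 e he⟩
  · rw [Finset.card_eq_zero, Finset.filter_eq_empty_iff]
    intro t ht h4
    rw [mem_Fij] at ht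
    have h5 := hh t ht.1 h4
    obtain ⟨e1, e2⟩ := hu _ _ (Or.inr h5) ht.2.2 ht.2.1
    rw [e1, e2] at h5
    exact hull_anti hab h5

/-- **rainbow triangle** -/
theorem rainbow (hcov : ∀ v ∈ E, ∃ i, v ∈ A i) :
    ∃ a : ZMod 3 → ℂ, (∀ i, a i ∈ A i) ∧
      ((a 0, a 1, a 2) ∈ delT E ∨ (a 1, a 0, a 2) ∈ delT E) := by
  by_contra hcon
  have mk : ∀ x y z : ℂ, x ∈ A 0 → y ∈ A 1 → z ∈ A 2 →
      ¬ ((x, y, z) ∈ delT E ∨ (y, x, z) ∈ delT E) := by
    intro x y z hx hy hz hd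
    apply hcon
    refine ⟨fun i => if i = 0 then x else if i = 1 then y else z, ?_, ?_⟩
    · intro i
      rcases z3 i with rfl | rfl | rfl
      · simpa using hx
      · simpa using hy
      · have h1 : (2 : ZMod 3) ≠ 0 := by decide
        have h2 : (2 : ZMod 3) ≠ 1 := by decide
        simp only [h1, h2, if_false]
        exact hz
    · have h1 : (2 : ZMod 3) ≠ 0 := by decide
      have h2 : (2 : ZMod 3) ≠ 1 := by decide
      have h3 : (1 : ZMod 3) ≠ 0 := by decide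
      simp only [h1, h2, h3, if_false, if_true]
      exact hd
  have c1 := card_Fij h hcov (fun a b c ht ha hb hc => mk a b c ha hb hc (Or.inl ht))
    (fun a b c ht ha hb hc => mk b a c hb ha hc (Or.inr ht))
  have c2 := card_inner h
  have f1 := Finset.card_filter_add_card_filter_not (s := Fij E A 0 1)
    (fun t => ∃ e, (t.2.1, t.1, e) ∈ delT E)
  have f2 := Finset.card_filter_add_card_filter_not (s := Fij E A 1 0)
    (fun t => ∃ e, (t.2.1, t.1, e) ∈ delT E)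
  obtain ⟨a, b, h1, ha, hb, hu⟩ := h.one 0 1 (by decide)
  rcases h1 with h1 | h1
  · have c3 := card_outer h h1 ha hb hu
    omega
  · have c3 := card_outer h h1 hb ha (fun a' b' h2 h3 h4 => (hu b' a' h2.symm h4 h3).symm)
    omega

end rainbow

/-! ### the disc -/

theorem pth_last {V : Set ℂ} {x y : ℂ} (h : Pth S V x y) (hxy : x ≠ y) :
    ∃ z, Pth S (V \ {y}) x z ∧ Adj S z y := by
  have key : (∃ z, Pth S (V \ {y}) x z ∧ Adj S z y) ∨ Pth S (V \ {y}) x y := by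
    refine h.ind (P := fun b => (∃ z, Pth S (V \ {y}) x z ∧ Adj S z y) ∨ Pth S (V \ {y}) x b)
      (Or.inr (Pth.refl ⟨h.1, hxy⟩)) fun a b _ hb hab ih => ?_
    rcases ih with ih | ih
    · exact Or.inl ih
    · by_cases hby : b = y
      · rw [hby] at hab
        exact Or.inl ⟨a, ih, hab⟩
      · exact Or.inr (ih.tail hab ⟨hb, hby⟩)
  rcases key with h1 | h1
  · exact h1
  · exact absurd rfl h1.snd.2

/-- **the rainbow disc and its tripod** -/
theorem disc (h : Tr S A) : ∃ (p : ℂ) (ρ : ℝ) (a : ZMod 3 → ℂ), 0 < ρ ∧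
    (∀ i, a i ∈ A i ∧ ‖p - a i‖ = ρ) ∧ (∀ i, ∀ v ∈ A i, ρ ≤ ‖p - v‖) ∧
    ((∃ t, CtrT S A t ∧ ∀ v, Vt t v → ∃ i, v = a i) ∨
      ∃ X, CtrX S A X ∧ ∀ v ∈ X, v ∈ S ∧ ‖v - p‖ ≤ ρ) := by
  have hT := tr_Es h
  obtain ⟨a, ha, htri⟩ := rainbow hT (fun v hv => (mem_Es.1 hv).2)
  -- the circumcentre
  obtain ⟨o, ho1, ho2, hemp⟩ : ∃ o : ℂ, ‖o - a 1‖ = ‖o - a 0‖ ∧ ‖o - a 2‖ = ‖o - a 0‖ ∧
      ∀ s ∈ Es S A, ‖o - a 0‖ ≤ ‖o - s‖ := by
    have hsw : ∀ u v : ℂ, ‖u - v‖ = ‖v - u‖ := fun u v => norm_sub_rev u v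
    rcases htri with ht | ht
    · obtain ⟨-, -, -, -, o, h1, h2, h3⟩ := mem_delT.1 ht
      refine ⟨o, ?_, ?_, fun s hs => ?_⟩
      · rw [hsw, h1, hsw]
      · rw [hsw, h2, hsw]
      · rw [hsw o (a 0), hsw o s]; exact h3 s hs
    · obtain ⟨-, -, -, -, o, h1, h2, h3⟩ := mem_delT.1 ht
      refine ⟨o, ?_, ?_, fun s hs => ?_⟩
      · rw [hsw, ← h1, hsw]
      · rw [hsw, h2, hsw o (a 0), h1]
      · rw [hsw o (a 0), hsw o s, h1]; exact h3 s hs
  have hall : ∀ i, ‖o - a i‖ = ‖o - a 0‖ := by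
    intro i
    rcases z3 i with rfl | rfl | rfl
    · rfl
    · exact ho1
    · exact ho2
  have hne : ∀ i j, i ≠ j → a i ≠ a j := fun i j hij e => hij (cls_uniq h (ha i) (e ▸ ha j))
  have hρ : 0 < ‖o - a 0‖ := by
    rw [norm_pos_iff]
    intro h0
    have h1 : ‖o - a 1‖ = 0 := by rw [ho1, h0, norm_zero]
    have h2 := norm_eq_zero.1 h1
    exact hne 0 1 (by decide) (by rw [← sub_eq_zero.1 h0, ← sub_eq_zero.1 h2])
  refine ⟨o, ‖o - a 0‖, a, hρ, fun i => ⟨ha i, hall i⟩, fun i v hv => hemp v (cls_Es h hv), ?_⟩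
  by_cases hcase : ∃ e ∈ Es S A, o ∈ voronoiCell (S : Set ℂ) e
  · -- the circle is empty in `S`
    left
    obtain ⟨e, he, hc⟩ := hcase
    have hS : ∀ s ∈ S, ‖o - a 0‖ ≤ ‖o - s‖ := fun s hs =>
      (hemp e he).trans (hc s (Finset.mem_coe.2 hs))
    have hsw : ∀ u v : ℂ, ‖u - v‖ = ‖v - u‖ := fun u v => norm_sub_rev u v
    rcases htri with ht | ht
    · refine ⟨(a 0, a 1, a 2), ⟨?_, ?_⟩, ?_⟩
      · obtain ⟨h1, h2, h3, h4, -⟩ := mem_delT.1 ht
        refine mem_delT.2 ⟨sub_Es h1, sub_Es h2, sub_Es h3, h4, o, ?_, ?_, fun s hs => ?_⟩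
        · rw [hsw, ho1, hsw]
        · rw [hsw, ho2, hsw]
        · rw [hsw (a 0) o, hsw s o]; exact hS s hs
      · intro i
        refine ⟨a i, ?_, ha i⟩
        rcases z3 i with rfl | rfl | rfl
        · exact Or.inl rfl
        · exact Or.inr (Or.inl rfl)
        · exact Or.inr (Or.inr rfl)
      · rintro v (rfl | rfl | rfl)
        · exact ⟨0, rfl⟩
        · exact ⟨1, rfl⟩
        · exact ⟨2, rfl⟩
    · refine ⟨(a 1, a 0, a 2), ⟨?_, ?_⟩, ?_⟩
      · obtain ⟨h1, h2, h3, h4, -⟩ := mem_delT.1 ht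
        refine mem_delT.2 ⟨sub_Es h1, sub_Es h2, sub_Es h3, h4, o, ?_, ?_, fun s hs => ?_⟩
        · rw [hsw, ← ho1, hsw]
        · rw [hsw, ho2, ← ho1, hsw]
        · rw [hsw (a 1) o, hsw s o, ho1]; exact hS s hs
      · intro i
        refine ⟨a i, ?_, ha i⟩
        rcases z3 i with rfl | rfl | rfl
        · exact Or.inr (Or.inl rfl)
        · exact Or.inl rfl
        · exact Or.inr (Or.inr rfl)
      · rintro v (rfl | rfl | rfl)
        · exact ⟨1, rfl⟩
        · exact ⟨0, rfl⟩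
        · exact ⟨2, rfl⟩
  · -- the tripod
    right
    push Not at hcase
    have hSne : S.Nonempty := Finset.card_pos.1 (by have := card_S h; omega)
    obtain ⟨x, hx, hxc⟩ := exists_cell hSne o
    have hxE : x ∉ Es S A := fun hx' => hcase x hx' hxc
    have hN : ∀ i, Nst (Es S A) o (a i) := fun i =>
      ⟨cls_Es h (ha i), fun e he => by rw [hall i]; exact hemp e he⟩
    have hpath : ∀ i, Pth S (Way S (Es S A) o (a i)) x (a i) := fun i =>
      (hN i).path h.gp (card_S h) sub_Es (fun e he _ => hcase e he) hx hxc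
    have hlast : ∀ i, ∃ z, Pth S (Way S (Es S A) o (a i) \ {a i}) x z ∧ Adj S z (a i) := fun i =>
      pth_last (hpath i) fun e => hxE (e ▸ cls_Es h (ha i))
    set X : Set ℂ := {z | ∃ i, Pth S (Way S (Es S A) o (a i) \ {a i}) x z} with hX
    have hXE : ∀ z ∈ X, z ∉ Es S A := by
      rintro z ⟨i, hz⟩
      obtain ⟨⟨h1, -, -⟩, h2⟩ := hz.snd
      rcases h1 with h1 | h1
      · exact h1
      · exact absurd h1 h2
    have hxz : ∀ z ∈ X, Pth S X x z := by
      rintro z ⟨i, hz⟩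
      have h0 : x ∈ X := ⟨i, Pth.refl hz.1⟩
      have := hz.ind (P := fun b => Pth S (Way S (Es S A) o (a i) \ {a i}) x b ∧ Pth S X x b)
        ⟨Pth.refl hz.1, Pth.refl h0⟩ fun c b _ hb hcb ih =>
          ⟨ih.1.tail hcb hb, ih.2.tail hcb ⟨i, ih.1.tail hcb hb⟩⟩
      exact this.2
    refine ⟨X, ⟨?_, ?_, ?_⟩, ?_⟩
    · intro i
      rw [Set.disjoint_left]
      intro z hz hzi
      exact hXE z hz (cls_Es h hzi)
    · intro y hy z hz
      exact (hxz y hy).symm.trans (hxz z hz)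
    · intro i
      obtain ⟨z, hz, hzi⟩ := hlast i
      exact ⟨z, ⟨i, hz⟩, a i, ha i, hzi⟩
    · rintro z ⟨i, hz⟩
      refine ⟨?_, ?_⟩
      · exact hz.ind (P := fun b => b ∈ S) hx fun c b _ _ hcb _ => hcb.mem.2
      · have := hz.snd.1.2.1
        rw [hall i] at this
        exact this

end Crest.Agent.R143.Discx683
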