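import Mathlib

/-!
# Row 143 (S0194): shortest-path forest (helper991)

`R` : adjacency of sites, `O` : finite set of sites, `A ⊆ O` : roots.

* `Ln R O A x r` : there is a chain in `O` from `x` to `A` of Euclidean length `r`
* `D R O A x` : length of the shortest chain
* `forest` : there is a root map `ρ` (`ρ a = a` on `A`), constant along a chain from `x` to `ρ x`
  which stays in the ball of radius `D x` around `x`
-/

set_option autoImplicit false

noncomputable section

open scoped Classical ENNReal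

namespace Crest.Agent.R143.Forx991

variable {R : ℂ → ℂ → Prop} {O A : Finset ℂ}

/-- there is a chain in `O` from `x` to `A` of Euclidean length `r` -/
inductive Ln (R : ℂ → ℂ → Prop) (O A : Finset ℂ) : ℂ → ℝ≥0∞ → Prop
  | base (a : ℂ) : a ∈ A → Ln R O A a 0
  | step (x y : ℂ) (r : ℝ≥0∞) : x ∈ O → R x y → Ln R O A y r → Ln R O A x (edist x y + r)

/-- length of the shortest chain to `A` -/
def D (R : ℂ → ℂ → Prop) (O A : Finset ℂ) (x : ℂ) : ℝ≥0∞ := ⨅ r, ⨅ (_ : Ln R O A x r), r

theorem Ln.mem (hA : A ⊆ O) {x : ℂ} {r : ℝ≥0∞} (h : Ln R O A x r) : x ∈ O := by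
  cases h with
  | base _ h => exact hA h
  | step _ _ _ h _ _ => exact h

theorem D_le {x : ℂ} {r : ℝ≥0∞} (h : Ln R O A x r) : D R O A x ≤ r := iInf₂_le r h

theorem le_D {x : ℂ} {c : ℝ≥0∞} (h : ∀ r, Ln R O A x r → c ≤ r) : c ≤ D R O A x := le_iInf₂ h

theorem D_A {a : ℂ} (h : a ∈ A) : D R O A a = 0 := le_antisymm (D_le (Ln.base a h)) bot_le

theorem D_step {x y : ℂ} (hx : x ∈ O) (h : R x y) : D R O A x ≤ edist x y + D R O A y := by
  unfold D
  rw [ENNReal.add_iInf]
  refine le_iInf fun r => ?_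
  rw [ENNReal.add_iInf]
  exact le_iInf fun h' => iInf₂_le_of_le _ (Ln.step x y r hx h h') le_rfl

theorem exists_ln {x : ℂ} (h : D R O A x < ⊤) : ∃ r, Ln R O A x r := by
  by_contra hcon
  push Not at hcon
  have : D R O A x = ⊤ := top_le_iff.1 (le_D fun r hr => absurd hr (hcon r))
  exact h.ne this

/-- the shortest chain starts with some step -/
theorem exists_succ (hA : A ⊆ O) {x : ℂ} (hx : x ∉ A) (h : D R O A x < ⊤) :
    ∃ y ∈ O, R x y ∧ D R O A x = edist x y + D R O A y := by
  obtain ⟨r0, hr0⟩ := exists_ln h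
  have hxO := hr0.mem hA
  set Y := O.filter fun y => R x y with hY
  have hne : Y.Nonempty := by
    cases hr0 with
    | base _ h => exact absurd h hx
    | step _ y r _ h1 h2 => exact ⟨y, Finset.mem_filter.2 ⟨h2.mem hA, h1⟩⟩
  obtain ⟨y, hy, hmin⟩ := Finset.exists_min_image Y (fun y => edist x y + D R O A y) hne
  obtain ⟨hyO, hxy⟩ := Finset.mem_filter.1 hy
  refine ⟨y, hyO, hxy, le_antisymm (D_step hxO hxy) (le_D fun r hr => ?_)⟩
  cases hr with
  | base _ h => exact absurd h hx
  | step _ z r _ h1 h2 =>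
    exact (hmin z (Finset.mem_filter.2 ⟨h2.mem hA, h1⟩)).trans (by gcongr; exact D_le h2)

/-- successor on the shortest chain -/
def sc (R : ℂ → ℂ → Prop) (O A : Finset ℂ) (x : ℂ) : ℂ :=
  if h : ∃ y ∈ O, R x y ∧ D R O A x = edist x y + D R O A y ∧ x ∉ A ∧ D R O A x < ⊤ then h.choose
  else x

theorem sc_A {a : ℂ} (h : a ∈ A) : sc R O A a = a := by
  unfold sc
  rw [dif_neg]
  rintro ⟨_, _, _, _, h1, _⟩
  exact h1 h

theorem sc_spec (hA : A ⊆ O) {x : ℂ} (hx : x ∉ A) (h : D R O A x < ⊤) :
    sc R O A x ∈ O ∧ R x (sc R O A x) ∧ D R O A x = edist x (sc R O A x) + D R O A (sc R O A x) := by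
  obtain ⟨y, h1, h2, h3⟩ := exists_succ hA hx h
  have hex : ∃ y ∈ O, R x y ∧ D R O A x = edist x y + D R O A y ∧ x ∉ A ∧ D R O A x < ⊤ :=
    ⟨y, h1, h2, h3, hx, h⟩
  unfold sc
  rw [dif_pos hex]
  obtain ⟨h4, h5, h6, -, -⟩ := hex.choose_spec
  exact ⟨h4, h5, h6⟩

theorem D_sc_le (hA : A ⊆ O) {x : ℂ} (h : D R O A x < ⊤) : D R O A (sc R O A x) ≤ D R O A x := by
  by_cases hx : x ∈ A
  · rw [sc_A hx]
  · rw [(sc_spec hA hx h).2.2]
    exact le_add_self

theorem D_sc_lt (hA : A ⊆ O) (hR : ∀ x y, R x y → x ≠ y) {x : ℂ} (hx : x ∉ A)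
    (h : D R O A x < ⊤) : D R O A (sc R O A x) < D R O A x := by
  obtain ⟨h1, h2, h3⟩ := sc_spec hA hx h
  have hpos : 0 < edist x (sc R O A x) := edist_pos.2 (hR _ _ h2)
  have hfin : D R O A (sc R O A x) ≠ ⊤ := ((D_sc_le hA h).trans_lt h).ne
  conv_rhs => rw [h3]
  rw [add_comm]
  exact ENNReal.lt_add_right hfin hpos.ne'

/-- root of the tree -/
def root (R : ℂ → ℂ → Prop) (O A : Finset ℂ) (x : ℂ) : ℂ := (sc R O A)^[O.card] x

theorem iter_A {a : ℂ} (h : a ∈ A) (n : ℕ) : (sc R O A)^[n] a = a :=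
  Function.iterate_fixed (sc_A h) n

theorem iter_mem (hA : A ⊆ O) (hR : ∀ x y, R x y → x ≠ y) (n : ℕ) : ∀ x ∈ O, D R O A x < ⊤ →
    (O.filter fun y => D R O A y < D R O A x).card ≤ n → (sc R O A)^[n] x ∈ A := by
  induction n with
  | zero =>
    intro x hx h hc
    by_contra hcon
    have h1 := sc_spec hA hcon h
    have h2 := D_sc_lt hA hR hcon h
    have h3 : sc R O A x ∈ O.filter fun y => D R O A y < D R O A x :=
      Finset.mem_filter.2 ⟨h1.1, h2⟩
    have := Finset.card_pos.2 ⟨_, h3⟩
    omega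
  | succ n ih =>
    intro x hx h hc
    by_cases hxA : x ∈ A
    · rw [iter_A hxA]; exact hxA
    · have h1 := sc_spec hA hxA h
      have h2 := D_sc_lt hA hR hxA h
      rw [Function.iterate_succ_apply]
      refine ih _ h1.1 (h2.trans h) ?_
      have h3 : (O.filter fun y => D R O A y < D R O A (sc R O A x)) ⊂
          O.filter fun y => D R O A y < D R O A x := by
        refine Finset.ssubset_iff_subset_ne.2 ⟨fun y hy => ?_, fun heq => ?_⟩
        · obtain ⟨h4, h5⟩ := Finset.mem_filter.1 hy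
          exact Finset.mem_filter.2 ⟨h4, h5.trans h2⟩
        · have h4 : sc R O A x ∈ O.filter fun y => D R O A y < D R O A x :=
            Finset.mem_filter.2 ⟨h1.1, h2⟩
          rw [← heq] at h4
          exact lt_irrefl _ (Finset.mem_filter.1 h4).2
      have := Finset.card_lt_card h3
      omega

theorem root_mem (hA : A ⊆ O) (hR : ∀ x y, R x y → x ≠ y) {x : ℂ} (hx : x ∈ O)
    (h : D R O A x < ⊤) : root R O A x ∈ A :=
  iter_mem hA hR _ x hx h (Finset.card_le_card (Finset.filter_subset _ _))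

theorem root_A {a : ℂ} (h : a ∈ A) : root R O A a = a := iter_A h _

theorem root_sc (hA : A ⊆ O) (hR : ∀ x y, R x y → x ≠ y) {x : ℂ} (hx : x ∈ O)
    (h : D R O A x < ⊤) : root R O A (sc R O A x) = root R O A x := by
  have h1 := root_mem hA hR hx h
  unfold root at h1 ⊢
  rw [← Function.iterate_succ_apply, Function.iterate_succ_apply', sc_A h1]

/-- the branch from `x` to its root: it stays in the tree and in the ball of radius `D x` -/
theorem branch (hA : A ⊆ O) (hR : ∀ x y, R x y → x ≠ y) {x : ℂ} (hx : x ∈ O)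
    (h : D R O A x < ⊤) :
    Relation.ReflTransGen (fun a b => R a b ∧ (b ∈ O ∧ D R O A b < ⊤ ∧
      root R O A b = root R O A x ∧ edist x b ≤ D R O A x)) x (root R O A x) := by
  -- induction on the number of sites with smaller distance
  have key : ∀ n : ℕ, ∀ x ∈ O, D R O A x < ⊤ →
      (O.filter fun y => D R O A y < D R O A x).card ≤ n →
      Relation.ReflTransGen (fun a b => R a b ∧ (b ∈ O ∧ D R O A b < ⊤ ∧
      root R O A b = root R O A x ∧ edist x b ≤ D R O A x)) x (root R O A x) := by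
    intro n
    induction n with
    | zero =>
      intro x hx h hc
      have h1 : x ∈ A := by
        have := iter_mem hA hR 0 x hx h hc
        simpa using this
      rw [root_A h1]
    | succ n ih =>
      intro x hx h hc
      by_cases hxA : x ∈ A
      · rw [root_A hxA]
      · obtain ⟨h1, h2, h3⟩ := sc_spec hA hxA h
        have h4 := D_sc_lt hA hR hxA h
        have h5 := root_sc hA hR hx h
        have h6 : (O.filter fun y => D R O A y < D R O A (sc R O A x)) ⊂
            O.filter fun y => D R O A y < D R O A x := by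
          refine Finset.ssubset_iff_subset_ne.2 ⟨fun y hy => ?_, fun heq => ?_⟩
          · obtain ⟨h7, h8⟩ := Finset.mem_filter.1 hy
            exact Finset.mem_filter.2 ⟨h7, h8.trans h4⟩
          · have h7 : sc R O A x ∈ O.filter fun y => D R O A y < D R O A x :=
              Finset.mem_filter.2 ⟨h1, h4⟩
            rw [← heq] at h7
            exact lt_irrefl _ (Finset.mem_filter.1 h7).2
        have h7 := Finset.card_lt_card h6
        have h8 := ih _ h1 (h4.trans h) (by omega)
        rw [h5] at h8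
        refine Relation.ReflTransGen.head ⟨h2, h1, h4.trans h, h5, ?_⟩ ?_
        · rw [h3]; exact le_self_add
        · refine Relation.ReflTransGen.mono ?_ _ _ h8
          rintro a b ⟨h9, h10, h11, h12, h13⟩
          refine ⟨h9, h10, h11, h12, ?_⟩
          calc edist x b ≤ edist x (sc R O A x) + edist (sc R O A x) b := edist_triangle _ _ _
            _ ≤ edist x (sc R O A x) + D R O A (sc R O A x) := by gcongr
            _ = D R O A x := h3.symm
  exact key _ x hx h le_rfl

end Crest.Agent.R143.Forx991
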