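import Crest.Agent.R143.RE0_723
import Crest.Agent.R143.For_991

/-!
# Row 143 (S0194): territories with short connections, no lengths (helper991)

`G` adjacency, `O` finite set of points, `X ⊆ O` the roots.
* `rooms` : if every point of `O` is joined to `X` in `O`, there is a root map `ρ : O → X`
  (`ρ a = a` on `X`, every `x ∈ O` is joined to `ρ x` in its class), and every `x` which is joined
  to `X` by *some* chain of `O` in the ball of radius `δ` is joined to `ρ x` by a chain of its class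
  in the ball of radius `200 δ`
* `Rt S V X ρ`, `ter` : territories in the language of `RE0_723` (same theorems as Terr_583)
-/

set_option autoImplicit false

noncomputable section

open scoped Classical ENNReal

namespace Crest.Agent.R143.Roomx991

open Relation (ReflTransGen)
open Crest.Agent.R143.Forx991 (D root Ln sc)

section abstract_part

variable {G E : ℂ → ℂ → Prop} {O X L : Finset ℂ} {ρ : ℂ → ℂ} {r s : ℝ≥0∞} {x y : ℂ}

/-- partial root map: labelled set `L`, chains in the ball of radius `r` -/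
structure St (G : ℂ → ℂ → Prop) (X L : Finset ℂ) (ρ : ℂ → ℂ) (r : ℝ≥0∞) : Prop where
  fix : ∀ a ∈ X, ρ a = a
  mem : ∀ x ∈ L, ρ x ∈ X
  br : ∀ x ∈ L, ReflTransGen (fun a b => G a b ∧ (b ∈ L ∧ ρ b = ρ x ∧ edist x b ≤ r)) x (ρ x)

theorem ln_of_chain (hy : y ∈ L) (hx : x ∈ O)
    (h : ReflTransGen (fun a b => (G a b ∧ E a b) ∧ b ∈ O) x y) :
    D (fun a b => G a b ∧ E a b) O L x < ⊤ := by
  induction h using ReflTransGen.head_induction_on with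
  | refl => rw [Forx991.D_A hy]; exact ENNReal.zero_lt_top
  | @head a c h1 _ ih =>
    exact (Forx991.D_step hx h1.1).trans_lt (ENNReal.add_lt_top.2 ⟨edist_lt_top _ _, ih h1.2⟩)

/-- **one stage** -/
theorem stage (hE : ∀ a b c, E a b → E b c → E a c) (hs : ∀ a b, E a b → edist a b ≤ s)
    (hG : ∀ a b, G a b → a ≠ b) (hXL : X ⊆ L) (hLO : L ⊆ O) (h : St G X L ρ r) :
    ∃ (L' : Finset ℂ) (ρ' : ℂ → ℂ), L ⊆ L' ∧ L' ⊆ O ∧ (∀ x ∈ L, ρ' x = ρ x) ∧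
      St G X L' ρ' (s + r) ∧
      ∀ x ∈ O, ∀ y ∈ L, ReflTransGen (fun a b => (G a b ∧ E a b) ∧ b ∈ O) x y → x ∈ L' := by
  set R : ℂ → ℂ → Prop := fun a b => G a b ∧ E a b with hR
  have hRne : ∀ a b, R a b → a ≠ b := fun a b h => hG a b h.1
  set L' : Finset ℂ := O.filter fun x => D R O L x < ⊤ with hL'
  set ρ' : ℂ → ℂ := fun x => ρ (root R O L x) with hρ'
  have hLL' : L ⊆ L' := by
    intro x hx
    refine Finset.mem_filter.2 ⟨hLO hx, ?_⟩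
    rw [Forx991.D_A hx]
    exact ENNReal.zero_lt_top
  have hold : ∀ x ∈ L, ρ' x = ρ x := by
    intro x hx
    show ρ (root R O L x) = ρ x
    rw [Forx991.root_A hx]
  refine ⟨L', ρ', hLL', Finset.filter_subset _ _, hold, ⟨?_, ?_, ?_⟩, ?_⟩
  · intro a ha
    rw [hold a (hXL ha)]
    exact h.fix a ha
  · intro x hx
    obtain ⟨h1, h2⟩ := Finset.mem_filter.1 hx
    exact h.mem _ (Forx991.root_mem hLO hRne h1 h2)
  · intro x hx
    obtain ⟨h1, h2⟩ := Finset.mem_filter.1 hx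
    have hy := Forx991.root_mem hLO hRne h1 h2
    set y := root R O L x with hyd
    have hb := Forx991.branch hLO hRne h1 h2
    have key : ∀ b, ReflTransGen (fun a b => R a b ∧ (b ∈ O ∧ D R O L b < ⊤ ∧
        root R O L b = root R O L x ∧ edist x b ≤ D R O L x)) x b →
        (b = x ∨ E x b) ∧
        ReflTransGen (fun a b => G a b ∧ (b ∈ L' ∧ ρ' b = ρ' x ∧ edist x b ≤ s + r)) x b := by
      intro b hb
      induction hb with
      | refl => exact ⟨Or.inl rfl, ReflTransGen.refl⟩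
      | @tail b c _ h5 ih =>
        obtain ⟨ih1, ih2⟩ := ih
        have hxc : E x c := by
          rcases ih1 with h6 | h6
          · rw [← h6]; exact h5.1.2
          · exact hE _ _ _ h6 h5.1.2
        refine ⟨Or.inr hxc, ih2.tail ⟨h5.1.1, Finset.mem_filter.2 ⟨h5.2.1, h5.2.2.1⟩, ?_, ?_⟩⟩
        · show ρ (root R O L c) = ρ (root R O L x)
          rw [h5.2.2.2.1]
        · exact (hs _ _ hxc).trans le_self_add
    obtain ⟨h3, h4⟩ := key _ hb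
    have hxy : edist x y ≤ s := by
      rcases h3 with h6 | h6
      · rw [hyd, h6, edist_self]; exact bot_le
      · exact hs _ _ h6
    have h5 : ReflTransGen (fun a b => G a b ∧ (b ∈ L' ∧ ρ' b = ρ' x ∧ edist x b ≤ s + r)) y
        (ρ y) := by
      refine ReflTransGen.mono ?_ _ _ (h.br y hy)
      rintro a b ⟨h6, h7, h8, h9⟩
      refine ⟨h6, hLL' h7, ?_, ?_⟩
      · rw [hold b h7]
        exact h8
      · exact (edist_triangle x y b).trans (add_le_add hxy h9)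
    exact h4.trans h5
  · intro x hx y hy hc
    exact Finset.mem_filter.2 ⟨hx, ln_of_chain hy hx hc⟩

/-- the room `k` at the scale `δ` -/
def Rm (δ : ℝ) (k : ℤ × ℤ) : Set ℂ := {z | |z.re - k.1 * δ| ≤ 2 * δ ∧ |z.im - k.2 * δ| ≤ 2 * δ}

/-- being in the same room of colour `c` -/
def Ec (δ : ℝ) (c : ZMod 5 × ZMod 5) (a b : ℂ) : Prop :=
  ∃ k : ℤ × ℤ, (k.1 : ZMod 5) = c.1 ∧ (k.2 : ZMod 5) = c.2 ∧ a ∈ Rm δ k ∧ b ∈ Rm δ k

theorem int_eq {δ u : ℝ} (hδ : 0 < δ) {i j : ℤ} (h : (i : ZMod 5) = (j : ZMod 5))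
    (h1 : |u - i * δ| ≤ 2 * δ) (h2 : |u - j * δ| ≤ 2 * δ) : i = j := by
  have h3 : (5 : ℤ) ∣ j - i := by
    have := (ZMod.intCast_eq_intCast_iff_dvd_sub i j 5).1 h
    exact_mod_cast this
  obtain ⟨m, hm⟩ := h3
  have h4 : |((j - i : ℤ) : ℝ)| * δ ≤ 4 * δ := by
    rw [← abs_of_pos hδ, ← abs_mul, abs_of_pos hδ]
    push_cast
    have : ((j : ℝ) - i) * δ = (u - i * δ) - (u - j * δ) := by ring
    rw [this]
    have := abs_sub (u - i * δ) (u - j * δ)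
    linarith
  have h5 : |((j - i : ℤ) : ℝ)| ≤ 4 := le_of_mul_le_mul_right h4 hδ
  have h6 : |j - i| ≤ 4 := by exact_mod_cast h5
  rw [hm, abs_le] at h6
  have : m = 0 := by omega
  subst this
  omega

theorem Ec.trans {δ : ℝ} (hδ : 0 < δ) {c : ZMod 5 × ZMod 5} (a b d : ℂ) (h : Ec δ c a b)
    (h' : Ec δ c b d) : Ec δ c a d := by
  obtain ⟨k, h1, h2, h3, h4⟩ := h
  obtain ⟨k', h1', h2', h3', h4'⟩ := h'
  have e1 : k.1 = k'.1 := int_eq hδ (h1.trans h1'.symm) h4.1 h3'.1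
  have e2 : k.2 = k'.2 := int_eq hδ (h2.trans h2'.symm) h4.2 h3'.2
  have e : k = k' := Prod.ext e1 e2
  subst e
  exact ⟨k, h1, h2, h3, h4'⟩

theorem rm_dist {δ : ℝ} {k : ℤ × ℤ} {a b : ℂ} (ha : a ∈ Rm δ k) (hb : b ∈ Rm δ k) :
    ‖b - a‖ ≤ 8 * δ := by
  have h1 := Complex.norm_le_abs_re_add_abs_im (b - a)
  rw [Complex.sub_re, Complex.sub_im] at h1
  have h2 := abs_sub (b.re - k.1 * δ) (a.re - k.1 * δ)
  have h3 := abs_sub (b.im - k.2 * δ) (a.im - k.2 * δ)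
  have e2 : b.re - k.1 * δ - (a.re - k.1 * δ) = b.re - a.re := by ring
  have e3 : b.im - k.2 * δ - (a.im - k.2 * δ) = b.im - a.im := by ring
  rw [e2] at h2
  rw [e3] at h3
  have := ha.1; have := ha.2; have := hb.1; have := hb.2
  linarith

theorem edist_le {a b : ℂ} {t : ℝ} (h : ‖b - a‖ ≤ t) : edist a b ≤ ENNReal.ofReal t := by
  rw [edist_dist, dist_comm, dist_eq_norm]
  exact ENNReal.ofReal_le_ofReal h

theorem Ec.dist {δ : ℝ} {c : ZMod 5 × ZMod 5} (a b : ℂ) (h : Ec δ c a b) :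
    edist a b ≤ ENNReal.ofReal (8 * δ) := by
  obtain ⟨k, -, -, h3, h4⟩ := h
  exact edist_le (rm_dist h3 h4)

/-- the room of `x` -/
def rk (δ : ℝ) (x : ℂ) : ℤ × ℤ := (⌊x.re / δ⌋, ⌊x.im / δ⌋)

theorem fl {δ u v : ℝ} (hδ : 0 < δ) (h : |v - u| ≤ δ) : |v - (⌊u / δ⌋ : ℤ) * δ| ≤ 2 * δ := by
  have h1 := Int.floor_le (u / δ)
  have h2 := Int.lt_floor_add_one (u / δ)
  have h3 : (⌊u / δ⌋ : ℤ) * δ ≤ u := by
    calc (⌊u / δ⌋ : ℤ) * δ ≤ u / δ * δ := by gcongr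
      _ = u := by field_simp
  have h4 : u ≤ (⌊u / δ⌋ : ℤ) * δ + δ := by
    calc u = u / δ * δ := by field_simp
      _ ≤ ((⌊u / δ⌋ : ℤ) + 1) * δ := by gcongr
      _ = _ := by ring
  rw [abs_le] at h ⊢
  constructor <;> linarith

theorem mem_rm {δ : ℝ} (hδ : 0 < δ) {z : ℂ} (h : ‖z - x‖ ≤ δ) : z ∈ Rm δ (rk δ x) := by
  refine ⟨fl hδ ?_, fl hδ ?_⟩
  · rw [← Complex.sub_re]
    exact (Complex.abs_re_le_norm _).trans h
  · rw [← Complex.sub_im]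
    exact (Complex.abs_im_le_norm _).trans h

theorem chain_room {δ : ℝ} (hδ : 0 < δ)
    (h : ReflTransGen (fun a b => G a b ∧ (b ∈ O ∧ ‖b - x‖ ≤ δ)) x y) :
    ReflTransGen (fun a b => (G a b ∧ Ec δ ((rk δ x).1, (rk δ x).2) a b) ∧ b ∈ O) x y := by
  have key : ∀ b, ReflTransGen (fun a b => G a b ∧ (b ∈ O ∧ ‖b - x‖ ≤ δ)) x b →
      ‖b - x‖ ≤ δ ∧
      ReflTransGen (fun a b => (G a b ∧ Ec δ ((rk δ x).1, (rk δ x).2) a b) ∧ b ∈ O) x b := by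
    intro b hb
    induction hb with
    | refl => exact ⟨by rw [sub_self, norm_zero]; exact hδ.le, ReflTransGen.refl⟩
    | @tail b c _ h5 ih =>
      exact ⟨h5.2.2, ih.2.tail ⟨⟨h5.1, rk δ x, rfl, rfl, mem_rm hδ ih.1, mem_rm hδ h5.2.2⟩,
        h5.2.1⟩⟩
  exact (key _ h).2

/-- the stages for the colours of `T` -/
theorem stages (hG : ∀ a b, G a b → a ≠ b) (hXO : X ⊆ O) {δ : ℝ} (hδ : 0 < δ)
    (T : Finset (ZMod 5 × ZMod 5)) :
    ∃ (L : Finset ℂ) (ρ : ℂ → ℂ), X ⊆ L ∧ L ⊆ O ∧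
      St G X L ρ (T.card * ENNReal.ofReal (8 * δ)) ∧
      ∀ x ∈ O, ∀ y ∈ X, ∀ c ∈ T,
        ReflTransGen (fun a b => (G a b ∧ Ec δ c a b) ∧ b ∈ O) x y → x ∈ L := by
  induction T using Finset.induction_on with
  | empty =>
    refine ⟨X, id, subset_rfl, hXO, ⟨fun _ _ => rfl, fun _ h => h, fun _ _ => ReflTransGen.refl⟩,
      ?_⟩
    intro x _ y _ c hc
    exact absurd hc (Finset.notMem_empty c)
  | @insert c T hcT ih =>
    obtain ⟨L, ρ, h1, h2, h3, h4⟩ := ih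
    obtain ⟨L', ρ', h5, h6, -, h8, h9⟩ := stage (Ec.trans (c := c) hδ) (Ec.dist (c := c)) hG h1 h2 h3
    refine ⟨L', ρ', h1.trans h5, h6, ?_, ?_⟩
    · rw [Finset.card_insert_of_notMem hcT]
      push_cast
      rw [add_mul, one_mul, add_comm]
      exact h8
    · intro x hx y hy c' hc' hch
      rcases Finset.mem_insert.1 hc' with e | h10
      · subst e
        exact h9 x hx y (h1 hy) hch
      · exact h5 (h4 x hx y hy c' h10 hch)

/-- **ROOMS** -/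
theorem rooms (hG : ∀ a b, G a b → a ≠ b) (hXO : X ⊆ O)
    (hJ : ∀ x ∈ O, ∃ y ∈ X, ReflTransGen (fun a b => G a b ∧ b ∈ O) x y) {δ : ℝ} (hδ : 0 < δ) :
    ∃ ρ : ℂ → ℂ, (∀ a ∈ X, ρ a = a) ∧ (∀ x ∈ O, ρ x ∈ X) ∧
      (∀ x ∈ O, ReflTransGen (fun a b => G a b ∧ (b ∈ O ∧ ρ b = ρ x)) x (ρ x)) ∧
      ∀ x ∈ O, (∃ y ∈ X, ReflTransGen (fun a b => G a b ∧ (b ∈ O ∧ ‖b - x‖ ≤ δ)) x y) →
        ReflTransGen (fun a b => G a b ∧ (b ∈ O ∧ ρ b = ρ x ∧ ‖b - x‖ ≤ 200 * δ)) x (ρ x) := by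
  obtain ⟨L, ρ, h1, h2, h3, h4⟩ := stages hG hXO hδ Finset.univ
  obtain ⟨L', ρ', h5, h6, h7, h8, h9⟩ := stage (E := fun _ _ => True) (s := ⊤)
    (fun _ _ _ _ _ => trivial) (fun _ _ _ => le_top) hG h1 h2 h3
  have hall : L' = O := by
    refine Finset.Subset.antisymm h6 fun x hx => ?_
    obtain ⟨y, hy, hc⟩ := hJ x hx
    refine h9 x hx y (h1 hy) (ReflTransGen.mono ?_ _ _ hc)
    rintro a b ⟨h10, h11⟩
    exact ⟨⟨h10, trivial⟩, h11⟩
  subst hall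
  refine ⟨ρ', h8.fix, h8.mem, fun x hx => ?_, fun x hx hloc => ?_⟩
  · refine ReflTransGen.mono ?_ _ _ (h8.br x hx)
    rintro a b ⟨h10, h11, h12, -⟩
    exact ⟨h10, h11, h12⟩
  · obtain ⟨y, hy, hc⟩ := hloc
    have hxL : x ∈ L := h4 x hx y hy _ (Finset.mem_univ _) (chain_room hδ hc)
    rw [h7 x hxL]
    refine ReflTransGen.mono ?_ _ _ (h3.br x hxL)
    rintro a b ⟨h10, h11, h12, h13⟩
    refine ⟨h10, h2 h11, ?_, ?_⟩
    · rw [h7 b h11]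
      exact h12
    · have hcard : ((Finset.univ : Finset (ZMod 5 × ZMod 5)).card : ℝ≥0∞) = ENNReal.ofReal 25 := by
        rw [Finset.card_univ, Fintype.card_prod, ZMod.card]
        norm_num
      rw [hcard, ← ENNReal.ofReal_mul (by norm_num)] at h13
      rw [edist_dist, dist_comm, dist_eq_norm] at h13
      have := (ENNReal.ofReal_le_ofReal_iff (by positivity)).1 h13
      linarith

end abstract_part

/-! ### territories of a root map -/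

open Crest.Agent.R143.B0x346 Crest.Agent.R143.DelGx806 Crest.Agent.R143.JColx54
open Crest.Agent.R143.RE0x723

variable {S V X K K' : Finset ℂ} {ρ : ℂ → ℂ} {x y : ℂ}

/-- root map off `V` -/
structure Rt (S V X : Finset ℂ) (ρ : ℂ → ℂ) : Prop where
  sub : X ⊆ S \ V
  fix : ∀ a ∈ X, ρ a = a
  mem : ∀ x ∈ S, x ∉ V → ρ x ∈ X
  br : ∀ x ∈ S, x ∉ V → Pth S {z | (z ∈ S ∧ z ∉ V) ∧ ρ z = ρ x} x (ρ x)

/-- territory of `K` -/
def ter (S V : Finset ℂ) (ρ : ℂ → ℂ) (K : Finset ℂ) : Finset ℂ := (S \ V).filter fun x => ρ x ∈ K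

/-- `x` is joined to `X` off `V` in the ball of radius `δ` -/
def Loc (S V X : Finset ℂ) (δ : ℝ) (x : ℂ) : Prop :=
  ∃ y ∈ X, Pth S {z | (z ∈ S ∧ z ∉ V) ∧ ‖z - x‖ ≤ δ} x y

/-- **territories exist** : every site off `V` has a root, and the sites which are joined to `X` in
the ball of radius `δ` are joined to their root in the ball of radius `200 δ` -/
theorem exists_rt (hX : X ⊆ S \ V)
    (hJ : ∀ x ∈ S, x ∉ V → ∃ y ∈ X, Pth S {z | z ∈ S ∧ z ∉ V} x y) {δ : ℝ} (hδ : 0 < δ) :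
    ∃ ρ, Rt S V X ρ ∧ ∀ x ∈ S, x ∉ V → Loc S V X δ x →
      Pth S {z | ((z ∈ S ∧ z ∉ V) ∧ ρ z = ρ x) ∧ ‖z - x‖ ≤ 200 * δ} x (ρ x) := by
  obtain ⟨ρ, h1, h2, h3, h4⟩ := rooms (G := Adj S) (O := S \ V) (X := X)
    (fun a b h => Adj.ne h) hX (fun x hx => by
      obtain ⟨hx1, hx2⟩ := Finset.mem_sdiff.1 hx
      obtain ⟨y, hy, -, hp⟩ := hJ x hx1 hx2
      refine ⟨y, hy, ReflTransGen.mono ?_ _ _ hp⟩
      rintro a b ⟨h5, h6⟩
      exact ⟨h5, Finset.mem_sdiff.2 h6⟩) hδ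
  · refine ⟨ρ, ⟨hX, h1, fun x hx hV => h2 x (Finset.mem_sdiff.2 ⟨hx, hV⟩), fun x hx hV => ?_⟩,
      fun x hx hV hl => ?_⟩
    · refine ⟨⟨⟨hx, hV⟩, rfl⟩, ReflTransGen.mono ?_ _ _ (h3 x (Finset.mem_sdiff.2 ⟨hx, hV⟩))⟩
      rintro a b ⟨h5, h6, h7⟩
      exact ⟨h5, Finset.mem_sdiff.1 h6, h7⟩
    · obtain ⟨y, hy, -, hp⟩ := hl
      have h5 := h4 x (Finset.mem_sdiff.2 ⟨hx, hV⟩) ⟨y, hy, ReflTransGen.mono ?_ _ _ hp⟩
      · refine ⟨⟨⟨⟨hx, hV⟩, rfl⟩, by rw [sub_self, norm_zero]; positivity⟩,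
          ReflTransGen.mono ?_ _ _ h5⟩
        rintro a b ⟨h6, h7, h8, h9⟩
        exact ⟨h6, ⟨Finset.mem_sdiff.1 h7, h8⟩, h9⟩
      · rintro a b ⟨h6, h7, h8⟩
        exact ⟨h6, Finset.mem_sdiff.2 h7, h8⟩

theorem mem_ter : x ∈ ter S V ρ K ↔ (x ∈ S ∧ x ∉ V) ∧ ρ x ∈ K := by
  unfold ter
  rw [Finset.mem_filter, Finset.mem_sdiff]

theorem ter_subS : ter S V ρ K ⊆ S := fun _ h => (mem_ter.1 h).1.1

theorem ter_notV (h : x ∈ ter S V ρ K) : x ∉ V := (mem_ter.1 h).1.2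

/-- the classes lie in their territories -/
theorem ter_sub (h : Rt S V X ρ) (hK : K ⊆ X) : K ⊆ ter S V ρ K := by
  intro x hx
  refine mem_ter.2 ⟨Finset.mem_sdiff.1 (h.sub (hK hx)), ?_⟩
  rw [h.fix x (hK hx)]
  exact hx

theorem mem_ter_X (h : Rt S V X ρ) (hx : x ∈ X) : x ∈ ter S V ρ K ↔ x ∈ K := by
  rw [mem_ter, h.fix x hx]
  exact ⟨fun h => h.2, fun h' => ⟨Finset.mem_sdiff.1 (h.sub hx), h'⟩⟩

theorem ter_disj (h : Disjoint K K') : Disjoint (ter S V ρ K) (ter S V ρ K') := by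
  rw [Finset.disjoint_left]
  intro x hx hx'
  exact Finset.disjoint_left.1 h (mem_ter.1 hx).2 (mem_ter.1 hx').2

theorem ter_union : ter S V ρ (K ∪ K') = ter S V ρ K ∪ ter S V ρ K' := by
  ext x
  simp only [Finset.mem_union, mem_ter]
  tauto

theorem ter_mono (h : K ⊆ K') : ter S V ρ K ⊆ ter S V ρ K' := by
  intro x hx
  rw [mem_ter] at hx ⊢
  exact ⟨hx.1, h hx.2⟩

/-- the territories cover `S \ V` -/
theorem ter_all (h : Rt S V X ρ) : ter S V ρ X = S \ V := by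
  ext x
  rw [mem_ter, Finset.mem_sdiff]
  exact ⟨fun h => h.1, fun h' => ⟨h', h.mem x h'.1 h'.2⟩⟩

/-- every site of a territory is joined to its root inside the territory -/
theorem ter_br (h : Rt S V X ρ) (hx : x ∈ ter S V ρ K) :
    ρ x ∈ K ∧ ρ x ∈ X ∧ Pth S (ter S V ρ K : Set ℂ) x (ρ x) := by
  obtain ⟨⟨h1, h2⟩, h3⟩ := mem_ter.1 hx
  refine ⟨h3, h.mem x h1 h2, (h.br x h1 h2).mono ?_⟩
  rintro z ⟨h4, h5⟩
  exact Finset.mem_coe.2 (mem_ter.2 ⟨h4, by rw [h5]; exact h3⟩)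

/-- **thin** -/
theorem ter_thin {δ : ℝ} (h : Rt S V X ρ)
    (hl : ∀ x ∈ S, x ∉ V → Loc S V X δ x →
      Pth S {z | ((z ∈ S ∧ z ∉ V) ∧ ρ z = ρ x) ∧ ‖z - x‖ ≤ 200 * δ} x (ρ x))
    (hx : x ∈ ter S V ρ K) (hxl : Loc S V X δ x) :
    ∃ y ∈ K, y ∈ X ∧ Pth S {z | z ∈ ter S V ρ K ∧ ‖z - x‖ ≤ 200 * δ} x y := by
  obtain ⟨⟨h1, h2⟩, h3⟩ := mem_ter.1 hx
  refine ⟨ρ x, h3, h.mem x h1 h2, (hl x h1 h2 hxl).mono ?_⟩
  rintro z ⟨⟨h4, h5⟩, h6⟩
  exact ⟨mem_ter.2 ⟨h4, by rw [h5]; exact h3⟩, h6⟩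

/-- the territory of a connected class is connected -/
theorem ter_con (h : Rt S V X ρ) (hK : K ⊆ X) (hc : ∀ x ∈ K, ∀ y ∈ K, Pth S (K : Set ℂ) x y) :
    ∀ x ∈ ter S V ρ K, ∀ y ∈ ter S V ρ K, Pth S (ter S V ρ K : Set ℂ) x y := by
  have hKt : (K : Set ℂ) ⊆ (ter S V ρ K : Set ℂ) := fun z hz =>
    Finset.mem_coe.2 (ter_sub h hK (Finset.mem_coe.1 hz))
  intro x hx y hy
  obtain ⟨hx', -, hpx⟩ := ter_br h hx
  obtain ⟨hy', -, hpy⟩ := ter_br h hy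
  exact (hpx.trans ((hc _ hx' _ hy').mono hKt)).trans hpy.symm

/-- territories of unions -/
theorem ter_un {A : ℕ → Finset ℂ} (i l : ℕ) :
    un (fun j => ter S V ρ (A j)) i l = ter S V ρ (un A i l) := by
  ext x
  simp only [un, Finset.mem_biUnion, Finset.mem_Ico, mem_ter]
  constructor
  · rintro ⟨j, hj, h1, h2⟩; exact ⟨h1, j, hj, h2⟩
  · rintro ⟨h1, j, hj, h2⟩; exact ⟨j, hj, h1, h2⟩

/-! ### polygons -/

section pg

variable {n m : ℕ} {w : ℤ → ℂ} {p : ℕ → ℤ} {A : ℕ → Finset ℂ}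

theorem mem_un {i l : ℕ} : x ∈ un A i l ↔ ∃ j, (i ≤ j ∧ j < l) ∧ x ∈ A j := by
  simp only [un, Finset.mem_biUnion, Finset.mem_Ico]

theorem un_subset (h : Pg S n w m p A) (hV : V ⊆ inr S A m) : un A 0 (m + 1) ⊆ S \ V := by
  intro x hx
  obtain ⟨j, hj, hxj⟩ := mem_un.1 hx
  refine Finset.mem_sdiff.2 ⟨h.sub j (by omega) hxj, fun hxV => ?_⟩
  exact (Finset.mem_sdiff.1 (hV hxV)).2 hx

/-- the territory of the class `j` -/
def Tj (S V : Finset ℂ) (ρ : ℂ → ℂ) (A : ℕ → Finset ℂ) (j : ℕ) : Finset ℂ := ter S V ρ (A j)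

theorem A_sub_un {j : ℕ} (hj : j ≤ m) : A j ⊆ un A 0 (m + 1) :=
  fun _ hx => mem_un.2 ⟨j, ⟨Nat.zero_le _, by omega⟩, hx⟩

theorem sub_Tj (hR : Rt S V (un A 0 (m + 1)) ρ) {j : ℕ} (hj : j ≤ m) : A j ⊆ Tj S V ρ A j :=
  ter_sub hR (A_sub_un hj)

/-- **territories of a polygon** -/
theorem pg_ter (h : Pg S n w m p A) (hR : Rt S V (un A 0 (m + 1)) ρ) :
    Pg S n w m p (Tj S V ρ A) where
  gp := h.gp
  cyc := h.cyc
  mono := h.mono
  last := h.last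
  sub := fun _ _ => ter_subS
  disj := fun i j hi hj hij => ter_disj (h.disj i j hi hj hij)
  con := fun j hj => ter_con hR (A_sub_un hj) (h.con j hj)
  arc := fun j hj k hk hk' => sub_Tj hR hj.le (h.arc j hj k hk hk')
  arcl := fun k hk hk' => sub_Tj hR le_rfl (h.arcl k hk hk')

/-- the inner sites of the new polygon are the sites of `V` -/
theorem inr_ter (hR : Rt S V (un A 0 (m + 1)) ρ) (hV : V ⊆ S) : inr S (Tj S V ρ A) m = V := by
  have h1 : un (Tj S V ρ A) 0 (m + 1) = S \ V :=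
    (ter_un (S := S) (V := V) (ρ := ρ) (A := A) 0 (m + 1)).trans (ter_all hR)
  show S \ un (Tj S V ρ A) 0 (m + 1) = V
  rw [h1, Finset.sdiff_sdiff_eq_self hV]

/-- thin, for polygons -/
theorem pg_thin {δ : ℝ} (hR : Rt S V (un A 0 (m + 1)) ρ)
    (hl : ∀ x ∈ S, x ∉ V → Loc S V (un A 0 (m + 1)) δ x →
      Pth S {z | ((z ∈ S ∧ z ∉ V) ∧ ρ z = ρ x) ∧ ‖z - x‖ ≤ 200 * δ} x (ρ x))
    {j : ℕ} (hx : x ∈ Tj S V ρ A j) (hxl : Loc S V (un A 0 (m + 1)) δ x) :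
    ∃ y ∈ A j, Pth S {z | z ∈ Tj S V ρ A j ∧ ‖z - x‖ ≤ 200 * δ} x y := by
  obtain ⟨y, hy, -, hp⟩ := ter_thin hR hl hx hxl
  exact ⟨y, hy, hp⟩

/-- a class of the old polygon is the old part of its territory -/
theorem Tj_old (h : Pg S n w m p A) (hR : Rt S V (un A 0 (m + 1)) ρ) {j i : ℕ} (hj : j ≤ m)
    (hi : i ≤ m) (hx : x ∈ A i) (hx' : x ∈ Tj S V ρ A j) : i = j := by
  by_contra hne
  have h1 : x ∈ A j := (mem_ter_X hR (A_sub_un hi hx)).1 hx'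
  exact Finset.disjoint_left.1 (h.disj i j hi hj hne) hx h1

end pg

/-! ### quads -/

section qd

variable {n : ℕ} {w : ℤ → ℂ} {i0 i1 i2 i3 : ℤ} {B : ZMod 4 → Finset ℂ}

/-- union of the classes of a quad -/
def uB (B : ZMod 4 → Finset ℂ) : Finset ℂ := Finset.univ.biUnion B

theorem mem_uB : x ∈ uB B ↔ ∃ i, x ∈ B i := by
  simp only [uB, Finset.mem_biUnion, Finset.mem_univ, true_and]

theorem B_sub_uB (i : ZMod 4) : B i ⊆ uB B := fun _ hx => mem_uB.2 ⟨i, hx⟩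

theorem uB_subset (h : Qd S n w i0 i1 i2 i3 B) (hV : V ⊆ fre S B) : uB B ⊆ S \ V := by
  intro x hx
  obtain ⟨i, hxi⟩ := mem_uB.1 hx
  exact Finset.mem_sdiff.2 ⟨h.sub i hxi, fun hxV => (Finset.mem_filter.1 (hV hxV)).2 i hxi⟩

/-- the territory of the class `i` -/
def TB (S V : Finset ℂ) (ρ : ℂ → ℂ) (B : ZMod 4 → Finset ℂ) (i : ZMod 4) : Finset ℂ :=
  ter S V ρ (B i)

theorem sub_TB (hR : Rt S V (uB B) ρ) (i : ZMod 4) : B i ⊆ TB S V ρ B i :=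
  ter_sub hR (B_sub_uB i)

/-- **territories of a quad** -/
theorem qd_ter (h : Qd S n w i0 i1 i2 i3 B) (hR : Rt S V (uB B) ρ) :
    Qd S n w i0 i1 i2 i3 (TB S V ρ B) where
  gp := h.gp
  m4 := h.m4
  sub := fun _ => ter_subS
  disj := fun i j hij => ter_disj (h.disj i j hij)
  con := fun i => ter_con hR (B_sub_uB i) (h.con i)
  a0 := fun k hk hk' => sub_TB hR 0 (h.a0 k hk hk')
  a1 := fun k hk hk' => sub_TB hR 1 (h.a1 k hk hk')
  a2 := fun k hk hk' => sub_TB hR 2 (h.a2 k hk hk')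
  a3 := fun k hk hk' => sub_TB hR 3 (h.a3 k hk hk')

theorem uB_ter : uB (TB S V ρ B) = ter S V ρ (uB B) := by
  ext x
  rw [mem_uB, mem_ter, mem_uB]
  constructor
  · rintro ⟨i, hi⟩
    exact ⟨(mem_ter.1 hi).1, i, (mem_ter.1 hi).2⟩
  · rintro ⟨h1, i, h2⟩
    exact ⟨i, mem_ter.2 ⟨h1, h2⟩⟩

/-- the free sites of the new quad are the sites of `V` -/
theorem fre_ter (hR : Rt S V (uB B) ρ) (hV : V ⊆ S) : fre S (TB S V ρ B) = V := by
  have h1 : uB (TB S V ρ B) = S \ V := by rw [uB_ter]; exact ter_all hR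
  ext x
  constructor
  · intro hx
    obtain ⟨hxS, hx2⟩ := Finset.mem_filter.1 hx
    by_contra hxV
    have h2 : x ∈ uB (TB S V ρ B) := by rw [h1]; exact Finset.mem_sdiff.2 ⟨hxS, hxV⟩
    obtain ⟨i, hi⟩ := mem_uB.1 h2
    exact hx2 i hi
  · intro hx
    exact Finset.mem_filter.2 ⟨hV hx, fun i hi => ter_notV hi hx⟩

/-- thin, for quads -/
theorem qd_thin {δ : ℝ} (hR : Rt S V (uB B) ρ)
    (hl : ∀ x ∈ S, x ∉ V → Loc S V (uB B) δ x →
      Pth S {z | ((z ∈ S ∧ z ∉ V) ∧ ρ z = ρ x) ∧ ‖z - x‖ ≤ 200 * δ} x (ρ x))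
    {i : ZMod 4} (hx : x ∈ TB S V ρ B i) (hxl : Loc S V (uB B) δ x) :
    ∃ y ∈ B i, Pth S {z | z ∈ TB S V ρ B i ∧ ‖z - x‖ ≤ 200 * δ} x y := by
  obtain ⟨y, hy, -, hp⟩ := ter_thin hR hl hx hxl
  exact ⟨y, hy, hp⟩

end qd

end Crest.Agent.R143.Roomx991
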