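import Crest.Agent.R143.Near_440
import Crest.Agent.R143.Room_991

/-!
# Row 143 (S0194): chains of sites along connected sets outside a region (helper991)

`deep S P ρ` = sites `s` with `closedBall s ρ ⊆ P` (`ρ = 2 d`, `d` the hole radius).
* `Clm S C` : sites whose cell meets `C`; `pth_conn` : joined through `Clm S C` if `C` is connected
* `off_conn` : `C ∩ P = ∅`, holes of radius `d ≤ ρ` on `C` ⟹ no site of `Clm S C` is deep
* `off_seg` : `p ∉ P`, `‖x - p‖ ≤ ρ` ⟹ no site of `Clm S [x, p]` is deep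
* `pth_out` : `x` not deep is joined off the deep sites to every site `a` of a connected set outside
* `loc_out` : the same as `Loc`
* `loc_brick` : (S5), `P` = union of closed convex cells of a tiling
-/

set_option autoImplicit false

noncomputable section

open scoped Classical

namespace Crest.Agent.R143.Segx991

open Set
open Crest.ProbabilityR.Voronoi
open Crest.Agent.R143.B0x346 Crest.Agent.R143.DelGx806 Crest.Agent.R143.B0Dx346
  Crest.Agent.R143.RE0x723 Crest.Agent.R143.G6Wx723 Crest.Agent.R143.Nearx440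
open Crest.Agent.R143.Roomx991 (Loc)

variable {S X : Finset ℂ} {P C : Set ℂ} {x y p a z : ℂ} {ρ d r : ℝ}

/-- sites whose cell meets `C` -/
def Clm (S : Finset ℂ) (C : Set ℂ) : Set ℂ :=
  {z | z ∈ S ∧ (C ∩ voronoiCell (S : Set ℂ) z).Nonempty}

theorem self_cell (z : ℂ) : z ∈ voronoiCell (S : Set ℂ) z := fun s _ => by
  rw [sub_self, norm_zero]; exact norm_nonneg _

theorem mem_clm (hz : z ∈ S) (hC : z ∈ C) : z ∈ Clm S C := ⟨hz, z, hC, self_cell z⟩

theorem Clm.mono {C' : Set ℂ} (h : C ⊆ C') : Clm S C ⊆ Clm S C' :=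
  fun _ hz => ⟨hz.1, hz.2.mono (inter_subset_inter_left _ h)⟩

/-- **the sites whose cells meet a connected set are joined through such sites** -/
theorem pth_conn (hS : GP (S : Set ℂ)) (h3 : 3 ≤ S.card) (hC : IsPreconnected C)
    (hx : x ∈ Clm S C) (hy : y ∈ Clm S C) : Pth S (Clm S C) x y := by
  refine ⟨hx, ?_⟩
  refine Relation.ReflTransGen.mono ?_ _ _ (chain_of_conn_fin hS h3 hC hx.1 hy.1 hx.2 hy.2)
  rintro u w ⟨h1, q, hq1, hq2⟩
  refine ⟨h1, h1.mem.2, q, hq2, ?_⟩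
  intro s hs
  have := hq1.2 s hs
  rw [← hq1.1]
  exact this

/-- `C` has holes of radius at most `d` -/
def Hl (S : Finset ℂ) (C : Set ℂ) (d : ℝ) : Prop := ∀ z ∈ C, ∃ s ∈ S, ‖z - s‖ ≤ d

theorem Hl.mono {C' : Set ℂ} (h : Hl S C d) (hC : C' ⊆ C) : Hl S C' d := fun z hz => h z (hC hz)

/-- the sites of `Clm S C` are near `C` -/
theorem near (h : Hl S C d) (hz : z ∈ Clm S C) : ∃ q ∈ C, ‖q - z‖ ≤ d := by
  obtain ⟨h1, q, hq, hc⟩ := hz
  obtain ⟨s, hs, h2⟩ := h q hq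
  exact ⟨q, hq, (hc s (Finset.mem_coe.2 hs)).trans h2⟩

/-- **deep sites** -/
def deep (S : Finset ℂ) (P : Set ℂ) (ρ : ℝ) : Finset ℂ :=
  S.filter fun s => Metric.closedBall s ρ ⊆ P

theorem deep_sub : deep S P ρ ⊆ S := Finset.filter_subset _ _

theorem mem_deep : x ∈ deep S P ρ ↔ x ∈ S ∧ Metric.closedBall x ρ ⊆ P := Finset.mem_filter

theorem deep_mem (h0 : 0 ≤ ρ) (h : x ∈ deep S P ρ) : x ∈ P :=
  (mem_deep.1 h).2 (Metric.mem_closedBall_self h0)

theorem exists_out (hx : x ∈ S) (h : x ∉ deep S P ρ) : ∃ p, p ∉ P ∧ ‖x - p‖ ≤ ρ := by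
  have h1 : ¬ Metric.closedBall x ρ ⊆ P := fun h' => h (mem_deep.2 ⟨hx, h'⟩)
  obtain ⟨p, hp, hpP⟩ := not_subset.1 h1
  refine ⟨p, hpP, ?_⟩
  rw [norm_sub_rev, ← dist_eq_norm]
  exact hp

theorem not_deep (hp : p ∉ P) (h : ‖x - p‖ ≤ ρ) : x ∉ deep S P ρ := fun h' => by
  refine hp ((mem_deep.1 h').2 ?_)
  rw [Metric.mem_closedBall, dist_eq_norm, norm_sub_rev]
  exact h

/-- **chains along connected sets outside `P` are off the deep sites** -/
theorem off_conn (hCP : ∀ q ∈ C, q ∉ P) (hH : Hl S C d) (hd : d ≤ ρ) (hz : z ∈ Clm S C) :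
    z ∉ deep S P ρ := by
  obtain ⟨q, hq, h1⟩ := near hH hz
  exact not_deep (hCP q hq) (by rw [norm_sub_rev]; linarith)

/-- the cells met by a segment from a site -/
theorem seg_ball (hx : x ∈ S) (hz : z ∈ Clm S (segment ℝ x p)) : ‖z - p‖ ≤ ‖x - p‖ := by
  obtain ⟨h1, q, hq, hc⟩ := hz
  have h2 : ‖q - z‖ ≤ ‖q - x‖ := hc x (Finset.mem_coe.2 hx)
  have h3 := seg_add hq
  have h4 : ‖z - p‖ ≤ ‖z - q‖ + ‖q - p‖ := by
    have := norm_add_le (z - q) (q - p)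
    rwa [sub_add_sub_cancel] at this
  rw [norm_sub_rev z q] at h4
  rw [norm_sub_rev q x] at h2
  linarith

/-- **the first leg** -/
theorem off_seg (hx : x ∈ S) (hp : p ∉ P) (h : ‖x - p‖ ≤ ρ) (hz : z ∈ Clm S (segment ℝ x p)) :
    z ∉ deep S P ρ :=
  not_deep hp ((seg_ball hx hz).trans h)

/-- **a site which is not deep is joined off the deep sites to the sites near a connected set
outside** -/
theorem pth_out' (hS : GP (S : Set ℂ)) (h3 : 3 ≤ S.card) (hx : x ∈ S) (hp : p ∉ P)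
    (hxp : ‖x - p‖ ≤ ρ) (hC : IsPreconnected C) (hCP : ∀ q ∈ C, q ∉ P) (hH : Hl S C d)
    (hd : d ≤ ρ) (hpC : p ∈ C) (hCr : ∀ q ∈ C, ‖q - x‖ ≤ r) (hy : y ∈ Clm S C) :
    Pth S {z | (z ∈ S ∧ z ∉ deep S P ρ) ∧ ‖z - x‖ ≤ r + 2 * ρ ∧
      (z ∈ Clm S (segment ℝ x p) ∨ z ∈ Clm S C)} x y := by
  have hρ : 0 ≤ ρ := (norm_nonneg _).trans hxp
  have hr : 0 ≤ r := (norm_nonneg _).trans (hCr p hpC)
  obtain ⟨c, hc, hcc⟩ := exists_cell ⟨x, hx⟩ p
  have h1 : Pth S (Clm S (segment ℝ x p)) x c :=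
    pth_conn hS h3 (convex_segment x p).isPreconnected (mem_clm hx (left_mem_segment ℝ x p))
      ⟨hc, p, right_mem_segment ℝ x p, hcc⟩
  have h2 : Pth S (Clm S C) c y := pth_conn hS h3 hC ⟨hc, p, hpC, hcc⟩ hy
  refine (h1.mono ?_).trans (h2.mono ?_)
  · intro z hz
    refine ⟨⟨hz.1, off_seg hx hp hxp hz⟩, ?_, Or.inl hz⟩
    have h4 := seg_ball hx hz
    have h5 : ‖z - x‖ ≤ ‖z - p‖ + ‖p - x‖ := by
      have := norm_add_le (z - p) (p - x)
      rwa [sub_add_sub_cancel] at this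
    rw [norm_sub_rev p x] at h5
    linarith
  · intro z hz
    refine ⟨⟨hz.1, off_conn hCP hH hd hz⟩, ?_, Or.inr hz⟩
    obtain ⟨q, hq, h4⟩ := near hH hz
    have h5 : ‖z - x‖ ≤ ‖z - q‖ + ‖q - x‖ := by
      have := norm_add_le (z - q) (q - x)
      rwa [sub_add_sub_cancel] at this
    rw [norm_sub_rev z q] at h5
    have := hCr q hq
    linarith

theorem pth_out (hS : GP (S : Set ℂ)) (h3 : 3 ≤ S.card) (hx : x ∈ S) (hp : p ∉ P)
    (hxp : ‖x - p‖ ≤ ρ) (hC : IsPreconnected C) (hCP : ∀ q ∈ C, q ∉ P) (hH : Hl S C d)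
    (hd : d ≤ ρ) (hpC : p ∈ C) (hCr : ∀ q ∈ C, ‖q - x‖ ≤ r) (hy : y ∈ Clm S C) :
    Pth S {z | (z ∈ S ∧ z ∉ deep S P ρ) ∧ ‖z - x‖ ≤ r + 2 * ρ} x y :=
  (pth_out' hS h3 hx hp hxp hC hCP hH hd hpC hCr hy).mono fun _ hz => ⟨hz.1, hz.2.1⟩

/-- the same, `Loc` -/
theorem loc_out (hS : GP (S : Set ℂ)) (h3 : 3 ≤ S.card) (hXS : X ⊆ S) (hx : x ∈ S) (hp : p ∉ P)
    (hxp : ‖x - p‖ ≤ ρ) (hC : IsPreconnected C) (hCP : ∀ q ∈ C, q ∉ P) (hH : Hl S C d)
    (hd : d ≤ ρ) (hpC : p ∈ C) (hCr : ∀ q ∈ C, ‖q - x‖ ≤ r) (ha : a ∈ X) (haC : a ∈ C) :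
    Loc S (deep S P ρ) X (r + 2 * ρ) x :=
  ⟨a, ha, pth_out hS h3 hx hp hxp hC hCP hH hd hpC hCr (mem_clm (hXS ha) haC)⟩

/-! ### tilings -/

section brick

variable {ι : Type} {B : ι → Set ℂ} {F : Set ι} {b : ι} {c t e q : ℂ} {m s : ℝ}

/-- way from a point of a tile off `F` to a point `e` which is far from the tiles of `F` -/
theorem exists_way (hconv : Convex ℝ (B b)) (hint : ∀ i ∈ F, Disjoint (interior (B b)) (B i))
    (hc : c ∈ interior (B b)) (hpb : p ∈ B b) (hpP : p ∉ ⋃ i ∈ F, B i) (ht : t ∈ B b)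
    (hte : ‖t - e‖ < s) (hgood : ∀ i ∈ F, ∀ y ∈ B i, s ≤ ‖y - e‖)
    (hm : ∀ y ∈ B b, ∀ y' ∈ B b, ‖y - y'‖ ≤ m) :
    ∃ C : Set ℂ, IsPreconnected C ∧ p ∈ C ∧ e ∈ C ∧ (∀ q ∈ C, q ∉ ⋃ i ∈ F, B i) ∧
      ∀ q ∈ C, ‖q - p‖ ≤ m + s := by
  have hcb : c ∈ B b := interior_subset hc
  have htP : t ∉ ⋃ i ∈ F, B i := by
    intro h
    obtain ⟨i, hi, h1⟩ := mem_iUnion₂.1 h
    exact absurd (hgood i hi t h1) (not_le.2 hte)
  -- a segment from a point of the tile to the centre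
  have hseg : ∀ u ∈ B b, u ∉ ⋃ i ∈ F, B i → ∀ q ∈ segment ℝ u c, q ∉ ⋃ i ∈ F, B i := by
    intro u hu huP q hq hqP
    obtain ⟨i, hi, h2⟩ := mem_iUnion₂.1 hqP
    by_cases h1 : u = q
    · exact huP (h1 ▸ hqP)
    · by_cases h3 : c = q
      · exact Set.disjoint_left.1 (hint i hi) (h3 ▸ hc) h2
      · exact Set.disjoint_left.1 (hint i hi)
          (hconv.openSegment_closure_interior_subset_interior (subset_closure hu) hc
            (mem_openSegment_of_ne_left_right h1 h3 hq)) h2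
  refine ⟨segment ℝ p c ∪ (segment ℝ c t ∪ segment ℝ t e), ?_, Or.inl (left_mem_segment ℝ p c),
    Or.inr (Or.inr (right_mem_segment ℝ t e)), ?_, ?_⟩
  · refine IsPreconnected.union c (right_mem_segment ℝ p c) (Or.inl (left_mem_segment ℝ c t))
      (convex_segment p c).isPreconnected ?_
    exact IsPreconnected.union t (right_mem_segment ℝ c t) (left_mem_segment ℝ t e)
      (convex_segment c t).isPreconnected (convex_segment t e).isPreconnected
  · rintro q (hq | hq | hq)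
    · exact hseg p hpb hpP q hq
    · rw [segment_symm] at hq
      exact hseg t ht htP q hq
    · intro hqP
      obtain ⟨i, hi, h1⟩ := mem_iUnion₂.1 hqP
      have h2 := hgood i hi q h1
      have h3 := seg_add hq
      have := norm_nonneg (t - q)
      linarith
  · have hs : 0 < s := (norm_nonneg _).trans_lt hte
    have hm0 : 0 ≤ m := (norm_nonneg _).trans (hm p hpb p hpb)
    rintro q (hq | hq | hq)
    · have := hm q (hconv.segment_subset hpb hcb hq) p hpb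
      linarith
    · have := hm q (hconv.segment_subset hcb ht hq) p hpb
      linarith
    · have h1 := hm t ht p hpb
      have h2 := seg_add hq
      have h3 : ‖q - p‖ ≤ ‖q - t‖ + ‖t - p‖ := by
        have := norm_add_le (q - t) (t - p)
        rwa [sub_add_sub_cancel] at this
      rw [norm_sub_rev q t] at h3
      have := norm_nonneg (q - e)
      linarith

/-- **(S5)** `x` is not deep, `p` is in the tile `b` off `F`; some site `e` of `X` is at distance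
`< s` from the tile `b`, and all the tiles of `F` are at distance `≥ s` from `e` -/
theorem loc_brick (hS : GP (S : Set ℂ)) (h3 : 3 ≤ S.card) (hXS : X ⊆ S) (hx : x ∈ S)
    (hxp : ‖x - p‖ ≤ ρ) (hd : d ≤ ρ)
    (hconv : Convex ℝ (B b)) (hint : ∀ i ∈ F, Disjoint (interior (B b)) (B i))
    (hc : c ∈ interior (B b)) (hpb : p ∈ B b) (hpP : p ∉ ⋃ i ∈ F, B i) (ht : t ∈ B b)
    (he : e ∈ X) (hte : ‖t - e‖ < s) (hgood : ∀ i ∈ F, ∀ y ∈ B i, s ≤ ‖y - e‖)
    (hm : ∀ y ∈ B b, ∀ y' ∈ B b, ‖y - y'‖ ≤ m)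
    (hH : Hl S (Metric.closedBall x (m + s + ρ)) d) :
    Loc S (deep S (⋃ i ∈ F, B i) ρ) X (m + s + 3 * ρ) x := by
  obtain ⟨C, h1, h2, h3', h4, h5⟩ := exists_way hconv hint hc hpb hpP ht hte hgood hm
  have h6 : ∀ q ∈ C, ‖q - x‖ ≤ m + s + ρ := by
    intro q hq
    have h7 := h5 q hq
    have h8 : ‖q - x‖ ≤ ‖q - p‖ + ‖p - x‖ := by
      have := norm_add_le (q - p) (p - x)
      rwa [sub_add_sub_cancel] at this
    rw [norm_sub_rev p x] at h8
    linarith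
  have h7 := loc_out hS h3 hXS hx hpP hxp h1 h4 (hH.mono fun q hq => by
    rw [Metric.mem_closedBall, dist_eq_norm]; exact h6 q hq) hd h2 h6 he h3'
  have e1 : m + s + ρ + 2 * ρ = m + s + 3 * ρ := by ring
  rwa [e1] at h7

end brick

end Crest.Agent.R143.Segx991
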