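import Crest.Agent.R143.Y5a_315

/-!
# R143, block X (helper315): fair colourings of a finite set, Harris inequality

A colouring of the finite set `V` is a subset `β ⊆ V` (the sites of one fixed colour).
* `nb V A` : number of colourings with `A`; `pr V A = nb V A / 2 ^ #V`
* `Up V A`, `Dn V A` : increasing / decreasing; `Dep V W A` : `A` only looks at `β ∩ W`
* `harris_up`, `harris_dn`, `harris_mix`, families `harris_prod_up`, `harris_prod_dn`, `sqrt_trick`
* `pr_flip` : exchange of the colours; `pr_sum` : fix the colours of `W`; `pr_dep` : marginal;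
  `pr_indep`, `pr_indep_prod` : independence
* `cond_ge`, `cond_le` : bounds given the colours outside; `cond_harris` : Harris given the outside
* `IsStop V J`, `stop_sum`, `stop_ge`, `stop_le` : strong Markov property for explored sets
* `real_eq_pr` : `pr` as a probability for the colours `cl I`
-/

set_option autoImplicit false

noncomputable section

open scoped Classical

namespace Crest.Agent.R143.Harx315

open Finset

variable {α : Type*}

/-- the colourings with `A` -/
def fl (V : Finset α) (A : Finset α → Prop) : Finset (Finset α) := V.powerset.filter A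

/-- number of colourings -/
def nb (V : Finset α) (A : Finset α → Prop) : ℕ := (fl V A).card

/-- probability -/
def pr (V : Finset α) (A : Finset α → Prop) : ℝ := (nb V A : ℝ) / 2 ^ V.card

/-- increasing -/
def Up (V : Finset α) (A : Finset α → Prop) : Prop := ∀ β β', β ⊆ β' → β' ⊆ V → A β → A β'

/-- decreasing -/
def Dn (V : Finset α) (A : Finset α → Prop) : Prop := ∀ β β', β ⊆ β' → β' ⊆ V → A β' → A β

/-- `A` only looks at the colours of `W` -/
def Dep (V W : Finset α) (A : Finset α → Prop) : Prop := ∀ β, β ⊆ V → (A β ↔ A (β ∩ W))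

variable {V W : Finset α} {A B C : Finset α → Prop}

lemma mem_fil {β : Finset α} : β ∈ fl V A ↔ β ⊆ V ∧ A β := by
  unfold fl; simp

lemma fl_or : fl V (fun β => A β ∨ B β) = fl V A ∪ fl V B := by
  ext β
  rw [mem_union, mem_fil, mem_fil, mem_fil]
  tauto

lemma fl_and : fl V (fun β => A β ∧ B β) = fl V A ∩ fl V B := by
  ext β
  rw [mem_inter, mem_fil, mem_fil, mem_fil]
  tauto

lemma nb_mono (h : ∀ β, β ⊆ V → A β → B β) : nb V A ≤ nb V B := by
  unfold nb
  apply card_le_card
  intro β hβ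
  rw [mem_fil] at hβ ⊢
  exact ⟨hβ.1, h β hβ.1 hβ.2⟩

lemma nb_congr (h : ∀ β, β ⊆ V → (A β ↔ B β)) : nb V A = nb V B :=
  le_antisymm (nb_mono fun β h1 h2 => (h β h1).1 h2) (nb_mono fun β h1 h2 => (h β h1).2 h2)

lemma nb_true : nb V (fun _ => True) = 2 ^ V.card := by
  unfold nb fl; simp

lemma nb_add_not (V : Finset α) (A : Finset α → Prop) : nb V A + nb V (fun β => ¬ A β) = 2 ^ V.card := by
  unfold nb fl
  rw [card_filter_add_card_filter_not, card_powerset]

lemma two_pos' (V : Finset α) : (0 : ℝ) < 2 ^ V.card := by positivity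

lemma pr_nonneg : 0 ≤ pr V A := by unfold pr; positivity

lemma pr_mono (h : ∀ β, β ⊆ V → A β → B β) : pr V A ≤ pr V B := by
  unfold pr
  have : (nb V A : ℝ) ≤ nb V B := by exact_mod_cast nb_mono h
  gcongr

lemma pr_congr (h : ∀ β, β ⊆ V → (A β ↔ B β)) : pr V A = pr V B := by
  unfold pr; rw [nb_congr h]

lemma pr_true (V : Finset α) : pr V (fun _ => True) = 1 := by
  unfold pr
  rw [nb_true]
  push_cast
  exact div_self (two_pos' V).ne'

lemma pr_le_one : pr V A ≤ 1 := by
  rw [← pr_true V]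
  exact pr_mono fun _ _ _ => trivial

lemma pr_false (V : Finset α) : pr V (fun _ => False) = 0 := by
  unfold pr nb fl; simp

lemma pr_not (V : Finset α) (A : Finset α → Prop) : pr V (fun β => ¬ A β) = 1 - pr V A := by
  have h1 : (nb V A : ℝ) + nb V (fun β => ¬ A β) = 2 ^ V.card := by
    exact_mod_cast nb_add_not V A
  unfold pr
  have h2 := two_pos' V
  field_simp
  linarith

lemma pr_or_le : pr V (fun β => A β ∨ B β) ≤ pr V A + pr V B := by
  unfold pr
  rw [← add_div]
  have h1 : nb V (fun β => A β ∨ B β) ≤ nb V A + nb V B := by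
    unfold nb
    rw [fl_or]
    exact card_union_le _ _
  have h2 : (nb V (fun β => A β ∨ B β) : ℝ) ≤ nb V A + nb V B := by exact_mod_cast h1
  gcongr

/-- union bound -/
lemma pr_exists_le {ι : Type*} (s : Finset ι) (A : ι → Finset α → Prop) :
    pr V (fun β => ∃ i ∈ s, A i β) ≤ ∑ i ∈ s, pr V (A i) := by
  induction s using Finset.induction_on with
  | empty => simp [pr_false]
  | insert i s hi ih =>
      rw [sum_insert hi]
      have h1 : pr V (fun β => ∃ j ∈ insert i s, A j β) ≤
          pr V (fun β => A i β ∨ ∃ j ∈ s, A j β) := by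
        apply pr_mono
        rintro β _ ⟨j, hj, hA⟩
        rcases mem_insert.1 hj with rfl | hj
        · exact Or.inl hA
        · exact Or.inr ⟨j, hj, hA⟩
      exact h1.trans (pr_or_le.trans (add_le_add le_rfl ih))

/-- disjoint decomposition -/
lemma pr_and_add (V : Finset α) (A B : Finset α → Prop) :
    pr V (fun β => A β ∧ B β) + pr V (fun β => A β ∧ ¬ B β) = pr V A := by
  have h0 : nb V (fun β => A β ∧ B β) + nb V (fun β => A β ∧ ¬ B β) = nb V A := by
    have h1 := card_filter_add_card_filter_not (s := fl V A) B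
    unfold nb
    rw [← h1]
    congr 1
    · congr 1
      ext β
      rw [mem_fil, mem_filter, mem_fil]
      tauto
    · congr 1
      ext β
      rw [mem_fil, mem_filter, mem_fil]
      tauto
  unfold pr
  rw [← add_div, ← h0]
  push_cast
  rfl

/-! ### exchange of the colours -/

theorem nb_flip (V : Finset α) (A : Finset α → Prop) : nb V (fun β => A (V \ β)) = nb V A := by
  unfold nb
  apply card_bij (fun β _ => V \ β)
  · intro β hβ
    rw [mem_fil] at hβ ⊢
    exact ⟨sdiff_subset, hβ.2⟩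
  · intro β hβ β' hβ' h
    rw [mem_fil] at hβ hβ'
    rw [← Finset.sdiff_sdiff_eq_self hβ.1, ← Finset.sdiff_sdiff_eq_self hβ'.1, h]
  · intro β hβ
    rw [mem_fil] at hβ
    refine ⟨V \ β, ?_, Finset.sdiff_sdiff_eq_self hβ.1⟩
    rw [mem_fil]
    refine ⟨sdiff_subset, ?_⟩
    rw [Finset.sdiff_sdiff_eq_self hβ.1]
    exact hβ.2

theorem pr_flip (V : Finset α) (A : Finset α → Prop) : pr V (fun β => A (V \ β)) = pr V A := by
  unfold pr; rw [nb_flip]

lemma Up.flip (h : Up V A) : Dn V (fun β => A (V \ β)) := fun _ _ h1 _ h3 =>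
  h _ _ (sdiff_subset_sdiff subset_rfl h1) sdiff_subset h3

lemma Dn.flip (h : Dn V A) : Up V (fun β => A (V \ β)) := fun _ _ h1 _ h3 =>
  h _ _ (sdiff_subset_sdiff subset_rfl h1) sdiff_subset h3

lemma Up.not (h : Up V A) : Dn V (fun β => ¬ A β) := fun _ _ h1 h2 h3 h4 => h3 (h _ _ h1 h2 h4)
lemma Dn.not (h : Dn V A) : Up V (fun β => ¬ A β) := fun _ _ h1 h2 h3 h4 => h3 (h _ _ h1 h2 h4)

lemma Up.and (h : Up V A) (h' : Up V B) : Up V (fun β => A β ∧ B β) :=
  fun _ _ h1 h2 h3 => ⟨h _ _ h1 h2 h3.1, h' _ _ h1 h2 h3.2⟩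
lemma Dn.and (h : Dn V A) (h' : Dn V B) : Dn V (fun β => A β ∧ B β) :=
  fun _ _ h1 h2 h3 => ⟨h _ _ h1 h2 h3.1, h' _ _ h1 h2 h3.2⟩
lemma Up.or (h : Up V A) (h' : Up V B) : Up V (fun β => A β ∨ B β) :=
  fun _ _ h1 h2 h3 => h3.imp (h _ _ h1 h2) (h' _ _ h1 h2)
lemma Dn.or (h : Dn V A) (h' : Dn V B) : Dn V (fun β => A β ∨ B β) :=
  fun _ _ h1 h2 h3 => h3.imp (h _ _ h1 h2) (h' _ _ h1 h2)
lemma Up.all {ι : Type*} {s : Finset ι} {A : ι → Finset α → Prop} (h : ∀ i ∈ s, Up V (A i)) :
    Up V (fun β => ∀ i ∈ s, A i β) := fun _ _ h1 h2 h3 i hi => h i hi _ _ h1 h2 (h3 i hi)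
lemma Dn.all {ι : Type*} {s : Finset ι} {A : ι → Finset α → Prop} (h : ∀ i ∈ s, Dn V (A i)) :
    Dn V (fun β => ∀ i ∈ s, A i β) := fun _ _ h1 h2 h3 i hi => h i hi _ _ h1 h2 (h3 i hi)
lemma Up.ex {ι : Type*} {s : Finset ι} {A : ι → Finset α → Prop} (h : ∀ i ∈ s, Up V (A i)) :
    Up V (fun β => ∃ i ∈ s, A i β) := fun _ _ h1 h2 ⟨i, hi, h3⟩ => ⟨i, hi, h i hi _ _ h1 h2 h3⟩
lemma Dn.ex {ι : Type*} {s : Finset ι} {A : ι → Finset α → Prop} (h : ∀ i ∈ s, Dn V (A i)) :
    Dn V (fun β => ∃ i ∈ s, A i β) := fun _ _ h1 h2 ⟨i, hi, h3⟩ => ⟨i, hi, h i hi _ _ h1 h2 h3⟩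
lemma Up.const (p : Prop) : Up V (fun _ => p) := fun _ _ _ _ h => h
lemma Dn.const (p : Prop) : Dn V (fun _ => p) := fun _ _ _ _ h => h

/-! ### Harris -/

theorem nb_harris_dn (hA : Dn V A) (hB : Dn V B) :
    nb V A * nb V B ≤ 2 ^ V.card * nb V (fun β => A β ∧ B β) := by
  unfold nb
  have h1 : ∀ {A : Finset α → Prop}, Dn V A →
      IsLowerSet ((fl V A : Finset (Finset α)) : Set (Finset α)) := by
    intro A hA β β' hle hβ
    rw [mem_coe, mem_fil] at hβ ⊢
    exact ⟨hle.trans hβ.1, hA _ _ hle hβ.1 hβ.2⟩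
  have h2 := (h1 hA).le_card_inter_finset' (h1 hB) (s := V)
    (fun t ht => (mem_fil.1 ht).1) (fun t ht => (mem_fil.1 ht).1)
  rw [fl_and]
  exact h2

/-- **Harris, decreasing events** -/
theorem harris_dn (hA : Dn V A) (hB : Dn V B) : pr V A * pr V B ≤ pr V (fun β => A β ∧ B β) := by
  have h1 : (nb V A : ℝ) * nb V B ≤ 2 ^ V.card * nb V (fun β => A β ∧ B β) := by
    exact_mod_cast nb_harris_dn hA hB
  unfold pr
  have h2 := two_pos' V
  rw [div_mul_div_comm, div_le_div_iff₀ (by positivity) h2]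
  nlinarith

/-- **Harris, increasing events** -/
theorem harris_up (hA : Up V A) (hB : Up V B) : pr V A * pr V B ≤ pr V (fun β => A β ∧ B β) := by
  rw [← pr_flip V A, ← pr_flip V B, ← pr_flip V (fun β => A β ∧ B β)]
  exact harris_dn hA.flip hB.flip

/-- **Harris, one increasing and one decreasing event** -/
theorem harris_mix (hA : Up V A) (hB : Dn V B) : pr V (fun β => A β ∧ B β) ≤ pr V A * pr V B := by
  have h1 := harris_up hA hB.not
  rw [pr_not] at h1
  have h2 := pr_and_add V A B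
  linarith

theorem harris_mix' (hA : Dn V A) (hB : Up V B) : pr V (fun β => A β ∧ B β) ≤ pr V A * pr V B := by
  have h1 := harris_mix hB hA
  rw [mul_comm, pr_congr (B := fun β => B β ∧ A β) (fun β _ => and_comm)]
  exact h1

/-- several increasing events -/
theorem harris_prod_up {ι : Type*} (s : Finset ι) {A : ι → Finset α → Prop}
    (h : ∀ i ∈ s, Up V (A i)) : ∏ i ∈ s, pr V (A i) ≤ pr V (fun β => ∀ i ∈ s, A i β) := by
  induction s using Finset.induction_on with
  | empty => simp [pr_true]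
  | insert i s hi ih =>
      rw [prod_insert hi]
      have h1 := ih fun j hj => h j (mem_insert_of_mem hj)
      have h2 := harris_up (h i (mem_insert_self i s))
        (Up.all fun j hj => h j (mem_insert_of_mem hj))
      have h3 : pr V (fun β => A i β ∧ ∀ j ∈ s, A j β) =
          pr V (fun β => ∀ j ∈ insert i s, A j β) := by
        apply pr_congr
        intro β _
        simp
      rw [← h3]
      exact (mul_le_mul_of_nonneg_left h1 pr_nonneg).trans h2

/-- several decreasing events -/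
theorem harris_prod_dn {ι : Type*} (s : Finset ι) {A : ι → Finset α → Prop}
    (h : ∀ i ∈ s, Dn V (A i)) : ∏ i ∈ s, pr V (A i) ≤ pr V (fun β => ∀ i ∈ s, A i β) := by
  have h1 := harris_prod_up s (V := V) (A := fun i β => A i (V \ β)) fun i hi => (h i hi).flip
  simp only [pr_flip] at h1
  rw [← pr_flip V (fun β => ∀ i ∈ s, A i β)]
  exact h1

/-- **square root trick** -/
theorem sqrt_trick {ι : Type*} {s : Finset ι} (hs : s.Nonempty) {A : ι → Finset α → Prop}
    (h : (∀ i ∈ s, Up V (A i)) ∨ ∀ i ∈ s, Dn V (A i)) :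
    ∃ i ∈ s, (1 - pr V (A i)) ^ s.card ≤ 1 - pr V (fun β => ∃ i ∈ s, A i β) := by
  have h1 : ∏ i ∈ s, (1 - pr V (A i)) ≤ 1 - pr V (fun β => ∃ i ∈ s, A i β) := by
    have h2 : pr V (fun β => ∀ i ∈ s, ¬ A i β) = 1 - pr V (fun β => ∃ i ∈ s, A i β) := by
      rw [← pr_not]
      apply pr_congr
      intro β _
      push Not
      rfl
    rw [← h2]
    have h3 : ∀ i, 1 - pr V (A i) = pr V (fun β => ¬ A i β) := fun i => (pr_not V (A i)).symm
    simp only [h3]
    rcases h with h | h
    · exact harris_prod_dn s fun i hi => (h i hi).not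
    · exact harris_prod_up s fun i hi => (h i hi).not
  obtain ⟨i, hi, hmin⟩ := exists_min_image s (fun i => 1 - pr V (A i)) hs
  refine ⟨i, hi, le_trans ?_ h1⟩
  rw [← prod_const]
  apply prod_le_prod
  · intro j _
    linarith [pr_le_one (V := V) (A := A i)]
  · intro j hj
    exact hmin j hj

/-! ### fixing colours -/

/-- colourings of `V` = colourings of `V \ W` and of `W` -/
theorem nb_sum (hW : W ⊆ V) (A : Finset α → Prop) :
    nb V A = ∑ γ ∈ W.powerset, nb (V \ W) (fun β => A (β ∪ γ)) := by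
  unfold nb
  rw [card_eq_sum_card_fiberwise (f := fun β => β ∩ W) (t := W.powerset)]
  · apply sum_congr rfl
    intro γ hγ
    rw [mem_powerset] at hγ
    symm
    apply card_bij (fun β _ => β ∪ γ)
    · intro β hβ
      rw [mem_fil] at hβ
      rw [mem_filter, mem_fil]
      refine ⟨⟨union_subset (hβ.1.trans sdiff_subset) (hγ.trans hW), hβ.2⟩, ?_⟩
      ext x
      simp only [mem_inter, mem_union]
      constructor
      · rintro ⟨h1 | h1, h2⟩
        · exact absurd h2 (mem_sdiff.1 (hβ.1 h1)).2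
        · exact h1
      · intro h1; exact ⟨Or.inr h1, hγ h1⟩
    · intro β hβ β' hβ' h
      rw [mem_fil] at hβ hβ'
      have key : ∀ {δ : Finset α}, δ ⊆ V \ W → (δ ∪ γ) \ W = δ := by
        intro δ hδ
        ext x
        simp only [mem_sdiff, mem_union]
        constructor
        · rintro ⟨h1 | h1, h2⟩
          · exact h1
          · exact absurd (hγ h1) h2
        · intro h1; exact ⟨Or.inl h1, (mem_sdiff.1 (hδ h1)).2⟩
      rw [← key hβ.1, ← key hβ'.1, h]
    · intro β hβ
      rw [mem_filter, mem_fil] at hβ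
      have he : β \ W ∪ γ = β := by
        rw [← hβ.2]
        exact sdiff_union_inter β W
      refine ⟨β \ W, ?_, he⟩
      rw [mem_fil]
      exact ⟨sdiff_subset_sdiff hβ.1.1 subset_rfl, by rw [he]; exact hβ.1.2⟩
  · intro β _
    simp only [coe_powerset, Set.mem_preimage, Set.mem_powerset_iff, coe_subset]
    exact inter_subset_right

theorem pr_sum (hW : W ⊆ V) (A : Finset α → Prop) :
    pr V A = (∑ γ ∈ W.powerset, pr (V \ W) (fun β => A (β ∪ γ))) / 2 ^ W.card := by
  unfold pr
  rw [nb_sum hW, ← sum_div, div_div, ← pow_add]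
  push_cast
  congr 2
  rw [card_sdiff_of_subset hW]
  have := card_le_card hW
  omega

/-- the law of the colours of `W` -/
theorem pr_dep (hW : W ⊆ V) (h : Dep V W A) : pr V A = pr W A := by
  have h1 : V \ W ⊆ V := sdiff_subset
  rw [pr_sum h1]
  have h2 : V \ (V \ W) = W := Finset.sdiff_sdiff_eq_self hW
  rw [h2]
  have h3 : ∀ γ ∈ (V \ W).powerset, pr W (fun β => A (β ∪ γ)) = pr W A := by
    intro γ hγ
    rw [mem_powerset] at hγ
    apply pr_congr
    intro β hβ
    have e1 : (β ∪ γ) ∩ W = β := by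
      ext x
      simp only [mem_inter, mem_union]
      constructor
      · rintro ⟨h4 | h4, h5⟩
        · exact h4
        · exact absurd h5 (mem_sdiff.1 (hγ h4)).2
      · intro h4; exact ⟨Or.inl h4, hβ h4⟩
    have e2 := h (β ∪ γ) (union_subset (hβ.trans hW) (hγ.trans sdiff_subset))
    rw [e1] at e2
    exact e2
  rw [sum_congr rfl h3, sum_const, card_powerset, nsmul_eq_mul]
  push_cast
  rw [mul_comm, mul_div_assoc, div_self (two_pos' _).ne', mul_one]

lemma Dep.and (hA : Dep V W A) (hB : Dep V W B) : Dep V W (fun β => A β ∧ B β) := fun β hβ => by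
  simp only [← hA β hβ, ← hB β hβ]
lemma Dep.not (hA : Dep V W A) : Dep V W (fun β => ¬ A β) := fun β hβ => by
  simp only [← hA β hβ]
lemma Dep.or (hA : Dep V W A) (hB : Dep V W B) : Dep V W (fun β => A β ∨ B β) := fun β hβ => by
  simp only [← hA β hβ, ← hB β hβ]

lemma Dep.mono {W' : Finset α} (h : Dep V W A) (hW : W ⊆ W') : Dep V W' A := by
  intro β hβ
  rw [h β hβ, h (β ∩ W') (inter_subset_left.trans hβ)]
  have : β ∩ W' ∩ W = β ∩ W := by
    rw [inter_assoc, inter_eq_right.2 hW]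
  rw [this]

lemma Dep.all {ι : Type*} {s : Finset ι} {A : ι → Finset α → Prop} (h : ∀ i ∈ s, Dep V W (A i)) :
    Dep V W (fun β => ∀ i ∈ s, A i β) := by
  intro β hβ
  constructor
  · intro h1 i hi; exact (h i hi β hβ).1 (h1 i hi)
  · intro h1 i hi; exact (h i hi β hβ).2 (h1 i hi)

/-- **independence** -/
theorem pr_indep {W' : Finset α} (hd : Disjoint W W') (hA : Dep V W A) (hB : Dep V W' B) :
    pr V (fun β => A β ∧ B β) = pr V A * pr V B := by
  have hV : V ∩ W ⊆ V := inter_subset_left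
  have hA' : Dep V (V ∩ W) A := by
    intro β hβ
    have : β ∩ (V ∩ W) = β ∩ W := by rw [← inter_assoc, inter_eq_left.2 hβ]
    rw [this]; exact hA β hβ
  rw [pr_dep hV hA', pr_sum hV]
  have h1 : ∀ γ ∈ (V ∩ W).powerset, pr (V \ (V ∩ W)) (fun β => A (β ∪ γ) ∧ B (β ∪ γ)) =
      if A γ then pr V B else 0 := by
    intro γ hγ
    rw [mem_powerset] at hγ
    have hγW : γ ⊆ W := hγ.trans inter_subset_right
    have hγV : γ ⊆ V := hγ.trans hV
    have hsub : ∀ {β : Finset α}, β ⊆ V \ (V ∩ W) → β ∪ γ ⊆ V := fun h =>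
      union_subset (h.trans sdiff_subset) hγV
    have hβW : ∀ {β : Finset α}, β ⊆ V \ (V ∩ W) → ∀ x ∈ β, x ∉ W := by
      intro β hβ x hx hxW
      have := mem_sdiff.1 (hβ hx)
      exact this.2 (mem_inter.2 ⟨this.1, hxW⟩)
    have e1 : ∀ {β : Finset α}, β ⊆ V \ (V ∩ W) → (A (β ∪ γ) ↔ A γ) := by
      intro β hβ
      rw [hA _ (hsub hβ)]
      have : (β ∪ γ) ∩ W = γ := by
        ext x
        simp only [mem_inter, mem_union]
        constructor
        · rintro ⟨h4 | h4, h5⟩
          · exact absurd h5 (hβW hβ x h4)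
          · exact h4
        · intro h4; exact ⟨Or.inr h4, hγW h4⟩
      rw [this]
    have e2 : ∀ {β : Finset α}, β ⊆ V \ (V ∩ W) → (B (β ∪ γ) ↔ B β) := by
      intro β hβ
      rw [hB _ (hsub hβ), hB β (hβ.trans sdiff_subset)]
      have : (β ∪ γ) ∩ W' = β ∩ W' := by
        ext x
        simp only [mem_inter, mem_union]
        constructor
        · rintro ⟨h4 | h4, h5⟩
          · exact ⟨h4, h5⟩
          · exact absurd h5 (disjoint_left.1 hd (hγW h4))
        · rintro ⟨h4, h5⟩; exact ⟨Or.inl h4, h5⟩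
      rw [this]
    have e3 : pr (V \ (V ∩ W)) B = pr V B := by
      symm
      apply pr_dep sdiff_subset
      intro β hβ
      rw [hB β hβ, hB (β ∩ (V \ (V ∩ W))) (inter_subset_left.trans hβ)]
      have : β ∩ (V \ (V ∩ W)) ∩ W' = β ∩ W' := by
        ext x
        simp only [mem_inter, mem_sdiff, not_and]
        constructor
        · rintro ⟨⟨h4, _⟩, h5⟩; exact ⟨h4, h5⟩
        · rintro ⟨h4, h5⟩
          exact ⟨⟨h4, hβ h4, fun _ h6 => disjoint_left.1 hd h6 h5⟩, h5⟩
      rw [this]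
    split_ifs with hAγ
    · rw [← e3]
      apply pr_congr
      intro β hβ
      rw [e1 hβ, e2 hβ]
      simp [hAγ]
    · rw [← pr_false (V \ (V ∩ W))]
      apply pr_congr
      intro β hβ
      rw [e1 hβ]
      simp [hAγ]
  rw [sum_congr rfl h1, ← sum_filter, sum_const, nsmul_eq_mul]
  have e4 : (((V ∩ W).powerset.filter A).card : ℝ) = nb (V ∩ W) A := rfl
  rw [e4]
  unfold pr
  ring

/-- independence of several events with disjoint supports -/
theorem pr_indep_prod {ι : Type*} (s : Finset ι) {A : ι → Finset α → Prop} {W : ι → Finset α}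
    (hd : ∀ i ∈ s, ∀ j ∈ s, i ≠ j → Disjoint (W i) (W j)) (h : ∀ i ∈ s, Dep V (W i) (A i)) :
    pr V (fun β => ∀ i ∈ s, A i β) = ∏ i ∈ s, pr V (A i) := by
  induction s using Finset.induction_on with
  | empty => simp [pr_true]
  | insert i s hi ih =>
      rw [prod_insert hi, ← ih (fun j hj k hk => hd j (mem_insert_of_mem hj) k
        (mem_insert_of_mem hk)) (fun j hj => h j (mem_insert_of_mem hj))]
      have h3 : pr V (fun β => ∀ j ∈ insert i s, A j β) =
          pr V (fun β => A i β ∧ ∀ j ∈ s, A j β) := by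
        apply pr_congr
        intro β _
        simp
      rw [h3]
      refine pr_indep (W := W i) (W' := s.biUnion W) ?_ (h i (mem_insert_self i s)) ?_
      · rw [disjoint_biUnion_right]
        intro j hj
        exact hd i (mem_insert_self i s) j (mem_insert_of_mem hj) (fun e => hi (e ▸ hj))
      · apply Dep.all
        intro j hj
        exact (h j (mem_insert_of_mem hj)).mono (subset_biUnion_of_mem W hj)

/-! ### bounds given the colours outside of `V \ W` -/

/-- lower bound given the colours of `W` -/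
theorem cond_ge (hW : W ⊆ V) {b : ℝ}
    (h : ∀ γ, γ ⊆ W → b * pr (V \ W) (fun β => A (β ∪ γ)) ≤
      pr (V \ W) (fun β => A (β ∪ γ) ∧ B (β ∪ γ))) :
    b * pr V A ≤ pr V (fun β => A β ∧ B β) := by
  rw [pr_sum hW, pr_sum hW (A := fun β => A β ∧ B β), ← mul_div_assoc, mul_sum]
  apply div_le_div_of_nonneg_right _ (two_pos' W).le
  exact sum_le_sum fun γ hγ => h γ (mem_powerset.1 hγ)

/-- upper bound given the colours of `W` -/
theorem cond_le (hW : W ⊆ V) {b : ℝ}
    (h : ∀ γ, γ ⊆ W → pr (V \ W) (fun β => A (β ∪ γ) ∧ B (β ∪ γ)) ≤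
      b * pr (V \ W) (fun β => A (β ∪ γ))) :
    pr V (fun β => A β ∧ B β) ≤ b * pr V A := by
  rw [pr_sum hW, pr_sum hW (A := A), ← mul_div_assoc, mul_sum]
  apply div_le_div_of_nonneg_right _ (two_pos' W).le
  exact sum_le_sum fun γ hγ => h γ (mem_powerset.1 hγ)

/-- Harris given the colours of `W`: `A` increasing in the other colours on `C`, `B` too with
conditional probability at least `b` -/
theorem cond_harris (hW : W ⊆ V) {b : ℝ}
    (hA : ∀ γ, γ ⊆ W → Up (V \ W) (fun β => A (β ∪ γ)) ∨ ∀ β, β ⊆ V \ W → ¬ A (β ∪ γ))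
    (hB : ∀ γ, γ ⊆ W → (∃ β, β ⊆ V \ W ∧ A (β ∪ γ)) →
      Up (V \ W) (fun β => B (β ∪ γ)) ∧ b ≤ pr (V \ W) (fun β => B (β ∪ γ))) :
    b * pr V A ≤ pr V (fun β => A β ∧ B β) := by
  apply cond_ge hW
  intro γ hγ
  by_cases h0 : ∃ β, β ⊆ V \ W ∧ A (β ∪ γ)
  · obtain ⟨h1, h2⟩ := hB γ hγ h0
    rcases hA γ hγ with h3 | h3
    · have h4 := harris_up h3 h1
      have h5 : b * pr (V \ W) (fun β => A (β ∪ γ)) ≤
          pr (V \ W) (fun β => A (β ∪ γ)) * pr (V \ W) (fun β => B (β ∪ γ)) := by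
        rw [mul_comm]
        exact mul_le_mul_of_nonneg_left h2 pr_nonneg
      exact h5.trans h4
    · obtain ⟨β, h4, h5⟩ := h0
      exact absurd h5 (h3 β h4)
  · have h1 : pr (V \ W) (fun β => A (β ∪ γ)) = 0 := by
      rw [← pr_false (V \ W)]
      apply pr_congr
      intro β hβ
      simp only [iff_false]
      exact fun h2 => h0 ⟨β, hβ, h2⟩
    rw [h1, mul_zero]
    exact pr_nonneg

/-! ### explored sets -/

/-- `J` is an exploration: `J β` only depends on the colours in `J β` -/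
structure IsStop (V : Finset α) (J : Finset α → Finset α) : Prop where
  sub : ∀ β, β ⊆ V → J β ⊆ V
  stop : ∀ β β', β ⊆ V → β' ⊆ V → β ∩ J β = β' ∩ J β → J β' = J β

variable {J : Finset α → Finset α}

/-- the possible results of the exploration (explored set, colours on it) -/
def outc (V : Finset α) (J : Finset α → Finset α) : Finset (Finset α × Finset α) :=
  V.powerset.image fun β => (J β, β ∩ J β)

lemma outc_sub (hJ : IsStop V J) {x : Finset α × Finset α} (hx : x ∈ outc V J) :
    x.1 ⊆ V ∧ x.2 ⊆ x.1 := by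
  unfold outc at hx
  rw [mem_image] at hx
  obtain ⟨β, hβ, rfl⟩ := hx
  exact ⟨hJ.sub β (mem_powerset.1 hβ), inter_subset_right⟩

lemma outc_iff (hJ : IsStop V J) {x : Finset α × Finset α} (hx : x ∈ outc V J) {β : Finset α}
    (hβ : β ⊆ V) : (J β, β ∩ J β) = x ↔ β ∩ x.1 = x.2 := by
  unfold outc at hx
  rw [mem_image] at hx
  obtain ⟨β0, hβ0, rfl⟩ := hx
  rw [mem_powerset] at hβ0
  constructor
  · intro h
    have h1 : J β = J β0 := (Prod.ext_iff.1 h).1
    have h2 : β ∩ J β = β0 ∩ J β0 := (Prod.ext_iff.1 h).2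
    simp only
    rw [← h1, h2, h1]
  · intro h
    simp only at h
    have h1 := hJ.stop β0 β hβ0 hβ h.symm
    rw [h1, h]

/-- **strong Markov property** -/
theorem stop_sum (hJ : IsStop V J) (A : Finset α → Prop) :
    nb V A = ∑ x ∈ outc V J, nb (V \ x.1) (fun β => A (β ∪ x.2)) := by
  unfold nb
  rw [card_eq_sum_card_fiberwise (f := fun β => (J β, β ∩ J β)) (t := outc V J)]
  · apply sum_congr rfl
    intro x hx
    obtain ⟨hx1, hx2⟩ := outc_sub hJ hx
    symm
    apply card_bij (fun β _ => β ∪ x.2)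
    · intro β hβ
      rw [mem_fil] at hβ
      rw [mem_filter, mem_fil]
      have hs : β ∪ x.2 ⊆ V := union_subset (hβ.1.trans sdiff_subset) (hx2.trans hx1)
      refine ⟨⟨hs, hβ.2⟩, ?_⟩
      rw [outc_iff hJ hx hs]
      ext y
      simp only [mem_inter, mem_union]
      constructor
      · rintro ⟨h1 | h1, h2⟩
        · exact absurd h2 (mem_sdiff.1 (hβ.1 h1)).2
        · exact h1
      · intro h1; exact ⟨Or.inr h1, hx2 h1⟩
    · intro β hβ β' hβ' h
      rw [mem_fil] at hβ hβ'
      have key : ∀ {δ : Finset α}, δ ⊆ V \ x.1 → (δ ∪ x.2) \ x.1 = δ := by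
        intro δ hδ
        ext y
        simp only [mem_sdiff, mem_union]
        constructor
        · rintro ⟨h1 | h1, h2⟩
          · exact h1
          · exact absurd (hx2 h1) h2
        · intro h1; exact ⟨Or.inl h1, (mem_sdiff.1 (hδ h1)).2⟩
      rw [← key hβ.1, ← key hβ'.1, h]
    · intro β hβ
      rw [mem_filter, mem_fil] at hβ
      have h1 := (outc_iff hJ hx hβ.1.1).1 hβ.2
      have he : β \ x.1 ∪ x.2 = β := by
        rw [← h1]
        exact sdiff_union_inter β x.1
      refine ⟨β \ x.1, ?_, he⟩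
      rw [mem_fil]
      exact ⟨sdiff_subset_sdiff hβ.1.1 subset_rfl, by rw [he]; exact hβ.1.2⟩
  · intro β hβ
    rw [mem_coe, mem_fil] at hβ
    simp only [mem_coe]
    unfold outc
    exact mem_image_of_mem _ (mem_powerset.2 hβ.1)

theorem stop_pr (hJ : IsStop V J) (A : Finset α → Prop) :
    pr V A = ∑ x ∈ outc V J, pr (V \ x.1) (fun β => A (β ∪ x.2)) / 2 ^ x.1.card := by
  unfold pr
  rw [stop_sum hJ]
  push_cast
  rw [sum_div]
  apply sum_congr rfl
  intro x hx
  rw [div_div, ← pow_add]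
  congr 2
  have h1 := (outc_sub hJ hx).1
  rw [card_sdiff_of_subset h1]
  have := card_le_card h1
  omega

/-- lower bound given the result of the exploration -/
theorem stop_ge (hJ : IsStop V J) {b : ℝ}
    (h : ∀ x ∈ outc V J, b * pr (V \ x.1) (fun β => A (β ∪ x.2)) ≤
      pr (V \ x.1) (fun β => A (β ∪ x.2) ∧ B (β ∪ x.2))) :
    b * pr V A ≤ pr V (fun β => A β ∧ B β) := by
  rw [stop_pr hJ, stop_pr hJ (A := fun β => A β ∧ B β), mul_sum]
  apply sum_le_sum
  intro x hx
  rw [← mul_div_assoc]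
  exact div_le_div_of_nonneg_right (h x hx) (by positivity)

/-- upper bound given the result of the exploration -/
theorem stop_le (hJ : IsStop V J) {b : ℝ}
    (h : ∀ x ∈ outc V J, pr (V \ x.1) (fun β => A (β ∪ x.2) ∧ B (β ∪ x.2)) ≤
      b * pr (V \ x.1) (fun β => A (β ∪ x.2))) :
    pr V (fun β => A β ∧ B β) ≤ b * pr V A := by
  rw [stop_pr hJ, stop_pr hJ (A := A), mul_sum]
  apply sum_le_sum
  intro x hx
  rw [← mul_div_assoc]
  exact div_le_div_of_nonneg_right (h x hx) (by positivity)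

/-- `A` is decided by the exploration -/
def Decided (V : Finset α) (J : Finset α → Finset α) (A : Finset α → Prop) : Prop :=
  ∀ β β', β ⊆ V → β' ⊆ V → β ∩ J β = β' ∩ J β → (A β ↔ A β')

lemma Decided.outc (hA : Decided V J A) {β0 : Finset α}
    (hβ0 : β0 ⊆ V) {β : Finset α} (hβ : β ⊆ V \ J β0) :
    A (β ∪ (β0 ∩ J β0)) ↔ A β0 := by
  symm
  apply hA β0 _ hβ0
  · exact union_subset (hβ.trans sdiff_subset) (inter_subset_left.trans hβ0)
  · ext y
    simp only [mem_inter, mem_union]
    constructor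
    · rintro ⟨h1, h2⟩; exact ⟨Or.inr ⟨h1, h2⟩, h2⟩
    · rintro ⟨h1 | h1, h2⟩
      · exact absurd h2 (mem_sdiff.1 (hβ h1)).2
      · exact ⟨h1.1, h2⟩

/-- lower bound given the result of the exploration, `A` decided by the exploration -/
theorem stop_ge' (hJ : IsStop V J) (hA : Decided V J A) {b : ℝ}
    (h : ∀ β0, β0 ⊆ V → A β0 → b ≤ pr (V \ J β0) (fun β => B (β ∪ (β0 ∩ J β0)))) :
    b * pr V A ≤ pr V (fun β => A β ∧ B β) := by
  apply stop_ge hJ
  intro x hx
  unfold Harx315.outc at hx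
  rw [mem_image] at hx
  obtain ⟨β0, hβ0, rfl⟩ := hx
  rw [mem_powerset] at hβ0
  simp only
  by_cases hA0 : A β0
  · have h1 : pr (V \ J β0) (fun β => A (β ∪ β0 ∩ J β0)) = 1 := by
      rw [← pr_true (V \ J β0)]
      apply pr_congr
      intro β hβ
      simp only [hA.outc hβ0 hβ, hA0]
    have h2 : pr (V \ J β0) (fun β => A (β ∪ β0 ∩ J β0) ∧ B (β ∪ β0 ∩ J β0)) =
        pr (V \ J β0) (fun β => B (β ∪ β0 ∩ J β0)) := by
      apply pr_congr
      intro β hβ
      simp only [hA.outc hβ0 hβ, hA0, true_and]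
    rw [h1, h2, mul_one]
    exact h β0 hβ0 hA0
  · have h1 : pr (V \ J β0) (fun β => A (β ∪ β0 ∩ J β0)) = 0 := by
      rw [← pr_false (V \ J β0)]
      apply pr_congr
      intro β hβ
      simp only [hA.outc hβ0 hβ, hA0]
    rw [h1, mul_zero]
    exact pr_nonneg

/-- upper bound given the result of the exploration, `A` decided by the exploration -/
theorem stop_le' (hJ : IsStop V J) (hA : Decided V J A) {b : ℝ}
    (h : ∀ β0, β0 ⊆ V → A β0 → pr (V \ J β0) (fun β => B (β ∪ (β0 ∩ J β0))) ≤ b) :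
    pr V (fun β => A β ∧ B β) ≤ b * pr V A := by
  apply stop_le hJ
  intro x hx
  unfold Harx315.outc at hx
  rw [mem_image] at hx
  obtain ⟨β0, hβ0, rfl⟩ := hx
  rw [mem_powerset] at hβ0
  simp only
  by_cases hA0 : A β0
  · have h1 : pr (V \ J β0) (fun β => A (β ∪ β0 ∩ J β0)) = 1 := by
      rw [← pr_true (V \ J β0)]
      apply pr_congr
      intro β hβ
      simp only [hA.outc hβ0 hβ, hA0]
    have h2 : pr (V \ J β0) (fun β => A (β ∪ β0 ∩ J β0) ∧ B (β ∪ β0 ∩ J β0)) =
        pr (V \ J β0) (fun β => B (β ∪ β0 ∩ J β0)) := by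
      apply pr_congr
      intro β hβ
      simp only [hA.outc hβ0 hβ, hA0, true_and]
    rw [h1, h2, mul_one]
    exact h β0 hβ0 hA0
  · have h1 : pr (V \ J β0) (fun β => A (β ∪ β0 ∩ J β0)) = 0 := by
      rw [← pr_false (V \ J β0)]
      apply pr_congr
      intro β hβ
      simp only [hA.outc hβ0 hβ, hA0]
    have h2 : pr (V \ J β0) (fun β => A (β ∪ β0 ∩ J β0) ∧ B (β ∪ β0 ∩ J β0)) = 0 := by
      rw [← pr_false (V \ J β0)]
      apply pr_congr
      intro β hβ
      simp only [hA.outc hβ0 hβ, hA0, false_and]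
    rw [h1, h2, mul_zero]

/-! ### other forms -/

/-- `(V.powerset.filter fun β => P (β : Set α))` as elaborated by Lean (filter on the coerced
finite set of sets) has the same cardinality -/
theorem card_coe_filter (s : Finset (Finset α)) (P : Set α → Prop) :
    ((do let a ← s; pure (a : Set α) : Finset (Set α)).filter P).card =
      (s.filter fun w : Finset α => P (w : Set α)).card := by
  have h1 : (do let a ← s; pure (a : Set α) : Finset (Set α)) =
      s.image (fun w : Finset α => (w : Set α)) := by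
    ext x
    simp only [Finset.bind_def, Finset.pure_def, Finset.mem_sup, Finset.mem_singleton,
      Finset.mem_image]
    constructor
    · rintro ⟨v, hv, rfl⟩; exact ⟨v, hv, rfl⟩
    · rintro ⟨v, hv, rfl⟩; exact ⟨v, hv, rfl⟩
  rw [h1, Finset.filter_image, Finset.card_image_of_injective _ Finset.coe_injective]

/-- the counting form `#A ≤ b 2 ^ #V` -/
theorem pr_le_iff {b : ℝ} : pr V A ≤ b ↔ (nb V A : ℝ) ≤ b * 2 ^ V.card := by
  unfold pr
  rw [div_le_iff₀ (two_pos' V)]

theorem le_pr_iff {b : ℝ} : b ≤ pr V A ↔ b * 2 ^ V.card ≤ (nb V A : ℝ) := by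
  unfold pr
  rw [le_div_iff₀ (two_pos' V)]

/-! ### the colours of the sample -/

theorem real_eq_pr {I : Type*} {ix : α → I} (hix : Set.InjOn ix V) (A : Finset α → Prop) :
    (Varx831.cl I).real {c | A (Y5ax315.wht V ix c)} = pr V A :=
  Y5ax315.real_wht hix A

end Crest.Agent.R143.Harx315
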