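import Crest.Agent.R143.Cont4_920
import Crest.Agent.R143.NetU_346

/-!
# Row 143 (S0194), CONT (3434): static form for the frozen object `TS` (helper920)

* `OP S` : side condition `(u, b, v) ∈ delT S` (oriented hits); `ex_of_hex`, `un_of_hex`
* `TS_eq` : `TS S A z = ST (ff S A) (z ∘ Ys)`
* `static_z` : static CONT for a 1-Lipschitz function `z` of the end points
* `static_TS` : the same for `‖TS S A z - TS S A' z‖`
-/

set_option autoImplicit false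

noncomputable section

open scoped Classical

namespace Crest.Agent.R143.Cont5x920

open Crest.Agent.R143.Harx315
open Crest.Agent.R143.D3Fx802 (CArm)
open Crest.Agent.R143.JColx54 (Adj)
open Crest.Agent.R143.RE0x723 (Pth)
open Crest.Agent.R143.B0x346 Crest.Agent.R143.DelGx806
open Crest.Agent.R143.K33x877 Crest.Agent.R143.Freshx920 Crest.Agent.R143.Cont2x920
  Crest.Agent.R143.Cont3x920 Crest.Agent.R143.Cont4x920
open Crest.Agent.R143.Applx359 (ST st_pow)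
open Crest.Agent.R143.NetUx346

variable {S V V' : Finset ℂ} {A A' : ZMod 3 → Set ℂ} {i j k : ZMod 3} {T : Set ℂ}
  {b v u x y : ℂ} {P : ℂ → ℂ → ℂ → Prop} {Rg : Set ℂ} {d D C c : ℝ} {z : ℂ → ℂ}

/-- **static CONT**, 1-Lipschitz function of the end points -/
theorem static_z (hz : ∀ a b, ‖z a - z b‖ ≤ ‖a - b‖)
    (hVA : (V : Set ℂ) = fr S A) (hVA' : (V' : Set ℂ) = fr S A') (hVV : V' ⊆ V)
    (hE : ∀ i, Ex S A (i + 1) (i + 2) i P)
    (hE' : ∀ i, Ex S A' (i + 1) (i + 2) i P) (hU' : ∀ i, Un S A' (i + 1) (i + 2) i P)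
    (hRg : ∀ i b v u T, Hit S A (i + 1) (i + 2) i T b v u → P b v u → u ∈ Rg)
    (hRg' : ∀ i b v u T, Hit S A' (i + 1) (i + 2) i T b v u → P b v u → u ∈ Rg)
    (hdiam : ∀ z ∈ Rg, ∀ z' ∈ Rg, ‖z - z'‖ ≤ D) (hd : 0 < d) (hdD : d ≤ D)
    (hA : ArmB S Rg d D C c) (hC : 1 ≤ C) (hc : 0 ≤ c) (hD : Dets S V A A' P Rg d D) :
    ‖ST V (fun i β => z (Ys S A P i β)) - ST V' (fun i β => z (Ys S A' P i β))‖ ≤
      9 * ((1 + 4 * (2 * (C * 4 ^ c))) * D * (d / D) ^ (min c 1 / 4)) := by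
  have p4 : (0 : ℝ) < 4 ^ c := Real.rpow_pos_of_pos (by norm_num) _
  have hVS : V ⊆ S := fun w hw => by
    have : w ∈ fr S A := by rw [← hVA]; exact hw
    exact this.1
  have hcap : ∀ (i : ZMod 3) (β : Finset ℂ), ∀ w ∈ fr S A',
      (w ∈ (β : Set ℂ) ↔ w ∈ ((β ∩ V' : Finset ℂ) : Set ℂ)) := by
    intro i β w hw
    rw [← hVA'] at hw
    rw [Finset.coe_inter]
    exact ⟨fun h => ⟨h, hw⟩, fun h => h.1⟩
  refine st_pow (y := fun i β => z (Ys S A P i β)) (y' := fun i β => z (Ys S A' P i β)) hVV hd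
    hdD (by positivity) hc ?_ ?_
  · intro i β _
    obtain ⟨b, v, h1, h2⟩ := uf_spec (hE i) (β : Set ℂ)
    obtain ⟨b', v', h3, h4⟩ := uf_spec (hE' i) ((β ∩ V' : Finset ℂ) : Set ℂ)
    exact (hz _ _).trans (hdiam _ (hRg i _ _ _ _ h1 h2) _ (hRg' i _ _ _ _ h3 h4))
  · intro i ρ1 ρ2 η h1 h2 h3 h4
    obtain ⟨p0, hp0, p1, hp1, hdet⟩ := hD i ρ1 ρ2 η h1 h2 h3 h4
    have hVfr : fr S A' ⊆ V := by
      rw [← hVA']
      exact_mod_cast hVV
    have key := cont_pr hVfr (hE' i) (hU' i) hdet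
      (bds hA hC hc hd hVS h1 h2 h3 h4 hp0) (bds hA hC hc hd hVS h1 h2 h3 h4 hp1)
    refine (pr_mono ?_).trans (key.trans (le_of_eq ?_))
    · intro β _ hη
      obtain ⟨b1, v1, g1, g2⟩ := uf_spec (hE i) (β : Set ℂ)
      obtain ⟨b', v', g3, g4⟩ := uf_spec (hE' i) ((β ∩ V' : Finset ℂ) : Set ℂ)
      exact ⟨b', v', _, b1, v1, _, hit_congr (fun w hw => (hcap i β w hw).symm) g3, g4, g1, g2,
        lt_of_lt_of_le hη (hz _ _)⟩
    · simp only [Matrix.cons_val_zero, Matrix.cons_val_one, Matrix.cons_val]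
      ring

/-- the side condition of the oriented hits -/
def OP (S : Finset ℂ) (b v u : ℂ) : Prop := (u, b, v) ∈ delT S

theorem ff_coe : ((ff S A : Finset ℂ) : Set ℂ) = fr S A := by
  ext w
  exact mem_ff

/-- an oriented hit in 877's form -/
theorem hitO_hit (hS : GP (S : Set ℂ)) : HitO S A i T (u, b, v) ↔
    (Hit S A (i + 1) (i + 2) i T b v u ∧ OP S b v u) := hitO_iff hS

theorem trace (T : Set ℂ) : ∀ w ∈ fr S A,
    (w ∈ T ↔ w ∈ (((ff S A).filter fun v => v ∈ T : Finset ℂ) : Set ℂ)) := by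
  intro w hw
  rw [Finset.coe_filter]
  exact ⟨fun h => ⟨mem_ff.2 hw, h⟩, fun h => h.2⟩

theorem ex_of_hex (hS : GP (S : Set ℂ)) (hX : Hex S A) : Ex S A (i + 1) (i + 2) i (OP S) := by
  intro T
  obtain ⟨⟨u, b, v⟩, h, -⟩ := hX i ((ff S A).filter fun v => v ∈ T) (Finset.filter_subset _ _)
  obtain ⟨h1, h2⟩ := (hitO_hit hS).1 h
  exact ⟨b, v, u, hit_congr (fun w hw => (trace T w hw).symm) h1, h2⟩

theorem un_of_hex (hS : GP (S : Set ℂ)) (hX : Hex S A) : Un S A (i + 1) (i + 2) i (OP S) := by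
  intro T b v u b' v' u' h1 h2 h3 h4
  obtain ⟨t, -, hu⟩ := hX i ((ff S A).filter fun v => v ∈ T) (Finset.filter_subset _ _)
  have e1 := hu (u, b, v) ((hitO_hit hS).2 ⟨hit_congr (trace T) h1, h2⟩)
  have e2 := hu (u', b', v') ((hitO_hit hS).2 ⟨hit_congr (trace T) h3, h4⟩)
  have e3 : (u', b', v') = (u, b, v) := e2.trans e1.symm
  simp only [Prod.mk.injEq] at e3
  exact ⟨e3.2.1, e3.2.2, e3.1⟩

theorem hv_eq_ys (hS : GP (S : Set ℂ)) (hX : Hex S A) {β : Finset ℂ} (hβ : β ⊆ ff S A) :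
    hv S A i (β : Set ℂ) = Ys S A (OP S) i β := by
  obtain ⟨b, v, h1, h2⟩ := uf_spec (ex_of_hex (i := i) hS hX) (β : Set ℂ)
  exact hv_eq hX hβ ((hitO_hit hS).2 ⟨h1, h2⟩)

/-- `TS` in 359's form -/
theorem TS_eq (hS : GP (S : Set ℂ)) (hX : Hex S A) (z : ℂ → ℂ) :
    TS S A z = ST (ff S A) (fun i β => z (Ys S A (OP S) i β)) := by
  unfold TS Applx359.ST
  congr 1
  refine Finset.sum_congr rfl fun i _ => ?_
  congr 1
  rw [Ey_eq hX]
  unfold exC Applx359.ex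
  congr 1
  refine Finset.sum_congr rfl fun T hT => ?_
  show z (hv S A i (T : Set ℂ)) = z (Ys S A (OP S) i T)
  rw [hv_eq_ys hS hX (Finset.mem_powerset.1 hT)]

/-- **static CONT for `TS`** -/
theorem static_TS (hS : GP (S : Set ℂ)) (hX : Hex S A) (hX' : Hex S A') (hs : ∀ l, A l ⊆ A' l)
    (hz : ∀ a b, ‖z a - z b‖ ≤ ‖a - b‖)
    (hRg : ∀ i (T : Set ℂ) t, HitO S A i T t → t.1 ∈ Rg)
    (hRg' : ∀ i (T : Set ℂ) t, HitO S A' i T t → t.1 ∈ Rg)
    (hdiam : ∀ z ∈ Rg, ∀ z' ∈ Rg, ‖z - z'‖ ≤ D) (hd : 0 < d) (hdD : d ≤ D)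
    (hA : ArmB S Rg d D C c) (hC : 1 ≤ C) (hc : 0 ≤ c)
    (hD : Dets S (ff S A) A A' (OP S) Rg d D) :
    ‖TS S A z - TS S A' z‖ ≤
      9 * ((1 + 4 * (2 * (C * 4 ^ c))) * D * (d / D) ^ (min c 1 / 4)) := by
  rw [TS_eq hS hX, TS_eq hS hX']
  refine static_z hz ff_coe ff_coe ?_ (fun i => ex_of_hex hS hX) (fun i => ex_of_hex hS hX')
    (fun i => un_of_hex hS hX') ?_ ?_ hdiam hd hdD hA hC hc hD
  · intro w hw
    rw [mem_ff] at hw ⊢
    exact ⟨hw.1, fun l hl => hw.2 l (hs l hl)⟩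
  · intro i b v u T h1 h2
    exact hRg i T (u, b, v) ((hitO_hit hS).2 ⟨h1, h2⟩)
  · intro i b v u T h1 h2
    exact hRg' i T (u, b, v) ((hitO_hit hS).2 ⟨h1, h2⟩)

end Crest.Agent.R143.Cont5x920
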