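import Crest.Agent.R143.K33_877

/-!
# Row 143 (S0194), CONT: K33 with a root face, generic families (helper877)

* `asum_jump_hull`, `nd_jump'` : the jump formula also at hull edges
* `Cls S A` : three disjoint connected classes (no hull condition)
* `k3tt`, `k3tx`, `k3xx` : with a rainbow triangle `o`, there are no two other different centres
* `Fam` : families of classes closed under enlargement; instances `fam_hull`, `fam_root`
* `hite`, `hitu`
-/

set_option autoImplicit false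

noncomputable section

open scoped Classical

namespace Crest.Agent.R143.K33x877

open Set
open Crest.Agent.R143.B0x346 Crest.Agent.R143.DelGx806 Crest.Agent.R143.DelRx806
  Crest.Agent.R143.JColx54 Crest.Agent.R143.RE0x723
open Crest.Agent.R143.ToolWx838 Crest.Agent.R143.Blkx838 Crest.Agent.R143.EQE1x63
open Crest.Agent.R143.Jumpx697 (det det_head det_last det_prs det_asum)
open Crest.Agent.R143.XFx903 (gc gc_in)
open Crest.Agent.R143.RB2x54 (Vt)

variable {S : Finset ℂ}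

theorem det_mem (a b d : ℂ) (l : List ℂ) {s : ℂ} (h : s ∈ det a b d l) : s ∈ l ∨ s = d := by
  induction l with
  | nil => simp [det] at h
  | cons u l ih =>
    cases l with
    | nil =>
      simp only [det] at h
      exact Or.inl h
    | cons v l =>
      unfold det at h
      split_ifs at h
      · simp only [List.mem_cons] at h
        rcases h with rfl | rfl | h
        · exact Or.inl List.mem_cons_self
        · exact Or.inr rfl
        · rcases ih h with h | h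
          · exact Or.inl (List.mem_cons_of_mem _ h)
          · exact Or.inr h
      · rcases List.mem_cons.1 h with rfl | h
        · exact Or.inl List.mem_cons_self
        · rcases ih h with h | h
          · exact Or.inl (List.mem_cons_of_mem _ h)
          · exact Or.inr h

/-- total angle seen from the triangle at a hull edge -/
theorem asum_jump_hull (hS : GP (S : Set ℂ)) {l : List ℂ} (hl : Loop S l) (hlS : ∀ s ∈ l, s ∈ S)
    {a b c x : ℂ} (h : (a, b, c) ∈ delT S) (hh : hullE S a b) (hx : InO x a b c) :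
    asum x l = 2 * Real.pi * (((prs l).count (a, b) : ℝ) - (prs l).count (b, a)) := by
  obtain ⟨o, T⟩ := mem_delT_iff.1 h
  have hab : a ≠ b := T.ne.1
  have hac : a ≠ c := T.ne.2.2
  have hbc : b ≠ c := T.ne.2.1
  have hcS : c ∈ S := (mem_delT.1 h).2.2.1
  have hl' : Loop S (det a b c l) := by
    refine ⟨by rw [det_head, det_last]; exact hl.closed, fun p hp => ?_⟩
    rcases det_prs a b c l hp with h1 | rfl | rfl | rfl | rfl
    · exact hl.del p h1.1
    · exact Or.inr ⟨b, rot_mem (rot_mem h)⟩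
    · exact Or.inl ⟨a, rot_mem h⟩
    · exact Or.inr ⟨a, rot_mem h⟩
    · exact Or.inl ⟨b, rot_mem (rot_mem h)⟩
  have hlS' : ∀ s ∈ det a b c l, s ∈ S := by
    intro s hs
    rcases det_mem a b c l hs with h1 | rfl
    · exact hlS s h1
    · exact hcS
  have hav : Avoid (det a b c l) (a, b) := by
    constructor
    · intro hp
      rcases det_prs a b c l hp with h1 | h1 | h1 | h1 | h1
      · exact h1.2.1 rfl
      · exact hbc (congrArg Prod.snd h1)
      · exact hab (congrArg Prod.fst h1)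
      · exact hac (congrArg Prod.fst h1)
      · exact hac (congrArg Prod.fst h1)
    · intro hp
      rcases det_prs a b c l hp with h1 | h1 | h1 | h1 | h1
      · exact h1.2.2 rfl
      · exact hac (congrArg Prod.snd h1)
      · exact hac (congrArg Prod.snd h1)
      · exact hbc (congrArg Prod.fst h1)
      · exact hbc (congrArg Prod.fst h1)
  have e1 : asum x (det a b c l) = 0 := by
    rw [asum_open_mid hS hl' h hx hav, asum_hull hS hl' hlS' hh hav]
  have hxs : ∀ u v : ℂ, DE S u v → x ∉ segment ℝ u v := fun u v hd => edge_open hS h hx hd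
  have X := Planar2x54.ang_sum hx.1 hx.2.1 hx.2.2
  change ToolWx838.ang x a b + ToolWx838.ang x b c + ToolWx838.ang x c a = 2 * Real.pi at X
  have xa := ang_comm (hxs a b (Or.inl ⟨c, h⟩))
  have xb := ang_comm (hxs b c (Or.inl ⟨a, rot_mem h⟩))
  have xc := ang_comm (hxs c a (Or.inl ⟨b, rot_mem (rot_mem h)⟩))
  have k1 := det_asum (x := x) (d := c) hab (δ := 2 * Real.pi) (δ' := -(2 * Real.pi)) (by linarith)
    (by linarith) l
  rw [e1, sub_zero] at k1
  rw [k1]
  ring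

/-- the index jumps by the number of uses, hull edges included -/
theorem nd_jump' (hS : GP (S : Set ℂ)) {l : List ℂ} (hl : Loop S l) (hlS : ∀ s ∈ l, s ∈ S)
    {a b : ℂ} (h : Adj S a b) : nd S l (a, b) + nd S l (a, b).swap =
      (((prs l).count (a, b) + (prs l).count (b, a) : ℕ) : ZMod 2) := by
  have key : ∀ {a b c : ℂ}, (a, b, c) ∈ delT S → (∀ d, (b, a, d) ∉ delT S) →
      nd S l (a, b) = (((prs l).count (a, b) + (prs l).count (b, a) : ℕ) : ZMod 2) := by
    intro a b c h1 h2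
    have h3 := asum_jump_hull hS hl hlS h1 ⟨⟨c, h1⟩, h2⟩ (gc_in h1)
    have h4 : AL S l (a, b) = 2 * Real.pi *
        ((((prs l).count (a, b) : ℤ) - ((prs l).count (b, a) : ℤ) : ℤ) : ℝ) := by
      rw [al_tri hS h1, h3]; push_cast; ring
    rw [nd_spec h4]
    push_cast
    generalize ((prs l).count (a, b) : ZMod 2) = x
    generalize ((prs l).count (b, a) : ZMod 2) = y
    revert x y
    decide
  by_cases h1 : ∃ c, (a, b, c) ∈ delT S
  · obtain ⟨c, h1⟩ := h1
    by_cases h2 : ∃ d, (b, a, d) ∈ delT S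
    · obtain ⟨d, h2⟩ := h2
      exact nd_jump hS hl hlS h1 h2
    · push Not at h2
      rw [key h1 h2, Prod.swap_prod_mk, (nd_ff hS l).2 (b, a) h2, add_zero]
  · push Not at h1
    have h2 : ∃ d, (b, a, d) ∈ delT S := by
      rcases h with ⟨c, h⟩ | h
      · exact absurd h (h1 c)
      · exact h
    obtain ⟨d, h2⟩ := h2
    rw [(nd_ff hS l).2 (a, b) h1, Prod.swap_prod_mk, key h2 h1, zero_add, Nat.add_comm]

/-! ### three centres -/

/-- three disjoint connected classes -/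
structure Cls (S : Finset ℂ) (A : ZMod 3 → Set ℂ) : Prop where
  gp : GP (S : Set ℂ)
  sub : ∀ i, A i ⊆ (S : Set ℂ)
  disj : ∀ i j, i ≠ j → Disjoint (A i) (A j)
  con : ∀ i, ∀ x ∈ A i, ∀ y ∈ A i, Pth S (A i) x y

theorem Tr.cls {A : ZMod 3 → Set ℂ} (h : Tr S A) : Cls S A := ⟨h.gp, h.sub, h.disj, h.con⟩

/-- face function with a constant outer value -/
def FC (S : Finset ℂ) (G : ℂ × ℂ → ZMod 2) : Prop :=
  (∀ a b c, (a, b, c) ∈ delT S → G (b, c) = G (a, b)) ∧
    ∃ k, ∀ p : ℂ × ℂ, (∀ c, (p.1, p.2, c) ∉ delT S) → G p = k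

theorem parC (hS : GP (S : Set ℂ)) {G : ℂ × ℂ → ZMod 2} (hG : FC S G) (A : Set ℂ) :
    ∑ p ∈ lv S A, (G p + G p.swap) = 0 := by
  obtain ⟨h1, k, h2⟩ := hG
  have h3 : FF S (fun p => G p + k) :=
    ⟨fun a b c h => by simp only [h1 a b c h], fun p hp => by simp only [h2 p hp, two_zero]⟩
  rw [← par hS h3 A]
  refine Finset.sum_congr rfl fun p _ => ?_
  linear_combination (-1 : ZMod 2) * two_zero k

theorem hull_oneC (hS : GP (S : Set ℂ)) {G : ℂ × ℂ → ZMod 2} (hG : FC S G) {B : Set ℂ}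
    {p e : ℂ × ℂ} (hp : p ∈ lv S B) (he : e ∈ lv S B) (hpe : p ≠ e)
    (G1 : ∀ r ∈ lv S B, r ≠ p → r ≠ e → G r + G r.swap = 0) (G2 : G p + G p.swap = 1) :
    G e + G e.swap = 1 := by
  have h1 := parC hS hG B
  rw [← Finset.sum_subset (s₁ := {p, e})] at h1
  · rw [Finset.sum_pair hpe, G2] at h1
    have h2 : ∀ x : ZMod 2, 1 + x = 0 → x = 1 := by decide
    exact h2 _ h1
  · intro r hr
    rcases Finset.mem_insert.1 hr with rfl | hr
    · exact hp
    · rw [Finset.mem_singleton.1 hr]; exact he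
  · intro r hr hr'
    simp only [Finset.mem_insert, Finset.mem_singleton, not_or] at hr'
    exact G1 r hr hr'.1 hr'.2

/-- the core, three edges -/
theorem threeC (hS : GP (S : Set ℂ)) {G H : ℂ × ℂ → ZMod 2} (hG : FC S G) (hH : FC S H) {A : Set ℂ}
    {p q e : ℂ × ℂ} (hp : p ∈ lv S A) (hq : q ∈ lv S A) (he : e ∈ lv S A) (hpq : p ≠ q)
    (hpe : p ≠ e) (hqe : q ≠ e)
    (G1 : ∀ r ∈ lv S A, r ≠ p → r ≠ e → G r + G r.swap = 0) (G2 : G p + G p.swap = 1)
    (H1 : ∀ r ∈ lv S A, r ≠ q → r ≠ e → H r + H r.swap = 0) (H2 : H q + H q.swap = 1)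
    (Gq : G q = 0 ∨ G q.swap = 0) (Hp : H p = 0 ∨ H p.swap = 0)
    (root : (G e = 0 ∧ H e = 0) ∨ (G e.swap = 0 ∧ H e.swap = 0)) : False := by
  have Ge := hull_oneC hS hG hp he hpe G1 G2
  have He := hull_oneC hS hH hq he hqe H1 H2
  set K : ℂ × ℂ → ZMod 2 := fun r => G r + H r + G r * H r with hK
  have hKF : FC S K := by
    obtain ⟨k, hk⟩ := hG.2
    obtain ⟨m, hm⟩ := hH.2
    refine ⟨fun a b c h => ?_, k + m + k * m, fun r hr => ?_⟩
    · simp only [hK]; rw [hG.1 a b c h, hH.1 a b c h]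
    · simp only [hK]; rw [hk r hr, hm r hr]
  have h1 := parC hS hKF A
  rw [← Finset.sum_subset (s₁ := {p, q, e})] at h1
  · rw [Finset.sum_insert (by simp [hpq, hpe]), Finset.sum_pair hqe] at h1
    have Gq0 : G q = 0 ∧ G q.swap = 0 := by
      have := G1 q hq hpq.symm hqe
      rcases Gq with h | h
      · rw [h, zero_add] at this; exact ⟨h, this⟩
      · rw [h, add_zero] at this; exact ⟨this, h⟩
    have Hp0 : H p = 0 ∧ H p.swap = 0 := by
      have := H1 p hp hpq hpe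
      rcases Hp with h | h
      · rw [h, zero_add] at this; exact ⟨h, this⟩
      · rw [h, add_zero] at this; exact ⟨this, h⟩
    have e1 : K p + K p.swap = 1 := by
      simp only [hK]; rw [Hp0.1, Hp0.2]; linear_combination G2
    have e2 : K q + K q.swap = 1 := by
      simp only [hK]; rw [Gq0.1, Gq0.2]; linear_combination H2
    have e3 : K e + K e.swap = 1 := by
      simp only [hK]
      rcases root with ⟨g0, h0⟩ | ⟨g0, h0⟩
      · rw [g0, zero_add] at Ge
        rw [h0, zero_add] at He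
        rw [g0, h0, Ge, He]; decide
      · rw [g0, add_zero] at Ge
        rw [h0, add_zero] at He
        rw [g0, h0, Ge, He]; decide
    rw [e1, e2, e3] at h1
    exact absurd h1 (by decide)
  · intro r hr
    simp only [Finset.mem_insert, Finset.mem_singleton] at hr
    rcases hr with rfl | rfl | rfl
    · exact hp
    · exact hq
    · exact he
  · intro r hr hr'
    simp only [Finset.mem_insert, Finset.mem_singleton, not_or] at hr'
    have a1 := G1 r hr hr'.1 hr'.2.2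
    have a2 := H1 r hr hr'.2.1 hr'.2.2
    simp only [hK]
    revert a1 a2
    generalize G r = x
    generalize G r.swap = y
    generalize H r = z
    generalize H r.swap = w
    revert x y z w
    decide

section k3

variable {A : ZMod 3 → Set ℂ} {i j k : ZMod 3}

theorem Cls.ne (hT : Cls S A) (hij : i ≠ j) {a : ℂ} (h : a ∈ A i) (h' : a ∈ A j) : False :=
  Set.disjoint_left.1 (hT.disj i j hij) h h'

/-- the index of the closed chain of a branch, normalised around `A k` -/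
theorem br_c (hT : Cls S A) (hik : i ≠ k) {a2 a0 b f z0 : ℂ} {V : Set ℂ}
    (had : Adj S a2 a0) (ha2 : a2 ∈ A i) (hb : b ∈ A i) (hbf : Adj S b f) (hz0 : z0 ∈ A k)
    (hV : Pth S V f a0) (hVS : V ⊆ (S : Set ℂ)) (hVi : Disjoint (A i) V) (hVk : Disjoint (A k) V) :
    ∃ G : ℂ × ℂ → ZMod 2, FC S G ∧
      (∀ r ∈ lv S (A i), r ≠ (b, f) → r ≠ (a2, a0) → G r + G r.swap = 0) ∧
      ((b, f) ≠ (a2, a0) → G (b, f) + G (b, f).swap = 1) ∧
      ∀ (W : Set ℂ) (v z : ℂ), z ∈ A k → Pth S W z v → Disjoint W (A i) → Disjoint W V →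
        ∀ a b c : ℂ, (a, b, c) ∈ delT S → Vt (a, b, c) v → G (a, b) = 0 := by
  have hS := hT.gp
  obtain ⟨l, hl, hlm, hu, hc⟩ := closed (hT.con i a2 ha2 b hb) hbf hV had.symm hVi
  have hlS : ∀ s ∈ l, s ∈ S := fun s hs => by
    rcases hlm s hs with h | h
    · exact hT.sub i h
    · exact hVS h
  -- the value around `A k`
  set κ : ZMod 2 := if h : ∃ m : ℤ, asum z0 l = 2 * Real.pi * m then (h.choose : ZMod 2) else 0
    with hκ
  have val : ∀ {a b c v : ℂ}, (a, b, c) ∈ delT S → Vt (a, b, c) v → v ∉ l →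
      asum v l = asum z0 l → nd S l (a, b) = κ := by
    intro a b c v h1 h2 h3 h4
    have h5 : AL S l (a, b) = asum z0 l := by rw [star' hS hl h3 h1 h2, h4]
    rw [hκ]
    unfold nd
    simp only [h5]
  refine ⟨fun p => nd S l p + κ, ⟨?_, κ, ?_⟩, ?_, ?_, ?_⟩
  · intro a b c h
    simp only [(nd_ff hS l).1 a b c h]
  · intro p hp
    simp only [(nd_ff hS l).2 p hp, zero_add]
  · intro r hr h1 h2
    simp only [lv, Finset.mem_filter] at hr
    have h3 : nd S l r + nd S l r.swap = 0 := by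
      apply nd_avoid hS hl hlS
      constructor
      · intro h
        rcases hu r hr.2.1 hr.2.2 (Or.inl h) with h | h
        · exact h1 h
        · exact h2 h
      · intro h
        rcases hu r hr.2.1 hr.2.2 (Or.inr h) with h | h
        · exact h1 h
        · exact h2 h
    linear_combination h3 + two_zero κ
  · intro hne
    have h3 := nd_jump' hS hl hlS hbf
    rw [hc hne] at h3
    simp only [Nat.cast_one] at h3
    linear_combination h3 + two_zero κ
  · intro W v z hz hW hWi hWV a b' c h hv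
    have off : ∀ s, s ∈ A k → s ∉ l := fun s hs hsl => by
      rcases hlm s hsl with h1 | h1
      · exact hT.ne hik h1 hs
      · exact Set.disjoint_left.1 hVk hs h1
    have e1 : asum z l = asum z0 l := asum_pth hS hl off (hT.con k z0 hz0 z hz)
    have off2 : ∀ s ∈ W, s ∉ l := fun s hs hsl => by
      rcases hlm s hsl with h1 | h1
      · exact Set.disjoint_left.1 hWi hs h1
      · exact Set.disjoint_left.1 hWV hs h1
    have e2 : asum v l = asum z l := asum_pth hS hl off2 hW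
    simp only [val h hv (off2 v hW.snd) (by rw [e2, e1]), two_zero]

/-- branch through a connected set -/
theorem CtrX.brC (hT : Cls S A) (hij : i ≠ j) (hjk : j ≠ k) {X : Set ℂ}
    (hX : CtrX S A X) {a0 : ℂ} (ha0 : a0 ∈ A j) : ∃ b ∈ A i, ∃ f ∈ X, Adj S b f ∧
      Pth S (X ∪ A j) f a0 ∧ X ∪ A j ⊆ (S : Set ℂ) ∧ Disjoint (A i) (X ∪ A j) ∧
      Disjoint (A k) (X ∪ A j) := by
  obtain ⟨hd, hc, ha⟩ := hX
  obtain ⟨f, hf, b, hb, hfb⟩ := ha i
  obtain ⟨x, hx, w, hw, hxw⟩ := ha j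
  refine ⟨b, hb, f, hf, hfb.symm, ?_, ?_, ?_, ?_⟩
  · have h1 : Pth S (X ∪ A j) f x := (hc f hf x hx).mono Set.subset_union_left
    exact (h1.tail hxw (Or.inr hw)).trans ((hT.con j w hw a0 ha0).mono Set.subset_union_right)
  · rintro v (hv | hv)
    · rcases Relation.ReflTransGen.cases_head (hc v hv f hf).2 with h | ⟨c, h, -⟩
      · rw [h]; exact (Adj.mem hfb).1
      · exact (Adj.mem h.1).1
    · exact hT.sub j hv
  · rw [Set.disjoint_union_right]
    exact ⟨(hd i).symm, hT.disj i j hij⟩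
  · rw [Set.disjoint_union_right]
    exact ⟨(hd k).symm, hT.disj k j (Ne.symm hjk)⟩

theorem CtrT.vertC (hT : Cls S A) {t : ℂ × ℂ × ℂ} (h : CtrT S A t) : ∃ u v w : ℂ, u ∈ A 0 ∧
    v ∈ A 1 ∧ w ∈ A 2 ∧
    (((u, v, w) ∈ delT S ∧ (u, v, w) ∈ rots t) ∨ ((v, u, w) ∈ delT S ∧ (v, u, w) ∈ rots t)) := by
  obtain ⟨ht, hv⟩ := h
  obtain ⟨x, y, z⟩ := t
  obtain ⟨u, hu, uA⟩ := hv 0
  obtain ⟨v, hv', vA⟩ := hv 1
  obtain ⟨w, hw, wA⟩ := hv 2
  have d01 : u ≠ v := fun h => hT.ne (i := 0) (j := 1) (by decide) uA (h ▸ vA)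
  have d02 : u ≠ w := fun h => hT.ne (i := 0) (j := 2) (by decide) uA (h ▸ wA)
  have d12 : v ≠ w := fun h => hT.ne (i := 1) (j := 2) (by decide) vA (h ▸ wA)
  have r1 := rot_mem ht
  have r2 := rot_mem r1
  refine ⟨u, v, w, uA, vA, wA, ?_⟩
  simp only [Vt] at hu hv' hw
  rcases hu with rfl | rfl | rfl <;> rcases hv' with rfl | rfl | rfl <;>
    rcases hw with rfl | rfl | rfl <;>
    first
    | exact absurd rfl d01
    | exact absurd rfl d02
    | exact absurd rfl d12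
    | exact Or.inl ⟨ht, by simp [rots]⟩
    | exact Or.inl ⟨r1, by simp [rots]⟩
    | exact Or.inl ⟨r2, by simp [rots]⟩
    | exact Or.inr ⟨ht, by simp [rots]⟩
    | exact Or.inr ⟨r1, by simp [rots]⟩
    | exact Or.inr ⟨r2, by simp [rots]⟩

theorem lv_mem (hT : Cls S A) {b f : ℂ} (h1 : b ∈ A i) (h2 : f ∉ A i) (h3 : f ∈ S) :
    (b, f) ∈ lv S (A i) := by
  simp only [lv, Finset.mem_filter, Finset.mem_product]
  exact ⟨⟨hT.sub i h1, h3⟩, h1, h2⟩

theorem tri_adj {u v w : ℂ} (h : (u, v, w) ∈ delT S ∨ (v, u, w) ∈ delT S) : Adj S u v := by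
  rcases h with h | h
  · exact Or.inl ⟨w, h⟩
  · exact Or.inr ⟨w, h⟩

/-- branch of a connected set, all the data -/
theorem dataX (hT : Cls S A) {a2 a0 z0 : ℂ} (had : Adj S a2 a0) (ha2 : a2 ∈ A 0) (ha0 : a0 ∈ A 1)
    (hz0 : z0 ∈ A 2) {X : Set ℂ} (hX : CtrX S A X) : ∃ (q : ℂ × ℂ) (G : ℂ × ℂ → ZMod 2), FC S G ∧
      q ∈ lv S (A 0) ∧ q.2 ∈ X ∧ Adj S q.1 q.2 ∧ q ≠ (a2, a0) ∧
      (∀ r ∈ lv S (A 0), r ≠ q → r ≠ (a2, a0) → G r + G r.swap = 0) ∧ G q + G q.swap = 1 ∧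
      ∀ (W : Set ℂ) (v z : ℂ), z ∈ A 2 → Pth S W z v → Disjoint W (A 0) → Disjoint W (A 1) →
        Disjoint W X → ∀ a b c : ℂ, (a, b, c) ∈ delT S → Vt (a, b, c) v → G (a, b) = 0 := by
  obtain ⟨b, hb, f, hf, hbf, pV, sV, dVi, dVk⟩ := hX.brC hT (i := 0) (j := 1) (k := 2)
    (by decide) (by decide) ha0
  obtain ⟨G, gF, g1, g2, g3⟩ := br_c hT (i := 0) (k := 2) (by decide) had ha2 hb hbf hz0 pV sV
    dVi dVk
  have hfA : ∀ m, f ∉ A m := fun m h => Set.disjoint_left.1 (hX.1 m) hf h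
  have ne1 : (b, f) ≠ (a2, a0) := fun h => by
    have h' : f = a0 := congrArg Prod.snd h
    exact hfA 1 (h' ▸ ha0)
  refine ⟨(b, f), G, gF, lv_mem hT hb (hfA 0) (Adj.mem hbf).2, hf, hbf, ne1, g1, g2 ne1, ?_⟩
  intro W v z hz hW h0 h1 hWX
  exact g3 W v z hz hW h0 (Set.disjoint_union_right.2 ⟨hWX, h1⟩)

/-- branch of a triangle, all the data -/
theorem dataT (hT : Cls S A) {a2 a0 z0 : ℂ} (had : Adj S a2 a0) (ha2 : a2 ∈ A 0) (ha0 : a0 ∈ A 1)
    (hz0 : z0 ∈ A 2) {u v w : ℂ} (hu : u ∈ A 0) (hv : v ∈ A 1)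
    (ht : (u, v, w) ∈ delT S ∨ (v, u, w) ∈ delT S) (hne : (u, v) ≠ (a2, a0)) :
    ∃ G : ℂ × ℂ → ZMod 2, FC S G ∧ (u, v) ∈ lv S (A 0) ∧
      (∀ r ∈ lv S (A 0), r ≠ (u, v) → r ≠ (a2, a0) → G r + G r.swap = 0) ∧
      G (u, v) + G (u, v).swap = 1 ∧
      ∀ (W : Set ℂ) (v z : ℂ), z ∈ A 2 → Pth S W z v → Disjoint W (A 0) → Disjoint W (A 1) →
        ∀ a b c : ℂ, (a, b, c) ∈ delT S → Vt (a, b, c) v → G (a, b) = 0 := by
  obtain ⟨G, gF, g1, g2, g3⟩ := br_c hT (i := 0) (k := 2) (by decide) had ha2 hu (tri_adj ht) hz0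
    (hT.con 1 v hv a0 ha0) (hT.sub 1) (hT.disj 0 1 (by decide)) (hT.disj 2 1 (by decide))
  exact ⟨G, gF, lv_mem hT hu (fun h => hT.ne (i := 0) (j := 1) (by decide) h hv) (hT.sub 1 hv), g1,
    g2 hne, g3⟩

/-- value around a site on one of the sides of an edge -/
theorem one_side {G : ℂ × ℂ → ZMod 2} {p : ℂ × ℂ} {v : ℂ} (h : Adj S p.1 p.2)
    (hv : v = p.1 ∨ v = p.2)
    (hz : ∀ a b c : ℂ, (a, b, c) ∈ delT S → Vt (a, b, c) v → G (a, b) = 0) :
    G p = 0 ∨ G p.swap = 0 := by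
  obtain ⟨a, b⟩ := p
  simp only at h hv
  rcases h with ⟨c, h⟩ | ⟨c, h⟩
  · left
    refine hz a b c h ?_
    rcases hv with rfl | rfl
    · exact Or.inl rfl
    · exact Or.inr (Or.inl rfl)
  · right
    refine hz b a c h ?_
    rcases hv with rfl | rfl
    · exact Or.inr (Or.inl rfl)
    · exact Or.inl rfl

/-- value on the side of a third vertex -/
theorem third_side {G : ℂ × ℂ → ZMod 2} {u v w : ℂ}
    (ht : (u, v, w) ∈ delT S ∨ (v, u, w) ∈ delT S)
    (hz : ∀ a b c : ℂ, (a, b, c) ∈ delT S → Vt (a, b, c) w → G (a, b) = 0) :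
    G (u, v) = 0 ∨ G (u, v).swap = 0 := by
  rcases ht with h | h
  · exact Or.inl (hz _ _ _ h (Or.inr (Or.inr rfl)))
  · exact Or.inr (hz _ _ _ h (Or.inr (Or.inr rfl)))

theorem root_side {G H : ℂ × ℂ → ZMod 2} {u v w : ℂ}
    (ht : (u, v, w) ∈ delT S ∨ (v, u, w) ∈ delT S)
    (hz : ∀ a b c : ℂ, (a, b, c) ∈ delT S → Vt (a, b, c) w → G (a, b) = 0)
    (hz' : ∀ a b c : ℂ, (a, b, c) ∈ delT S → Vt (a, b, c) w → H (a, b) = 0) :
    (G (u, v) = 0 ∧ H (u, v) = 0) ∨ (G (u, v).swap = 0 ∧ H (u, v).swap = 0) := by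
  rcases ht with h | h
  · exact Or.inl ⟨hz _ _ _ h (Or.inr (Or.inr rfl)), hz' _ _ _ h (Or.inr (Or.inr rfl))⟩
  · exact Or.inr ⟨hz _ _ _ h (Or.inr (Or.inr rfl)), hz' _ _ _ h (Or.inr (Or.inr rfl))⟩

theorem pth_in {X : Set ℂ} (hX : CtrX S A X) {i : ZMod 3} {f : ℂ} (hf : f ∈ X) : ∃ y ∈ A i,
    Pth S (A i ∪ X) y f := by
  obtain ⟨z, hz, y, hy, hzy⟩ := hX.2.2 i
  refine ⟨y, hy, ?_⟩
  have e1 : Pth S (A i ∪ X) y z := Pth.single (Or.inl hy) hzy.symm (Or.inr hz)
  exact e1.trans ((hX.2.1 z hz f hf).mono Set.subset_union_right)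

theorem k3xx (hT : Cls S A) {o : ℂ × ℂ × ℂ} (ho : CtrT S A o) {X Y : Set ℂ} (hX : CtrX S A X)
    (hY : CtrX S A Y) : ¬ Disjoint X Y := by
  intro hXY
  obtain ⟨a2, a0, z0, ha2, ha0, hz0, hor⟩ := ho.vertC hT
  have hor' : (a2, a0, z0) ∈ delT S ∨ (a0, a2, z0) ∈ delT S := hor.imp And.left And.left
  have had := tri_adj hor'
  obtain ⟨p, G, gF, g0, g1, g2, g3, g4, g5, g6⟩ := dataX hT had ha2 ha0 hz0 hX
  obtain ⟨q, H, hF, h0, h1, h2, h3, h4, h5, h6⟩ := dataX hT had ha2 ha0 hz0 hY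
  have d20 : Disjoint (A 2) (A 0) := hT.disj 2 0 (by decide)
  have d21 : Disjoint (A 2) (A 1) := hT.disj 2 1 (by decide)
  have hpq : p ≠ q := fun h => Set.disjoint_left.1 hXY g1 (h ▸ h1)
  refine threeC hT.gp gF hF g0 h0 (lv_mem hT ha2 (fun h => hT.ne (i := 0) (j := 1) (by decide) h ha0)
    (hT.sub 1 ha0)) hpq g3 h3 g4 g5 h4 h5 ?_ ?_ ?_
  · obtain ⟨y, hy, hp⟩ := pth_in hY (i := 2) h1
    refine one_side h2 (Or.inr rfl) (g6 (A 2 ∪ Y) q.2 y hy hp ?_ ?_ ?_)
    · exact Set.disjoint_union_left.2 ⟨d20, hY.1 0⟩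
    · exact Set.disjoint_union_left.2 ⟨d21, hY.1 1⟩
    · exact Set.disjoint_union_left.2 ⟨(hX.1 2).symm, hXY.symm⟩
  · obtain ⟨y, hy, hp⟩ := pth_in hX (i := 2) g1
    refine one_side g2 (Or.inr rfl) (h6 (A 2 ∪ X) p.2 y hy hp ?_ ?_ ?_)
    · exact Set.disjoint_union_left.2 ⟨d20, hX.1 0⟩
    · exact Set.disjoint_union_left.2 ⟨d21, hX.1 1⟩
    · exact Set.disjoint_union_left.2 ⟨(hY.1 2).symm, hXY⟩
  · exact root_side hor' (g6 (A 2) z0 z0 hz0 (Pth.refl hz0) d20 d21 (hX.1 2).symm)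
      (h6 (A 2) z0 z0 hz0 (Pth.refl hz0) d20 d21 (hY.1 2).symm)

theorem k3tx (hT : Cls S A) {o : ℂ × ℂ × ℂ} (ho : CtrT S A o) {t : ℂ × ℂ × ℂ} (hto : t ∉ rots o)
    (ht : CtrT S A t) {Y : Set ℂ} : ¬ CtrX S A Y := by
  intro hY
  have hS := hT.gp
  obtain ⟨a2, a0, z0, ha2, ha0, hz0, hor⟩ := ho.vertC hT
  have hor' : (a2, a0, z0) ∈ delT S ∨ (a0, a2, z0) ∈ delT S := hor.imp And.left And.left
  have had := tri_adj hor'
  obtain ⟨u, v, w, hu, hv, hw, htri⟩ := ht.vertC hT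
  have htri' : (u, v, w) ∈ delT S ∨ (v, u, w) ∈ delT S := htri.imp And.left And.left
  obtain ⟨q, H, hF, h0, h1, h2, h3, h4, h5, h6⟩ := dataX hT had ha2 ha0 hz0 hY
  have d20 : Disjoint (A 2) (A 0) := hT.disj 2 0 (by decide)
  have d21 : Disjoint (A 2) (A 1) := hT.disj 2 1 (by decide)
  have me := lv_mem (i := 0) hT ha2 (fun h => hT.ne (i := 0) (j := 1) (by decide) h ha0)
    (hT.sub 1 ha0)
  have He := hull_oneC hS hF h0 me h3 h4 h5
  have Hz : ∀ z ∈ A 2, ∀ a b c : ℂ, (a, b, c) ∈ delT S → Vt (a, b, c) z → H (a, b) = 0 :=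
    fun z hz => h6 (A 2) z z hz (Pth.refl hz) d20 d21 (hY.1 2).symm
  by_cases hpe : (u, v) = (a2, a0)
  · obtain ⟨rfl, rfl⟩ := Prod.mk.injEq .. ▸ hpe
    have opp : H (u, v) = 0 ∧ H (u, v).swap = 0 := by
      rcases htri with h | h <;> rcases hor with h' | h'
      · have e := (g1 S hS).2.1 _ _ _ _ h.1 h'.1
        subst e
        exact absurd (rots_trans h'.2 h.2) hto
      · exact ⟨Hz w hw _ _ _ h.1 (Or.inr (Or.inr rfl)), Hz z0 hz0 _ _ _ h'.1 (Or.inr (Or.inr rfl))⟩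
      · exact ⟨Hz z0 hz0 _ _ _ h'.1 (Or.inr (Or.inr rfl)), Hz w hw _ _ _ h.1 (Or.inr (Or.inr rfl))⟩
      · have e := (g1 S hS).2.1 _ _ _ _ h.1 h'.1
        subst e
        exact absurd (rots_trans h'.2 h.2) hto
    rw [opp.1, opp.2] at He
    exact absurd He (by decide)
  · obtain ⟨G, gF, g0, g4, g5, g6⟩ := dataT hT had ha2 ha0 hz0 hu hv htri' hpe
    have hpq : (u, v) ≠ q := fun h => by
      rw [← h] at h1
      exact Set.disjoint_left.1 (hY.1 1) h1 hv
    refine threeC hT.gp gF hF g0 h0 me hpq hpe h3 g4 g5 h4 h5 ?_ ?_ ?_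
    · obtain ⟨y, hy, hp⟩ := pth_in hY (i := 2) h1
      refine one_side h2 (Or.inr rfl) (g6 (A 2 ∪ Y) q.2 y hy hp ?_ ?_)
      · exact Set.disjoint_union_left.2 ⟨d20, hY.1 0⟩
      · exact Set.disjoint_union_left.2 ⟨d21, hY.1 1⟩
    · exact third_side htri' (Hz w hw)
    · exact root_side hor' (g6 (A 2) z0 z0 hz0 (Pth.refl hz0) d20 d21) (Hz z0 hz0)

theorem k3tt (hT : Cls S A) {o : ℂ × ℂ × ℂ} (ho : CtrT S A o) {t t' : ℂ × ℂ × ℂ}
    (hto : t ∉ rots o) (hto' : t' ∉ rots o) (ht : CtrT S A t) (ht' : CtrT S A t') :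
    t' ∈ rots t := by
  have hS := hT.gp
  obtain ⟨a2, a0, z0, ha2, ha0, hz0, hor⟩ := ho.vertC hT
  have hor' : (a2, a0, z0) ∈ delT S ∨ (a0, a2, z0) ∈ delT S := hor.imp And.left And.left
  have had := tri_adj hor'
  obtain ⟨u, v, w, hu, hv, hw, htri⟩ := ht.vertC hT
  have htri1 : (u, v, w) ∈ delT S ∨ (v, u, w) ∈ delT S := htri.imp And.left And.left
  obtain ⟨u', v', w', hu', hv', hw', htri'⟩ := ht'.vertC hT
  have htri1' : (u', v', w') ∈ delT S ∨ (v', u', w') ∈ delT S := htri'.imp And.left And.left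
  have d20 : Disjoint (A 2) (A 0) := hT.disj 2 0 (by decide)
  have d21 : Disjoint (A 2) (A 1) := hT.disj 2 1 (by decide)
  have me := lv_mem (i := 0) hT ha2 (fun h => hT.ne (i := 0) (j := 1) (by decide) h ha0)
    (hT.sub 1 ha0)
  -- two different triangles at the same edge
  have same : ∀ {u v w w' : ℂ} {t t' : ℂ × ℂ × ℂ}, t ∉ rots t' →
      (((u, v, w) ∈ delT S ∧ (u, v, w) ∈ rots t) ∨ ((v, u, w) ∈ delT S ∧ (v, u, w) ∈ rots t)) →
      (((u, v, w') ∈ delT S ∧ (u, v, w') ∈ rots t') ∨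
        ((v, u, w') ∈ delT S ∧ (v, u, w') ∈ rots t')) → ∀ {G : ℂ × ℂ → ZMod 2},
      (∀ a b c : ℂ, (a, b, c) ∈ delT S → Vt (a, b, c) w → G (a, b) = 0) →
      (∀ a b c : ℂ, (a, b, c) ∈ delT S → Vt (a, b, c) w' → G (a, b) = 0) →
      G (u, v) + G (u, v).swap = 0 := by
    intro u v w w' t t' hn h h' G z1 z2
    rcases h with h | h <;> rcases h' with h' | h'
    · have e := (g1 S hS).2.1 _ _ _ _ h.1 h'.1
      subst e
      exact absurd (rots_trans h'.2 h.2) hn
    · rw [z1 _ _ _ h.1 (Or.inr (Or.inr rfl)), Prod.swap_prod_mk,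
        z2 _ _ _ h'.1 (Or.inr (Or.inr rfl)), zero_add]
    · rw [z2 _ _ _ h'.1 (Or.inr (Or.inr rfl)), Prod.swap_prod_mk,
        z1 _ _ _ h.1 (Or.inr (Or.inr rfl)), zero_add]
    · have e := (g1 S hS).2.1 _ _ _ _ h.1 h'.1
      subst e
      exact absurd (rots_trans h'.2 h.2) hn
  have zz : ∀ {G : ℂ × ℂ → ZMod 2}, (∀ (W : Set ℂ) (v z : ℂ), z ∈ A 2 → Pth S W z v →
      Disjoint W (A 0) → Disjoint W (A 1) → ∀ a b c : ℂ, (a, b, c) ∈ delT S →
      Vt (a, b, c) v → G (a, b) = 0) → ∀ z ∈ A 2, ∀ a b c : ℂ, (a, b, c) ∈ delT S →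
      Vt (a, b, c) z → G (a, b) = 0 := fun h z hz =>
    h (A 2) z z hz (Pth.refl hz) d20 d21
  by_contra hcon
  by_cases hpe : (u, v) = (a2, a0)
  · by_cases hpe' : (u', v') = (a2, a0)
    · -- both at the root edge
      obtain ⟨rfl, rfl⟩ := Prod.mk.injEq .. ▸ hpe
      obtain ⟨rfl, rfl⟩ := Prod.mk.injEq .. ▸ hpe'
      rcases htri with h | h <;> rcases hor with h2 | h2 <;> rcases htri' with h3 | h3
      · have e := (g1 S hS).2.1 _ _ _ _ h.1 h3.1
        subst e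
        exact hcon (rots_trans h.2 h3.2)
      · have e := (g1 S hS).2.1 _ _ _ _ h.1 h2.1
        subst e
        exact hto (rots_trans h2.2 h.2)
      · have e := (g1 S hS).2.1 _ _ _ _ h.1 h3.1
        subst e
        exact hcon (rots_trans h.2 h3.2)
      · have e := (g1 S hS).2.1 _ _ _ _ h3.1 h2.1
        subst e
        exact hto' (rots_trans h2.2 h3.2)
      · have e := (g1 S hS).2.1 _ _ _ _ h3.1 h2.1
        subst e
        exact hto' (rots_trans h2.2 h3.2)
      · have e := (g1 S hS).2.1 _ _ _ _ h.1 h3.1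
        subst e
        exact hcon (rots_trans h.2 h3.2)
      · have e := (g1 S hS).2.1 _ _ _ _ h.1 h2.1
        subst e
        exact hto (rots_trans h2.2 h.2)
      · have e := (g1 S hS).2.1 _ _ _ _ h.1 h3.1
        subst e
        exact hcon (rots_trans h.2 h3.2)
    · obtain ⟨H, hF, h0, h4, h5, h6⟩ := dataT hT had ha2 ha0 hz0 hu' hv' htri1' hpe'
      have He := hull_oneC hS hF h0 me hpe' h4 h5
      obtain ⟨rfl, rfl⟩ := Prod.mk.injEq .. ▸ hpe
      rw [same hto htri hor (zz h6 w hw) (zz h6 z0 hz0)] at He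
      exact absurd He (by decide)
  · obtain ⟨G, gF, g0, g4, g5, g6⟩ := dataT hT had ha2 ha0 hz0 hu hv htri1 hpe
    by_cases hpe' : (u', v') = (a2, a0)
    · have He := hull_oneC hS gF g0 me hpe g4 g5
      obtain ⟨rfl, rfl⟩ := Prod.mk.injEq .. ▸ hpe'
      rw [same hto' htri' hor (zz g6 w' hw') (zz g6 z0 hz0)] at He
      exact absurd He (by decide)
    · by_cases hpp : (u, v) = (u', v')
      · obtain ⟨rfl, rfl⟩ := Prod.mk.injEq .. ▸ hpp
        have h1 := same (fun h => hcon (rots_trans h (by simp [rots] : t ∈ rots t) |> fun _ => by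
          exact rots_trans (by simp [rots] : t ∈ rots t) h)) htri htri' (zz g6 w hw) (zz g6 w' hw')
        rw [h1] at g5
        exact absurd g5 (by decide)
      · obtain ⟨H, hF, h0, h4, h5, h6⟩ := dataT hT had ha2 ha0 hz0 hu' hv' htri1' hpe'
        refine threeC hT.gp gF hF g0 h0 me hpp hpe hpe' g4 g5 h4 h5 ?_ ?_ ?_
        · exact third_side htri1' (zz g6 w' hw')
        · exact third_side htri1 (zz h6 w hw)
        · exact root_side hor' (zz g6 z0 hz0) (zz h6 z0 hz0)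

end k3

/-! ### clusters -/

section clu

variable {T B : Set ℂ}

theorem mem_clu_self {v : ℂ} (h : v ∈ B) : v ∈ Clu S T B := ⟨v, h, Pth.refl (Or.inr h)⟩

theorem clu_subset : Clu S T B ⊆ T ∪ B := by
  rintro v ⟨x, _, h⟩
  exact h.snd

/-- every site of the cluster is joined to `B` inside the cluster -/
theorem clu_pth {v : ℂ} (h : v ∈ Clu S T B) : ∃ x ∈ B, Pth S (Clu S T B) x v := by
  obtain ⟨x, hx, hp⟩ := h
  refine ⟨x, hx, ?_⟩
  obtain ⟨h0, hp⟩ := hp
  induction hp with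
  | refl => exact Pth.refl (mem_clu_self hx)
  | @tail b c h1 h2 ih => exact ih.tail h2.1 ⟨x, hx, ⟨h0, h1.tail h2⟩⟩

theorem clu_con (hB : ∀ x ∈ B, ∀ y ∈ B, Pth S B x y) :
    ∀ x ∈ Clu S T B, ∀ y ∈ Clu S T B, Pth S (Clu S T B) x y := by
  intro x hx y hy
  obtain ⟨x0, h1, h2⟩ := clu_pth hx
  obtain ⟨y0, h3, h4⟩ := clu_pth hy
  exact (h2.symm.trans ((hB x0 h1 y0 h3).mono fun v hv => mem_clu_self hv)).trans h4

/-- a neighbour in `T` -/
theorem clu_nb {v u : ℂ} (h : v ∈ Clu S T B) (h1 : Adj S v u) (h2 : u ∈ T) : u ∈ Clu S T B := by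
  obtain ⟨x, hx, hp⟩ := h
  exact ⟨x, hx, hp.tail h1 (Or.inl h2)⟩

end clu

/-! ### families -/

/-- hit with a triangle off `O` -/
structure HitO (S : Finset ℂ) (A : ZMod 3 → Set ℂ) (O : Set (ℂ × ℂ × ℂ)) (i j k : ZMod 3)
    (T : Set ℂ) (b v u : ℂ) : Prop extends Hit S A i j k T b v u where
  off : (b, v, u) ∉ O ∧ (v, b, u) ∉ O

/-- family of triples of classes closed under enlargement -/
structure Fam (S : Finset ℂ) (P : (ZMod 3 → Set ℂ) → Prop) (O : Set (ℂ × ℂ × ℂ)) : Prop where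
  cls : ∀ A, P A → Cls S A
  up : ∀ A C, P A → (∀ i, A i ⊆ C i) → Cls S C → P C
  ktt : ∀ A, P A → ∀ t t', t ∉ O → t' ∉ O → CtrT S A t → CtrT S A t' → t' ∈ rots t
  ktx : ∀ A, P A → ∀ t X, t ∉ O → CtrT S A t → ¬ CtrX S A X
  kxx : ∀ A, P A → ∀ X Y, CtrX S A X → CtrX S A Y → ¬ Disjoint X Y
  hite : ∀ A, P A → ∀ i j k : ZMod 3, i ≠ j → i ≠ k → j ≠ k → ∀ T : Set ℂ,
    ∃ b v u, HitO S A O i j k T b v u

section hit

variable {A : ZMod 3 → Set ℂ} {i j k : ZMod 3} {T : Set ℂ}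

/-- the classes with the black cluster and the white cluster attached -/
def bw (S : Finset ℂ) (A : ZMod 3 → Set ℂ) (i j : ZMod 3) (T : Set ℂ) (m : ZMod 3) : Set ℂ :=
  if m = i then Clu S (fr S A ∩ T) (A i) else if m = j then Clu S (fr S A \ T) (A j) else A m

theorem bw_i : bw S A i j T i = Clu S (fr S A ∩ T) (A i) := if_pos rfl

theorem bw_j (hij : i ≠ j) : bw S A i j T j = Clu S (fr S A \ T) (A j) := by
  unfold bw
  rw [if_neg (Ne.symm hij), if_pos rfl]

theorem bw_k (hik : i ≠ k) (hjk : j ≠ k) : bw S A i j T k = A k := by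
  unfold bw
  rw [if_neg (Ne.symm hik), if_neg (Ne.symm hjk)]

theorem bw_sub (m : ZMod 3) : A m ⊆ bw S A i j T m := by
  unfold bw
  intro v hv
  split_ifs with h1 h2
  · rw [h1] at hv; exact mem_clu_self hv
  · rw [h2] at hv; exact mem_clu_self hv
  · exact hv

theorem z3 (hij : i ≠ j) (hik : i ≠ k) (hjk : j ≠ k) (m : ZMod 3) : m = i ∨ m = j ∨ m = k := by
  revert i j k m
  decide

theorem bw_cls (hC : Cls S A) (hij : i ≠ j) (hik : i ≠ k) (hjk : j ≠ k) :
    Cls S (bw S A i j T) := by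
  have sI : Clu S (fr S A ∩ T) (A i) ⊆ (fr S A ∩ T) ∪ A i := clu_subset
  have sJ : Clu S (fr S A \ T) (A j) ⊆ (fr S A \ T) ∪ A j := clu_subset
  have dij : Disjoint (Clu S (fr S A ∩ T) (A i)) (Clu S (fr S A \ T) (A j)) := by
    rw [Set.disjoint_left]
    intro v h1 h2
    rcases sI h1 with h1 | h1 <;> rcases sJ h2 with h2 | h2
    · exact h2.2 h1.2
    · exact h1.1.2 j h2
    · exact h2.1.2 i h1
    · exact hC.ne hij h1 h2
  have dik : Disjoint (Clu S (fr S A ∩ T) (A i)) (A k) := by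
    rw [Set.disjoint_left]
    intro v h1 h2
    rcases sI h1 with h1 | h1
    · exact h1.1.2 k h2
    · exact hC.ne hik h1 h2
  have djk : Disjoint (Clu S (fr S A \ T) (A j)) (A k) := by
    rw [Set.disjoint_left]
    intro v h1 h2
    rcases sJ h1 with h1 | h1
    · exact h1.1.2 k h2
    · exact hC.ne hjk h1 h2
  refine ⟨hC.gp, ?_, ?_, ?_⟩
  · intro m
    rcases z3 hij hik hjk m with rfl | rfl | rfl
    · rw [bw_i]
      intro v hv
      rcases sI hv with h | h
      · exact h.1.1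
      · exact hC.sub _ h
    · rw [bw_j hij]
      intro v hv
      rcases sJ hv with h | h
      · exact h.1.1
      · exact hC.sub _ h
    · rw [bw_k hik hjk]
      exact hC.sub _
  · intro m m' hm
    rcases z3 hij hik hjk m with rfl | rfl | rfl <;>
      rcases z3 hij hik hjk m' with rfl | rfl | rfl
    · exact absurd rfl hm
    · rw [bw_i, bw_j hij]; exact dij
    · rw [bw_i, bw_k hik hjk]; exact dik
    · rw [bw_i, bw_j hij]; exact dij.symm
    · exact absurd rfl hm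
    · rw [bw_j hij, bw_k hik hjk]; exact djk
    · rw [bw_i, bw_k hik hjk]; exact dik.symm
    · rw [bw_j hij, bw_k hik hjk]; exact djk.symm
    · exact absurd rfl hm
  · intro m
    rcases z3 hij hik hjk m with rfl | rfl | rfl
    · rw [bw_i]; exact clu_con (hC.con _)
    · rw [bw_j hij]; exact clu_con (hC.con _)
    · rw [bw_k hik hjk]; exact hC.con _

/-- the triangle of a hit is a centre of the enlarged classes -/
theorem Hit.ctr (hij : i ≠ j) (hik : i ≠ k) (hjk : j ≠ k) {b v u : ℂ}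
    (h : Hit S A i j k T b v u) : ∃ t, (t = (b, v, u) ∨ t = (v, b, u)) ∧
      CtrT S (bw S A i j T) t := by
  have key : ∀ t : ℂ × ℂ × ℂ, t ∈ delT S → Vt t b → Vt t v → Vt t u →
      CtrT S (bw S A i j T) t := by
    intro t ht hb hv hu
    refine ⟨ht, fun m => ?_⟩
    rcases z3 hij hik hjk m with rfl | rfl | rfl
    · exact ⟨b, hb, by rw [bw_i]; exact h.hb⟩
    · exact ⟨v, hv, by rw [bw_j hij]; exact h.hv⟩
    · exact ⟨u, hu, by rw [bw_k hik hjk]; exact h.hu⟩
  rcases h.tri with h1 | h1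
  · exact ⟨_, Or.inl rfl, key _ h1 (Or.inl rfl) (Or.inr (Or.inl rfl)) (Or.inr (Or.inr rfl))⟩
  · exact ⟨_, Or.inr rfl, key _ h1 (Or.inr (Or.inl rfl)) (Or.inl rfl) (Or.inr (Or.inr rfl))⟩

theorem vt_rots {t t' : ℂ × ℂ × ℂ} (h : t' ∈ rots t) {v : ℂ} : Vt t' v → Vt t v := by
  obtain ⟨a, b, c⟩ := t
  simp only [rots, Set.mem_insert_iff, Set.mem_singleton_iff] at h
  rcases h with rfl | rfl | rfl <;> simp only [Vt] <;> tauto

/-- **uniqueness of the hit** in a family -/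
theorem Fam.hitu {P : (ZMod 3 → Set ℂ) → Prop} {O : Set (ℂ × ℂ × ℂ)} (F : Fam S P O) (hA : P A)
    (hij : i ≠ j) (hik : i ≠ k) (hjk : j ≠ k) {b v u b' v' u' : ℂ}
    (h : HitO S A O i j k T b v u) (h' : HitO S A O i j k T b' v' u') :
    b' = b ∧ v' = v ∧ u' = u := by
  have hC := bw_cls (T := T) (F.cls A hA) hij hik hjk
  have hP := F.up A _ hA (fun m => bw_sub (i := i) (j := j) (T := T) m) hC
  obtain ⟨t, e, ht⟩ := h.toHit.ctr hij hik hjk
  obtain ⟨t', e', ht'⟩ := h'.toHit.ctr hij hik hjk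
  have o1 : t ∉ O := by rcases e with rfl | rfl; exacts [h.off.1, h.off.2]
  have o2 : t' ∉ O := by rcases e' with rfl | rfl; exacts [h'.off.1, h'.off.2]
  have hr := F.ktt _ hP t t' o1 o2 ht ht'
  have w1 : ∀ x, Vt t x → x = b ∨ x = v ∨ x = u := by
    rcases e with rfl | rfl <;> simp only [Vt] <;> tauto
  have w2 : Vt t' b' ∧ Vt t' v' ∧ Vt t' u' := by
    rcases e' with rfl | rfl <;> simp [Vt]
  have cb : b ∈ bw S A i j T i := by rw [bw_i]; exact h.hb
  have cv : v ∈ bw S A i j T j := by rw [bw_j hij]; exact h.hv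
  have cu : u ∈ bw S A i j T k := by rw [bw_k hik hjk]; exact h.hu
  have cb' : b' ∈ bw S A i j T i := by rw [bw_i]; exact h'.hb
  have cv' : v' ∈ bw S A i j T j := by rw [bw_j hij]; exact h'.hv
  have cu' : u' ∈ bw S A i j T k := by rw [bw_k hik hjk]; exact h'.hu
  refine ⟨?_, ?_, ?_⟩
  · rcases w1 _ (vt_rots hr w2.1) with e | e | e
    · exact e
    · rw [e] at cb'; exact absurd cv (fun h => hC.ne hij cb' h)
    · rw [e] at cb'; exact absurd cu (fun h => hC.ne hik cb' h)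
  · rcases w1 _ (vt_rots hr w2.2.1) with e | e | e
    · rw [e] at cv'; exact absurd cb (fun h => hC.ne (Ne.symm hij) cv' h)
    · exact e
    · rw [e] at cv'; exact absurd cu (fun h => hC.ne hjk cv' h)
  · rcases w1 _ (vt_rots hr w2.2.2) with e | e | e
    · rw [e] at cu'; exact absurd cb (fun h => hC.ne (Ne.symm hik) cu' h)
    · rw [e] at cu'; exact absurd cv (fun h => hC.ne (Ne.symm hjk) cu' h)
    · exact e

end hit

/-! ### existence by parity -/

section parity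

variable {B W : Set ℂ}

/-- a pair between `B` and `W` -/
def fbw (B W : Set ℂ) (p : ℂ × ℂ) : ZMod 2 :=
  if (p.1 ∈ B ∧ p.2 ∈ W) ∨ (p.1 ∈ W ∧ p.2 ∈ B) then 1 else 0

/-- number of the sides between `B` and `W` -/
def nbw (B W : Set ℂ) (t : ℂ × ℂ × ℂ) : ZMod 2 :=
  fbw B W (t.1, t.2.1) + fbw B W (t.2.1, t.2.2) + fbw B W (t.2.2, t.1)

theorem fbw_swap (p : ℂ × ℂ) : fbw B W p.swap = fbw B W p := by
  unfold fbw
  simp only [Prod.fst_swap, Prod.snd_swap]
  congr 1
  simp only [eq_iff_iff]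
  tauto

/-- **parity** : triangles with an odd number of `B`-`W` sides = hull edges between `B` and `W` -/
theorem sum_nbw (hS : GP (S : Set ℂ)) (B W : Set ℂ) : ∑ t ∈ delT S, nbw B W t =
    ∑ p ∈ (S ×ˢ S).filter (fun p => hullE S p.1 p.2), fbw B W p := by
  -- the sum over the triangles of the first side
  have e0 : ∑ t ∈ delT S, nbw B W t = ∑ t ∈ delT S, fbw B W (t.1, t.2.1) := by
    have e1 := sum_rot3 (S := S) (fun t => fbw B W (t.1, t.2.1))
    have e2 := sum_rot3 (S := S) (fun t => fbw B W (t.2.1, t.2.2))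
    simp only at e1 e2
    unfold nbw
    rw [Finset.sum_add_distrib, Finset.sum_add_distrib, e2, e1, two_zero, zero_add]
  rw [e0]
  have hinj : ∀ t ∈ delT S, ∀ t' ∈ delT S, ((t.1, t.2.1) : ℂ × ℂ) = (t'.1, t'.2.1) → t = t' := by
    rintro ⟨a, b, c⟩ ht ⟨a', b', c'⟩ ht' h
    simp only [Prod.mk.injEq] at h
    obtain ⟨rfl, rfl⟩ := h
    rw [(g1 S hS).2.1 _ _ _ _ ht ht']
  rw [← Finset.sum_image (f := fbw B W) (g := fun t : ℂ × ℂ × ℂ => (t.1, t.2.1)) hinj]
  set I := (delT S).image (fun t : ℂ × ℂ × ℂ => (t.1, t.2.1)) with hI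
  have mI : ∀ p : ℂ × ℂ, p ∈ I ↔ ∃ c, (p.1, p.2, c) ∈ delT S := by
    rintro ⟨a, b⟩
    simp only [hI, Finset.mem_image, Prod.mk.injEq]
    constructor
    · rintro ⟨⟨x, y, z⟩, h, rfl, rfl⟩; exact ⟨z, h⟩
    · rintro ⟨c, h⟩; exact ⟨(a, b, c), h, rfl, rfl⟩
  have hH : (S ×ˢ S).filter (fun p => hullE S p.1 p.2) = I.filter (fun p => p.swap ∉ I) := by
    ext p
    simp only [Finset.mem_filter, Finset.mem_product, mI, Prod.fst_swap, Prod.snd_swap]
    constructor
    · rintro ⟨-, h1, h2⟩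
      exact ⟨h1, fun ⟨c, h⟩ => h2 c h⟩
    · rintro ⟨⟨c, h1⟩, h2⟩
      have := mem_delT.1 h1
      exact ⟨⟨this.1, this.2.1⟩, ⟨c, h1⟩, fun d hd => h2 ⟨d, hd⟩⟩
  rw [hH, ← Finset.sum_filter_add_sum_filter_not I (fun p => p.swap ∉ I)]
  have h0 : ∑ p ∈ I.filter (fun p => ¬ p.swap ∉ I), fbw B W p = 0 := by
    refine Finset.sum_involution (fun p _ => p.swap) ?_ ?_ ?_ ?_
    · intro p _
      rw [fbw_swap, two_zero]
    · intro p hp _ h
      rw [Finset.mem_filter, mI] at hp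
      obtain ⟨⟨c, hc⟩, -⟩ := hp
      have h1 : p.2 = p.1 := congrArg Prod.fst h
      exact (g1 S hS).2.2 _ _ _ hc h1.symm
    · intro p hp
      rw [Finset.mem_filter, not_not] at hp ⊢
      exact ⟨hp.2, by rw [Prod.swap_swap]; exact hp.1⟩
    · intro p _
      exact Prod.swap_swap p
  rw [h0, add_zero]

/-- a triangle with an odd number of `B`-`W` sides -/
theorem nbw_one (hd : Disjoint B W) {t : ℂ × ℂ × ℂ} (h : nbw B W t ≠ 0) : ∃ b v u : ℂ, b ∈ B ∧
    v ∈ W ∧ u ∉ B ∧ u ∉ W ∧ ((b, v, u) ∈ rots t ∨ (v, b, u) ∈ rots t) := by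
  obtain ⟨x, y, z⟩ := t
  have d : ∀ {s : ℂ}, s ∈ B → s ∉ W := fun h h' => Set.disjoint_left.1 hd h h'
  unfold nbw fbw at h
  simp only at h
  by_cases xB : x ∈ B <;> by_cases yB : y ∈ B <;> by_cases zB : z ∈ B <;>
    by_cases xW : x ∈ W <;> by_cases yW : y ∈ W <;> by_cases zW : z ∈ W <;>
    simp only [xB, yB, zB, xW, yW, zW, and_self, and_false, false_and, and_true, true_and, or_self,
      or_false, or_true, false_or, true_or, if_true, if_false, add_zero, zero_add, two_zero,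
      ne_eq, not_true_eq_false] at h <;>
    first
    | exact absurd xW (d xB)
    | exact absurd yW (d yB)
    | exact absurd zW (d zB)
    | exact ⟨x, y, z, xB, yW, zB, zW, Or.inl (by simp [rots])⟩
    | exact ⟨y, x, z, yB, xW, zB, zW, Or.inr (by simp [rots])⟩
    | exact ⟨y, z, x, yB, zW, xB, xW, Or.inl (by simp [rots])⟩
    | exact ⟨z, y, x, zB, yW, xB, xW, Or.inr (by simp [rots])⟩
    | exact ⟨z, x, y, zB, xW, yB, yW, Or.inl (by simp [rots])⟩
    | exact ⟨x, z, y, xB, zW, yB, yW, Or.inr (by simp [rots])⟩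

end parity

section inst

variable {A : ZMod 3 → Set ℂ} {i j k : ZMod 3} {T : Set ℂ}

theorem rots_del {t r : ℂ × ℂ × ℂ} (ht : t ∈ delT S) (h : r ∈ rots t) : r ∈ delT S := by
  obtain ⟨a, b, c⟩ := t
  simp only [rots, Set.mem_insert_iff, Set.mem_singleton_iff] at h
  rcases h with rfl | rfl | rfl
  · exact ht
  · exact rot_mem ht
  · exact rot_mem (rot_mem ht)

/-- a triangle with an odd number of black-white sides gives a hit -/
theorem hit_of_nbw (hC : Cls S A) (hij : i ≠ j) (hik : i ≠ k) (hjk : j ≠ k) {t : ℂ × ℂ × ℂ}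
    (ht : t ∈ delT S)
    (h : nbw (Clu S (fr S A ∩ T) (A i)) (Clu S (fr S A \ T) (A j)) t ≠ 0) :
    ∃ b v u, Hit S A i j k T b v u ∧ ((b, v, u) ∈ rots t ∨ (v, b, u) ∈ rots t) := by
  have hd : Disjoint (Clu S (fr S A ∩ T) (A i)) (Clu S (fr S A \ T) (A j)) := by
    have := (bw_cls (T := T) hC hij hik hjk).disj i j hij
    rwa [bw_i, bw_j hij] at this
  obtain ⟨b, v, u, hb, hv, hu1, hu2, hr⟩ := nbw_one hd h
  have htr : (b, v, u) ∈ delT S ∨ (v, b, u) ∈ delT S := hr.imp (rots_del ht) (rots_del ht)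
  refine ⟨b, v, u, ⟨htr, hb, hv, ?_⟩, hr⟩
  -- the third vertex
  have a1 : Adj S b u := by
    rcases htr with h | h
    · exact Or.inr ⟨v, rot_mem (rot_mem h)⟩
    · exact Or.inl ⟨v, rot_mem h⟩
  have a2 : Adj S v u := by
    rcases htr with h | h
    · exact Or.inl ⟨b, rot_mem h⟩
    · exact Or.inr ⟨b, rot_mem (rot_mem h)⟩
  have uS : u ∈ S := (Adj.mem a1).2
  by_contra hk
  have nfr : u ∉ fr S A := by
    intro hf
    by_cases hT : u ∈ T
    · exact hu1 (clu_nb hb a1 ⟨hf, hT⟩)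
    · exact hu2 (clu_nb hv a2 ⟨hf, hT⟩)
  have : ∃ m, u ∈ A m := by
    by_contra h
    push Not at h
    exact nfr ⟨uS, h⟩
  obtain ⟨m, hm⟩ := this
  rcases z3 hij hik hjk m with rfl | rfl | rfl
  · exact hu1 (mem_clu_self hm)
  · exact hu2 (mem_clu_self hm)
  · exact hk hm

theorem Tr.up {C : ZMod 3 → Set ℂ} (hT : Tr S A) (hAC : ∀ i, A i ⊆ C i) (hC : Cls S C) :
    Tr S C := by
  have back : ∀ {a b : ℂ} {i : ZMod 3}, (hullE S a b ∨ hullE S b a) → a ∈ C i → a ∈ A i := by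
    intro a b i h ha
    obtain ⟨m, hm⟩ := hT.hull_mem h
    by_cases hmi : m = i
    · rw [← hmi]; exact hm
    · exact absurd ha (fun h => hC.ne hmi (hAC m hm) h)
  refine ⟨hC.gp, hC.sub, hC.disj, hC.con, fun a b h => ?_, fun i j hij => ?_⟩
  · obtain ⟨m, hm⟩ := hT.hull a b h
    exact ⟨m, hAC m hm⟩
  · obtain ⟨a, b, h, ha, hb, hu⟩ := hT.one i j hij
    refine ⟨a, b, h, hAC i ha, hAC j hb, fun a' b' h' ha' hb' => ?_⟩
    exact hu a' b' h' (back h' ha') (back (Or.symm h') hb')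

/-- **existence of the hit** -/
theorem hite : HITE := by
  intro S A hT i j k hij hik hjk T
  have hS := hT.gp
  have hC := hT.cls
  set B := Clu S (fr S A ∩ T) (A i) with hB
  set W := Clu S (fr S A \ T) (A j) with hW
  have sI : B ⊆ (fr S A ∩ T) ∪ A i := clu_subset
  have sJ : W ⊆ (fr S A \ T) ∪ A j := clu_subset
  obtain ⟨a, b, hab, ha, hb, hu⟩ := hT.one i j hij
  have hullB : ∀ {x y : ℂ}, (hullE S x y ∨ hullE S y x) → x ∈ B → x ∈ A i := by
    intro x y h hx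
    obtain ⟨m, hm⟩ := hT.hull_mem h
    rcases sI hx with h1 | h1
    · exact absurd hm (h1.1.2 m)
    · exact h1
  have hullW : ∀ {x y : ℂ}, (hullE S x y ∨ hullE S y x) → x ∈ W → x ∈ A j := by
    intro x y h hx
    obtain ⟨m, hm⟩ := hT.hull_mem h
    rcases sJ hx with h1 | h1
    · exact absurd hm (h1.1.2 m)
    · exact h1
  -- exactly one hull edge
  have h1 : ∑ p ∈ (S ×ˢ S).filter (fun p => hullE S p.1 p.2), fbw B W p = 1 := by
    obtain ⟨e, he, he'⟩ : ∃ e : ℂ × ℂ, hullE S e.1 e.2 ∧ (e = (a, b) ∨ e = (b, a)) := by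
      rcases hab with h | h
      · exact ⟨(a, b), h, Or.inl rfl⟩
      · exact ⟨(b, a), h, Or.inr rfl⟩
    have heS : e ∈ (S ×ˢ S).filter (fun p => hullE S p.1 p.2) := by
      rw [Finset.mem_filter, Finset.mem_product]
      have := hullE.mem he
      exact ⟨this, he⟩
    rw [Finset.sum_eq_single_of_mem e heS]
    · unfold fbw
      rw [if_pos]
      rcases he' with rfl | rfl
      · exact Or.inl ⟨mem_clu_self ha, mem_clu_self hb⟩
      · exact Or.inr ⟨mem_clu_self hb, mem_clu_self ha⟩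
    · intro p hp hne
      rw [Finset.mem_filter] at hp
      unfold fbw
      rw [if_neg]
      rintro (⟨x1, x2⟩ | ⟨x1, x2⟩)
      · obtain ⟨e1, e2⟩ := hu p.1 p.2 (Or.inl hp.2) (hullB (Or.inl hp.2) x1)
          (hullW (Or.inr hp.2) x2)
        rcases he' with h | h
        · exact hne (by rw [h, ← e1, ← e2])
        · rw [h] at he
          have hp2 := hp.2
          rw [e1, e2] at hp2
          obtain ⟨c, hc⟩ := hp2.1
          exact he.2 c hc
      · obtain ⟨e1, e2⟩ := hu p.2 p.1 (Or.inr hp.2) (hullB (Or.inr hp.2) x2)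
          (hullW (Or.inl hp.2) x1)
        rcases he' with h | h
        · rw [h] at he
          have hp2 := hp.2
          rw [e1, e2] at hp2
          obtain ⟨c, hc⟩ := hp2.1
          exact he.2 c hc
        · exact hne (by rw [h, ← e1, ← e2])
  rw [← sum_nbw hS] at h1
  obtain ⟨t, ht, hn⟩ : ∃ t ∈ delT S, nbw B W t ≠ 0 := by
    by_contra hcon
    push Not at hcon
    rw [Finset.sum_eq_zero hcon] at h1
    exact absurd h1 (by decide)
  obtain ⟨b', v', u', h, -⟩ := hit_of_nbw hC hij hik hjk ht hn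
  exact ⟨b', v', u', h⟩

/-- **hull instance** -/
theorem fam_hull (S : Finset ℂ) : Fam S (Tr S) ∅ where
  cls A h := h.cls
  up A C h h1 h2 := h.up h1 h2
  ktt A h t t' _ _ h1 h2 := ktt S A h t t' h1 h2
  ktx A h t X _ h1 := ktx S A h t X h1
  kxx A h X Y h1 h2 := kxx S A h X Y h1 h2
  hite A h i j k hij hik hjk T := by
    obtain ⟨b, v, u, h1⟩ := hite S A h i j k hij hik hjk T
    exact ⟨b, v, u, h1, by simp⟩

theorem hitu : HITU := by
  intro S A hT i j k hij hik hjk T b v u b' v' u' h h'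
  exact (fam_hull S).hitu hT hij hik hjk (O := ∅) ⟨h, by simp⟩ ⟨h', by simp⟩

/-- classes with a root triangle `o`; all the classes but `A m` are separated from the hull by
`A m` -/
structure TrR (S : Finset ℂ) (o : ℂ × ℂ × ℂ) (m : ZMod 3) (A : ZMod 3 → Set ℂ) : Prop extends
    Cls S A where
  root : CtrT S A o
  sep : ∀ i, i ≠ m → ∀ x ∈ A i, ∀ h h' : ℂ, (hullE S h h' ∨ hullE S h' h) →
    ¬ Pth S {v | v ∉ A m} x h

theorem TrR.up {o : ℂ × ℂ × ℂ} {m : ZMod 3} {C : ZMod 3 → Set ℂ} (hT : TrR S o m A)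
    (hAC : ∀ i, A i ⊆ C i) (hC : Cls S C) : TrR S o m C := by
  refine ⟨hC, ⟨hT.root.1, fun i => ?_⟩, fun i hi x hx h h' hh hp => ?_⟩
  · obtain ⟨v, h1, h2⟩ := hT.root.2 i
    exact ⟨v, h1, hAC i h2⟩
  · obtain ⟨x0, -, h0⟩ := hT.root.2 i
    have h1 : Pth S {v | v ∉ A m} x0 x := by
      refine (hC.con i x0 (hAC i h0) x hx).mono fun v hv hv' => ?_
      exact hC.ne hi hv (hAC m hv')
    have h2 : Pth S {v | v ∉ A m} x h := by
      refine hp.mono ?_
      intro v hv hv'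
      exact (show v ∉ C m from hv) (hAC m hv')
    exact hT.sep i hi x0 h0 h h' hh (h1.trans h2)

theorem hiteR {o : ℂ × ℂ × ℂ} {m : ZMod 3} (hT : TrR S o m A) (hij : i ≠ j) (hik : i ≠ k)
    (hjk : j ≠ k) (T : Set ℂ) : ∃ b v u, HitO S A (rots o) i j k T b v u := by
  have hS := hT.gp
  have hC := hT.toCls
  set B := Clu S (fr S A ∩ T) (A i) with hB
  set W := Clu S (fr S A \ T) (A j) with hW
  have hd : Disjoint B W := by
    have := (bw_cls (T := T) hC hij hik hjk).disj i j hij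
    rwa [bw_i, bw_j hij] at this
  have sI : B ⊆ (fr S A ∩ T) ∪ A i := clu_subset
  have sJ : W ⊆ (fr S A \ T) ∪ A j := clu_subset
  -- a class different from `m` does not reach the hull
  have far : ∀ {i : ZMod 3} {Q : Set ℂ} {x h h' : ℂ}, i ≠ m → Q ⊆ fr S A → x ∈ Clu S Q (A i) →
      (hullE S x h' ∨ hullE S h' x) → False := by
    intro i Q x h h' hi hQ hx hh
    obtain ⟨x0, h0, hp⟩ := hx
    refine hT.sep i hi x0 h0 x h' hh (hp.mono ?_)
    rintro v (hv | hv) hv'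
    · exact (hQ hv).2 m hv'
    · exact hC.ne hi hv hv'
  have h1 : ∑ p ∈ (S ×ˢ S).filter (fun p => hullE S p.1 p.2), fbw B W p = 0 := by
    refine Finset.sum_eq_zero fun p hp => ?_
    rw [Finset.mem_filter] at hp
    unfold fbw
    rw [if_neg]
    by_cases him : i = m
    · have hjm : j ≠ m := fun h => hij (him.trans h.symm)
      rintro (⟨-, x2⟩ | ⟨x1, -⟩)
      · exact far (h := p.1) (h' := p.1) hjm (fun _ h => h.1) x2 (Or.inr hp.2)
      · exact far (h := p.1) (h' := p.2) hjm (fun _ h => h.1) x1 (Or.inl hp.2)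
    · rintro (⟨x1, -⟩ | ⟨-, x2⟩)
      · exact far (h := p.1) (h' := p.2) him Set.inter_subset_left x1 (Or.inl hp.2)
      · exact far (h := p.1) (h' := p.1) him Set.inter_subset_left x2 (Or.inr hp.2)
  rw [← sum_nbw hS] at h1
  -- the root triangle counts once
  have ho := hT.root.1
  obtain ⟨a, b, c⟩ := o
  have hne : a ≠ b ∧ b ≠ c ∧ c ≠ a := by
    have g := (g1 S hS).2.2
    exact ⟨g _ _ _ ho, g _ _ _ (rot_mem ho), g _ _ _ (rot_mem (rot_mem ho))⟩
  set R : Finset (ℂ × ℂ × ℂ) := {(a, b, c), (b, c, a), (c, a, b)} with hR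
  have hRm : ∀ t, t ∈ R ↔ t ∈ rots (a, b, c) := by
    intro t
    simp only [hR, rots, Finset.mem_insert, Finset.mem_singleton, Set.mem_insert_iff,
      Set.mem_singleton_iff]
  have hRsub : R ⊆ delT S := fun t ht => rots_del ho ((hRm t).1 ht)
  have rotn : ∀ t : ℂ × ℂ × ℂ, nbw B W (t.2.1, t.2.2, t.1) = nbw B W t := by
    intro t; unfold nbw; ring
  have n1 : nbw B W (a, b, c) = 1 := by
    obtain ⟨x, hx, hx'⟩ := hT.root.2 i
    obtain ⟨y, hy, hy'⟩ := hT.root.2 j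
    obtain ⟨z, hz, hz'⟩ := hT.root.2 k
    have zB : z ∉ B := fun h => by
      rcases sI h with h | h
      · exact h.1.2 k hz'
      · exact hC.ne hik h hz'
    have zW : z ∉ W := fun h => by
      rcases sJ h with h | h
      · exact h.1.2 k hz'
      · exact hC.ne hjk h hz'
    have xB : x ∈ B := mem_clu_self hx'
    have yW : y ∈ W := mem_clu_self hy'
    have xW : x ∉ W := fun h => Set.disjoint_left.1 hd xB h
    have yB : y ∉ B := fun h => Set.disjoint_left.1 hd h yW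
    have dxy : x ≠ y := fun h => xW (h ▸ yW)
    have dxz : x ≠ z := fun h => zB (h ▸ xB)
    have dyz : y ≠ z := fun h => zW (h ▸ yW)
    simp only [Vt] at hx hy hz
    rcases hx with rfl | rfl | rfl <;> rcases hy with rfl | rfl | rfl <;>
      rcases hz with rfl | rfl | rfl <;>
      first
      | exact absurd rfl dxy
      | exact absurd rfl dxz
      | exact absurd rfl dyz
      | (unfold nbw fbw
         simp [xB, xW, yB, yW, zB, zW])
  have h2 : ∑ t ∈ R, nbw B W t = 1 := by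
    have e1 := rotn (a, b, c)
    have e2 := rotn (b, c, a)
    simp only at e1 e2
    rw [hR, Finset.sum_insert, Finset.sum_insert, Finset.sum_singleton, e2, e1, n1]
    · decide
    · simp only [Finset.mem_singleton, Prod.mk.injEq, not_and]
      intro h; exact absurd h hne.2.1
    · simp only [Finset.mem_insert, Finset.mem_singleton, Prod.mk.injEq, not_or, not_and]
      exact ⟨fun h => absurd h hne.1, fun h => absurd h.symm hne.2.2⟩
  have h3 : ∑ t ∈ delT S \ R, nbw B W t = 1 := by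
    have h4 := Finset.sum_sdiff (f := nbw B W) hRsub
    rw [h2, h1] at h4
    generalize ∑ t ∈ delT S \ R, nbw B W t = x at h4
    revert x
    decide
  obtain ⟨t, ht, hn⟩ : ∃ t ∈ delT S \ R, nbw B W t ≠ 0 := by
    by_contra hcon
    push Not at hcon
    rw [Finset.sum_eq_zero hcon] at h3
    exact absurd h3 (by decide)
  rw [Finset.mem_sdiff] at ht
  obtain ⟨b', v', u', h, hr⟩ := hit_of_nbw hC hij hik hjk ht.1 hn
  have nr : t ∉ rots (a, b, c) := fun h => ht.2 ((hRm t).2 h)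
  have hpos : ¬ ((b', v', u') ∈ delT S ∧ (v', b', u') ∈ delT S) := by
    rintro ⟨h1, h2⟩
    obtain ⟨o1, T1⟩ := mem_delT_iff.1 h1
    obtain ⟨o2, T2⟩ := mem_delT_iff.1 h2
    have p1 := T1.pos
    have p2 := T2.pos
    rw [cr_sub] at p1 p2
    nlinarith
  refine ⟨b', v', u', h, ?_⟩
  rcases hr with hr | hr
  · have d1 := rots_del ht.1 hr
    refine ⟨fun h' => nr ?_, fun h' => hpos ⟨d1, rots_del ho h'⟩⟩
    exact rots_trans h' hr
  · have d1 := rots_del ht.1 hr
    refine ⟨fun h' => hpos ⟨rots_del ho h', d1⟩, fun h' => nr ?_⟩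
    exact rots_trans h' hr

/-- **root instance** -/
theorem fam_root (S : Finset ℂ) (o : ℂ × ℂ × ℂ) (m : ZMod 3) : Fam S (TrR S o m) (rots o) where
  cls A h := h.toCls
  up A C h h1 h2 := h.up h1 h2
  ktt A h t t' n n' h1 h2 := k3tt h.toCls h.root n n' h1 h2
  ktx A h t X n h1 := k3tx h.toCls h.root n h1
  kxx A h X Y h1 h2 := k3xx h.toCls h.root h1 h2
  hite A h i j k hij hik hjk T := hiteR h hij hik hjk T

end inst

end Crest.Agent.R143.K33x877
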