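import Crest.Agent.R143.GateK_421
import Crest.Agent.R143.ContT_571
import Crest.Agent.R143.K33R_877
import Crest.Agent.R143.Cont5_920

/-!
# Row 143 (S0194), CONT (3308, 3434): the deterministic assembly (helper421)

* `famG` : 877's `Fam` gives `FamG` of `GateK_421`
* `side` : one side of the alternative
* `det` : the ends `y` (classes `A`) and `u` (bigger classes `A'`) of the interface for the same
  colours are close, or there is one of eight arms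
* `det_lit` : 920's literal `DET`
-/

set_option autoImplicit false

noncomputable section

open scoped Classical

namespace Crest.Agent.R143.Detx421

open Set
open Crest.Agent.R143.B0x346 Crest.Agent.R143.DelGx806 Crest.Agent.R143.DelRx806
  Crest.Agent.R143.JColx54 Crest.Agent.R143.RE0x723
open Crest.Agent.R143.K33x877 (Clu Hit fr CtrT CtrX Fam Cls)
open Crest.Agent.R143.GateKx421
open Crest.Agent.R143.ContTx571 (z3 clu_sub mem_clu tri_bz tri_bw trich_gen fresh_gen)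
open Crest.Agent.R143.RB2x54 (Vt)
open Crest.Agent.R143.Cont2x920 (bdy bdy_sub Jw mem_Jw bdw bdw_eq)
open Crest.Agent.R143.Cont3x920 (LArms DET hit_flip)
open Crest.Agent.R143.Cont4x920 (av4 cv4)
open Crest.Agent.R143.Freshx920 (WArm)
open Crest.Agent.R143.D3Fx802 (CArm)
open Crest.Agent.R143.Lawx872 (ConnIn)

variable {S : Finset ℂ} {A A' C : ZMod 3 → Set ℂ} {i j k : ZMod 3} {P : (ZMod 3 → Set ℂ) → Prop}
  {O : Set (ℂ × ℂ × ℂ)} {T : Set ℂ} {b v u b' v' u' x y : ℂ}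

theorem famG (F : Fam S P O) : FamG S P where
  sub A h := (F.cls A h).sub
  disj A h := (F.cls A h).disj
  con A h := (F.cls A h).con
  up A C h h1 h2 h3 h4 := F.up A C h h1 ⟨(F.cls A h).gp, h2, h3, h4⟩
  kxx := F.kxx

/-- three classes -/
def c3 (i j : ZMod 3) (X Y Z : Set ℂ) (l : ZMod 3) : Set ℂ := if l = i then X else if l = j then Y else Z

theorem c3_i {X Y Z : Set ℂ} : c3 i j X Y Z i = X := if_pos rfl

theorem c3_j (hij : i ≠ j) {X Y Z : Set ℂ} : c3 i j X Y Z j = Y := by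
  unfold c3
  rw [if_neg hij.symm, if_pos rfl]

theorem c3_k (hik : i ≠ k) (hjk : j ≠ k) {X Y Z : Set ℂ} : c3 i j X Y Z k = Z := by
  unfold c3
  rw [if_neg hik.symm, if_neg hjk.symm]

/-- enlargement of the three classes -/
theorem up3 (F : FamG S P) (hA : P A) (hij : i ≠ j) (hik : i ≠ k) (hjk : j ≠ k) {X Y Z : Set ℂ}
    (hX : A i ⊆ X) (hY : A j ⊆ Y) (hZ : A k ⊆ Z) (sX : X ⊆ (S : Set ℂ)) (sY : Y ⊆ (S : Set ℂ))
    (sZ : Z ⊆ (S : Set ℂ)) (dXY : Disjoint X Y) (dXZ : Disjoint X Z) (dYZ : Disjoint Y Z)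
    (cX : ∀ x ∈ X, ∀ y ∈ X, Pth S X x y) (cY : ∀ x ∈ Y, ∀ y ∈ Y, Pth S Y x y)
    (cZ : ∀ x ∈ Z, ∀ y ∈ Z, Pth S Z x y) : P (c3 i j X Y Z) := by
  have h3 := z3 i j k hij hik hjk
  refine F.up A _ hA (fun l => ?_) (fun l => ?_) (fun l m hlm => ?_) (fun l => ?_)
  · rcases h3 l with rfl | rfl | rfl
    · rwa [c3_i]
    · rwa [c3_j hij]
    · rwa [c3_k hik hjk]
  · rcases h3 l with rfl | rfl | rfl
    · rwa [c3_i]
    · rwa [c3_j hij]
    · rwa [c3_k hik hjk]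
  · rcases h3 l with rfl | rfl | rfl <;> rcases h3 m with rfl | rfl | rfl
    · exact absurd rfl hlm
    · rwa [c3_i, c3_j hij]
    · rwa [c3_i, c3_k hik hjk]
    · rw [c3_i, c3_j hij]; exact dXY.symm
    · exact absurd rfl hlm
    · rwa [c3_j hij, c3_k hik hjk]
    · rw [c3_i, c3_k hik hjk]; exact dXZ.symm
    · rw [c3_j hij, c3_k hik hjk]; exact dYZ.symm
    · exact absurd rfl hlm
  · rcases h3 l with rfl | rfl | rfl
    · rwa [c3_i]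
    · rwa [c3_j hij]
    · rwa [c3_k hik hjk]

/-- one vertex in every class -/
theorem vt_eq (hd : ∀ l m, l ≠ m → Disjoint (C l) (C m)) (hij : i ≠ j) (hik : i ≠ k)
    (hjk : j ≠ k) (hb : b ∈ C i) (hv : v ∈ C j) (hu : u ∈ C k) (hb' : b' ∈ C i) (hv' : v' ∈ C j)
    (hu' : u' ∈ C k) {t : ℂ × ℂ × ℂ} (e1 : Vt t b) (e2 : Vt t v) (e3 : Vt t u) (e1' : Vt t b')
    (e2' : Vt t v') (e3' : Vt t u') : b' = b ∧ v' = v ∧ u' = u := by
  have nb : b ≠ v := fun h => Set.disjoint_left.1 (hd _ _ hij) hb (h ▸ hv)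
  have nu : b ≠ u := fun h => Set.disjoint_left.1 (hd _ _ hik) hb (h ▸ hu)
  have nv : v ≠ u := fun h => Set.disjoint_left.1 (hd _ _ hjk) hv (h ▸ hu)
  -- the vertices of `t` are `b, v, u`
  have key : ∀ w, Vt t w → w = b ∨ w = v ∨ w = u := by
    intro w hw
    unfold Vt at *
    rcases e1 with e1 | e1 | e1 <;> rcases e2 with e2 | e2 | e2 <;> rcases e3 with e3 | e3 | e3 <;>
      rcases hw with hw | hw | hw <;> rw [hw] <;>
      first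
        | exact Or.inl e1.symm
        | exact Or.inr (Or.inl e2.symm)
        | exact Or.inr (Or.inr e3.symm)
        | exact absurd (e1.trans e2.symm) nb
        | exact absurd (e1.trans e3.symm) nu
        | exact absurd (e2.trans e3.symm) nv
  refine ⟨?_, ?_, ?_⟩
  · rcases key b' e1' with h | h | h
    · exact h
    · exact absurd (h ▸ hv : b' ∈ C j) (Set.disjoint_left.1 (hd _ _ hij) hb')
    · exact absurd (h ▸ hu : b' ∈ C k) (Set.disjoint_left.1 (hd _ _ hik) hb')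
  · rcases key v' e2' with h | h | h
    · exact absurd (h ▸ hb : v' ∈ C i) (Set.disjoint_left.1 (hd _ _ hij.symm) hv')
    · exact h
    · exact absurd (h ▸ hu : v' ∈ C k) (Set.disjoint_left.1 (hd _ _ hjk) hv')
  · rcases key u' e3' with h | h | h
    · exact absurd (h ▸ hb : u' ∈ C i) (Set.disjoint_left.1 (hd _ _ hik.symm) hu')
    · exact absurd (h ▸ hv : u' ∈ C j) (Set.disjoint_left.1 (hd _ _ hjk.symm) hu')
    · exact h

theorem vt_rots' {t t' : ℂ × ℂ × ℂ} (h : t' ∈ rots t) {v : ℂ} (hv : Vt t v) : Vt t' v :=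
  Crest.Agent.R143.ContTx571.vt_rots h hv

theorem ctr_off (hij : i ≠ j) (hik : i ≠ k) (hjk : j ≠ k) (hb : b ∈ C i)
    (hv : v ∈ C j) (hu : u ∈ C k) (ht : (b, v, u) ∈ delT S ∨ (v, b, u) ∈ delT S)
    (off : (b, v, u) ∉ O ∧ (v, b, u) ∉ O) :
    ∃ t, t ∉ O ∧ CtrT S C t ∧ Vt t b ∧ Vt t v ∧ Vt t u := by
  have hz := z3 i j k hij hik hjk
  rcases ht with h | h
  · refine ⟨(b, v, u), off.1, ⟨h, fun l => ?_⟩, Or.inl rfl, Or.inr (Or.inl rfl),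
      Or.inr (Or.inr rfl)⟩
    rcases hz l with rfl | rfl | rfl
    · exact ⟨b, Or.inl rfl, hb⟩
    · exact ⟨v, Or.inr (Or.inl rfl), hv⟩
    · exact ⟨u, Or.inr (Or.inr rfl), hu⟩
  · refine ⟨(v, b, u), off.2, ⟨h, fun l => ?_⟩, Or.inr (Or.inl rfl), Or.inl rfl,
      Or.inr (Or.inr rfl)⟩
    rcases hz l with rfl | rfl | rfl
    · exact ⟨b, Or.inr (Or.inl rfl), hb⟩
    · exact ⟨v, Or.inl rfl, hv⟩
    · exact ⟨u, Or.inr (Or.inr rfl), hu⟩

/-- two triangles with a vertex in every class are equal -/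
theorem same (F : Fam S P O) (hC : P C) (hij : i ≠ j) (hik : i ≠ k)
    (hjk : j ≠ k) (hb : b ∈ C i) (hv : v ∈ C j) (hu : u ∈ C k) (hb' : b' ∈ C i) (hv' : v' ∈ C j)
    (hu' : u' ∈ C k) (ht : (b, v, u) ∈ delT S ∨ (v, b, u) ∈ delT S)
    (ht' : (b', v', u') ∈ delT S ∨ (v', b', u') ∈ delT S)
    (off : (b, v, u) ∉ O ∧ (v, b, u) ∉ O) (off' : (b', v', u') ∉ O ∧ (v', b', u') ∉ O) :
    b' = b ∧ v' = v ∧ u' = u := by
  obtain ⟨t, h0, h1, q1, q2, q3⟩ := ctr_off hij hik hjk hb hv hu ht off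
  obtain ⟨t', h0', h1', q1', q2', q3'⟩ := ctr_off hij hik hjk hb' hv' hu' ht' off'
  have h2 := F.ktt C hC t' t h0' h0 h1' h1
  exact vt_eq (F.cls C hC).disj hij hik hjk hb hv hu hb' hv' hu' q1 q2 q3
    (vt_rots' h2 q1') (vt_rots' h2 q2') (vt_rots' h2 q3')

/-! ### barriers -/

/-- barrier from `x` to `A i` -/
structure Bar (S : Finset ℂ) (A A' : ZMod 3 → Set ℂ) (i : ZMod 3) (d : ℝ) (x : ℂ) (σ : Set ℂ) :
    Prop where
  sub : σ ⊆ A' i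
  fr : σ ⊆ fr S A
  con : ∀ a ∈ σ, ∀ b ∈ σ, Pth S σ a b
  dist : ∀ a ∈ σ, ‖a - x‖ ≤ d
  alt : (x ∈ A i ∧ σ = ∅) ∨ (x ∈ σ ∧ ∃ a ∈ σ, ∃ b ∈ A i, Adj S a b)

theorem bar_exists (F : FamG S P) (hA' : P A') (hs : ∀ i, A i ⊆ A' i) {d : ℝ}
    (hthin : Thin S A A' i d) {x : ℂ} (hx : x ∈ A' i) (hw : ∃ w ∈ fr S A', Adj S x w) :
    ∃ σ, Bar S A A' i d x σ := by
  by_cases h : x ∈ A i
  · exact ⟨∅, fun _ h => absurd h (Set.notMem_empty _), fun _ h => absurd h (Set.notMem_empty _),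
      fun _ h => absurd h (Set.notMem_empty _), fun _ h => absurd h (Set.notMem_empty _),
      Or.inl ⟨h, rfl⟩⟩
  · obtain ⟨σ, h1, h2, h3, h4, h5, h6⟩ := barrier F hA' hs hthin hx h hw
    exact ⟨σ, h1, h2, h4, h5, Or.inr ⟨h3, h6⟩⟩

theorem Bar.mem {d : ℝ} {x : ℂ} {σ : Set ℂ} (h : Bar S A A' i d x σ) : x ∈ A i ∪ σ := by
  rcases h.alt with h | h
  · exact Or.inl h.1
  · exact Or.inr h.1

theorem Bar.of_mem {d : ℝ} {x z : ℂ} {σ : Set ℂ} (h : Bar S A A' i d x σ) (hz : z ∈ σ) :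
    x ∈ σ ∧ ∃ a ∈ σ, ∃ b ∈ A i, Adj S a b := by
  rcases h.alt with h | h
  · rw [h.2] at hz
    exact absurd hz (Set.notMem_empty _)
  · exact h

theorem con_union {U V : Set ℂ} (hU : ∀ x ∈ U, ∀ y ∈ U, Pth S U x y)
    (hV : ∀ x ∈ V, ∀ y ∈ V, Pth S V x y) (h : V.Nonempty → ∃ a ∈ U, ∃ b ∈ V, Adj S a b) :
    ∀ x ∈ U ∪ V, ∀ y ∈ U ∪ V, Pth S (U ∪ V) x y := by
  have s1 : U ⊆ U ∪ V := subset_union_left
  have s2 : V ⊆ U ∪ V := subset_union_right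
  have key : ∀ x ∈ U, ∀ y ∈ V, Pth S (U ∪ V) x y := by
    intro x hx y hy
    obtain ⟨a, ha, b, hb, hab⟩ := h ⟨y, hy⟩
    exact (((hU x hx a ha).mono s1).tail hab (Or.inr hb)).trans ((hV b hb y hy).mono s2)
  rintro x (hx | hx) y (hy | hy)
  · exact (hU x hx y hy).mono s1
  · exact key x hx y hy
  · exact (key y hy x hx).symm
  · exact (hV x hx y hy).mono s2

theorem Bar.con' {d : ℝ} {x : ℂ} {σ : Set ℂ} (h : Bar S A A' i d x σ)
    (hc : ∀ x ∈ A i, ∀ y ∈ A i, Pth S (A i) x y) :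
    ∀ x ∈ A i ∪ σ, ∀ y ∈ A i ∪ σ, Pth S (A i ∪ σ) x y := by
  refine con_union hc h.con ?_
  rintro ⟨z, hz⟩
  obtain ⟨-, a, ha, b, hb, hab⟩ := h.of_mem hz
  exact ⟨b, hb, a, ha, hab.symm⟩

/-- the chain of the hit in the boundary `K` of the cluster -/
def Kc (S : Finset ℂ) (K : Set ℂ) (b : ℂ) : Set ℂ := {w | Pth S K w b}

theorem kc_sub {K : Set ℂ} : Kc S K b ⊆ K := fun _ h => h.1

theorem kc_con {K : Set ℂ} : ∀ x ∈ Kc S K b, ∀ y ∈ Kc S K b, Pth S (Kc S K b) x y := by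
  have key : ∀ x ∈ Kc S K b, Pth S (Kc S K b) x b := by
    intro x hx
    refine (Pth.self hx).mono ?_
    rintro w ⟨-, h⟩
    exact h
  intro x hx y hy
  exact (key x hx).trans (key y hy).symm

/-- the foot of the chain -/
def Foot (S : Finset ℂ) (A' : ZMod 3 → Set ℂ) (i : ZMod 3) (K : Set ℂ) (x b : ℂ) : Prop :=
  x ∈ A' i ∧ (b = x ∨ ∃ k1 ∈ K, Adj S x k1 ∧ Pth S K k1 b)

theorem foot_of {K : Set ℂ} {x : ℂ} (hx : x ∈ A' i) (h : Pth S (K ∪ {x}) x b) :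
    Foot S A' i K x b := by
  obtain ⟨s', hs', h1⟩ := last_visit (W := K) (B := {x}) (Set.mem_singleton x) h
  rw [Set.mem_singleton_iff] at hs'
  subst hs'
  exact ⟨hx, h1⟩

/-- the barrier with the chain -/
def Ci (S : Finset ℂ) (A : ZMod 3 → Set ℂ) (i : ZMod 3) (K σ : Set ℂ) (b : ℂ) : Set ℂ :=
  (A i ∪ σ) ∪ Kc S K b

theorem ci_con {K σ : Set ℂ} {x : ℂ} {d : ℝ} (hK : K ⊆ fr S A')
    (hc : ∀ x ∈ A i, ∀ y ∈ A i, Pth S (A i) x y)
    (hσ : Bar S A A' i d x σ) (hf : Foot S A' i K x b) :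
    ∀ x ∈ Ci S A i K σ b, ∀ y ∈ Ci S A i K σ b, Pth S (Ci S A i K σ b) x y := by
  refine con_union (hσ.con' hc) kc_con ?_
  rintro ⟨z, hz⟩
  have hb : b ∈ fr S A' := hK (Pth.snd hz)
  rcases hf with ⟨h1, rfl | ⟨k1, h2, h3, h4⟩⟩
  · exact absurd h1 (hb.2 i)
  · exact ⟨x, hσ.mem, k1, h4, h3⟩

theorem ci_mem {K σ : Set ℂ} {x : ℂ} {d : ℝ} (hσ : Bar S A A' i d x σ)
    (hf : Foot S A' i K x b) : b ∈ Ci S A i K σ b := by
  rcases hf with ⟨-, rfl | ⟨k1, h2, h3, h4⟩⟩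
  · exact Or.inl hσ.mem
  · exact Or.inr (Pth.refl h4.snd)

theorem ci_sub (hs : ∀ i, A i ⊆ A' i) {K σ : Set ℂ} {x : ℂ} {d : ℝ} (hK : K ⊆ fr S A' ∩ T)
    (hσ : Bar S A A' i d x σ) : Ci S A i K σ b ⊆ A' i ∪ (fr S A' ∩ T) := by
  rintro w ((h | h) | h)
  · exact Or.inl (hs i h)
  · exact Or.inl (hσ.sub h)
  · exact Or.inr (hK (kc_sub h))

/-! ### one side -/

/-- white free sites of the big domain off the white cluster of the small one -/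
def Es (S : Finset ℂ) (A A' : ZMod 3 → Set ℂ) (j : ZMod 3) (T : Set ℂ) : Set ℂ :=
  {v | v ∈ fr S A ∧ v ∉ T ∧ v ∉ Clu S (fr S A' \ T) (A' j)}

/-- the four arms -/
def Arms4 (S : Finset ℂ) (A A' : ZMod 3 → Set ℂ) (j : ZMod 3) (T : Set ℂ) (p0 x u : ℂ)
    (d m r1 r2 η : ℝ) : Prop :=
  Arm S (Es S A A' j T) u (d + m) (η - m) ∨ Arm S (Es S A A' j T) x d r1 ∨
    Arm S (fr S A' \ T) p0 (2 * r1 + d + m) (r2 - 2 * m) ∨
    Arm S (fr S A' ∩ T) p0 (r2 + m) (η - r1 - r2 - 2 * m)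

theorem arm_mono {V W : Set ℂ} {p : ℂ} {r r' R R' : ℝ} (hV : V ⊆ W) (hr : r ≤ r') (hR : R' ≤ R)
    (h : Arm S V p r R) : Arm S W p r' R' := by
  obtain ⟨a, b, h1, h2, h3⟩ := h
  exact ⟨a, b, h1.mono hV, h2.trans hr, hR.trans h3⟩

/-- property of the deterministic gate -/
def GateP (S : Finset ℂ) (A A' : ZMod 3 → Set ℂ) (i j k : ZMod 3) (d m r1 r2 : ℝ) (p0 : ℂ) :
    Prop :=
  ∀ (W B E σ : Set ℂ) (x k1 q kk u z v1 y : ℂ), W ⊆ fr S A' → B ⊆ fr S A' →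
      E ⊆ fr S A → σ ⊆ fr S A → (∀ a ∈ σ, ∀ b ∈ σ, Pth S σ a b) → (∀ a ∈ σ, ‖a - x‖ ≤ d) →
      (∃ a ∈ σ, ∃ b ∈ A i, Adj S a b) → x ∈ σ → z ∈ σ → Pth S E z v1 → Adj S v1 y → y ∈ A k →
      Adj S x k1 → Adj S k1 q → q ∈ Clu S W (A' j) → Pth S B k1 kk → Adj S kk u →
      (∃ v, Pth S E z v ∧ r1 < ‖v - x‖) ∨
        Arm S W p0 (2 * r1 + d + m) (r2 - 2 * m) ∨ Arm S B p0 (r2 + m) (‖u - x‖ - r2 - m)

/-- **one side**: the white chain from `A j` to `v1` is stopped by the barriers -/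
theorem side (F : FamG S P) (hA' : P A') (hs : ∀ i, A i ⊆ A' i) (hij : i ≠ j) (hik : i ≠ k)
    (hjk : j ≠ k) {d m r1 r2 η : ℝ} (hm0 : 0 ≤ m)
    (hm : ∀ a ∈ fr S A, ∀ b, Adj S a b → ‖a - b‖ ≤ m) {p0 : ℂ}
    (hp : GateP S A A' i j k d m r1 r2 p0) {x v1 : ℂ} {σ σu : Set ℂ}
    (hσ : Bar S A A' i d x σ) (hf : Foot S A' i (bdy S (fr S A') (A' j) T) x b')
    (hσu : Bar S A A' k d u σu) (hbu : Adj S b' u) (hv1 : v1 ∈ Clu S (fr S A \ T) (A j))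
    (hn : v1 ∉ Clu S (fr S A \ (Ci S A i (bdy S (fr S A') (A' j) T) σ b' ∪ (A k ∪ σu)))
      (A j)) (hy : y ∈ A k) (hvy : Adj S v1 y) (hyu : η < ‖y - u‖) :
    Arms4 S A A' j T p0 x u d m r1 r2 η := by
  set K : Set ℂ := bdy S (fr S A') (A' j) T with hK
  have hKs : K ⊆ fr S A' ∩ T := bdy_sub
  have cK : (A k ∪ σu : Set ℂ) ⊆ A' k := union_subset (hs k) hσu.sub
  set C : ZMod 3 → Set ℂ := c3 i j (Ci S A i K σ b') (A j) (A k ∪ σu) with hC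
  have eI : C i = Ci S A i K σ b' := c3_i
  have eK : C k = A k ∪ σu := c3_k hik hjk
  obtain ⟨z, z1, z2, z3', z4, z5⟩ := fresh_gen (S := S) (A := A) (A' := A') (C := C) (T := T)
    (F.sub A' hA') hs (F.disj A' hA') (F.con A' hA' j) hij hik hjk
    (by rw [eI]; exact ci_sub hs hKs hσ) (by rw [eK]; exact cK) hv1 (by rw [eI, eK]; exact hn)
  have hEs : ({v | v ∈ fr S A ∧ v ∉ T ∧ v ∉ Clu S (fr S A' \ T) (A' j)} : Set ℂ) =
      Es S A A' j T := rfl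
  rw [hEs] at z5
  have hEf : Es S A A' j T ⊆ fr S A := fun _ h => h.1
  have hv1f : v1 ∈ fr S A := hEf z5.snd
  have hv1y : ‖v1 - y‖ ≤ m := hm v1 hv1f y hvy
  have far : ∀ w : ℂ, η - m - ‖w - u‖ ≤ ‖v1 - w‖ := by
    intro w
    have e1 : ‖y - u‖ ≤ ‖y - v1‖ + ‖v1 - w‖ + ‖w - u‖ := by
      calc ‖y - u‖ = ‖(y - v1) + (v1 - w) + (w - u)‖ := by ring_nf
        _ ≤ ‖(y - v1) + (v1 - w)‖ + ‖w - u‖ := norm_add_le _ _
        _ ≤ ‖y - v1‖ + ‖v1 - w‖ + ‖w - u‖ := by gcongr; exact norm_add_le _ _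
    rw [norm_sub_rev y v1] at e1
    linarith
  rw [eI, eK] at z1
  rcases z1 with ((z1 | z1) | z1) | z1 | z1
  · exact absurd z1 (z3'.2 i)
  · -- `z` in the barrier at `x`
    obtain ⟨hx, hadj⟩ := hσ.of_mem z1
    have hxf := hσ.fr hx
    rcases hf with ⟨hxi, rfl | ⟨k1, h2, h3, h4⟩⟩
    · left
      have e1 : ‖b' - u‖ ≤ m := hm b' hxf u hbu
      refine ⟨z, v1, z5, ?_, ?_⟩
      · have := hσ.dist z z1
        have e2 : ‖z - u‖ ≤ ‖z - b'‖ + ‖b' - u‖ := norm_sub_le_norm_sub_add_norm_sub _ _ _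
        linarith
      · have := far u
        rw [sub_self, norm_zero] at this
        linarith
    · right
      by_cases hfar : ∃ v, Pth S (Es S A A' j T) z v ∧ r1 < ‖v - x‖
      · left
        obtain ⟨w, w1, w2⟩ := hfar
        exact ⟨z, w, w1, hσ.dist z z1, w2.le⟩
      · right
        have hv1x : ‖v1 - x‖ ≤ r1 := by
          by_contra hc
          exact hfar ⟨v1, z5, not_le.1 hc⟩
        obtain ⟨q, hq, hkq⟩ := h2.2.2
        rcases hp (fr S A' \ T) (fr S A' ∩ T) (Es S A A' j T) σ x k1 q b' u z v1 y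
          sdiff_subset inter_subset_left hEf hσ.fr hσ.con hσ.dist hadj hx z1 z5 hvy hy h3
          hkq.symm hq (h4.mono hKs) hbu with g | g | g
        · exact absurd g hfar
        · exact Or.inl g
        · right
          refine arm_mono subset_rfl le_rfl ?_ g
          have e1 := far x
          rw [norm_sub_rev u x]
          linarith
  · exact absurd (hKs (kc_sub z1)).2 z4
  · exact absurd z1 (z3'.2 k)
  · -- `z` in the barrier at `u`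
    left
    refine ⟨z, v1, z5, ?_, ?_⟩
    · have := hσu.dist z z1
      linarith
    · have := far u
      rw [sub_self, norm_zero] at this
      linarith

/-- a vertex of the hit is free -/
theorem free_vertex (F : Fam S P O) (hA' : P A') (vis : ∃ X, CtrX S A' X) (hij : i ≠ j)
    (hik : i ≠ k) (hjk : j ≠ k) (h : Hit S A' i j k T b v u)
    (off : (b, v, u) ∉ O ∧ (v, b, u) ∉ O) : b ∈ fr S A' ∨ v ∈ fr S A' := by
  by_contra hc
  push Not at hc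
  have hb : b ∈ A' i := by
    rcases clu_sub h.hb with h1 | h1
    · exact absurd h1.1 hc.1
    · exact h1
  have hv : v ∈ A' j := by
    rcases clu_sub h.hv with h1 | h1
    · exact absurd h1.1 hc.2
    · exact h1
  obtain ⟨t, h0, h1, -⟩ := ctr_off hij hik hjk hb hv h.hu h.tri off
  obtain ⟨X, hX⟩ := vis
  exact F.ktx A' hA' t X h0 h1 hX

/-- the foot is next to a free site -/
theorem foot_nb (h : Hit S A' i j k T b v u) (hf : Foot S A' i (bdy S (fr S A') (A' j) T) x b)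
    (hbv : b ∈ fr S A' ∨ v ∈ fr S A') : ∃ w ∈ fr S A', Adj S x w := by
  rcases hf with ⟨h1, rfl | ⟨k1, h2, h3, h4⟩⟩
  · rcases hbv with h5 | h5
    · exact absurd h1 (h5.2 i)
    · exact ⟨v, h5, tri_bw h.tri⟩
  · exact ⟨k1, (bdy_sub h2).1, h3⟩

theorem end_nb (hS : GP (S : Set ℂ)) (h : Hit S A' i j k T b v u)
    (hbv : b ∈ fr S A' ∨ v ∈ fr S A') : ∃ w ∈ fr S A', Adj S u w := by
  rcases hbv with h5 | h5
  · exact ⟨b, h5, (tri_bz hS h.tri).symm⟩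
  · exact ⟨v, h5, (tri_bz hS (Or.symm h.tri)).symm⟩

/-- **CONT, deterministic part** -/
theorem det (F : Fam S P O) (hA : P A) (hA' : P A') (hs : ∀ i, A i ⊆ A' i)
    (vis : ∃ X, CtrX S A' X) (hij : i ≠ j)
    (hik : i ≠ k) (hjk : j ≠ k) {d m r1 r2 η : ℝ} (hd : 0 ≤ d) (hm0 : 0 ≤ m) (hd1 : d ≤ r1)
    (hr2 : 4 * r1 + d + 2 * m < r2) (hη : 0 ≤ η)
    (hm : ∀ a ∈ fr S A, ∀ b, Adj S a b → ‖a - b‖ ≤ m) (ht : ∀ l, Thin S A A' l d) (z0 : ℂ) :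
    ∃ p0 p0' : ℂ, (p0 = z0 ∨ p0 ∈ fr S A) ∧ (p0' = z0 ∨ p0' ∈ fr S A) ∧
      ∀ (T T' : Set ℂ) (b1 v1 y b v u x x' : ℂ),
      (∀ w ∈ fr S A, (w ∈ T' ↔ w ∉ T)) →
      Hit S A i j k T b1 v1 y → ((b1, v1, y) ∉ O ∧ (v1, b1, y) ∉ O) →
      Hit S A' i j k T b v u → ((b, v, u) ∉ O ∧ (v, b, u) ∉ O) → η < ‖y - u‖ →
      Foot S A' i (bdy S (fr S A') (A' j) T) x b →
      Foot S A' j (bdy S (fr S A') (A' i) T') x' v →
      (∃ w ∈ fr S A', Adj S u w) ∧ (∃ w ∈ fr S A', Adj S x w) ∧ (∃ w ∈ fr S A', Adj S x' w) ∧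
      (Arms4 S A A' j T p0 x u d m r1 r2 η ∨ Arms4 S A A' i T' p0' x' u d m r1 r2 η) := by
  have hS : GP (S : Set ℂ) := (F.cls A hA).gp
  have G := famG F
  obtain ⟨p0, hp, hp0⟩ := gate_main G hA hA' hs hij hjk hik (r1 := r1) (r2 := r2) hd hd1 hr2 hm
    (ht j) z0
  obtain ⟨p0', hp', hp0'⟩ := gate_main G hA hA' hs hij.symm hik hjk (r1 := r1) (r2 := r2) hd hd1
    hr2 hm (ht i) z0
  refine ⟨p0, p0', hp, hp', fun T T' b1 v1 y b v u x x' hTT h off h' off' hyu h2 h2' => ?_⟩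
  have hTT' : ∀ w ∈ fr S A', (w ∈ T' ↔ w ∉ T) := fun w hw => hTT w (fr_mono hs hw)
  have hsw : Hit S A' j i k T' v b u := by
    refine Crest.Agent.R143.Cont3x920.hit_congr (fun w hw => ?_)
      (Crest.Agent.R143.Cont3x920.hit_symm h')
    exact (hTT' w hw).symm
  have hswA : Hit S A j i k T' v1 b1 y := by
    refine Crest.Agent.R143.Cont3x920.hit_congr (fun w hw => ?_)
      (Crest.Agent.R143.Cont3x920.hit_symm h)
    exact (hTT w hw).symm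
  have hbv := free_vertex F hA' vis hij hik hjk h' off'
  have nu := end_nb hS h' hbv
  have nx := foot_nb h' h2 hbv
  have nx' := foot_nb hsw h2' hbv.symm
  refine ⟨nu, nx, nx', ?_⟩
  have tri' := h'.tri
  obtain ⟨σ, hσ⟩ := bar_exists G hA' hs (ht i) h2.1 nx
  obtain ⟨σ', hσ'⟩ := bar_exists G hA' hs (ht j) h2'.1 nx'
  obtain ⟨σu, hσu⟩ := bar_exists G hA' hs (ht k) h'.hu nu
  set K : Set ℂ := bdy S (fr S A') (A' j) T with hKd
  set K' : Set ℂ := bdy S (fr S A') (A' i) T' with hKd'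
  have hK : K ⊆ fr S A' ∩ T := bdy_sub
  have hK' : K' ⊆ fr S A' ∩ T' := bdy_sub
  have sI : Ci S A i K σ b ⊆ A' i ∪ (fr S A' ∩ T) := ci_sub hs hK hσ
  have sJ : Ci S A j K' σ' v ⊆ A' j ∪ (fr S A' ∩ T') := ci_sub hs hK' hσ'
  have sK : (A k ∪ σu : Set ℂ) ⊆ A' k := union_subset (hs k) hσu.sub
  have dj : ∀ {l m : ZMod 3}, l ≠ m → ∀ {w}, w ∈ A' l → w ∉ A' m := fun e w hw =>
    Set.disjoint_left.1 (G.disj A' hA' _ _ e) hw
  have hSu : ∀ {l : ZMod 3} {V : Set ℂ}, A' l ∪ (fr S A' ∩ V) ⊆ (S : Set ℂ) := by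
    intro l V
    exact union_subset (G.sub A' hA' l) fun w hw => hw.1.1
  have hC : P (c3 i j (Ci S A i K σ b) (Ci S A j K' σ' v) (A k ∪ σu)) := by
    refine up3 G hA hij hik hjk (fun _ hw => Or.inl (Or.inl hw))
      (fun _ hw => Or.inl (Or.inl hw)) subset_union_left (sI.trans hSu) (sJ.trans hSu)
      (sK.trans (G.sub A' hA' k)) ?_ ?_ ?_
      (ci_con (hK.trans inter_subset_left) (G.con A hA i) hσ h2)
      (ci_con (hK'.trans inter_subset_left) (G.con A hA j) hσ' h2')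
      (hσu.con' (G.con A hA k))
    · refine Set.disjoint_left.2 fun w w1 w2 => ?_
      rcases sI w1 with w1 | w1 <;> rcases sJ w2 with w2 | w2
      · exact dj hij w1 w2
      · exact w2.1.2 i w1
      · exact w1.1.2 j w2
      · exact (hTT' w w2.1).1 w2.2 w1.2
    · refine Set.disjoint_left.2 fun w w1 w2 => ?_
      rcases sI w1 with w1 | w1
      · exact dj hik w1 (sK w2)
      · exact w1.1.2 k (sK w2)
    · refine Set.disjoint_left.2 fun w w1 w2 => ?_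
      rcases sJ w1 with w1 | w1
      · exact dj hjk w1 (sK w2)
      · exact w1.1.2 k (sK w2)
  set C : ZMod 3 → Set ℂ := c3 i j (Ci S A i K σ b) (Ci S A j K' σ' v) (A k ∪ σu) with hCd
  have eI : C i = Ci S A i K σ b := c3_i
  have eJ : C j = Ci S A j K' σ' v := c3_j hij
  have eK : C k = A k ∪ σu := c3_k hik hjk
  have mb : b ∈ C i := by rw [eI]; exact ci_mem hσ h2
  have mv : v ∈ C j := by rw [eJ]; exact ci_mem hσ' h2'
  have mu : u ∈ C k := by rw [eK]; exact hσu.mem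
  have hAC : ∀ l, A l ⊆ C l := by
    intro l
    rcases z3 i j k hij hik hjk l with rfl | rfl | rfl
    · rw [eI]; exact fun _ hw => Or.inl (Or.inl hw)
    · rw [eJ]; exact fun _ hw => Or.inl (Or.inl hw)
    · rw [eK]; exact subset_union_left
  have noX : ∀ X, ¬ CtrX S C X := by
    obtain ⟨t, t0, t1, -⟩ := ctr_off hij hik hjk mb mv mu tri' off'
    exact fun X => F.ktx C hC t X t0 t1
  have tri := h.tri
  by_cases hL : v1 ∈ Clu S (fr S A \ (C i ∪ C k)) (A j)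
  · by_cases hR : b1 ∈ Clu S (fr S A \ (C j ∪ C k)) (A i)
    · exfalso
      obtain ⟨g1, g2⟩ := trich_gen hS (G.sub A hA) hAC hij hik hjk noX tri h.hu hL hR
      obtain ⟨-, -, g3⟩ := same F hC hij hik hjk mb mv mu g1 g2 (hAC k h.hu) tri' tri off' off
      rw [g3, sub_self, norm_zero] at hyu
      linarith
    · right
      rw [eJ, eK] at hR
      exact side G hA' hs hij.symm hjk hik hm0 hm hp0' hσ' h2' hσu
        (tri_bz hS (Or.symm tri')) hswA.hv hR h.hu (tri_bz hS tri) hyu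
  · left
    rw [eI, eK] at hL
    exact side G hA' hs hij hik hjk hm0 hm hp0 hσ h2 hσu (tri_bz hS tri') h.hv hL
      h.hu (tri_bz hS (Or.symm tri)) hyu

/-! ### 920's literal form -/

theorem arm_carm {E : Set ℂ} {X : Finset ℂ} {p : ℂ} {r r' R R' : ℝ} (hE : ∀ w ∈ E, w ∈ X)
    (hr : r ≤ r') (hR : R' ≤ R) (h : Arm S E p r R) : CArm S X p r' R' := by
  obtain ⟨a, b, h1, h2, h3⟩ := h
  refine ⟨a, b, hE a h1.1, hE b h1.snd, h2.trans hr, hR.trans h3, ?_⟩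
  obtain ⟨ha, h⟩ := h1
  have key : ∀ c, Relation.ReflTransGen (fun a b => Adj S a b ∧ b ∈ E) a c →
      c ∈ E ∧ ConnIn S X a c := by
    intro c hc
    induction hc with
    | refl => exact ⟨ha, Relation.ReflTransGen.refl⟩
    | @tail c d _ h5 ih => exact ⟨h5.2, ih.2.tail ⟨h5.1, hE c ih.1, hE d h5.2⟩⟩
  exact (key b h).2

theorem arms_l {V β : Finset ℂ} (hV : (V : Set ℂ) = fr S A) (hs : ∀ i, A i ⊆ A' i)
    {Rg : Set ℂ} {p0 x u : ℂ} {d m r1 r2 η : ℝ} {a c : Fin 4 → ℝ} (hu : u ∈ Rg) (hx : x ∈ Rg)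
    (a0 : d + m ≤ a 0) (c0 : c 0 ≤ η - m) (a1 : d ≤ a 1) (c1 : c 1 ≤ r1)
    (a2 : 2 * r1 + d + m ≤ a 2) (c2 : c 2 ≤ r2 - 2 * m) (a3 : r2 + m ≤ a 3)
    (c3 : c 3 ≤ η - r1 - r2 - 2 * m)
    (h : Arms4 S A A' j (β : Set ℂ) p0 x u d m r1 r2 η) :
    LArms S V (fr S A') (A' j) Rg p0 a c u x β := by
  have hVm : ∀ w, w ∈ V ↔ w ∈ fr S A := fun w => by rw [← hV]; rfl
  have e1 : ∀ w ∈ Es S A A' j (β : Set ℂ), w ∈ (V \ Jw S V (fr S A') (A' j) β) \ β := by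
    rintro w ⟨h1, h2, h3⟩
    rw [Finset.mem_sdiff, Finset.mem_sdiff]
    refine ⟨⟨(hVm w).2 h1, fun h4 => ?_⟩, h2⟩
    obtain ⟨-, h5, h6 | h6⟩ := mem_Jw.1 h4
    · exact h3 h6
    · exact h2 h6.2.1
  have e2 : ∀ w ∈ (fr S A' \ (β : Set ℂ) : Set ℂ), w ∈ V \ β := by
    rintro w ⟨h1, h2⟩
    rw [Finset.mem_sdiff]
    exact ⟨(hVm w).2 (fr_mono hs h1), h2⟩
  have e3 : ∀ w ∈ (fr S A' ∩ (β : Set ℂ) : Set ℂ), w ∈ β := fun w hw => hw.2
  rcases h with h | h | h | h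
  · exact Or.inl ⟨hu, arm_carm e1 a0 c0 h⟩
  · exact Or.inr (Or.inl ⟨hx, arm_carm e1 a1 c1 h⟩)
  · exact Or.inr (Or.inr (Or.inl (arm_carm e2 a2 c2 h)))
  · exact Or.inr (Or.inr (Or.inr (arm_carm e3 a3 c3 h)))

/-- **920's `DET`** -/
theorem det_lit (F : Fam S P O) (hA : P A) (hA' : P A') (hs : ∀ i, A i ⊆ A' i)
    (vis : ∃ X, CtrX S A' X) (hij : i ≠ j) (hik : i ≠ k) (hjk : j ≠ k) {Q : ℂ → ℂ → ℂ → Prop}
    (hQ : ∀ T b v u, Hit S A i j k T b v u → Q b v u → (b, v, u) ∉ O ∧ (v, b, u) ∉ O)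
    (hQ' : ∀ T b v u, Hit S A' i j k T b v u → Q b v u → (b, v, u) ∉ O ∧ (v, b, u) ∉ O)
    {d0 m d ρ1 ρ2 η : ℝ} (hd0 : 0 ≤ d0) (hm0 : 0 ≤ m) (hdm : d0 + 2 * m ≤ d) (hdp : 0 < d)
    (h1 : 8 * d ≤ ρ1) (h2 : 8 * ρ1 ≤ ρ2) (h3 : 8 * ρ2 ≤ η)
    (hm : ∀ a ∈ fr S A, ∀ b, Adj S a b → ‖a - b‖ ≤ m) (ht : ∀ l, Thin S A A' l d0)
    {V : Finset ℂ} (hV : (V : Set ℂ) = fr S A) {Rg : Set ℂ} (hR : fr S A ⊆ Rg)
    (hR' : ∀ z, (∃ w ∈ fr S A', Adj S z w) → z ∈ Rg) :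
    ∃ p0 ∈ Rg, ∃ p1 ∈ Rg, DET S V A A' i j k Q Rg p0 p1 (av4 d ρ1 ρ2) (cv4 ρ1 ρ2 η) η := by
  obtain ⟨X, hX⟩ := id vis
  obtain ⟨z0, hz0⟩ : ∃ z0, z0 ∈ Rg := by
    obtain ⟨x, hx, y, hy, hxy⟩ := hX.2.2 i
    refine ⟨x, hR ?_⟩
    refine ⟨hxy.mem.1, fun l hl => Set.disjoint_left.1 (hX.1 l) hx (hs l hl)⟩
  obtain ⟨p0, p1, hp0, hp1, H⟩ := det F hA hA' hs vis hij hik hjk (d := d0) (m := m)
    (r1 := ρ1 / 2) (r2 := ρ2) (η := η) hd0 hm0 (by linarith) (by linarith) (by linarith) hm ht z0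
  have q0 : p0 ∈ Rg := by
    rcases hp0 with rfl | h
    · exact hz0
    · exact hR h
  have q1 : p1 ∈ Rg := by
    rcases hp1 with rfl | h
    · exact hz0
    · exact hR h
  refine ⟨p0, q0, p1, q1, ?_⟩
  intro β hβ b v u g1 g2 b1 v1 y g3 g4 hyu x hx hp x' hx' hp'
  have hVf : fr S A' ⊆ (V : Set ℂ) := by
    rw [hV]
    exact fr_mono hs
  have hTT : ∀ w ∈ fr S A, (w ∈ ((V \ β : Finset ℂ) : Set ℂ) ↔ w ∉ (β : Set ℂ)) := by
    intro w hw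
    have : w ∈ V := by
      have : w ∈ (V : Set ℂ) := by rw [hV]; exact hw
      exact this
    rw [Finset.coe_sdiff, Set.mem_sdiff]
    exact ⟨fun h => h.2, fun h => ⟨this, h⟩⟩
  have hp2 : Pth S (bdy S (fr S A') (A' i) ((V \ β : Finset ℂ) : Set ℂ) ∪ {x'}) x' v := by
    rw [bdw_eq hVf]
    exact hp'
  obtain ⟨nu, nx, nx', HH⟩ := H (β : Set ℂ) ((V \ β : Finset ℂ) : Set ℂ) b1 v1 y b v u x x' hTT g3
    (hQ _ _ _ _ g3 g4) g1 (hQ' _ _ _ _ g1 g2) hyu (foot_of hx hp) (foot_of hx' hp2)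
  have av0 : av4 d ρ1 ρ2 0 = 2 * d := rfl
  have av1 : av4 d ρ1 ρ2 1 = 2 * d := rfl
  have av2 : av4 d ρ1 ρ2 2 = 2 * ρ1 := rfl
  have av3 : av4 d ρ1 ρ2 3 = 2 * ρ2 := rfl
  have cv0 : cv4 ρ1 ρ2 η 0 = η / 2 := rfl
  have cv1 : cv4 ρ1 ρ2 η 1 = ρ1 / 2 := rfl
  have cv2 : cv4 ρ1 ρ2 η 2 = ρ2 / 2 := rfl
  have cv3 : cv4 ρ1 ρ2 η 3 = η / 2 := rfl
  rcases HH with HH | HH
  · left
    exact arms_l hV hs (hR' u nu) (hR' x nx) (by rw [av0]; linarith) (by rw [cv0]; linarith)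
      (by rw [av1]; linarith) (by rw [cv1]) (by rw [av2]; linarith) (by rw [cv2]; linarith)
      (by rw [av3]; linarith) (by rw [cv3]; linarith) HH
  · right
    exact arms_l hV hs (hR' u nu) (hR' x' nx') (by rw [av0]; linarith) (by rw [cv0]; linarith)
      (by rw [av1]; linarith) (by rw [cv1]) (by rw [av2]; linarith) (by rw [cv2]; linarith)
      (by rw [av3]; linarith) (by rw [cv3]; linarith) HH

end Crest.Agent.R143.Detx421
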