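import Crest.Agent.R143.NetU_346
import Crest.Agent.R143.K33R_877

/-!
# Row 143 (S0194): exactly one ORIENTED hit for every colouring (helper877)

* `sum_gbw` : signed count: (positive minus negative rainbow triangles) = signed hull edges
* `hex_tr` : `Tr S A` and counterclockwise hull classes => `Hex S A`
* `hex_root` : `TrR S o m A` and a negative root face `o` => `Hex S A`
-/

set_option autoImplicit false

noncomputable section

open scoped Classical

namespace Crest.Agent.R143.Hexx877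

open Set
open Crest.Agent.R143.B0x346 Crest.Agent.R143.DelGx806 Crest.Agent.R143.DelRx806
  Crest.Agent.R143.JColx54 Crest.Agent.R143.RE0x723
open Crest.Agent.R143.Blkx838 (rot_mem)
open Crest.Agent.R143.K33x877 Crest.Agent.R143.NetUx346
open Crest.Agent.R143.RB2x54 (Vt)

variable {S : Finset ℂ}

section signed

variable {B W : Set ℂ}

/-- signed `B`-`W` pair -/
def gbw (B W : Set ℂ) (p : ℂ × ℂ) : ℤ :=
  if p.1 ∈ B ∧ p.2 ∈ W then 1 else if p.1 ∈ W ∧ p.2 ∈ B then -1 else 0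

/-- signed number of `B`-`W` sides -/
def sbw (B W : Set ℂ) (t : ℂ × ℂ × ℂ) : ℤ :=
  gbw B W (t.1, t.2.1) + gbw B W (t.2.1, t.2.2) + gbw B W (t.2.2, t.1)

theorem gbw_swap (hd : Disjoint B W) (p : ℂ × ℂ) : gbw B W p.swap = -gbw B W p := by
  have d : ∀ {s : ℂ}, s ∈ B → s ∉ W := fun h h' => Set.disjoint_left.1 hd h h'
  obtain ⟨a, b⟩ := p
  unfold gbw
  simp only [Prod.swap_prod_mk]
  by_cases h1 : a ∈ B <;> by_cases h2 : b ∈ W <;> by_cases h3 : a ∈ W <;> by_cases h4 : b ∈ B <;>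
    simp [h1, h2, h3, h4] ; exact (d h1 h3).elim

theorem sbw_rot (t : ℂ × ℂ × ℂ) : sbw B W (t.2.1, t.2.2, t.1) = sbw B W t := by
  unfold sbw; ring

/-- **signed count** -/
theorem sum_gbw (hS : GP (S : Set ℂ)) (hd : Disjoint B W) : ∑ t ∈ delT S, sbw B W t =
    3 * ∑ p ∈ (S ×ˢ S).filter (fun p => hullE S p.1 p.2), gbw B W p := by
  have e0 : ∑ t ∈ delT S, sbw B W t = 3 * ∑ t ∈ delT S, gbw B W (t.1, t.2.1) := by
    have e1 := sum_rot3 (S := S) (fun t => gbw B W (t.1, t.2.1))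
    have e2 := sum_rot3 (S := S) (fun t => gbw B W (t.2.1, t.2.2))
    simp only at e1 e2
    unfold sbw
    rw [Finset.sum_add_distrib, Finset.sum_add_distrib, e2, e1]
    ring
  rw [e0]
  congr 1
  have hinj : ∀ t ∈ delT S, ∀ t' ∈ delT S, ((t.1, t.2.1) : ℂ × ℂ) = (t'.1, t'.2.1) → t = t' := by
    rintro ⟨a, b, c⟩ ht ⟨a', b', c'⟩ ht' h
    simp only [Prod.mk.injEq] at h
    obtain ⟨rfl, rfl⟩ := h
    rw [(g1 S hS).2.1 _ _ _ _ ht ht']
  rw [← Finset.sum_image (f := gbw B W) (g := fun t : ℂ × ℂ × ℂ => (t.1, t.2.1)) hinj]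
  set I := (delT S).image (fun t : ℂ × ℂ × ℂ => (t.1, t.2.1)) with hI
  have mI : ∀ p : ℂ × ℂ, p ∈ I ↔ ∃ c, (p.1, p.2, c) ∈ delT S := by
    rintro ⟨a, b⟩
    simp only [hI, Finset.mem_image, Prod.mk.injEq]
    constructor
    · rintro ⟨⟨x, y, z⟩, h, rfl, rfl⟩; exact ⟨z, h⟩
    · rintro ⟨c, h⟩; exact ⟨(a, b, c), h, rfl, rfl⟩
  have hH : (S ×ˢ S).filter (fun p => hullE S p.1 p.2) = I.filter (fun p => p.swap ∉ I) := by
    ext p
    simp only [Finset.mem_filter, Finset.mem_product, mI, Prod.fst_swap, Prod.snd_swap]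
    constructor
    · rintro ⟨-, h1, h2⟩
      exact ⟨h1, fun ⟨c, h⟩ => h2 c h⟩
    · rintro ⟨⟨c, h1⟩, h2⟩
      have := mem_delT.1 h1
      exact ⟨⟨this.1, this.2.1⟩, ⟨c, h1⟩, fun d hd => h2 ⟨d, hd⟩⟩
  rw [hH, ← Finset.sum_filter_add_sum_filter_not I (fun p => p.swap ∉ I)]
  have h0 : ∑ p ∈ I.filter (fun p => ¬ p.swap ∉ I), gbw B W p = 0 := by
    refine Finset.sum_involution (fun p _ => p.swap) ?_ ?_ ?_ ?_
    · intro p _
      rw [gbw_swap hd]; ring
    · intro p hp _ h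
      rw [Finset.mem_filter, mI] at hp
      obtain ⟨⟨c, hc⟩, -⟩ := hp
      have h1 : p.2 = p.1 := congrArg Prod.fst h
      exact (g1 S hS).2.2 _ _ _ hc h1.symm
    · intro p hp
      rw [Finset.mem_filter, not_not] at hp ⊢
      exact ⟨hp.2, by rw [Prod.swap_swap]; exact hp.1⟩
    · intro p _
      exact Prod.swap_swap p
  rw [h0, add_zero]

/-- a positive triangle -/
theorem sbw_pos (hd : Disjoint B W) {t : ℂ × ℂ × ℂ} (h : 0 < sbw B W t) : ∃ b v u : ℂ, b ∈ B ∧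
    v ∈ W ∧ u ∉ B ∧ u ∉ W ∧ (b, v, u) ∈ rots t := by
  obtain ⟨x, y, z⟩ := t
  have d : ∀ {s : ℂ}, s ∈ B → s ∉ W := fun h h' => Set.disjoint_left.1 hd h h'
  unfold sbw gbw at h
  simp only at h
  by_cases xB : x ∈ B <;> by_cases yB : y ∈ B <;> by_cases zB : z ∈ B <;>
    by_cases xW : x ∈ W <;> by_cases yW : y ∈ W <;> by_cases zW : z ∈ W <;>
    simp [xB, yB, zB, xW, yW, zW] at h <;>
    first
    | exact absurd xW (d xB)
    | exact absurd yW (d yB)
    | exact absurd zW (d zB)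
    | exact ⟨x, y, z, xB, yW, zB, zW, by simp [rots]⟩
    | exact ⟨y, z, x, yB, zW, xB, xW, by simp [rots]⟩
    | exact ⟨z, x, y, zB, xW, yB, yW, by simp [rots]⟩

end signed

section hex

variable {A : ZMod 3 → Set ℂ} {i : ZMod 3} {T : Set ℂ}

theorem d01 (i : ZMod 3) : i + 1 ≠ i + 2 ∧ i + 1 ≠ i ∧ i + 2 ≠ i := by
  revert i; decide

/-- a positive triangle is an oriented hit -/
theorem hitO_of_pos (hC : Cls S A) {t : ℂ × ℂ × ℂ} (ht : t ∈ delT S)
    (h : 0 < sbw (Clu S (fr S A ∩ T) (A (i + 1))) (Clu S (fr S A \ T) (A (i + 2))) t) :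
    ∃ t', NetUx346.HitO S A i T t' ∧ t ∈ rots t' := by
  obtain ⟨hij, hik, hjk⟩ := d01 i
  have hd : Disjoint (Clu S (fr S A ∩ T) (A (i + 1))) (Clu S (fr S A \ T) (A (i + 2))) := by
    have := (bw_cls (T := T) hC hij hik hjk).disj _ _ hij
    rwa [bw_i, bw_j hij] at this
  obtain ⟨b, v, u, hb, hv, hu1, hu2, hr⟩ := sbw_pos hd h
  have h1 : (b, v, u) ∈ delT S := rots_del ht hr
  have a1 : Adj S b u := Or.inr ⟨v, rot_mem (rot_mem h1)⟩
  have a2 : Adj S v u := Or.inl ⟨b, rot_mem h1⟩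
  refine ⟨(u, b, v), ⟨rot_mem (rot_mem h1), ?_, hb, hv⟩, ?_⟩
  · show u ∈ A i
    have uS : u ∈ S := (Adj.mem a1).2
    by_contra hk
    have nfr : u ∉ fr S A := by
      intro hf
      by_cases hT : u ∈ T
      · exact hu1 (clu_nb hb a1 ⟨hf, hT⟩)
      · exact hu2 (clu_nb hv a2 ⟨hf, hT⟩)
    obtain ⟨m, hm⟩ : ∃ m, u ∈ A m := by
      by_contra h
      push Not at h
      exact nfr ⟨uS, h⟩
    rcases z3 hij hik hjk m with rfl | rfl | rfl
    · exact hu1 (mem_clu_self hm)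
    · exact hu2 (mem_clu_self hm)
    · exact hk hm
  · obtain ⟨x, y, z⟩ := t
    simp only [rots, Set.mem_insert_iff, Set.mem_singleton_iff, Prod.mk.injEq] at hr ⊢
    rcases hr with ⟨rfl, rfl, rfl⟩ | ⟨rfl, rfl, rfl⟩ | ⟨rfl, rfl, rfl⟩ <;> simp

/-- counterclockwise hull classes -/
def Ccw (S : Finset ℂ) (A : ZMod 3 → Set ℂ) : Prop :=
  ∀ i, ∃ a b, hullE S a b ∧ a ∈ A i ∧ b ∈ A (i + 1)

/-- **hull version** -/
theorem hex_tr (hT : Tr S A) (hc : Ccw S A) : Hex S A := by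
  intro i T _
  obtain ⟨hij, hik, hjk⟩ := d01 i
  have hS := hT.gp
  have hC := hT.cls
  set B := Clu S (fr S A ∩ (T : Set ℂ)) (A (i + 1)) with hB
  set W := Clu S (fr S A \ (T : Set ℂ)) (A (i + 2)) with hW
  have hd : Disjoint B W := by
    have := (bw_cls (T := (T : Set ℂ)) hC hij hik hjk).disj _ _ hij
    rwa [bw_i, bw_j hij] at this
  have sI : B ⊆ (fr S A ∩ T) ∪ A (i + 1) := clu_subset
  have sJ : W ⊆ (fr S A \ T) ∪ A (i + 2) := clu_subset
  obtain ⟨a, b, hab, ha, hb'⟩ := hc (i + 1)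
  have hb : b ∈ A (i + 2) := by
    have : i + 1 + 1 = i + 2 := by ring
    rwa [this] at hb'
  obtain ⟨a', b', -, -, -, hu⟩ := hT.one (i + 1) (i + 2) hij
  obtain ⟨ea, eb⟩ := hu a b (Or.inl hab) ha hb
  have hullB : ∀ {x y : ℂ}, (hullE S x y ∨ hullE S y x) → x ∈ B → x ∈ A (i + 1) := by
    intro x y h hx
    obtain ⟨m, hm⟩ := hT.hull_mem h
    rcases sI hx with h1 | h1
    · exact absurd hm (h1.1.2 m)
    · exact h1
  have hullW : ∀ {x y : ℂ}, (hullE S x y ∨ hullE S y x) → x ∈ W → x ∈ A (i + 2) := by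
    intro x y h hx
    obtain ⟨m, hm⟩ := hT.hull_mem h
    rcases sJ hx with h1 | h1
    · exact absurd hm (h1.1.2 m)
    · exact h1
  have h1 : ∑ p ∈ (S ×ˢ S).filter (fun p => hullE S p.1 p.2), gbw B W p = 1 := by
    have heS : (a, b) ∈ (S ×ˢ S).filter (fun p => hullE S p.1 p.2) := by
      rw [Finset.mem_filter, Finset.mem_product]
      exact ⟨hullE.mem hab, hab⟩
    rw [Finset.sum_eq_single_of_mem _ heS]
    · unfold gbw
      rw [if_pos ⟨mem_clu_self ha, mem_clu_self hb⟩]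
    · intro p hp hne
      rw [Finset.mem_filter] at hp
      unfold gbw
      rw [if_neg, if_neg]
      · rintro ⟨x1, x2⟩
        obtain ⟨e1, e2⟩ := hu p.2 p.1 (Or.inr hp.2) (hullB (Or.inr hp.2) x2) (hullW (Or.inl hp.2) x1)
        have hp2 := hp.2
        rw [e1, e2, ← ea, ← eb] at hp2
        obtain ⟨c, hc⟩ := hp2.1
        exact hab.2 c hc
      · rintro ⟨x1, x2⟩
        obtain ⟨e1, e2⟩ := hu p.1 p.2 (Or.inl hp.2) (hullB (Or.inl hp.2) x1) (hullW (Or.inr hp.2) x2)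
        exact hne (Prod.ext (by rw [e1, ← ea]) (by rw [e2, ← eb]))
  have h2 := sum_gbw hS hd
  rw [h1] at h2
  obtain ⟨t, ht, hn⟩ : ∃ t ∈ delT S, 0 < sbw B W t := by
    by_contra hcon
    push Not at hcon
    have := Finset.sum_nonpos hcon
    omega
  obtain ⟨t', h', -⟩ := hitO_of_pos hC ht hn
  refine ⟨t', h', fun s hs => ?_⟩
  obtain ⟨e1, e2, e3⟩ := hitu S A hT (i + 1) (i + 2) i hij hik hjk T _ _ _ _ _ _
    ((hitO_iff hS).1 h').1 ((hitO_iff hS).1 hs).1
  exact Prod.ext e3 (Prod.ext e1 e2)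

/-- the root face is negative -/
def NegO (A : ZMod 3 → Set ℂ) (o : ℂ × ℂ × ℂ) : Prop :=
  o.1 ∈ A 0 ∧ o.2.1 ∈ A 2 ∧ o.2.2 ∈ A 1

theorem hitO_off {o : ℂ × ℂ × ℂ} {m : ZMod 3} (hT : TrR S o m A) (hn : NegO A o)
    {t : ℂ × ℂ × ℂ} (h : NetUx346.HitO S A i T t) :
    K33x877.HitO S A (rots o) (i + 1) (i + 2) i T t.2.1 t.2.2 t.1 := by
  have hS := hT.gp
  have hC := hT.toCls
  obtain ⟨hij, hik, hjk⟩ := d01 i
  refine ⟨((hitO_iff hS).1 h).1, ?_⟩
  have h1 : (t.2.1, t.2.2, t.1) ∈ delT S := rot_mem h.1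
  have ho := hT.root.1
  constructor
  · intro hr
    -- the vertices of `o` are in classes
    have cls : ∀ v, Vt o v → ∃ m, v ∈ A m := by
      rintro v (rfl | rfl | rfl)
      exacts [⟨0, hn.1⟩, ⟨2, hn.2.1⟩, ⟨1, hn.2.2⟩]
    have bA : t.2.1 ∈ A (i + 1) := by
      obtain ⟨m, hm⟩ := cls t.2.1 (vt_rots hr (Or.inl rfl))
      rcases clu_subset h.2.2.1 with h2 | h2
      · exact absurd hm (h2.1.2 m)
      · exact h2
    have vA : t.2.2 ∈ A (i + 2) := by
      obtain ⟨m, hm⟩ := cls t.2.2 (vt_rots hr (Or.inr (Or.inl rfl)))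
      rcases clu_subset h.2.2.2 with h2 | h2
      · exact absurd hm (h2.1.2 m)
      · exact h2
    obtain ⟨x, y, z⟩ := o
    obtain ⟨hx, hy, hz⟩ := hn
    simp only at hx hy hz
    have key : ∀ {a b : ZMod 3} {s : ℂ}, s ∈ A a → s ∈ A b → a = b := by
      intro a b s h1 h2
      by_contra hne
      exact hC.ne hne h1 h2
    simp only [rots, Set.mem_insert_iff, Set.mem_singleton_iff, Prod.mk.injEq] at hr
    rcases hr with ⟨r1, r2, -⟩ | ⟨r1, r2, -⟩ | ⟨r1, r2, -⟩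
    · rw [r1] at bA; rw [r2] at vA
      have e1 := key bA hx
      have e2 := key vA hy
      clear * - e1 e2
      revert i
      decide
    · rw [r1] at bA; rw [r2] at vA
      have e1 := key bA hy
      have e2 := key vA hz
      clear * - e1 e2
      revert i
      decide
    · rw [r1] at bA; rw [r2] at vA
      have e1 := key bA hz
      have e2 := key vA hx
      clear * - e1 e2
      revert i
      decide
  · intro hr
    have h2 := rots_del ho hr
    obtain ⟨o1, T1⟩ := mem_delT_iff.1 h1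
    obtain ⟨o2, T2⟩ := mem_delT_iff.1 h2
    have p1 := T1.pos
    have p2 := T2.pos
    rw [cr_sub] at p1 p2
    nlinarith

/-- **root version** -/
theorem hex_root {o : ℂ × ℂ × ℂ} {m : ZMod 3} (hT : TrR S o m A) (hn : NegO A o) : Hex S A := by
  intro i T _
  obtain ⟨hij, hik, hjk⟩ := d01 i
  have hS := hT.gp
  have hC := hT.toCls
  set B := Clu S (fr S A ∩ (T : Set ℂ)) (A (i + 1)) with hB
  set W := Clu S (fr S A \ (T : Set ℂ)) (A (i + 2)) with hW
  have hd : Disjoint B W := by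
    have := (bw_cls (T := (T : Set ℂ)) hC hij hik hjk).disj _ _ hij
    rwa [bw_i, bw_j hij] at this
  have sI : B ⊆ (fr S A ∩ T) ∪ A (i + 1) := clu_subset
  have sJ : W ⊆ (fr S A \ T) ∪ A (i + 2) := clu_subset
  have far : ∀ {j : ZMod 3} {Q : Set ℂ} {x h' : ℂ}, j ≠ m → Q ⊆ fr S A → x ∈ Clu S Q (A j) →
      (hullE S x h' ∨ hullE S h' x) → False := by
    intro j Q x h' hj hQ hx hh
    obtain ⟨x0, h0, hp⟩ := hx
    refine hT.sep j hj x0 h0 x h' hh (hp.mono ?_)
    rintro v (hv | hv) hv'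
    · exact (hQ hv).2 m hv'
    · exact hC.ne hj hv hv'
  have h1 : ∑ p ∈ (S ×ˢ S).filter (fun p => hullE S p.1 p.2), gbw B W p = 0 := by
    refine Finset.sum_eq_zero fun p hp => ?_
    rw [Finset.mem_filter] at hp
    unfold gbw
    by_cases him : i + 1 = m
    · have hjm : i + 2 ≠ m := fun h => hij (him.trans h.symm)
      rw [if_neg, if_neg]
      · rintro ⟨x1, -⟩
        exact far (h' := p.2) hjm (fun _ h => h.1) x1 (Or.inl hp.2)
      · rintro ⟨-, x2⟩
        exact far (h' := p.1) hjm (fun _ h => h.1) x2 (Or.inr hp.2)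
    · rw [if_neg, if_neg]
      · rintro ⟨-, x2⟩
        exact far (h' := p.1) him Set.inter_subset_left x2 (Or.inr hp.2)
      · rintro ⟨x1, -⟩
        exact far (h' := p.2) him Set.inter_subset_left x1 (Or.inl hp.2)
  have h2 := sum_gbw hS hd
  rw [h1, mul_zero] at h2
  -- the root triangle is negative
  have ho := hT.root.1
  obtain ⟨a, b, c⟩ := o
  have hne : a ≠ b ∧ b ≠ c ∧ c ≠ a := by
    have g := (g1 S hS).2.2
    exact ⟨g _ _ _ ho, g _ _ _ (rot_mem ho), g _ _ _ (rot_mem (rot_mem ho))⟩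
  set R : Finset (ℂ × ℂ × ℂ) := {(a, b, c), (b, c, a), (c, a, b)} with hR
  have hRsub : R ⊆ delT S := by
    intro t ht
    simp only [hR, Finset.mem_insert, Finset.mem_singleton] at ht
    rcases ht with rfl | rfl | rfl
    exacts [ho, rot_mem ho, rot_mem (rot_mem ho)]
  obtain ⟨ha, hb, hc⟩ := hn
  simp only at ha hb hc
  have notC : ∀ {s : ℂ} {l : ZMod 3}, s ∈ A l → (s ∈ B ↔ l = i + 1) ∧ (s ∈ W ↔ l = i + 2) := by
    intro s l hs
    constructor
    · constructor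
      · intro h
        rcases sI h with h | h
        · exact absurd hs (h.1.2 l)
        · by_contra hne; exact hC.ne hne hs h
      · rintro rfl; exact mem_clu_self hs
    · constructor
      · intro h
        rcases sJ h with h | h
        · exact absurd hs (h.1.2 l)
        · by_contra hne; exact hC.ne hne hs h
      · rintro rfl; exact mem_clu_self hs
  have n1 : sbw B W (a, b, c) = -1 := by
    unfold sbw gbw
    simp only [(notC ha).1, (notC ha).2, (notC hb).1, (notC hb).2, (notC hc).1, (notC hc).2]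
    clear * -
    revert i
    decide
  have h3 : ∑ t ∈ R, sbw B W t = -3 := by
    have e1 := sbw_rot (B := B) (W := W) (a, b, c)
    have e2 := sbw_rot (B := B) (W := W) (b, c, a)
    simp only at e1 e2
    rw [hR, Finset.sum_insert, Finset.sum_insert, Finset.sum_singleton, e2, e1, n1]
    · norm_num
    · simp only [Finset.mem_singleton, Prod.mk.injEq, not_and]
      intro h; exact absurd h hne.2.1
    · simp only [Finset.mem_insert, Finset.mem_singleton, Prod.mk.injEq, not_or, not_and]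
      exact ⟨fun h => absurd h hne.1, fun h => absurd h.symm hne.2.2⟩
  have h4 := Finset.sum_sdiff (f := sbw B W) hRsub
  rw [h3, h2] at h4
  obtain ⟨t, ht, hn⟩ : ∃ t ∈ delT S \ R, 0 < sbw B W t := by
    by_contra hcon
    push Not at hcon
    have := Finset.sum_nonpos hcon
    omega
  rw [Finset.mem_sdiff] at ht
  obtain ⟨t', h', -⟩ := hitO_of_pos hC ht.1 hn
  refine ⟨t', h', fun s hs => ?_⟩
  obtain ⟨e1, e2, e3⟩ := (fam_root S (a, b, c) m).hitu hT hij hik hjk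
    (hitO_off hT ⟨ha, hb, hc⟩ h') (hitO_off hT ⟨ha, hb, hc⟩ hs)
  exact Prod.ext e3 (Prod.ext e1 e2)

end hex

end Crest.Agent.R143.Hexx877
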