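import Crest.Agent.R143.Cont7_920
import Crest.Agent.R143.Det_421
import Crest.Agent.R143.Hex_877
import Crest.Agent.R143.CtrUp_877

/-!
# Row 143 (S0194), VIS at one `S`: static CONT for proper triples (helper877)

* `dets` : 421's `det_lit` in the form `DetsS` of 920
* `cont_TS` : **static CONT** : `A l ⊆ A' l` proper counterclockwise triples, thin next to the free
  sites of `A'`, a centre of `A'` exists, edges at the free sites `≤ m`, one-arm bounds: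
  `‖TS S A z - TS S A' z‖ ≤ errC C c L d`
* `errC_small` : `errC C c L d → 0` as `d → 0`
-/

set_option autoImplicit false

noncomputable section

open scoped Classical

namespace Crest.Agent.R143.VisCx877

open Crest.Agent.R143.Harx315
open Crest.Agent.R143.D3Fx802 (CArm)
open Crest.Agent.R143.JColx54 (Adj)
open Crest.Agent.R143.RE0x723 (Pth)
open Crest.Agent.R143.B0x346 Crest.Agent.R143.DelGx806
open Crest.Agent.R143.K33x877 Crest.Agent.R143.Cont3x920 Crest.Agent.R143.Cont4x920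
  Crest.Agent.R143.Cont5x920 Crest.Agent.R143.Cont6x920 Crest.Agent.R143.Cont7x920
open Crest.Agent.R143.NetUx346
open Crest.Agent.R143.GateKx421 (Thin)
open Crest.Agent.R143.Hexx877 (Ccw hex_tr)

variable {S : Finset ℂ} {A A' : ZMod 3 → Set ℂ} {Rg : Set ℂ} {d d0 m D C c L : ℝ} {x0 : ℂ}
  {z : ℂ → ℂ}

theorem z3 (i : ZMod 3) : i + 1 ≠ i + 2 ∧ i + 1 ≠ i ∧ i + 2 ≠ i := by revert i; decide

/-- counterclockwise marks of the smaller classes -/
theorem ccw_up (hs : ∀ l, A l ⊆ A' l) (h : Ccw S A) : Ccw S A' := by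
  intro i
  obtain ⟨a, b, h1, h2, h3⟩ := h i
  exact ⟨a, b, h1, hs _ h2, hs _ h3⟩

/-- **`DetsS` from 421's `det_lit`** -/
theorem dets (hT : Tr S A) (hT' : Tr S A') (hs : ∀ l, A l ⊆ A' l) (vis : ∃ X, CtrX S A' X)
    (hd0 : 0 ≤ d0) (hm0 : 0 ≤ m) (hdm : d0 + 2 * m ≤ d) (hdp : 0 < d)
    (hm : ∀ a ∈ fr S A, ∀ b, Adj S a b → ‖a - b‖ ≤ m) (ht : ∀ l, Thin S A A' l d0)
    (hRg : ∀ v ∈ S, v ∈ Rg) : DetsS S (ff S A) A A' (OP S) Rg d D := by
  intro i ρ1 ρ2 η h1 h2 h3 _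
  obtain ⟨hij, hik, hjk⟩ := z3 i
  obtain ⟨p0, -, p1, -, h⟩ := Detx421.det_lit (fam_hull S) hT hT' hs vis hij hik hjk (Q := OP S)
    (fun _ _ _ _ _ _ => ⟨Set.notMem_empty _, Set.notMem_empty _⟩)
    (fun _ _ _ _ _ _ => ⟨Set.notMem_empty _, Set.notMem_empty _⟩)
    hd0 hm0 hdm hdp h1 h2 h3 hm ht (V := ff S A) ff_coe (Rg := Rg) (fun w hw => hRg w hw.1)
    (fun w hw => by
      obtain ⟨y, -, hwy⟩ := hw
      exact hRg w hwy.mem.1)
  exact ⟨p0, p1, h⟩

/-- the error of static CONT -/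
def errC (C c L d : ℝ) : ℝ :=
  9 * ((1 + 4 * (2 * (C * 16 ^ c))) * (2 * L) * (d / (2 * L)) ^ (min c 1 / 4))

/-- **static CONT for proper triples in the disc** -/
theorem cont_TS (hT : Tr S A) (hc : Ccw S A) (hT' : Tr S A') (hs : ∀ l, A l ⊆ A' l)
    (vis : ∃ X, CtrX S A' X) (hd0 : 0 ≤ d0) (hm0 : 0 ≤ m) (hdm : d0 + 2 * m ≤ d) (hdp : 0 < d)
    (hdL : d ≤ 2 * L)
    (hm : ∀ a ∈ fr S A, ∀ b, Adj S a b → ‖a - b‖ ≤ m) (ht : ∀ l, Thin S A A' l d0)
    (hL : ∀ v ∈ S, ‖v - x0‖ ≤ L) (hC : 1 ≤ C) (hc0 : 0 ≤ c)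
    (hA : ArmV S (ff S A) (Metric.closedBall x0 L) d (2 * L) C c)
    (hz : ∀ a b, ‖z a - z b‖ ≤ ‖a - b‖) : ‖TS S A z - TS S A' z‖ ≤ errC C c L d := by
  have hRg : ∀ v ∈ S, v ∈ Metric.closedBall x0 L := fun v hv => by
    rw [Metric.mem_closedBall, dist_eq_norm]
    exact hL v hv
  have key : ∀ {B : ZMod 3 → Set ℂ} (_ : Tr S B) (i : ZMod 3) (T : Set ℂ) (t : ℂ × ℂ × ℂ),
      HitO S B i T t → t.1 ∈ Metric.closedBall x0 L := by
    intro B hB i T t h
    exact hRg _ (hB.sub i h.2.1)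
  refine staticS_TS hT.gp (hex_tr hT hc) (hex_tr hT' (ccw_up hs hc)) hs hz (key hT) (key hT')
    (fun w hw => hRg w hw.1) ?_ hdp hdL hA hC hc0
    (dets hT hT' hs vis hd0 hm0 hdm hdp hm ht hRg)
  intro u hu v hv
  rw [Metric.mem_closedBall, dist_eq_norm] at hu hv
  have e : u - v = (u - x0) - (v - x0) := by ring
  rw [e]
  exact (norm_sub_le _ _).trans (by linarith)

/-- the error tends to zero -/
theorem errC_small (hC : 0 ≤ C) (hc : 0 < c) (hL : 0 < L) {η : ℝ} (hη : 0 < η) :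
    ∃ d0 > 0, ∀ d, 0 < d → d ≤ d0 → errC C c L d ≤ η := by
  set K : ℝ := 9 * ((1 + 4 * (2 * (C * 16 ^ c))) * (2 * L)) with hK
  have p4 : (0 : ℝ) < 16 ^ c := Real.rpow_pos_of_pos (by norm_num) _
  have hKp : 0 < K := by positivity
  set a : ℝ := min c 1 / 4 with ha
  have hap : 0 < a := by
    have : 0 < min c 1 := lt_min hc one_pos
    positivity
  refine ⟨2 * L * (η / K) ^ (1 / a), by positivity, fun d hd hd' => ?_⟩
  have h1 : d / (2 * L) ≤ (η / K) ^ (1 / a) := by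
    rw [div_le_iff₀ (by positivity)]
    linarith
  have h2 : (d / (2 * L)) ^ a ≤ η / K := by
    refine (Real.rpow_le_rpow (by positivity) h1 hap.le).trans (le_of_eq ?_)
    rw [← Real.rpow_mul (by positivity), one_div_mul_cancel hap.ne', Real.rpow_one]
  have h3 : errC C c L d = K * (d / (2 * L)) ^ a := by
    unfold errC
    rw [hK, ha]
    ring
  rw [h3]
  calc K * (d / (2 * L)) ^ a ≤ K * (η / K) := mul_le_mul_of_nonneg_left h2 hKp.le
    _ = η := by field_simp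

end Crest.Agent.R143.VisCx877
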