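import Crest.Agent.R143.Join_848
import Crest.Agent.R143.Seg_991
import Crest.Agent.R143.CtrUp_877
import Crest.Agent.R143.VisC_877
import Crest.Agent.R143.Disc_683

/-!
# Row 143 (S0194), CONT: absorption of the other free components (helper97)

`A` proper triple, `V` a union of components of the free sites (`V ⊆ fr S A`, no Delaunay edge from
`V` to a free site off `V`). The other free components are given to a class which they touch.

* `Ab S A V B` : `Tr S B`, `A l ⊆ B l`, `fr S B = V`, same classes next to `V`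
* **`absorb`** : `Tr S A → .. → ∃ B, Ab S A V B`
* `Ab.ctr`, `Ab.ctr'` : same centres in `V`; `Ab.thin`, `Ab.ccw`
* `Ab.nc` : no small centre of `A0` ⇒ no small centre of `B`
* **`Ab.cont`** : static CONT of 877 from `A0` to `B` (`A0 l ⊆ A l`, thin next to the free sites of
  `A`)
-/

set_option autoImplicit false

noncomputable section

open scoped Classical

namespace Crest.Agent.R143.Absx97

open Set
open Crest.Agent.R143.B0x346 Crest.Agent.R143.DelGx806 Crest.Agent.R143.DelRx806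
  Crest.Agent.R143.JColx54 Crest.Agent.R143.RE0x723 Crest.Agent.R143.K33x877
open Crest.Agent.R143.GateKx421 (Thin)
open Crest.Agent.R143.Joinx848 (LayK jnK trK fr_jnK' sub_jnK)
open Crest.Agent.R143.Hexx877 (Ccw)
open Crest.Agent.R143.NetUx346 (ff TS)

variable {S : Finset ℂ} {A A0 B : ZMod 3 → Set ℂ} {V X : Set ℂ}

/-- `B` = the classes `A` plus the free components off `V` -/
structure Ab (S : Finset ℂ) (A : ZMod 3 → Set ℂ) (V : Set ℂ) (B : ZMod 3 → Set ℂ) : Prop where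
  tr : Tr S B
  sub : ∀ l, A l ⊆ B l
  fr : fr S B = V
  /-- same classes next to `V` -/
  lab : ∀ x, (∃ v ∈ V, Adj S x v) → ∀ l, x ∈ B l ↔ x ∈ A l

/-- all the sites are joined -/
theorem pth_all (hS : GP (S : Set ℂ)) (h3 : 3 ≤ S.card) {x y : ℂ} (hx : x ∈ S) (hy : y ∈ S) :
    Pth S (S : Set ℂ) x y := by
  have hc : ∀ z ∈ S, z ∈ Segx991.Clm S Set.univ := fun z hz =>
    ⟨hz, z, Set.mem_univ _, Segx991.self_cell z⟩
  exact (Segx991.pth_conn hS h3 isPreconnected_univ (hc x hx) (hc y hy)).mono fun z hz => hz.1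

theorem cls_ne (h : Tr S A) (i : ZMod 3) : (A i).Nonempty := by
  have hi : i ≠ i + 1 := by revert i; decide
  obtain ⟨a, b, -, ha, -, -⟩ := h.one i (i + 1) hi
  exact ⟨a, ha⟩

theorem card3 (h : Tr S A) : 3 ≤ S.card := Discx683.card_S h

/-- every free component touches a class -/
theorem touch (h : Tr S A) {x : ℂ} (hx : x ∈ fr S A) :
    ∃ l, ∃ y, Pth S (fr S A) x y ∧ ∃ a ∈ A l, Adj S y a := by
  obtain ⟨a0, ha0⟩ := cls_ne h 0
  have hp := pth_all h.gp (card3 h) hx.1 (h.sub 0 ha0)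
  have key : ∀ z, Pth S (S : Set ℂ) x z → Pth S (fr S A) x z ∨
      ∃ l, ∃ y, Pth S (fr S A) x y ∧ ∃ a ∈ A l, Adj S y a := by
    intro z hz
    refine hz.ind (P := fun z => Pth S (fr S A) x z ∨
      ∃ l, ∃ y, Pth S (fr S A) x y ∧ ∃ a ∈ A l, Adj S y a) (Or.inl (Pth.refl hx)) ?_
    rintro u w - hw huw ih
    rcases ih with ih | ih
    · by_cases hwf : w ∈ fr S A
      · exact Or.inl (ih.tail huw hwf)
      · right
        have : ∃ l, w ∈ A l := by
          by_contra hcon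
          push Not at hcon
          exact hwf ⟨hw, hcon⟩
        obtain ⟨l, hl⟩ := this
        exact ⟨l, u, ih, w, hl, huw⟩
    · exact Or.inr ih
  rcases key a0 hp with h1 | h1
  · exact absurd ha0 (h1.snd.2 0)
  · exact h1

/-- the label of a component -/
def pick (S : Finset ℂ) (A : ZMod 3 → Set ℂ) (K : Set ℂ) : ZMod 3 :=
  if h : ∃ l, ∃ y ∈ K, ∃ a ∈ A l, Adj S y a then h.choose else 0

/-- **absorption** -/
theorem absorb (h : Tr S A) (hV : V ⊆ fr S A)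
    (hcl : ∀ v ∈ V, ∀ w ∈ fr S A, Adj S v w → w ∈ V) : ∃ B, Ab S A V B := by
  -- the pieces
  let K : Type := {x : ℂ // x ∈ fr S A ∧ x ∉ V}
  let P : K → Set ℂ := fun k => {y | Pth S (fr S A) k.1 y}
  let l : K → ZMod 3 := fun k => pick S A (P k)
  have hPf : ∀ k, P k ⊆ fr S A := fun k y hy => Pth.snd hy
  have hPV : ∀ k, Disjoint V (P k) := by
    intro k
    refine Set.disjoint_left.2 fun v hv hvP => k.2.2 ?_
    have hs : Pth S (fr S A) v k.1 := Pth.symm hvP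
    exact hs.ind (P := fun z => z ∈ V) hv fun u w _ hw huw hu => hcl u hu w hw huw
  have hPe : ∀ k k' x, x ∈ P k → x ∈ P k' → P k = P k' := by
    intro k k' x h1 h2
    have e1 : Pth S (fr S A) k.1 x := h1
    have e2 : Pth S (fr S A) k'.1 x := h2
    ext y
    exact ⟨fun hy => (e2.trans e1.symm).trans hy, fun hy => (e1.trans e2.symm).trans hy⟩
  have hl : ∀ k, ∃ y ∈ P k, ∃ a ∈ A (l k), Adj S y a := by
    intro k
    have h1 : ∃ l, ∃ y ∈ P k, ∃ a ∈ A l, Adj S y a := by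
      obtain ⟨i, y, hy, a, ha, hya⟩ := touch h k.2.1
      exact ⟨i, y, hy, a, ha, hya⟩
    have h2 : l k = h1.choose := dif_pos h1
    rw [h2]
    exact h1.choose_spec
  have lay : LayK S A P l := by
    refine LayK.of_con (fun k x hx => (hPf k hx).1) ?_ ?_ ?_ ?_
    · intro k k' hne
      refine Set.disjoint_left.2 fun x h1 h2 => hne ?_
      show pick S A (P k) = pick S A (P k')
      rw [hPe k k' x h1 h2]
    · intro k i
      exact Set.disjoint_left.2 fun x hx hxi => (hPf k hx).2 i hxi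
    · intro k x hx y hy
      have e1 : Pth S (fr S A) k.1 x := hx
      have e2 : Pth S (P k) k.1 x := by
        have := e1.symm.self.symm
        refine this.mono ?_
        rintro z ⟨-, hz2⟩
        exact hz2.symm
      have e3 : Pth S (fr S A) k.1 y := hy
      have e4 : Pth S (P k) k.1 y := by
        have := e3.symm.self.symm
        refine this.mono ?_
        rintro z ⟨-, hz2⟩
        exact hz2.symm
      exact e2.symm.trans e4
    · intro k _
      exact hl k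
  have hfr : fr S A = V ∪ ⋃ k, P k := by
    ext x
    rw [Set.mem_union, Set.mem_iUnion]
    constructor
    · intro hx
      by_cases hxV : x ∈ V
      · exact Or.inl hxV
      · exact Or.inr ⟨⟨x, hx, hxV⟩, Pth.refl hx⟩
    · rintro (hx | ⟨k, hx⟩)
      · exact hV hx
      · exact hPf k hx
  refine ⟨jnK A P l, trK h lay, fun i => sub_jnK i, fr_jnK' hfr hPV, ?_⟩
  rintro x ⟨v, hv, hxv⟩ i
  refine ⟨?_, fun hx => sub_jnK i hx⟩
  rintro (hx | ⟨k, -, hx⟩)
  · exact hx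
  · exact absurd hx (Set.disjoint_left.1 (hPV k) (hcl v hv x (hPf k hx) hxv.symm))

/-- a centre consists of free sites -/
theorem ctr_free (hX : CtrX S B X) : X ⊆ fr S B := by
  intro x hx
  refine ⟨?_, fun i hi => Set.disjoint_left.1 (hX.1 i) hx hi⟩
  obtain ⟨y, hy, z, -, hyz⟩ := hX.2.2 0
  by_cases hxy : x = y
  · subst hxy
    exact hyz.mem.1
  · obtain ⟨hx', hp⟩ := hX.2.1 x hx y hy
    rcases Relation.ReflTransGen.cases_head hp with h | ⟨w, hw, -⟩
    · exact absurd h hxy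
    · exact hw.1.mem.1

theorem Ab.ctr (h : Ab S A V B) (hX : CtrX S B X) : X ⊆ V ∧ CtrX S A X := by
  have hXV : X ⊆ V := h.fr ▸ ctr_free hX
  refine ⟨hXV, fun i => (hX.1 i).mono_right (h.sub i), hX.2.1, fun i => ?_⟩
  obtain ⟨x, hx, y, hy, hxy⟩ := hX.2.2 i
  exact ⟨x, hx, y, (h.lab y ⟨x, hXV hx, hxy.symm⟩ i).1 hy, hxy⟩

theorem Ab.ctr' (h : Ab S A V B) (hX : CtrX S A X) (hXV : X ⊆ V) : CtrX S B X := by
  refine ⟨fun i => ?_, hX.2.1, fun i => ?_⟩
  · refine Set.disjoint_left.2 fun x hx hxi => ?_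
    have : x ∈ K33x877.fr S B := h.fr.symm ▸ hXV hx
    exact this.2 i hxi
  · obtain ⟨x, hx, y, hy, hxy⟩ := hX.2.2 i
    exact ⟨x, hx, y, h.sub i hy, hxy⟩

theorem Ab.ccw (h : Ab S A V B) (hc : Ccw S A) : Ccw S B := VisCx877.ccw_up h.sub hc

theorem Ab.thin (h : Ab S A V B) (hV : V ⊆ K33x877.fr S A) {d : ℝ} {l : ZMod 3}
    (ht : Thin S A0 A l d) : Thin S A0 B l d := by
  rintro x hx ⟨w, hw, hxw⟩
  rw [h.fr] at hw
  obtain ⟨a, ha, hp⟩ := ht x ((h.lab x ⟨w, hw, hxw⟩ l).1 hx) ⟨w, hV hw, hxw⟩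
  exact ⟨a, ha, hp.mono fun y hy => ⟨h.sub l hy.1, hy.2⟩⟩

theorem Ab.ff {V : Finset ℂ} (h : Ab S A (V : Set ℂ) B) : ff S B = V := by
  have h1 : ((NetUx346.ff S B : Finset ℂ) : Set ℂ) = V := Cont5x920.ff_coe.trans h.fr
  exact_mod_cast h1

/-- **no small centre of `B`** (`ThinF` = thin next to the free sites) -/
theorem Ab.nc (h : Ab S A V B) (hV : V ⊆ K33x877.fr S A) (hs : ∀ l, A0 l ⊆ A l) {d m R : ℝ} {p : ℂ}
    (ht : ∀ l, Thin S A0 A l d) (hm : ∀ x ∈ V, ∀ y, Adj S x y → ‖y - x‖ ≤ m) (d0 : 0 ≤ d)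
    (m0 : 0 ≤ m) (hno : ∀ X, CtrX S A0 X → ∃ x ∈ X, R + m + d < ‖x - p‖) :
    ∀ X, CtrX S B X → ∃ x ∈ X, R < ‖x - p‖ := by
  intro X hX
  by_contra hcon
  push Not at hcon
  have hXV : X ⊆ V := (h.ctr hX).1
  obtain ⟨X', -, h1, h2⟩ := CtrUpx877.ctr_up (fun l => (hs l).trans (h.sub l)) h.tr.disj
    (fun l x hx hy => Ab.thin h hV (ht l) x hx (by
      obtain ⟨y, hy1, hy2⟩ := hy
      exact ⟨y, hy1, hy2⟩)) hX (h.fr.symm ▸ hXV) hcon (fun x hx => hm x (hXV hx)) d0 m0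
  obtain ⟨x, hx, h3⟩ := hno X' h1
  have := h2 x hx
  linarith

open Crest.Agent.R143.Cont6x920 (ArmV) in
/-- **static CONT from `A0` to `B`** -/
theorem Ab.cont (h : Ab S A V B) (hV : V ⊆ K33x877.fr S A) (hT : Tr S A0) (hc : Ccw S A0)
    (hs : ∀ l, A0 l ⊆ A l) (hX : CtrX S A X) (hXV : X ⊆ V) {d d0 m C c L : ℝ} {x0 : ℂ}
    {z : ℂ → ℂ} (hd0 : 0 ≤ d0) (hm0 : 0 ≤ m) (hdm : d0 + 2 * m ≤ d) (hdp : 0 < d)
    (hdL : d ≤ 2 * L) (hm : ∀ a ∈ K33x877.fr S A0, ∀ b, Adj S a b → ‖a - b‖ ≤ m)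
    (ht : ∀ l, Thin S A0 A l d0) (hL : ∀ v ∈ S, ‖v - x0‖ ≤ L) (hC : 1 ≤ C) (hc0 : 0 ≤ c)
    (hA : ArmV S (NetUx346.ff S A0) (Metric.closedBall x0 L) d (2 * L) C c)
    (hz : ∀ a b, ‖z a - z b‖ ≤ ‖a - b‖) :
    ‖TS S A0 z - TS S B z‖ ≤ VisCx877.errC C c L d :=
  VisCx877.cont_TS hT hc h.tr (fun l => (hs l).trans (h.sub l)) ⟨X, h.ctr' hX hXV⟩ hd0 hm0 hdm hdp
    hdL hm (fun l => h.thin hV (ht l)) hL hC hc0 hA hz

end Crest.Agent.R143.Absx97
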