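import Crest.Agent.R143.DomB_722

/-!
# Row 143, block D: angles, sectors, the hull and the classes of boundary sites (helper722)

* `FanA n c L δ R q th` : `n` tentacles (cones) in the directions `exp (i th k)`, `th` increasing,
  region `R k` between the tentacles `k` and `k + 1`; `fanA_of_ok` for `Dom.OK`
* `FanA.sector`, `FanA.sector_conv` : the regions outside the disc of radius `L / 2` are sectors
* `hull_angle` : lifted angles of the hull sites
* `FanA.classes` : the classes of boundary sites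
-/

set_option autoImplicit false

noncomputable section

open scoped Classical

namespace Crest.Agent.R143.DomCx722

open Crest.ProbabilityR.Voronoi MeasureTheory
open Crest.Agent.R143.B0x346 Crest.Agent.R143.B0Dx346 Crest.Agent.R143.DelGx806
open Crest.Agent.R143.DelRx806 Crest.Agent.R143.DomAx722 Crest.Agent.R143.DomBx722

variable {S : Finset ℂ}

/-! ### angles -/

/-- representative in `[-π, π]` -/
theorem exists_rep (x : ℝ) : ∃ m : ℤ, |x - 2 * Real.pi * m| ≤ Real.pi := by
  have hp := Real.pi_pos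
  refine ⟨round (x / (2 * Real.pi)), ?_⟩
  have h := abs_sub_round (x / (2 * Real.pi))
  have e : x - 2 * Real.pi * (round (x / (2 * Real.pi)) : ℝ) =
      2 * Real.pi * (x / (2 * Real.pi) - (round (x / (2 * Real.pi)) : ℝ)) := by
    field_simp
  rw [e, abs_mul, abs_of_pos (by positivity)]
  nlinarith

theorem cos_rep (x : ℝ) (m : ℤ) : Real.cos |x - 2 * Real.pi * m| = Real.cos x := by
  rw [Real.cos_abs, show x - 2 * Real.pi * m = x - m * (2 * Real.pi) by ring,
    Real.cos_sub_int_mul_two_pi]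

theorem cos_lt_of_far {x a : ℝ} (ha : 0 ≤ a) (h : ∀ m : ℤ, a < |x - 2 * Real.pi * m|) :
    Real.cos x < Real.cos a := by
  obtain ⟨m, hm⟩ := exists_rep x
  rw [← cos_rep x m]
  exact Real.cos_lt_cos_of_nonneg_of_le_pi ha hm (h m)

theorem exists_near_of_cos {x a : ℝ} (ha0 : 0 ≤ a)
    (h : Real.cos a ≤ Real.cos x) : ∃ m : ℤ, |x - 2 * Real.pi * m| ≤ a := by
  by_contra hcon
  push Not at hcon
  exact absurd (cos_lt_of_far ha0 hcon) (not_lt.2 h)

theorem exists_near_of_cos_lt {x a : ℝ} (h0 : 0 ≤ a) (h : Real.cos a < Real.cos x) :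
    ∃ m : ℤ, |x - 2 * Real.pi * m| < a := by
  obtain ⟨m, hm⟩ := exists_rep x
  refine ⟨m, ?_⟩
  by_contra hcon
  push Not at hcon
  have := Real.cos_le_cos_of_nonneg_of_le_pi h0 hm hcon
  rw [cos_rep] at this
  linarith

/-! ### cyclic sequences of reals -/

/-- lifted periodic increasing sequence -/
structure Cyc (n : ℕ) (th : ℤ → ℝ) : Prop where
  npos : 0 < n
  mono : StrictMono th
  per : ∀ k, th (k + n) = th k + 2 * Real.pi

theorem Cyc.per_int {n : ℕ} {th : ℤ → ℝ} (h : Cyc n th) (k m : ℤ) :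
    th (k + m * n) = th k + 2 * Real.pi * m := by
  induction m using Int.induction_on with
  | zero => simp
  | succ i ih =>
    have : k + (i + 1 : ℤ) * n = (k + i * n) + n := by ring
    rw [this, h.per, ih]; push_cast; ring
  | pred i ih =>
    have h1 := h.per (k + (-i - 1 : ℤ) * n)
    have : k + (-i - 1 : ℤ) * n + n = k + (-i : ℤ) * n := by ring
    rw [this, ih] at h1
    push_cast at h1 ⊢
    linarith

/-- every real is between two consecutive terms -/
theorem Cyc.exists_between {n : ℕ} {th : ℤ → ℝ} (h : Cyc n th) (x : ℝ) :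
    ∃ k : ℤ, th k ≤ x ∧ x < th (k + 1) := by
  have hp := Real.pi_pos
  -- a lower and an upper bound
  obtain ⟨M, hM⟩ : ∃ M : ℤ, x < th (M * n) := by
    refine ⟨⌈(x - th 0) / (2 * Real.pi)⌉ + 1, ?_⟩
    have h1 := h.per_int 0 (⌈(x - th 0) / (2 * Real.pi)⌉ + 1)
    rw [zero_add] at h1
    rw [h1]
    have h2 := Int.le_ceil ((x - th 0) / (2 * Real.pi))
    rw [div_le_iff₀ (by positivity)] at h2
    push_cast
    nlinarith
  obtain ⟨m, hm⟩ : ∃ m : ℤ, th (m * n) ≤ x := by
    refine ⟨⌊(x - th 0) / (2 * Real.pi)⌋, ?_⟩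
    have h1 := h.per_int 0 ⌊(x - th 0) / (2 * Real.pi)⌋
    rw [zero_add] at h1
    rw [h1]
    have h2 := Int.floor_le ((x - th 0) / (2 * Real.pi))
    rw [le_div_iff₀ (by positivity)] at h2
    nlinarith
  obtain ⟨k, hk, hk'⟩ := Int.exists_greatest_of_bdd (P := fun k => th k ≤ x)
    ⟨M * n, fun k hk => by
      by_contra hcon
      push Not at hcon
      have := h.mono hcon
      linarith⟩ ⟨m * n, hm⟩
  refine ⟨k, hk, ?_⟩
  by_contra hcon
  push Not at hcon
  have := hk' (k + 1) hcon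
  omega

/-! ### cones between regions, with angles -/

/-- outside regions and `n` cone tentacles in the directions `exp (i th k)` -/
structure FanA (n : ℕ) (c : ℂ) (L δ : ℝ) (R : ZMod n → Set ℂ) (q : ZMod n → ℂ) (th : ℤ → ℝ) :
    Prop where
  fan : Fan c L δ R q
  cyc : Cyc n th
  dir : ∀ k : ℤ, q (k : ZMod n) = Complex.exp (th k * Complex.I)
  sect : ∀ k : ZMod n, ∀ r : ℝ, L / 2 < r → ∃ e > 0, ∀ φ : ℝ, Real.arcsin (δ / L) < φ →
    φ < Real.arcsin (δ / L) + e →
    c + r * (q k * Complex.exp (φ * Complex.I)) ∈ R k ∧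
    c + r * (q k * Complex.exp (-(φ * Complex.I))) ∈ R (k - 1)

section FanA

variable {n : ℕ} {c : ℂ} {L δ d : ℝ} {R : ZMod n → Set ℂ} {q : ZMod n → ℂ} {th : ℤ → ℝ}

theorem exp_add_I (a b : ℝ) : Complex.exp (a * Complex.I) * Complex.exp (b * Complex.I) =
    Complex.exp (((a + b : ℝ) : ℂ) * Complex.I) := by
  rw [← Complex.exp_add]; congr 1; push_cast; ring

/-- polar form with respect to a direction -/
theorem pol_eq (c : ℂ) (r θ ψ : ℝ) : c + (r : ℂ) * Complex.exp (θ * Complex.I) =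
    c + r * (Complex.exp (ψ * Complex.I) * Complex.exp (((θ - ψ : ℝ) : ℂ) * Complex.I)) := by
  rw [exp_add_I]; congr 4; push_cast; ring

theorem FanA.left (hF : FanA n c L δ R q th) (k : ℤ) {r : ℝ} (hr : L / 2 < r) {m : ℝ}
    (hm : 0 < m) : ∃ φ, ang (δ / L) < φ ∧ φ < ang (δ / L) + m ∧
      c + r * Complex.exp (((th k + φ : ℝ) : ℂ) * Complex.I) ∈ R (k : ZMod n) := by
  obtain ⟨e, he, h⟩ := hF.sect k r hr
  have h0 : 0 < min m e := lt_min hm he
  have h1 := min_le_left m e
  have h2 := min_le_right m e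
  have := (h (ang (δ / L) + min m e / 2) (by unfold ang; linarith) (by unfold ang; linarith)).1
  rw [hF.dir, exp_add_I] at this
  exact ⟨ang (δ / L) + min m e / 2, by linarith, by linarith, this⟩

theorem FanA.ang_pos (hF : FanA n c L δ R q th) : 0 < ang (δ / L) :=
  DomAx722.ang_pos hF.fan.eta_pos

theorem FanA.ang_lt (hF : FanA n c L δ R q th) : ang (δ / L) < Real.pi / 2 :=
  DomAx722.ang_lt hF.fan.eta_lt

/-- membership in the cone `k` by angles -/
theorem FanA.mem_cone (hF : FanA n c L δ R q th) {r θ : ℝ} (hr : 0 ≤ r) {k : ℤ}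
    (h : |θ - th k| ≤ ang (δ / L)) :
    c + r * Complex.exp (θ * Complex.I) ∈ cone c (q (k : ZMod n)) (δ / L) := by
  have hp := Real.pi_pos
  have h1 := hF.ang_lt
  rw [pol_eq c r θ (th k), ← hF.dir k]
  refine cone_mem (hF.fan.qn _) hr hF.fan.eta_pos.le hF.fan.eta_lt.le ?_
  rw [← Real.cos_abs (θ - th k)]
  exact Real.cos_le_cos_of_nonneg_of_le_pi (abs_nonneg _) (by linarith) h

/-- points which are in no cone -/
theorem FanA.notMem_cone (hF : FanA n c L δ R q th) {r θ : ℝ} (hr : 0 < r) {k : ℤ}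
    (h1 : th k + ang (δ / L) < θ) (h2 : θ < th (k + 1) - ang (δ / L)) (l : ZMod n) :
    c + r * Complex.exp (θ * Complex.I) ∉ cone c (q l) (δ / L) := by
  have : NeZero n := ⟨hF.cyc.npos.ne'⟩
  have ha := hF.ang_pos
  have hl : ((l.val : ℤ) : ZMod n) = l := by
    rw [Int.cast_natCast, ZMod.natCast_zmod_val]
  rw [← hl, hF.dir, pol_eq c r θ (th l.val)]
  refine cone_notMem (Complex.norm_exp_ofReal_mul_I _) hr hF.fan.eta_pos.le hF.fan.eta_lt ?_
  refine cos_lt_of_far ha.le fun m => ?_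
  have e := hF.cyc.per_int l.val m
  have e2 : θ - th l.val - 2 * Real.pi * m = θ - th (l.val + m * n) := by rw [e]; ring
  rw [e2]
  rcases le_or_gt ((l.val : ℤ) + m * n) k with h | h
  · have := hF.cyc.mono.monotone h
    rw [lt_abs]; left; linarith
  · have := hF.cyc.mono.monotone (show k + 1 ≤ (l.val : ℤ) + m * n by omega)
    rw [lt_abs]; right; linarith

/-- **the gap between two tentacles** -/
theorem FanA.gap (hF : FanA n c L δ R q th) (k : ℤ) : th k + 2 * ang (δ / L) < th (k + 1) := by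
  by_contra hcon
  push Not at hcon
  have hL := hF.fan.Lpos
  have hm := hF.cyc.mono (lt_add_one k)
  obtain ⟨φ, f1, f2, hz⟩ := hF.left k (r := L) (by linarith) (m := th (k + 1) - th k) (by linarith)
  refine hF.fan.not_cone ?_ hz ((k + 1 : ℤ) : ZMod n) (hF.mem_cone hL.le ?_)
  · rw [norm_rad (Complex.norm_exp_ofReal_mul_I _) hL.le]; linarith
  · rw [abs_le]
    constructor <;> linarith

/-- **the regions contain the sectors** -/
theorem FanA.sector (hF : FanA n c L δ R q th) {r θ : ℝ} (hr : L / 2 < r) {k : ℤ}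
    (h1 : th k + ang (δ / L) < θ) (h2 : θ < th (k + 1) - ang (δ / L)) :
    c + r * Complex.exp (θ * Complex.I) ∈ R (k : ZMod n) := by
  have hL := hF.fan.Lpos
  obtain ⟨φ, f1, f2, hz⟩ := hF.left k hr (m := θ - th k - ang (δ / L)) (by linarith)
  have hcont : Continuous fun x : ℝ => c + (r : ℂ) * Complex.exp (x * Complex.I) := by fun_prop
  have hpre : IsPreconnected ((fun x : ℝ => c + (r : ℂ) * Complex.exp (x * Complex.I)) ''
    Set.Icc (th k + φ) θ) := isPreconnected_Icc.image _ hcont.continuousOn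
  refine hF.fan.conn hpre ?_ ⟨th k + φ, ⟨le_rfl, by linarith⟩, rfl⟩ hz
    ⟨θ, ⟨by linarith, le_rfl⟩, rfl⟩
  rintro z ⟨x, ⟨hx1, hx2⟩, rfl⟩
  refine hF.fan.mem_out ?_ fun l => hF.notMem_cone (k := k) (by linarith) (by linarith) (by linarith) l
  rw [norm_rad (Complex.norm_exp_ofReal_mul_I _) (by linarith)]
  exact hr

/-- **the regions are the sectors** -/
theorem FanA.sector_conv (hF : FanA n c L δ R q th) {r θ : ℝ} (hr : L / 2 < r) {l : ZMod n}
    (h : c + r * Complex.exp (θ * Complex.I) ∈ R l) :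
    ∃ k : ℤ, (k : ZMod n) = l ∧ th k + ang (δ / L) < θ ∧ θ < th (k + 1) - ang (δ / L) := by
  have hL := hF.fan.Lpos
  have ha := hF.ang_pos
  obtain ⟨k, hk1, hk2⟩ := hF.cyc.exists_between θ
  have hn : L / 2 < ‖c + r * Complex.exp (θ * Complex.I) - c‖ := by
    rw [norm_rad (Complex.norm_exp_ofReal_mul_I _) (by linarith)]; exact hr
  have g1 : th k + ang (δ / L) < θ := by
    by_contra hcon
    push Not at hcon
    refine hF.fan.not_cone hn h (k : ZMod n) (hF.mem_cone (by linarith) ?_)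
    rw [abs_le]
    constructor <;> linarith
  have g2 : θ < th (k + 1) - ang (δ / L) := by
    by_contra hcon
    push Not at hcon
    refine hF.fan.not_cone hn h ((k + 1 : ℤ) : ZMod n) (hF.mem_cone (by linarith) ?_)
    rw [abs_le]
    constructor <;> linarith
  refine ⟨k, ?_, g1, g2⟩
  by_contra hkl
  exact hF.fan.disj hkl (hF.sector hr g1 g2) h

end FanA

/-! ### the hull seen from the centre -/

/-- primitive of an integer sequence -/
theorem exists_prim (g : ℤ → ℝ) (x : ℝ) : ∃ F : ℤ → ℝ, F 0 = x ∧ ∀ j, F (j + 1) = F j + g j := by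
  refine ⟨fun j => x + (∑ i ∈ Finset.Ico 0 j, g i) - ∑ i ∈ Finset.Ico j 0, g i, by simp,
    fun j => ?_⟩
  rcases le_or_gt 0 j with h | h
  · have h1 : Finset.Ico (j + 1) 0 = ∅ := Finset.Ico_eq_empty (by omega)
    have h2 : Finset.Ico j 0 = ∅ := Finset.Ico_eq_empty (by omega)
    have h3 : Finset.Ico 0 (j + 1) = insert j (Finset.Ico 0 j) := by
      ext i; simp only [Finset.mem_Ico, Finset.mem_insert]; omega
    dsimp only
    rw [h1, h2, h3, Finset.sum_insert (by simp)]
    simp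
    ring
  · have h1 : Finset.Ico 0 (j + 1) = ∅ := Finset.Ico_eq_empty (by omega)
    have h2 : Finset.Ico 0 j = ∅ := Finset.Ico_eq_empty (by omega)
    have h3 : Finset.Ico j 0 = insert j (Finset.Ico (j + 1) 0) := by
      ext i; simp only [Finset.mem_Ico, Finset.mem_insert]; omega
    dsimp only
    rw [h1, h2, h3, Finset.sum_insert (by simp)]
    simp
    ring

/-- polar form by an angle -/
theorem exists_pol_angle (c z : ℂ) : z = c + (‖z - c‖ : ℝ) * Complex.exp ((z - c).arg * Complex.I) := by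
  have := Complex.norm_mul_exp_arg_mul_I (z - c)
  rw [this]; ring

theorem cr_pol (a b α β : ℝ) : cr ((a : ℂ) * Complex.exp (α * Complex.I))
    ((b : ℂ) * Complex.exp (β * Complex.I)) = a * b * Real.sin (β - α) := by
  unfold cr
  simp only [Complex.mul_re, Complex.mul_im, Complex.ofReal_re, Complex.ofReal_im,
    Complex.exp_ofReal_mul_I_re, Complex.exp_ofReal_mul_I_im]
  rw [Real.sin_sub]; ring

/-- lifted angles of the hull sites seen from `c` -/
structure HAng (S : Finset ℂ) (c : ℂ) (N : ℕ) (w : ℤ → ℂ) (ϑ : ℤ → ℝ) : Prop where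
  hull : HullCyc S N w
  cyc : Cyc N ϑ
  lt_pi : ∀ j, ϑ (j + 1) < ϑ j + Real.pi
  rpos : ∀ j, 0 < ‖w j - c‖
  pol : ∀ j, w j = c + (‖w j - c‖ : ℝ) * Complex.exp (ϑ j * Complex.I)

/-- two hull edges crossed by the same ray are crossed at the same point -/
theorem exit_unique {c : ℂ} {L d : ℝ} (hS : Dns S c L d) {a b a' b' u : ℂ} {t t' : ℝ}
    (h : hullE S a b) (h' : hullE S a' b') (ht : c + t * u ∈ segment ℝ a b)
    (ht' : c + t' * u ∈ segment ℝ a' b') (h0 : 0 ≤ t) (h0' : 0 ≤ t') : t = t' := by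
  have hL := hS.dL
  have hd := hS.dpos
  have key : ∀ (a b a' b' : ℂ) (t t' : ℝ), hullE S a b → hullE S a' b' →
      c + t * u ∈ segment ℝ a b → c + t' * u ∈ segment ℝ a' b' → 0 ≤ t → 0 ≤ t' → t' ≤ t := by
    intro a b a' b' t t' h h' ht ht' h0 h0'
    have hA : 0 < cr (b - a) (c - a) := by
      have h1 := edge_dist hS h
      have : 0 < ‖b - a‖ := norm_pos_iff.2 (sub_ne_zero.2 (hullE.ne h).symm)
      exact lt_of_lt_of_le (mul_pos (by linarith) this) h1
    have hexp : ∀ t : ℝ, cr (b - a) (c + t * u - a) = cr (b - a) (c - a) + t * cr (b - a) u := by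
      intro t
      have : c + t * u - a = (c - a) + (t : ℂ) * u := by ring
      rw [this, cr_add_right, cr_smul_right]
    have h1 : cr (b - a) (c + t * u - a) = 0 := by
      rw [segment_eq_image] at ht
      obtain ⟨r, -, hr⟩ := ht
      simp only [Complex.real_smul] at hr
      have : c + t * u - a = (r : ℂ) * (b - a) := by rw [← hr]; push_cast; ring
      rw [this, cr_smul_right, cr_self, mul_zero]
    have h2 : 0 ≤ cr (b - a) (c + t' * u - a) := by
      have ga := hull_side h a' (hullE.mem h').1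
      have gb := hull_side h b' (hullE.mem h').2
      rw [segment_eq_image] at ht'
      obtain ⟨r, ⟨hr0, hr1⟩, hr⟩ := ht'
      simp only [Complex.real_smul] at hr
      have : c + t' * u - a = (((1 - r : ℝ) : ℂ)) * (a' - a) + (r : ℂ) * (b' - a) := by
        rw [← hr]; push_cast; ring
      rw [this, cr_add_right, cr_smul_right, cr_smul_right]
      have := mul_nonneg (sub_nonneg.2 hr1) ga
      have := mul_nonneg hr0 gb
      linarith
    rw [hexp] at h1 h2
    by_contra hcon
    push Not at hcon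
    have hB : cr (b - a) u < 0 := by
      by_contra hB
      push Not at hB
      have := mul_nonneg h0 hB
      linarith
    have := mul_lt_mul_of_neg_right hcon hB
    linarith
  exact le_antisymm (key a' b' a b t' t h' h ht' ht h0' h0) (key a b a' b' t t' h h' ht ht' h0 h0')

/-- the ray between two consecutive directions crosses the edge -/
theorem ray_cross {c : ℂ} {ρ ρ' α β θ : ℝ} (hρ : 0 < ρ) (hρ' : 0 < ρ') (h1 : α ≤ θ) (h2 : θ ≤ β)
    (h3 : β < α + Real.pi) (h4 : α < β) : ∃ t : ℝ, 0 < t ∧ c + t * Complex.exp (θ * Complex.I) ∈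
    segment ℝ (c + ρ * Complex.exp (α * Complex.I)) (c + ρ' * Complex.exp (β * Complex.I)) := by
  have hp := Real.pi_pos
  have sa : 0 ≤ Real.sin (θ - α) := Real.sin_nonneg_of_nonneg_of_le_pi (by linarith) (by linarith)
  have sb : 0 ≤ Real.sin (β - θ) := Real.sin_nonneg_of_nonneg_of_le_pi (by linarith) (by linarith)
  have sc : 0 < Real.sin (β - α) := Real.sin_pos_of_pos_of_lt_pi (by linarith) (by linarith)
  have hsum : 0 < Real.sin (β - θ) / ρ + Real.sin (θ - α) / ρ' := by
    have g1 : 0 ≤ Real.sin (β - θ) / ρ := by positivity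
    have g2 : 0 ≤ Real.sin (θ - α) / ρ' := by positivity
    rcases eq_or_lt_of_le sb with h | h
    · have : Real.sin (θ - α) ≠ 0 := by
        intro h'
        have e : β - α = (β - θ) + (θ - α) := by ring
        rw [e, Real.sin_add, ← h, h'] at sc
        simp at sc
      have : 0 < Real.sin (θ - α) := lt_of_le_of_ne sa (Ne.symm this)
      have : 0 < Real.sin (θ - α) / ρ' := by positivity
      linarith
    · have : 0 < Real.sin (β - θ) / ρ := by positivity
      linarith
  set s := Real.sin (β - θ) / ρ + Real.sin (θ - α) / ρ' with hs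
  refine ⟨Real.sin (β - α) / s, by positivity, ?_⟩
  rw [segment_eq_image]
  refine ⟨Real.sin (θ - α) / ρ' / s, ⟨by positivity, ?_⟩, ?_⟩
  · rw [div_le_one hsum, hs]
    have : 0 ≤ Real.sin (β - θ) / ρ := by positivity
    linarith
  · simp only [Complex.real_smul]
    have e1 : (1 - Real.sin (θ - α) / ρ' / s) = Real.sin (β - θ) / ρ / s := by
      rw [eq_div_iff hsum.ne', sub_mul, one_mul, div_mul_cancel₀ _ hsum.ne', hs]; ring
    rw [e1]
    have key : ((Real.sin (β - θ) : ℝ) : ℂ) * Complex.exp (α * Complex.I) +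
        ((Real.sin (θ - α) : ℝ) : ℂ) * Complex.exp (β * Complex.I) =
        ((Real.sin (β - α) : ℝ) : ℂ) * Complex.exp (θ * Complex.I) := by
      apply Complex.ext
      · simp only [Complex.add_re, Complex.mul_re, Complex.ofReal_re, Complex.ofReal_im,
          Complex.exp_ofReal_mul_I_re, zero_mul, sub_zero]
        rw [Real.sin_sub, Real.sin_sub, Real.sin_sub]; ring
      · simp only [Complex.add_im, Complex.mul_im, Complex.ofReal_re, Complex.ofReal_im,
          Complex.exp_ofReal_mul_I_im, zero_mul, add_zero]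
        rw [Real.sin_sub, Real.sin_sub, Real.sin_sub]; ring
    have hsum1 : ((Real.sin (β - θ) / ρ / s : ℝ) : ℂ) + ((Real.sin (θ - α) / ρ' / s : ℝ) : ℂ) = 1 := by
      rw [← Complex.ofReal_add, ← e1]; push_cast; ring
    have hρc : (ρ : ℂ) ≠ 0 := by exact_mod_cast hρ.ne'
    have hρc' : (ρ' : ℂ) ≠ 0 := by exact_mod_cast hρ'.ne'
    have hsc : (s : ℂ) ≠ 0 := by exact_mod_cast hsum.ne'
    have e3 : ((Real.sin (β - θ) / ρ / s : ℝ) : ℂ) * (c + ρ * Complex.exp (α * Complex.I)) +
        ((Real.sin (θ - α) / ρ' / s : ℝ) : ℂ) * (c + ρ' * Complex.exp (β * Complex.I)) =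
        (((Real.sin (β - θ) / ρ / s : ℝ) : ℂ) + ((Real.sin (θ - α) / ρ' / s : ℝ) : ℂ)) * c +
        (((Real.sin (β - θ) : ℝ) : ℂ) * Complex.exp (α * Complex.I) +
        ((Real.sin (θ - α) : ℝ) : ℂ) * Complex.exp (β * Complex.I)) / s := by
      simp only [Complex.ofReal_div]
      field_simp
      ring
    rw [e3, hsum1, key, one_mul]
    simp only [Complex.ofReal_div]
    field_simp

theorem hullcyc_two {N : ℕ} {w : ℤ → ℂ} (hw : HullCyc S N w) : 2 ≤ N := by
  by_contra hcon
  have h1 := hw.pos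
  have h2 : N = 1 := by omega
  have h3 := hw.per 0
  have h4 := hullE.ne (hw.edge 0)
  rw [h2] at h3
  exact h4 (by simpa using h3.symm)

/-- **lifted angles of the hull** -/
theorem hull_angle {c : ℂ} {L d : ℝ} (hS : Dns S c L d) {N : ℕ} {w : ℤ → ℂ} (hw : HullCyc S N w) :
    ∃ ϑ, HAng S c N w ϑ := by
  have hL := hS.dL
  have hd := hS.dpos
  have hp := Real.pi_pos
  have hN := hw.pos
  have hr : ∀ j, 0 < ‖w j - c‖ := fun j => by
    have := (hull_far hS (hw.edge j)).1
    linarith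
  have hcr : ∀ j, 0 < cr (w j - c) (w (j + 1) - c) := fun j => by
    have h1 := edge_dist hS (hw.edge j)
    have : 0 < ‖w (j + 1) - w j‖ := norm_pos_iff.2 (sub_ne_zero.2 (hullE.ne (hw.edge j)).symm)
    have h2 := lt_of_lt_of_le (mul_pos (by linarith) this) h1
    have e : cr (w (j + 1) - w j) (c - w j) = cr (w j - c) (w (j + 1) - c) := by
      unfold cr; simp only [Complex.sub_re, Complex.sub_im]; ring
    rwa [e] at h2
  -- increments
  set y : ℤ → ℝ := fun j => (w j - c).arg with hy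
  have hwy : ∀ j, w j - c = ((‖w j - c‖ : ℝ) : ℂ) * Complex.exp (y j * Complex.I) := fun j =>
    (Complex.norm_mul_exp_arg_mul_I (w j - c)).symm
  have hinc : ∀ j, ∃ g : ℝ, 0 < g ∧ g < Real.pi ∧
      Complex.exp (y (j + 1) * Complex.I) = Complex.exp (((y j + g : ℝ) : ℂ) * Complex.I) := by
    intro j
    obtain ⟨m, hm⟩ := exists_rep (y (j + 1) - y j)
    have h2 := hcr j
    rw [hwy j, hwy (j + 1), cr_pol] at h2
    have g1 := hr j
    have g2 := hr (j + 1)
    rw [show y (j + 1) - y j = (y (j + 1) - y j - 2 * Real.pi * m) + m * (2 * Real.pi) by ring,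
      Real.sin_add_int_mul_two_pi] at h2
    rw [abs_le] at hm
    refine ⟨y (j + 1) - y j - 2 * Real.pi * m, ?_, ?_, ?_⟩
    · by_contra hcon
      push Not at hcon
      have h3 := Real.sin_nonpos_of_nonpos_of_neg_pi_le hcon hm.1
      have := mul_nonpos_of_nonneg_of_nonpos (mul_pos g1 g2).le h3
      linarith
    · refine lt_of_le_of_ne hm.2 fun h3 => ?_
      rw [h3, Real.sin_pi, mul_zero] at h2
      exact lt_irrefl _ h2
    · have : (((y j + (y (j + 1) - y j - 2 * Real.pi * m) : ℝ) : ℂ)) * Complex.I =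
          y (j + 1) * Complex.I - m * (2 * Real.pi * Complex.I) := by push_cast; ring
      rw [this, Complex.exp_sub, Complex.exp_int_mul_two_pi_mul_I, div_one]
  choose g hg0 hg1 hg2 using hinc
  obtain ⟨F, hF0, hF⟩ := exists_prim g (y 0)
  have hexp : ∀ j, Complex.exp (F j * Complex.I) = Complex.exp (y j * Complex.I) := by
    intro j
    induction j using Int.induction_on with
    | zero => rw [hF0]
    | succ i ih => rw [hF, hg2, ← exp_add_I, ← exp_add_I, ih]
    | pred i ih =>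
      have h1 := hF (-i - 1)
      have h2 := hg2 (-i - 1)
      rw [sub_add_cancel] at h1 h2
      rw [h1] at ih
      rw [← ih, ← exp_add_I, ← exp_add_I] at h2
      exact mul_right_cancel₀ (Complex.exp_ne_zero _) h2
  have hmono : StrictMono F := strictMono_int_of_lt_succ fun j => by rw [hF]; linarith [hg0 j]
  have hlt : ∀ j, F (j + 1) < F j + Real.pi := fun j => by rw [hF]; linarith [hg1 j]
  have hpol : ∀ j, w j = c + (‖w j - c‖ : ℝ) * Complex.exp (F j * Complex.I) := fun j => by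
    rw [hexp, ← hwy]; ring
  refine ⟨F, hw, ⟨hN, hmono, fun j => ?_⟩, hlt, hr, hpol⟩
  -- one turn
  obtain ⟨m, hm⟩ : ∃ m : ℤ, F (j + N) = F j + 2 * Real.pi * m := by
    have h1 : Complex.exp (F (j + N) * Complex.I) = Complex.exp (F j * Complex.I) := by
      rw [hexp, hexp, hy]
      dsimp only
      rw [hw.per]
    rw [Complex.exp_eq_exp_iff_exists_int] at h1
    obtain ⟨m, hm⟩ := h1
    refine ⟨m, ?_⟩
    have h2 : (F (j + N) : ℂ) = F j + m * (2 * Real.pi) := by
      have hI : (Complex.I : ℂ) ≠ 0 := Complex.I_ne_zero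
      apply mul_right_cancel₀ hI
      rw [hm]; ring
    have h3 : F (j + N) = F j + m * (2 * Real.pi) := by exact_mod_cast h2
    rw [h3]; ring
  have hm0 : 0 < m := by
    have h1 : F j < F (j + N) := hmono (by omega)
    rw [hm] at h1
    have h2 : 0 < (m : ℝ) := by
      by_contra hcon
      push Not at hcon
      nlinarith
    exact_mod_cast h2
  have hm1 : m < 2 := by
    by_contra hcon
    push Not at hcon
    have h2 : (2 : ℝ) ≤ m := by exact_mod_cast hcon
    have h4 : F j + 4 * Real.pi ≤ F (j + N) := by rw [hm]; nlinarith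
    obtain ⟨i, hi, hi'⟩ := Int.exists_greatest_of_bdd (P := fun i => F i ≤ F j + 2 * Real.pi)
      ⟨j + N, fun k hk => by
        by_contra hcon
        push Not at hcon
        have := hmono hcon
        linarith⟩ ⟨j, by linarith⟩
    have i1 : j + 1 ≤ i := hi' (j + 1) (by have := hlt j; linarith)
    have i2 : F j + 2 * Real.pi < F (i + 1) := by
      by_contra hcon
      push Not at hcon
      have := hi' (i + 1) hcon
      omega
    have i3 : i + 1 < j + N := by
      by_contra hcon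
      push Not at hcon
      have h5 := hmono.monotone hcon
      have h6 := hlt i
      linarith
    obtain ⟨t, ht, hseg⟩ := ray_cross (c := c) (hr i) (hr (i + 1)) hi i2.le (hlt i)
      (hmono (lt_add_one i))
    rw [← hpol, ← hpol] at hseg
    have e1 : Complex.exp (((F j + 2 * Real.pi : ℝ) : ℂ) * Complex.I) =
        Complex.exp (F j * Complex.I) := by
      have : ((F j + 2 * Real.pi : ℝ) : ℂ) * Complex.I = F j * Complex.I + 2 * Real.pi * Complex.I := by
        push_cast; ring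
      rw [this, Complex.exp_add, Complex.exp_two_pi_mul_I, mul_one]
    rw [e1] at hseg
    have hj : c + (‖w j - c‖ : ℝ) * Complex.exp (F j * Complex.I) ∈ segment ℝ (w j) (w (j + 1)) := by
      rw [← hpol]; exact left_mem_segment ℝ _ _
    have := exit_unique hS (hw.edge i) (hw.edge j) hseg hj ht.le (hr j).le
    rw [this, ← hpol] at hseg
    have n1 : w i ≠ w j := (ne_of_lt hN hw.per hw.inj (by omega) (by omega)).symm
    have n2 : w (i + 1) ≠ w j := (ne_of_lt hN hw.per hw.inj (by omega) (by omega)).symm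
    have h7 := hull_side_lt hS.gp (hw.edge i) (hullE.mem (hw.edge j)).1 n1 n2
    rw [segment_eq_image] at hseg
    obtain ⟨r, -, hr'⟩ := hseg
    simp only [Complex.real_smul] at hr'
    have e2 : w j - w i = (r : ℂ) * (w (i + 1) - w i) := by rw [← hr']; push_cast; ring
    rw [e2, cr_smul_right, cr_self, mul_zero] at h7
    exact lt_irrefl _ h7
  have : m = 1 := by omega
  rw [hm, this]
  push_cast
  ring

/-! ### the edges crossed by the tentacles -/

section Arr

variable {n N : ℕ} {c : ℂ} {L δ d : ℝ} {R : ZMod n → Set ℂ} {q : ZMod n → ℂ} {th ϑ : ℤ → ℝ}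
  {w : ℤ → ℂ}

/-- two close points far from the centre have close angles -/
theorem cos_of_close {ρ ρ' α β : ℝ} (hL : 0 < L) (hδ : 0 < δ) (hδL : δ < L)
    (hρ : 3 / 4 * L ≤ ρ) (hρ' : 3 / 4 * L ≤ ρ')
    (h : ‖(ρ : ℂ) * Complex.exp (α * Complex.I) - ρ' * Complex.exp (β * Complex.I)‖ ^ 2 ≤
      25 * (L * d)) (hd : 400 * (L * d) ≤ δ ^ 2) :
    Real.cos (ang (δ / L)) < Real.cos (β - α) := by
  have h1 : ‖(ρ : ℂ) * Complex.exp (α * Complex.I) - ρ' * Complex.exp (β * Complex.I)‖ ^ 2 =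
      (ρ - ρ') ^ 2 + 2 * (ρ * ρ') * (1 - Real.cos (β - α)) := by
    rw [sq_norm]
    simp only [Complex.sub_re, Complex.sub_im, Complex.mul_re, Complex.mul_im, Complex.ofReal_re,
      Complex.ofReal_im, Complex.exp_ofReal_mul_I_re, Complex.exp_ofReal_mul_I_im]
    rw [Real.cos_sub]
    linear_combination ρ ^ 2 * Real.sin_sq_add_cos_sq α + ρ' ^ 2 * Real.sin_sq_add_cos_sq β
  rw [h1] at h
  have h2 : 0 ≤ 1 - Real.cos (β - α) := by linarith [Real.cos_le_one (β - α)]
  have h3 : 9 / 16 * L ^ 2 ≤ ρ * ρ' := by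
    calc 9 / 16 * L ^ 2 = (3 / 4 * L) * (3 / 4 * L) := by ring
      _ ≤ ρ * ρ' := mul_le_mul hρ hρ' (by positivity) (by linarith)
  have h4 : 9 / 8 * L ^ 2 * (1 - Real.cos (β - α)) ≤ δ ^ 2 / 16 := by
    have := mul_le_mul_of_nonneg_right h3 h2
    nlinarith [sq_nonneg (ρ - ρ')]
  have h5 : 1 - Real.cos (β - α) ≤ (δ / L) ^ 2 / 18 := by
    rw [div_pow, div_div, le_div_iff₀ (by positivity)]
    nlinarith
  have h6 : Real.cos (ang (δ / L)) ≤ 1 - (δ / L) ^ 2 / 2 := by
    have e0 : 0 < δ / L := by positivity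
    have e1 : δ / L < 1 := by rw [div_lt_one hL]; exact hδL
    have h7 := Real.sin_sq_add_cos_sq (ang (δ / L))
    rw [sin_ang e0.le e1.le] at h7
    refine le_of_sq_le_sq ?_ (by nlinarith)
    nlinarith [sq_nonneg ((δ / L) ^ 2)]
  have : 0 < (δ / L) ^ 2 := by positivity
  linarith

/-- consecutive hull sites have close angles -/
theorem HAng.inc (hH : HAng S c N w ϑ) (hF : FanA n c L δ R q th) (hS : Dns S c L d)
    (hd : 400 * (L * d) ≤ δ ^ 2) (j : ℤ) : ϑ (j + 1) < ϑ j + ang (δ / L) := by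
  have hL := hS.dL
  have hdp := hS.dpos
  have hp := Real.pi_pos
  have h1 := edge_len hS (hH.hull.edge j)
  have h2 := (hull_far hS (hH.hull.edge j)).1
  have h3 := (hull_far hS (hH.hull.edge j)).2
  have h4 : ‖((‖w (j + 1) - c‖ : ℝ) : ℂ) * Complex.exp (ϑ (j + 1) * Complex.I) -
      ((‖w j - c‖ : ℝ) : ℂ) * Complex.exp (ϑ j * Complex.I)‖ ^ 2 ≤ 25 * (L * d) := by
    have e : ((‖w (j + 1) - c‖ : ℝ) : ℂ) * Complex.exp (ϑ (j + 1) * Complex.I) -
        ((‖w j - c‖ : ℝ) : ℂ) * Complex.exp (ϑ j * Complex.I) = w (j + 1) - w j := by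
      conv_rhs => rw [hH.pol j, hH.pol (j + 1)]
      ring
    rw [e]
    calc ‖w (j + 1) - w j‖ ^ 2 ≤ (4 * Real.sqrt (L * d)) ^ 2 :=
          pow_le_pow_left₀ (norm_nonneg _) h1 2
      _ = 16 * (L * d) := by rw [mul_pow, Real.sq_sqrt (by nlinarith)]; norm_num
      _ ≤ 25 * (L * d) := by nlinarith
  have h5 := cos_of_close hF.fan.Lpos hF.fan.dpos hF.fan.lt (by linarith) (by linarith) h4 hd
  have h6 := hH.cyc.mono (lt_add_one j)
  have h7 := hH.lt_pi j
  by_contra hcon
  push Not at hcon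
  have e9 : Real.cos (ϑ j - ϑ (j + 1)) = Real.cos (ϑ (j + 1) - ϑ j) := by
    rw [← Real.cos_neg]; congr 1; ring
  rw [e9] at h5
  have := Real.cos_le_cos_of_nonneg_of_le_pi hF.ang_pos.le (by linarith : ϑ (j + 1) - ϑ j ≤ Real.pi)
    (by linarith)
  linarith

/-- **the index of the edge crossed by a ray** -/
theorem HAng.index (hH : HAng S c N w ϑ) (hS : Dns S c L d) {θ : ℝ} {p : ℂ × ℂ}
    (hp : crossRay S c (Complex.exp (θ * Complex.I)) p) :
    ∃ j : ℤ, p = (w j, w (j + 1)) ∧ ϑ j ≤ θ ∧ θ ≤ ϑ (j + 1) := by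
  have hL := hS.dL
  have hdp := hS.dpos
  have hpi := Real.pi_pos
  obtain ⟨hh, t, ht0, ht⟩ := hp
  obtain ⟨i, -, -, hi1, hi2⟩ := hH.hull.all _ _ hh
  rw [← hi1, ← hi2, segment_eq_image] at ht
  obtain ⟨r, ⟨hr0, hr1⟩, hr⟩ := ht
  simp only [Complex.real_smul] at hr
  set ρ := ‖w i - c‖ with hρ
  set ρ' := ‖w (i + 1) - c‖ with hρ'
  have g1 : 0 < ρ := hH.rpos i
  have g2 : 0 < ρ' := hH.rpos (i + 1)
  have e0 : (t : ℂ) * Complex.exp (θ * Complex.I) =
      ((1 - r : ℝ) : ℂ) * (ρ * Complex.exp (ϑ i * Complex.I)) +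
      (r : ℂ) * (ρ' * Complex.exp (ϑ (i + 1) * Complex.I)) := by
    have h1 : c + (t : ℂ) * Complex.exp (θ * Complex.I) = ((1 - r : ℝ) : ℂ) * w i + r * w (i + 1) :=
      hr.symm
    rw [hH.pol i, hH.pol (i + 1), ← hρ, ← hρ'] at h1
    have h2 : (t : ℂ) * Complex.exp (θ * Complex.I) =
        ((1 - r : ℝ) : ℂ) * (c + ρ * Complex.exp (ϑ i * Complex.I)) +
        r * (c + ρ' * Complex.exp (ϑ (i + 1) * Complex.I)) - c := by rw [← h1]; ring
    rw [h2]
    push_cast
    ring
  have hinc := hH.cyc.mono (lt_add_one i)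
  have hinc' := hH.lt_pi i
  have hs : 0 < Real.sin (ϑ (i + 1) - ϑ i) :=
    Real.sin_pos_of_pos_of_lt_pi (by linarith) (by linarith)
  have hgen : ∀ A B : ℂ, cr A (((1 - r : ℝ) : ℂ) * A + (r : ℂ) * B) = r * cr A B ∧
      cr (((1 - r : ℝ) : ℂ) * A + (r : ℂ) * B) B = (1 - r) * cr A B := by
    intro A B
    rw [cr_add_right, cr_add_left, cr_smul_right, cr_smul_right, cr_smul_left, cr_smul_left,
      cr_self, cr_self]
    constructor <;> ring
  have c1 : cr ((ρ : ℂ) * Complex.exp (ϑ i * Complex.I)) ((t : ℂ) * Complex.exp (θ * Complex.I)) =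
      r * (ρ * ρ' * Real.sin (ϑ (i + 1) - ϑ i)) := by
    rw [e0, (hgen _ _).1, cr_pol]
  have c2 : cr ((t : ℂ) * Complex.exp (θ * Complex.I))
      ((ρ' : ℂ) * Complex.exp (ϑ (i + 1) * Complex.I)) =
      (1 - r) * (ρ * ρ' * Real.sin (ϑ (i + 1) - ϑ i)) := by
    rw [e0, (hgen _ _).2, cr_pol]
  have ht : 0 < t := by
    refine lt_of_le_of_ne ht0 fun h => ?_
    rw [← h] at c1 c2
    have z1 : cr ((ρ : ℂ) * Complex.exp (ϑ i * Complex.I)) (((0 : ℝ) : ℂ) *
        Complex.exp (θ * Complex.I)) = 0 := by rw [cr_smul_right, zero_mul]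
    have z2 : cr (((0 : ℝ) : ℂ) * Complex.exp (θ * Complex.I))
        ((ρ' : ℂ) * Complex.exp (ϑ (i + 1) * Complex.I)) = 0 := by rw [cr_smul_left, zero_mul]
    rw [z1] at c1
    rw [z2] at c2
    have : 0 < ρ * ρ' * Real.sin (ϑ (i + 1) - ϑ i) := by positivity
    nlinarith
  rw [cr_pol] at c1 c2
  have s1 : 0 ≤ Real.sin (θ - ϑ i) := by
    by_contra hcon
    push Not at hcon
    have h1 : ρ * t * Real.sin (θ - ϑ i) < 0 := mul_neg_of_pos_of_neg (by positivity) hcon
    have h2 : 0 ≤ r * (ρ * ρ' * Real.sin (ϑ (i + 1) - ϑ i)) := by positivity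
    linarith
  have s2 : 0 ≤ Real.sin (ϑ (i + 1) - θ) := by
    by_contra hcon
    push Not at hcon
    have h1 : t * ρ' * Real.sin (ϑ (i + 1) - θ) < 0 := mul_neg_of_pos_of_neg (by positivity) hcon
    have h2 : 0 ≤ (1 - r) * (ρ * ρ' * Real.sin (ϑ (i + 1) - ϑ i)) :=
      mul_nonneg (by linarith) (by positivity)
    linarith
  obtain ⟨m, hm⟩ := exists_rep (θ - ϑ i)
  set y := θ - ϑ i - 2 * Real.pi * m with hy
  rw [show θ - ϑ i = y + m * (2 * Real.pi) by rw [hy]; ring, Real.sin_add_int_mul_two_pi] at s1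
  rw [show ϑ (i + 1) - θ = (ϑ (i + 1) - ϑ i - y) - m * (2 * Real.pi) by rw [hy]; ring,
    Real.sin_sub_int_mul_two_pi] at s2
  rw [abs_le] at hm
  have hy0 : 0 ≤ y := by
    by_contra hcon
    push Not at hcon
    rcases eq_or_lt_of_le hm.1 with h | h
    · rw [← h, sub_neg_eq_add, Real.sin_add_pi] at s2
      linarith
    · have := Real.sin_neg_of_neg_of_neg_pi_lt hcon h
      linarith
  have hy1 : y ≤ ϑ (i + 1) - ϑ i := by
    by_contra hcon
    push Not at hcon
    have := Real.sin_neg_of_neg_of_neg_pi_lt (x := ϑ (i + 1) - ϑ i - y) (by linarith) (by linarith)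
    linarith
  have p1 := hH.cyc.per_int i m
  have p2 := hH.cyc.per_int (i + 1) m
  have hwp : ∀ a : ℤ, w (a + m * N) = w a := by
    intro a
    rw [← mod_per hH.hull.pos hH.hull.per (a + m * N), Int.add_mul_emod_self_right,
      mod_per hH.hull.pos hH.hull.per]
  refine ⟨i + m * N, ?_, ?_, ?_⟩
  · rw [show i + m * (N : ℤ) + 1 = (i + 1) + m * N by ring, hwp, hwp, hi1, hi2]
  · rw [p1]; linarith
  · rw [show i + m * (N : ℤ) + 1 = (i + 1) + m * N by ring, p2]; linarith

/-- positions of the edges crossed by the tentacles -/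
structure Arr (n N : ℕ) (th ϑ : ℤ → ℝ) (w : ℤ → ℂ) (p : ZMod n → ℂ × ℂ) (J : ℤ → ℤ) : Prop where
  mono : StrictMono J
  per : ∀ k, J (k + n) = J k + N
  edge : ∀ k : ℤ, p (k : ZMod n) = (w (J k), w (J k + 1))
  lo : ∀ k, ϑ (J k) ≤ th k
  hi : ∀ k, th k ≤ ϑ (J k + 1)

theorem exists_arr (hH : HAng S c N w ϑ) (hF : FanA n c L δ R q th) (hS : Dns S c L d)
    (hd : 400 * (L * d) ≤ δ ^ 2) {p : ZMod n → ℂ × ℂ} (hp : ∀ k, crossRay S c (q k) (p k)) :
    ∃ J, Arr n N th ϑ w p J := by
  have h1 : ∀ k : ℤ, ∃ j : ℤ, p (k : ZMod n) = (w j, w (j + 1)) ∧ ϑ j ≤ th k ∧ th k ≤ ϑ (j + 1) :=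
    fun k => hH.index hS (by rw [← hF.dir k]; exact hp k)
  choose J hJ1 hJ2 hJ3 using h1
  have ha := hF.ang_pos
  refine ⟨J, ?_, ?_, hJ1, hJ2, hJ3⟩
  · refine strictMono_int_of_lt_succ fun k => ?_
    by_contra hcon
    push Not at hcon
    have h2 := hH.cyc.mono.monotone (show J (k + 1) + 1 ≤ J k + 1 by omega)
    have h3 := hH.inc hF hS hd (J k)
    have h4 := hF.gap k
    linarith [hJ3 (k + 1), hJ2 k]
  · intro k
    have e1 : ((k + n : ℤ) : ZMod n) = (k : ZMod n) := by simp
    have h2 := hJ1 (k + n)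
    rw [e1, hJ1 k] at h2
    have h3 : w (J k) = w (J (k + n)) := congrArg Prod.fst h2
    have h4 := eq_mod hH.hull.pos hH.hull.per hH.hull.inj h3
    have h5 := hJ2 (k + n)
    have h6 := hJ3 (k + n)
    rw [hF.cyc.per] at h5 h6
    have h7 := hJ2 k
    have h8 := hJ3 k
    have p1 := hH.cyc.per (J k)
    have p2 := hH.cyc.per (J k + 1)
    have i1 : J (k + n) ≤ J k + N + 1 := by
      by_contra hcon
      push Not at hcon
      have := hH.cyc.mono hcon
      rw [show J k + (N : ℤ) + 1 = J k + 1 + N by ring, p2] at this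
      linarith
    have i2 : J k + N ≤ J (k + n) + 1 := by
      by_contra hcon
      push Not at hcon
      have := hH.cyc.mono hcon
      rw [p1] at this
      linarith
    have hN := hullcyc_two hH.hull
    have h9 : ((N : ℤ)) ∣ J (k + n) - J k := Int.ModEq.dvd h4
    have h10 : ((N : ℤ)) ∣ J (k + n) - J k - N := Dvd.dvd.sub h9 (dvd_refl _)
    by_contra hne
    have h11 : J (k + n) - J k - N ≠ 0 := by omega
    have h12 := Int.le_of_dvd (abs_pos.2 h11) ((dvd_abs _ _).2 h10)
    have h13 : |J (k + n) - J k - N| ≤ 1 := by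
      rw [abs_le]; constructor <;> omega
    have : (2 : ℤ) ≤ N := by exact_mod_cast hN
    omega

end Arr

end Crest.Agent.R143.DomCx722
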