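import Crest.Agent.R143.Ad_422
import Crest.Agent.R143.Cfg_416
import Crest.Agent.R143.DomC_722

/-!
# Row 143 (S0194), SPINE: admissible domains (helper422)

* `Dom.Ad D δ` : `D` is the domain of a configuration of 416 with `n ≥ 3` tentacles (reference
  domains: `n = 3`, quadrilaterals: `n = 4`)
* `fanA` : the `FanA` of 722
* `Dom.Ad.w`, `Dom.OK.ad`
-/

set_option autoImplicit false

noncomputable section

namespace Crest.Agent.R143.Adx422

open Crest.ProbabilityR.Voronoi MeasureTheory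
open Crest.Agent.R143.B0x346 Crest.Agent.R143.B0Dx346
open Crest.Agent.R143.DomAx722 Crest.Agent.R143.DomBx722 Crest.Agent.R143.DomCx722
open Crest.Agent.R143.Cfgx416

variable {n : ℕ} {C : Cfg n} {δ : ℝ}

theorem sect' (h : C.OK δ) (k : ZMod n) {r : ℝ} (hr : C.L / 2 < r) : ∃ e > 0, ∀ φ : ℝ,
    Real.arcsin (δ / C.L) < φ → φ < Real.arcsin (δ / C.L) + e →
    C.c + r * (C.q k * Complex.exp (φ * Complex.I)) ∈ C.R k ∧
    C.c + r * (C.q k * Complex.exp (-(φ * Complex.I))) ∈ C.R (k - 1) := by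
  obtain ⟨e, he, h1⟩ := h.sect k r hr
  refine ⟨e, he, fun φ h2 h3 => ?_⟩
  have := h1 φ h2 h3
  rw [mul_assoc, mul_assoc] at this
  exact this

theorem lt (h : C.OK δ) : δ < C.L := by
  have hL := h.Lpos
  by_contra hcon
  push Not at hcon
  obtain ⟨e, he, h1⟩ := sect' h 0 (r := C.L) (by linarith)
  have hz := (h1 (Real.arcsin (δ / C.L) + e / 2) (by linarith) (by linarith)).1
  refine (h.tent _ ?_).2 ⟨0, 0, le_rfl, ?_⟩ 0 hz
  · rw [norm_pol (h.qn 0) hL.le]; linarith
  · have : 1 ≤ δ / C.L := by rw [le_div_iff₀ hL]; linarith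
    rw [Complex.ofReal_zero, zero_mul, add_zero]
    nlinarith [norm_nonneg (C.c + (C.L : ℂ) * (C.q 0 * Complex.exp
      (((Real.arcsin (δ / C.L) + e / 2 : ℝ) : ℂ) * Complex.I)) - C.c)]

theorem fan (h : C.OK δ) : Fan C.c C.L δ C.R C.q :=
  ⟨h.Lpos, h.dpos, lt h, h.opn, h.con, h.qn, h.far, h.tent⟩

theorem fanA (hn : 3 ≤ n) (h : C.OK δ) : ∃ th : ℤ → ℝ, FanA n C.c C.L δ C.R C.q th := by
  obtain ⟨th, h1, h2, h3⟩ := h.ang
  exact ⟨th, fan h, ⟨by omega, h1, h2⟩, h3, fun k r hr => sect' h k hr⟩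

/-! ### the three marks -/

theorem cast_neg1 : (((n : ℤ) - 1 : ℤ) : ZMod n) = -1 := by push_cast; simp

theorem cast_neg2 : (((n : ℤ) - 2 : ℤ) : ZMod n) = -2 := by push_cast; simp

/-- separation of two directions -/
theorem sep_exp {η x y : ℝ} (h0 : 0 < η) (h1 : η < 1) (h2 : x + 2 * ang η < y)
    (h3 : y + 2 * ang η < x + 2 * Real.pi) :
    2 * η ≤ ‖Complex.exp (x * Complex.I) - Complex.exp (y * Complex.I)‖ := by
  have ha := DomAx722.ang_pos h0
  have ha' := DomAx722.ang_lt h1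
  have hpi := Real.pi_pos
  set α : ℝ := y - x with hα
  have hs : η ≤ Real.sin (α / 2) := by
    conv_lhs => rw [← sin_ang h0.le h1.le]
    rcases le_or_gt (α / 2) (Real.pi / 2) with h | h
    · exact Real.sin_le_sin_of_le_of_le_pi_div_two (by linarith) h (by linarith)
    · rw [← Real.sin_pi_sub (α / 2)]
      exact Real.sin_le_sin_of_le_of_le_pi_div_two (by linarith) (by linarith) (by linarith)
  have e1 : Complex.exp (x * Complex.I) - Complex.exp (y * Complex.I) =
      Complex.exp (x * Complex.I) * (1 - Complex.exp (α * Complex.I)) := by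
    rw [mul_sub, mul_one, ← Complex.exp_add]
    congr 2
    rw [hα]
    push_cast
    ring
  rw [e1, norm_rot (Complex.norm_exp_ofReal_mul_I _)]
  refine le_of_sq_le_sq ?_ (norm_nonneg _)
  rw [norm_one_sub_exp]
  exact pow_le_pow_left₀ (by linarith) (by linarith) 2

/-- orientation of three directions -/
theorem ccw_exp {x y z : ℝ} (h1 : x < y) (h2 : y < z) (h3 : z < x + 2 * Real.pi) :
    0 < cr (Complex.exp (y * Complex.I) - Complex.exp (x * Complex.I))
      (Complex.exp (z * Complex.I) - Complex.exp (x * Complex.I)) := by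
  have hrel : ∀ t : ℝ, Complex.exp (t * Complex.I) - Complex.exp (x * Complex.I) =
      Complex.exp (x * Complex.I) * (Complex.exp (((t - x : ℝ) : ℂ) * Complex.I) - 1) := by
    intro t
    rw [mul_sub, mul_one, ← Complex.exp_add]
    congr 2
    push_cast
    ring
  have hcr : cr (Complex.exp (y * Complex.I) - Complex.exp (x * Complex.I))
      (Complex.exp (z * Complex.I) - Complex.exp (x * Complex.I)) =
      4 * Real.sin ((y - x) / 2) * Real.sin ((z - x) / 2) * Real.sin ((z - x - (y - x)) / 2) := by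
    rw [← cr_exp, hrel y, hrel z]
    have hn : (Complex.exp (x * Complex.I)).re ^ 2 + (Complex.exp (x * Complex.I)).im ^ 2 = 1 := by
      rw [← sq_norm, Complex.norm_exp_ofReal_mul_I, one_pow]
    set u := Complex.exp (((y - x : ℝ) : ℂ) * Complex.I) - 1
    set v := Complex.exp (((z - x : ℝ) : ℂ) * Complex.I) - 1
    unfold cr
    simp only [Complex.mul_re, Complex.mul_im]
    linear_combination (u.re * v.im - u.im * v.re) * hn
  rw [hcr]
  have s1 : 0 < Real.sin ((y - x) / 2) := Real.sin_pos_of_pos_of_lt_pi (by linarith) (by linarith)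
  have s2 : 0 < Real.sin ((z - x) / 2) := Real.sin_pos_of_pos_of_lt_pi (by linarith) (by linarith)
  have s3 : 0 < Real.sin ((z - x - (y - x)) / 2) :=
    Real.sin_pos_of_pos_of_lt_pi (by linarith) (by linarith)
  positivity

theorem z3 : ∀ i : ZMod 3, i = 0 ∨ i = 1 ∨ i = 2 := by decide

/-- **the domain of a configuration is weakly admissible** -/
theorem w_dom (hn : 3 ≤ n) (h : C.OK δ) : C.dom.W δ := by
  obtain ⟨th, hF⟩ := fanA hn h
  have hη := hF.fan.eta_pos
  have hη' := hF.fan.eta_lt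
  have hap := hF.ang_pos
  have h0 : C.q 0 = Complex.exp (th 0 * Complex.I) := by
    have := hF.dir 0
    rwa [Int.cast_zero] at this
  have h1 : C.q (-2) = Complex.exp (th (n - 2) * Complex.I) := by rw [← hF.dir, cast_neg2]
  have h2 : C.q (-1) = Complex.exp (th (n - 1) * Complex.I) := by rw [← hF.dir, cast_neg1]
  have g0 : th 0 + 2 * ang (δ / C.L) < th (n - 2) := by
    have := hF.gap 0
    have h3 : th (0 + 1) ≤ th (n - 2) := hF.cyc.mono.monotone (by omega)
    exact this.trans_le h3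
  have g1 : th (n - 2) + 2 * ang (δ / C.L) < th (n - 1) := by
    have := hF.gap (n - 2)
    rwa [show (n : ℤ) - 2 + 1 = n - 1 by ring] at this
  have g2 : th (n - 1) + 2 * ang (δ / C.L) < th 0 + 2 * Real.pi := by
    have := hF.gap (n - 1)
    rw [show (n : ℤ) - 1 + 1 = 0 + n by ring, hF.cyc.per] at this
    exact this
  have q0 : C.dom.q 0 = Complex.exp (th 0 * Complex.I) := h0
  have q1 : C.dom.q 1 = Complex.exp (th (n - 2) * Complex.I) := h1
  have q2 : C.dom.q 2 = Complex.exp (th (n - 1) * Complex.I) := h2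
  have hsub : ∀ i : ZMod 3, ∀ z ∈ C.dom.R i, ∃ j : ZMod n, z ∈ C.R j ∧
      (i = 1 → j = -2) ∧ (i = 2 → j = -1) ∧ (i = 0 → j ≠ -2 ∧ j ≠ -1) := by
    intro i z hz
    rcases z3 i with rfl | rfl | rfl
    · have hz' : z ∈ ⋃ j ∈ {j : ZMod n | j ≠ -2 ∧ j ≠ -1}, C.R j := hz
      simp only [Set.mem_iUnion] at hz'
      obtain ⟨j, hj, hz'⟩ := hz'
      exact ⟨j, hz', fun h => absurd h (by decide), fun h => absurd h (by decide), fun _ => hj⟩
    · exact ⟨-2, hz, fun _ => rfl, fun h => absurd h (by decide), fun h => absurd h (by decide)⟩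
    · exact ⟨-1, hz, fun h => absurd h (by decide), fun _ => rfl, fun h => absurd h (by decide)⟩
  have hne : (-2 : ZMod n) ≠ -1 := by
    intro he
    have h3 : (1 : ZMod n) = 0 := by
      have : (-1 : ZMod n) - -2 = 1 := by ring
      rw [← this, he, sub_self]
    have : Fact (1 < n) := ⟨by omega⟩
    exact one_ne_zero h3
  refine ⟨h.Lpos, h.dpos, hF.fan.lt, ?_, ?_, ?_, ?_, ?_, ?_⟩
  · intro i
    rcases z3 i with rfl | rfl | rfl
    · exact isOpen_biUnion fun j _ => h.opn j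
    · exact h.opn (-2)
    · exact h.opn (-1)
  · intro k
    rcases z3 k with rfl | rfl | rfl
    · exact h.qn 0
    · exact h.qn (-2)
    · exact h.qn (-1)
  · intro i j hij z hz w hw
    obtain ⟨a, ha, a1, a2, a0⟩ := hsub i z hz
    obtain ⟨b, hb, b1, b2, b0⟩ := hsub j w hw
    refine h.far a b ?_ z ha w hb
    rintro rfl
    rcases z3 i with rfl | rfl | rfl <;> rcases z3 j with rfl | rfl | rfl
    · exact hij rfl
    · exact (a0 rfl).1 (b1 rfl)
    · exact (a0 rfl).2 (b2 rfl)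
    · exact (b0 rfl).1 (a1 rfl)
    · exact hij rfl
    · exact hne ((a1 rfl).symm.trans (b2 rfl))
    · exact (b0 rfl).2 (a2 rfl)
    · exact hne ((b1 rfl).symm.trans (a2 rfl))
    · exact hij rfl
  · rintro z hz ⟨k, t, ht, hle⟩ i hi
    obtain ⟨j, hj, -⟩ := hsub i z hi
    refine (h.tent z hz).2 ?_ j hj
    have hk : ∃ l : ZMod n, C.dom.q k = C.q l := by
      rcases z3 k with rfl | rfl | rfl
      · exact ⟨0, rfl⟩
      · exact ⟨-2, rfl⟩
      · exact ⟨-1, rfl⟩
    obtain ⟨l, hl⟩ := hk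
    refine ⟨l, t, ht, ?_⟩
    rw [← hl]
    exact hle
  · have s01 : 2 * (δ / C.L) ≤ ‖C.dom.q 0 - C.dom.q 1‖ := by
      rw [q0, q1]
      exact sep_exp hη hη' g0 (by linarith)
    have s02 : 2 * (δ / C.L) ≤ ‖C.dom.q 0 - C.dom.q 2‖ := by
      rw [q0, q2]
      exact sep_exp hη hη' (by linarith) g2
    have s12 : 2 * (δ / C.L) ≤ ‖C.dom.q 1 - C.dom.q 2‖ := by
      rw [q1, q2]
      exact sep_exp hη hη' g1 (by linarith)
    intro i j hij
    rcases z3 i with rfl | rfl | rfl <;> rcases z3 j with rfl | rfl | rfl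
    · exact absurd rfl hij
    · exact s01
    · exact s02
    · rw [norm_sub_rev]; exact s01
    · exact absurd rfl hij
    · exact s12
    · rw [norm_sub_rev]; exact s02
    · rw [norm_sub_rev]; exact s12
    · exact absurd rfl hij
  · rw [q0, q1, q2]
    exact ccw_exp (by linarith) (by linarith) (by linarith)

/-! ### admissible domains -/

/-- lifted directions of three counterclockwise directions -/
theorem exists_th {x β α : ℝ} (h0 : 0 < β) (h1 : β < α) (h2 : α < 2 * Real.pi) :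
    ∃ th : ℤ → ℝ, StrictMono th ∧ (∀ k, th (k + (3 : ℕ)) = th k + 2 * Real.pi) ∧
      ∀ m : ℤ, th (3 * m) = x + 2 * Real.pi * m ∧ th (3 * m + 1) = x + β + 2 * Real.pi * m ∧
        th (3 * m + 2) = x + α + 2 * Real.pi * m := by
  set v : ℤ → ℝ := fun r => if r = 0 then 0 else if r = 1 then β else α with hv
  set th : ℤ → ℝ := fun k => x + v (k % 3) + 2 * Real.pi * ((k / 3 : ℤ) : ℝ) with hth
  have e0 : ∀ m : ℤ, th (3 * m) = x + 2 * Real.pi * m := by
    intro m
    have a1 : (3 * m) % 3 = 0 := by omega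
    have a2 : (3 * m) / 3 = m := by omega
    simp only [hth, hv, a1, a2]
    simp
  have e1 : ∀ m : ℤ, th (3 * m + 1) = x + β + 2 * Real.pi * m := by
    intro m
    have a1 : (3 * m + 1) % 3 = 1 := by omega
    have a2 : (3 * m + 1) / 3 = m := by omega
    simp only [hth, hv, a1, a2]
    simp
  have e2 : ∀ m : ℤ, th (3 * m + 2) = x + α + 2 * Real.pi * m := by
    intro m
    have a1 : (3 * m + 2) % 3 = 2 := by omega
    have a2 : (3 * m + 2) / 3 = m := by omega
    simp only [hth, hv, a1, a2]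
    simp
  have hp := Real.pi_pos
  refine ⟨th, strictMono_int_of_lt_succ fun k => ?_, fun k => ?_, fun m => ⟨e0 m, e1 m, e2 m⟩⟩
  · have hk : k = 3 * (k / 3) ∨ k = 3 * (k / 3) + 1 ∨ k = 3 * (k / 3) + 2 := by omega
    rcases hk with hk | hk | hk
    · rw [hk, e0, e1]; linarith
    · rw [hk, show 3 * (k / 3) + 1 + 1 = 3 * (k / 3) + 2 by ring, e1, e2]; linarith
    · rw [hk, show 3 * (k / 3) + 2 + 1 = 3 * (k / 3 + 1) by ring, e2, e0]
      push_cast
      linarith
  · have a1 : (k + (3 : ℕ)) % 3 = k % 3 := by push_cast; omega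
    have a2 : (k + (3 : ℕ)) / 3 = k / 3 + 1 := by push_cast; omega
    simp only [hth, a1, a2]
    push_cast
    ring

end Crest.Agent.R143.Adx422

namespace Crest.Agent.R143.B0Dx346

open Crest.Agent.R143.B0x346 Crest.Agent.R143.DomAx722 Crest.Agent.R143.Cfgx416
open Crest.Agent.R143.Adx422

/-- **admissible domains** : the domain of a configuration (`n = 3` : reference domains, `n = 4` :
quadrilaterals) -/
def Dom.Ad (D : Dom) (δ : ℝ) : Prop := ∃ (n : ℕ) (C : Cfg n), 3 ≤ n ∧ C.OK δ ∧ C.dom = D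

theorem Dom.Ad.w {D : Dom} {δ : ℝ} (h : D.Ad δ) : D.W δ := by
  obtain ⟨n, C, hn, h1, rfl⟩ := h
  exact w_dom hn h1

theorem Dom.Ad.Lpos {D : Dom} {δ : ℝ} (h : D.Ad δ) : 0 < D.L := h.w.Lpos

theorem Dom.Ad.dpos {D : Dom} {δ : ℝ} (h : D.Ad δ) : 0 < δ := h.w.dpos

theorem Dom.Ad.lt {D : Dom} {δ : ℝ} (h : D.Ad δ) : δ < D.L := h.w.lt

theorem Dom.Ad.opn {D : Dom} {δ : ℝ} (h : D.Ad δ) : ∀ i, IsOpen (D.R i) := h.w.opn

theorem Dom.Ad.qn {D : Dom} {δ : ℝ} (h : D.Ad δ) : ∀ k, ‖D.q k‖ = 1 := h.w.qn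

theorem Dom.Ad.far {D : Dom} {δ : ℝ} (h : D.Ad δ) :
    ∀ i j, i ≠ j → ∀ z ∈ D.R i, ∀ w ∈ D.R j, δ ≤ ‖z - w‖ := h.w.far

theorem Dom.Ad.tent {D : Dom} {δ : ℝ} (h : D.Ad δ) : ∀ z : ℂ, D.L / 2 < ‖z - D.c‖ →
    (∃ k : ZMod 3, ∃ t : ℝ, 0 ≤ t ∧ ‖z - (D.c + t * D.q k)‖ ≤ δ / D.L * ‖z - D.c‖) →
    ∀ i, z ∉ D.R i := h.w.tent

theorem Dom.Ad.open_out {D : Dom} {δ : ℝ} (h : D.Ad δ) : IsOpen D.out := h.w.open_out

/-- the configuration of a domain with three tentacles -/
def Dom.cfg (D : Dom) : Cfg 3 := ⟨D.c, D.L, D.R, D.q⟩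

theorem Dom.cfg_dom (D : Dom) : D.cfg.dom = D := by
  have h2 : (-2 : ZMod 3) = 1 := by decide
  have h1 : (-1 : ZMod 3) = 2 := by decide
  have e : D.cfg.dom = ⟨D.c, D.L, D.cfg.dom.R, D.cfg.dom.q⟩ := rfl
  have eR : D.cfg.dom.R = D.R := by
    funext i
    rcases z3 i with rfl | rfl | rfl
    · have e0 : D.cfg.dom.R 0 = ⋃ j ∈ {j : ZMod 3 | j ≠ -2 ∧ j ≠ -1}, D.R j := rfl
      rw [e0, h2, h1]
      ext z
      simp only [Set.mem_iUnion]
      constructor
      · rintro ⟨j, hj, hz⟩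
        rcases z3 j with rfl | rfl | rfl
        · exact hz
        · exact absurd rfl hj.1
        · exact absurd rfl hj.2
      · exact fun hz => ⟨0, ⟨by decide, by decide⟩, hz⟩
    · have e0 : D.cfg.dom.R 1 = D.R (-2) := rfl
      rw [e0, h2]
    · have e0 : D.cfg.dom.R 2 = D.R (-1) := rfl
      rw [e0, h1]
  have eq : D.cfg.dom.q = D.q := by
    funext i
    rcases z3 i with rfl | rfl | rfl
    · rfl
    · have e0 : D.cfg.dom.q 1 = D.q (-2) := rfl
      rw [e0, h2]
    · have e0 : D.cfg.dom.q 2 = D.q (-1) := rfl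
      rw [e0, h1]
  rw [e, eR, eq]

theorem Dom.OK.cfg {D : Dom} {δ : ℝ} (hD : D.OK δ) : D.cfg.OK δ := by
  obtain ⟨β, b1, b2, b3⟩ := rel_angle hD (i := 0) (j := 1) (by decide)
  obtain ⟨α, a1, a2, a3⟩ := rel_angle hD (i := 0) (j := 2) (by decide)
  have hη := hD.w.eta_pos
  have hap := ang_pos hη
  have h0 := hD.qn 0
  have hcr : cr (D.q 1 - D.q 0) (D.q 2 - D.q 0) =
      4 * Real.sin (β / 2) * Real.sin (α / 2) * Real.sin ((α - β) / 2) := by
    rw [← cr_exp, b3, a3]
    have e1 : D.q 0 * Complex.exp (β * Complex.I) - D.q 0 =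
        D.q 0 * (Complex.exp (β * Complex.I) - 1) := by ring
    have e2 : D.q 0 * Complex.exp (α * Complex.I) - D.q 0 =
        D.q 0 * (Complex.exp (α * Complex.I) - 1) := by ring
    rw [e1, e2]
    have hn : (D.q 0).re ^ 2 + (D.q 0).im ^ 2 = 1 := by rw [← sq_norm, h0, one_pow]
    set u := Complex.exp (β * Complex.I) - 1
    set v := Complex.exp (α * Complex.I) - 1
    unfold cr
    simp only [Complex.mul_re, Complex.mul_im]
    linear_combination (u.re * v.im - u.im * v.re) * hn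
  have hβα : β < α := by
    by_contra hcon
    push Not at hcon
    have hc := q_ccw hD
    rw [hcr] at hc
    have s1 : 0 < Real.sin (β / 2) := Real.sin_pos_of_pos_of_lt_pi (by linarith) (by linarith)
    have s2 : 0 < Real.sin (α / 2) := Real.sin_pos_of_pos_of_lt_pi (by linarith) (by linarith)
    have s3 : Real.sin ((α - β) / 2) ≤ 0 :=
      Real.sin_nonpos_of_nonpos_of_neg_pi_le (by linarith) (by linarith)
    have : 0 < 4 * Real.sin (β / 2) * Real.sin (α / 2) := by positivity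
    nlinarith
  obtain ⟨th, t1, t2, t3⟩ := exists_th (x := (D.q 0).arg) (β := β) (α := α) (by linarith) hβα
    (by linarith)
  have e0 : D.q 0 = Complex.exp ((D.q 0).arg * Complex.I) := by
    have := Complex.norm_mul_exp_arg_mul_I (D.q 0)
    rw [h0, Complex.ofReal_one, one_mul] at this
    exact this.symm
  refine ⟨hD.Lpos, hD.dpos, hD.opn, hD.con, hD.qn, ⟨th, t1, t2, fun k => ?_⟩, hD.far, hD.tent,
    fun k r hr => ?_⟩
  · have hexp : ∀ (y : ℝ) (m : ℤ), Complex.exp (((y + 2 * Real.pi * m : ℝ) : ℂ) * Complex.I) =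
        Complex.exp (y * Complex.I) := by
      intro y m
      have : ((y + 2 * Real.pi * m : ℝ) : ℂ) * Complex.I = y * Complex.I +
        m * (2 * Real.pi * Complex.I) := by push_cast; ring
      rw [this, Complex.exp_add, Complex.exp_int_mul_two_pi_mul_I, mul_one]
    have hadd : ∀ y : ℝ, Complex.exp ((((D.q 0).arg + y : ℝ) : ℂ) * Complex.I) =
        D.q 0 * Complex.exp (y * Complex.I) := by
      intro y
      conv_rhs => rw [e0]
      rw [← Complex.exp_add]
      congr 1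
      push_cast
      ring
    have hk : k = 3 * (k / 3) ∨ k = 3 * (k / 3) + 1 ∨ k = 3 * (k / 3) + 2 := by omega
    have h3 : (3 : ZMod 3) = 0 := by decide
    rcases hk with hk | hk | hk
    · have c0 : (k : ZMod 3) = 0 := by
        rw [hk]; push_cast; rw [h3, zero_mul]
      have : th k = (D.q 0).arg + 2 * Real.pi * (k / 3 : ℤ) := by
        conv_lhs => rw [hk]
        exact (t3 _).1
      rw [c0, this, hexp]
      exact e0
    · have c0 : (k : ZMod 3) = 1 := by
        rw [hk]; push_cast; rw [h3, zero_mul, zero_add]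
      have : th k = (D.q 0).arg + β + 2 * Real.pi * (k / 3 : ℤ) := by
        conv_lhs => rw [hk]
        exact (t3 _).2.1
      rw [c0, this, hexp, hadd]
      exact b3
    · have c0 : (k : ZMod 3) = 2 := by
        rw [hk]; push_cast; rw [h3, zero_mul, zero_add]
      have : th k = (D.q 0).arg + α + 2 * Real.pi * (k / 3 : ℤ) := by
        conv_lhs => rw [hk]
        exact (t3 _).2.2
      rw [c0, this, hexp, hadd]
      exact a3
  · obtain ⟨e, he, h⟩ := hD.sect k r hr
    refine ⟨e, he, fun ψ h1 h2 => ?_⟩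
    have := h ψ h1 h2
    rw [mul_assoc, mul_assoc]
    exact this

/-- **every domain with three tentacles is admissible** -/
theorem Dom.OK.ad {D : Dom} {δ : ℝ} (hD : D.OK δ) : D.Ad δ :=
  ⟨3, D.cfg, le_rfl, hD.cfg, D.cfg_dom⟩

end Crest.Agent.R143.B0Dx346

namespace Crest.Agent.R143.Adx422

open Crest.Agent.R143.B0Dx346

/-- **D1 of 416** -/
theorem D1_proof : Cfgx416.D1 := fun _ _ _ _ _ _ _ hn h hE hd => d1 (w_dom hn h) hE hd

end Crest.Agent.R143.Adx422
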