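import Mathlib

/-!
# Row 143 (S0194), rigidity step: approximately additive + bounded / covariant => linear (helper106)

* `seg` : one real variable, restricted Hyers-Ulam: bounded and additive up to `ε` on `[0,a]` => linear up to `3ε`.
* `plane` : the same for `f : ℂ → E` on a ball: a real-linear map within `15 ε`.
* `iso_spin` : exactly rotation covariant `f (ω v) = ω f v` and additive up to `ε` for the MACROSCOPIC isosceles
  triangles `|u| = |v| = ρ`, `δ ≤ |u+v| ≤ ρ` => `|f v - b v| ≤ ε` for `δ ≤ |v| ≤ ρ`, `b = f ρ / ρ`.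
* `iso_conj` : the same with `f (ω v) = conj ω * f v` => `|f v - b conj v| ≤ ε`.
* `plane_spin`, `plane_conj` : only 90 degree covariance up to `ε`, additivity on a ball.
-/

set_option autoImplicit false

noncomputable section

open scoped ComplexConjugate

namespace Crest.Agent.R143.AddLinx106

variable {E : Type*} [NormedAddCommGroup E] [NormedSpace ℝ E]

/-- restricted Hyers-Ulam on a segment -/
theorem seg (h : ℝ → E) (a M ε : ℝ) (ha : 0 < a)
    (hM : ∀ x, 0 ≤ x → x ≤ a → ‖h x‖ ≤ M)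
    (hadd : ∀ x y, 0 ≤ x → 0 ≤ y → x + y ≤ a → ‖h (x + y) - h x - h y‖ ≤ ε) :
    ∀ x, 0 ≤ x → x ≤ a → ‖h x - (x / a) • h a‖ ≤ 3 * ε := by
  classical
  set D : ℝ → E := fun x => h x - (x / a) • h a with hD
  -- the set of values of ‖D‖ on [0,a]
  set S : Set ℝ := (fun x => ‖D x‖) '' Set.Icc 0 a with hS
  have hSne : S.Nonempty := ⟨‖D 0‖, 0, ⟨le_refl _, ha.le⟩, rfl⟩
  have hbdd : BddAbove S := by
    refine ⟨M + M, ?_⟩
    rintro _ ⟨x, ⟨hx0, hxa⟩, rfl⟩
    have h1 : ‖h x‖ ≤ M := hM x hx0 hxa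
    have h2 : ‖h a‖ ≤ M := hM a ha.le le_rfl
    have hM0 : 0 ≤ M := le_trans (norm_nonneg _) h2
    calc ‖D x‖ ≤ ‖h x‖ + ‖(x / a) • h a‖ := norm_sub_le _ _
      _ ≤ M + M := by
        rw [norm_smul, Real.norm_of_nonneg (div_nonneg hx0 ha.le)]
        have : x / a ≤ 1 := by rw [div_le_one ha]; exact hxa
        have h3 : x / a * ‖h a‖ ≤ 1 * M := by
          apply mul_le_mul this h2 (norm_nonneg _) zero_le_one
        linarith
  set K := sSup S with hK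
  have hDK : ∀ x, 0 ≤ x → x ≤ a → ‖D x‖ ≤ K := fun x h0 h1 => le_csSup hbdd ⟨x, ⟨h0, h1⟩, rfl⟩
  have hDadd : ∀ x y, 0 ≤ x → 0 ≤ y → x + y ≤ a → ‖D (x + y) - D x - D y‖ ≤ ε := by
    intro x y hx hy hxy
    have : D (x + y) - D x - D y = h (x + y) - h x - h y := by
      simp only [hD, add_div, add_smul]
      abel
    rw [this]; exact hadd x y hx hy hxy
  have hDa : D a = 0 := by
    simp only [hD]
    rw [div_self ha.ne', one_smul, sub_self]
  have hhalf : ∀ x, 0 ≤ x → x ≤ a / 2 → ‖D x‖ ≤ (K + ε) / 2 := by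
    intro x h0 h1
    have e1 := hDadd x x h0 h0 (by linarith)
    have e2 := hDK (x + x) (by linarith) (by linarith)
    have e3 : (2 : ℝ) • D x = D (x + x) - (D (x + x) - D x - D x) := by
      rw [two_smul]; abel
    have e4 : ‖(2 : ℝ) • D x‖ = 2 * ‖D x‖ := by
      rw [norm_smul]; norm_num
    have e5 : ‖(2 : ℝ) • D x‖ ≤ K + ε := by
      rw [e3]; exact (norm_sub_le _ _).trans (add_le_add e2 e1)
    linarith
  have hall : ∀ x, 0 ≤ x → x ≤ a → ‖D x‖ ≤ (K + ε) / 2 + ε := by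
    intro x h0 h1
    have hε : 0 ≤ ε := le_trans (norm_nonneg _) (hDadd 0 0 le_rfl le_rfl (by linarith))
    rcases le_total x (a / 2) with h | h
    · have := hhalf x h0 h
      linarith
    · have e1 := hDadd x (a - x) h0 (by linarith) (by linarith)
      have e2 := hhalf (a - x) (by linarith) (by linarith)
      have e3 : D x = - (D (a - x)) - (D (x + (a - x)) - D x - D (a - x)) := by
        rw [show x + (a - x) = a by ring, hDa]; abel
      calc ‖D x‖ = ‖- (D (a - x)) - (D (x + (a - x)) - D x - D (a - x))‖ := by rw [← e3]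
        _ ≤ ‖- (D (a - x))‖ + ‖D (x + (a - x)) - D x - D (a - x)‖ := norm_sub_le _ _
        _ ≤ (K + ε) / 2 + ε := by
          rw [norm_neg]; exact add_le_add e2 e1
  have hKle : K ≤ (K + ε) / 2 + ε := by
    apply csSup_le hSne
    rintro _ ⟨x, ⟨hx0, hxa⟩, rfl⟩
    exact hall x hx0 hxa
  intro x h0 h1
  have := hall x h0 h1
  have : ‖D x‖ ≤ 3 * ε := by linarith
  exact this

/-- signed version on a segment -/
theorem seg_signed (h : ℝ → E) (a M ε : ℝ) (ha : 0 < a)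
    (hM : ∀ x, |x| ≤ a → ‖h x‖ ≤ M)
    (hadd : ∀ x y, |x| ≤ a → |y| ≤ a → |x + y| ≤ a → ‖h (x + y) - h x - h y‖ ≤ ε) :
    ∀ x, |x| ≤ a → ‖h x - (x / a) • h a‖ ≤ 5 * ε := by
  have hε : 0 ≤ ε := le_trans (norm_nonneg _) (hadd 0 0 (by simpa using ha.le) (by simpa using ha.le)
    (by simpa using ha.le))
  have hpos := seg h a M ε ha (fun x h0 h1 => hM x (by rw [abs_of_nonneg h0]; exact h1))
    (fun x y h0 h1 h2 => hadd x y (by rw [abs_of_nonneg h0]; linarith)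
      (by rw [abs_of_nonneg h1]; linarith) (by rw [abs_of_nonneg (by linarith)]; exact h2))
  intro x hx
  rcases le_total 0 x with h0 | h0
  · have := hpos x h0 (le_trans (le_abs_self x) hx)
    linarith
  · have h1 : 0 ≤ -x := by linarith
    have h2 : -x ≤ a := by rw [abs_of_nonpos h0] at hx; exact hx
    have e1 := hpos (-x) h1 h2
    have e2 := hadd x (-x) hx (by rw [abs_neg]; exact hx) (by simpa using ha.le)
    have e3 := hadd 0 0 (by simpa using ha.le) (by simpa using ha.le) (by simpa using ha.le)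
    have e4 : ‖h 0‖ ≤ ε := by
      have : h (0 + 0) - h 0 - h 0 = - h 0 := by
        rw [add_zero]; abel
      rw [this, norm_neg] at e3; exact e3
    have e5 : h x - (x / a) • h a =
        h 0 - (h (x + -x) - h x - h (-x)) - (h (-x) - ((-x) / a) • h a) := by
      rw [add_neg_cancel, neg_div, neg_smul]; abel
    rw [e5]
    calc ‖h 0 - (h (x + -x) - h x - h (-x)) - (h (-x) - ((-x) / a) • h a)‖
        ≤ ‖h 0 - (h (x + -x) - h x - h (-x))‖ + ‖h (-x) - ((-x) / a) • h a‖ := norm_sub_le _ _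
      _ ≤ (‖h 0‖ + ‖h (x + -x) - h x - h (-x)‖) + ‖h (-x) - ((-x) / a) • h a‖ :=
          add_le_add (norm_sub_le _ _) le_rfl
      _ ≤ (ε + ε) + 3 * ε := add_le_add (add_le_add e4 e2) e1
      _ = 5 * ε := by ring

/-- approximately additive and bounded on a ball of `ℂ` => real linear up to `11 ε` -/
theorem plane (f : ℂ → E) (ρ M ε : ℝ) (hρ : 0 < ρ)
    (hM : ∀ v, ‖v‖ ≤ ρ → ‖f v‖ ≤ M)
    (hadd : ∀ u v, ‖u‖ ≤ ρ → ‖v‖ ≤ ρ → ‖u + v‖ ≤ ρ → ‖f (u + v) - f u - f v‖ ≤ ε) :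
    ∃ A B : E, ∀ v : ℂ, ‖v‖ ≤ ρ → ‖f v - (v.re • A + v.im • B)‖ ≤ 11 * ε := by
  refine ⟨ρ⁻¹ • f (ρ : ℂ), ρ⁻¹ • f (ρ * Complex.I), ?_⟩
  have h1 := seg_signed (fun x : ℝ => f (x : ℂ)) ρ M ε hρ
    (fun x hx => hM _ (by rw [Complex.norm_real]; exact hx))
    (fun x y hx hy hxy => by
      have := hadd (x : ℂ) (y : ℂ) (by rw [Complex.norm_real]; exact hx)
        (by rw [Complex.norm_real]; exact hy)
        (by rw [← Complex.ofReal_add, Complex.norm_real]; exact hxy)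
      simpa using this)
  have hI : ∀ x : ℝ, ‖(x : ℂ) * Complex.I‖ = |x| := by
    intro x; rw [norm_mul, Complex.norm_I, mul_one, Complex.norm_real]; rfl
  have h2 := seg_signed (fun x : ℝ => f ((x : ℂ) * Complex.I)) ρ M ε hρ
    (fun x hx => hM _ (by rw [hI]; exact hx))
    (fun x y hx hy hxy => by
      have := hadd ((x : ℂ) * Complex.I) ((y : ℂ) * Complex.I) (by rw [hI]; exact hx)
        (by rw [hI]; exact hy)
        (by rw [← add_mul, ← Complex.ofReal_add, hI]; exact hxy)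
      simpa [add_mul] using this)
  intro v hv
  have hre : |v.re| ≤ ρ := (Complex.abs_re_le_norm v).trans hv
  have him : |v.im| ≤ ρ := (Complex.abs_im_le_norm v).trans hv
  have e1 := h1 v.re hre
  have e2 := h2 v.im him
  have e3 := hadd (v.re : ℂ) ((v.im : ℂ) * Complex.I)
    (by rw [Complex.norm_real]; exact hre) (by rw [hI]; exact him)
    (by rw [Complex.re_add_im]; exact hv)
  rw [Complex.re_add_im] at e3
  have e4 : f v - (v.re • (ρ⁻¹ • f (ρ : ℂ)) + v.im • (ρ⁻¹ • f (ρ * Complex.I))) =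
      (f v - f (v.re : ℂ) - f ((v.im : ℂ) * Complex.I)) +
      (f (v.re : ℂ) - (v.re / ρ) • f (ρ : ℂ)) +
      (f ((v.im : ℂ) * Complex.I) - (v.im / ρ) • f ((ρ : ℂ) * Complex.I)) := by
    rw [smul_smul, smul_smul, div_eq_mul_inv, div_eq_mul_inv]; abel
  rw [e4]
  calc _ ≤ ‖(f v - f (v.re : ℂ) - f ((v.im : ℂ) * Complex.I)) +
      (f (v.re : ℂ) - (v.re / ρ) • f (ρ : ℂ))‖ +
      ‖f ((v.im : ℂ) * Complex.I) - (v.im / ρ) • f ((ρ : ℂ) * Complex.I)‖ := norm_add_le _ _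
    _ ≤ (‖f v - f (v.re : ℂ) - f ((v.im : ℂ) * Complex.I)‖ +
      ‖f (v.re : ℂ) - (v.re / ρ) • f (ρ : ℂ)‖) + 5 * ε := add_le_add (norm_add_le _ _) e2
    _ ≤ (ε + 5 * ε) + 5 * ε := add_le_add (add_le_add e3 e1) le_rfl
    _ = 11 * ε := by ring

/-- two vectors of length `ρ` with sum the real number `r ∈ [0, ρ]` -/
theorem isosceles (ρ r : ℝ) (hρ : 0 < ρ) (h0 : 0 ≤ r) (h1 : r ≤ ρ) :
    ∃ w : ℂ, ‖w‖ = 1 ∧ (ρ : ℂ) * w + (ρ : ℂ) * conj w = r := by
  set c : ℝ := r / (2 * ρ) with hc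
  have hc0 : 0 ≤ c := div_nonneg h0 (by linarith)
  have hc1 : c ≤ 1 := by
    rw [hc, div_le_one (by linarith)]; linarith
  refine ⟨⟨c, Real.sqrt (1 - c ^ 2)⟩, ?_, ?_⟩
  · have hs : 0 ≤ 1 - c ^ 2 := by nlinarith
    rw [Complex.norm_eq_sqrt_sq_add_sq]
    simp only
    rw [Real.sq_sqrt hs]
    have : c ^ 2 + (1 - c ^ 2) = 1 := by ring
    rw [this, Real.sqrt_one]
  · rw [← mul_add, Complex.add_conj]
    simp only
    rw [← Complex.ofReal_mul]
    congr 1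
    rw [hc]; field_simp

theorem iso_spin (f : ℂ → ℂ) (δ ρ ε : ℝ) (hδ : 0 < δ) (hρ : 0 < ρ)
    (hrot : ∀ w v : ℂ, ‖w‖ = 1 → f (w * v) = w * f v)
    (hadd : ∀ u v : ℂ, ‖u‖ = ρ → ‖v‖ = ρ → δ ≤ ‖u + v‖ → ‖u + v‖ ≤ ρ →
      ‖f (u + v) - f u - f v‖ ≤ ε) :
    ∀ v : ℂ, δ ≤ ‖v‖ → ‖v‖ ≤ ρ → ‖f v - (f ρ / ρ) * v‖ ≤ ε := by
  intro v hv1 hv2
  obtain ⟨w, hw, hsum⟩ := isosceles ρ ‖v‖ hρ (norm_nonneg _) hv2
  have hv0 : (0 : ℝ) < ‖v‖ := lt_of_lt_of_le hδ hv1
  have hv0' : ((‖v‖ : ℝ) : ℂ) ≠ 0 := by exact_mod_cast hv0.ne'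
  have hρ' : (ρ : ℂ) ≠ 0 := by exact_mod_cast hρ.ne'
  have hcw : ‖conj w‖ = 1 := by rw [RCLike.norm_conj]; exact hw
  have hnu : ‖(ρ : ℂ) * w‖ = ρ := by
    rw [norm_mul, hw, mul_one, Complex.norm_real, Real.norm_of_nonneg hρ.le]
  have hnv : ‖(ρ : ℂ) * conj w‖ = ρ := by
    rw [norm_mul, hcw, mul_one, Complex.norm_real, Real.norm_of_nonneg hρ.le]
  have hnn : ‖(ρ : ℂ) * w + (ρ : ℂ) * conj w‖ = ‖v‖ := by
    rw [hsum, Complex.norm_real, norm_norm]
  have key := hadd ((ρ : ℂ) * w) ((ρ : ℂ) * conj w) hnu hnv (by rw [hnn]; exact hv1)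
    (by rw [hnn]; exact hv2)
  rw [hsum] at key
  have e1 : f ((ρ : ℂ) * w) = w * f ρ := by rw [mul_comm]; exact hrot w _ hw
  have e2 : f ((ρ : ℂ) * conj w) = conj w * f ρ := by rw [mul_comm]; exact hrot _ _ hcw
  have e3 : f v = (v / ‖v‖) * f (‖v‖ : ℂ) := by
    have hn : ‖v / (‖v‖ : ℂ)‖ = 1 := by
      rw [norm_div, Complex.norm_real, norm_norm, div_self hv0.ne']
    rw [← hrot _ _ hn, div_mul_cancel₀ _ hv0']
  have e4 : w + conj w = (‖v‖ : ℂ) / ρ := by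
    rw [← mul_add] at hsum
    rw [eq_div_iff hρ', mul_comm]; exact hsum
  have e5 : f v - (f ρ / ρ) * v =
      (v / ‖v‖) * (f (‖v‖ : ℂ) - f ((ρ : ℂ) * w) - f ((ρ : ℂ) * conj w)) := by
    rw [e1, e2, e3]
    have : f (‖v‖ : ℂ) - w * f ρ - conj w * f ρ = f (‖v‖ : ℂ) - (w + conj w) * f ρ := by ring
    rw [this, e4]
    field_simp
  rw [e5, norm_mul]
  have hn : ‖v / (‖v‖ : ℂ)‖ = 1 := by
    rw [norm_div, Complex.norm_real, norm_norm, div_self hv0.ne']
  rw [hn, one_mul]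
  exact key

theorem iso_conj (f : ℂ → ℂ) (δ ρ ε : ℝ) (hδ : 0 < δ) (hρ : 0 < ρ)
    (hrot : ∀ w v : ℂ, ‖w‖ = 1 → f (w * v) = conj w * f v)
    (hadd : ∀ u v : ℂ, ‖u‖ = ρ → ‖v‖ = ρ → δ ≤ ‖u + v‖ → ‖u + v‖ ≤ ρ →
      ‖f (u + v) - f u - f v‖ ≤ ε) :
    ∀ v : ℂ, δ ≤ ‖v‖ → ‖v‖ ≤ ρ → ‖f v - (f ρ / ρ) * conj v‖ ≤ ε := by
  intro v hv1 hv2
  have h := iso_spin (fun z => f (conj z)) δ ρ ε hδ hρ
    (fun w z hw => by
      have := hrot (conj w) (conj z) (by rw [RCLike.norm_conj]; exact hw)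
      simpa using this)
    (fun u z hu hz h1 h2 => by
      have := hadd (conj u) (conj z) (by rw [RCLike.norm_conj]; exact hu)
        (by rw [RCLike.norm_conj]; exact hz)
        (by rw [← map_add, RCLike.norm_conj]; exact h1)
        (by rw [← map_add, RCLike.norm_conj]; exact h2)
      simpa using this)
    (conj v) (by rw [RCLike.norm_conj]; exact hv1) (by rw [RCLike.norm_conj]; exact hv2)
  simpa using h

/-- ball version with approximate 90 degree covariance of spin `+1` -/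
theorem plane_spin (f : ℂ → ℂ) (ρ M ε : ℝ) (hρ : 0 < ρ)
    (hM : ∀ v, ‖v‖ ≤ ρ → ‖f v‖ ≤ M)
    (hadd : ∀ u v, ‖u‖ ≤ ρ → ‖v‖ ≤ ρ → ‖u + v‖ ≤ ρ → ‖f (u + v) - f u - f v‖ ≤ ε)
    (hrot : ∀ v, ‖v‖ ≤ ρ → ‖f (Complex.I * v) - Complex.I * f v‖ ≤ ε) :
    ∃ b : ℂ, ∀ v : ℂ, ‖v‖ ≤ ρ → ‖f v - b * v‖ ≤ 35 * ε := by
  obtain ⟨A, B, hAB⟩ := plane f ρ M ε hρ hM hadd
  have hρn : ‖(ρ : ℂ)‖ ≤ ρ := by rw [Complex.norm_real, Real.norm_of_nonneg hρ.le]
  have hIρn : ‖Complex.I * (ρ : ℂ)‖ ≤ ρ := by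
    rw [norm_mul, Complex.norm_I, one_mul]; exact hρn
  -- compare at v = ρ
  have a1 := hAB ρ hρn
  have a2 := hAB (Complex.I * ρ) hIρn
  have a3 := hrot ρ hρn
  simp only [Complex.ofReal_re, Complex.ofReal_im, zero_smul, add_zero] at a1
  have r1 : (Complex.I * (ρ : ℂ)).re = 0 := by simp
  have r2 : (Complex.I * (ρ : ℂ)).im = ρ := by simp
  rw [r1, r2, zero_smul, zero_add] at a2
  -- ρ B - I ρ A small
  have a4 : ‖ρ • B - Complex.I * (ρ • A)‖ ≤ 23 * ε := by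
    have : ρ • B - Complex.I * (ρ • A) =
        (f (Complex.I * ρ) - Complex.I * f ρ) - (f (Complex.I * ρ) - ρ • B)
          + Complex.I * (f ρ - ρ • A) := by ring
    rw [this]
    calc _ ≤ ‖(f (Complex.I * ρ) - Complex.I * f ρ) - (f (Complex.I * ρ) - ρ • B)‖
          + ‖Complex.I * (f ρ - ρ • A)‖ := norm_add_le _ _
      _ ≤ (ε + 11 * ε) + 11 * ε := by
        refine add_le_add ((norm_sub_le _ _).trans (add_le_add a3 a2)) ?_
        rw [norm_mul, Complex.norm_I, one_mul]; exact a1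
      _ = 23 * ε := by ring
  refine ⟨A, fun v hv => ?_⟩
  have a5 := hAB v hv
  have him : |v.im| ≤ ρ := (Complex.abs_im_le_norm v).trans hv
  have hε : 0 ≤ ε := le_trans (norm_nonneg _) a3
  have a6 : ‖v.im • (B - Complex.I * A)‖ ≤ 23 * ε := by
    have e : v.im • (B - Complex.I * A) = (v.im / ρ) • (ρ • B - Complex.I * (ρ • A)) := by
      have : ρ • B - Complex.I * (ρ • A) = ρ • (B - Complex.I * A) := by
        rw [smul_sub, mul_smul_comm]
      rw [this, smul_smul, div_mul_cancel₀ _ hρ.ne']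
    rw [e, norm_smul, Real.norm_eq_abs, abs_div, abs_of_pos hρ]
    have : |v.im| / ρ ≤ 1 := by rw [div_le_one hρ]; exact him
    calc |v.im| / ρ * ‖ρ • B - Complex.I * (ρ • A)‖ ≤ 1 * (23 * ε) :=
          mul_le_mul this a4 (norm_nonneg _) zero_le_one
      _ = 23 * ε := one_mul _
  have e7 : f v - A * v = (f v - (v.re • A + v.im • B)) + v.im • (B - Complex.I * A) := by
    have hv' : v = (v.re : ℂ) + (v.im : ℂ) * Complex.I := (Complex.re_add_im v).symm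
    have : A * v = v.re • A + v.im • (Complex.I * A) := by
      conv_lhs => rw [hv']
      rw [Complex.real_smul, Complex.real_smul]; ring
    rw [this, smul_sub]; abel
  rw [e7]
  calc _ ≤ ‖f v - (v.re • A + v.im • B)‖ + ‖v.im • (B - Complex.I * A)‖ := norm_add_le _ _
    _ ≤ 11 * ε + 23 * ε := add_le_add a5 a6
    _ ≤ 35 * ε := by linarith

/-- ball version with approximate 90 degree covariance of spin `-1` -/
theorem plane_conj (f : ℂ → ℂ) (ρ M ε : ℝ) (hρ : 0 < ρ)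
    (hM : ∀ v, ‖v‖ ≤ ρ → ‖f v‖ ≤ M)
    (hadd : ∀ u v, ‖u‖ ≤ ρ → ‖v‖ ≤ ρ → ‖u + v‖ ≤ ρ → ‖f (u + v) - f u - f v‖ ≤ ε)
    (hrot : ∀ v, ‖v‖ ≤ ρ → ‖f (Complex.I * v) + Complex.I * f v‖ ≤ ε) :
    ∃ b : ℂ, ∀ v : ℂ, ‖v‖ ≤ ρ → ‖f v - b * conj v‖ ≤ 35 * ε := by
  have hcj : ∀ z : ℂ, ‖conj z‖ = ‖z‖ := fun z => RCLike.norm_conj z
  obtain ⟨b, hb⟩ := plane_spin (fun z => f (conj z)) ρ M ε hρ
    (fun v hv => hM _ (by rw [hcj]; exact hv))
    (fun u v hu hv huv => by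
      have := hadd (conj u) (conj v) (by rw [hcj]; exact hu) (by rw [hcj]; exact hv)
        (by rw [← map_add, hcj]; exact huv)
      simpa using this)
    (fun v hv => by
      -- f(conj (I v)) - I f (conj v): use the covariance at the vector `conj (I v)`
      have h5 := hrot (conj (Complex.I * v)) (by
        rw [hcj, norm_mul, Complex.norm_I, one_mul]; exact hv)
      have e4 : Complex.I * conj (Complex.I * v) = conj v := by
        rw [map_mul, Complex.conj_I]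
        calc Complex.I * (-Complex.I * conj v) = -(Complex.I * Complex.I) * conj v := by ring
          _ = conj v := by rw [Complex.I_mul_I]; ring
      rw [e4] at h5
      show ‖f (conj (Complex.I * v)) - Complex.I * f (conj v)‖ ≤ ε
      have e6 : f (conj (Complex.I * v)) - Complex.I * f (conj v) =
          -Complex.I * (f (conj v) + Complex.I * f (conj (Complex.I * v))) := by
        have : Complex.I * Complex.I = -1 := Complex.I_mul_I
        linear_combination (f (conj (Complex.I * v))) * this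
      rw [e6, norm_mul, norm_neg, Complex.norm_I, one_mul]
      exact h5)
  refine ⟨b, fun v hv => ?_⟩
  have := hb (conj v) (by rw [hcj]; exact hv)
  simpa using this

end Crest.Agent.R143.AddLinx106
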