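import Crest.Agent.R143.Frame6_395
import Crest.Agent.R143.Osc_63

/-!
# Row 143 (S0194), part B without E3: the tight frame, part 7 (helper395, after helper493)

* `frame` : **`HNet S N` ⟹ `∑ ‖N.Q t‖² ≤ 1`** over representatives of the triangles
* `frame3` : `∑ ‖N.Q t‖² ≤ 3` over all triangles (with their rotations)
-/

set_option autoImplicit false

noncomputable section

open scoped Classical

namespace Crest.Agent.R143.Frame7x395

open Crest.Agent.R143.B0x346 Crest.Agent.R143.DelGx806 Crest.Agent.R143.DelRx806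
  Crest.Agent.R143.JColx54 Crest.Agent.R143.JCardx872 Crest.Agent.R143.Planarx54
  Crest.Agent.R143.Sidesx697
open Crest.Agent.R143.Frame1x395 Crest.Agent.R143.Frame2x395 Crest.Agent.R143.Frame3x395
  Crest.Agent.R143.Frame4x395 Crest.Agent.R143.Frame5x395 Crest.Agent.R143.Frame6x395

variable {S : Finset ℂ} {N : Net ℂ} {t : ℂ × ℂ × ℂ}

theorem mu {X : Type} {i : Fintype X} (a : X) : a ∈ @Finset.univ X i := @Finset.mem_univ X i a

theorem star_one (h : HNet S N) {y : Dt S → ZMod 2} {i : Dt S}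
    (H : IsT (cm h) (Sum.inr 0) i y) : ∀ k, y (Sum.inr k) = 1 := by
  have r1 : (cm h).rho (Sum.inr 0 : Dt S) = Sum.inr 2 := by
    show (Sum.inr (0 - 1) : Dt S) = Sum.inr 2
    congr 1
  have r2 : (cm h).rho (Sum.inr 2 : Dt S) = Sum.inr 1 := by
    show (Sum.inr (2 - 1) : Dt S) = Sum.inr 1
    congr 1
  have h1 := H.g1
  have h2 := H.g2
  rw [r1] at h1 h2
  rw [r2] at h2
  intro k
  rcases z3 k with rfl | rfl | rfl
  · exact H.g0
  · exact h2
  · exact h1

/-- **the numbers of joins with three legs** -/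
theorem card_tri (h : HNet S N) (ht : t ∈ delT S) (k : ZMod 3) :
    ((N.tj t).filter (N.Tri3 t k)).card = nT (cm h) (Sum.inr 0) (sdt h ht (-k)) := by
  unfold nT
  refine Finset.card_bij (fun J _ => toY S J) ?_ ?_ ?_
  · intro J hJ
    obtain ⟨h1, h2⟩ := Finset.mem_filter.1 hJ
    exact Finset.mem_filter.2 ⟨mu _, (tri3_iff_T h ht (mem_joins.1 h1) k).1 h2⟩
  · intro J hJ J' hJ' e
    have h1 := mem_joins.1 (Finset.mem_filter.1 hJ).1
    have h2 := mem_joins.1 (Finset.mem_filter.1 hJ').1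
    rw [← ofY_toY h h1, ← ofY_toY h h2, e]
  · intro y hy
    have H := (Finset.mem_filter.1 hy).2
    have h1 := star_one h H
    have hC := H.c
    rw [bb_sdt] at hC
    have hJ := ofY_isJoin h ht hC h1
    have e := toY_ofY h1
    refine ⟨ofY S y, Finset.mem_filter.2 ⟨mem_joins.2 hJ, ?_⟩, e⟩
    rw [tri3_iff_T h ht hJ k, e]
    exact H

/-- **the number of joins** -/
theorem card_tj (h : HNet S N) (ht : t ∈ delT S) (hne : (N.tj t).Nonempty) :
    (nE (cm h) : ℝ) / 4 ≤ (N.tj t).card := by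
  refine (nE_le (M := cm h) (Sum.inr 0)).trans ?_
  have key : nZ (cm h) (Sum.inr 0) ≤ (N.tj t).card := by
    obtain ⟨J0, hJ0⟩ := hne
    have hJ0' := mem_joins.1 hJ0
    have hC0 := toY_isC h ht hJ0'
    unfold nZ
    have r1 : (cm h).rho (Sum.inr 0 : Dt S) = Sum.inr 2 := by
      show (Sum.inr (0 - 1) : Dt S) = Sum.inr 2
      congr 1
    have r2 : (cm h).rho (Sum.inr 2 : Dt S) = Sum.inr 1 := by
      show (Sum.inr (2 - 1) : Dt S) = Sum.inr 1
      congr 1
    have hx1 : ∀ x : Dt S → ZMod 2, (IsC (cm h) ∅ x ∧ x (Sum.inr 0) = 0 ∧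
        x ((cm h).rho (Sum.inr 0)) = 0 ∧ x ((cm h).rho ((cm h).rho (Sum.inr 0))) = 0) →
        IsC (cm h) (Bt h ht) (fun d => x d + toY S J0 d) ∧
          ∀ k, x (Sum.inr k) + toY S J0 (Sum.inr k) = 1 := by
      rintro x ⟨h1, h2, h3, h4⟩
      rw [r1] at h3 h4
      rw [r2] at h4
      constructor
      · have := isC_add h1 hC0
        rwa [← Set.bot_eq_empty, bot_symmDiff] at this
      · intro k
        have : toY S J0 (Sum.inr k) = 1 := rfl
        rw [this]
        rcases z3 k with rfl | rfl | rfl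
        · rw [h2]; decide
        · rw [h4]; decide
        · rw [h3]; decide
    refine Finset.card_le_card_of_injOn (fun x => ofY S fun d => x d + toY S J0 d) ?_ ?_
    · intro x hx
      obtain ⟨h1, h2⟩ := hx1 x (Finset.mem_filter.1 hx).2
      exact Finset.mem_coe.2 (mem_joins.2 (ofY_isJoin h ht h1 h2))
    · intro x hx x' hx' e
      obtain ⟨-, h2⟩ := hx1 x (Finset.mem_filter.1 hx).2
      obtain ⟨-, h2'⟩ := hx1 x' (Finset.mem_filter.1 hx').2
      have e1 := toY_ofY (y := fun d => x d + toY S J0 d) h2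
      have e2 := toY_ofY (y := fun d => x' d + toY S J0 d) h2'
      simp only at e
      rw [e] at e1
      funext d
      have := congrFun (e1.symm.trans e2) d
      exact add_right_cancel this
  exact_mod_cast key

theorem om_conj : (starRingEnd ℂ) om = om ^ 2 := by
  have h1 : om * (starRingEnd ℂ) om = 1 := by
    rw [Complex.mul_conj, Complex.normSq_eq_norm_sq, Oscx63.norm_om]; norm_num
  have h2 : om * om ^ 2 = 1 := by rw [← pow_succ', Oscx63.om_pow_three]
  have h0 : om ≠ 0 := by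
    intro e
    rw [e] at h1
    simp at h1
  exact mul_left_cancel₀ h0 (h1.trans h2.symm)

theorem om_sum : 1 + om + om ^ 2 = 0 := by
  have h1 : (om - 1) * (1 + om + om ^ 2) = 0 := by
    have := Oscx63.om_pow_three
    linear_combination this
  rcases mul_eq_zero.1 h1 with h2 | h2
  · exfalso
    have h3 := Oscx63.norm_one_sub_om
    rw [show (1 : ℂ) - om = -(om - 1) by ring, h2, neg_zero, norm_zero] at h3
    have : 0 < Real.sqrt 3 := by positivity
    linarith
  · exact h2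

/-- the amplitude in terms of thetas -/
theorem Q_eq (h : HNet S N) (ht : t ∈ delT S) (hne : (N.tj t).Nonempty) :
    N.Q t * ((N.tj t).card : ℂ) = (nT (cm h) (Sum.inr 0) (sdt h ht 0) : ℂ) +
      om ^ 2 * nT (cm h) (Sum.inr 0) ((cm h).rho (sdt h ht 0)) +
      (om ^ 2) ^ 2 * nT (cm h) (Sum.inr 0) ((cm h).rho ((cm h).rho (sdt h ht 0))) := by
  have hc : ((N.tj t).card : ℂ) ≠ 0 := by
    exact_mod_cast (Finset.card_pos.2 hne).ne'
  have hA : ∀ k, (N.triA t k : ℂ) * ((N.tj t).card : ℂ) =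
      (nT (cm h) (Sum.inr 0) (sdt h ht (-k)) : ℂ) := by
    intro k
    unfold Net.triA
    rw [card_tri h ht k]
    push_cast
    field_simp
  have h3 := Oscx63.om_pow_three
  have e4 : (om ^ 2) ^ 2 = om := by
    rw [← pow_mul, show (2 * 2 : ℕ) = 3 + 1 by norm_num, pow_add, h3]; ring
  have s3 : N.Q t = N.triA t 0 * omz 0 + N.triA t 1 * omz 1 + N.triA t 2 * omz 2 := by
    unfold Net.Q
    exact Fin.sum_univ_three (fun k : ZMod 3 => (N.triA t k : ℂ) * omz k)
  have o0 : omz 0 = 1 := by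
    unfold omz
    rw [show ZMod.val (0 : ZMod 3) = 0 from rfl, pow_zero]
  have o1 : omz 1 = om := by
    unfold omz
    rw [show ZMod.val (1 : ZMod 3) = 1 from rfl, pow_one]
  have o2 : omz 2 = om ^ 2 := by
    unfold omz
    rw [show ZMod.val (2 : ZMod 3) = 2 from rfl]
  have a0 := hA 0
  have a1 := hA 1
  have a2 := hA 2
  rw [show -(0 : ZMod 3) = 0 by decide] at a0
  rw [show -(1 : ZMod 3) = 0 + 1 + 1 by decide, ← rho_sdt, ← rho_sdt] at a1
  rw [show -(2 : ZMod 3) = 0 + 1 by decide, ← rho_sdt] at a2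
  rw [← a0, ← a1, ← a2, s3, o0, o1, o2, e4]
  ring

theorem nE_pos (h : HNet S N) : (0 : ℝ) < nE (cm h) := by
  have : 0 < nE (cm h) := by
    unfold nE
    rw [Finset.card_pos]
    refine ⟨fun _ => 0, Finset.mem_filter.2 ⟨mu _, fun _ _ => rfl, fun _ => rfl,
      fun d => ?_⟩⟩
    rw [if_neg (Set.notMem_empty d)]; decide
  exact_mod_cast this

/-- **FRAME**: the total energy is at most `1`, without E3 -/
theorem frame (h : HNet S N) {U : Finset (ℂ × ℂ × ℂ)} (hU : U ⊆ delT S)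
    (hrep : ∀ s ∈ U, ∀ t ∈ U, s ≠ t → t ∉ rots s) : ∑ t ∈ U, ‖N.Q t‖ ^ 2 ≤ 1 := by
  have hE := nE_pos h
  set w : ℂ := om ^ 2 with hw
  have h3 := Oscx63.om_pow_three
  have w3 : w ^ 3 = 1 := by rw [hw, ← pow_mul, mul_comm, pow_mul, h3, one_pow]
  have e4 : (om ^ 2) ^ 2 = om := by
    rw [← pow_mul, show (2 * 2 : ℕ) = 3 + 1 by norm_num, pow_add, h3]; ring
  have w1 : 1 + w + w ^ 2 = 0 := by rw [hw, e4]; linear_combination om_sum
  have wc : (starRingEnd ℂ) w = w ^ 2 := by rw [hw, map_pow, om_conj]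
  set φ : Dt S → ℝ := fun b => ‖(nT (cm h) (Sum.inr 0) b : ℂ) +
    w * nT (cm h) (Sum.inr 0) ((cm h).rho b) +
    w ^ 2 * nT (cm h) (Sum.inr 0) ((cm h).rho ((cm h).rho b))‖ ^ 2 with hφ
  have one : ∀ t (ht : t ∈ delT S), ‖N.Q t‖ ^ 2 * ((nE (cm h) : ℝ) / 4) ^ 2 ≤ φ (sdt h ht 0) := by
    intro t ht
    rcases (N.tj t).eq_empty_or_nonempty with he | hne
    · have hQ : N.Q t = 0 := by
        unfold Net.Q Net.triA
        rw [he]
        simp
      rw [hQ, norm_zero]
      have h0 : 0 ≤ φ (sdt h ht 0) := sq_nonneg _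
      simpa using h0
    · have h1 := card_tj h ht hne
      have h2 : φ (sdt h ht 0) = ‖N.Q t‖ ^ 2 * ((N.tj t).card : ℝ) ^ 2 := by
        simp only [hφ]
        rw [hw, ← Q_eq h ht hne, norm_mul, mul_pow]
        simp
      rw [h2]
      apply mul_le_mul_of_nonneg_left _ (by positivity)
      exact pow_le_pow_left₀ (by positivity) h1 2
  set G : {t // t ∈ U} → Dt S := fun t => sdt h (hU t.2) 0 with hG
  have hGinj : Function.Injective G := by
    intro s t e
    by_contra hne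
    have hst : s.1 ≠ t.1 := fun e => hne (Subtype.ext e)
    apply hrep s.1 s.2 t.1 t.2 hst
    have ht' : (t.1.1, t.1.2.1, t.1.2.2) ∈ delT S := hU t.2
    have := (inl_mem h (hU s.2) ht' (mem_sd.2 ⟨_, ht'⟩)).1 (by
      right
      have e' : (Sum.inl ⟨(t.1.1, t.1.2.1), mem_sd.2 ⟨_, ht'⟩⟩ : Dt S) = sdt h (hU s.2) 0 := e.symm
      rw [e']
      exact fa0 _ _)
    exact this
  have hmain := frame_abs (M := cm h) w3 w1 wc (b0 := (Sum.inr 0 : Dt S))
    (F := Finset.univ.image G)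
    (by
      intro b hb
      obtain ⟨t, -, rfl⟩ := Finset.mem_image.1 hb
      rintro (hd | hd | hd)
      · exact absurd hd (by simp [hG, sdt])
      · exact absurd (show (Sum.inl _ : Dt S) = Sum.inr (0 - 1) from hd) (by simp)
      · exact absurd (show (Sum.inl _ : Dt S) = Sum.inr (0 - 1 - 1) from hd) (by simp))
    (by
      intro b hb b' hb' hne hc
      obtain ⟨s, -, rfl⟩ := Finset.mem_image.1 hb
      obtain ⟨t, -, rfl⟩ := Finset.mem_image.1 hb'
      have hst : s.1 ≠ t.1 := fun e => hne (by rw [Subtype.ext e])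
      apply hrep s.1 s.2 t.1 t.2 hst
      have ht' : (t.1.1, t.1.2.1, t.1.2.2) ∈ delT S := hU t.2
      exact (inl_mem h (hU s.2) ht' (mem_sd.2 ⟨_, ht'⟩)).1 (Or.inr hc))
  rw [Finset.sum_image fun x _ y _ e => hGinj e] at hmain
  have h5 : (∑ t ∈ U, ‖N.Q t‖ ^ 2) * ((nE (cm h) : ℝ) / 4) ^ 2 ≤ ((nE (cm h) : ℝ) / 4) ^ 2 := by
    calc (∑ t ∈ U, ‖N.Q t‖ ^ 2) * ((nE (cm h) : ℝ) / 4) ^ 2
        = ∑ t : {t // t ∈ U}, ‖N.Q t.1‖ ^ 2 * ((nE (cm h) : ℝ) / 4) ^ 2 := by
          rw [Finset.sum_mul, ← Finset.sum_coe_sort U]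
      _ ≤ ∑ t : {t // t ∈ U}, φ (G t) := Finset.sum_le_sum fun t _ => one t.1 (hU t.2)
      _ ≤ _ := hmain
  have h6 : 0 < ((nE (cm h) : ℝ) / 4) ^ 2 := by positivity
  by_contra hc
  push Not at hc
  have := mul_lt_mul_of_pos_right hc h6
  linarith

/-- **FRAME** for all oriented triangles -/
theorem frame3 (h : HNet S N) {U : Finset (ℂ × ℂ × ℂ)} (hU : U ⊆ delT S) :
    ∑ t ∈ U, ‖N.Q t‖ ^ 2 ≤ 3 := by
  set f : ℂ × ℂ × ℂ → ℕ := fun t => if ht : t ∈ delT S then ((delT S).equivFin ⟨t, ht⟩).val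
    else 0 with hf
  have finj : ∀ s ∈ delT S, ∀ t ∈ delT S, f s = f t → s = t := by
    intro s hs t ht e
    simp only [hf, dif_pos hs, dif_pos ht] at e
    have := (delT S).equivFin.injective (Fin.ext e)
    exact congrArg Subtype.val this
  set r : ℂ × ℂ × ℂ → ℂ × ℂ × ℂ := fun t => (t.2.1, t.2.2, t.1) with hr
  have rm : ∀ t ∈ delT S, r t ∈ delT S := fun t ht => rot_mem h (a := t.1) (b := t.2.1)
    (c := t.2.2) ht
  have r3 : ∀ t, r (r (r t)) = t := fun t => rfl
  have rots_iff : ∀ s t, t ∈ rots s ↔ t = s ∨ t = r s ∨ t = r (r s) := by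
    intro s t
    unfold rots
    simp only [Set.mem_insert_iff, Set.mem_singleton_iff, hr]
  have rne : ∀ t ∈ delT S, r t ≠ t := by
    intro t ht e
    have h1 := (mem_delT_iff.1 (show (t.1, t.2.1, t.2.2) ∈ delT S from ht))
    obtain ⟨o, ho⟩ := h1
    exact ho.ne.1 (congrArg Prod.fst e).symm
  have rne2 : ∀ t ∈ delT S, r (r t) ≠ t := by
    intro t ht e
    have := rne _ (rm t ht)
    rw [e] at this
    have e2 := congrArg r e
    rw [r3] at e2
    exact rne t ht e2.symm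
  have part : ∀ (i : ℂ × ℂ × ℂ → ℂ × ℂ × ℂ), (∀ t, i t = t ∨ i t = r t ∨ i t = r (r t)) →
      (∀ t, i (r t) = r (i t)) →
      ∑ t ∈ (delT S).filter (fun t => f (i t) < f (r (i t)) ∧ f (i t) < f (r (r (i t)))),
        ‖N.Q t‖ ^ 2 ≤ 1 := by
    intro i hi hir
    apply frame h (Finset.filter_subset _ _)
    intro s hs t ht hne hc
    obtain ⟨-, s1, s2⟩ := Finset.mem_filter.1 hs
    obtain ⟨-, t1, t2⟩ := Finset.mem_filter.1 ht
    rw [rots_iff] at hc
    rcases hc with rfl | rfl | rfl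
    · exact hne rfl
    · rw [hir, r3] at t2
      omega
    · rw [hir, hir, r3] at t1
      omega
  have p0 := part (fun t => t) (fun t => Or.inl rfl) (fun t => rfl)
  have p1 := part r (fun t => Or.inr (Or.inl rfl)) (fun t => rfl)
  have p2 := part (fun t => r (r t)) (fun t => Or.inr (Or.inr rfl)) (fun t => rfl)
  simp only [r3] at p1 p2
  have hcov : delT S ⊆ (delT S).filter (fun t => f t < f (r t) ∧ f t < f (r (r t))) ∪
      ((delT S).filter (fun t => f (r t) < f (r (r t)) ∧ f (r t) < f t) ∪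
      (delT S).filter (fun t => f (r (r t)) < f t ∧ f (r (r t)) < f (r t))) := by
    intro t ht
    have h1 : f t ≠ f (r t) := fun e => rne t ht (finj _ ht _ (rm _ ht) e).symm
    have h2 : f t ≠ f (r (r t)) := fun e => rne2 t ht (finj _ ht _ (rm _ (rm _ ht)) e).symm
    have h3 : f (r t) ≠ f (r (r t)) := fun e =>
      rne _ (rm t ht) (finj _ (rm _ ht) _ (rm _ (rm _ ht)) e).symm
    simp only [Finset.mem_union, Finset.mem_filter, ht, true_and]
    omega
  have q : ∀ A B : Finset (ℂ × ℂ × ℂ), ∑ t ∈ A ∪ B, ‖N.Q t‖ ^ 2 ≤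
      ∑ t ∈ A, ‖N.Q t‖ ^ 2 + ∑ t ∈ B, ‖N.Q t‖ ^ 2 := by
    intro A B
    rw [← Finset.sum_union_inter]
    have : 0 ≤ ∑ t ∈ A ∩ B, ‖N.Q t‖ ^ 2 := Finset.sum_nonneg fun t _ => by positivity
    linarith
  have h1 : ∑ t ∈ U, ‖N.Q t‖ ^ 2 ≤ _ :=
    Finset.sum_le_sum_of_subset_of_nonneg (hU.trans hcov) fun t _ _ => by positivity
  have h2 := q ((delT S).filter (fun t => f t < f (r t) ∧ f t < f (r (r t))))
    ((delT S).filter (fun t => f (r t) < f (r (r t)) ∧ f (r t) < f t) ∪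
      (delT S).filter (fun t => f (r (r t)) < f t ∧ f (r (r t)) < f (r t)))
  have h3 := q ((delT S).filter (fun t => f (r t) < f (r (r t)) ∧ f (r t) < f t))
    ((delT S).filter (fun t => f (r (r t)) < f t ∧ f (r (r t)) < f (r t)))
  linarith

end Crest.Agent.R143.Frame7x395
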