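import Crest.Agent.R143.Frame8_395
import Crest.Agent.R143.Frame7_395

/-!
# Row 143 (S0194), route without E3 / ZF: literal objects (helper346), built on Frame1..8_395

Abstract closed map `M : CMap D C` (a dart `g` with `Gp M x g` = a face of degree two; `cell g`,
`cell (rho g)` = the two majority cells, `cell (rho (rho g))` = the minority cell; `blk M x g` = block).

* `rs M a o`  = sum over the even configurations with the gap `o` of the block sum of `a` over the
  block of `o` (so `rs M a o / nG M o` = expectation of the block sum given the gap `o`);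
* `rs_pair`, `rs_rot` (COLOUR SWITCHING: `rs M a o = w * rs M a (rho o)` for spin `w` fields which
  vanish on the root face), `rs_bound` (FRAME for the root block);

Fields on the darts of a network `cm h` (`h : HNet S N`); the dart `inl (a, b)` has the tail `a`, the
head `b`, the third vertex `c = th S (a, b)`, `(a, b, c)` counterclockwise:
* `dv` = `b - a` (step of the circuit), `nv` = `(a + b)/2 - c` (normal), `ctv` = centre of the face;
* `Pv = c + om² a + om b` (the big field), `Rv = c + om a + om² b` (zero for an equilateral face);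
* `Pv_eq : Pv = - nv + i (√3/2) dv`, `Rv_eq : Rv = - nv - i (√3/2) dv`;
* `spinP : Spin (cm h) om Pv`, `spinR : Spin (cm h) (om ^ 2) Rv`, also with a test function of the
  centre; source darts `inr k` carry the value `0`.
-/

set_option autoImplicit false

noncomputable section

open scoped Classical

namespace Crest.Agent.R143.DefsNx346

open Crest.Agent.R143.B0x346 Crest.Agent.R143.DelGx806 Crest.Agent.R143.DelRx806
open Crest.Agent.R143.Frame1x395 Crest.Agent.R143.Frame2x395 Crest.Agent.R143.Frame3x395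
  Crest.Agent.R143.Frame4x395 Crest.Agent.R143.Frame5x395 Crest.Agent.R143.Frame7x395
  Crest.Agent.R143.Frame8x395

section abstractpart

variable {D C : Type} [Fintype D] {M : CMap D C}

/-- block sum of a field -/
def bs (M : CMap D C) (x : D → ZMod 2) (a : D → ℂ) (g : D) : ℂ := ∑ k ∈ blk M x g, a k

/-- sum over the even configurations with the gap `o` of the block sum over the block of `o` -/
def rs (M : CMap D C) (a : D → ℂ) (o : D) : ℂ :=
  ∑ x ∈ (ev M).filter (fun x => Gp M x o), bs M x a o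

/-- expectation of the block sum of `a` over the root block, given the gap `o` -/
def EV (M : CMap D C) (a : D → ℂ) (o : D) : ℂ := rs M a o / (nG M o : ℂ)

theorem rs_pair (a : D → ℂ) (o : D) : rs M a o = ∑ g, a g * (nP M o g : ℂ) := by
  unfold rs bs
  rw [Finset.sum_filter]
  have e1 : ∀ x ∈ ev M, (if Gp M x o then ∑ k ∈ blk M x o, a k else 0) =
      ∑ g, a g * (if Gp M x o ∧ Gp M x g ∧ Rel M x o g then 1 else 0) := by
    intro x _
    by_cases ho : Gp M x o
    · rw [if_pos ho]
      unfold blk gaps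
      rw [Finset.filter_filter, Finset.sum_filter]
      refine Finset.sum_congr rfl fun g _ => ?_
      by_cases hg : Gp M x g ∧ Rel M x o g
      · rw [if_pos hg, if_pos ⟨ho, hg⟩, mul_one]
      · rw [if_neg hg, if_neg fun h' => hg h'.2, mul_zero]
    · rw [if_neg ho]
      symm
      refine Finset.sum_eq_zero fun g _ => ?_
      rw [if_neg fun h' => ho h'.1, mul_zero]
  rw [Finset.sum_congr rfl e1, Finset.sum_comm]
  refine Finset.sum_congr rfl fun g _ => ?_
  rw [← Finset.mul_sum, sum_rel]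

theorem rs_pairT {a : D → ℂ} {o : D} (ha : ∀ d ∈ Fa M o, a d = 0) :
    rs M a o = ∑ g, a g * (nT M o g : ℂ) := by
  rw [rs_pair]
  refine Finset.sum_congr rfl fun g _ => ?_
  by_cases hg : g ∈ Fa M o
  · rw [ha g hg, zero_mul, zero_mul]
  · rw [nP_eq hg]

/-- **colour switching** for the root block -/
theorem rs_rot {w : ℂ} {a : D → ℂ} {o : D} (hs : Spin M w a) (ha : ∀ d ∈ Fa M o, a d = 0) :
    rs M a o = w * rs M a (M.rho o) := by
  rw [rs_pairT ha, rs_pairT (fun d hd => ha d (by rwa [fa_rot] at hd)), Finset.mul_sum]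
  symm
  refine Fintype.sum_equiv (rhoE M) _ _ fun g => ?_
  show w * (a g * (nT M (M.rho o) g : ℂ)) = a (M.rho g) * (nT M o (M.rho g) : ℂ)
  have e : nT M (M.rho o) g = nT M o (M.rho g) := by
    rw [← nT_rot (g := o) (h := M.rho g), M.rho3]
  rw [hs, e]
  ring

/-- **frame** for the root block -/
theorem rs_bound {w : ℂ} (w3 : w ^ 3 = 1) (w1 : w ≠ 1) (wc : (starRingEnd ℂ) w = w ^ 2)
    {a : D → ℂ} (hs : Spin M w a) (o : D) :
    ∑ x ∈ (ev M).filter (fun x => Gp M x o), ‖bs M x a o‖ ^ 2 ≤ ∑ g, ‖a g‖ ^ 2 * (nG M g : ℝ) := by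
  rw [← i1_norm w3 w1 wc hs, Finset.sum_filter]
  refine Finset.sum_le_sum fun x _ => ?_
  split_ifs with ho
  · have h1 : blk M x o ∈ blks M x := Finset.mem_image_of_mem _ (mem_gaps.2 ho)
    exact Finset.single_le_sum (f := fun β => ‖∑ g ∈ β, a g‖ ^ 2)
      (fun β _ => by positivity) h1
  · exact Finset.sum_nonneg fun β _ => by positivity

end abstractpart

/-! ### fields -/

variable {S : Finset ℂ} {N : Net ℂ}

/-- `i √3 / 2` -/
def hi : ℂ := ((Real.sqrt 3 / 2 : ℝ) : ℂ) * Complex.I

/-- step of the circuit -/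
def dE (e : ℂ × ℂ) : ℂ := e.2 - e.1
/-- normal -/
def nE' (S : Finset ℂ) (e : ℂ × ℂ) : ℂ := (e.1 + e.2) / 2 - th S e
/-- centre of the face -/
def cE (S : Finset ℂ) (e : ℂ × ℂ) : ℂ := (e.1 + e.2 + th S e) / 3
/-- big field -/
def PE (S : Finset ℂ) (e : ℂ × ℂ) : ℂ := th S e + om ^ 2 * e.1 + om * e.2
/-- small field -/
def RE (S : Finset ℂ) (e : ℂ × ℂ) : ℂ := th S e + om * e.1 + om ^ 2 * e.2

/-- a function of the sides as a field on the darts of a network (zero on the source face) -/
def fld (f : ℂ × ℂ → ℂ) : Dt S → ℂ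
  | Sum.inl e => f e.1
  | Sum.inr _ => 0

def dv : Dt S → ℂ := fld dE
def nv : Dt S → ℂ := fld (nE' S)
def Pv (phi : ℂ → ℂ) : Dt S → ℂ := fld fun e => phi (cE S e) * PE S e
def Rv (phi : ℂ → ℂ) : Dt S → ℂ := fld fun e => phi (cE S e) * RE S e

theorem om_val : om = -(1 / 2) + hi := by
  unfold om hi
  rw [Complex.exp_mul_I, ← Complex.ofReal_cos, ← Complex.ofReal_sin]
  have h1 : Real.cos (2 * Real.pi / 3) = -(1 / 2) := by
    rw [show 2 * Real.pi / 3 = Real.pi - Real.pi / 3 by ring, Real.cos_pi_sub,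
      Real.cos_pi_div_three]
  have h2 : Real.sin (2 * Real.pi / 3) = Real.sqrt 3 / 2 := by
    rw [show 2 * Real.pi / 3 = Real.pi - Real.pi / 3 by ring, Real.sin_pi_sub,
      Real.sin_pi_div_three]
  rw [h1, h2]
  push_cast
  ring

theorem om2_val : om ^ 2 = -(1 / 2) - hi := by
  have h1 := om_sum
  have h2 := om_val
  linear_combination h1 - h2

theorem om_ne : om ≠ 1 := by
  intro h
  have h1 := om_sum
  rw [h] at h1
  norm_num at h1

theorem om3 : om ^ 3 = 1 := Oscx63.om_pow_three

theorem om23 : (om ^ 2) ^ 3 = 1 := by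
  calc (om ^ 2) ^ 3 = (om ^ 3) ^ 2 := by ring
    _ = 1 := by rw [om3, one_pow]

theorem om2_ne : om ^ 2 ≠ 1 := by
  intro h
  apply om_ne
  calc om = om ^ 3 * om := by rw [om3, one_mul]
    _ = om ^ 2 * om ^ 2 := by ring
    _ = 1 := by rw [h, one_mul]

theorem om2_conj : (starRingEnd ℂ) (om ^ 2) = (om ^ 2) ^ 2 := by
  rw [map_pow, om_conj]

/-- the two fields in terms of the normal and the step -/
theorem PE_eq (e : ℂ × ℂ) : PE S e = -nE' S e + hi * dE e := by
  unfold PE nE' dE
  rw [om2_val, om_val]; ring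

theorem RE_eq (e : ℂ × ℂ) : RE S e = -nE' S e - hi * dE e := by
  unfold RE nE' dE
  rw [om2_val, om_val]; ring

theorem spin_fld {w : ℂ} (h : HNet S N) {f : ℂ × ℂ → ℂ}
    (hf : ∀ a b c, (a, b, c) ∈ delT S → f (b, c) = w * f (a, b)) : Spin (cm h) w (fld f) := by
  rintro (⟨⟨a, b⟩, he⟩ | k)
  · exact hf a b (th S (a, b)) (th_spec he)
  · show (0 : ℂ) = w * 0
    rw [mul_zero]

theorem cE_rot (h : HNet S N) {a b c : ℂ} (ht : (a, b, c) ∈ delT S) :
    cE S (b, c) = cE S (a, b) := by
  unfold cE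
  rw [th_eq h ht, th_eq h (rot_mem h ht)]
  ring

theorem spinP (h : HNet S N) (phi : ℂ → ℂ) : Spin (cm h) om (Pv phi) := by
  refine spin_fld h fun a b c ht => ?_
  rw [cE_rot h ht]
  unfold PE
  rw [th_eq h ht, th_eq h (rot_mem h ht)]
  simp only
  linear_combination (-(phi (cE S (a, b))) * a) * om3

theorem spinR (h : HNet S N) (phi : ℂ → ℂ) : Spin (cm h) (om ^ 2) (Rv phi) := by
  refine spin_fld h fun a b c ht => ?_
  rw [cE_rot h ht]
  unfold RE
  rw [th_eq h ht, th_eq h (rot_mem h ht)]
  simp only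
  linear_combination (-(phi (cE S (a, b))) * a - phi (cE S (a, b)) * om * b) * om3

theorem fld_src (h : HNet S N) (f : ℂ × ℂ → ℂ) (k : ZMod 3) :
    ∀ d ∈ Fa (cm h) (Sum.inr k : Dt S), fld (S := S) f d = 0 := by
  rintro d (rfl | rfl | rfl) <;> rfl

/-- colour switching for the root block of a network, big field -/
theorem switchP (h : HNet S N) (phi : ℂ → ℂ) (k : ZMod 3) :
    rs (cm h) (Pv phi) (Sum.inr k) = om * rs (cm h) (Pv phi) (Sum.inr (k - 1)) :=
  rs_rot (spinP h phi) (fld_src h _ k)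

/-- colour switching for the root block of a network, small field -/
theorem switchR (h : HNet S N) (phi : ℂ → ℂ) (k : ZMod 3) :
    rs (cm h) (Rv phi) (Sum.inr k) = om ^ 2 * rs (cm h) (Rv phi) (Sum.inr (k - 1)) :=
  rs_rot (spinR h phi) (fld_src h _ k)

end Crest.Agent.R143.DefsNx346
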