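import Crest.Agent.R143.Mass5_302
import Crest.Agent.R143.DefsN_346

/-!
# Row 143 (S0194): MASS in networks (helper811), on 302's Mass1..5 and 395's `cm h`

* `agrN` : the closed map `cm h` of a network `HNet S N` agrees with the Delaunay triangulation of `P`
  inside `U`, if `S = P` in `U` and no site of `U` is on the hull or on a killed edge
* `nn_RE` : the charge `Nn` of 302 is the conjugate of the small field `RE` of 346
* `sum_rule_net` : macroscopic closed blocks of the network inside `U`, in the field `Rv 1`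
-/

set_option autoImplicit false

noncomputable section

open scoped Classical

namespace Crest.Agent.R143.AgrNx811

open Crest.Agent.R143.B0x346 Crest.Agent.R143.SumScx302 Crest.Agent.R143.Mass1x302
  Crest.Agent.R143.DelGx806 Crest.Agent.R143.Mass2x302
  Crest.Agent.R143.Mass4x302 Crest.Agent.R143.Mass5x302 Crest.Agent.R143.JColx54
  Crest.Agent.R143.JCardx872 Crest.Agent.R143.Sidesx697
open Crest.Agent.R143.Frame1x395 Crest.Agent.R143.Frame2x395 Crest.Agent.R143.Frame3x395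
  Crest.Agent.R143.Frame4x395 Crest.Agent.R143.Frame5x395 Crest.Agent.R143.Frame8x395
  Crest.Agent.R143.Frame10x395
open MeasureTheory Filter Topology
open Crest.ProbabilityR.Voronoi
open scoped ENNReal

variable {S : Finset ℂ} {N : Net ℂ} {P U : Set ℂ}

/-- dart of a directed side -/
def dn (S : Finset ℂ) (a b : ℂ) : Dt S := if h : (a, b) ∈ sd S then Sum.inl ⟨(a, b), h⟩ else Sum.inr 0

theorem dn_eq {a b : ℂ} (h : (a, b) ∈ sd S) : dn S a b = Sum.inl ⟨(a, b), h⟩ := dif_pos h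

/-- a site without walls is alone in its cell -/
theorem quot_free {v a : ℂ} (hv : ∀ u, ¬ Wall N v u) (hv' : ∀ u, ¬ Wall N u v)
    (h : (Quot.mk (Wall N) v : Quot (Wall N)) = Quot.mk _ a) : a = v := by
  set Q : Quot (Wall N) → Prop := Quot.lift (fun u => u = v) (by
    intro a b hab
    apply propext
    constructor
    · rintro rfl; exact absurd hab (hv b)
    · rintro rfl; exact absurd hab (hv' a)) with hQ
  have h1 : Q (Quot.mk _ v) := rfl
  rw [h] at h1
  exact h1

/-- a site off the hull and off the killed edges has no walls -/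
theorem no_wall (h : HNet S N) {v : ℂ} (hh : ¬ OnHull S v) (hk : ∀ u, (v, u) ∉ N.kl) (u : ℂ) :
    ¬ Wall N v u ∧ ¬ Wall N u v := by
  have key : ∀ {a b : ℂ}, (∃ c, (a, b, c) ∈ delT S) → a = v ∨ b = v → ∃ c, (b, a, c) ∈ delT S := by
    intro a b h1 hab
    by_contra h2
    push Not at h2
    have h3 : hullE S a b := ⟨h1, h2⟩
    rcases hab with rfl | rfl
    · exact hh (onHull_left h.gp h3)
    · exact hh ⟨a, h3⟩
  have hT : ∀ u v c, (u, v, c) ∈ N.T ↔ (u, v, c) ∈ delT S := fun u v c => by rw [h.tri]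
  have base : ∀ {a b : ℂ}, a = v ∨ b = v → ¬ Wall N a b := by
    rintro a b hab ⟨hE, -, -, h3⟩
    have hs : (∃ c, (a, b, c) ∈ delT S) ∨ ∃ c, (b, a, c) ∈ delT S := by
      unfold Trg.E at hE
      rw [Finset.mem_union, Finset.mem_image, Finset.mem_image] at hE
      rcases hE with ⟨t, ht, e⟩ | ⟨t, ht, e⟩
      · left
        rw [h.tri] at ht
        rw [Prod.ext_iff] at e
        obtain ⟨e1, e2⟩ := e
        simp only at e1 e2
        exact ⟨t.2.2, by rw [← e1, ← e2]; exact ht⟩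
      · right
        rw [h.tri] at ht
        rw [Prod.ext_iff] at e
        obtain ⟨e1, e2⟩ := e
        simp only at e1 e2
        exact ⟨t.2.2, by rw [← e1, ← e2]; exact ht⟩
    have hb : (∃ c, (a, b, c) ∈ delT S) ∧ ∃ c, (b, a, c) ∈ delT S := by
      rcases hs with h1 | h1
      · exact ⟨h1, key h1 hab⟩
      · exact ⟨key h1 hab.symm, h1⟩
    simp only [hT] at h3
    rcases h3 with h3 | h3 | h3
    · rcases hab with rfl | rfl
      · exact hk _ h3
      · exact hk _ (N.klsym _ _ h3)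
    · obtain ⟨c, hc⟩ := hb.2
      exact h3 c hc
    · obtain ⟨c, hc⟩ := hb.1
      exact h3 c hc
  exact ⟨base (Or.inl rfl), base (Or.inr rfl)⟩

/-- **`cm h` agrees with the Delaunay triangulation of `P` inside `U`** -/
theorem agrN (h : HNet S N) (hP : GP P) (hPS : ∀ z ∈ U, z ∈ P ↔ z ∈ (S : Set ℂ))
    (hin : ∀ v ∈ S, v ∈ U → ¬ OnHull S v) (hkl : ∀ v ∈ S, v ∈ U → ∀ u, (v, u) ∉ N.kl) :
    Agr P U (cm h) (dn S) (fun a => Quot.mk _ a) := by
  have key : ∀ {a b c : ℂ}, Fc P U a b c → (a, b, c) ∈ delT S := fun h =>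
    mem_delT.2 (fc_congr hPS h).1
  have kd : ∀ {a b c : ℂ}, Fc P U a b c → (a, b) ∈ sd S := fun h => mem_sd.2 ⟨_, key h⟩
  refine ⟨hP, ?_, ?_, ?_, ?_⟩
  · intro a b c hf
    rw [dn_eq (kd hf), dn_eq (kd hf.rot)]
    show Sum.inl _ = _
    congr 1
    exact Subtype.ext (Prod.ext rfl (th_eq h (key hf)))
  · intro a b c e hf hf'
    rw [dn_eq (kd hf), dn_eq (kd hf')]
    exact io_twin h (e := ⟨(a, b), kd hf⟩) (kd hf')
  · intro a b c hf
    rw [dn_eq (kd hf)]
    rfl
  · intro a b c a' b' c' hf hf' e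
    have ha : a ∈ S := (hPS a (fc_memU hf)).1 hf.1.1
    have h1 := no_wall h (hin a ha (fc_memU hf)) (hkl a ha (fc_memU hf))
    exact (quot_free (fun u => (h1 u).1) (fun u => (h1 u).2) e).symm

/-- the charge of 302 is the conjugate of the small field of 346 -/
theorem nn_RE (h : HNet S N) {t : T3} (ht : t ∈ delT S) :
    (starRingEnd ℂ) (DefsNx346.RE S (t.2.2, t.1)) = Nn t := by
  obtain ⟨a, b, c⟩ := t
  have h1 : th S (c, a) = b := th_eq h (rot_mem h (rot_mem h ht))
  have h2 : (starRingEnd ℂ) om = om ^ 2 := Mass4x302.om_conj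
  have h3 : (starRingEnd ℂ) (om ^ 2) = om := by
    rw [map_pow, h2]
    have := Mass4x302.om3
    linear_combination om * this
  show (starRingEnd ℂ) (th S (c, a) + om * c + om ^ 2 * a) =
    (starRingEnd ℂ) b + om * (starRingEnd ℂ) a + om ^ 2 * (starRingEnd ℂ) c
  rw [h1, map_add, map_add, map_mul, map_mul, h2, h3]
  ring

/-- the conjugate of the small field at the gap darts of the faces of `U` -/
theorem conj_Rv (h : HNet S N) (hPS : ∀ z ∈ U, z ∈ P ↔ z ∈ (S : Set ℂ)) {t : T3}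
    (ht : Fc P U t.1 t.2.1 t.2.2) :
    (starRingEnd ℂ) (DefsNx346.Rv (S := S) (fun _ => 1) (gd (dn S) t)) = Nn t := by
  obtain ⟨a, b, c⟩ := t
  have hm : (a, b, c) ∈ delT S := mem_delT.2 (fc_congr hPS ht).1
  have hs : (c, a) ∈ sd S := mem_sd.2 ⟨b, rot_mem h (rot_mem h hm)⟩
  show (starRingEnd ℂ) (DefsNx346.Rv (S := S) (fun _ => 1) (dn S c a)) = Nn (a, b, c)
  rw [dn_eq hs, ← nn_RE h hm]
  show (starRingEnd ℂ) (1 * DefsNx346.RE S (c, a)) = _
  rw [one_mul]

/-- **SUM RULE IN NETWORKS** (small field `Rv 1` of 346): `E` as in 302's `sum_rule`. For every network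
on a finite set `S` which coincides with the sample in `U`, without hull sites and killed edges in `U`,
the blocks with their loop in `U` and in no square of side `k` have total charge at most `E`. -/
theorem sum_rule_net {k : ℝ} (hk : 0 < k) {U : Set ℂ} (hU : Bornology.IsBounded U) :
    ∃ E : ℝ → Sample → ℝ≥0∞,
      Tendsto (fun ε : ℝ => ∫⁻ ω, E ε ω ∂sampleLaw) (𝓝[>] 0) (𝓝 0) ∧
      ∀ (ε : ℝ) (ω : Sample) (S : Finset ℂ) (N : Net ℂ) (h : HNet S N), GP (points ε ω) →
        (∀ z ∈ U, z ∈ points ε ω ↔ z ∈ (S : Set ℂ)) → (∀ v ∈ S, v ∈ U → ¬ OnHull S v) →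
        (∀ v ∈ S, v ∈ U → ∀ u, (v, u) ∉ N.kl) →
        ∑ x ∈ ev (cm h), ∑ β ∈ bigB (points ε ω) U (cm h) (dn S) k x,
          ENNReal.ofReal (‖∑ g ∈ β, DefsNx346.Rv (S := S) (fun _ => 1) g‖ ^ 2) ≤
          ((ev (cm h)).card : ℝ≥0∞) * E ε ω := by
  obtain ⟨E, hE, hs⟩ := sum_rule hk hU
  refine ⟨E, hE, fun ε ω S N h hP hPS hin hkl => ?_⟩
  have A := agrN h hP hPS hin hkl
  have h1 := hs ε ω (Dt S) (Quot (Wall N)) (cm h) (dn S) (fun a => Quot.mk _ a) A
    (fun g => (starRingEnd ℂ) (DefsNx346.Rv (S := S) (fun _ => 1) g))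
    (fun t ht => conj_Rv h hPS ht)
  refine le_trans (le_of_eq ?_) h1
  refine Finset.sum_congr rfl fun x _ => Finset.sum_congr rfl fun β _ => ?_
  rw [← map_sum, RCLike.norm_conj]

end Crest.Agent.R143.AgrNx811
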