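import Crest.Agent.R143.DefsN_346

/-!
# Row 143 (S0194), CORE-C, item (4) of note 3019: the end algebra (helper133)

Notation of `DefsN_346` : `a = T` (small field), `b = T'` (big field), `D k` = mean displacement of
the root block of type `k`, `om ^ (2 k) a = E V (γ_k)`, `om ^ k b = E V' (γ_k)`,
`V' - V = - 2 hi D` (`2 hi = i √3`), i.e. `2 hi * D k = omz k ^ 2 * a - omz k * b`.

* `alt` : `‖omz k ^ 2 * a - κ * D k‖ ≤ η` for the three `k` gives `‖(2 hi - κ) a‖ ≤ √3 η` and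
  `‖κ b‖ ≤ √3 η`;
* `a_eq`, `b_eq` : if `D k = m (k + 2) - m (k + 1)` (`m j` = mean end point on the arc `j`) then
  `a = - Σ omz j * m j` and `b = - Σ omz j ^ 2 * m j`;
* `b_lower` : convexity (660): `m 0`, `m 1`, `m 2` in the hulls of the bottom side, the right side and
  the two other sides of a square (counterclockwise) : `‖Σ omz j ^ 2 * m j‖ ≥ side / 4`;
* `kill` : hence `‖a_U‖ ≤ 2 η` for every other domain with the same `κ`.
-/

set_option autoImplicit false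

noncomputable section

namespace Crest.Agent.R143.Alg4x133

open Crest.Agent.R143.B0x346 Crest.Agent.R143.DefsNx346 Finset

theorem hi_sq : (2 * hi) ^ 2 = -3 := by
  have h1 := om2_val
  rw [om_val] at h1
  linear_combination 4 * h1

theorem norm_hi : ‖2 * hi‖ = Real.sqrt 3 := by
  have h2 : ‖2 * hi‖ ^ 2 = 3 := by
    rw [← norm_pow, hi_sq]; simp
  rw [← h2, Real.sqrt_sq (norm_nonneg _)]

theorem sqrt3_lo : (1.7 : ℝ) ≤ Real.sqrt 3 := by
  apply Real.le_sqrt_of_sq_le; norm_num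

theorem sqrt3_hi : Real.sqrt 3 ≤ 1.75 := by
  rw [Real.sqrt_le_left (by norm_num)]; norm_num

theorem omz0 : omz 0 = 1 := by unfold omz; simp
theorem omz1 : omz 1 = om := by
  unfold omz
  have : (1 : ZMod 3).val = 1 := rfl
  rw [this, pow_one]
theorem omz2 : omz 2 = om ^ 2 := by
  unfold omz
  have : (2 : ZMod 3).val = 2 := rfl
  rw [this]

theorem omz_cube (k : ZMod 3) : omz k ^ 3 = 1 := by
  unfold omz
  rw [← pow_mul, mul_comm, pow_mul, om3, one_pow]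

theorem norm_om : ‖om‖ = 1 := by
  unfold om; exact Complex.norm_exp_ofReal_mul_I _

theorem norm_omz (k : ZMod 3) : ‖omz k‖ = 1 := by
  unfold omz; rw [norm_pow, norm_om, one_pow]

theorem sum3 {A : Type} [AddCommMonoid A] (f : ZMod 3 → A) : ∑ k : ZMod 3, f k = f 0 + f 1 + f 2 := by
  exact Fin.sum_univ_three f

theorem sum_omz : ∑ k : ZMod 3, omz k = 0 := by
  rw [sum3, omz0, omz1, omz2, om2_val, om_val]; ring

theorem sum_omz2 : ∑ k : ZMod 3, omz k ^ 2 = 0 := by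
  rw [sum3, omz0, omz1, omz2]
  have e : (om ^ 2) ^ 2 = om := by
    calc (om ^ 2) ^ 2 = om ^ 3 * om := by ring
      _ = om := by rw [om3, one_mul]
  rw [e, om2_val, om_val]; ring

/-- Fourier inversion on `ZMod 3` with bounds -/
theorem fourier {p q : ℂ} {η : ℝ} (h : ∀ k : ZMod 3, ‖omz k ^ 2 * p + omz k * q‖ ≤ η) :
    ‖p‖ ≤ η ∧ ‖q‖ ≤ η := by
  have key : ∀ (f : ZMod 3 → ℂ) (g : ZMod 3 → ℂ) (x : ℂ), (∀ k, ‖f k‖ ≤ η) → (∀ k, ‖g k‖ = 1) →
      ∑ k, g k * f k = 3 * x → ‖x‖ ≤ η := by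
    intro f g x hf hg hx
    have h1 : ‖∑ k, g k * f k‖ ≤ ∑ k : ZMod 3, η :=
      (norm_sum_le _ _).trans (Finset.sum_le_sum fun k _ => by rw [norm_mul, hg, one_mul]; exact hf k)
    rw [hx, norm_mul] at h1
    simp only [Finset.sum_const, Finset.card_univ, ZMod.card, nsmul_eq_mul] at h1
    have h3 : ‖(3 : ℂ)‖ = 3 := by simp
    rw [h3] at h1
    push_cast at h1
    linarith
  refine ⟨key _ omz p h norm_omz ?_, key _ (fun k => omz k ^ 2) q h
    (fun k => by rw [norm_pow, norm_omz, one_pow]) ?_⟩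
  · have e : ∀ k : ZMod 3, omz k * (omz k ^ 2 * p + omz k * q) = p + omz k ^ 2 * q := by
      intro k
      linear_combination p * omz_cube k
    rw [Finset.sum_congr rfl fun k _ => e k, Finset.sum_add_distrib, ← Finset.sum_mul, sum_omz2]
    simp
  · have e : ∀ k : ZMod 3, omz k ^ 2 * (omz k ^ 2 * p + omz k * q) = omz k * p + q := by
      intro k
      linear_combination (omz k * p + q) * omz_cube k
    rw [Finset.sum_congr rfl fun k _ => e k, Finset.sum_add_distrib, ← Finset.sum_mul, sum_omz]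
    simp

/-- relation between the amplitudes `a`, `b` and the displacements -/
def Rl (a b : ℂ) (D : ZMod 3 → ℂ) : Prop := ∀ k : ZMod 3, 2 * hi * D k = omz k ^ 2 * a - omz k * b

/-- the dichotomy -/
theorem alt {a b κ : ℂ} {D : ZMod 3 → ℂ} {η : ℝ} (hD : Rl a b D)
    (h : ∀ k : ZMod 3, ‖omz k ^ 2 * a - κ * D k‖ ≤ η) :
    ‖(2 * hi - κ) * a‖ ≤ Real.sqrt 3 * η ∧ ‖κ * b‖ ≤ Real.sqrt 3 * η := by
  refine fourier fun k => ?_
  have e : omz k ^ 2 * ((2 * hi - κ) * a) + omz k * (κ * b) =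
      2 * hi * (omz k ^ 2 * a - κ * D k) := by
    linear_combination κ * hD k
  rw [e, norm_mul, norm_hi]
  exact mul_le_mul_of_nonneg_left (h k) (Real.sqrt_nonneg 3)

theorem hi2 : hi ^ 2 = -(3 / 4) := by
  have := hi_sq
  linear_combination this / 4

theorem Rl.eqs {a b : ℂ} {D m : ZMod 3 → ℂ} (hD : Rl a b D)
    (hm : ∀ k, D k = m (k + 2) - m (k + 1)) :
    2 * hi * (m 2 - m 1) = a - b ∧
    2 * hi * (m 0 - m 2) = (-(1 / 2) - hi) * a - (-(1 / 2) + hi) * b ∧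
    2 * hi * (m 1 - m 0) = (-(1 / 2) + hi) * a - (-(1 / 2) - hi) * b := by
  have h0 := hD 0
  have h1 := hD 1
  have h2 := hD 2
  rw [hm] at h0 h1 h2
  have e1 : (1 : ZMod 3) + 2 = 0 := rfl
  have e2 : (1 : ZMod 3) + 1 = 2 := rfl
  have e3 : (2 : ZMod 3) + 2 = 1 := rfl
  have e4 : (2 : ZMod 3) + 1 = 0 := rfl
  rw [zero_add, zero_add, omz0] at h0
  rw [e1, e2, omz1, om2_val, om_val] at h1
  rw [e3, e4, omz2] at h2
  have e5 : (om ^ 2) ^ 2 = om := by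
    calc (om ^ 2) ^ 2 = om ^ 3 * om := by ring
      _ = om := by rw [om3, one_mul]
  rw [e5, om2_val, om_val] at h2
  refine ⟨?_, h1, h2⟩
  rw [h0]; ring

/-- the amplitudes in terms of the mean end points -/
theorem a_eq {a b : ℂ} {D m : ZMod 3 → ℂ} (hD : Rl a b D) (hm : ∀ k, D k = m (k + 2) - m (k + 1)) :
    a = -∑ j, omz j * m j := by
  obtain ⟨h0, h1, h2⟩ := hD.eqs hm
  rw [sum3, omz0, omz1, omz2, om2_val, om_val]
  linear_combination (-1 / 3) * h0 + (-1 / 3) * (-(1 / 2) + hi) * h1 +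
    (-1 / 3) * (-(1 / 2) - hi) * h2 +
    ((4 / 3) * m 0 - (2 / 3) * (m 1 + m 2) + (2 / 3) * (a + b)) * hi2

theorem b_eq {a b : ℂ} {D m : ZMod 3 → ℂ} (hD : Rl a b D) (hm : ∀ k, D k = m (k + 2) - m (k + 1)) :
    b = -∑ j, omz j ^ 2 * m j := by
  obtain ⟨h0, h1, h2⟩ := hD.eqs hm
  have e5 : (om ^ 2) ^ 2 = om := by
    calc (om ^ 2) ^ 2 = om ^ 3 * om := by ring
      _ = om := by rw [om3, one_mul]
  rw [sum3, omz0, omz1, omz2, e5, om2_val, om_val]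
  linear_combination (1 / 3) * h0 + (1 / 3) * (-(1 / 2) - hi) * h1 +
    (1 / 3) * (-(1 / 2) + hi) * h2 +
    ((4 / 3) * m 0 - (2 / 3) * (m 1 + m 2) + (2 / 3) * (a + b)) * hi2

/-- conversely the mean end points define the amplitudes -/
theorem rl_of {D m : ZMod 3 → ℂ} (hm : ∀ k, D k = m (k + 2) - m (k + 1)) :
    Rl (-∑ j, omz j * m j) (-∑ j, omz j ^ 2 * m j) D := by
  have e5 : (om ^ 2) ^ 2 = om := by
    calc (om ^ 2) ^ 2 = om ^ 3 * om := by ring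
      _ = om := by rw [om3, one_mul]
  have e1 : (1 : ZMod 3) + 2 = 0 := rfl
  have e2 : (1 : ZMod 3) + 1 = 2 := rfl
  have e3 : (2 : ZMod 3) + 2 = 1 := rfl
  have e4 : (2 : ZMod 3) + 1 = 0 := rfl
  intro k
  rw [hm, sum3, sum3, omz0, omz1, omz2, e5]
  have hk : k = 0 ∨ k = 1 ∨ k = 2 := by
    revert k; decide
  rcases hk with rfl | rfl | rfl
  · rw [zero_add, zero_add, omz0, om2_val, om_val]; ring
  · rw [e1, e2, omz1, om2_val, om_val]
    ring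
  · rw [e3, e4, omz2, e5, om2_val, om_val]
    ring

/-! ### convexity -/

/-- the two Fourier coefficients of a triangle -/
def Pf (m : ZMod 3 → ℂ) : ℂ := ∑ j, omz j ^ 2 * m j
def Qf (m : ZMod 3 → ℂ) : ℂ := ∑ j, omz j * m j

theorem Pf_eq (m : ZMod 3 → ℂ) :
    Pf m = m 0 + (-(1 / 2) - hi) * m 1 + (-(1 / 2) + hi) * m 2 := by
  have e5 : (om ^ 2) ^ 2 = om := by
    calc (om ^ 2) ^ 2 = om ^ 3 * om := by ring
      _ = om := by rw [om3, one_mul]
  unfold Pf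
  rw [sum3, omz0, omz1, omz2, e5, om2_val, om_val]; ring

theorem Qf_eq (m : ZMod 3 → ℂ) :
    Qf m = m 0 + (-(1 / 2) + hi) * m 1 + (-(1 / 2) - hi) * m 2 := by
  unfold Qf
  rw [sum3, omz0, omz1, omz2, om2_val, om_val]; ring

theorem hi_re : hi.re = 0 := by unfold hi; simp
theorem hi_im : hi.im = Real.sqrt 3 / 2 := by unfold hi; simp

/-- `|P|² - |Q|² = 2 √3` cross product -/
theorem normSq_sub (m : ZMod 3 → ℂ) :
    ‖Pf m‖ ^ 2 - ‖Qf m‖ ^ 2 = 2 * Real.sqrt 3 * cr (m 1 - m 0) (m 2 - m 0) := by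
  rw [Pf_eq, Qf_eq, ← Complex.normSq_eq_norm_sq, ← Complex.normSq_eq_norm_sq]
  simp only [Complex.normSq_apply, Complex.add_re, Complex.mul_re, Complex.sub_re, Complex.add_im,
    Complex.mul_im, Complex.sub_im, Complex.neg_re, Complex.neg_im, hi_re, hi_im, cr]
  have e1 : ((1 : ℂ) / 2).re = 1 / 2 := by norm_num
  have e2 : ((1 : ℂ) / 2).im = 0 := by norm_num
  rw [e1, e2]
  ring

/-- the differences in terms of the Fourier coefficients -/
theorem diffs (m : ZMod 3 → ℂ) :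
    3 * (m 0 - m 1) = (3 / 2 - hi) * Pf m + (3 / 2 + hi) * Qf m ∧
    3 * (m 2 - m 0) = (-(3 / 2) - hi) * Pf m + (-(3 / 2) + hi) * Qf m := by
  rw [Pf_eq, Qf_eq]
  constructor
  · linear_combination (2 * m 2 - 2 * m 1 : ℂ) * hi2
  · linear_combination (2 * m 2 - 2 * m 1 : ℂ) * hi2

theorem norm_c (x : ℝ) (hx : x ^ 2 = 9 / 4) (y : ℝ) (hy : y ^ 2 = 1) :
    ‖((x : ℂ) + (y : ℂ) * hi)‖ = Real.sqrt 3 := by
  have h3 : Real.sqrt 3 ^ 2 = 3 := Real.sq_sqrt (by norm_num)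
  have h2 : ‖((x : ℂ) + (y : ℂ) * hi)‖ ^ 2 = 3 := by
    rw [← Complex.normSq_eq_norm_sq, Complex.normSq_apply]
    simp only [Complex.add_re, Complex.mul_re, Complex.add_im, Complex.mul_im, hi_re, hi_im,
      Complex.ofReal_re, Complex.ofReal_im]
    nlinarith
  rw [← h2, Real.sqrt_sq (norm_nonneg _)]

theorem diff_bd (m : ZMod 3 → ℂ) {t : ℝ} (hP : ‖Pf m‖ ≤ t) (hQ : ‖Qf m‖ ≤ t) :
    3 * ‖m 0 - m 1‖ ≤ 2 * Real.sqrt 3 * t ∧ 3 * ‖m 2 - m 0‖ ≤ 2 * Real.sqrt 3 * t := by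
  obtain ⟨h1, h2⟩ := diffs m
  have n1 : ‖(3 / 2 - hi : ℂ)‖ = Real.sqrt 3 := by
    have := norm_c (3 / 2) (by norm_num) (-1) (by norm_num)
    rw [← this]; congr 1; push_cast; ring
  have n2 : ‖(3 / 2 + hi : ℂ)‖ = Real.sqrt 3 := by
    have := norm_c (3 / 2) (by norm_num) 1 (by norm_num)
    rw [← this]; congr 1; push_cast; ring
  have n3 : ‖(-(3 / 2) - hi : ℂ)‖ = Real.sqrt 3 := by
    have := norm_c (-(3 / 2)) (by norm_num) (-1) (by norm_num)
    rw [← this]; congr 1; push_cast; ring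
  have n4 : ‖(-(3 / 2) + hi : ℂ)‖ = Real.sqrt 3 := by
    have := norm_c (-(3 / 2)) (by norm_num) 1 (by norm_num)
    rw [← this]; congr 1; push_cast; ring
  have h3 : ‖(3 : ℂ)‖ = 3 := by simp
  have hs := Real.sqrt_nonneg 3
  constructor
  · have e := congrArg norm h1
    rw [norm_mul, h3] at e
    rw [e]
    refine (norm_add_le _ _).trans ?_
    rw [norm_mul, norm_mul, n1, n2]
    nlinarith
  · have e := congrArg norm h2
    rw [norm_mul, h3] at e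
    rw [e]
    refine (norm_add_le _ _).trans ?_
    rw [norm_mul, norm_mul, n3, n4]
    nlinarith

theorem le_of_sq_le_sq {x y : ℝ} (h : x ^ 2 ≤ y ^ 2) (hy : 0 ≤ y) : x ≤ y := by
  by_contra hc
  push Not at hc
  nlinarith

/-- positively oriented triangle with a long side -/
theorem Pf_ge (m : ZMod 3 → ℂ) {d : ℝ} (hc : 0 ≤ cr (m 1 - m 0) (m 2 - m 0))
    (hd : d ≤ ‖m 0 - m 1‖ ∨ d ≤ ‖m 2 - m 0‖) : 3 / 4 * d ≤ ‖Pf m‖ := by
  have hs := Real.sqrt_nonneg 3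
  have hs1 := sqrt3_hi
  have h1 := normSq_sub m
  have h2 : ‖Qf m‖ ^ 2 ≤ ‖Pf m‖ ^ 2 := by
    have : 0 ≤ 2 * Real.sqrt 3 * cr (m 1 - m 0) (m 2 - m 0) := by positivity
    linarith
  have h3 : ‖Qf m‖ ≤ ‖Pf m‖ := le_of_sq_le_sq h2 (norm_nonneg _)
  obtain ⟨h4, h5⟩ := diff_bd m le_rfl h3
  have h6 := norm_nonneg (Pf m)
  have h7 : 2 * Real.sqrt 3 * ‖Pf m‖ ≤ 4 * ‖Pf m‖ := by nlinarith
  rcases hd with hd | hd <;> nlinarith

/-- **(660)** square with the corners `z0`, `z0 + u`, `z0 + u + iu`, `z0 + iu`: `m 0` on the first side,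
`m 1` on the second side, `m 2` in the hull of the two other sides -/
theorem square_lower {z0 u : ℂ} {m : ZMod 3 → ℂ} {x y X Y : ℝ} (hx0 : 0 ≤ x) (hx1 : x ≤ 1)
    (hy0 : 0 ≤ y) (hy1 : y ≤ 1) (hX : 0 ≤ X) (hXY : X ≤ Y) (hY : Y ≤ 1)
    (h0 : m 0 = z0 + u * x) (h1 : m 1 = z0 + u * (1 + y * Complex.I))
    (h2 : m 2 = z0 + u * (X + Y * Complex.I)) : ‖u‖ / 4 ≤ ‖∑ j, omz j ^ 2 * m j‖ := by
  have hu : (0 : ℝ) ≤ Complex.normSq u := Complex.normSq_nonneg u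
  have hc : 0 ≤ cr (m 1 - m 0) (m 2 - m 0) := by
    have e : cr (m 1 - m 0) (m 2 - m 0) = Complex.normSq u * ((1 - x) * Y - y * (X - x)) := by
      rw [h0, h1, h2, Complex.normSq_apply]
      simp only [cr, Complex.sub_re, Complex.add_re, Complex.mul_re, Complex.sub_im, Complex.add_im,
        Complex.mul_im, Complex.ofReal_re, Complex.ofReal_im, Complex.one_re, Complex.one_im,
        Complex.I_re, Complex.I_im]
      ring
    rw [e]
    refine mul_nonneg hu ?_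
    nlinarith [mul_nonneg hx0 hy0, mul_nonneg (sub_nonneg.2 hx1) (sub_nonneg.2 hy1),
      mul_nonneg (sub_nonneg.2 hx1) (sub_nonneg.2 hXY),
      mul_nonneg (mul_nonneg hx0 hy0) (sub_nonneg.2 (hXY.trans hY)),
      mul_nonneg (mul_nonneg (sub_nonneg.2 hx1) (sub_nonneg.2 hy1)) hX]
  have hd : ‖u‖ / 3 ≤ ‖m 0 - m 1‖ ∨ ‖u‖ / 3 ≤ ‖m 2 - m 0‖ := by
    by_contra hcon
    push Not at hcon
    obtain ⟨c1, c2⟩ := hcon
    have hun := norm_nonneg u
    have hup : 0 < ‖u‖ := by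
      rcases hun.lt_or_eq with h | h
      · exact h
      · rw [← h] at c1
        have := norm_nonneg (m 0 - m 1)
        linarith
    have e1 : m 0 - m 1 = u * ((x - 1 : ℝ) + (-y : ℝ) * Complex.I) := by
      rw [h0, h1]; push_cast; ring
    have e2 : m 2 - m 0 = u * ((X - x : ℝ) + (Y : ℝ) * Complex.I) := by
      rw [h0, h2]; push_cast; ring
    rw [e1, norm_mul] at c1
    rw [e2, norm_mul] at c2
    have d1 : ‖(((x - 1 : ℝ) : ℂ) + ((-y : ℝ) : ℂ) * Complex.I)‖ < 1 / 3 := by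
      by_contra h; push Not at h; nlinarith
    have d2 : ‖(((X - x : ℝ) : ℂ) + ((Y : ℝ) : ℂ) * Complex.I)‖ < 1 / 3 := by
      by_contra h; push Not at h; nlinarith
    have r1 := (Complex.abs_re_le_norm (((x - 1 : ℝ) : ℂ) + ((-y : ℝ) : ℂ) * Complex.I)).trans_lt d1
    have r2 := (Complex.abs_re_le_norm (((X - x : ℝ) : ℂ) + ((Y : ℝ) : ℂ) * Complex.I)).trans_lt d2
    have r3 := (Complex.abs_im_le_norm (((X - x : ℝ) : ℂ) + ((Y : ℝ) : ℂ) * Complex.I)).trans_lt d2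
    simp only [Complex.add_re, Complex.mul_re, Complex.ofReal_re, Complex.ofReal_im, Complex.I_re,
      Complex.I_im, mul_zero, mul_one, sub_self, add_zero] at r1 r2
    simp only [Complex.add_im, Complex.mul_im, Complex.ofReal_re, Complex.ofReal_im, Complex.I_re,
      Complex.I_im, mul_zero, mul_one, add_zero, zero_add] at r3
    rw [abs_lt] at r1 r2 r3
    linarith [r1.1, r1.2, r2.1, r2.2, r3.1, r3.2]
  have := Pf_ge m hc hd
  unfold Pf at this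
  linarith

/-- robust form -/
theorem square_lower' {z0 u : ℂ} {m m' : ZMod 3 → ℂ} {x y X Y e : ℝ} (hx0 : 0 ≤ x) (hx1 : x ≤ 1)
    (hy0 : 0 ≤ y) (hy1 : y ≤ 1) (hX : 0 ≤ X) (hXY : X ≤ Y) (hY : Y ≤ 1)
    (h0 : m' 0 = z0 + u * x) (h1 : m' 1 = z0 + u * (1 + y * Complex.I))
    (h2 : m' 2 = z0 + u * (X + Y * Complex.I)) (he : ∀ j, ‖m j - m' j‖ ≤ e) :
    ‖u‖ / 4 - 3 * e ≤ ‖∑ j, omz j ^ 2 * m j‖ := by
  have h3 := square_lower hx0 hx1 hy0 hy1 hX hXY hY h0 h1 h2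
  have h4 : ‖∑ j, omz j ^ 2 * m' j‖ ≤ ‖∑ j, omz j ^ 2 * m j‖ + 3 * e := by
    have e1 : ∑ j, omz j ^ 2 * m' j = ∑ j, omz j ^ 2 * m j - ∑ j, omz j ^ 2 * (m j - m' j) := by
      rw [← Finset.sum_sub_distrib]
      exact Finset.sum_congr rfl fun j _ => by ring
    rw [e1]
    refine (norm_sub_le _ _).trans (add_le_add le_rfl ?_)
    refine (norm_sum_le _ _).trans ?_
    have : ∀ j ∈ (Finset.univ : Finset (ZMod 3)), ‖omz j ^ 2 * (m j - m' j)‖ ≤ e := fun j _ => by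
      rw [norm_mul, norm_pow, norm_omz, one_pow, one_mul]; exact he j
    refine (Finset.sum_le_sum this).trans ?_
    simp [ZMod.card]
  linarith

/-! ### conclusion -/

/-- the domain `U*` with `‖b‖ ≥ c` kills the antiholomorphic alternative for all domains with the same
constant `κ` -/
theorem kill {as bs a b κ : ℂ} {Ds D : ZMod 3 → ℂ} {η η' c : ℝ} (hc : 0 < c) (hs : Rl as bs Ds)
    (h : ∀ k : ZMod 3, ‖omz k ^ 2 * as - κ * Ds k‖ ≤ η) (hbs : c ≤ ‖bs‖) (hη : 2 * η ≤ c)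
    (hD : Rl a b D) (h' : ∀ k : ZMod 3, ‖omz k ^ 2 * a - κ * D k‖ ≤ η') : ‖a‖ ≤ 2 * η' := by
  have h1 := (alt hs h).2
  have h2 := (alt hD h').1
  have hs3 := sqrt3_lo
  have hs0 := Real.sqrt_nonneg 3
  rw [norm_mul] at h1 h2
  have hη0 : 0 ≤ η := (norm_nonneg _).trans (h 0)
  -- `‖κ‖ ≤ √3 η / c ≤ √3 / 2`
  have hk : ‖κ‖ ≤ Real.sqrt 3 / 2 := by
    have h3 : ‖κ‖ * c ≤ Real.sqrt 3 * η :=
      (mul_le_mul_of_nonneg_left hbs (norm_nonneg _)).trans h1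
    have h4 : ‖κ‖ * c ≤ Real.sqrt 3 / 2 * c := by nlinarith
    exact le_of_mul_le_mul_right h4 hc
  have h5 : Real.sqrt 3 / 2 ≤ ‖2 * hi - κ‖ := by
    have := norm_sub_norm_le (2 * hi) κ
    rw [norm_hi] at this
    linarith
  have h6 : Real.sqrt 3 / 2 * ‖a‖ ≤ Real.sqrt 3 * η' :=
    (mul_le_mul_of_nonneg_right h5 (norm_nonneg _)).trans h2
  have h7 : 0 < Real.sqrt 3 := by linarith
  nlinarith

/-- the dichotomy for one domain -/
theorem dich {a b κ : ℂ} {D : ZMod 3 → ℂ} {η : ℝ} (hD : Rl a b D)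
    (h : ∀ k : ZMod 3, ‖omz k ^ 2 * a - κ * D k‖ ≤ η) :
    (Real.sqrt 3 / 2 ≤ ‖2 * hi - κ‖ → ‖a‖ ≤ 2 * η) ∧ (Real.sqrt 3 / 2 ≤ ‖κ‖ → ‖b‖ ≤ 2 * η) ∧
      (Real.sqrt 3 / 2 ≤ ‖2 * hi - κ‖ ∨ Real.sqrt 3 / 2 ≤ ‖κ‖) := by
  obtain ⟨h1, h2⟩ := alt hD h
  have hs3 := sqrt3_lo
  rw [norm_mul] at h1 h2
  refine ⟨fun h5 => ?_, fun h5 => ?_, ?_⟩
  · have h6 := (mul_le_mul_of_nonneg_right h5 (norm_nonneg a)).trans h1
    nlinarith
  · have h6 := (mul_le_mul_of_nonneg_right h5 (norm_nonneg b)).trans h2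
    nlinarith
  · by_contra hcon
    push Not at hcon
    have := norm_add_le (2 * hi - κ) κ
    rw [sub_add_cancel, norm_hi] at this
    linarith [hcon.1, hcon.2]

end Crest.Agent.R143.Alg4x133
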