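import Crest.Agent.R143.B0_346

/-!
# Row 143 (S0194), CORE-C: end game algebra (helper915, after helper660 3160 (1), helper782 3019 (4))

`om` = third root of unity. `T m = m 0 + om m 1 + om² m 2`, `T' m = m 0 + om² m 1 + om m 2`
(`m k` = mean end point on the arc `A k`).

* `alt_T`, `alt_T'` : if `c0 D_i = om^i T' - om^(2i) T` and `‖om^(2i) T - κ D_i‖ ≤ e`, `i = 0, 1, 2`,
  then `‖(c0 + κ) T‖ ≤ ‖c0‖ e` and `‖κ T'‖ ≤ ‖c0‖ e`;
* `sq_add`, `sq_sub` : `‖T‖² + ‖T'‖² = Σ ‖m i - m j‖²`, `‖T'‖² - ‖T‖² = 2 √3 cr (m1 - m0) (m2 - m0)`;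
* `square` : for a square with marks at three corners `‖T'‖² ≥ s² / 6`;
* `kill` : hence `‖κ‖ ≤ 3 ‖c0‖ e / s` and `‖T U‖ ≤ 2 e` for all `U`.
-/

set_option autoImplicit false

noncomputable section

open Complex

namespace Crest.Agent.R143.Algx915

open Crest.Agent.R143.B0x346

theorem om_eq : om = ⟨-(1 / 2), Real.sqrt 3 / 2⟩ := by
  have h1 : Real.cos (2 * Real.pi / 3) = -(1 / 2) := by
    rw [show 2 * Real.pi / 3 = Real.pi - Real.pi / 3 by ring, Real.cos_pi_sub,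
      Real.cos_pi_div_three]
  have h2 : Real.sin (2 * Real.pi / 3) = Real.sqrt 3 / 2 := by
    rw [show 2 * Real.pi / 3 = Real.pi - Real.pi / 3 by ring, Real.sin_pi_sub,
      Real.sin_pi_div_three]
  unfold om
  rw [Complex.exp_mul_I, ← Complex.ofReal_cos, ← Complex.ofReal_sin, h1, h2]
  apply Complex.ext <;> simp

theorem om_re : om.re = -(1 / 2) := by rw [om_eq]
theorem om_im : om.im = Real.sqrt 3 / 2 := by rw [om_eq]

theorem s3 : Real.sqrt 3 * Real.sqrt 3 = 3 := Real.mul_self_sqrt (by norm_num)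

theorem om_sq : om ^ 2 = ⟨-(1 / 2), -(Real.sqrt 3 / 2)⟩ := by
  rw [sq, om_eq]
  apply Complex.ext
  · simp only [Complex.mul_re]
    nlinarith [s3]
  · simp only [Complex.mul_im]
    ring

theorem om2_re : (om ^ 2).re = -(1 / 2) := by rw [om_sq]
theorem om2_im : (om ^ 2).im = -(Real.sqrt 3 / 2) := by rw [om_sq]

theorem om_sum0 : 1 + om + om ^ 2 = 0 := by
  apply Complex.ext
  · simp only [Complex.add_re, Complex.one_re, om_re, om2_re, Complex.zero_re]; norm_num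
  · simp only [Complex.add_im, Complex.one_im, om_im, om2_im, Complex.zero_im]; ring

theorem om_cube : om ^ 3 = 1 := by
  have h := om_sum0
  linear_combination (om - 1) * h

theorem om_norm : ‖om‖ = 1 := by
  have h : ‖om‖ ^ 3 = 1 := by rw [← norm_pow, om_cube, norm_one]
  exact (pow_eq_one_iff_of_nonneg (norm_nonneg _) (by norm_num)).1 h

/-- **alternative**, first half -/
theorem alt {T T' κ c0 : ℂ} {D : ℕ → ℂ} {e : ℝ}
    (h : ∀ i, i < 3 → c0 * D i = om ^ i * T' - om ^ (2 * i) * T)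
    (hk : ∀ i, i < 3 → ‖om ^ (2 * i) * T - κ * D i‖ ≤ e) :
    ‖(c0 + κ) * T‖ ≤ ‖c0‖ * e ∧ ‖κ * T'‖ ≤ ‖c0‖ * e := by
  have key : ∀ i, i < 3 → ‖om ^ (2 * i) * ((c0 + κ) * T) - om ^ i * (κ * T')‖ ≤ ‖c0‖ * e := by
    intro i hi
    have e1 : om ^ (2 * i) * ((c0 + κ) * T) - om ^ i * (κ * T') =
        c0 * (om ^ (2 * i) * T - κ * D i) := by
      have := h i hi
      linear_combination κ * this
    rw [e1, norm_mul]
    exact mul_le_mul_of_nonneg_left (hk i hi) (norm_nonneg _)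
  have k0 := key 0 (by norm_num)
  have k1 := key 1 (by norm_num)
  have k2 := key 2 (by norm_num)
  simp only [Nat.mul_zero, pow_zero, one_mul, Nat.mul_one, pow_one] at k0 k1 k2
  set a := (c0 + κ) * T
  set b := κ * T'
  have h3 := om_cube
  have hs := om_sum0
  constructor
  · have e3 : (3 : ℂ) * a = (a - b) + om * (om ^ 2 * a - om * b) +
        om ^ 2 * (om ^ (2 * 2) * a - om ^ 2 * b) := by
      have e4 : om ^ 2 * om ^ (2 * 2) = 1 := by
        calc om ^ 2 * om ^ (2 * 2) = (om ^ 3) ^ 2 := by ring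
          _ = 1 := by rw [h3, one_pow]
      have e5 : om * om ^ 2 = 1 := by rw [← h3]; ring
      have e6 : om ^ 2 * om ^ 2 = om := by
        calc om ^ 2 * om ^ 2 = om ^ 3 * om := by ring
          _ = om := by rw [h3, one_mul]
      linear_combination (-a) * e4 - a * e5 + b * e6 + b * hs
    have n3 : ‖(3 : ℂ) * a‖ ≤ 3 * (‖c0‖ * e) := by
      rw [e3]
      calc _ ≤ ‖(a - b) + om * (om ^ 2 * a - om * b)‖ +
            ‖om ^ 2 * (om ^ (2 * 2) * a - om ^ 2 * b)‖ := norm_add_le _ _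
        _ ≤ ‖a - b‖ + ‖om * (om ^ 2 * a - om * b)‖ +
            ‖om ^ 2 * (om ^ (2 * 2) * a - om ^ 2 * b)‖ := by
            gcongr
            exact norm_add_le _ _
        _ = ‖a - b‖ + ‖om ^ 2 * a - om * b‖ + ‖om ^ (2 * 2) * a - om ^ 2 * b‖ := by
            rw [norm_mul, norm_mul, norm_pow, om_norm, one_mul, one_pow, one_mul]
        _ ≤ _ := by linarith
    rw [norm_mul] at n3
    have : ‖(3 : ℂ)‖ = 3 := by norm_num
    rw [this] at n3
    linarith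
  · have e3 : -((3 : ℂ) * b) = (a - b) + om ^ 2 * (om ^ 2 * a - om * b) +
        om * (om ^ (2 * 2) * a - om ^ 2 * b) := by
      have e5 : om * om ^ 2 = 1 := by rw [← h3]; ring
      have e6 : om ^ 2 * om ^ 2 = om := by
        calc om ^ 2 * om ^ 2 = om ^ 3 * om := by ring
          _ = om := by rw [h3, one_mul]
      have e7 : om * om ^ (2 * 2) = om ^ 2 := by
        calc om * om ^ (2 * 2) = om ^ 3 * om ^ 2 := by ring
          _ = om ^ 2 := by rw [h3, one_mul]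
      linear_combination (-a) * e6 - a * e7 + 2 * b * e5 - a * hs
    have n3 : ‖(3 : ℂ) * b‖ ≤ 3 * (‖c0‖ * e) := by
      rw [← norm_neg, e3]
      calc _ ≤ ‖(a - b) + om ^ 2 * (om ^ 2 * a - om * b)‖ +
            ‖om * (om ^ (2 * 2) * a - om ^ 2 * b)‖ := norm_add_le _ _
        _ ≤ ‖a - b‖ + ‖om ^ 2 * (om ^ 2 * a - om * b)‖ +
            ‖om * (om ^ (2 * 2) * a - om ^ 2 * b)‖ := by
            gcongr
            exact norm_add_le _ _
        _ = ‖a - b‖ + ‖om ^ 2 * a - om * b‖ + ‖om ^ (2 * 2) * a - om ^ 2 * b‖ := by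
            rw [norm_mul, norm_mul, norm_pow, om_norm, one_mul, one_pow, one_mul]
        _ ≤ _ := by linarith
    rw [norm_mul] at n3
    have : ‖(3 : ℂ)‖ = 3 := by norm_num
    rw [this] at n3
    linarith

/-- `m 0 + om m 1 + om² m 2` -/
def T3 (m0 m1 m2 : ℂ) : ℂ := m0 + om * m1 + om ^ 2 * m2
/-- `m 0 + om² m 1 + om m 2` -/
def T3' (m0 m1 m2 : ℂ) : ℂ := m0 + om ^ 2 * m1 + om * m2

theorem nsq (z : ℂ) : ‖z‖ ^ 2 = z.re ^ 2 + z.im ^ 2 := by
  rw [← Complex.normSq_eq_norm_sq, Complex.normSq_apply]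
  ring

theorem sq_add (m0 m1 m2 : ℂ) : ‖T3 m0 m1 m2‖ ^ 2 + ‖T3' m0 m1 m2‖ ^ 2 =
    ‖m0 - m1‖ ^ 2 + ‖m1 - m2‖ ^ 2 + ‖m2 - m0‖ ^ 2 := by
  simp only [nsq, T3, T3', Complex.add_re, Complex.add_im, Complex.sub_re, Complex.sub_im,
    Complex.mul_re, Complex.mul_im, om_re, om_im, om2_re, om2_im]
  have h := s3
  nlinarith [h, mul_comm (Real.sqrt 3) (Real.sqrt 3)]

theorem sq_sub (m0 m1 m2 : ℂ) : ‖T3' m0 m1 m2‖ ^ 2 - ‖T3 m0 m1 m2‖ ^ 2 =
    2 * Real.sqrt 3 * cr (m1 - m0) (m2 - m0) := by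
  simp only [nsq, T3, T3', cr, Complex.add_re, Complex.add_im, Complex.sub_re, Complex.sub_im,
    Complex.mul_re, Complex.mul_im, om_re, om_im, om2_re, om2_im]
  ring

theorem T'_ge {m0 m1 m2 : ℂ} (h : 0 ≤ cr (m1 - m0) (m2 - m0)) :
    (‖m0 - m1‖ ^ 2 + ‖m1 - m2‖ ^ 2 + ‖m2 - m0‖ ^ 2) / 2 ≤ ‖T3' m0 m1 m2‖ ^ 2 := by
  have h1 := sq_add m0 m1 m2
  have h2 := sq_sub m0 m1 m2
  have h3 : 0 ≤ 2 * Real.sqrt 3 * cr (m1 - m0) (m2 - m0) :=
    mul_nonneg (mul_nonneg (by norm_num) (Real.sqrt_nonneg _)) h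
  linarith

/-- square of side `s` with lower left corner `z`, arcs: bottom, right, top and left -/
theorem square {z m0 m1 m2 : ℂ} {s : ℝ} (_hs : 0 ≤ s)
    (h0 : (m0 - z).im = 0 ∧ 0 ≤ (m0 - z).re ∧ (m0 - z).re ≤ s)
    (h1 : (m1 - z).re = s ∧ 0 ≤ (m1 - z).im ∧ (m1 - z).im ≤ s)
    (h2 : (m2 - z).re ≤ (m2 - z).im ∧ 0 ≤ (m2 - z).re ∧ (m2 - z).im ≤ s) :
    s ^ 2 / 6 ≤ ‖T3' m0 m1 m2‖ ^ 2 := by
  obtain ⟨a0, b0, c0⟩ := h0
  obtain ⟨a1, b1, c1⟩ := h1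
  obtain ⟨a2, b2, c2⟩ := h2
  set x := (m0 - z).re with hx
  set y := (m1 - z).im with hy
  set X := (m2 - z).re with hX
  set Y := (m2 - z).im with hY
  have e0 : (m0 - z).re = x := rfl
  have r10 : (m1 - m0).re = s - x := by
    have : (m1 - m0).re = (m1 - z).re - (m0 - z).re := by simp
    rw [this, a1]
  have i10 : (m1 - m0).im = y := by
    have : (m1 - m0).im = (m1 - z).im - (m0 - z).im := by simp
    rw [this, a0, sub_zero]
  have r20 : (m2 - m0).re = X - x := by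
    have : (m2 - m0).re = (m2 - z).re - (m0 - z).re := by simp
    rw [this]
  have i20 : (m2 - m0).im = Y := by
    have : (m2 - m0).im = (m2 - z).im - (m0 - z).im := by simp
    rw [this, a0, sub_zero]
  have hcr : 0 ≤ cr (m1 - m0) (m2 - m0) := by
    unfold cr
    rw [r10, i10, r20, i20]
    -- (s - x) Y - y (X - x) ≥ (s-x) X - y (X - x) 
    have t1 : (s - x) * X ≤ (s - x) * Y := mul_le_mul_of_nonneg_left a2 (by linarith)
    -- (s - x) X - y X + y x = X (s - x - y) + x y ; linear in y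
    have t2 : 0 ≤ (s - x) * X - y * (X - x) := by
      have hXs : X ≤ s := le_trans a2 c2
      -- at y = 0 : (s-x) X ≥ 0 ; at y = s : (s-x) X - s X + s x = x (s - X) ≥ 0
      have u0 : 0 ≤ (s - x) * X := mul_nonneg (by linarith) b2
      have u1 : 0 ≤ x * (s - X) := mul_nonneg b0 (by linarith)
      by_cases hc : X ≤ x
      · have : y * (X - x) ≤ 0 := mul_nonpos_of_nonneg_of_nonpos b1 (by linarith)
        linarith
      · have hc' : 0 ≤ X - x := by linarith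
        have : y * (X - x) ≤ s * (X - x) := mul_le_mul_of_nonneg_right c1 hc'
        nlinarith
    linarith
  refine le_trans ?_ (T'_ge hcr)
  have n1 : ‖m0 - m1‖ ^ 2 = (s - x) ^ 2 + y ^ 2 := by
    rw [norm_sub_rev, nsq, r10, i10]
  have n2 : ‖m2 - m0‖ ^ 2 = (X - x) ^ 2 + Y ^ 2 := by
    rw [nsq, r20, i20]
  have n3 : 0 ≤ ‖m1 - m2‖ ^ 2 := by positivity
  rw [n1, n2]
  -- (X - x)^2 + Y^2 ≥ x^2/2 when Y ≥ X ≥ 0
  have t3 : x ^ 2 / 2 ≤ (X - x) ^ 2 + Y ^ 2 := by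
    have : X ^ 2 ≤ Y ^ 2 := by
      apply pow_le_pow_left₀ b2 a2
    nlinarith [sq_nonneg (2 * X - x)]
  nlinarith [sq_nonneg (3 * x - 2 * s), sq_nonneg y]

/-- **the constant dies**: if the linear law with the constant `κ` holds with error `e` on the
square, then `‖κ‖ ≤ 3 ‖c0‖ e / s` -/
theorem kappa_small {κ c0 T' : ℂ} {e s : ℝ} (hs : 0 < s) (h' : s ^ 2 / 6 ≤ ‖T'‖ ^ 2)
    (h : ‖κ * T'‖ ≤ ‖c0‖ * e) : ‖κ‖ ≤ 3 * ‖c0‖ * e / s := by
  have h1 : s / 3 ≤ ‖T'‖ := by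
    by_contra hn
    push Not at hn
    have : ‖T'‖ ^ 2 < (s / 3) ^ 2 := pow_lt_pow_left₀ hn (norm_nonneg _) (by norm_num)
    nlinarith [sq_pos_of_pos hs]
  rw [norm_mul] at h
  rw [le_div_iff₀ hs]
  nlinarith [mul_le_mul_of_nonneg_left h1 (norm_nonneg κ)]

/-- and then `‖T‖ ≤ 2 e` for every domain with the same constant -/
theorem T_small {κ c0 T : ℂ} {e : ℝ} (hc : 0 < ‖c0‖) (hκ : ‖κ‖ ≤ ‖c0‖ / 2)
    (h : ‖(c0 + κ) * T‖ ≤ ‖c0‖ * e) : ‖T‖ ≤ 2 * e := by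
  have h1 : ‖c0‖ / 2 ≤ ‖c0 + κ‖ := by
    have h2 : ‖c0‖ ≤ ‖c0 + κ‖ + ‖κ‖ := by
      calc ‖c0‖ = ‖(c0 + κ) - κ‖ := by ring_nf
        _ ≤ _ := norm_sub_le _ _
    linarith
  rw [norm_mul] at h
  have h3 : ‖c0‖ / 2 * ‖T‖ ≤ ‖c0‖ * e :=
    le_trans (mul_le_mul_of_nonneg_right h1 (norm_nonneg _)) h
  have h4 : ‖c0‖ * (‖T‖ / 2) ≤ ‖c0‖ * e := by linarith
  have h5 := le_of_mul_le_mul_left h4 hc
  linarith

end Crest.Agent.R143.Algx915
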