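import Crest.Agent.R143.RevC_389

/-!
# Row 143 (S0194), hedge block H, [A], SIDE: ring data imply the ring event off the window (helper389)

* `Rad` : a radial chain of darts on one side of the window
* `RW` : ring data: one loop (times `T 0 < .. < T n`, tiles `B k`), white circuit `W0` in `Ann`,
  black circuit `B'`, white arm, two radial chains
* `RW.ow` : **`Ow`**; `RW.pq` : the canonical states are states of the ring loop in the tiles next to
  the window
-/

set_option autoImplicit false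
set_option linter.unusedSectionVars false

noncomputable section

open scoped Classical

namespace Crest.Agent.R143.RingWx389

open Finset Crest.Agent.R143.Harx315 Crest.Agent.R143.Frame1x395 Crest.Agent.R143.Frame2x395
  Crest.Agent.R143.Frame3x395 Crest.Agent.R143.Frame8x395 Crest.Agent.R143.Frame9x395
  Crest.Agent.R143.Frame11x395 Crest.Agent.R143.NonXx592 Crest.Agent.R143.Chordx355
  Crest.Agent.R143.Histx389 Crest.Agent.R143.RevAx389 Crest.Agent.R143.Tubex389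
  Crest.Agent.R143.Chord2x355 Crest.Agent.R143.H2x355 Crest.Agent.R143.RevCx389

open Crest.Agent.R143.Exitx707 (Nb nb_symm gap_cases)

variable {α D C : Type} {M : CMap D C} {G : Rg D C} {ψ : C → ZMod 2}

/-- radial chain of darts from the core to the outside, tiles in `ok` only -/
structure Rad (M : CMap D C) (G : Rg D C) (B : ℕ → Set C) (n : ℕ) (ok : ℕ → Prop) (L : ℕ → D) :
    Prop where
  l0 : M.cell (L 0) ∈ G.Dp
  fin : ∃ e, M.cell (L e) ∈ G.Far ∧ (∀ j, j < e → M.cell (L (j + 1)) = M.cell (M.rho (L j))) ∧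
    (∀ j, j < e → M.cell (L j) ∈ G.Dw) ∧ ∀ j, j ≤ e → ∀ k, k < n → M.cell (L j) ∈ B k → ok k

/-- ring data for one window, `x1` given -/
structure RY (M : CMap D C) (G : Rg D C) (ψ : C → ZMod 2) (r : D) (T : ℕ → ℕ) (m n : ℕ)
    (B : ℕ → Set C) (B' : Set C) : Prop where
  bl : ψ (M.cell r) = 1
  wh : ψ (M.cell (M.rho r)) = 0
  t0 : T 0 = 0
  mono : ∀ k, k < n → T k < T (k + 1)
  per : P M (cfg M ψ) r (T n) = r
  inj : ∀ a b, a < b → b < T n → P M (cfg M ψ) r a ≠ P M (cfg M ψ) r b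
  tile : ∀ k, k < n → ∀ t, T k ≤ t → t ≤ T (k + 1) → M.cell (P M (cfg M ψ) r t) ∈ B k ∧
    M.cell (M.rho (P M (cfg M ψ) r t)) ∈ B k
  m7 : 7 ≤ m
  mn : m ≤ n
  off : ∀ k, k < n → ∀ c ∈ B k, c ∉ G.Far ∧ c ∉ G.Ann
  out : ∀ k, k < m → ∀ c ∈ B k, c ∈ G.Dw ∧ c ∉ G.Th ∧ c ∉ G.Dp
  h0 : G.h0 ∈ G.Far
  far : ∀ c ∈ G.Far, Relation.ReflTransGen (fun a a' => Nb M a a' ∧ a' ∈ G.Far) G.h0 c
  x1 : ∀ a ∈ Xs M G ψ, ∀ c, Nb M a c → c ∈ G.Far ∨ c ∈ G.Ann
  b1 : ∀ c ∈ B', c ∉ G.Far ∧ c ∉ G.Ann ∧ c ∉ G.Dp ∧ ψ c = 1 ∧ Con M (cfg M ψ) (M.cell r) c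
  bx : ∀ c ∈ G.Dp, ¬ Relation.ReflTransGen (fun a a' => Nb M a a' ∧ a' ∉ B') c G.h0
  ra : Rad M G B n (fun k => k < 3) G.La
  rb : Rad M G B n (fun k => m ≤ k + 3 ∧ k < m) G.Lb

/-- ring data for one window, `x1` and one right cell in `Cw` given -/
structure RX (M : CMap D C) (G : Rg D C) (ψ : C → ZMod 2) (r : D) (T : ℕ → ℕ) (m n : ℕ)
    (B : ℕ → Set C) (B' : Set C) : Prop extends RY M G ψ r T m n B B' where
  ac : ∃ t, t ≤ T m ∧ M.cell (M.rho (P M (cfg M ψ) r t)) ∈ Cw M G ψ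

/-- ring data for one window -/
structure RW (M : CMap D C) (G : Rg D C) (ψ : C → ZMod 2) (r : D) (T : ℕ → ℕ) (m n : ℕ)
    (B : ℕ → Set C) (W0 B' : Set C) : Prop where
  bl : ψ (M.cell r) = 1
  wh : ψ (M.cell (M.rho r)) = 0
  t0 : T 0 = 0
  mono : ∀ k, k < n → T k < T (k + 1)
  per : P M (cfg M ψ) r (T n) = r
  inj : ∀ a b, a < b → b < T n → P M (cfg M ψ) r a ≠ P M (cfg M ψ) r b
  tile : ∀ k, k < n → ∀ t, T k ≤ t → t ≤ T (k + 1) → M.cell (P M (cfg M ψ) r t) ∈ B k ∧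
    M.cell (M.rho (P M (cfg M ψ) r t)) ∈ B k
  m7 : 7 ≤ m
  mn : m ≤ n
  off : ∀ k, k < n → ∀ c ∈ B k, c ∉ G.Far ∧ c ∉ G.Ann
  out : ∀ k, k < m → ∀ c ∈ B k, c ∈ G.Dw ∧ c ∉ G.Th ∧ c ∉ G.Dp
  h0 : G.h0 ∈ G.Far
  far : ∀ c ∈ G.Far, Relation.ReflTransGen (fun a a' => Nb M a a' ∧ a' ∈ G.Far) G.h0 c
  w0 : ∀ c ∈ W0, c ∈ G.Ann ∧ c ∉ G.Far ∧ ψ c = 0
  wx : ∀ c, c ∉ G.Far → c ∉ G.Ann →
    ¬ Relation.ReflTransGen (fun a a' => Nb M a a' ∧ a' ∉ W0) G.h0 c
  b1 : ∀ c ∈ B', c ∉ G.Far ∧ c ∉ G.Ann ∧ c ∉ G.Dp ∧ ψ c = 1 ∧ Con M (cfg M ψ) (M.cell r) c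
  bx : ∀ c ∈ G.Dp, ¬ Relation.ReflTransGen (fun a a' => Nb M a a' ∧ a' ∉ B') c G.h0
  arm : ∃ (v : ℕ → C) (k t : ℕ), v 0 ∈ G.Far ∧ (∀ i, i < k → Nb M (v i) (v (i + 1))) ∧
    (∀ i, i ≤ k → v i ∈ G.Far ∨ (v i ∈ G.Dw ∧ ψ (v i) = 0)) ∧ t ≤ T m ∧
    v k = M.cell (M.rho (P M (cfg M ψ) r t))
  ra : Rad M G B n (fun k => k < 3) G.La
  rb : Rad M G B n (fun k => m ≤ k + 3 ∧ k < m) G.Lb

variable {r : D} {T : ℕ → ℕ} {m n : ℕ} {B : ℕ → Set C} {W0 B' : Set C}

/-! ### the outside -/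

theorem xs_sub {c : C} (h0 : G.h0 ∈ G.Far) (hc : c ∈ Xs M G ψ) :
    c ∈ G.Far ∨ (c ∈ G.Ann ∧ ψ c = 1) := by
  refine xs_ind (Q := fun c => c ∈ G.Far ∨ (c ∈ G.Ann ∧ ψ c = 1)) (Or.inl h0) ?_ c hc
  intro a c _ _ _ h
  exact h

namespace RY

theorem far_xs (H : RY M G ψ r T m n B B') {c : C} (hc : c ∈ G.Far) : c ∈ Xs M G ψ := by
  have h := H.far c hc
  clear hc
  induction h with
  | refl => exact h0_xs
  | tail _ h1 ih => exact xs_far ih h1.1 h1.2

/-- a neighbour of the outside off the outside is in the frontier -/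
theorem fs_of (H : RY M G ψ r T m n B B') {a c : C} (ha : a ∈ Xs M G ψ) (h : Nb M a c)
    (hc : c ∉ Xs M G ψ) : c ∈ Fs M G ψ := by
  rcases H.x1 a ha c h with h1 | h1
  · exact absurd (H.far_xs h1) hc
  · rcases z_cases (ψ c) with h2 | h2
    · exact ⟨h1, h2, a, ha, h⟩
    · exact absurd (xs_ann ha h h1 h2) hc

/-- from `Cw` to the hull off the black circuit -/
theorem cw_hull (H : RY M G ψ r T m n B B') {c : C} (hc : c ∈ Cw M G ψ ∨ c ∈ Xs M G ψ) :
    Relation.ReflTransGen (fun a a' => Nb M a a' ∧ a' ∉ B') c G.h0 := by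
  have h0n : G.h0 ∉ B' := fun h => (H.b1 _ h).1 H.h0
  have hxb : ∀ c ∈ Xs M G ψ, c ∉ B' := by
    intro c hc h
    rcases xs_sub H.h0 hc with h1 | h1
    · exact (H.b1 _ h).1 h1
    · exact (H.b1 _ h).2.1 h1.1
  have hX : ∀ c ∈ Xs M G ψ, c ∉ B' ∧
      Relation.ReflTransGen (fun a a' => Nb M a a' ∧ a' ∉ B') c G.h0 := by
    intro c hc
    refine xs_ind (Q := fun c => c ∉ B' ∧
      Relation.ReflTransGen (fun a a' => Nb M a a' ∧ a' ∉ B') c G.h0)
      ⟨h0n, Relation.ReflTransGen.refl⟩ ?_ c hc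
    intro a c ha ih h1 h2
    exact ⟨hxb c (by
      rcases h2 with h2 | ⟨h2, h3⟩
      · exact xs_far ha h1 h2
      · exact xs_ann ha h1 h2 h3), Relation.ReflTransGen.head ⟨nb_symm h1, ih.1⟩ ih.2⟩
  rcases hc with hc | hc
  · have key : ∀ c ∈ Cw M G ψ, c ∉ B' ∧
        Relation.ReflTransGen (fun a a' => Nb M a a' ∧ a' ∉ B') c G.h0 := by
      refine cl_ind (fun c hc => ?_) fun a c _ ih h1 h2 h3 => ?_
      · obtain ⟨h1, h2, a, h3, h4⟩ := hc
        exact ⟨fun h => (H.b1 _ h).2.1 h1,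
          Relation.ReflTransGen.head ⟨nb_symm h4, (hX a h3).1⟩ (hX a h3).2⟩
      · refine ⟨fun h => ?_, Relation.ReflTransGen.head ⟨nb_symm h1, ih.1⟩ ih.2⟩
        have := (H.b1 _ h).2.2.2.1
        rw [h3] at this
        exact absurd this (by decide)
    exact (key c hc).2
  · exact (hX c hc).2

/-- the core is off the white cluster and its neighbours -/
theorem dp_cw (H : RY M G ψ r T m n B B') {c : C} (hc : c ∈ G.Dp) :
    c ∉ Cw M G ψ ∧ c ∉ Xs M G ψ ∧ ∀ a, a ∈ Cw M G ψ ∨ a ∈ Xs M G ψ → ¬ Nb M c a := by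
  have hB : ∀ a, a ∈ Cw M G ψ ∨ a ∈ Xs M G ψ → a ∉ B' := by
    intro a ha h
    have h1 := H.b1 a h
    rcases ha with ha | ha
    · rw [cw_white ha] at h1
      exact absurd h1.2.2.2.1 (by decide)
    · rcases xs_sub H.h0 ha with h2 | h2
      · exact h1.1 h2
      · exact h1.2.1 h2.1
  refine ⟨fun h => H.bx c hc (H.cw_hull (Or.inl h)), fun h => H.bx c hc (H.cw_hull (Or.inr h)), ?_⟩
  intro a ha h
  exact H.bx c hc (Relation.ReflTransGen.head ⟨h, hB a ha⟩ (H.cw_hull ha))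

/-! ### the walk -/

variable [Fintype D]

theorem occ (H : RY M G ψ r T m n B B') : cfg M ψ r = 1 := by
  unfold cfg
  rw [H.bl, H.wh]
  decide

theorem even (ψ : C → ZMod 2) : IsC M ∅ (cfg M ψ) := cfg_isC ψ

theorem same (ψ : C → ZMod 2) (d : D) (hd : cfg M ψ d = 0) : ψ (M.cell d) = ψ (M.cell (M.rho d)) := by
  have : ψ (M.cell d) + ψ (M.cell (M.rho d)) = 0 := hd
  revert this
  generalize ψ (M.cell d) = a
  generalize ψ (M.cell (M.rho d)) = b
  revert a b; decide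

theorem lbl (H : RY M G ψ r T m n B B') (t : ℕ) : ψ (M.cell (P M (cfg M ψ) r t)) = 1 := by
  rw [← H.bl]
  exact it_col (even ψ) H.occ (same ψ) t

theorem rwh (H : RY M G ψ r T m n B B') (t : ℕ) :
    ψ (M.cell (M.rho (P M (cfg M ψ) r t))) = 0 := by
  have h1 : ψ (M.cell (P M (cfg M ψ) r t)) + ψ (M.cell (M.rho (P M (cfg M ψ) r t))) = 1 :=
    P_occ (even ψ) H.occ t
  rw [H.lbl t] at h1
  have h3 : ∀ a : ZMod 2, 1 + a = 1 → a = 0 := by decide
  exact h3 _ h1

/-- consecutive right cells -/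
theorem rstep (H : RY M G ψ r T m n B B') (t : ℕ) :
    M.cell (M.rho (P M (cfg M ψ) r (t + 1))) = M.cell (M.rho (P M (cfg M ψ) r t)) ∨
      Nb M (M.cell (M.rho (P M (cfg M ψ) r t))) (M.cell (M.rho (P M (cfg M ψ) r (t + 1)))) := by
  rw [P_succ]
  rcases stp_cases (even ψ) (P_occ (even ψ) H.occ t) (Set.notMem_empty _) with
    ⟨h1, h2, e⟩ | ⟨h1, h2, e⟩
  · left
    rw [e, cell_rho_iota M ((even ψ).lv h1)]
  · right
    rw [e, cell_rho_iota M ((even ψ).lv h2)]
    exact nb_rho _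

/-- the right cells of a period: a chain from any right cell to any right cell -/
theorem rchain (H : RY M G ψ r T m n B B') {Q : C → Prop}
    (hs : ∀ c c', Q c → ψ c' = 0 → Nb M c c' → Q c') {t : ℕ}
    (ht : Q (M.cell (M.rho (P M (cfg M ψ) r t)))) (u : ℕ) :
    Q (M.cell (M.rho (P M (cfg M ψ) r (t + u)))) := by
  induction u with
  | zero => exact ht
  | succ u ih =>
    rcases H.rstep (t + u) with h | h
    · rw [← add_assoc, h]; exact ih
    · rw [← add_assoc]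
      exact hs _ _ ih (H.rwh _) h

theorem tn_pos (H : RY M G ψ r T m n B B') : 0 < T n := by
  have key : ∀ k, k < n → 0 < T (k + 1) := by
    intro k hk
    have := H.mono k hk
    omega
  have h7 := H.m7
  have hmn := H.mn
  have := key (n - 1) (by omega)
  rwa [Nat.sub_add_cancel (by omega)] at this

theorem per_mul (H : RY M G ψ r T m n B B') (t q : ℕ) :
    P M (cfg M ψ) r (t + q * T n) = P M (cfg M ψ) r t := by
  induction q with
  | zero => rw [zero_mul, add_zero]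
  | succ q ih =>
    rw [show t + (q + 1) * T n = (t + q * T n) + T n by ring, P_add, H.per, ih]

theorem mod (H : RY M G ψ r T m n B B') (t : ℕ) :
    P M (cfg M ψ) r (t % T n) = P M (cfg M ψ) r t := by
  conv_rhs => rw [← Nat.mod_add_div t (T n), mul_comm]
  rw [H.per_mul]

theorem mono' (H : RY M G ψ r T m n B B') {a b : ℕ} (hab : a ≤ b) (hb : b ≤ n) : T a ≤ T b := by
  obtain ⟨d, rfl⟩ := Nat.exists_eq_add_of_le hab
  induction d with
  | zero => exact le_rfl
  | succ d ih => exact (ih (Nat.le_add_right _ _) (by omega)).trans (H.mono (a + d) (by omega)).le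

/-- the tile of a time -/
theorem tile_of (H : RY M G ψ r T m n B B') {j : ℕ} (hj : j ≤ n) {t : ℕ} (ht : t < T j) :
    ∃ k, k < j ∧ T k ≤ t ∧ t < T (k + 1) := by
  induction j with
  | zero => rw [H.t0] at ht; omega
  | succ j ih =>
    rcases Nat.lt_or_ge t (T j) with h | h
    · obtain ⟨k, h1, h2⟩ := ih (by omega) h
      exact ⟨k, by omega, h2⟩
    · exact ⟨j, by omega, h, ht⟩

/-- tile of a time `≤ T j` -/
theorem tile_le (H : RY M G ψ r T m n B B') {j : ℕ} (hj : j ≤ n) (hj0 : 0 < j) {t : ℕ}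
    (ht : t ≤ T j) : ∃ k, k < j ∧ T k ≤ t ∧ t ≤ T (k + 1) := by
  rcases Nat.lt_or_ge t (T j) with h | h
  · obtain ⟨k, h1, h2, h3⟩ := H.tile_of hj h
    exact ⟨k, h1, h2, h3.le⟩
  · have e : t = T j := by omega
    have h1 := H.mono (j - 1) (by omega)
    rw [Nat.sub_add_cancel hj0] at h1
    refine ⟨j - 1, by omega, by omega, ?_⟩
    rw [Nat.sub_add_cancel hj0]
    exact ht

/-! ### the arm -/

theorem arm_cw (H : RY M G ψ r T m n B B')
    (arm : ∃ (v : ℕ → C) (k t : ℕ), v 0 ∈ G.Far ∧ (∀ i, i < k → Nb M (v i) (v (i + 1))) ∧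
      (∀ i, i ≤ k → v i ∈ G.Far ∨ (v i ∈ G.Dw ∧ ψ (v i) = 0)) ∧ t ≤ T m ∧
      v k = M.cell (M.rho (P M (cfg M ψ) r t))) :
    ∃ t, t ≤ T m ∧ M.cell (M.rho (P M (cfg M ψ) r t)) ∈ Cw M G ψ := by
  obtain ⟨v, k, t, v0, va, vc, ht, e⟩ := arm
  refine ⟨t, ht, ?_⟩
  have hm0 : 0 < m := by have := H.m7; omega
  obtain ⟨k', h1, h2, h3⟩ := H.tile_le H.mn hm0 ht
  have h4 := (H.tile k' (lt_of_lt_of_le h1 H.mn) t h2 h3).2
  have h5 := H.off k' (lt_of_lt_of_le h1 H.mn) _ h4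
  rw [← e] at h5 ⊢
  have key : ∀ i, i ≤ k → v i ∈ Xs M G ψ ∨ v i ∈ Cw M G ψ := by
    intro i
    induction i with
    | zero => exact fun _ => Or.inl (H.far_xs v0)
    | succ i ih =>
      intro hi
      by_cases hx : v (i + 1) ∈ Xs M G ψ
      · exact Or.inl hx
      · right
        rcases ih (by omega) with h6 | h6
        · exact seed_cl (H.fs_of h6 (va i (by omega)) hx)
        · rcases vc (i + 1) hi with h7 | ⟨h7, h8⟩
          · exact absurd (H.far_xs h7) hx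
          · exact cl_step h6 (va i (by omega)) h7 h8
  rcases key k le_rfl with h6 | h6
  · rcases xs_sub H.h0 h6 with h7 | h7
    · exact absurd h7 h5.1
    · exact absurd h7.1 h5.2
  · exact h6

end RY

namespace RX

open RY (even same)

variable [Fintype D]

/-- **all right cells off the window are in the white cluster** -/
theorem rcw (H : RX M G ψ r T m n B B') {t : ℕ} (ht : t ≤ T m) :
    M.cell (M.rho (P M (cfg M ψ) r t)) ∈ Cw M G ψ := by
  obtain ⟨t1, ht1, h1⟩ := H.ac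
  have hm0 : 0 < m := by have := H.m7; omega
  have inDw : ∀ t, t ≤ T m → M.cell (M.rho (P M (cfg M ψ) r t)) ∈ G.Dw := by
    intro t ht
    obtain ⟨k, h2, h3, h4⟩ := H.tile_le H.mn hm0 ht
    exact (H.out k h2 _ (H.tile k (lt_of_lt_of_le h2 H.mn) t h3 h4).2).1
  have up : ∀ u, t1 + u ≤ T m → M.cell (M.rho (P M (cfg M ψ) r (t1 + u))) ∈ Cw M G ψ := by
    intro u
    induction u with
    | zero => exact fun _ => h1
    | succ u ih =>
      intro hu
      have h2 := ih (by omega)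
      rcases H.rstep (t1 + u) with h | h
      · rw [← add_assoc, h]; exact h2
      · rw [← add_assoc]
        exact cl_step h2 h (inDw _ (by omega)) (H.rwh _)
  have dn : ∀ u, u ≤ t1 → M.cell (M.rho (P M (cfg M ψ) r (t1 - u))) ∈ Cw M G ψ := by
    intro u
    induction u with
    | zero => exact fun _ => h1
    | succ u ih =>
      intro hu
      have h2 := ih (by omega)
      have e : t1 - u = (t1 - (u + 1)) + 1 := by omega
      rw [e] at h2
      rcases H.rstep (t1 - (u + 1)) with h | h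
      · rw [← h]; exact h2
      · exact cl_step h2 (nb_symm h) (inDw _ (by omega)) (H.rwh _)
  rcases Nat.le_total t1 t with h | h
  · obtain ⟨u, rfl⟩ := Nat.exists_eq_add_of_le h
    exact up u ht
  · have := dn (t1 - t) (by omega)
    rwa [Nat.sub_sub_self h] at this

/-! ### the side -/

/-- side of the loop -/
def Sd (M : CMap D C) (x : D → ZMod 2) (r : D) (s : C → ZMod 2) : Prop :=
  ∀ d, lp M x r d = s (M.cell d) + s (M.cell (M.rho d))

theorem exists_sd (H : RX M G ψ r T m n B B') : ∃ s, Sd M (cfg M ψ) r s :=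
  M.ex (lp M (cfg M ψ) r) (fun d hd => lp_le (even ψ) H.occ ((even ψ).dead d hd)) (lp_iot r)
    (lp_par (even ψ) H.occ)

theorem sd_eq {x : D → ZMod 2} {s : C → ZMod 2} (S : Sd M x r s) {d : D} (h : lp M x r d = 0) :
    s (M.cell d) = s (M.cell (M.rho d)) := by
  have := S d
  rw [h] at this
  revert this
  generalize s (M.cell d) = a
  generalize s (M.cell (M.rho d)) = b
  revert a b; decide

theorem sd_ne {x : D → ZMod 2} {s : C → ZMod 2} (S : Sd M x r s) {d : D}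
    (h : s (M.cell d) ≠ s (M.cell (M.rho d))) : lp M x r d = 1 := by
  rcases z_cases (lp M x r d) with h1 | h1
  · exact absurd (sd_eq S h1) h
  · exact h1

/-- a dart of the loop -/
theorem lp_dart (H : RX M G ψ r T m n B B') {d : D} (h : lp M (cfg M ψ) r d = 1) :
    ∃ t, t < T n ∧ (P M (cfg M ψ) r t = d ∨ P M (cfg M ψ) r t = M.iota d) := by
  have h1 : (∃ n, (stp M (cfg M ψ))^[n] r = d) ∨ ∃ n, (stp M (cfg M ψ))^[n] r = M.iota d := by
    by_contra hc
    have h2 : lp M (cfg M ψ) r d = 0 := if_neg hc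
    rw [h2] at h
    exact absurd h (by decide)
  rcases h1 with ⟨t, ht⟩ | ⟨t, ht⟩
  · exact ⟨t % T n, Nat.mod_lt _ H.tn_pos, Or.inl ((H.mod t).trans ht)⟩
  · exact ⟨t % T n, Nat.mod_lt _ H.tn_pos, Or.inr ((H.mod t).trans ht)⟩

/-- the two cells of a dart of the loop -/
theorem lp_cells (H : RX M G ψ r T m n B B') {d : D} (h : lp M (cfg M ψ) r d = 1) :
    ∃ t, t < T n ∧ ((P M (cfg M ψ) r t = d ∧ M.cell (P M (cfg M ψ) r t) = M.cell d ∧
      M.cell (M.rho (P M (cfg M ψ) r t)) = M.cell (M.rho d)) ∨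
      (P M (cfg M ψ) r t = M.iota d ∧ M.cell (P M (cfg M ψ) r t) = M.cell (M.rho d) ∧
      M.cell (M.rho (P M (cfg M ψ) r t)) = M.cell d)) := by
  obtain ⟨t, ht, h1⟩ := H.lp_dart h
  refine ⟨t, ht, ?_⟩
  have hx : cfg M ψ d = 1 := by
    rcases z_cases (cfg M ψ d) with h2 | h2
    · rw [lp_le (even ψ) H.occ h2] at h
      exact absurd h (by decide)
    · exact h2
  rcases h1 with h1 | h1
  · left
    rw [h1]
    exact ⟨rfl, rfl, rfl⟩
  · right
    rw [h1]
    exact ⟨rfl, M.cell_iota _ ((even ψ).lv hx), cell_rho_iota M ((even ψ).lv hx)⟩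

theorem lp_off (H : RX M G ψ r T m n B B') {d : D}
    (h : (M.cell d ∈ G.Far ∨ M.cell d ∈ G.Ann)) : lp M (cfg M ψ) r d = 0 := by
  rcases z_cases (lp M (cfg M ψ) r d) with h1 | h1
  · exact h1
  · exfalso
    obtain ⟨t, ht, h2⟩ := H.lp_cells h1
    obtain ⟨k, hk, h3, h4⟩ := H.tile_of le_rfl ht
    have h5 := H.tile k hk t h3 h4.le
    rcases h2 with ⟨-, e1, e2⟩ | ⟨-, e1, e2⟩
    · rw [e1] at h5
      have h6 := H.off k hk _ h5.1
      rcases h with h | h
      · exact h6.1 h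
      · exact h6.2 h
    · rw [e2] at h5
      have h6 := H.off k hk _ h5.2
      rcases h with h | h
      · exact h6.1 h
      · exact h6.2 h

theorem s_left (H : RX M G ψ r T m n B B') {s : C → ZMod 2} (S : Sd M (cfg M ψ) r s) (t : ℕ) :
    s (M.cell (P M (cfg M ψ) r t)) = s (M.cell r) :=
  (con_eq S (fun _ hd => lp_le (even ψ) H.occ hd) (con_left (even ψ) H.occ t)).symm

theorem s_right (H : RX M G ψ r T m n B B') {s : C → ZMod 2} (S : Sd M (cfg M ψ) r s) (t : ℕ) :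
    s (M.cell (M.rho (P M (cfg M ψ) r t))) = s (M.cell (M.rho r)) :=
  (con_eq S (fun _ hd => lp_le (even ψ) H.occ hd) (con_right (even ψ) H.occ t)).symm

theorem s_ne (_H : RX M G ψ r T m n B B') {s : C → ZMod 2} (S : Sd M (cfg M ψ) r s) :
    s (M.cell r) ≠ s (M.cell (M.rho r)) := by
  intro h
  have h1 : lp M (cfg M ψ) r r = 1 := if_pos (Or.inl ⟨0, rfl⟩)
  rw [S r, h] at h1
  revert h1
  generalize s (M.cell (M.rho r)) = a
  revert a; decide

/-- the outside and its frontier are on one side -/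
theorem s_xs (H : RX M G ψ r T m n B B') {s : C → ZMod 2} (S : Sd M (cfg M ψ) r s) :
    ∀ c ∈ Xs M G ψ, s c = s G.h0 := by
  refine xs_ind rfl ?_
  intro a c ha ih h1 _
  obtain ⟨d, rfl, rfl⟩ := h1
  rw [← ih]
  refine (sd_eq S (H.lp_off ?_)).symm
  rcases xs_sub H.h0 ha with h3 | h3
  · exact Or.inl h3
  · exact Or.inr h3.1

theorem s_cw (H : RX M G ψ r T m n B B') {s : C → ZMod 2} (S : Sd M (cfg M ψ) r s) :
    ∀ c ∈ Cw M G ψ, s c = s G.h0 := by
  refine cl_ind ?_ ?_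
  · rintro c ⟨h1, h2, a, h3, d, rfl, rfl⟩
    rw [← H.s_xs S _ h3]
    refine (sd_eq S (H.lp_off ?_)).symm
    rcases xs_sub H.h0 h3 with h4 | h4
    · exact Or.inl h4
    · exact Or.inr h4.1
  · intro a c ha ih h1 _ h3
    obtain ⟨d, rfl, rfl⟩ := h1
    rw [← ih]
    refine (sd_eq S (lp_le (even ψ) H.occ ?_)).symm
    have h4 := cw_white ha
    unfold cfg
    rw [h4, h3]
    decide

theorem s_h0 (H : RX M G ψ r T m n B B') {s : C → ZMod 2} (S : Sd M (cfg M ψ) r s) :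
    s G.h0 = s (M.cell (M.rho r)) := by
  rw [← H.s_right S 0, ← H.s_cw S _ (H.rcw (Nat.zero_le _))]

/-- no right cell is joined to the core off the black circuit -/
theorem core_right (H : RX M G ψ r T m n B B') {c : C} (hc : c ∈ G.Dp) (t : ℕ)
    (h : Relation.ReflTransGen (fun a a' => Nb M a a' ∧ a' ∉ B') c
      (M.cell (M.rho (P M (cfg M ψ) r t)))) : False := by
  have h1 : Relation.ReflTransGen (fun a a' => Nb M a a' ∧ a' ∉ B') c
      (M.cell (M.rho (P M (cfg M ψ) r (t + (T n - t % T n))))) := by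
    refine H.rchain (Q := fun a => Relation.ReflTransGen (fun a a' => Nb M a a' ∧ a' ∉ B') c a)
      ?_ h _
    intro a a' ha h2 h3
    refine ha.tail ⟨h3, fun h4 => ?_⟩
    have := (H.b1 _ h4).2.2.2.1
    rw [h2] at this
    exact absurd this (by decide)
  have e : P M (cfg M ψ) r (t + (T n - t % T n)) = r := by
    rw [← H.mod]
    have h2 : (t + (T n - t % T n)) % T n = 0 := by
      have h3 := Nat.mod_lt t H.tn_pos
      have h4 := Nat.mod_add_div t (T n)
      have h5 : t + (T n - t % T n) = T n * (t / T n + 1) := by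
        rw [mul_add, mul_one]
        omega
      rw [h5, Nat.mul_mod_right]
    rw [h2]
    rfl
  rw [e] at h1
  have h2 : M.cell (M.rho r) ∈ Cw M G ψ := H.rcw (t := 0) (Nat.zero_le _)
  exact H.bx c hc (h1.trans (H.cw_hull (Or.inl h2)))

variable {ok : ℕ → Prop} {L : ℕ → D}

/-- **the core is on the left side** -/
theorem core_side (H : RX M G ψ r T m n B B') {s : C → ZMod 2} (S : Sd M (cfg M ψ) r s)
    {v : ℕ → C} {e : ℕ} (v0 : v 0 ∈ G.Dp) (hv : ∀ i, i < e → Nb M (v i) (v (i + 1)))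
    (he : v e ∈ G.Far) : s (v 0) = s (M.cell r) := by
  -- the chain meets `B'`
  obtain ⟨j, hj, hjB⟩ : ∃ j, j ≤ e ∧ v j ∈ B' := by
    by_contra hc
    push Not at hc
    refine H.bx _ v0 ?_
    have h1 : ∀ j, j ≤ e → Relation.ReflTransGen (fun a a' => Nb M a a' ∧ a' ∉ B')
        (v 0) (v j) := by
      intro j
      induction j with
      | zero => exact fun _ => Relation.ReflTransGen.refl
      | succ j ih => exact fun hj => (ih (by omega)).tail ⟨hv j (by omega), hc (j + 1) hj⟩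
    exact (h1 e le_rfl).trans (H.cw_hull (Or.inr (H.far_xs he)))
  -- first one
  set j0 := Nat.find (⟨j, hjB⟩ : ∃ j, v j ∈ B') with hj0
  have hj0B : v j0 ∈ B' := Nat.find_spec (⟨j, hjB⟩ : ∃ j, v j ∈ B')
  have hj0le : j0 ≤ e := (Nat.find_min' _ hjB).trans hj
  have hmin : ∀ i, i < j0 → v i ∉ B' := fun i hi => Nat.find_min _ hi
  have h1 : ∀ i, i < j0 → Relation.ReflTransGen (fun a a' => Nb M a a' ∧ a' ∉ B')
      (v 0) (v i) := by
    intro i
    induction i with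
    | zero => exact fun _ => Relation.ReflTransGen.refl
    | succ i ih => exact fun hi => (ih (by omega)).tail ⟨hv i (by omega), hmin (i + 1) hi⟩
  have h2 : ∀ i, i ≤ j0 → s (v i) = s (v 0) := by
    intro i
    induction i with
    | zero => exact fun _ => rfl
    | succ i ih =>
      intro hi
      rw [← ih (by omega)]
      obtain ⟨d, hd1, hd2⟩ := hv i (by omega)
      by_contra hne
      have h3 : lp M (cfg M ψ) r d = 1 := by
        apply sd_ne S
        rw [hd1, hd2]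
        exact fun h => hne h.symm
      obtain ⟨t, ht, h4⟩ := H.lp_cells h3
      rcases h4 with ⟨-, -, e2⟩ | ⟨-, -, e2⟩
      · -- the right cell is `v (i + 1)`
        rw [hd2] at e2
        rcases Nat.lt_or_ge (i + 1) j0 with h5 | h5
        · refine H.core_right v0 t ?_
          rw [e2]
          exact h1 _ h5
        · have h6 : i + 1 = j0 := by omega
          rw [h6] at e2
          have h7 := (H.b1 _ hj0B).2.2.2.1
          rw [← e2, H.rwh t] at h7
          exact absurd h7 (by decide)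
      · refine H.core_right v0 t ?_
        rw [e2, hd1]
        exact h1 _ (by omega)
  rw [← h2 j0 le_rfl]
  exact (con_eq S (fun _ hd => lp_le (even ψ) H.occ hd) (H.b1 _ hj0B).2.2.2.2).symm

/-- the same for the first cell of a radial chain -/
theorem s_core (H : RX M G ψ r T m n B B') {s : C → ZMod 2} (S : Sd M (cfg M ψ) r s)
    (R : Rad M G B n ok L) : s (M.cell (L 0)) = s (M.cell r) := by
  obtain ⟨e, he, hch, -, -⟩ := R.fin
  refine H.core_side S (v := fun i => M.cell (L i)) (e := e) R.l0 (fun i hi => ?_) he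
  show Nb M (M.cell (L i)) (M.cell (L (i + 1)))
  rw [hch i hi]
  exact nb_rho _

/-- **the canonical dart of a radial chain is a state of the ring loop** -/
theorem state_of (H : RX M G ψ r T m n B B') (R : Rad M G B n ok L) (hok : ∀ k, ok k → k < m) :
    ∃ t k, t < T n ∧ ok k ∧ k < n ∧ T k ≤ t ∧ t < T (k + 1) ∧
      fst' M L (Cw M G ψ) = P M (cfg M ψ) r t := by
  obtain ⟨s, S⟩ := H.exists_sd
  obtain ⟨e, he, hch, hDw, hav⟩ := R.fin
  have hcore := H.s_core S R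
  have hd0 := H.dp_cw R.l0
  -- the chain meets `Cw`
  have hne : ∃ i, i + 1 < e ∧ M.cell (M.rho (L i)) ∈ Cw M G ψ := by
    have hex : ∃ i, M.cell (L i) ∈ Xs M G ψ := ⟨e, H.far_xs he⟩
    set i0 := Nat.find hex with hi0
    have h1 : M.cell (L i0) ∈ Xs M G ψ := Nat.find_spec hex
    have h2 : i0 ≤ e := Nat.find_min' hex (H.far_xs he)
    have h3 : ∀ i, i < i0 → M.cell (L i) ∉ Xs M G ψ := fun i hi => Nat.find_min hex hi
    have h4 : i0 ≠ 0 := by
      intro h
      rw [h] at h1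
      exact hd0.2.1 h1
    have h5 : i0 ≠ 1 := by
      intro h
      rw [h, hch 0 (by omega)] at h1
      exact hd0.2.2 _ (Or.inr h1) (nb_rho _)
    have h6 : Nb M (M.cell (L i0)) (M.cell (L (i0 - 1))) := by
      have h7 := hch (i0 - 1) (by omega)
      rw [Nat.sub_add_cancel (by omega)] at h7
      rw [h7]
      exact nb_symm (nb_rho _)
    have h7 : M.cell (L (i0 - 1)) ∈ Cw M G ψ := seed_cl (H.fs_of h1 h6 (h3 _ (by omega)))
    refine ⟨i0 - 2, by omega, ?_⟩
    rw [← hch (i0 - 2) (by omega), show i0 - 2 + 1 = i0 - 1 by omega]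
    exact h7
  obtain ⟨i1', hi1', hi1c⟩ := hne
  set A : Set ℕ := {i | M.cell (M.rho (L i)) ∈ Cw M G ψ} with hA
  have hAne : A.Nonempty := ⟨i1', hi1c⟩
  set i1 := sInf A with hi1
  have h1 : M.cell (M.rho (L i1)) ∈ Cw M G ψ := Nat.sInf_mem hAne
  have h2 : i1 ≤ i1' := Nat.sInf_le hi1c
  have h3 : ∀ i, i ≤ i1 → M.cell (L i) ∉ Cw M G ψ := by
    intro i hi hc
    cases i with
    | zero => exact hd0.1 hc
    | succ i =>
      rw [hch i (by omega)] at hc
      have : i1 ≤ i := Nat.sInf_le hc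
      omega
  -- the side up to `i1`
  have h4 : ∀ i, i ≤ i1 → s (M.cell (L i)) = s (M.cell r) := by
    intro i
    induction i with
    | zero => exact fun _ => hcore
    | succ i ih =>
      intro hi
      rw [← ih (by omega), hch i (by omega)]
      by_contra hne
      have h5 := sd_ne S (fun h => hne h.symm)
      obtain ⟨t, ht, h6⟩ := H.lp_cells h5
      obtain ⟨k, hk, h7, h8⟩ := H.tile_of le_rfl ht
      have h9 := H.tile k hk t h7 h8.le
      have hkm : k < m := by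
        rcases h6 with ⟨-, e1, -⟩ | ⟨-, -, e2⟩
        · exact hok k (hav i (by omega) k hk (by rw [← e1]; exact h9.1))
        · exact hok k (hav i (by omega) k hk (by rw [← e2]; exact h9.2))
      have h10 := H.rcw (t := t) (h8.le.trans (H.mono' (by omega) H.mn))
      rcases h6 with ⟨-, -, e2⟩ | ⟨-, -, e2⟩
      · rw [e2, ← hch i (by omega)] at h10
        exact h3 _ hi h10
      · rw [e2] at h10
        exact h3 _ (by omega) h10
  have h5 : lp M (cfg M ψ) r (L i1) = 1 := by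
    apply sd_ne S
    rw [h4 i1 le_rfl, H.s_cw S _ h1, H.s_h0 S]
    exact H.s_ne S
  obtain ⟨t, ht, h6⟩ := H.lp_cells h5
  obtain ⟨k, hk, h7, h8⟩ := H.tile_of le_rfl ht
  rcases h6 with ⟨e0, e1, e2⟩ | ⟨e0, e1, e2⟩
  · refine ⟨t, k, ht, ?_, hk, h7, h8, ?_⟩
    · refine hav i1 (by omega) k hk ?_
      rw [← e1]
      exact (H.tile k hk t h7 h8.le).1
    · exact e0.symm
  · exfalso
    have h9 := H.lbl t
    rw [e1, cw_white h1] at h9
    exact absurd h9 (by decide)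

/-- **the canonical states** -/
theorem pq (H : RX M G ψ r T m n B B') : ∃ tp tq, tp < T 3 ∧ T (m - 3) ≤ tq ∧ tq < T m ∧
    tp < tq ∧ p0 M G ψ = P M (cfg M ψ) r tp ∧ q0 M G ψ = P M (cfg M ψ) r tq ∧
    ln M G ψ = tq - tp + 1 := by
  have h7 := H.m7
  have hmn := H.mn
  obtain ⟨tp, kp, h1, h2, h3, h4, h5, h6⟩ := H.state_of H.ra (fun k hk => by omega)
  obtain ⟨tq, kq, g1, g2, g3, g4, g5, g6⟩ := H.state_of H.rb (fun k hk => hk.2)
  have a1 : tp < T 3 := lt_of_lt_of_le h5 (H.mono' (by omega) (by omega))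
  have a2 : T (m - 3) ≤ tq := (H.mono' (by omega) (by omega)).trans g4
  have a3 : tq < T m := lt_of_lt_of_le g5 (H.mono' (by omega) hmn)
  have a4 : T 3 ≤ T (m - 3) := H.mono' (by omega) (by omega)
  refine ⟨tp, tq, a1, a2, a3, by omega, h6, g6, ?_⟩
  have e1 : p0 M G ψ = P M (cfg M ψ) r tp := h6
  have e2 : q0 M G ψ = P M (cfg M ψ) r tq := g6
  unfold ln
  rw [e1, e2]
  congr 1
  apply le_antisymm
  · apply Nat.sInf_le
    show P M (cfg M ψ) (P M (cfg M ψ) r tp) (tq - tp) = P M (cfg M ψ) r tq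
    rw [← P_add]
    congr 1
    omega
  · by_contra hc
    push Not at hc
    have hne : {n | P M (cfg M ψ) (P M (cfg M ψ) r tp) n = P M (cfg M ψ) r tq}.Nonempty := by
      refine ⟨tq - tp, ?_⟩
      show P M (cfg M ψ) (P M (cfg M ψ) r tp) (tq - tp) = P M (cfg M ψ) r tq
      rw [← P_add]
      congr 1
      omega
    have h := Nat.sInf_mem hne
    set u := sInf {n | P M (cfg M ψ) (P M (cfg M ψ) r tp) n = P M (cfg M ψ) r tq} with hu
    have h' : P M (cfg M ψ) (P M (cfg M ψ) r tp) u = P M (cfg M ψ) r tq := h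
    rw [← P_add] at h'
    exact H.inj (u + tp) tq (by omega) g1 h'

variable {b V : Finset α} {χ : Finset α → C → ZMod 2} {K : C → Finset α}

/-- **ring data imply the ring event off the window** -/
theorem ow (H : RX M G (χ b) r T m n B B') (hK : ∀ c, K c ⊆ V) : Ow M G V χ K b := by
  obtain ⟨tp, tq, h1, h2, h3, h4, h5, h6, h7⟩ := H.pq
  have hm0 : 0 < m := by have := H.m7; omega
  have hst : ∀ a, P M (cfg M (χ b)) (p0 M G (χ b)) a = P M (cfg M (χ b)) r (tp + a) := by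
    intro a
    rw [h5, ← P_add, add_comm]
  have tile : ∀ a, a < ln M G (χ b) → ∃ k, k < m ∧ T k ≤ tp + a ∧ tp + a ≤ T (k + 1) := by
    intro a ha
    exact H.tile_le H.mn hm0 (by omega)
  have inB : ∀ a, a < ln M G (χ b) → ∃ k, k < m ∧
      M.cell (P M (cfg M (χ b)) (p0 M G (χ b)) a) ∈ B k ∧
      M.cell (M.rho (P M (cfg M (χ b)) (p0 M G (χ b)) a)) ∈ B k := by
    intro a ha
    obtain ⟨k, g1, g2, g3⟩ := tile a ha
    rw [hst]
    exact ⟨k, g1, H.tile k (lt_of_lt_of_le g1 H.mn) _ g2 g3⟩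
  have rt : ∀ a, a < ln M G (χ b) →
      M.cell (M.rho (P M (cfg M (χ b)) (p0 M G (χ b)) a)) ∈ Cw M G (χ b) := by
    intro a ha
    rw [hst]
    exact H.rcw (by omega)
  refine ⟨H.x1, ?_, ⟨tq - tp, ?_⟩, ?_, ?_, rt, ?_, ?_⟩
  · rw [h5]; exact H.lbl tp
  · rw [hst, h6]
    congr 1
    omega
  · intro a ha hx
    obtain ⟨k, g1, g2, -⟩ := inB a ha
    have g3 := H.off k (lt_of_lt_of_le g1 H.mn) _ g2
    rcases xs_sub H.h0 hx with g4 | g4
    · exact g3.1 g4
    · exact g3.2 g4.1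
  · intro a ha
    obtain ⟨k, g1, g2, -⟩ := inB a ha
    exact (H.out k g1 _ g2).2
  · intro y hy
    obtain ⟨p, ⟨a, rfl, hB⟩, hy'⟩ := mem_hist.1 hy
    have ha : a < ln M G (χ b) := by
      by_contra hc
      push Not at hc
      refine hB (tq - tp) (by omega) ?_
      show P M (cfg M (χ b)) (p0 M G (χ b)) (tq - tp) = q0 M G (χ b)
      rw [hst, h6]
      congr 1
      omega
    obtain ⟨k, g1, g2, g3⟩ := inB a ha
    have hr := rt a ha
    have lkRa : ∀ c, c ∈ Lk (Nb M) G.Dw (Cw M G (χ b)) → y ∈ K c → y ∈ Ra M G V χ K b := by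
      intro c hc hy
      exact mem_union_right _ (mem_filter.2 ⟨hK c hy, c, hc, hy⟩)
    rcases hy' with hy' | hy' | ⟨hnB, hy'⟩
    · refine lkRa _ ⟨(H.out k g1 _ g2).1, _, hr, ?_⟩ hy'
      exact nb_symm (nb_rho _)
    · rcases cl_lk hr with h8 | h8
      · refine mem_union_left _ (mem_filter.2 ⟨hK _ hy', _, ?_, hy'⟩)
        obtain ⟨g4, g5, a', g6, g7⟩ := h8
        exact ⟨g4, a', g6, g7⟩
      · exact lkRa _ h8 hy'
    · -- third cell
      have ha1 : a + 1 < ln M G (χ b) := by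
        by_contra hc
        push Not at hc
        apply hnB
        show P M (cfg M (χ b)) (p0 M G (χ b)) a = q0 M G (χ b)
        rw [hst, h6]
        congr 1
        omega
      obtain ⟨k', g1', g2', g3'⟩ := inB (a + 1) ha1
      rw [P_succ] at g2' g3'
      have hocc : cfg M (χ b) (P M (cfg M (χ b)) (p0 M G (χ b)) a) = 1 := by
        rw [hst]; exact P_occ (even _) H.occ _
      refine lkRa _ ⟨?_, _, hr, nb_rho _⟩ hy'
      rcases stp_cases (even (χ b)) hocc (Set.notMem_empty _) with ⟨g4, g5, e⟩ | ⟨g4, g5, e⟩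
      · rw [e, M.cell_iota _ ((even (χ b)).lv g4)] at g2'
        exact (H.out k' g1' _ g2').1
      · rw [e, cell_rho_iota M ((even (χ b)).lv g5)] at g3'
        exact (H.out k' g1' _ g3').1
  · rintro c ⟨h8, a, h9, h10⟩ hc
    exact (H.dp_cw hc).2.2 a (Or.inl h9) (nb_symm h10)

end RX

/-! ### from `RW` -/

namespace RW

theorem x1 (H : RW M G ψ r T m n B W0 B') : ∀ a ∈ Xs M G ψ, ∀ c, Nb M a c →
    c ∈ G.Far ∨ c ∈ G.Ann := by
  intro a ha c hac
  by_contra hc
  push Not at hc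
  apply H.wx c hc.1 hc.2
  have h1 : Relation.ReflTransGen (fun a a' => Nb M a a' ∧ a' ∉ W0) G.h0 a := by
    refine xs_ind (Q := fun a => Relation.ReflTransGen (fun a a' => Nb M a a' ∧ a' ∉ W0) G.h0 a)
      Relation.ReflTransGen.refl ?_ a ha
    intro a c _ ih h2 h3
    refine ih.tail ⟨h2, fun h4 => ?_⟩
    obtain ⟨h5, h6, h7⟩ := H.w0 c h4
    rcases h3 with h3 | ⟨-, h3⟩
    · exact h6 h3
    · rw [h7] at h3; exact absurd h3 (by decide)
  exact h1.tail ⟨hac, fun h4 => hc.2 (H.w0 c h4).1⟩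

theorem ry (H : RW M G ψ r T m n B W0 B') : RY M G ψ r T m n B B' :=
  ⟨H.bl, H.wh, H.t0, H.mono, H.per, H.inj, H.tile, H.m7, H.mn, H.off, H.out, H.h0, H.far, H.x1,
    H.b1, H.bx, H.ra, H.rb⟩

variable [Fintype D] {b V : Finset α} {χ : Finset α → C → ZMod 2} {K : C → Finset α}

theorem rx (H : RW M G ψ r T m n B W0 B') : RX M G ψ r T m n B B' :=
  { toRY := H.ry, ac := H.ry.arm_cw H.arm }

theorem pq (H : RW M G ψ r T m n B W0 B') : ∃ tp tq, tp < T 3 ∧ T (m - 3) ≤ tq ∧ tq < T m ∧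
    tp < tq ∧ p0 M G ψ = P M (cfg M ψ) r tp ∧ q0 M G ψ = P M (cfg M ψ) r tq ∧
    ln M G ψ = tq - tp + 1 := H.rx.pq

theorem ow (H : RW M G (χ b) r T m n B W0 B') (hK : ∀ c, K c ⊆ V) : Ow M G V χ K b :=
  H.rx.ow hK

end RW

end Crest.Agent.R143.RingWx389
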