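import Crest.Agent.R143.Strip_707
import Crest.Agent.R143.RingW_389

/-!
# Row 143 (S0194), block H: thin circuits, radial chains, the outside (helper707)

* `CircG S z lo hi β c` : circuit in the square annulus `lo < |s - z|_∞ < hi`
* `circg_pr` : probability, thin annuli allowed (`hi = lo + 4 w`)
* `circg_meet` : it meets every chain from outside to inside
* `Out h0 ...` : regions `Far = {h0} ∪ {A2 ≤ sup}`, `Ann = {A1 ≤ sup < A2}`;
  `far_of`, `wx_of`, `w0_of` : the fields `far`, `wx`, `w0` of `RingWx389.RW`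
* `rect_all` : the crossing by all sites exists; `rad_of` : `RingWx389.Rad` from a crossing
-/

set_option autoImplicit false

noncomputable section

open scoped Classical

namespace Crest.Agent.R143.AnnCx707

open Crest.Agent.R143.B0x346 Crest.Agent.R143.DelGx806 Crest.Agent.R143.DelRx806
open Crest.Agent.R143.ToolWx838 Crest.Agent.R143.Blkx838 Crest.Agent.R143.ToolW2x838
open Crest.Agent.R143.ToolW3x838 Crest.Agent.R143.Circ4x838 Crest.Agent.R143.Harx315
open Crest.Agent.R143.RB0x838 Crest.Agent.R143.CircPx838 Crest.Agent.R143.Gatex838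
open Crest.Agent.R143.CBx838 Crest.Agent.R143.Multix838 Crest.Agent.R143.RBmx838
open Crest.Agent.R143.JColx54
open Crest.Agent.R143.RE0x723 (Pth)
open Crest.Agent.R143.Visx313 (HullS)
open Crest.Agent.R143.Frame1x395 Crest.Agent.R143.Frame10x395
open Crest.Agent.R143.Frame5x395 (sd mem_sd th th_spec)
open Crest.Agent.R143.Tubex707 Crest.Agent.R143.Exitx707 Crest.Agent.R143.TubeWx707
open Crest.Agent.R143.RevCx389 Crest.Agent.R143.Meetx707 Crest.Agent.R143.Stripx707
open Crest.Agent.R143.RingWx389 (Rad)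

variable {S V : Finset ℂ} {z : ℂ} {lo hi w : ℝ} {β : Finset ℂ} {c : List ℂ}

/-! ### thin circuits -/

/-- circuit of sites of `β` in the square annulus `lo < |s - z|_∞ < hi` -/
structure CircG (S : Finset ℂ) (z : ℂ) (lo hi : ℝ) (β : Finset ℂ) (c : List ℂ) : Prop where
  loop : Loop S c
  ne : c ≠ []
  col : ∀ s ∈ c, s ∈ β
  lw : ∀ s ∈ c, lo < sup (s - z)
  up : ∀ s ∈ c, sup (s - z) < hi
  wind : ∀ x : ℂ, sup (x - z) ≤ lo → asum x c = 2 * Real.pi

theorem CircG.mono {β' : Finset ℂ} (h : CircG S z lo hi β c) (hβ : β ⊆ β') :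
    CircG S z lo hi β' c := ⟨h.loop, h.ne, fun s hs => hβ (h.col s hs), h.lw, h.up, h.wind⟩

theorem CircG.out (h : CircG S z lo hi β c) {x : ℂ} (hx : hi ≤ sup (x - z)) : asum x c = 0 :=
  asum_out h.loop.closed h.up hx

/-- **a chain from outside to inside meets the circuit** -/
theorem circg_meet (hS : GP (S : Set ℂ)) (hc : CircG S z lo hi β c) {q : List ℂ} (hn : q ≠ [])
    (hq : ∀ p ∈ prs q, DE S p.1 p.2)
    (h : (hi ≤ sup (q.head hn - z) ∧ sup (q.getLast hn - z) ≤ lo) ∨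
      (hi ≤ sup (q.getLast hn - z) ∧ sup (q.head hn - z) ≤ lo)) : ∃ s, s ∈ c ∧ s ∈ q := by
  refine site_of_ne hS hc.loop hq hn ?_
  have hpi := Real.pi_pos
  rcases h with ⟨h1, h2⟩ | ⟨h1, h2⟩
  · rw [hc.out h1, hc.wind _ h2]
    linarith
  · rw [hc.out h1, hc.wind _ h2]
    linarith

/-- the four long rectangles -/
def side (z : ℂ) (lo w : ℝ) (k : Fin 4) : Rect where
  z := match k with
    | 0 => z + ((lo + w : ℝ) : ℂ) * Complex.I
    | 1 => z - ((lo + w : ℝ) : ℂ)
    | 2 => z - ((lo + w : ℝ) : ℂ) * Complex.I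
    | 3 => z + ((lo + w : ℝ) : ℂ)
  e := match k with
    | 0 => 1
    | 1 => Complex.I
    | 2 => 1
    | 3 => Complex.I
  x0 := -(lo + 2 * w)
  x1 := lo + 2 * w
  y0 := -w
  y1 := w
  m := w
  hor := true

theorem side_ev {k : Fin 4} (h : (side z lo w k).Ev S β) :
    ∃ l, HC S (side z lo w k).z (side z lo w k).e (-(lo + 2 * w)) (lo + 2 * w) (-w) w w β l := by
  unfold Rect.Ev at h
  rw [if_pos (show (side z lo w k).hor = true from rfl)] at h
  exact h

/-- the sites of the four rectangles are in the annulus -/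
theorem side_ann (hlo : 0 ≤ lo) (hw : 0 < w) {k : Fin 4} {s : ℂ} (h : (side z lo w k).Reg s) :
    lo < sup (s - z) ∧ sup (s - z) < lo + 4 * w := by
  have hh : (side z lo w k).hor = true := rfl
  unfold Rect.Reg at h
  rw [hh] at h
  simp only [if_true] at h
  obtain ⟨⟨h1, h2⟩, h3, h4⟩ := h
  unfold X at h3 h4
  unfold Y at h1 h2
  unfold sup
  rw [lt_max_iff, lt_abs, lt_abs, max_lt_iff, abs_lt, abs_lt]
  fin_cases k <;>
    simp only [side, div_one, div_I_re, div_I_im, Complex.sub_re, Complex.sub_im, Complex.add_re,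
      Complex.add_im, Complex.mul_re, Complex.mul_im, Complex.ofReal_re, Complex.ofReal_im,
      Complex.I_re, Complex.I_im, mul_zero, mul_one, zero_mul, sub_zero, add_zero, zero_add]
      at h1 h2 h3 h4 ⊢
  · refine ⟨Or.inr (Or.inl ?_), ⟨?_, ?_⟩, ⟨?_, ?_⟩⟩ <;> linarith
  · refine ⟨Or.inl (Or.inr ?_), ⟨?_, ?_⟩, ⟨?_, ?_⟩⟩ <;> linarith
  · refine ⟨Or.inr (Or.inr ?_), ⟨?_, ?_⟩, ⟨?_, ?_⟩⟩ <;> linarith
  · refine ⟨Or.inl (Or.inl ?_), ⟨?_, ?_⟩, ⟨?_, ?_⟩⟩ <;> linarith

/-- four crossings give a thin circuit -/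
theorem circg_of_side (hS : GP (S : Set ℂ)) (hlo : 0 ≤ lo) (hw : 0 < w)
    (h : ∀ k, (side z lo w k).Ev S β) : ∃ c, CircG S z lo (lo + 4 * w) β c := by
  have hreg : ∀ k : Fin 4, ∀ l : List ℂ,
      HC S (side z lo w k).z (side z lo w k).e (-(lo + 2 * w)) (lo + 2 * w) (-w) w w β l →
      ∀ s ∈ l, lo < sup (s - z) ∧ sup (s - z) < lo + 4 * w := by
    intro k l hl s hs
    refine side_ann (k := k) hlo hw ?_
    have hh : (side z lo w k).hor = true := rfl
    unfold Rect.Reg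
    rw [hh]
    simp only [if_true]
    exact ⟨hl.strip s hs, hl.loc s hs⟩
  obtain ⟨T, hT⟩ := side_ev (h 0)
  obtain ⟨L, hL⟩ := side_ev (h 1)
  obtain ⟨B, hB⟩ := side_ev (h 2)
  obtain ⟨R, hR⟩ := side_ev (h 3)
  have aT := hreg 0 T hT
  have aL := hreg 1 L hL
  have aB := hreg 2 B hB
  have aR := hreg 3 R hR
  have hTs := hT.strip
  have hLs := hL.strip
  have hBs := hB.strip
  have hRs := hR.strip
  have hT1 := hT.left
  have hT2 := hT.right
  have hL1 := hL.left
  have hL2 := hL.right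
  have hB1 := hB.left
  have hB2 := hB.right
  have hR1 := hR.left
  have hR2 := hR.right
  unfold X at hT1 hT2 hL1 hL2 hB1 hB2 hR1 hR2
  unfold Y at hTs hLs hBs hRs
  simp only [side, div_one, div_I_re, div_I_im, Complex.sub_re, Complex.sub_im, Complex.add_re,
    Complex.add_im, Complex.mul_re, Complex.mul_im, Complex.ofReal_re, Complex.ofReal_im,
    Complex.I_re, Complex.I_im, mul_zero, mul_one, zero_mul, sub_zero, add_zero, zero_add]
    at hTs hLs hBs hRs hT1 hT2 hL1 hL2 hB1 hB2 hR1 hR2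
  obtain ⟨c, hc, hl⟩ := circuit (ρ := lo + 2 * w) (r := lo) (z0 := z) hS (by linarith) hT.ne hL.ne
    hB.ne hR.ne hT.adj hL.adj hB.adj hR.adj
    (fun s hs => ⟨by linarith [hTs s hs], by linarith [hTs s hs]⟩)
    (fun s hs => ⟨by linarith [hLs s hs], by linarith [hLs s hs]⟩)
    (fun s hs => ⟨by linarith [hBs s hs], by linarith [hBs s hs]⟩)
    (fun s hs => ⟨by linarith [hRs s hs], by linarith [hRs s hs]⟩)
    (by linarith) (by linarith) (by linarith) (by linarith) (by linarith) (by linarith)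
    (by linarith) (by linarith)
  have hall : ∀ s ∈ c, s ∈ β ∧ lo < sup (s - z) ∧ sup (s - z) < lo + 4 * w := by
    intro s hs
    rcases hc.mem s hs with h | h | h | h
    · exact ⟨hT.col s h, aT s h⟩
    · exact ⟨hL.col s h, aL s h⟩
    · exact ⟨hB.col s h, aB s h⟩
    · exact ⟨hR.col s h, aR s h⟩
  refine ⟨c, hl, ?_, fun s hs => (hall s hs).1, fun s hs => (hall s hs).2.1,
    fun s hs => (hall s hs).2.2, fun x hx => ?_⟩
  · rintro rfl
    have := hc.wind z (by simp; exact hlo) (by simp; exact hlo)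
    simp [asum] at this
  · unfold sup at hx
    rw [max_le_iff, Complex.sub_re, Complex.sub_im] at hx
    exact hc.wind x hx.1 hx.2

theorem side_fit (hlo : 0 ≤ lo) (hw : 0 < w) {k0 : ℝ} (h1 : lo + 2 * w ≤ k0 * w) (hk : 1 ≤ k0)
    (k : Fin 4) : (side z lo w k).Fit k0 w := by
  have h2 : w ≤ k0 * w := by nlinarith
  refine ⟨?_, ?_, ?_, ?_, ?_, ?_, ?_, ?_⟩
  · fin_cases k <;> simp [side]
  · show |-(lo + 2 * w)| ≤ k0 * w
    rw [abs_neg, abs_of_nonneg (by positivity)]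
    exact h1
  · show |lo + 2 * w| ≤ k0 * w
    rw [abs_of_nonneg (by positivity)]
    exact h1
  · show |-w| ≤ k0 * w
    rw [abs_neg, abs_of_pos hw]; exact h2
  · show |w| ≤ k0 * w
    rw [abs_of_pos hw]; exact h2
  · show w ≤ k0 * (lo + 2 * w - -(lo + 2 * w))
    have : 0 ≤ k0 * (2 * lo + 3 * w) := by positivity
    nlinarith
  · show w ≤ k0 * (w - -w)
    nlinarith
  · show w - -w ≤ 2 * w ∧ (w - -w) / 2 ≤ w
    exact ⟨by linarith, by linarith⟩

theorem norm_side (hlo : 0 ≤ lo) (hw : 0 < w) (k : Fin 4) : ‖(side z lo w k).z - z‖ = lo + w := by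
  have h : |lo + w| = lo + w := abs_of_pos (by linarith)
  fin_cases k
  · show ‖z + ((lo + w : ℝ) : ℂ) * Complex.I - z‖ = lo + w
    rw [add_sub_cancel_left, norm_mul, Complex.norm_I, mul_one, Complex.norm_real,
      Real.norm_eq_abs, h]
  · show ‖z - ((lo + w : ℝ) : ℂ) - z‖ = lo + w
    rw [show z - ((lo + w : ℝ) : ℂ) - z = -((lo + w : ℝ) : ℂ) by ring, norm_neg, Complex.norm_real,
      Real.norm_eq_abs, h]
  · show ‖z - ((lo + w : ℝ) : ℂ) * Complex.I - z‖ = lo + w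
    rw [show z - ((lo + w : ℝ) : ℂ) * Complex.I - z = -(((lo + w : ℝ) : ℂ) * Complex.I) by ring,
      norm_neg, norm_mul, Complex.norm_I, mul_one, Complex.norm_real, Real.norm_eq_abs, h]
  · show ‖z + ((lo + w : ℝ) : ℂ) - z‖ = lo + w
    rw [add_sub_cancel_left, Complex.norm_real, Real.norm_eq_abs, h]

/-- **probability of a thin circuit together with finitely many crossings and circuits** (white or
black by `pr_flip`); the free sites `V` contain the sites which are used -/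
theorem circg_pr (hRB : RBm) (hlo : 0 ≤ lo) (hw : 0 < w) : ∀ C4 : ℝ, 0 ≤ C4 →
    ∃ p c1 c2 K : ℝ, 0 < p ∧ 0 < c1 ∧ 0 < c2 ∧ c2 ≤ 1 ∧ 0 < K ∧
    ∀ (S : Finset ℂ) (z0 : ℂ) (R d : ℝ), NvA S z0 R c2 w d C4 → d ≤ c1 * w →
    ∀ V : Finset ℂ, V ⊆ S → ∀ z : ℂ, ‖z - z0‖ + (lo + w) + K * w ≤ R →
    (∀ s ∈ S, lo < sup (s - z) → sup (s - z) < lo + 4 * w → s ∈ V) →
    p ≤ pr V (fun β => ∃ c, CircG S z lo (lo + 4 * w) β c) := by
  intro C4 hC4
  have hk1 : 1 ≤ 2 + lo / w := by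
    have : 0 ≤ lo / w := by positivity
    linarith
  have hk2 : lo + 2 * w ≤ (2 + lo / w) * w := by
    have : lo / w * w = lo := by field_simp
    nlinarith
  obtain ⟨p, c1, c2, K, hp, hc1, hc2, hc2', hK, H⟩ := multim hRB (2 + lo / w) hk1 C4 hC4
  refine ⟨p ^ 4, c1, c2, K, by positivity, hc1, hc2, hc2', hK, ?_⟩
  intro S z0 R d hN hd V hV z hR hVs
  have h5 := H S z0 R w d hw hN hd V ∅ hV (Finset.empty_subset _) (Finset.disjoint_empty_right _)
    [] w ((List.finRange 4).map (side z lo w)) (by nlinarith) le_rfl (by simp) (by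
      intro q hq
      obtain ⟨k, -, rfl⟩ := List.mem_map.1 hq
      have h1 := norm_side (z := z) hlo hw k
      have h2 : ‖(side z lo w k).z - z0‖ ≤ ‖(side z lo w k).z - z‖ + ‖z - z0‖ := by
        have : (side z lo w k).z - z0 = ((side z lo w k).z - z) + (z - z0) := by ring
        rw [this]; exact norm_add_le _ _
      linarith) (by
      intro q hq
      obtain ⟨k, -, rfl⟩ := List.mem_map.1 hq
      exact side_fit hlo hw hk2 hk1 k) (by simp) (by
      intro q hq s hs hr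
      obtain ⟨k, -, rfl⟩ := List.mem_map.1 hq
      obtain ⟨h1, h2⟩ := side_ann hlo hw hr
      exact Finset.mem_union_left _ (hVs s hs h1 h2))
  rw [List.length_map, List.length_finRange] at h5
  simp only [List.length_nil, zero_add] at h5
  refine h5.trans (pr_mono fun β _ hh => circg_of_side hN.dns.gp hlo hw fun k => ?_)
  have h6 := hh.2 (side z lo w k) (List.mem_map.2 ⟨k, List.mem_finRange k, rfl⟩)
  rwa [Finset.union_empty] at h6

/-! ### the outside on the map -/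

variable {C : Type} {M : CMap (D0 S) C} {σ : ℂ → C} {hS : GP (S : Set ℂ)}

/-- the regions `Far`, `Ann` : outside levels `A1 ≤ A2` of the square with centre `zB` -/
structure Lev (S : Finset ℂ) (σ : ℂ → C) (G : Rg (D0 S) C) (zB : ℂ) (A1 A2 : ℝ) : Prop where
  h0 : ∀ s, OnHull S s → σ s = G.h0
  far : G.Far = insert G.h0 (cel S σ fun s => A2 ≤ sup (s - zB))
  ann : G.Ann = cel S σ fun s => A1 ≤ sup (s - zB) ∧ sup (s - zB) < A2
  hl : ∀ s ∈ S, OnHull S s → A2 ≤ sup (s - zB)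

variable {G : Rg (D0 S) C} {zB : ℂ} {A1 A2 : ℝ}

theorem hull_ex (hS : GP (S : Set ℂ)) (h3 : 3 ≤ S.card) : ∃ a, a ∈ S ∧ OnHull S a := by
  obtain ⟨a, b, hab⟩ := exists_hull hS h3
  exact ⟨b, (hullE.mem hab).2, a, hab⟩

/-- the sites of the hull cell -/
theorem hull_of_h0 (H : Pl hS M σ) (h3 : 3 ≤ S.card) {h0 : C} (hh : ∀ s, OnHull S s → σ s = h0)
    {s : ℂ} (hs : s ∈ S) (e : σ s = h0) : OnHull S s := by
  by_contra hc
  obtain ⟨a, ha, ha'⟩ := hull_ex hS h3
  have := H.inj a s ha hs hc (e.trans (hh a ha').symm)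
  exact hc (this ▸ ha')

theorem Lev.h0_far (L : Lev S σ G zB A1 A2) : G.h0 ∈ G.Far := by
  rw [L.far]; exact Set.mem_insert _ _

theorem Lev.far_mem (L : Lev S σ G zB A1 A2) {s : ℂ} (hs : s ∈ S) (h : A2 ≤ sup (s - zB)) :
    σ s ∈ G.Far := by
  rw [L.far]
  by_cases hh : OnHull S s
  · exact Or.inl (L.h0 s hh)
  · exact Or.inr ⟨s, hs, hh, h, rfl⟩

/-- **the far region is joined to the hull inside the far region** (`RW.far`) -/
theorem Lev.far_of (L : Lev S σ G zB A1 A2) (H : Pl hS M σ) (h3 : 3 ≤ S.card) : ∀ c ∈ G.Far,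
    Relation.ReflTransGen (fun a a' => Nb M a a' ∧ a' ∈ G.Far) G.h0 c := by
  intro c hc
  rw [L.far] at hc
  rcases hc with rfl | ⟨s, hs, -, ho, rfl⟩
  · exact Relation.ReflTransGen.refl
  · obtain ⟨a, ha, hp⟩ := far_conn hS h3 hs ho
    have key : ∀ x y : ℂ, Relation.ReflTransGen
        (fun a b => Adj S a b ∧ b ∈ {s | s ∈ S ∧ A2 ≤ sup (s - zB)}) x y →
        x ∈ {s | s ∈ S ∧ A2 ≤ sup (s - zB)} → σ y = G.h0 →
        Relation.ReflTransGen (fun a a' => Nb M a a' ∧ a' ∈ G.Far) G.h0 (σ x) := by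
      intro x y h
      induction h using Relation.ReflTransGen.head_induction_on with
      | refl => intro _ e; rw [e]
      | @head x c h1 _ ih =>
        intro hx e
        exact (ih h1.2 e).tail ⟨nb_symm (H.nb h1.1), L.far_mem hx.1 hx.2⟩
    exact key s a hp.2 ⟨hs, ho⟩ (L.h0 a ((hullS_iff hS).1 ha))

/-- **the circuit separates the inside from the hull** (`RW.wx`) -/
theorem Lev.wx_of (L : Lev S σ G zB A1 A2) (H : Pl hS M σ) (h3 : 3 ≤ S.card)
    (hc : CircG S zB lo hi β c) (h1 : A1 ≤ lo) (h2 : hi ≤ A2) {W0 : Set C}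
    (hW : ∀ s ∈ c, σ s ∈ W0) : ∀ y, y ∉ G.Far → y ∉ G.Ann →
    ¬ Relation.ReflTransGen (fun a a' => Nb M a a' ∧ a' ∉ W0) G.h0 y := by
  intro y hy1 hy2 hp
  have hout : ∀ s, s ∈ S → OnHull S s → s ∉ c ∧ asum s c = 0 := by
    intro s hs hh
    have h3 := L.hl s hs hh
    exact ⟨fun h => absurd (hc.up s h) (not_lt.2 (h2.trans h3)), hc.out (h2.trans h3)⟩
  have key : ∀ y, Relation.ReflTransGen (fun a a' => Nb M a a' ∧ a' ∉ W0) G.h0 y →
      ∀ s ∈ S, σ s = y → s ∉ c ∧ asum s c = 0 := by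
    intro y hp
    induction hp with
    | refl =>
      intro s hs e
      exact hout s hs (hull_of_h0 H h3 L.h0 hs e)
    | @tail y y' _ h4 ih =>
      intro s hs e
      by_cases hh : OnHull S s
      · exact hout s hs hh
      obtain ⟨⟨d, hd1, hd2⟩, h5⟩ := h4
      rw [H.cell] at hd1
      rw [H.cell, H.rho] at hd2
      have hb : d.1.2 = s := H.inj _ s (by
        obtain ⟨x, hx⟩ := mem_sd.1 d.2
        exact (mem_delT.1 hx).2.1) hs hh (e.trans hd2.symm)
      have hde : DE S d.1.1 s := by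
        rw [← hb]
        exact Or.inl (mem_sd.1 d.2)
      obtain ⟨i1, i2⟩ := ih d.1.1 (ls_mem d) hd1
      have hsc : s ∉ c := fun h => h5 (e ▸ hW s h)
      refine ⟨hsc, ?_⟩
      by_contra hne
      have hq : ∀ p ∈ prs [d.1.1, s], DE S p.1 p.2 := by
        intro p hp
        have : p = (d.1.1, s) := by simpa using hp
        rw [this]; exact hde
      obtain ⟨x, hx1, hx2⟩ := site_of_ne hS hc.loop hq (by simp : [d.1.1, s] ≠ [])
        (by
          show asum d.1.1 c ≠ asum s c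
          rw [i2]; exact fun h => hne h.symm)
      rcases List.mem_cons.1 hx2 with rfl | hx2
      · exact i1 hx1
      · exact hsc ((List.mem_singleton.1 hx2) ▸ hx1)
  -- the end cell
  rcases Relation.ReflTransGen.cases_tail hp with h4 | ⟨x, h4, ⟨d, hd1, hd2⟩, h5⟩
  · exact hy1 (h4 ▸ L.h0_far)
  · rw [H.cell, H.rho] at hd2
    have hdS : d.1.2 ∈ S := by
      obtain ⟨x, hx⟩ := mem_sd.1 d.2
      exact (mem_delT.1 hx).2.1
    obtain ⟨-, h6⟩ := key y hp d.1.2 hdS hd2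
    have hin : ¬ OnHull S d.1.2 := fun h => hy1 (by
      rw [← hd2]
      rw [show σ ((cm0 hS).rho d).1.1 = G.h0 from L.h0 _ h]
      exact L.h0_far)
    have h7 : sup (d.1.2 - zB) < A1 := by
      by_contra hge
      push Not at hge
      rcases le_or_gt A2 (sup (d.1.2 - zB)) with h8 | h8
      · exact hy1 (hd2 ▸ L.far_mem hdS h8)
      · apply hy2
        rw [L.ann]
        exact ⟨d.1.2, hdS, hin, ⟨hge, h8⟩, hd2⟩
    rw [hc.wind _ (h7.le.trans h1)] at h6
    have := Real.pi_pos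
    linarith

/-- `RW.w0` for the cells of the circuit -/
theorem Lev.w0_of (L : Lev S σ G zB A1 A2) (H : Pl hS M σ) (h3 : 3 ≤ S.card)
    (hc : CircG S zB lo hi β c) (h1 : A1 ≤ lo) (h2 : hi ≤ A2) {ψ : C → ZMod 2}
    (hβ : ∀ s ∈ c, s ∈ S) (hψ : ∀ s ∈ c, ψ (σ s) = 0) :
    ∀ y ∈ {y | ∃ s ∈ c, σ s = y}, y ∈ G.Ann ∧ y ∉ G.Far ∧ ψ y = 0 := by
  rintro y ⟨s, hs, rfl⟩
  have hlt := hc.up s hs
  have hlo := hc.lw s hs
  have hin : ¬ OnHull S s := fun h => absurd (L.hl s (hβ s hs) h) (not_le.2 (hlt.trans_le h2))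
  refine ⟨?_, ?_, hψ s hs⟩
  · rw [L.ann]
    exact ⟨s, hβ s hs, hin, ⟨by linarith, by linarith⟩, rfl⟩
  · rw [L.far]
    rintro (h | h)
    · exact hin (hull_of_h0 H h3 L.h0 (hβ s hs) h)
    · rw [mem_cel H (hβ s hs) hin] at h
      linarith

end Crest.Agent.R143.AnnCx707
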