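import Crest.Agent.R143.Har_315
import Crest.Agent.R143.Alg_915

/-!
# Row 143 (S0194), CONT (note 3434): the analytic end (helper359)

`ex V f` = mean of `f` over the fair colours of `V`,
`ST V y = 3 * ∑ i, om ^ i * ex V (y i)` = the static `T` of three random points.
* `ex_dep`     : a function of the colours of `V' ⊆ V`
* `ex_near`    : `‖ex V f - ex V g‖ ≤ η + D * P(‖f - g‖ > η)`
* `st_near`    : `‖ST V y - ST V' y'‖ ≤ 3 * ∑ i, (η + D * P(‖y i - y' i‖ > η))`
* `st_shift`   : `ST` does not feel a translation, `st_le` : `‖ST V y‖ ≤ 9 D`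
* `four`       : the choice of the scales in CONT, `C (d / D) ^ c`
* `st_pow`     : CONT, analytic form
* `E_near`     : mean over the points, with an exceptional event
-/

set_option autoImplicit false

noncomputable section

open scoped Classical

namespace Crest.Agent.R143.Applx359

open Finset MeasureTheory
open Crest.Agent.R143.Harx315
open Crest.Agent.R143.B0x346 (om omz)

section fin

variable {α : Type*} {V V' : Finset α} {f g : Finset α → ℂ} {η D : ℝ}

/-- mean over the colours of `V` -/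
def ex (V : Finset α) (f : Finset α → ℂ) : ℂ := (∑ β ∈ V.powerset, f β) / 2 ^ V.card

theorem pw_ne (V : Finset α) : (2 : ℂ) ^ V.card ≠ 0 := pow_ne_zero _ two_ne_zero

theorem ex_congr (h : ∀ β ⊆ V, f β = g β) : ex V f = ex V g := by
  unfold ex
  rw [sum_congr rfl fun β hβ => h β (mem_powerset.1 hβ)]

theorem ex_add : ex V (fun β => f β + g β) = ex V f + ex V g := by
  unfold ex
  rw [sum_add_distrib, add_div]

theorem ex_sub : ex V (fun β => f β - g β) = ex V f - ex V g := by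
  unfold ex
  rw [sum_sub_distrib, sub_div]

theorem ex_mul (c : ℂ) : ex V (fun β => c * f β) = c * ex V f := by
  unfold ex
  rw [← mul_sum, mul_div_assoc]

theorem ex_const (c : ℂ) : ex V (fun _ => c) = c := by
  unfold ex
  rw [sum_const, card_powerset, nsmul_eq_mul]
  push_cast
  rw [mul_comm, mul_div_assoc, div_self (pw_ne V), mul_one]

theorem ex_sum {κ : Type*} (s : Finset κ) (F : κ → Finset α → ℂ) :
    ex V (fun β => ∑ k ∈ s, F k β) = ∑ k ∈ s, ex V (F k) := by
  unfold ex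
  rw [sum_comm, sum_div]

theorem norm_pw (V : Finset α) : ‖(2 : ℂ) ^ V.card‖ = 2 ^ V.card := by
  rw [norm_pow]
  norm_num

theorem norm_ex_le {F : Finset α → ℝ} (h : ∀ β ⊆ V, ‖f β‖ ≤ F β) :
    ‖ex V f‖ ≤ (∑ β ∈ V.powerset, F β) / 2 ^ V.card := by
  unfold ex
  rw [norm_div, norm_pw]
  exact div_le_div_of_nonneg_right ((norm_sum_le _ _).trans
    (sum_le_sum fun β hβ => h β (mem_powerset.1 hβ))) (by positivity)

theorem norm_ex (h : ∀ β ⊆ V, ‖f β‖ ≤ D) : ‖ex V f‖ ≤ D := by
  refine (norm_ex_le h).trans (le_of_eq ?_)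
  rw [sum_const, card_powerset, nsmul_eq_mul]
  push_cast
  rw [mul_comm, mul_div_assoc, div_self (by positivity), mul_one]

/-- **a function of the colours of a subset** -/
theorem ex_dep (hV : V' ⊆ V) : ex V (fun β => f (β ∩ V')) = ex V' f := by
  have h1 : ∑ β ∈ V.powerset, f (β ∩ V') =
      ∑ x ∈ V'.powerset ×ˢ (V \ V').powerset, f x.1 := by
    refine sum_bij' (fun β _ => (β ∩ V', β \ V')) (fun x _ => x.1 ∪ x.2) ?_ ?_ ?_ ?_ ?_
    · intro β hβ
      rw [mem_powerset] at hβ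
      rw [mem_product, mem_powerset, mem_powerset]
      exact ⟨inter_subset_right, sdiff_subset_sdiff hβ subset_rfl⟩
    · intro x hx
      rw [mem_product, mem_powerset, mem_powerset] at hx
      rw [mem_powerset]
      exact union_subset (hx.1.trans hV) (hx.2.trans sdiff_subset)
    · intro β hβ
      show (β ∩ V') ∪ (β \ V') = β
      ext x
      simp only [mem_union, mem_inter, mem_sdiff]
      tauto
    · intro x hx
      rw [mem_product, mem_powerset, mem_powerset] at hx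
      refine Prod.ext ?_ ?_
      · show (x.1 ∪ x.2) ∩ V' = x.1
        ext a
        simp only [mem_union, mem_inter]
        constructor
        · rintro ⟨h | h, h'⟩
          · exact h
          · exact absurd h' (mem_sdiff.1 (hx.2 h)).2
        · intro h
          exact ⟨Or.inl h, hx.1 h⟩
      · show (x.1 ∪ x.2) \ V' = x.2
        ext a
        simp only [mem_union, mem_sdiff]
        constructor
        · rintro ⟨h | h, h'⟩
          · exact absurd (hx.1 h) h'
          · exact h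
        · intro h
          exact ⟨Or.inr h, (mem_sdiff.1 (hx.2 h)).2⟩
    · intro β _
      rfl
  unfold ex
  rw [h1, sum_product]
  simp only [sum_const, card_powerset, nsmul_eq_mul]
  rw [← mul_sum, card_sdiff_of_subset hV]
  have h2 := card_le_card hV
  have h3 : (2 : ℂ) ^ V.card = 2 ^ (V.card - V'.card) * 2 ^ V'.card := by
    rw [← pow_add]
    congr 1
    omega
  rw [h3]
  push_cast
  rw [mul_div_mul_left _ _ (pow_ne_zero _ two_ne_zero)]

/-- **two fields which are close with high probability** -/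
theorem ex_near (hη : 0 ≤ η) (hD : ∀ β ⊆ V, ‖f β - g β‖ ≤ D) :
    ‖ex V f - ex V g‖ ≤ η + D * pr V (fun β => η < ‖f β - g β‖) := by
  rw [← ex_sub]
  refine (norm_ex_le (F := fun β => η + D * (if η < ‖f β - g β‖ then 1 else 0)) ?_).trans ?_
  · intro β hβ
    have h0 : 0 ≤ D := (norm_nonneg _).trans (hD β hβ)
    by_cases h : η < ‖f β - g β‖
    · rw [if_pos h]
      have := hD β hβ
      linarith
    · rw [if_neg h]
      push Not at h
      linarith
  · apply le_of_eq
    rw [sum_add_distrib, sum_const, card_powerset, nsmul_eq_mul, ← mul_sum, add_div]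
    congr 1
    · push_cast
      rw [mul_comm, mul_div_assoc, div_self (by positivity), mul_one]
    · rw [mul_div_assoc]
      congr 1
      unfold pr nb fl
      rw [sum_boole]

/-! ### the static `T` -/

/-- static `T` of three random points -/
def ST (V : Finset α) (y : ZMod 3 → Finset α → ℂ) : ℂ := 3 * ∑ i : ZMod 3, omz i * ex V (y i)

variable {y y' : ZMod 3 → Finset α → ℂ}

theorem norm_omz (i : ZMod 3) : ‖omz i‖ = 1 := by
  unfold omz
  rw [norm_pow, Crest.Agent.R143.Algx915.om_norm, one_pow]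

theorem st_congr (h : ∀ i, ∀ β ⊆ V, y i β = y' i β) : ST V y = ST V y' := by
  unfold ST
  congr 1
  exact sum_congr rfl fun i _ => by rw [ex_congr (h i)]

theorem st_le (h : ∀ i, ∀ β ⊆ V, ‖y i β‖ ≤ D) : ‖ST V y‖ ≤ 9 * D := by
  unfold ST
  rw [norm_mul]
  have h1 : ‖∑ i : ZMod 3, omz i * ex V (y i)‖ ≤ ∑ _i : ZMod 3, D := by
    refine (norm_sum_le _ _).trans (sum_le_sum fun i _ => ?_)
    rw [norm_mul, norm_omz, one_mul]
    exact norm_ex (h i)
  rw [sum_const, card_univ, ZMod.card, nsmul_eq_mul] at h1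
  push_cast at h1
  have h2 : ‖(3 : ℂ)‖ = 3 := by norm_num
  rw [h2]
  linarith

/-- **`ST` of two triples** -/
theorem st_near (hV : V' ⊆ V) (hη : 0 ≤ η) (hD : ∀ i, ∀ β ⊆ V, ‖y i β - y' i (β ∩ V')‖ ≤ D) :
    ‖ST V y - ST V' y'‖ ≤
      3 * ∑ i : ZMod 3, (η + D * pr V (fun β => η < ‖y i β - y' i (β ∩ V')‖)) := by
  have h0 : ST V y - ST V' y' =
      3 * ∑ i : ZMod 3, omz i * (ex V (y i) - ex V (fun β => y' i (β ∩ V'))) := by
    unfold ST
    rw [← mul_sub, ← sum_sub_distrib]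
    congr 1
    refine sum_congr rfl fun i _ => ?_
    rw [ex_dep hV]
    ring
  rw [h0, norm_mul]
  have h2 : ‖(3 : ℂ)‖ = 3 := by norm_num
  rw [h2]
  refine mul_le_mul_of_nonneg_left ((norm_sum_le _ _).trans (sum_le_sum fun i _ => ?_))
    (by norm_num)
  rw [norm_mul, norm_omz, one_mul]
  exact ex_near hη (hD i)

theorem st_near_le {q : ℝ} (hV : V' ⊆ V) (hη : 0 ≤ η) (hD0 : 0 ≤ D)
    (hD : ∀ i, ∀ β ⊆ V, ‖y i β - y' i (β ∩ V')‖ ≤ D)
    (hq : ∀ i, pr V (fun β => η < ‖y i β - y' i (β ∩ V')‖) ≤ q) :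
    ‖ST V y - ST V' y'‖ ≤ 9 * (η + D * q) := by
  refine (st_near hV hη hD).trans ?_
  have h1 : ∑ i : ZMod 3, (η + D * pr V (fun β => η < ‖y i β - y' i (β ∩ V')‖)) ≤
      ∑ _i : ZMod 3, (η + D * q) :=
    sum_le_sum fun i _ => by
      have := mul_le_mul_of_nonneg_left (hq i) hD0
      linarith
  rw [sum_const, card_univ, ZMod.card, nsmul_eq_mul] at h1
  push_cast at h1
  linarith

theorem sum_omz : ∑ i : ZMod 3, omz i = 0 := by
  have h : ∑ i : ZMod 3, omz i = omz 0 + omz 1 + omz 2 := Fin.sum_univ_three _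
  have h0 : omz 0 = 1 := by unfold omz; simp
  have h1 : omz 1 = om := by
    unfold omz
    rw [show (1 : ZMod 3).val = 1 from rfl, pow_one]
  have h2 : omz 2 = om ^ 2 := by
    unfold omz
    rw [show (2 : ZMod 3).val = 2 from rfl]
  rw [h, h0, h1, h2]
  exact Crest.Agent.R143.Algx915.om_sum0

/-- translation -/
theorem st_shift (c : ℂ) : ST V (fun i β => y i β + c) = ST V y := by
  unfold ST
  congr 1
  have h1 : ∀ i : ZMod 3, omz i * ex V (fun β => y i β + c) = omz i * ex V (y i) + omz i * c := by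
    intro i
    rw [ex_add (f := y i) (g := fun _ => c), ex_const]
    ring
  rw [sum_congr rfl fun i _ => h1 i, sum_add_distrib, ← sum_mul, sum_omz]
  ring

/-! ### the scales -/

/-- **the choice of the scales in CONT** : `d << ρ₁ << ρ₂ << η`, ratios `(d / D) ^ (1 / 4)` -/
theorem four {d D c C : ℝ} (hd : 0 < d) (hdD : d ≤ D) (hC : 0 ≤ C) (hc : 0 ≤ c) {N : ℝ}
    (h : ∀ ρ1 ρ2 η : ℝ, d ≤ ρ1 → ρ1 ≤ ρ2 → ρ2 ≤ η → η ≤ D →
      N ≤ η + D * (C * ((d / η) ^ c + (d / ρ1) ^ c + (ρ1 / ρ2) ^ c + (ρ2 / η) ^ c))) :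
    N ≤ (1 + 4 * C) * D * (d / D) ^ (min c 1 / 4) := by
  have hD : 0 < D := hd.trans_le hdD
  set t : ℝ := d / D with ht
  have t0 : 0 < t := div_pos hd hD
  have t1 : t ≤ 1 := (div_le_one hD).2 hdD
  have r1 : t ^ (1 / 4 : ℝ) ≤ 1 := Real.rpow_le_one t0.le t1 (by norm_num)
  have r0 : 0 < t ^ (1 / 4 : ℝ) := Real.rpow_pos_of_pos t0 _
  set s : ℝ := t ^ (1 / 4 : ℝ) with hs
  have hs4 : s ^ 4 = t := by
    rw [hs, ← Real.rpow_natCast, ← Real.rpow_mul t0.le]
    norm_num
  have hdt : d = D * s ^ 4 := by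
    rw [hs4, ht]
    field_simp
  have e1 := h (D * s ^ 3) (D * s ^ 2) (D * s) (by
      rw [hdt]
      exact mul_le_mul_of_nonneg_left (pow_le_pow_of_le_one r0.le r1 (by norm_num)) hD.le)
    (mul_le_mul_of_nonneg_left (pow_le_pow_of_le_one r0.le r1 (by norm_num)) hD.le)
    (by
      have := pow_le_pow_of_le_one r0.le r1 (show 1 ≤ 2 by norm_num)
      rw [pow_one] at this
      exact mul_le_mul_of_nonneg_left this hD.le)
    (by nlinarith)
  have q1 : d / (D * s) = s ^ 3 := by rw [hdt]; field_simp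
  have q2 : d / (D * s ^ 3) = s := by rw [hdt]; field_simp
  have q3 : D * s ^ 3 / (D * s ^ 2) = s := by field_simp
  have q4 : D * s ^ 2 / (D * s) = s := by field_simp
  rw [q1, q2, q3, q4] at e1
  have p1 : s ^ c ≤ s ^ min c 1 := Real.rpow_le_rpow_of_exponent_ge r0 r1 (min_le_left _ _)
  have p2 : (s ^ 3) ^ c ≤ s ^ c := by
    refine Real.rpow_le_rpow (by positivity) ?_ hc
    have := pow_le_pow_of_le_one r0.le r1 (show 1 ≤ 3 by norm_num)
    rwa [pow_one] at this
  have p3 : s ≤ s ^ min c 1 := by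
    have := Real.rpow_le_rpow_of_exponent_ge r0 r1 (min_le_right c 1)
    rwa [Real.rpow_one] at this
  have p4 : s ^ min c 1 = t ^ (min c 1 / 4) := by
    rw [hs, ← Real.rpow_mul t0.le]
    congr 1
    ring
  rw [← p4]
  set X := s ^ min c 1
  have u1 : D * s ≤ D * X := mul_le_mul_of_nonneg_left p3 hD.le
  have u2 : C * ((s ^ 3) ^ c + s ^ c + s ^ c + s ^ c) ≤ C * (4 * X) :=
    mul_le_mul_of_nonneg_left (by linarith) hC
  have u3 := mul_le_mul_of_nonneg_left u2 hD.le
  calc N ≤ _ := e1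
    _ ≤ D * X + D * (C * (4 * X)) := add_le_add u1 u3
    _ = (1 + 4 * C) * D * X := by ring

/-- **CONT, analytic form**: the probability bound of note 3434 at all scales gives a power -/
theorem st_pow {V V' : Finset α} {y y' : ZMod 3 → Finset α → ℂ} {d D c C : ℝ} (hV : V' ⊆ V)
    (hd : 0 < d) (hdD : d ≤ D) (hC : 0 ≤ C) (hc : 0 ≤ c)
    (hD : ∀ i, ∀ β ⊆ V, ‖y i β - y' i (β ∩ V')‖ ≤ D)
    (hq : ∀ i, ∀ ρ1 ρ2 η : ℝ, d ≤ ρ1 → ρ1 ≤ ρ2 → ρ2 ≤ η → η ≤ D →
      pr V (fun β => η < ‖y i β - y' i (β ∩ V')‖) ≤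
        C * ((d / η) ^ c + (d / ρ1) ^ c + (ρ1 / ρ2) ^ c + (ρ2 / η) ^ c)) :
    ‖ST V y - ST V' y'‖ ≤ 9 * ((1 + 4 * C) * D * (d / D) ^ (min c 1 / 4)) := by
  have hD0 : 0 ≤ D := (hd.trans_le hdD).le
  have h1 : ‖ST V y - ST V' y'‖ / 9 ≤ (1 + 4 * C) * D * (d / D) ^ (min c 1 / 4) := by
    refine four hd hdD hC hc fun ρ1 ρ2 η h1 h2 h3 h4 => ?_
    have hη : 0 ≤ η := hd.le.trans (h1.trans (h2.trans h3))
    have := st_near_le hV hη hD0 hD (fun i => hq i ρ1 ρ2 η h1 h2 h3 h4)
    linarith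
  linarith

end fin

/-! ### mean over the points -/

section pts

variable {Ω : Type*} [MeasurableSpace Ω] {μ : Measure Ω} [IsProbabilityMeasure μ]

/-- **mean over the points, exceptional event `G`** -/
theorem E_near {F : Ω → ℝ} {G : Set Ω} {b D : ℝ}
    (hF : ∀ x ∉ G, F x ≤ b) (hF' : ∀ x, F x ≤ D) :
    ∫⁻ x, ENNReal.ofReal (F x) ∂μ ≤ ENNReal.ofReal b + ENNReal.ofReal D * μ G := by
  have h1 : ∀ x, ENNReal.ofReal (F x) ≤
      ENNReal.ofReal b + (toMeasurable μ G).indicator (fun _ => ENNReal.ofReal D) x := by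
    intro x
    by_cases hx : x ∈ toMeasurable μ G
    · rw [Set.indicator_of_mem hx]
      exact (ENNReal.ofReal_le_ofReal (hF' x)).trans le_add_self
    · rw [Set.indicator_of_notMem hx, add_zero]
      exact ENNReal.ofReal_le_ofReal (hF x fun h => hx (subset_toMeasurable μ G h))
  refine (lintegral_mono h1).trans ?_
  rw [lintegral_add_left measurable_const, lintegral_const, measure_univ, mul_one,
    lintegral_indicator (measurableSet_toMeasurable μ G), setLIntegral_const,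
    measure_toMeasurable]

/-- the same with the Bochner integral, no measurability needed -/
theorem E_near' {F : Ω → ℝ} {G : Set Ω} {b D : ℝ} (hb : 0 ≤ b) (hD : 0 ≤ D) (h0 : ∀ x, 0 ≤ F x)
    (hF : ∀ x ∉ G, F x ≤ b) (hF' : ∀ x, F x ≤ D) :
    ∫ x, F x ∂μ ≤ b + D * μ.real G := by
  by_cases hm : AEStronglyMeasurable F μ
  · rw [integral_eq_lintegral_of_nonneg_ae (Filter.Eventually.of_forall h0) hm]
    have h1 := E_near (μ := μ) hF hF'
    have h2 : ENNReal.ofReal b + ENNReal.ofReal D * μ G ≠ ⊤ :=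
      ENNReal.add_ne_top.2 ⟨ENNReal.ofReal_ne_top,
        ENNReal.mul_ne_top ENNReal.ofReal_ne_top (measure_ne_top μ G)⟩
    refine (ENNReal.toReal_mono h2 h1).trans (le_of_eq ?_)
    rw [ENNReal.toReal_add ENNReal.ofReal_ne_top
      (ENNReal.mul_ne_top ENNReal.ofReal_ne_top (measure_ne_top μ G)), ENNReal.toReal_mul,
      ENNReal.toReal_ofReal hb, ENNReal.toReal_ofReal hD]
    rfl
  · rw [integral_undef fun h => hm h.1]
    have := mul_nonneg hD (measureReal_nonneg (μ := μ) (s := G))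
    linarith

end pts

end Crest.Agent.R143.Applx359
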