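import Crest.Agent.R143.PolyU_346

/-!
# Row 143, POLYGON SIDE for the frozen index `Poly`: the boundary curve and the arcs (helper571)

`C : Cyc F L v`, `0 < s`; `ep s v a t` : point of the edge `a` at parameter `t`.

* `ep_sep` : two points of edges at sup distance `< s` are on the same edge or on consecutive edges
* `nb_sep` : points of consecutive edges, one of them in the far half: sup distance `≥ s / 2`
* `arc_iff` : the points of `u.Arc j` in parameters
* **`arc_sep`** : two points of different arcs at sup distance `< s / 2` are on the same edge on the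
  two sides of a mark (the mark is in `segment ℝ p q`)
* `mid_sep` : a point of an edge at sup distance `< s / 2` of the middle of the edge `a` is on the
  edge `a`
-/

set_option autoImplicit false

noncomputable section

namespace Crest.Agent.R143.ArcPx571

open Set
open Crest.Agent.R158.Sp896
open Crest.Agent.R143.Brkx478 (Bk cells Conn cyc_mod far_cyc cells_finite)
open Crest.Agent.R143.Tenx416 (Pg)
open Crest.Agent.R143.PolyUx346

/-! ### walks -/

section walk

variable {F : Set V} {L : ℕ} {v : ℕ → V} {s : ℝ}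

/-- point of the edge `a` at parameter `t` -/
def ep (s : ℝ) (v : ℕ → V) (a : ℕ) (t : ℝ) : ℂ :=
  ⟨s * ((v a).1 + t * ((v (a + 1)).1 - (v a).1)), s * ((v a).2 + t * ((v (a + 1)).2 - (v a).2))⟩

@[simp] theorem ep_re (a : ℕ) (t : ℝ) :
    (ep s v a t).re = s * ((v a).1 + t * ((v (a + 1)).1 - (v a).1)) := rfl

@[simp] theorem ep_im (a : ℕ) (t : ℝ) :
    (ep s v a t).im = s * ((v a).2 + t * ((v (a + 1)).2 - (v a).2)) := rfl

theorem ep_zero (a : ℕ) : ep s v a 0 = pt s (v a) := by
  apply Complex.ext <;> simp [pt]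

theorem ep_one (a : ℕ) : ep s v a 1 = pt s (v (a + 1)) := by
  apply Complex.ext <;> simp [pt]

theorem ep_succ (a : ℕ) : ep s v a 1 = ep s v (a + 1) 0 := by rw [ep_one, ep_zero]

theorem ep_half (a : ℕ) : ep s v a (1 / 2) = (pt s (v a) + pt s (v (a + 1))) / 2 := by
  have h2 : ((2 : ℝ) : ℂ) = 2 := by norm_num
  rw [← h2]
  apply Complex.ext
  · rw [Complex.div_ofReal_re]
    simp only [ep_re, pt, Complex.add_re]
    ring
  · rw [Complex.div_ofReal_im]
    simp only [ep_im, pt, Complex.add_im]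
    ring

/-- affine in the parameter -/
theorem ep_comb (a : ℕ) (t t' x y : ℝ) (h : x + y = 1) :
    ep s v a (x * t + y * t') = (x : ℝ) • ep s v a t + (y : ℝ) • ep s v a t' := by
  have e : x = 1 - y := by linarith
  subst e
  apply Complex.ext
  · simp only [ep_re, Complex.add_re, Complex.smul_re, smul_eq_mul]
    ring
  · simp only [ep_im, Complex.add_im, Complex.smul_im, smul_eq_mul]
    ring

/-- the segment between two points of the edge -/
theorem ep_mem_seg (a : ℕ) {t t' x : ℝ} (h : x ∈ segment ℝ t t') :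
    ep s v a x ∈ segment ℝ (ep s v a t) (ep s v a t') := by
  obtain ⟨c, d, hc, hd, hcd, rfl⟩ := h
  refine ⟨c, d, hc, hd, hcd, ?_⟩
  simp only [smul_eq_mul]
  rw [ep_comb a t t' c d hcd]

theorem seg_ep (a : ℕ) (t t' : ℝ) :
    segment ℝ (ep s v a t) (ep s v a t') = ep s v a '' segment ℝ t t' := by
  ext p
  constructor
  · rintro ⟨c, d, hc, hd, hcd, rfl⟩
    refine ⟨c * t + d * t', ⟨c, d, hc, hd, hcd, rfl⟩, ?_⟩
    rw [ep_comb a t t' c d hcd]
  · rintro ⟨x, hx, rfl⟩
    exact ep_mem_seg a hx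

theorem mem_ed {a : ℕ} {p : ℂ} : p ∈ ed s (v a) (v (a + 1)) ↔ ∃ t, 0 ≤ t ∧ t ≤ 1 ∧ p = ep s v a t := by
  unfold ed
  rw [← ep_zero a, ← ep_one a, seg_ep, segment_eq_Icc zero_le_one]
  constructor
  · rintro ⟨t, ht, rfl⟩
    exact ⟨t, ht.1, ht.2, rfl⟩
  · rintro ⟨t, h0, h1, rfl⟩
    exact ⟨t, ⟨h0, h1⟩, rfl⟩

/-- the walk depends only on the residue -/
theorem vmod (C : Cyc F L v) {a b : ℕ} (h : a ≡ b [MOD L]) : v a = v b := by
  rw [← C.mod a, ← C.mod b]
  congr 1

theorem ep_mod (C : Cyc F L v) {a b : ℕ} (h : a ≡ b [MOD L]) (t : ℝ) : ep s v a t = ep s v b t := by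
  unfold ep
  rw [vmod C h, vmod C (h.add_right 1)]

/-- the step of the edge `a` as real numbers -/
theorem step_real (C : Cyc F L v) (a : ℕ) :
    ((((v (a + 1)).1 : ℝ) = (v a).1 + 1 ∧ ((v (a + 1)).2 : ℝ) = (v a).2) ∨
    (((v (a + 1)).1 : ℝ) = (v a).1 - 1 ∧ ((v (a + 1)).2 : ℝ) = (v a).2)) ∨
    ((((v (a + 1)).1 : ℝ) = (v a).1 ∧ ((v (a + 1)).2 : ℝ) = (v a).2 + 1) ∨
    (((v (a + 1)).1 : ℝ) = (v a).1 ∧ ((v (a + 1)).2 : ℝ) = (v a).2 - 1)) := by
  rcases C.step a with ⟨h1, h2⟩ | ⟨h1, h2⟩ | ⟨h1, h2⟩ | ⟨h1, h2⟩ <;> rw [h1, h2] <;> push_cast <;>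
    simp

theorem ne_two (C : Cyc F L v) (a : ℕ) : v (a + 1 + 1) ≠ v a := by
  intro h
  have h1 := cyc_mod C h
  have h2 := (Nat.modEq_iff_dvd.1 h1.symm)
  have h3 : ((a + 1 + 1 : ℕ) : ℤ) - (a : ℤ) = 2 := by push_cast; ring
  rw [h3] at h2
  have h4 := Int.le_of_dvd (by norm_num) h2
  have := C.four_le
  omega

/-- **consecutive edges**: at least half an edge between the points -/
theorem nb_sep (C : Cyc F L v) (hs : 0 < s) (a : ℕ) {t t' : ℝ} (h1 : t ≤ 1)
    (h0' : 0 ≤ t') (h : t ≤ 1 / 2 ∨ 1 / 2 ≤ t') :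
    s / 2 ≤ |(ep s v a t).re - (ep s v (a + 1) t').re| ∨
    s / 2 ≤ |(ep s v a t).im - (ep s v (a + 1) t').im| := by
  have hne := ne_two C a
  have hne' : ¬ (((v (a + 1 + 1)).1 : ℝ) = (v a).1 ∧ ((v (a + 1 + 1)).2 : ℝ) = (v a).2) := by
    rintro ⟨e1, e2⟩
    exact hne (Prod.ext (by exact_mod_cast e1) (by exact_mod_cast e2))
  simp only [ep_re, ep_im]
  have key : ∀ x : ℝ, 1 / 2 ≤ |x| → s / 2 ≤ |s * x| := by
    intro x hx
    rw [abs_mul, abs_of_pos hs]
    nlinarith
  have f1 : ∀ x y : ℝ, s * x - s * y = s * (x - y) := fun x y => by ring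
  rw [f1, f1]
  suffices hh : 1 / 2 ≤ |((v a).1 : ℝ) + t * ((v (a + 1)).1 - (v a).1) -
      ((v (a + 1)).1 + t' * ((v (a + 1 + 1)).1 - (v (a + 1)).1))| ∨
      1 / 2 ≤ |((v a).2 : ℝ) + t * ((v (a + 1)).2 - (v a).2) -
      ((v (a + 1)).2 + t' * ((v (a + 1 + 1)).2 - (v (a + 1)).2))| by
    rcases hh with hh | hh
    · exact Or.inl (key _ hh)
    · exact Or.inr (key _ hh)
  have s1 := step_real C a
  have s2 := step_real C (a + 1)
  generalize ((v a).1 : ℝ) = x at *
  generalize ((v a).2 : ℝ) = y at *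
  generalize ((v (a + 1)).1 : ℝ) = x1 at *
  generalize ((v (a + 1)).2 : ℝ) = y1 at *
  generalize ((v (a + 1 + 1)).1 : ℝ) = x2 at *
  generalize ((v (a + 1 + 1)).2 : ℝ) = y2 at *
  have A : ∀ w : ℝ, (1 / 2 ≤ w ∨ w ≤ -(1 / 2)) → 1 / 2 ≤ |w| := by
    intro w hw
    rcases hw with hw | hw
    · exact hw.trans (le_abs_self _)
    · exact (by linarith : 1 / 2 ≤ -w).trans (neg_le_abs _)
  rcases s1 with (⟨e1, e2⟩ | ⟨e1, e2⟩) | (⟨e1, e2⟩ | ⟨e1, e2⟩) <;>
    rcases s2 with (⟨g1, g2⟩ | ⟨g1, g2⟩) | (⟨g1, g2⟩ | ⟨g1, g2⟩) <;>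
    subst e1 e2 g1 g2
  · left; apply A; right; rcases h with h | h <;> linarith
  · exact absurd ⟨by ring, rfl⟩ hne'
  · rcases h with h | h
    · left; apply A; right; linarith
    · right; apply A; right; linarith
  · rcases h with h | h
    · left; apply A; right; linarith
    · right; apply A; left; linarith
  · exact absurd ⟨by ring, rfl⟩ hne'
  · left; apply A; left; rcases h with h | h <;> linarith
  · rcases h with h | h
    · left; apply A; left; linarith
    · right; apply A; right; linarith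
  · rcases h with h | h
    · left; apply A; left; linarith
    · right; apply A; left; linarith
  · rcases h with h | h
    · right; apply A; right; linarith
    · left; apply A; right; linarith
  · rcases h with h | h
    · right; apply A; right; linarith
    · left; apply A; left; linarith
  · right; apply A; right; rcases h with h | h <;> linarith
  · exact absurd ⟨rfl, by ring⟩ hne'
  · rcases h with h | h
    · right; apply A; left; linarith
    · left; apply A; right; linarith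
  · rcases h with h | h
    · right; apply A; left; linarith
    · left; apply A; left; linarith
  · exact absurd ⟨rfl, by ring⟩ hne'
  · right; apply A; left; rcases h with h | h <;> linarith

/-- two points of edges at sup distance `< s` are on the same edge or on consecutive edges -/
theorem ep_sep (C : Cyc F L v) (hs : 0 < s) {a b : ℕ} {t t' : ℝ} (h0 : 0 ≤ t) (h1 : t ≤ 1)
    (h0' : 0 ≤ t') (h1' : t' ≤ 1) (hre : |(ep s v a t).re - (ep s v b t').re| < s)
    (him : |(ep s v a t).im - (ep s v b t').im| < s) :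
    a ≡ b [MOD L] ∨ a + 1 ≡ b [MOD L] ∨ a ≡ b + 1 [MOD L] := by
  by_contra hcon
  push Not at hcon
  obtain ⟨c1, c2, c3⟩ := hcon
  have := far_cyc C c1 c2 c3 h0 h1 h0' h1'
  simp only [ep_re, ep_im] at hre him
  have f1 : ∀ x y : ℝ, s * x - s * y = s * (x - y) := fun x y => by ring
  rw [f1, abs_mul, abs_of_pos hs] at hre him
  push_cast at this
  rcases this with h | h
  · nlinarith
  · nlinarith

/-- a point of an edge near the middle of the edge `a` is on the edge `a` -/
theorem mid_sep (C : Cyc F L v) (hs : 0 < s) {a b : ℕ} {t : ℝ} (h0 : 0 ≤ t) (h1 : t ≤ 1)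
    (hre : |(ep s v b t).re - (ep s v a (1 / 2)).re| < s / 2)
    (him : |(ep s v b t).im - (ep s v a (1 / 2)).im| < s / 2) : a ≡ b [MOD L] := by
  rcases ep_sep C hs h0 h1 (by norm_num : (0 : ℝ) ≤ 1 / 2) (by norm_num : (1 : ℝ) / 2 ≤ 1)
    (by linarith) (by linarith) with h | h | h
  · exact h.symm
  · exfalso
    rw [← ep_mod C h (1 / 2)] at hre him
    rcases nb_sep C hs b h1 (by norm_num : (0 : ℝ) ≤ 1 / 2) (Or.inr le_rfl) with g | g <;> linarith
  · exfalso
    rw [ep_mod C h t, abs_sub_comm] at hre him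
    rcases nb_sep C hs a (by norm_num : (1 : ℝ) / 2 ≤ 1) h0 (Or.inl le_rfl) with g | g <;> linarith

end walk

/-! ### the arcs of `Poly` -/

section poly

variable (u : Poly)

/-- point of the boundary of `u` -/
abbrev bp (a : ℕ) (t : ℝ) : ℂ := ep u.s u.v a t

variable {u}

theorem k_lt (j : Fin 3) : u.k j < u.k' j := by
  have h1 := u.k01
  have h2 := u.k12
  have h3 := u.k20
  unfold Poly.k'
  fin_cases j
  · simpa using h1
  · simpa using h2
  · simpa using h3

theorem mid_eq (a : ℕ) : u.mid a = bp u a (1 / 2) := by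
  unfold Poly.mid bp
  rw [ep_half]

/-- the points of the arc in parameters -/
theorem arc_iff {j : Fin 3} {p : ℂ} : p ∈ u.Arc j ↔ ∃ (a : ℕ) (t : ℝ), 0 ≤ t ∧ t ≤ 1 ∧
    (u.k j : ℝ) + 1 / 2 ≤ a + t ∧ (a : ℝ) + t ≤ u.k' j + 1 / 2 ∧ p = bp u a t := by
  have hk := k_lt (u := u) j
  have hkr : (u.k j : ℝ) + 1 ≤ u.k' j := by exact_mod_cast hk
  unfold Poly.Arc
  rw [mid_eq, mid_eq, ← ep_one, ← ep_zero (u.k' j), bp, bp, seg_ep, seg_ep,
    segment_eq_Icc (by norm_num : (1 / 2 : ℝ) ≤ 1), segment_eq_Icc (by norm_num : (0 : ℝ) ≤ 1 / 2)]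
  simp only [Set.mem_union, Set.mem_iUnion, exists_prop, mem_ed]
  constructor
  · rintro ((⟨t, ht, rfl⟩ | ⟨a, ha, t, h0, h1, rfl⟩) | ⟨t, ht, rfl⟩)
    · exact ⟨u.k j, t, by linarith [ht.1], ht.2, by linarith [ht.1], by linarith [ht.2], rfl⟩
    · have a1 : (u.k j : ℝ) + 1 ≤ a := by exact_mod_cast ha.1
      have a2 : (a : ℝ) + 1 ≤ u.k' j := by exact_mod_cast ha.2
      exact ⟨a, t, h0, h1, by linarith, by linarith, rfl⟩
    · exact ⟨u.k' j, t, ht.1, by linarith [ht.2], by linarith [ht.1], by linarith [ht.2], rfl⟩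
  · rintro ⟨a, t, h0, h1, h2, h3, rfl⟩
    by_cases e1 : a ≤ u.k j
    · have e1' : (a : ℝ) ≤ u.k j := by exact_mod_cast e1
      rcases Nat.lt_or_eq_of_le e1 with e | e
      · exfalso
        have : (a : ℝ) + 1 ≤ u.k j := by exact_mod_cast e
        linarith
      · subst e
        exact Or.inl (Or.inl ⟨t, ⟨by linarith, h1⟩, rfl⟩)
    · push Not at e1
      by_cases e2 : a < u.k' j
      · exact Or.inl (Or.inr ⟨a, ⟨e1, e2⟩, t, h0, h1, rfl⟩)
      · push Not at e2
        rcases Nat.lt_or_eq_of_le e2 with e | e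
        · exfalso
          have : (u.k' j : ℝ) + 1 ≤ a := by exact_mod_cast e
          linarith
        · subst e
          exact Or.inr ⟨t, ⟨h0, by linarith⟩, rfl⟩

/-- the ends of the arcs are marks -/
theorem mid_k' (j : Fin 3) : ∃ l : Fin 3, u.mid (u.k' j) = u.mid (u.k l) := by
  unfold Poly.k'
  by_cases h : j = 2
  · refine ⟨0, ?_⟩
    rw [if_pos h, mid_eq, mid_eq]
    exact ep_mod u.cyc (by unfold Nat.ModEq; simp) _
  · exact ⟨j + 1, by rw [if_neg h]⟩

/-- the parameter intervals of different arcs (and their translates) are in order -/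
theorem k_order {i j : Fin 3} (hij : i ≠ j) (n : ℤ) :
    (u.k' j : ℤ) + n * u.L ≤ u.k i ∨ (u.k' i : ℤ) ≤ u.k j + n * u.L := by
  have h1 : (u.k 0 : ℤ) < u.k 1 := by exact_mod_cast u.k01
  have h2 : (u.k 1 : ℤ) < u.k 2 := by exact_mod_cast u.k12
  have h3 : (u.k 2 : ℤ) < u.k 0 + u.L := by exact_mod_cast u.k20
  have hL : (0 : ℤ) < u.L := by
    have := u.cyc.four_le
    exact_mod_cast (by omega : 0 < u.L)
  have hk : ∀ j : Fin 3, (u.k 0 : ℤ) ≤ u.k j ∧ (u.k' j : ℤ) ≤ u.k 0 + u.L := by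
    intro j
    unfold Poly.k'
    fin_cases j <;> simp <;> omega
  rcases lt_trichotomy n 0 with hn | hn | hn
  · left
    have : n * (u.L : ℤ) ≤ -1 * u.L := mul_le_mul_of_nonneg_right (by omega) hL.le
    have := hk i
    have := hk j
    omega
  · subst hn
    unfold Poly.k'
    fin_cases i <;> fin_cases j <;> simp at hij ⊢ <;> omega
  · right
    have : 1 * (u.L : ℤ) ≤ n * u.L := mul_le_mul_of_nonneg_right (by omega) hL.le
    have := hk i
    have := hk j
    omega

/-- a mark is between two parameters of different arcs -/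
theorem mark_between {i j : Fin 3} (hij : i ≠ j) {x y : ℝ} (n : ℤ)
    (hx : (u.k i : ℝ) + 1 / 2 ≤ x) (hx' : x ≤ u.k' i + 1 / 2)
    (hy : (u.k j : ℝ) + 1 / 2 ≤ y) (hy' : y ≤ u.k' j + 1 / 2) :
    ∃ c : ℕ, (c = u.k i ∨ c = u.k' i) ∧
      ((x ≤ c + 1 / 2 ∧ (c : ℝ) + 1 / 2 ≤ y + n * u.L) ∨
        (y + n * u.L ≤ c + 1 / 2 ∧ (c : ℝ) + 1 / 2 ≤ x)) := by
  rcases k_order hij n with h | h
  · have h' : (u.k' j : ℝ) + n * u.L ≤ u.k i := by exact_mod_cast h
    exact ⟨u.k i, Or.inl rfl, Or.inr ⟨by linarith, hx⟩⟩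
  · have h' : (u.k' i : ℝ) ≤ u.k j + n * u.L := by exact_mod_cast h
    exact ⟨u.k' i, Or.inr rfl, Or.inl ⟨hx', by linarith⟩⟩

/-- **separation of the arcs** : two points of different arcs at sup distance `< s / 2` are on the
two sides of a mark of the same edge -/
theorem arc_sep {i j : Fin 3} (hij : i ≠ j) {p q : ℂ} (hp : p ∈ u.Arc i) (hq : q ∈ u.Arc j)
    (hre : |p.re - q.re| < u.s / 2) (him : |p.im - q.im| < u.s / 2) :
    ∃ l : Fin 3, u.mid (u.k l) ∈ segment ℝ p q := by
  obtain ⟨a, t, h0, h1, hx, hx', rfl⟩ := arc_iff.1 hp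
  obtain ⟨b, t', h0', h1', hy, hy', rfl⟩ := arc_iff.1 hq
  have hs := u.s_pos
  have C := u.cyc
  have main : ∀ c : ℕ, (c = u.k i ∨ c = u.k' i) → ∃ l : Fin 3, u.mid c = u.mid (u.k l) := by
    intro c hc
    rcases hc with rfl | rfl
    · exact ⟨i, rfl⟩
    · exact mid_k' i
  -- the two sides of a middle
  have same : ∀ c : ℕ, (c = u.k i ∨ c = u.k' i) → c ≡ a [MOD u.L] → a ≡ b [MOD u.L] →
      ((t ≤ 1 / 2 ∧ 1 / 2 ≤ t') ∨ (t' ≤ 1 / 2 ∧ 1 / 2 ≤ t)) →
      ∃ l : Fin 3, u.mid (u.k l) ∈ segment ℝ (bp u a t) (bp u b t') := by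
    intro c hc hca hab ht
    obtain ⟨l, hl⟩ := main c hc
    refine ⟨l, ?_⟩
    rw [← hl, mid_eq, bp, bp, bp, ep_mod C hca, ← ep_mod C hab t']
    refine ep_mem_seg a ?_
    rw [segment_eq_uIcc, Set.mem_uIcc]
    exact ht
  rcases ep_sep C hs h0 h1 h0' h1' (by linarith) (by linarith) with h | h | h
  · -- same edge
    obtain ⟨n, hn⟩ := Nat.modEq_iff_dvd.1 h.symm
    -- a - b = L n
    have hn' : (b : ℝ) + n * u.L = a := by
      have : (a : ℤ) = b + n * u.L := by linarith [hn]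
      exact_mod_cast this.symm
    obtain ⟨c, hc, h2⟩ := mark_between hij n hx hx' hy hy'
    have e : (b : ℝ) + t' + n * u.L = a + t' := by linarith
    rw [e] at h2
    by_cases hca : c = a
    · subst hca
      refine same c hc rfl h ?_
      rcases h2 with h2 | h2
      · left; constructor <;> linarith [h2.1, h2.2]
      · right; constructor <;> linarith [h2.1, h2.2]
    · -- the mark is at an integer plus one half in `[a, a+1]`
      exfalso
      rcases Nat.lt_or_gt_of_ne hca with g | g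
      · have g' : (c : ℝ) + 1 ≤ a := by exact_mod_cast g
        rcases h2 with h2 | h2 <;> linarith [h2.1, h2.2]
      · have g' : (a : ℝ) + 1 ≤ c := by exact_mod_cast g
        rcases h2 with h2 | h2 <;> linarith [h2.1, h2.2]
  · -- b = a + 1
    exfalso
    obtain ⟨n, hn⟩ := Nat.modEq_iff_dvd.1 h.symm
    have hn' : (b : ℝ) + n * u.L = a + 1 := by
      have : ((a + 1 : ℕ) : ℤ) = b + n * u.L := by linarith [hn]
      exact_mod_cast this.symm
    obtain ⟨c, hc, h2⟩ := mark_between hij n hx hx' hy hy'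
    have e : (b : ℝ) + t' + n * u.L = a + 1 + t' := by linarith
    rw [e] at h2
    have h3 : t ≤ 1 / 2 ∨ 1 / 2 ≤ t' := by
      by_contra hcon
      push Not at hcon
      have g1 : a < c := by
        have : (a : ℝ) < c := by rcases h2 with h2 | h2 <;> linarith [h2.1, h2.2]
        exact_mod_cast this
      have g2 : c < a + 1 := by
        have : (c : ℝ) < (a : ℝ) + 1 := by rcases h2 with h2 | h2 <;> linarith [h2.1, h2.2]
        exact_mod_cast this
      omega
    have h4 := nb_sep C hs a h1 h0' h3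
    rw [ep_mod C h t'] at h4
    rcases h4 with h4 | h4
    · exact absurd hre (not_lt.2 h4)
    · exact absurd him (not_lt.2 h4)
  · -- a = b + 1
    exfalso
    obtain ⟨n, hn⟩ := Nat.modEq_iff_dvd.1 h.symm
    have hn' : ((b : ℝ) + 1) + n * u.L = a := by
      have : (a : ℤ) = ((b + 1 : ℕ) : ℤ) + n * u.L := by linarith [hn]
      push_cast at this
      exact_mod_cast this.symm
    obtain ⟨c, hc, h2⟩ := mark_between hij n hx hx' hy hy'
    have e : (b : ℝ) + t' + n * u.L = a - 1 + t' := by linarith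
    rw [e] at h2
    have h3 : t' ≤ 1 / 2 ∨ 1 / 2 ≤ t := by
      by_contra hcon
      push Not at hcon
      have g1 : a < c + 1 := by
        have : (a : ℝ) < c + 1 := by rcases h2 with h2 | h2 <;> linarith [h2.1, h2.2]
        exact_mod_cast this
      have g2 : c < a := by
        have : (c : ℝ) < (a : ℝ) := by rcases h2 with h2 | h2 <;> linarith [h2.1, h2.2]
        exact_mod_cast this
      omega
    have h4 := nb_sep C hs b h1' h0 h3
    rw [← ep_mod C h t] at h4
    rw [abs_sub_comm] at hre him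
    rcases h4 with h4 | h4
    · exact absurd hre (not_lt.2 h4)
    · exact absurd him (not_lt.2 h4)

end poly

end Crest.Agent.R143.ArcPx571
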