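import Crest.Agent.R143.MassF_73

/-!
# Row 143, block H, box R1 (ARM BOX), deterministic part (helper345)

Unit: `e = η · direction`. `z`, `e` = frame of a straight tile of side `100`.
* `harris_n` : several decreasing events
* `zv`, `zh` : frames of 16 vertical lanes and 15 short horizontal lanes which form a white rope from
  the height `4` to the height `1634` in the column `39 ≤ X ≤ 64`
* `Rope` : the lanes are white; `mo_rope`, `su_rope`, `rope_pr`
* `rope_link` : every site of the white lane of the tile is linked by white sites to a site of height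
  at least `1634`
-/

set_option autoImplicit false

noncomputable section

open scoped Classical

namespace Crest.Agent.R143.ArmAx345

open Crest.ProbabilityR.Voronoi
open Crest.Agent.R143.B0x346 Crest.Agent.R143.DelGx806 Crest.Agent.R143.DelRx806
open Crest.Agent.R143.ToolWx838 Crest.Agent.R143.Blkx838 Crest.Agent.R143.ToolW2x838
open Crest.Agent.R143.ToolW3x838 Crest.Agent.R143.Circ4x838 Crest.Agent.R143.Harx315
open Crest.Agent.R143.RB0x838 Crest.Agent.R143.CircPx838 Crest.Agent.R143.Gatex838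
open Crest.Agent.R143.Neckx921 Crest.Agent.R143.TileGx73 Crest.Agent.R143.TileLx345
open Crest.Agent.R143.TileRx228 Crest.Agent.R143.Thetax73 Crest.Agent.R143.TileRRx345
open Crest.Agent.R143.MassFx73 Crest.Agent.R143.Gmx838 Crest.Agent.R143.RHx73

/-! ### Harris -/

theorem dn_mo {V : Finset ℂ} {E : Finset ℂ → Prop} (hE : Mo E) : Dn V fun τ => E (V \ τ) :=
  fun _ _ h _ h1 => hE _ _ (Finset.sdiff_subset_sdiff subset_rfl h) h1

/-- **several decreasing events** -/
theorem harris_n {V : Finset ℂ} {p : ℝ} (hp : 0 ≤ p) {E : ℕ → Finset ℂ → Prop}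
    (hE : ∀ i, Mo (E i)) : ∀ n, (∀ i < n, p ≤ pr V fun τ => E i (V \ τ)) →
      p ^ n ≤ pr V fun τ => ∀ i < n, E i (V \ τ) := by
  intro n
  induction n with
  | zero =>
    intro _
    rw [pow_zero]
    rw [← Harx315.pr_true V]
    exact pr_mono fun _ _ _ i hi => absurd hi (Nat.not_lt_zero i)
  | succ n ih =>
    intro h
    have h1 := ih fun i hi => h i (Nat.lt_succ_of_lt hi)
    have h2 := h n (Nat.lt_succ_self n)
    rw [pow_succ]
    refine (mul_le_mul h1 h2 hp pr_nonneg).trans ((harris_dn (V := V) (A := fun τ =>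
      ∀ i < n, E i (V \ τ)) (B := fun τ => E n (V \ τ)) (fun β β' h3 h4 h5 i hi =>
      dn_mo (hE i) β β' h3 h4 (h5 i hi)) (dn_mo (hE n))).trans (pr_mono fun τ _ h3 i hi => ?_))
    rcases Nat.lt_succ_iff_lt_or_eq.1 hi with h4 | rfl
    · exact h3.1 i h4
    · exact h3.2

/-! ### the frames of the rope -/

/-- frame of the `k`-th vertical lane (direction `e I`) -/
def zv (z e : ℂ) (k : ℕ) : ℂ := z + e * (⟨55, 100 * k - 6⟩ : ℂ)

/-- frame of the `k`-th short horizontal lane (direction `e`) -/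
def zh (z e : ℂ) (k : ℕ) : ℂ := z + e * (⟨30, 100 * k + 114⟩ : ℂ)

def zv' (z e : ℂ) (k : ℕ) : ℂ := zv z e k + ((150 / 2 : ℝ) : ℂ) * (e * Complex.I + e * Complex.I)

def zh' (z e : ℂ) (k : ℕ) : ℂ := zh z e k + ((40 / 2 : ℝ) : ℂ) * (e + e)

theorem fr_v (z e : ℂ) (k : ℕ) : Fr 150 (zv z e k) (e * Complex.I) (zv' z e k) (e * Complex.I) :=
  ⟨rfl, Or.inl rfl⟩

theorem fr_h (z e : ℂ) (k : ℕ) : Fr 40 (zh z e k) e (zh' z e k) e := ⟨rfl, Or.inl rfl⟩

variable {M V A : Finset ℂ} {z e : ℂ} {k : ℕ}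

/-- the lanes of the rope are white -/
def Rope (M : Finset ℂ) (z e : ℂ) (A : Finset ℂ) : Prop :=
  (∀ k < 16, MidW M 150 (zv z e k) (e * Complex.I) (zv' z e k) (e * Complex.I) A) ∧
  ∀ k < 15, MidW M 40 (zh z e k) e (zh' z e k) e A

theorem mo_rope : Mo (Rope M z e) := fun _ _ hA h =>
  ⟨fun k hk => mo_midW _ _ hA (h.1 k hk), fun k hk => mo_midW _ _ hA (h.2 k hk)⟩

/-- the column of the rope -/
def Co (z e : ℂ) : Set ℂ := {s | (39 ≤ X z e s ∧ X z e s ≤ 64) ∧ 3 ≤ Y z e s ∧ Y z e s ≤ 1635}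

theorem neI (he : e ≠ 0) : e * Complex.I ≠ 0 := mul_ne_zero he Complex.I_ne_zero

theorem cast_lt {k n : ℕ} (h : k < n) : (k : ℝ) + 1 ≤ n := by exact_mod_cast h

theorem XY_v (he : e ≠ 0) (s : ℂ) : X (zv z e k) (e * Complex.I) s = Y z e s - (100 * k - 6) ∧
    Y (zv z e k) (e * Complex.I) s = 55 - X z e s :=
  ⟨X_left he _ s, Y_left he _ s⟩

theorem XY_v' (he : e ≠ 0) (s : ℂ) :
    X (zv' z e k) (e * Complex.I) s = Y z e s - (100 * k - 6) - 150 := by
  have h := (fr_v z e k).coord (neI he)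
  rcases h with ⟨-, h, -⟩ | ⟨h, -⟩ | ⟨h, -⟩
  · rw [h, (XY_v he s).1]
  · exact absurd h (ne_I (neI he))
  · exact absurd h (ne_I' (neI he))

theorem XY_h (he : e ≠ 0) (s : ℂ) : X (zh z e k) e s = X z e s - 30 ∧
    Y (zh z e k) e s = Y z e s - (100 * k + 114) :=
  ⟨X_shift he _ s, Y_shift he _ s⟩

theorem XY_h' (he : e ≠ 0) (s : ℂ) : X (zh' z e k) e s = X z e s - 30 - 40 := by
  have h := (fr_h z e k).coord he
  rcases h with ⟨-, h, -⟩ | ⟨h, -⟩ | ⟨h, -⟩
  · rw [h, (XY_h he s).1]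
  · exact absurd h (ne_I he)
  · exact absurd h (ne_I' he)

/-- in the strip of a straight tile -/
theorem re_strip (he : e ≠ 0) {z' : ℂ} {T : ℝ} (f : Fr T z e z' e) {s : ℂ}
    (h : s ∈ Re T z e z' e) : -9 < Y z e s ∧ Y z e s < 9 := by
  have h1 := f.coord he
  rcases h1 with ⟨-, -, h1⟩ | ⟨h2, -⟩ | ⟨h2, -⟩
  · rcases h with ⟨-, h3⟩ | ⟨-, h3⟩
    · exact h3
    · rw [h1 s] at h3
      exact h3
  · exact absurd h2 (ne_I he)
  · exact absurd h2 (ne_I' he)

/-- **the vertical lanes are in the column** -/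
theorem v_co (he : e ≠ 0) (hk : k < 16) {s : ℂ}
    (h1 : s ∈ Mi (zv z e k) (e * Complex.I) (zv' z e k) (e * Complex.I))
    (h2 : s ∈ Re 150 (zv z e k) (e * Complex.I) (zv' z e k) (e * Complex.I)) : s ∈ Co z e := by
  have h3 := re_strip (neI he) (fr_v z e k) h2
  have h4 := cast_lt hk
  have h5 : (0 : ℝ) ≤ k := Nat.cast_nonneg k
  obtain ⟨a1, a2⟩ := XY_v (z := z) (k := k) he s
  have a3 := XY_v' (z := z) (k := k) he s
  obtain ⟨h6, h7⟩ := h1
  rw [a1] at h6
  rw [a3] at h7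
  rw [a2] at h3
  push_cast at h4
  refine ⟨⟨by linarith, by linarith⟩, by linarith, by linarith⟩

/-- **the horizontal lanes are in the column** -/
theorem h_co (he : e ≠ 0) (hk : k < 15) {s : ℂ} (h1 : s ∈ Mi (zh z e k) e (zh' z e k) e)
    (h2 : s ∈ Re 40 (zh z e k) e (zh' z e k) e) : s ∈ Co z e := by
  have h3 := re_strip he (fr_h z e k) h2
  have h4 := cast_lt hk
  have h5 : (0 : ℝ) ≤ k := Nat.cast_nonneg k
  obtain ⟨a1, a2⟩ := XY_h (z := z) (k := k) he s
  have a3 := XY_h' (z := z) (k := k) he s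
  obtain ⟨h6, h7⟩ := h1
  rw [a1] at h6
  rw [a3] at h7
  rw [a2] at h3
  push_cast at h4
  refine ⟨⟨by linarith, by linarith⟩, by linarith, by linarith⟩

/-- support of the rope -/
theorem su_rope (he : e ≠ 0) {U W : Finset ℂ} (hW : ∀ s ∈ U, s ∈ Co z e → s ∈ W) :
    Su U W (Rope M z e) := by
  intro A hA h
  refine ⟨fun k hk => ?_, fun k hk => ?_⟩
  · exact su_midW (neI he) (by norm_num) (fr_v z e k) (fun s hs _ h1 h2 => hW s hs (v_co he hk h1 h2))
      A hA (h.1 k hk)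
  · exact su_midW he (by norm_num) (fr_h z e k) (fun s hs _ h1 h2 => hW s hs (h_co he hk h1 h2))
      A hA (h.2 k hk)

/-! ### the link -/

/-- a white vertical chain of the rope, all its sites linked to `t` -/
def VL (M : Finset ℂ) (z e : ℂ) (A : Finset ℂ) (R : Set ℂ) (t : ℂ) (k : ℕ) (l : List ℂ) : Prop :=
  VC M z e 49 51 (100 * k + 4) (100 * k + 134) 1 A l ∧ ∀ s ∈ l, Lk M {s | s ∈ A ∧ s ∈ R} t s

theorem vc_lane (he : e ≠ 0) {l : List ℂ}
    (h : HC M (zv z e k) (e * Complex.I) 10 (150 - 10) 4 6 1 A l) :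
    VC M z e 49 51 (100 * k + 4) (100 * k + 134) 1 A l := by
  have hx := fun s => (XY_v (z := z) (k := k) he s).1
  have hy := fun s => (XY_v (z := z) (k := k) he s).2
  refine ⟨h.ne, h.adj, h.col, fun s hs => ?_, fun s hs => ?_, ?_, ?_⟩
  · have := h.strip s hs
    rw [hy] at this
    constructor <;> linarith
  · have := h.loc s hs
    rw [hx] at this
    constructor <;> linarith
  · have := h.left
    rw [hx] at this
    linarith
  · have := h.right
    rw [hx] at this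
    linarith

theorem hc_lane (he : e ≠ 0) {l : List ℂ} (h : HC M (zh z e k) e 10 (40 - 10) 4 6 1 A l) :
    HC M z e 40 60 (100 * k + 118) (100 * k + 120) 1 A l := by
  have hx := fun s => (XY_h (z := z) (k := k) he s).1
  have hy := fun s => (XY_h (z := z) (k := k) he s).2
  refine ⟨h.ne, h.adj, h.col, fun s hs => ?_, fun s hs => ?_, ?_, ?_⟩
  · have := h.strip s hs
    rw [hy] at this
    constructor <;> linarith
  · have := h.loc s hs
    rw [hx] at this
    constructor <;> linarith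
  · have := h.left
    rw [hx] at this
    linarith
  · have := h.right
    rw [hx] at this
    linarith

/-- **white link from the lane of the tile to the top of the rope** -/
theorem rope_link (hM : GP (M : Set ℂ)) (he : e ≠ 0) (h : Rope M z e A) {l : List ℂ}
    (hl : HC M z e 10 90 4 6 1 A l) {R : Set ℂ} (h1 : ∀ s ∈ l, s ∈ R)
    (h2 : ∀ s ∈ A, s ∈ Co z e → s ∈ R) {t : ℂ} (ht : t ∈ l) :
    ∃ u, 1634 ≤ Y z e u ∧ Lk M {s | s ∈ A ∧ s ∈ R} t u := by
  have kl : ∀ s ∈ l, Lk M {s | s ∈ A ∧ s ∈ R} t s := fun s hs =>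
    lk_list (A := {s | s ∈ A ∧ s ∈ R}) hl.adj (fun u hu => ⟨hl.col u hu, h1 u hu⟩) ht hs
  have vex : ∀ k : ℕ, k < 16 → ∃ l, VC M z e 49 51 (100 * k + 4) (100 * k + 134) 1 A l ∧
      ∀ s ∈ l, s ∈ R := by
    intro k hk
    obtain ⟨l, hv⟩ := (h.1 k hk).1 rfl
    refine ⟨l, vc_lane he hv, fun s hs => h2 s (hv.col s hs) ?_⟩
    have h3 := lane_reg (neI he) rfl (fr_v z e k) (by norm_num) (by norm_num) hv s hs
    exact v_co he hk h3.1 h3.2
  have hex : ∀ k : ℕ, k < 15 → ∃ l, HC M z e 40 60 (100 * k + 118) (100 * k + 120) 1 A l ∧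
      ∀ s ∈ l, s ∈ R := by
    intro k hk
    obtain ⟨l, hv⟩ := (h.2 k hk).1 rfl
    refine ⟨l, hc_lane he hv, fun s hs => h2 s (hv.col s hs) ?_⟩
    have h3 := lane_reg he rfl (fr_h z e k) (by norm_num) (by norm_num) hv s hs
    exact h_co he hk h3.1 h3.2
  have key : ∀ k : ℕ, k < 16 → ∃ l, VL M z e A R t k l := by
    intro k
    induction k with
    | zero =>
      intro hk
      obtain ⟨l', h3, h4⟩ := vex 0 hk
      obtain ⟨s, hs1, hs2⟩ := hl.meet hM he h3 (by norm_num) (by norm_num) (by push_cast; norm_num)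
        (by push_cast; norm_num)
      refine ⟨l', h3, fun s' hs' => (kl s hs1).trans ?_⟩
      exact lk_list (A := {s | s ∈ A ∧ s ∈ R}) h3.adj (fun u hu => ⟨h3.col u hu, h4 u hu⟩) hs2 hs'
    | succ k ih =>
      intro hk
      obtain ⟨l0, h3, h4⟩ := ih (by omega)
      obtain ⟨lh, h5, h6⟩ := hex k (by omega)
      obtain ⟨l', h7, h8⟩ := vex (k + 1) hk
      obtain ⟨s, hs1, hs2⟩ := h5.meet hM he h3 (by norm_num) (by norm_num)
        (by linarith) (by linarith)
      obtain ⟨s', hs1', hs2'⟩ := h5.meet hM he h7 (by norm_num) (by norm_num)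
        (by push_cast; linarith) (by push_cast; linarith)
      refine ⟨l', h7, fun u hu => ?_⟩
      have t1 : Lk M {s | s ∈ A ∧ s ∈ R} s s' :=
        lk_list (A := {s | s ∈ A ∧ s ∈ R}) h5.adj (fun u hu => ⟨h5.col u hu, h6 u hu⟩) hs1 hs1'
      have t2 : Lk M {s | s ∈ A ∧ s ∈ R} s' u :=
        lk_list (A := {s | s ∈ A ∧ s ∈ R}) h7.adj (fun u hu => ⟨h7.col u hu, h8 u hu⟩) hs2' hu
      exact ((h4 s hs2).trans t1).trans t2
  obtain ⟨l', h3, h4⟩ := key 15 (by norm_num)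
  refine ⟨l'.getLast h3.ne, ?_, h4 _ (List.getLast_mem h3.ne)⟩
  have := h3.right
  push_cast at this
  linarith

/-! ### probability of the rope -/

theorem norm_mk_le (a b : ℝ) : ‖(⟨a, b⟩ : ℂ)‖ ≤ |a| + |b| := Complex.norm_le_abs_re_add_abs_im _

theorem zv_norm {η : ℝ} (he : ‖e‖ = η) (hk : k < 16) : ‖zv z e k‖ ≤ ‖z‖ + 1600 * η := by
  have h0 : 0 ≤ η := he ▸ norm_nonneg e
  have h4 := cast_lt hk
  have h5 : (0 : ℝ) ≤ k := Nat.cast_nonneg k
  push_cast at h4
  have h1 : ‖(⟨55, 100 * k - 6⟩ : ℂ)‖ ≤ 1600 := by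
    refine (norm_mk_le _ _).trans ?_
    have h2 : |(55 : ℝ)| = 55 := abs_of_pos (by norm_num)
    have h3 : |(100 * k - 6 : ℝ)| ≤ 1500 := abs_le.2 ⟨by linarith, by linarith⟩
    linarith
  unfold zv
  refine (norm_add_le _ _).trans ?_
  rw [norm_mul, he]
  nlinarith

theorem zh_norm {η : ℝ} (he : ‖e‖ = η) (hk : k < 15) : ‖zh z e k‖ ≤ ‖z‖ + 1600 * η := by
  have h0 : 0 ≤ η := he ▸ norm_nonneg e
  have h4 := cast_lt hk
  have h5 : (0 : ℝ) ≤ k := Nat.cast_nonneg k
  push_cast at h4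
  have h1 : ‖(⟨30, 100 * k + 114⟩ : ℂ)‖ ≤ 1600 := by
    refine (norm_mk_le _ _).trans ?_
    have h2 : |(30 : ℝ)| = 30 := abs_of_pos (by norm_num)
    have h3 : |(100 * k + 114 : ℝ)| ≤ 1520 := abs_le.2 ⟨by linarith, by linarith⟩
    linarith
  unfold zh
  refine (norm_add_le _ _).trans ?_
  rw [norm_mul, he]
  nlinarith

theorem zv'_norm {η : ℝ} (he : ‖e‖ = η) (hk : k < 16) : ‖zv' z e k‖ ≤ ‖z‖ + 1800 * η := by
  have h0 : 0 ≤ η := he ▸ norm_nonneg e
  have h1 := zv_norm (z := z) he hk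
  unfold zv'
  refine (norm_add_le _ _).trans ?_
  have h2 : ‖((150 / 2 : ℝ) : ℂ) * (e * Complex.I + e * Complex.I)‖ = 150 * η := by
    rw [← two_mul, norm_mul, norm_mul, norm_mul, he, Complex.norm_I, Complex.norm_real]
    norm_num
    ring
  rw [h2]
  linarith

theorem zh'_norm {η : ℝ} (he : ‖e‖ = η) (hk : k < 15) : ‖zh' z e k‖ ≤ ‖z‖ + 1800 * η := by
  have h0 : 0 ≤ η := he ▸ norm_nonneg e
  have h1 := zh_norm (z := z) he hk
  unfold zh'
  refine (norm_add_le _ _).trans ?_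
  have h2 : ‖((40 / 2 : ℝ) : ℂ) * (e + e)‖ = 40 * η := by
    rw [← two_mul, norm_mul, norm_mul, he, Complex.norm_real]
    norm_num
    ring
  rw [h2]
  linarith

/-- **probability of the rope** -/
theorem rope_pr {p c1 c2 K : ℝ} (hp : 0 ≤ p) (H : MidH p c1 c2 K) {R0 ε d η : ℝ} {ω : Sample}
    (hG : Gm R0 ε d K c2 η ω) (hd : 0 < d) (hd1 : d ≤ c1 * η) (hη : 0 < η) (hη1 : 10 * η ≤ 1)
    (he : ‖e‖ = η) (hR : ‖z‖ + 1800 * η + (K + 1) * (5 * η) + 2 * d ≤ R0) {D : Set ℂ}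
    (hD : ∀ w ∈ Co z e, ∀ s, ‖s - w‖ < 2 * d → s ∈ D) (hM : ∀ s ∈ D, (s ∈ M ↔ s ∈ points ε ω))
    (hV : ∀ s ∈ D, s ∈ points ε ω → s ∈ V) :
    p ^ 31 ≤ pr V fun τ => Rope M z e (V \ τ) := by
  have he0 : e ≠ 0 := by rintro rfl; rw [norm_zero] at he; linarith
  have heI : ‖e * Complex.I‖ = η := by rw [norm_mul, Complex.norm_I, mul_one, he]
  set E : ℕ → Finset ℂ → Prop := fun i => if i < 16 then
    MidW M 150 (zv z e i) (e * Complex.I) (zv' z e i) (e * Complex.I)
    else MidW M 40 (zh z e (i - 16)) e (zh' z e (i - 16)) e with hE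
  have e1 : ∀ i, i < 16 → E i =
      MidW M 150 (zv z e i) (e * Complex.I) (zv' z e i) (e * Complex.I) := fun i hi => if_pos hi
  have e2 : ∀ i, ¬ i < 16 → E i = MidW M 40 (zh z e (i - 16)) e (zh' z e (i - 16)) e :=
    fun i hi => if_neg hi
  have h1 : ∀ i < 31, p ≤ pr V fun τ => E i (V \ τ) := by
    intro i hi
    by_cases h16 : i < 16
    · rw [e1 i h16]
      exact (H R0 ε d η 150 ω _ _ _ _ hG hd hd1 hη hη1 (by norm_num) (by norm_num) heI (fr_v z e i)
        (by linarith [zv_norm (z := z) he h16]) (by linarith [zv'_norm (z := z) he h16]) D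
        (fun w h2 h3 s hs => hD w (v_co he0 h16 h2 h3) s hs) M V hM hV).2
    · rw [e2 i h16]
      have h15 : i - 16 < 15 := by omega
      exact (H R0 ε d η 40 ω _ _ _ _ hG hd hd1 hη hη1 (by norm_num) (by norm_num) he
        (fr_h z e (i - 16)) (by linarith [zh_norm (z := z) he h15])
        (by linarith [zh'_norm (z := z) he h15]) D
        (fun w h2 h3 s hs => hD w (h_co he0 h15 h2 h3) s hs) M V hM hV).2
  refine (harris_n hp (fun i => ?_) 31 h1).trans (pr_mono fun τ _ h2 => ⟨fun k hk => ?_, fun k hk => ?_⟩)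
  · simp only [hE]
    split_ifs
    · exact mo_midW
    · exact mo_midW
  · have := h2 k (by omega)
    rwa [e1 k hk] at this
  · have := h2 (k + 16) (by omega)
    rwa [e2 (k + 16) (by omega), Nat.add_sub_cancel] at this

end Crest.Agent.R143.ArmAx345
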