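import Crest.Agent.R143.PosF_653

/-!
# Row 143 (S0194), block H, [R1] arm box: the annealed step with any number of gates (helper795)

* `tileN` : 653's `tile'` for any finite family of gates: quenched bound `p` given that all half
  events are `≥ a`, all annealed half events `≥ a + b` ⟹ `p (b^n - d) ≤ Rs ε C F S`
* `aeposN` : the almost sure form (general position and one colour per position are forced)
-/

set_option autoImplicit false

noncomputable section

open scoped Classical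

namespace Crest.Agent.R143.ArmAx795

open MeasureTheory Set ProbabilityTheory
open Crest.ProbabilityR.Voronoi
open Crest.Agent.R143.B0x346 (GP)
open Crest.Agent.R143.PP0x831 Crest.Agent.R143.Poisx304 Crest.Agent.R143.Janx304
open Crest.Agent.R143.IndLocx279 Crest.Agent.R143.IndLoc2x279 Crest.Agent.R143.IndLoc3x279
open Crest.Agent.R143.IndLoc4x279 Crest.Agent.R143.PWx978 Crest.Agent.R143.Tplx978
open Crest.Agent.R143.Fairx653 Crest.Agent.R143.GPmx653 Crest.Agent.R143.TplIx204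
open Crest.Agent.R143.Posx653
open Crest.Agent.R143.Harx315 (pr nb)
open scoped ENNReal

variable {ε : ℝ} {C : Set ℂ} {ι : Type*} {s : Finset ι} {Bg Cg : ι → Set ℂ}

/-- independence of the positions in finitely many disjoint regions -/
theorem indN (hε : 0 < ε) (s : Finset ι) (hm : ∀ i ∈ s, MeasurableSet (Cg i))
    (hb : ∀ i ∈ s, Bornology.IsBounded (Cg i))
    (hd : ∀ i ∈ s, ∀ j ∈ s, i ≠ j → Disjoint (Cg i) (Cg j)) {f : ι → Set ℂ → ℝ≥0∞}
    (hf : ∀ i ∈ s, FM (f i)) (a : ℝ≥0∞) :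
    sampleLaw {ω | ∀ i ∈ s, a ≤ f i (points ε ω ∩ Cg i)} =
      ∏ i ∈ s, sampleLaw {ω | a ≤ f i (points ε ω ∩ Cg i)} := by
  have h := meas_biInter hε s hm hb hd (p := fun i X => a ≤ f i (psn X ∩ Cg i))
    (fun i hi => ps_local (fun P => a ≤ f i P) (Cg i))
    (fun i hi => ?_)
  · simp only [psn_cfg] at h
    exact h
  · intro n
    have h2 := ps_measX (fun n => hf i hi n) (hm i hi) n
    exact measurableSet_setOfPred.1 (measurableSet_le measurable_const h2)

/-- **annealed lower bound of a box given finitely many good gates** -/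
theorem tileN (hε : 0 < ε) (hC : MeasurableSet C) (hCb : Bornology.IsBounded C) (s : Finset ι)
    (hm : ∀ i ∈ s, MeasurableSet (Cg i))
    (hd : ∀ i ∈ s, ∀ j ∈ s, i ≠ j → Disjoint (Cg i) (Cg j)) (hsC : ∀ i ∈ s, Cg i ⊆ C)
    (hB : ∀ i ∈ s, Disjoint (Bg i) C) {H : ι → Cf → ℝ≥0∞} {F : Cf → ℝ≥0∞}
    (hl : ∀ i ∈ s, LocalOn (Bg i ∪ Cg i) (H i)) (hF : FinMeas F)
    (hH : ∀ i ∈ s, FinMeas (H i)) (h1 : ∀ i ∈ s, ∀ X, H i X ≤ 1) {S : Cf} (hS : S.Finite)
    {a b p d : ℝ≥0∞} (hR : ∀ i ∈ s, a + b ≤ Rs ε (Cg i) (H i) S) {Gm : Set Sample}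
    (hGm : sampleLaw Gmᶜ ≤ d)
    (hq : ∀ ω ∈ Gm, (∀ i ∈ s, a ≤ qn C (H i) S (points ε ω ∩ C)) →
      p ≤ qn C F S (points ε ω ∩ C)) :
    p * (b ^ s.card - d) ≤ Rs ε C F S := by
  have hbb : ∀ i ∈ s, Bornology.IsBounded (Cg i) := fun i hi => hCb.subset (hsC i hi)
  set A : Set Sample := {ω | ∀ i ∈ s, a ≤ qn (Cg i) (H i) S (points ε ω ∩ Cg i)} with hA
  have m1 : b ^ s.card ≤ sampleLaw A := by
    have h2 : sampleLaw A =
        ∏ i ∈ s, sampleLaw {ω | a ≤ qn (Cg i) (H i) S (points ε ω ∩ Cg i)} :=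
      indN hε s hm hbb hd (f := fun i P => qn (Cg i) (H i) S P)
        (fun i hi => qn_fm (hH i hi) hS) a
    rw [h2, ← Finset.prod_const]
    exact Finset.prod_le_prod' fun i hi =>
      Rs_mk hε (hm i hi) (hbb i hi) (hH i hi) (h1 i hi) hS (hR i hi)
  have m4 : b ^ s.card - d ≤ sampleLaw (A ∩ Gm) := by
    rw [tsub_le_iff_right]
    calc b ^ s.card ≤ sampleLaw A := m1
      _ ≤ sampleLaw (A ∩ Gm ∪ Gmᶜ) := by
          refine measure_mono fun ω hω => ?_
          by_cases h : ω ∈ Gm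
          · exact Or.inl ⟨hω, h⟩
          · exact Or.inr h
      _ ≤ sampleLaw (A ∩ Gm) + sampleLaw Gmᶜ := measure_union_le _ _
      _ ≤ sampleLaw (A ∩ Gm) + d := add_le_add_right hGm _
  refine (mul_le_mul_right m4 p).trans (Rs_ge hε hC hCb hF hS ?_)
  rintro ω ⟨hω1, hω2⟩
  refine hq ω hω2 fun i hi => ?_
  rw [qn_drop (hl i hi) (hB i hi) (hsC i hi) inter_subset_right (pts_fin hε hCb ω), inter_assoc,
    inter_eq_right.2 (hsC i hi)]
  exact hω1 i hi

/-- **the lower bound of a box given good gates, almost surely**. `K i` : gate darts, `H i` : half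
events (regions `Cg i`), `E` : event of the box -/
theorem aeposN (hε : 0 < ε) (hC : MeasurableSet C) (hCb : Bornology.IsBounded C) (s : Finset ι)
    (hBm : ∀ i ∈ s, MeasurableSet (Bg i)) (hBb : ∀ i ∈ s, Bornology.IsBounded (Bg i))
    (hm : ∀ i ∈ s, MeasurableSet (Cg i))
    (hd : ∀ i ∈ s, ∀ j ∈ s, i ≠ j → Disjoint (Cg i) (Cg j)) (hsC : ∀ i ∈ s, Cg i ⊆ C)
    (hB : ∀ i ∈ s, Disjoint (Bg i) C) {K H : ι → Cf → Prop} {E : Cf → Prop}
    (hK : ∀ i ∈ s, LocalOn (Bg i) (K i))
    (hl : ∀ i ∈ s, LocalOn (Bg i ∪ Cg i) (H i)) (hH : ∀ i ∈ s, FinMeas (H i))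
    (hE : LocalOn ((⋃ i ∈ s, Bg i) ∪ C) E) (hEm : FinMeas E) {a p : ℝ} (hp : p ≤ 1)
    {Gm : Set Sample} {d : ℝ≥0∞} (hGm : sampleLaw Gmᶜ ≤ d)
    (hq : ∀ ω ∈ Gm, ∀ S : Cf, S.Finite → S ⊆ ovr (⋃ i ∈ s, Bg i) → Sc S →
      GP (psn S ∪ (points ε ω ∩ C)) → (∀ i ∈ s, K i S) →
      (∀ i ∈ s, a ≤ pr (fs (points ε ω ∩ C)) fun τ => H i (S ∪ clr (fs (points ε ω ∩ C)) τ)) →
      p ≤ pr (fs (points ε ω ∩ C)) fun τ => E (S ∪ clr (fs (points ε ω ∩ C)) τ)) :
    ∀ᵐ ω ∂sampleLaw, (∀ i ∈ s, K i (cfg ε ω)) →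
      (∀ i ∈ s, ENNReal.ofReal a + ENNReal.ofReal a ≤
        Rs ε (Cg i) (fun X => ind (H i X)) (cfg ε ω)) →
      ENNReal.ofReal p * (ENNReal.ofReal a ^ s.card - d) ≤
        Rs ε C (fun X => ind (E X)) (cfg ε ω) := by
  set a' := ENNReal.ofReal a with ha'
  set B : Set ℂ := ⋃ i ∈ s, Bg i with hBdef
  have hBsub : ∀ i ∈ s, Bg i ⊆ B := fun i hi => subset_biUnion_of_mem (u := fun i => Bg i) hi
  have hBmeas : MeasurableSet B := Finset.measurableSet_biUnion s hBm
  have hBbdd : Bornology.IsBounded B := (Bornology.isBounded_biUnion_finset s).2 hBb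
  have hBC : Disjoint B C := by
    rw [hBdef, Set.disjoint_iUnion₂_left]
    exact hB
  have hZm : MeasurableSet (B ∪ C) := hBmeas.union hC
  have hZb : Bornology.IsBounded (B ∪ C) := hBbdd.union hCb
  have hli : ∀ i ∈ s, LocalOn (Bg i ∪ Cg i) fun X => ind (H i X) := fun i hi =>
    ind_local (hl i hi)
  set A : Cf → Prop := fun S => (∀ i ∈ s, K i S) ∧
    ∀ i ∈ s, a' + a' ≤ Rs ε (Cg i) (fun X => ind (H i X)) S with hA
  have hEl : LocalOn (B ∪ C) fun X => ind (E X) := ind_local hE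
  have hEf : FinMeas fun X => ind (E X) := ind_fm hEm
  have key : ∀ᵐ ω ∂sampleLaw, A (cfg ε ω) →
      ENNReal.ofReal p * (a' ^ s.card - d) ≤ Rs ε C (fun X => ind (E X)) (cfg ε ω) := by
    refine force_of (D := B ∪ C) hε hBmeas hBbdd hZm hZb hC hCb hBC subset_rfl hEl hEf ?_ ?_
    · intro S S' hSS h
      have e1 : ∀ i ∈ s, S ∩ ovr (Bg i) = S' ∩ ovr (Bg i) := by
        intro i hi
        have := congrArg (fun X => X ∩ ovr (Bg i)) hSS
        simp only [inter_assoc] at this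
        have e : ovr B ∩ ovr (Bg i) = ovr (Bg i) := by
          ext q
          simp only [ovr, mem_inter_iff, mem_ofPred_eq]
          exact ⟨fun h => h.2, fun h => ⟨hBsub i hi h, h⟩⟩
        rwa [e] at this
      refine ⟨fun i hi => ?_, fun i hi => ?_⟩
      · have e2 : K i S = K i S' := local_eq' (hK i hi) (e1 i hi)
        exact e2 ▸ h.1 i hi
      · rw [← Rs_local' (hli i hi) (e1 i hi) (Disjoint.mono_right (hsC i hi) (hB i hi))]
        exact h.2 i hi
    · intro S hS hSB hSc hAS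
      have hm' : FinMeas fun X => ind (E X) + gpE (B ∪ C) X := fun n =>
        (hEf n).add (gpE_fm hZm n)
      refine tileN (Bg := Bg) hε hC hCb s hm hd hsC hB hli hm'
        (fun i hi => ind_fm (hH i hi)) (fun i _ X => ind_le _) hS hAS.2 hGm ?_
      intro ω hω h1
      set A0 : Set ℂ := points ε ω ∩ C with hA0
      set T : Finset ℂ := fs A0 with hT
      have hfin : A0.Finite := pts_fin hε hCb ω
      have eS : S ∩ ovr Cᶜ = S := by
        rw [inter_eq_left]
        intro q hq hq'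
        exact Set.disjoint_left.1 hBC (hSB hq) hq'
      have e1 : ∀ Q : Cf → Prop, qn C (fun X => ind (Q X)) S A0 =
          ENNReal.ofReal (pr T fun τ => Q (S ∪ clr T τ)) := by
        intro Q
        have := qn_pr (C := C) Q S A0
        rw [eS] at this
        exact this
      have h1' : ∀ i ∈ s, a ≤ pr T fun τ => H i (S ∪ clr T τ) := by
        intro i hi
        have h2 := h1 i hi
        rw [e1] at h2
        exact (ENNReal.ofReal_le_ofReal_iff (Harx315.pr_nonneg)).1 h2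
      by_cases hgp : GP (psn S ∪ A0)
      · have h3 := hq ω hω S hS hSB hSc hgp hAS.1 h1'
        calc ENNReal.ofReal p ≤ qn C (fun X => ind (E X)) S A0 := by
              rw [e1]; exact ENNReal.ofReal_le_ofReal h3
          _ ≤ _ := qn_mono (fun X => le_self_add) S A0
      · refine (ENNReal.ofReal_le_one.2 hp).trans ?_
        unfold qn
        refine cavE_one fun τ _ => ?_
        rw [eS]
        have e4 : psn (S ∪ clr (fs A0) τ) ∩ (B ∪ C) = psn S ∪ A0 := by
          have e5 : psn (S ∪ clr (fs A0) τ) = psn S ∪ A0 := by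
            unfold psn
            rw [image_union]
            have := psn_clr (fs A0) τ
            unfold psn at this
            rw [this, fs_fin hfin]
          rw [e5, inter_eq_left]
          rintro z (hz | hz)
          · obtain ⟨q, hq, rfl⟩ := hz
            exact Or.inl (hSB hq)
          · exact Or.inr hz.2
        have e6 : gpE (B ∪ C) (S ∪ clr (fs A0) τ) = 1 := by
          unfold gpE
          rw [e4, if_neg hgp]
        show 1 ≤ ind (E (S ∪ clr (fs A0) τ)) + gpE (B ∪ C) (S ∪ clr (fs A0) τ)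
        rw [e6]
        exact le_add_self
  filter_upwards [key] with ω hω h1 h2
  exact hω ⟨h1, h2⟩

end Crest.Agent.R143.ArmAx795
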