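import Crest.Agent.R143.TQ_653
import Crest.Agent.R143.ArmA_345

/-!
# Row 143, block H, box R1 (ARM BOX), quenched bound (helper345)

Four gates: `0`, `100 η` (tile of the closed path `W`, full) and `1000 η I`, `100 η + 1000 η I` (tile of
the white path `W'`), unit `η`, direction `1`.
* `hx_pt`, `hx_pt_mv` : a half event of the configuration `X ∪ clr T τ`, pointwise, for an arbitrary
  triangulation `M` which agrees with all sites near the gate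
* `rh_pt`, `lh_pt` : the literal half events in a frame
-/

set_option autoImplicit false

noncomputable section

open scoped Classical

namespace Crest.Agent.R143.ArmBx345

open MeasureTheory Set ProbabilityTheory Filter Topology
open Crest.ProbabilityR.Voronoi
open Crest.Agent.R143.B0x346 (GP)
open Crest.Agent.R143.PP0x831 Crest.Agent.R143.Poisx304 Crest.Agent.R143.Janx304
open Crest.Agent.R143.IndLocx279 Crest.Agent.R143.IndLoc3x279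
open Crest.Agent.R143.PWx978 Crest.Agent.R143.Tplx978
open Crest.Agent.R143.Fairx653 Crest.Agent.R143.Posx653 Crest.Agent.R143.TplIx204
open Crest.Agent.R143.QTbx653 Crest.Agent.R143.CBx838
open Crest.Agent.R143.PthFx765 Crest.Agent.R143.WLocx713 Crest.Agent.R143.TileRx228
open Crest.Agent.R143.Harx315 (pr pr_mono Dn harris_dn pr_nonneg)
open Crest.Agent.R143.PP1x831 (rad)
open Crest.Agent.R143.Locx922 (Hol Agr)
open Crest.Agent.R143.Gatex838 Crest.Agent.R143.TileRRx345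
open Crest.Agent.R143.Neckx921 (Tile Lk lk_list)
open Crest.Agent.R143.Thetax73 (Su theta_ge Gd)
open Crest.Agent.R143.RHx73
open Crest.Agent.R143.Halfx73 (g0 ZR ZL RH LH Q0 WQ_Q0 gS gB gB_sub KBR KWR KBL KWL net net_near
  KR_bdd KL_bdd bxR bxL nearR nearL zbR zwR zbL zwL cut_eq HX_mv hf_scale mem_sx)
open Crest.Agent.R143.Prodx609 Crest.Agent.R143.FinMx609 Crest.Agent.R143.FinM2x609
open Crest.Agent.R143.PosFx653 Crest.Agent.R143.ArmAx345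

variable {η d a ε : ℝ}

/-! ### half events, pointwise -/

/-- **half event of `X ∪ clr T τ`**, for a triangulation `M` which agrees with the sites in `Q ∪ C1` -/
theorem hx_pt {g : GPar} {Z : LZ} {Q Kb Kw C1 : Set ℂ} {F : Finset ℂ} {r d : ℝ} {X : Cf}
    {T τ M : Finset ℂ} (hX : X.Finite) (hc : Sc X) (hXC : ∀ s ∈ ps X, s ∉ C1)
    (hTQ : ∀ s ∈ T, s ∉ Q) (hτ : τ ⊆ T) (hd : 0 < d)
    (hF : ∀ w ∈ Kb ∪ Kw, ∀ z, ‖z - w‖ ≤ d → ∃ f ∈ F, ‖f - z‖ ≤ d - r)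
    (hK : ∀ w ∈ Kb ∪ Kw, ∀ s, ‖s - w‖ < 2 * d → s ∈ Q ∪ C1)
    (hM : ∀ s ∈ Q ∪ C1, (s ∈ M ↔ s ∈ sx X ∪ T))
    (zb : Zn g.z0 g.e Z.l0 Z.l1 Z.p0 Z.p1 Z.m ⊆ Kb) (zw : Zn g.z0 g.e Z.l0 Z.l1 Z.q0 Z.q1 Z.m ⊆ Kw)
    (h : HX g Z Q Kb Kw F r ((X ∪ clr T τ) ∩ ovr (Q ∪ C1))) :
    Hf M g.z0 g.e Z.l0 Z.l1 Z.q0 Z.q1 Z.m Kw (Pw g Q (clr (gS X Q) (gB X Q)))
      ((gS X Q ∪ T) \ (τ ∪ gB X Q)) ∧
    Hf M g.z0 g.e Z.l0 Z.l1 Z.p0 Z.p1 Z.m Kb (Pb g Q (clr (gS X Q) (gB X Q))) (τ ∪ gB X Q) := by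
  set G := gS X Q with hG
  set q := gB X Q with hq
  set T1 := T.filter (· ∈ C1) with hT1
  have hGm : ∀ s ∈ G, s ∈ Q := fun s hs => (Finset.mem_filter.1 hs).2
  have hGT : ∀ s ∈ G, s ∉ T := fun s hs h1 => hTQ s h1 (hGm s hs)
  have hqG : q ⊆ G := gB_sub hX Q
  have hT1s : T1 ⊆ T := Finset.filter_subset _ _
  rw [cut_eq hX hc hXC hTQ hτ, HX_clr hGm (fun s hs => hTQ s (hT1s hs)) hqG
    Finset.inter_subset_right] at h
  obtain ⟨h1, h2, h3⟩ := h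
  have hH : Hol ((G ∪ T1 : Finset ℂ) : Set ℂ) (Kb ∪ Kw) d := Dg.hol h1 hF
  have hA : Agr ((G ∪ T1 : Finset ℂ) : Set ℂ) (M : Set ℂ) (Kb ∪ Kw) (2 * d) := by
    intro w hw s hs
    have h4 := hK w hw s hs
    rw [Finset.mem_coe, Finset.mem_coe, hM s h4]
    simp only [hG, hT1, gS, Finset.mem_union, Finset.mem_filter]
    constructor
    · rintro (h2 | h2)
      · exact Or.inl h2.1
      · exact Or.inr h2.1
    · rintro (h2 | h2)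
      · refine Or.inl ⟨h2, h4.resolve_right fun h3 => hXC s ((mem_sx hX).1 h2) h3⟩
      · exact Or.inr ⟨h2, h4.resolve_left (hTQ s h2)⟩
  refine ⟨Hf.up hd (hH.mono subset_union_right) (fun w hw => hA w (Or.inr hw)) ?_
    (fun s _ a1 a2 a3 a4 => zw ⟨⟨a1, a2⟩, a3, a4⟩) h3,
    Hf.up hd (hH.mono subset_union_left) (fun w hw => hA w (Or.inl hw)) ?_
    (fun s _ a1 a2 a3 a4 => zb ⟨⟨a1, a2⟩, a3, a4⟩) h2⟩
  · intro s hs
    simp only [Finset.mem_sdiff, Finset.mem_union, Finset.mem_inter, not_or, not_and] at hs ⊢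
    obtain ⟨h4, h5, h6⟩ := hs
    refine ⟨h4.imp id fun h7 => hT1s h7, fun h7 => ?_, h5⟩
    rcases h4 with h8 | h8
    · exact hGT s h8 (hτ h7)
    · exact h6 h7 h8
  · intro s hs
    rw [Finset.mem_union] at hs ⊢
    rcases hs with h4 | h4
    · exact Or.inr h4
    · exact Or.inl (Finset.mem_inter.1 h4).1

/-- the same in a frame -/
theorem hx_pt_mv {φ : ℂ ≃ ℂ} {c : ℂ} (hφ : CovBx126.Mo φ c) {g : GPar} {Z : LZ}
    {Q Kb Kw C1 : Set ℂ} {F : Finset ℂ} {r d : ℝ} {X : Cf}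
    {T τ M : Finset ℂ} (hX : X.Finite) (hc : Sc X) (hXC : ∀ s ∈ ps X, φ.symm s ∉ C1)
    (hTQ : ∀ s ∈ T, φ.symm s ∉ Q) (hτ : τ ⊆ T) (hd : 0 < d)
    (hF : ∀ w ∈ Kb ∪ Kw, ∀ z, ‖z - w‖ ≤ d → ∃ f ∈ F, ‖f - z‖ ≤ d - r)
    (hK : ∀ w ∈ Kb ∪ Kw, ∀ s, ‖s - w‖ < 2 * d → s ∈ Q ∪ C1)
    (hM : ∀ s, φ.symm s ∈ Q ∪ C1 → (s ∈ M ↔ s ∈ sx X ∪ T))
    (zb : Zn g.z0 g.e Z.l0 Z.l1 Z.p0 Z.p1 Z.m ⊆ Kb) (zw : Zn g.z0 g.e Z.l0 Z.l1 Z.q0 Z.q1 Z.m ⊆ Kw)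
    (h : HX g Z Q Kb Kw F r (mvX φ.symm (X ∪ clr T τ) ∩ ovr (Q ∪ C1))) :
    Hf M (φ g.z0) (c * g.e) Z.l0 Z.l1 Z.q0 Z.q1 Z.m (φ.symm ⁻¹' Kw)
      (Pw (g.mv φ c) (φ.symm ⁻¹' Q) (clr (gS X (φ.symm ⁻¹' Q)) (gB X (φ.symm ⁻¹' Q))))
      ((gS X (φ.symm ⁻¹' Q) ∪ T) \ (τ ∪ gB X (φ.symm ⁻¹' Q))) ∧
    Hf M (φ g.z0) (c * g.e) Z.l0 Z.l1 Z.p0 Z.p1 Z.m (φ.symm ⁻¹' Kb)
      (Pb (g.mv φ c) (φ.symm ⁻¹' Q) (clr (gS X (φ.symm ⁻¹' Q)) (gB X (φ.symm ⁻¹' Q))))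
      (τ ∪ gB X (φ.symm ⁻¹' Q)) := by
  have hiso : ∀ z w : ℂ, ‖φ z - φ w‖ = ‖z - w‖ := fun z w => by
    rw [hφ.sub, norm_mul, hφ.ne, one_mul]
  have hzn : ∀ {p0 p1 : ℝ} {K : Set ℂ}, Zn g.z0 g.e Z.l0 Z.l1 p0 p1 Z.m ⊆ K →
      Zn (g.mv φ c).z0 (g.mv φ c).e Z.l0 Z.l1 p0 p1 Z.m ⊆ φ.symm ⁻¹' K := by
    intro p0 p1 K hK s hs
    obtain ⟨s, rfl⟩ := φ.surjective s
    obtain ⟨⟨h1, h2⟩, h3, h4⟩ := hs
    change Z.l0 < Gatex838.X (φ g.z0) (c * g.e) (φ s) at h1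
    change Gatex838.X (φ g.z0) (c * g.e) (φ s) < Z.l1 at h2
    change p0 - Z.m ≤ Gatex838.Y (φ g.z0) (c * g.e) (φ s) at h3
    change Gatex838.Y (φ g.z0) (c * g.e) (φ s) ≤ p1 + Z.m at h4
    rw [WLocx713.X_mv hφ] at h1 h2
    rw [WLocx713.Y_mv hφ] at h3 h4
    rw [mem_preimage, φ.symm_apply_apply]
    exact hK ⟨⟨h1, h2⟩, h3, h4⟩
  refine hx_pt (g := g.mv φ c) (Z := Z) (Q := φ.symm ⁻¹' Q) (Kb := φ.symm ⁻¹' Kb)
    (Kw := φ.symm ⁻¹' Kw) (C1 := φ.symm ⁻¹' C1) (F := F.image φ) (r := r) (d := d) hX hc hXC hTQ hτ hd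
    ?_ ?_ ?_ (hzn zb) (hzn zw) ?_
  · intro w hw z hz
    obtain ⟨w, rfl⟩ := φ.surjective w
    obtain ⟨z, rfl⟩ := φ.surjective z
    rw [← preimage_union, mem_preimage, φ.symm_apply_apply] at hw
    rw [hiso] at hz
    obtain ⟨f, hf, h1⟩ := hF w hw z hz
    exact ⟨φ f, Finset.mem_image_of_mem _ hf, by rwa [hiso]⟩
  · intro w hw z hz
    obtain ⟨w, rfl⟩ := φ.surjective w
    obtain ⟨z, rfl⟩ := φ.surjective z
    rw [← preimage_union, mem_preimage, φ.symm_apply_apply] at hw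
    rw [hiso] at hz
    rw [← preimage_union, mem_preimage, φ.symm_apply_apply]
    exact hK w hw z hz
  · intro s hs
    rw [← preimage_union, mem_preimage] at hs
    exact hM s hs
  · have h2 := HX_mv hφ (Q' := φ.symm ⁻¹' Q) (Kb' := φ.symm ⁻¹' Kb) (Kw' := φ.symm ⁻¹' Kw)
      (fun s => by rw [mem_preimage, φ.symm_apply_apply])
      (fun s hs => by rwa [mem_preimage, φ.symm_apply_apply])
      (fun s hs => by rwa [mem_preimage, φ.symm_apply_apply]) h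
    have h3 : mvX φ (mvX φ.symm (X ∪ clr T τ) ∩ ovr (Q ∪ C1)) =
        (X ∪ clr T τ) ∩ ovr (φ.symm ⁻¹' Q ∪ φ.symm ⁻¹' C1) := by
      rw [← mvX_inter (φ := φ) (Q := Q ∪ C1) (Q' := φ.symm ⁻¹' (Q ∪ C1))
        (fun s => by rw [mem_preimage, φ.symm_apply_apply]), preimage_union]
      congr 1
      have h4 := mvX_symm (φ := φ.symm) (X := X ∪ clr T τ)
      rwa [φ.symm_symm] at h4
    rwa [h3] at h2

/-- **right half event in a frame, pointwise** -/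
theorem rh_pt {φ : ℂ ≃ ℂ} {c : ℂ} (hφ : CovBx126.Mo φ c) (hη : 0 < η) (hd : 0 < d)
    (hdη : 4 * d ≤ η) {X : Cf} {T τ M : Finset ℂ} (hX : X.Finite) (hc : Sc X)
    (hXC : ∀ s ∈ ps X, φ.symm s ∉ Halfx73.CR η) (hTQ : ∀ s ∈ T, φ.symm s ∉ Q0 η) (hτ : τ ⊆ T)
    (hM : ∀ s, φ.symm s ∈ Q0 η ∪ Halfx73.CR η → (s ∈ M ↔ s ∈ sx X ∪ T))
    (h : RH η d (mvX φ.symm (X ∪ clr T τ))) :
    Hf M (φ 0) ((η : ℂ) * c) 10 (101 / 10) 2 8 (1 / 20) (φ.symm ⁻¹' KWR η)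
      (Pw ((g0 η).mv φ c) (φ.symm ⁻¹' Q0 η)
        (clr (gS X (φ.symm ⁻¹' Q0 η)) (gB X (φ.symm ⁻¹' Q0 η))))
      ((gS X (φ.symm ⁻¹' Q0 η) ∪ T) \ (τ ∪ gB X (φ.symm ⁻¹' Q0 η))) ∧
    Hf M (φ 0) ((η : ℂ) * c) 10 (101 / 10) (-8) (-(47 / 10)) (1 / 20) (φ.symm ⁻¹' KBR η)
      (Pb ((g0 η).mv φ c) (φ.symm ⁻¹' Q0 η)
        (clr (gS X (φ.symm ⁻¹' Q0 η)) (gB X (φ.symm ⁻¹' Q0 η))))
      (τ ∪ gB X (φ.symm ⁻¹' Q0 η)) := by
  have h1 := hx_pt_mv hφ (g := g0 η) (Z := ZR η) (Q := Q0 η) (Kb := KBR η) (Kw := KWR η)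
    (C1 := Halfx73.CR η) (F := net (KBR η ∪ KWR η) d) (r := d / 2) (d := d) hX hc hXC hTQ hτ hd
    (net_near KR_bdd hd) (fun w hw s hs => bxR hη (nearR hη hw (by linarith))) hM (zbR hη) (zwR hη) h
  refine ⟨?_, ?_⟩
  · have h3 := hf_scale (z0 := φ 0) (e := c * 1) hη h1.1
    rwa [mul_one] at h3
  · have h3 := hf_scale (z0 := φ 0) (e := c * 1) hη h1.2
    rwa [mul_one] at h3

/-- **left half event in a frame, pointwise** -/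
theorem lh_pt {φ : ℂ ≃ ℂ} {c : ℂ} (hφ : CovBx126.Mo φ c) (hη : 0 < η) (hd : 0 < d)
    (hdη : 4 * d ≤ η) {X : Cf} {T τ M : Finset ℂ} (hX : X.Finite) (hc : Sc X)
    (hXC : ∀ s ∈ ps X, φ.symm s ∉ Halfx73.CL η) (hTQ : ∀ s ∈ T, φ.symm s ∉ Q0 η) (hτ : τ ⊆ T)
    (hM : ∀ s, φ.symm s ∈ Q0 η ∪ Halfx73.CL η → (s ∈ M ↔ s ∈ sx X ∪ T))
    (h : LH η d (mvX φ.symm (X ∪ clr T τ))) :
    Hf M (φ 0) ((η : ℂ) * c) (-(101 / 10)) (-10) 2 8 (1 / 20) (φ.symm ⁻¹' KWL η)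
      (Pw ((g0 η).mv φ c) (φ.symm ⁻¹' Q0 η)
        (clr (gS X (φ.symm ⁻¹' Q0 η)) (gB X (φ.symm ⁻¹' Q0 η))))
      ((gS X (φ.symm ⁻¹' Q0 η) ∪ T) \ (τ ∪ gB X (φ.symm ⁻¹' Q0 η))) ∧
    Hf M (φ 0) ((η : ℂ) * c) (-(101 / 10)) (-10) (-8) (-(47 / 10)) (1 / 20) (φ.symm ⁻¹' KBL η)
      (Pb ((g0 η).mv φ c) (φ.symm ⁻¹' Q0 η)
        (clr (gS X (φ.symm ⁻¹' Q0 η)) (gB X (φ.symm ⁻¹' Q0 η))))
      (τ ∪ gB X (φ.symm ⁻¹' Q0 η)) := by
  have h1 := hx_pt_mv hφ (g := g0 η) (Z := ZL η) (Q := Q0 η) (Kb := KBL η) (Kw := KWL η)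
    (C1 := Halfx73.CL η) (F := net (KBL η ∪ KWL η) d) (r := d / 2) (d := d) hX hc hXC hTQ hτ hd
    (net_near KL_bdd hd) (fun w hw s hs => bxL hη (nearL hη hw (by linarith))) hM (zbL hη) (zwL hη) h
  refine ⟨?_, ?_⟩
  · have h3 := hf_scale (z0 := φ 0) (e := c * 1) hη h1.1
    rwa [mul_one] at h3
  · have h3 := hf_scale (z0 := φ 0) (e := c * 1) hη h1.2
    rwa [mul_one] at h3

/-! ### geometry of the box -/

/-- the frame of the white tile above -/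
def up (η : ℝ) : Fr := Fr.aff (((1000 * η : ℝ) : ℂ) * Complex.I) 1 norm_one

/-- the column (links) -/
def Cl (η : ℝ) : Set ℂ := {z | (25 * η < z.re ∧ z.re < 75 * η) ∧ 0 < z.im ∧ z.im < 1700 * η}

/-- the column (points) -/
def Cu (η : ℝ) : Set ℂ := {z | (24 * η < z.re ∧ z.re < 76 * η) ∧ -η < z.im ∧ z.im < 1701 * η}

/-- centres of the gates -/
def v1 (η : ℝ) : ℂ := ((100 * η : ℝ) : ℂ)
def v3 (η : ℝ) : ℂ := ((1000 * η : ℝ) : ℂ) * Complex.I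
def v4 (η : ℝ) : ℂ := ((100 * η : ℝ) : ℂ) + ((1000 * η : ℝ) : ℂ) * Complex.I

theorem v1_re : (v1 η).re = 100 * η := by unfold v1; simp
theorem v1_im : (v1 η).im = 0 := by unfold v1; simp
theorem v3_re : (v3 η).re = 0 := by unfold v3; simp
theorem v3_im : (v3 η).im = 1000 * η := by unfold v3; simp
theorem v4_re : (v4 η).re = 100 * η := by unfold v4; simp
theorem v4_im : (v4 η).im = 1000 * η := by unfold v4; simp

theorem nx_zero : (nxt (100 * η) Tn.S).e 0 = v1 η := by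
  rw [nxt_apply, rot, v1]
  push_cast
  ring

theorem up_zero : (up η).e 0 = v3 η := by
  unfold up v3
  rw [Fr.aff_apply, mul_zero, add_zero]

theorem up_nx : (up η).e ((nxt (100 * η) Tn.S).e 0) = v4 η := by
  rw [nx_zero]
  unfold up v4 v1
  rw [Fr.aff_apply]
  ring

theorem up_symm (z : ℂ) : ((up η).e.symm z).re = z.re ∧ ((up η).e.symm z).im = z.im - 1000 * η := by
  unfold up
  rw [Fr.aff_symm]
  simp

theorem nx_symm (z : ℂ) : ((nxt (100 * η) Tn.S).e.symm z).re = z.re - 100 * η ∧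
    ((nxt (100 * η) Tn.S).e.symm z).im = z.im := by
  rw [nxt_symm, nx_zero, rot, div_one]
  constructor
  · rw [Complex.sub_re, v1_re]
  · rw [Complex.sub_im, v1_im, sub_zero]

theorem X_v (v s : ℂ) : X v (η : ℂ) s = (s.re - v.re) / η := by
  unfold X
  rw [Complex.div_ofReal_re, Complex.sub_re]

theorem Y_v (v s : ℂ) : Y v (η : ℂ) s = (s.im - v.im) / η := by
  unfold Y
  rw [Complex.div_ofReal_im, Complex.sub_im]

section mem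

variable (hε : 0 < ε) (hη : 0 < η)

/-- `P.Q` -/
theorem m_Q {z : ℂ} : z ∈ (Dx η d a ε hε hη).Q ↔ |z.re| < 2 * η ∧ |z.im| < 12 * η := by
  rw [dQ]; rfl

theorem m_Qn {z : ℂ} : z ∈ (Dx η d a ε hε hη).Qn Tn.S ↔ |z.re - 100 * η| < 2 * η ∧
    |z.im| < 12 * η := by
  show (nxt (100 * η) Tn.S).e.symm z ∈ (Dx η d a ε hε hη).Q ↔ _
  rw [m_Q, (nx_symm z).1, (nx_symm z).2]

theorem m_D {z : ℂ} : z ∈ (Dx η d a ε hε hη).D Tn.S ↔ (2 * η ≤ z.re ∧ z.re ≤ 98 * η) ∧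
    |z.im| < 12 * η := by
  show z ∈ WD (12 * η) (52 * η) (100 * η) Tn.S ↔ _
  unfold WD WR WQ
  simp only [Set.mem_sdiff, mem_ofPred_eq, mem_union, mem_preimage, (nx_symm z).1, (nx_symm z).2,
    not_or, not_and, not_lt]
  constructor
  · rintro ⟨h1, h2, h3⟩
    have h4 : |z.im| < 12 * η := by
      rcases h1 with h1 | h1
      · exact h1.2
      · exact h1.2
    refine ⟨⟨?_, ?_⟩, h4⟩
    · by_contra h5
      rcases h1 with h1 | h1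
      · have h6 : |z.re| < 52 * η - 100 * η / 2 := by
          rw [abs_lt]
          constructor <;> linarith [h1.1.1]
        linarith [h2 h6]
      · linarith [h1.1.1]
    · by_contra h5
      rcases h1 with h1 | h1
      · linarith [h1.1.2]
      · have h6 : |z.re - 100 * η| < 52 * η - 100 * η / 2 := by
          rw [abs_lt]
          constructor <;> linarith [h1.1.2]
        linarith [h3 h6]
  · rintro ⟨⟨h1, h2⟩, h3⟩
    refine ⟨?_, fun h4 => ?_, fun h4 => ?_⟩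
    · rcases lt_or_ge z.re (60 * η) with h5 | h5
      · exact Or.inl ⟨⟨by linarith, by linarith⟩, h3⟩
      · exact Or.inr ⟨⟨by linarith, by linarith⟩, h3⟩
    · rw [abs_lt] at h4
      linarith
    · rw [abs_lt] at h4
      linarith

theorem m_WR {z : ℂ} (h1 : -η < z.re) (h2 : z.re < 101 * η) (h3 : |z.im| < 9 * η) :
    z ∈ WR (9 * η) (51 * η) (100 * η) Tn.S := by
  rcases lt_or_ge z.re (59 * η) with h5 | h5
  · exact Or.inl ⟨⟨by linarith, by linarith⟩, h3⟩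
  · refine Or.inr ⟨⟨?_, ?_⟩, ?_⟩
    · rw [(nx_symm z).1]; linarith
    · rw [(nx_symm z).1]; linarith
    · rw [(nx_symm z).2]; exact h3

end mem

/-- the four gate boxes -/
def B4 (P : DT) (η : ℝ) : Set ℂ :=
  (P.Q ∪ P.Qn Tn.S) ∪ ((up η).e.symm ⁻¹' P.Q ∪ (up η).e.symm ⁻¹' P.Qn Tn.S)

/-- the free region -/
def CT (P : DT) (η : ℝ) : Set ℂ := (P.D Tn.S ∪ (up η).e.symm ⁻¹' P.D Tn.S) ∪ Cu η

/-- coordinates of the four boxes -/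
theorem b4 (hε : 0 < ε) (hη : 0 < η) {z : ℂ} : z ∈ B4 (Dx η d a ε hε hη) η ↔
    (|z.re| < 2 * η ∨ |z.re - 100 * η| < 2 * η) ∧ (|z.im| < 12 * η ∨ |z.im - 1000 * η| < 12 * η) := by
  unfold B4
  simp only [mem_union, mem_preimage, m_Q, m_Qn, (up_symm z).1, (up_symm z).2]
  tauto

/-- coordinates of the free region -/
theorem ct (hε : 0 < ε) (hη : 0 < η) {z : ℂ} : z ∈ CT (Dx η d a ε hε hη) η ↔
    ((2 * η ≤ z.re ∧ z.re ≤ 98 * η) ∧ (|z.im| < 12 * η ∨ |z.im - 1000 * η| < 12 * η)) ∨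
    (24 * η < z.re ∧ z.re < 76 * η) ∧ -η < z.im ∧ z.im < 1701 * η := by
  unfold CT Cu
  simp only [mem_union, mem_preimage, m_D, (up_symm z).1, (up_symm z).2, mem_ofPred_eq]
  tauto

theorem b4_ct (hε : 0 < ε) (hη : 0 < η) :
    Disjoint (B4 (Dx η d a ε hε hη) η) (CT (Dx η d a ε hε hη) η) := by
  rw [Set.disjoint_left]
  intro z h1 h2
  rw [b4] at h1
  rw [ct] at h2
  have h3 : 2 * η ≤ z.re ∧ z.re ≤ 98 * η := by
    rcases h2 with h2 | h2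
    · exact h2.1
    · constructor <;> linarith [h2.1.1, h2.1.2]
  rcases h1.1 with h4 | h4 <;> rw [abs_lt] at h4
  · linarith
  · linarith

end Crest.Agent.R143.ArmBx345
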