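import Crest.Agent.R143.ArmB_345

/-!
# Row 143, block H, box R1 (ARM BOX), the arm event (helper345)

* `AC A Fa St X` : white link inside `A` from the second site of a dart of `St` to a site in `Fa`
* `AC_fme`, `AC_cut`, `AC_mv`, `AC_gate_mv` : measurability, locality, covariance
* `ArmE P η` : **the arm of the gate in standard position**; `arm_fm`, `arm_local`, `arm_tr` (in a frame),
  `arm_tr'` (dense configurations)
-/

set_option autoImplicit false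

noncomputable section

open scoped Classical

namespace Crest.Agent.R143.ArmCx345

open MeasureTheory Set
open Crest.ProbabilityR.Voronoi
open Crest.Agent.R143.B0x346 Crest.Agent.R143.DelGx806 Crest.Agent.R143.DelRx806
  Crest.Agent.R143.JColx54
open Crest.Agent.R143.Locx922
open Crest.Agent.R143.Blkx838 (DE)
open Crest.Agent.R143.Neckx921 (Neck NeckD Tile Lk)
open Crest.Agent.R143.PP0x831 Crest.Agent.R143.Poisx304 Crest.Agent.R143.Janx304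
open Crest.Agent.R143.Prodx609 Crest.Agent.R143.FinMx609 Crest.Agent.R143.FinM2x609
open Crest.Agent.R143.CovBx126 (Mo)
open Crest.Agent.R143.IndLocx279
open Crest.Agent.R143.WLocx713 Crest.Agent.R143.PWx978 Crest.Agent.R143.Tplx978
open Crest.Agent.R143.TileRx228 Crest.Agent.R143.PthFx765
open Crest.Agent.R143.TplIx204 Crest.Agent.R143.ArmBx345
open scoped ENNReal

/-- **arm event** -/
def AC (A Fa : Set ℂ) (St : Set (ℂ × Bool) → ℂ × ℂ → Prop) (X : Set (ℂ × Bool)) : Prop :=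
  X.Finite ∧ ∃ p u, St X p ∧ u ∈ Fa ∧ Lk (sX X) {s | (s ∈ sX X ∧ s ∉ bX X) ∧ s ∈ A} p.2 u

section

variable {ι κ : Type*} [Finite ι] [Finite κ] {U : ι → Set ℂ} {R : κ → ℂ × ℂ × ℂ → Prop}
  {St : Set (ℂ × Bool) → ℂ × ℂ → Prop} {X : Set (ℂ × Bool)} {A Fa : Set ℂ} {d : ℝ}

theorem iso_ac {X X' : Set (ℂ × Bool)} {e : ℂ → ℂ} (hX : X.Finite) (hX' : X'.Finite)
    (he : PIso U R X X' e) {A A' : Set ℂ} (hA : ∀ s ∈ ps X, s ∈ A → e s ∈ A') {p : ℂ × ℂ} {u : ℂ}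
    (h2 : p.2 ∈ ps X) (h4 : u ∈ ps X)
    (h : Lk (sX X) {s | (s ∈ sX X ∧ s ∉ bX X) ∧ s ∈ A} p.2 u) :
    Lk (sX X') {s | (s ∈ sX X' ∧ s ∉ bX X') ∧ s ∈ A'} (e p.2) (e u) := by
  refine iso_lk hX hX' he ?_ h2 h4 h
  rintro s hs ⟨⟨h5, h6⟩, h7⟩
  exact ⟨⟨(iso_sX hX hX' he hs).1 h5, fun h => h6 ((iso_bX hX hX' he hs).2 h)⟩, hA s hs h7⟩

theorem end_ps (hX : X.Finite) {u v : ℂ}
    (h : Lk (sX X) {s | (s ∈ sX X ∧ s ∉ bX X) ∧ s ∈ A} u v) : v ∈ ps X :=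
  (mem_sX hX).1 h.1.2.1.1

/-- **measurability** -/
theorem AC_fme (hU : ∀ a, MeasurableSet (U a)) (hR : ∀ a, MeasurableSet {t | R a t})
    (hSt : GInv U R St) (a b : ι) : FMe (AC (U a) (U b) St) := by
  refine finMeas_iso hU hR (P := AC (U a) (U b) St) ?_
  rintro X X' hX hX' e he ⟨-, p, u, hp, hu, h⟩
  have hu' := end_ps hX h
  exact ⟨hX', mp e p, e u, hSt.tr X X' hX hX' e he p hp, (he.loc u hu' b).1 hu,
    iso_ac hX hX' he (fun s hs h => (he.loc s hs a).1 h) (hSt.mem X p hp).2 hu' h⟩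

/-- **locality of the arm event** -/
theorem AC_cut (hX : X.Finite) (hd : 0 < d) (hH : Hol (ps X) A d) {R : Set ℂ}
    (hR : ∀ w ∈ A, ∀ s, ‖s - w‖ < 2 * d → s ∈ R)
    (hSt : ∀ p, St (X ∩ ovr R) p ↔ St X p) :
    AC A Fa St (X ∩ ovr R) ↔ AC A Fa St X := by
  have hY : (X ∩ ovr R).Finite := hX.subset inter_subset_left
  have hc : (sX (X ∩ ovr R) : Set ℂ) = ps X ∩ R := by rw [coe_sX hY, ps_inter]
  have hH' : Hol (sX X : Set ℂ) A d := by rw [coe_sX hX]; exact hH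
  have hA : Locx922.Agr (sX X : Set ℂ) (sX (X ∩ ovr R) : Set ℂ) A (2 * d) := by
    intro w hw s hs
    rw [hc, coe_sX hX]
    exact ⟨fun h => ⟨h, hR w hw s hs⟩, fun h => h.1⟩
  have hwR : ∀ s ∈ A, s ∈ R := fun s hs => hR s hs s (by simpa using hd)
  have mS : ∀ s ∈ A, (s ∈ sX X ↔ s ∈ sX (X ∩ ovr R)) := by
    intro s hs
    rw [mem_sX hX, mem_sX hY, ps_inter]
    exact ⟨fun h => ⟨h, hwR s hs⟩, fun h => h.1⟩
  have mB : ∀ s ∈ A, (s ∈ bX X ↔ s ∈ bX (X ∩ ovr R)) := by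
    intro s hs
    rw [mem_bX hX, mem_bX hY, ps_inter, cX_inter (hwR s hs)]
    exact ⟨fun h => ⟨⟨h.1, hwR s hs⟩, h.2⟩, fun h => ⟨h.1.1, h.2⟩⟩
  have key : ∀ (B B' : Set ℂ), (∀ u, u ∈ B ↔ u ∈ B') → (∀ u ∈ B, u ∈ A) → ∀ u v,
      (Lk (sX (X ∩ ovr R)) B' u v ↔ Lk (sX X) B u v) := by
    intro B B' hB hBA u v
    refine (lk_congr (fun a b => ?_) hB).symm
    constructor
    · rintro ⟨h1, h2, h3⟩
      exact ⟨(de_loc hd hH' hA (hBA a h2)).1 h1, (hB a).1 h2, (hB b).1 h3⟩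
    · rintro ⟨h1, h2, h3⟩
      have h2' := (hB a).2 h2
      exact ⟨(de_loc hd hH' hA (hBA a h2')).2 h1, h2', (hB b).2 h3⟩
  have k2 := key {s | (s ∈ sX X ∧ s ∉ bX X) ∧ s ∈ A}
    {s | (s ∈ sX (X ∩ ovr R) ∧ s ∉ bX (X ∩ ovr R)) ∧ s ∈ A}
    (fun u => by
      constructor
      · rintro ⟨⟨h1, h3⟩, h2⟩; exact ⟨⟨(mS u h2).1 h1, fun h => h3 ((mB u h2).2 h)⟩, h2⟩
      · rintro ⟨⟨h1, h3⟩, h2⟩; exact ⟨⟨(mS u h2).2 h1, fun h => h3 ((mB u h2).1 h)⟩, h2⟩)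
    (fun u h => h.2)
  unfold AC
  constructor
  · rintro ⟨-, p, u, hp, hu, h⟩
    exact ⟨hX, p, u, (hSt p).1 hp, hu, (k2 _ _).1 h⟩
  · rintro ⟨-, p, u, hp, hu, h⟩
    exact ⟨hY, p, u, (hSt p).2 hp, hu, (k2 _ _).2 h⟩

end

/-- **measurability for neck gates** -/
theorem AC_neck_fme {A Fa Q : Set ℂ} (hA : MeasurableSet A) (hFa : MeasurableSet Fa)
    (hQ : MeasurableSet Q) (g : GPar) : FMe (AC A Fa (LG g Q)) := by
  have h := AC_fme (UC_meas (UT_meas hFa hA hQ hQ g g)) (RT_meas g g)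
    (UT_LG (W := Fa) (A := A) (Q' := Q) g g) {Sum.inl 1} {Sum.inl 0}
  rw [UC_single, UC_single] at h
  exact h

section mv

variable {φ : ℂ ≃ ℂ} {c : ℂ} {X : Set (ℂ × Bool)}

theorem AC_mv_imp {X : Set (ℂ × Bool)} {φ : ℂ ≃ ℂ} {c : ℂ} (h : Mo φ c) {A A' Fa Fa' : Set ℂ}
    {St St' : Set (ℂ × Bool) → ℂ × ℂ → Prop} (hA : ∀ s, φ s ∈ A' ↔ s ∈ A)
    (hF : ∀ s, φ s ∈ Fa' ↔ s ∈ Fa) (hSt : OnPs St) (h1 : ∀ p, St X p → St' (mvX φ X) (mp φ p))
    (ht : AC A Fa St X) : AC A' Fa' St' (mvX φ X) := by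
  obtain ⟨hX, p, u, hp, hu, ht⟩ := ht
  exact ⟨hX.image _, mp φ p, φ u, h1 p hp, (hF u).2 hu,
    iso_ac hX (hX.image _) (piso_mv h) (fun s _ hs => (hA s).2 hs) (hSt X p hp).2 (end_ps hX ht) ht⟩

/-- **covariance of the arm event** -/
theorem AC_mv (h : Mo φ c) {A A' Fa Fa' : Set ℂ} {St St' : Set (ℂ × Bool) → ℂ × ℂ → Prop}
    (hA : ∀ s, φ s ∈ A' ↔ s ∈ A) (hF : ∀ s, φ s ∈ Fa' ↔ s ∈ Fa) (hSt : OnPs St)
    (hSt' : OnPs St') (h1 : ∀ p, St' (mvX φ X) (mp φ p) ↔ St X p) :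
    AC A' Fa' St' (mvX φ X) ↔ AC A Fa St X := by
  refine ⟨fun ht => ?_, AC_mv_imp h hA hF hSt fun p => (h1 p).2⟩
  have h3 := AC_mv_imp (X := mvX φ X) (St' := St) (A' := A) (Fa' := Fa) (mo_symm h)
    (fun s => by rw [← hA, φ.apply_symm_apply]) (fun s => by rw [← hF, φ.apply_symm_apply]) hSt'
    (fun p hp => by
      rw [mvX_symm]
      rw [← h1, mp_symm']
      exact hp) ht
  rwa [mvX_symm] at h3

theorem AC_gate_mv (h : Mo φ c) (g : GPar) {A A' Fa Fa' Q Q' : Set ℂ}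
    (hA : ∀ s, φ s ∈ A' ↔ s ∈ A) (hF : ∀ s, φ s ∈ Fa' ↔ s ∈ Fa) (hQ : ∀ s, φ s ∈ Q' ↔ s ∈ Q) :
    AC A' Fa' (LG (g.mv φ c) Q') (mvX φ X) ↔ AC A Fa (LG g Q) X :=
  AC_mv h hA hF (LG_onPs g Q) (LG_onPs _ _) fun p => LG_mv h g hQ p

end mv

/-- the arm event in a frame -/
theorem AC_fr {f : Fr} {c : ℂ} {S : Cf} (hf : Mo f.e.toEquiv c) (g : GPar) (A Fa Q : Set ℂ) :
    AC (f.e.symm ⁻¹' A) (f.e.symm ⁻¹' Fa) (LG (g.mv f.e c) (f.e.symm ⁻¹' Q)) S ↔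
      AC A Fa (LG g Q) (mv f.e.symm S) := by
  have h := AC_gate_mv hf g (DT.symm_mem f A) (DT.symm_mem f Fa) (DT.symm_mem f Q)
    (X := mv f.e.symm S)
  rw [DT.mvX_self] at h
  exact h

/-! ### the arm in standard position -/

/-- the far side -/
def Fa (η : ℝ) : Set ℂ := {z | 1600 * η ≤ z.im}

/-- region of the links -/
def UA (P : DT) (η : ℝ) : Set ℂ := WR P.A P.B P.h Tn.S ∪ Cl η

/-- region of the points -/
def ZA (P : DT) (η : ℝ) : Set ℂ := P.Z Tn.S ∪ Cu η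

/-- **the arm of the gate**: white link from the second site of the selected dart to the far side -/
def ArmE (P : DT) (η : ℝ) (X : Cf) : Prop := AC (UA P η) (Fa η) (LG P.g P.Q) (X ∩ ovr (ZA P η))

variable {η : ℝ}

theorem Fa_meas : MeasurableSet (Fa η) := measurableSet_le measurable_const Complex.measurable_im

theorem Cl_meas : MeasurableSet (Cl η) :=
  ((measurableSet_lt measurable_const Complex.measurable_re).inter
    (measurableSet_lt Complex.measurable_re measurable_const)).inter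
  ((measurableSet_lt measurable_const Complex.measurable_im).inter
    (measurableSet_lt Complex.measurable_im measurable_const))

theorem Cu_meas : MeasurableSet (Cu η) :=
  ((measurableSet_lt measurable_const Complex.measurable_re).inter
    (measurableSet_lt Complex.measurable_re measurable_const)).inter
  ((measurableSet_lt measurable_const Complex.measurable_im).inter
    (measurableSet_lt Complex.measurable_im measurable_const))

theorem Cu_bdd : Bornology.IsBounded (Cu η) := by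
  refine (Halfx73.bx_bdd (24 * η) (76 * η) (-η) (1701 * η)).subset ?_
  rintro z ⟨h1, h2⟩
  exact ⟨⟨h1.1.le, h1.2.le⟩, h2.1.le, h2.2.le⟩

variable (P : DT)

theorem UA_meas : MeasurableSet (UA P η) := (WR_meas _).union Cl_meas

theorem ZA_meas : MeasurableSet (ZA P η) := (P.Z_meas _).union Cu_meas

theorem arm_fm : FinMeas (ArmE P η) := fm_interP (AC_neck_fme (UA_meas P) Fa_meas P.Q_meas _)
  (ZA_meas P)

theorem arm_local : LocalOn (ZA P η) (ArmE P η) := by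
  intro S
  show AC _ _ _ _ = AC _ _ _ (S ∩ ovr (ZA P η) ∩ ovr (ZA P η))
  rw [inter_ovr2]

theorem Q_ZA : P.Q ⊆ ZA P η := fun _ hz => Or.inl (Or.inl (Or.inl hz))

/-- points near the region of the links -/
theorem near_ZA {r : ℝ} (hA : P.A + r ≤ P.A') (hB : P.B + r ≤ P.B') (hr : r ≤ η) {w s : ℂ}
    (hw : w ∈ UA P η) (hs : ‖s - w‖ ≤ r) : s ∈ ZA P η := by
  rcases hw with hw | ⟨⟨h1, h2⟩, h3, h4⟩
  · exact Or.inl (P.near_Z hA hB Tn.S hw hs)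
  · refine Or.inr ?_
    have k1 := (Complex.abs_re_le_norm (s - w)).trans hs
    have k2 := (Complex.abs_im_le_norm (s - w)).trans hs
    rw [Complex.sub_re, abs_le] at k1
    rw [Complex.sub_im, abs_le] at k2
    exact ⟨⟨by linarith, by linarith⟩, by linarith, by linarith⟩

/-- **the arm in a frame** -/
theorem arm_tr {f : Fr} {c : ℂ} {S : Cf} (hf : Mo f.e.toEquiv c) : tr f.e (ArmE P η) S ↔
    AC (f.e.symm ⁻¹' UA P η) (f.e.symm ⁻¹' Fa η) (LG (P.g.mv f.e c) (f.e.symm ⁻¹' P.Q))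
      (S ∩ ovr (f.e.symm ⁻¹' ZA P η)) := by
  unfold tr ArmE
  rw [DT.mv_inter, AC_fr hf]

/-- **the arm of a dense configuration, in a frame** -/
theorem arm_tr' {f : Fr} {c : ℂ} {S : Cf} (hf : Mo f.e.toEquiv c) (hS : S.Finite) {d : ℝ}
    (hd : 0 < d) (hA : P.A + 2 * d ≤ P.A') (hB : P.B + 2 * d ≤ P.B') (hη : 2 * d ≤ η)
    (hH : Hol (ps S) (f.e.symm ⁻¹' UA P η) d) : tr f.e (ArmE P η) S ↔
    AC (f.e.symm ⁻¹' UA P η) (f.e.symm ⁻¹' Fa η) (LG (P.g.mv f.e c) (f.e.symm ⁻¹' P.Q)) S := by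
  rw [arm_tr P hf]
  have hQ : f.e.symm ⁻¹' P.Q ⊆ f.e.symm ⁻¹' ZA P η := preimage_mono (Q_ZA P)
  refine AC_cut hS hd hH (fun w hw s hs => ?_) fun p => LG_cut hQ p
  refine near_ZA P (r := 2 * d) hA hB hη hw ?_
  rw [mo_symm_norm hf]
  exact hs.le

end Crest.Agent.R143.ArmCx345
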