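import Crest.Agent.R143.ArmC_345

/-!
# Row 143, block H, box R1 (ARM BOX), quenched bound (helper345)

* `sX_cut`, `bX_cut`, `sX_un`, `bX_un` : sites of `(S ∪ clr T τ) ∩ ovr Z`
* `te_tr` : the tile event in a frame
* `fin_of` : the three events from links of sites
* `qarm` : **quenched probability of the full tile, the white tile above and the arm**
-/

set_option autoImplicit false

noncomputable section

open scoped Classical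

namespace Crest.Agent.R143.ArmDx345

open MeasureTheory Set ProbabilityTheory Filter Topology
open Crest.ProbabilityR.Voronoi
open Crest.Agent.R143.B0x346 (GP)
open Crest.Agent.R143.PP0x831 Crest.Agent.R143.Poisx304 Crest.Agent.R143.Janx304
open Crest.Agent.R143.IndLocx279 Crest.Agent.R143.IndLoc3x279
open Crest.Agent.R143.PWx978 Crest.Agent.R143.Tplx978
open Crest.Agent.R143.Fairx653 Crest.Agent.R143.Posx653 Crest.Agent.R143.TplIx204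
open Crest.Agent.R143.QTbx653 Crest.Agent.R143.CBx838
open Crest.Agent.R143.PthFx765 Crest.Agent.R143.WLocx713 Crest.Agent.R143.TileRx228
open Crest.Agent.R143.Harx315 (pr pr_mono Dn harris_dn pr_nonneg)
open Crest.Agent.R143.PP1x831 (rad)
open Crest.Agent.R143.Locx922 (Hol Agr)
open Crest.Agent.R143.Gatex838 Crest.Agent.R143.TileRRx345
open Crest.Agent.R143.Neckx921 (Tile Lk lk_list)
open Crest.Agent.R143.Thetax73 (Su theta_ge Gd)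
open Crest.Agent.R143.RHx73
open Crest.Agent.R143.Halfx73 (g0 ZR ZL RH LH Q0 WQ_Q0 gS gB gB_sub KBR KWR KBL KWL net net_near
  KR_bdd KL_bdd bxR bxL nearR nearL zbR zwR zbL zwL cut_eq HX_mv hf_scale mem_sx mem_bk bX_bk sX_sx)
open Crest.Agent.R143.Prodx609 Crest.Agent.R143.FinMx609 Crest.Agent.R143.FinM2x609
open Crest.Agent.R143.PosFx653 Crest.Agent.R143.ArmAx345 Crest.Agent.R143.ArmBx345
open Crest.Agent.R143.ArmCx345

variable {η d a ε : ℝ}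

/-! ### sites of a part of the configuration -/

theorem sX_cut {X : Cf} (hX : X.Finite) (Z : Set ℂ) :
    sX (X ∩ ovr Z) = (sX X).filter (· ∈ Z) := by
  ext v
  rw [mem_sX (hX.subset inter_subset_left), Finset.mem_filter, mem_sX hX, ps_inter]
  rfl

theorem bX_cut {X : Cf} (hX : X.Finite) (Z : Set ℂ) :
    bX (X ∩ ovr Z) = (bX X).filter (· ∈ Z) := by
  ext v
  rw [Finset.mem_filter, bX_bk hX, bX_bk (hX.subset inter_subset_left), mem_bk hX,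
    mem_bk (hX.subset inter_subset_left)]
  rfl

theorem sX_un {S : Cf} (hS : S.Finite) (T τ : Finset ℂ) : sX (S ∪ clr T τ) = sx S ∪ T := by
  ext v
  rw [mem_sX (hS.union (clr_finite T τ)), Finset.mem_union, mem_sx hS]
  constructor
  · rintro ⟨⟨w, b⟩, hw | hw, rfl⟩
    · exact Or.inl ⟨_, hw, rfl⟩
    · exact Or.inr (mem_clr.1 hw).1
  · rintro (⟨⟨w, b⟩, hw, rfl⟩ | h)
    · exact ⟨_, Or.inl hw, rfl⟩
    · exact ⟨(v, decide (v ∈ τ)), Or.inr (mem_clr.2 ⟨h, by simp⟩), rfl⟩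

theorem bX_un {S : Cf} (hS : S.Finite) {T τ : Finset ℂ} (hτ : τ ⊆ T) {v : ℂ} :
    v ∈ bX (S ∪ clr T τ) ↔ v ∈ bk S ∨ v ∈ τ := by
  rw [bX_bk (hS.union (clr_finite T τ)), mem_bk (hS.union (clr_finite T τ)), mem_bk hS]
  constructor
  · rintro (h | h)
    · exact Or.inl h
    · exact Or.inr ((mem_clr.1 h).2.1 rfl)
  · rintro (h | h)
    · exact Or.inl h
    · exact Or.inr (mem_clr.2 ⟨hτ h, by simp [h]⟩)

/-- a black link -/
theorem lk_b {X : Cf} (hX : X.Finite) {Z R : Set ℂ} (hR : R ⊆ Z) {M B : Finset ℂ}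
    (hM : M = (sX X).filter (· ∈ Z)) (hB : ∀ s ∈ B, s ∈ bX X) {u v : ℂ}
    (h : Lk M {s | s ∈ B ∧ s ∈ R} u v) :
    Lk (sX (X ∩ ovr Z)) {s | s ∈ bX (X ∩ ovr Z) ∧ s ∈ R} u v := by
  rw [sX_cut hX, bX_cut hX, ← hM]
  exact h.mono fun s hs => ⟨Finset.mem_filter.2 ⟨hB s hs.1, hR hs.2⟩, hs.2⟩

/-- a white link -/
theorem lk_w {X : Cf} (hX : X.Finite) {Z R : Set ℂ} (hR : R ⊆ Z) {M B : Finset ℂ}
    (hM : M = (sX X).filter (· ∈ Z)) (hB : ∀ s ∈ B, s ∈ sX X ∧ s ∉ bX X) {u v : ℂ}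
    (h : Lk M {s | s ∈ B ∧ s ∈ R} u v) :
    Lk (sX (X ∩ ovr Z)) {s | (s ∈ sX (X ∩ ovr Z) ∧ s ∉ bX (X ∩ ovr Z)) ∧ s ∈ R} u v := by
  rw [sX_cut hX, bX_cut hX, ← hM]
  refine h.mono fun s hs => ⟨⟨?_, fun h1 => (hB s hs.1).2 (Finset.mem_filter.1 h1).1⟩, hs.2⟩
  rw [hM]
  exact Finset.mem_filter.2 ⟨(hB s hs.1).1, hR hs.2⟩

/-- the tile event in a frame -/
theorem te_tr (P : DT) {f : Fr} {c : ℂ} {X : Cf} (hf : CovBx126.Mo f.e.toEquiv c) {t : Tn × Bool} :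
    tr f.e (P.TE t) X ↔
    TB t.2 (f.e.symm ⁻¹' WR P.A P.B P.h t.1) (LG (P.g.mv f.e c) (f.e.symm ⁻¹' P.Q))
      (LG ((P.gn t.1).mv f.e c) (f.e.symm ⁻¹' P.Qn t.1)) (X ∩ ovr (f.e.symm ⁻¹' P.Z t.1)) := by
  unfold tr DT.TE
  rw [DT.mv_inter, DT.TB_fr hf]

theorem mo_up : CovBx126.Mo (up η).e.toEquiv 1 := mo_aff _ _ _

/-- the frame of the fourth gate -/
def f4 (η : ℝ) : Fr := (nxt (100 * η) Tn.S).trans (up η)

theorem mo_f4 : CovBx126.Mo (f4 η).e.toEquiv (1 * rot Tn.S) := by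
  refine ⟨by rw [one_mul, norm_rot], fun z w => ?_⟩
  show (up η).e ((nxt (100 * η) Tn.S).e z) - (up η).e ((nxt (100 * η) Tn.S).e w) = _
  have h1 := (mo_up (η := η)).sub ((nxt (100 * η) Tn.S).e z) ((nxt (100 * η) Tn.S).e w)
  have h2 := (mo_nxt (100 * η) Tn.S).sub z w
  change (up η).e ((nxt (100 * η) Tn.S).e z) - (up η).e ((nxt (100 * η) Tn.S).e w) = _ at h1
  change (nxt (100 * η) Tn.S).e z - (nxt (100 * η) Tn.S).e w = _ at h2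
  rw [h1, h2, mul_assoc]

theorem f4_symm (z : ℂ) : (f4 η).e.symm z = (nxt (100 * η) Tn.S).e.symm ((up η).e.symm z) := rfl

theorem f4_pre (Q : Set ℂ) : (f4 η).e.symm ⁻¹' Q =
    (up η).e.symm ⁻¹' ((nxt (100 * η) Tn.S).e.symm ⁻¹' Q) := rfl

theorem f4_re (z : ℂ) : ((f4 η).e.symm z).re = z.re - 100 * η ∧
    ((f4 η).e.symm z).im = z.im - 1000 * η := by
  rw [f4_symm, (nx_symm _).1, (nx_symm _).2, (up_symm z).1, (up_symm z).2]
  exact ⟨rfl, rfl⟩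

theorem f4_mv (X : Cf) : mvX (f4 η).e.toEquiv.symm X =
    mv (nxt (100 * η) Tn.S).e.symm (mv (up η).e.symm X) := by
  rw [mv_mv]
  rfl

theorem f4_zero : (f4 η).e 0 = v4 η := up_nx

theorem g_f4 (g : GPar) : (g.mv (nxt (100 * η) Tn.S).e (rot Tn.S)).mv (up η).e 1 =
    g.mv (f4 η).e (1 * rot Tn.S) := mv_mv' g _ _ _ _

/-! ### the events from links of sites -/

section fin

variable (hε : 0 < ε) (hη : 0 < η)

/-- **the three events** -/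
theorem fin_of {S : Cf} {T τ : Finset ℂ} (hS : S.Finite)
    (hT : ∀ s ∈ T, s ∈ CT (Dx η d a ε hε hη) η) (hτ : τ ⊆ T) {b b' b3 b4 : ℂ × ℂ}
    (hb : LG (Dx η d a ε hε hη).g (Dx η d a ε hε hη).Q S b)
    (hb' : LG ((Dx η d a ε hε hη).gn Tn.S) ((Dx η d a ε hε hη).Qn Tn.S) S b')
    (hb3 : LG ((Dx η d a ε hε hη).g.mv (up η).e 1) ((up η).e.symm ⁻¹' (Dx η d a ε hε hη).Q) S b3)
    (hb4 : LG (((Dx η d a ε hε hη).gn Tn.S).mv (up η).e 1)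
      ((up η).e.symm ⁻¹' (Dx η d a ε hε hη).Qn Tn.S) S b4)
    {B A1 A2 : Finset ℂ} (hB : ∀ s ∈ B, s ∈ bk S ∨ s ∈ τ)
    (hA1 : ∀ s ∈ A1, s ∈ sx S ∪ T ∧ ¬ (s ∈ bk S ∨ s ∈ τ))
    (hA2 : ∀ s ∈ A2, s ∈ sx S ∪ T ∧ ¬ (s ∈ bk S ∨ s ∈ τ))
    (k1 : Lk ((sx S ∪ T).filter (· ∈ (Dx η d a ε hε hη).Z Tn.S))
      {s | s ∈ B ∧ s ∈ WR (9 * η) (51 * η) (100 * η) Tn.S} b.1 b'.1)
    (k2 : Lk ((sx S ∪ T).filter (· ∈ (Dx η d a ε hε hη).Z Tn.S))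
      {s | s ∈ A1 ∧ s ∈ WR (9 * η) (51 * η) (100 * η) Tn.S} b.2 b'.2)
    (k3 : ∃ u, 1600 * η ≤ u.im ∧ Lk ((sx S ∪ T).filter (· ∈ ZA (Dx η d a ε hε hη) η))
      {s | s ∈ A1 ∧ s ∈ UA (Dx η d a ε hε hη) η} b.2 u)
    (k4 : Lk ((sx S ∪ T).filter (· ∈ (up η).e.symm ⁻¹' (Dx η d a ε hε hη).Z Tn.S))
      {s | s ∈ A2 ∧ s ∈ (up η).e.symm ⁻¹' WR (9 * η) (51 * η) (100 * η) Tn.S} b3.2 b4.2) :
    (Dx η d a ε hε hη).TE (Tn.S, true) (S ∪ clr T τ) ∧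
    tr (up η).e ((Dx η d a ε hε hη).TE (Tn.S, false)) (S ∪ clr T τ) ∧
    ArmE (Dx η d a ε hε hη) η (S ∪ clr T τ) := by
  set P := Dx η d a ε hε hη with hP
  set X : Cf := S ∪ clr T τ with hX
  have hXf : X.Finite := hS.union (clr_finite T τ)
  have hsx : sX X = sx S ∪ T := sX_un hS T τ
  have hbx : ∀ v, v ∈ bX X ↔ v ∈ bk S ∨ v ∈ τ := fun v => bX_un hS hτ
  have dB := b4_ct (d := d) (a := a) hε hη
  have hT0 : ∀ s ∈ T, s ∉ B4 P η := fun s hs h => Set.disjoint_left.1 dB h (hT s hs)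
  have hT1 : ∀ s ∈ T, s ∉ P.Q := fun s hs h => hT0 s hs (Or.inl (Or.inl h))
  have hT2 : ∀ s ∈ T, s ∉ P.Qn Tn.S := fun s hs h => hT0 s hs (Or.inl (Or.inr h))
  have hT3 : ∀ s ∈ T, s ∉ (up η).e.symm ⁻¹' P.Q := fun s hs h => hT0 s hs (Or.inr (Or.inl h))
  have hT4 : ∀ s ∈ T, s ∉ (up η).e.symm ⁻¹' P.Qn Tn.S := fun s hs h => hT0 s hs (Or.inr (Or.inr h))
  have hWZ : WR (9 * η) (51 * η) (100 * η) Tn.S ⊆ P.Z Tn.S := by
    intro z hz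
    refine P.near_Z (r := 0) ?_ ?_ Tn.S hz (by simp)
    · show 9 * η + 0 ≤ 12 * η
      linarith
    · show 51 * η + 0 ≤ 52 * η
      linarith
  have hUZ : UA P η ⊆ ZA P η := by
    intro z hz
    refine near_ZA P (r := 0) ?_ ?_ hη.le hz (by simp)
    · show 9 * η + 0 ≤ 12 * η
      linarith
    · show 51 * η + 0 ≤ 52 * η
      linarith
  have hB' : ∀ s ∈ B, s ∈ bX X := fun s hs => (hbx s).2 (hB s hs)
  have hA1' : ∀ s ∈ A1, s ∈ sX X ∧ s ∉ bX X := fun s hs => by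
    rw [hsx, hbx]
    exact hA1 s hs
  have hA2' : ∀ s ∈ A2, s ∈ sX X ∧ s ∉ bX X := fun s hs => by
    rw [hsx, hbx]
    exact hA2 s hs
  have LGc : ∀ (g : GPar) (Q Z : Set ℂ), Q ⊆ Z → (∀ s ∈ T, s ∉ Q) → ∀ p, LG g Q S p →
      LG g Q (X ∩ ovr Z) p := fun g Q Z hQZ hTQ p hp =>
    (LG_cut hQZ p).2 ((LG_union hTQ).2 hp)
  refine ⟨?_, ?_, ?_⟩
  · refine ⟨hXf.subset inter_subset_left, b, b', LGc _ _ _ (fun z hz => Or.inl (Or.inl hz)) hT1 _ hb,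
      LGc _ _ _ (fun z hz => Or.inl (Or.inr hz)) hT2 _ hb', fun _ => ?_, ?_⟩
    · exact lk_b hXf hWZ (by rw [hsx]) hB' k1
    · exact lk_w hXf hWZ (by rw [hsx]) hA1' k2
  · rw [te_tr P mo_up]
    refine ⟨hXf.subset inter_subset_left, b3, b4,
      LGc _ _ _ (preimage_mono fun z hz => Or.inl (Or.inl hz)) hT3 _ hb3,
      LGc _ _ _ (preimage_mono fun z hz => Or.inl (Or.inr hz)) hT4 _ hb4, fun h => ?_, ?_⟩
    · exact absurd h (by simp)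
    · exact lk_w hXf (preimage_mono hWZ) (by rw [hsx]) hA2' k4
  · obtain ⟨u, hu, k3⟩ := k3
    exact ⟨hXf.subset inter_subset_left, b, u,
      LGc _ _ _ (Q_ZA P) hT1 _ hb, hu, lk_w hXf hUZ (by rw [hsx]) hA1' k3⟩

end fin

/-! ### half events of the four gates -/

/-- the first gate -/
theorem rh_pt0 (hη : 0 < η) (hd : 0 < d)
    (hdη : 4 * d ≤ η) {X : Cf} {T τ M : Finset ℂ} (hX : X.Finite) (hc : Sc X)
    (hXC : ∀ s ∈ ps X, s ∉ Halfx73.CR η) (hTQ : ∀ s ∈ T, s ∉ Q0 η) (hτ : τ ⊆ T)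
    (hM : ∀ s ∈ Q0 η ∪ Halfx73.CR η, (s ∈ M ↔ s ∈ sx X ∪ T))
    (h : RH η d (X ∪ clr T τ)) :
    Hf M 0 (η : ℂ) 10 (101 / 10) 2 8 (1 / 20) (KWR η)
      (Pw (g0 η) (Q0 η) (clr (gS X (Q0 η)) (gB X (Q0 η)))) ((gS X (Q0 η) ∪ T) \ (τ ∪ gB X (Q0 η))) ∧
    Hf M 0 (η : ℂ) 10 (101 / 10) (-8) (-(47 / 10)) (1 / 20) (KBR η)
      (Pb (g0 η) (Q0 η) (clr (gS X (Q0 η)) (gB X (Q0 η)))) (τ ∪ gB X (Q0 η)) := by
  have h1 := hx_pt (g := g0 η) (Z := ZR η) (Q := Q0 η) (Kb := KBR η) (Kw := KWR η)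
    (C1 := Halfx73.CR η) (F := net (KBR η ∪ KWR η) d) (r := d / 2) (d := d) hX hc hXC hTQ hτ hd
    (net_near KR_bdd hd) (fun w hw s hs => bxR hη (nearR hη hw (by linarith))) hM (zbR hη) (zwR hη) h
  refine ⟨?_, ?_⟩
  · have h3 := hf_scale (z0 := 0) (e := 1) hη h1.1
    rwa [mul_one] at h3
  · have h3 := hf_scale (z0 := 0) (e := 1) hη h1.2
    rwa [mul_one] at h3

/-- colours outside the gate box -/
theorem sd_eq {G T τ q : Finset ℂ} (hG : Disjoint G T) (hq : q ⊆ G) (hτ : τ ⊆ T) :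
    (G ∪ T) \ (τ ∪ q) = (T \ τ) ∪ (G \ q) := by
  ext s
  have h1 : s ∈ G → s ∉ T := fun h h' => Finset.disjoint_left.1 hG h h'
  have h2 : s ∈ q → s ∈ G := fun h => hq h
  have h3 : s ∈ τ → s ∈ T := fun h => hτ h
  simp only [Finset.mem_sdiff, Finset.mem_union]
  tauto

/-- support of a white half event with fixed colours of its gate -/
theorem su_un {M T To G c : Finset ℂ} {z e : ℂ} {l0 l1 p0 p1 m : ℝ} {K P0 : Set ℂ}
    (hG : Disjoint G T) (hc : c ⊆ G) (k1 : ∀ s ∈ T, s ∈ K → s ∈ To)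
    (k2 : ∀ s ∈ T, l0 < X z e s → X z e s < l1 → p0 - m ≤ Y z e s → Y z e s ≤ p1 + m → s ∈ To) :
    Su T To fun A => Hf M z e l0 l1 p0 p1 m K P0 (A ∪ c) := by
  intro A hA h
  have h1 : Su (T ∪ G) (To ∪ G) (Hf M z e l0 l1 p0 p1 m K P0) := by
    refine Hf.su (fun s hs hk => ?_) (fun s hs b1 b2 b3 b4 => ?_)
    · rw [Finset.mem_union] at hs ⊢
      exact hs.imp (fun h => k1 s h hk) id
    · rw [Finset.mem_union] at hs ⊢
      exact hs.imp (fun h => k2 s h b1 b2 b3 b4) id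
  refine Hf.mo _ _ ?_ (h1 _ (Finset.union_subset_union hA hc) h)
  intro s hs
  simp only [Finset.mem_inter, Finset.mem_union] at hs ⊢
  obtain ⟨h2 | h2, h3 | h3⟩ := hs
  · exact Or.inl ⟨h2, h3⟩
  · exact absurd (hA h2) (Finset.disjoint_left.1 hG h3)
  · exact Or.inr h2
  · exact Or.inr h2

theorem mo_un {E : Finset ℂ → Prop} (hE : Thetax73.Mo E) (c : Finset ℂ) :
    Thetax73.Mo fun A => E (A ∪ c) :=
  fun _ _ h h1 => hE _ _ (Finset.union_subset_union h subset_rfl) h1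

theorem mo_and {E E' : Finset ℂ → Prop} (hE : Thetax73.Mo E) (hE' : Thetax73.Mo E') :
    Thetax73.Mo fun A => E A ∧ E' A := fun _ _ h h1 => ⟨hE _ _ h h1.1, hE' _ _ h h1.2⟩

theorem su_and {U W : Finset ℂ} {E E' : Finset ℂ → Prop} (hE : Su U W E) (hE' : Su U W E') :
    Su U W fun A => E A ∧ E' A := fun A h h1 => ⟨hE A h h1.1, hE' A h h1.2⟩

/-- Harris for two decreasing events given by white sites -/
theorem har2 {V : Finset ℂ} {E E' : Finset ℂ → Prop} (hE : Thetax73.Mo E) (hE' : Thetax73.Mo E')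
    {x y : ℝ} (hy : 0 ≤ y) (h1 : x ≤ pr V fun τ => E (V \ τ)) (h2 : y ≤ pr V fun τ => E' (V \ τ)) :
    x * y ≤ pr V fun τ => E (V \ τ) ∧ E' (V \ τ) :=
  (mul_le_mul h1 h2 hy pr_nonneg).trans (harris_dn (dn_mo hE) (dn_mo hE'))

theorem fr12 : TileRRx345.Fr 100 0 (η : ℂ) (v1 η) (η : ℂ) := by
  refine ⟨?_, Or.inl rfl⟩
  unfold v1
  push_cast
  ring

theorem fr34 : TileRRx345.Fr 100 (v3 η) (η : ℂ) (v4 η) (η : ℂ) := by
  refine ⟨?_, Or.inl rfl⟩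
  unfold v3 v4
  push_cast
  ring

theorem wh_im (hη : 0 < η) {v v' : ℂ} {s : ℂ} (h : s ∈ Wh v (η : ℂ) v' (η : ℂ)) :
    η < s.im - v.im := by
  have he : (η : ℂ) ≠ 0 := by exact_mod_cast hη.ne'
  rcases h with ⟨h1, -⟩ | ⟨-, h1, -⟩
  · exact absurd h1 (ne_I' he)
  · rw [Y_v, lt_div_iff₀ hη] at h1
    linarith

end Crest.Agent.R143.ArmDx345
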