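import Crest.Agent.R143.JCard_872

/-!
# Row 143, block J: the walker (leaf J3)

`Step` is deterministic (`step_det`), reversible (`step_rev`), a walker which starts at an occupied
directed edge without occupied predecessor (a mark, or a side of an odd triangle) ends
(`exists_end`) at a mark or at an odd triangle; the end is unique (`term_unique`), the walk is
reversible (`leads_rev`) and never ends at its own starting side (`not_leads_swap`); `leads_mono`:
changing `J` away from the walk does not change it.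
-/

set_option autoImplicit false

noncomputable section

open scoped Classical

namespace Crest.Agent.R143.JWalkx872

open Crest.Agent.R143.B0x346 Crest.Agent.R143.JCardx872

variable {V : Type} {G : Trg V} {kl : Set (V × V)} {O : Set (V × V × V)} {D : Set (V × V)}
  {J : Finset (V × V)}

/-- the set of odd triangles is closed under rotation -/
def RotInv (O : Set (V × V × V)) : Prop := ∀ a b c : V, (a, b, c) ∈ O → (b, c, a) ∈ O

theorem rotInv_empty : RotInv (∅ : Set (V × V × V)) := fun _ _ _ h => h.elim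

theorem rotInv_rots (t : V × V × V) : RotInv (rots t) := by
  obtain ⟨x, y, z⟩ := t
  intro a b c h
  unfold rots at h ⊢
  simp only [Set.mem_insert_iff, Set.mem_singleton_iff, Prod.mk.injEq] at h ⊢
  tauto

theorem rots_rot (a b c : V) : rots (b, c, a) = rots (a, b, c) := by
  ext ⟨x, y, z⟩
  unfold rots
  simp only [Set.mem_insert_iff, Set.mem_singleton_iff, Prod.mk.injEq]
  tauto

theorem step_det {p q q' : V × V} (h : Step G O D J p q) (h' : Step G O D J p q') : q = q' := by
  obtain ⟨c, hc, _, _, h⟩ := h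
  obtain ⟨c', hc', _, _, h'⟩ := h'
  have := G.uniq hc hc'
  subst this
  rcases h with h | h <;> rcases h' with h' | h'
  · rw [h.2, h'.2]
  · exact absurd h.1 h'.2.1
  · exact absurd h'.1 h.2.1
  · rw [h.2.2, h'.2.2]

/-- the side through which the walker leaves is occupied -/
theorem step_exit {p q : V × V} (h : Step G O D J p q) : (q.2, q.1) ∈ J := by
  obtain ⟨c, _, _, _, h⟩ := h
  rcases h with ⟨h, rfl⟩ | ⟨h, _, rfl⟩ <;> exact h

theorem step_notMark (hJ : IsJoin G kl O D J) {p q : V × V} (h : Step G O D J p q) : q ∉ D :=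
  fun h' => (hJ.mark q.1 q.2 h').2 (step_exit h)

theorem step_mem (hJ : IsJoin G kl O D J) {p q : V × V} (h : Step G O D J p q) :
    q ∈ J ∨ (q.2, q.1) ∈ D := by
  by_cases h' : (q.2, q.1) ∈ D
  · exact Or.inr h'
  · left
    exact (hJ.sym q.1 q.2 (step_notMark hJ h) h').2 (step_exit h)

/-- a walker which leaves its triangle is not behind a mark -/
theorem step_pre {p q : V × V} (h : Step G O D J p q) : (p.2, p.1) ∉ D := by
  obtain ⟨c, _, _, h, _⟩ := h
  exact h

theorem occ_notMark (hJ : IsJoin G kl O D J) {p : V × V} (h : p ∈ J) : (p.2, p.1) ∉ D :=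
  fun h' => (hJ.mark p.2 p.1 h').2 h

theorem occ_tri (hJ : IsJoin G kl O D J) {p : V × V} (h : p ∈ J) : ∃ c, (p.1, p.2, c) ∈ G.T := by
  by_contra hn
  push Not at hn
  exact (hJ.bdr p.2 p.1 hn (occ_notMark hJ h)).2 h

theorem occ_ne (hJ : IsJoin G kl O D J) {p : V × V} (h : p ∈ J) : p.1 ≠ p.2 := by
  obtain ⟨c, hc⟩ := occ_tri hJ h
  exact G.ne hc

/-- reversibility of one step -/
theorem step_rev (hJ : IsJoin G kl O D J) (hO : RotInv O) {p q : V × V} (hp : p ∈ J)
    (h : Step G O D J p q) : Step G O D J (q.2, q.1) (p.2, p.1) := by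
  have hq := step_notMark hJ h
  obtain ⟨c, hc, hcO, _, h⟩ := h
  have hpar := hJ.par _ _ _ hc
  rw [if_neg hcO] at hpar
  have hp' : (p.1, p.2) ∈ J := hp
  rcases h with ⟨h1, rfl⟩ | ⟨h1, h2, rfl⟩
  · refine ⟨p.1, G.rot hc, ?_, hq, Or.inr ⟨hp', ?_, rfl⟩⟩
    · intro h'
      exact hcO (hO _ _ _ (hO _ _ _ h'))
    · intro h'
      simp only [hp', h1, h', if_true] at hpar
      omega
  · refine ⟨p.2, G.rot (G.rot hc), ?_, hq, Or.inl ⟨hp', rfl⟩⟩
    intro h'
    exact hcO (hO _ _ _ h')

/-- progress -/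
theorem step_prog (hJ : IsJoin G kl O D J) {p : V × V} (hp : p ∈ J) :
    (∃ c, (p.1, p.2, c) ∈ G.T ∧ (p.1, p.2, c) ∈ O) ∨ ∃ q, Step G O D J p q := by
  obtain ⟨c, hc⟩ := occ_tri hJ hp
  by_cases hcO : (p.1, p.2, c) ∈ O
  · exact Or.inl ⟨c, hc, hcO⟩
  · right
    have hpar := hJ.par _ _ _ hc
    rw [if_neg hcO] at hpar
    have hp' : (p.1, p.2) ∈ J := hp
    by_cases h1 : (p.2, c) ∈ J
    · exact ⟨(c, p.2), c, hc, hcO, occ_notMark hJ hp, Or.inl ⟨h1, rfl⟩⟩
    · by_cases h2 : (c, p.1) ∈ J
      · exact ⟨(p.1, c), c, hc, hcO, occ_notMark hJ hp, Or.inr ⟨h2, h1, rfl⟩⟩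
      · simp only [hp', h1, h2, if_true, if_false] at hpar
        omega

/-- end of a walk -/
def Term (G : Trg V) (O : Set (V × V × V)) (D : Set (V × V)) (J : Finset (V × V))
    (e : V × V) : Prop :=
  (e.2, e.1) ∈ D ∨ (e ∈ J ∧ ∃ c, (e.1, e.2, c) ∈ G.T ∧ (e.1, e.2, c) ∈ O)

theorem term_noStep {e q : V × V} (he : Term G O D J e) : ¬ Step G O D J e q := by
  rintro ⟨c, hc, hcO, hD, _⟩
  rcases he with h | ⟨_, c', hc', hO'⟩
  · exact hD h
  · have := G.uniq hc hc'
    subst this
    exact hcO hO'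

theorem term_leads {e e' : V × V} (he : Term G O D J e) (h : Leads G O D J e e') : e' = e := by
  rcases Relation.ReflTransGen.cases_head h with h | ⟨q, hq, _⟩
  · exact h.symm
  · exact absurd hq (term_noStep he)

theorem term_unique {s e e' : V × V} (he : Term G O D J e) (he' : Term G O D J e')
    (h : Leads G O D J s e) (h' : Leads G O D J s e') : e = e' := by
  have U : Relator.RightUnique (Step G O D J) := fun _ _ _ h1 h2 => step_det h1 h2
  rcases Relation.ReflTransGen.total_of_right_unique U h h' with h1 | h1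
  · exact (term_leads he h1).symm
  · exact term_leads he' h1

/-- every state of the walk which has a successor is occupied -/
theorem leads_mem (hJ : IsJoin G kl O D J) {s p : V × V} (hs : s ∈ J) (h : Leads G O D J s p) :
    p ∈ J ∨ (p.2, p.1) ∈ D := by
  rcases Relation.ReflTransGen.cases_tail h with h | ⟨q, _, hq⟩
  · exact Or.inl (h ▸ hs)
  · exact step_mem hJ hq

theorem leads_step_mem (hJ : IsJoin G kl O D J) {s p q : V × V} (hs : s ∈ J)
    (h : Leads G O D J s p) (hq : Step G O D J p q) : p ∈ J := by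
  rcases leads_mem hJ hs h with h' | h'
  · exact h'
  · exact absurd h' (step_pre hq)

/-- the walk ends -/
theorem exists_end (hJ : IsJoin G kl O D J) (hO : RotInv O) {s : V × V} (hs : s ∈ J)
    (hpre : ∀ p, p ∈ J → ¬ Step G O D J p s) :
    ∃ e, Leads G O D J s e ∧ Term G O D J e := by
  by_contra hn
  push Not at hn
  let R := J.filter (fun p => Leads G O D J s p)
  have hR : ∀ p ∈ R, ∃ q, Step G O D J p q ∧ q ∈ R.erase s := by
    intro p hp
    rw [Finset.mem_filter] at hp
    rcases step_prog hJ hp.1 with h | ⟨q, hq⟩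
    · exact absurd (Or.inr ⟨hp.1, h⟩) (hn p hp.2)
    · refine ⟨q, hq, ?_⟩
      have hl : Leads G O D J s q := hp.2.tail hq
      rw [Finset.mem_erase, Finset.mem_filter]
      refine ⟨?_, ?_, hl⟩
      · rintro rfl
        exact hpre p hp.1 hq
      · rcases step_mem hJ hq with h | h
        · exact h
        · exact absurd (Or.inl h) (hn q hl)
  choose! f hf using hR
  have hcard : R.card ≤ (R.erase s).card := by
    apply Finset.card_le_card_of_injOn f
    · intro p hp
      exact (hf p hp).2
    · intro p hp p' hp' e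
      have h1 := (hf p hp).1
      have h2 := (hf p' hp').1
      rw [← e] at h2
      have hpJ : p ∈ J := (Finset.mem_filter.1 hp).1
      have hpJ' : p' ∈ J := (Finset.mem_filter.1 hp').1
      have r1 := step_rev hJ hO hpJ h1
      have r2 := step_rev hJ hO hpJ' h2
      have := step_det r1 r2
      rw [Prod.mk.injEq] at this
      exact Prod.ext this.2 this.1
  have hsR : s ∈ R := Finset.mem_filter.2 ⟨hs, Relation.ReflTransGen.refl⟩
  have := Finset.card_erase_lt_of_mem hsR
  omega

/-- a mark has no predecessor -/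
theorem mark_pre (hJ : IsJoin G kl O D J) {s : V × V} (hs : s ∈ D) (p : V × V) :
    ¬ Step G O D J p s := fun h => step_notMark hJ h hs

/-- a side of an odd triangle has no predecessor (walker leaving the triangle) -/
theorem side_pre (hO : RotInv O) {a b c : V} (ht : (a, b, c) ∈ G.T) (htO : (a, b, c) ∈ O)
    (p : V × V) : ¬ Step G O D J p (b, a) := by
  rintro ⟨x, hx, hxO, _, h⟩
  rcases h with ⟨_, h⟩ | ⟨_, _, h⟩
  · -- q = (x, p.2) = (b, a), the triangle is (p.1, a, b)
    rw [Prod.mk.injEq] at h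
    obtain ⟨rfl, h2⟩ := h
    rw [← h2] at hx hxO
    have h3 := G.rot hx
    have h4 := G.uniq ht h3
    subst h4
    exact hxO (hO _ _ _ (hO _ _ _ htO))
  · rw [Prod.mk.injEq] at h
    obtain ⟨h1, rfl⟩ := h
    rw [← h1] at hx hxO
    -- triangle (b, p.2, a)
    have h3 := G.rot (G.rot hx)
    have h4 := G.uniq ht h3
    subst h4
    exact hxO (hO _ _ _ htO)

/-- walks are reversible -/
theorem leads_rev (hJ : IsJoin G kl O D J) (hO : RotInv O) {s e : V × V} (hs : s ∈ J)
    (h : Leads G O D J s e) : Leads G O D J (e.2, e.1) (s.2, s.1) := by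
  induction h with
  | refl => exact Relation.ReflTransGen.refl
  | tail h1 h2 ih =>
    have hp := leads_step_mem hJ hs h1 h2
    exact Relation.ReflTransGen.head (step_rev hJ hO hp h2) ih

/-- walks with their length -/
def LeadsN (G : Trg V) (O : Set (V × V × V)) (D : Set (V × V)) (J : Finset (V × V)) :
    ℕ → V × V → V × V → Prop
  | 0, p, q => p = q
  | n + 1, p, q => ∃ m, Step G O D J p m ∧ LeadsN G O D J n m q

theorem leadsN_tail : ∀ (n : ℕ) (p m q : V × V), LeadsN G O D J n p m → Step G O D J m q →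
    LeadsN G O D J (n + 1) p q := by
  intro n
  induction n with
  | zero =>
    intro p m q h1 h2
    change p = m at h1
    subst h1
    exact ⟨q, h2, rfl⟩
  | succ n ih =>
    rintro p m q ⟨x, hx, hx'⟩ h2
    exact ⟨x, hx, ih x m q hx' h2⟩

theorem leadsN_untail : ∀ (n : ℕ) (p q : V × V), LeadsN G O D J (n + 1) p q →
    ∃ m, LeadsN G O D J n p m ∧ Step G O D J m q := by
  intro n
  induction n with
  | zero =>
    rintro p q ⟨x, hx, hx'⟩
    change x = q at hx'
    subst hx'
    exact ⟨p, rfl, hx⟩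
  | succ n ih =>
    rintro p q ⟨x, hx, hx'⟩
    obtain ⟨m, hm, hm'⟩ := ih x q hx'
    exact ⟨m, ⟨x, hx, hm⟩, hm'⟩

theorem leads_iff_leadsN {p q : V × V} :
    Leads G O D J p q ↔ ∃ n, LeadsN G O D J n p q := by
  constructor
  · intro h
    induction h with
    | refl => exact ⟨0, rfl⟩
    | tail _ h2 ih =>
      obtain ⟨n, hn⟩ := ih
      exact ⟨n + 1, leadsN_tail n _ _ _ hn h2⟩
  · rintro ⟨n, hn⟩
    induction n generalizing p with
    | zero =>
      change p = q at hn
      subst hn
      exact Relation.ReflTransGen.refl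
    | succ n ih =>
      obtain ⟨x, hx, hx'⟩ := hn
      exact Relation.ReflTransGen.head hx (ih hx')

theorem step_ne_swap {p q : V × V} (h : Step G O D J p q) : q ≠ (p.2, p.1) := by
  obtain ⟨c, hc, _, _, h⟩ := h
  have h1 := G.ne hc
  have h2 := G.ne (G.rot hc)
  rcases h with ⟨_, rfl⟩ | ⟨_, _, rfl⟩
  · intro e
    rw [Prod.mk.injEq] at e
    exact h2 e.1.symm
  · intro e
    rw [Prod.mk.injEq] at e
    exact h1 e.1

/-- a walk never comes back through its starting side -/
theorem not_leadsN_swap (hJ : IsJoin G kl O D J) (hO : RotInv O) :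
    ∀ (n : ℕ) (p : V × V), p ∈ J → ¬ LeadsN G O D J n p (p.2, p.1) := by
  intro n
  induction n using Nat.strong_induction_on with
  | _ n ih =>
    intro p hp h
    match n, h, ih with
    | 0, h, _ =>
      change p = (p.2, p.1) at h
      exact occ_ne hJ hp (congrArg Prod.fst h)
    | 1, h, _ =>
      obtain ⟨x, hx, hx'⟩ := h
      change x = (p.2, p.1) at hx'
      exact step_ne_swap hx hx'
    | n + 2, h, ih =>
      obtain ⟨x, hx, hx'⟩ := h
      obtain ⟨y, hy, hy'⟩ := leadsN_untail n _ _ hx'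
      have hxl : Leads G O D J p x := Relation.ReflTransGen.single hx
      have hyl : Leads G O D J p y := hxl.trans (leads_iff_leadsN.2 ⟨n, hy⟩)
      have hyJ := leads_step_mem hJ hp hyl hy'
      have r := step_rev hJ hO hyJ hy'
      have e : x = (y.2, y.1) := step_det hx r
      have hyx : y = (x.2, x.1) := by rw [e]
      have hxJ : x ∈ J := by
        rcases n with _ | n
        · change x = y at hy
          rw [hy]
          exact hyJ
        · obtain ⟨w, hw, _⟩ := hy
          exact leads_step_mem hJ hp hxl hw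
      rw [hyx] at hy
      exact ih n (by omega) x hxJ hy

theorem not_leads_swap (hJ : IsJoin G kl O D J) (hO : RotInv O) {p : V × V} (hp : p ∈ J) :
    ¬ Leads G O D J p (p.2, p.1) := by
  intro h
  obtain ⟨n, hn⟩ := leads_iff_leadsN.1 h
  exact not_leadsN_swap hJ hO n p hp hn

/-- changing the data away from the walk -/
theorem leads_mono (hJ : IsJoin G kl O D J) {O' : Set (V × V × V)} {D' : Set (V × V)}
    {J' : Finset (V × V)}
    (hm : ∀ p q, p ∈ J → Step G O D J p q → Step G O' D' J' p q)
    {s e : V × V} (hs : s ∈ J) (h : Leads G O D J s e) : Leads G O' D' J' s e := by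
  induction h with
  | refl => exact Relation.ReflTransGen.refl
  | tail h1 h2 ih => exact ih.tail (hm _ _ (leads_step_mem hJ hs h1 h2) h2)

/-- if only the half edges in `X` change, all of them being sides of triangles in `O` -/
theorem step_change {O' : Set (V × V × V)} {D' : Set (V × V)} {J' : Finset (V × V)}
    {p q : V × V}
    (hO' : ∀ c, (p.1, p.2, c) ∈ G.T → (p.1, p.2, c) ∉ O → (p.1, p.2, c) ∉ O')
    (hD' : (p.2, p.1) ∉ D')
    (hJJ : ∀ c, (p.1, p.2, c) ∈ G.T → (p.1, p.2, c) ∉ O →
      (((p.2, c) ∈ J ↔ (p.2, c) ∈ J') ∧ ((c, p.1) ∈ J ↔ (c, p.1) ∈ J')))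
    (h : Step G O D J p q) : Step G O' D' J' p q := by
  obtain ⟨c, hc, hcO, _, h⟩ := h
  have h1 := hJJ c hc hcO
  refine ⟨c, hc, hO' c hc hcO, hD', ?_⟩
  rcases h with ⟨h, e⟩ | ⟨h, h', e⟩
  · exact Or.inl ⟨h1.1.1 h, e⟩
  · exact Or.inr ⟨h1.2.1 h, fun h2 => h' (h1.1.2 h2), e⟩

end Crest.Agent.R143.JWalkx872
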