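import Crest.Agent.R143.JCol_54
import Crest.Agent.R143.JWalk_872

/-!
# Row 143, leaf J7: joins with marks on the hull = boundaries of colourings (helper54)
-/

set_option autoImplicit false

noncomputable section

open scoped Classical

namespace Crest.Agent.R143.JCol2x54

open Crest.Agent.R143.B0x346 Crest.Agent.R143.DelGx806 Crest.Agent.R143.DelRx806
  Crest.Agent.R143.B0Dx346 Crest.Agent.R143.JColx54

variable {S : Finset ℂ} {G : Trg ℂ} {kl : Set (ℂ × ℂ)} {D : Set (ℂ × ℂ)} {J : Finset (ℂ × ℂ)}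

/-- the marks are on the hull -/
def HullM (S : Finset ℂ) (D : Set (ℂ × ℂ)) : Prop :=
  ∀ a b, (a, b) ∈ D → ∀ c, (b, a, c) ∉ delT S

/-- seen from a triangle, occupied on one side = occupied on some side -/
theorem occ_iff (_hG : G.T = delT S) (hD : HullM S D) {O : Set (ℂ × ℂ × ℂ)}
    (hJ : IsJoin G kl O D J) {a b c : ℂ} (h : (a, b, c) ∈ delT S) :
    ((a, b) ∈ J ∨ (b, a) ∈ J) ↔ (a, b) ∈ J := by
  refine ⟨fun h' => ?_, Or.inl⟩
  rcases h' with h' | h'
  · exact h'
  · by_cases h1 : (a, b) ∈ D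
    · exact (hJ.mark a b h1).1
    · by_cases h2 : (b, a) ∈ D
      · exact absurd h (hD b a h2 c)
      · exact (hJ.sym a b h1 h2).2 h'

/-- **J7, existence**: a join with even triangles and marks on the hull is the boundary of a
colouring of the sites -/
theorem join_col (hS : GP (S : Set ℂ)) (hG : G.T = delT S) (hD : HullM S D)
    (hJ : IsJoin G kl ∅ D J) :
    ∃ σ : ℂ → Bool, ∀ a b, Adj S a b → (σ a ≠ σ b ↔ ((a, b) ∈ J ∨ (b, a) ∈ J)) := by
  obtain ⟨σ, hσ⟩ := exact hS (A := ZMod 2)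
    (f := fun a b => if (a, b) ∈ J ∨ (b, a) ∈ J then 1 else 0)
    (by
      intro a b _
      have e : ((b, a) ∈ J ∨ (a, b) ∈ J) ↔ ((a, b) ∈ J ∨ (b, a) ∈ J) := or_comm
      simp only [e]
      split_ifs <;> decide)
    (by
      intro a b c h
      have hG' : (a, b, c) ∈ G.T := by rw [hG]; exact h
      have h1 := occ_iff hG hD hJ h
      have h2 := occ_iff hG hD hJ (delT_rot hS h)
      have h3 := occ_iff hG hD hJ (delT_rot hS (delT_rot hS h))
      have hp := hJ.par a b c hG'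
      simp only [Set.mem_empty_iff_false, if_false] at hp
      simp only [h1, h2, h3]
      by_cases x1 : (a, b) ∈ J <;> by_cases x2 : (b, c) ∈ J <;> by_cases x3 : (c, a) ∈ J <;>
        simp only [x1, x2, x3, if_true, if_false] at hp ⊢ <;> first | decide | omega)
  refine ⟨fun a => decide (σ a = 1), fun a b hab => ?_⟩
  have h := hσ a b hab
  by_cases hx : (a, b) ∈ J ∨ (b, a) ∈ J
  · simp only [hx, if_true] at h
    simp only [hx, iff_true, ne_eq, decide_eq_decide]
    generalize σ a = u at h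
    generalize σ b = v at h
    revert u v
    decide
  · simp only [hx, if_false] at h
    simp only [hx, iff_false, ne_eq, not_not, decide_eq_decide]
    generalize σ a = u at h
    generalize σ b = v at h
    revert u v
    decide

/-- **J7, uniqueness** up to a global flip -/
theorem col_unique (hS : GP (S : Set ℂ)) (h3 : 3 ≤ S.card) {σ τ : ℂ → Bool}
    (h : ∀ a b, Adj S a b → (σ a ≠ σ b ↔ τ a ≠ τ b)) :
    (∀ s ∈ S, σ s = τ s) ∨ ∀ s ∈ S, σ s = !τ s := by
  have hc : ∀ a b, Adj S a b → xor (σ a) (τ a) = xor (σ b) (τ b) := by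
    intro a b hab
    have := h a b hab
    revert this
    generalize σ a = p, σ b = q, τ a = r, τ b = s
    revert p q r s
    decide
  have hall := const hS h3 hc
  have hne : S.Nonempty := by rw [← Finset.card_pos]; omega
  obtain ⟨m, hm⟩ := hne
  rcases hv : xor (σ m) (τ m) with _ | _
  · left
    intro s hs
    have := hall s hs m hm
    rw [hv] at this
    revert this
    generalize σ s = p, τ s = q
    revert p q
    decide
  · right
    intro s hs
    have := hall s hs m hm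
    rw [hv] at this
    revert this
    generalize σ s = p, τ s = q
    revert p q
    decide

/-- valid colourings: constant along killed edges and along the unmarked hull edges, two colours
at every mark -/
structure IsCol (S : Finset ℂ) (kl : Set (ℂ × ℂ)) (D : Set (ℂ × ℂ)) (σ : ℂ → Bool) : Prop where
  kill : ∀ a b, Adj S a b → (a, b) ∈ kl → (a, b) ∉ D → (b, a) ∉ D → σ a = σ b
  hull : ∀ a b, hullE S a b → (a, b) ∉ D → σ a = σ b
  mark : ∀ a b, (a, b) ∈ D → σ a ≠ σ b

/-- the join of a colouring -/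
def colJ (G : Trg ℂ) (D : Set (ℂ × ℂ)) (σ : ℂ → Bool) : Finset (ℂ × ℂ) :=
  G.E.filter fun p => σ p.1 ≠ σ p.2 ∧ (p.2, p.1) ∉ D

theorem mem_E (hG : G.T = delT S) {a b : ℂ} : (a, b) ∈ G.E ↔ Adj S a b := by
  unfold Trg.E Adj
  rw [Finset.mem_union, Finset.mem_image, Finset.mem_image, hG]
  constructor
  · rintro (⟨⟨x, y, z⟩, ht, he⟩ | ⟨⟨x, y, z⟩, ht, he⟩)
    · rw [Prod.mk.injEq] at he
      obtain ⟨rfl, rfl⟩ := he
      exact Or.inl ⟨z, ht⟩
    · rw [Prod.mk.injEq] at he
      obtain ⟨rfl, rfl⟩ := he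
      exact Or.inr ⟨z, ht⟩
  · rintro (⟨c, h⟩ | ⟨c, h⟩)
    · exact Or.inl ⟨_, h, rfl⟩
    · exact Or.inr ⟨_, h, rfl⟩

theorem colJ_isJoin (hS : GP (S : Set ℂ)) (hG : G.T = delT S)
    (hD : ∀ a b, (a, b) ∈ D → hullE S a b) (hkl : ∀ a b, (a, b) ∈ kl → (b, a) ∈ kl)
    {σ : ℂ → Bool} (hσ : IsCol S kl D σ) : IsJoin G kl ∅ D (colJ G D σ) := by
  have hmem : ∀ a b, (a, b) ∈ colJ G D σ ↔ (Adj S a b ∧ σ a ≠ σ b ∧ (b, a) ∉ D) := by
    intro a b
    unfold colJ
    rw [Finset.mem_filter, mem_E hG]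
  have hnot : ∀ a b, (a, b) ∈ D → (b, a) ∉ D := by
    intro a b h h'
    obtain ⟨⟨c, hc⟩, -⟩ := hD _ _ h'
    exact (hD _ _ h).2 c hc
  refine ⟨Finset.filter_subset _ _, ?_, ?_, ?_, ?_, ?_⟩
  · intro a b h1 h2
    rw [hmem, hmem]
    constructor
    · rintro ⟨h3, h4, h5⟩
      exact ⟨h3.symm, h4.symm, h1⟩
    · rintro ⟨h3, h4, h5⟩
      exact ⟨h3.symm, h4.symm, h2⟩
  · intro a b h
    rw [hmem, hmem]
    refine ⟨⟨Or.inl (hD _ _ h).1, hσ.mark _ _ h, hnot _ _ h⟩, ?_⟩
    rintro ⟨-, -, h'⟩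
    exact h' h
  · intro a b h1 h2
    rw [hG] at h1
    rw [hmem, hmem]
    have key : Adj S a b → σ a = σ b := by
      intro hab
      rcases hab with hc | ⟨c, hc⟩
      · exact hσ.hull a b ⟨hc, h1⟩ h2
      · exact absurd hc (h1 c)
    exact ⟨fun h => h.2.1 (key h.1), fun h => h.2.1 (key h.1.symm).symm⟩
  · intro a b h1 h2 h4
    rw [hmem, hmem]
    exact ⟨fun h => h.2.1 (hσ.kill _ _ h.1 h1 h2 h4),
      fun h => h.2.1 (hσ.kill _ _ h.1 (hkl _ _ h1) h4 h2)⟩
  · intro a b c h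
    rw [hG] at h
    have nD : ∀ x y z, (x, y, z) ∈ delT S → (y, x) ∉ D := fun x y z hx hy => (hD _ _ hy).2 z hx
    have e1 : (a, b) ∈ colJ G D σ ↔ σ a ≠ σ b := by
      rw [hmem]; exact ⟨fun h => h.2.1, fun h' => ⟨adj_tri h, h', nD _ _ _ h⟩⟩
    have e2 : (b, c) ∈ colJ G D σ ↔ σ b ≠ σ c := by
      rw [hmem]
      exact ⟨fun h => h.2.1, fun h' => ⟨adj_tri' hS h, h', nD _ _ _ (delT_rot hS h)⟩⟩
    have e3 : (c, a) ∈ colJ G D σ ↔ σ c ≠ σ a := by
      rw [hmem]
      exact ⟨fun h => h.2.1,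
        fun h' => ⟨adj_tri'' hS h, h', nD _ _ _ (delT_rot hS (delT_rot hS h))⟩⟩
    simp only [e1, e2, e3, Set.mem_empty_iff_false, if_false]
    generalize σ a = p, σ b = q, σ c = r
    revert p q r
    decide

/-- the join of the colouring of a join -/
theorem eq_colJ (hG : G.T = delT S) (_hD : HullM S D)
    (hJ : IsJoin G kl ∅ D J) {σ : ℂ → Bool}
    (hσ : ∀ a b, Adj S a b → (σ a ≠ σ b ↔ ((a, b) ∈ J ∨ (b, a) ∈ J))) : J = colJ G D σ := by
  ext ⟨a, b⟩
  unfold colJ
  rw [Finset.mem_filter, mem_E hG]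
  constructor
  · intro h
    have h1 : Adj S a b := (mem_E hG).1 (hJ.sub h)
    exact ⟨h1, (hσ a b h1).2 (Or.inl h), fun h' => (hJ.mark _ _ h').2 h⟩
  · rintro ⟨h1, h2, h3⟩
    rcases (hσ a b h1).1 h2 with h | h
    · exact h
    · by_cases h4 : (a, b) ∈ D
      · exact (hJ.mark _ _ h4).1
      · exact (hJ.sym a b h4 h3).2 h

/-- the colouring of a join is valid -/
theorem isCol_of_join (hG : G.T = delT S) (hD : ∀ a b, (a, b) ∈ D → hullE S a b)
    (hJ : IsJoin G kl ∅ D J) {σ : ℂ → Bool}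
    (hσ : ∀ a b, Adj S a b → (σ a ≠ σ b ↔ ((a, b) ∈ J ∨ (b, a) ∈ J))) : IsCol S kl D σ := by
  refine ⟨?_, ?_, ?_⟩
  · intro a b h1 h2 h3 h4
    by_contra hne
    have h5 := hJ.kill a b h2 h3 h4
    rcases (hσ a b h1).1 hne with h | h
    · exact h5.1 h
    · exact h5.2 h
  · intro a b h1 h2
    by_contra hne
    have h5 := hJ.bdr a b (by rw [hG]; exact h1.2) h2
    rcases (hσ a b (Or.inl h1.1)).1 hne with h | h
    · exact h5.1 h
    · exact h5.2 h
  · intro a b h
    exact (hσ a b (Or.inl (hD a b h).1)).2 (Or.inl (hJ.mark a b h).1)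

/-- **J7**: the joins with marks on the hull are exactly the boundaries of valid colourings -/
theorem mem_joins_iff (hS : GP (S : Set ℂ)) (hG : G.T = delT S)
    (hD : ∀ a b, (a, b) ∈ D → hullE S a b) (hkl : ∀ a b, (a, b) ∈ kl → (b, a) ∈ kl) :
    J ∈ joins G kl ∅ D ↔ ∃ σ : ℂ → Bool, IsCol S kl D σ ∧ J = colJ G D σ := by
  rw [JCardx872.mem_joins]
  constructor
  · intro hJ
    obtain ⟨σ, hσ⟩ := join_col hS hG (fun a b h => (hD a b h).2) hJ
    exact ⟨σ, isCol_of_join hG hD hJ hσ, eq_colJ hG (fun a b h => (hD a b h).2) hJ hσ⟩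
  · rintro ⟨σ, hσ, rfl⟩
    exact colJ_isJoin hS hG hD hkl hσ

/-- the valid colourings as sets of black sites -/
def cols (S : Finset ℂ) (kl : Set (ℂ × ℂ)) (D : Set (ℂ × ℂ)) : Finset (Finset ℂ) :=
  S.powerset.filter fun B => IsCol S kl D fun s => decide (s ∈ B)

/-- the join of a set of black sites -/
def setJ (G : Trg ℂ) (D : Set (ℂ × ℂ)) (B : Finset ℂ) : Finset (ℂ × ℂ) :=
  colJ G D fun s => decide (s ∈ B)

/-- only the values at the sites matter -/
theorem isCol_congr (hD : ∀ a b, (a, b) ∈ D → hullE S a b) {σ τ : ℂ → Bool}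
    (h : ∀ s ∈ S, σ s = τ s) (hσ : IsCol S kl D σ) : IsCol S kl D τ := by
  refine ⟨?_, ?_, ?_⟩
  · intro a b h1 h2 h3 h4
    rw [← h a h1.mem.1, ← h b h1.mem.2]
    exact hσ.kill _ _ h1 h2 h3 h4
  · intro a b h1 h2
    rw [← h a (hullE.mem h1).1, ← h b (hullE.mem h1).2]
    exact hσ.hull _ _ h1 h2
  · intro a b h1
    rw [← h a (hullE.mem (hD _ _ h1)).1, ← h b (hullE.mem (hD _ _ h1)).2]
    exact hσ.mark _ _ h1

theorem isCol_not {σ : ℂ → Bool} (hσ : IsCol S kl D σ) : IsCol S kl D fun s => !σ s := by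
  refine ⟨?_, ?_, ?_⟩
  · intro a b h1 h2 h3 h4
    rw [hσ.kill _ _ h1 h2 h3 h4]
  · intro a b h1 h2
    rw [hσ.hull _ _ h1 h2]
  · intro a b h1
    have := hσ.mark _ _ h1
    revert this
    generalize σ a = p, σ b = q
    revert p q
    decide

theorem colJ_congr (hG : G.T = delT S) {σ τ : ℂ → Bool} (h : ∀ s ∈ S, σ s = τ s) :
    colJ G D σ = colJ G D τ := by
  unfold colJ
  apply Finset.filter_congr
  rintro ⟨a, b⟩ hab
  have h1 := (mem_E hG).1 hab
  dsimp only
  rw [h a h1.mem.1, h b h1.mem.2]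

theorem colJ_not {σ : ℂ → Bool} : colJ G D (fun s => !σ s) = colJ G D σ := by
  unfold colJ
  apply Finset.filter_congr
  rintro ⟨a, b⟩ _
  dsimp only
  generalize σ a = p, σ b = q
  have : (!p) ≠ (!q) ↔ p ≠ q := by revert p q; decide
  rw [this]

theorem compl_mem_cols (hD : ∀ a b, (a, b) ∈ D → hullE S a b) {B : Finset ℂ}
    (hB : B ∈ cols S kl D) : S \ B ∈ cols S kl D := by
  unfold cols at hB ⊢
  rw [Finset.mem_filter, Finset.mem_powerset] at hB ⊢
  refine ⟨Finset.sdiff_subset, isCol_congr hD ?_ (isCol_not hB.2)⟩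
  intro s hs
  by_cases h : s ∈ B <;> simp [h, hs]

theorem setJ_compl (hG : G.T = delT S) {B : Finset ℂ} : setJ G D (S \ B) = setJ G D B := by
  unfold setJ
  rw [← colJ_not (σ := fun s => decide (s ∈ B))]
  apply colJ_congr hG
  intro s hs
  by_cases h : s ∈ B <;> simp [h, hs]

theorem setJ_mem (hS : GP (S : Set ℂ)) (hG : G.T = delT S)
    (hD : ∀ a b, (a, b) ∈ D → hullE S a b) (hkl : ∀ a b, (a, b) ∈ kl → (b, a) ∈ kl)
    {B : Finset ℂ} (hB : B ∈ cols S kl D) : setJ G D B ∈ joins G kl ∅ D :=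
  (mem_joins_iff hS hG hD hkl).2 ⟨_, (Finset.mem_filter.1 hB).2, rfl⟩

/-- the fibre of a join: a set of black sites and its complement -/
theorem fibre (hS : GP (S : Set ℂ)) (h3 : 3 ≤ S.card) (hG : G.T = delT S)
    (hD : ∀ a b, (a, b) ∈ D → hullE S a b) {B B' : Finset ℂ}
    (hB : B ∈ cols S kl D) (hB' : B' ∈ cols S kl D) (h : setJ G D B = setJ G D B') :
    B' = B ∨ B' = S \ B := by
  have hBS := Finset.mem_powerset.1 (Finset.mem_filter.1 hB).1
  have hBS' := Finset.mem_powerset.1 (Finset.mem_filter.1 hB').1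
  have key : ∀ a b, Adj S a b → (decide (a ∈ B) ≠ decide (b ∈ B) ↔
      decide (a ∈ B') ≠ decide (b ∈ B')) := by
    intro a b hab
    have hm : ∀ x y, Adj S x y → (y, x) ∉ D →
        (decide (x ∈ B) ≠ decide (y ∈ B) ↔ decide (x ∈ B') ≠ decide (y ∈ B')) := by
      intro x y hxy hn
      have e : (x, y) ∈ setJ G D B ↔ (x, y) ∈ setJ G D B' := by rw [h]
      unfold setJ colJ at e
      rw [Finset.mem_filter, Finset.mem_filter, mem_E hG] at e
      constructor
      · intro h'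
        exact (e.1 ⟨hxy, h', hn⟩).2.1
      · intro h'
        exact (e.2 ⟨hxy, h', hn⟩).2.1
    by_cases h1 : (b, a) ∈ D
    · have h2 : (a, b) ∉ D := by
        intro h'
        obtain ⟨⟨c, hc⟩, -⟩ := hD _ _ h'
        exact (hD _ _ h1).2 c hc
      rw [ne_comm, hm b a hab.symm h2, ne_comm]
    · exact hm a b hab h1
  rcases col_unique hS h3 (fun a b hab => (key a b hab).symm) with h' | h'
  · left
    ext s
    constructor
    · intro hs
      have := h' s (hBS' hs)
      simpa [hs] using this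
    · intro hs
      have := h' s (hBS hs)
      simpa [hs] using this
  · right
    ext s
    rw [Finset.mem_sdiff]
    constructor
    · intro hs
      have := h' s (hBS' hs)
      refine ⟨hBS' hs, ?_⟩
      simpa [hs] using this
    · rintro ⟨hs1, hs2⟩
      have := h' s hs1
      simpa [hs2] using this

/-- **J7, counting with an arbitrary predicate**: twice the number of joins = number of sets of
black sites -/
theorem card_cols (hS : GP (S : Set ℂ)) (h3 : 3 ≤ S.card) (hG : G.T = delT S)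
    (hD : ∀ a b, (a, b) ∈ D → hullE S a b) (hkl : ∀ a b, (a, b) ∈ kl → (b, a) ∈ kl)
    (P : Finset (ℂ × ℂ) → Prop) :
    ((cols S kl D).filter fun B => P (setJ G D B)).card =
      2 * ((joins G kl ∅ D).filter P).card := by
  have hmap : ∀ B ∈ (cols S kl D).filter fun B => P (setJ G D B),
      setJ G D B ∈ (joins G kl ∅ D).filter P := by
    intro B hB
    rw [Finset.mem_filter] at hB ⊢
    exact ⟨setJ_mem hS hG hD hkl hB.1, hB.2⟩
  rw [Finset.card_eq_sum_card_fiberwise hmap, mul_comm]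
  apply Finset.sum_const_nat
  intro J hJ
  rw [Finset.mem_filter] at hJ
  obtain ⟨σ, hσ, rfl⟩ := (mem_joins_iff hS hG hD hkl).1 hJ.1
  set B : Finset ℂ := S.filter fun s => σ s = true with hB
  have hBσ : ∀ s ∈ S, σ s = decide (s ∈ B) := by
    intro s hs
    rw [hB]
    simp [Finset.mem_filter, hs]
  have hBc : B ∈ cols S kl D := by
    unfold cols
    rw [Finset.mem_filter, Finset.mem_powerset]
    exact ⟨Finset.filter_subset _ _, isCol_congr hD hBσ hσ⟩
  have hBJ : setJ G D B = colJ G D σ := (colJ_congr hG hBσ).symm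
  have hne : B ≠ S \ B := by
    have hne : S.Nonempty := by rw [← Finset.card_pos]; omega
    obtain ⟨m, hm⟩ := hne
    intro h
    by_cases hmB : m ∈ B
    · have h1 := hmB
      rw [h, Finset.mem_sdiff] at h1
      exact h1.2 hmB
    · apply hmB
      rw [h, Finset.mem_sdiff]
      exact ⟨hm, hmB⟩
  have hfib : ((cols S kl D).filter fun B => P (setJ G D B)).filter
      (fun B' => setJ G D B' = colJ G D σ) = {B, S \ B} := by
    ext B'
    rw [Finset.mem_filter, Finset.mem_filter, Finset.mem_insert, Finset.mem_singleton]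
    constructor
    · rintro ⟨⟨h1, -⟩, h2⟩
      exact fibre hS h3 hG hD hBc h1 (hBJ.trans h2.symm)
    · rintro (rfl | rfl)
      · exact ⟨⟨hBc, by rw [hBJ]; exact hJ.2⟩, hBJ⟩
      · exact ⟨⟨compl_mem_cols hD hBc, by rw [setJ_compl hG, hBJ]; exact hJ.2⟩,
          by rw [setJ_compl hG, hBJ]⟩
  rw [hfib, Finset.card_pair hne]

end Crest.Agent.R143.JCol2x54
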