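import Crest.Agent.R143.Mab2_377

/-!
# Row 143, finite-net half of STEP 4 (note 2908): the rule "exit of the ball of radius `l`"
-/

set_option autoImplicit false

noncomputable section

open scoped Classical

namespace Crest.Agent.R143.Mabx377

open Crest.Agent.R143.B0x346 Crest.Agent.R143.JCardx872 Crest.Agent.R143.JWalkx872
  Crest.Agent.R143.J1x872 Crest.Agent.R143.J4x872

variable {V : Type}

/-! ### the walker does not come back -/

section norep

variable {G : Trg V} {kl : Set (V × V)} {O : Set (V × V × V)} {D : Set (V × V)}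
  {J : Finset (V × V)}

theorem leadsN_leads {n : ℕ} {p q : V × V} (h : LeadsN G O D J n p q) : Leads G O D J p q :=
  leads_iff_leadsN.2 ⟨n, h⟩

theorem no_repeat (hJ : IsJoin G kl O D J) (hO : RotInv O) {s : V × V} (hs : s ∈ D) :
    ∀ (i j : ℕ) (p : V × V), LeadsN G O D J i s p → LeadsN G O D J j s p → i = j := by
  have hsJ : s ∈ J := (hJ.mark s.1 s.2 hs).1
  have h0 : ∀ (j : ℕ) (q : V × V), LeadsN G O D J (j + 1) s q → q ≠ s := by
    intro j q h e
    obtain ⟨m, _, hm⟩ := leadsN_untail j s q h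
    exact step_notMark hJ hm (e ▸ hs)
  intro i
  induction i with
  | zero =>
    intro j p h1 h2
    change s = p at h1
    rcases j with _ | j
    · rfl
    · exact absurd h1.symm (h0 j p h2)
  | succ i ih =>
    intro j p h1 h2
    rcases j with _ | j
    · change s = p at h2
      exact absurd h2.symm (h0 i p h1)
    · obtain ⟨m, hm, hs1⟩ := leadsN_untail i s p h1
      obtain ⟨m', hm', hs2⟩ := leadsN_untail j s p h2
      have e1 := leads_step_mem hJ hsJ (leadsN_leads hm) hs1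
      have e2 := leads_step_mem hJ hsJ (leadsN_leads hm') hs2
      have r1 := step_rev hJ hO e1 hs1
      have r2 := step_rev hJ hO e2 hs2
      have e := step_det r1 r2
      have e' : m = m' := by
        rw [Prod.mk.injEq] at e
        exact Prod.ext e.2 e.1
      subst e'
      rw [ih j m hm hm']

theorem fol_leadsN : ∀ (L : Pt V) (p q : V × V), Fol G O D J p L q →
    LeadsN G O D J L.length p q
  | [], _, _, h => h
  | _ :: L, _, q, ⟨_, m, _, h3, h4⟩ => ⟨m, h3, fol_leadsN L m q h4⟩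

theorem fol_append : ∀ (L L' : Pt V) (p q : V × V), Fol G O D J p (L ++ L') q →
    ∃ m, Fol G O D J p L m ∧ Fol G O D J m L' q
  | [], _, p, _, h => ⟨p, rfl, h⟩
  | _ :: L, L', _, q, ⟨h1, m, h2, h3, h4⟩ => by
    obtain ⟨m', h5, h6⟩ := fol_append L L' m q h4
    exact ⟨m', ⟨h1, m, h2, h3, h5⟩, h6⟩

/-- a state of the path is reached after the corresponding number of steps -/
theorem fol_mem {L : Pt V} {p q : V × V} (h : Fol G O D J p L q) {a : (V × V) × (V × V)}
    (ha : a ∈ L) : ∃ i < L.length, LeadsN G O D J i p a.1 := by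
  obtain ⟨L1, L2, rfl⟩ := List.append_of_mem ha
  obtain ⟨m, h1, h2⟩ := fol_append L1 (a :: L2) p q h
  have h3 : a.1 = m := h2.1
  refine ⟨L1.length, by simp, ?_⟩
  rw [h3]
  exact fol_leadsN L1 p m h1

theorem fol_norep (hJ : IsJoin G kl O D J) (hO : RotInv O) {s q r : V × V} (hs : s ∈ D)
    {L L' : Pt V} (h : Fol G O D J s L q) (h' : Fol G O D J q L' r) :
    (∀ a ∈ L, a.1 ≠ q) ∧ ∀ a ∈ L, ∀ b ∈ L', a.1 ≠ b.1 := by
  have hq := fol_leadsN L s q h
  constructor
  · intro a ha e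
    obtain ⟨i, hi, hl⟩ := fol_mem h ha
    rw [e] at hl
    have := no_repeat hJ hO hs i L.length q hl hq
    omega
  · intro a ha b hb e
    obtain ⟨i, hi, hl⟩ := fol_mem h ha
    obtain ⟨j, _, hl'⟩ := fol_mem h' hb
    have h1 : ∀ (n m : ℕ) (p q r : V × V), LeadsN G O D J n p q → LeadsN G O D J m q r →
        LeadsN G O D J (n + m) p r := by
      intro n
      induction n with
      | zero =>
        intro m p q r h1 h2
        change p = q at h1
        subst h1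
        rwa [Nat.zero_add]
      | succ n ih =>
        rintro m p q r ⟨x, hx, h1⟩ h2
        rw [Nat.add_right_comm]
        exact ⟨x, hx, ih m x q r h1 h2⟩
    have h2 := h1 _ _ _ _ _ hq hl'
    rw [e] at hl
    have := no_repeat hJ hO hs _ _ _ hl h2
    omega

end norep

/-! ### the rule -/

/-- the rule "first exit of the ball of radius `l` round the tip" -/
def ball (l : ℝ) (x : St ℂ) (p : ℂ × ℂ) : Prop :=
  l ≤ dist (mid p) (mid x.2) ∧ p ∉ x.1.map Prod.fst

theorem ball_fwd (l : ℝ) : Fwd (ball l) := by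
  intro x a ha h
  exact h.2 (List.mem_map_of_mem ha)

theorem ball_prog {l : ℝ} (hl : 0 < l) : Prog (ball l) := by
  intro x h
  have := h.1
  rw [dist_self] at this
  linarith

variable {S : Finset ℂ} {N : Net ℂ}

/-- the triangles with a side whose middle is at distance `< l` from the tip -/
def near (S : Finset ℂ) (l : ℝ) (x : St ℂ) : Finset (ℂ × ℂ × ℂ) :=
  (delT S).filter fun t => ∃ i, dist (mid (sd t i)) (mid x.2) < l

theorem reach_near (h : HNet S N) {l : ℝ} {x : St ℂ} (hok : Ok N x.1 x.2) :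
    reach S (knet N x.1) (ball l x) ⊆ near S l x := by
  intro t ht
  unfold reach at ht
  rw [Finset.mem_filter] at ht
  obtain ⟨htS, ⟨i, hi⟩, hk⟩ := ht
  unfold near
  rw [Finset.mem_filter]
  refine ⟨htS, i, ?_⟩
  by_contra hn
  apply hi
  refine ⟨not_lt.1 hn, ?_⟩
  intro hmem
  obtain ⟨a, ha, e⟩ := List.mem_map.1 hmem
  obtain ⟨c, hc, hu⟩ := pth_tri x.1 _ _ (ok_pth hok) a ha
  have htT : t ∈ N.T := h.tri ▸ htS
  obtain ⟨z, hz, hz'⟩ := sd_tri htT i
  rw [← e] at hz hz'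
  have hcz : c = z := N.uniq hc hz
  subst hcz
  have h4 : ∃ j, a.2 = sd t j := by
    rcases hu with hu | hu
    · obtain ⟨j, hj⟩ := of_rots (rotInv_rots t _ _ _ (rotInv_rots t _ _ _ hz'))
      exact ⟨j, hu.trans hj⟩
    · obtain ⟨j, hj⟩ := of_rots (rotInv_rots t _ _ _ hz')
      exact ⟨j, hu.trans hj⟩
  obtain ⟨j, hj⟩ := h4
  exact hk j (Or.inr ⟨a, ha, Or.inl hj.symm⟩)

/-- the error of one step of the rule `ball` -/
def errB (S : Finset ℂ) (l : ℝ) (φ w : ℂ × ℂ × ℂ → ℂ) (ψ : ℂ × ℂ → ℂ) (x : St ℂ) : ℝ :=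
  2 * (√3 * √(∑ t ∈ near S l x, ‖(φ t - ψ x.2) * w t‖ ^ 2))

theorem err_le (h : HNet S N) {l : ℝ} {x : St ℂ} (hok : Ok N x.1 x.2)
    (φ w : ℂ × ℂ × ℂ → ℂ) (ψ : ℂ × ℂ → ℂ) :
    err S (knet N x.1) (ball l x) (fun t => (φ t - ψ x.2) * w t) ≤ errB S l φ w ψ x := by
  unfold err errB
  have := Finset.sum_le_sum_of_subset_of_nonneg (f := fun t => ‖(φ t - ψ x.2) * w t‖ ^ 2)
    (reach_near h (l := l) hok) (fun _ _ _ => sq_nonneg _)
  have h2 := Real.sqrt_le_sqrt this
  have h3 : (0 : ℝ) ≤ √3 := Real.sqrt_nonneg _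
  nlinarith

/-- the states of the exploration by exits of balls of radius `l` -/
def xs (N : Net ℂ) (l : ℝ) (J : Finset (ℂ × ℂ)) (n : ℕ) : St ℂ :=
  (stepJ N (ball l) J)^[n] ([], N.ex 0)

theorem xs_zero (l : ℝ) (J : Finset (ℂ × ℂ)) : xs N l J 0 = ([], N.ex 0) := rfl

theorem xs_succ (l : ℝ) (J : Finset (ℂ × ℂ)) (n : ℕ) :
    xs N l J (n + 1) = stepJ N (ball l) J (xs N l J n) :=
  Function.iterate_succ_apply' _ _ _

theorem xs_fol (hg : Good N) {l : ℝ} {J : Finset (ℂ × ℂ)} (hJ : J ∈ Om N) (n : ℕ) :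
    Fol N.toTrg ∅ (D2 N) J (N.ex 0) (xs N l J n).1 (xs N l J n).2 :=
  iterate_fol hg hJ n

theorem xs_ok (hg : Good N) {l : ℝ} {J : Finset (ℂ × ℂ)} (hJ : J ∈ Om N) (n : ℕ) :
    Ok N (xs N l J n).1 (xs N l J n).2 := iterate_ok hg hJ n

/-- one step of the exploration: the part `L''` of the leg from the tip of `xs n` to the tip of
`xs (n + 1)`; its states are at distance `< l` from the tip of `xs n`; the step ends at the end of
the leg or at a state at distance `≥ l` -/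
theorem xs_step (hg : Good N) {l : ℝ} (hl : 0 < l) {J : Finset (ℂ × ℂ)} (hJ : J ∈ Om N)
    (n : ℕ) : ∃ L'' : Pt ℂ, (xs N l J (n + 1)).1 = (xs N l J n).1 ++ L'' ∧
      Fol N.toTrg ∅ (D2 N) J (xs N l J n).2 L'' (xs N l J (n + 1)).2 ∧
      (∀ a ∈ L'', dist (mid a.1) (mid (xs N l J n).2) < l) ∧
      (l ≤ dist (mid (xs N l J (n + 1)).2) (mid (xs N l J n).2) ∨
        sw (xs N l J (n + 1)).2 ∈ D2 N) := by
  rw [xs_succ]
  obtain ⟨L'', e, h1, h2, h3⟩ := step_append hg (ball_fwd l) hJ (xs_fol (l := l) hg hJ n)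
  obtain ⟨hn1, hn2⟩ := fol_norep (mem_joins.1 hJ) rotInv_empty (ex0_mem N hg)
    (xs_fol (l := l) hg hJ n) h1
  refine ⟨L'', e, h1, ?_, ?_⟩
  · intro a ha
    by_contra hn
    apply h2 a ha
    refine ⟨not_lt.1 hn, ?_⟩
    intro hm
    obtain ⟨b, hb, e'⟩ := List.mem_map.1 hm
    exact hn2 b hb a ha e'
  · rcases h3 with h3 | h3 | ⟨_, c, _, h3⟩
    · exact Or.inl h3.1
    · exact Or.inr h3
    · exact h3.elim

/-- one turn moves the middle by at most `δ` if `δ` bounds the distances of the middles of the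
sides of each triangle -/
theorem turn_dist (h : HNet S N) {δ : ℝ}
    (hδ : ∀ t ∈ delT S, ∀ i j, dist (mid (sd t i)) (mid (sd t j)) ≤ δ) {p q u : ℂ × ℂ}
    (ht : Turn N.toTrg p q u) : dist (mid q) (mid p) ≤ δ := by
  obtain ⟨c, hc, hq⟩ := ht
  have hS : (p.1, p.2, c) ∈ delT S := h.tri ▸ hc
  have hm : ∀ a b : ℂ, mid (a, b) = mid (b, a) := by
    intro a b
    unfold mid
    ring
  rcases hq with ⟨rfl, _⟩ | ⟨rfl, _⟩
  · have := hδ _ hS 1 0
    rw [sd1, sd0] at this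
    rw [hm c p.2]
    exact this
  · have := hδ _ hS 2 0
    rw [sd2, sd0] at this
    rw [hm p.1 c]
    exact this

theorem fol_last_dist (h : HNet S N) {δ : ℝ}
    (hδ : ∀ t ∈ delT S, ∀ i j, dist (mid (sd t i)) (mid (sd t j)) ≤ δ) {l : ℝ} {z : ℂ}
    {J : Finset (ℂ × ℂ)} : ∀ (L : Pt ℂ) (p q : ℂ × ℂ), Fol N.toTrg ∅ (D2 N) J p L q →
    (∀ a ∈ L, dist (mid a.1) z < l) → dist (mid p) z < l + δ → 0 ≤ δ →
    dist (mid q) z < l + δ := by
  intro L
  induction L with
  | nil =>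
    intro p q hF _ hp _
    change p = q at hF
    subst hF
    exact hp
  | cons a L ih =>
    rintro p q ⟨h1, m, h2, _, h4⟩ hL _ hd
    refine ih m q h4 (fun b hb => hL b (List.mem_cons_of_mem _ hb)) ?_ hd
    have h5 := hL a (List.mem_cons_self ..)
    rw [h1] at h5
    have h6 := turn_dist h hδ h2
    calc dist (mid m) z ≤ dist (mid m) (mid p) + dist (mid p) z := dist_triangle _ _ _
      _ < l + δ := by linarith

/-- the tip moves by less than `l + δ` -/
theorem xs_dist (h : HNet S N) {δ : ℝ} (hd : 0 ≤ δ)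
    (hδ : ∀ t ∈ delT S, ∀ i j, dist (mid (sd t i)) (mid (sd t j)) ≤ δ) {l : ℝ} (hl : 0 < l)
    {J : Finset (ℂ × ℂ)} (hJ : J ∈ Om N) (n : ℕ) :
    dist (mid (xs N l J (n + 1)).2) (mid (xs N l J n).2) < l + δ := by
  obtain ⟨L'', _, h1, h2, _⟩ := xs_step (good_of_hnet h) hl hJ n
  refine fol_last_dist h hδ L'' _ _ h1 h2 ?_ hd
  rw [dist_self]
  linarith

/-- the cost of the step `n` -/
def costB (S : Finset ℂ) (N : Net ℂ) (l : ℝ) (φ w : ℂ × ℂ × ℂ → ℂ) (ψ : ℂ × ℂ → ℂ)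
    (J : Finset (ℂ × ℂ)) (n : ℕ) : ℝ :=
  (if Alive S N (xs N l J n) then errB S l φ w ψ (xs N l J n) else 0) +
    ‖ψ (xs N l J (n + 1)).2 - ψ (xs N l J n).2‖ * ‖Y S N w (xs N l J (n + 1))‖

/-- **the finite-net inequality of STEP 4 for the exits of `l`-balls** -/
theorem mab_ball (h : HNet S N) {l : ℝ} (hl : 0 < l) (φ w : ℂ × ℂ × ℂ → ℂ) (ψ : ℂ × ℂ → ℂ)
    {n : ℕ} (hn : fuel N ≤ n) :
    ‖∑ t ∈ delT S, φ t * w t * N.Q t‖ ≤ ‖ψ (N.ex 0)‖ * ‖∑ t ∈ delT S, w t * N.Q t‖ +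
      (∑ J ∈ Om N, ∑ j ∈ Finset.range n, costB S N l φ w ψ J j) / ((Om N).card : ℝ) := by
  refine (mab h (ball_fwd l) (ball_prog hl) φ w ψ hn).trans ?_
  refine add_le_add (le_refl _) (div_le_div_of_nonneg_right ?_ (Nat.cast_nonneg _))
  refine Finset.sum_le_sum fun J hJ => Finset.sum_le_sum fun j _ => ?_
  unfold cost costB
  refine add_le_add ?_ (le_refl _)
  change (if Alive S N (xs N l J j) then _ else _) ≤ _
  split_ifs
  · exact err_le h (xs_ok (good_of_hnet h) hJ j) φ w ψ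
  · exact le_refl _

/-- the exploration has ended after `fuel N` steps -/
theorem xs_end (h : HNet S N) {l : ℝ} (hl : 0 < l) {J : Finset (ℂ × ℂ)} (hJ : J ∈ Om N)
    {n : ℕ} (hn : fuel N ≤ n) : ¬ Alive S N (xs N l J n) := by
  rintro ⟨t, ht, hQ⟩
  have hg := good_of_hnet h
  have htT : t ∈ N.T := h.tri ▸ ht
  exact hQ (qx_end hg (xs_ok hg hJ n)
    (D2_sub N (iterate_end hg (ball_fwd l) (ball_prog hl) hJ hn)) htT)

end Crest.Agent.R143.Mabx377
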