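import Crest.Agent.R143.CNT_930
import Crest.Agent.R143.JCol2_54
import Crest.Agent.R143.Mab3_377

/-!
# Row 143: a leg which comes near a point produces an arm (helper930)

* `left_chain` : the left sites of a walk have one colour and form a chain
* `mid_small` : the end points of an edge whose middle is in a dense disc are near the middle
* `armD` : the leg from a mark far from `z` comes within `r` of `z` ⟹ `Arm2`
-/

set_option autoImplicit false

noncomputable section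

open scoped Classical

namespace Crest.Agent.R143.ArmDx930

open Crest.Agent.R143.B0x346 Crest.Agent.R143.DelGx806 Crest.Agent.R143.DelRx806
open Crest.Agent.R143.Circx63 Crest.Agent.R143.JColx54 Crest.Agent.R143.JCol2x54
  Crest.Agent.R143.Harx315
open Crest.Agent.R143.D3Fx802 Crest.Agent.R143.ArmPx930 Crest.Agent.R143.CNTx930
open Crest.Agent.R143.RB0x838 (LDns Mesh)
open Crest.Agent.R143.Lawx872 (ConnIn)

variable {S V B : Finset ℂ} {G : Trg ℂ} {D : Set (ℂ × ℂ)} {z : ℂ} {d r R : ℝ} {p q : ℂ × ℂ}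
  {σ : ℂ → Bool}

/-- **the left sites of a walk** -/
theorem left_chain (hS : GP (S : Set ℂ)) (hG : G.T = delT S) (hp : σ p.1 ≠ σ p.2)
    (h0 : Adj S p.1 p.2) (h : Leads G ∅ D (colJ G D σ) p q) :
    σ q.1 ≠ σ q.2 ∧ Adj S q.1 q.2 ∧ σ q.1 = σ p.1 ∧ q.1 ∈ S ∧
      ConnIn S (S.filter fun s => σ s = σ p.1) p.1 q.1 := by
  induction h with
  | refl => exact ⟨hp, h0, rfl, h0.mem.1, Relation.ReflTransGen.refl⟩
  | @tail m q _ hs ih =>
    obtain ⟨h1, h1', h2, h3, h4⟩ := ih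
    obtain ⟨c, hc, -, -, hq⟩ := hs
    rw [hG] at hc
    obtain ⟨m1, m2, m3, -⟩ := mem_delT.1 hc
    have key : ∀ x y, (x, y) ∈ colJ G D σ → σ x ≠ σ y := by
      intro x y hxy
      unfold colJ at hxy
      exact (Finset.mem_filter.1 hxy).2.1
    rcases hq with ⟨h5, rfl⟩ | ⟨h5, -, rfl⟩
    · have h6 := key _ _ h5
      have h7 : σ c = σ m.1 := by
        revert h1 h6
        generalize σ m.1 = x
        generalize σ m.2 = y
        generalize σ c = w
        revert x y w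
        decide
      refine ⟨fun e => h6 e.symm, Or.inr ⟨m.1, delT_rot hS hc⟩, h7.trans h2, m3,
        h4.tail ⟨?_, ?_, ?_⟩⟩
      · right
        exact ⟨m.2, delT_rot hS (delT_rot hS hc)⟩
      · rw [Finset.mem_filter]; exact ⟨h3, h2⟩
      · rw [Finset.mem_filter]; exact ⟨m3, h7.trans h2⟩
    · have h6 := key _ _ h5
      exact ⟨fun e => h6 e.symm, Or.inr ⟨m.2, delT_rot hS (delT_rot hS hc)⟩, h2, h3, h4⟩

/-- the end points of an edge are near its middle -/
theorem mid_small (h : LDns S z R d) (ha : Adj S q.1 q.2) (hq : ‖mid q - z‖ + d ≤ R) :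
    ‖q.1 - mid q‖ < 2 * d := by
  have hH : Locx922.Hol (S : Set ℂ) {w | ‖w - z‖ + d ≤ R} d := by
    intro w hw y hy
    have hw' : ‖w - z‖ + d ≤ R := hw
    obtain ⟨s, hs, h1⟩ := h.hole y (by
      have := Locx922.norm_tri y w z
      linarith)
    exact ⟨s, hs, h1⟩
  have hm : ∀ a b o : ℂ, ‖b - o‖ = ‖a - o‖ → ‖(a + b) / 2 - o‖ ≤ ‖a - o‖ := by
    intro a b o hab
    have e : (a + b) / 2 - o = ((a - o) + (b - o)) / 2 := by ring
    rw [e, norm_div]
    have h1 := norm_add_le (a - o) (b - o)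
    have h2 : ‖(2 : ℂ)‖ = 2 := by simp
    rw [h2]
    linarith
  have hw : mid q ∈ {w | ‖w - z‖ + d ≤ R} := hq
  rcases ha with ⟨c, hc⟩ | ⟨c, hc⟩
  · have hD : Locx922.InD (mid q) q.1 q.2 c := fun o h1 _ => hm q.1 q.2 o h1
    obtain ⟨o, -, -, -, -, -, h6, -, -⟩ := Locx922.del_small h.dpos hH hw hD (mem_delT.1 hc)
    exact h6
  · have hD : Locx922.InD (mid q) q.2 q.1 c := by
      intro o h1 _
      have e : mid q = (q.2 + q.1) / 2 := by unfold mid; ring
      rw [e]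
      exact hm q.2 q.1 o h1
    obtain ⟨o, -, -, -, -, -, -, h7, -⟩ := Locx922.del_small h.dpos hH hw hD (mem_delT.1 hc)
    exact h7

/-- **a leg which comes near `z`** -/
theorem armD (h : LDns S z (R + 2 * d) d) (hG : G.T = delT S) (hr : r + 4 * d < R)
    (hV : ∀ s ∈ S, ‖s - z‖ ≤ R + 2 * d → s ∈ V)
    (hp : decide (p.1 ∈ B) ≠ decide (p.2 ∈ B)) (h0 : Adj S p.1 p.2) (hfar : R ≤ ‖p.1 - z‖)
    (hl : Leads G ∅ D (setJ G D B) p q) (hq : ‖mid q - z‖ ≤ r) :
    Arm2 S V z (r + 2 * d) R (B ∩ V) := by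
  have hd := h.dpos
  obtain ⟨-, hadj, h2, h3, h4⟩ := left_chain h.gp hG hp h0 hl
  set γ := S.filter fun s => decide (s ∈ B) = decide (p.1 ∈ B) with hγ
  have hqγ : q.1 ∈ γ := by rw [hγ, Finset.mem_filter]; exact ⟨h3, h2⟩
  have hqz : ‖q.1 - z‖ ≤ r + 2 * d := by
    have h5 := mid_small h hadj (by linarith)
    have h6 := Locx922.norm_tri q.1 (mid q) z
    linarith
  obtain ⟨x, y, k1, k2, k3, k4, k5⟩ := extract (S := S) (β := γ) (p := z) (a := r + 2 * d)
    (b := R) (e := 2 * d) (by linarith)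
    (fun u v huv hu => (adj_small h huv (by linarith)).le) hqγ hqz hfar h4.symm
  have hsub : (γ.filter fun s => r + 2 * d - 2 * d ≤ ‖s - z‖ ∧ ‖s - z‖ ≤ R + 2 * d) ⊆ γ ∩ V := by
    intro s hs
    rw [Finset.mem_filter] at hs
    have hs' := hs.1
    rw [hγ, Finset.mem_filter] at hs'
    exact Finset.mem_inter.2 ⟨hs.1, hV s hs'.1 hs.2.2⟩
  have hc : CArm S (γ ∩ V) z (r + 2 * d) R :=
    ⟨x, y, hsub k1, hsub k2, k3, k4, conn_mono hsub k5⟩
  by_cases hB : p.1 ∈ B
  · left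
    refine carm_mono ?_ hc
    intro s hs
    rw [Finset.mem_inter, hγ, Finset.mem_filter] at hs
    rw [Finset.mem_inter]
    refine ⟨?_, hs.2⟩
    have := hs.1.2
    simpa [hB] using this
  · right
    refine carm_mono ?_ hc
    intro s hs
    rw [Finset.mem_inter, hγ, Finset.mem_filter] at hs
    rw [Finset.mem_sdiff, Finset.mem_inter]
    refine ⟨hs.2, fun hc' => ?_⟩
    have := hs.1.2
    simp [hB, hc'.1] at this

/-- the states of the exploration by `l`-balls (377) -/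
theorem arm_xs {N : Net ℂ} (hN : HNet S N) (h : LDns S z (R + 2 * d) d) (hr : r + 4 * d < R)
    (hV : ∀ s ∈ S, ‖s - z‖ ≤ R + 2 * d → s ∈ V)
    (hB : B ∈ cols S N.kl (Mabx377.D2 N)) (hfar : R ≤ ‖(N.ex 0).1 - z‖) {l : ℝ} {n : ℕ}
    (hq : dist (mid (Mabx377.xs N l (setJ N.toTrg (Mabx377.D2 N) B) n).2) z ≤ r) :
    Arm2 S V z (r + 2 * d) R (B ∩ V) := by
  have hg := J1x872.good_of_hnet hN
  have hD : ∀ a b, (a, b) ∈ Mabx377.D2 N → hullE S a b := by
    intro a b hab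
    obtain ⟨k, hk⟩ := Mabx377.D2_sub N hab
    have := hN.hex k
    rwa [hk] at this
  unfold cols at hB
  rw [Finset.mem_filter, Finset.mem_powerset] at hB
  have hJ : setJ N.toTrg (Mabx377.D2 N) B ∈ Mabx377.Om N :=
    (mem_joins_iff hN.gp hN.tri hD N.klsym).2 ⟨_, hB.2, rfl⟩
  have h1 := Mabx377.xs_fol (l := l) hg hJ n
  have h2 := Mabx377.leadsN_leads (Mabx377.fol_leadsN _ _ _ h1)
  have hex := Mabx377.ex0_mem N hg
  refine armD h hN.tri hr hV (hB.2.mark _ _ hex) ?_ hfar h2 ?_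
  · obtain ⟨⟨c, hc⟩, -⟩ := hN.hex 0
    exact Or.inl ⟨c, hc⟩
  · rwa [dist_eq_norm] at hq

end Crest.Agent.R143.ArmDx930
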