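import Crest.Agent.R143.Asm_336
import Crest.Agent.R143.B1b_796

/-!
# Row 143 (S0194), B6, measure side, part a (helper654)

* `Sb_lip`, `Db_lip` : Lipschitz dependence of the mollified quantities on the centre
* `Sb_aesm_at`, `Db_aesm_at` : measurability in `ω` at a fixed centre
-/

set_option autoImplicit false

noncomputable section

namespace Crest.Agent.R143.B6x654

open Complex Set Filter Topology MeasureTheory
open Crest.Agent.R143.BC0x336 Crest.Agent.R143.EndBx336 Crest.Agent.R143.Mollx887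
  Crest.Agent.R143.Asmx336
open scoped ENNReal

/-! ### the kernel `kb` is Lipschitz -/

theorem kb_one (z : ℂ) : kb 1 z = ((-(deriv rho (‖z‖ ^ 2)) : ℝ) : ℂ) * z := by
  simp [kb]

theorem kb_scale {r : ℝ} (hr : 0 < r) (z : ℂ) : kb r z = ((r ^ 3)⁻¹ : ℝ) * kb 1 ((r⁻¹ : ℝ) * z) := by
  rw [kb_one, kb]
  have h1 : ‖((r⁻¹ : ℝ) : ℂ) * z‖ ^ 2 = ‖z‖ ^ 2 / r ^ 2 := by
    rw [norm_mul, Complex.norm_real, Real.norm_eq_abs, abs_of_pos (inv_pos.2 hr)]
    field_simp
  rw [h1]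
  have hr' : (r : ℂ) ≠ 0 := by exact_mod_cast hr.ne'
  push_cast
  field_simp

theorem deriv_rho_contDiff : ContDiff ℝ (⊤ : ℕ∞) (deriv rho) := by
  have h := rho_contDiff (n := ⊤)
  exact (contDiff_infty_iff_deriv.1 h).2

theorem kb_one_contDiff : ContDiff ℝ 1 (kb 1) := by
  have h0 : kb 1 = fun z : ℂ => ((-(deriv rho (‖z‖ ^ 2)) : ℝ) : ℂ) * z := by
    funext z; exact kb_one z
  rw [h0]
  have h1 : ContDiff ℝ 1 (fun z : ℂ => ‖z‖ ^ 2) := contDiff_norm_sq ℝ
  have h2 : ContDiff ℝ 1 (fun z : ℂ => -(deriv rho (‖z‖ ^ 2))) :=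
    ((deriv_rho_contDiff.of_le (by exact_mod_cast le_top)).comp h1).neg
  exact (Complex.ofRealCLM.contDiff.comp h2).mul contDiff_id

theorem exists_lip : ∃ C : ℝ, 0 ≤ C ∧ ∀ x y : ℂ, ‖kb 1 x - kb 1 y‖ ≤ C * ‖x - y‖ := by
  obtain ⟨C, hC⟩ := kb_one_contDiff.lipschitzWith_of_hasCompactSupport
    (kb_compact one_pos) (by norm_num)
  refine ⟨C, C.2, fun x y => ?_⟩
  have := hC.dist_le_mul x y
  rwa [dist_eq_norm, dist_eq_norm] at this

/-- the Lipschitz constant of the kernel -/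
def Lk : ℝ := exists_lip.choose

theorem Lk_nonneg : 0 ≤ Lk := exists_lip.choose_spec.1

theorem kb_one_lip (x y : ℂ) : ‖kb 1 x - kb 1 y‖ ≤ Lk * ‖x - y‖ := exists_lip.choose_spec.2 x y

theorem kb_lip {r : ℝ} (hr : 0 < r) (x y : ℂ) : ‖kb r x - kb r y‖ ≤ Lk / r ^ 4 * ‖x - y‖ := by
  rw [kb_scale hr, kb_scale hr, ← mul_sub, norm_mul, Complex.norm_real, Real.norm_eq_abs,
    abs_of_pos (by positivity)]
  have h1 := kb_one_lip ((r⁻¹ : ℝ) * x) ((r⁻¹ : ℝ) * y)
  rw [← mul_sub, norm_mul, Complex.norm_real, Real.norm_eq_abs, abs_of_pos (inv_pos.2 hr)] at h1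
  calc (r ^ 3)⁻¹ * ‖kb 1 ((r⁻¹ : ℝ) * x) - kb 1 ((r⁻¹ : ℝ) * y)‖
      ≤ (r ^ 3)⁻¹ * (Lk * (r⁻¹ * ‖x - y‖)) := by gcongr
    _ = Lk / r ^ 4 * ‖x - y‖ := by field_simp

/-- the constant in `Sb_lip` -/
def CL : ℝ := 2 * Real.pi * Lk

theorem CL_nonneg : 0 ≤ CL := by
  have := Lk_nonneg
  have := Real.pi_pos
  unfold CL
  positivity

theorem Sb_shift (r : ℝ) (h : ℂ → ℂ) (z₀ : ℂ) : Sb r h z₀ = ∫ w, kb r (w - z₀) * h w := by
  have h1 := integral_add_left_eq_self (μ := (volume : Measure ℂ))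
    (fun t => kb r (t - z₀) * h t) z₀
  simp_rw [add_sub_cancel_left] at h1
  rw [Sb, h1]

theorem Sb_shift_int {h : ℂ → ℂ} {M : ℝ} (hh : BM h M) {r : ℝ} (hr : 0 < r) (z₀ : ℂ) :
    Integrable (fun w => kb r (w - z₀) * h w) := by
  have h1 := hh.int_kb hr z₀
  have h2 := h1.comp_sub_right z₀
  refine h2.congr (ae_of_all _ fun w => ?_)
  simp

theorem Sb_lip {h : ℂ → ℂ} {M : ℝ} (hh : BM h M) {r : ℝ} (hr : 0 < r) (z z' : ℂ) :
    ‖Sb r h z - Sb r h z'‖ ≤ CL * M / r ^ 2 * ‖z - z'‖ := by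
  have hM : 0 ≤ M := (norm_nonneg _).trans (hh.bd 0)
  rw [Sb_shift, Sb_shift, ← integral_sub (Sb_shift_int hh hr z) (Sb_shift_int hh hr z')]
  set U : Set ℂ := Metric.closedBall z r ∪ Metric.closedBall z' r with hU
  have hzero : ∀ w ∉ U, kb r (w - z) * h w - kb r (w - z') * h w = 0 := by
    intro w hw
    rw [hU, mem_union, not_or, Metric.mem_closedBall, Metric.mem_closedBall, not_le, not_le,
      dist_eq_norm, dist_eq_norm] at hw
    rw [kb_zero hr hw.1.le, kb_zero hr hw.2.le]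
    simp
  rw [← setIntegral_eq_integral_of_forall_compl_eq_zero hzero]
  have hvol : volume U ≤ ENNReal.ofReal (2 * Real.pi * r ^ 2) := by
    refine (measure_union_le _ _).trans ?_
    rw [Complex.volume_closedBall, Complex.volume_closedBall]
    have e1 : (ENNReal.ofReal r ^ 2 * (NNReal.pi : ℝ≥0∞)) = ENNReal.ofReal (Real.pi * r ^ 2) := by
      rw [mul_comm (Real.pi), ENNReal.ofReal_mul (by positivity), ENNReal.ofReal_pow hr.le]
      congr 1
      rw [← NNReal.coe_real_pi, ENNReal.ofReal_coe_nnreal]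
    rw [e1, ← ENNReal.ofReal_add (by positivity) (by positivity)]
    apply ENNReal.ofReal_le_ofReal
    linarith
  have hfin : volume U < ⊤ := hvol.trans_lt ENNReal.ofReal_lt_top
  have hb : ∀ w ∈ U, ‖kb r (w - z) * h w - kb r (w - z') * h w‖ ≤ Lk / r ^ 4 * ‖z - z'‖ * M := by
    intro w _
    rw [← sub_mul, norm_mul]
    have h1 := kb_lip hr (w - z) (w - z')
    have e : w - z - (w - z') = -(z - z') := by ring
    rw [e, norm_neg] at h1
    exact mul_le_mul h1 (hh.bd w) (norm_nonneg _) (by have := Lk_nonneg; positivity)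
  have h2 := norm_setIntegral_le_of_norm_le_const hfin hb
  refine h2.trans ?_
  have h3 : volume.real U ≤ 2 * Real.pi * r ^ 2 := by
    refine ENNReal.toReal_le_of_le_ofReal (by positivity) hvol
  have hL := Lk_nonneg
  calc Lk / r ^ 4 * ‖z - z'‖ * M * volume.real U
      ≤ Lk / r ^ 4 * ‖z - z'‖ * M * (2 * Real.pi * r ^ 2) := by gcongr
    _ = CL * M / r ^ 2 * ‖z - z'‖ := by
        unfold CL
        field_simp

theorem Db_lip {h : ℂ → ℂ} {M : ℝ} (hh : BM h M) {r : ℝ} (hr : 0 < r) (z z' : ℂ) :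
    ‖Db r h z - Db r h z'‖ ≤ CL * M / r ^ 2 * ‖z - z'‖ := by
  have h1 := Sb_lip (BM.cj hh) hr z z'
  rwa [Db, Db, ← map_sub, Complex.norm_conj]

theorem Sb_le {h : ℂ → ℂ} {M : ℝ} (hh : BM h M) {r : ℝ} (hr : 0 < r) (z : ℂ) :
    ‖Sb r h z‖ ≤ CS / r * M :=
  Sb_bound hh hr (c := 0) fun w _ => by rw [sub_zero]; exact hh.bd _

theorem Db_le {h : ℂ → ℂ} {M : ℝ} (hh : BM h M) {r : ℝ} (hr : 0 < r) (z : ℂ) :
    ‖Db r h z‖ ≤ CS / r * M :=
  Db_bound hh hr (c := 0) fun w _ => by rw [sub_zero]; exact hh.bd _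

/-! ### measurability at a fixed centre -/

variable {Ωs : Type*} [MeasurableSpace Ωs]

theorem Sb_aesm_at (P : Measure Ωs) [SFinite P] {H : Ωs → ℂ → ℂ}
    (hm : AEStronglyMeasurable (fun p : Ωs × ℂ => H p.1 p.2) (P.prod volume)) (r : ℝ) (c : ℂ) :
    AEStronglyMeasurable (fun ω : Ωs => Sb r (H ω) c) P := by
  have h1 : MeasurePreserving (fun q : Ωs × ℂ => (q.1, c + q.2)) (P.prod volume)
      (P.prod volume) := (MeasurePreserving.id P).prod (measurePreserving_add_left volume c)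
  have h3 : AEStronglyMeasurable (fun q : Ωs × ℂ => H q.1 (c + q.2)) (P.prod volume) :=
    hm.comp_measurePreserving h1
  have h5 : AEStronglyMeasurable (fun q : Ωs × ℂ => kb r q.2) (P.prod volume) :=
    ((kb_continuous r).measurable.comp measurable_snd).aestronglyMeasurable
  exact (h5.mul h3).integral_prod_right'

theorem Db_aesm_at (P : Measure Ωs) [SFinite P] {H : Ωs → ℂ → ℂ}
    (hm : AEStronglyMeasurable (fun p : Ωs × ℂ => H p.1 p.2) (P.prod volume)) (r : ℝ) (c : ℂ) :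
    AEStronglyMeasurable (fun ω : Ωs => Db r (H ω) c) P := by
  have h1 : AEStronglyMeasurable (fun p : Ωs × ℂ => EndBx336.cj (H p.1) p.2) (P.prod volume) :=
    Complex.continuous_conj.comp_aestronglyMeasurable hm
  exact Complex.continuous_conj.comp_aestronglyMeasurable
    (Sb_aesm_at P (H := fun ω => EndBx336.cj (H ω)) h1 r c)

/-- for a.e. `ω` the function `H ω` is admissible -/
theorem ae_BM (P : Measure Ωs) [SFinite P] {H : Ωs → ℂ → ℂ} {M : ℝ}
    (hm : AEStronglyMeasurable (fun p : Ωs × ℂ => H p.1 p.2) (P.prod volume))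
    (hb : ∀ ω z, ‖H ω z‖ ≤ M) : ∀ᵐ ω ∂P, BM (H ω) M := by
  filter_upwards [hm.prodMk_left] with ω hω
  exact ⟨hω, hb ω⟩

end Crest.Agent.R143.B6x654
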