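import Crest.Agent.R143.B6a_903
import Crest.Agent.R143.B6a_654

/-!
# Row 143 (S0194), part B, B6: the per-point bound for networks (helper903)

* `hval_norm` : `‖hval N z‖ ≤ 3`; `hval_BM`
* `lp`, `pt` : lattice point of a point, at the scale `ε`
* `Near` : the data at one sample `ω` and one point `z₀` : the network `N` of the domain, the
  reference network `N0`, the turned reference network `N1`; same triangles near `z₀`, Stokes
  identities, proportional amplitudes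
* `Near.alt` : the alternative at `z₀`
-/

set_option autoImplicit false

noncomputable section

open scoped Classical

namespace Crest.Agent.R143.B6bx903

open Complex Set Filter Topology MeasureTheory
open Crest.Agent.R143.B0x346 Crest.Agent.R143.B0Dx346
open Crest.Agent.R143.Mollx887 Crest.Agent.R143.Asmx336
open Crest.Agent.R143.B1bx796 (touch Stk CK CK_pos Sd Sb_cmp Sd_cmp Sd_eq)
open Crest.Agent.R143.B6x654 (Sb_lip Db_lip CL CL_nonneg)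

/-! ### the observable is bounded -/

theorem omz_norm (k : ZMod 3) : ‖omz k‖ = 1 := by
  unfold omz
  rw [norm_pow]
  have : ‖om‖ = 1 := by
    unfold om
    exact Complex.norm_exp_ofReal_mul_I _
  rw [this, one_pow]

theorem Fob_norm (N : Net ℂ) (a b : ℂ) : ‖N.Fob a b‖ ≤ 3 := by
  unfold Net.Fob
  rw [norm_div]
  have h0 : ‖(((N.hj a b).card + (N.hj b a).card : ℕ) : ℂ)‖ =
      (((N.hj a b).card + (N.hj b a).card : ℕ) : ℝ) := Complex.norm_natCast _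
  rw [h0]
  have h1 : ∀ k : ZMod 3, ‖((N.cnt a b k + N.cnt b a k : ℕ) : ℂ) * omz k‖ ≤
      (((N.hj a b).card + (N.hj b a).card : ℕ) : ℝ) := by
    intro k
    rw [norm_mul, omz_norm, mul_one, Complex.norm_natCast]
    have e1 : N.cnt a b k ≤ (N.hj a b).card := Finset.card_filter_le _ _
    have e2 : N.cnt b a k ≤ (N.hj b a).card := Finset.card_filter_le _ _
    exact_mod_cast add_le_add e1 e2
  have h2 : ‖∑ k : ZMod 3, ((N.cnt a b k + N.cnt b a k : ℕ) : ℂ) * omz k‖ ≤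
      3 * (((N.hj a b).card + (N.hj b a).card : ℕ) : ℝ) := by
    refine (norm_sum_le _ _).trans ?_
    refine (Finset.sum_le_sum fun k _ => h1 k).trans ?_
    rw [Finset.sum_const, Finset.card_univ, ZMod.card, nsmul_eq_mul]
    norm_num
  rcases Nat.eq_zero_or_pos ((N.hj a b).card + (N.hj b a).card) with h | h
  · rw [h]; simp
  · have hp : (0 : ℝ) < (((N.hj a b).card + (N.hj b a).card : ℕ) : ℝ) := by exact_mod_cast h
    rw [div_le_iff₀ hp]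
    exact h2

theorem F_norm (N : Net ℂ) (a b : ℂ) : ‖N.F a b‖ ≤ 3 := by
  unfold Net.F
  split_ifs with h
  · rw [omz_norm]; norm_num
  · exact Fob_norm N a b

theorem hval_norm (N : Net ℂ) (z : ℂ) : ‖hval N z‖ ≤ 3 := by
  unfold hval
  split_ifs with h
  · rw [norm_div, Complex.norm_ofNat]
    have h1 := F_norm N h.choose.1 h.choose.2.1
    have h2 := F_norm N h.choose.2.1 h.choose.2.2
    have h3 := F_norm N h.choose.2.2 h.choose.1
    have h4 := norm_add_le (N.F h.choose.1 h.choose.2.1 + N.F h.choose.2.1 h.choose.2.2)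
      (N.F h.choose.2.2 h.choose.1)
    have h5 := norm_add_le (N.F h.choose.1 h.choose.2.1) (N.F h.choose.2.1 h.choose.2.2)
    rw [div_le_iff₀ (by norm_num)]
    linarith
  · simp

/-- the triangles containing `z` -/
def inT (N : Net ℂ) (z : ℂ) : Finset (ℂ × ℂ × ℂ) := N.T.filter fun t => InTri z t.1 t.2.1 t.2.2

/-- the observable as a function of the set of triangles containing the point -/
def valT (N : Net ℂ) (A : Finset (ℂ × ℂ × ℂ)) : ℂ :=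
  if h : ∃ t : ℂ × ℂ × ℂ, t ∈ A then
    (N.F h.choose.1 h.choose.2.1 + N.F h.choose.2.1 h.choose.2.2 +
      N.F h.choose.2.2 h.choose.1) / 3
  else 0

theorem hval_valT (N : Net ℂ) (z : ℂ) : hval N z = valT N (inT N z) := by
  have key : (fun t : ℂ × ℂ × ℂ => t ∈ N.T ∧ InTri z t.1 t.2.1 t.2.2) = fun t => t ∈ inT N z := by
    funext t
    rw [inT, Finset.mem_filter]
  unfold hval valT
  have : ∀ (p q : ℂ × ℂ × ℂ → Prop), p = q →
      (if h : ∃ t, p t then (N.F h.choose.1 h.choose.2.1 + N.F h.choose.2.1 h.choose.2.2 +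
        N.F h.choose.2.2 h.choose.1) / 3 else 0) =
      (if h : ∃ t, q t then (N.F h.choose.1 h.choose.2.1 + N.F h.choose.2.1 h.choose.2.2 +
        N.F h.choose.2.2 h.choose.1) / 3 else 0) := by
    rintro p q rfl
    rfl
  convert this _ _ key

theorem isOpen_inTri (a b c : ℂ) : IsOpen {z | InTri z a b c} := by
  have aux : ∀ a b : ℂ, IsOpen {z | Lft z a b} := by
    intro a b
    have : {z | Lft z a b} = {z : ℂ | 0 < cr (b - a) (z - a)} := rfl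
    rw [this]
    refine isOpen_lt continuous_const ?_
    unfold cr
    fun_prop
  exact ((aux a b).inter ((aux b c).inter (aux c a)))

/-- measurability of the observable of any network -/
theorem hval_meas (N : Net ℂ) : Measurable (hval N) := by
  have h0 : hval N = fun z => valT N (inT N z) := funext (hval_valT N)
  rw [h0]
  intro B _
  have h1 : (fun z => valT N (inT N z)) ⁻¹' B =
      ⋃ A ∈ (N.T.powerset.filter fun A => valT N A ∈ B), {z | inT N z = A} := by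
    ext z
    simp only [mem_preimage, mem_iUnion, Finset.mem_filter, Finset.mem_powerset, mem_ofPred_eq,
      exists_prop]
    constructor
    · intro h
      exact ⟨inT N z, ⟨Finset.filter_subset _ _, h⟩, rfl⟩
    · rintro ⟨A, ⟨-, hA⟩, rfl⟩
      exact hA
  rw [h1]
  refine Finset.measurableSet_biUnion _ fun A hA => ?_
  rw [Finset.mem_filter, Finset.mem_powerset] at hA
  have h2 : {z | inT N z = A} = ⋂ t ∈ N.T, {z | InTri z t.1 t.2.1 t.2.2 ↔ t ∈ A} := by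
    ext z
    simp only [mem_ofPred_eq, mem_iInter]
    constructor
    · rintro rfl t ht
      rw [inT, Finset.mem_filter]
      tauto
    · intro h
      ext t
      rw [inT, Finset.mem_filter]
      constructor
      · rintro ⟨h3, h4⟩
        exact (h t h3).1 h4
      · intro h3
        exact ⟨hA.1 h3, (h t (hA.1 h3)).2 h3⟩
  rw [h2]
  refine Finset.measurableSet_biInter _ fun t _ => ?_
  by_cases ht : t ∈ A
  · simp only [ht, iff_true]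
    exact (isOpen_inTri _ _ _).measurableSet
  · simp only [ht, iff_false]
    exact (isOpen_inTri _ _ _).measurableSet.compl

/-- the observable is admissible for the mollifier -/
theorem hval_BM (N : Net ℂ) : BM (hval N) 3 := ⟨(hval_meas N).aestronglyMeasurable, hval_norm N⟩

/-! ### lattice points -/

/-- index of the cell of `z` -/
def lp (ε : ℝ) (z : ℂ) : ℤ × ℤ := (⌊z.re / ε⌋, ⌊z.im / ε⌋)

/-- lattice point -/
def pt (ε : ℝ) (p : ℤ × ℤ) : ℂ := ⟨ε * p.1, ε * p.2⟩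

theorem pt_close {ε : ℝ} (hε : 0 < ε) (z : ℂ) : ‖z - pt ε (lp ε z)‖ ≤ 2 * ε := by
  have aux : ∀ x : ℝ, |x - ε * ⌊x / ε⌋| ≤ ε := by
    intro x
    have h1 := Int.floor_le (x / ε)
    have h2 := Int.lt_floor_add_one (x / ε)
    have h3 : ε * (x / ε) = x := by field_simp
    rw [abs_le]
    constructor
    · nlinarith
    · nlinarith
  refine (Complex.norm_le_abs_re_add_abs_im _).trans ?_
  have e1 : (z - pt ε (lp ε z)).re = z.re - ε * ⌊z.re / ε⌋ := rfl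
  have e2 : (z - pt ε (lp ε z)).im = z.im - ε * ⌊z.im / ε⌋ := rfl
  rw [e1, e2]
  linarith [aux z.re, aux z.im]

theorem lp_meas (ε : ℝ) : Measurable (lp ε) := by
  unfold lp
  refine Measurable.prodMk ?_ ?_
  · exact Int.measurable_floor.comp (Complex.measurable_re.div_const ε)
  · exact Int.measurable_floor.comp (Complex.measurable_im.div_const ε)

/-! ### the data at one point -/

theorem Sd_Db (r : ℝ) (h : ℂ → ℂ) (z₀ : ℂ) : Sd r h z₀ = Db r h z₀ := Sd_eq r h z₀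

/-- the data at one point `z₀` -/
structure Near (r η τ Λ : ℝ) (S S0 S1 : Finset ℂ) (N N0 N1 : Net ℂ) (z₀ : ℂ) : Prop where
  stk : Stk S N r z₀
  stk0 : Stk S0 N0 r z₀
  stk1 : Stk S1 N1 r z₀
  tch0 : touch z₀ r S = touch z₀ r S0
  tch1 : touch z₀ r S = touch z₀ r S1
  /-- the reference amplitudes are not too small: the constant `λ` is at most `Λ` -/
  tr : ∃ lam : ℂ, ‖lam‖ ≤ Λ ∧ ∀ t ∈ touch z₀ r S,
    ‖N.Q t - lam * N0.Q t‖ ≤ η * ‖N.Q t‖ + τ * (1 + ‖lam‖)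
  tr1 : ∃ mu : ℂ, ∀ t ∈ touch z₀ r S,
    ‖N1.Q t - mu * N0.Q t‖ ≤ η * ‖N1.Q t‖ + τ * (1 + ‖mu‖)

/-- the right-hand side -/
def rhs (r : ℝ) (S : Finset ℂ) (N : Net ℂ) (z₀ : ℂ) : ℝ :=
  CK / r ^ 2 * ∑ t ∈ touch z₀ r S, ‖N.Q t‖ * ‖t.2.1 - t.1‖

/-- fluctuations of the reference at the point `z` -/
def flu (r : ℝ) (h0 h1 : ℂ → ℂ) (s d rho : ℂ) (z : ℂ) : ℝ :=
  ‖Sb r h0 z - s‖ + ‖Sb r h1 z - rho * s‖ + ‖Db r h0 z - d‖ + ‖Db r h1 z + rho * d‖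

theorem flu_nonneg (r : ℝ) (h0 h1 : ℂ → ℂ) (s d rho : ℂ) (z : ℂ) : 0 ≤ flu r h0 h1 s d rho z := by
  unfold flu; positivity

variable {r η τ Λ : ℝ} {S S0 S1 : Finset ℂ} {N N0 N1 : Net ℂ} {z₀ : ℂ}

/-- **the alternative at one point** for networks -/
theorem Near.alt (hr : 0 < r) (hη0 : 0 ≤ η) (hη1 : η ≤ 1 / 2) (hτ : 0 ≤ τ)
    (h : Near r η τ Λ S S0 S1 N N0 N1 z₀) {s d rho : ℂ} (hrho : ‖rho‖ = 1) :
    (‖s‖ ≤ ‖d‖ → ‖Sb r (hval N) z₀‖ ≤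
      2 * Λ * flu r (hval N0) (hval N1) s d rho z₀ + 10 * η * rhs r S N z₀ +
        7 * (1 + Λ) * (τ * (CK / r ^ 2 * ∑ t ∈ touch z₀ r S, ‖t.2.1 - t.1‖))) ∧
    (‖d‖ ≤ ‖s‖ → ‖Db r (hval N) z₀‖ ≤
      2 * Λ * flu r (hval N0) (hval N1) s d rho z₀ + 10 * η * rhs r S N z₀ +
        7 * (1 + Λ) * (τ * (CK / r ^ 2 * ∑ t ∈ touch z₀ r S, ‖t.2.1 - t.1‖))) := by
  obtain ⟨lam, hLam, hq⟩ := h.tr
  obtain ⟨mu, hq1⟩ := h.tr1
  have hC : 0 ≤ CK / r ^ 2 := by have := CK_pos; positivity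
  have hS := Sb_cmp hr h.stk h.stk0 h.tch0 lam
  have hD := Sd_cmp hr h.stk h.stk0 h.tch0 lam
  have hS1 := Sb_cmp hr h.stk1 h.stk0 (h.tch1.symm.trans h.tch0) mu
  have hD1 := Sd_cmp hr h.stk1 h.stk0 (h.tch1.symm.trans h.tch0) mu
  rw [← h.tch1] at hS1 hD1
  simp only [Sd_Db] at hD hD1
  have key := B6ax903.alt_core (s := s) (d := d) (Λ := Λ) (T := touch z₀ r S) (q := N.Q)
    (q0 := N0.Q) (q1 := N1.Q) (l := fun t => ‖t.2.1 - t.1‖) hC hη0 hη1 hτ hrho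
    (fun _ _ => norm_nonneg _) hLam hq hq1 hS hD hS1 hD1
  have e0 : 0 ≤ CK / r ^ 2 * ∑ t ∈ touch z₀ r S, ‖N.Q t‖ * ‖t.2.1 - t.1‖ :=
    mul_nonneg hC (Finset.sum_nonneg fun _ _ => by positivity)
  have e : 7 * η * (CK / r ^ 2 * ∑ t ∈ touch z₀ r S, ‖N.Q t‖ * ‖t.2.1 - t.1‖) ≤
      10 * η * rhs r S N z₀ := by
    unfold rhs
    nlinarith [mul_nonneg hη0 e0]
  refine ⟨fun hs => (key.1 hs).trans ?_, fun hs => (key.2 hs).trans ?_⟩
  · unfold flu; linarith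
  · unfold flu; linarith

/-- Cauchy-Schwarz for the right-hand side -/
theorem rhs_le (hr : 0 < r) {C4 : ℝ} (hC4 : 0 ≤ C4)
    (hl : ∑ t ∈ touch z₀ r S, ‖t.2.1 - t.1‖ ^ 2 ≤ C4 * r ^ 2) :
    rhs r S N z₀ ≤ CK * Real.sqrt C4 / r * Real.sqrt (∑ t ∈ touch z₀ r S, ‖N.Q t‖ ^ 2) := by
  have hCK := CK_pos
  unfold rhs
  have h1 := Real.sum_mul_le_sqrt_mul_sqrt (touch z₀ r S) (fun t => ‖N.Q t‖)
    (fun t => ‖t.2.1 - t.1‖)
  have h2 : Real.sqrt (∑ t ∈ touch z₀ r S, ‖t.2.1 - t.1‖ ^ 2) ≤ Real.sqrt C4 * r := by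
    refine (Real.sqrt_le_sqrt hl).trans (le_of_eq ?_)
    rw [Real.sqrt_mul hC4, Real.sqrt_sq hr.le]
  have h3 : ∑ t ∈ touch z₀ r S, ‖N.Q t‖ * ‖t.2.1 - t.1‖ ≤
      Real.sqrt (∑ t ∈ touch z₀ r S, ‖N.Q t‖ ^ 2) * (Real.sqrt C4 * r) :=
    h1.trans (mul_le_mul_of_nonneg_left h2 (Real.sqrt_nonneg _))
  calc CK / r ^ 2 * ∑ t ∈ touch z₀ r S, ‖N.Q t‖ * ‖t.2.1 - t.1‖
      ≤ CK / r ^ 2 * (Real.sqrt (∑ t ∈ touch z₀ r S, ‖N.Q t‖ ^ 2) * (Real.sqrt C4 * r)) :=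
        mul_le_mul_of_nonneg_left h3 (by positivity)
    _ = CK * Real.sqrt C4 / r * Real.sqrt (∑ t ∈ touch z₀ r S, ‖N.Q t‖ ^ 2) := by
        field_simp

/-- the fluctuations at `z₀` and at the lattice point -/
theorem flu_lip (hr : 0 < r) {h0 h1 : ℂ → ℂ} {M : ℝ} (b0 : BM h0 M) (b1 : BM h1 M) (s d rho : ℂ)
    (z z' : ℂ) : flu r h0 h1 s d rho z ≤ flu r h0 h1 s d rho z' + 4 * (CL * M / r ^ 2 * ‖z - z'‖) := by
  have aux : ∀ a b c : ℂ, ‖a - c‖ ≤ ‖b - c‖ + ‖a - b‖ := by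
    intro a b c
    have : a - c = (b - c) + (a - b) := by ring
    rw [this]; exact norm_add_le _ _
  have aux2 : ∀ a b c : ℂ, ‖a + c‖ ≤ ‖b + c‖ + ‖a - b‖ := by
    intro a b c
    have : a + c = (b + c) + (a - b) := by ring
    rw [this]; exact norm_add_le _ _
  unfold flu
  have e1 := Sb_lip b0 hr z z'
  have e2 := Sb_lip b1 hr z z'
  have e3 := Db_lip b0 hr z z'
  have e4 := Db_lip b1 hr z z'
  have f1 := aux (Sb r h0 z) (Sb r h0 z') s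
  have f2 := aux (Sb r h1 z) (Sb r h1 z') (rho * s)
  have f3 := aux (Db r h0 z) (Db r h0 z') d
  have f4 := aux2 (Db r h1 z) (Db r h1 z') (rho * d)
  linarith

/-- bound of the constant of proportionality by the energies -/
theorem lam_le (T : Finset (ℂ × ℂ × ℂ)) (q q0 : ℂ × ℂ × ℂ → ℂ) {lam : ℂ} {η τ CE ρ : ℝ}
    (hη1 : η ≤ 1 / 2)
    (hq : ∀ t ∈ T, ‖q t - lam * q0 t‖ ≤ η * ‖q t‖ + τ * (1 + ‖lam‖))
    (hE : ∑ t ∈ T, ‖q t‖ ^ 2 ≤ CE) (hρ : 0 < ρ) (hlow : ρ ^ 2 ≤ ∑ t ∈ T, ‖q0 t‖ ^ 2)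
    (hn : 40 * (T.card * τ ^ 2) ≤ ρ ^ 2) (hn1 : 10 * (T.card * τ ^ 2) ≤ CE / 12) :
    ‖lam‖ ≤ 2 * Real.sqrt CE / ρ := by
  have hCE : 0 ≤ CE := (Finset.sum_nonneg fun _ _ => sq_nonneg _).trans hE
  have hl := norm_nonneg lam
  have h1 : ∀ t ∈ T, ‖lam‖ ^ 2 * ‖q0 t‖ ^ 2 ≤
      45 / 16 * ‖q t‖ ^ 2 + 10 * τ ^ 2 * (1 + ‖lam‖ ^ 2) := by
    intro t ht
    have h2 : ‖lam‖ * ‖q0 t‖ ≤ 3 / 2 * ‖q t‖ + τ * (1 + ‖lam‖) := by
      have e : lam * q0 t = q t - (q t - lam * q0 t) := by ring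
      rw [← norm_mul]
      calc ‖lam * q0 t‖ = ‖q t - (q t - lam * q0 t)‖ := by rw [← e]
        _ ≤ ‖q t‖ + ‖q t - lam * q0 t‖ := norm_sub_le _ _
        _ ≤ 3 / 2 * ‖q t‖ + τ * (1 + ‖lam‖) := by
          have h3 := hq t ht
          have h4 := mul_le_mul_of_nonneg_right hη1 (norm_nonneg (q t))
          linarith
    have h3 : 0 ≤ ‖lam‖ * ‖q0 t‖ := by positivity
    have h4 : (‖lam‖ * ‖q0 t‖) ^ 2 ≤ (3 / 2 * ‖q t‖ + τ * (1 + ‖lam‖)) ^ 2 :=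
      pow_le_pow_left₀ h3 h2 2
    have h5 : (3 / 2 * ‖q t‖ + τ * (1 + ‖lam‖)) ^ 2 ≤
        45 / 16 * ‖q t‖ ^ 2 + 5 * (τ * (1 + ‖lam‖)) ^ 2 := by
      nlinarith [sq_nonneg (3 / 2 * ‖q t‖ - 4 * (τ * (1 + ‖lam‖)))]
    have h6 : 5 * (τ * (1 + ‖lam‖)) ^ 2 ≤ 10 * τ ^ 2 * (1 + ‖lam‖ ^ 2) := by
      have : (1 + ‖lam‖) ^ 2 ≤ 2 * (1 + ‖lam‖ ^ 2) := by nlinarith [sq_nonneg (1 - ‖lam‖)]
      nlinarith [mul_le_mul_of_nonneg_left this (sq_nonneg τ)]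
    calc ‖lam‖ ^ 2 * ‖q0 t‖ ^ 2 = (‖lam‖ * ‖q0 t‖) ^ 2 := by ring
      _ ≤ _ := by linarith
  have h3 : ‖lam‖ ^ 2 * ρ ^ 2 ≤ 45 / 16 * CE + 10 * (T.card * τ ^ 2) * (1 + ‖lam‖ ^ 2) := by
    calc ‖lam‖ ^ 2 * ρ ^ 2 ≤ ‖lam‖ ^ 2 * ∑ t ∈ T, ‖q0 t‖ ^ 2 :=
          mul_le_mul_of_nonneg_left hlow (sq_nonneg _)
      _ = ∑ t ∈ T, ‖lam‖ ^ 2 * ‖q0 t‖ ^ 2 := Finset.mul_sum _ _ _
      _ ≤ ∑ t ∈ T, (45 / 16 * ‖q t‖ ^ 2 + 10 * τ ^ 2 * (1 + ‖lam‖ ^ 2)) := Finset.sum_le_sum h1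
      _ = 45 / 16 * ∑ t ∈ T, ‖q t‖ ^ 2 + 10 * (T.card * τ ^ 2) * (1 + ‖lam‖ ^ 2) := by
        rw [Finset.sum_add_distrib, ← Finset.mul_sum, Finset.sum_const, nsmul_eq_mul]
        ring
      _ ≤ _ := by linarith
  have h7 : 10 * (T.card * τ ^ 2) * ‖lam‖ ^ 2 ≤ 1 / 4 * (‖lam‖ ^ 2 * ρ ^ 2) := by
    nlinarith [sq_nonneg ‖lam‖]
  rw [le_div_iff₀ hρ]
  have h4 : (‖lam‖ * ρ) ^ 2 ≤ (2 * Real.sqrt CE) ^ 2 := by
    rw [mul_pow, mul_pow, Real.sq_sqrt hCE]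
    linarith
  exact le_of_sq_le_sq h4 (by positivity)

end Crest.Agent.R143.B6bx903
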