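import Crest.Agent.R151.V1

/-!
# R143 (helper831, BC8): Efron-Stein on countable products

* `mp_update`, `mp_piece`: resampling one coordinate / all coordinates off a finite set preserves
  the product law (dependent factors).
* `dvar_le_tsum`: `dvar μ f ≤ ∑' i, infl μ G f i` for bounded measurable `f` on a countable product.
-/

set_option autoImplicit false
set_option linter.unusedSectionVars false

open MeasureTheory ProbabilityTheory Filter Topology
open scoped ENNReal

namespace Crest.Agent.R143.ESx831

section dep

variable {I : Type*} {X : I → Type*} [∀ i, MeasurableSpace (X i)] (μ : ∀ i, Measure (X i))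
  [∀ i, IsProbabilityMeasure (μ i)]

/-- resampling the coordinate `i` preserves the product law -/
theorem mp_update [DecidableEq I] (i : I) :
    MeasurePreserving (fun p : (∀ j, X j) × X i => Function.update p.1 i p.2)
      ((Measure.infinitePi μ).prod (μ i)) (Measure.infinitePi μ) := by
  refine ⟨measurable_update', ?_⟩
  apply Measure.eq_infinitePi
  intro u A hA
  have hpi : MeasurableSet (Set.pi (u : Set I) A) :=
    MeasurableSet.pi u.countable_toSet fun j _ => hA j
  rw [Measure.map_apply measurable_update' hpi]
  by_cases hi : i ∈ u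
  · have h1 : (fun p : (∀ j, X j) × X i => Function.update p.1 i p.2) ⁻¹' (Set.pi (u : Set I) A) =
        (Set.pi ((u.erase i : Finset I) : Set I) A) ×ˢ (A i) := by
      ext p
      simp only [Set.mem_preimage, Set.mem_pi, Finset.mem_coe, Set.mem_prod, Finset.mem_erase]
      constructor
      · intro h
        refine ⟨fun j hj => ?_, ?_⟩
        · have := h j hj.2
          rwa [Function.update_of_ne hj.1] at this
        · have := h i hi
          rwa [Function.update_self] at this
      · rintro ⟨h, h'⟩ j hj
        by_cases hji : j = i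
        · subst hji
          rw [Function.update_self]; exact h'
        · rw [Function.update_of_ne hji]
          exact h j ⟨hji, hj⟩
    rw [h1, Measure.prod_prod, Measure.infinitePi_pi μ (fun j _ => hA j), mul_comm,
      Finset.mul_prod_erase u (fun j => μ j (A j)) hi]
  · have h1 : (fun p : (∀ j, X j) × X i => Function.update p.1 i p.2) ⁻¹' (Set.pi (u : Set I) A) =
        (Set.pi (u : Set I) A) ×ˢ (Set.univ : Set (X i)) := by
      ext p
      simp only [Set.mem_preimage, Set.mem_pi, Finset.mem_coe, Set.mem_prod, Set.mem_univ, and_true]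
      refine forall₂_congr fun j hj => ?_
      rw [Function.update_of_ne (by rintro rfl; exact hi hj)]
    rw [h1, Measure.prod_prod, Measure.infinitePi_pi μ (fun j _ => hA j), measure_univ, mul_one]

lemma measurable_piece (s : Finset I) [∀ j, Decidable (j ∈ s)] :
    Measurable (fun p : (∀ j, X j) × (∀ j, X j) => s.piecewise p.1 p.2) := by
  rw [measurable_pi_iff]
  intro i
  by_cases hi : i ∈ s
  · simp only [Finset.piecewise, hi, if_true]; fun_prop
  · simp only [Finset.piecewise, hi, if_false]; fun_prop

/-- resampling all the coordinates off `s` preserves the product law -/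
theorem mp_piece (s : Finset I) [∀ j, Decidable (j ∈ s)] :
    MeasurePreserving (fun p : (∀ j, X j) × (∀ j, X j) => s.piecewise p.1 p.2)
      ((Measure.infinitePi μ).prod (Measure.infinitePi μ)) (Measure.infinitePi μ) := by
  classical
  refine ⟨measurable_piece s, ?_⟩
  apply Measure.eq_infinitePi
  intro u A hA
  have hpi : MeasurableSet (Set.pi (u : Set I) A) :=
    MeasurableSet.pi u.countable_toSet fun j _ => hA j
  rw [Measure.map_apply (measurable_piece s) hpi]
  have h1 : (fun p : (∀ j, X j) × (∀ j, X j) => s.piecewise p.1 p.2) ⁻¹' (Set.pi (u : Set I) A) =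
      (Set.pi ((u.filter (· ∈ s) : Finset I) : Set I) A) ×ˢ
        (Set.pi ((u.filter (¬ · ∈ s) : Finset I) : Set I) A) := by
    ext p
    simp only [Set.mem_preimage, Set.mem_pi, Finset.mem_coe, Set.mem_prod, Finset.mem_filter]
    constructor
    · intro h
      refine ⟨fun j hj => ?_, fun j hj => ?_⟩
      · have := h j hj.1
        rwa [Finset.piecewise_eq_of_mem _ _ _ hj.2] at this
      · have := h j hj.1
        rwa [Finset.piecewise_eq_of_notMem _ _ _ hj.2] at this
    · rintro ⟨h, h'⟩ j hj
      by_cases hjs : j ∈ s
      · rw [Finset.piecewise_eq_of_mem _ _ _ hjs]; exact h j ⟨hj, hjs⟩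
      · rw [Finset.piecewise_eq_of_notMem _ _ _ hjs]; exact h' j ⟨hj, hjs⟩
  rw [h1, Measure.prod_prod, Measure.infinitePi_pi μ (fun j _ => hA j),
    Measure.infinitePi_pi μ (fun j _ => hA j), Finset.prod_filter_mul_prod_filter_not]

end dep

section homog

open Crest.Agent.R151.V

variable {I : Type*} {X : Type*} [MeasurableSpace X] (G : Measure X) [IsProbabilityMeasure G]

/-- average over the coordinates off `s` -/
noncomputable def avg [DecidableEq I] (f : (I → X) → ℝ) (s : Finset I) (x : I → X) : ℝ :=
  ∫ y, f (s.piecewise x y) ∂(Measure.infinitePi fun _ : I => G)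

variable [DecidableEq I] {f : (I → X) → ℝ} {C : ℝ}

lemma measurable_avg (hf : Measurable f) (s : Finset I) : Measurable (avg G f s) := by
  have h := (hf.comp (measurable_piece (X := fun _ : I => X) s)).stronglyMeasurable
  exact (StronglyMeasurable.integral_prod_right' (ν := Measure.infinitePi fun _ : I => G)
    h).measurable

lemma avg_congr (s : Finset I) {x x' : I → X} (h : ∀ i ∈ s, x i = x' i) :
    avg G f s x = avg G f s x' := by
  unfold avg
  congr 1
  funext y
  congr 1
  funext i
  by_cases hi : i ∈ s
  · rw [Finset.piecewise_eq_of_mem _ _ _ hi, Finset.piecewise_eq_of_mem _ _ _ hi]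
    exact h i hi
  · rw [Finset.piecewise_eq_of_notMem _ _ _ hi, Finset.piecewise_eq_of_notMem _ _ _ hi]

lemma integrable_of_bound {Ω : Type*} [MeasurableSpace Ω] (μ : Measure Ω) [IsFiniteMeasure μ]
    {g : Ω → ℝ} (hg : Measurable g) (hb : ∀ x, |g x| ≤ C) : Integrable g μ :=
  Integrable.of_bound hg.aestronglyMeasurable C (Eventually.of_forall fun x => by
    rw [Real.norm_eq_abs]; exact hb x)

lemma abs_avg_le (hb : ∀ x, |f x| ≤ C) (s : Finset I) (x : I → X) : |avg G f s x| ≤ C := by
  unfold avg
  have h := norm_integral_le_of_norm_le_const (μ := Measure.infinitePi fun _ : I => G)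
    (f := fun y => f (s.piecewise x y)) (C := C)
    (Eventually.of_forall fun y => by rw [Real.norm_eq_abs]; exact hb _)
  simpa using h

/-- Jensen for the square, in `ℝ≥0∞` -/
lemma ofReal_sq_integral_le {Ω : Type*} [MeasurableSpace Ω] (μ : Measure Ω)
    [IsProbabilityMeasure μ] {g : Ω → ℝ} (hg : Measurable g) (hb : ∀ x, |g x| ≤ C) :
    ENNReal.ofReal ((∫ x, g x ∂μ) ^ 2) ≤ ∫⁻ x, ENNReal.ofReal (g x ^ 2) ∂μ := by
  have hi : Integrable (fun x => g x ^ 2) μ := by
    refine Integrable.of_bound (hg.pow_const 2).aestronglyMeasurable (C ^ 2)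
      (Eventually.of_forall fun x => ?_)
    rw [Real.norm_eq_abs, abs_pow]
    exact pow_le_pow_left₀ (abs_nonneg _) (hb x) 2
  rw [← ofReal_integral_eq_lintegral_ofReal hi (Eventually.of_forall fun x => sq_nonneg _)]
  apply ENNReal.ofReal_le_ofReal
  have hm : MemLp g 2 μ := MemLp.of_bound hg.aestronglyMeasurable C
    (Eventually.of_forall fun x => by rw [Real.norm_eq_abs]; exact hb x)
  have := variance_nonneg g μ
  rw [variance_eq_sub hm] at this
  have h3 : (∫ y, (g ^ 2) y ∂μ) = ∫ y, g y ^ 2 ∂μ := rfl
  linarith [this, h3]

lemma piecewise_update_of_mem {s : Finset I} {i : I} (hi : i ∈ s) (x y : I → X) (t : X) :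
    s.piecewise (Function.update x i t) y = Function.update (s.piecewise x y) i t := by
  funext j
  by_cases hji : j = i
  · subst hji
    rw [Finset.piecewise_eq_of_mem _ _ _ hi, Function.update_self, Function.update_self]
  · rw [Function.update_of_ne hji]
    by_cases hj : j ∈ s
    · rw [Finset.piecewise_eq_of_mem _ _ _ hj, Finset.piecewise_eq_of_mem _ _ _ hj,
        Function.update_of_ne hji]
    · rw [Finset.piecewise_eq_of_notMem _ _ _ hj, Finset.piecewise_eq_of_notMem _ _ _ hj]

/-- averaging decreases the influences -/
lemma infl_avg_le (hf : Measurable f) (hb : ∀ x, |f x| ≤ C) (s : Finset I) {i : I} (hi : i ∈ s) :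
    infl (Measure.infinitePi fun _ : I => G) G (avg G f s) i ≤
      infl (Measure.infinitePi fun _ : I => G) G f i := by
  set μ := Measure.infinitePi fun _ : I => G with hμ
  have hP : Measurable (fun p : (I → X) × (I → X) => s.piecewise p.1 p.2) :=
    measurable_piece (X := fun _ : I => X) s
  have h1 : ∀ x : I → X, ∀ t : X,
      ENNReal.ofReal ((avg G f s x - avg G f s (Function.update x i t)) ^ 2) ≤
        ∫⁻ y, ENNReal.ofReal ((f (s.piecewise x y) -
          f (Function.update (s.piecewise x y) i t)) ^ 2) ∂μ := by
    intro x t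
    have m1 : Measurable (fun y : I → X => s.piecewise x y) :=
      hP.comp (measurable_const.prodMk measurable_id)
    have e1 : avg G f s x - avg G f s (Function.update x i t) =
        ∫ y, (f (s.piecewise x y) - f (Function.update (s.piecewise x y) i t)) ∂μ := by
      unfold avg
      rw [← hμ, ← integral_sub]
      · simp only [piecewise_update_of_mem hi]
      · exact integrable_of_bound _ (hf.comp m1) (fun y => hb _)
      · exact integrable_of_bound _ (hf.comp
          (hP.comp (measurable_const.prodMk measurable_id))) (fun y => hb _)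
    rw [e1]
    refine ofReal_sq_integral_le (C := C + C) μ ((hf.comp m1).sub (hf.comp ?_)) (fun y => ?_)
    · exact measurable_update'.comp (m1.prodMk measurable_const)
    · exact (abs_sub _ _).trans (add_le_add (hb _) (hb _))
  have m3 : Measurable (fun p : (I → X) × X =>
      ENNReal.ofReal ((f p.1 - f (Function.update p.1 i p.2)) ^ 2)) :=
    meas_sq hf measurable_fst measurable_update'
  calc infl μ G (avg G f s) i
      ≤ ∫⁻ x, ∫⁻ t, ∫⁻ y, ENNReal.ofReal ((f (s.piecewise x y) -
          f (Function.update (s.piecewise x y) i t)) ^ 2) ∂μ ∂G ∂μ :=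
        lintegral_mono fun x => lintegral_mono fun t => h1 x t
    _ = ∫⁻ x, ∫⁻ y, ∫⁻ t, ENNReal.ofReal ((f (s.piecewise x y) -
          f (Function.update (s.piecewise x y) i t)) ^ 2) ∂G ∂μ ∂μ := by
        apply lintegral_congr
        intro x
        have m4 : Measurable (fun q : X × (I → X) => ((s.piecewise x q.2, q.1) : (I → X) × X)) :=
          (hP.comp (measurable_const.prodMk measurable_snd)).prodMk measurable_fst
        have m5 := m3.comp m4
        simp only [Function.comp_def] at m5
        exact lintegral_lintegral_swap m5.aemeasurable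
    _ = ∫⁻ p, (fun x => ∫⁻ t, ENNReal.ofReal ((f x - f (Function.update x i t)) ^ 2) ∂G)
          (s.piecewise p.1 p.2) ∂(μ.prod μ) :=
        (lintegral_prod (μ := μ) (ν := μ) _
          ((meas_infl G hf i).comp hP).aemeasurable).symm
    _ = infl μ G f i := by
        have hmp := mp_piece (fun _ : I => G) s
        rw [← hμ] at hmp
        exact hmp.lintegral_comp (meas_infl G hf i)

/-- the cylinder sets over `s` -/
lemma mem_restrict_iff {s : Finset I} {A : Set (s → X)} (x y : I → X) :
    s.piecewise x y ∈ (s.restrict (π := fun _ : I => X)) ⁻¹' A ↔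
      x ∈ (s.restrict (π := fun _ : I => X)) ⁻¹' A := by
  have : s.restrict (π := fun _ : I => X) (s.piecewise x y) = s.restrict (π := fun _ : I => X) x := by
    funext j
    simp
  simp only [Set.mem_preimage, this]

lemma setIntegral_avg (hf : Measurable f) (hb : ∀ x, |f x| ≤ C) (s : Finset I)
    {A : Set (s → X)} (hA : MeasurableSet A) :
    ∫ x in (s.restrict (π := fun _ : I => X)) ⁻¹' A, avg G f s x
        ∂(Measure.infinitePi fun _ : I => G) =
      ∫ x in (s.restrict (π := fun _ : I => X)) ⁻¹' A, f x ∂(Measure.infinitePi fun _ : I => G) := by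
  set μ := Measure.infinitePi fun _ : I => G with hμ
  set B := (s.restrict (π := fun _ : I => X)) ⁻¹' A with hB
  have hBm : MeasurableSet B := (Finset.measurable_restrict s) hA
  have hP : Measurable (fun p : (I → X) × (I → X) => s.piecewise p.1 p.2) :=
    measurable_piece (X := fun _ : I => X) s
  have hbi : ∀ x, |B.indicator f x| ≤ C := by
    intro x
    by_cases hx : x ∈ B
    · rw [Set.indicator_of_mem hx]; exact hb x
    · rw [Set.indicator_of_notMem hx, abs_zero]; exact (abs_nonneg _).trans (hb x)
  have hmi : Measurable (B.indicator f) := hf.indicator hBm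
  rw [← integral_indicator hBm, ← integral_indicator hBm]
  have e1 : ∀ x, B.indicator (avg G f s) x = ∫ y, B.indicator f (s.piecewise x y) ∂μ := by
    intro x
    by_cases hx : x ∈ B
    · rw [Set.indicator_of_mem hx]
      unfold avg
      congr 1
      funext y
      rw [Set.indicator_of_mem ((mem_restrict_iff x y).2 hx)]
    · rw [Set.indicator_of_notMem hx]
      have : ∀ y, B.indicator f (s.piecewise x y) = 0 := fun y =>
        Set.indicator_of_notMem (fun h => hx ((mem_restrict_iff x y).1 h)) _
      simp [this]
  rw [integral_congr_ae (Eventually.of_forall e1)]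
  have hint : Integrable (fun p : (I → X) × (I → X) => B.indicator f (s.piecewise p.1 p.2))
      (μ.prod μ) := integrable_of_bound _ (hmi.comp hP) (fun p => hbi _)
  have e2 := integral_prod _ hint
  rw [← e2]
  have hmp := mp_piece (fun _ : I => G) s
  rw [← hμ] at hmp
  have e3 := integral_map (μ := μ.prod μ) (φ := fun p : (I → X) × (I → X) => s.piecewise p.1 p.2)
    hP.aemeasurable (f := B.indicator f) (by rw [hmp.map_eq]; exact hmi.aestronglyMeasurable)
  rw [hmp.map_eq] at e3
  exact e3.symm

/-- the filtration of the cylinders over an increasing sequence of finite sets -/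
def filt (s : ℕ → Finset I) (hs : Monotone s) :
    Filtration ℕ (MeasurableSpace.pi : MeasurableSpace (I → X)) where
  seq n := MeasurableSpace.comap ((s n).restrict (π := fun _ : I => X)) MeasurableSpace.pi
  mono' := by
    intro m n hmn
    have : (s m).restrict (π := fun _ : I => X) =
        (Finset.restrict₂ (π := fun _ : I => X) (hs hmn)) ∘ (s n).restrict (π := fun _ : I => X) := rfl
    simp only
    rw [this, ← MeasurableSpace.comap_comp]
    exact MeasurableSpace.comap_mono (Finset.measurable_restrict₂ (hs hmn)).comap_le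
  le' := fun n => (Finset.measurable_restrict (s n)).comap_le

lemma iSup_filt {s : ℕ → Finset I} (hs : Monotone s) (hex : ∀ i, ∃ n, i ∈ s n) :
    (MeasurableSpace.pi : MeasurableSpace (I → X)) ≤ ⨆ n, (filt (X := X) s hs) n := by
  unfold MeasurableSpace.pi
  refine iSup_le fun i => ?_
  obtain ⟨n, hn⟩ := hex i
  refine le_trans ?_ (le_iSup _ n)
  have : (fun b : I → X => b i) =
      (fun z : (s n) → X => z ⟨i, hn⟩) ∘ (s n).restrict (π := fun _ : I => X) := rfl
  rw [this, ← MeasurableSpace.comap_comp]
  exact MeasurableSpace.comap_mono (measurable_pi_apply _).comap_le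

lemma avg_ae_eq_condExp (hf : Measurable f) (hb : ∀ x, |f x| ≤ C) {s : ℕ → Finset I}
    (hs : Monotone s) (n : ℕ) :
    avg G f (s n) =ᵐ[Measure.infinitePi fun _ : I => G]
      (Measure.infinitePi fun _ : I => G)[f | (filt (X := X) s hs) n] := by
  refine ae_eq_condExp_of_forall_setIntegral_eq ((filt (X := X) s hs).le n)
    (integrable_of_bound _ hf hb) (fun A _ _ => ?_) ?_ ?_
  · exact (integrable_of_bound _ (measurable_avg G hf (s n)) (abs_avg_le G hb (s n))).integrableOn
  · rintro A ⟨B, hB, rfl⟩ _
    exact setIntegral_avg G hf hb (s n) hB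
  · classical
    obtain ⟨x0⟩ : Nonempty X := nonempty_of_isProbabilityMeasure G
    have hext : Measurable (fun z : (s n) → X =>
        (fun i => if h : i ∈ s n then z ⟨i, h⟩ else x0 : I → X)) := by
      apply measurable_pi_lambda
      intro i
      by_cases h : i ∈ s n
      · simp only [h, dif_pos]
        exact measurable_pi_apply _
      · simp only [h, dif_neg, not_false_eq_true]
        exact measurable_const
    have hfac : avg G f (s n) = (fun z : (s n) → X => avg G f (s n)
        (fun i => if h : i ∈ s n then z ⟨i, h⟩ else x0)) ∘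
          (s n).restrict (π := fun _ : I => X) := by
      funext x
      apply avg_congr
      intro i hi
      simp [hi]
    have hm : Measurable[(filt (X := X) s hs) n] (avg G f (s n)) := by
      rw [hfac]
      exact ((measurable_avg G hf (s n)).comp hext).comp (comap_measurable _)
    exact hm.stronglyMeasurable.aestronglyMeasurable

lemma tendsto_avg (hf : Measurable f) (hb : ∀ x, |f x| ≤ C) {s : ℕ → Finset I}
    (hs : Monotone s) (hex : ∀ i, ∃ n, i ∈ s n) :
    ∀ᵐ x ∂(Measure.infinitePi fun _ : I => G),
      Tendsto (fun n => avg G f (s n) x) atTop (𝓝 (f x)) := by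
  have hsm : StronglyMeasurable[⨆ n, (filt (X := X) s hs) n] f := by
    refine Measurable.stronglyMeasurable ?_
    exact hf.mono (iSup_filt hs hex) le_rfl
  have h1 := Integrable.tendsto_ae_condExp (ℱ := filt (X := X) s hs)
    (integrable_of_bound (Measure.infinitePi fun _ : I => G) hf hb) hsm
  have h2 : ∀ᵐ x ∂(Measure.infinitePi fun _ : I => G), ∀ n, avg G f (s n) x =
      ((Measure.infinitePi fun _ : I => G)[f | (filt (X := X) s hs) n]) x :=
    ae_all_iff.2 fun n => avg_ae_eq_condExp G hf hb hs n
  filter_upwards [h1, h2] with x hx1 hx2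
  simpa only [hx2] using hx1

/-- an increasing exhaustion of a countable set by finite sets -/
lemma exists_exhaustion (I : Type*) [Countable I] :
    ∃ s : ℕ → Finset I, Monotone s ∧ ∀ i, ∃ n, i ∈ s n := by
  obtain ⟨e, he⟩ := exists_injective_nat I
  have hfin : ∀ n : ℕ, {i | e i ≤ n}.Finite := fun n =>
    (Set.finite_Iic n).preimage he.injOn
  refine ⟨fun n => (hfin n).toFinset, ?_, ?_⟩
  · intro m n hmn i
    simp only [Set.Finite.mem_toFinset, Set.mem_ofPred_eq]
    exact fun h => h.trans hmn
  · intro i
    exact ⟨e i, by simp⟩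

/-- EFRON-STEIN on a countable product: twice the variance of a bounded measurable function is at
most the sum of its influences. -/
theorem dvar_le_tsum [Countable I] (hf : Measurable f) (hb : ∀ x, |f x| ≤ C) :
    dvar (Measure.infinitePi fun _ : I => G) f ≤
      ∑' i, infl (Measure.infinitePi fun _ : I => G) G f i := by
  obtain ⟨s, hs, hex⟩ := exists_exhaustion I
  set μ := Measure.infinitePi fun _ : I => G with hμ
  have hn : ∀ n, dvar μ (avg G f (s n)) ≤ ∑' i, infl μ G f i := by
    intro n
    refine (dvar_infinitePi_le G (measurable_avg G hf (s n)) (s n)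
      (fun x y h => avg_congr G (s n) h)).trans ?_
    refine (Finset.sum_le_sum fun i hi => infl_avg_le G hf hb (s n) hi).trans ?_
    exact ENNReal.sum_le_tsum _
  have hae := tendsto_avg G hf hb hs hex
  -- Fatou twice
  have hF : dvar μ f ≤ liminf (fun n => dvar μ (avg G f (s n))) atTop := by
    unfold dvar
    have h1 : (∫⁻ x, ∫⁻ y, ENNReal.ofReal ((f x - f y) ^ 2) ∂μ ∂μ) ≤
        ∫⁻ x, liminf (fun n => ∫⁻ y, ENNReal.ofReal ((avg G f (s n) x - avg G f (s n) y) ^ 2) ∂μ)
          atTop ∂μ := by
      apply lintegral_mono_ae
      filter_upwards [hae] with x hx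
      have h2 : (∫⁻ y, ENNReal.ofReal ((f x - f y) ^ 2) ∂μ) ≤
          ∫⁻ y, liminf (fun n => ENNReal.ofReal ((avg G f (s n) x - avg G f (s n) y) ^ 2))
            atTop ∂μ := by
        apply lintegral_mono_ae
        filter_upwards [hae] with y hy
        apply le_of_eq
        symm
        apply Tendsto.liminf_eq
        exact (ENNReal.continuous_ofReal.tendsto _).comp ((hx.sub hy).pow 2)
      refine h2.trans (lintegral_liminf_le fun n => ?_)
      exact ((measurable_const.sub (measurable_avg G hf (s n))).pow_const 2).ennreal_ofReal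
    refine h1.trans (lintegral_liminf_le fun n => ?_)
    exact Measurable.lintegral_prod_right' (meas_sq (measurable_avg G hf (s n)) measurable_fst
      measurable_snd)
  refine hF.trans ?_
  refine (liminf_le_liminf (Eventually.of_forall hn)).trans ?_
  simp

end homog

end Crest.Agent.R143.ESx831
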