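import Crest.Agent.R143.Jan_304
import Crest.Agent.R143.ES_831
import Crest.Agent.R143.PP1_831

/-!
# R143 (helper930): leaves M3a, M3b

* `m3a` : almost sure general position, different indices give different points, local finiteness
* `m3b` : a fixed point has no two nearest points (almost surely)
-/

set_option autoImplicit false

noncomputable section

namespace Crest.Agent.R143.PoisM3x930

open MeasureTheory Set Filter Topology Complex
open Crest.ProbabilityR.Voronoi
open Crest.Agent.R143.B0x346 Crest.Agent.R143.PP1x831 Crest.Agent.R143.Janx304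
open scoped ENNReal

/-- the indices -/
abbrev Ix : Type := (ℤ × ℤ) × ℕ

/-- the law of all the marks -/
def nu : Measure (Ix → Mk) := Measure.infinitePi fun _ : Ix => mk3

instance : IsProbabilityMeasure nu := by unfold nu; infer_instance

/-- the point with the index `i` -/
def q (ε : ℝ) (x : Ix → Mk) (i : Ix) : ℂ := pos ε i.1 (x i 0, x i 1)

lemma measurable_q (ε : ℝ) (i : Ix) : Measurable fun x : Ix → Mk => q ε x i := by
  unfold q
  have h : Measurable fun x : Ix → Mk => x i := measurable_pi_apply i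
  exact (measurable_pos ε i.1).comp
    (((measurable_pi_apply 0).comp h).prodMk ((measurable_pi_apply 1).comp h))

lemma q_update {ε : ℝ} {x : Ix → Mk} {i j : Ix} (h : j ≠ i) (m : Mk) :
    q ε (Function.update x i m) j = q ε x j := by
  unfold q
  rw [Function.update_of_ne h]

/-- the law of one point is absolutely continuous -/
lemma pos_null {ε : ℝ} (hε : 0 < ε) (k : ℤ × ℤ) {B : Set ℂ} (hB : volume B = 0) :
    mk3 {m : Mk | pos ε k (m 0, m 1) ∈ B} = 0 := by
  have h1 : Measure.QuasiMeasurePreserving (fun m : Mk => pos ε k (m 0, m 1)) mk3 volume := by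
    refine ⟨(measurable_pos ε k).comp ((measurable_pi_apply 0).prodMk (measurable_pi_apply 1)), ?_⟩
    have h2 : (fun m : Mk => pos ε k (m 0, m 1)) = Prod.fst ∘ pt ε k := rfl
    rw [h2, ← Measure.map_map measurable_fst (measurable_pt ε k), map_pt hε k]
    refine Measure.AbsolutelyContinuous.trans
      (Measure.quasiMeasurePreserving_fst.absolutelyContinuous) ?_
    exact (Measure.absolutelyContinuous_of_le Measure.restrict_le_self).smul_left _
  exact h1.preimage_null hB

/-- **resampling one point** -/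
lemma fresh {ε : ℝ} (hε : 0 < ε) (i : Ix) (f : (Ix → Mk) → ℂ → ℝ)
    (hf : Measurable (Function.uncurry f)) (hi : ∀ x m z, f (Function.update x i m) z = f x z)
    (h0 : ∀ᵐ x ∂nu, volume {z | f x z = 0} = 0) :
    ∀ᵐ x ∂nu, f x (q ε x i) ≠ 0 := by
  classical
  have hmeas : Measurable fun x : Ix → Mk => f x (q ε x i) :=
    hf.comp (measurable_id.prodMk (measurable_q ε i))
  have hS : MeasurableSet {x : Ix → Mk | f x (q ε x i) = 0} := hmeas (measurableSet_singleton 0)
  have hmp := ESx831.mp_update (fun _ : Ix => mk3) i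
  rw [ae_iff]
  simp only [not_not]
  have h1 : (Measure.infinitePi fun _ : Ix => mk3) {x : Ix → Mk | f x (q ε x i) = 0} =
      ((Measure.infinitePi fun _ : Ix => mk3).prod mk3)
        ((fun p : (Ix → Mk) × Mk => Function.update p.1 i p.2) ⁻¹'
          {x : Ix → Mk | f x (q ε x i) = 0}) := (hmp.measure_preimage hS.nullMeasurableSet).symm
  have hS' : MeasurableSet ((fun p : (Ix → Mk) × Mk => Function.update p.1 i p.2) ⁻¹'
      {x : Ix → Mk | f x (q ε x i) = 0}) := hmp.measurable hS
  unfold nu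
  rw [h1]
  rw [Measure.measure_prod_null hS']
  unfold nu at h0
  filter_upwards [h0] with x hx
  have h2 : Prod.mk x ⁻¹' ((fun p : (Ix → Mk) × Mk => Function.update p.1 i p.2) ⁻¹'
      {x : Ix → Mk | f x (q ε x i) = 0}) = {m : Mk | pos ε i.1 (m 0, m 1) ∈ {z | f x z = 0}} := by
    ext m
    simp only [mem_preimage, mem_ofPred_eq, hi]
    rw [q, Function.update_self]
  rw [h2]
  exact pos_null hε i.1 hx

/-! ## null sets of the plane -/

lemma sphere_null (o : ℂ) (r : ℝ) : volume {z : ℂ | ‖z - o‖ = r} = 0 := by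
  by_cases hr : r = 0
  · have : {z : ℂ | ‖z - o‖ = r} = {o} := by
      ext z; simp [hr, sub_eq_zero]
    rw [this]; exact measure_singleton o
  · have : {z : ℂ | ‖z - o‖ = r} = Metric.sphere o r := by
      ext z; simp
    rw [this]; exact Measure.addHaar_sphere_of_ne_zero _ _ hr

lemma line_null {u : ℂ} (hu : u ≠ 0) (a : ℂ) : volume {z : ℂ | cr u (z - a) = 0} = 0 := by
  let L : ℂ →ₗ[ℝ] ℝ := u.re • Complex.imLm - u.im • Complex.reLm
  have hL : ∀ z, L z = cr u z := by
    intro z
    simp [L, cr]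
  have hker : volume ((LinearMap.ker L : Submodule ℝ ℂ) : Set ℂ) = 0 := by
    apply Measure.addHaar_submodule
    intro htop
    rw [LinearMap.ker_eq_top] at htop
    have h1 : cr u I = 0 := by rw [← hL, htop]; rfl
    have h2 : cr u 1 = 0 := by rw [← hL, htop]; rfl
    simp [cr] at h1 h2
    exact hu (Complex.ext h1 h2)
  have h2 : {z : ℂ | cr u (z - a) = 0} = (fun z => z + (-a)) ⁻¹' ((LinearMap.ker L : Submodule ℝ ℂ) : Set ℂ) := by
    ext z
    simp [hL, sub_eq_add_neg]
  rw [h2, measure_preimage_add_right]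
  exact hker

/-- the in-circle determinant -/
def ic (a b c e : ℂ) : ℝ :=
  Complex.normSq (b - a) * cr (c - a) (e - a) - Complex.normSq (c - a) * cr (b - a) (e - a) +
    Complex.normSq (e - a) * cr (b - a) (c - a)

lemma ic_zero {a b c e o : ℂ} (hb : ‖b - o‖ = ‖a - o‖) (hc : ‖c - o‖ = ‖a - o‖)
    (he : ‖e - o‖ = ‖a - o‖) : ic a b c e = 0 := by
  have key : ∀ z : ℂ, ‖z - o‖ = ‖a - o‖ → (z.re - o.re) ^ 2 + (z.im - o.im) ^ 2 =
      (a.re - o.re) ^ 2 + (a.im - o.im) ^ 2 := by
    intro z hz
    have h := congrArg (fun t => t ^ 2) hz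
    simp only [← Complex.normSq_eq_norm_sq, Complex.normSq_apply, sub_re, sub_im] at h
    nlinarith [h]
  have h1 := key b hb
  have h2 := key c hc
  have h3 := key e he
  simp only [ic, cr, Complex.normSq_apply, sub_re, sub_im]
  have e1 : (b.re - a.re) * (b.re - a.re) + (b.im - a.im) * (b.im - a.im) =
      2 * ((b.re - a.re) * (o.re - a.re) + (b.im - a.im) * (o.im - a.im)) := by nlinarith [h1]
  have e2 : (c.re - a.re) * (c.re - a.re) + (c.im - a.im) * (c.im - a.im) =
      2 * ((c.re - a.re) * (o.re - a.re) + (c.im - a.im) * (o.im - a.im)) := by nlinarith [h2]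
  have e3 : (e.re - a.re) * (e.re - a.re) + (e.im - a.im) * (e.im - a.im) =
      2 * ((e.re - a.re) * (o.re - a.re) + (e.im - a.im) * (o.im - a.im)) := by nlinarith [h3]
  rw [e1, e2, e3]
  ring

lemma circ_null {a b c : ℂ} (h : cr (b - a) (c - a) ≠ 0) : volume {e : ℂ | ic a b c e = 0} = 0 := by
  set D := cr (b - a) (c - a) with hD
  set B := b - a with hB
  set C := c - a with hC
  set o : ℂ := a + ⟨(normSq B * C.im - normSq C * B.im) / (2 * D),
    (normSq C * B.re - normSq B * C.re) / (2 * D)⟩ with ho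
  refine measure_mono_null ?_ (sphere_null o ‖a - o‖)
  intro e he
  simp only [mem_ofPred_eq, ic, ← hB, ← hC, ← hD] at he ⊢
  have h2 : ‖e - o‖ ^ 2 = ‖a - o‖ ^ 2 := by
    rw [← Complex.normSq_eq_norm_sq, ← Complex.normSq_eq_norm_sq, Complex.normSq_apply,
      Complex.normSq_apply]
    have e1 : (e - o).re = (e - a).re - (normSq B * C.im - normSq C * B.im) / (2 * D) := by
      simp [ho]; ring
    have e2 : (e - o).im = (e - a).im - (normSq C * B.re - normSq B * C.re) / (2 * D) := by
      simp [ho]; ring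
    have e3 : (a - o).re = - ((normSq B * C.im - normSq C * B.im) / (2 * D)) := by
      simp [ho]
    have e4 : (a - o).im = - ((normSq C * B.re - normSq B * C.re) / (2 * D)) := by
      simp [ho]
    rw [e1, e2, e3, e4]
    have e5 : normSq (e - a) = (e - a).re * (e - a).re + (e - a).im * (e - a).im :=
      Complex.normSq_apply _
    set E := e - a with hE
    have h3 : normSq E * D = normSq C * cr B E - normSq B * cr C E := by linarith
    have h4 : E.re * E.re + E.im * E.im = (normSq C * cr B E - normSq B * cr C E) / D := by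
      rw [← e5]; field_simp; linarith
    have h5 : (normSq C * cr B E - normSq B * cr C E) / D =
        2 * (E.re * ((normSq B * C.im - normSq C * B.im) / (2 * D)) +
          E.im * ((normSq C * B.re - normSq B * C.re) / (2 * D))) := by
      field_simp
      simp only [cr]
      ring
    nlinarith [h4, h5]
  exact (sq_eq_sq₀ (norm_nonneg _) (norm_nonneg _)).1 h2

/-! ## general position of the points -/

lemma ae_ne {ε : ℝ} (hε : 0 < ε) {i j : Ix} (h : i ≠ j) : ∀ᵐ x ∂nu, q ε x i ≠ q ε x j := by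
  have h1 := fresh hε i (fun x z => ‖z - q ε x j‖)
    ((measurable_snd.sub ((measurable_q ε j).comp measurable_fst)).norm)
    (fun x m z => by rw [q_update h.symm]) (Eventually.of_forall fun x => sphere_null _ 0)
  filter_upwards [h1] with x hx heq
  exact hx (by rw [heq]; simp)

lemma measurable_cr {X : Type*} [MeasurableSpace X] {f g : X → ℂ} (hf : Measurable f)
    (hg : Measurable g) : Measurable fun x => cr (f x) (g x) := by
  unfold cr
  fun_prop

lemma ae_line {ε : ℝ} (hε : 0 < ε) {i j k : Ix} (hij : i ≠ j) (hik : i ≠ k) (hjk : j ≠ k) :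
    ∀ᵐ x ∂nu, cr (q ε x k - q ε x j) (q ε x i - q ε x j) ≠ 0 := by
  refine fresh hε i (fun x z => cr (q ε x k - q ε x j) (z - q ε x j)) ?_ ?_ ?_
  · exact measurable_cr (((measurable_q ε k).sub (measurable_q ε j)).comp measurable_fst)
      (measurable_snd.sub ((measurable_q ε j).comp measurable_fst))
  · intro x m z
    simp only [q_update hij.symm, q_update hik.symm]
  · filter_upwards [ae_ne hε hjk] with x hx
    exact line_null (sub_ne_zero.2 hx.symm) _

lemma ae_circ {ε : ℝ} (hε : 0 < ε) {i j k l : Ix} (hij : i ≠ j) (hik : i ≠ k) (hil : i ≠ l)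
    (hjk : j ≠ k) (hjl : j ≠ l) (hkl : k ≠ l) :
    ∀ᵐ x ∂nu, ic (q ε x j) (q ε x k) (q ε x l) (q ε x i) ≠ 0 := by
  refine fresh hε i (fun x z => ic (q ε x j) (q ε x k) (q ε x l) z) ?_ ?_ ?_
  · have h1 : Measurable fun p : (Ix → Mk) × ℂ => q ε p.1 j := (measurable_q ε j).comp measurable_fst
    have h2 : Measurable fun p : (Ix → Mk) × ℂ => q ε p.1 k := (measurable_q ε k).comp measurable_fst
    have h3 : Measurable fun p : (Ix → Mk) × ℂ => q ε p.1 l := (measurable_q ε l).comp measurable_fst
    have h4 : Measurable fun p : (Ix → Mk) × ℂ => p.2 := measurable_snd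
    have hn : Measurable (fun z : ℂ => normSq z) := Complex.continuous_normSq.measurable
    show Measurable fun p : (Ix → Mk) × ℂ => ic (q ε p.1 j) (q ε p.1 k) (q ε p.1 l) p.2
    unfold ic
    exact (((hn.comp (h2.sub h1)).mul (measurable_cr (h3.sub h1) (h4.sub h1))).sub
      ((hn.comp (h3.sub h1)).mul (measurable_cr (h2.sub h1) (h4.sub h1)))).add
      ((hn.comp (h4.sub h1)).mul (measurable_cr (h2.sub h1) (h3.sub h1)))
  · intro x m z
    simp only [q_update hij.symm, q_update hik.symm, q_update hil.symm]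
  · filter_upwards [ae_line hε (i := l) (j := j) (k := k) hjl.symm hkl.symm hjk] with x hx
    exact circ_null hx

/-! ## back to the sample -/

/-- the marks of the sample by index -/
def marks (ω : Sample) : Ix → Mk := fun i => ω.2 i.1 i.2

lemma marks_ae {p : (Ix → Mk) → Prop} (h : ∀ᵐ x ∂nu, p x) : ∀ᵐ ω ∂sampleLaw, p (marks ω) := by
  have g3 : MeasurePreserving (MeasurableEquiv.curry (ℤ × ℤ) ℕ Mk) nu
      (Measure.infinitePi fun _ : ℤ × ℤ => Measure.infinitePi fun _ : ℕ => mk3) :=
    ⟨MeasurableEquiv.measurable _,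
      Measure.infinitePi_map_curry (fun (_ : ℤ × ℤ) (_ : ℕ) => mk3)⟩
  have g4 := g3.symm.quasiMeasurePreserving.ae h
  exact Measure.quasiMeasurePreserving_snd.ae g4

lemma point_eq (ε : ℝ) (ω : Sample) (i : Ix) : point ε ω i.1 i.2 = q ε (marks ω) i := rfl

lemma finite_ball {ε : ℝ} (hε : 0 < ε) (ω : Sample) (r : ℝ) :
    (points ε ω ∩ Metric.closedBall 0 r).Finite := by
  obtain ⟨K, hK, -⟩ := exists_cells hε (Metric.isBounded_closedBall (x := (0 : ℂ)) (r := r))
  have hfin : ((fun p : ℤ × ℤ × ℕ => point ε ω (p.1, p.2.1) p.2.2) ''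
      (⋃ k ∈ K, (fun j : ℕ => (k.1, k.2, j)) '' {j | j < ω.1 k})).Finite := by
    apply Set.Finite.image
    apply Set.Finite.biUnion K.finite_toSet
    intro k _
    exact (Set.finite_lt_nat _).image _
  refine hfin.subset ?_
  rintro z ⟨⟨⟨k1, k2, j⟩, hp, rfl⟩, hz⟩
  refine ⟨(k1, k2, j), ?_, rfl⟩
  simp only [mem_iUnion]
  exact ⟨(k1, k2), hK (k1, k2) (ω.2 (k1, k2) j 0, ω.2 (k1, k2) j 1) hz, j, hp, rfl⟩

theorem m3a : M3a := by
  intro ε hε
  have hne : ∀ᵐ x ∂nu, ∀ i j : Ix, i ≠ j → q ε x i ≠ q ε x j := by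
    rw [ae_all_iff]; intro i
    rw [ae_all_iff]; intro j
    by_cases h : i = j
    · exact Eventually.of_forall fun x hx => (hx h).elim
    · filter_upwards [ae_ne hε h] with x hx _ using hx
  have hline : ∀ᵐ x ∂nu, ∀ i j k : Ix, i ≠ j → i ≠ k → j ≠ k →
      cr (q ε x k - q ε x j) (q ε x i - q ε x j) ≠ 0 := by
    rw [ae_all_iff]; intro i
    rw [ae_all_iff]; intro j
    rw [ae_all_iff]; intro k
    by_cases h1 : i = j
    · exact Eventually.of_forall fun x hx => (hx h1).elim
    by_cases h2 : i = k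
    · exact Eventually.of_forall fun x _ hx => (hx h2).elim
    by_cases h3 : j = k
    · exact Eventually.of_forall fun x _ _ hx => (hx h3).elim
    filter_upwards [ae_line hε h1 h2 h3] with x hx _ _ _ using hx
  have hcirc : ∀ᵐ x ∂nu, ∀ i j k l : Ix, i ≠ j → i ≠ k → i ≠ l → j ≠ k → j ≠ l → k ≠ l →
      ic (q ε x j) (q ε x k) (q ε x l) (q ε x i) ≠ 0 := by
    rw [ae_all_iff]; intro i
    rw [ae_all_iff]; intro j
    rw [ae_all_iff]; intro k
    rw [ae_all_iff]; intro l
    by_cases h1 : i = j
    · exact Eventually.of_forall fun x hx => (hx h1).elim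
    by_cases h2 : i = k
    · exact Eventually.of_forall fun x _ hx => (hx h2).elim
    by_cases h3 : i = l
    · exact Eventually.of_forall fun x _ _ hx => (hx h3).elim
    by_cases h4 : j = k
    · exact Eventually.of_forall fun x _ _ _ hx => (hx h4).elim
    by_cases h5 : j = l
    · exact Eventually.of_forall fun x _ _ _ _ hx => (hx h5).elim
    by_cases h6 : k = l
    · exact Eventually.of_forall fun x _ _ _ _ _ hx => (hx h6).elim
    filter_upwards [ae_circ hε h1 h2 h3 h4 h5 h6] with x hx _ _ _ _ _ _ using hx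
  filter_upwards [marks_ae hne, marks_ae hline, marks_ae hcirc] with ω h1 h2 h3
  have hidx : ∀ z ∈ points ε ω, ∃ i : Ix, z = q ε (marks ω) i := by
    rintro z ⟨p, _, rfl⟩
    exact ⟨((p.1, p.2.1), p.2.2), rfl⟩
  refine ⟨⟨?_, ?_⟩, ?_, fun r => finite_ball hε ω r⟩
  · intro a ha b hb c hc hab hbc hac
    obtain ⟨i, rfl⟩ := hidx a ha
    obtain ⟨j, rfl⟩ := hidx b hb
    obtain ⟨k, rfl⟩ := hidx c hc
    exact h2 k i j (fun h => hac (by rw [h])) (fun h => hbc (by rw [h])) (fun h => hab (by rw [h]))
  · intro a ha b hb c hc e he hab hac hae hbc hbe hce o hcon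
    obtain ⟨i, rfl⟩ := hidx a ha
    obtain ⟨j, rfl⟩ := hidx b hb
    obtain ⟨k, rfl⟩ := hidx c hc
    obtain ⟨l, rfl⟩ := hidx e he
    refine h3 l i j k (fun h => hae (by rw [h])) (fun h => hbe (by rw [h]))
      (fun h => hce (by rw [h])) (fun h => hab (by rw [h])) (fun h => hac (by rw [h]))
      (fun h => hbc (by rw [h])) ?_
    exact ic_zero hcon.1 hcon.2.1 hcon.2.2
  · intro p hp r hr h
    by_contra hpr
    refine h1 ((p.1, p.2.1), p.2.2) ((r.1, r.2.1), r.2.2) ?_ h
    intro h'
    apply hpr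
    simp only [Prod.mk.injEq] at h'
    exact Prod.ext h'.1.1 (Prod.ext h'.1.2 h'.2)

theorem m3b : M3b := by
  intro ε hε z
  have hne : ∀ᵐ x ∂nu, ∀ i j : Ix, i ≠ j → ‖z - q ε x i‖ ≠ ‖z - q ε x j‖ := by
    rw [ae_all_iff]; intro i
    rw [ae_all_iff]; intro j
    by_cases h : i = j
    · exact Eventually.of_forall fun x hx => (hx h).elim
    · have h1 := fresh hε i (fun x w => ‖w - z‖ - ‖q ε x j - z‖)
        (((measurable_snd.sub_const z).norm).sub
          ((((measurable_q ε j).comp measurable_fst).sub_const z).norm))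
        (fun x m w => by rw [q_update (Ne.symm h)])
        (Eventually.of_forall fun x => by
          have := sphere_null z ‖q ε x j - z‖
          simpa only [sub_eq_zero] using this)
      filter_upwards [h1] with x hx _ heq
      apply hx
      rw [norm_sub_rev, heq, norm_sub_rev, sub_self]
  filter_upwards [marks_ae hne] with ω h1
  rintro a ⟨p, hp, rfl⟩ b ⟨r, hr, rfl⟩ hab
  refine h1 ((p.1, p.2.1), p.2.2) ((r.1, r.2.1), r.2.2) ?_
  intro h'
  apply hab
  simp only [Prod.mk.injEq] at h'
  simp only [h'.1.1, h'.1.2, h'.2]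

end Crest.Agent.R143.PoisM3x930
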