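import Crest.Agent.R143.PoisM4_501

/-!
# Row 143, block M, leaves M3c and M3d (helper501)

* `m3c : PP1x831.M3c` : no empty balls of radius `rad C ε`
* `m3d : PP1x831.M3d` : at most `K log (1/ε)` points in the balls of radius `rad C ε`
-/

set_option autoImplicit false

noncomputable section

namespace Crest.Agent.R143.PoisM3cx501

open MeasureTheory Set ProbabilityTheory Filter Topology
open Crest.ProbabilityR.Voronoi
open Crest.Agent.R143.B0x346 Crest.Agent.R143.PP1x831 Crest.Agent.R143.PoisM4x501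
open scoped ENNReal NNReal

/-- an empty box of cells -/
lemma mu_box (k : Cell) (m : ℕ) :
    mu {N | ∀ k' ∈ nbr k m, N k' = 0} = ENNReal.ofReal (Real.exp (-((2 * m + 1 : ℝ) ^ 2))) := by
  have hs : {N : Cell → ℕ | ∀ k' ∈ nbr k m, N k' = 0} =
      Set.pi (nbr k m) (fun _ => ({0} : Set ℕ)) := by
    ext N
    simp [Set.mem_pi]
  rw [hs, mu, Measure.infinitePi_pi _ (fun _ _ => MeasurableSet.singleton _), Finset.prod_const,
    card_nbr, poissonMeasure_singleton, ← ENNReal.ofReal_pow (by positivity)]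
  congr 1
  simp [← Real.exp_nat_mul]

/-- exponential moment of the number of points in a box -/
lemma mu_sum (c : Cell) (m b : ℕ) :
    mu {N | b ≤ ∑ k ∈ nbr c m, N k} ≤
      ENNReal.ofReal (Real.exp ((Real.exp 1 - 1) * (2 * m + 1) ^ 2 - b)) := by
  have hprod : ∫⁻ N, ∏ k ∈ nbr c m, ENNReal.ofReal (Real.exp (N k)) ∂mu =
      K1 ^ ((2 * m + 1) ^ 2) := by
    rw [lintegral_prod_loc 0 (fun k N => ENNReal.ofReal (Real.exp (N k)))]
    · simp only [lintegral_exp]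
      rw [Finset.prod_const, card_nbr]
    · intro k N N' h
      rw [h k (by rw [mem_nbr]; simp)]
    · intro k _ l _ hkl
      rw [Finset.disjoint_left]
      intro x hx hx'
      rw [mem_nbr] at hx hx'
      simp only [Nat.cast_zero, sub_zero, add_zero] at hx hx'
      exact hkl (Prod.ext (by omega) (by omega))
  have hexp : ∀ N : Cell → ℕ, ∏ k ∈ nbr c m, ENNReal.ofReal (Real.exp (N k)) =
      ENNReal.ofReal (Real.exp ((∑ k ∈ nbr c m, N k : ℕ) : ℝ)) := by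
    intro N
    rw [← ENNReal.ofReal_prod_of_nonneg (fun _ _ => (Real.exp_pos _).le), ← Real.exp_sum]
    push_cast
    rfl
  have hmeas : AEMeasurable (fun N : Cell → ℕ =>
      ENNReal.ofReal (Real.exp ((∑ k ∈ nbr c m, N k : ℕ) : ℝ))) mu := by
    refine (meas_loc (nbr c m) _ fun N N' h => ?_).aemeasurable
    rw [Finset.sum_congr rfl h]
  have hM := mul_meas_ge_le_lintegral₀ hmeas (ENNReal.ofReal (Real.exp b))
  simp_rw [← hexp] at hM
  rw [hprod] at hM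
  simp_rw [hexp] at hM
  have hsub : {N : Cell → ℕ | b ≤ ∑ k ∈ nbr c m, N k} ⊆
      {N | ENNReal.ofReal (Real.exp b) ≤
        ENNReal.ofReal (Real.exp ((∑ k ∈ nbr c m, N k : ℕ) : ℝ))} := by
    intro N hN
    have hN' : b ≤ ∑ k ∈ nbr c m, N k := hN
    exact ENNReal.ofReal_le_ofReal (Real.exp_le_exp.2 (by exact_mod_cast hN'))
  have hpos : ENNReal.ofReal (Real.exp (b : ℝ)) ≠ 0 := by simp [Real.exp_pos]
  have hK : K1 ^ ((2 * m + 1) ^ 2) =
      ENNReal.ofReal (Real.exp ((Real.exp 1 - 1) * (2 * m + 1) ^ 2)) := by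
    rw [K1, ← ENNReal.ofReal_pow (Real.exp_pos _).le, ← Real.exp_nat_mul]
    push_cast
    congr 2
    ring
  calc mu {N | b ≤ ∑ k ∈ nbr c m, N k} ≤ K1 ^ ((2 * m + 1) ^ 2) / ENNReal.ofReal (Real.exp b) := by
        rw [ENNReal.le_div_iff_mul_le (Or.inl hpos) (Or.inl ENNReal.ofReal_ne_top), mul_comm]
        exact (mul_le_mul' le_rfl (measure_mono hsub)).trans hM
    _ = _ := by
        rw [hK, ← ENNReal.ofReal_div_of_pos (Real.exp_pos _), ← Real.exp_sub]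

/-- a ball with no point -/
lemma empty_box {ε : ℝ} {ω : Sample} {z : ℂ} {r : ℝ} {m : ℕ} (hε : 0 < ε)
    (hm : 2 * ε * (m + 1) < r) (h : points ε ω ∩ Metric.ball z r = ∅) :
    ∀ k ∈ nbr (cellOf ε z) m, ω.1 k = 0 := by
  by_contra hc
  push Not at hc
  obtain ⟨k, hk, hN⟩ := hc
  have hN' : 0 < ω.1 k := Nat.pos_of_ne_zero hN
  have hmem : point ε ω k 0 ∈ points ε ω := point_mem hN'
  have hnot : point ε ω k 0 ∉ Metric.ball z r := by
    intro hb
    have : point ε ω k 0 ∈ points ε ω ∩ Metric.ball z r := ⟨hmem, hb⟩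
    rw [h] at this
    exact this
  apply hnot
  rw [mem_nbr] at hk
  have aux : ∀ (x w : ℝ) (k : ℤ) (t : unitInterval), w = ε * ((k : ℝ) + (t : ℝ)) →
      (⌊x / ε⌋ - (m : ℤ) ≤ k ∧ k ≤ ⌊x / ε⌋ + (m : ℤ)) → |w - x| ≤ ε * (m + 1) := by
    intro x w k t hw hk
    obtain ⟨h1, h2⟩ := floor_bounds (x := x) hε
    have t0 : 0 ≤ ε * (t : ℝ) := mul_nonneg hε.le t.2.1
    have t1 : ε * (t : ℝ) ≤ ε := by
      have := mul_le_mul_of_nonneg_left t.2.2 hε.le
      simpa using this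
    rw [mul_add] at hw
    have k1 : (⌊x / ε⌋ : ℝ) - (m : ℝ) ≤ (k : ℝ) := by exact_mod_cast hk.1
    have k2 : (k : ℝ) ≤ (⌊x / ε⌋ : ℝ) + (m : ℝ) := by exact_mod_cast hk.2
    have k1' := mul_le_mul_of_nonneg_left k1 hε.le
    have k2' := mul_le_mul_of_nonneg_left k2 hε.le
    rw [abs_le]
    constructor <;> nlinarith
  have hre : |(point ε ω k 0 - z).re| ≤ ε * (m + 1) := by
    rw [Complex.sub_re]
    exact aux z.re _ k.1 (ω.2 k 0 0) (point_re ε ω k 0) hk.1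
  have him : |(point ε ω k 0 - z).im| ≤ ε * (m + 1) := by
    rw [Complex.sub_im]
    exact aux z.im _ k.2 (ω.2 k 0 1) (point_im ε ω k 0) hk.2
  rw [Metric.mem_ball, dist_eq_norm]
  have := Complex.norm_le_abs_re_add_abs_im (point ε ω k 0 - z)
  linarith

/-- the points of a ball are in the cells of a box -/
lemma mem_pts' {ε : ℝ} {ω : Sample} {v y : ℂ} {d : ℝ} {m : ℕ} (hε : 0 < ε)
    (hv : v ∈ points ε ω) (h : ‖v - y‖ ≤ d) (hm : d / ε + 1 ≤ m) :
    v ∈ pts ε ω (nbr (cellOf ε y) m) := by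
  obtain ⟨⟨k1, k2, j⟩, hp, rfl⟩ := hv
  have hj : j < ω.1 (k1, k2) := hp
  refine Finset.mem_image.2 ⟨⟨(k1, k2), j⟩, ?_, rfl⟩
  rw [Finset.mem_sigma]
  refine ⟨?_, Finset.mem_range.2 hj⟩
  have hd : d + ε ≤ ε * m := by
    have := mul_le_mul_of_nonneg_left hm hε.le
    rw [mul_add, mul_one, mul_div_cancel₀ _ hε.ne'] at this
    linarith
  have aux : ∀ (x w : ℝ) (k : ℤ) (t : unitInterval), w = ε * ((k : ℝ) + (t : ℝ)) →
      |w - x| ≤ d → ⌊x / ε⌋ - (m : ℤ) ≤ k ∧ k ≤ ⌊x / ε⌋ + (m : ℤ) := by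
    intro x w k t hw hwx
    obtain ⟨h1, h2⟩ := floor_bounds (x := x) hε
    have t0 : 0 ≤ ε * (t : ℝ) := mul_nonneg hε.le t.2.1
    have t1 : ε * (t : ℝ) ≤ ε := by
      have := mul_le_mul_of_nonneg_left t.2.2 hε.le
      simpa using this
    rw [mul_add] at hw
    rw [abs_le] at hwx
    constructor
    · by_contra hc
      push Not at hc
      have hc' : (k : ℝ) + 1 ≤ (⌊x / ε⌋ : ℝ) - m := by exact_mod_cast hc
      have := mul_le_mul_of_nonneg_left hc' hε.le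
      rw [mul_sub] at this
      nlinarith
    · by_contra hc
      push Not at hc
      have hc' : (⌊x / ε⌋ : ℝ) + m + 1 ≤ (k : ℝ) := by exact_mod_cast hc
      have := mul_le_mul_of_nonneg_left hc' hε.le
      rw [mul_add, mul_add] at this
      nlinarith
  rw [mem_nbr]
  constructor
  · refine aux y.re (point ε ω (k1, k2) j).re k1 (ω.2 (k1, k2) j 0) (point_re ε ω (k1, k2) j) ?_
    rw [← Complex.sub_re]
    exact (Complex.abs_re_le_norm _).trans h
  · refine aux y.im (point ε ω (k1, k2) j).im k2 (ω.2 (k1, k2) j 1) (point_im ε ω (k1, k2) j) ?_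
    rw [← Complex.sub_im]
    exact (Complex.abs_im_le_norm _).trans h

lemma count_box {ε : ℝ} {ω : Sample} {z : ℂ} {r : ℝ} {m b : ℕ} (hε : 0 < ε)
    (hm : r / ε + 1 ≤ m) (h : ∑ k ∈ nbr (cellOf ε z) m, ω.1 k ≤ b) :
    (points ε ω ∩ Metric.ball z r).encard ≤ (b : ℕ∞) := by
  have hsub : points ε ω ∩ Metric.ball z r ⊆ (pts ε ω (nbr (cellOf ε z) m) : Set ℂ) := by
    rintro v ⟨hv, hvz⟩
    rw [Metric.mem_ball, dist_eq_norm] at hvz
    exact mem_pts' hε hv hvz.le hm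
  calc (points ε ω ∩ Metric.ball z r).encard
      ≤ (pts ε ω (nbr (cellOf ε z) m) : Set ℂ).encard := encard_le_encard hsub
    _ = ((pts ε ω (nbr (cellOf ε z) m)).card : ℕ∞) := encard_coe_eq_coe_finsetCard _
    _ ≤ (b : ℕ∞) := by exact_mod_cast (card_pts ε ω _).trans h

/-- size of the window -/
lemma window {R ε : ℝ} (h0 : 0 < ε) (h1 : ε ≤ 1) :
    ∃ L : ℕ, (∀ z ∈ Metric.closedBall (0 : ℂ) R, cellOf ε z ∈ nbr 0 L) ∧
      2 * (L : ℝ) + 1 ≤ (2 * |R| + 5) / ε := by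
  refine ⟨⌈|R| / ε + 1⌉₊, fun z hz => ?_, ?_⟩
  · rw [← cellOf_zero ε]
    refine cellOf_near (d := |R|) h0 ?_ (Nat.le_ceil _)
    rw [sub_zero]
    rw [Metric.mem_closedBall, dist_zero_right] at hz
    exact hz.trans (le_abs_self R)
  · have hL : (⌈|R| / ε + 1⌉₊ : ℝ) < |R| / ε + 1 + 1 := Nat.ceil_lt_add_one (by positivity)
    have h6 : (1 : ℝ) ≤ 1 / ε := by rw [le_div_iff₀ h0]; linarith
    have h7 : (2 * |R| + 5) / ε = 2 * (|R| / ε) + 5 * (1 / ε) := by ring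
    rw [h7]; linarith

/-- an event which is a union over the cells of the window -/
lemma union_bound {R ε A' p : ℝ} (h0 : 0 < ε) (h1 : ε ≤ 1) (E : Set Sample)
    (F : Cell → Set (Cell → ℕ)) (L : ℕ) (hL : 2 * (L : ℝ) + 1 ≤ (2 * |R| + 5) / ε)
    (hE : ∀ ω ∈ E, ∃ k ∈ nbr 0 L, ω.1 ∈ F k) (hF : ∀ k, mu (F k) ≤ ENNReal.ofReal p)
    (hp0 : 0 ≤ p) (hp : p ≤ ε ^ A' * ε ^ 3) (hR : ε * (2 * |R| + 5) ^ 2 ≤ 1) :
    sampleLaw E ≤ ENNReal.ofReal (ε ^ A') := by
  have hsub : E ⊆ {ω : Sample | ω.1 ∈ ⋃ k ∈ nbr 0 L, F k} := by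
    intro ω hω
    obtain ⟨k, hk, hk'⟩ := hE ω hω
    exact mem_iUnion₂.2 ⟨k, hk, hk'⟩
  have hE0 : 0 < ε ^ A' := Real.rpow_pos_of_pos h0 _
  calc sampleLaw E ≤ sampleLaw {ω : Sample | ω.1 ∈ ⋃ k ∈ nbr 0 L, F k} := measure_mono hsub
    _ = mu (⋃ k ∈ nbr 0 L, F k) := sampleLaw_fst _
    _ ≤ ∑ k ∈ nbr 0 L, mu (F k) := measure_biUnion_finset_le _ _
    _ ≤ ∑ k ∈ nbr 0 L, ENNReal.ofReal p := Finset.sum_le_sum fun k _ => hF k
    _ = ENNReal.ofReal ((2 * L + 1) ^ 2 * p) := by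
        rw [Finset.sum_const, card_nbr, nsmul_eq_mul, ← ENNReal.ofReal_natCast,
          ← ENNReal.ofReal_mul (by positivity)]
        push_cast
        rfl
    _ ≤ ENNReal.ofReal (ε ^ A') := by
        apply ENNReal.ofReal_le_ofReal
        calc (2 * (L : ℝ) + 1) ^ 2 * p ≤ ((2 * |R| + 5) / ε) ^ 2 * (ε ^ A' * ε ^ 3) := by gcongr
          _ = ε ^ A' * (ε * (2 * |R| + 5) ^ 2) := by field_simp
          _ ≤ ε ^ A' * 1 := by gcongr
          _ = ε ^ A' := mul_one _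

lemma exp_pow {ε A' : ℝ} (h0 : 0 < ε) :
    Real.exp (-((A' + 3) * Real.log (1 / ε))) = ε ^ A' * ε ^ 3 := by
  rw [← Real.rpow_natCast, ← Real.rpow_add h0, Real.rpow_def_of_pos h0, one_div, Real.log_inv]
  congr 1
  push_cast
  ring

lemma ev_small (c : ℝ) (hc : 0 < c) : ∀ᶠ ε : ℝ in 𝓝[>] 0, ε < c :=
  nhdsWithin_le_nhds (eventually_lt_nhds hc)

/-- **leaf M3c** -/
theorem m3c : M3c := by
  intro R A
  set A' := max A 1 with hA'
  have hA1 : 1 ≤ A' := le_max_right _ _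
  refine ⟨4 * (A' + 3), by positivity, ?_⟩
  have f1 : ∀ᶠ ε : ℝ in 𝓝[>] 0, 0 < ε := eventually_mem_nhdsWithin
  have f3 := tendsto_logInv.eventually_ge_atTop 1
  filter_upwards [f1, ev_small 1 one_pos, f3,
    ev_small (1 / (2 * |R| + 5) ^ 2) (by positivity)] with ε h0 h1 h3 h4
  have h1' : ε ≤ 1 := h1.le
  set l := Real.log (1 / ε) with hl
  set C := 4 * (A' + 3) with hC
  have hC16 : 16 ≤ C := by rw [hC]; linarith
  have hs1 : 1 ≤ √l := Real.one_le_sqrt.2 h3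
  have hs2 : √l ^ 2 = l := Real.sq_sqrt (by linarith)
  set m : ℕ := ⌊C * √l / 4⌋₊ with hm
  have hCs : 16 ≤ C * √l := by nlinarith
  have hm1 : (m : ℝ) ≤ C * √l / 4 := Nat.floor_le (by positivity)
  have hm2 : C * √l / 4 < m + 1 := Nat.lt_floor_add_one _
  obtain ⟨L, hL1, hL2⟩ := window (R := R) h0 h1'
  refine (union_bound (R := R) (A' := A') (p := Real.exp (-((2 * m + 1 : ℝ) ^ 2))) h0 h1' _
    (fun k => {N | ∀ k' ∈ nbr k m, N k' = 0}) L hL2 ?_ (fun k => (mu_box k m).le)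
    (Real.exp_pos _).le ?_ ?_).trans ?_
  · rintro ω ⟨z, hz, hempty⟩
    refine ⟨cellOf ε z, hL1 z hz, empty_box h0 ?_ hempty⟩
    have : rad C ε = ε * (C * √l) := by unfold rad; ring
    rw [this]
    have : 2 * ε * ((m : ℝ) + 1) = ε * (2 * (m + 1)) := by ring
    rw [this]
    exact mul_lt_mul_of_pos_left (by linarith) h0
  · rw [← exp_pow h0]
    apply Real.exp_le_exp.2
    apply neg_le_neg
    have h5 : C * √l / 4 ≤ 2 * m + 1 := by
      have : (0 : ℝ) ≤ m := by positivity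
      linarith
    calc (A' + 3) * l ≤ (A' + 3) ^ 2 * l := by
          have : A' + 3 ≤ (A' + 3) ^ 2 := by nlinarith
          gcongr
      _ = (C * √l / 4) ^ 2 := by rw [hC, div_pow, mul_pow, hs2]; ring
      _ ≤ (2 * m + 1) ^ 2 := by gcongr
  · have : ε * (2 * |R| + 5) ^ 2 ≤ 1 / (2 * |R| + 5) ^ 2 * (2 * |R| + 5) ^ 2 := by gcongr
    refine this.trans (le_of_eq ?_)
    rw [one_div, inv_mul_cancel₀ (by positivity)]
  · exact ENNReal.ofReal_le_ofReal
      (Real.rpow_le_rpow_of_exponent_ge h0 h1' (le_max_left _ _))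

/-- **leaf M3d** -/
theorem m3d : M3d := by
  intro R A C
  set A' := max A 1 with hA'
  have hA1 : 1 ≤ A' := le_max_right _ _
  set C' := max C 1 with hC'
  have hC1 : 1 ≤ C' := le_max_right _ _
  refine ⟨A' + 3 + 98 * C' ^ 2, by positivity, ?_⟩
  have f1 : ∀ᶠ ε : ℝ in 𝓝[>] 0, 0 < ε := eventually_mem_nhdsWithin
  have f3 := tendsto_logInv.eventually_ge_atTop 1
  filter_upwards [f1, ev_small 1 one_pos, f3,
    ev_small (1 / (2 * |R| + 5) ^ 2) (by positivity)] with ε h0 h1 h3 h4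
  have h1' : ε ≤ 1 := h1.le
  set l := Real.log (1 / ε) with hl
  have hs1 : 1 ≤ √l := Real.one_le_sqrt.2 h3
  have hs2 : √l ^ 2 = l := Real.sq_sqrt (by linarith)
  set K := A' + 3 + 98 * C' ^ 2 with hK
  set m : ℕ := ⌈C' * √l⌉₊ + 1 with hm
  have hm1 : C' * √l + 1 ≤ m := by
    rw [hm]; push_cast
    have := Nat.le_ceil (C' * √l)
    linarith
  have hm2 : (m : ℝ) ≤ C' * √l + 2 := by
    rw [hm]; push_cast
    have : (⌈C' * √l⌉₊ : ℝ) < C' * √l + 1 := Nat.ceil_lt_add_one (by positivity)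
    linarith
  set b : ℕ := ⌊K * l⌋₊ with hb
  have hb2 : K * l < b + 1 := Nat.lt_floor_add_one _
  have hCs : 1 ≤ C' * √l := by nlinarith
  obtain ⟨L, hL1, hL2⟩ := window (R := R) h0 h1'
  refine (union_bound (R := R) (A' := A')
    (p := Real.exp ((Real.exp 1 - 1) * (2 * m + 1) ^ 2 - (b + 1 : ℕ))) h0 h1' _
    (fun k => {N | b + 1 ≤ ∑ k' ∈ nbr k m, N k'}) L hL2 ?_ (fun k => mu_sum k m (b + 1))
    (Real.exp_pos _).le ?_ ?_).trans ?_
  · intro ω hω
    by_contra hc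
    push Not at hc
    apply hω
    intro z hz
    have h5 := hc (cellOf ε z) (hL1 z hz)
    have h6 : ∑ k' ∈ nbr (cellOf ε z) m, ω.1 k' ≤ b := by
      by_contra h7
      exact h5 (by simp only [Set.mem_ofPred_eq]; omega)
    refine count_box h0 ?_ h6
    have h7 : rad C ε / ε ≤ C' * √l := by
      unfold rad
      rw [div_le_iff₀ h0]
      have : C ≤ C' := le_max_left _ _
      calc C * ε * √l ≤ C' * ε * √l := by gcongr
        _ = C' * √l * ε := by ring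
    linarith
  · rw [← exp_pow h0]
    apply Real.exp_le_exp.2
    push_cast
    have he : Real.exp 1 - 1 ≤ 2 := by
      have := Real.exp_one_lt_d9
      linarith
    have h5 : (2 * m + 1 : ℝ) ≤ 7 * (C' * √l) := by linarith
    have h6 : (2 * m + 1 : ℝ) ^ 2 ≤ 49 * C' ^ 2 * l := by
      calc (2 * m + 1 : ℝ) ^ 2 ≤ (7 * (C' * √l)) ^ 2 := by gcongr
        _ = 49 * C' ^ 2 * l := by rw [mul_pow, mul_pow, hs2]; ring
    have h7 : (Real.exp 1 - 1) * (2 * m + 1 : ℝ) ^ 2 ≤ 2 * (49 * C' ^ 2 * l) := by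
      have h8 : 0 ≤ (2 * m + 1 : ℝ) ^ 2 := by positivity
      calc (Real.exp 1 - 1) * (2 * m + 1 : ℝ) ^ 2 ≤ 2 * (2 * m + 1 : ℝ) ^ 2 := by gcongr
        _ ≤ 2 * (49 * C' ^ 2 * l) := by gcongr
    have h9 : K * l = (A' + 3) * l + 98 * C' ^ 2 * l := by rw [hK]; ring
    linarith
  · have : ε * (2 * |R| + 5) ^ 2 ≤ 1 / (2 * |R| + 5) ^ 2 * (2 * |R| + 5) ^ 2 := by gcongr
    refine this.trans (le_of_eq ?_)
    rw [one_div, inv_mul_cancel₀ (by positivity)]
  · exact ENNReal.ofReal_le_ofReal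
      (Real.rpow_le_rpow_of_exponent_ge h0 h1' (le_max_left _ _))

end Crest.Agent.R143.PoisM3cx501
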