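import Crest.Agent.R143.B6I_903
import Crest.Agent.R143.PoisM3_930
import Crest.Agent.R143.PoisM3c_501

/-!
# Row 143, `MG` of `B6I_903` : the environment is good with probability `≥ 1 - ε ^ A` (helper501)
-/

set_option autoImplicit false

noncomputable section

namespace Crest.Agent.R143.MGx501

open MeasureTheory Set Filter Topology
open Crest.ProbabilityR.Voronoi
open Crest.Agent.R143.B0x346 Crest.Agent.R143.B0Dx346 Crest.Agent.R143.PP1x831
open Crest.Agent.R143.B6Ix903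
open scoped ENNReal NNReal

theorem mg : MG := by
  intro R A hR hA
  obtain ⟨C, hC, h3c⟩ := PoisM3cx501.m3c R (A + 1)
  obtain ⟨K, hK, h3d⟩ := PoisM3cx501.m3d R (A + 1) (2 * C)
  obtain ⟨a, ha, h4⟩ := PoisM4x501.m4
  obtain ⟨C4, hC4, h4⟩ := h4 R (A + 1)
  refine ⟨C, K, a, C4, hC, hK, ha, hC4, ?_⟩
  have f1 : ∀ᶠ ε : ℝ in 𝓝[>] 0, 0 < ε := eventually_mem_nhdsWithin
  have f3 := PoisM4x501.tendsto_logInv.eventually_ge_atTop 1
  unfold MP
  filter_upwards [f1, PoisM3cx501.ev_small (1 / 3) (by norm_num), f3, h3c, h3d, h4] with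
    ε h0 h1 h2 g1 g2 g3
  have hlog : 0 < Real.log (1 / ε) := by linarith
  have hrad : 0 < rad C ε := by unfold rad; positivity
  have hrad2 : rad (2 * C) ε = 2 * rad C ε := by unfold rad; ring
  have h3a : sampleLaw {ω | ¬ (GP (points ε ω) ∧
      ∀ r : ℝ, (points ε ω ∩ Metric.closedBall 0 r).Finite)} = 0 := by
    have h := PoisM3x930.m3a ε h0
    have h' : ∀ᵐ ω ∂sampleLaw, GP (points ε ω) ∧
        ∀ r : ℝ, (points ε ω ∩ Metric.closedBall 0 r).Finite := by
      filter_upwards [h] with ω hω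
      exact ⟨hω.1, hω.2.2⟩
    exact ae_iff.1 h'
  have hsub : {ω : Sample | ¬ GoodB R ε C K a C4 ω} ⊆
      ({ω | ¬ (GP (points ε ω) ∧ ∀ r : ℝ, (points ε ω ∩ Metric.closedBall 0 r).Finite)} ∪
      {ω | ∃ z ∈ Metric.closedBall (0 : ℂ) R, points ε ω ∩ Metric.ball z (rad C ε) = ∅}) ∪
      ({ω | ¬ ∀ z ∈ Metric.closedBall (0 : ℂ) R,
        (points ε ω ∩ Metric.ball z (rad (2 * C) ε)).encard ≤
          ((⌊K * Real.log (1 / ε)⌋₊ : ℕ) : ℕ∞)} ∪
      {ω | ¬ ∀ z ∈ Metric.closedBall (0 : ℂ) R, ∀ ρ : ℝ,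
        ε * Real.log (1 / ε) ^ a ≤ ρ → ρ ≤ 1 →
        diamSum (points ε ω) (Metric.ball z ρ) ≤ ENNReal.ofReal (C4 * ρ ^ 2)}) := by
    intro ω hω
    by_contra hc
    simp only [mem_union, not_or, Set.mem_ofPred_eq, not_not] at hc
    obtain ⟨⟨⟨c1, c2⟩, c3⟩, c4, c5⟩ := hc
    apply hω
    refine ⟨⟨c2 R, c1, ?_, ?_⟩, c5⟩
    · intro z hz
      rw [nonempty_iff_ne_empty]
      intro hempty
      apply c3
      refine ⟨z, ?_, hempty⟩
      rw [Metric.mem_closedBall] at hz ⊢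
      linarith
    · intro z hz
      have hle := c4 z hz
      have hsub2 : points ε ω ∩ Metric.closedBall z (rad C ε) ⊆
          points ε ω ∩ Metric.ball z (rad (2 * C) ε) := by
        refine inter_subset_inter_right _ (Metric.closedBall_subset_ball ?_)
        rw [hrad2]; linarith
      have hle2 : (points ε ω ∩ Metric.closedBall z (rad C ε)).encard ≤
          ((⌊K * Real.log (1 / ε)⌋₊ : ℕ) : ℕ∞) := (encard_le_encard hsub2).trans hle
      have hle3 : (points ε ω ∩ Metric.closedBall z (rad C ε)).ncard ≤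
          ⌊K * Real.log (1 / ε)⌋₊ := ENat.toNat_le_of_le_natCast hle2
      calc ((points ε ω ∩ Metric.closedBall z (rad C ε)).ncard : ℝ)
          ≤ (⌊K * Real.log (1 / ε)⌋₊ : ℝ) := by exact_mod_cast hle3
        _ ≤ K * Real.log (1 / ε) := Nat.floor_le (by positivity)
  have hE : 0 ≤ ε ^ (A + 1) := (Real.rpow_pos_of_pos h0 _).le
  calc sampleLaw {ω : Sample | ¬ GoodB R ε C K a C4 ω}
      ≤ (sampleLaw {ω | ¬ (GP (points ε ω) ∧
          ∀ r : ℝ, (points ε ω ∩ Metric.closedBall 0 r).Finite)} +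
        sampleLaw {ω | ∃ z ∈ Metric.closedBall (0 : ℂ) R,
          points ε ω ∩ Metric.ball z (rad C ε) = ∅}) +
        (sampleLaw {ω | ¬ ∀ z ∈ Metric.closedBall (0 : ℂ) R,
          (points ε ω ∩ Metric.ball z (rad (2 * C) ε)).encard ≤
            ((⌊K * Real.log (1 / ε)⌋₊ : ℕ) : ℕ∞)} +
        sampleLaw {ω | ¬ ∀ z ∈ Metric.closedBall (0 : ℂ) R, ∀ ρ : ℝ,
          ε * Real.log (1 / ε) ^ a ≤ ρ → ρ ≤ 1 →
          diamSum (points ε ω) (Metric.ball z ρ) ≤ ENNReal.ofReal (C4 * ρ ^ 2)}) :=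
        (measure_mono hsub).trans ((measure_union_le _ _).trans
          (add_le_add (measure_union_le _ _) (measure_union_le _ _)))
    _ ≤ (0 + ENNReal.ofReal (ε ^ (A + 1))) +
        (ENNReal.ofReal (ε ^ (A + 1)) + ENNReal.ofReal (ε ^ (A + 1))) := by
        gcongr
        exact h3a.le
    _ = ENNReal.ofReal (3 * ε ^ (A + 1)) := by
        rw [zero_add, ← ENNReal.ofReal_add hE hE, ← ENNReal.ofReal_add hE (by positivity)]
        congr 1
        ring
    _ ≤ ENNReal.ofReal (ε ^ A) := by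
        apply ENNReal.ofReal_le_ofReal
        rw [Real.rpow_add h0, Real.rpow_one]
        have hE' : 0 < ε ^ A := Real.rpow_pos_of_pos h0 _
        nlinarith

end Crest.Agent.R143.MGx501
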