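import Crest.Agent.R143.DicC_831
import Crest.Agent.R143.Spine_422
import Crest.Agent.R143.B6a_654
import Crest.Agent.R143.B6b_903
import Crest.Agent.R143.MG_501
import Crest.Agent.R143.Ad_422

/-!
# Row 143 (S0194), dichotomy without part A, 4 (helper831): the end of the core

* `Yb`, `Yd` : `∑ Q e φ(cc)` and `∑ Q conj(e) φ(cc)` over the oriented triangles of `D.netS`
* `ynear` : in a good environment `Sb r (D.h ε ω) z = - (I/2) Yb + o(1)`, `Db .. = (I/2) Yd + o(1)`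
* `YW` : **leaf**: for every `ε` one of the two sums is small in probability
* `lmin_of_yw` : `YW → LMinW` (the text of `LMinW` of Spine7_422)
-/

set_option autoImplicit false

noncomputable section

open scoped Classical

namespace Crest.Agent.R143.DicDx831

open Complex Set Filter Topology MeasureTheory
open scoped ENNReal
open Crest.ProbabilityR.Voronoi
open Crest.Agent.R143.B0x346 Crest.Agent.R143.B0Dx346 Crest.Agent.R143.PP1x831
open Crest.Agent.R143.BC0x336 Crest.Agent.R143.Mollx887 Crest.Agent.R143.EndBx336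
open Crest.Agent.R143.Asmx336
open Crest.Agent.R143.Y0x831 (Good)
open Crest.Agent.R143.B1bx796 (touch Stk phi seg sum_touch Sb_net Sd_net Sd norm_I_half)
open Crest.Agent.R143.Locx922
open Crest.Agent.R143.Spinex422 (Room Linked GoodFam HG norm_h_le bm_HG)
open Crest.Agent.R143.B6Ix903 (net GoodB MP)
open Crest.Agent.R143.DicBx831 Crest.Agent.R143.DicCx831

/-- `∑ Q e φ(cc)` -/
def Yb (D : Dom) (ε : ℝ) (ω : Sample) (φ : ℂ → ℝ) : ℂ :=
  ∑ t ∈ delT (D.sites ε ω), (net D ε ω).Q t * ((t.2.1 - t.1) * (φ (cc t) : ℂ))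

/-- `∑ Q conj(e) φ(cc)` -/
def Yd (D : Dom) (ε : ℝ) (ω : Sample) (φ : ℂ → ℝ) : ℂ :=
  ∑ t ∈ delT (D.sites ε ω), (net D ε ω).Q t *
    ((starRingEnd ℂ) (t.2.1 - t.1) * (φ (cc t) : ℂ))

/-- the test function of the mollifier (= `Spinex422.tst`) -/
def tst (r : ℝ) (z : ℂ) (w : ℂ) : ℝ := ker r (w - z)

/-- the ball of radius `R` is far from the boundary of the disc -/
theorem room_norm {D : Dom} {R : ℝ} {z : ℂ} (h : Room D R z) (hR : 0 ≤ R) :
    ‖z - D.c‖ + R ≤ D.L / 2 := by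
  have h1 := h.2
  obtain ⟨u, hu, huz⟩ : ∃ u : ℂ, ‖u‖ = 1 ∧ z - D.c = (‖z - D.c‖ : ℂ) * u := by
    by_cases hz : z - D.c = 0
    · exact ⟨1, by simp, by rw [hz]; simp⟩
    · refine ⟨(z - D.c) / (‖z - D.c‖ : ℂ), ?_, ?_⟩
      · rw [norm_div, Complex.norm_real, norm_norm, div_self (norm_ne_zero_iff.2 hz)]
      · have : (‖z - D.c‖ : ℂ) ≠ 0 := by exact_mod_cast (norm_ne_zero_iff.2 hz)
        field_simp
  have h2 : z + (R : ℂ) * u ∈ Metric.closedBall z R := by
    rw [Metric.mem_closedBall, dist_eq_norm, add_sub_cancel_left, norm_mul, hu, mul_one,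
      Complex.norm_real, Real.norm_eq_abs, abs_of_nonneg hR]
  have h3 := h1 h2
  rw [Metric.mem_closedBall, dist_eq_norm] at h3
  have h4 : z + (R : ℂ) * u - D.c = ((‖z - D.c‖ + R : ℝ) : ℂ) * u := by
    calc z + (R : ℂ) * u - D.c = (z - D.c) + (R : ℂ) * u := by ring
      _ = (‖z - D.c‖ : ℂ) * u + (R : ℂ) * u := by rw [← huz]
      _ = _ := by push_cast; ring
  rw [h4, norm_mul, hu, mul_one, Complex.norm_real, Real.norm_eq_abs,
    abs_of_nonneg (by positivity)] at h3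
  exact h3

/-- a good environment gives a network -/
theorem hnet_ev {D : Dom} {δ C : ℝ} (hD : D.W δ) (hC : 0 < C) :
    ∀ᶠ ε : ℝ in 𝓝[>] 0, ∀ (K a C4 : ℝ) (ω : Sample), Good D ε C K a C4 ω →
      HNet (D.sites ε ω) (net D ε ω) := by
  have hδ := hD.dpos
  have hL := hD.Lpos
  filter_upwards [(rad_small C).eventually
    (ge_mem_nhds (show (0 : ℝ) < δ ^ 6 / (40000 * D.L ^ 5) by positivity))] with ε h K a C4 ω hω
  refine Adx422.d1 hD hω.env ?_
  rw [le_div_iff₀ (by positivity)] at h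
  linarith

/-- **the observable near a point** -/
theorem ynear {D : Dom} {δ C K a C4 : ℝ} (hD : D.W δ) (hC : 0 < C) (hC4 : 0 ≤ C4) {r : ℝ}
    (hr : 0 < r) {z : ℂ} (hz : Room D (4 * r) z) : ∃ X : ℝ → ℝ, Tendsto X (𝓝[>] 0) (𝓝 0) ∧
      ∀ᶠ ε : ℝ in 𝓝[>] 0, ∀ ω : Sample, Good D ε C K a C4 ω →
        ‖Sb r (D.h ε ω) z + (I / 2) * Yb D ε ω (tst r z)‖ ≤ X ε ∧
        ‖Db r (D.h ε ω) z - (I / 2) * Yd D ε ω (tst r z)‖ ≤ X ε := by
  have h1 := room_norm hz (by linarith)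
  have h7 : 0 ≤ ‖z - D.c‖ := norm_nonneg _
  have hL0 := hD.Lpos
  obtain ⟨V, hV0, hV⟩ := sq_bound (z₀ := z) (D := D) (K := K) (a := a) hC hC4
    (R := 2 * r) (by linarith)
  obtain ⟨L, hL, hLip⟩ := phi_lip hr z
  refine ⟨fun ε => L * (4 * rad C ε) * (2 * Real.sqrt V), ?_, ?_⟩
  · have h2 := (((rad_small C).const_mul 4).const_mul L).mul_const (2 * Real.sqrt V)
    simpa using h2
  · filter_upwards [ev_unit, hV, hnet_ev hD hC, (rad_small C).eventually
      (ge_mem_nhds (show (0 : ℝ) < r / 4 by linarith))] with ε e1 e2 e3 e4 ω hω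
    have hrad := rad_pos hC e1
    have hN := e3 K a C4 ω hω
    have hH : Hol (D.sites ε ω : Set ℂ) (Metric.closedBall z (2 * r)) (rad C ε) := by
      refine (Env.hol_sites hω.env).mono (Metric.closedBall_subset_closedBall' ?_)
      rw [dist_eq_norm]
      linarith
    have hS : Stk (D.sites ε ω) (net D ε ω) r z := by
      refine B1hx991.stk_env hrad hr hω.env hN (by linarith) fun w hw hwo => ?_
      refine Set.disjoint_left.1 hz.1 ?_ hwo
      rw [Metric.mem_closedBall, dist_eq_norm]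
      linarith
    have key := fun (w : ℂ × ℂ × ℂ → ℂ) (hw : ∀ t, ‖w t‖ ≤ ‖t.2.1 - t.1‖) =>
      approx hN hrad hr (by linarith) hH hL hLip w hw (e2 ω hω)
    have hphi : ∀ w, phi r z w = ((tst r z w : ℝ) : ℂ) := fun w => rfl
    simp only [hphi] at key
    constructor
    · have h2 : Sb r (D.h ε ω) z = -(I / 2) * ∑ t ∈ delT (D.sites ε ω),
          (net D ε ω).Q t * (t.2.1 - t.1) * seg (phi r z) t.1 t.2.1 := by
        rw [sum_touch hr fun t => (net D ε ω).Q t * (t.2.1 - t.1)]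
        exact Sb_net hr hS
      have h3 := key (fun t => t.2.1 - t.1) fun _ => le_rfl
      have h4 : Sb r (D.h ε ω) z + (I / 2) * Yb D ε ω (tst r z) =
          -(I / 2) * (∑ t ∈ delT (D.sites ε ω),
            (net D ε ω).Q t * (t.2.1 - t.1) * seg (phi r z) t.1 t.2.1 -
            ∑ t ∈ delT (D.sites ε ω), (net D ε ω).Q t * ((t.2.1 - t.1) * (tst r z (cc t) : ℂ))) := by
        rw [h2]
        unfold Yb
        ring
      rw [h4, norm_mul, norm_neg, norm_I_half]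
      have h5 := norm_nonneg (∑ t ∈ delT (D.sites ε ω),
            (net D ε ω).Q t * (t.2.1 - t.1) * seg (phi r z) t.1 t.2.1 -
            ∑ t ∈ delT (D.sites ε ω), (net D ε ω).Q t * ((t.2.1 - t.1) * (tst r z (cc t) : ℂ)))
      linarith
    · have h2 : Db r (D.h ε ω) z = (I / 2) * ∑ t ∈ delT (D.sites ε ω),
          (net D ε ω).Q t * (starRingEnd ℂ) (t.2.1 - t.1) * seg (phi r z) t.1 t.2.1 := by
        rw [← B6bx903.Sd_Db, sum_touch hr fun t => (net D ε ω).Q t * (starRingEnd ℂ) (t.2.1 - t.1)]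
        exact Sd_net hr hS
      have h3 := key (fun t => (starRingEnd ℂ) (t.2.1 - t.1)) fun t => by
        rw [Complex.norm_conj]
      have h4 : Db r (D.h ε ω) z - (I / 2) * Yd D ε ω (tst r z) =
          (I / 2) * (∑ t ∈ delT (D.sites ε ω),
            (net D ε ω).Q t * (starRingEnd ℂ) (t.2.1 - t.1) * seg (phi r z) t.1 t.2.1 -
            ∑ t ∈ delT (D.sites ε ω), (net D ε ω).Q t *
              ((starRingEnd ℂ) (t.2.1 - t.1) * (tst r z (cc t) : ℂ))) := by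
        rw [h2]
        unfold Yd
        ring
      rw [h4, norm_mul, norm_I_half]
      have h5 := norm_nonneg (∑ t ∈ delT (D.sites ε ω),
            (net D ε ω).Q t * (starRingEnd ℂ) (t.2.1 - t.1) * seg (phi r z) t.1 t.2.1 -
            ∑ t ∈ delT (D.sites ε ω), (net D ε ω).Q t *
              ((starRingEnd ℂ) (t.2.1 - t.1) * (tst r z (cc t) : ℂ)))
      linarith

/-! ### integration over the environment -/

theorem int_le {Ω : Type*} [MeasurableSpace Ω] (μ : Measure Ω) [IsProbabilityMeasure μ]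
    {G Bad : Set Ω} {f : Ω → ℂ} {c B β : ℝ} (hc : 0 ≤ c) (hB : 0 ≤ B) (hβ : 0 ≤ β)
    (h1 : ∀ ω, ‖f ω‖ ≤ B) (h2 : ∀ ω, ω ∉ Bad → ‖f ω‖ ≤ c) (h3 : μ Bad ≤ ENNReal.ofReal β) :
    ‖∫ ω in G, f ω ∂μ‖ ≤ c + B * β := by
  have h4 : ∀ ω, ‖f ω‖ₑ ≤ ENNReal.ofReal c +
      (toMeasurable μ Bad).indicator (fun _ => ENNReal.ofReal B) ω := by
    intro ω
    rw [← ofReal_norm_eq_enorm]
    by_cases hω : ω ∈ toMeasurable μ Bad
    · rw [indicator_of_mem hω]
      exact (ENNReal.ofReal_le_ofReal (h1 ω)).trans le_add_self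
    · rw [indicator_of_notMem hω, add_zero]
      exact ENNReal.ofReal_le_ofReal (h2 ω fun h => hω (subset_toMeasurable μ Bad h))
  have h5 : ∫⁻ ω in G, ‖f ω‖ₑ ∂μ ≤ ENNReal.ofReal (c + B * β) := by
    calc ∫⁻ ω in G, ‖f ω‖ₑ ∂μ ≤ ∫⁻ ω, ‖f ω‖ₑ ∂μ :=
          lintegral_mono' Measure.restrict_le_self le_rfl
      _ ≤ ∫⁻ ω, (ENNReal.ofReal c +
          (toMeasurable μ Bad).indicator (fun _ => ENNReal.ofReal B) ω) ∂μ := lintegral_mono h4
      _ = ENNReal.ofReal c + ENNReal.ofReal B * μ Bad := by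
          rw [lintegral_add_left measurable_const, lintegral_const, measure_univ, mul_one,
            lintegral_indicator (measurableSet_toMeasurable μ Bad), lintegral_const,
            Measure.restrict_apply_univ, measure_toMeasurable]
      _ ≤ ENNReal.ofReal c + ENNReal.ofReal B * ENNReal.ofReal β := by gcongr
      _ = _ := by rw [← ENNReal.ofReal_mul hB, ← ENNReal.ofReal_add hc (by positivity)]
  exact ENNReal.toReal_le_of_le_ofReal (by positivity)
    ((enorm_integral_le_lintegral_enorm _).trans h5) |> fun h => by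
      simpa [toReal_enorm] using h

/-! ### the leaf -/

/-- **leaf YW**: for every `ε`, one of the two sums is small in probability -/
def YW (Adm : Dom → ℝ → Prop) : Prop := ∀ (D : Dom) (δ : ℝ), Adm D δ → ∀ m > 0,
  ∀ r > 0, ∀ z : ℂ, Room D (4 * r) z → Linked D m z →
  ∀ r' > 0, ∀ z' : ℂ, Room D (4 * r') z' → Linked D m z' → ∀ η > 0, ∀ᶠ ε : ℝ in 𝓝[>] 0,
    sampleLaw {ω | η < ‖Yb D ε ω (tst r z)‖} ≤ ENNReal.ofReal η ∨
    sampleLaw {ω | η < ‖Yd D ε ω (tst r' z')‖} ≤ ENNReal.ofReal η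

/-- the text of the leaf `LMinW` of `Spine7_422` -/
def LMinW (Adm : Dom → ℝ → Prop) : Prop := ∀ (D : Dom) (δ : ℝ), Adm D δ →
  ∀ G : ℝ → Set Sample, GoodFam D G → ∀ m > 0,
  ∀ r > 0, ∀ z : ℂ, Room D (4 * r) z → Linked D m z →
  ∀ r' > 0, ∀ z' : ℂ, Room D (4 * r') z' → Linked D m z' →
    Tendsto (fun ε : ℝ => min ‖Sb r (HG D G ε) z‖ ‖Sb r' (cj (HG D G ε)) z'‖) (𝓝[>] 0) (𝓝 0)

/-- environments of a fixed domain -/
theorem good_ev (D : Dom) (hL : 0 < D.L) : ∃ C K a C4 : ℝ, 0 < C ∧ 0 < K ∧ 0 < a ∧ 0 < C4 ∧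
    ∀ᶠ ε : ℝ in 𝓝[>] 0, sampleLaw {ω | ¬ Good D ε C K a C4 ω} ≤ ENNReal.ofReal ε := by
  obtain ⟨C, K, a, C4, hC, hK, ha, hC4, hMP⟩ := MGx501.mg (‖D.c‖ + D.L) 30
    (by positivity) (by norm_num)
  refine ⟨C, K, a, C4, hC, hK, ha, hC4, ?_⟩
  unfold B6Ix903.MP at hMP
  filter_upwards [hMP, ev_unit] with ε h1 h2
  have hsub : {ω | ¬ Good D ε C K a C4 ω} ⊆ {ω | ¬ GoodB (‖D.c‖ + D.L) ε C K a C4 ω} := by
    intro ω hω h
    refine hω ?_
    have h3 : ∀ s : ℝ, Metric.closedBall D.c (D.L - s) ⊆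
        Metric.closedBall (0 : ℂ) (‖D.c‖ + D.L - s) := by
      intro s
      refine Metric.closedBall_subset_closedBall' ?_
      rw [dist_zero_right]
      linarith
    have h0 : Metric.closedBall D.c D.L ⊆ Metric.closedBall (0 : ℂ) (‖D.c‖ + D.L) := by
      refine Metric.closedBall_subset_closedBall' ?_
      rw [dist_zero_right]
      linarith
    exact ⟨⟨h.env.fin.subset (inter_subset_inter_right _ h0), h.env.gp,
      fun z hz => h.env.hole z (h3 _ hz), fun z hz => h.env.cnt z (h0 hz)⟩,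
      fun z hz => h.diam z (h0 hz)⟩
  refine (measure_mono hsub).trans (h1.trans (ENNReal.ofReal_le_ofReal ?_))
  have h4 := Real.rpow_le_rpow_of_exponent_ge h2.1 h2.2.le (show (1 : ℝ) ≤ 30 by norm_num)
  rwa [Real.rpow_one] at h4

theorem half_I (y : ℂ) : ‖(I / 2) * y‖ = ‖y‖ / 2 := by
  rw [norm_mul, norm_I_half]; ring

/-- **the core leaf from `YW`** -/
theorem lmin_of_yw {Adm : Dom → ℝ → Prop} (hAdm : ∀ D δ, Adm D δ → D.W δ) (h : YW Adm) :
    LMinW Adm := by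
  intro D δ hD G hG m hm r hr z hz hl r' hr' z' hz' hl'
  have hOK := hAdm D δ hD
  obtain ⟨C, K, a, C4, hC, hK, ha, hC4, hgood⟩ := good_ev D hOK.Lpos
  obtain ⟨X, hX, hX1⟩ := ynear (K := K) (a := a) hOK hC hC4.le hr hz
  obtain ⟨X', hX', hX1'⟩ := ynear (K := K) (a := a) hOK hC hC4.le hr' hz'
  rw [Metric.tendsto_nhds]
  intro e he
  obtain ⟨B, hB0, hB1, hB2⟩ : ∃ B : ℝ, 0 ≤ B ∧ (∀ ε ω, ‖Sb r (D.h ε ω) z‖ ≤ B) ∧
      ∀ ε ω, ‖Db r' (D.h ε ω) z'‖ ≤ B := by
    refine ⟨max (CS / r * 3) (CS / r' * 3), ?_, fun ε ω => ?_, fun ε ω => ?_⟩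
    · refine le_trans (norm_nonneg (Sb r (D.h 1 (Classical.arbitrary _)) z)) ?_
      exact (B6x654.Sb_le (B6bx903.hval_BM _) hr z).trans (le_max_left _ _)
    · exact (B6x654.Sb_le (B6bx903.hval_BM _) hr z).trans (le_max_left _ _)
    · exact (B6x654.Db_le (B6bx903.hval_BM _) hr' z').trans (le_max_right _ _)
  set η : ℝ := e / (4 * (1 + B)) with hη
  have hη0 : 0 < η := by positivity
  have hηe : η * (4 * (1 + B)) = e := by
    rw [hη]; field_simp
  filter_upwards [hX1, hX1', hgood, h D δ hD m hm r hr z hz hl r' hr' z' hz' hl' η hη0,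
    hX.eventually (ge_mem_nhds hη0), hX'.eventually (ge_mem_nhds hη0), hG.hm2, ev_unit,
    (tendsto_id.mono_left nhdsWithin_le_nhds : Tendsto (fun ε : ℝ => ε) (𝓝[>] 0) (𝓝 0)).eventually
      (ge_mem_nhds hη0)] with ε e1 e1' e2 e3 e4 e4' e5 e6 e7
  have hs : Sb r (HG D G ε) z = ∫ ω in G ε, Sb r (D.h ε ω) z ∂sampleLaw :=
    (Sb_integral (sampleLaw.restrict (G ε)) e5 (fun ω z => norm_h_le D ε ω z) hr z).symm
  have hd : Db r' (HG D G ε) z' = ∫ ω in G ε, Db r' (D.h ε ω) z' ∂sampleLaw :=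
    (Db_integral (sampleLaw.restrict (G ε)) e5 (fun ω z => norm_h_le D ε ω z) hr' z').symm
  have hcjn : ‖Sb r' (cj (HG D G ε)) z'‖ = ‖Db r' (HG D G ε) z'‖ := by
    unfold Asmx336.Db
    rw [Complex.norm_conj]
  have hfin : (η + η / 2) + B * (η + η) < e := by
    rw [← hηe]
    nlinarith
  have hbad : ∀ {P : Set Sample}, sampleLaw P ≤ ENNReal.ofReal η →
      sampleLaw ({ω | ¬ Good D ε C K a C4 ω} ∪ P) ≤ ENNReal.ofReal (η + η) := by
    intro P hP
    refine (measure_union_le _ _).trans ?_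
    rw [ENNReal.ofReal_add hη0.le hη0.le]
    exact add_le_add (e2.trans (ENNReal.ofReal_le_ofReal e7)) hP
  have hmin : 0 ≤ min ‖Sb r (HG D G ε) z‖ ‖Sb r' (cj (HG D G ε)) z'‖ :=
    le_min (norm_nonneg _) (norm_nonneg _)
  rw [Real.dist_eq, sub_zero, abs_of_nonneg hmin]
  rcases e3 with e3 | e3
  · refine (min_le_left _ _).trans_lt (lt_of_le_of_lt ?_ hfin)
    rw [hs]
    refine int_le sampleLaw (by positivity) hB0 (by positivity) (hB1 ε) (fun ω hω => ?_) (hbad e3)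
    rw [mem_union, not_or] at hω
    have g1 : Good D ε C K a C4 ω := not_not.1 hω.1
    have g2 : ‖Yb D ε ω (tst r z)‖ ≤ η := not_lt.1 hω.2
    have g3 := (e1 ω g1).1
    have g4 : Sb r (D.h ε ω) z = (Sb r (D.h ε ω) z + (I / 2) * Yb D ε ω (tst r z)) -
        (I / 2) * Yb D ε ω (tst r z) := by ring
    rw [g4]
    refine (norm_sub_le _ _).trans ?_
    rw [half_I]
    linarith
  · refine (min_le_right _ _).trans_lt (lt_of_le_of_lt ?_ hfin)
    rw [hcjn, hd]
    refine int_le sampleLaw (by positivity) hB0 (by positivity) (hB2 ε) (fun ω hω => ?_) (hbad e3)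
    rw [mem_union, not_or] at hω
    have g1 : Good D ε C K a C4 ω := not_not.1 hω.1
    have g2 : ‖Yd D ε ω (tst r' z')‖ ≤ η := not_lt.1 hω.2
    have g3 := (e1' ω g1).2
    have g4 : Db r' (D.h ε ω) z' = (Db r' (D.h ε ω) z' - (I / 2) * Yd D ε ω (tst r' z')) +
        (I / 2) * Yd D ε ω (tst r' z') := by ring
    rw [g4]
    refine (norm_add_le _ _).trans ?_
    rw [half_I]
    linarith

end Crest.Agent.R143.DicDx831
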