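import Crest.Agent.R143.Circ_63

/-!
# Row 143 (S0194), block EQ, part 2: a good radius (helper63)

* `lo x t`, `hi x t` : smallest / largest distance to `x` on the closed triangle `t`
* `dm t` : the longest side of `t`
* `hull_cT` : the closed triangle is in the convex hull of its vertices
* `good_radius` : a radius `ρ` in one of the dyadic intervals, not the distance of a site, such that
  `F` has small oscillation on every connected part of the triangles meeting the circle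
-/

set_option autoImplicit false

noncomputable section

namespace Crest.Agent.R143.Scalx63

open Set MeasureTheory
open scoped Classical
open Crest.Agent.R143.B0x346 Crest.Agent.R143.Oscx63 Crest.Agent.R143.DelGx806
open Crest.Agent.R143.Circx63

/-- smallest distance to `x` -/
def lo (x : ℂ) (t : ℂ × ℂ × ℂ) : ℝ := Metric.infDist x (cT t)

/-- largest distance to `x` -/
def hi (x : ℂ) (t : ℂ × ℂ × ℂ) : ℝ := max (max ‖t.1 - x‖ ‖t.2.1 - x‖) ‖t.2.2 - x‖

/-- longest side -/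
def dm (t : ℂ × ℂ × ℂ) : ℝ := max (max ‖t.1 - t.2.1‖ ‖t.2.1 - t.2.2‖) ‖t.2.2 - t.1‖

theorem hull_cT {a b c x : ℂ} (hp : 0 < cr (b - a) (c - a)) (hx : x ∈ cT (a, b, c)) :
    ∃ p q r : ℝ, 0 ≤ p ∧ 0 ≤ q ∧ 0 ≤ r ∧ p + q + r = 1 ∧ x = p * a + q * b + r * c := by
  obtain ⟨h1, h2, h3⟩ := hx
  have ht := cr_total a b c x
  set T := cr (b - a) (c - a) with hT
  have e1 := bary a b c x 0 1 0
  have e2 := bary a b c x 0 0 1
  rw [← hT] at e1 e2
  refine ⟨cr (c - b) (x - b) / T, cr (a - c) (x - c) / T, cr (b - a) (x - a) / T,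
    div_nonneg h2 hp.le, div_nonneg h3 hp.le, div_nonneg h1 hp.le, ?_, ?_⟩
  · rw [← add_div, ← add_div, ← ht, div_self hp.ne']
  · apply Complex.ext
    · simp only [Complex.add_re, Complex.mul_re, Complex.ofReal_re, Complex.ofReal_im, zero_mul,
        sub_zero]
      field_simp
      linarith
    · simp only [Complex.add_im, Complex.mul_im, Complex.ofReal_re, Complex.ofReal_im, zero_mul,
        add_zero]
      field_simp
      linarith

/-- convex functions of the point: the distance to `y` -/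
theorem norm_le_of_cT {a b c x y : ℂ} {M : ℝ} (hp : 0 < cr (b - a) (c - a))
    (hx : x ∈ cT (a, b, c)) (ha : ‖a - y‖ ≤ M) (hb : ‖b - y‖ ≤ M) (hc : ‖c - y‖ ≤ M) :
    ‖x - y‖ ≤ M := by
  obtain ⟨p, q, r, hp0, hq0, hr0, hs, rfl⟩ := hull_cT hp hx
  have e : (p : ℂ) * a + q * b + r * c - y = p * (a - y) + q * (b - y) + r * (c - y) := by
    have : (p : ℂ) + q + r = 1 := by exact_mod_cast hs
    linear_combination y * this
  rw [e]
  calc ‖(p : ℂ) * (a - y) + q * (b - y) + r * (c - y)‖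
      ≤ ‖(p : ℂ) * (a - y)‖ + ‖(q : ℂ) * (b - y)‖ + ‖(r : ℂ) * (c - y)‖ := norm_add₃_le
    _ = p * ‖a - y‖ + q * ‖b - y‖ + r * ‖c - y‖ := by
        rw [norm_mul, norm_mul, norm_mul, Complex.norm_of_nonneg hp0, Complex.norm_of_nonneg hq0,
          Complex.norm_of_nonneg hr0]
    _ ≤ p * M + q * M + r * M := by gcongr
    _ = M := by rw [← add_mul, ← add_mul, hs, one_mul]

theorem vertex_mem {a b c : ℂ} (hp : 0 < cr (b - a) (c - a)) :
    a ∈ cT (a, b, c) ∧ b ∈ cT (a, b, c) ∧ c ∈ cT (a, b, c) := by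
  refine ⟨seg_sub_cT hp (left_mem_segment ℝ a b), seg_sub_cT hp (right_mem_segment ℝ a b), ?_⟩
  have hp' : 0 < cr (c - b) (a - b) := by rw [← cr_rot]; exact hp
  have := seg_sub_cT hp' (right_mem_segment ℝ b c)
  exact InT.rot (InT.rot this)

section

variable {a b c x : ℂ}

theorem le_hi (hp : 0 < cr (b - a) (c - a)) {y : ℂ} (hy : y ∈ cT (a, b, c)) :
    ‖y - x‖ ≤ hi x (a, b, c) :=
  norm_le_of_cT hp hy ((le_max_left _ _).trans (le_max_left _ _))
    ((le_max_right _ _).trans (le_max_left _ _)) (le_max_right _ _)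

theorem lo_le {t : ℂ × ℂ × ℂ} {y : ℂ} (hy : y ∈ cT t) : lo x t ≤ ‖y - x‖ := by
  unfold lo
  have := Metric.infDist_le_dist_of_mem (x := x) hy
  rwa [dist_comm, dist_eq_norm] at this

theorem hi_le_add (hp : 0 < cr (b - a) (c - a)) {y : ℂ} (hy : y ∈ cT (a, b, c)) :
    hi x (a, b, c) ≤ ‖y - x‖ + dm (a, b, c) := by
  have hd : ∀ v ∈ ({a, b, c} : Set ℂ), ‖y - v‖ ≤ dm (a, b, c) := by
    have d1 : ‖a - b‖ ≤ dm (a, b, c) := (le_max_left _ _).trans (le_max_left _ _)
    have d2 : ‖b - c‖ ≤ dm (a, b, c) := (le_max_right _ _).trans (le_max_left _ _)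
    have d3 : ‖c - a‖ ≤ dm (a, b, c) := le_max_right _ _
    have d0 : 0 ≤ dm (a, b, c) := (norm_nonneg _).trans d1
    rintro v (rfl | rfl | rfl)
    · exact norm_le_of_cT hp hy (by simpa using d0) (by rwa [norm_sub_rev]) d3
    · exact norm_le_of_cT hp hy d1 (by simpa using d0) (by rwa [norm_sub_rev])
    · exact norm_le_of_cT hp hy (by rwa [norm_sub_rev]) d2 (by simpa using d0)
  have key : ∀ v ∈ ({a, b, c} : Set ℂ), ‖v - x‖ ≤ ‖y - x‖ + dm (a, b, c) := by
    intro v hv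
    have h1 := hd v hv
    have e : v - x = (y - x) - (y - v) := by ring
    rw [e]
    exact (norm_sub_le _ _).trans (by linarith)
  exact max_le (max_le (key a (by simp)) (key b (by simp))) (key c (by simp))

theorem hi_sub_lo (hp : 0 < cr (b - a) (c - a)) :
    lo x (a, b, c) ≤ hi x (a, b, c) ∧ hi x (a, b, c) - lo x (a, b, c) ≤ dm (a, b, c) := by
  have hne : (cT (a, b, c)).Nonempty := ⟨a, (vertex_mem hp).1⟩
  refine ⟨(lo_le (vertex_mem hp).1).trans (le_hi hp (vertex_mem hp).1), ?_⟩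
  obtain ⟨y, hy, he⟩ := (isClosed_cT (a, b, c)).exists_infDist_eq_dist hne x
  have h1 := hi_le_add (x := x) hp hy
  have h2 : lo x (a, b, c) = ‖y - x‖ := by
    unfold lo
    rw [he, dist_comm, dist_eq_norm]
  linarith

end

/-- **a good radius**. `U` : a set of triangles with the relations, with at least one rotation of
every triangle which meets one of the circles considered; `Esum` : the energy. -/
theorem good_radius {S : Finset ℂ} {N : Net ℂ} (x : ℂ) (U : Finset (ℂ × ℂ × ℂ))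
    (hUS : U ⊆ delT S) (hR : ∀ t ∈ U, RelAt N t) {C : ℝ} (hC : 0 ≤ C) (K : Finset ℤ)
    (hK : K.Nonempty)
    (hd : ∀ k ∈ K, ∑ t ∈ U.filter (fun t => lo x t ≤ (2 : ℝ) ^ (k + 1) ∧ (2 : ℝ) ^ k ≤ hi x t),
      dm t ^ 2 ≤ C * (4 : ℝ) ^ k)
    {E : ℝ} (hE : ∑ t ∈ U, ‖N.Q t‖ ^ 2 ≤ E) :
    ∃ k ∈ K, ∃ ρ ∈ Icc ((2 : ℝ) ^ k) ((2 : ℝ) ^ (k + 1)), (∀ s ∈ S, ‖s - x‖ ≠ ρ) ∧
      ∀ e e' : ℂ × ℂ, Conn N (U.filter (fun t => lo x t ≤ ρ ∧ ρ ≤ hi x t)) e e' →
      ‖N.F e.1 e.2 - N.F e'.1 e'.2‖ ≤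
        Real.sqrt 3 * Real.sqrt (C * (Real.sqrt C + 2) * E / K.card) := by
  set A : ℤ → Set ℝ := fun k => Icc ((2 : ℝ) ^ k) ((2 : ℝ) ^ (k + 1)) \
    ((S.image fun s => ‖s - x‖ : Finset ℝ) : Set ℝ) with hA
  have hcr : ∀ t ∈ U, 0 < cr (t.2.1 - t.1) (t.2.2 - t.1) := by
    intro t ht
    obtain ⟨o, h⟩ := mem_delT_iff.1 (show (t.1, t.2.1, t.2.2) ∈ delT S from hUS ht)
    exact h.pos
  have hAc : ∀ k ∈ K, 1 * (2 : ℝ) ^ k ≤ (volume : Measure ℝ).real (A k) := by
    intro k _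
    have h0 : (volume : Measure ℝ) ((S.image fun s => ‖s - x‖ : Finset ℝ) : Set ℝ) = 0 :=
      (Finset.finite_toSet _).measure_zero _
    have h1 : (volume : Measure ℝ) (A k) = volume (Icc ((2 : ℝ) ^ k) ((2 : ℝ) ^ (k + 1))) := by
      rw [hA]
      exact measure_sdiff_null h0
    have h2 : (2 : ℝ) ^ (k + 1) - (2 : ℝ) ^ k = (2 : ℝ) ^ k := by
      rw [zpow_add₀ (by norm_num)]; ring
    rw [Measure.real, h1, Real.volume_Icc, h2, ENNReal.toReal_ofReal (by positivity), one_mul]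
  obtain ⟨k, hk, ρ, hρ, h⟩ := T4_circles (N := N) U hR (lo x) (hi x)
    (fun t ht => (hi_sub_lo (hcr t ht)).1) hC K hK
    (by
      intro k hk
      refine le_trans (Finset.sum_le_sum fun t ht => ?_) (hd k hk)
      have h1 := hi_sub_lo (x := x) (hcr t (Finset.mem_filter.mp ht).1)
      have h2 : 0 ≤ hi x t - lo x t := by linarith [h1.1]
      exact pow_le_pow_left₀ h2 h1.2 2)
    A (fun k _ => measurableSet_Icc.diff (Finset.finite_toSet _).measurableSet)
    (fun k _ => sdiff_subset) one_pos hAc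
  refine ⟨k, hk, ρ, hρ.1, ?_, ?_⟩
  · intro s hs hcon
    apply hρ.2
    rw [Finset.mem_coe, Finset.mem_image]
    exact ⟨s, hs, hcon⟩
  · intro e e' hc
    refine (h e e' hc).trans ?_
    rw [inv_one, one_mul]
    gcongr

end Crest.Agent.R143.Scalx63
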