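import Crest.Agent.R143.ToolW2_838

/-!
# Row 143, block P, Tool W, part 3: crossing lemmas (helper838)

* `edge_vertex`, `edges_meet` : two Delaunay edges with a common point have a common end which is
  this point, or they are the same edge
* `asum_walk` : the total angle of a closed chain is constant along a polyline which misses it
* `meet_of_ne` : a polyline which joins two points with different total angles meets the chain
* `common_site` : the same for two chains of Delaunay edges: they have a common site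
* `cross_rect` : a chain from left to right and a chain from bottom to top meet
-/

set_option autoImplicit false

noncomputable section

open scoped Classical

namespace Crest.Agent.R143.ToolW3x838

open Crest.Agent.R143.B0x346 Crest.Agent.R143.DelGx806 Crest.Agent.R143.DelRx806
open Crest.Agent.R143.ToolWx838 Crest.Agent.R143.Blkx838 Crest.Agent.R143.ToolW2x838

variable {S : Finset ℂ}

/-! ### two Delaunay edges -/

/-- a site on a Delaunay edge is one of its ends -/
theorem edge_vertex (hS : GP (S : Set ℂ)) {a b s : ℂ} (h : DE S a b) (hs : s ∈ S)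
    (hseg : s ∈ segment ℝ a b) : s = a ∨ s = b := by
  obtain ⟨e, o, me, ma, mb, hne, hb0, he0, hemp, hmem, hcr⟩ := h.circ hS
  by_contra hcon
  push Not at hcon
  have hcr0 := cr_of_seg hseg
  by_cases hab : a = s
  · exact hcon.1 hab.symm
  by_cases hbs : b = s
  · exact hcon.2 hbs.symm
  exact hS.line a ma b mb s hs hne hbs hab hcr0

/-- two Delaunay edges with a common point -/
theorem edges_meet (hS : GP (S : Set ℂ)) {a b a' b' x : ℂ} (h : DE S a b) (h' : DE S a' b')
    (hx : x ∈ segment ℝ a b) (hx' : x ∈ segment ℝ a' b') :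
    a = a' ∨ a = b' ∨ b = a' ∨ b = b' := by
  have hx0 := hx
  obtain ⟨s, t, hs, ht, hst, rfl⟩ := hx
  rcases hs.lt_or_eq with hs | hs
  · rcases ht.lt_or_eq with ht | ht
    · rcases edge_side hS h hs ht hst (x := s • a + t • b) (by simp) h' hx' with h1 | h1
      · exact Or.inl h1.1.symm
      · exact Or.inr (Or.inl h1.2.symm)
    · have e : s • a + t • b = a := by
        rw [← ht, show s = 1 by linarith]; simp
      rw [e] at hx'
      obtain ⟨-, -, -, ma, -, -⟩ := h.circ hS
      rcases edge_vertex hS h' ma hx' with h1 | h1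
      · exact Or.inl h1
      · exact Or.inr (Or.inl h1)
  · have e : s • a + t • b = b := by
      rw [← hs, show t = 1 by linarith]; simp
    rw [e] at hx'
    obtain ⟨-, -, -, -, mb, -⟩ := h.circ hS
    rcases edge_vertex hS h' mb hx' with h1 | h1
    · exact Or.inr (Or.inr (Or.inl h1))
    · exact Or.inr (Or.inr (Or.inr h1))

/-! ### polylines -/

theorem asum_walk {l : List ℂ} (hl : l.head? = l.getLast?) {q : List ℂ} (hq : q ≠ [])
    (hoff : ∀ p ∈ prs q, ∀ z ∈ segment ℝ p.1 p.2, Off z l) :
    asum (q.head hq) l = asum (q.getLast hq) l := by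
  induction q with
  | nil => exact absurd rfl hq
  | cons a q ih =>
    cases q with
    | nil => rfl
    | cons b q =>
      have h1 := ih (by simp) (fun p hp => hoff p (by
        simp only [prs_cons, List.mem_cons] at hp ⊢; exact Or.inr hp))
      have h2 : asum a l = asum b l := asum_seg hl (hoff (a, b) (by simp))
      simp only [List.head_cons, List.getLast_cons_cons] at h1 ⊢
      rw [h2, h1]

/-- a polyline between two points which see the closed chain under different angles meets it -/
theorem meet_of_ne {l : List ℂ} (hl : l.head? = l.getLast?) {q : List ℂ} (hq : q ≠ [])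
    (hne : asum (q.head hq) l ≠ asum (q.getLast hq) l) :
    ∃ p ∈ prs q, ∃ r ∈ prs l, ∃ z, z ∈ segment ℝ p.1 p.2 ∧ z ∈ segment ℝ r.1 r.2 := by
  by_contra hcon
  push Not at hcon
  exact hne (asum_walk hl hq fun p hp z hz r hr => hcon p hp r hr z hz)

/-- two chains of Delaunay edges which meet have a common site -/
theorem common_site (hS : GP (S : Set ℂ)) {l q : List ℂ} (hl : ∀ p ∈ prs l, DE S p.1 p.2)
    (hq : ∀ p ∈ prs q, DE S p.1 p.2)
    (h : ∃ p ∈ prs q, ∃ r ∈ prs l, ∃ z, z ∈ segment ℝ p.1 p.2 ∧ z ∈ segment ℝ r.1 r.2) :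
    ∃ s, s ∈ l ∧ s ∈ q := by
  obtain ⟨p, hp, r, hr, z, hz1, hz2⟩ := h
  have m1 := mem_of_prs hp
  have m2 := mem_of_prs hr
  rcases edges_meet hS (hq p hp) (hl r hr) hz1 hz2 with h | h | h | h
  · exact ⟨r.1, m2.1, h ▸ m1.1⟩
  · exact ⟨r.2, m2.2, h ▸ m1.1⟩
  · exact ⟨r.1, m2.1, h ▸ m1.2⟩
  · exact ⟨r.2, m2.2, h ▸ m1.2⟩

/-- a chain of Delaunay edges from inside to outside of a loop has a site on the loop -/
theorem site_of_ne (hS : GP (S : Set ℂ)) {l q : List ℂ} (hl : Loop S l)
    (hq : ∀ p ∈ prs q, DE S p.1 p.2) (hn : q ≠ [])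
    (hne : asum (q.head hn) l ≠ asum (q.getLast hn) l) : ∃ s, s ∈ l ∧ s ∈ q :=
  common_site hS hl.del hq (meet_of_ne hl.closed hn hne)

/-! ### rectangles -/

theorem arg_I_mul_low {w : ℂ} (h : w.im < 0) : (Complex.I * w).arg = w.arg + Real.pi / 2 := by
  have hw : w ≠ 0 := by rintro rfl; simp at h
  have h1 : w.arg < 0 := Complex.arg_neg_iff.2 h
  have h2 := Complex.neg_pi_lt_arg w
  rw [Complex.arg_mul Complex.I_ne_zero hw]
  · rw [Complex.arg_I]; ring
  · rw [Complex.arg_I]
    constructor
    · linarith [Real.pi_pos]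
    · linarith [Real.pi_pos]

theorem arg_div_I_up {w : ℂ} (h : 0 < w.im) : (w / Complex.I).arg = w.arg - Real.pi / 2 := by
  have hw : w ≠ 0 := by rintro rfl; simp at h
  have h1 : 0 ≤ w.arg := Complex.arg_nonneg_iff.2 h.le
  have h2 := Complex.arg_le_pi w
  rw [div_eq_mul_inv, Complex.inv_I, Complex.arg_mul hw (neg_ne_zero.2 Complex.I_ne_zero)]
  · rw [Complex.arg_neg_I]; ring
  · rw [Complex.arg_neg_I]
    constructor
    · linarith [Real.pi_pos]
    · linarith [Real.pi_pos]

theorem arg_neg_up {w : ℂ} (h : 0 < w.im) : (-w).arg = w.arg - Real.pi := by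
  exact Complex.arg_neg_eq_arg_sub_pi_of_im_pos h

theorem arg_neg_low {w : ℂ} (h : w.im < 0) : (-w).arg = w.arg + Real.pi := by
  exact Complex.arg_neg_eq_arg_add_pi_of_im_neg h

/-- the winding number of the closed chain `P` (below `z`) closed above `z` -/
theorem asum_rect {P : List ℂ} (hP : P ≠ []) {z : ℂ} {H : ℝ} (hH : z.im < H)
    (hlow : ∀ a ∈ P, a.im < z.im) (hhead : (P.head hP).re < z.re)
    (hlast : z.re < (P.getLast hP).re) :
    asum z P + (ang z (P.getLast hP) ⟨(P.getLast hP).re, H⟩ +
      ang z ⟨(P.getLast hP).re, H⟩ ⟨(P.head hP).re, H⟩ +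
      ang z ⟨(P.head hP).re, H⟩ (P.head hP)) = 2 * Real.pi := by
  set L := P.getLast hP with hL
  set K := P.head hP with hK
  have hLm := hlow L (List.getLast_mem hP)
  have hKm := hlow K (List.head_mem hP)
  set A : ℂ := ⟨L.re, H⟩ with hA
  set B : ℂ := ⟨K.re, H⟩ with hB
  have e1 : asum z P = (L - z).arg - (K - z).arg := by
    rw [asum_half (x := z) (u := -Complex.I) hP, ← hL, ← hK]
    · have e : ∀ w : ℂ, w / (-Complex.I) = Complex.I * w := by
        intro w
        rw [div_eq_iff (neg_ne_zero.2 Complex.I_ne_zero)]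
        linear_combination w * Complex.I_mul_I
      rw [e, e, arg_I_mul_low (by simpa using hLm), arg_I_mul_low (by simpa using hKm)]
      ring
    · intro a ha
      have := hlow a ha
      have e : (a - z) / (-Complex.I) = Complex.I * (a - z) := by
        rw [div_eq_iff (neg_ne_zero.2 Complex.I_ne_zero)]
        linear_combination (a - z) * Complex.I_mul_I
      rw [e]
      simp only [Complex.mul_re, Complex.I_re, Complex.I_im, Complex.sub_im, Complex.sub_re]
      linarith
  have e2 : ang z L A = (A - z).arg - (L - z).arg := by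
    have h1 : 0 < (L - z).re := by simp; linarith
    have h2 : 0 < (A - z).re := by simp [hA]; linarith
    exact arg_div_half h1 h2
  have e3 : ang z A B = (B - z).arg - (A - z).arg := by
    have i1 : 0 < (A - z).im := by simp [hA]; linarith
    have i2 : 0 < (B - z).im := by simp [hB]; linarith
    have h1 : 0 < ((A - z) / Complex.I).re := by
      rw [div_eq_mul_inv, Complex.inv_I]; simpa using i1
    have h2 : 0 < ((B - z) / Complex.I).re := by
      rw [div_eq_mul_inv, Complex.inv_I]; simpa using i2
    have h3 := arg_div_half h1 h2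
    rw [arg_div_I_up i1, arg_div_I_up i2, div_div_div_cancel_right₀ Complex.I_ne_zero] at h3
    unfold ang
    rw [h3]; ring
  have e4 : ang z B K = (K - z).arg - (B - z).arg + 2 * Real.pi := by
    have i1 : 0 < (B - z).im := by simp [hB]; linarith
    have i2 : (K - z).im < 0 := by simp; linarith
    have h1 : 0 < (-(B - z)).re := by simp [hB]; linarith
    have h2 : 0 < (-(K - z)).re := by simp; linarith
    have h3 := arg_div_half h1 h2
    rw [neg_div_neg_eq, arg_neg_up i1, arg_neg_low i2] at h3
    unfold ang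
    rw [h3]; ring
  rw [e1, e2, e3, e4]
  ring

/-- **rectangle crossing lemma**: a polyline `P` from the left to the right and a polyline `Q` from
the bottom to the top meet -/
theorem cross_rect {P Q : List ℂ} (hP : P ≠ []) (hQ : Q ≠ []) {x0 x1 y0 y1 : ℝ}
    (hPy : ∀ a ∈ P, y0 < a.im ∧ a.im < y1) (hQx : ∀ a ∈ Q, x0 < a.re ∧ a.re < x1)
    (hP0 : (P.head hP).re ≤ x0) (hP1 : x1 ≤ (P.getLast hP).re)
    (hQ0 : (Q.head hQ).im ≤ y0) (hQ1 : y1 ≤ (Q.getLast hQ).im) :
    ∃ p ∈ prs Q, ∃ r ∈ prs P, ∃ z, z ∈ segment ℝ p.1 p.2 ∧ z ∈ segment ℝ r.1 r.2 := by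
  by_contra hcon
  push Not at hcon
  set L := P.getLast hP with hL
  set K := P.head hP with hK
  -- height above everything
  obtain ⟨H, hHQ⟩ : ∃ H : ℝ, y1 < H ∧ ∀ a ∈ Q, a.im < H := by
    obtain ⟨M, hM⟩ := (Q.toFinset.image Complex.im).exists_le
    refine ⟨max y1 M + 1, by linarith [le_max_left y1 M], fun a ha => ?_⟩
    have := hM a.im (Finset.mem_image_of_mem _ (List.mem_toFinset.2 ha))
    linarith [le_max_right y1 M]
  obtain ⟨hH1, hHQ⟩ := hHQ
  set A : ℂ := ⟨L.re, H⟩ with hA
  set B : ℂ := ⟨K.re, H⟩ with hB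
  set l : List ℂ := P ++ [A, B, K] with hl
  have hhd : l.head? = some K := by
    rw [hl, List.head?_append_of_ne_nil _ hP, List.head?_eq_some_head hP]
  have hlst : l.getLast? = some K := by
    rw [hl]; simp
  have hcl : l.head? = l.getLast? := by rw [hhd, hlst]
  -- consecutive pairs of the closed chain
  have hprs : ∀ p ∈ prs l, p ∈ prs P ∨ p = (L, A) ∨ p = (A, B) ∨ p = (B, K) := by
    intro p hp
    have e : l = P.dropLast ++ L :: [A, B, K] := by
      calc l = (P.dropLast ++ [L]) ++ [A, B, K] := by rw [hL, List.dropLast_append_getLast hP]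
        _ = _ := by simp
    rw [e, prs_append] at hp
    rw [List.mem_append] at hp
    rcases hp with hp | hp
    · left
      rw [hL, List.dropLast_append_getLast hP] at hp
      exact hp
    · simp only [prs_cons, prs_one, List.mem_cons, List.not_mem_nil, or_false] at hp
      exact Or.inr hp
  have hwalk := asum_walk hcl hQ (fun p hp z hz r hr => by
    intro hz2
    have hzQ1 : x0 < z.re ∧ z.re < x1 ∧ z.im < H := by
      have m := mem_of_prs hp
      have a1 := hQx p.1 m.1
      have a2 := hQx p.2 m.2
      have b1 := hHQ p.1 m.1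
      have b2 := hHQ p.2 m.2
      obtain ⟨s, t, hs, ht, hst, rfl⟩ := hz
      simp only [Complex.add_re, Complex.add_im, Complex.real_smul, Complex.mul_re, Complex.mul_im,
        Complex.ofReal_re, Complex.ofReal_im, zero_mul, sub_zero, add_zero]
      have c1 := convex_Ioi x0 a1.1 a2.1 hs ht hst
      have c2 := convex_Iio x1 a1.2 a2.2 hs ht hst
      have c3 := convex_Iio H b1 b2 hs ht hst
      simp only [smul_eq_mul, Set.mem_Ioi, Set.mem_Iio] at c1 c2 c3
      exact ⟨c1, c2, c3⟩
    rcases hprs r hr with h1 | h1 | h1 | h1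
    · exact hcon p hp r h1 z hz hz2
    · rw [h1] at hz2
      obtain ⟨s, t, hs, ht, hst, rfl⟩ := hz2
      have : (s • L + t • A).re = L.re := by
        simp only [Complex.add_re, Complex.real_smul, Complex.mul_re,
          Complex.ofReal_re, Complex.ofReal_im, zero_mul, sub_zero, hA]
        rw [← add_mul, hst, one_mul]
      rw [this] at hzQ1
      linarith
    · rw [h1] at hz2
      obtain ⟨s, t, hs, ht, hst, rfl⟩ := hz2
      have : (s • A + t • B).im = H := by
        simp only [Complex.add_im, Complex.real_smul, Complex.mul_im,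
          Complex.ofReal_re, Complex.ofReal_im, zero_mul, add_zero, hA, hB]
        rw [← add_mul, hst, one_mul]
      rw [this] at hzQ1
      linarith
    · rw [h1] at hz2
      obtain ⟨s, t, hs, ht, hst, rfl⟩ := hz2
      have : (s • B + t • K).re = K.re := by
        simp only [Complex.add_re, Complex.real_smul, Complex.mul_re,
          Complex.ofReal_re, Complex.ofReal_im, zero_mul, sub_zero, hB]
        rw [← add_mul, hst, one_mul]
      rw [this] at hzQ1
      linarith)
  -- the bottom end
  have h0 : asum (Q.head hQ) l = 0 := by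
    refine asum_half_closed (u := Complex.I) hcl fun a ha => ?_
    have e : (a - Q.head hQ) / Complex.I = -Complex.I * (a - Q.head hQ) := by
      rw [div_eq_mul_inv, Complex.inv_I]; ring
    rw [e]
    have : (-Complex.I * (a - Q.head hQ)).re = a.im - (Q.head hQ).im := by simp
    rw [this]
    rw [hl, List.mem_append] at ha
    have hKm : K ∈ P := List.head_mem hP
    rcases ha with ha | ha
    · linarith [(hPy a ha).1]
    · simp only [List.mem_cons, List.not_mem_nil, or_false] at ha
      have hy := (hPy K hKm)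
      rcases ha with rfl | rfl | rfl
      · simp only [hA]; linarith
      · simp only [hB]; linarith
      · linarith
  -- the top end
  have h1 : asum (Q.getLast hQ) l = 2 * Real.pi := by
    have e : l = P.dropLast ++ L :: [A, B, K] := by
      calc l = (P.dropLast ++ [L]) ++ [A, B, K] := by rw [hL, List.dropLast_append_getLast hP]
        _ = _ := by simp
    have hx := hQx _ (List.getLast_mem hQ)
    have hP0' : (P.head hP).re < (Q.getLast hQ).re := by linarith
    have hP1' : (Q.getLast hQ).re < (P.getLast hP).re := by linarith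
    rw [e, asum_append, hL, List.dropLast_append_getLast hP]
    have := asum_rect hP (z := Q.getLast hQ) (H := H) (hHQ _ (List.getLast_mem hQ))
      (fun a ha => lt_of_lt_of_le (hPy a ha).2 hQ1) hP0' hP1'
    simp only [asum_cons, asum_one, add_zero]
    rw [← this]
    simp only [← hL, ← hK, ← hA, ← hB]
    ring
  rw [h0, h1] at hwalk
  linarith [Real.pi_pos]

/-- two chains of Delaunay edges which cross a rectangle in the two directions have a common site -/
theorem cross_rect_site (hS : GP (S : Set ℂ)) {P Q : List ℂ} (hP : P ≠ []) (hQ : Q ≠ [])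
    (dP : ∀ p ∈ prs P, DE S p.1 p.2) (dQ : ∀ p ∈ prs Q, DE S p.1 p.2) {x0 x1 y0 y1 : ℝ}
    (hPy : ∀ a ∈ P, y0 < a.im ∧ a.im < y1) (hQx : ∀ a ∈ Q, x0 < a.re ∧ a.re < x1)
    (hP0 : (P.head hP).re ≤ x0) (hP1 : x1 ≤ (P.getLast hP).re)
    (hQ0 : (Q.head hQ).im ≤ y0) (hQ1 : y1 ≤ (Q.getLast hQ).im) : ∃ s, s ∈ P ∧ s ∈ Q :=
  common_site hS dP dQ (cross_rect hP hQ hPy hQx hP0 hP1 hQ0 hQ1)

end Crest.Agent.R143.ToolW3x838
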