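import Crest.Agent.R143.RE0_723
import Crest.Agent.R143.ToolW3_838

/-!
# Row 143 (S0194), CONT: a hidden arc is separated by one short crosscut (helper313)

After 594 (note 3141 (1)) and 660 (note 3308).  No cyclic order, no simple connectivity: the small
loops `x → y → b y → (inside Z) → b x → x` along a closed chain `C` add up to `C` and a closed chain
inside `Z`; a chain from `q` to a hull site which avoids `Z` and the small loop makes the winding of
the small loop around `q` zero.

* `Chn S V x y l` : chain `l` of Delaunay edges from `x` to `y` with sites in `V`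
* `chn_of_pth`, `pth_of_chn`
* `asum_hull_site` : a loop does not wind around a hull site which it avoids
* `asum_free` : a loop which is avoided by a chain from `q` to a hull site does not wind around `q`
* `hidden` : **the lemma**; `hidden_set` : deep square and hidden giant
-/

set_option autoImplicit false

noncomputable section

open scoped Classical

namespace Crest.Agent.R143.Visx313

open Crest.Agent.R143.B0x346 Crest.Agent.R143.DelGx806 Crest.Agent.R143.DelRx806
open Crest.Agent.R143.ToolWx838 Crest.Agent.R143.Blkx838 Crest.Agent.R143.ToolW2x838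
open Crest.Agent.R143.ToolW3x838 Crest.Agent.R143.JColx54
open Crest.Agent.R143.RE0x723 (Pth)

variable {S : Finset ℂ} {V W Z : Set ℂ} {x y z q a : ℂ}

/-! ### chains -/

/-- chain of Delaunay edges from `x` to `y` with sites in `V` -/
structure Chn (S : Finset ℂ) (V : Set ℂ) (x y : ℂ) (l : List ℂ) : Prop where
  hd : l.head? = some x
  lt : l.getLast? = some y
  del : ∀ p ∈ prs l, DE S p.1 p.2
  sub : ∀ v ∈ l, v ∈ V

theorem Chn.ne {l : List ℂ} (h : Chn S V x y l) : l ≠ [] := by
  rintro rfl
  simpa using h.hd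

theorem Chn.mono {l : List ℂ} (h : Chn S V x y l) (hV : V ⊆ W) : Chn S W x y l :=
  ⟨h.hd, h.lt, h.del, fun v hv => hV (h.sub v hv)⟩

theorem Chn.one (hx : x ∈ V) : Chn S V x x [x] :=
  ⟨rfl, rfl, by simp, by simpa using hx⟩

theorem Chn.cons {l : List ℂ} (h : Chn S V x y l) (hz : z ∈ V) (hzx : DE S z x) :
    Chn S V z y (z :: l) := by
  obtain ⟨c, m, rfl⟩ := List.exists_cons_of_ne_nil h.ne
  have hc : c = x := by simpa using h.hd
  subst hc
  refine ⟨rfl, ?_, ?_, ?_⟩
  · rw [List.getLast?_cons_cons]; exact h.lt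
  · intro p hp
    simp only [prs_cons, List.mem_cons] at hp
    rcases hp with rfl | hp
    · exact hzx
    · exact h.del p hp
  · intro v hv
    rcases List.mem_cons.1 hv with rfl | hv
    · exact hz
    · exact h.sub v hv

theorem Chn.cat {l m : List ℂ} (h : Chn S V x y l) (h' : Chn S V y z m) :
    ∃ n, Chn S V x z n ∧ (∀ v ∈ n, v ∈ l ∨ v ∈ m) ∧ ∀ p, asum p n = asum p l + asum p m := by
  induction l generalizing x with
  | nil => exact absurd rfl h.ne
  | cons c l ih =>
    have hc : c = x := by simpa using h.hd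
    subst hc
    cases l with
    | nil =>
      have : c = y := by simpa using h.lt
      subst this
      exact ⟨m, h', fun v hv => Or.inr hv, fun p => by simp⟩
    | cons d l =>
      have h1 : Chn S V d y (d :: l) :=
        ⟨rfl, by have := h.lt; rwa [List.getLast?_cons_cons] at this,
          fun p hp => h.del p (by simp only [prs_cons, List.mem_cons]; exact Or.inr hp),
          fun v hv => h.sub v (List.mem_cons_of_mem _ hv)⟩
      obtain ⟨n, hn, hm, ha⟩ := ih h1
      have h2 : Chn S V c z (c :: n) := hn.cons (h.sub c (by simp)) (h.del (c, d) (by simp))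
      refine ⟨c :: n, h2, ?_, fun p => ?_⟩
      · intro v hv
        rcases List.mem_cons.1 hv with rfl | hv
        · exact Or.inl (by simp)
        · rcases hm v hv with h3 | h3
          · exact Or.inl (List.mem_cons_of_mem _ h3)
          · exact Or.inr h3
      · obtain ⟨e, n', rfl⟩ := List.exists_cons_of_ne_nil hn.ne
        have he : e = d := by simpa using hn.hd
        subst he
        rw [asum_cons, ha p, asum_cons]
        ring

theorem Chn.rev {l : List ℂ} (h : Chn S V x y l) : Chn S V y x l.reverse := by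
  refine ⟨?_, ?_, ?_, fun v hv => h.sub v (List.mem_reverse.1 hv)⟩
  · rw [List.head?_reverse]; exact h.lt
  · rw [List.getLast?_reverse]; exact h.hd
  · intro p hp
    rw [prs_reverse, List.mem_reverse, List.mem_map] at hp
    obtain ⟨p', hp', rfl⟩ := hp
    exact (h.del p' hp').symm

theorem chn_of_pth (h : Pth S V x y) : ∃ l, Chn S V x y l := by
  obtain ⟨hx, h⟩ := h
  induction h using Relation.ReflTransGen.head_induction_on with
  | refl => exact ⟨[y], Chn.one hx⟩
  | @head b c h1 _ ih =>
    obtain ⟨l, hl⟩ := ih h1.2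
    exact ⟨b :: l, hl.cons hx h1.1⟩

theorem Chn.pth {l : List ℂ} (h : Chn S V x y l) : Pth S V x y := by
  induction l generalizing x with
  | nil => exact absurd rfl h.ne
  | cons c l ih =>
    have hc : c = x := by simpa using h.hd
    subst hc
    cases l with
    | nil =>
      have : c = y := by simpa using h.lt
      subst this
      exact Pth.refl (h.sub c (by simp))
    | cons d l =>
      have h1 : Chn S V d y (d :: l) :=
        ⟨rfl, by have := h.lt; rwa [List.getLast?_cons_cons] at this,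
          fun p hp => h.del p (by simp only [prs_cons, List.mem_cons]; exact Or.inr hp),
          fun v hv => h.sub v (List.mem_cons_of_mem _ hv)⟩
      exact (Pth.single (h.sub c (by simp)) (h.del (c, d) (by simp)) (h.sub d (by simp))).trans
        (ih h1)

/-- a site which is not on the chain is off the chain -/
theorem off_of (hS : GP (S : Set ℂ)) {l : List ℂ} (hl : ∀ p ∈ prs l, DE S p.1 p.2) (hq : q ∈ S)
    (h : q ∉ l) : Off q l := by
  intro p hp hseg
  rcases edge_vertex hS (hl p hp) hq hseg with h1 | h1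
  · exact h (h1 ▸ (mem_of_prs hp).1)
  · exact h (h1 ▸ (mem_of_prs hp).2)

/-! ### hull sites -/

theorem asum_hull_site' (hS : GP (S : Set ℂ)) {l : List ℂ} (hl : Loop S l) (hlS : ∀ s ∈ l, s ∈ S)
    {a b c : ℂ} (h : hullE S b c) (hc : (a = b ∧ a ≠ c) ∨ (a = c ∧ a ≠ b)) (ha : a ∉ l) :
    asum a l = 0 := by
  have hav : Avoid l (b, c) := by
    constructor
    · intro h1
      rcases hc with ⟨rfl, -⟩ | ⟨rfl, -⟩
      · exact ha (mem_of_prs h1).1
      · exact ha (mem_of_prs h1).2
    · intro h1
      rcases hc with ⟨rfl, -⟩ | ⟨rfl, -⟩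
      · exact ha (mem_of_prs h1).2
      · exact ha (mem_of_prs h1).1
  have hde : DE S b c := Or.inl h.1
  have haS : a ∈ S := by
    obtain ⟨-, -, -, mb, mc, -⟩ := hde.circ hS
    rcases hc with ⟨rfl, -⟩ | ⟨rfl, -⟩
    · exact mb
    · exact mc
  rw [← asum_hull hS hl hlS h hav]
  refine asum_seg hl.closed fun z hz => ?_
  by_cases hza : z = a
  · rw [hza]; exact off_of hS hl.del haS ha
  -- `z` is in the relative interior of the hull edge
  have hint : ∃ s t : ℝ, 0 < s ∧ 0 < t ∧ s + t = 1 ∧ z = (s : ℂ) * b + (t : ℂ) * c := by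
    obtain ⟨s, t, hs, ht, hst, rfl⟩ := hz
    have ht0 : 0 < t := by
      rcases ht.lt_or_eq with h0 | h0
      · exact h0
      · exfalso
        apply hza
        rw [← h0, show s = 1 by linarith]; simp
    rcases hc with ⟨rfl, -⟩ | ⟨rfl, -⟩
    · refine ⟨s + t / 2, t / 2, by positivity, by positivity, by linarith, ?_⟩
      simp only [mid, Complex.real_smul]
      push_cast
      ring
    · refine ⟨t / 2, s + t / 2, by positivity, by positivity, by linarith, ?_⟩
      simp only [mid, Complex.real_smul]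
      push_cast
      ring
  obtain ⟨s, t, hs, ht, hst, hz'⟩ := hint
  intro p hp hseg
  rcases edge_side hS hde hs ht hst hz' (hl.del p hp) hseg with h1 | h1
  · apply hav.1
    have : p = (b, c) := Prod.ext h1.1 h1.2
    rw [← this]; exact hp
  · apply hav.2
    have : p = (b, c).swap := Prod.ext h1.1 h1.2
    rw [← this]; exact hp

/-- a hull site -/
def HullS (S : Finset ℂ) (a : ℂ) : Prop := ∃ c, hullE S a c ∨ hullE S c a

/-- a loop does not wind around a hull site which it avoids -/
theorem asum_hull_site (hS : GP (S : Set ℂ)) {l : List ℂ} (hl : Loop S l) (hlS : ∀ s ∈ l, s ∈ S)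
    (h : HullS S a) (ha : a ∉ l) : asum a l = 0 := by
  obtain ⟨c, h | h⟩ := h
  · exact asum_hull_site' hS hl hlS h (Or.inl ⟨rfl, hullE.ne h⟩) ha
  · exact asum_hull_site' hS hl hlS h (Or.inr ⟨rfl, (hullE.ne h).symm⟩) ha

/-- **a loop which is avoided by a chain from `q` to the hull does not wind around `q`** -/
theorem asum_free (hS : GP (S : Set ℂ)) {l : List ℂ} (hl : Loop S l) (hlS : ∀ s ∈ l, s ∈ S)
    (ha : HullS S a) (hW : Pth S W q a) (hav : ∀ v ∈ W, v ∉ l) : asum q l = 0 := by
  obtain ⟨m, hm⟩ := chn_of_pth hW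
  rw [← asum_hull_site hS hl hlS ha (hav a (Pth.snd hW))]
  by_contra hne
  have h1 : m.head hm.ne = q := by
    have := hm.hd
    rw [List.head?_eq_some_head hm.ne] at this
    exact Option.some.inj this
  have h2 : m.getLast hm.ne = a := by
    have := hm.lt
    rw [List.getLast?_eq_some_getLast hm.ne] at this
    exact Option.some.inj this
  obtain ⟨s, hs1, hs2⟩ := site_of_ne hS hl hm.del hm.ne (by rw [h1, h2]; exact hne)
  exact hav s (hm.sub s hs2) hs1

/-! ### the lemma -/

/-- sum of the small loops along a chain -/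
theorem sum_loops {s : ℂ → List ℂ} {b : ℂ → ℂ} {C : List ℂ} (hC : C ≠ [])
    (hb : ∀ v ∈ C, b v ∈ Z)
    (h : ∀ p ∈ prs C, ∃ m, Chn S Z (b p.1) (b p.2) m ∧
      ang q p.1 p.2 = asum q (s p.1) - asum q (s p.2) + asum q m) :
    ∃ m, Chn S Z (b (C.head hC)) (b (C.getLast hC)) m ∧
      asum q C = asum q (s (C.head hC)) - asum q (s (C.getLast hC)) + asum q m := by
  induction C with
  | nil => exact absurd rfl hC
  | cons c C ih =>
    cases C with
    | nil => exact ⟨[b c], Chn.one (hb c (by simp)), by simp⟩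
    | cons d C =>
      obtain ⟨m, hm, e⟩ := ih (by simp) (fun v hv => hb v (List.mem_cons_of_mem _ hv))
        (fun p hp => h p (by simp only [prs_cons, List.mem_cons]; exact Or.inr hp))
      obtain ⟨m', hm', e'⟩ := h (c, d) (by simp)
      simp only [List.head_cons] at hm e hm' e'
      obtain ⟨n, hn, -, hs⟩ := hm'.cat hm
      refine ⟨n, ?_, ?_⟩
      · simpa only [List.head_cons, List.getLast_cons_cons] using hn
      · rw [asum_cons, e, e', hs q]
        simp only [List.head_cons, List.getLast_cons_cons]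
        ring

theorem DE.mem (hS : GP (S : Set ℂ)) {a b : ℂ} (h : DE S a b) : a ∈ S ∧ b ∈ S := by
  obtain ⟨-, -, -, ma, mb, -⟩ := h.circ hS
  exact ⟨ma, mb⟩

/-- **a hidden arc is separated by one short crosscut**: `C` closed chain winding around `q`, every
site `x` of `C` joined inside `V x` to the connected set `Z`, `a` a hull site: there is ONE pair
`(x, y)` of consecutive sites of `C` such that every chain of sites from `q` to `a` which avoids `Z`
meets `V x` or `V y`. -/
theorem hidden (hS : GP (S : Set ℂ)) {C : List ℂ} (hC : Loop S C) (hq : asum q C ≠ 0)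
    (hqS : q ∈ S) {V : ℂ → Set ℂ} (hVS : ∀ x ∈ C, V x ⊆ (S : Set ℂ)) (hZS : Z ⊆ (S : Set ℂ))
    (hV : ∀ x ∈ C, ∃ b ∈ Z, Pth S (V x) x b)
    (hZ : ∀ b ∈ Z, ∀ b' ∈ Z, Pth S Z b b') (ha : HullS S a) :
    ∃ p ∈ prs C, ∀ W : Set ℂ, (∀ v ∈ W, v ∉ Z) → Pth S W q a →
      ∃ v ∈ W, v ∈ V p.1 ∨ v ∈ V p.2 := by
  by_contra hcon
  push Not at hcon
  have hne : C ≠ [] := by
    rintro rfl
    exact hq rfl
  have hex : ∀ x, ∃ b l, x ∈ C → b ∈ Z ∧ Chn S (V x) x b l := by
    intro x
    by_cases hx : x ∈ C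
    · obtain ⟨b, hb, h⟩ := hV x hx
      obtain ⟨l, hl⟩ := chn_of_pth h
      exact ⟨b, l, fun _ => ⟨hb, hl⟩⟩
    · exact ⟨0, [], fun h => absurd h hx⟩
  choose b s hbs using hex
  have key : ∀ p ∈ prs C, ∃ m, Chn S Z (b p.1) (b p.2) m ∧
      ang q p.1 p.2 = asum q (s p.1) - asum q (s p.2) + asum q m := by
    intro p hp
    obtain ⟨W, hWZ, hW, hWV⟩ := hcon p hp
    have hp1 := (mem_of_prs hp).1
    have hp2 := (mem_of_prs hp).2
    obtain ⟨b1, c1⟩ := hbs p.1 hp1
    obtain ⟨b2, c2⟩ := hbs p.2 hp2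
    obtain ⟨m, hm⟩ := chn_of_pth (hZ _ b1 _ b2)
    refine ⟨m, hm, ?_⟩
    have hqW : q ∈ W := hW.1
    have q1 : Off q (s p.1) := off_of hS c1.del hqS fun h => (hWV q hqW).1 (c1.sub q h)
    have qm : Off q m := off_of hS hm.del hqS fun h => hWZ q hqW (hm.sub q h)
    -- the small loop
    set U : Set ℂ := V p.1 ∪ V p.2 ∪ Z with hU
    have e0 : Chn S U p.1 p.2 [p.1, p.2] := by
      refine ⟨rfl, rfl, ?_, ?_⟩
      · intro r hr
        simp only [prs_cons, prs_one, List.mem_singleton] at hr
        rw [hr]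
        exact hC.del p hp
      · intro v hv
        rcases List.mem_cons.1 hv with rfl | hv
        · exact Or.inl (Or.inl (c1.sub _ (List.mem_of_mem_head? c1.hd)))
        · rw [List.mem_singleton.1 hv]
          exact Or.inl (Or.inr (c2.sub _ (List.mem_of_mem_head? c2.hd)))
    have e1 : Chn S U p.2 (b p.2) (s p.2) := c2.mono fun v hv => Or.inl (Or.inr hv)
    have e2 : Chn S U (b p.2) (b p.1) m.reverse := hm.rev.mono fun v hv => Or.inr hv
    have e3 : Chn S U (b p.1) p.1 (s p.1).reverse := c1.rev.mono fun v hv => Or.inl (Or.inl hv)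
    obtain ⟨n1, k1, -, a1⟩ := e0.cat e1
    obtain ⟨n2, k2, -, a2⟩ := k1.cat e2
    obtain ⟨n3, k3, -, a3⟩ := k2.cat e3
    have hloop : Loop S n3 := ⟨by rw [k3.hd, k3.lt], k3.del⟩
    have h0 : asum q n3 = 0 := by
      refine asum_free hS hloop ?_ ha hW ?_
      · intro v hv
        rcases k3.sub v hv with (h | h) | h
        · exact hVS _ hp1 h
        · exact hVS _ hp2 h
        · exact hZS h
      · intro v hv hv'
        rcases k3.sub v hv' with (h | h) | h
        · exact (hWV v hv).1 h
        · exact (hWV v hv).2 h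
        · exact hWZ v hv h
    rw [a3 q, a2 q, a1 q, asum_reverse qm, asum_reverse q1] at h0
    simp only [asum_cons, asum_one, add_zero] at h0
    linarith
  obtain ⟨m, hm, e⟩ := sum_loops (Z := Z) (s := s) hne (fun v hv => (hbs v hv).1) key
  have hend : C.head hne = C.getLast hne := by
    have := hC.closed
    rw [List.head?_eq_some_head hne, List.getLast?_eq_some_getLast hne] at this
    exact Option.some.inj this
  rw [← hend] at hm e
  have e' : asum q C = asum q m := by rw [e]; ring
  -- some chain from `q` to the hull avoids `Z`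
  have hpr : ∃ p, p ∈ prs C := by
    by_contra hno
    push Not at hno
    apply hq
    rw [asum_eq]
    have : prs C = [] := List.eq_nil_iff_forall_not_mem.2 hno
    rw [this]; rfl
  obtain ⟨p, hp⟩ := hpr
  obtain ⟨W, hWZ, hW, -⟩ := hcon p hp
  have hl : Loop S m := ⟨by rw [hm.hd, hm.lt], hm.del⟩
  have h0 : asum q m = 0 :=
    asum_free hS hl (fun v hv => hZS (hm.sub v hv)) ha hW
      (fun v hv hv' => hWZ v hv (hm.sub v hv'))
  exact hq (e'.trans h0)

/-- the same for a connected set `Q` of sites (deep square) and a connected set `K` with a hull site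
(the hidden giant): ONE pair `(x, y)` separates all of `Q` from all of `K` -/
theorem hidden_set (hS : GP (S : Set ℂ)) {C : List ℂ} (hC : Loop S C) (hq : asum q C ≠ 0)
    {V : ℂ → Set ℂ} (hVS : ∀ x ∈ C, V x ⊆ (S : Set ℂ)) (hZS : Z ⊆ (S : Set ℂ))
    (hV : ∀ x ∈ C, ∃ b ∈ Z, Pth S (V x) x b)
    (hZ : ∀ b ∈ Z, ∀ b' ∈ Z, Pth S Z b b')
    {Q K : Set ℂ} (hQS : Q ⊆ (S : Set ℂ)) (hqQ : q ∈ Q) (hQ : ∀ v ∈ Q, Pth S Q q v)
    (hQZ : ∀ v ∈ Q, v ∉ Z) (hQV : ∀ x ∈ C, ∀ v ∈ Q, v ∉ V x)
    (ha : HullS S a) (hK : ∀ v ∈ K, Pth S K v a)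
    (hKZ : ∀ v ∈ K, v ∉ Z) (hKV : ∀ x ∈ C, ∀ v ∈ K, v ∉ V x) :
    ∃ p ∈ prs C, ∀ W : Set ℂ, (∀ v ∈ W, v ∉ Z) → ∀ x ∈ Q, ∀ y ∈ K, Pth S W x y →
      ∃ v ∈ W, v ∈ V p.1 ∨ v ∈ V p.2 := by
  obtain ⟨p, hp, h⟩ := hidden hS hC hq (hQS hqQ) hVS hZS hV hZ ha
  refine ⟨p, hp, fun W hWZ x hx y hy hW => ?_⟩
  obtain ⟨v, hv, hv'⟩ := h (W ∪ Q ∪ K) (by
      rintro v ((hv | hv) | hv)
      · exact hWZ v hv
      · exact hQZ v hv
      · exact hKZ v hv)
    ((((hQ x hx).mono fun v hv => Or.inl (Or.inr hv)).trans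
      (hW.mono fun v hv => Or.inl (Or.inl hv))).trans ((hK y hy).mono fun v hv => Or.inr hv))
  rcases hv with (hv | hv) | hv
  · exact ⟨v, hv, hv'⟩
  · rcases hv' with h1 | h1
    · exact absurd h1 (hQV _ (mem_of_prs hp).1 v hv)
    · exact absurd h1 (hQV _ (mem_of_prs hp).2 v hv)
  · rcases hv' with h1 | h1
    · exact absurd h1 (hKV _ (mem_of_prs hp).1 v hv)
    · exact absurd h1 (hKV _ (mem_of_prs hp).2 v hv)

end Crest.Agent.R143.Visx313
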