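import Crest.Agent.R143.Cont6_920
import Crest.Agent.R143.DicD_831
import Crest.Agent.R143.Vis_313
import Crest.Agent.R143.Scal_63
import Crest.Agent.R143.Circ_63

/-!
# Row 143 (S0194), CONT: the arm bounds of the environment (ARMENV, helper920)

* `ArmV.extend` : larger outer radii
* `EnB` : energy of the triangles near `z`; `HarmP` : 802's `harm`; `HullP` : 93's `hullm`
* `armV_of` : `ArmV` for one environment
* `ArmE D` : with high probability `ArmV` holds for all free sets without hull sites, the constants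
  do not depend on the inner scale; `armE`
-/

set_option autoImplicit false

noncomputable section

open scoped Classical Topology
open Filter

namespace Crest.Agent.R143.ArmEx920

open Crest.ProbabilityR.Voronoi
open Crest.Agent.R143.Harx315
open Crest.Agent.R143.D3Fx802 (CArm)
open Crest.Agent.R143.B0x346 Crest.Agent.R143.B0Dx346
open Crest.Agent.R143.Freshx920 Crest.Agent.R143.Cont6x920
open Crest.Agent.R143.DomAx722 (Dns dns_of_env)
open Crest.Agent.R143.Y0x831 (Good)
open Crest.Agent.R143.Visx313 (HullS)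
open Crest.Agent.R143.Circx63 Crest.Agent.R143.Scalx63

variable {S V : Finset ℂ} {Rg : Set ℂ} {d D C c : ℝ}

/-- larger outer radii -/
theorem ArmV.extend {D0 : ℝ} (h : ArmV S V Rg d D0 C c) (hd : 0 < d) (h0 : 0 < D0)
    (hD : D0 ≤ D) (hC : 1 ≤ C) (hc : 0 ≤ c) : ArmV S V Rg d D (C * (D / D0) ^ c) c := by
  intro z hz r R h1 h2 h3 W hW
  have hr : 0 < r := by linarith
  have hR : 0 < R := by linarith
  have hD' : 0 < D := by linarith
  have hq : 1 ≤ (D / D0) ^ c := Real.one_le_rpow ((one_le_div h0).2 hD) hc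
  have hx : 0 ≤ (r / R) ^ c := Real.rpow_nonneg (by positivity) _
  rcases le_total R D0 with h4 | h4
  · refine (h z hz r R h1 h2 h4 W hW).trans ?_
    have : C ≤ C * (D / D0) ^ c := by nlinarith
    exact mul_le_mul_of_nonneg_right this hx
  · rcases le_total r D0 with h5 | h5
    · refine (pr_mono fun β _ hβ => carm_radii le_rfl h4 hβ).trans
        ((h z hz r D0 h1 h5 le_rfl W hW).trans ?_)
      rw [mul_assoc]
      refine mul_le_mul_of_nonneg_left ?_ (by linarith)
      rw [← Real.mul_rpow (by positivity) (by positivity)]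
      refine Real.rpow_le_rpow (by positivity) ?_ hc
      have h6 : r / D0 = R / D0 * (r / R) := by field_simp
      rw [h6]
      exact mul_le_mul_of_nonneg_right (div_le_div_of_nonneg_right h3 h0.le) (by positivity)
    · refine pr_le_one.trans ?_
      have h6 : 1 ≤ (D / D0) ^ c * (r / R) ^ c := by
        rw [← Real.mul_rpow (by positivity) (by positivity)]
        refine Real.one_le_rpow ?_ hc
        rw [div_mul_div_comm, one_le_div (by positivity)]
        calc D0 * R ≤ r * D := mul_le_mul h5 h3 hR.le hr.le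
          _ = D * r := mul_comm _ _
      nlinarith

/-- energy of the triangles which meet the ball with centre `z`, radius `b` -/
def EnB (S : Finset ℂ) (x0 : ℂ) (L C4 b0 b1 : ℝ) : Prop :=
  ∀ z : ℂ, ‖z - x0‖ ≤ L → ∀ b : ℝ, b0 ≤ b → b ≤ b1 →
    ∑ t ∈ (delT S).filter (fun t => (cT t ∩ Metric.closedBall z b).Nonempty), dm t ^ 2 ≤
      C4 * b ^ 2

/-- 802's `harm` -/
def HarmP : Prop := ∀ C4 : ℝ, 0 ≤ C4 → ∃ C c c2 A : ℝ, 0 < C ∧ 0 < c ∧ 0 < c2 ∧ 1 ≤ A ∧
  ∀ (S : Finset ℂ) (x0 : ℂ) (L e r R : ℝ), Dns S x0 L e → A * √(L * e) ≤ r → r ≤ R →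
    A * R ≤ L → EnB S x0 L C4 (c2 * r) R → ∀ p : ℂ, ‖p - x0‖ ≤ L → ∀ V ⊆ S,
      (∀ v ∈ V, ¬ HullS S v) → pr V (fun β => CArm S β p r R) ≤ C * (r / R) ^ c

/-- 93's `hullm` -/
def HullP (D : Dom) (C4 : ℝ) : Prop := ∀ b0 : ℝ, 0 < b0 → ∀ η : ℝ, 0 < η → ∀ᶠ ε : ℝ in 𝓝[>] 0,
  sampleLaw {ω | ¬ EnB (D.sites ε ω) D.c D.L C4 b0 1} ≤ ENNReal.ofReal η

/-- one environment -/
theorem armV_of (hh : HarmP) {C4 : ℝ} (h4 : 0 ≤ C4) : ∃ C c c2 A : ℝ, 1 ≤ C ∧ 0 < c ∧ 0 < c2 ∧
    1 ≤ A ∧ ∀ (S : Finset ℂ) (x0 : ℂ) (L e d : ℝ), 0 < L → 0 < d → Dns S x0 L e →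
      A * √(L * e) ≤ 2 * d → EnB S x0 L C4 (c2 * d) 1 → ∀ V ⊆ S, (∀ v ∈ V, ¬ HullS S v) →
        ArmV S V (Metric.closedBall x0 L) d (2 * L) (C * (2 * L / min 1 (L / A)) ^ c) c := by
  obtain ⟨C, c, c2, A, hC, hc, hc2, hA, h⟩ := hh C4 h4
  refine ⟨max C 1, c, c2 * 2, A, le_max_right _ _, hc, by positivity, hA, ?_⟩
  intro S x0 L e d hL hd hS he hE V hV hVh
  have hA0 : 0 < A := by linarith
  have h1 : 0 < min 1 (L / A) := lt_min one_pos (by positivity)
  refine ArmV.extend ?_ hd h1 ?_ (le_max_right _ _) hc.le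
  · intro z hz r R h2 h3 h5 W hW
    rw [Metric.mem_closedBall, dist_eq_norm] at hz
    have h6 : R ≤ 1 := h5.trans (min_le_left _ _)
    have h7 : A * R ≤ L := by
      have := h5.trans (min_le_right _ _)
      rw [le_div_iff₀ hA0] at this
      linarith
    have h8 : EnB S x0 L C4 (c2 * r) R := fun z hz b hb hb' =>
      hE z hz b (by nlinarith) (hb'.trans h6)
    refine (h S x0 L e r R hS (he.trans h2) h3 h7 h8 z hz W (hW.trans hV)
      (fun v hv => hVh v (hW hv))).trans ?_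
    have hr : 0 < r := by linarith
    exact mul_le_mul_of_nonneg_right (le_max_left _ _)
      (Real.rpow_nonneg (div_nonneg hr.le (by linarith)) _)
  · refine (min_le_right _ _).trans ((div_le_self hL.le hA).trans (by linarith))

/-- **ARMENV** : one-arm bounds for all free sets without hull sites, the constants do not depend
on the inner scale `d` -/
def ArmE (D : Dom) : Prop := ∃ C c : ℝ, 1 ≤ C ∧ 0 < c ∧ ∀ d : ℝ, 0 < d → ∀ η : ℝ, 0 < η →
  ∀ᶠ ε : ℝ in 𝓝[>] 0, sampleLaw {ω | ¬ ∀ V ⊆ D.sites ε ω, (∀ v ∈ V, ¬ HullS (D.sites ε ω) v) →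
    ArmV (D.sites ε ω) V (Metric.closedBall D.c D.L) d (2 * D.L) C c} ≤ ENNReal.ofReal η

theorem armE (hh : HarmP) {D : Dom} (hL : 0 < D.L) {C4 : ℝ} (h4 : 0 ≤ C4) (hm : HullP D C4) :
    ArmE D := by
  obtain ⟨C, c, c2, A, hC, hc, hc2, hA, h⟩ := armV_of hh h4
  obtain ⟨C', K, a, C4', hC', -, -, -, hG⟩ := DicDx831.good_ev D hL
  have hA0 : 0 < A := by linarith
  have h1 : 0 < min 1 (D.L / A) := lt_min one_pos (by positivity)
  have h2 : min 1 (D.L / A) ≤ 2 * D.L :=
    (min_le_right _ _).trans ((div_le_self hL.le hA).trans (by linarith))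
  refine ⟨C * (2 * D.L / min 1 (D.L / A)) ^ c, c, ?_, hc, fun d hd η hη => ?_⟩
  · have := Real.one_le_rpow ((one_le_div h1).2 h2) hc.le
    nlinarith
  · filter_upwards [hm (c2 * d) (by positivity) (η / 2) (by positivity), hG,
      DicCx831.ev_unit, (DicCx831.rad_small C').eventually
        (ge_mem_nhds (show (0 : ℝ) < D.L / 8 by positivity)),
      (DicCx831.rad_small C').eventually
        (ge_mem_nhds (show (0 : ℝ) < 4 * d ^ 2 / (A ^ 2 * D.L) by positivity)),
      Ioc_mem_nhdsGT (show (0 : ℝ) < η / 2 by positivity)] with ε e1 e2 e3 e4 e5 e6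
    have hsub : {ω | ¬ ∀ V ⊆ D.sites ε ω, (∀ v ∈ V, ¬ HullS (D.sites ε ω) v) →
        ArmV (D.sites ε ω) V (Metric.closedBall D.c D.L) d (2 * D.L)
          (C * (2 * D.L / min 1 (D.L / A)) ^ c) c} ⊆
        {ω | ¬ EnB (D.sites ε ω) D.c D.L C4 (c2 * d) 1} ∪ {ω | ¬ Good D ε C' K a C4' ω} := by
      intro ω hω
      by_contra hcon
      simp only [Set.mem_union, Set.mem_setOf_eq, not_or, not_not] at hcon
      refine hω (h _ D.c D.L _ d hL hd (dns_of_env hL (by linarith) hcon.2.env) ?_ hcon.1)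
      have h3 : D.L * PP1x831.rad C' ε ≤ (2 * d / A) ^ 2 := by
        rw [le_div_iff₀ (by positivity)] at e5
        rw [div_pow, le_div_iff₀ (by positivity)]
        nlinarith
      have h5 : √(D.L * PP1x831.rad C' ε) ≤ 2 * d / A := Real.sqrt_le_iff.2 ⟨by positivity, h3⟩
      rw [le_div_iff₀ hA0] at h5
      linarith
    refine (MeasureTheory.measure_mono hsub).trans ((MeasureTheory.measure_union_le _ _).trans ?_)
    calc sampleLaw {ω | ¬ EnB (D.sites ε ω) D.c D.L C4 (c2 * d) 1} +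
          sampleLaw {ω | ¬ Good D ε C' K a C4' ω}
        ≤ ENNReal.ofReal (η / 2) + ENNReal.ofReal ε := add_le_add e1 e2
      _ ≤ ENNReal.ofReal (η / 2) + ENNReal.ofReal (η / 2) := by
          gcongr
          exact e6.2
      _ = ENNReal.ofReal η := by
          rw [← ENNReal.ofReal_add (by positivity) (by positivity)]
          congr 1
          ring

end Crest.Agent.R143.ArmEx920
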