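import Crest.Agent.R143.ToolW_838

/-!
# Row 143, block P, leaf P3: closed chains of sites without occupied edges block the legs (helper838)

* `edge_open`  : a point of an open Delaunay triangle is on no Delaunay edge
* `edge_side`  : a point of the relative interior of a side is on no other Delaunay edge
* `step_seg`   : a step of the walker crosses no Delaunay edge except the first one and the last one
* `leads_asum` : **P3**
-/

set_option autoImplicit false

noncomputable section

open scoped Classical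

namespace Crest.Agent.R143.Blkx838

open Crest.Agent.R143.B0x346 Crest.Agent.R143.DelGx806 Crest.Agent.R143.DelRx806
open Crest.Agent.R143.ToolWx838

variable {S : Finset ℂ}

/-- Delaunay edge (one of the two triangles exists) -/
def DE (S : Finset ℂ) (a b : ℂ) : Prop := (∃ c, (a, b, c) ∈ delT S) ∨ ∃ c, (b, a, c) ∈ delT S

theorem DE.symm {a b : ℂ} (h : DE S a b) : DE S b a := Or.symm h

/-- an affine function on a segment -/
theorem aff_seg {a b x : ℂ} (h : x ∈ segment ℝ a b) (p q r : ℝ) :
    ∃ s t : ℝ, 0 ≤ s ∧ 0 ≤ t ∧ s + t = 1 ∧ x = (s : ℂ) * a + (t : ℂ) * b ∧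
      p + q * x.re + r * x.im = s * (p + q * a.re + r * a.im) + t * (p + q * b.re + r * b.im) := by
  obtain ⟨s, t, hs, ht, hst, rfl⟩ := h
  refine ⟨s, t, hs, ht, hst, by simp, ?_⟩
  have : t = 1 - s := by linarith
  subst this
  simp only [Complex.add_re, Complex.add_im, Complex.real_smul, Complex.mul_re, Complex.mul_im,
    Complex.ofReal_re, Complex.ofReal_im]
  ring

/-- a Delaunay edge comes with an empty circle through its ends -/
theorem DE.circ (hS : GP (S : Set ℂ)) {a b : ℂ} (h : DE S a b) :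
    ∃ e o, e ∈ S ∧ a ∈ S ∧ b ∈ S ∧ a ≠ b ∧ pw o a b = 0 ∧ pw o a e = 0 ∧ (∀ s ∈ S, 0 ≤ pw o a s) ∧
      (∀ s ∈ S, pw o a s = 0 → s = a ∨ s = b ∨ s = e) ∧ cr (b - a) (e - a) ≠ 0 := by
  rcases h with ⟨e, h⟩ | ⟨e, h⟩
  · obtain ⟨o, h⟩ := mem_delT_iff.1 h
    refine ⟨e, o, h.mc, h.ma, h.mb, h.ne.1, h.pb, h.pc, h.emp, ?_, h.pos.ne'⟩
    intro s hs h0
    by_contra hcon
    push Not at hcon
    have := h.out hS hs hcon.1.symm hcon.2.1.symm hcon.2.2.symm
    linarith
  · obtain ⟨o, h⟩ := mem_delT_iff.1 h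
    have e1 : ∀ x, pw o a x = pw o b x := fun x => pw_base h.pb x
    have h0 : pw o a b = 0 := by rw [e1, pw_self]
    refine ⟨e, o, h.mc, h.mb, h.ma, h.ne.1.symm, h0, ?_, ?_, ?_, ?_⟩
    · rw [e1]; exact h.pc
    · intro s hs; rw [e1]; exact h.emp s hs
    · intro s hs h0
      rw [e1] at h0
      by_contra hcon
      push Not at hcon
      have := h.out hS hs hcon.2.1.symm hcon.1.symm hcon.2.2.symm
      linarith
    · have := h.pos
      rw [cr_swap] at this
      intro h0
      rw [h0] at this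
      simp at this

theorem cr_of_seg {a b x : ℂ} (h : x ∈ segment ℝ a b) : cr (b - a) (x - a) = 0 := by
  obtain ⟨s, t, hs, ht, hst, rfl⟩ := h
  have : s = 1 - t := by linarith
  subst this
  rw [cr_sub]
  simp only [Complex.add_re, Complex.add_im, Complex.real_smul, Complex.mul_re, Complex.mul_im,
    Complex.ofReal_re, Complex.ofReal_im]
  ring

/-- the difference of the powers is nonnegative on the Delaunay edge `a'b'` -/
theorem seg_nonneg {a a' b' o o' x : ℂ} {p q r : ℝ} (hp : ∀ x : ℂ,
    pw o a x - pw o' a' x = p + q * x.re + r * x.im) (ha' : 0 ≤ pw o a a') (hb' : 0 ≤ pw o a b')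
    (h0 : pw o' a' b' = 0) (hx : x ∈ segment ℝ a' b') : 0 ≤ p + q * x.re + r * x.im := by
  obtain ⟨s, t, hs, ht, hst, -, h⟩ := aff_seg hx p q r
  rw [h, ← hp a', ← hp b', pw_self, h0, sub_zero, sub_zero]
  positivity

/-- a point of an open Delaunay triangle is on no Delaunay edge -/
theorem edge_open (hS : GP (S : Set ℂ)) {a b c a' b' x : ℂ} (h : (a, b, c) ∈ delT S)
    (hx : InO x a b c) (h' : DE S a' b') : x ∉ segment ℝ a' b' := by
  intro hs
  obtain ⟨o, h⟩ := mem_delT_iff.1 h
  obtain ⟨e', o', me, ma, mb, hne, hb0, he0, hemp, hmem, hcr⟩ := h'.circ hS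
  obtain ⟨p, q, r, hp⟩ := pw_affine o a o' a'
  have h1 : 0 ≤ p + q * x.re + r * x.im :=
    seg_nonneg hp (h.emp a' ma) (h.emp b' mb) hb0 hs
  have e1 := bary a b c x p q r
  rw [← hp, ← hp, ← hp, ← hp, pw_self, h.pb, h.pc] at e1
  rw [← hp] at h1
  have g1 := hemp a h.ma
  have g2 := hemp b h.mb
  have g3 := hemp c h.mc
  obtain ⟨x1, x2, x3⟩ := hx
  unfold Lft at x1 x2 x3
  have hpos := h.pos
  have t1 := mul_nonneg x2.le g1
  have t2 := mul_nonneg x3.le g2
  have t3 := mul_nonneg x1.le g3
  have t4 := mul_nonneg hpos.le h1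
  have u1 : pw o' a' a = 0 := by
    have : cr (c - b) (x - b) * pw o' a' a = 0 := by linarith
    exact (mul_eq_zero.1 this).resolve_left x2.ne'
  have u2 : pw o' a' b = 0 := by
    have : cr (a - c) (x - c) * pw o' a' b = 0 := by linarith
    exact (mul_eq_zero.1 this).resolve_left x3.ne'
  have u3 : pw o' a' c = 0 := by
    have : cr (b - a) (x - a) * pw o' a' c = 0 := by linarith
    exact (mul_eq_zero.1 this).resolve_left x1.ne'
  have ka := hmem a h.ma u1
  have kb := hmem b h.mb u2
  have kc := hmem c h.mc u3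
  obtain ⟨n1, n2, n3⟩ := h.ne
  have hs0 := cr_of_seg hs
  have hs1 := hs0
  rw [cr_sub] at hs1 x1 x2 x3
  rcases ka with rfl | rfl | rfl <;> rcases kb with rfl | rfl | rfl <;>
    rcases kc with rfl | rfl | rfl <;> first
    | exact absurd rfl n1
    | exact absurd rfl n2
    | exact absurd rfl n3
    | linarith

/-- a point of the relative interior of a side is on no other Delaunay edge -/
theorem edge_side (hS : GP (S : Set ℂ)) {a b a' b' x : ℂ} (h : DE S a b) {s t : ℝ} (hs : 0 < s)
    (ht : 0 < t) (hst : s + t = 1) (hx : x = (s : ℂ) * a + (t : ℂ) * b) (h' : DE S a' b')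
    (hseg : x ∈ segment ℝ a' b') : (a' = a ∧ b' = b) ∨ (a' = b ∧ b' = a) := by
  obtain ⟨e, o, -, ma0, mb0, hne0, hb00, he00, hemp0, -, -⟩ := h.circ hS
  obtain ⟨e', o', me, ma, mb, hne, hb0, he0, hemp, hmem, hcr⟩ := h'.circ hS
  obtain ⟨p, q, r, hp⟩ := pw_affine o a o' a'
  have h1 : 0 ≤ p + q * x.re + r * x.im :=
    seg_nonneg hp (hemp0 a' ma) (hemp0 b' mb) hb0 hseg
  have h2 : p + q * x.re + r * x.im = s * (p + q * a.re + r * a.im) +
      t * (p + q * b.re + r * b.im) := by
    have : t = 1 - s := by linarith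
    subst this
    rw [hx]
    simp only [Complex.add_re, Complex.add_im, Complex.mul_re, Complex.mul_im,
      Complex.ofReal_re, Complex.ofReal_im]
    ring
  rw [h2, ← hp a, ← hp b, pw_self, hb00] at h1
  have g1 := hemp a ma0
  have g2 := hemp b mb0
  have t1 := mul_nonneg hs.le g1
  have t2 := mul_nonneg ht.le g2
  have u1 : pw o' a' a = 0 := by
    have : s * pw o' a' a = 0 := by linarith
    exact (mul_eq_zero.1 this).resolve_left hs.ne'
  have u2 : pw o' a' b = 0 := by
    have : t * pw o' a' b = 0 := by linarith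
    exact (mul_eq_zero.1 this).resolve_left ht.ne'
  have ka := hmem a ma0 u1
  have kb := hmem b mb0 u2
  have hc := cr_of_seg hseg
  have hs' : s = 1 - t := by linarith
  have hx1 : x.re = s * a.re + t * b.re := by
    rw [hx]; simp
  have hx2 : x.im = s * a.im + t * b.im := by
    rw [hx]; simp
  rw [cr_sub, hx1, hx2] at hc
  rw [cr_sub] at hcr
  rcases ka with ha | ha | ha <;> rcases kb with hb | hb | hb
  · exact absurd (ha.trans hb.symm) hne0
  · exact Or.inl ⟨ha.symm, hb.symm⟩
  · exfalso
    rw [ha, hb, hs'] at hc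
    apply hcr
    have : t * ((b'.re - a'.re) * (e'.im - a'.im) - (b'.im - a'.im) * (e'.re - a'.re)) = 0 := by
      rw [← hc]; ring
    exact (mul_eq_zero.1 this).resolve_left ht.ne'
  · exact Or.inr ⟨hb.symm, ha.symm⟩
  · exact absurd (ha.trans hb.symm) hne0
  · exfalso
    rw [ha, hb, hs'] at hc
    apply hcr
    have : t * ((b'.re - a'.re) * (e'.im - a'.im) - (b'.im - a'.im) * (e'.re - a'.re)) = 0 := by
      rw [← hc]; ring
    exact (mul_eq_zero.1 this).resolve_left ht.ne'
  · exfalso
    rw [ha, hb] at hc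
    apply hcr
    have ht' : t = 1 - s := by linarith
    rw [ht'] at hc
    have : s * ((b'.re - a'.re) * (e'.im - a'.im) - (b'.im - a'.im) * (e'.re - a'.re)) = 0 := by
      rw [← hc]; ring
    exact (mul_eq_zero.1 this).resolve_left hs.ne'
  · exfalso
    rw [ha, hb] at hc
    apply hcr
    have ht' : t = 1 - s := by linarith
    rw [ht'] at hc
    have : s * ((b'.re - a'.re) * (e'.im - a'.im) - (b'.im - a'.im) * (e'.re - a'.re)) = 0 := by
      rw [← hc]; ring
    exact (mul_eq_zero.1 this).resolve_left hs.ne'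
  · exact absurd (ha.trans hb.symm) hne0

/-- the step of a walker: the segment between the two middles meets no Delaunay edge except the two
edges themselves -/
theorem step_seg (hS : GP (S : Set ℂ)) {a b c a' b' x : ℂ} (h : (a, b, c) ∈ delT S)
    (hx : x ∈ segment ℝ (mid (a, b)) (mid (c, b))) (h' : DE S a' b') (hseg : x ∈ segment ℝ a' b') :
    ((a' = a ∧ b' = b) ∨ (a' = b ∧ b' = a)) ∨ ((a' = b ∧ b' = c) ∨ (a' = c ∧ b' = b)) := by
  obtain ⟨s, t, hs, ht, hst, hx⟩ := hx
  simp only [mid, Complex.real_smul] at hx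
  have hab : DE S a b := Or.inl ⟨c, h⟩
  have hbc : DE S b c := Or.inl ⟨a, by
    obtain ⟨o, h⟩ := mem_delT_iff.1 h
    exact mem_delT_iff.2 ⟨o, h.rot⟩⟩
  rcases hs.lt_or_eq with hs | hs
  · rcases ht.lt_or_eq with ht | ht
    · -- interior
      exfalso
      have hpos := (mem_delT_iff.1 h).choose_spec.pos
      refine edge_open hS h ?_ h' hseg
      have hre : x.re = s * ((a.re + b.re) / 2) + t * ((c.re + b.re) / 2) := by
        rw [← hx]; simp
      have him : x.im = s * ((a.im + b.im) / 2) + t * ((c.im + b.im) / 2) := by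
        rw [← hx]; simp
      have hs' : s = 1 - t := by linarith
      rw [cr_sub] at hpos
      refine ⟨?_, ?_, ?_⟩
      · unfold Lft
        rw [cr_sub, hre, him]
        have : (b.re - a.re) * (s * ((a.im + b.im) / 2) + t * ((c.im + b.im) / 2) - a.im) -
            (b.im - a.im) * (s * ((a.re + b.re) / 2) + t * ((c.re + b.re) / 2) - a.re) =
            (t / 2) * ((b.re - a.re) * (c.im - a.im) - (b.im - a.im) * (c.re - a.re)) := by
          subst hs'; ring
        rw [this]; positivity
      · unfold Lft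
        rw [cr_sub, hre, him]
        have : (c.re - b.re) * (s * ((a.im + b.im) / 2) + t * ((c.im + b.im) / 2) - b.im) -
            (c.im - b.im) * (s * ((a.re + b.re) / 2) + t * ((c.re + b.re) / 2) - b.re) =
            (s / 2) * ((b.re - a.re) * (c.im - a.im) - (b.im - a.im) * (c.re - a.re)) := by
          subst hs'; ring
        rw [this]; positivity
      · unfold Lft
        rw [cr_sub, hre, him]
        have : (a.re - c.re) * (s * ((a.im + b.im) / 2) + t * ((c.im + b.im) / 2) - c.im) -
            (a.im - c.im) * (s * ((a.re + b.re) / 2) + t * ((c.re + b.re) / 2) - c.re) =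
            ((s + t) / 2) * ((b.re - a.re) * (c.im - a.im) - (b.im - a.im) * (c.re - a.re)) := by
          subst hs'; ring
        rw [this, hst]; positivity
    · left
      have h1 : s = 1 := by linarith
      refine edge_side hS hab (s := 1 / 2) (t := 1 / 2) (by norm_num) (by norm_num) (by norm_num)
        ?_ h' hseg
      rw [← hx, ← ht, h1]; push_cast; ring
  · right
    have h1 : t = 1 := by linarith
    refine edge_side hS hbc (s := 1 / 2) (t := 1 / 2) (by norm_num) (by norm_num) (by norm_num)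
      ?_ h' hseg
    rw [← hx, ← hs, h1]; push_cast; ring

/-! ### chains of Delaunay edges -/

/-- a closed chain of sites, consecutive sites are joined by Delaunay edges -/
structure Loop (S : Finset ℂ) (l : List ℂ) : Prop where
  closed : l.head? = l.getLast?
  del : ∀ p ∈ prs l, DE S p.1 p.2

/-- the chain does not use the edge `p` -/
def Avoid (l : List ℂ) (p : ℂ × ℂ) : Prop := p ∉ prs l ∧ p.swap ∉ prs l

theorem Avoid.swap {l : List ℂ} {p : ℂ × ℂ} (h : Avoid l p) : Avoid l p.swap :=
  ⟨h.2, by rw [Prod.swap_swap]; exact h.1⟩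

theorem off_open (hS : GP (S : Set ℂ)) {l : List ℂ} (hl : Loop S l) {a b c x : ℂ}
    (h : (a, b, c) ∈ delT S) (hx : InO x a b c) : Off x l :=
  fun p hp => edge_open hS h hx (hl.del p hp)

theorem off_side (hS : GP (S : Set ℂ)) {l : List ℂ} (hl : Loop S l) {a b x : ℂ}
    (h : DE S a b) (hav : Avoid l (a, b)) {s t : ℝ} (hs : 0 < s)
    (ht : 0 < t) (hst : s + t = 1) (hx : x = (s : ℂ) * a + (t : ℂ) * b) : Off x l := by
  intro p hp hseg
  rcases edge_side hS h hs ht hst hx (hl.del p hp) hseg with ⟨h1, h2⟩ | ⟨h1, h2⟩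
  · exact hav.1 (by rw [← h1, ← h2]; exact hp)
  · exact hav.2 (by rw [Prod.swap_prod_mk, ← h1, ← h2]; exact hp)

theorem off_mid (hS : GP (S : Set ℂ)) {l : List ℂ} (hl : Loop S l) {a b : ℂ}
    (h : DE S a b) (hav : Avoid l (a, b)) : Off (mid (a, b)) l :=
  off_side hS hl h hav (s := 1 / 2) (t := 1 / 2) (by norm_num) (by norm_num) (by norm_num)
    (by unfold mid; push_cast; ring)

/-- one step through a triangle -/
theorem asum_step (hS : GP (S : Set ℂ)) {l : List ℂ} (hl : Loop S l) {a b c : ℂ}
    (h : (a, b, c) ∈ delT S) (h1 : Avoid l (a, b)) (h2 : Avoid l (b, c)) :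
    asum (mid (a, b)) l = asum (mid (c, b)) l := by
  refine asum_seg hl.closed fun z hz p hp hseg => ?_
  rcases step_seg hS h hz (hl.del p hp) hseg with (⟨e1, e2⟩ | ⟨e1, e2⟩) | (⟨e1, e2⟩ | ⟨e1, e2⟩)
  · exact h1.1 (by rw [← e1, ← e2]; exact hp)
  · exact h1.2 (by rw [Prod.swap_prod_mk, ← e1, ← e2]; exact hp)
  · exact h2.1 (by rw [← e1, ← e2]; exact hp)
  · exact h2.2 (by rw [Prod.swap_prod_mk, ← e1, ← e2]; exact hp)

theorem mid_swap (a b : ℂ) : mid (a, b) = mid (b, a) := by unfold mid; ring

theorem rot_mem {a b c : ℂ} (h : (a, b, c) ∈ delT S) : (b, c, a) ∈ delT S := by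
  obtain ⟨o, h⟩ := mem_delT_iff.1 h
  exact mem_delT_iff.2 ⟨o, h.rot⟩

/-- from an interior point of a triangle to the middle of a side -/
theorem asum_open_mid (hS : GP (S : Set ℂ)) {l : List ℂ} (hl : Loop S l) {a b c x : ℂ}
    (h : (a, b, c) ∈ delT S) (hx : InO x a b c) (h1 : Avoid l (a, b)) :
    asum x l = asum (mid (a, b)) l := by
  refine asum_seg hl.closed fun z hz => ?_
  obtain ⟨s, t, hs, ht, hst, rfl⟩ := hz
  rcases hs.lt_or_eq with hs | hs
  · refine off_open hS hl h ?_
    obtain ⟨x1, x2, x3⟩ := hx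
    have hpos := (mem_delT_iff.1 h).choose_spec.pos
    unfold Lft at x1 x2 x3
    rw [cr_sub] at x1 x2 x3 hpos
    have ht' : t = 1 - s := by linarith
    have hre : (s • x + t • mid (a, b)).re = s * x.re + t * ((a.re + b.re) / 2) := by
      simp [mid]
    have him : (s • x + t • mid (a, b)).im = s * x.im + t * ((a.im + b.im) / 2) := by
      simp [mid]
    refine ⟨?_, ?_, ?_⟩
    · unfold Lft
      rw [cr_sub, hre, him]
      have : (b.re - a.re) * (s * x.im + t * ((a.im + b.im) / 2) - a.im) -
          (b.im - a.im) * (s * x.re + t * ((a.re + b.re) / 2) - a.re) =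
          s * ((b.re - a.re) * (x.im - a.im) - (b.im - a.im) * (x.re - a.re)) := by
        subst ht'; ring
      rw [this]; positivity
    · unfold Lft
      rw [cr_sub, hre, him]
      have : (c.re - b.re) * (s * x.im + t * ((a.im + b.im) / 2) - b.im) -
          (c.im - b.im) * (s * x.re + t * ((a.re + b.re) / 2) - b.re) =
          s * ((c.re - b.re) * (x.im - b.im) - (c.im - b.im) * (x.re - b.re)) +
          (t / 2) * ((b.re - a.re) * (c.im - a.im) - (b.im - a.im) * (c.re - a.re)) := by
        subst ht'; ring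
      rw [this]; positivity
    · unfold Lft
      rw [cr_sub, hre, him]
      have : (a.re - c.re) * (s * x.im + t * ((a.im + b.im) / 2) - c.im) -
          (a.im - c.im) * (s * x.re + t * ((a.re + b.re) / 2) - c.re) =
          s * ((a.re - c.re) * (x.im - c.im) - (a.im - c.im) * (x.re - c.re)) +
          (t / 2) * ((b.re - a.re) * (c.im - a.im) - (b.im - a.im) * (c.re - a.re)) := by
        subst ht'; ring
      rw [this]; positivity
  · have h1' : t = 1 := by linarith
    rw [← hs, h1', zero_smul, one_smul, zero_add]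
    exact off_mid hS hl (Or.inl ⟨c, h⟩) h1

/-- two interior points of the same triangle -/
theorem asum_open_open (hS : GP (S : Set ℂ)) {l : List ℂ} (hl : Loop S l) {a b c x y : ℂ}
    (h : (a, b, c) ∈ delT S) (hx : InO x a b c) (hy : InO y a b c) : asum x l = asum y l := by
  refine asum_seg hl.closed fun z hz => off_open hS hl h ?_
  obtain ⟨s, t, hs, ht, hst, rfl⟩ := hz
  have key : ∀ u v : ℂ, Lft x u v → Lft y u v → Lft (s • x + t • y) u v := by
    intro u v h1 h2
    unfold Lft at h1 h2 ⊢
    rw [cr_sub] at h1 h2 ⊢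
    have hs' : s = 1 - t := by linarith
    have : (v.re - u.re) * ((s • x + t • y).im - u.im) - (v.im - u.im) * ((s • x + t • y).re - u.re)
        = s * ((v.re - u.re) * (x.im - u.im) - (v.im - u.im) * (x.re - u.re)) +
          t * ((v.re - u.re) * (y.im - u.im) - (v.im - u.im) * (y.re - u.re)) := by
      subst hs'
      simp only [Complex.add_re, Complex.add_im, Complex.real_smul, Complex.mul_re, Complex.mul_im,
        Complex.ofReal_re, Complex.ofReal_im]
      ring
    rw [this]
    rcases hs.lt_or_eq with h0 | h0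
    · have := mul_pos h0 h1
      have := mul_nonneg ht h2.le
      linarith
    · have : t = 1 := by linarith
      rw [← h0, this]; linarith
  exact ⟨key _ _ hx.1 hy.1, key _ _ hx.2.1 hy.2.1, key _ _ hx.2.2 hy.2.2⟩

/-- points outside the hull -/
theorem asum_out {l : List ℂ} (hc : l.head? = l.getLast?) {a b y : ℂ}
    (hl : ∀ s ∈ l, 0 ≤ cr (b - a) (s - a)) (hy : cr (b - a) (y - a) < 0) : asum y l = 0 := by
  have hab : b - a ≠ 0 := by
    intro h0; rw [h0] at hy; simp [cr] at hy
  refine asum_half_closed (u := Complex.I * (b - a)) hc fun s hs => ?_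
  have h1 := hl s hs
  have h2 : 0 < cr (b - a) (s - y) := by
    have : cr (b - a) (s - y) = cr (b - a) (s - a) - cr (b - a) (y - a) := by
      unfold cr; simp only [Complex.sub_re, Complex.sub_im]; ring
    rw [this]; linarith
  have h3 : ((s - y) / (Complex.I * (b - a))).re = cr (b - a) (s - y) / Complex.normSq (b - a) := by
    rw [Complex.div_re, Complex.normSq_mul, Complex.normSq_I, one_mul]
    simp only [Complex.mul_re, Complex.mul_im, Complex.I_re, Complex.I_im, zero_mul, one_mul,
      zero_sub, zero_add]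
    unfold cr
    ring
  rw [h3]
  exact div_pos h2 (Complex.normSq_pos.2 hab)

/-- at the middle of a hull edge which is not used the total angle is `0` -/
theorem asum_hull (hS : GP (S : Set ℂ)) {l : List ℂ} (hl : Loop S l) (hlS : ∀ s ∈ l, s ∈ S)
    {a b : ℂ} (h : hullE S a b) (hav : Avoid l (a, b)) : asum (mid (a, b)) l = 0 := by
  have hab : b - a ≠ 0 := by
    intro h0
    exact hullE.ne h (sub_eq_zero.1 h0).symm
  have hn : 0 < Complex.normSq (b - a) := Complex.normSq_pos.2 hab
  rw [Complex.normSq_apply] at hn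
  simp only [Complex.sub_re, Complex.sub_im] at hn
  set y : ℂ := mid (a, b) - Complex.I * (b - a) with hy
  have hcr : ∀ z ∈ segment ℝ (mid (a, b)) y, z ≠ mid (a, b) → cr (b - a) (z - a) < 0 := by
    rintro z ⟨s, t, hs, ht, hst, rfl⟩ hne
    have ht0 : 0 < t := by
      rcases ht.lt_or_eq with h0 | h0
      · exact h0
      · exfalso
        apply hne
        rw [← h0, show s = 1 by linarith]; simp
    have hs' : s = 1 - t := by linarith
    rw [cr_sub]
    have hre : (s • mid (a, b) + t • y).re = (a.re + b.re) / 2 + t * (b.im - a.im) := by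
      rw [hy, hs']
      simp [mid]
      ring
    have him : (s • mid (a, b) + t • y).im = (a.im + b.im) / 2 - t * (b.re - a.re) := by
      rw [hy, hs']
      simp [mid]
      ring
    rw [hre, him]
    have : (b.re - a.re) * ((a.im + b.im) / 2 - t * (b.re - a.re) - a.im) -
        (b.im - a.im) * ((a.re + b.re) / 2 + t * (b.im - a.im) - a.re) =
        - (t * ((b.re - a.re) * (b.re - a.re) + (b.im - a.im) * (b.im - a.im))) := by ring
    rw [this]
    have := mul_pos ht0 hn
    linarith
  have hside := hull_side h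
  have h1 : asum (mid (a, b)) l = asum y l := by
    refine asum_seg hl.closed fun z hz => ?_
    by_cases hzm : z = mid (a, b)
    · rw [hzm]; exact off_mid hS hl (Or.inl h.1) hav
    · intro p hp hseg
      have h2 := hcr z hz hzm
      have m1 := hside p.1 (hlS _ (mem_of_prs hp).1)
      have m2 := hside p.2 (hlS _ (mem_of_prs hp).2)
      obtain ⟨s, t, hs, ht, hst, rfl⟩ := hseg
      have hs' : s = 1 - t := by linarith
      have : cr (b - a) (s • p.1 + t • p.2 - a) = s * cr (b - a) (p.1 - a) +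
          t * cr (b - a) (p.2 - a) := by
        rw [cr_sub, cr_sub, cr_sub]
        simp only [Complex.add_re, Complex.add_im, Complex.real_smul, Complex.mul_re,
          Complex.mul_im, Complex.ofReal_re, Complex.ofReal_im]
        subst hs'; ring
      rw [this] at h2
      have := mul_nonneg hs m1
      have := mul_nonneg ht m2
      linarith
  rw [h1]
  refine asum_out (a := a) (b := b) hl.closed (fun s hs => hside s (hlS s hs)) ?_
  refine hcr y (right_mem_segment ℝ _ _) ?_
  intro h0
  have : Complex.I * (b - a) = 0 := by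
    have : mid (a, b) - Complex.I * (b - a) = mid (a, b) := h0
    linear_combination -this
  rcases mul_eq_zero.1 this with h2 | h2
  · exact Complex.I_ne_zero h2
  · exact hab h2

/-! ### the walker -/

/-- the chain uses no edge of `J` -/
def JFree (J : Finset (ℂ × ℂ)) (l : List ℂ) : Prop := ∀ p ∈ prs l, p ∉ J ∧ p.swap ∉ J

theorem JFree.avoid {J : Finset (ℂ × ℂ)} {l : List ℂ} (h : JFree J l) {p : ℂ × ℂ}
    (hp : p ∈ J ∨ p.swap ∈ J) : Avoid l p := by
  constructor
  · intro h1
    rcases hp with h2 | h2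
    · exact (h p h1).1 h2
    · exact (h p h1).2 h2
  · intro h1
    rcases hp with h2 | h2
    · exact (h _ h1).2 (by rw [Prod.swap_swap]; exact h2)
    · exact (h _ h1).1 h2

theorem step_occ {G : Trg ℂ} {O : Set (ℂ × ℂ × ℂ)} {D : Set (ℂ × ℂ)} {J : Finset (ℂ × ℂ)}
    {p q : ℂ × ℂ} (h : Step G O D J p q) : q.swap ∈ J := by
  obtain ⟨c, -, -, -, h | h⟩ := h
  · rw [h.2]; exact h.1
  · rw [h.2.2]; exact h.1

theorem step_asum (hS : GP (S : Set ℂ)) {G : Trg ℂ} (hG : G.T = delT S) {O : Set (ℂ × ℂ × ℂ)}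
    {D : Set (ℂ × ℂ)} {J : Finset (ℂ × ℂ)} {l : List ℂ} (hl : Loop S l) {p q : ℂ × ℂ}
    (hp : Avoid l p) (hq : Avoid l q) (h : Step G O D J p q) :
    asum (mid p) l = asum (mid q) l := by
  obtain ⟨a, b⟩ := p
  obtain ⟨c, hc, -, -, h | h⟩ := h
  · rw [hG] at hc
    obtain ⟨-, rfl⟩ := h
    exact asum_step hS hl hc hp hq.swap
  · rw [hG] at hc
    obtain ⟨-, -, rfl⟩ := h
    have := asum_step hS hl (rot_mem (rot_mem hc)) (a := c) (b := a) (c := b) hq.swap hp
    rw [mid_swap c a, mid_swap b a] at this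
    exact this.symm

/-- the walker does not cross a closed chain without occupied edges -/
theorem leads_asum (hS : GP (S : Set ℂ)) {G : Trg ℂ} (hG : G.T = delT S) {O : Set (ℂ × ℂ × ℂ)}
    {D : Set (ℂ × ℂ)} {J : Finset (ℂ × ℂ)} {l : List ℂ} (hl : Loop S l) (hJ : JFree J l)
    {p q : ℂ × ℂ} (hp : p ∈ J ∨ p.swap ∈ J) (h : Leads G O D J p q) :
    asum (mid p) l = asum (mid q) l ∧ (q ∈ J ∨ q.swap ∈ J) := by
  induction h with
  | refl => exact ⟨rfl, hp⟩
  | tail _ hst ih =>
    obtain ⟨h1, h2⟩ := ih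
    have h3 := step_occ hst
    exact ⟨h1.trans (step_asum hS hG hl (hJ.avoid h2) (hJ.avoid (Or.inr h3)) hst), Or.inr h3⟩

/-- **P3**: if a closed chain of sites without occupied edges has a nonzero total angle seen from the
middle of an occupied edge `p` then the leg from `p` does not arrive at a hull edge -/
theorem P3 (hS : GP (S : Set ℂ)) {G : Trg ℂ} (hG : G.T = delT S) {O : Set (ℂ × ℂ × ℂ)}
    {D : Set (ℂ × ℂ)} {J : Finset (ℂ × ℂ)} {l : List ℂ} (hl : Loop S l) (hlS : ∀ s ∈ l, s ∈ S)
    (hJ : JFree J l) {p x : ℂ × ℂ} (hp : p ∈ J ∨ p.swap ∈ J) (hx : hullE S x.1 x.2)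
    (hw : asum (mid p) l ≠ 0) : ¬ Ends G O D J p x := by
  intro h
  obtain ⟨h1, h2⟩ := leads_asum hS hG hl hJ hp h
  apply hw
  rw [h1, mid_swap]
  refine asum_hull hS hl hlS hx ?_
  have := (hJ.avoid h2).swap
  simpa using this

end Crest.Agent.R143.Blkx838
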