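import Crest.Agent.R143.Spl1_117

/-!
# Row 143 (S0194), part B without E3: splitting of a block at cut states, file 2 (helper117)

* `InK M x p A B i` : the gap `gp i` is on the block path of the arc `[A, B]` : no left cell occurs
  both at a time in `[A, i]` and at a time in `(i, B]`
* `ink_add` : additivity along an arc
* `ink_exists` : the block path of an arc with different end cells is not empty
* `Lp.rel_iff` : the relation of two gaps of a loop in terms of times
* `blk_two` : a loop cut at two times `0`, `m` : the block is the union of the two block paths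
* `ink_sum`, `ring_blk`, `ring_sum` : several cuts
* `cut_of_links` : the hypothesis from links (chains between consecutive cut cells)
-/

set_option autoImplicit false

noncomputable section

open scoped Classical

namespace Crest.Agent.R143.Splx117

open Crest.Agent.R143.Frame1x395 Crest.Agent.R143.Frame2x395 Crest.Agent.R143.Frame3x395
  Crest.Agent.R143.Frame4x395 Crest.Agent.R143.Frame8x395 Crest.Agent.R143.Frame9x395
  Crest.Agent.R143.Frame11x395

variable {D C : Type} {M : CMap D C} {x : D → ZMod 2} {p : D} {N : ℕ} {c : C}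

/-- the gap of the time `i` is on the block path of the arc `[A, B]` -/
structure InK (M : CMap D C) (x : D → ZMod 2) (p : D) (A B i : ℕ) : Prop where
  lo : A ≤ i
  hi : i < B
  gap : x (gp M x p i) = 0
  sep : ∀ j l, A ≤ j → j ≤ i → i < l → l ≤ B → lc M x p j ≠ lc M x p l

/-- **additivity along an arc** -/
theorem ink_add {A m B i : ℕ} (h1 : A ≤ m) (h2 : m ≤ B)
    (hc : ∀ j l, A ≤ j → j ≤ m → m ≤ l → l ≤ B → lc M x p j = lc M x p l →
      lc M x p j = lc M x p m) :
    InK M x p A B i ↔ InK M x p A m i ∨ InK M x p m B i := by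
  constructor
  · intro h
    rcases Nat.lt_or_ge i m with hi | hi
    · exact Or.inl ⟨h.lo, hi, h.gap, fun j l a1 a2 a3 a4 => h.sep j l a1 a2 a3 (a4.trans h2)⟩
    · exact Or.inr ⟨hi, h.hi, h.gap, fun j l a1 a2 a3 a4 => h.sep j l (h1.trans a1) a2 a3 a4⟩
  · rintro (h | h)
    · refine ⟨h.lo, h.hi.trans_le h2, h.gap, fun j l a1 a2 a3 a4 e => ?_⟩
      have hi := h.hi
      rcases Nat.lt_or_ge m l with hl | hl
      · have e1 := hc j l a1 (by omega) hl.le a4 e
        exact h.sep j m a1 a2 hi le_rfl e1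
      · exact h.sep j l a1 a2 a3 hl e
    · refine ⟨h1.trans h.lo, h.hi, h.gap, fun j l a1 a2 a3 a4 e => ?_⟩
      have hi := h.lo
      rcases Nat.lt_or_ge j m with hl | hl
      · have e1 := hc j l a1 hl.le (by omega) a4 e
        exact h.sep m l le_rfl hi a3 a4 (e1.symm.trans e)
      · exact h.sep j l hl a2 a3 a4 e

/-- **the block path is not empty** -/
theorem ink_exists [Finite D] (L : Lp M x p N) {A B : ℕ} (h1 : A ≤ B) (h2 : B < A + N)
    (hne : lc M x p A ≠ lc M x p B) : ∃ i, InK M x p A B i := by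
  have hlt : A < B := by
    rcases h1.lt_or_eq with h | h
    · exact h
    · exact absurd (by rw [h]) hne
  obtain ⟨i, a1, a2, a3, a4⟩ := last_time (Q := fun i => lc M x p i = lc M x p A) hlt rfl
    (fun e => hne e.symm)
  refine ⟨i, a1, a2, L.gap_of_ne ?_, fun j l b1 b2 b3 b4 e => ?_⟩
  · rw [a3]
    exact a4 (i + 1) (by omega) (by omega)
  · have c1 : lc M x p l ≠ lc M x p A := a4 l b3 b4
    have c2 : lc M x p j ≠ lc M x p A := by rw [e]; exact c1
    have c3 : j ≠ A := by rintro rfl; exact c2 rfl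
    have c4 : j ≠ i := by rintro rfl; exact c2 a3
    have hit : ∀ n, (stp M x)^[n] ((stp M x)^[A] p) = (stp M x)^[n + A] p := fun n => by
      rw [← Function.iterate_add_apply]
    apply c2
    have := NonXx592.noncross L.even (p := (stp M x)^[A] p) (L.st A) (k := j - A) (j := i - A)
      (l := l - A) (by omega) (by omega) (by omega) (fun a b hab hb => by
        show (stp M x)^[a] _ ≠ (stp M x)^[b] _
        rw [hit, hit]
        exact L.ne (by omega) (by omega))
      (by
        show M.cell ((stp M x)^[i - A] _) = _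
        rw [hit, show i - A + A = i by omega]
        exact a3)
      (by
        show M.cell ((stp M x)^[j - A] _) = M.cell ((stp M x)^[l - A] _)
        rw [hit, hit, show j - A + A = j by omega, show l - A + A = l by omega]
        exact e)
    change M.cell ((stp M x)^[j - A] _) = _ at this
    rw [hit, show j - A + A = j by omega] at this
    exact this

/-! ### the relation in terms of times -/

theorem Lp.av_iff (L : Lp M x p N) {i j : ℕ} (hi : x (gp M x p i) = 0) (h1 : i < j)
    (h2 : j ≤ i + N) :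
    Av M x c (out M (gp M x p i)) (M.rho (gp M x p j)) ↔
      ∀ l, i < l → l ≤ j → lc M x p l ≠ c := by
  have hit : ∀ n, (stp M x)^[n] (out M (gp M x p i)) = (stp M x)^[n + (i + 1)] p := by
    intro n
    rw [L.out_eq hi, ← Function.iterate_add_apply]
  constructor
  · rintro ⟨n, h3, h4⟩ l h5 h6
    rw [hit, rho_gp] at h3
    have hn : j ≤ n + (i + 1) := by
      by_contra hc
      push Not at hc
      exact L.ne hc (by omega) h3
    have h7 := h4 (l - (i + 1)) (by omega)
    rw [hit, show l - (i + 1) + (i + 1) = l by omega] at h7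
    exact h7
  · intro h
    refine ⟨j - (i + 1), ?_, fun k hk => ?_⟩
    · rw [hit, rho_gp, show j - (i + 1) + (i + 1) = j by omega]
    · rw [hit]
      exact h _ (by omega) (by omega)

theorem Lp.rel_iff (L : Lp M x p N) {i j : ℕ} (hi : x (gp M x p i) = 0)
    (hj : x (gp M x p j) = 0) (h1 : i < j) (h2 : j < i + N) :
    Rel M x (gp M x p i) (gp M x p j) ↔
      ∀ l l', i < l → l ≤ j → j < l' → l' ≤ i + N → lc M x p l ≠ lc M x p l' := by
  have hne := L.gp_ne h1 h2
  have hgN : M.rho (gp M x p i) = M.rho (gp M x p (i + N)) := by rw [L.gp_add]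
  constructor
  · intro H l l' a1 a2 a3 a4 e
    rcases H (lc M x p l) with h3 | h3 | h3
    · exact hne h3
    · exact (L.av_iff hi h1 h2.le).1 h3 l a1 a2 rfl
    · rw [hgN] at h3
      exact (L.av_iff hj h2 (by omega)).1 h3 l' a3 a4 e.symm
  · intro H c
    by_cases hc : ∀ l, i < l → l ≤ j → lc M x p l ≠ c
    · exact Or.inr (Or.inl ((L.av_iff hi h1 h2.le).2 hc))
    · push Not at hc
      obtain ⟨l, a1, a2, rfl⟩ := hc
      refine Or.inr (Or.inr ?_)
      rw [hgN]
      exact (L.av_iff hj h2 (by omega)).2 fun l' a3 a4 e => H l l' a1 a2 a3 a4 e.symm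

/-- gaps related to a gap of the loop are on the loop -/
theorem Lp.rel_time [Finite D] (L : Lp M x p N) {i : ℕ} (hi : x (gp M x p i) = 0) {t : D}
    (ht : Gp M x t) (H : Rel M x (gp M x p i) t) : ∃ j, j < N ∧ t = gp M x p j := by
  have key : ∃ n, (stp M x)^[n] (out M (gp M x p i)) = M.rho t ∨ t = gp M x p i := by
    rcases H (M.cell t) with h1 | ⟨n, h1, -⟩ | ⟨n, h1, -⟩
    · exact ⟨0, Or.inr h1.symm⟩
    · exact ⟨n, Or.inl h1⟩
    · obtain ⟨m, hm⟩ := come_back L.even ht (L.gap hi) h1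
      exact ⟨m, Or.inl hm⟩
  obtain ⟨n, h1 | h1⟩ := key
  · rw [L.out_eq hi, ← Function.iterate_add_apply, L.mod] at h1
    exact ⟨_, Nat.mod_lt _ L.pos, L.eq_gp h1⟩
  · refine ⟨i % N, Nat.mod_lt _ L.pos, ?_⟩
    rw [h1]
    unfold gp
    rw [← L.mod]

/-! ### a loop cut at two times -/

/-- **a loop cut at the times `0` and `m`** -/
theorem rel_two (L : Lp M x p N) {m : ℕ} (hm : m ≤ N)
    (hc : ∀ j l, j ≤ m → m ≤ l → l ≤ N → lc M x p j = lc M x p l →
      lc M x p j = lc M x p 0 ∨ lc M x p j = lc M x p m) {i j : ℕ}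
    (hi : InK M x p 0 m i ∨ InK M x p m N i) (hj : x (gp M x p j) = 0) (hjN : j < N) :
    Rel M x (gp M x p i) (gp M x p j) ↔ InK M x p 0 m j ∨ InK M x p m N j := by
  -- consequences
  have cs : ∀ {i : ℕ}, InK M x p 0 m i ∨ InK M x p m N i →
      i < N ∧ x (gp M x p i) = 0 ∧
      (∀ a b, a ≤ i → i < b → b ≤ m → lc M x p a ≠ lc M x p b) ∧
      (∀ a b, m ≤ a → a ≤ i → i < b → b ≤ N → lc M x p a ≠ lc M x p b) := by
    rintro i (h | h)
    · have h1 := h.hi
      exact ⟨by omega, h.gap, fun a b a1 a2 a3 => h.sep a b (Nat.zero_le _) a1 a2 a3,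
        fun a b a1 a2 => by omega⟩
    · have h1 := h.lo
      exact ⟨h.hi, h.gap, fun a b a1 a2 => by omega, fun a b a1 a2 a3 a4 => h.sep a b a1 a2 a3 a4⟩
  have l0 : lc M x p N = lc M x p 0 := by
    have := L.lc_add 0
    rwa [zero_add] at this
  have fwd : ∀ {i j : ℕ}, i < j → InK M x p 0 m i ∨ InK M x p m N i →
      InK M x p 0 m j ∨ InK M x p m N j → Rel M x (gp M x p i) (gp M x p j) := by
    intro i j hij hi hj
    obtain ⟨i1, i2, i3, i4⟩ := cs hi
    obtain ⟨j1, j2, j3, j4⟩ := cs hj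
    refine (L.rel_iff i2 j2 hij (by omega)).2 fun l l' a1 a2 a3 a4 e => ?_
    rcases Nat.lt_or_ge N l' with hl' | hl'
    · -- the second cell is before `i`
      obtain ⟨r, rfl⟩ : ∃ r, l' = r + N := ⟨l' - N, by omega⟩
      rw [L.lc_add] at e
      rcases Nat.lt_or_ge m l with hl | hl
      · rcases Nat.lt_or_ge r m with hr | hr
        · rcases hc r l hr.le hl.le (by omega) e.symm with h5 | h5
          · exact j4 l N hl.le a2 (by omega) le_rfl (by rw [l0, e, h5])
          · rcases Nat.lt_or_ge i m with him | him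
            · exact i3 r m (by omega) him le_rfl h5
            · exact i4 m l le_rfl him a1 (by omega) (by rw [e, h5])
        · exact i4 r l hr (by omega) a1 (by omega) e.symm
      · exact i3 r l (by omega) a1 hl e.symm
    · rcases Nat.lt_or_ge m l with hl | hl
      · exact j4 l l' hl.le a2 a3 hl' e
      · rcases Nat.lt_or_ge m l' with hm' | hm'
        · rcases hc l l' hl hm'.le hl' e with h5 | h5
          · exact i3 0 l (Nat.zero_le _) a1 hl h5.symm
          · rcases Nat.lt_or_ge j m with hjm | hjm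
            · exact j3 l m a2 hjm le_rfl h5
            · exact j4 m l' le_rfl hjm a3 hl' (by rw [← h5, e])
        · exact j3 l l' a2 a3 hm' e
  have bwd : ∀ {i j : ℕ}, j < N → x (gp M x p j) = 0 → InK M x p 0 m i ∨ InK M x p m N i →
      i ≠ j → Rel M x (gp M x p i) (gp M x p j) → ∀ a b, a ≤ j → j < b → b ≤ N →
      (b ≤ m ∨ m ≤ a) → lc M x p a ≠ lc M x p b := by
    intro i j hjN hj hi hne H a b a1 a2 a3 a4 e
    obtain ⟨i1, i2, i3, i4⟩ := cs hi
    rcases Nat.lt_or_ge i a with h5 | h5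
    · exact (L.rel_iff i2 hj (by omega) (by omega)).1 H a b h5 a1 a2 (by omega) e
    · rcases Nat.lt_or_ge i b with h6 | h6
      · rcases a4 with h7 | h7
        · exact i3 a b h5 h6 h7 e
        · exact i4 a b h7 h5 h6 a3 e
      · refine (L.rel_iff hj i2 (by omega) (by omega)).1 (fun c => (H c).symm) b (a + N) a2 h6
          (by omega) (by omega) ?_
        rw [L.lc_add, e]
  constructor
  · intro H
    by_cases hij : i = j
    · rw [← hij]; exact hi
    · rcases Nat.lt_or_ge j m with hjm | hjm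
      · exact Or.inl ⟨Nat.zero_le _, hjm, hj, fun a b _ a1 a2 a3 =>
          bwd hjN hj hi hij H a b a1 a2 (a3.trans hm) (Or.inl a3)⟩
      · exact Or.inr ⟨hjm, hjN, hj, fun a b a0 a1 a2 a3 =>
          bwd hjN hj hi hij H a b a1 a2 a3 (Or.inr a0)⟩
  · intro hj'
    rcases lt_trichotomy i j with h | rfl | h
    · exact fwd h hi hj'
    · exact fun _ => Or.inl rfl
    · exact fun c => (fwd h hj' hi c).symm

/-- the block of a loop cut at two times -/
theorem blk_two [Fintype D] (L : Lp M x p N) {m : ℕ} (hm : m ≤ N)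
    (hc : ∀ j l, j ≤ m → m ≤ l → l ≤ N → lc M x p j = lc M x p l →
      lc M x p j = lc M x p 0 ∨ lc M x p j = lc M x p m) {i : ℕ}
    (hi : InK M x p 0 m i ∨ InK M x p m N i) (t : D) :
    t ∈ blk M x (gp M x p i) ↔ ∃ j, (InK M x p 0 m j ∨ InK M x p m N j) ∧ t = gp M x p j := by
  have hig : x (gp M x p i) = 0 := by
    rcases hi with h | h
    · exact h.gap
    · exact h.gap
  rw [mem_blk]
  constructor
  · rintro ⟨h1, h2⟩
    obtain ⟨j, h3, rfl⟩ := L.rel_time hig h1 h2
    exact ⟨j, (rel_two L hm hc hi h1.1 h3).1 h2, rfl⟩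
  · rintro ⟨j, h1, rfl⟩
    have hj : j < N ∧ x (gp M x p j) = 0 := by
      rcases h1 with h | h
      · exact ⟨h.hi.trans_le hm, h.gap⟩
      · exact ⟨h.hi, h.gap⟩
    exact ⟨L.gap hj.2, (rel_two L hm hc hi hj.2 hj.1).2 h1⟩

/-! ### several cuts -/

/-- the cut hypothesis for the arcs `a ≤ k < b` : common left cells are common end cells -/
def Cut (M : CMap D C) (x : D → ZMod 2) (p : D) (T : ℕ → ℕ) (a b : ℕ) : Prop :=
  ∀ k k', a ≤ k → k < k' → k' < b → ∀ u v, T k ≤ u → u ≤ T (k + 1) → T k' ≤ v →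
    v ≤ T (k' + 1) → lc M x p u = lc M x p v → k' = k + 1 ∧ lc M x p u = lc M x p (T k')

theorem mono_of {T : ℕ → ℕ} {a b : ℕ} (h : ∀ k, a ≤ k → k < b → T k ≤ T (k + 1)) {k l : ℕ}
    (h1 : a ≤ k) (h2 : k ≤ l) (h3 : l ≤ b) : T k ≤ T l := by
  induction l with
  | zero => rw [Nat.le_zero.1 h2]
  | succ l ih =>
    rcases h2.lt_or_eq with h4 | h4
    · exact (ih (by omega) (by omega)).trans (h l (by omega) (by omega))
    · rw [h4]

/-- the arc of a time -/
theorem arc_of {T : ℕ → ℕ} {a b u : ℕ} (hab : a < b) (h1 : T a ≤ u) (h2 : u ≤ T b) :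
    ∃ k, a ≤ k ∧ k < b ∧ T k ≤ u ∧ u ≤ T (k + 1) := by
  induction b with
  | zero => omega
  | succ b ih =>
    rcases Nat.lt_or_ge u (T b) with h3 | h3
    · rcases Nat.lt_or_ge a b with h4 | h4
      · obtain ⟨k, a1, a2, a3, a4⟩ := ih h4 h3.le
        exact ⟨k, a1, by omega, a3, a4⟩
      · rw [show b = a by omega] at h3
        omega
    · exact ⟨b, by omega, by omega, h3, h2⟩

/-- **additivity along several arcs** -/
theorem ink_sum {T : ℕ → ℕ} {a b : ℕ} (hab : a < b)
    (hmono : ∀ k, a ≤ k → k < b → T k ≤ T (k + 1)) (hcut : Cut M x p T a b) {i : ℕ} :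
    InK M x p (T a) (T b) i ↔ ∃ k, a ≤ k ∧ k < b ∧ InK M x p (T k) (T (k + 1)) i := by
  induction b with
  | zero => omega
  | succ b ih =>
    rcases Nat.lt_or_ge a b with h1 | h1
    · have ih' := ih h1 (fun k h2 h3 => hmono k h2 (by omega))
        (fun k k' a1 a2 a3 => hcut k k' a1 a2 (by omega))
      rw [ink_add (m := T b) (mono_of hmono le_rfl h1.le (by omega)) (hmono b h1.le (by omega))
        (fun j l a1 a2 a3 a4 e => by
          obtain ⟨k, b1, b2, b3, b4⟩ := arc_of h1 a1 a2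
          exact (hcut k b b1 b2 (by omega) j l b3 b4 a3 a4 e).2), ih']
      constructor
      · rintro (⟨k, a1, a2, a3⟩ | h)
        · exact ⟨k, a1, by omega, a3⟩
        · exact ⟨b, h1.le, by omega, h⟩
      · rintro ⟨k, a1, a2, a3⟩
        rcases Nat.lt_or_ge k b with h2 | h2
        · exact Or.inl ⟨k, a1, h2, a3⟩
        · rw [show k = b by omega] at a3
          exact Or.inr a3
    · rw [show b = a by omega]
      constructor
      · intro h
        exact ⟨a, le_rfl, by omega, h⟩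
      · rintro ⟨k, a1, a2, a3⟩
        rw [show k = a by omega] at a3
        exact a3

/-- the cut hypothesis for a closed loop -/
def CutC (M : CMap D C) (x : D → ZMod 2) (p : D) (T : ℕ → ℕ) (n : ℕ) : Prop :=
  ∀ k k', k < k' → k' < n → ∀ u v, T k ≤ u → u ≤ T (k + 1) → T k' ≤ v →
    v ≤ T (k' + 1) → lc M x p u = lc M x p v →
    (k' = k + 1 ∧ lc M x p u = lc M x p (T k')) ∨ (k = 0 ∧ k' + 1 = n ∧ lc M x p u = lc M x p 0)

/-- **the block of a ring** -/
theorem ring_blk [Fintype D] (L : Lp M x p N) {n : ℕ} (hn : 2 ≤ n) {T : ℕ → ℕ} (T0 : T 0 = 0)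
    (Tn : T n = N) (hmono : ∀ k, k < n → T k ≤ T (k + 1)) (hcut : CutC M x p T n) {k0 i0 : ℕ}
    (hk0 : k0 < n) (hi0 : InK M x p (T k0) (T (k0 + 1)) i0) (t : D) :
    t ∈ blk M x (gp M x p i0) ↔ ∃ k, k < n ∧ ∃ i, InK M x p (T k) (T (k + 1)) i ∧
      t = gp M x p i := by
  have hm : T 1 ≤ N := by
    rw [← Tn]
    exact mono_of (a := 0) (b := n) (fun k _ hk => hmono k hk) (Nat.zero_le _) (by omega) le_rfl
  have hc : ∀ j l, j ≤ T 1 → T 1 ≤ l → l ≤ N → lc M x p j = lc M x p l →
      lc M x p j = lc M x p 0 ∨ lc M x p j = lc M x p (T 1) := by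
    intro j l a1 a2 a3 e
    obtain ⟨k, b1, b2, b3, b4⟩ := arc_of (T := T) (a := 1) (b := n) (by omega) a2
      (by rw [Tn]; exact a3)
    rcases hcut 0 k (by omega) b2 j l (by rw [T0]; exact Nat.zero_le _) a1 b3 b4 e with h | h
    · right
      rw [h.2, h.1]
    · exact Or.inl h.2.2
  have hcut' : Cut M x p T 1 n := by
    intro k k' a1 a2 a3 u v b1 b2 b3 b4 e
    rcases hcut k k' a2 a3 u v b1 b2 b3 b4 e with h | h
    · exact h
    · omega
  have key : ∀ i, InK M x p 0 (T 1) i ∨ InK M x p (T 1) N i ↔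
      ∃ k, k < n ∧ InK M x p (T k) (T (k + 1)) i := by
    intro i
    have h1 := ink_sum (M := M) (x := x) (p := p) (T := T) (a := 1) (b := n) (by omega)
      (fun k _ hk => hmono k hk) hcut' (i := i)
    rw [Tn] at h1
    rw [h1]
    constructor
    · rintro (h | ⟨k, a1, a2, a3⟩)
      · exact ⟨0, by omega, by rw [T0]; exact h⟩
      · exact ⟨k, a2, a3⟩
    · rintro ⟨k, a1, a2⟩
      rcases Nat.eq_zero_or_pos k with rfl | hk
      · left
        rw [T0] at a2
        exact a2
      · exact Or.inr ⟨k, hk, a1, a2⟩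
  rw [blk_two L hm hc ((key i0).2 ⟨k0, hk0, hi0⟩) t]
  constructor
  · rintro ⟨j, h1, h2⟩
    obtain ⟨k, h3, h4⟩ := (key j).1 h1
    exact ⟨k, h3, j, h4, h2⟩
  · rintro ⟨k, h1, j, h2, h3⟩
    exact ⟨j, (key j).2 ⟨k, h1, h2⟩, h3⟩

/-- charge of the block path of an arc -/
def KS {A : Type} [AddCommMonoid A] (M : CMap D C) (x : D → ZMod 2) (p : D) (w : D → A)
    (a b : ℕ) : A :=
  ∑ i ∈ (Finset.Ico a b).filter (InK M x p a b), w (gp M x p i)

/-- **additivity of the charge along an arc** -/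
theorem ks_add {A : Type} [AddCommMonoid A] {w : D → A} {a m b : ℕ} (h1 : a ≤ m) (h2 : m ≤ b)
    (hc : ∀ j l, a ≤ j → j ≤ m → m ≤ l → l ≤ b → lc M x p j = lc M x p l →
      lc M x p j = lc M x p m) :
    KS M x p w a b = KS M x p w a m + KS M x p w m b := by
  unfold KS
  rw [← Finset.sum_union]
  · refine Finset.sum_congr ?_ fun _ _ => rfl
    ext i
    simp only [Finset.mem_filter, Finset.mem_union, Finset.mem_Ico]
    constructor
    · rintro ⟨-, h⟩
      rcases (ink_add h1 h2 hc).1 h with h | h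
      · exact Or.inl ⟨⟨h.lo, h.hi⟩, h⟩
      · exact Or.inr ⟨⟨h.lo, h.hi⟩, h⟩
    · rintro (⟨-, h⟩ | ⟨-, h⟩)
      · have := (ink_add h1 h2 hc).2 (Or.inl h)
        exact ⟨⟨this.lo, this.hi⟩, this⟩
      · have := (ink_add h1 h2 hc).2 (Or.inr h)
        exact ⟨⟨this.lo, this.hi⟩, this⟩
  · rw [Finset.disjoint_left]
    intro i hi hi'
    rw [Finset.mem_filter, Finset.mem_Ico] at hi hi'
    omega

/-- **additivity of the charge along several arcs** -/
theorem ks_sum {A : Type} [AddCommMonoid A] {w : D → A} {T : ℕ → ℕ} {a b : ℕ} (hab : a < b)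
    (hmono : ∀ k, a ≤ k → k < b → T k ≤ T (k + 1)) (hcut : Cut M x p T a b) :
    KS M x p w (T a) (T b) = ∑ k ∈ Finset.Ico a b, KS M x p w (T k) (T (k + 1)) := by
  induction b with
  | zero => omega
  | succ b ih =>
    rcases Nat.lt_or_ge a b with h1 | h1
    · have ih' := ih h1 (fun k h2 h3 => hmono k h2 (by omega))
        (fun k k' a1 a2 a3 => hcut k k' a1 a2 (by omega))
      rw [ks_add (m := T b) (mono_of hmono le_rfl h1.le (by omega)) (hmono b h1.le (by omega))
        (fun j l a1 a2 a3 a4 e => by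
          obtain ⟨k, b1, b2, b3, b4⟩ := arc_of h1 a1 a2
          exact (hcut k b b1 b2 (by omega) j l b3 b4 a3 a4 e).2), ih',
        Finset.sum_Ico_succ_top h1.le]
    · rw [show b = a by omega]
      simp

/-- **the charge of the block of a ring** -/
theorem ring_sum [Fintype D] (L : Lp M x p N) {n : ℕ} (hn : 2 ≤ n) {T : ℕ → ℕ} (T0 : T 0 = 0)
    (Tn : T n = N) (hmono : ∀ k, k < n → T k ≤ T (k + 1)) (hcut : CutC M x p T n) {k0 i0 : ℕ}
    (hk0 : k0 < n) (hi0 : InK M x p (T k0) (T (k0 + 1)) i0) {A : Type} [AddCommMonoid A]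
    (w : D → A) :
    ∑ t ∈ blk M x (gp M x p i0), w t = ∑ k ∈ Finset.range n, KS M x p w (T k) (T (k + 1)) := by
  have hT : ∀ {k l : ℕ}, k ≤ l → l ≤ n → T k ≤ T l := fun h1 h2 =>
    mono_of (a := 0) (b := n) (fun k _ hk => hmono k hk) (Nat.zero_le _) h1 h2
  have e : blk M x (gp M x p i0) = ((Finset.range n).sigma fun k =>
      (Finset.Ico (T k) (T (k + 1))).filter (InK M x p (T k) (T (k + 1)))).image
      fun s => gp M x p s.2 := by
    ext t
    rw [ring_blk L hn T0 Tn hmono hcut hk0 hi0 t, Finset.mem_image]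
    constructor
    · rintro ⟨k, h1, i, h2, rfl⟩
      exact ⟨⟨k, i⟩, Finset.mem_sigma.2 ⟨Finset.mem_range.2 h1, Finset.mem_filter.2
        ⟨Finset.mem_Ico.2 ⟨h2.lo, h2.hi⟩, h2⟩⟩, rfl⟩
    · rintro ⟨⟨k, i⟩, h1, rfl⟩
      obtain ⟨h2, h3⟩ := Finset.mem_sigma.1 h1
      exact ⟨k, Finset.mem_range.1 h2, i, (Finset.mem_filter.1 h3).2, rfl⟩
  rw [e, Finset.sum_image]
  · rw [Finset.sum_sigma]
    rfl
  · rintro ⟨k, i⟩ h1 ⟨k', i'⟩ h1' h2
    obtain ⟨a1, a2⟩ := Finset.mem_sigma.1 (Finset.mem_coe.1 h1)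
    obtain ⟨b1, b2⟩ := Finset.mem_sigma.1 (Finset.mem_coe.1 h1')
    simp only [Finset.mem_range] at a1 b1
    have a3 := (Finset.mem_filter.1 a2).2
    have b3 := (Finset.mem_filter.1 b2).2
    have a4 := hT (show k + 1 ≤ n by omega) le_rfl
    have b4 := hT (show k' + 1 ≤ n by omega) le_rfl
    rw [Tn] at a4 b4
    have a5 := a3.hi
    have b5 := b3.hi
    have a6 := a3.lo
    have b6 := b3.lo
    simp only at h2 a5 b5 a6 b6
    have hii : i = i' := by
      rcases lt_trichotomy i i' with h | h | h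
      · exact absurd h2 (L.gp_ne h (by omega))
      · exact h
      · exact absurd h2.symm (L.gp_ne h (by omega))
    subst hii
    have hkk : k = k' := by
      rcases lt_trichotomy k k' with h | h | h
      · have := hT (show k + 1 ≤ k' by omega) (by omega)
        omega
      · exact h
      · have := hT (show k' + 1 ≤ k by omega) (by omega)
        omega
    subst hkk
    rfl

/-! ### links -/

/-- **the cut hypothesis from links** -/
theorem cut_of_links (L : Lp M x p N) (G : ∀ i, Gen M (lc M x p i)) {n : ℕ} {T : ℕ → ℕ}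
    (Tn : T n ≤ N) (hmono : ∀ k, k < n → T k ≤ T (k + 1))
    (hl : ∀ k k' c, k < k' → k' < n → (k' = k + 1 ∧ c = lc M x p (T k')) ∨
      (k = 0 ∧ k' + 1 = n ∧ c = lc M x p 0) ∨ ConA M x c (lc M x p (T k)) (lc M x p (T (k + 1))) ∨
      ConA M x c (lc M x p (T k')) (lc M x p (T (k' + 1)))) : CutC M x p T n := by
  intro k k' h1 h2 u v a1 a2 a3 a4 e
  have hT : ∀ {k l : ℕ}, k ≤ l → l ≤ n → T k ≤ T l := fun h1 h2 =>
    mono_of (a := 0) (b := n) (fun k _ hk => hmono k hk) (Nat.zero_le _) h1 h2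
  have e1 := hT (show k + 1 ≤ k' by omega) (by omega)
  have e2 := hT (show k' + 1 ≤ n by omega) le_rfl
  obtain ⟨h3, h4⟩ := two_arcs L (G u) (c := lc M x p u) (A := T k) (B := T (k + 1)) (A' := T k')
    (B' := T (k' + 1)) a1 a2 e1 a3 a4 (by omega) rfl e.symm
  rcases hl k k' (lc M x p u) h1 h2 with h | h | h | h
  · exact Or.inl h
  · exact Or.inr h
  · exact absurd h h3
  · exact absurd h h4

/-- the cut hypothesis of an open corridor from links -/
theorem cut_of_links' (L : Lp M x p N) (G : ∀ i, Gen M (lc M x p i)) {a b : ℕ} {T : ℕ → ℕ}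
    (Tn : T b ≤ T a + N) (hmono : ∀ k, a ≤ k → k < b → T k ≤ T (k + 1))
    (hl : ∀ k k' c, a ≤ k → k < k' → k' < b → (k' = k + 1 ∧ c = lc M x p (T k')) ∨
      ConA M x c (lc M x p (T k)) (lc M x p (T (k + 1))) ∨
      ConA M x c (lc M x p (T k')) (lc M x p (T (k' + 1)))) : Cut M x p T a b := by
  intro k k' h0 h1 h2 u v a1 a2 a3 a4 e
  have e1 := mono_of hmono (show a ≤ k + 1 by omega) (show k + 1 ≤ k' by omega) (by omega)
  have e2 := mono_of hmono (show a ≤ k' + 1 by omega) (show k' + 1 ≤ b by omega) le_rfl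
  have e3 := mono_of hmono le_rfl h0 (by omega)
  obtain ⟨h3, h4⟩ := two_arcs L (G u) (c := lc M x p u) (A := T k) (B := T (k + 1)) (A' := T k')
    (B' := T (k' + 1)) a1 a2 e1 a3 a4 (by omega) rfl e.symm
  rcases hl k k' (lc M x p u) h0 h1 h2 with h | h | h
  · exact h
  · exact absurd h h3
  · exact absurd h h4

end Crest.Agent.R143.Splx117
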