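import Crest.Agent.R143.WLoc4_713
import Crest.Agent.R143.Spl2_117

/-!
# Row 143 (S0194), CORE-C block V (helper713): 117's segment charge is the planar segment sum

* `ink_iff` : 117's `InK` on `cm0` in terms of the planar walk (left sites off the hull)
* `ks_zw` : `KS (cm0 hS) x p w a b = Zw S χ f (state a) (b - a)`
* `ks_zst` : `= Zst` if the walk from the state `a` arrives in the target at the time `b`
-/

set_option autoImplicit false
set_option linter.all false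

noncomputable section

open scoped Classical

namespace Crest.Agent.R143.WLocx713

open Set
open Crest.Agent.R143.B0x346 Crest.Agent.R143.DelGx806 Crest.Agent.R143.DelRx806
  Crest.Agent.R143.JColx54
open Crest.Agent.R143.Frame1x395 Crest.Agent.R143.Frame3x395 Crest.Agent.R143.Frame8x395
  Crest.Agent.R143.Frame10x395 Crest.Agent.R143.Locx922
open Crest.Agent.R143.Frame5x395 (sd mem_sd th th_spec)
open Crest.Agent.R143.Splx117

variable {S : Finset ℂ} {W : Set ℂ} {χ : ℂ → ZMod 2}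

/-- the configuration of a colouring of the sites -/
abbrev xc (hS : GP (S : Set ℂ)) (hχ : HullC S χ) : D0 S → ZMod 2 := cfg (cm0 hS) (lift S hχ)

/-- the planar state at the time `i` -/
theorem state_eq (hS : GP (S : Set ℂ)) (hχ : HullC S χ) {p : D0 S} (hp : xc hS hχ p = 1)
    (i j : ℕ) : ((stp (cm0 hS) (xc hS hχ))^[i + j] p).1 =
      (nx S χ)^[i] ((stp (cm0 hS) (xc hS hχ))^[j] p).1 := by
  rw [Function.iterate_add_apply]
  exact it_eq hS hχ (occ_it (cfg_isC _) hp j) i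

/-- occupied darts are occupied sides -/
theorem occ_of (hS : GP (S : Set ℂ)) (hχ : HullC S χ) {p : D0 S} (hp : xc hS hχ p = 1) :
    Occ S χ p.1 := ⟨p.2, hp⟩

theorem gap_iff (hS : GP (S : Set ℂ)) (hχ : HullC S χ) {p : D0 S} (hp : xc hS hχ p = 1) (i : ℕ) :
    xc hS hχ (gp (cm0 hS) (xc hS hχ) p i) = 0 ↔
      lg S χ ((stp (cm0 hS) (xc hS hχ))^[i] p).1 := by
  set q := (stp (cm0 hS) (xc hS hχ))^[i] p with hq
  have h1 : xc hS hχ q = 1 := occ_it (cfg_isC _) hp i
  have h2 : xc hS hχ q + xc hS hχ ((cm0 hS).rho q) + xc hS hχ ((cm0 hS).rho ((cm0 hS).rho q)) = 0 := by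
    have h3 := (cfg_isC (M := cm0 hS) (lift S hχ)).par q
    rw [if_neg (Set.notMem_empty _)] at h3
    exact h3
  have h4 : lg S χ q.1 ↔ xc hS hχ ((cm0 hS).rho q) = 1 := Iff.rfl
  rw [h4]
  show xc hS hχ ((cm0 hS).rho ((cm0 hS).rho q)) = 0 ↔ _
  rw [h1] at h2
  revert h2
  generalize xc hS hχ ((cm0 hS).rho q) = u
  generalize xc hS hχ ((cm0 hS).rho ((cm0 hS).rho q)) = v
  revert u v; decide

/-- left cells at two times, the first one off the hull -/
theorem lc_iff (hS : GP (S : Set ℂ)) (x : D0 S → ZMod 2) {p : D0 S} {i j : ℕ}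
    (hi : ¬ OnHull S ((stp (cm0 hS) x)^[i] p).1.1) :
    lc (cm0 hS) x p i = lc (cm0 hS) x p j ↔
      ((stp (cm0 hS) x)^[i] p).1.1 = ((stp (cm0 hS) x)^[j] p).1.1 := by
  constructor
  · intro h
    exact (quot_inner hS hi h).symm
  · intro h
    show (Quot.mk (hullE S) _ : Quot (hullE S)) = Quot.mk (hullE S) _
    rw [h]

/-- `InK` in terms of the planar walk -/
theorem ink_iff (hS : GP (S : Set ℂ)) (hχ : HullC S χ) {p : D0 S} (hp : xc hS hχ p = 1)
    {a b : ℕ} (hin : ∀ i, a ≤ i → i ≤ b → ¬ OnHull S ((stp (cm0 hS) (xc hS hχ))^[i] p).1.1)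
    (i : ℕ) (hi : i < b - a) :
    InK (cm0 hS) (xc hS hχ) p a b (i + a) ↔
      lg S χ ((nx S χ)^[i] ((stp (cm0 hS) (xc hS hχ))^[a] p).1) ∧
        Np S χ ((stp (cm0 hS) (xc hS hχ))^[a] p).1 (b - a) i := by
  have hst := fun j => state_eq hS hχ hp j a
  constructor
  · intro h
    refine ⟨?_, ?_⟩
    · rw [← hst]
      exact (gap_iff hS hχ hp _).1 h.gap
    · intro u hu v hv hvn hc
      rw [← hst, ← hst] at hc
      exact h.sep (u + a) (v + a) (by omega) (by omega) (by omega) (by omega)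
        ((lc_iff hS _ (hin _ (by omega) (by omega))).2 hc)
  · rintro ⟨h1, h2⟩
    refine ⟨by omega, by omega, ?_, ?_⟩
    · rw [← hst] at h1
      exact (gap_iff hS hχ hp _).2 h1
    · intro j l h3 h4 h5 h6 hc
      have h7 := (lc_iff hS _ (hin j h3 (by omega))).1 hc
      apply h2 (j - a) (by omega) (l - a) (by omega) (by omega)
      rw [← hst, ← hst, show j - a + a = j by omega, show l - a + a = l by omega]
      exact h7

/-- the gap dart at the time `i + a` -/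
theorem gp_val (hS : GP (S : Set ℂ)) (hχ : HullC S χ) {p : D0 S} (hp : xc hS hχ p = 1)
    {a i : ℕ} {F : ℂ → ℂ → ℂ → ℂ} {w : D0 S → ℂ}
    (hw : ∀ d : D0 S, w d = F d.1.2 (th S d.1) d.1.1) :
    w (gp (cm0 hS) (xc hS hχ) p (i + a)) =
      F ((nx S χ)^[i] ((stp (cm0 hS) (xc hS hχ))^[a] p).1).1
        ((nx S χ)^[i] ((stp (cm0 hS) (xc hS hχ))^[a] p).1).2
        (th S ((nx S χ)^[i] ((stp (cm0 hS) (xc hS hχ))^[a] p).1)) := by
  rw [← state_eq hS hχ hp i a, hw]
  set q := (stp (cm0 hS) (xc hS hχ))^[i + a] p with hq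
  obtain ⟨⟨u, v⟩, hd⟩ := q
  have t1 := th_spec hd
  have t2 := delT_rot hS t1
  have t3 := delT_rot hS t2
  have e : (gp (cm0 hS) (xc hS hχ) p (i + a)).1 = (th S (u, v), u) := by
    unfold gp
    rw [← hq]
    show (th S (u, v), th S (v, th S (u, v))) = _
    rw [th0 hS t2]
  rw [e]
  show F u (th S (th S (u, v), u)) (th S (u, v)) = F u v (th S (u, v))
  rw [th0 hS t3]

/-- **117's segment charge is the planar segment sum** -/
theorem ks_zw (hS : GP (S : Set ℂ)) (hχ : HullC S χ) {p : D0 S} (hp : xc hS hχ p = 1)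
    {a b : ℕ} (hin : ∀ i, a ≤ i → i ≤ b → ¬ OnHull S ((stp (cm0 hS) (xc hS hχ))^[i] p).1.1)
    {F : ℂ → ℂ → ℂ → ℂ} {w : D0 S → ℂ} (hw : ∀ d : D0 S, w d = F d.1.2 (th S d.1) d.1.1) :
    KS (cm0 hS) (xc hS hχ) p w a b =
      Zw S χ F ((stp (cm0 hS) (xc hS hχ))^[a] p).1 (b - a) := by
  unfold KS Zw
  rw [Finset.sum_filter, Finset.sum_Ico_eq_sum_range]
  refine Finset.sum_congr rfl fun i hi => ?_
  rw [Finset.mem_range] at hi
  rw [add_comm a i]
  have h1 := ink_iff hS hχ hp hin i hi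
  by_cases hc : InK (cm0 hS) (xc hS hχ) p a b (i + a)
  · rw [if_pos hc, if_pos (h1.1 hc), gp_val hS hχ hp hw]
  · rw [if_neg hc, if_neg fun h => hc (h1.2 h)]

/-- **117's segment charge is the stopped segment sum** -/
theorem ks_zst (hS : GP (S : Set ℂ)) (hχ : HullC S χ) {p : D0 S} (hp : xc hS hχ p = 1)
    {a b : ℕ} (hin : ∀ i, a ≤ i → i ≤ b → ¬ OnHull S ((stp (cm0 hS) (xc hS hχ))^[i] p).1.1)
    {F : ℂ → ℂ → ℂ → ℂ} {w : D0 S → ℂ} (hw : ∀ d : D0 S, w d = F d.1.2 (th S d.1) d.1.1)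
    {T : Set (ℂ × ℂ)}
    (hA : Arr S χ W T ((stp (cm0 hS) (xc hS hχ))^[a] p).1 (b - a)) :
    KS (cm0 hS) (xc hS hχ) p w a b =
      Zst S χ F W T ((stp (cm0 hS) (xc hS hχ))^[a] p).1 := by
  rw [ks_zw hS hχ hp hin hw]
  unfold Zst
  rw [fst_eq _ hA]

/-- arrival in one state, from the loop: the states of one period are different -/
theorem arr_of_loop (hS : GP (S : Set ℂ)) (hχ : HullC S χ) {p : D0 S} {N : ℕ}
    (L : Lp (cm0 hS) (xc hS hχ) p N) {a b : ℕ} (hab : a ≤ b) (hN : b < a + N)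
    (hW : ∀ i, a ≤ i → i < b → ((stp (cm0 hS) (xc hS hχ))^[i] p).1.1 ∈ W) :
    Arr S χ W {((stp (cm0 hS) (xc hS hχ))^[b] p).1}
      ((stp (cm0 hS) (xc hS hχ))^[a] p).1 (b - a) := by
  have hst := fun j => state_eq hS hχ L.occ j a
  refine ⟨?_, fun i hi => ⟨?_, ?_⟩⟩
  · rw [← hst, show b - a + a = b by omega]
    rfl
  · rw [← hst]
    intro hc
    exact L.ne (show i + a < b by omega) (by omega) (Subtype.ext hc)
  · rw [← hst]
    exact hW _ (by omega) (by omega)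

/-- **ring form**: the charge of the block of a ring is the sum of the stopped segment sums -/
theorem ring_zst (hS : GP (S : Set ℂ)) (hχ : HullC S χ) {p : D0 S} {N : ℕ}
    (L : Lp (cm0 hS) (xc hS hχ) p N) {n : ℕ} (hn : 2 ≤ n) {T : ℕ → ℕ} (T0 : T 0 = 0)
    (Tn : T n = N) (hmono : ∀ k, k < n → T k < T (k + 1))
    (hcut : CutC (cm0 hS) (xc hS hχ) p T n) {k0 i0 : ℕ}
    (hk0 : k0 < n) (hi0 : InK (cm0 hS) (xc hS hχ) p (T k0) (T (k0 + 1)) i0)
    (hin : ∀ i, ¬ OnHull S ((stp (cm0 hS) (xc hS hχ))^[i] p).1.1)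
    {F : ℂ → ℂ → ℂ → ℂ} {w : D0 S → ℂ} (hw : ∀ d : D0 S, w d = F d.1.2 (th S d.1) d.1.1)
    {W : ℕ → Set ℂ} (hW : ∀ k, k < n → ∀ i, T k ≤ i → i < T (k + 1) →
      ((stp (cm0 hS) (xc hS hχ))^[i] p).1.1 ∈ W k) :
    ∑ t ∈ blk (cm0 hS) (xc hS hχ) (gp (cm0 hS) (xc hS hχ) p i0), w t =
      ∑ k ∈ Finset.range n, Zst S χ F (W k) {((stp (cm0 hS) (xc hS hχ))^[T (k + 1)] p).1}
        ((stp (cm0 hS) (xc hS hχ))^[T k] p).1 := by
  rw [ring_sum L hn T0 Tn (fun k hk => (hmono k hk).le) hcut hk0 hi0 w]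
  refine Finset.sum_congr rfl fun k hk => ?_
  rw [Finset.mem_range] at hk
  have hT : ∀ l, l ≤ n → ∀ m, m ≤ l → T m ≤ T l := by
    intro l
    induction l with
    | zero => intro _ m hm; rw [Nat.le_zero.1 hm]
    | succ l ih =>
      intro hl m hm
      rcases hm.lt_or_eq with h | h
      · exact (ih (by omega) m (by omega)).trans (hmono l (by omega)).le
      · rw [h]
  have h1 : T (k + 1) < T k + N := by
    have h2 := hT n le_rfl (k + 1) (by omega)
    rcases Nat.eq_zero_or_pos k with h3 | h3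
    · subst h3
      rw [T0]
      have h4 := hT n le_rfl 2 hn
      have h5 := hmono 1 (by omega)
      simp only [zero_add] at h5 ⊢
      have h6 : T (1 + 1) = T 2 := rfl
      omega
    · have h4 := hT k (by omega) 1 h3
      have h5 := hmono 0 (by omega)
      rw [T0] at h5
      simp only [zero_add] at h5
      omega
  exact ks_zst hS hχ L.occ (fun i _ _ => hin i) hw
    (arr_of_loop hS hχ L (hmono k hk).le h1 (hW k hk))

end Crest.Agent.R143.WLocx713
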