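import Crest.Agent.R143.Spl3_117
import Crest.Agent.R143.WLoc5_713
import Crest.Agent.R143.Blk_838

/-!
# Row 143 (S0194), part B without E3: the block of a ring of tubes on `cm0 hS` (helper117)

* `StC S χ A u v` : Delaunay neighbours of one colour in `A`; `StR S χ A b u v` : the same, both
  different from `b`
* `cutpt` : a path from `a` to `b` avoids `c`, or there is a path from `a` to `c` which avoids `b`
* `DRing` : gates `(y k, z k)` (`y` the colour of the block, `z` the other colour), links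
  `y k -> y (k + 1)` inside `A k`, non-neighbouring regions disjoint, every path
  `y k -> y (k + 2)` inside `A k ∪ A (k + 1)` passes `y (k + 1)`, confinement of the arcs in `B k`
* `DRing.links`, `DRing.ring`, **`DRing.main`**
-/

set_option autoImplicit false

noncomputable section

open scoped Classical

namespace Crest.Agent.R143.RingDx117

open Crest.Agent.R143.B0x346 Crest.Agent.R143.DelGx806 Crest.Agent.R143.DelRx806
  Crest.Agent.R143.JColx54
open Crest.Agent.R143.Frame1x395 Crest.Agent.R143.Frame2x395 Crest.Agent.R143.Frame3x395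
  Crest.Agent.R143.Frame4x395 Crest.Agent.R143.Frame8x395 Crest.Agent.R143.Frame9x395
  Crest.Agent.R143.Frame10x395 Crest.Agent.R143.Frame11x395
open Crest.Agent.R143.Frame5x395 (sd mem_sd th th_spec)
open Crest.Agent.R143.Splx117 Crest.Agent.R143.WLocx713
open Crest.Agent.R143.Blkx838 (DE)

/-! ### paths -/

/-- a path from `a` to `b` avoids `c`, or there is a path from `a` to `c` which avoids `b` -/
theorem cutpt {α : Type} {r : α → α → Prop} {a b c : α} (hcb : c ≠ b)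
    (h : Relation.ReflTransGen r a b) :
    Relation.ReflTransGen (fun u v => r u v ∧ u ≠ c ∧ v ≠ c) a b ∨
      Relation.ReflTransGen (fun u v => r u v ∧ u ≠ b ∧ v ≠ b) a c := by
  induction h using Relation.ReflTransGen.head_induction_on with
  | refl => exact Or.inl .refl
  | head h1 h2 ih =>
    rename_i a a'
    by_cases hac : a = c
    · right
      rw [hac]
    by_cases hab : a = b
    · left
      rw [hab]
    rcases ih with ih | ih
    · by_cases ha'c : a' = c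
      · right
        exact .single (by rw [← ha'c]; exact ⟨h1, hab, by rw [ha'c]; exact hcb⟩)
      · exact Or.inl (.head ⟨h1, hac, ha'c⟩ ih)
    · by_cases ha'b : a' = b
      · left
        exact .single (by rw [← ha'b]; exact ⟨h1, hac, by rw [ha'b]; exact hcb.symm⟩)
      · exact Or.inr (.head ⟨h1, hab, ha'b⟩ ih)

theorem rtg_mono {α : Type} {r r' : α → α → Prop} (hr : ∀ a b, r a b → r' a b) {a b : α}
    (h : Relation.ReflTransGen r a b) : Relation.ReflTransGen r' a b := by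
  induction h with
  | refl => exact .refl
  | tail _ h2 ih => exact ih.tail (hr _ _ h2)

/-- one step of a chain of one colour in `A` -/
def StC (S : Finset ℂ) (χ : ℂ → ZMod 2) (A : Set ℂ) (u v : ℂ) : Prop :=
  DE S u v ∧ χ u = χ v ∧ u ∈ A ∧ v ∈ A

/-- one step of a chain of one colour in `A` which avoids `b` -/
def StR (S : Finset ℂ) (χ : ℂ → ZMod 2) (A : Set ℂ) (b u v : ℂ) : Prop :=
  DE S u v ∧ χ u = χ v ∧ u ∈ A ∧ v ∈ A ∧ u ≠ b ∧ v ≠ b

variable {S : Finset ℂ} {χ : ℂ → ZMod 2} {A A' : Set ℂ} {a b c u v : ℂ}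

theorem StC.symm (h : StC S χ A u v) : StC S χ A v u :=
  ⟨Or.symm h.1, h.2.1.symm, h.2.2.2, h.2.2.1⟩

theorem StR.symm (h : StR S χ A b u v) : StR S χ A b v u :=
  ⟨Or.symm h.1, h.2.1.symm, h.2.2.2.1, h.2.2.1, h.2.2.2.2.2, h.2.2.2.2.1⟩

theorem str_mono (hA : A ⊆ A') (h : Relation.ReflTransGen (StR S χ A b) u v) :
    Relation.ReflTransGen (StR S χ A' b) u v :=
  rtg_mono (fun _ _ h => ⟨h.1, h.2.1, hA h.2.2.1, hA h.2.2.2.1, h.2.2.2.2⟩) h

theorem stc_cut (hcb : c ≠ b) (h : Relation.ReflTransGen (StC S χ A) a b) :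
    Relation.ReflTransGen (StR S χ A c) a b ∨ Relation.ReflTransGen (StR S χ A b) a c := by
  rcases cutpt hcb h with h | h
  · exact Or.inl (rtg_mono
      (fun _ _ h => ⟨h.1.1, h.1.2.1, h.1.2.2.1, h.1.2.2.2, h.2.1, h.2.2⟩) h)
  · exact Or.inr (rtg_mono
      (fun _ _ h => ⟨h.1.1, h.1.2.1, h.1.2.2.1, h.1.2.2.2, h.2.1, h.2.2⟩) h)

/-! ### chains on `cm0` -/

theorem de_sites (h : DE S u v) : u ∈ S ∧ v ∈ S := by
  rcases h with ⟨c, h⟩ | ⟨c, h⟩
  · have := mem_delT.1 h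
    exact ⟨this.1, this.2.1⟩
  · have := mem_delT.1 h
    exact ⟨this.2.1, this.1⟩

/-- a step avoiding the cell `q` -/
theorem sta_of (hS : GP (S : Set ℂ)) (hχ : HullC S χ) {q : Quot (hullE S)} (h : DE S u v)
    (hc : χ u = χ v) (hu : (Quot.mk (hullE S) u : Quot (hullE S)) ≠ q)
    (hv : (Quot.mk (hullE S) v : Quot (hullE S)) ≠ q) :
    StA (cm0 hS) (xc hS hχ) q (Quot.mk _ u) (Quot.mk _ v) := by
  have z : ∀ a b : ZMod 2, a = b → a + b = 0 := by decide
  refine ⟨hu, hv, ?_⟩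
  rcases h with ⟨c, h⟩ | ⟨c, h⟩
  · exact ⟨⟨(u, v), mem_sd.2 ⟨c, h⟩⟩, z _ _ hc, Or.inl ⟨rfl, rfl⟩⟩
  · exact ⟨⟨(v, u), mem_sd.2 ⟨c, h⟩⟩, z _ _ hc.symm, Or.inr ⟨rfl, rfl⟩⟩

/-- a chain in `A`, no site of `A` in the cell `q` -/
theorem cona_of (hS : GP (S : Set ℂ)) (hχ : HullC S χ) {q : Quot (hullE S)}
    (ha : (Quot.mk (hullE S) a : Quot (hullE S)) ≠ q)
    (hb : (Quot.mk (hullE S) b : Quot (hullE S)) ≠ q)
    (hq : ∀ u ∈ S, u ∈ A → (Quot.mk (hullE S) u : Quot (hullE S)) ≠ q)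
    (h : Relation.ReflTransGen (StC S χ A) a b) :
    ConA (cm0 hS) (xc hS hχ) q (Quot.mk _ a) (Quot.mk _ b) := by
  refine ⟨ha, hb, ?_⟩
  induction h with
  | refl => exact .refl
  | tail _ h1 ih =>
    obtain ⟨m1, m2⟩ := de_sites h1.1
    exact (ih (hq _ m1 h1.2.2.1)).tail (sta_of hS hχ h1.1 h1.2.1 (hq _ m1 h1.2.2.1)
      (hq _ m2 h1.2.2.2))

/-- a chain in `A` avoiding the inner site `c` -/
theorem cona_of' (hS : GP (S : Set ℂ)) (hχ : HullC S χ) (hc : ¬ OnHull S c) (ha : a ≠ c)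
    (hb : b ≠ c) (h : Relation.ReflTransGen (StR S χ A c) a b) :
    ConA (cm0 hS) (xc hS hχ) (Quot.mk _ c) (Quot.mk _ a) (Quot.mk _ b) := by
  have q : ∀ {u : ℂ}, u ≠ c → (Quot.mk (hullE S) u : Quot (hullE S)) ≠ Quot.mk _ c :=
    fun hu e => hu (quot_inner hS hc e.symm)
  refine ⟨q ha, q hb, ?_⟩
  induction h with
  | refl => exact .refl
  | tail _ h1 ih =>
    exact (ih h1.2.2.2.2.1).tail (sta_of hS hχ h1.1 h1.2.1 (q h1.2.2.2.2.1) (q h1.2.2.2.2.2))

/-- **a link and a cell**: the link avoids the cell, or the cell is a site of the link, which is joined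
to each end away from the other end -/
theorem link_cell (hS : GP (S : Set ℂ)) (hχ : HullC S χ) (hA : ∀ u ∈ S, u ∈ A → ¬ OnHull S u)
    (haA : a ∈ A) (hbA : b ∈ A) (haS : a ∈ S) (hbS : b ∈ S)
    (h : Relation.ReflTransGen (StC S χ A) a b) (q : Quot (hullE S)) :
    ConA (cm0 hS) (xc hS hχ) q (Quot.mk _ a) (Quot.mk _ b) ∨
      ∃ v, v ∈ S ∧ v ∈ A ∧ q = Quot.mk _ v ∧
        (v = b ∨ Relation.ReflTransGen (StR S χ A b) a v) ∧
        (v = a ∨ Relation.ReflTransGen (StR S χ A a) b v) := by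
  by_cases hq : ∃ v ∈ S, v ∈ A ∧ (Quot.mk (hullE S) v : Quot (hullE S)) = q
  · obtain ⟨v, hvS, hvA, rfl⟩ := hq
    have hv := hA v hvS hvA
    by_cases hva : v = a
    · right
      refine ⟨v, hvS, hvA, rfl, ?_, Or.inl hva⟩
      right
      rw [hva]
    by_cases hvb : v = b
    · right
      refine ⟨v, hvS, hvA, rfl, Or.inl hvb, ?_⟩
      right
      rw [hvb]
    by_cases h0 : Relation.ReflTransGen (StR S χ A v) a b
    · exact Or.inl (cona_of' hS hχ hv (Ne.symm hva) (Ne.symm hvb) h0)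
    · right
      refine ⟨v, hvS, hvA, rfl, Or.inr ?_, Or.inr ?_⟩
      · rcases stc_cut hvb h with h1 | h1
        · exact absurd h1 h0
        · exact h1
      · rcases stc_cut hva (rtg_symm (fun _ _ h => h.symm) h) with h1 | h1
        · exact absurd (rtg_symm (fun _ _ h => h.symm) h1) h0
        · exact h1
  · push Not at hq
    left
    exact cona_of hS hχ (hq a haS haA) (hq b hbS hbA) hq h

/-! ### rings -/

/-- states with both sites in `B` -/
def RD (S : Finset ℂ) (B : Set ℂ) : Set (D0 S) := {d | d.1.1 ∈ B ∧ d.1.2 ∈ B}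

/-- a ring of tubes: `A k` region of the links, `B k` region of the arcs -/
structure DRing (hS : GP (S : Set ℂ)) (hχ : HullC S χ) (n : ℕ) (y z : ℕ → ℂ) (A B : ℕ → Set ℂ)
    (p : ℕ → D0 S) : Prop where
  n3 : 3 ≤ n
  pery : ∀ k, y (k + n) = y k
  perz : ∀ k, z (k + n) = z k
  perA : ∀ k, A (k + n) = A k
  perB : ∀ k, B (k + n) = B k
  st : ∀ k, (p k).1 = (y k, z k)
  col : ∀ k, χ (y k) + χ (z k) = 1
  innA : ∀ k, ∀ v ∈ S, v ∈ A k → ¬ OnHull S v
  innB : ∀ k, ∀ v ∈ S, v ∈ B k → ¬ OnHull S v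
  link : ∀ k, Relation.ReflTransGen (StC S χ (A k)) (y k) (y (k + 1))
  mem0 : ∀ k, y k ∈ A k
  mem1 : ∀ k, y (k + 1) ∈ A k
  ne : ∀ k, y k ≠ y (k + 1)
  dis : ∀ k j, 2 ≤ j → j + 1 < n → Disjoint (A k) (A (k + j))
  far : ∀ k j, 2 ≤ j → j < n → y (k + j) ∉ B k
  cross : ∀ k, ¬ Relation.ReflTransGen (StR S χ (A k ∪ A (k + 1)) (y (k + 1))) (y k) (y (k + 2))
  conf : ∀ k, FA (cm0 hS) (xc hS hχ) (RD S (B k)) (p k) (p (k + 1)) ∨
    FA (cm0 hS) (xc hS hχ) (RD S (B k)) (p (k + 1)) (p k)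

variable {hS : GP (S : Set ℂ)} {hχ : HullC S χ} {n : ℕ} {y z : ℕ → ℂ} {A B : ℕ → Set ℂ}
  {p : ℕ → D0 S}

theorem DRing.yS (R : DRing hS hχ n y z A B p) (k : ℕ) : y k ∈ S := by
  have h1 := (p k).2
  rw [R.st] at h1
  exact (mem_delT.1 (th_spec h1)).1

theorem DRing.cell (R : DRing hS hχ n y z A B p) (k : ℕ) :
    (cm0 hS).cell (p k) = Quot.mk _ (y k) := by
  show (Quot.mk (hullE S) (p k).1.1 : Quot (hullE S)) = _
  rw [R.st]

/-- two neighbouring links -/
theorem DRing.two (R : DRing hS hχ n y z A B p) (k : ℕ) {v : ℂ} (_hvS : v ∈ S)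
    (h1 : v = y (k + 1) ∨ Relation.ReflTransGen (StR S χ (A k) (y (k + 1))) (y k) v)
    (h2 : v = y (k + 1) ∨
      Relation.ReflTransGen (StR S χ (A (k + 1)) (y (k + 1))) (y (k + 1 + 1)) v) :
    v = y (k + 1) := by
  rcases h1 with h1 | h1
  · exact h1
  rcases h2 with h2 | h2
  · exact h2
  exfalso
  apply R.cross k
  exact (str_mono Set.subset_union_left h1).trans
    (rtg_symm (fun _ _ h => h.symm) (str_mono Set.subset_union_right h2))

theorem DRing.links (R : DRing hS hχ n y z A B p) : Links (cm0 hS) (xc hS hχ) n p := by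
  intro k k' q h1 h2
  rw [R.cell, R.cell, R.cell, R.cell, R.cell]
  rcases link_cell hS hχ (R.innA k) (R.mem0 k) (R.mem1 k) (R.yS k) (R.yS _) (R.link k) q with
    h | ⟨v, vS, vA, hq, a1, a2⟩
  · exact Or.inr (Or.inr (Or.inl h))
  rcases link_cell hS hχ (R.innA k') (R.mem0 k') (R.mem1 k') (R.yS k') (R.yS _) (R.link k') q with
    h | ⟨v', vS', vA', hq', b1, b2⟩
  · exact Or.inr (Or.inr (Or.inr h))
  have hv : v' = v := quot_inner hS (R.innA k v vS vA) (hq.symm.trans hq')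
  subst hv
  have hadj : k' = k + 1 ∨ (k = 0 ∧ k' + 1 = n) := by
    by_contra hc
    push Not at hc
    have := R.dis k (k' - k) (by omega) (by omega)
    rw [show k + (k' - k) = k' by omega] at this
    exact Set.disjoint_left.1 this vA vA'
  rcases hadj with rfl | ⟨rfl, h3⟩
  · left
    refine ⟨rfl, ?_⟩
    rw [hq, R.two k vS a1 b2]
  · right; left
    refine ⟨rfl, h3, ?_⟩
    have h4 := R.two k' vS b1 (by
      have e1 : y (k' + 1) = y 0 := by rw [h3, ← zero_add n, R.pery]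
      have e2 : A (k' + 1) = A 0 := by rw [h3, ← zero_add n, R.perA]
      have e3 : y (k' + 1 + 1) = y (0 + 1) := by
        rw [h3, show n + 1 = (0 + 1) + n by omega, R.pery]
      rw [e1, e2, e3]
      exact a2)
    rw [hq, h4, h3]
    have := R.pery 0
    rw [zero_add] at this
    rw [this]

theorem DRing.ring (R : DRing hS hχ n y z A B p) :
    Ring (cm0 hS) (xc hS hχ) n p fun k => RD S (B k) where
  even := cfg_isC _
  n3 := R.n3
  perp := fun k => Subtype.ext (by rw [R.st, R.st, R.pery, R.perz])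
  perR := fun k => by rw [R.perB]
  occ := fun k => by
    show χ (p k).1.1 + χ (p k).1.2 = 1
    rw [R.st]
    exact R.col k
  far := fun k j h1 h2 h3 => R.far k j h1 h2 (by
    have := h3.1
    rw [R.st] at this
    exact this)
  arc := R.conf

theorem DRing.neC (R : DRing hS hχ n y z A B p) (k : ℕ) :
    (cm0 hS).cell (p k) ≠ (cm0 hS).cell (p (k + 1)) := by
  rw [R.cell, R.cell]
  intro e
  exact R.ne k (quot_inner hS (R.innA k _ (R.yS k) (R.mem0 k)) e).symm

/-- **the block of the ring** -/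
theorem DRing.main (R : DRing hS hχ n y z A B p) :
    ∃ β ∈ blks (cm0 hS) (xc hS hχ), (∀ k, ∃ i, (stp (cm0 hS) (xc hS hχ))^[i] (p 0) = p k) ∧
      (∀ i, ∃ k, (stp (cm0 hS) (xc hS hχ))^[i] (p 0) ∈ RD S (B k)) ∧
      (∃ i, gp (cm0 hS) (xc hS hχ) (p 0) i ∈ β) ∧
      ∀ {E : Type} [AddCommMonoid E] (w : D0 S → E), ∑ t ∈ β, w t =
        ∑ k ∈ Finset.range n, ZZ (cm0 hS) (xc hS hχ) w (RD S (B k)) (p k) (p (k + 1)) := by
  refine ring_main R.ring (fun k d hd => ?_) R.links R.neC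
  have hS1 : d.1.1 ∈ S := (mem_delT.1 (th_spec d.2)).1
  exact gen_inner hS (R.innB k _ hS1 hd.1)

end Crest.Agent.R143.RingDx117
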