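import Crest.Agent.R143.Spl4_117
import Crest.Agent.R143.RingD_117

/-!
# Row 143 (S0194), part B without E3: open corridor on `cm0 hS` (helper117)

* `DCorr` : gates `(y k, z k)`, `k ≤ n`, tiles `k < n` (regions `A k` of the links, `B k` of the arcs)
* `DCorr.corr`, `DCorr.linksO`
* `DCorr.main` : all arcs forward; `DCorr.main_back` : all arcs backward
-/

set_option autoImplicit false

noncomputable section

open scoped Classical

namespace Crest.Agent.R143.CorrDx117

open Crest.Agent.R143.B0x346 Crest.Agent.R143.DelGx806 Crest.Agent.R143.DelRx806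
  Crest.Agent.R143.JColx54
open Crest.Agent.R143.Frame1x395 Crest.Agent.R143.Frame2x395 Crest.Agent.R143.Frame3x395
  Crest.Agent.R143.Frame4x395 Crest.Agent.R143.Frame8x395 Crest.Agent.R143.Frame9x395
  Crest.Agent.R143.Frame10x395 Crest.Agent.R143.Frame11x395
open Crest.Agent.R143.Frame5x395 (sd mem_sd th th_spec)
open Crest.Agent.R143.Splx117 Crest.Agent.R143.WLocx713 Crest.Agent.R143.RingDx117
open Crest.Agent.R143.Blkx838 (DE)

variable {S : Finset ℂ} {χ : ℂ → ZMod 2}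

/-- an open corridor: gates `k ≤ n`, tiles `k < n` -/
structure DCorr (hS : GP (S : Set ℂ)) (hχ : HullC S χ) (n : ℕ) (y z : ℕ → ℂ) (A B : ℕ → Set ℂ)
    (p : ℕ → D0 S) : Prop where
  n1 : 1 ≤ n
  st : ∀ k, k ≤ n → (p k).1 = (y k, z k)
  col : ∀ k, k ≤ n → χ (y k) + χ (z k) = 1
  innA : ∀ k, k < n → ∀ v ∈ S, v ∈ A k → ¬ OnHull S v
  innB : ∀ k, k < n → ∀ v ∈ S, v ∈ B k → ¬ OnHull S v
  link : ∀ k, k < n → Relation.ReflTransGen (StC S χ (A k)) (y k) (y (k + 1))
  mem0 : ∀ k, k < n → y k ∈ A k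
  mem1 : ∀ k, k < n → y (k + 1) ∈ A k
  ne : ∀ k, k < n → y k ≠ y (k + 1)
  dis : ∀ k j, k + 2 ≤ j → j < n → Disjoint (A k) (A j)
  far : ∀ k j, k < n → j ≤ n → j ≠ k → j ≠ k + 1 → y j ∉ B k
  cross : ∀ k, k + 1 < n →
    ¬ Relation.ReflTransGen (StR S χ (A k ∪ A (k + 1)) (y (k + 1))) (y k) (y (k + 2))
  conf : ∀ k, k < n → FA (cm0 hS) (xc hS hχ) (RD S (B k)) (p k) (p (k + 1)) ∨
    FA (cm0 hS) (xc hS hχ) (RD S (B k)) (p (k + 1)) (p k)

variable {hS : GP (S : Set ℂ)} {hχ : HullC S χ} {n : ℕ} {y z : ℕ → ℂ} {A B : ℕ → Set ℂ}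
  {p : ℕ → D0 S}

theorem DCorr.yS (R : DCorr hS hχ n y z A B p) {k : ℕ} (hk : k ≤ n) : y k ∈ S := by
  have h1 := (p k).2
  rw [R.st k hk] at h1
  exact (mem_delT.1 (th_spec h1)).1

theorem DCorr.cell (R : DCorr hS hχ n y z A B p) {k : ℕ} (hk : k ≤ n) :
    (cm0 hS).cell (p k) = Quot.mk _ (y k) := by
  show (Quot.mk (hullE S) (p k).1.1 : Quot (hullE S)) = _
  rw [R.st k hk]

theorem DCorr.linksO (R : DCorr hS hχ n y z A B p) : LinksO (cm0 hS) (xc hS hχ) n p := by
  intro k k' q h1 h2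
  rw [R.cell (show k ≤ n by omega), R.cell (show k + 1 ≤ n by omega), R.cell (show k' ≤ n by omega),
    R.cell (show k' + 1 ≤ n by omega)]
  rcases link_cell hS hχ (R.innA k (by omega)) (R.mem0 k (by omega)) (R.mem1 k (by omega))
    (R.yS (by omega)) (R.yS (by omega)) (R.link k (by omega)) q with h | ⟨v, vS, vA, hq, a1, a2⟩
  · exact Or.inr (Or.inl h)
  rcases link_cell hS hχ (R.innA k' (by omega)) (R.mem0 k' (by omega)) (R.mem1 k' (by omega))
    (R.yS (by omega)) (R.yS (by omega)) (R.link k' (by omega)) q with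
    h | ⟨v', vS', vA', hq', b1, b2⟩
  · exact Or.inr (Or.inr h)
  have hv : v' = v := quot_inner hS (R.innA k (by omega) v vS vA) (hq.symm.trans hq')
  subst hv
  have hadj : k' = k + 1 := by
    by_contra hc
    exact Set.disjoint_left.1 (R.dis k k' (by omega) h2) vA vA'
  subst hadj
  left
  refine ⟨rfl, ?_⟩
  rw [hq]
  rcases a1 with h3 | h3
  · rw [h3]
  rcases b2 with h4 | h4
  · rw [h4]
  exfalso
  apply R.cross k h2
  exact (str_mono Set.subset_union_left h3).trans
    (rtg_symm (fun _ _ h => h.symm) (str_mono Set.subset_union_right h4))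

theorem DCorr.corr (R : DCorr hS hχ n y z A B p) :
    Corr (cm0 hS) (xc hS hχ) n p fun k => RD S (B k) where
  even := cfg_isC _
  n1 := R.n1
  occ := fun k hk => by
    show χ (p k).1.1 + χ (p k).1.2 = 1
    rw [R.st k hk]
    exact R.col k hk
  ne := fun k hk e => by
    have h1 := R.st k (by omega)
    rw [e, R.st (k + 1) (by omega)] at h1
    exact R.ne k hk (congrArg Prod.fst h1).symm
  far := fun k j hk hj h1 h2 h3 => R.far k j hk hj h1 h2 (by
    have := h3.1
    rw [R.st j hj] at this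
    exact this)
  arc := R.conf

theorem DCorr.gen (R : DCorr hS hχ n y z A B p) (k : ℕ) (hk : k < n) (d : D0 S)
    (hd : d ∈ RD S (B k)) : Gen (cm0 hS) ((cm0 hS).cell d) := by
  have hS1 : d.1.1 ∈ S := (mem_delT.1 (th_spec d.2)).1
  exact gen_inner hS (R.innB k hk _ hS1 hd.1)

/-- **all arcs forward** -/
theorem DCorr.main (R : DCorr hS hχ n y z A B p)
    (hf : ∀ k, k < n → FA (cm0 hS) (xc hS hχ) (RD S (B k)) (p k) (p (k + 1))) :
    ∃ (N : ℕ) (T : ℕ → ℕ), Lp (cm0 hS) (xc hS hχ) (p 0) N ∧ T 0 = 0 ∧ T n < N ∧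
      (∀ k, k < n → T (k + 1) = T k + ft (cm0 hS) (xc hS hχ) (p k) (p (k + 1))) ∧
      (∀ k, k < n → T k < T (k + 1)) ∧
      (∀ k, k ≤ n → (stp (cm0 hS) (xc hS hχ))^[T k] (p 0) = p k) ∧
      (∀ k, k < n → ∀ i, T k ≤ i → i ≤ T (k + 1) →
        (stp (cm0 hS) (xc hS hχ))^[i] (p 0) ∈ RD S (B k)) ∧
      Cut (cm0 hS) (xc hS hχ) (p 0) T 0 n ∧
      ∀ {E : Type} [AddCommMonoid E] (w : D0 S → E) (k : ℕ), k < n →
        KS (cm0 hS) (xc hS hχ) (p 0) w (T k) (T (k + 1)) =
          ZZ (cm0 hS) (xc hS hχ) w (RD S (B k)) (p k) (p (k + 1)) :=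
  R.corr.main hf R.gen R.linksO

/-- the corridor in the opposite direction -/
theorem DCorr.rev (R : DCorr hS hχ n y z A B p) :
    DCorr hS hχ n (fun k => y (n - k)) (fun k => z (n - k)) (fun k => A (n - 1 - k))
      (fun k => B (n - 1 - k)) fun k => p (n - k) where
  n1 := R.n1
  st := fun k _ => R.st _ (by omega)
  col := fun k _ => R.col _ (by omega)
  innA := fun k _ => R.innA _ (by have := R.n1; omega)
  innB := fun k _ => R.innB _ (by have := R.n1; omega)
  link := fun k hk => by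
    have h1 := R.link (n - 1 - k) (by omega)
    rw [show n - 1 - k + 1 = n - k by omega] at h1
    show Relation.ReflTransGen _ (y (n - k)) (y (n - (k + 1)))
    rw [show n - (k + 1) = n - 1 - k by omega]
    exact rtg_symm (fun _ _ h => h.symm) h1
  mem0 := fun k hk => by
    have h1 := R.mem1 (n - 1 - k) (by omega)
    rw [show n - 1 - k + 1 = n - k by omega] at h1
    exact h1
  mem1 := fun k hk => by
    have h1 := R.mem0 (n - 1 - k) (by omega)
    show y (n - (k + 1)) ∈ A (n - 1 - k)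
    rw [show n - (k + 1) = n - 1 - k by omega]
    exact h1
  ne := fun k hk => by
    have h1 := R.ne (n - 1 - k) (by omega)
    rw [show n - 1 - k + 1 = n - k by omega, show n - 1 - k = n - (k + 1) by omega] at h1
    exact h1.symm
  dis := fun k j h1 h2 => (R.dis (n - 1 - j) (n - 1 - k) (by omega) (by omega)).symm
  far := fun k j hk hj h1 h2 => R.far _ _ (by omega) (by omega) (by omega) (by omega)
  cross := fun k hk h => by
    apply R.cross (n - 2 - k) (by omega)
    have e1 : n - (k + 1) = n - 2 - k + 1 := by omega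
    have e2 : n - 1 - k = n - 2 - k + 1 := by omega
    have e3 : n - 1 - (k + 1) = n - 2 - k := by omega
    have e4 : n - k = n - 2 - k + 2 := by omega
    have e5 : n - (k + 2) = n - 2 - k := by omega
    rw [e1, e2, e3, e4, e5, Set.union_comm] at h
    exact rtg_symm (fun _ _ h => h.symm) h
  conf := fun k hk => by
    have h1 := R.conf (n - 1 - k) (by omega)
    rw [show n - 1 - k + 1 = n - k by omega] at h1
    rw [show n - (k + 1) = n - 1 - k by omega]
    exact h1.symm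

/-- **all arcs backward**: times `T k` of the gates `p (n - k)` on the loop through `p n` -/
theorem DCorr.main_back (R : DCorr hS hχ n y z A B p)
    (hf : ∀ k, k < n → FA (cm0 hS) (xc hS hχ) (RD S (B k)) (p (k + 1)) (p k)) :
    ∃ (N : ℕ) (T : ℕ → ℕ), Lp (cm0 hS) (xc hS hχ) (p n) N ∧ T 0 = 0 ∧ T n < N ∧
      (∀ k, k < n → T k < T (k + 1)) ∧
      (∀ k, k ≤ n → (stp (cm0 hS) (xc hS hχ))^[T k] (p n) = p (n - k)) ∧
      (∀ k, k < n → ∀ i, T k ≤ i → i ≤ T (k + 1) →
        (stp (cm0 hS) (xc hS hχ))^[i] (p n) ∈ RD S (B (n - 1 - k))) ∧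
      Cut (cm0 hS) (xc hS hχ) (p n) T 0 n ∧
      ∀ {E : Type} [AddCommMonoid E] (w : D0 S → E) (k : ℕ), k < n →
        KS (cm0 hS) (xc hS hχ) (p n) w (T k) (T (k + 1)) =
          ZZ (cm0 hS) (xc hS hχ) w (RD S (B (n - 1 - k))) (p (n - k)) (p (n - 1 - k)) := by
  have hf' : ∀ k, k < n → FA (cm0 hS) (xc hS hχ) (RD S (B (n - 1 - k))) (p (n - k))
      (p (n - (k + 1))) := by
    intro k hk
    have h1 := hf (n - 1 - k) (by omega)
    rw [show n - 1 - k + 1 = n - k by omega] at h1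
    rw [show n - (k + 1) = n - 1 - k by omega]
    exact h1
  obtain ⟨N, T, h1, h2, h3, -, h4, h5, h6, h7, h8⟩ := R.rev.main hf'
  have e0 : p (n - 0) = p n := by rw [Nat.sub_zero]
  refine ⟨N, T, ?_, h2, h3, h4, fun k hk => ?_, fun k hk i a1 a2 => ?_, ?_, fun w k hk => ?_⟩
  · exact h1
  · exact h5 k hk
  · exact h6 k hk i a1 a2
  · exact h7
  · have := h8 w k hk
    rw [show n - (k + 1) = n - 1 - k by omega] at this
    exact this

end Crest.Agent.R143.CorrDx117
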