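import Crest.Agent.R143.CovA_126
import Crest.Agent.R143.B0D_346
import Crest.Agent.R143.DelG_806

/-!
# R143 (helper126): covariance of the Delaunay networks and of the observable under rigid motions

* `Mo φ e` : `φ` is the motion `z ↦ e z + b`, `‖e‖ = 1`
* `Mo.del`, `Mo.gp`, `Mo.delT`, `Mo.hullE`, `Mo.vedge`, `Mo.crossRay`
* `Dom.mv` : the moved domain; `Mo.kl`, `Mo.rayMark`, `Mo.niso`
* `Mo.hval`, `Mo.h` : **the observable of the moved domain at the moved point**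
-/

set_option autoImplicit false
set_option linter.unusedSectionVars false

noncomputable section

open scoped Classical

namespace Crest.Agent.R143.CovBx126

open Crest.ProbabilityR.Voronoi
open Crest.Agent.R143.B0x346 Crest.Agent.R143.B0Dx346 Crest.Agent.R143.CovAx126
open Crest.Agent.R143.DelGx806

/-- `φ` is a rigid motion with rotation part `e` -/
structure Mo (φ : ℂ ≃ ℂ) (e : ℂ) : Prop where
  ne : ‖e‖ = 1
  sub : ∀ z w : ℂ, φ z - φ w = e * (z - w)

variable {φ : ℂ ≃ ℂ} {e : ℂ}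

theorem cr_mul {e : ℂ} (he : ‖e‖ = 1) (u v : ℂ) : cr (e * u) (e * v) = cr u v := by
  have h : e.re ^ 2 + e.im ^ 2 = 1 := by
    have := Complex.sq_norm e
    rw [he, Complex.normSq_apply] at this
    nlinarith
  unfold cr
  simp only [Complex.mul_re, Complex.mul_im]
  linear_combination (u.re * v.im - u.im * v.re) * h

namespace Mo

theorem norm (h : Mo φ e) (z w : ℂ) : ‖φ z - φ w‖ = ‖z - w‖ := by
  rw [h.sub, norm_mul, h.ne, one_mul]

theorem cr (h : Mo φ e) (a b c d : ℂ) : cr (φ a - φ b) (φ c - φ d) = B0x346.cr (a - b) (c - d) := by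
  rw [h.sub, h.sub, cr_mul h.ne]

theorem lft (h : Mo φ e) (x a b : ℂ) : Lft (φ x) (φ a) (φ b) ↔ Lft x a b := by
  unfold Lft
  rw [h.cr]

theorem inTri (h : Mo φ e) (x a b c : ℂ) : InTri (φ x) (φ a) (φ b) (φ c) ↔ InTri x a b c := by
  unfold InTri
  rw [h.lft, h.lft, h.lft]

theorem eq_add (h : Mo φ e) (z w : ℂ) : φ z = φ w + e * (z - w) := by
  rw [← h.sub]; ring

/-- the motion of the ray -/
theorem ray (h : Mo φ e) (c q : ℂ) (t : ℝ) : φ (c + t * q) = φ c + t * (e * q) := by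
  rw [h.eq_add (c + t * q) c]; ring

theorem segment (h : Mo φ e) (x a b : ℂ) : φ x ∈ segment ℝ (φ a) (φ b) ↔ x ∈ segment ℝ a b := by
  have hne : e ≠ 0 := by
    intro h0
    have := h.ne
    rw [h0, norm_zero] at this
    exact zero_ne_one this
  rw [segment_eq_image, segment_eq_image, Set.mem_image, Set.mem_image]
  refine exists_congr fun t => and_congr_right fun _ => ?_
  have e1 : (1 - t) • φ a + t • φ b = φ a + e * (t * (b - a)) := by
    rw [h.eq_add b a]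
    simp only [Complex.real_smul, Complex.ofReal_sub, Complex.ofReal_one]
    ring
  have e2 : (1 - t) • a + t • b = a + t * (b - a) := by
    simp only [Complex.real_smul, Complex.ofReal_sub, Complex.ofReal_one]
    ring
  rw [e1, e2, h.eq_add x a]
  constructor
  · intro h1
    have h2 : e * (t * (b - a)) = e * (x - a) := by linear_combination h1
    have h3 := mul_left_cancel₀ hne h2
    linear_combination h3
  · intro h1
    linear_combination e * h1

/-! ### Delaunay triangulations -/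

theorem ball_image (S : Set ℂ) (P : ℂ → Prop) : (∀ s ∈ φ '' S, P s) ↔ ∀ s ∈ S, P (φ s) :=
  Set.forall_mem_image

theorem del (h : Mo φ e) (S : Set ℂ) (a b c : ℂ) :
    Del (φ '' S) (φ a) (φ b) (φ c) ↔ Del S a b c := by
  unfold Del
  rw [φ.injective.mem_set_image, φ.injective.mem_set_image, φ.injective.mem_set_image, h.cr,
    φ.surjective.exists]
  simp only [ball_image, h.norm]

theorem gp (h : Mo φ e) (S : Set ℂ) : GP (φ '' S) ↔ GP S := by
  constructor
  · intro H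
    refine ⟨?_, ?_⟩
    · intro a ha b hb c hc h1 h2 h3
      have := H.line (φ a) ⟨a, ha, rfl⟩ (φ b) ⟨b, hb, rfl⟩ (φ c) ⟨c, hc, rfl⟩ (φ.injective.ne h1)
        (φ.injective.ne h2) (φ.injective.ne h3)
      rwa [h.cr] at this
    · intro a ha b hb c hc d hd h1 h2 h3 h4 h5 h6 o ho
      refine H.circ (φ a) ⟨a, ha, rfl⟩ (φ b) ⟨b, hb, rfl⟩ (φ c) ⟨c, hc, rfl⟩ (φ d) ⟨d, hd, rfl⟩
        (φ.injective.ne h1) (φ.injective.ne h2) (φ.injective.ne h3) (φ.injective.ne h4)
        (φ.injective.ne h5) (φ.injective.ne h6) (φ o) ?_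
      simp only [h.norm]
      exact ho
  · intro H
    refine ⟨?_, ?_⟩
    · rintro _ ⟨a, ha, rfl⟩ _ ⟨b, hb, rfl⟩ _ ⟨c, hc, rfl⟩ h1 h2 h3
      rw [h.cr]
      exact H.line a ha b hb c hc (fun h' => h1 (by rw [h'])) (fun h' => h2 (by rw [h']))
        (fun h' => h3 (by rw [h']))
    · rintro _ ⟨a, ha, rfl⟩ _ ⟨b, hb, rfl⟩ _ ⟨c, hc, rfl⟩ _ ⟨d, hd, rfl⟩ h1 h2 h3 h4 h5 h6 o ho
      obtain ⟨o, rfl⟩ := φ.surjective o
      simp only [h.norm] at ho
      exact H.circ a ha b hb c hc d hd (fun h' => h1 (by rw [h'])) (fun h' => h2 (by rw [h']))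
        (fun h' => h3 (by rw [h'])) (fun h' => h4 (by rw [h'])) (fun h' => h5 (by rw [h']))
        (fun h' => h6 (by rw [h'])) o ho

variable {S : Finset ℂ}

theorem coe_map (S : Finset ℂ) : ((S.map φ.toEmbedding : Finset ℂ) : Set ℂ) = φ '' (S : Set ℂ) := by
  simp

theorem mem_delT' {a b c : ℂ} : (a, b, c) ∈ delT S ↔ Del (S : Set ℂ) a b c := by
  unfold delT
  rw [Finset.mem_filter, Finset.mem_product, Finset.mem_product]
  constructor
  · exact fun h => h.2
  · exact fun h => ⟨⟨h.1, h.2.1, h.2.2.1⟩, h⟩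

theorem delT (h : Mo φ e) (a b c : ℂ) :
    (φ a, φ b, φ c) ∈ delT (S.map φ.toEmbedding) ↔ (a, b, c) ∈ B0x346.delT S := by
  rw [mem_delT', mem_delT', coe_map, h.del]

theorem exi (h : Mo φ e) (a b : ℂ) : (∃ c, (φ a, φ b, c) ∈ B0x346.delT (S.map φ.toEmbedding)) ↔
    ∃ c, (a, b, c) ∈ B0x346.delT S := by
  rw [φ.surjective.exists]
  exact exists_congr fun c => h.delT a b c

theorem all (h : Mo φ e) (a b : ℂ) : (∀ c, (φ a, φ b, c) ∉ B0x346.delT (S.map φ.toEmbedding)) ↔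
    ∀ c, (a, b, c) ∉ B0x346.delT S := by
  rw [φ.surjective.forall]
  exact forall_congr' fun c => not_congr (h.delT a b c)

theorem hullE (h : Mo φ e) (a b : ℂ) :
    hullE (S.map φ.toEmbedding) (φ a) (φ b) ↔ B0x346.hullE S a b :=
  and_congr (h.exi a b) (h.all b a)

theorem vedge (h : Mo φ e) (S : Set ℂ) (a b z : ℂ) :
    φ z ∈ vedge (φ '' S) (φ a) (φ b) ↔ z ∈ B0Dx346.vedge S a b := by
  unfold B0Dx346.vedge
  simp only [Set.mem_ofPred_eq, ball_image, h.norm]

theorem voronoiCell (h : Mo φ e) (S : Set ℂ) (a z : ℂ) :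
    φ z ∈ voronoiCell (φ '' S) (φ a) ↔ z ∈ Crest.ProbabilityR.Voronoi.voronoiCell S a := by
  unfold Crest.ProbabilityR.Voronoi.voronoiCell
  simp only [Set.mem_ofPred_eq, ball_image, h.norm]

theorem crossRay (h : Mo φ e) (c q : ℂ) (p : ℂ × ℂ) :
    crossRay (S.map φ.toEmbedding) (φ c) (e * q) (mE φ p) ↔ B0Dx346.crossRay S c q p := by
  unfold B0Dx346.crossRay
  refine and_congr (h.hullE p.1 p.2) (exists_congr fun t => and_congr_right fun _ => ?_)
  rw [← h.ray]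
  exact h.segment _ _ _

theorem rayMark (h : Mo φ e) {c q : ℂ} (hu : ∃! p, B0Dx346.crossRay S c q p) :
    rayMark (S.map φ.toEmbedding) (φ c) (e * q) = mE φ (B0Dx346.rayMark S c q) := by
  obtain ⟨p, hp, hu⟩ := hu
  have e1 : B0Dx346.rayMark S c q = p := by
    have hex : ∃ p, B0Dx346.crossRay S c q p := ⟨p, hp⟩
    unfold B0Dx346.rayMark
    rw [dif_pos hex]
    exact hu _ hex.choose_spec
  have e2 : B0Dx346.rayMark (S.map φ.toEmbedding) (φ c) (e * q) = mE φ p := by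
    have hex : ∃ p, B0Dx346.crossRay (S.map φ.toEmbedding) (φ c) (e * q) p :=
      ⟨mE φ p, (h.crossRay c q p).2 hp⟩
    unfold B0Dx346.rayMark
    rw [dif_pos hex]
    have h3 := hex.choose_spec
    set p' := hex.choose with hp'
    have h4 : p' = mE φ (φ.symm p'.1, φ.symm p'.2) := by simp [mE]
    rw [h4] at h3
    rw [h4, mE_inj]
    exact hu _ ((h.crossRay c q _).1 h3)
  rw [e1, e2]

end Mo

/-! ### domains -/

/-- the moved domain -/
def _root_.Crest.Agent.R143.B0Dx346.Dom.mv (D : Dom) (φ : ℂ ≃ ℂ) (e : ℂ) : Dom where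
  c := φ D.c
  L := D.L
  R i := φ '' D.R i
  q k := e * D.q k

theorem mv_out (D : Dom) (φ : ℂ ≃ ℂ) (e : ℂ) : (D.mv φ e).out = φ '' D.out := by
  unfold Dom.out Dom.mv
  rw [Set.image_iUnion]

namespace Mo

variable {S : Finset ℂ} {D : Dom}

theorem kl (h : Mo φ e) (a b : ℂ) :
    (φ a, φ b) ∈ (D.mv φ e).kl (S.map φ.toEmbedding) ↔ (a, b) ∈ D.kl S := by
  unfold Dom.kl
  simp only [Set.mem_ofPred_eq, mv_out, coe_map]
  constructor
  · rintro ⟨_, hz, ⟨z, hz', rfl⟩⟩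
    exact ⟨z, (h.vedge _ _ _ _).1 hz, hz'⟩
  · rintro ⟨z, hz, hz'⟩
    exact ⟨φ z, (h.vedge _ _ _ _).2 hz, ⟨z, hz', rfl⟩⟩

/-- the ray marks of the domain are unique -/
def _root_.Crest.Agent.R143.CovBx126.UMark (D : Dom) (S : Finset ℂ) : Prop :=
  ∀ k, ∃! p, B0Dx346.crossRay S D.c (D.q k) p

theorem netS_eq' (hS : GP (S : Set ℂ)) :
    D.netS S = D.net S (g1 S hS).1 (g1 S hS).2.1 (g1 S hS).2.2 := by
  unfold Dom.netS
  rw [dif_pos (g1 S hS)]

/-- **the network of the moved domain is the moved network** -/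
theorem niso (h : Mo φ e) (hS : GP (S : Set ℂ)) (hu : UMark D S) :
    NIso (D.netS S) ((D.mv φ e).netS (S.map φ.toEmbedding)) φ := by
  have hS' : GP ((S.map φ.toEmbedding : Finset ℂ) : Set ℂ) := by
    rw [coe_map]; exact (h.gp _).2 hS
  rw [netS_eq' hS, netS_eq' hS']
  have hm : ∀ k, B0Dx346.rayMark (S.map φ.toEmbedding) (D.mv φ e).c ((D.mv φ e).q k) =
      mE φ (B0Dx346.rayMark S D.c (D.q k)) := fun k => h.rayMark (hu k)
  refine ⟨⟨fun a b c => h.delT a b c⟩, ?_, hm⟩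
  intro a b
  show ((φ a, φ b) ∈ (D.mv φ e).kl (S.map φ.toEmbedding) ∧
    (∀ k, B0Dx346.rayMark (S.map φ.toEmbedding) (D.mv φ e).c ((D.mv φ e).q k) ≠ (φ a, φ b)) ∧
    ∀ k, B0Dx346.rayMark (S.map φ.toEmbedding) (D.mv φ e).c ((D.mv φ e).q k) ≠ (φ b, φ a)) ↔
    (a, b) ∈ D.kl S ∧ (∀ k, B0Dx346.rayMark S D.c (D.q k) ≠ (a, b)) ∧
    ∀ k, B0Dx346.rayMark S D.c (D.q k) ≠ (b, a)
  rw [h.kl]
  refine and_congr_right fun _ => and_congr (forall_congr' fun k => ?_) (forall_congr' fun k => ?_)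
  · rw [hm, show (φ a, φ b) = mE φ (a, b) from rfl, Ne, Ne, mE_inj]
  · rw [hm, show (φ b, φ a) = mE φ (b, a) from rfl, Ne, Ne, mE_inj]

/-- the observable at a point, for isomorphic networks -/
theorem hval (h : Mo φ e) (hS : GP (S : Set ℂ)) {N N' : Net ℂ} (hN : NIso N N' φ)
    (hT : N.T = B0x346.delT S) (z : ℂ) : hval N' (φ z) = B0Dx346.hval N z := by
  by_cases hex : ∃ t : ℂ × ℂ × ℂ, t ∈ N.T ∧ InTri z t.1 t.2.1 t.2.2
  · have hex' : ∃ t : ℂ × ℂ × ℂ, t ∈ N'.T ∧ InTri (φ z) t.1 t.2.1 t.2.2 := by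
      obtain ⟨t, ht, hz⟩ := hex
      exact ⟨mT φ t, (hN.tri _ _ _).2 ht, (h.inTri _ _ _ _).2 hz⟩
    unfold B0Dx346.hval
    rw [dif_pos hex, dif_pos hex']
    obtain ⟨h1, h2⟩ := hex.choose_spec
    obtain ⟨h3, h4⟩ := hex'.choose_spec
    set t := hex.choose
    set t' := hex'.choose
    obtain ⟨s, hs⟩ : ∃ s : ℂ × ℂ × ℂ, t' = mT φ s :=
      ⟨(φ.symm t'.1, φ.symm t'.2.1, φ.symm t'.2.2), by simp [mT]⟩
    rw [hs] at h3 h4 ⊢
    have h3' : s ∈ N.T := (hN.tri _ _ _).1 h3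
    have h4' : InTri z s.1 s.2.1 s.2.2 := (h.inTri _ _ _ _).1 h4
    obtain ⟨o, hTri⟩ := mem_delT_iff.1 (show (t.1, t.2.1, t.2.2) ∈ B0x346.delT S from hT ▸ h1)
    obtain ⟨o', hTri'⟩ := mem_delT_iff.1 (show (s.1, s.2.1, s.2.2) ∈ B0x346.delT S from hT ▸ h3')
    have hd := disj hS hTri hTri' h2 (InO.inT h4')
    have e1 : ∀ a b, N'.F (φ a) (φ b) = N.F a b := hN.F
    simp only [mT, e1]
    simp only [rots, Set.mem_insert_iff, Set.mem_singleton_iff, Prod.mk.injEq] at hd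
    rcases hd with ⟨a1, a2, a3⟩ | ⟨a1, a2, a3⟩ | ⟨a1, a2, a3⟩
    · rw [a1, a2, a3]
    · rw [a1, a2, a3]; ring
    · rw [a1, a2, a3]; ring
  · have hex' : ¬ ∃ t : ℂ × ℂ × ℂ, t ∈ N'.T ∧ InTri (φ z) t.1 t.2.1 t.2.2 := by
      rintro ⟨t', ht', hz'⟩
      obtain ⟨s, rfl⟩ : ∃ s : ℂ × ℂ × ℂ, t' = mT φ s :=
        ⟨(φ.symm t'.1, φ.symm t'.2.1, φ.symm t'.2.2), by simp [mT]⟩
      exact hex ⟨s, (hN.tri _ _ _).1 ht', (h.inTri _ _ _ _).1 hz'⟩
    unfold B0Dx346.hval
    rw [dif_neg hex, dif_neg hex']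

/-- the sites of the moved domain -/
theorem sites (h : Mo φ e) {ε : ℝ} {ω ω' : Sample} (hp : points ε ω' = φ '' points ε ω) :
    (D.mv φ e).sites ε ω' = (D.sites ε ω).map φ.toEmbedding := by
  have e1 : points ε ω' ∩ Metric.closedBall (D.mv φ e).c (D.mv φ e).L =
      φ '' (points ε ω ∩ Metric.closedBall D.c D.L) := by
    rw [hp, Set.image_inter φ.injective]
    congr 1
    ext z
    obtain ⟨z, rfl⟩ := φ.surjective z
    rw [φ.injective.mem_set_image, Metric.mem_closedBall, Metric.mem_closedBall, dist_eq_norm,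
      dist_eq_norm]
    show ‖φ z - φ D.c‖ ≤ D.L ↔ _
    rw [h.norm]
  unfold Dom.sites
  by_cases hf : (points ε ω ∩ Metric.closedBall D.c D.L).Finite
  · have hf' : (points ε ω' ∩ Metric.closedBall (D.mv φ e).c (D.mv φ e).L).Finite := by
      rw [e1]; exact hf.image _
    rw [dif_pos hf, dif_pos hf']
    apply Finset.coe_injective
    rw [Set.Finite.coe_toFinset, coe_map, Set.Finite.coe_toFinset, e1]
  · have hf' : ¬ (points ε ω' ∩ Metric.closedBall (D.mv φ e).c (D.mv φ e).L).Finite := by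
      rw [e1]
      intro h'
      exact hf (h'.of_finite_image φ.injective.injOn)
    rw [dif_neg hf, dif_neg hf', Finset.map_empty]

theorem netS_T' (hS : GP (S : Set ℂ)) : (D.netS S).T = B0x346.delT S := by
  rw [netS_eq' hS]; rfl

/-- **the observable of the moved domain and the moved sample at the moved point** -/
theorem h (h : Mo φ e) {ε : ℝ} {ω ω' : Sample} (hp : points ε ω' = φ '' points ε ω)
    (hS : GP (D.sites ε ω : Set ℂ)) (hu : UMark D (D.sites ε ω)) (z : ℂ) :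
    (D.mv φ e).h ε ω' (φ z) = D.h ε ω z := by
  unfold Dom.h
  rw [h.sites hp]
  exact h.hval hS (h.niso hS hu) (netS_T' hS) z

/-- good environments -/
theorem env (h : Mo φ e) {ε d M : ℝ} {c : ℂ} {L : ℝ} {ω ω' : Sample}
    (hp : points ε ω' = φ '' points ε ω) (H : Env ε d M c L ω) : Env ε d M (φ c) L ω' := by
  have e1 : ∀ (c : ℂ) (r : ℝ), points ε ω' ∩ Metric.closedBall (φ c) r =
      φ '' (points ε ω ∩ Metric.closedBall c r) := by
    intro c r
    rw [hp, Set.image_inter φ.injective]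
    congr 1
    ext z
    obtain ⟨z, rfl⟩ := φ.surjective z
    rw [φ.injective.mem_set_image, Metric.mem_closedBall, Metric.mem_closedBall, dist_eq_norm,
      dist_eq_norm, h.norm]
  have e2 : ∀ (c : ℂ) (r : ℝ), points ε ω' ∩ Metric.ball (φ c) r =
      φ '' (points ε ω ∩ Metric.ball c r) := by
    intro c r
    rw [hp, Set.image_inter φ.injective]
    congr 1
    ext z
    obtain ⟨z, rfl⟩ := φ.surjective z
    rw [φ.injective.mem_set_image, Metric.mem_ball, Metric.mem_ball, dist_eq_norm,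
      dist_eq_norm, h.norm]
  refine ⟨?_, ?_, ?_, ?_⟩
  · rw [e1]; exact H.fin.image _
  · rw [hp]; exact (h.gp _).2 H.gp
  · intro z hz
    obtain ⟨z, rfl⟩ := φ.surjective z
    rw [Metric.mem_closedBall, dist_eq_norm, h.norm, ← dist_eq_norm] at hz
    rw [e2]
    exact (H.hole z hz).image _
  · intro z hz
    obtain ⟨z, rfl⟩ := φ.surjective z
    rw [Metric.mem_closedBall, dist_eq_norm, h.norm, ← dist_eq_norm] at hz
    rw [e1, Set.ncard_image_of_injective _ φ.injective]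
    exact H.cnt z hz

end Mo

end Crest.Agent.R143.CovBx126
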