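import Crest.Agent.R143.PathG_503
import Crest.Agent.R143.CorrD_117
import Crest.Agent.R143.WLoc11_713

/-!
# Row 143 (S0194): from selected gate darts and tile events to corridors and rings (helper713)

* `Gts.corr` : open corridor `DCorr` of 117 from 503's `GPath` and `Gts` (mirror of `Gts.ring`)
* `dg g Q X` : the selected gate dart of `X` (`LG g Q X (dg g Q X)` if there is a neck)
* `UG P k` : the gate `k` is an end of a tile in use
* `gts_of` : `LG` and `TC` give `Gts (sX X) (sX X) (bX X)`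
* `val_zC` : 117's `ZZ` between consecutive gates is `zC`
* `corr_of`, `ring_of` : `DCorr` / `DRing` and the values, directly from `TC`
-/

set_option autoImplicit false
set_option linter.all false

noncomputable section

open scoped Classical

namespace Crest.Agent.R143.DCorGx713

open Set
open Crest.Agent.R143.B0x346 Crest.Agent.R143.DelGx806 Crest.Agent.R143.DelRx806
  Crest.Agent.R143.JColx54
open Crest.Agent.R143.Frame1x395 Crest.Agent.R143.Frame2x395 Crest.Agent.R143.Frame3x395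
  Crest.Agent.R143.Frame4x395 Crest.Agent.R143.Frame8x395 Crest.Agent.R143.Frame9x395
  Crest.Agent.R143.Frame10x395 Crest.Agent.R143.Frame11x395
open Crest.Agent.R143.Frame5x395 (sd mem_sd th th_spec)
open Crest.Agent.R143.Locx922
open Crest.Agent.R143.Splx117 Crest.Agent.R143.WLocx713
open Crest.Agent.R143.Blkx838 (DE)
open Crest.Agent.R143.Neckx921 (Neck NeckD Tile Lk)
open Crest.Agent.R143.PP0x831 Crest.Agent.R143.FinMx609
open Crest.Agent.R143.RingDx117 (RD DRing StC StR)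
open Crest.Agent.R143.CorrDx117 (DCorr)
open Crest.Agent.R143.PathDx503

/-! ### open corridors -/

section corr

variable {S V β : Finset ℂ} {χ : ℂ → ZMod 2} {z0 e : ℕ → ℂ} {R B : ℕ → Set ℂ}
  {a0 a1 b0 b1 m m' : ℝ} {y x : ℕ → ℂ} {b : ZMod 2}

/-- the gates of the tiles `k < n` -/
theorem gts_le {n : ℕ} (n1 : 1 ≤ n)
    (h : Gts S V β (fun k => k < n) z0 e R a0 a1 b0 b1 m y x) {k : ℕ} (hk : k ≤ n) :
    NeckD S (z0 k) (e k) a0 a1 b0 b1 m V β (y k) (x k) := by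
  rcases Nat.lt_or_ge k n with h1 | h1
  · exact h.gate k (Or.inl h1)
  · exact h.gate k (Or.inr ⟨n - 1, by omega, by omega⟩)

/-- **the open corridor** -/
theorem Gts.corr {hS : GP (S : Set ℂ)} {hχ : HullC S χ} {n : ℕ} (n1 : 1 ≤ n)
    (hβ : ∀ s ∈ V, χ s = b ↔ s ∈ β) (hβV : β ⊆ V)
    (G : GPath S (fun k => k < n) z0 e R a0 a1 b0 b1 m')
    (h : Gts S V β (fun k => k < n) z0 e R a0 a1 b0 b1 m y x)
    (innB : ∀ k, k < n → ∀ v ∈ S, v ∈ B k → ¬ OnHull S v)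
    (dis : ∀ k j, k + 2 ≤ j → j < n → Disjoint (R k) (R j))
    (far : ∀ k j, k < n → j ≤ n → j ≠ k → j ≠ k + 1 →
      Disjoint (Win (z0 j) (e j) a0 a1 b0 b1) (B k))
    (conf : ∀ k, k < n → ∀ p q : D0 S, p.1 = (y k, x k) → q.1 = (y (k + 1), x (k + 1)) →
      FA (cm0 hS) (xc hS hχ) (RD S (B k)) p q ∨ FA (cm0 hS) (xc hS hχ) (RD S (B k)) q p)
    {p : ℕ → D0 S} (hp : ∀ k, k ≤ n → (p k).1 = (y k, x k)) :
    DCorr hS hχ n y x R B p where
  n1 := n1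
  st := hp
  col := fun k hk => (neck_col hβ (gts_le n1 h hk)).2
  innA := fun k hk => G.inn k hk
  innB := innB
  link := fun k hk => h.stc hβ hβV hk
  mem0 := fun k hk => (h.link k hk).1.1.2
  mem1 := fun k hk => (h.link k hk).1.2.2
  ne := fun k hk => h.ne G hk
  dis := dis
  far := fun k j h1 h2 h3 h4 h5 =>
    Set.disjoint_left.1 (far k j h1 h2 h3 h4) (neck_win (gts_le n1 h h2)) h5
  cross := fun k hk => h.crs hS hβ G (by omega) hk
  conf := fun k hk => conf k hk _ _ (hp k (by omega)) (hp (k + 1) (by omega))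

end corr

/-! ### selected gate darts -/

/-- the selected gate dart -/
def dg (g : GPar) (Q : Set ℂ) (X : Set (ℂ × Bool)) : ℂ × ℂ :=
  if h : ∃ p, LG g Q X p then h.choose else 0

theorem dg_spec {g : GPar} {Q : Set ℂ} {X : Set (ℂ × Bool)} (h : ∃ p, LG g Q X p) :
    LG g Q X (dg g Q X) := by
  unfold dg
  rw [dif_pos h]
  exact h.choose_spec

theorem dg_eq {g : GPar} {Q : Set ℂ} {X : Set (ℂ × Bool)} {p : ℂ × ℂ} (h : LG g Q X p) :
    dg g Q X = p := h.uniq (dg_spec ⟨p, h⟩)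

/-- the gate `k` is an end of a tile in use -/
def UG (P : ℕ → Prop) (k : ℕ) : Prop := P k ∨ ∃ j, k = j + 1 ∧ P j

section

variable {X : Set (ℂ × Bool)} {P : ℕ → Prop} {g : ℕ → GPar} {Q R B : ℕ → Set ℂ} {d : ℝ}

/-- the tile events give the selected darts -/
theorem lg_of (hT : ∀ k, P k → TC (R k) (LG (g k) (Q k)) (LG (g (k + 1)) (Q (k + 1))) X) {k : ℕ}
    (hk : UG P k) : LG (g k) (Q k) X (dg (g k) (Q k) X) := by
  rcases hk with hk | ⟨j, rfl, hk⟩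
  · obtain ⟨-, p, -, hp, -⟩ := hT k hk
    exact dg_spec ⟨p, hp⟩
  · obtain ⟨-, -, q, -, hq, -⟩ := hT j hk
    exact dg_spec ⟨q, hq⟩

/-- the tile between the selected darts -/
theorem tile_of {A Q Q' : Set ℂ} {g g' : GPar} (h : TC A (LG g Q) (LG g' Q') X) :
    Tile (sX X) (sX X) (bX X) A (dg g Q X).1 (dg g Q X).2 (dg g' Q' X).1 (dg g' Q' X).2 := by
  obtain ⟨-, p, q, hp, hq, h⟩ := h
  rw [dg_eq hp, dg_eq hq]
  exact h

variable {z0 e : ℕ → ℂ} {a0 a1 b0 b1 m m' : ℝ}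

/-- frames and parameters of the gates -/
def gp0 (z0 e : ℕ → ℂ) (a0 a1 b0 b1 m : ℝ) (k : ℕ) : GPar := ⟨z0 k, e k, a0, a1, b0, b1, m⟩

/-- **gates and black links from the tile events** -/
theorem gts_of (hX : X.Finite) (hd : 0 < d)
    (hH : ∀ k, UG P k → Hol (ps X) (gp0 z0 e a0 a1 b0 b1 m k).win d)
    (hQ : ∀ k, UG P k → ∀ w ∈ (gp0 z0 e a0 a1 b0 b1 m k).win, ∀ s, ‖s - w‖ < 2 * d → s ∈ Q k)
    (hT : ∀ k, P k → TC (R k) (LG (gp0 z0 e a0 a1 b0 b1 m k) (Q k))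
      (LG (gp0 z0 e a0 a1 b0 b1 m (k + 1)) (Q (k + 1))) X) :
    Gts (sX X) (sX X) (bX X) P z0 e R a0 a1 b0 b1 m
      (fun k => (dg (gp0 z0 e a0 a1 b0 b1 m k) (Q k) X).1)
      (fun k => (dg (gp0 z0 e a0 a1 b0 b1 m k) (Q k) X).2) where
  gate := fun k hk => LG_neck hX hd (hH k hk) (hQ k hk) (lg_of hT hk)
  link := fun k hk => (tile_of (hT k hk)).1

/-- the white links -/
theorem wlk_of (hT : ∀ k, P k → TC (R k) (LG (g k) (Q k)) (LG (g (k + 1)) (Q (k + 1))) X) {k : ℕ}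
    (hk : P k) : Lk (sX X) {s | (s ∈ sX X ∧ s ∉ bX X) ∧ s ∈ R k} (dg (g k) (Q k) X).2
      (dg (g (k + 1)) (Q (k + 1)) X).2 := (tile_of (hT k hk)).2

theorem bX_iff : ∀ s ∈ sX X, cX X s = 1 ↔ s ∈ bX X := by
  intro s hs
  unfold bX
  rw [Finset.mem_filter]
  exact ⟨fun h => ⟨hs, h⟩, fun h => h.2⟩

theorem bX_sub : bX X ⊆ sX X := Finset.filter_subset _ _

/-- **the value of 117's `ZZ` between two selected darts** -/
theorem val_zC (hX : X.Finite) (hS : GP (sX X : Set ℂ)) (hχ : HullC (sX X) (cX X)) {g g' : GPar}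
    {Q Q' W : Set ℂ} {p q : D0 (sX X)} (hp : LG g Q X p.1) (hq : LG g' Q' X q.1)
    (op : xc hS hχ p = 1) (oq : xc hS hχ q = 1)
    (hW : ∀ v ∈ sX X, v ∈ W → ¬ OnHull (sX X) v) {f : ℂ × ℂ × ℂ → ℂ} {w : D0 (sX X) → ℂ}
    (hw : ∀ e : D0 (sX X), e.1.2 ∈ W → th (sX X) e.1 ∈ W → w e = f (e.1.2, th (sX X) e.1, e.1.1)) :
    ZZ (cm0 hS) (xc hS hχ) w (RD (sX X) W) p q = zC f W (LG g Q) (LG g' Q') X :=
  zz_zC hX hS hχ op oq hp hq (fun r hr => hp.uniq hr) (fun r hr => hq.uniq hr)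
    (fun v hv hv' => hW v hv' hv) hw

/-! ### corridors and rings of a configuration -/

/-- **open corridor of a configuration** -/
theorem corr_of (hX : X.Finite) (hS : GP (sX X : Set ℂ)) (hχ : HullC (sX X) (cX X)) (hd : 0 < d)
    {n : ℕ} (n1 : 1 ≤ n)
    (hH : ∀ k, k ≤ n → Hol (ps X) (gp0 z0 e a0 a1 b0 b1 m k).win d)
    (hQ : ∀ k, k ≤ n → ∀ w ∈ (gp0 z0 e a0 a1 b0 b1 m k).win, ∀ s, ‖s - w‖ < 2 * d → s ∈ Q k)
    (hT : ∀ k, k < n → TC (R k) (LG (gp0 z0 e a0 a1 b0 b1 m k) (Q k))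
      (LG (gp0 z0 e a0 a1 b0 b1 m (k + 1)) (Q (k + 1))) X)
    (G : GPath (sX X) (fun k => k < n) z0 e R a0 a1 b0 b1 m')
    (innB : ∀ k, k < n → ∀ v ∈ sX X, v ∈ B k → ¬ OnHull (sX X) v)
    (dis : ∀ k j, k + 2 ≤ j → j < n → Disjoint (R k) (R j))
    (far : ∀ k j, k < n → j ≤ n → j ≠ k → j ≠ k + 1 →
      Disjoint (Win (z0 j) (e j) a0 a1 b0 b1) (B k))
    (conf : ∀ k, k < n → ∀ p q : D0 (sX X), LG (gp0 z0 e a0 a1 b0 b1 m k) (Q k) X p.1 →
      LG (gp0 z0 e a0 a1 b0 b1 m (k + 1)) (Q (k + 1)) X q.1 →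
      FA (cm0 hS) (xc hS hχ) (RD (sX X) (B k)) p q ∨
        FA (cm0 hS) (xc hS hχ) (RD (sX X) (B k)) q p) :
    ∃ p : ℕ → D0 (sX X), (∀ k, k ≤ n → LG (gp0 z0 e a0 a1 b0 b1 m k) (Q k) X (p k).1) ∧
      DCorr hS hχ n (fun k => (p k).1.1) (fun k => (p k).1.2) R B p := by
  have hU : ∀ k, UG (fun k => k < n) k → k ≤ n := by
    rintro k (h | ⟨j, rfl, h⟩)
    · exact le_of_lt h
    · exact h
  have hU' : ∀ k, k ≤ n → UG (fun k => k < n) k := by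
    intro k hk
    rcases Nat.lt_or_ge k n with h1 | h1
    · exact Or.inl h1
    · exact Or.inr ⟨n - 1, by omega, by show n - 1 < n; omega⟩
  have h := gts_of (P := fun k => k < n) (R := R) (Q := Q) hX hd (fun k hk => hH k (hU k hk))
    (fun k hk => hQ k (hU k hk)) hT
  have hsd : ∀ k, k ≤ n → dg (gp0 z0 e a0 a1 b0 b1 m k) (Q k) X ∈ sd (sX X) := fun k hk =>
    neck_sd hχ (V := sX X) (b := 1) bX_iff (gts_le n1 h hk)
  set p : ℕ → D0 (sX X) := fun k => ⟨dg (gp0 z0 e a0 a1 b0 b1 m (min k n)) (Q (min k n)) X,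
    hsd _ (min_le_right k n)⟩ with hpd
  have hp : ∀ k, k ≤ n → (p k).1 = dg (gp0 z0 e a0 a1 b0 b1 m k) (Q k) X := by
    intro k hk
    show dg (gp0 z0 e a0 a1 b0 b1 m (min k n)) (Q (min k n)) X = _
    rw [min_eq_left hk]
  have hL : ∀ k, k ≤ n → LG (gp0 z0 e a0 a1 b0 b1 m k) (Q k) X (p k).1 := by
    intro k hk
    rw [hp k hk]
    exact lg_of (P := fun k => k < n) hT (hU' k hk)
  refine ⟨p, hL, ?_⟩
  have hg : ∀ k, k ≤ n → NeckD (sX X) (z0 k) (e k) a0 a1 b0 b1 m (sX X) (bX X) (p k).1.1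
      (p k).1.2 := by
    intro k hk
    rw [hp k hk]
    exact gts_le n1 h hk
  have h' : Gts (sX X) (sX X) (bX X) (fun k => k < n) z0 e R a0 a1 b0 b1 m
      (fun k => (p k).1.1) (fun k => (p k).1.2) := by
    refine ⟨fun k hk => hg k (hU k hk), fun k hk => ?_⟩
    have h1 := h.link k hk
    show Lk (sX X) _ (p k).1.1 (p (k + 1)).1.1
    rw [hp k (le_of_lt hk), hp (k + 1) hk]
    exact h1
  exact Gts.corr n1 (b := 1) bX_iff bX_sub G h' innB dis far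
    (fun k hk p' q' e1 e2 => conf k hk p' q' (by rw [e1]; exact hL k (le_of_lt hk))
      (by rw [e2]; exact hL (k + 1) hk)) fun k _ => rfl

/-- the gates of a corridor are occupied -/
theorem occ_corr {hS : GP (sX X : Set ℂ)} {hχ : HullC (sX X) (cX X)} {n : ℕ} {y x : ℕ → ℂ}
    {p : ℕ → D0 (sX X)} (D : DCorr hS hχ n y x R B p) {k : ℕ} (hk : k ≤ n) :
    xc hS hχ (p k) = 1 := by
  show cX X (p k).1.1 + cX X (p k).1.2 = 1
  rw [D.st k hk]
  exact D.col k hk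

theorem occ_ring {hS : GP (sX X : Set ℂ)} {hχ : HullC (sX X) (cX X)} {n : ℕ} {y x : ℕ → ℂ}
    {p : ℕ → D0 (sX X)} (D : DRing hS hχ n y x R B p) (k : ℕ) : xc hS hχ (p k) = 1 := by
  show cX X (p k).1.1 + cX X (p k).1.2 = 1
  rw [D.st k]
  exact D.col k

/-- **the values along a corridor** -/
theorem corr_zC (hX : X.Finite) {hS : GP (sX X : Set ℂ)} {hχ : HullC (sX X) (cX X)} {n : ℕ}
    {y x : ℕ → ℂ} {p : ℕ → D0 (sX X)} (D : DCorr hS hχ n y x R B p)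
    (hL : ∀ k, k ≤ n → LG (g k) (Q k) X (p k).1) {f : ℂ × ℂ × ℂ → ℂ} {w : D0 (sX X) → ℂ} {k : ℕ}
    (hk : k < n) (hw : ∀ e : D0 (sX X), e.1.2 ∈ B k → th (sX X) e.1 ∈ B k →
      w e = f (e.1.2, th (sX X) e.1, e.1.1)) :
    ZZ (cm0 hS) (xc hS hχ) w (RD (sX X) (B k)) (p k) (p (k + 1)) =
      zC f (B k) (LG (g k) (Q k)) (LG (g (k + 1)) (Q (k + 1))) X :=
  val_zC hX hS hχ (hL k (le_of_lt hk)) (hL (k + 1) hk) (occ_corr D (le_of_lt hk))
    (occ_corr D hk) (D.innB k hk) hw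

/-- the same value for the pair in the opposite order -/
theorem corr_zC' (hX : X.Finite) {hS : GP (sX X : Set ℂ)} {hχ : HullC (sX X) (cX X)} {n : ℕ}
    {y x : ℕ → ℂ} {p : ℕ → D0 (sX X)} (D : DCorr hS hχ n y x R B p)
    (hL : ∀ k, k ≤ n → LG (g k) (Q k) X (p k).1) {f : ℂ × ℂ × ℂ → ℂ} {w : D0 (sX X) → ℂ} {k : ℕ}
    (hk : k < n) (hw : ∀ e : D0 (sX X), e.1.2 ∈ B k → th (sX X) e.1 ∈ B k →
      w e = f (e.1.2, th (sX X) e.1, e.1.1)) :
    ZZ (cm0 hS) (xc hS hχ) w (RD (sX X) (B k)) (p (k + 1)) (p k) =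
      zC f (B k) (LG (g (k + 1)) (Q (k + 1))) (LG (g k) (Q k)) X :=
  val_zC hX hS hχ (hL (k + 1) hk) (hL k (le_of_lt hk)) (occ_corr D hk)
    (occ_corr D (le_of_lt hk)) (D.innB k hk) hw

/-- **the values along a ring** -/
theorem ring_zC (hX : X.Finite) {hS : GP (sX X : Set ℂ)} {hχ : HullC (sX X) (cX X)} {n : ℕ}
    {y x : ℕ → ℂ} {p : ℕ → D0 (sX X)} (D : DRing hS hχ n y x R B p)
    (hL : ∀ k, LG (g k) (Q k) X (p k).1) {f : ℂ × ℂ × ℂ → ℂ} {w : D0 (sX X) → ℂ} (k : ℕ)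
    (hw : ∀ e : D0 (sX X), e.1.2 ∈ B k → th (sX X) e.1 ∈ B k →
      w e = f (e.1.2, th (sX X) e.1, e.1.1)) :
    ZZ (cm0 hS) (xc hS hχ) w (RD (sX X) (B k)) (p k) (p (k + 1)) =
      zC f (B k) (LG (g k) (Q k)) (LG (g (k + 1)) (Q (k + 1))) X :=
  val_zC hX hS hχ (hL k) (hL (k + 1)) (occ_ring D k) (occ_ring D (k + 1)) (D.innB k) hw

/-- **ring of a configuration** -/
theorem ring_of (hX : X.Finite) (hS : GP (sX X : Set ℂ)) (hχ : HullC (sX X) (cX X)) (hd : 0 < d)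
    {n : ℕ} (n3 : 3 ≤ n)
    (hH : ∀ k, Hol (ps X) (gp0 z0 e a0 a1 b0 b1 m k).win d)
    (hQ : ∀ k, ∀ w ∈ (gp0 z0 e a0 a1 b0 b1 m k).win, ∀ s, ‖s - w‖ < 2 * d → s ∈ Q k)
    (hT : ∀ k, TC (R k) (LG (gp0 z0 e a0 a1 b0 b1 m k) (Q k))
      (LG (gp0 z0 e a0 a1 b0 b1 m (k + 1)) (Q (k + 1))) X)
    (G : GPath (sX X) (fun _ => True) z0 e R a0 a1 b0 b1 m')
    (perz : ∀ k, z0 (k + n) = z0 k) (pere : ∀ k, e (k + n) = e k)
    (perQ : ∀ k, Q (k + n) = Q k) (perR : ∀ k, R (k + n) = R k) (perB : ∀ k, B (k + n) = B k)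
    (innB : ∀ k, ∀ v ∈ sX X, v ∈ B k → ¬ OnHull (sX X) v)
    (dis : ∀ k j, 2 ≤ j → j + 1 < n → Disjoint (R k) (R (k + j)))
    (far : ∀ k j, 2 ≤ j → j < n → Disjoint (Win (z0 (k + j)) (e (k + j)) a0 a1 b0 b1) (B k))
    (conf : ∀ k, ∀ p q : D0 (sX X), LG (gp0 z0 e a0 a1 b0 b1 m k) (Q k) X p.1 →
      LG (gp0 z0 e a0 a1 b0 b1 m (k + 1)) (Q (k + 1)) X q.1 →
      FA (cm0 hS) (xc hS hχ) (RD (sX X) (B k)) p q ∨
        FA (cm0 hS) (xc hS hχ) (RD (sX X) (B k)) q p) :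
    ∃ p : ℕ → D0 (sX X), (∀ k, LG (gp0 z0 e a0 a1 b0 b1 m k) (Q k) X (p k).1) ∧
      DRing hS hχ n (fun k => (p k).1.1) (fun k => (p k).1.2) R B p := by
  have h := gts_of (P := fun _ => True) (R := R) (Q := Q) hX hd (fun k _ => hH k)
    (fun k _ => hQ k) fun k _ => hT k
  have hL : ∀ k, LG (gp0 z0 e a0 a1 b0 b1 m k) (Q k) X
      (dg (gp0 z0 e a0 a1 b0 b1 m k) (Q k) X) := fun k =>
    lg_of (P := fun _ => True) (R := R) (fun k _ => hT k) (Or.inl trivial)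
  have per : ∀ k, dg (gp0 z0 e a0 a1 b0 b1 m (k + n)) (Q (k + n)) X =
      dg (gp0 z0 e a0 a1 b0 b1 m k) (Q k) X := by
    intro k
    unfold gp0
    rw [perz, pere, perQ]
  exact ⟨fun k => ⟨dg (gp0 z0 e a0 a1 b0 b1 m k) (Q k) X,
    neck_sd hχ (V := sX X) (b := 1) bX_iff (h.g0 (k := k) trivial)⟩, hL,
    Gts.ring (b := 1) bX_iff bX_sub G h n3 (fun k => congrArg Prod.fst (per k))
    (fun k => congrArg Prod.snd (per k)) perR perB innB dis far fun k p' q' e1 e2 =>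
      conf k p' q' (by rw [e1]; exact hL k) (by rw [e2]; exact hL (k + 1))⟩

end

end Crest.Agent.R143.DCorGx713
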