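import Crest.Agent.R143.TileR1_228

/-!
# Row 143 (S0194), CORE-C, box R1c: tile regions in the frames of the gates (helper228)

* `gz_succ`, `gz_sum` : centres of the gates
* `turn_cases` : straight, left or right
* `next_S`, `next_L`, `next_R` : coordinates of the gate `a + 1` from those of the gate `a`
* `mem_RR_frames` : the tile in the frames of its two gates
* `frame_S`, `frame_L`, `frame_R` : 921's regions in the frame of the gate `a`
* `X_scale`, `Y_scale`, `mem_RR_eta` : the same in the unit `η`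
-/

set_option autoImplicit false

noncomputable section

open scoped Classical

namespace Crest.Agent.R143.TileRx228

open Crest.Agent.R143.Gatex838 (X Y X_turn Y_turn)

variable {A B h g : ℝ} {M : ℕ} {W : ℤ → ℤ × ℤ} {a b : ℤ} {c s t : ℂ} {u v : ℤ × ℤ}

/-! ### gates -/

theorem gz_succ (h : ℝ) (W : ℤ → ℤ × ℤ) (a : ℤ) :
    gz h W (a + 1) = gz h W a + (h : ℂ) * ((ge W a + ge W (a + 1)) / 2) := by
  unfold gz ge
  rw [add_sub_cancel_right, cz_sub, cz_sub]
  ring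

theorem gz_cen (h : ℝ) (W : ℤ → ℤ × ℤ) (a : ℤ) :
    cen h W a = gz h W a + (h : ℂ) * (ge W a / 2) := by
  unfold gz ge cen
  rw [cz_sub]
  ring

/-- the displacement between two gates -/
theorem gz_sum (h : ℝ) (W : ℤ → ℤ × ℤ) (a : ℤ) (n : ℕ) :
    gz h W (a + n) - gz h W a =
      ∑ k ∈ Finset.range n, (h : ℂ) * ((ge W (a + k) + ge W (a + k + 1)) / 2) := by
  induction n with
  | zero => simp
  | succ n ih =>
    rw [Finset.sum_range_succ, ← ih,
      show a + ((n + 1 : ℕ) : ℤ) = a + n + 1 by push_cast; ring, gz_succ]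
    ring

theorem norm_ge (P : FPath M W) (a : ℤ) : ‖ge W a‖ = 1 := norm_cz (U4_ge P a)

theorem ge_ne (P : FPath M W) (a : ℤ) : ge W a ≠ 0 := cz_ne (U4_ge P a)

/-- straight, left or right -/
theorem turn_cases (P : FPath M W) (a : ℤ) : ge W (a + 1) = ge W a ∨
    ge W (a + 1) = ge W a * Complex.I ∨ ge W (a + 1) = ge W a * (-Complex.I) := by
  have h1 := U4_ge P a
  have h2 := P.step a
  have h3 := P.ne a
  have h4 : W (a - 1) - W a = -(W a - W (a - 1)) := by rw [neg_sub]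
  have e1 : ge W (a + 1) = cz (W (a + 1) - W a) := by
    unfold ge
    rw [add_sub_cancel_right]
  have e2 : ge W a = cz (W a - W (a - 1)) := rfl
  rw [h4] at h3
  rw [e1, e2]
  generalize W a - W (a - 1) = p at *
  generalize W (a + 1) - W a = q at *
  rcases h1 with rfl | rfl | rfl | rfl <;> rcases h2 with rfl | rfl | rfl | rfl <;>
    first
    | (refine absurd ?_ h3; simp; done)
    | exact Or.inl rfl
    | (refine Or.inr (Or.inl ?_); apply Complex.ext <;> simp [cz]; done)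
    | (refine Or.inr (Or.inr ?_); apply Complex.ext <;> simp [cz])

/-! ### next frame -/

theorem next_S (P : FPath M W) (hd : ge W (a + 1) = ge W a) (h : ℝ) (s : ℂ) :
    X (gz h W (a + 1)) (ge W (a + 1)) s = X (gz h W a) (ge W a) s - h ∧
      Y (gz h W (a + 1)) (ge W (a + 1)) s = Y (gz h W a) (ge W a) s := by
  rw [(XY_out P h a s).1, (XY_out P h a s).2, (XY_in P h a s).1, (XY_in P h a s).2, hd]
  exact ⟨by ring, rfl⟩

theorem next_L (P : FPath M W) (hd : ge W (a + 1) = ge W a * Complex.I) (h : ℝ) (s : ℂ) :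
    X (gz h W (a + 1)) (ge W (a + 1)) s = Y (gz h W a) (ge W a) s - h / 2 ∧
      Y (gz h W (a + 1)) (ge W (a + 1)) s = h / 2 - X (gz h W a) (ge W a) s := by
  rw [(XY_out P h a s).1, (XY_out P h a s).2, (XY_in P h a s).1, (XY_in P h a s).2, hd, X_turn,
    Y_turn]
  exact ⟨by ring, by ring⟩

theorem next_R (P : FPath M W) (hd : ge W (a + 1) = ge W a * (-Complex.I)) (h : ℝ) (s : ℂ) :
    X (gz h W (a + 1)) (ge W (a + 1)) s = -Y (gz h W a) (ge W a) s - h / 2 ∧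
      Y (gz h W (a + 1)) (ge W (a + 1)) s = X (gz h W a) (ge W a) s - h / 2 := by
  rw [(XY_out P h a s).1, (XY_out P h a s).2, (XY_in P h a s).1, (XY_in P h a s).2, hd, mul_neg,
    (XY_neg _ _ _).1, (XY_neg _ _ _).2, X_turn, Y_turn]
  exact ⟨by ring, by ring⟩

/-! ### the tile in the frames -/

/-- the tile `a` in the frames of the gates `a` and `a + 1` -/
theorem mem_RR_frames (P : FPath M W) : s ∈ RR A B h W a ↔
    ((h / 2 - B < X (gz h W a) (ge W a) s ∧ X (gz h W a) (ge W a) s < h / 2 + A) ∧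
      |Y (gz h W a) (ge W a) s| < A) ∨
    ((-(h / 2 + A) < X (gz h W (a + 1)) (ge W (a + 1)) s ∧
      X (gz h W (a + 1)) (ge W (a + 1)) s < B - h / 2) ∧
      |Y (gz h W (a + 1)) (ge W (a + 1)) s| < A) := by
  have e3 : ge W a = -cz (W (a - 1) - W a) := by
    unfold ge
    rw [← cz_neg, neg_sub]
  have e4 : ge W (a + 1) = cz (W (a + 1) - W a) := by
    unfold ge
    rw [add_sub_cancel_right]
  rw [(XY_out P h a s).1, (XY_out P h a s).2, (XY_in P h a s).1, (XY_in P h a s).2, e3, e4,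
    (XY_neg _ _ _).1, (XY_neg _ _ _).2, abs_neg]
  unfold RR Arm
  rw [Set.mem_union, Set.mem_ofPred_eq, Set.mem_ofPred_eq]
  constructor
  · rintro (⟨⟨h1, h2⟩, h3⟩ | ⟨⟨h1, h2⟩, h3⟩)
    · exact Or.inl ⟨⟨by linarith, by linarith⟩, h3⟩
    · exact Or.inr ⟨⟨by linarith, by linarith⟩, h3⟩
  · rintro (⟨⟨h1, h2⟩, h3⟩ | ⟨⟨h1, h2⟩, h3⟩)
    · exact Or.inl ⟨⟨by linarith, by linarith⟩, h3⟩
    · exact Or.inr ⟨⟨by linarith, by linarith⟩, h3⟩

/-- straight tile -/
theorem frame_S (P : FPath M W) (hA : 0 < A) (hAB : A ≤ B) (hd : ge W (a + 1) = ge W a) :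
    s ∈ RR A B h W a ↔
      (h / 2 - B < X (gz h W a) (ge W a) s ∧ X (gz h W a) (ge W a) s < h / 2 + B) ∧
        |Y (gz h W a) (ge W a) s| < A := by
  rw [mem_RR_frames P, (next_S P hd h s).1, (next_S P hd h s).2]
  set x := X (gz h W a) (ge W a) s
  set y := Y (gz h W a) (ge W a) s
  constructor
  · rintro (⟨⟨h1, h2⟩, h3⟩ | ⟨⟨h1, h2⟩, h3⟩)
    · exact ⟨⟨by linarith, by linarith⟩, h3⟩
    · exact ⟨⟨by linarith, by linarith⟩, h3⟩
  · rintro ⟨⟨h1, h2⟩, h3⟩
    rcases lt_or_ge x (h / 2 + A) with h4 | h4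
    · exact Or.inl ⟨⟨by linarith, by linarith⟩, h3⟩
    · exact Or.inr ⟨⟨by linarith, by linarith⟩, h3⟩

/-- left turn -/
theorem frame_L (P : FPath M W) (hd : ge W (a + 1) = ge W a * Complex.I) :
    s ∈ RR A B h W a ↔
      ((h / 2 - B < X (gz h W a) (ge W a) s ∧ X (gz h W a) (ge W a) s < h / 2 + A) ∧
        |Y (gz h W a) (ge W a) s| < A) ∨
      ((-A < Y (gz h W a) (ge W a) s ∧ Y (gz h W a) (ge W a) s < B) ∧
        |X (gz h W a) (ge W a) s - h / 2| < A) := by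
  rw [mem_RR_frames P, (next_L P hd h s).1, (next_L P hd h s).2]
  set x := X (gz h W a) (ge W a) s
  set y := Y (gz h W a) (ge W a) s
  rw [abs_sub_comm (h / 2) x]
  constructor
  · rintro (⟨⟨h1, h2⟩, h3⟩ | ⟨⟨h1, h2⟩, h3⟩)
    · exact Or.inl ⟨⟨h1, h2⟩, h3⟩
    · exact Or.inr ⟨⟨by linarith, by linarith⟩, h3⟩
  · rintro (⟨⟨h1, h2⟩, h3⟩ | ⟨⟨h1, h2⟩, h3⟩)
    · exact Or.inl ⟨⟨h1, h2⟩, h3⟩
    · exact Or.inr ⟨⟨by linarith, by linarith⟩, h3⟩

/-- right turn -/
theorem frame_R (P : FPath M W) (hd : ge W (a + 1) = ge W a * (-Complex.I)) :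
    s ∈ RR A B h W a ↔
      ((h / 2 - B < X (gz h W a) (ge W a) s ∧ X (gz h W a) (ge W a) s < h / 2 + A) ∧
        |Y (gz h W a) (ge W a) s| < A) ∨
      ((-B < Y (gz h W a) (ge W a) s ∧ Y (gz h W a) (ge W a) s < A) ∧
        |X (gz h W a) (ge W a) s - h / 2| < A) := by
  rw [mem_RR_frames P, (next_R P hd h s).1, (next_R P hd h s).2]
  set x := X (gz h W a) (ge W a) s
  set y := Y (gz h W a) (ge W a) s
  constructor
  · rintro (⟨⟨h1, h2⟩, h3⟩ | ⟨⟨h1, h2⟩, h3⟩)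
    · exact Or.inl ⟨⟨h1, h2⟩, h3⟩
    · exact Or.inr ⟨⟨by linarith, by linarith⟩, h3⟩
  · rintro (⟨⟨h1, h2⟩, h3⟩ | ⟨⟨h1, h2⟩, h3⟩)
    · exact Or.inl ⟨⟨h1, h2⟩, h3⟩
    · exact Or.inr ⟨⟨by linarith, by linarith⟩, h3⟩

/-! ### units -/

theorem X_scale {η : ℝ} (c u s : ℂ) : X c (η * u) s = X c u s / η := by
  unfold X
  rw [mul_comm, ← div_div, Complex.div_ofReal_re]

theorem Y_scale {η : ℝ} (c u s : ℂ) : Y c (η * u) s = Y c u s / η := by
  unfold Y
  rw [mul_comm, ← div_div, Complex.div_ofReal_im]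

/-- the tile in the unit `η`, with the mesh `T η`, in the frames of its two gates -/
theorem mem_RR_eta (P : FPath M W) {η T : ℝ} (hη : 0 < η) :
    s ∈ RR (9 * η) ((T / 2 + 1) * η) (T * η) W a ↔
    ((-1 < X (gz (T * η) W a) (η * ge W a) s ∧
        X (gz (T * η) W a) (η * ge W a) s < T / 2 + 9) ∧
      |Y (gz (T * η) W a) (η * ge W a) s| < 9) ∨
    ((-(T / 2 + 9) < X (gz (T * η) W (a + 1)) (η * ge W (a + 1)) s ∧
      X (gz (T * η) W (a + 1)) (η * ge W (a + 1)) s < 1) ∧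
      |Y (gz (T * η) W (a + 1)) (η * ge W (a + 1)) s| < 9) := by
  rw [mem_RR_frames P, X_scale, X_scale, Y_scale, Y_scale, abs_div, abs_div, abs_of_pos hη,
    div_lt_iff₀ hη, div_lt_iff₀ hη, div_lt_iff₀ hη, div_lt_iff₀ hη, lt_div_iff₀ hη, lt_div_iff₀ hη]
  rw [show T * η / 2 - (T / 2 + 1) * η = -1 * η by ring,
    show T * η / 2 + 9 * η = (T / 2 + 9) * η by ring,
    show (T / 2 + 1) * η - T * η / 2 = 1 * η by ring, neg_mul (T / 2 + 9) η]

end Crest.Agent.R143.TileRx228
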