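import Crest.Agent.R143.RingP_503
import Crest.Agent.R143.TileR2_228
import Crest.Agent.R143.DCorG_713

/-!
# Row 143 (S0194): corridors of a configuration along a fine path (helper713)

* `neck_scale` : the gate in the unit `η`
* `gF η h W r a` : gate `a` of the path, window `r` in the unit `η` (frame `gz`, `η * ge`)
* `evp_of` : selected darts and tile events give 503's `Evp`
* `Evp.corr` : the open corridor `DCorr`
* `corF` : `TC` along the tiles `o .. o + n - 1` of a good configuration gives `DCorr` and the values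
* `ringF` : the same for the closed path, `DRing`
* `lk_chain` : chain of (white) links; `dsj_of`, `num_std`, `win_box` : numbers
-/

set_option autoImplicit false
set_option linter.all false

noncomputable section

open scoped Classical

namespace Crest.Agent.R143.DCorFx713

open Set
open Crest.Agent.R143.B0x346 Crest.Agent.R143.DelGx806 Crest.Agent.R143.DelRx806
  Crest.Agent.R143.JColx54
open Crest.Agent.R143.Frame1x395 Crest.Agent.R143.Frame2x395 Crest.Agent.R143.Frame3x395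
  Crest.Agent.R143.Frame4x395 Crest.Agent.R143.Frame8x395 Crest.Agent.R143.Frame9x395
  Crest.Agent.R143.Frame10x395 Crest.Agent.R143.Frame11x395
open Crest.Agent.R143.Frame5x395 (sd mem_sd th th_spec)
open Crest.Agent.R143.Locx922
open Crest.Agent.R143.Splx117 Crest.Agent.R143.WLocx713
open Crest.Agent.R143.Blkx838 (DE)
open Crest.Agent.R143.Neckx921 (Neck NeckD Tile Lk)
open Crest.Agent.R143.PP0x831 Crest.Agent.R143.FinMx609
open Crest.Agent.R143.RingDx117 (RD DRing StC StR)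
open Crest.Agent.R143.CorrDx117 (DCorr)
open Crest.Agent.R143.Gatex838 (X Y)
open Crest.Agent.R143.TileRx228 Crest.Agent.R143.PathDx503 Crest.Agent.R143.PathGx503
open Crest.Agent.R143.RingPx503 Crest.Agent.R143.DCorGx713

/-! ### the unit of the gate -/

section scale

variable {S V β : Finset ℂ} {z0 e : ℂ} {a0 a1 b0 b1 m η : ℝ}

theorem X_sc (s : ℂ) : X z0 (η * e) s = X z0 e s / η := X_scale z0 e s

theorem Y_sc (s : ℂ) : Y z0 (η * e) s = Y z0 e s / η := Y_scale z0 e s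

theorem neck_scale (hη : 0 < η) {y x : ℂ} : NeckD S z0 (η * e) a0 a1 b0 b1 m V β y x ↔
    NeckD S z0 e (η * a0) (η * a1) (η * b0) (η * b1) (η * m) V β y x := by
  have l1 : ∀ (a t : ℝ), a < t / η ↔ η * a < t := fun a t => by rw [lt_div_iff₀ hη, mul_comm]
  have l2 : ∀ (a t : ℝ), t / η < a ↔ t < η * a := fun a t => by rw [div_lt_iff₀ hη, mul_comm]
  have l3 : ∀ (a t : ℝ), a ≤ t / η ↔ η * a ≤ t := fun a t => by rw [le_div_iff₀ hη, mul_comm]
  have l4 : ∀ (a t : ℝ), t / η ≤ a ↔ t ≤ η * a := fun a t => by rw [div_le_iff₀ hη, mul_comm]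
  constructor
  · rintro ⟨up, dn, h, hx⟩
    refine ⟨up, dn, ?_, hx⟩
    constructor
    case nu => exact h.nu
    case nd => exact h.nd
    case adj => exact h.adj
    case cu => exact h.cu
    case cd => exact fun s hs h1 => h.cd s hs (by rw [Y_sc, l1]; exact h1)
    case cy => exact h.cy
    case win =>
      intro s hs
      obtain ⟨⟨h1, h2⟩, h3, h4⟩ := h.win s hs
      rw [X_sc, l1] at h1
      rw [X_sc, l2] at h2
      rw [Y_sc, l3, mul_sub] at h3
      rw [Y_sc, l4, mul_add] at h4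
      exact ⟨⟨h1, h2⟩, h3, h4⟩
    case yb =>
      obtain ⟨h1, h2⟩ := h.yb
      rw [Y_sc, l1] at h1
      rw [Y_sc, l2] at h2
      exact ⟨h1, h2⟩
    case top =>
      have h1 := h.top
      rw [Y_sc, l3] at h1
      exact h1
    case bot =>
      have h1 := h.bot
      rw [Y_sc, l4] at h1
      exact h1
    all_goals
      intro s hs
      have h1 := h.upb s hs
      rw [Y_sc, l1] at h1
      exact h1
  · rintro ⟨up, dn, h, hx⟩
    refine ⟨up, dn, ?_, hx⟩
    constructor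
    case nu => exact h.nu
    case nd => exact h.nd
    case adj => exact h.adj
    case cu => exact h.cu
    case cd => exact fun s hs h1 => h.cd s hs (by rw [Y_sc, l1] at h1; exact h1)
    case cy => exact h.cy
    case win =>
      intro s hs
      obtain ⟨⟨h1, h2⟩, h3, h4⟩ := h.win s hs
      rw [← mul_sub] at h3
      rw [← mul_add] at h4
      rw [X_sc, l1, l2, Y_sc, l3, l4]
      exact ⟨⟨h1, h2⟩, h3, h4⟩
    case yb =>
      rw [Y_sc, l1, l2]
      exact h.yb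
    case top =>
      rw [Y_sc, l3]
      exact h.top
    case bot =>
      rw [Y_sc, l4]
      exact h.bot
    all_goals
      intro s hs
      rw [Y_sc, l1]
      exact h.upb s hs

end scale

/-! ### gates of the path -/

/-- numbers of the windows in the unit `η` -/
structure WPar where
  a0 : ℝ
  a1 : ℝ
  b0 : ℝ
  b1 : ℝ
  m : ℝ

/-- the gate `a` of the path -/
def gF (η h : ℝ) (W : ℤ → ℤ × ℤ) (r : WPar) (a : ℤ) : GPar :=
  ⟨gz h W a, η * ge W a, r.a0, r.a1, r.b0, r.b1, r.m⟩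

/-- the gate at the origin -/
def g1 (η : ℝ) (r : WPar) : GPar := ⟨0, η, r.a0, r.a1, r.b0, r.b1, r.m⟩

theorem gF_mv {η h : ℝ} {W : ℤ → ℤ × ℤ} {r : WPar} {a : ℤ} {φ : ℂ → ℂ} (hφ : φ 0 = gz h W a) :
    (g1 η r).mv φ (ge W a) = gF η h W r a := by
  unfold GPar.mv g1 gF
  simp only [hφ, mul_comm]

theorem gz_per {M : ℕ} {W : ℤ → ℤ × ℤ} (F : FPath M W) (h : ℝ) (a : ℤ) :
    gz h W (a + M) = gz h W a := by
  unfold gz
  rw [F.per, show a + (M : ℤ) - 1 = a - 1 + M by ring, F.per]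

theorem ge_per {M : ℕ} {W : ℤ → ℤ × ℤ} (F : FPath M W) (a : ℤ) : ge W (a + M) = ge W a := by
  unfold ge
  rw [F.per, show a + (M : ℤ) - 1 = a - 1 + M by ring, F.per]

theorem gF_per {M : ℕ} {W : ℤ → ℤ × ℤ} (F : FPath M W) (η h : ℝ) (r : WPar) (a : ℤ) :
    gF η h W r (a + M) = gF η h W r a := by
  unfold gF
  rw [gz_per F, ge_per F]

section

variable {X : Set (ℂ × Bool)} {P : ℤ → Prop} {g : ℤ → GPar} {Q R : ℤ → Set ℂ} {d : ℝ}

/-- the tile events give the selected darts -/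
theorem lgZ (hT : ∀ a, P a → TC (R a) (LG (g a) (Q a)) (LG (g (a + 1)) (Q (a + 1))) X) {a : ℤ}
    (ha : P a ∨ P (a - 1)) : LG (g a) (Q a) X (dg (g a) (Q a) X) := by
  rcases ha with ha | ha
  · obtain ⟨-, p, -, hp, -⟩ := hT a ha
    exact dg_spec ⟨p, hp⟩
  · obtain ⟨-, -, q, -, hq, -⟩ := hT (a - 1) ha
    rw [sub_add_cancel] at hq
    exact dg_spec ⟨q, hq⟩

variable {η h A B : ℝ} {W : ℤ → ℤ × ℤ} {r : WPar}

/-- **gates and tiles of a configuration along the path** -/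
theorem evp_of (hX : X.Finite) (hd : 0 < d) (hη : 0 < η)
    (hH : ∀ a, P a ∨ P (a - 1) → Hol (ps X) (gF η h W r a).win d)
    (hQ : ∀ a, P a ∨ P (a - 1) → ∀ w ∈ (gF η h W r a).win, ∀ s, ‖s - w‖ < 2 * d → s ∈ Q a)
    (hT : ∀ a, P a → TC (RR A B h W a) (LG (gF η h W r a) (Q a))
      (LG (gF η h W r (a + 1)) (Q (a + 1))) X) :
    Evp (sX X) (sX X) (bX X) h A B (η * r.a0) (η * r.a1) (η * r.b0) (η * r.b1) (η * r.m) W P
      (fun a => (dg (gF η h W r a) (Q a) X).1) (fun a => (dg (gF η h W r a) (Q a) X).2) where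
  gate := fun a ha => by
    rw [← neck_scale hη]
    exact LG_neck hX hd (hH a ha) (hQ a ha) (lgZ hT ha)
  tile := fun a ha => tile_of (hT a ha)

end

/-! ### the open corridor -/

section corr

variable {S V β : Finset ℂ} {χ : ℂ → ZMod 2} {h A B A' B' m m' τ κ bb : ℝ} {a0 a1 b0 b1 : ℝ}
  {M : ℕ} {W : ℤ → ℤ × ℤ} {b : ZMod 2} {P : ℤ → Prop} {y x : ℤ → ℂ} {U : Set ℂ}

theorem nd_of {M : ℕ} {n : ℕ} (hM : M = 0 ∨ n < M) {t : ℤ} (ht : t ≠ 0) (h1 : -n ≤ t)
    (h2 : t ≤ n) : ¬ (M : ℤ) ∣ t := by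
  intro hd
  rcases hM with rfl | hM
  · rw [Nat.cast_zero, zero_dvd_iff] at hd
    exact ht hd
  · rcases lt_or_gt_of_ne ht with h3 | h3
    · have := Int.le_of_dvd (by omega) ((dvd_neg (a := (M : ℤ))).2 hd)
      omega
    · have := Int.le_of_dvd h3 hd
      omega

/-- **the open corridor of a fine path** -/
theorem Evp.corr (E : Evp S V β h A B a0 a1 b0 b1 m' W P y x)
    (N : Num h A B κ bb a0 a1 b0 b1 m) (F : FPath M W) (hS : GP (S : Set ℂ)) (hχ : HullC S χ)
    (hβ : ∀ s ∈ V, χ s = b ↔ s ∈ β) (hβV : β ⊆ V) (hE : Envr S U m) (hτ : m < τ) {n : ℕ}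
    (n1 : 1 ≤ n) (hM : M = 0 ∨ n < M) (o : ℤ) (hP : ∀ k : ℕ, k < n → P (o + k))
    (hU : ∀ k : ℕ, k < n → RR (A + τ) (B + τ) h W (o + k) ⊆ U) (hA : bb ≤ A')
    (hB : h / 2 + κ ≤ B') (hA2 : A + τ ≤ A') (hB2 : B + τ ≤ B') (hD : Dsj A' B' h M W)
    {p : ℕ → D0 S} (hp : ∀ k : ℕ, k ≤ n → (p k).1 = (y (o + k), x (o + k))) :
    DCorr hS hχ n (fun k : ℕ => y (o + k)) (fun k : ℕ => x (o + k))
      (fun k : ℕ => RR A B h W (o + k)) (fun k : ℕ => RR (A + τ) (B + τ) h W (o + k)) p := by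
  have n0 := N.m0
  have hsub : ∀ k : ℕ, k < n → RR A B h W (o + k) ⊆ U := fun k hk =>
    (ConfTx503.rr_sub (by linarith) (by linarith) _).trans (hU k hk)
  have hM4 : M = 0 ∨ 4 ≤ M := F.M_cases
  have G := gpath_gen (S := S) (P := fun k => k < n) N F o
    (fun k h1 h2 u v huv hu hv => hE.step u v huv
      (hu.elim (fun h => hsub _ h1 h) (fun h => hsub _ h2 h))
      (hv.elim (fun h => hsub _ h1 h) (fun h => hsub _ h2 h)))
    (fun k hk s hs hs2 => hE.inn s hs (hsub _ hk hs2))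
  have hG : Gts S V β (fun k => k < n) (fun k : ℕ => gz h W (o + k)) (fun k : ℕ => ge W (o + k))
      (fun k : ℕ => RR A B h W (o + k)) a0 a1 b0 b1 m' (fun k : ℕ => y (o + k))
      (fun k : ℕ => x (o + k)) := by
    refine ⟨?_, fun k hk => ?_⟩
    · rintro k (hk | ⟨j, rfl, hj⟩)
      · exact E.gate _ (Or.inl (hP k hk))
      · refine E.gate _ (Or.inr ?_)
        have e : o + ((j + 1 : ℕ) : ℤ) - 1 = o + j := by push_cast; ring
        rw [e]
        exact hP j hj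
    · have e : o + ((k + 1 : ℕ) : ℤ) = o + (k : ℤ) + 1 := by push_cast; ring
      simp only [e]
      exact (E.tile _ (hP k hk)).1
  refine Gts.corr (m' := m) n1 hβ hβV G hG (fun k hk v hv hv2 => hE.inn v hv (hU k hk hv2))
    (fun k j h1 h2 => ?_) (fun k j h1 h2 h3 h4 => ?_) (fun k hk p q hp hq => ?_) hp
  · refine dsj_mono (by linarith) (by linarith) hD _ _ ?_ ?_ ?_
    · exact nd_of hM (by push_cast; omega) (by push_cast; omega) (by push_cast; omega)
    · exact nd_of hM (by push_cast; omega) (by push_cast; omega) (by push_cast; omega)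
    · exact nd_of hM (by push_cast; omega) (by push_cast; omega) (by push_cast; omega)
  · have e0 : o + (j : ℤ) - (o + (k : ℤ)) = (j : ℤ) - k := by ring
    refine (far_win N F hA hB hD (a := o + k) (c := o + j) ?_ ?_ ?_ ?_).mono_right
      (ConfTx503.rr_sub hA2 hB2 _)
    · exact nd_of hM (by omega) (by omega) (by omega)
    · exact nd_of hM (by omega) (by omega) (by omega)
    · by_cases h5 : (M : ℤ) ∣ o + (j : ℤ) - (o + k) + 1
      · right
        intro h6
        have h7 : (M : ℤ) ∣ 3 := by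
          have := dvd_sub h5 h6
          rwa [show o + (j : ℤ) - (o + k) + 1 - (o + j - (o + k) - 2) = 3 by ring] at this
        exact F.not3 h7
      · exact Or.inl h5
    · intro _ h6
      exact nd_of hM (t := o + (j : ℤ) - 1 - (o + k) + 1) (by omega) (by omega) (by omega) h6
  · have e : o + ((k + 1 : ℕ) : ℤ) = o + (k : ℤ) + 1 := by push_cast; ring
    simp only [e] at hq
    exact E.conf N F hS hχ hβ hβV hE hτ (hP k hk) (hU k hk) hp hq

end corr

/-! ### corridors of a configuration -/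

section conf

variable {X : Set (ℂ × Bool)} {M : ℕ} {W : ℤ → ℤ × ℤ} {Q : ℤ → Set ℂ} {r : WPar} {U : Set ℂ}
  {η h A B A' B' m τ κ bb d : ℝ}

/-- data of a corridor which do not depend on the colours: numbers, path, environment -/
structure CEnv (X : Set (ℂ × Bool)) (U : Set ℂ) (M : ℕ) (W : ℤ → ℤ × ℤ) (Q : ℤ → Set ℂ)
    (r : WPar) (η h A B A' B' m τ κ bb d : ℝ) (P : ℤ → Prop) : Prop where
  fin : X.Finite
  gp : GP (sX X : Set ℂ)
  hull : HullC (sX X) (cX X)
  d0 : 0 < d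
  η0 : 0 < η
  num : Num h A B κ bb (η * r.a0) (η * r.a1) (η * r.b0) (η * r.b1) m
  path : FPath M W
  env : Envr (sX X) U m
  mτ : m < τ
  dsj : Dsj A' B' h M W
  hA : bb ≤ A'
  hB : h / 2 + κ ≤ B'
  hA2 : A + τ ≤ A'
  hB2 : B + τ ≤ B'
  hol : ∀ a, P a ∨ P (a - 1) → Hol (ps X) (gF η h W r a).win d
  box : ∀ a, P a ∨ P (a - 1) → ∀ w ∈ (gF η h W r a).win, ∀ s, ‖s - w‖ < 2 * d → s ∈ Q a
  sub : ∀ a, P a → RR (A + τ) (B + τ) h W a ⊆ U
  evt : ∀ a, P a → TC (RR A B h W a) (LG (gF η h W r a) (Q a))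
    (LG (gF η h W r (a + 1)) (Q (a + 1))) X

variable {P : ℤ → Prop}

theorem CEnv.evp (C : CEnv X U M W Q r η h A B A' B' m τ κ bb d P) :
    Evp (sX X) (sX X) (bX X) h A B (η * r.a0) (η * r.a1) (η * r.b0) (η * r.b1) (η * r.m) W P
      (fun a => (dg (gF η h W r a) (Q a) X).1) (fun a => (dg (gF η h W r a) (Q a) X).2) :=
  evp_of C.fin C.d0 C.η0 C.hol C.box C.evt

/-- the state at the gate `a` -/
theorem CEnv.sd (C : CEnv X U M W Q r η h A B A' B' m τ κ bb d P) {a : ℤ}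
    (ha : P a ∨ P (a - 1)) : dg (gF η h W r a) (Q a) X ∈ sd (sX X) :=
  neck_sd C.hull (V := sX X) (b := 1) bX_iff (C.evp.gate a ha)

theorem CEnv.lg (C : CEnv X U M W Q r η h A B A' B' m τ κ bb d P) {a : ℤ}
    (ha : P a ∨ P (a - 1)) : LG (gF η h W r a) (Q a) X (dg (gF η h W r a) (Q a) X) :=
  lgZ C.evt ha

/-- colours of the selected dart -/
theorem CEnv.col (C : CEnv X U M W Q r η h A B A' B' m τ κ bb d P) {a : ℤ}
    (ha : P a ∨ P (a - 1)) : cX X (dg (gF η h W r a) (Q a) X).1 = 1 ∧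
      cX X (dg (gF η h W r a) (Q a) X).1 + cX X (dg (gF η h W r a) (Q a) X).2 = 1 :=
  neck_col (b := 1) bX_iff (C.evp.gate a ha)

/-- **corridor of a configuration**: the states `p k` are the selected darts of the gates `o + k` -/
theorem CEnv.corF (C : CEnv X U M W Q r η h A B A' B' m τ κ bb d P) {n : ℕ} (n1 : 1 ≤ n)
    (hM : M = 0 ∨ n < M) (o : ℤ) (hP : ∀ k : ℕ, k < n → P (o + k)) :
    ∃ p : ℕ → D0 (sX X),
      (∀ k : ℕ, k ≤ n → (p k).1 = dg (gF η h W r (o + k)) (Q (o + k)) X) ∧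
      (∀ k : ℕ, k ≤ n → LG (gF η h W r (o + k)) (Q (o + k)) X (p k).1) ∧
      DCorr C.gp C.hull n (fun k : ℕ => (dg (gF η h W r (o + k)) (Q (o + k)) X).1)
        (fun k : ℕ => (dg (gF η h W r (o + k)) (Q (o + k)) X).2)
        (fun k : ℕ => RR A B h W (o + k)) (fun k : ℕ => RR (A + τ) (B + τ) h W (o + k)) p := by
  have hU : ∀ k : ℕ, k ≤ n → P (o + k) ∨ P (o + k - 1) := by
    intro k hk
    rcases Nat.lt_or_ge k n with h1 | h1
    · exact Or.inl (hP k h1)
    · right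
      have e : o + (k : ℤ) - 1 = o + ((n - 1 : ℕ) : ℤ) := by
        have : k = n := by omega
        subst this
        omega
      rw [e]
      exact hP (n - 1) (by omega)
  set p : ℕ → D0 (sX X) := fun k =>
    ⟨dg (gF η h W r (o + (min k n : ℕ))) (Q (o + (min k n : ℕ))) X,
      C.sd (hU _ (min_le_right k n))⟩ with hpd
  have hp : ∀ k : ℕ, k ≤ n → (p k).1 = dg (gF η h W r (o + k)) (Q (o + k)) X := by
    intro k hk
    show dg (gF η h W r (o + (min k n : ℕ))) (Q (o + (min k n : ℕ))) X = _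
    rw [min_eq_left hk]
  refine ⟨p, hp, fun k hk => ?_, ?_⟩
  · rw [hp k hk]
    exact C.lg (hU k hk)
  · exact Evp.corr (b := 1) (y := fun a => (dg (gF η h W r a) (Q a) X).1)
      (x := fun a => (dg (gF η h W r a) (Q a) X).2) C.evp C.num C.path C.gp C.hull bX_iff bX_sub
      C.env C.mτ n1 hM o hP (fun k hk => C.sub _ (hP k hk)) C.hA C.hB C.hA2 C.hB2 C.dsj
      fun k hk => hp k hk

/-- **the value of an arc of the corridor** -/
theorem CEnv.val (C : CEnv X U M W Q r η h A B A' B' m τ κ bb d P) {a : ℤ} (ha : P a)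
    {p q : D0 (sX X)} (hp : LG (gF η h W r a) (Q a) X p.1)
    (hq : LG (gF η h W r (a + 1)) (Q (a + 1)) X q.1) {f : ℂ × ℂ × ℂ → ℂ} {w : D0 (sX X) → ℂ}
    (hw : ∀ e : D0 (sX X), e.1.2 ∈ RR (A + τ) (B + τ) h W a →
      th (sX X) e.1 ∈ RR (A + τ) (B + τ) h W a → w e = f (e.1.2, th (sX X) e.1, e.1.1)) :
    ZZ (cm0 C.gp) (xc C.gp C.hull) w (RD (sX X) (RR (A + τ) (B + τ) h W a)) p q =
      zC f (RR (A + τ) (B + τ) h W a) (LG (gF η h W r a) (Q a))
        (LG (gF η h W r (a + 1)) (Q (a + 1))) X := by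
  have h1 := (C.col (Or.inl ha)).2
  have h2 := (C.col (a := a + 1) (Or.inr (by rw [add_sub_cancel_right]; exact ha))).2
  rw [dg_eq hp] at h1
  rw [dg_eq hq] at h2
  exact val_zC C.fin C.gp C.hull hp hq h1 h2 (fun v hv hv2 => C.env.inn v hv (C.sub a ha hv2)) hw

/-- **ring of a configuration** -/
theorem CEnv.ringF (C : CEnv X U M W Q r η h A B A' B' m τ κ bb d fun _ => True) (M4 : 4 ≤ M)
    (hQ : ∀ a, Q (a + M) = Q a) (o : ℤ) :
    ∃ p : ℕ → D0 (sX X),
      (∀ k : ℕ, (p k).1 = dg (gF η h W r (o + k)) (Q (o + k)) X) ∧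
      (∀ k : ℕ, LG (gF η h W r (o + k)) (Q (o + k)) X (p k).1) ∧
      DRing C.gp C.hull M (fun k : ℕ => (dg (gF η h W r (o + k)) (Q (o + k)) X).1)
        (fun k : ℕ => (dg (gF η h W r (o + k)) (Q (o + k)) X).2)
        (fun k : ℕ => RR A B h W (o + k)) (fun k : ℕ => RR (A + τ) (B + τ) h W (o + k)) p := by
  have per : ∀ a, dg (gF η h W r (a + M)) (Q (a + M)) X = dg (gF η h W r a) (Q a) X := by
    intro a
    rw [gF_per C.path, hQ]
  have R := Evp.ring (b := 1) C.evp C.num C.path C.gp C.hull bX_iff bX_sub C.env C.mτ M4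
    (fun a => congrArg Prod.fst (per a)) (fun a => congrArg Prod.snd (per a))
    (fun a => C.sub a trivial) C.hA C.hB C.hA2 C.hB2 C.dsj o
  exact ⟨_, fun k => rfl, fun k => C.lg (Or.inl trivial), R⟩

end conf

/-! ### numbers -/

/-- 503's disjointness from 228's -/
theorem dsj_of {A B h : ℝ} {M : ℕ} {W : ℤ → ℤ × ℤ} (F : FPath M W) (hA : 0 < A) (hAB : A ≤ B)
    (hh : A + B < h) : Dsj A B h M W := fun a c h0 h1 h2 =>
  disj F hA hAB hh h0 (fun h3 => h1 (by rwa [show c - a - 1 = c - (a + 1) by ring]))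
    fun h3 => h2 (by rwa [show c - a + 1 = c - (a - 1) by ring])

/-- 921's windows in the unit `η` -/
def w921 : WPar := ⟨-1, 1, -9, 9, 1 / 20⟩

theorem num_std {η m : ℝ} (hη : 0 < η) (hm : 0 ≤ m) (hm2 : m ≤ 40 * η) :
    Num (100 * η) (9 * η) (51 * η) η (9 * η) (η * w921.a0) (η * w921.a1) (η * w921.b0)
      (η * w921.b1) m := by
  have e0 : w921.a0 = -1 := rfl
  have e1 : w921.a1 = 1 := rfl
  have e2 : w921.b0 = -9 := rfl
  have e3 : w921.b1 = 9 := rfl
  rw [e0, e1, e2, e3]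
  constructor <;> linarith

/-- the `2 d`-neighbourhood of the window of a gate -/
theorem win_box {η h κ ky d : ℝ} {M : ℕ} {W : ℤ → ℤ × ℤ} (F : FPath M W) {r : WPar} (hη : 0 < η)
    (h0 : -κ ≤ η * r.a0 - 2 * d) (h1 : η * r.a1 + 2 * d ≤ κ)
    (h2 : -ky ≤ η * (r.b0 - r.m) - 2 * d) (h3 : η * (r.b1 + r.m) + 2 * d ≤ ky) (a : ℤ) {w s : ℂ}
    (hw : w ∈ (gF η h W r a).win) (hs : ‖s - w‖ < 2 * d) :
    |X (gz h W a) (ge W a) s| < κ ∧ |Y (gz h W a) (ge W a) s| < ky := by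
  obtain ⟨⟨w1, w2⟩, w3, w4⟩ := hw
  change r.a0 < X (gz h W a) (η * ge W a) w at w1
  change X (gz h W a) (η * ge W a) w < r.a1 at w2
  change r.b0 - r.m ≤ Y (gz h W a) (η * ge W a) w at w3
  change Y (gz h W a) (η * ge W a) w ≤ r.b1 + r.m at w4
  rw [X_sc, lt_div_iff₀ hη] at w1
  rw [X_sc, div_lt_iff₀ hη] at w2
  rw [Y_sc, le_div_iff₀ hη] at w3
  rw [Y_sc, div_le_iff₀ hη] at w4
  have x1 := (Crossx228.abs_X_sub (gz h W a) (ge_d4 F a).norm s w).trans_lt hs
  have y1 := (Crossx228.abs_Y_sub (gz h W a) (ge_d4 F a).norm s w).trans_lt hs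
  rw [abs_lt] at x1 y1
  constructor
  · rw [abs_lt]
    constructor <;> nlinarith
  · rw [abs_lt]
    constructor <;> nlinarith

/-! ### chains of white links -/

/-- links along consecutive tiles -/
theorem lk_chain {S : Finset ℂ} {A : Set ℂ} {R : ℤ → Set ℂ} {x : ℤ → ℂ} {o : ℤ} {n : ℕ}
    (n1 : 1 ≤ n) (h : ∀ k : ℕ, k < n → Lk S {s | s ∈ A ∧ s ∈ R (o + k)} (x (o + k))
      (x (o + k + 1))) :
    Lk S {s | s ∈ A ∧ ∃ k : ℕ, k < n ∧ s ∈ R (o + k)} (x o) (x (o + n)) := by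
  induction n with
  | zero => omega
  | succ n ih =>
    have h1 : Lk S {s | s ∈ A ∧ ∃ k : ℕ, k < n + 1 ∧ s ∈ R (o + k)} (x (o + n))
        (x (o + n + 1)) :=
      (h n (by omega)).mono fun s hs => ⟨hs.1, n, by omega, hs.2⟩
    have e : o + ((n + 1 : ℕ) : ℤ) = o + (n : ℤ) + 1 := by push_cast; ring
    rw [e]
    rcases Nat.eq_zero_or_pos n with rfl | hn
    · have e0 : o + ((0 : ℕ) : ℤ) = o := by push_cast; ring
      rw [e0] at h1 ⊢
      exact h1
    · have h2 : Lk S {s | s ∈ A ∧ ∃ k : ℕ, k < n + 1 ∧ s ∈ R (o + k)} (x o) (x (o + n)) :=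
        (ih hn fun k hk => h k (by omega)).mono fun s hs => by
          obtain ⟨h3, k, h4, h5⟩ := hs
          exact ⟨h3, k, by omega, h5⟩
      exact h2.trans h1

end Crest.Agent.R143.DCorFx713
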