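import Crest.Agent.R143.TileR0_228

/-!
# Row 143 (S0194), CORE-C, RIG: the spatial regions of the tiles (helper523)

On `TileR0_228` (`RR A B h W a` = region of the tile `a` of a closed lattice path `W` of period `M`).

* `RL A B h W a` : part of `RR a` between the middle lines of the gate boxes `a`, `a + 1`
* `GB`, `TB` : gate box `RR (a - 1) ∩ RR a`, tube box `RR a ∖ (RR (a - 1) ∪ RR (a + 1))`
* `Far` : `RR a`, `RR b` are disjoint unless `b = a - 1, a, a + 1` modulo `M`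
* `RL_disj`, `RL_cover`, `GB_disj`, `TB_disj`, `GT_disj`, `RR_split`
* `RL_win` : points near `RL a` are in the window `RR (a - 1) ∪ RR a ∪ RR (a + 1)`
-/

set_option autoImplicit false

noncomputable section

open scoped Classical

namespace Crest.Agent.R143.RegBx523

open Set
open Crest.Agent.R143.Gatex838 (X Y)
open Crest.Agent.R143.TileRx228

variable {A B h : ℝ} {M : ℕ} {W : ℤ → ℤ × ℤ}

/-! ### periodicity -/

theorem W_per (hW : FPath M W) (a k : ℤ) : W (a + k * M) = W a := by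
  induction k using Int.induction_on with
  | zero => simp
  | succ n ih =>
    rw [show a + ((n : ℤ) + 1) * M = (a + n * M) + M by ring, hW.per, ih]
  | pred n ih =>
    rw [← hW.per (a + (-(n : ℤ) - 1) * M), show a + (-(n : ℤ) - 1) * M + M = a + -(n : ℤ) * M by ring,
      ih]

theorem W_cong (hW : FPath M W) {a b : ℤ} (h : (M : ℤ) ∣ b - a) : W b = W a := by
  obtain ⟨k, hk⟩ := h
  have : b = a + k * M := by linarith
  rw [this, W_per hW]

theorem cen_cong (hW : FPath M W) {a b : ℤ} (hab : (M : ℤ) ∣ b - a) : cen h W b = cen h W a := by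
  unfold cen; rw [W_cong hW hab]

theorem gz_cong (hW : FPath M W) {a b : ℤ} (hab : (M : ℤ) ∣ b - a) : gz h W b = gz h W a := by
  unfold gz
  rw [W_cong hW hab, W_cong hW (a := a - 1) (b := b - 1) (by simpa using hab)]

theorem ge_cong (hW : FPath M W) {a b : ℤ} (hab : (M : ℤ) ∣ b - a) : ge W b = ge W a := by
  unfold ge
  rw [W_cong hW hab, W_cong hW (a := a - 1) (b := b - 1) (by simpa using hab)]

theorem RR_cong (hW : FPath M W) {a b : ℤ} (hab : (M : ℤ) ∣ b - a) :
    RR A B h W b = RR A B h W a := by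
  unfold RR
  rw [cen_cong hW hab, W_cong hW hab, W_cong hW (a := a - 1) (b := b - 1) (by simpa using hab),
    W_cong hW (a := a + 1) (b := b + 1) (by simpa using hab)]

/-! ### the regions -/

/-- the spatial region of the tile `a` -/
def RL (A B h : ℝ) (W : ℤ → ℤ × ℤ) (a : ℤ) : Set ℂ :=
  {s | s ∈ RR A B h W a ∧ 0 ≤ X (gz h W a) (ge W a) s ∧ X (gz h W (a + 1)) (ge W (a + 1)) s < 0}

/-- gate box -/
def GB (A B h : ℝ) (W : ℤ → ℤ × ℤ) (a : ℤ) : Set ℂ := RR A B h W (a - 1) ∩ RR A B h W a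

/-- tube box -/
def TB (A B h : ℝ) (W : ℤ → ℤ × ℤ) (a : ℤ) : Set ℂ :=
  RR A B h W a \ (RR A B h W (a - 1) ∪ RR A B h W (a + 1))

/-- tiles which are not neighbours are disjoint -/
def Far (M : ℕ) (A B h : ℝ) (W : ℤ → ℤ × ℤ) : Prop := ∀ a b : ℤ, ¬ (M : ℤ) ∣ b - a →
  ¬ (M : ℤ) ∣ b - (a + 1) → ¬ (M : ℤ) ∣ b - (a - 1) → Disjoint (RR A B h W a) (RR A B h W b)

/-- with gaps -/
def FarG (M : ℕ) (g A B h : ℝ) (W : ℤ → ℤ × ℤ) : Prop := ∀ a b : ℤ, ¬ (M : ℤ) ∣ b - a →
  ¬ (M : ℤ) ∣ b - (a + 1) → ¬ (M : ℤ) ∣ b - (a - 1) →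
  ∀ s ∈ RR A B h W a, ∀ t ∈ RR A B h W b, g ≤ ‖s - t‖

theorem FarG.far {g : ℝ} (hg : 0 < g) (h1 : FarG M g A B h W) : Far M A B h W := by
  intro a b h2 h3 h4
  rw [Set.disjoint_left]
  intro s hs ht
  have := h1 a b h2 h3 h4 s hs s ht
  rw [sub_self, norm_zero] at this
  linarith

theorem RL_sub (a : ℤ) : RL A B h W a ⊆ RR A B h W a := fun _ hs => hs.1

theorem RL_cong (hW : FPath M W) {a b : ℤ} (hab : (M : ℤ) ∣ b - a) :
    RL A B h W b = RL A B h W a := by
  unfold RL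
  rw [RR_cong hW hab, gz_cong hW hab, ge_cong hW hab,
    gz_cong hW (a := a + 1) (b := b + 1) (by simpa using hab),
    ge_cong hW (a := a + 1) (b := b + 1) (by simpa using hab)]

theorem GB_cong (hW : FPath M W) {a b : ℤ} (hab : (M : ℤ) ∣ b - a) :
    GB A B h W b = GB A B h W a := by
  unfold GB
  rw [RR_cong hW hab, RR_cong hW (a := a - 1) (b := b - 1) (by simpa using hab)]

theorem TB_cong (hW : FPath M W) {a b : ℤ} (hab : (M : ℤ) ∣ b - a) :
    TB A B h W b = TB A B h W a := by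
  unfold TB
  rw [RR_cong hW hab, RR_cong hW (a := a - 1) (b := b - 1) (by simpa using hab),
    RR_cong hW (a := a + 1) (b := b + 1) (by simpa using hab)]

/-! ### measurability -/

theorem cont_X (z e : ℂ) : Continuous (X z e) := by
  unfold X
  exact Complex.continuous_re.comp ((continuous_id.sub continuous_const).div_const e)

theorem cont_Y (z e : ℂ) : Continuous (Y z e) := by
  unfold Y
  exact Complex.continuous_im.comp ((continuous_id.sub continuous_const).div_const e)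

theorem open_Arm (c u : ℂ) : IsOpen (Arm A B c u) := by
  unfold Arm
  exact ((isOpen_lt continuous_const (cont_X c u)).inter
    (isOpen_lt (cont_X c u) continuous_const)).inter
      (isOpen_lt (cont_Y c u).abs continuous_const)

theorem open_RR (a : ℤ) : IsOpen (RR A B h W a) := (open_Arm _ _).union (open_Arm _ _)

theorem meas_RR (a : ℤ) : MeasurableSet (RR A B h W a) := (open_RR a).measurableSet

theorem meas_RL (a : ℤ) : MeasurableSet (RL A B h W a) :=
  (meas_RR a).inter ((isClosed_le continuous_const (cont_X _ _)).measurableSet.inter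
    (isOpen_lt (cont_X _ _) continuous_const).measurableSet)

theorem meas_GB (a : ℤ) : MeasurableSet (GB A B h W a) := (meas_RR _).inter (meas_RR _)

theorem meas_TB (a : ℤ) : MeasurableSet (TB A B h W a) :=
  (meas_RR _).diff ((meas_RR _).union (meas_RR _))

/-! ### boundedness -/

/-- in a unit frame the distance is bounded by the coordinates -/
theorem norm_le_XY {c u s : ℂ} (hu : ‖u‖ = 1) : ‖s - c‖ ≤ |X c u s| + |Y c u s| := by
  have h1 : ‖s - c‖ = ‖(s - c) / u‖ := by rw [norm_div, hu, div_one]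
  rw [h1]
  exact Complex.norm_le_abs_re_add_abs_im _

theorem norm_U4 {u : ℤ × ℤ} (hu : U4 u) : ‖cz u‖ = 1 := by
  rcases hu with rfl | rfl | rfl | rfl
  · have : cz (1, 0) = 1 := by apply Complex.ext <;> simp [cz]
    rw [this]; simp
  · have : cz (0, 1) = Complex.I := by apply Complex.ext <;> simp [cz]
    rw [this]; simp
  · have : cz (-1, 0) = -1 := by apply Complex.ext <;> simp [cz]
    rw [this]; simp
  · have : cz (0, -1) = -Complex.I := by apply Complex.ext <;> simp [cz]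
    rw [this]; simp

theorem Arm_ball {c u s : ℂ} (hu : ‖u‖ = 1) (hs : s ∈ Arm A B c u) :
    ‖s - c‖ < max A B + A := by
  obtain ⟨⟨h1, h2⟩, h3⟩ := hs
  refine (norm_le_XY hu).trans_lt (add_lt_add ?_ h3)
  rw [abs_lt]
  exact ⟨lt_of_le_of_lt (neg_le_neg (le_max_left _ _)) h1, lt_of_lt_of_le h2 (le_max_right _ _)⟩

theorem U4_neg {u : ℤ × ℤ} (hu : U4 u) : U4 (-u) := by
  rcases hu with rfl | rfl | rfl | rfl
  · exact Or.inr (Or.inr (Or.inl (by simp)))
  · exact Or.inr (Or.inr (Or.inr (by simp)))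
  · exact Or.inl (by simp)
  · exact Or.inr (Or.inl (by simp))

theorem U4_step' (hW : FPath M W) (a : ℤ) : U4 (W a - W (a - 1)) := by
  have := hW.step (a - 1)
  rwa [sub_add_cancel] at this

theorem U4_back (hW : FPath M W) (a : ℤ) : U4 (W (a - 1) - W a) := by
  have := U4_neg (U4_step' hW a)
  rwa [neg_sub] at this

theorem norm_ge (hW : FPath M W) (a : ℤ) : ‖ge W a‖ = 1 := norm_U4 (U4_step' hW a)

theorem ge_ne (hW : FPath M W) (a : ℤ) : ge W a ≠ 0 := by
  intro h
  have := norm_ge hW a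
  rw [h, norm_zero] at this
  exact zero_ne_one this

theorem RR_ball (hW : FPath M W) {a : ℤ} {s : ℂ} (hs : s ∈ RR A B h W a) :
    ‖s - cen h W a‖ < max A B + A := by
  rcases hs with hs | hs
  · exact Arm_ball (norm_U4 (U4_back hW a)) hs
  · exact Arm_ball (norm_U4 (hW.step a)) hs

theorem bdd_RR (hW : FPath M W) (a : ℤ) : Bornology.IsBounded (RR A B h W a) := by
  refine (Metric.isBounded_ball (x := cen h W a) (r := max A B + A)).subset fun s hs => ?_
  rw [Metric.mem_ball, dist_eq_norm]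
  exact RR_ball hW hs

theorem bdd_RL (hW : FPath M W) (a : ℤ) : Bornology.IsBounded (RL A B h W a) :=
  (bdd_RR hW a).subset (RL_sub a)

theorem bdd_GB (hW : FPath M W) (a : ℤ) : Bornology.IsBounded (GB A B h W a) :=
  (bdd_RR hW a).subset inter_subset_right

theorem bdd_TB (hW : FPath M W) (a : ℤ) : Bornology.IsBounded (TB A B h W a) :=
  (bdd_RR hW a).subset sdiff_subset

/-! ### disjointness -/

theorem RL_disj (hW : FPath M W) (hF : Far M A B h W) {a b : ℤ} (hab : ¬ (M : ℤ) ∣ b - a) :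
    Disjoint (RL A B h W a) (RL A B h W b) := by
  by_cases h1 : (M : ℤ) ∣ b - (a + 1)
  · rw [RL_cong hW h1, Set.disjoint_left]
    rintro s ⟨-, -, h2⟩ ⟨-, h3, -⟩
    exact absurd h2 (not_lt.2 h3)
  by_cases h2 : (M : ℤ) ∣ b - (a - 1)
  · rw [RL_cong hW h2, Set.disjoint_left]
    rintro s ⟨-, h3, -⟩ ⟨-, -, h4⟩
    rw [sub_add_cancel] at h4
    exact absurd h4 (not_lt.2 h3)
  · exact (hF a b hab h1 h2).mono (RL_sub a) (RL_sub b)

/-- the tile is the union of its boxes -/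
theorem RR_split (a : ℤ) :
    RR A B h W a = GB A B h W a ∪ TB A B h W a ∪ GB A B h W (a + 1) := by
  unfold GB TB
  rw [add_sub_cancel_right]
  ext s
  simp only [mem_union, mem_inter_iff, mem_sdiff]
  by_cases h1 : s ∈ RR A B h W (a - 1) <;> by_cases h2 : s ∈ RR A B h W (a + 1) <;>
    by_cases h3 : s ∈ RR A B h W a <;> simp [h1, h2, h3]

theorem GB_sub (a : ℤ) : GB A B h W a ⊆ RR A B h W a := inter_subset_right

theorem GB_sub' (a : ℤ) : GB A B h W a ⊆ RR A B h W (a - 1) := inter_subset_left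

theorem TB_sub (a : ℤ) : TB A B h W a ⊆ RR A B h W a := sdiff_subset

theorem U4_odd {u : ℤ × ℤ} (hu : U4 u) : (u.1 + u.2) % 2 = 1 := by
  rcases hu with rfl | rfl | rfl | rfl <;> rfl

/-- small periods do not occur -/
theorem not_dvd (hW : FPath M W) : ¬ (M : ℤ) ∣ 1 ∧ ¬ (M : ℤ) ∣ 2 ∧ ¬ (M : ℤ) ∣ 3 := by
  have o0 := U4_odd (hW.step 0)
  have o1 := U4_odd (hW.step 1)
  have o2 := U4_odd (hW.step 2)
  simp only [Prod.fst_sub, Prod.snd_sub] at o0 o1 o2
  norm_num at o0 o1 o2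
  refine ⟨fun h => ?_, fun h => ?_, fun h => ?_⟩
  · have := W_cong hW (a := 0) (b := 1) (by simpa using h)
    rw [this] at o0
    omega
  · exact hW.turn 0 (by simpa using W_cong hW (a := 0) (b := 2) (by simpa using h))
  · have := W_cong hW (a := 0) (b := 3) (by simpa using h)
    rw [this] at o2
    omega

theorem TB_disj (hW : FPath M W) (hF : Far M A B h W) {a b : ℤ} (hab : ¬ (M : ℤ) ∣ b - a) :
    Disjoint (TB A B h W a) (TB A B h W b) := by
  by_cases h1 : (M : ℤ) ∣ b - (a + 1)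
  · rw [TB_cong hW h1, Set.disjoint_left]
    rintro s ⟨-, h2⟩ ⟨h3, -⟩
    exact h2 (Or.inr h3)
  by_cases h2 : (M : ℤ) ∣ b - (a - 1)
  · rw [TB_cong hW h2, Set.disjoint_left]
    rintro s ⟨-, h2⟩ ⟨h3, -⟩
    exact h2 (Or.inl h3)
  · exact (hF a b hab h1 h2).mono (TB_sub a) (TB_sub b)

/-- two tiles with a common point -/
theorem Far.near (hF : Far M A B h W) {a b : ℤ} {s : ℂ} (h1 : s ∈ RR A B h W a)
    (h2 : s ∈ RR A B h W b) : (M : ℤ) ∣ b - a ∨ (M : ℤ) ∣ b - (a + 1) ∨ (M : ℤ) ∣ b - (a - 1) := by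
  by_contra h
  push Not at h
  exact Set.disjoint_left.1 (hF a b h.1 h.2.1 h.2.2) h1 h2

theorem GB_disj (hW : FPath M W) (hF : Far M A B h W) {a b : ℤ} (hab : ¬ (M : ℤ) ∣ b - a) :
    Disjoint (GB A B h W a) (GB A B h W b) := by
  obtain ⟨n1, n2, n3⟩ := not_dvd hW
  rw [Set.disjoint_left]
  rintro s ⟨h1, h2⟩ ⟨h3, h4⟩
  have e1 := hF.near h2 h4
  have e2 := hF.near h1 h4
  have e3 := hF.near h2 h3
  rcases e1 with e1 | e1 | e1
  · exact hab e1
  · rcases e2 with e2 | e2 | e2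
    · exact n2 (by have := dvd_sub e2 e1; rwa [show b - (a - 1) - (b - (a + 1)) = 2 by ring] at this)
    · exact n1 (by have := dvd_sub e2 e1; rwa [show b - (a - 1 + 1) - (b - (a + 1)) = 1 by ring] at this)
    · exact n3 (by have := dvd_sub e2 e1; rwa [show b - (a - 1 - 1) - (b - (a + 1)) = 3 by ring] at this)
  · rcases e3 with e3 | e3 | e3
    · exact n2 (by have := dvd_sub e1 e3; rwa [show b - (a - 1) - (b - 1 - a) = 2 by ring] at this)
    · exact n3 (by
        have := dvd_sub e1 e3; rwa [show b - (a - 1) - (b - 1 - (a + 1)) = 3 by ring] at this)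
    · exact n1 (by
        have := dvd_sub e1 e3; rwa [show b - (a - 1) - (b - 1 - (a - 1)) = 1 by ring] at this)

theorem GT_disj (hW : FPath M W) (hF : Far M A B h W) (a b : ℤ) :
    Disjoint (GB A B h W a) (TB A B h W b) := by
  obtain ⟨n1, n2, n3⟩ := not_dvd hW
  have key : ∀ s, s ∈ TB A B h W b → ∀ c, s ∈ RR A B h W c → (M : ℤ) ∣ c - b := by
    rintro s ⟨h1, h2⟩ c h3
    rcases hF.near h1 h3 with e | e | e
    · exact e
    · rw [RR_cong hW e] at h3
      exact absurd (Or.inr h3) h2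
    · rw [RR_cong hW e] at h3
      exact absurd (Or.inl h3) h2
  rw [Set.disjoint_left]
  rintro s ⟨h1, h2⟩ h3
  have e1 := key s h3 _ h1
  have e2 := key s h3 _ h2
  exact n1 (by have := dvd_sub e2 e1; rwa [show a - b - (a - 1 - b) = 1 by ring] at this)

/-! ### coordinates -/

/-- coordinate in the frame of the gate `a` -/
def zt (h : ℝ) (W : ℤ → ℤ × ℤ) (a : ℤ) (s : ℂ) : ℂ := (s - gz h W a) / ge W a

theorem X_zt (a : ℤ) (s : ℂ) : X (gz h W a) (ge W a) s = (zt h W a s).re := rfl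

theorem Y_zt (a : ℤ) (s : ℂ) : Y (gz h W a) (ge W a) s = (zt h W a s).im := rfl

theorem cz_sub (u v : ℤ × ℤ) : cz (u - v) = cz u - cz v := by
  apply Complex.ext <;> simp [cz]

theorem cz_1 : cz (1, 0) = 1 := by apply Complex.ext <;> simp [cz]
theorem cz_2 : cz (0, 1) = Complex.I := by apply Complex.ext <;> simp [cz]
theorem cz_3 : cz (-1, 0) = -1 := by apply Complex.ext <;> simp [cz]
theorem cz_4 : cz (0, -1) = -Complex.I := by apply Complex.ext <;> simp [cz]

/-- straight, left, right -/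
theorem turn_cases (hW : FPath M W) (a : ℤ) : ge W (a + 1) = ge W a * 1 ∨
    ge W (a + 1) = ge W a * Complex.I ∨ ge W (a + 1) = ge W a * -Complex.I := by
  have h0 := U4_step' hW a
  have h1 := hW.step a
  have h2 : W (a + 1) - W a + (W a - W (a - 1)) ≠ 0 := by
    rw [sub_add_sub_cancel]
    intro h
    have := hW.turn (a - 1)
    rw [show a - 1 + 2 = a + 1 by ring] at this
    exact this (sub_eq_zero.1 h)
  unfold ge
  rw [add_sub_cancel_right]
  generalize W (a + 1) - W a = v at *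
  generalize W a - W (a - 1) = u at *
  have I2 : Complex.I * Complex.I = -1 := Complex.I_mul_I
  rcases h0 with rfl | rfl | rfl | rfl <;> rcases h1 with rfl | rfl | rfl | rfl <;>
    simp only [cz_1, cz_2, cz_3, cz_4] <;>
    first
    | (exfalso; apply h2; decide)
    | (left; ring1)
    | (right; left; first | ring1 | linear_combination I2 | linear_combination -I2)
    | (right; right; first | ring1 | linear_combination I2 | linear_combination -I2)

theorem gz_succ (a : ℤ) : gz h W (a + 1) = gz h W a + (h : ℂ) / 2 * (ge W a + ge W (a + 1)) := by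
  unfold gz ge
  rw [cz_sub, cz_sub, add_sub_cancel_right]
  ring

theorem cen_eq (a : ℤ) : cen h W a = gz h W a + (h : ℂ) / 2 * ge W a := by
  unfold cen gz ge
  rw [cz_sub]
  ring

theorem cen_eq' (a : ℤ) : cen h W (a - 1) = gz h W a - (h : ℂ) / 2 * ge W a := by
  unfold cen gz ge
  rw [cz_sub]
  ring

theorem zt_succ (hW : FPath M W) (a : ℤ) {t : ℂ} (ht : ge W (a + 1) = ge W a * t) (s : ℂ) :
    zt h W (a + 1) s = (zt h W a s - (h : ℂ) / 2) / t - (h : ℂ) / 2 := by
  have h1 := ge_ne hW a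
  have h2 := ge_ne hW (a + 1)
  have h3 : t ≠ 0 := fun h => h2 (by rw [ht, h, mul_zero])
  unfold zt
  rw [gz_succ, ht]
  field_simp
  ring

theorem zt_pred (hW : FPath M W) (a : ℤ) {t : ℂ} (ht : ge W (a + 1) = ge W a * t) (s : ℂ) :
    zt h W a s = (zt h W (a + 1) s + (h : ℂ) / 2) * t + (h : ℂ) / 2 := by
  have h2 := ge_ne hW (a + 1)
  have h3 : t ≠ 0 := fun h => h2 (by rw [ht, h, mul_zero])
  rw [zt_succ hW a ht]
  field_simp
  ring

/-- the arm of the tile `a` towards the gate `a` -/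
theorem arm_in (hW : FPath M W) (a : ℤ) (s : ℂ) :
    s ∈ Arm A B (cen h W a) (cz (W (a - 1) - W a)) ↔
      (-A < h / 2 - (zt h W a s).re ∧ h / 2 - (zt h W a s).re < B) ∧ |(zt h W a s).im| < A := by
  have h1 := ge_ne hW a
  have e0 : cz (W (a - 1) - W a) = -ge W a := by unfold ge; rw [cz_sub, cz_sub]; ring
  have e1 : (s - cen h W a) / cz (W (a - 1) - W a) = (h : ℂ) / 2 - zt h W a s := by
    rw [e0, cen_eq]
    unfold zt
    field_simp
    ring
  have e2 : X (cen h W a) (cz (W (a - 1) - W a)) s = h / 2 - (zt h W a s).re := by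
    unfold X; rw [e1]; simp
  have e3 : Y (cen h W a) (cz (W (a - 1) - W a)) s = -(zt h W a s).im := by
    unfold Y; rw [e1]; simp
  show ((_ < X _ _ s ∧ X _ _ s < B) ∧ |Y _ _ s| < A) ↔ _
  rw [e2, e3, abs_neg]

/-- the arm of the tile `a - 1` towards the gate `a` -/
theorem arm_out (hW : FPath M W) (a : ℤ) (s : ℂ) :
    s ∈ Arm A B (cen h W (a - 1)) (cz (W (a - 1 + 1) - W (a - 1))) ↔
      (-A < h / 2 + (zt h W a s).re ∧ h / 2 + (zt h W a s).re < B) ∧ |(zt h W a s).im| < A := by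
  have h1 := ge_ne hW a
  have e0 : cz (W (a - 1 + 1) - W (a - 1)) = ge W a := by unfold ge; rw [sub_add_cancel]
  have e1 : (s - cen h W (a - 1)) / cz (W (a - 1 + 1) - W (a - 1)) = (h : ℂ) / 2 + zt h W a s := by
    rw [e0, cen_eq']
    unfold zt
    field_simp
    ring
  have e2 : X (cen h W (a - 1)) (cz (W (a - 1 + 1) - W (a - 1))) s = h / 2 + (zt h W a s).re := by
    unfold X; rw [e1]; simp
  have e3 : Y (cen h W (a - 1)) (cz (W (a - 1 + 1) - W (a - 1))) s = (zt h W a s).im := by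
    unfold Y; rw [e1]; simp
  show ((_ < X _ _ s ∧ X _ _ s < B) ∧ |Y _ _ s| < A) ↔ _
  rw [e2, e3]

/-- the arm of the tile `a` towards the gate `a + 1` -/
theorem arm_out' (hW : FPath M W) (a : ℤ) (s : ℂ) :
    s ∈ Arm A B (cen h W a) (cz (W (a + 1) - W a)) ↔
      (-A < h / 2 + (zt h W (a + 1) s).re ∧ h / 2 + (zt h W (a + 1) s).re < B) ∧
        |(zt h W (a + 1) s).im| < A := by
  have := arm_out (A := A) (B := B) (h := h) hW (a + 1) s
  rwa [add_sub_cancel_right] at this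

theorem mem_RR (hW : FPath M W) (a : ℤ) (s : ℂ) : s ∈ RR A B h W a ↔
    ((-A < h / 2 - (zt h W a s).re ∧ h / 2 - (zt h W a s).re < B) ∧ |(zt h W a s).im| < A) ∨
    ((-A < h / 2 + (zt h W (a + 1) s).re ∧ h / 2 + (zt h W (a + 1) s).re < B) ∧
        |(zt h W (a + 1) s).im| < A) := by
  rw [← arm_in hW, ← arm_out' hW]
  rfl

/-- the coordinates of two consecutive frames -/
theorem frames (hW : FPath M W) (a : ℤ) (s : ℂ) :
    ((zt h W (a + 1) s).re = (zt h W a s).re - h ∧ (zt h W (a + 1) s).im = (zt h W a s).im) ∨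
    ((zt h W (a + 1) s).re = (zt h W a s).im - h / 2 ∧
      (zt h W (a + 1) s).im = h / 2 - (zt h W a s).re) ∨
    ((zt h W (a + 1) s).re = -(zt h W a s).im - h / 2 ∧
      (zt h W (a + 1) s).im = (zt h W a s).re - h / 2) := by
  rcases turn_cases hW a with ht | ht | ht
  · left
    rw [zt_succ hW a ht, div_one]
    constructor
    · simp; ring
    · simp
  · right; left
    rw [zt_succ hW a ht, Complex.div_I]
    constructor
    · simp
    · simp
  · right; right
    rw [zt_succ hW a ht, div_neg, Complex.div_I]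
    constructor <;> simp


/-- size conditions: unit `η`, `A = 9 η + ρ`, `B = 51 η + ρ`, `h = 100 η` -/
structure Sz (A B h : ℝ) : Prop where
  A0 : 0 < A
  A2 : 2 * A ≤ h
  B2 : h / 2 < B
  AB : A + B ≤ h

theorem Sz.h0 (z : Sz A B h) : 0 < h := by
  have := z.A0
  have := z.A2
  linarith

/-- **the gate box in the frame of the gate** -/
theorem mem_GB (hW : FPath M W) (z : Sz A B h) (a : ℤ) (s : ℂ) :
    s ∈ GB A B h W a ↔ |(zt h W a s).re| < B - h / 2 ∧ |(zt h W a s).im| < A := by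
  obtain ⟨A0, A2, B2, AB⟩ := z
  have f0 := frames (h := h) hW (a - 1) s
  have f1 := frames (h := h) hW a s
  have m0 := mem_RR (A := A) (B := B) (h := h) hW (a - 1) s
  have m1 := mem_RR (A := A) (B := B) (h := h) hW a s
  rw [sub_add_cancel] at f0 m0
  unfold GB
  rw [mem_inter_iff, m0, m1]
  simp only [abs_lt]
  constructor
  · rintro ⟨h0 | h0, h1 | h1⟩
    · exfalso
      obtain ⟨⟨a1, a2⟩, a3, a4⟩ := h0
      obtain ⟨⟨b1, b2⟩, b3, b4⟩ := h1
      rcases f0 with ⟨c1, c2⟩ | ⟨c1, c2⟩ | ⟨c1, c2⟩ <;> linarith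
    · exfalso
      obtain ⟨⟨a1, a2⟩, a3, a4⟩ := h0
      obtain ⟨⟨b1, b2⟩, b3, b4⟩ := h1
      rcases f0 with ⟨c1, c2⟩ | ⟨c1, c2⟩ | ⟨c1, c2⟩ <;>
        rcases f1 with ⟨d1, d2⟩ | ⟨d1, d2⟩ | ⟨d1, d2⟩ <;> linarith
    · obtain ⟨⟨a1, a2⟩, a3, a4⟩ := h0
      obtain ⟨⟨b1, b2⟩, b3, b4⟩ := h1
      exact ⟨⟨by linarith, by linarith⟩, a3, a4⟩
    · exfalso
      obtain ⟨⟨a1, a2⟩, a3, a4⟩ := h0
      obtain ⟨⟨b1, b2⟩, b3, b4⟩ := h1
      rcases f1 with ⟨d1, d2⟩ | ⟨d1, d2⟩ | ⟨d1, d2⟩ <;> linarith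
  · rintro ⟨⟨c1, c2⟩, c3, c4⟩
    exact ⟨Or.inr ⟨⟨by linarith, by linarith⟩, c3, c4⟩, Or.inl ⟨⟨by linarith, by linarith⟩, c3, c4⟩⟩

theorem TB_eq (a : ℤ) : TB A B h W a = RR A B h W a \ (GB A B h W a ∪ GB A B h W (a + 1)) := by
  unfold TB GB
  rw [add_sub_cancel_right]
  ext s
  simp only [mem_union, mem_inter_iff, mem_sdiff]
  by_cases h1 : s ∈ RR A B h W (a - 1) <;> by_cases h2 : s ∈ RR A B h W (a + 1) <;>
    by_cases h3 : s ∈ RR A B h W a <;> simp [h1, h2, h3]

/-- **the regions cover the corridor**, with the neighbouring tile -/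
theorem RL_cover1 (hW : FPath M W) (z : Sz A B h) {a : ℤ} {s : ℂ} (hs : s ∈ RR A B h W a) :
    s ∈ RL A B h W (a - 1) ∨ s ∈ RL A B h W a ∨ s ∈ RL A B h W (a + 1) := by
  obtain ⟨A0, A2, B2, AB⟩ := z
  have f0 := frames (h := h) hW (a - 1) s
  have f1 := frames (h := h) hW a s
  have f2 := frames (h := h) hW (a + 1) s
  have m0 := mem_RR (A := A) (B := B) (h := h) hW (a - 1) s
  have m1 := mem_RR (A := A) (B := B) (h := h) hW a s
  have m2 := mem_RR (A := A) (B := B) (h := h) hW (a + 1) s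
  rw [sub_add_cancel] at f0 m0
  have e0 : s ∈ RL A B h W (a - 1) ↔ s ∈ RR A B h W (a - 1) ∧ 0 ≤ (zt h W (a - 1) s).re ∧
      (zt h W a s).re < 0 := by
    unfold RL; rw [mem_ofPred_eq, sub_add_cancel]; rfl
  have e1 : s ∈ RL A B h W a ↔ s ∈ RR A B h W a ∧ 0 ≤ (zt h W a s).re ∧
      (zt h W (a + 1) s).re < 0 := Iff.rfl
  have e2 : s ∈ RL A B h W (a + 1) ↔ s ∈ RR A B h W (a + 1) ∧ 0 ≤ (zt h W (a + 1) s).re ∧
      (zt h W (a + 1 + 1) s).re < 0 := Iff.rfl
  have hs' := m1.1 hs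
  simp only [abs_lt] at m0 m2 hs'
  rw [e0, e1, e2]
  rcases hs' with ⟨⟨a1, a2⟩, a3, a4⟩ | ⟨⟨a1, a2⟩, a3, a4⟩
  · rcases lt_or_ge (zt h W a s).re 0 with hx | hx
    · left
      refine ⟨m0.2 (Or.inr ⟨⟨by linarith, by linarith⟩, a3, a4⟩), ?_, hx⟩
      rcases f0 with ⟨c1, c2⟩ | ⟨c1, c2⟩ | ⟨c1, c2⟩ <;> linarith
    · right; left
      refine ⟨hs, hx, ?_⟩
      rcases f1 with ⟨c1, c2⟩ | ⟨c1, c2⟩ | ⟨c1, c2⟩ <;> linarith
  · rcases lt_or_ge (zt h W (a + 1) s).re 0 with hx | hx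
    · right; left
      refine ⟨hs, ?_, hx⟩
      rcases f1 with ⟨c1, c2⟩ | ⟨c1, c2⟩ | ⟨c1, c2⟩ <;> linarith
    · right; right
      refine ⟨m2.2 (Or.inl ⟨⟨by linarith, by linarith⟩, a3, a4⟩), hx, ?_⟩
      rcases f2 with ⟨c1, c2⟩ | ⟨c1, c2⟩ | ⟨c1, c2⟩ <;> linarith

/-- the corridor -/
def Cor (A B h : ℝ) (W : ℤ → ℤ × ℤ) : Set ℂ := ⋃ a, RR A B h W a

theorem RL_cover (hW : FPath M W) (z : Sz A B h) : ⋃ a, RL A B h W a = Cor A B h W := by
  apply Subset.antisymm
  · exact iUnion_mono fun a => RL_sub a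
  · intro s hs
    obtain ⟨a, ha⟩ := mem_iUnion.1 hs
    rcases RL_cover1 hW z ha with h1 | h1 | h1
    · exact mem_iUnion.2 ⟨_, h1⟩
    · exact mem_iUnion.2 ⟨_, h1⟩
    · exact mem_iUnion.2 ⟨_, h1⟩

theorem RL_sub_Cor (a : ℤ) : RL A B h W a ⊆ Cor A B h W :=
  (RL_sub a).trans (subset_iUnion (fun a => RR A B h W a) a)

/-- every tile is one of `M` consecutive ones -/
theorem rep (hM : 0 < M) (a b : ℤ) : ∃ c : ℤ, a ≤ c ∧ c < a + M ∧ (M : ℤ) ∣ b - c := by
  refine ⟨a + (b - a) % M, ?_, ?_, ?_⟩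
  · have := Int.emod_nonneg (b - a) (show (M : ℤ) ≠ 0 by omega)
    linarith
  · have := Int.emod_lt_of_pos (b - a) (show (0 : ℤ) < M by omega)
    linarith
  · refine ⟨(b - a) / M, ?_⟩
    have := Int.emod_add_mul_ediv (b - a) M
    linarith

theorem Cor_eq (hW : FPath M W) (hM : 0 < M) :
    Cor A B h W = ⋃ i : Fin M, RR A B h W ((i : ℕ) : ℤ) := by
  apply Subset.antisymm
  · intro s hs
    obtain ⟨b, hb⟩ := mem_iUnion.1 hs
    obtain ⟨c, h0, h1, h2⟩ := rep hM 0 b
    rw [RR_cong hW h2] at hb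
    rw [zero_add] at h1
    obtain ⟨n, rfl⟩ := Int.eq_ofNat_of_zero_le h0
    exact mem_iUnion.2 ⟨⟨n, by exact_mod_cast h1⟩, hb⟩
  · exact iUnion_subset fun i => subset_iUnion (fun a => RR A B h W a) _

theorem bdd_Cor (hW : FPath M W) (hM : 0 < M) : Bornology.IsBounded (Cor A B h W) := by
  rw [Cor_eq hW hM]
  exact (Bornology.isBounded_iUnion).2 fun i => bdd_RR hW _

theorem open_Cor : IsOpen (Cor A B h W) := isOpen_iUnion fun a => open_RR a

theorem meas_Cor : MeasurableSet (Cor A B h W) := open_Cor.measurableSet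

/-- **window**: points of the corridor near the tile `a` -/
theorem win {g : ℝ} (hW : FPath M W) (hF : FarG M g A B h W) {a : ℤ} {s t : ℂ}
    (hs : s ∈ RR A B h W a) (ht : t ∈ Cor A B h W) (hst : ‖s - t‖ < g) :
    t ∈ RR A B h W (a - 1) ∪ RR A B h W a ∪ RR A B h W (a + 1) := by
  obtain ⟨b, hb⟩ := mem_iUnion.1 ht
  by_cases h1 : (M : ℤ) ∣ b - a
  · rw [RR_cong hW h1] at hb
    exact Or.inl (Or.inr hb)
  by_cases h2 : (M : ℤ) ∣ b - (a + 1)
  · rw [RR_cong hW h2] at hb
    exact Or.inr hb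
  by_cases h3 : (M : ℤ) ∣ b - (a - 1)
  · rw [RR_cong hW h3] at hb
    exact Or.inl (Or.inl hb)
  · exact absurd (hF a b h1 h2 h3 s hs t hb) (not_le.2 hst)

/-! ### template sets -/

/-- turn of the tile: straight, left, right -/
def tc (t : Fin 3) : ℂ := if t = 0 then 1 else if t = 1 then Complex.I else -Complex.I

theorem tc_0 : tc 0 = 1 := by simp [tc]
theorem tc_1 : tc 1 = Complex.I := by simp [tc]
theorem tc_2 : tc 2 = -Complex.I := by simp [tc]

theorem norm_tc (t : Fin 3) : ‖tc t‖ = 1 := by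
  fin_cases t
  · simp [tc]
  · simp [tc]
  · simp [tc]

theorem tc_ne (t : Fin 3) : tc t ≠ 0 := fun h => by
  have := norm_tc t
  rw [h, norm_zero] at this
  exact zero_ne_one this

/-- type of the tile `a` -/
def tn (W : ℤ → ℤ × ℤ) (a : ℤ) : Fin 3 :=
  if ge W (a + 1) = ge W a * 1 then 0 else if ge W (a + 1) = ge W a * Complex.I then 1 else 2

theorem tn_eq (hW : FPath M W) (a : ℤ) : ge W (a + 1) = ge W a * tc (tn W a) := by
  unfold tn
  by_cases h1 : ge W (a + 1) = ge W a * 1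
  · rw [if_pos h1, tc_0]; exact h1
  · rw [if_neg h1]
    by_cases h2 : ge W (a + 1) = ge W a * Complex.I
    · rw [if_pos h2, tc_1]; exact h2
    · rw [if_neg h2, tc_2]
      rcases turn_cases hW a with h | h | h
      · exact absurd h h1
      · exact absurd h h2
      · exact h

theorem tn_cong (hW : FPath M W) {a b : ℤ} (hab : (M : ℤ) ∣ b - a) : tn W b = tn W a := by
  unfold tn
  rw [ge_cong hW hab, ge_cong hW (a := a + 1) (b := b + 1) (by simpa using hab)]

/-- coordinate in the next frame -/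
def nxt (h : ℝ) (t : Fin 3) (z : ℂ) : ℂ := (z - (h : ℂ) / 2) / tc t - (h : ℂ) / 2

theorem zt_nxt (hW : FPath M W) (a : ℤ) (s : ℂ) :
    zt h W (a + 1) s = nxt h (tn W a) (zt h W a s) := zt_succ hW a (tn_eq hW a) s

/-- gate box -/
def QT (A B h : ℝ) : Set ℂ := {z | |z.re| < B - h / 2 ∧ |z.im| < A}

/-- tile -/
def RT (A B h : ℝ) (t : Fin 3) : Set ℂ :=
  {z | ((-A < h / 2 - z.re ∧ h / 2 - z.re < B) ∧ |z.im| < A) ∨
    ((-A < h / 2 + (nxt h t z).re ∧ h / 2 + (nxt h t z).re < B) ∧ |(nxt h t z).im| < A)}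

/-- tube box -/
def DT (A B h : ℝ) (t : Fin 3) : Set ℂ := RT A B h t \ (QT A B h ∪ nxt h t ⁻¹' QT A B h)

/-- spatial region -/
def LT (A B h : ℝ) (t : Fin 3) : Set ℂ := {z | z ∈ RT A B h t ∧ 0 ≤ z.re ∧ (nxt h t z).re < 0}

theorem RR_pre (hW : FPath M W) (a : ℤ) : RR A B h W a = zt h W a ⁻¹' RT A B h (tn W a) := by
  ext s
  rw [mem_RR hW, zt_nxt hW]
  rfl

theorem GB_pre (hW : FPath M W) (z : Sz A B h) (a : ℤ) :
    GB A B h W a = zt h W a ⁻¹' QT A B h := by
  ext s
  rw [mem_GB hW z]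
  rfl

theorem GB_pre' (hW : FPath M W) (z : Sz A B h) (a : ℤ) :
    GB A B h W (a + 1) = zt h W a ⁻¹' (nxt h (tn W a) ⁻¹' QT A B h) := by
  ext s
  rw [mem_GB hW z, zt_nxt hW]
  rfl

theorem TB_pre (hW : FPath M W) (z : Sz A B h) (a : ℤ) :
    TB A B h W a = zt h W a ⁻¹' DT A B h (tn W a) := by
  rw [TB_eq, RR_pre hW, GB_pre hW z, GB_pre' hW z]
  rfl

theorem RL_pre (hW : FPath M W) (a : ℤ) : RL A B h W a = zt h W a ⁻¹' LT A B h (tn W a) := by
  ext s
  have e1 : s ∈ RL A B h W a ↔ s ∈ RR A B h W a ∧ 0 ≤ (zt h W a s).re ∧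
      (zt h W (a + 1) s).re < 0 := Iff.rfl
  rw [e1, RR_pre hW, zt_nxt hW]
  rfl

theorem cont_zt (a : ℤ) : Continuous (zt h W a) :=
  (continuous_id.sub continuous_const).div_const _

theorem cont_nxt (t : Fin 3) : Continuous (nxt h t) :=
  ((continuous_id.sub continuous_const).div_const _).sub continuous_const

theorem open_QT : IsOpen (QT A B h) :=
  (isOpen_lt Complex.continuous_re.abs continuous_const).inter
    (isOpen_lt Complex.continuous_im.abs continuous_const)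

theorem open_RT (t : Fin 3) : IsOpen (RT A B h t) := by
  have h1 : Continuous fun z : ℂ => h / 2 - z.re := continuous_const.sub Complex.continuous_re
  have h2 : Continuous fun z : ℂ => h / 2 + (nxt h t z).re :=
    continuous_const.add (Complex.continuous_re.comp (cont_nxt t))
  exact (((isOpen_lt continuous_const h1).inter (isOpen_lt h1 continuous_const)).inter
    (isOpen_lt Complex.continuous_im.abs continuous_const)).union
    (((isOpen_lt continuous_const h2).inter (isOpen_lt h2 continuous_const)).inter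
    (isOpen_lt (Complex.continuous_im.comp (cont_nxt t)).abs continuous_const))

theorem meas_QT : MeasurableSet (QT A B h) := open_QT.measurableSet

theorem meas_RT (t : Fin 3) : MeasurableSet (RT A B h t) := (open_RT t).measurableSet

theorem meas_DT (t : Fin 3) : MeasurableSet (DT A B h t) :=
  (meas_RT t).diff (meas_QT.union (open_QT.preimage (cont_nxt t)).measurableSet)

theorem meas_LT (t : Fin 3) : MeasurableSet (LT A B h t) :=
  (meas_RT t).inter ((isClosed_le continuous_const Complex.continuous_re).measurableSet.inter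
    (isOpen_lt (Complex.continuous_re.comp (cont_nxt t)) continuous_const).measurableSet)

theorem nxt_inv (t : Fin 3) (z : ℂ) : (nxt h t z + (h : ℂ) / 2) * tc t + (h : ℂ) / 2 = z := by
  have := tc_ne t
  unfold nxt
  field_simp
  ring

theorem bdd_QT : Bornology.IsBounded (QT A B h) := by
  refine (Metric.isBounded_ball (x := (0 : ℂ)) (r := |B - h / 2| + |A|)).subset fun z hz => ?_
  rw [mem_ball_zero_iff]
  refine (Complex.norm_le_abs_re_add_abs_im z).trans_lt (add_lt_add ?_ ?_)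
  · exact hz.1.trans_le (le_abs_self _)
  · exact hz.2.trans_le (le_abs_self _)

theorem bdd_RT (t : Fin 3) : Bornology.IsBounded (RT A B h t) := by
  have key : ∀ x : ℝ, -A < x → x < B → |x| ≤ |A| + |B| := fun x h1 h2 => by
    rw [abs_le]
    constructor
    · linarith [le_abs_self A, abs_nonneg B, neg_abs_le A]
    · linarith [le_abs_self B, abs_nonneg A]
  refine (Metric.isBounded_closedBall (x := (0 : ℂ)) (r := 2 * (|A| + |B| + |h| + |A|))).subset
    fun z hz => ?_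
  rw [mem_closedBall_zero_iff]
  have nA := abs_nonneg A
  have nB := abs_nonneg B
  have nh := abs_nonneg h
  have hh : ‖(h : ℂ) / 2‖ = |h| / 2 := by simp
  rcases hz with ⟨⟨h1, h2⟩, h3⟩ | ⟨⟨h1, h2⟩, h3⟩
  · have h4 : |z.re| ≤ |A| + |B| + |h| := by
      have h5 := key _ h1 h2
      have h6 : |z.re| ≤ |h / 2 - z.re| + |h / 2| := by
        have := abs_sub (h / 2) (h / 2 - z.re)
        rw [sub_sub_cancel] at this
        linarith
      rw [abs_div, abs_two] at h6
      linarith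
    have h7 := Complex.norm_le_abs_re_add_abs_im z
    have h8 : |z.im| ≤ |A| := h3.le.trans (le_abs_self A)
    linarith
  · have h5 := key _ h1 h2
    have h4 : |(nxt h t z).re| ≤ |A| + |B| + |h| / 2 := by
      have h6 : |(nxt h t z).re| ≤ |h / 2 + (nxt h t z).re| + |h / 2| := by
        have := abs_sub (h / 2 + (nxt h t z).re) (h / 2)
        rwa [add_sub_cancel_left] at this
      rw [abs_div, abs_two] at h6
      linarith
    have h8 : |(nxt h t z).im| ≤ |A| := h3.le.trans (le_abs_self A)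
    have h7 := Complex.norm_le_abs_re_add_abs_im (nxt h t z)
    have h9 := nxt_inv (h := h) t z
    have h10 : ‖z‖ ≤ ‖nxt h t z‖ + |h| := by
      calc ‖z‖ = ‖(nxt h t z + (h : ℂ) / 2) * tc t + (h : ℂ) / 2‖ := by rw [h9]
        _ ≤ ‖(nxt h t z + (h : ℂ) / 2) * tc t‖ + ‖(h : ℂ) / 2‖ := norm_add_le _ _
        _ = ‖nxt h t z + (h : ℂ) / 2‖ + |h| / 2 := by rw [norm_mul, norm_tc, mul_one, hh]
        _ ≤ ‖nxt h t z‖ + ‖(h : ℂ) / 2‖ + |h| / 2 := by gcongr; exact norm_add_le _ _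
        _ = ‖nxt h t z‖ + |h| := by rw [hh]; ring
    linarith

theorem bdd_DT (t : Fin 3) : Bornology.IsBounded (DT A B h t) := (bdd_RT t).subset sdiff_subset

theorem bdd_LT (t : Fin 3) : Bornology.IsBounded (LT A B h t) :=
  (bdd_RT t).subset fun _ hz => hz.1

end Crest.Agent.R143.RegBx523
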