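import Crest.Agent.R143.TplI_204
import Crest.Agent.R143.DCorF_713
import Crest.Agent.R143.RegB_523

/-!
# Row 143 (S0194): the corridor hypothesis `CorH` (helper713, literal hypothesis for the glue CorrI)

Absolute lengths, unit `η`, tile side `100 η`; strips (links) `RR (9 η) (51 η) (100 η) W a`, enlarged
strips (arcs) `RR (19/2 η) (103/2 η) (100 η) W a`.
* `gO η`, `gA η W a` : the gate at the origin, the gate `a` of the path; `QA η W a` its box
* `CorH X U M W η d o n` : out tiles `o ≤ a < o + n` (black and white links), closing tiles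
  `o + n ≤ a < o + M` (white links), environment without holes of radius `d` in `U`
* outputs: `yy`, `xx` (selected darts, all `a : ℤ`), `neck`, `sd`, `col`, `blk`, `wht`, `corF`
  (`DCorr`), `val` (`zC`), `wlk`, `step`, `inn`, `cov`, `num`, `dsj`
-/

set_option autoImplicit false
set_option linter.all false

noncomputable section

open scoped Classical

namespace Crest.Agent.R143.CorHx713

open Set
open Crest.Agent.R143.B0x346 Crest.Agent.R143.DelGx806 Crest.Agent.R143.DelRx806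
  Crest.Agent.R143.JColx54
open Crest.Agent.R143.Frame1x395 Crest.Agent.R143.Frame2x395 Crest.Agent.R143.Frame3x395
  Crest.Agent.R143.Frame4x395 Crest.Agent.R143.Frame8x395 Crest.Agent.R143.Frame9x395
  Crest.Agent.R143.Frame10x395 Crest.Agent.R143.Frame11x395
open Crest.Agent.R143.Frame5x395 (sd mem_sd th th_spec)
open Crest.Agent.R143.Locx922
open Crest.Agent.R143.Splx117 Crest.Agent.R143.WLocx713
open Crest.Agent.R143.Blkx838 (DE)
open Crest.Agent.R143.Neckx921 (Neck NeckD Tile Lk)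
open Crest.Agent.R143.PP0x831 Crest.Agent.R143.FinMx609
open Crest.Agent.R143.RingDx117 (RD DRing StC StR)
open Crest.Agent.R143.CorrDx117 (DCorr)
open Crest.Agent.R143.Gatex838 (X Y)
open Crest.Agent.R143.TileRx228 Crest.Agent.R143.PathDx503 Crest.Agent.R143.PathGx503
open Crest.Agent.R143.RingPx503 Crest.Agent.R143.DCorGx713 Crest.Agent.R143.DCorFx713
open Crest.Agent.R143.TplIx204 (TB TB_true)

/-! ### gates -/

/-- the gate at the origin (absolute lengths) -/
def gO (η : ℝ) : GPar := ⟨0, 1, -η, η, -(9 * η), 10 * η, η⟩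

/-- the gate `a` of the path -/
def gA (η : ℝ) (W : ℤ → ℤ × ℤ) (a : ℤ) : GPar :=
  ⟨gz (100 * η) W a, ge W a, -η, η, -(9 * η), 10 * η, η⟩

/-- the box of the gate `a`: `|X| < 2 η`, `|Y| < 12 η` -/
def QA (η : ℝ) (W : ℤ → ℤ × ℤ) (a : ℤ) : Set ℂ := PthFx765.GB (12 * η) (52 * η) (100 * η) W a

theorem gA_mv {η : ℝ} {W : ℤ → ℤ × ℤ} {a : ℤ} {φ : ℂ → ℂ} (hφ : φ 0 = gz (100 * η) W a) :
    (gO η).mv φ (ge W a) = gA η W a := by
  unfold GPar.mv gO gA
  simp only [hφ, mul_one]

theorem gA_per {M : ℕ} {W : ℤ → ℤ × ℤ} (F : FPath M W) (η : ℝ) (a : ℤ) :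
    gA η W (a + M) = gA η W a := by
  unfold gA
  rw [gz_per F, ge_per F]

theorem QA_per {M : ℕ} {W : ℤ → ℤ × ℤ} (F : FPath M W) (η : ℝ) (a : ℤ) :
    QA η W (a + M) = QA η W a := PthFx765.GB_dvd F ⟨1, by ring⟩

theorem mem_QA {η : ℝ} {W : ℤ → ℤ × ℤ} {a : ℤ} {s : ℂ} : s ∈ QA η W a ↔
    |X (gz (100 * η) W a) (ge W a) s| < 2 * η ∧ |Y (gz (100 * η) W a) (ge W a) s| < 12 * η := by
  unfold QA PthFx765.GB
  rw [mem_ofPred_eq, show 52 * η - 100 * η / 2 = 2 * η by ring]

/-- the selected dart of the gate `a` -/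
def sdt (η : ℝ) (W : ℤ → ℤ × ℤ) (X : Set (ℂ × Bool)) (a : ℤ) : ℂ × ℂ := dg (gA η W a) (QA η W a) X

/-- the selected dart is periodic -/
theorem sdt_per {M : ℕ} {W : ℤ → ℤ × ℤ} (F : FPath M W) (η : ℝ) (X : Set (ℂ × Bool)) (a : ℤ) :
    sdt η W X (a + M) = sdt η W X a := by
  unfold sdt
  rw [gA_per F, QA_per F]

/-- left (black) site of the gate `a` -/
def yy (η : ℝ) (W : ℤ → ℤ × ℤ) (X : Set (ℂ × Bool)) (a : ℤ) : ℂ := (sdt η W X a).1

/-- right (white) site of the gate `a` -/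
def xx (η : ℝ) (W : ℤ → ℤ × ℤ) (X : Set (ℂ × Bool)) (a : ℤ) : ℂ := (sdt η W X a).2

/-! ### the hypothesis -/

/-- **the corridor hypothesis** -/
structure CorH (X : Set (ℂ × Bool)) (U : Set ℂ) (M : ℕ) (W : ℤ → ℤ × ℤ) (η d : ℝ) (o : ℤ)
    (n : ℕ) : Prop where
  path : FPath M W
  n1 : 1 ≤ n
  nM : n + 4 ≤ M
  e0 : 0 < η
  d0 : 0 < d
  de : 100 * d ≤ η
  fin : X.Finite
  gp : GP (sX X : Set ℂ)
  hull : HullC (sX X) (cX X)
  fat : ∀ a : ℤ, ∀ w ∈ RR (9 * η) (51 * η) (100 * η) W a, ∀ s : ℂ, ‖s - w‖ ≤ 100 * η → s ∈ U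
  hol : Hol (ps X) U d
  out : ∀ a : ℤ, o ≤ a → a < o + n → TB true (RR (9 * η) (51 * η) (100 * η) W a)
    (LG (gA η W a) (QA η W a)) (LG (gA η W (a + 1)) (QA η W (a + 1))) X
  cls : ∀ a : ℤ, o + n ≤ a → a < o + M → TB false (RR (9 * η) (51 * η) (100 * η) W a)
    (LG (gA η W a) (QA η W a)) (LG (gA η W (a + 1)) (QA η W (a + 1))) X

variable {X : Set (ℂ × Bool)} {U : Set ℂ} {M : ℕ} {W : ℤ → ℤ × ℤ} {η d : ℝ} {o : ℤ} {n : ℕ}

namespace CorH

/-! ### geometry -/

theorem num (H : CorH X U M W η d o n) : Num (100 * η) (9 * η) (51 * η) η (10 * η) (-η) η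
    (-(9 * η)) (10 * η) (2 * d) := by
  have h1 := H.e0
  have h2 := H.d0
  have h3 := H.de
  constructor <;> linarith

theorem dsj (H : CorH X U M W η d o n) : Dsj (10 * η) (52 * η) (100 * η) M W := by
  have h1 := H.e0
  exact dsj_of H.path (by linarith) (by linarith) (by linarith)

theorem cen_mem (H : CorH X U M W η d o n) (a : ℤ) :
    gz (100 * η) W a ∈ RR (9 * η) (51 * η) (100 * η) W a := by
  have h1 := H.e0
  refine win_right H.path (by linarith) (by linarith) ?_ ?_
  · have : Gatex838.X (gz (100 * η) W a) (ge W a) (gz (100 * η) W a) = 0 := by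
      unfold Gatex838.X
      simp
    rw [this]
    simp only [abs_zero]
    linarith
  · have : Gatex838.Y (gz (100 * η) W a) (ge W a) (gz (100 * η) W a) = 0 := by
      unfold Gatex838.Y
      simp
    rw [this]
    simp only [abs_zero]
    linarith

/-- points near the centre of a gate are in `U` -/
theorem box_U (H : CorH X U M W η d o n) (a : ℤ) {s : ℂ}
    (h1 : |Gatex838.X (gz (100 * η) W a) (ge W a) s| ≤ 40 * η)
    (h2 : |Gatex838.Y (gz (100 * η) W a) (ge W a) s| ≤ 40 * η) : s ∈ U := by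
  have h3 := H.e0
  refine H.fat a _ (H.cen_mem a) s ?_
  exact (RegBx523.norm_le_XY (norm_ge H.path a)).trans (by linarith)

theorem win_U (H : CorH X U M W η d o n) (a : ℤ) : (gA η W a).win ⊆ U := by
  have h3 := H.e0
  rintro s ⟨⟨h4, h5⟩, h6, h7⟩
  change -η < Gatex838.X (gz (100 * η) W a) (ge W a) s at h4
  change Gatex838.X (gz (100 * η) W a) (ge W a) s < η at h5
  change -(9 * η) - η ≤ Gatex838.Y (gz (100 * η) W a) (ge W a) s at h6
  change Gatex838.Y (gz (100 * η) W a) (ge W a) s ≤ 10 * η + η at h7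
  refine H.box_U a ?_ ?_
  · rw [abs_le]
    constructor <;> linarith
  · rw [abs_le]
    constructor <;> linarith

/-- the `2 d`-neighbourhood of a window is inside the gate box -/
theorem win_Q (H : CorH X U M W η d o n) (a : ℤ) : ∀ w ∈ (gA η W a).win, ∀ s : ℂ,
    ‖s - w‖ < 2 * d → s ∈ QA η W a := by
  have h1 := H.e0
  have h2 := H.d0
  have h3 := H.de
  rintro w ⟨⟨h4, h5⟩, h6, h7⟩ s hs
  change -η < Gatex838.X (gz (100 * η) W a) (ge W a) w at h4
  change Gatex838.X (gz (100 * η) W a) (ge W a) w < η at h5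
  change -(9 * η) - η ≤ Gatex838.Y (gz (100 * η) W a) (ge W a) w at h6
  change Gatex838.Y (gz (100 * η) W a) (ge W a) w ≤ 10 * η + η at h7
  have x1 := (Crossx228.abs_X_sub (gz (100 * η) W a) (ge_d4 H.path a).norm s w).trans_lt hs
  have y1 := (Crossx228.abs_Y_sub (gz (100 * η) W a) (ge_d4 H.path a).norm s w).trans_lt hs
  rw [abs_lt] at x1 y1
  rw [mem_QA, abs_lt, abs_lt]
  refine ⟨⟨?_, ?_⟩, ?_, ?_⟩ <;> linarith

/-- the enlarged strips are inside `U` -/
theorem sub_U (H : CorH X U M W η d o n) {A B : ℝ} (hA : A ≤ 59 * η) (hB : B ≤ 101 * η) (a : ℤ) :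
    RR A B (100 * η) W a ⊆ U := by
  have h1 := H.e0
  -- a point of an arm is near the strip
  have key : ∀ v : ℂ, D4 v → (∀ z ∈ Arm (9 * η) (51 * η) (cen (100 * η) W a) v, z ∈ RR (9 * η)
      (51 * η) (100 * η) W a) → ∀ s ∈ Arm A B (cen (100 * η) W a) v, s ∈ U := by
    intro v hv hsub s hs
    obtain ⟨⟨h2, h3⟩, h4⟩ := hs
    set c := cen (100 * η) W a with hc
    set x := Gatex838.X c v s with hx
    -- the nearest point of the axis of the strip
    set t : ℝ := max (-(8 * η)) (min x (50 * η)) with ht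
    have ht0 : -(8 * η) ≤ t := le_max_left _ _
    have ht1 : t ≤ 50 * η := max_le (by linarith) (min_le_right _ _)
    have hxt : |x - t| ≤ 51 * η := by
      rw [abs_le]
      constructor
      · rcases le_total (-(8 * η)) (min x (50 * η)) with h5 | h5
        · rw [ht, max_eq_right h5]
          have := min_le_left x (50 * η)
          linarith
        · rw [ht, max_eq_left h5]
          linarith
      · rcases le_total x (50 * η) with h5 | h5
        · have h6 : min x (50 * η) = x := min_eq_left h5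
          have : x ≤ t := by rw [ht, h6]; exact le_max_right _ _
          linarith
        · have h6 : min x (50 * η) = 50 * η := min_eq_right h5
          have : 50 * η ≤ t := by rw [ht, h6]; exact le_max_right _ _
          linarith
    have hz : c + (t : ℂ) * v ∈ Arm (9 * η) (51 * η) c v := by
      have e1 : Gatex838.X c v (c + (t : ℂ) * v) = t := by
        unfold Gatex838.X
        rw [add_sub_cancel_left, mul_div_assoc, div_self hv.ne0, mul_one, Complex.ofReal_re]
      have e2 : Gatex838.Y c v (c + (t : ℂ) * v) = 0 := by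
        unfold Gatex838.Y
        rw [add_sub_cancel_left, mul_div_assoc, div_self hv.ne0, mul_one, Complex.ofReal_im]
      refine ⟨⟨?_, ?_⟩, ?_⟩
      · rw [e1]; linarith
      · rw [e1]; linarith
      · rw [e2, abs_zero]; linarith
    refine H.fat a _ (hsub _ hz) s ?_
    have h5 : ‖s - (c + (t : ℂ) * v)‖ ^ 2 = (x - t) ^ 2 + (Gatex838.Y c v s) ^ 2 := by
      have e1 : (s - (c + (t : ℂ) * v)) / v = (s - c) / v - t := by
        rw [sub_div, sub_div, add_div, mul_div_assoc, div_self hv.ne0, mul_one]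
        ring
      have e2 : ‖s - (c + (t : ℂ) * v)‖ = ‖(s - (c + (t : ℂ) * v)) / v‖ := by
        rw [norm_div, hv.norm, div_one]
      rw [e2, e1, ← Complex.normSq_eq_norm_sq, Complex.normSq_apply]
      simp only [Complex.sub_re, Complex.sub_im, Complex.ofReal_re, Complex.ofReal_im, sub_zero]
      rw [hx]
      unfold Gatex838.X Gatex838.Y
      ring
    have h6 : |Gatex838.Y c v s| ≤ 59 * η := (h4.le).trans hA
    have h7 : (x - t) ^ 2 ≤ (51 * η) ^ 2 := sq_le_sq' (by linarith [(abs_le.1 hxt).1])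
      (abs_le.1 hxt).2
    have h8 : (Gatex838.Y c v s) ^ 2 ≤ (59 * η) ^ 2 := sq_le_sq' (by linarith [(abs_le.1 h6).1])
      (abs_le.1 h6).2
    have h9 : ‖s - (c + (t : ℂ) * v)‖ ^ 2 ≤ (100 * η) ^ 2 := by
      rw [h5]
      nlinarith
    exact le_of_sq_le_sq h9 (by linarith)
  rintro s (hs | hs)
  · exact key _ (arm_l H.path a) (fun z hz => Or.inl hz) s hs
  · exact key _ (arm_r H.path a) (fun z hz => Or.inr hz) s hs

/-! ### environment -/

/-- short edges at the sites in `U` -/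
theorem step (H : CorH X U M W η d o n) {u v : ℂ} (hu : u ∈ U) (h : DE (sX X) u v) :
    ‖v - u‖ < 2 * d := de_near H.d0 (by rw [coe_sX H.fin]; exact H.hol) hu h

theorem step' (H : CorH X U M W η d o n) {u v : ℂ} (hu : u ∈ U) (h : DE (sX X) u v) :
    ‖u - v‖ < 2 * d := by
  rw [norm_sub_rev]
  exact H.step hu h

theorem holS (H : CorH X U M W η d o n) : Hol (sX X : Set ℂ) U d := by
  rw [coe_sX H.fin]
  exact H.hol

/-- no hull site in `U` -/
theorem inn (H : CorH X U M W η d o n) {v : ℂ} (hv : v ∈ U) : ¬ OnHull (sX X) v :=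
  fun ⟨a, h⟩ => (not_hull H.d0 H.holS hv a).2 h

/-- `U` is covered by the triangles -/
theorem cov (H : CorH X U M W η d o n) {z : ℂ} (hz : z ∈ U) :
    ∃ t ∈ delT (sX X), z ∈ Crest.Agent.R143.Circx63.cT t := by
  obtain ⟨a, b, c, h1, h2⟩ := exists_tri_W H.gp H.d0 H.holS hz
  exact ⟨(a, b, c), h1, h2⟩

theorem env (H : CorH X U M W η d o n) : Envr (sX X) U (2 * d) :=
  ⟨fun _ _ h hu _ => (H.step' hu h).le, fun _ _ hv => H.inn hv, fun _ hz => H.cov hz⟩

/-! ### selected darts -/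

theorem gA_dvd (H : CorH X U M W η d o n) {a b : ℤ} (h : (M : ℤ) ∣ b - a) :
    gA η W b = gA η W a := by
  unfold gA
  rw [PthFx765.gz_dvd H.path h, PthFx765.ge_dvd H.path h]

theorem QA_dvd (H : CorH X U M W η d o n) {a b : ℤ} (h : (M : ℤ) ∣ b - a) :
    QA η W b = QA η W a := PthFx765.GB_dvd H.path h

theorem M_pos (H : CorH X U M W η d o n) : 0 < M := by
  have := H.nM
  omega

/-- representative of a tile -/
theorem red (H : CorH X U M W η d o n) (a : ℤ) :
    ∃ b : ℤ, (o ≤ b ∧ b < o + M) ∧ (M : ℤ) ∣ a - b := by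
  have h0 : (0 : ℤ) < M := by exact_mod_cast H.M_pos
  refine ⟨o + (a - o) % M, ⟨?_, ?_⟩, (a - o) / M, ?_⟩
  · have := Int.emod_nonneg (a - o) h0.ne'
    omega
  · have := Int.emod_lt_of_pos (a - o) h0
    omega
  · have := Int.emod_add_mul_ediv (a - o) M
    linarith

/-- every tile carries a tile event -/
theorem tb (H : CorH X U M W η d o n) (a : ℤ) :
    TB false (RR (9 * η) (51 * η) (100 * η) W a) (LG (gA η W a) (QA η W a))
      (LG (gA η W (a + 1)) (QA η W (a + 1))) X := by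
  obtain ⟨b, ⟨h1, h2⟩, h3⟩ := H.red a
  rw [PthFx765.RR_dvd H.path h3, H.gA_dvd h3, H.QA_dvd h3, H.gA_dvd (PthFx765.dvd_succ h3),
    H.QA_dvd (PthFx765.dvd_succ h3)]
  rcases lt_or_ge b (o + n) with h4 | h4
  · exact TplIx204.TB_of (TB_true.1 (H.out b h1 h4))
  · exact H.cls b h4 h2

/-- **the selected dart of every gate** -/
theorem lg (H : CorH X U M W η d o n) (a : ℤ) : LG (gA η W a) (QA η W a) X (sdt η W X a) := by
  obtain ⟨-, p, -, hp, -⟩ := H.tb a
  exact dg_spec ⟨p, hp⟩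

theorem per (H : CorH X U M W η d o n) (a : ℤ) : sdt η W X (a + M) = sdt η W X a :=
  sdt_per H.path η X a

theorem yper (H : CorH X U M W η d o n) (a : ℤ) : yy η W X (a + M) = yy η W X a :=
  congrArg Prod.fst (H.per a)

theorem xper (H : CorH X U M W η d o n) (a : ℤ) : xx η W X (a + M) = xx η W X a :=
  congrArg Prod.snd (H.per a)

/-- the `Hol` of a window -/
theorem holw (H : CorH X U M W η d o n) (a : ℤ) : Hol (ps X) (gA η W a).win d :=
  H.hol.mono (H.win_U a)

/-- **the neck at the selected dart** -/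
theorem neck (H : CorH X U M W η d o n) (a : ℤ) :
    NeckD (sX X) (gz (100 * η) W a) (ge W a) (-η) η (-(9 * η)) (10 * η) η (sX X) (bX X)
      (yy η W X a) (xx η W X a) := LG_neck H.fin H.d0 (H.holw a) (H.win_Q a) (H.lg a)

theorem sd (H : CorH X U M W η d o n) (a : ℤ) : (yy η W X a, xx η W X a) ∈ sd (sX X) :=
  neck_sd H.hull (V := sX X) (b := 1) bX_iff (H.neck a)

/-- colours: left site `1`, right site `0` -/
theorem coly (H : CorH X U M W η d o n) (a : ℤ) : cX X (yy η W X a) = 1 :=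
  (neck_col (V := sX X) (b := 1) bX_iff (H.neck a)).1

theorem colx (H : CorH X U M W η d o n) (a : ℤ) : cX X (xx η W X a) = 0 := by
  have h := (neck_col (V := sX X) (b := 1) bX_iff (H.neck a)).2
  rw [H.coly a] at h
  revert h
  generalize cX X (xx η W X a) = c
  revert c; decide

/-- the black site is in the window -/
theorem wy (H : CorH X U M W η d o n) (a : ℤ) :
    yy η W X a ∈ Win (gz (100 * η) W a) (ge W a) (-η) η (-(9 * η)) (10 * η) :=
  neck_win (H.neck a)

/-- **the state of the gate `a`** -/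
def st (H : CorH X U M W η d o n) (a : ℤ) : D0 (sX X) := ⟨(yy η W X a, xx η W X a), H.sd a⟩

/-- states of the corridor, `k`-th gate -/
def p (H : CorH X U M W η d o n) (k : ℕ) : D0 (sX X) := H.st (o + k)

theorem st_occ (H : CorH X U M W η d o n) (a : ℤ) : xc H.gp H.hull (H.st a) = 1 := by
  show cX X (yy η W X a) + cX X (xx η W X a) = 1
  rw [H.coly, H.colx, add_zero]

/-! ### links -/

/-- the tile event at the selected darts -/
theorem wht (H : CorH X U M W η d o n) (a : ℤ) :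
    Lk (sX X) {s | (s ∈ sX X ∧ s ∉ bX X) ∧ s ∈ RR (9 * η) (51 * η) (100 * η) W a}
      (xx η W X a) (xx η W X (a + 1)) := by
  obtain ⟨-, p, q, hp, hq, -, h⟩ := H.tb a
  have e1 : sdt η W X a = p := dg_eq hp
  have e2 : sdt η W X (a + 1) = q := dg_eq hq
  unfold xx
  rw [e1, e2]
  exact h

/-- black link of an out tile -/
theorem blk (H : CorH X U M W η d o n) {a : ℤ} (h1 : o ≤ a) (h2 : a < o + n) :
    Lk (sX X) {s | s ∈ bX X ∧ s ∈ RR (9 * η) (51 * η) (100 * η) W a}
      (yy η W X a) (yy η W X (a + 1)) := by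
  obtain ⟨-, p, q, hp, hq, h, -⟩ := H.out a h1 h2
  have e1 : sdt η W X a = p := dg_eq hp
  have e2 : sdt η W X (a + 1) = q := dg_eq hq
  unfold yy
  rw [e1, e2]
  exact h rfl

/-- **the white link through the closing tiles** -/
theorem wlk (H : CorH X U M W η d o n) :
    Lk (sX X) {s | (s ∈ sX X ∧ s ∉ bX X) ∧ ∃ a : ℤ, (o + n ≤ a ∧ a < o + M) ∧
      s ∈ RR (9 * η) (51 * η) (100 * η) W a} (xx η W X (o + n)) (xx η W X o) := by
  have hM := H.nM
  have h := lk_chain (S := sX X) (A := {s | s ∈ sX X ∧ s ∉ bX X})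
    (R := fun a => RR (9 * η) (51 * η) (100 * η) W a) (x := xx η W X) (o := o + n)
    (n := M - n) (by omega) (fun k _ => H.wht _)
  have e : o + (n : ℤ) + ((M - n : ℕ) : ℤ) = o + M := by omega
  rw [e, H.xper] at h
  refine h.mono ?_
  rintro s ⟨h1, k, h2, h3⟩
  exact ⟨h1, o + n + k, ⟨by omega, by omega⟩, h3⟩

/-! ### the corridor -/

theorem evp (H : CorH X U M W η d o n) : Evp (sX X) (sX X) (bX X) (100 * η) (9 * η) (51 * η)
    (-η) η (-(9 * η)) (10 * η) η W (fun a => o ≤ a ∧ a < o + n) (yy η W X) (xx η W X) :=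
  ⟨fun a _ => H.neck a, fun a ha => ⟨H.blk ha.1 ha.2, H.wht a⟩⟩

/-- **the corridor** -/
theorem corr (H : CorH X U M W η d o n) :
    DCorr H.gp H.hull n (fun k : ℕ => yy η W X (o + k)) (fun k : ℕ => xx η W X (o + k))
      (fun k : ℕ => RR (9 * η) (51 * η) (100 * η) W (o + k))
      (fun k : ℕ => RR (19 / 2 * η) (103 / 2 * η) (100 * η) W (o + k)) H.p := by
  have h1 := H.e0
  have h2 := H.d0
  have h3 := H.de
  have h4 := H.nM
  have h := Evp.corr (b := 1) (τ := η / 2) (A' := 10 * η) (B' := 52 * η) (U := U) H.evp H.num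
    H.path H.gp H.hull bX_iff bX_sub H.env (by linarith) H.n1 (Or.inr (by omega)) o
    (fun k hk => ⟨by omega, by omega⟩)
    (fun k _ => H.sub_U (by linarith) (by linarith) _) le_rfl (by linarith) (by linarith)
    (by linarith) H.dsj (p := H.p) fun k _ => rfl
  have e1 : 9 * η + η / 2 = 19 / 2 * η := by ring
  have e2 : 51 * η + η / 2 = 103 / 2 * η := by ring
  rw [e1, e2] at h
  exact h

/-- **the value of an arc**: `ZZ` between the gates `a`, `a + 1` is `zC` -/
theorem val (H : CorH X U M W η d o n) (a : ℤ) {f : ℂ × ℂ × ℂ → ℂ} {w : D0 (sX X) → ℂ}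
    (hw : ∀ e : D0 (sX X), e.1.2 ∈ RR (19 / 2 * η) (103 / 2 * η) (100 * η) W a →
      th (sX X) e.1 ∈ RR (19 / 2 * η) (103 / 2 * η) (100 * η) W a →
      w e = f (e.1.2, th (sX X) e.1, e.1.1)) :
    ZZ (cm0 H.gp) (xc H.gp H.hull) w (RD (sX X) (RR (19 / 2 * η) (103 / 2 * η) (100 * η) W a))
      (H.st a) (H.st (a + 1)) =
      zC f (RR (19 / 2 * η) (103 / 2 * η) (100 * η) W a) (LG (gA η W a) (QA η W a))
        (LG (gA η W (a + 1)) (QA η W (a + 1))) X := by
  have h1 := H.e0
  exact val_zC H.fin H.gp H.hull (H.lg a) (H.lg (a + 1)) (H.st_occ a) (H.st_occ (a + 1))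
    (fun v _ hv => H.inn (H.sub_U (by linarith) (by linarith) a hv)) hw

/-- the same value, arcs backward -/
theorem val' (H : CorH X U M W η d o n) (a : ℤ) {f : ℂ × ℂ × ℂ → ℂ} {w : D0 (sX X) → ℂ}
    (hw : ∀ e : D0 (sX X), e.1.2 ∈ RR (19 / 2 * η) (103 / 2 * η) (100 * η) W a →
      th (sX X) e.1 ∈ RR (19 / 2 * η) (103 / 2 * η) (100 * η) W a →
      w e = f (e.1.2, th (sX X) e.1, e.1.1)) :
    ZZ (cm0 H.gp) (xc H.gp H.hull) w (RD (sX X) (RR (19 / 2 * η) (103 / 2 * η) (100 * η) W a))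
      (H.st (a + 1)) (H.st a) =
      zC f (RR (19 / 2 * η) (103 / 2 * η) (100 * η) W a) (LG (gA η W (a + 1)) (QA η W (a + 1)))
        (LG (gA η W a) (QA η W a)) X := by
  have h1 := H.e0
  exact val_zC H.fin H.gp H.hull (H.lg (a + 1)) (H.lg a) (H.st_occ (a + 1)) (H.st_occ a)
    (fun v _ hv => H.inn (H.sub_U (by linarith) (by linarith) a hv)) hw

end CorH

end Crest.Agent.R143.CorHx713
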