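import Crest.Agent.R143.PthG_765
import Crest.Agent.R143.Lay_416

/-!
# R143 (helper765): the corridor net of a label on 416's layout

Types `Tn × Bool` (`true` = full tile, `false` = white link only).
* `ob M α N k` : the tile `k : ZMod M` is one of `α, .., α + N - 1`; `cty` : types of the corridor,
  `cty_add`, `cty_typ`
* `cpth H Hs i` : the corridor of the label `i` as `Pth` (all `M` gates, all `M` tiles)
* `SJ H i` : out tiles `l` with `l - 1, l, l + 1` straight out tiles; `SJ_card`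
* `w3` : the window of the tiles `l - 1, l, l + 1`; `w3_ty` : types `(S, true)` for `l ∈ SJ`
* `rf` : the reference window (straight path); `mean_SJ` : `E[g V_l] = E[g] (u_l / u m)`,
  one number `m` for all polygons, all labels and all `l ∈ SJ`
* `mass`, `mass_ne` : `E g = c^M (E A)^M`
-/

set_option autoImplicit false

noncomputable section

namespace Crest.Agent.R143.CorNx765

open MeasureTheory Set
open Crest.ProbabilityR.Voronoi
open Crest.Agent.R143.PP0x831 Crest.Agent.R143.PWx978 Crest.Agent.R143.Tplx978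
open Crest.Agent.R143.TileRx228 Crest.Agent.R143.PthFx765
open Crest.Agent.R143.LayQx811 Crest.Agent.R143.Layx416
open scoped ENNReal

variable {n M : ℕ} {m : ℤ} {p W : ℤ → ℤ × ℤ} {Ac e : ℤ → ℤ} {A B h ε : ℝ}
  {T : Tpl ε (Tn × Bool)}

/-! ### types -/

/-- the tile `k` is one of `α, .., α + N - 1` -/
def ob (M : ℕ) (α : ℤ) (N : ℕ) (k : ZMod M) : Bool := decide (zc (k - (α : ZMod M)) < N)

theorem ob_add {α : ℤ} {N l : ℕ} (hl : l < M) :
    ob M α N ((α + (l : ℤ) : ℤ) : ZMod M) = decide (l < N) := by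
  unfold ob
  have e : ((α + (l : ℤ) : ℤ) : ZMod M) - (α : ZMod M) = ((l : ℤ) : ZMod M) := by
    push_cast
    ring
  rw [e, zc_lt (n := M - 1) (Or.inr (by omega)) (by omega)]
  simp

/-- types of the corridor of the label `i` -/
def cty (M : ℕ) (W : ℤ → ℤ × ℤ) (Ac e : ℤ → ℤ) (i : ZMod 3) (k : ZMod M) : Tn × Bool :=
  (tn W (zc k), ob M (al Ac e i) (nn Ac e i) k)

theorem cty_typ (i : ZMod 3) : Typ W Prod.fst (cty M W Ac e i) := fun _ => rfl

theorem cty_add (P : FPath M W) (i : ZMod 3) {l : ℕ} (hl : l < M) :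
    cty M W Ac e i ((al Ac e i + (l : ℤ) : ℤ) : ZMod M) =
      (tn W (al Ac e i + l), decide (l < nn Ac e i)) := by
  unfold cty
  rw [ob_add hl, tn_dvd P (zc_dvd _)]

/-- **the corridor of the label `i`** -/
def cpth (P : FPath M W) (Hs : Std T A B h Prod.fst) (Ac e : ℤ → ℤ) (i : ZMod 3) :
    Pth T (ZMod M) (ZMod M) := pth P Hs (cty M W Ac e i) (cty_typ i)

theorem ex_idx (hM : 0 < M) (α : ℤ) (k : ZMod M) :
    ∃ l : ℕ, l < M ∧ k = ((α + (l : ℤ) : ℤ) : ZMod M) := by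
  have h0 : (M : ℤ) ≠ 0 := by exact_mod_cast hM.ne'
  have hp : (0 : ℤ) < M := by exact_mod_cast hM
  have h1 := Int.emod_nonneg (zc k - α) h0
  have h2 := Int.emod_lt_of_pos (zc k - α) hp
  refine ⟨((zc k - α) % M).toNat, by omega, ?_⟩
  rw [Int.toNat_of_nonneg h1]
  have h3 : (M : ℤ) ∣ zc k - (α + (zc k - α) % M) := by
    refine ⟨(zc k - α) / M, ?_⟩
    have := Int.emod_add_mul_ediv (zc k - α) M
    linarith
  have h4 := cast_dvd h3
  rw [zc_cast] at h4
  exact h4

/-- the indices `l < M` are different gates -/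
theorem idx_inj {α : ℤ} {k l : ℕ} (hk : k < M) (hl : l < M)
    (he : ((α + (k : ℤ) : ℤ) : ZMod M) = ((α + (l : ℤ) : ℤ) : ZMod M)) : k = l :=
  add_inj (n := M - 1) (Or.inr (by omega)) (by omega) (by omega) he

/-! ### straight out tiles -/

/-- out tiles `l` such that `l - 1`, `l`, `l + 1` are straight out tiles -/
def SJ (W : ℤ → ℤ × ℤ) (Ac e : ℤ → ℤ) (i : ZMod 3) : Finset ℕ :=
  (Finset.range (nn Ac e i)).filter fun l => 1 ≤ l ∧ l + 1 < nn Ac e i ∧
    tn W (al Ac e i + l - 1) = Tn.S ∧ tn W (al Ac e i + l) = Tn.S ∧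
      tn W (al Ac e i + l + 1) = Tn.S

theorem mem_SJ {i : ZMod 3} {l : ℕ} : l ∈ SJ W Ac e i ↔ 1 ≤ l ∧ l + 1 < nn Ac e i ∧
    tn W (al Ac e i + l - 1) = Tn.S ∧ tn W (al Ac e i + l) = Tn.S ∧
      tn W (al Ac e i + l + 1) = Tn.S := by
  unfold SJ
  rw [Finset.mem_filter, Finset.mem_range]
  constructor
  · exact fun h => h.2
  · exact fun h => ⟨by omega, h⟩

theorem SJ_sub (i : ZMod 3) : SJ W Ac e i ⊆ Finset.range (nn Ac e i) := Finset.filter_subset _ _

/-- **few exceptional tiles** -/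
theorem SJ_card (H : Lay n M m p W Ac e) (i : ZMod 3) :
    nn Ac e i ≤ (SJ W Ac e i).card + (3 * n + 2) := by
  classical
  set α := al Ac e i with hα
  set N := nn Ac e i with hN
  have hNM : N + 8 ≤ M := H.nn_lt i
  set Bd := (Finset.Ico α (α + M)).filter fun a =>
      ¬ (W a - W (a - 1) = W (a - 1) - W (a - 2) ∧ W (a + 1) - W a = W a - W (a - 1) ∧
        W (a + 2) - W (a + 1) = W (a + 1) - W a) with hB
  have h1 : Bd.card ≤ 3 * n := H.bad_card α
  have h2 : Finset.range N ⊆ SJ W Ac e i ∪ ((Bd.image fun a => (a - α).toNat) ∪ {0, N - 1}) := by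
    intro l hl
    rw [Finset.mem_range] at hl
    by_cases h3 : l ∈ SJ W Ac e i
    · exact Finset.mem_union_left _ h3
    refine Finset.mem_union_right _ ?_
    rw [mem_SJ] at h3
    by_cases h4 : l = 0
    · refine Finset.mem_union_right _ ?_
      rw [h4]
      simp
    by_cases h5 : l = N - 1
    · refine Finset.mem_union_right _ ?_
      rw [h5]
      simp
    refine Finset.mem_union_left _ (Finset.mem_image.2 ⟨α + l, ?_, by omega⟩)
    rw [hB, Finset.mem_filter, Finset.mem_Ico]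
    refine ⟨⟨by omega, by omega⟩, fun h6 => h3 ⟨by omega, by omega, ?_, ?_, ?_⟩⟩
    · rw [tn_eq_S H.fp, show α + (l : ℤ) - 1 + 1 = α + l by ring,
        show α + (l : ℤ) - 1 - 1 = α + l - 2 by ring]
      exact h6.1
    · rw [tn_eq_S H.fp]
      exact h6.2.1
    · rw [tn_eq_S H.fp, show α + (l : ℤ) + 1 + 1 = α + l + 2 by ring,
        show α + (l : ℤ) + 1 - 1 = α + l by ring]
      exact h6.2.2
  have h3 := Finset.card_le_card h2
  rw [Finset.card_range] at h3
  have h4 := Finset.card_union_le (SJ W Ac e i) ((Bd.image fun a => (a - α).toNat) ∪ {0, N - 1})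
  have h5 := Finset.card_union_le (Bd.image fun a => (a - α).toNat) {0, N - 1}
  have h6 : (Bd.image fun a => (a - α).toNat).card ≤ Bd.card := Finset.card_image_le
  have h7 : ({0, N - 1} : Finset ℕ).card ≤ 2 := Finset.card_le_two
  omega

/-! ### windows of three tiles -/

/-- change of the frame: the window starts at the gate `a`, the function is given at the gate `a + 1` -/
theorem mv_shift (P : FPath M W) {a : ℤ} {V V0 : Cf → ℂ} {u : ℂ}
    (hc : ∀ S : Cf, S.Finite → V (mv (frm P h (a + 1)).e S) = u * V0 S) :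
    ∀ S : Cf, S.Finite → V (mv (frm P h a).e S) = u * tr (nxt h (tn W a)).e V0 S := by
  intro S hS
  have h1 := hc (mv (nxt h (tn W a)).e.symm S) (mv_finite _ hS)
  have h2 : mv (frm P h (a + 1)).e (mv (nxt h (tn W a)).e.symm S) = mv (frm P h a).e S := by
    rw [mv_mv]
    refine mv_congr (fun z => ?_) S
    show (frm P h (a + 1)).e ((nxt h (tn W a)).e.symm z) = _
    rw [frm_succ, MeasurableEquiv.apply_symm_apply]
  rw [h2] at h1
  exact h1

theorem SJ_ty (P : FPath M W) {i : ZMod 3} (hM : nn Ac e i < M) {l : ℕ} (hl : l ∈ SJ W Ac e i)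
    (j : ℕ) (hj : j < 3) :
    cty M W Ac e i ((al Ac e i + l - 1 + (j : ℤ) : ℤ) : ZMod M) = (Tn.S, true) := by
  obtain ⟨h1, h2, h3, h4, h5⟩ := mem_SJ.1 hl
  have e1 : (al Ac e i + l - 1 + (j : ℤ) : ℤ) = al Ac e i + ((l - 1 + j : ℕ) : ℤ) := by omega
  rw [e1, cty_add P i (by omega)]
  have e2 : al Ac e i + ((l - 1 + j : ℕ) : ℤ) = al Ac e i + l - 1 + (j : ℤ) := e1.symm
  rw [e2]
  refine Prod.ext ?_ ?_
  · show tn W (al Ac e i + l - 1 + (j : ℤ)) = Tn.S
    interval_cases j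
    · simpa using h3
    · rw [show al Ac e i + (l : ℤ) - 1 + ((1 : ℕ) : ℤ) = al Ac e i + l by push_cast; ring]
      exact h4
    · rw [show al Ac e i + (l : ℤ) - 1 + ((2 : ℕ) : ℤ) = al Ac e i + l + 1 by push_cast; ring]
      exact h5
  · show decide (l - 1 + j < nn Ac e i) = true
    rw [decide_eq_true_eq]
    omega

/-- **the window of the tiles `l - 1, l, l + 1`**, `l ∈ SJ` -/
def w3 (P : FPath M W) (Hs : Std T A B h Prod.fst) {i : ZMod 3} (hM : nn Ac e i < M)
    (hM3 : Pr M 3) {l : ℕ} (hl : l ∈ SJ W Ac e i) :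
    Win (cpth P Hs Ac e i) 3 fun _ => (Tn.S, true) :=
  win P Hs (cty_typ i) hM3 (al Ac e i + l - 1) (SJ_ty P hM hl)

/-- the straight path -/
def lpth (Hs : Std T A B h Prod.fst) : Pth T (ZMod 0) (ZMod 0) :=
  pth line Hs (fun _ => (Tn.S, true)) (line_typ rfl)

/-- **the reference window**: tiles `0, 1, 2` of the straight path -/
def rf (Hs : Std T A B h Prod.fst) : Win (lpth Hs) 3 fun _ => (Tn.S, true) :=
  win line Hs (line_typ rfl) (Or.inl rfl) 0 fun _ _ => rfl

theorem w3_reg [DecidableEq (ZMod M)] (P : FPath M W) (Hs : Std T A B h Prod.fst) {i : ZMod 3}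
    (hM : nn Ac e i < M) (hM3 : Pr M 3) {l : ℕ} (hl : l ∈ SJ W Ac e i) :
    (RR A B h W (al Ac e i + l - 1) ∪ RR A B h W (al Ac e i + l)) ∪
      RR A B h W (al Ac e i + l + 1) ⊆ (w3 P Hs hM hM3 hl).reg := by
  have h0 := RR_reg P Hs (cty_typ i) hM3 (al Ac e i + l - 1) (SJ_ty P hM hl) (j := 0) (by norm_num)
  have h1 := RR_reg P Hs (cty_typ i) hM3 (al Ac e i + l - 1) (SJ_ty P hM hl) (j := 1) (by norm_num)
  have h2 := RR_reg P Hs (cty_typ i) hM3 (al Ac e i + l - 1) (SJ_ty P hM hl) (j := 2) (by norm_num)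
  rw [show al Ac e i + (l : ℤ) - 1 + ((0 : ℕ) : ℤ) = al Ac e i + l - 1 by push_cast; ring] at h0
  rw [show al Ac e i + (l : ℤ) - 1 + ((1 : ℕ) : ℤ) = al Ac e i + l by push_cast; ring] at h1
  rw [show al Ac e i + (l : ℤ) - 1 + ((2 : ℕ) : ℤ) = al Ac e i + l + 1 by push_cast; ring] at h2
  exact union_subset (union_subset h0 h1) h2

theorem rf_reg [DecidableEq (ZMod 0)] (Hs : Std T A B h Prod.fst) :
    (RR A B h lineW 0 ∪ RR A B h lineW 1) ∪ RR A B h lineW 2 ⊆ (rf Hs).reg := by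
  have key := fun (j : ℕ) (hj : j < 3) => RR_reg line Hs (ty := fun _ => (Tn.S, true))
    (τ := fun _ => (Tn.S, true)) (line_typ rfl) (Or.inl rfl) 0 (fun _ _ => rfl) (j := j) hj
  have h0 := key 0 (by norm_num)
  have h1 := key 1 (by norm_num)
  have h2 := key 2 (by norm_num)
  simp only [Nat.cast_zero, Nat.cast_one, Nat.cast_ofNat, zero_add] at h0 h1 h2
  exact union_subset (union_subset h0 h1) h2

/-- **ONE NUMBER for all straight out tiles of all polygons**: `V` = function of the reference path,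
`V'` = function of the tile `l`, both equal to `V0` in the frame of the middle tile -/
theorem mean_SJ [DecidableEq (ZMod 0)] [DecidableEq (ZMod M)] [Fintype (ZMod M)] (P : FPath M W)
    (Hs : Std T A B h Prod.fst) {i : ZMod 3} (hM : nn Ac e i < M) (hM3 : Pr M 3) {l : ℕ}
    (hl : l ∈ SJ W Ac e i) (hA0 : ∫⁻ ω, T.A (cfg ε ω) ∂sampleLaw ≠ 0) {V V' V0 : Cf → ℂ}
    {u u' : ℂ} (hu : u ≠ 0) (hV : LocalOn (rf Hs).reg V) (hVm : FinMeas V)
    (hV' : LocalOn (w3 P Hs hM hM3 hl).reg V') (hVm' : FinMeas V')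
    (hc : ∀ S : Cf, S.Finite → V (mv (frm line h 1).e S) = u * V0 S)
    (hc' : ∀ S : Cf, S.Finite → V' (mv (frm P h (al Ac e i + l)).e S) = u' * V0 S) :
    ∫ ω, (((cpth P Hs Ac e i).net.gw Finset.univ Finset.univ (cfg ε ω)).toReal : ℂ) *
        V' (cfg ε ω) ∂sampleLaw =
      ((∫⁻ ω, (cpth P Hs Ac e i).net.gw Finset.univ Finset.univ (cfg ε ω) ∂sampleLaw).toReal : ℂ) *
        (u' / u * (rf Hs).m V) := by
  have h1 := mv_shift (h := h) (V := V) (V0 := V0) (u := u) line (a := 0) (by simpa using hc)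
  have h2 := mv_shift (h := h) (V := V') (V0 := V0) (u := u') P (a := al Ac e i + l - 1)
    (by rwa [sub_add_cancel])
  have h3 : tn W (al Ac e i + l - 1) = tn lineW 0 := by
    rw [line_tn]
    exact (mem_SJ.1 hl).2.2.1
  rw [h3] at h2
  exact one_number line P Hs (ty := fun _ => (Tn.S, true)) (line_typ rfl) (cty_typ i)
    (Or.inl rfl) hM3 0 (al Ac e i + l - 1) (fun _ _ => rfl) (SJ_ty P hM hl) hA0
    (Finset.subset_univ _) (Finset.subset_univ _) (fun _ _ => ⟨Finset.mem_univ _, Finset.mem_univ _⟩)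
    hu hV hVm hV' hVm' h1 h2

theorem mass [DecidableEq (ZMod M)] [Fintype (ZMod M)] (P : FPath M W)
    (Hs : Std T A B h Prod.fst) (i : ZMod 3) :
    ∫⁻ ω, (cpth P Hs Ac e i).net.gw Finset.univ Finset.univ (cfg ε ω) ∂sampleLaw =
      T.c ^ M * (∫⁻ ω, T.A (cfg ε ω) ∂sampleLaw) ^ M := by
  rw [Win.piece_mass fun _ _ => ⟨Finset.mem_univ _, Finset.mem_univ _⟩]
  have : (Finset.univ : Finset (ZMod M)).card = M := by
    rw [Finset.card_univ, ZMod.card]
  rw [this]

theorem mass_ne [DecidableEq (ZMod M)] [Fintype (ZMod M)] (P : FPath M W)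
    (Hs : Std T A B h Prod.fst) (i : ZMod 3) (hA0 : ∫⁻ ω, T.A (cfg ε ω) ∂sampleLaw ≠ 0) :
    ∫⁻ ω, (cpth P Hs Ac e i).net.gw Finset.univ Finset.univ (cfg ε ω) ∂sampleLaw ≠ 0 :=
  Win.piece_ne_zero (fun _ _ => ⟨Finset.mem_univ _, Finset.mem_univ _⟩) hA0

end Crest.Agent.R143.CorNx765
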