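import Crest.Agent.R143.TplI_204
import Crest.Agent.R143.CorN_765

/-!
# R143 (helper765): the weight of the corridor of a label

* `std_raw`, `std_tpl` : 204's template (`DT.raw.tpl`, `DT.tpl`) has 765's standard boxes
* `gC` : the weight of the corridor of the label `i` (all gates, all tiles)
* `Rall A B h W` : the union of the tiles; `reg_eq` : it is the region of the net; `Rall_meas`,
  `Rall_bdd`
* `gC_local`, `gC_fm`, `gC_le` (finite configurations), `gC_le_one`, `gC_meas`, `lint_gC`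
* `gR` : the real weight `(gC (cfg ε ω)).toReal` : `gR_nonneg`, `gR_le`, `gR_meas`, `gR_int`,
  `int_gR`, `int_gR_pos`
-/

set_option autoImplicit false

noncomputable section

namespace Crest.Agent.R143.CorNx765

open MeasureTheory Set
open Crest.ProbabilityR.Voronoi
open Crest.Agent.R143.PP0x831 Crest.Agent.R143.Poisx304 Crest.Agent.R143.Janx304
open Crest.Agent.R143.IndLocx279 Crest.Agent.R143.PWx978 Crest.Agent.R143.Tplx978
open Crest.Agent.R143.TileRx228 Crest.Agent.R143.PthFx765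
open Crest.Agent.R143.LayQx811 Crest.Agent.R143.Layx416 Crest.Agent.R143.TplIx204
open scoped ENNReal

variable {M : ℕ} {W : ℤ → ℤ × ℤ} {Ac e : ℤ → ℤ} {A B h ε : ℝ} {T : Tpl ε (Tn × Bool)}

/-- **204's template (forced events) has the standard boxes** -/
theorem std_raw (D : DT) (hε : 0 < ε) {c : ℝ≥0∞} (c0 : c ≠ 0) (c1 : c ≤ 1) (hA : 0 < D.A')
    (hAB : D.A' ≤ D.B') (hh : D.A' + D.B' < D.h) :
    Std (D.raw ε hε c c0 c1).tpl D.A' D.B' D.h Prod.fst :=
  ⟨rfl, fun _ => rfl, fun _ => rfl, hA, hAB, hh⟩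

theorem std_tpl (D : DT) (hε : 0 < ε) {c : ℝ≥0∞} (c0 : c ≠ 0) (c1 : c ≠ ∞)
    (pos : ∀ t : Tn × Bool, ∀ S : Cf, S.Finite → D.wA S ≠ 0 → tr (nxt D.h t.1).e D.wA S ≠ 0 →
      c ≤ Rs ε (D.D t.1) (D.wE t) S) (hA : 0 < D.A') (hAB : D.A' ≤ D.B')
    (hh : D.A' + D.B' < D.h) : Std (D.tpl ε hε c c0 c1 pos) D.A' D.B' D.h Prod.fst :=
  ⟨rfl, fun _ => rfl, fun _ => rfl, hA, hAB, hh⟩

/-! ### the region -/

/-- the union of the tiles -/
def Rall (A B h : ℝ) (W : ℤ → ℤ × ℤ) : Set ℂ := ⋃ a : ℤ, RR A B h W a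

variable (P : FPath M W) (Hs : Std T A B h Prod.fst) (i : ZMod 3)

section
variable [DecidableEq (ZMod M)] [Fintype (ZMod M)]

/-- **the region of the net** -/
theorem reg_eq : (cpth P Hs Ac e i).net.reg Finset.univ Finset.univ = Rall A B h W := by
  ext s
  unfold Net.reg Rall
  simp only [Finset.mem_univ, iUnion_true, mem_union, mem_iUnion]
  constructor
  · rintro (⟨k, hk⟩ | ⟨k, hk⟩)
    · have h1 := net_B P Hs (cty_typ (Ac := Ac) (e := e) i) (zc k)
      rw [zc_cast] at h1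
      have h2 : s ∈ GB A B h W (zc k) := by
        rw [← h1]
        exact hk
      exact ⟨zc k, GB_sub P Hs.hA Hs.hB _ h2⟩
    · have h1 := net_C P Hs (cty_typ (Ac := Ac) (e := e) i) (zc k)
      rw [zc_cast] at h1
      have h2 : s ∈ TB A B h W (zc k) := by
        rw [← h1]
        exact hk
      exact ⟨zc k, h2.1⟩
  · rintro ⟨a, ha⟩
    by_cases h1 : s ∈ GB A B h W a
    · left
      refine ⟨(a : ZMod M), ?_⟩
      have := net_B P Hs (cty_typ (Ac := Ac) (e := e) i) a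
      rw [← this] at h1
      exact h1
    by_cases h2 : s ∈ GB A B h W (a + 1)
    · left
      refine ⟨((a + 1 : ℤ) : ZMod M), ?_⟩
      have := net_B P Hs (cty_typ (Ac := Ac) (e := e) i) (a + 1)
      rw [← this] at h2
      exact h2
    · right
      refine ⟨(a : ZMod M), ?_⟩
      have h3 : s ∈ TB A B h W a := ⟨ha, fun h3 => h3.elim h1 h2⟩
      have := net_C P Hs (cty_typ (Ac := Ac) (e := e) i) a
      rw [← this] at h3
      exact h3

end

include P Hs in
theorem Rall_meas (hM : 0 < M) : MeasurableSet (Rall A B h W) := by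
  have : NeZero M := ⟨hM.ne'⟩
  rw [← reg_eq P Hs (Ac := fun _ => 0) (e := fun _ => 0) 0]
  exact Net.reg_meas _ _ _

include P Hs in
theorem Rall_bdd (hM : 0 < M) : Bornology.IsBounded (Rall A B h W) := by
  have : NeZero M := ⟨hM.ne'⟩
  rw [← reg_eq P Hs (Ac := fun _ => 0) (e := fun _ => 0) 0]
  exact Net.reg_bdd _ _ _

/-! ### the weight -/

variable [Fintype (ZMod M)]

/-- **the weight of the corridor of the label `i`** -/
def gC (P : FPath M W) (Hs : Std T A B h Prod.fst) (Ac e : ℤ → ℤ) (i : ZMod 3) : Cf → ℝ≥0∞ :=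
  (cpth P Hs Ac e i).net.gw Finset.univ Finset.univ

theorem hNu (k : ZMod M) (_ : k ∈ (Finset.univ : Finset (ZMod M))) :
    (cpth P Hs Ac e i).net.N k ⊆ Finset.univ := Finset.subset_univ _

theorem gC_local : LocalOn (Rall A B h W) (gC P Hs Ac e i) := by
  rw [← reg_eq P Hs (Ac := Ac) (e := e) i]
  exact Net.gw_local _ (hNu P Hs i)

theorem gC_fm : FinMeas (gC P Hs Ac e i) := Net.gw_meas _ _ _

/-- at most the gates and the tile events -/
theorem gC_le {S : Cf} (hS : S.Finite) : gC P Hs Ac e i S ≤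
    (∏ k, (cpth P Hs Ac e i).net.a k S) * ∏ k, (cpth P Hs Ac e i).net.e k S :=
  Net.gw_le_fin' _ (hNu P Hs i) hS

theorem gC_le_fin {S : Cf} (hS : S.Finite) : gC P Hs Ac e i S ≤ 1 :=
  (Net.gw_le_fin _ (hNu P Hs i) hS).trans
    (Finset.prod_le_one' fun k _ => (cpth P Hs Ac e i).net.a1 k S)

theorem gC_le_one (ω : Sample) : gC P Hs Ac e i (cfg ε ω) ≤ 1 := Net.gw_le_one _ (hNu P Hs i) ω

theorem gC_meas : Measurable fun ω => gC P Hs Ac e i (cfg ε ω) :=
  meas_fun T.eps (Net.reg_meas (cpth P Hs Ac e i).net Finset.univ Finset.univ) (Net.reg_bdd _ _ _)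
    (Net.gw_local _ (hNu P Hs i)) (Net.gw_meas _ _ _)

theorem lint_gC : ∫⁻ ω, gC P Hs Ac e i (cfg ε ω) ∂sampleLaw =
    T.c ^ M * (∫⁻ ω, T.A (cfg ε ω) ∂sampleLaw) ^ M := mass P Hs i

/-- the real weight -/
def gR (P : FPath M W) (Hs : Std T A B h Prod.fst) (Ac e : ℤ → ℤ) (i : ZMod 3) (ω : Sample) : ℝ :=
  (gC P Hs Ac e i (cfg ε ω)).toReal

theorem gR_nonneg (ω : Sample) : 0 ≤ gR P Hs Ac e i ω := ENNReal.toReal_nonneg

theorem gR_le (ω : Sample) : gR P Hs Ac e i ω ≤ 1 := by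
  have h1 := ENNReal.toReal_mono ENNReal.one_ne_top (gC_le_one P Hs (Ac := Ac) (e := e) i ω)
  rwa [ENNReal.toReal_one] at h1

theorem gR_meas : Measurable (gR P Hs Ac e i) := (gC_meas P Hs i).ennreal_toReal

theorem gR_int : Integrable (gR P Hs Ac e i) sampleLaw := by
  have : IsProbabilityMeasure sampleLaw := by unfold sampleLaw; infer_instance
  refine (integrable_const (1 : ℝ)).mono' (gR_meas P Hs i).aestronglyMeasurable
    (Filter.Eventually.of_forall fun ω => ?_)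
  rw [Real.norm_of_nonneg (gR_nonneg P Hs i ω)]
  exact gR_le P Hs i ω

theorem int_gR : ∫ ω, gR P Hs Ac e i ω ∂sampleLaw =
    (∫⁻ ω, gC P Hs Ac e i (cfg ε ω) ∂sampleLaw).toReal :=
  integral_toReal (gC_meas P Hs i).aemeasurable
    (Filter.Eventually.of_forall fun ω => (gC_le_one P Hs i ω).trans_lt ENNReal.one_lt_top)

theorem int_gR_eq : ∫ ω, gR P Hs Ac e i ω ∂sampleLaw =
    T.c.toReal ^ M * (∫⁻ ω, T.A (cfg ε ω) ∂sampleLaw).toReal ^ M := by
  rw [int_gR, lint_gC, ENNReal.toReal_mul, ENNReal.toReal_pow, ENNReal.toReal_pow]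

theorem int_gR_pos (hA0 : ∫⁻ ω, T.A (cfg ε ω) ∂sampleLaw ≠ 0) :
    0 < ∫ ω, gR P Hs Ac e i ω ∂sampleLaw := by
  rw [int_gR_eq]
  have h1 := ENNReal.toReal_pos T.c0 T.c1
  have h2 := ENNReal.toReal_pos hA0 (ne_top_of_le_ne_top ENNReal.one_ne_top (Win.A_le T))
  positivity

end Crest.Agent.R143.CorNx765
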