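import Crest.Agent.R143.GPosF_348
import Crest.Agent.R143.CorL_765
import Crest.Agent.R143.CorH_713

/-!
# Row 143 (S0194), CORE-C, glue CorrI: the weight of a corridor gives the tile events (helper348)

The numbers of 713's `CorH` (`gO η`, `gA η W a`, `QA η W a`; side `100 η`, links in `9 η, 51 η`, points in
`12 η, 52 η`) for 204's template on 765's corridor net `cpth`.

* `NumC D η` : the numbers of the template; `gt_eq`, `bx_eq`, `std_c`
* `cor_ev'` : **for almost every environment `S ω`, for ALL sets of black sites `β ⊆ S ω`**: if the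
  environment is dense in the strips and `gC P H Ac e i (clr (S ω) β) ≠ 0`, then all gates have a dart and
  all tiles have their event (full or white)
* `cor_ev` : the fields `out`, `cls` of `CorH` (literally)
* `corH_all` : the record `CorH (clr (S ω) β) U M W η d (al Ac e i) (nn Ac e i)`
-/

set_option autoImplicit false
set_option linter.all false

noncomputable section

open scoped Classical

namespace Crest.Agent.R143.GPosCx348

open MeasureTheory Set ProbabilityTheory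
open Crest.ProbabilityR.Voronoi
open Crest.Agent.R143.B0x346 Crest.Agent.R143.Locx922
open Crest.Agent.R143.PP0x831 Crest.Agent.R143.Poisx304 Crest.Agent.R143.Janx304
open Crest.Agent.R143.IndLocx279 Crest.Agent.R143.PWx978 Crest.Agent.R143.Tplx978
open Crest.Agent.R143.WLocx713 Crest.Agent.R143.IndLoc3x279
open Crest.Agent.R143.TileRx228 Crest.Agent.R143.PthFx765 Crest.Agent.R143.TplIx204
open Crest.Agent.R143.Layx416 Crest.Agent.R143.CorNx765 Crest.Agent.R143.GPosFx348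
open Crest.Agent.R143.CorHx713 (gO gA QA)
open scoped ENNReal

variable {M : ℕ} {W : ℤ → ℤ × ℤ} {Ac e : ℤ → ℤ} {η : ℝ}

/-- the numbers of the template -/
structure NumC (D : DT) (η : ℝ) : Prop where
  pos : 0 < η
  g : D.g = gO η
  A : D.A = 9 * η
  B : D.B = 51 * η
  A' : D.A' = 12 * η
  B' : D.B' = 52 * η
  h : D.h = 100 * η

theorem gO_mv (P : FPath M W) (a : ℤ) :
    (gO η).mv (frm P (100 * η) a).e (ge W a) = gA η W a := by
  refine CorHx713.gA_mv ?_
  show gz (100 * η) W a + ge W a * 0 = _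
  rw [mul_zero, add_zero]

variable {D : DT}

theorem gt_eq (N : NumC D η) (P : FPath M W) (a : ℤ) : gt P D a = gA η W a := by
  unfold gt
  rw [N.g, N.h]
  exact gO_mv P a

theorem bx_eq (N : NumC D η) (a : ℤ) : bx D W a = QA η W a := by
  unfold bx QA
  rw [N.A', N.B', N.h]

/-- the standard boxes -/
theorem std_c (N : NumC D η) {ε : ℝ} (hε : 0 < ε) {c : ℝ≥0∞} (c0 : c ≠ 0) (c1 : c ≤ 1) :
    Std (D.raw ε hε c c0 c1).tpl D.A' D.B' D.h Prod.fst := by
  have h := N.pos
  refine std_raw D hε c0 c1 ?_ ?_ ?_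
  · rw [N.A']; linarith
  · rw [N.A', N.B']; linarith
  · rw [N.A', N.B', N.h]; linarith

section main

variable {ε : ℝ} {hε : 0 < ε} {c : ℝ≥0∞} {c0 : c ≠ 0} {c1 : c ≤ 1} [Fintype (ZMod M)]

/-- **LAW → EVENT for the corridor of the label `i`**, gates and tiles, all colourings -/
theorem cor_ev' (N : NumC D η) (P : FPath M W)
    (H : Std (D.raw ε hε c c0 c1).tpl D.A' D.B' D.h Prod.fst) (hP : (D.raw ε hε c c0 c1).AePos)
    (i : ZMod 3) {S : Sample → Finset ℂ}
    (hS : ∀ᵐ ω ∂sampleLaw, (S ω : Set ℂ) ⊆ points ε ω ∧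
      points ε ω ∩ Rall D.A' D.B' D.h W ⊆ S ω) {d : ℝ} (hd : 0 < d) (hd' : 2 * d ≤ η) :
    ∀ᵐ ω ∂sampleLaw,
      (∀ a : ℤ, Hol (S ω : Set ℂ) (RR (9 * η) (51 * η) (100 * η) W a) d) →
      ∀ β ⊆ S ω, gC P H Ac e i (clr (S ω) β) ≠ 0 →
        (∀ a : ℤ, ∃ p, LG (gA η W a) (QA η W a) (clr (S ω) β) p) ∧
        ∀ a : ℤ, TplIx204.TB (cty M W Ac e i a).2 (RR (9 * η) (51 * η) (100 * η) W a)
          (LG (gA η W a) (QA η W a)) (LG (gA η W (a + 1)) (QA η W (a + 1))) (clr (S ω) β) := by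
  have h0 := N.pos
  have hS' : ∀ᵐ ω ∂sampleLaw, (S ω : Set ℂ) ⊆ points ε ω ∧
      points ε ω ∩ (pth P H (cty M W Ac e i) (cty_typ i)).net.reg Finset.univ Finset.univ ⊆
        S ω := by
    have h1 := reg_eq P H (Ac := Ac) (e := e) i
    unfold cpth at h1
    rw [h1]
    exact hS
  filter_upwards [ev_full P H (cty_typ i) hP (I := Finset.univ) (J := Finset.univ)
    (fun k _ => ⟨Finset.mem_univ _, Finset.mem_univ _⟩) hS' hd
    (by rw [N.A, N.A']; linarith) (by rw [N.B, N.B']; linarith)] with ω hω hH β hβ h1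
  have h2 : ∀ a : ℤ, ((a : ℤ) : ZMod M) ∈ (Finset.univ : Finset (ZMod M)) →
      Hol (S ω : Set ℂ) (RR D.A D.B D.h W a) d := by
    intro a _
    rw [N.A, N.B, N.h]
    exact hH a
  obtain ⟨h3, h4⟩ := hω h2 β hβ h1
  refine ⟨fun a => ?_, fun a => ?_⟩
  · have h5 := h3 a (Finset.mem_univ _)
    rw [gt_eq N, bx_eq N] at h5
    exact h5
  · have h5 := h4 a (Finset.mem_univ _)
    rw [gt_eq N, bx_eq N, gt_eq N, bx_eq N, N.A, N.B, N.h] at h5
    exact h5

/-- **LAW → EVENT**: the fields `out` and `cls` of 713's `CorH` for the corridor of the label `i` -/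
theorem cor_ev (N : NumC D η) (P : FPath M W)
    (H : Std (D.raw ε hε c c0 c1).tpl D.A' D.B' D.h Prod.fst) (hP : (D.raw ε hε c c0 c1).AePos)
    (i : ZMod 3) {S : Sample → Finset ℂ}
    (hS : ∀ᵐ ω ∂sampleLaw, (S ω : Set ℂ) ⊆ points ε ω ∧
      points ε ω ∩ Rall D.A' D.B' D.h W ⊆ S ω) {d : ℝ} (hd : 0 < d) (hd' : 2 * d ≤ η)
    (hM : nn Ac e i ≤ M) :
    ∀ᵐ ω ∂sampleLaw,
      (∀ a : ℤ, Hol (S ω : Set ℂ) (RR (9 * η) (51 * η) (100 * η) W a) d) →
      ∀ β ⊆ S ω, gC P H Ac e i (clr (S ω) β) ≠ 0 →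
        (∀ a : ℤ, al Ac e i ≤ a → a < al Ac e i + nn Ac e i →
          TplIx204.TB true (RR (9 * η) (51 * η) (100 * η) W a)
            (LG (gA η W a) (QA η W a)) (LG (gA η W (a + 1)) (QA η W (a + 1))) (clr (S ω) β)) ∧
        ∀ a : ℤ, al Ac e i + nn Ac e i ≤ a → a < al Ac e i + M →
          TplIx204.TB false (RR (9 * η) (51 * η) (100 * η) W a)
            (LG (gA η W a) (QA η W a)) (LG (gA η W (a + 1)) (QA η W (a + 1))) (clr (S ω) β) := by
  filter_upwards [cor_ev' N P H hP i hS hd hd'] with ω hω hH β hβ h1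
  obtain ⟨-, h3⟩ := hω hH β hβ h1
  have key : ∀ a : ℤ, al Ac e i ≤ a → a < al Ac e i + M →
      (cty M W Ac e i (a : ZMod M)).2 = decide (a < al Ac e i + nn Ac e i) := by
    intro a h4 h5
    have h6 : a = al Ac e i + ((a - al Ac e i).toNat : ℤ) := by omega
    have h7 := cty_add (Ac := Ac) (e := e) P i (l := (a - al Ac e i).toNat) (by omega)
    rw [← h6] at h7
    rw [h7]
    show decide ((a - al Ac e i).toNat < nn Ac e i) = _
    rw [decide_eq_decide]
    omega
  refine ⟨fun a h4 h5 => ?_, fun a h4 h5 => ?_⟩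
  · have h6 := h3 a
    rw [key a h4 (by omega)] at h6
    rw [decide_eq_true h5] at h6
    exact h6
  · have h6 := h3 a
    rw [key a (by omega) h5] at h6
    rw [decide_eq_false (by omega)] at h6
    exact h6

/-- **LAW → `CorH`**: the record, from the geometric facts of the environment -/
theorem corH_all (N : NumC D η) (P : FPath M W)
    (H : Std (D.raw ε hε c c0 c1).tpl D.A' D.B' D.h Prod.fst) (hP : (D.raw ε hε c c0 c1).AePos)
    (i : ZMod 3) {S : Sample → Finset ℂ}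
    (hS : ∀ᵐ ω ∂sampleLaw, (S ω : Set ℂ) ⊆ points ε ω ∧
      points ε ω ∩ Rall D.A' D.B' D.h W ⊆ S ω) {d : ℝ} (hd : 0 < d) (hd' : 100 * d ≤ η)
    (hn : 1 ≤ nn Ac e i) (hM : nn Ac e i + 4 ≤ M) {U : Set ℂ}
    (hU : ∀ a : ℤ, ∀ w ∈ RR (9 * η) (51 * η) (100 * η) W a, ∀ s : ℂ,
      ‖s - w‖ ≤ 100 * η → s ∈ U) :
    ∀ᵐ ω ∂sampleLaw, GP (S ω : Set ℂ) → Hol (S ω : Set ℂ) U d →
      ∀ β ⊆ S ω, HullC (S ω) (cX (clr (S ω) β)) → gC P H Ac e i (clr (S ω) β) ≠ 0 →
        CorHx713.CorH (clr (S ω) β) U M W η d (al Ac e i) (nn Ac e i) := by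
  have h0 := N.pos
  filter_upwards [cor_ev N P H hP (Ac := Ac) (e := e) i hS hd (by linarith) (by omega)]
    with ω hω hG hH β hβ hh h1
  have hR : ∀ a : ℤ, Hol (S ω : Set ℂ) (RR (9 * η) (51 * η) (100 * η) W a) d := fun a w hw =>
    hH w (hU a w hw w (by simp; linarith))
  obtain ⟨h2, h3⟩ := hω hR β hβ h1
  exact
    { path := P
      n1 := hn
      nM := hM
      e0 := h0
      d0 := hd
      de := hd'
      fin := GPosx348.clr_finite _ _
      gp := by rw [sX_clr]; exact hG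
      hull := by rw [sX_clr]; exact hh
      fat := hU
      hol := by rw [ps_clr']; exact hH
      out := h2
      cls := h3 }

end main

end Crest.Agent.R143.GPosCx348
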