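import Crest.Agent.R143.PolyA_970

/-!
# Row 143 (S0194), CORE-C, W-MIX: quenched-annealed assembly at fixed `(s, ε)` (helper970)

`Ω` = environments, `A ω`, `B ω` = the finite sets of the two colourings `σ`, `σ'`.
* `av` : mean over a finite set
* `quenched` : the corridor identity at one environment (close + fresh)
* `errR` : quenched bound of the error (tiles near the touches, partial tiles)
* `main_good`, `main_bad` : the field `main` of `Env` at a good / a bad environment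
* `Env` : quenched means as functions of the environment; no measurability of the charges of
  loops is used, only of the means `G`, `v l`, `w l`, `o l`, `T`, `D` and of the majorants
* `Env.concl` : `‖t E[f T] + κ E[f D]‖ ≤ tot`, `Env.l1` : `E ‖t T + κ D‖ ≤ tot`
-/

set_option autoImplicit false

noncomputable section

open scoped Classical

namespace Crest.Agent.R143.CorMx970

open MeasureTheory Filter Topology

/-! ### finite means -/

section av

variable {α β : Type*}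

/-- mean over a finite set -/
def av {E : Type*} [AddCommGroup E] [Module ℝ E] (A : Finset α) (F : α → E) : E :=
  (A.card : ℝ)⁻¹ • ∑ σ ∈ A, F σ

variable {A : Finset α} {B : Finset β}

theorem av_congr {E : Type*} [AddCommGroup E] [Module ℝ E] {F G : α → E}
    (h : ∀ σ ∈ A, F σ = G σ) : av A F = av A G := by
  unfold av; rw [Finset.sum_congr rfl h]

theorem av_add {E : Type*} [AddCommGroup E] [Module ℝ E] (F G : α → E) :
    av A (fun σ => F σ + G σ) = av A F + av A G := by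
  unfold av; rw [Finset.sum_add_distrib, smul_add]

theorem av_sub {E : Type*} [AddCommGroup E] [Module ℝ E] (F G : α → E) :
    av A (fun σ => F σ - G σ) = av A F - av A G := by
  unfold av; rw [Finset.sum_sub_distrib, smul_sub]

theorem av_sum {ι E : Type*} [AddCommGroup E] [Module ℝ E] (I : Finset ι) (F : ι → α → E) :
    av A (fun σ => ∑ i ∈ I, F i σ) = ∑ i ∈ I, av A (F i) := by
  unfold av; rw [Finset.sum_comm, Finset.smul_sum]

theorem av_const {E : Type*} [AddCommGroup E] [Module ℝ E] (hA : A.Nonempty) (c : E) :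
    av A (fun _ => c) = c := by
  unfold av
  have h : (A.card : ℝ) ≠ 0 := by exact_mod_cast hA.card_pos.ne'
  rw [Finset.sum_const, ← Nat.cast_smul_eq_nsmul ℝ, smul_smul, inv_mul_cancel₀ h, one_smul]

theorem av_comm {E : Type*} [AddCommGroup E] [Module ℝ E] (F : α → β → E) :
    av A (fun σ => av B (F σ)) = av B (fun τ => av A fun σ => F σ τ) := by
  unfold av
  rw [← Finset.smul_sum, ← Finset.smul_sum, Finset.sum_comm, smul_comm]

theorem av_mulL (c : ℂ) (F : α → ℂ) : av A (fun σ => c * F σ) = c * av A F := by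
  unfold av; rw [← Finset.mul_sum, mul_smul_comm]

theorem av_mulR (c : ℂ) (F : α → ℂ) : av A (fun σ => F σ * c) = av A F * c := by
  unfold av; rw [← Finset.sum_mul, smul_mul_assoc]

theorem av_mulL' (c : ℝ) (F : α → ℝ) : av A (fun σ => c * F σ) = c * av A F := by
  unfold av; rw [← Finset.mul_sum, mul_smul_comm]

theorem av_mulR' (c : ℝ) (F : α → ℝ) : av A (fun σ => F σ * c) = av A F * c := by
  unfold av; rw [← Finset.sum_mul, smul_mul_assoc]

theorem av_ofReal (F : α → ℝ) : av A (fun σ => (F σ : ℂ)) = ((av A F : ℝ) : ℂ) := by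
  unfold av
  rw [← Complex.ofReal_sum, Complex.real_smul, smul_eq_mul]
  push_cast; ring

theorem av_mono {F G : α → ℝ} (h : ∀ σ ∈ A, F σ ≤ G σ) : av A F ≤ av A G := by
  unfold av
  exact smul_le_smul_of_nonneg_left (Finset.sum_le_sum h) (by positivity)

theorem av_nonneg {F : α → ℝ} (h : ∀ σ ∈ A, 0 ≤ F σ) : 0 ≤ av A F := by
  unfold av
  exact smul_nonneg (by positivity) (Finset.sum_nonneg h)

theorem norm_av_le {E : Type*} [NormedAddCommGroup E] [NormedSpace ℝ E] (F : α → E) :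
    ‖av A F‖ ≤ av A fun σ => ‖F σ‖ := by
  unfold av
  rw [norm_smul, norm_inv, Real.norm_natCast, smul_eq_mul]
  exact mul_le_mul_of_nonneg_left (norm_sum_le _ _) (by positivity)

/-- Cauchy-Schwarz -/
theorem av_cs {g F : α → ℝ} (hg : ∀ σ ∈ A, 0 ≤ g σ) :
    (av A fun σ => g σ * F σ) ^ 2 ≤ av A g * av A fun σ => g σ * F σ ^ 2 := by
  unfold av
  simp only [smul_eq_mul]
  have h := Finset.sum_mul_sq_le_sq_mul_sq A (fun σ => √(g σ)) (fun σ => √(g σ) * F σ)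
  have e1 : ∑ i ∈ A, √(g i) * (√(g i) * F i) = ∑ i ∈ A, g i * F i :=
    Finset.sum_congr rfl fun i hi => by
      rw [← mul_assoc, Real.mul_self_sqrt (hg i hi)]
  have e2 : ∑ i ∈ A, √(g i) ^ 2 = ∑ i ∈ A, g i :=
    Finset.sum_congr rfl fun i hi => Real.sq_sqrt (hg i hi)
  have e3 : ∑ i ∈ A, (√(g i) * F i) ^ 2 = ∑ i ∈ A, g i * F i ^ 2 :=
    Finset.sum_congr rfl fun i hi => by
      rw [mul_pow, Real.sq_sqrt (hg i hi)]
  rw [e1, e2, e3] at h
  have hc : (0 : ℝ) ≤ ((A.card : ℝ)⁻¹) ^ 2 := by positivity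
  calc _ = ((A.card : ℝ)⁻¹) ^ 2 * (∑ i ∈ A, g i * F i) ^ 2 := by ring
    _ ≤ ((A.card : ℝ)⁻¹) ^ 2 * ((∑ i ∈ A, g i) * ∑ i ∈ A, g i * F i ^ 2) :=
        mul_le_mul_of_nonneg_left h hc
    _ = _ := by ring

end av

/-! ### one environment -/

section quenched

variable {α β : Type*} {A : Finset α} {B : Finset β}

/-- error: tiles between the two pairs of touches, and the two partial tiles -/
def Rr (V : ℕ → α → ℂ) (M M' : α → β → ℂ) (a b : α → β → ℕ) (a' b' : β → ℕ)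
    (σ : α) (τ : β) : ℂ :=
  (∑ l ∈ Finset.Ico (a σ τ) (b σ τ), V l σ + M σ τ + M' σ τ) -
    ∑ l ∈ Finset.Ico (a' τ) (b' τ), V l σ

/-- indicator of the tiles between the touches of the polygon -/
def on (a' b' : β → ℕ) (l : ℕ) (τ : β) : ℝ := if l ∈ Finset.Ico (a' τ) (b' τ) then 1 else 0

/-- indicator of the tiles near a touch of the polygon -/
def nr (r : ℕ) (a' : β → ℕ) (l : ℕ) (τ : β) : ℝ := if l ≤ a' τ + r ∧ a' τ ≤ l + r then 1 else 0

/-- the touches are not near each other -/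
def far (r : ℕ) (a b : α → β → ℕ) (a' b' : β → ℕ) (σ : α) (τ : β) : ℝ :=
  if (a σ τ ≤ a' τ + r ∧ a' τ ≤ a σ τ + r) ∧ (b σ τ ≤ b' τ + r ∧ b' τ ≤ b σ τ + r) then 0 else 1

/-- **the corridor identity at one environment** -/
theorem quenched {n : ℕ} {t : ℂ} (ht : ‖t‖ = 1) {g : α → ℝ}
    (hg : ∀ σ ∈ A, 0 ≤ g σ) {Vβ Vγ : α → β → ℂ} {TK : α → ℂ} {T : ℂ} {V : ℕ → α → ℂ}
    {M M' : α → β → ℂ} {a b : α → β → ℕ} {a' b' : β → ℕ} (hb' : ∀ τ ∈ B, b' τ ≤ n)
    (close : ∀ σ ∈ A, 0 < g σ → ∀ τ ∈ B, Vβ σ τ = Vγ σ τ +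
      (∑ l ∈ Finset.Ico (a σ τ) (b σ τ), V l σ + M σ τ + M' σ τ))
    (fresh : ∀ σ ∈ A, 0 < g σ → av B (Vγ σ) = t * TK σ) :
    ‖t * ((av A g : ℝ) * T) + ∑ l ∈ Finset.range n,
      av A (fun σ => (g σ : ℂ) * V l σ) * (av B (on a' b' l) : ℝ)‖ ≤
      av A (fun σ => g σ * av B fun τ => ‖Vβ σ τ‖) + av A (fun σ => g σ * ‖TK σ - T‖) +
        av A (fun σ => g σ * av B fun τ => ‖Rr V M M' a b a' b' σ τ‖) := by
  have key : ∀ σ ∈ A, (g σ : ℂ) * av B (Vβ σ) = (g σ : ℂ) * (t * TK σ) +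
      (∑ l ∈ Finset.range n, ((g σ : ℂ) * V l σ) * (av B (on a' b' l) : ℝ) +
        (g σ : ℂ) * av B (Rr V M M' a b a' b' σ)) := by
    intro σ hσ
    rcases (hg σ hσ).eq_or_lt with h0 | h0
    · simp [← h0]
    have e1 : av B (Vβ σ) = av B (Vγ σ) + (∑ l ∈ Finset.range n, V l σ * (av B (on a' b' l) : ℝ) +
        av B (Rr V M M' a b a' b' σ)) := by
      have e2 : ∑ l ∈ Finset.range n, V l σ * (av B (on a' b' l) : ℝ) =
          av B fun τ => ∑ l ∈ Finset.range n, V l σ * (on a' b' l τ : ℂ) := by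
        rw [av_sum]
        refine Finset.sum_congr rfl fun l _ => ?_
        rw [av_mulL, av_ofReal]
      rw [e2, ← av_add, ← av_add]
      refine av_congr fun τ hτ => ?_
      have e3 : ∑ l ∈ Finset.range n, V l σ * (on a' b' l τ : ℂ) =
          ∑ l ∈ Finset.Ico (a' τ) (b' τ), V l σ := by
        have hsub : Finset.Ico (a' τ) (b' τ) ⊆ Finset.range n := fun l hl =>
          Finset.mem_range.2 (lt_of_lt_of_le (Finset.mem_Ico.1 hl).2 (hb' τ hτ))
        rw [← Finset.sum_subset hsub (f := fun l => V l σ * (on a' b' l τ : ℂ))]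
        · refine Finset.sum_congr rfl fun l hl => ?_
          simp [on, Finset.mem_Ico.1 hl]
        · intro l _ hl
          have : ¬(a' τ ≤ l ∧ l < b' τ) := by simpa using hl
          simp only [on, Finset.mem_Ico, if_neg this]
          simp
      rw [close σ hσ h0 τ hτ, e3, Rr]
      ring
    rw [e1, fresh σ hσ h0, mul_add, mul_add, Finset.mul_sum]
    congr 2
    refine Finset.sum_congr rfl fun l _ => ?_
    ring
  have id1 : t * ((av A g : ℝ) * T) + ∑ l ∈ Finset.range n,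
      av A (fun σ => (g σ : ℂ) * V l σ) * (av B (on a' b' l) : ℝ) =
      av A (fun σ => (g σ : ℂ) * av B (Vβ σ)) - t * av A (fun σ => (g σ : ℂ) * (TK σ - T)) -
        av A (fun σ => (g σ : ℂ) * av B (Rr V M M' a b a' b' σ)) := by
    rw [av_congr key, av_add, av_add, av_sum]
    have e4 : ∀ l, av A (fun σ => ((g σ : ℂ) * V l σ) * (av B (on a' b' l) : ℝ)) =
        av A (fun σ => (g σ : ℂ) * V l σ) * (av B (on a' b' l) : ℝ) := fun l => av_mulR _ _
    have e5 : av A (fun σ => (g σ : ℂ) * (t * TK σ)) =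
        t * av A (fun σ => (g σ : ℂ) * TK σ) := by
      rw [← av_mulL]; exact av_congr fun σ _ => by ring
    have e6 : av A (fun σ => (g σ : ℂ) * (TK σ - T)) =
        av A (fun σ => (g σ : ℂ) * TK σ) - (av A g : ℝ) * T := by
      rw [← av_ofReal, ← av_mulR, ← av_sub]; exact av_congr fun σ _ => by ring
    rw [e5, e6, Finset.sum_congr rfl fun l _ => e4 l]
    ring
  have nn : ∀ (F : α → ℂ) (H : α → ℝ), (∀ σ ∈ A, ‖F σ‖ ≤ H σ) →
      ‖av A fun σ => (g σ : ℂ) * F σ‖ ≤ av A fun σ => g σ * H σ := by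
    intro F H hF
    refine (norm_av_le _).trans (av_mono fun σ hσ => ?_)
    rw [norm_mul, Complex.norm_real, Real.norm_of_nonneg (hg σ hσ)]
    exact mul_le_mul_of_nonneg_left (hF σ hσ) (hg σ hσ)
  rw [id1]
  have n1 := norm_sub_le (av A (fun σ => (g σ : ℂ) * av B (Vβ σ)) -
    t * av A (fun σ => (g σ : ℂ) * (TK σ - T)))
    (av A (fun σ => (g σ : ℂ) * av B (Rr V M M' a b a' b' σ)))
  have n2 := norm_sub_le (av A (fun σ => (g σ : ℂ) * av B (Vβ σ)))
    (t * av A (fun σ => (g σ : ℂ) * (TK σ - T)))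
  have n3 := nn (fun σ => av B (Vβ σ)) (fun σ => av B fun τ => ‖Vβ σ τ‖)
    fun σ _ => norm_av_le _
  have n4 := nn (fun σ => TK σ - T) (fun σ => ‖TK σ - T‖) fun σ _ => le_rfl
  have n5 := nn (fun σ => av B (Rr V M M' a b a' b' σ))
    (fun σ => av B fun τ => ‖Rr V M M' a b a' b' σ τ‖) fun σ _ => norm_av_le _
  rw [norm_mul, ht, one_mul] at n2
  linarith

/-- pointwise bound of the error -/
theorem Rr_le {n r : ℕ} {V : ℕ → α → ℂ} {M M' : α → β → ℂ} {a b : α → β → ℕ} {a' b' : β → ℕ}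
    {σ : α} {τ : β} (hb : b σ τ ≤ n) (hb' : b' τ ≤ n) :
    ‖Rr V M M' a b a' b' σ τ‖ ≤
      ∑ l ∈ Finset.range n, ‖V l σ‖ * (nr r a' l τ + nr r b' l τ + far r a b a' b' σ τ) +
        ‖M σ τ‖ + ‖M' σ τ‖ := by
  have hI : ∀ {x y : ℕ}, y ≤ n → ∑ l ∈ Finset.Ico x y, V l σ =
      ∑ l ∈ Finset.range n, V l σ * (if l ∈ Finset.Ico x y then 1 else 0) := by
    intro x y hy
    have hsub : Finset.Ico x y ⊆ Finset.range n := fun l hl =>
      Finset.mem_range.2 (lt_of_lt_of_le (Finset.mem_Ico.1 hl).2 hy)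
    rw [← Finset.sum_subset hsub (f := fun l => V l σ * (if l ∈ Finset.Ico x y then 1 else 0))]
    · refine Finset.sum_congr rfl fun l hl => ?_
      rw [if_pos hl, mul_one]
    · intro l _ hl
      rw [if_neg hl, mul_zero]
  have e : Rr V M M' a b a' b' σ τ = ∑ l ∈ Finset.range n, V l σ *
      ((if l ∈ Finset.Ico (a σ τ) (b σ τ) then 1 else 0) -
        (if l ∈ Finset.Ico (a' τ) (b' τ) then 1 else 0)) + M σ τ + M' σ τ := by
    rw [Rr, hI hb, hI hb']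
    simp only [mul_sub, Finset.sum_sub_distrib]
    ring
  rw [e]
  refine (norm_add_le _ _).trans (add_le_add ((norm_add_le _ _).trans
    (add_le_add ((norm_sum_le _ _).trans (Finset.sum_le_sum fun l _ => ?_)) le_rfl)) le_rfl)
  rw [norm_mul]
  refine mul_le_mul_of_nonneg_left ?_ (norm_nonneg _)
  unfold nr far
  simp only [Finset.mem_Ico]
  by_cases h1 : a σ τ ≤ l ∧ l < b σ τ <;> by_cases h2 : a' τ ≤ l ∧ l < b' τ
  · rw [if_pos h1, if_pos h2, sub_self, norm_zero]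
    split_ifs <;> norm_num
  · rw [if_pos h1, if_neg h2, sub_zero, norm_one]
    split_ifs
    all_goals first | (norm_num; done) | omega
  · rw [if_neg h1, if_pos h2, zero_sub, norm_neg, norm_one]
    split_ifs
    all_goals first | (norm_num; done) | omega
  · rw [if_neg h1, if_neg h2, sub_self, norm_zero]
    split_ifs <;> norm_num

/-- quenched bound of the error -/
theorem errR {n r : ℕ} (hB : B.Nonempty) {g : α → ℝ} (hg : ∀ σ ∈ A, 0 ≤ g σ)
    {V : ℕ → α → ℂ} {M M' : α → β → ℂ} {a b : α → β → ℕ} {a' b' : β → ℕ}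
    (hb : ∀ σ ∈ A, 0 < g σ → ∀ τ ∈ B, b σ τ ≤ n) (hb' : ∀ τ ∈ B, b' τ ≤ n) {θ Q Q' : ℝ}
    (hθ : ∀ σ ∈ A, 0 < g σ → av B (far r a b a' b' σ) ≤ θ)
    (hQ : av A (fun σ => g σ * av B fun τ => ‖M σ τ‖ ^ 2) ≤ Q)
    (hQ' : av A (fun σ => g σ * av B fun τ => ‖M' σ τ‖ ^ 2) ≤ Q') :
    av A (fun σ => g σ * av B fun τ => ‖Rr V M M' a b a' b' σ τ‖) ≤
      ∑ l ∈ Finset.range n, av A (fun σ => g σ * ‖V l σ‖) *
        (av B (nr r a' l) + av B (nr r b' l) + θ) + √(av A g * Q) + √(av A g * Q') := by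
  have hcs : ∀ (F : α → β → ℂ) {q : ℝ}, av A (fun σ => g σ * av B fun τ => ‖F σ τ‖ ^ 2) ≤ q →
      av A (fun σ => g σ * av B fun τ => ‖F σ τ‖) ≤ √(av A g * q) := by
    intro F q hq
    refine Real.le_sqrt_of_sq_le ?_
    refine (av_cs hg).trans (mul_le_mul_of_nonneg_left ((av_mono fun σ hσ => ?_).trans hq)
      (av_nonneg hg))
    refine mul_le_mul_of_nonneg_left ?_ (hg σ hσ)
    have h1 := av_cs (A := B) (g := fun _ => (1 : ℝ)) (F := fun τ => ‖F σ τ‖)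
      (fun _ _ => zero_le_one)
    rw [av_const hB, one_mul] at h1
    simpa using h1
  have h1 : av A (fun σ => g σ * av B fun τ => ‖Rr V M M' a b a' b' σ τ‖) ≤
      av A (fun σ => g σ * (∑ l ∈ Finset.range n, ‖V l σ‖ *
        (av B (nr r a' l) + av B (nr r b' l) + θ) + av B (fun τ => ‖M σ τ‖) +
          av B (fun τ => ‖M' σ τ‖))) := by
    refine av_mono fun σ hσ => ?_
    rcases (hg σ hσ).eq_or_lt with h0 | h0
    · rw [← h0]; simp
    refine mul_le_mul_of_nonneg_left ?_ (hg σ hσ)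
    refine (av_mono fun τ hτ => Rr_le (r := r) (hb σ hσ h0 τ hτ) (hb' τ hτ)).trans ?_
    rw [av_add, av_add, av_sum]
    refine add_le_add (add_le_add (Finset.sum_le_sum fun l _ => ?_) le_rfl) le_rfl
    rw [av_mulL', av_add, av_add]
    refine mul_le_mul_of_nonneg_left ?_ (norm_nonneg _)
    have := hθ σ hσ h0
    linarith
  refine h1.trans ?_
  have e : (fun σ => g σ * (∑ l ∈ Finset.range n, ‖V l σ‖ *
        (av B (nr r a' l) + av B (nr r b' l) + θ) + av B (fun τ => ‖M σ τ‖) +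
          av B (fun τ => ‖M' σ τ‖))) = fun σ => (∑ l ∈ Finset.range n, (g σ * ‖V l σ‖) *
        (av B (nr r a' l) + av B (nr r b' l) + θ) + g σ * av B (fun τ => ‖M σ τ‖)) +
          g σ * av B (fun τ => ‖M' σ τ‖) := by
    funext σ
    rw [mul_add, mul_add, Finset.mul_sum]
    congr 2
    exact Finset.sum_congr rfl fun l _ => by ring
  rw [e, av_add, av_add, av_sum]
  refine add_le_add (add_le_add (Finset.sum_le_sum fun l _ => ?_) (hcs M hQ)) (hcs M' hQ')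
  rw [av_mulR']

theorem sum_nr_le (n r : ℕ) (a' : β → ℕ) (τ : β) :
    ∑ l ∈ Finset.range n, nr r a' l τ ≤ 2 * r + 1 := by
  unfold nr
  rw [Finset.sum_ite, Finset.sum_const_zero, add_zero, Finset.sum_const, nsmul_eq_mul, mul_one]
  have h1 : ((Finset.range n).filter fun l => l ≤ a' τ + r ∧ a' τ ≤ l + r) ⊆
      Finset.Icc (a' τ - r) (a' τ + r) := by
    intro l hl
    rw [Finset.mem_filter] at hl
    rw [Finset.mem_Icc]
    omega
  have h2 := Finset.card_le_card h1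
  rw [Nat.card_Icc] at h2
  have h3 : a' τ + r + 1 - (a' τ - r) ≤ 2 * r + 1 := by omega
  calc (((Finset.range n).filter fun l => l ≤ a' τ + r ∧ a' τ ≤ l + r).card : ℝ) ≤
        ((2 * r + 1 : ℕ) : ℝ) := by exact_mod_cast h2.trans h3
    _ = 2 * r + 1 := by push_cast; ring

theorem sum_av_nr_le (n r : ℕ) (a' : β → ℕ) (hB : B.Nonempty) :
    ∑ l ∈ Finset.range n, av B (nr r a' l) ≤ 2 * r + 1 := by
  rw [← av_sum]
  exact (av_mono fun τ _ => sum_nr_le n r a' τ).trans (le_of_eq (av_const hB _))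

/-- **field `main` at a good environment** -/
theorem main_good {n r : ℕ} {t : ℂ} (ht : ‖t‖ = 1) (hB : B.Nonempty) {g : α → ℝ}
    (hg : ∀ σ ∈ A, 0 ≤ g σ) {Vβ Vγ : α → β → ℂ} {TK : α → ℂ} {T : ℂ} {V : ℕ → α → ℂ}
    {M M' : α → β → ℂ} {a b : α → β → ℕ} {a' b' : β → ℕ} (hb' : ∀ τ ∈ B, b' τ ≤ n)
    (hb : ∀ σ ∈ A, 0 < g σ → ∀ τ ∈ B, b σ τ ≤ n)
    (close : ∀ σ ∈ A, 0 < g σ → ∀ τ ∈ B, Vβ σ τ = Vγ σ τ +
      (∑ l ∈ Finset.Ico (a σ τ) (b σ τ), V l σ + M σ τ + M' σ τ))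
    (fresh : ∀ σ ∈ A, 0 < g σ → av B (Vγ σ) = t * TK σ) {E1 a2 θ Q Q' : ℝ}
    (small : av A (fun σ => g σ * av B fun τ => ‖Vβ σ τ‖) ≤ E1)
    (cont : ∀ σ ∈ A, 0 < g σ → ‖TK σ - T‖ ≤ a2)
    (hθ : ∀ σ ∈ A, 0 < g σ → av B (far r a b a' b' σ) ≤ θ)
    (hQ : av A (fun σ => g σ * av B fun τ => ‖M σ τ‖ ^ 2) ≤ Q)
    (hQ' : av A (fun σ => g σ * av B fun τ => ‖M' σ τ‖ ^ 2) ≤ Q') :
    ‖t * ((av A g : ℝ) * T) + ∑ l ∈ Finset.range n,
      av A (fun σ => (g σ : ℂ) * V l σ) * (av B (on a' b' l) : ℝ)‖ ≤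
      E1 + av A g * a2 + (∑ l ∈ Finset.range n, av A (fun σ => g σ * ‖V l σ‖) *
        (av B (nr r a' l) + av B (nr r b' l) + θ) + √(av A g * Q) + √(av A g * Q')) := by
  have h1 := quenched (T := T) (a' := a') ht hg hb' close fresh
  have h2 := errR (r := r) hB hg hb hb' hθ hQ hQ' (V := V)
  have h3 : av A (fun σ => g σ * ‖TK σ - T‖) ≤ av A g * a2 := by
    rw [← av_mulR']
    refine av_mono fun σ hσ => ?_
    rcases (hg σ hσ).eq_or_lt with h0 | h0
    · rw [← h0, zero_mul, zero_mul]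
    · exact mul_le_mul_of_nonneg_left (cont σ hσ h0) (hg σ hσ)
  linarith

/-- **field `main` at a bad environment** -/
theorem main_bad {n : ℕ} {t : ℂ} (ht : ‖t‖ = 1) {G : ℝ} (hG0 : 0 ≤ G) (hG1 : G ≤ 1) {T : ℂ}
    {C : ℝ} (hT : ‖T‖ ≤ C) {v : ℕ → ℂ} {w o x : ℕ → ℝ} {Q Q' : ℝ}
    (hw : ∀ l ∈ Finset.range n, ‖v l‖ ≤ w l) (ho : ∀ l ∈ Finset.range n, 0 ≤ o l ∧ o l ≤ 1)
    (hx : ∀ l ∈ Finset.range n, 1 ≤ x l) :
    ‖t * ((G : ℂ) * T) + ∑ l ∈ Finset.range n, v l * (o l : ℂ)‖ ≤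
      C + (∑ l ∈ Finset.range n, w l * x l + √(G * Q) + √(G * Q')) := by
  refine (norm_add_le _ _).trans (add_le_add ?_ (le_trans (norm_sum_le_of_le
    (n := fun l => w l * x l) _ fun l hl => ?_) ?_))
  · rw [norm_mul, ht, one_mul, norm_mul, Complex.norm_real, Real.norm_of_nonneg hG0]
    exact (mul_le_of_le_one_left (norm_nonneg _) hG1).trans hT
  · rw [norm_mul, Complex.norm_real, Real.norm_of_nonneg (ho l hl).1]
    exact mul_le_mul (hw l hl) ((ho l hl).2.trans (hx l hl)) (ho l hl).1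
      ((norm_nonneg _).trans (hw l hl))
  · have h1 := Real.sqrt_nonneg (G * Q)
    have h2 := Real.sqrt_nonneg (G * Q')
    linarith

end quenched

/-! ### integration over the environment -/

section annealed

variable {Ω : Type*} {m0 : MeasurableSpace Ω} {P : Measure Ω}

theorem int_fm {f X : Ω → ℂ} (hf : Measurable f) (hf1 : ∀ ω, ‖f ω‖ ≤ 1)
    (hX : Integrable X P) : Integrable (fun ω => f ω * X ω) P :=
  hX.bdd_mul hf.aestronglyMeasurable (ae_of_all _ hf1)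

/-- Cauchy-Schwarz for square roots -/
theorem int_sqrt_le {F G : Ω → ℝ} (hF : Integrable F P) (hG : Integrable G P)
    (hF0 : ∀ ω, 0 ≤ F ω) (hG0 : ∀ ω, 0 ≤ G ω) :
    Integrable (fun ω => √(F ω * G ω)) P ∧
      ∫ ω, √(F ω * G ω) ∂P ≤ √(∫ ω, F ω ∂P) * √(∫ ω, G ω ∂P) := by
  have mF : AEStronglyMeasurable (fun ω => √(F ω)) P :=
    Real.continuous_sqrt.comp_aestronglyMeasurable hF.1
  have mG : AEStronglyMeasurable (fun ω => √(G ω)) P :=
    Real.continuous_sqrt.comp_aestronglyMeasurable hG.1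
  have sF : (fun ω => √(F ω) ^ 2) = F := funext fun ω => Real.sq_sqrt (hF0 ω)
  have sG : (fun ω => √(G ω) ^ 2) = G := funext fun ω => Real.sq_sqrt (hG0 ω)
  have lF : MemLp (fun ω => √(F ω)) 2 P := (memLp_two_iff_integrable_sq mF).2 (by rwa [sF])
  have lG : MemLp (fun ω => √(G ω)) 2 P := (memLp_two_iff_integrable_sq mG).2 (by rwa [sG])
  have e : (fun ω => √(F ω * G ω)) = fun ω => √(F ω) * √(G ω) :=
    funext fun ω => Real.sqrt_mul (hF0 ω) _
  refine ⟨by rw [e]; exact lF.integrable_mul lG, ?_⟩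
  rw [e]
  have h := integral_mul_le_Lp_mul_Lq_of_nonneg (μ := P) (Real.HolderConjugate.two_two)
    (ae_of_all _ fun ω => Real.sqrt_nonneg (F ω)) (ae_of_all _ fun ω => Real.sqrt_nonneg (G ω))
    (by simpa using lF) (by simpa using lG)
  refine h.trans (le_of_eq ?_)
  simp only [Real.rpow_two, sF, sG]
  rw [Real.sqrt_eq_rpow, Real.sqrt_eq_rpow]

/-- **data of one corridor**: quenched means as functions of the environment.
`G` = mean weight, `v l` = mean of `g V_l`, `w l` = mean of `g ‖V_l‖`, `w2 l ≥` mean of `g ‖V_l‖²`,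
`o l` = probability that tile `l` is between the touches of the polygon,
`na l`, `nb l` = probability that a touch of the polygon is within `r` of tile `l`,
`Q`, `Q'` = majorants for the partial tiles, `E1` for the closed block, `E2` for `T(U_K) - T(U)`;
`g0` = annealed mean of the weight, `gv l` = annealed mean of `g V_l`. -/
structure Env (P : Measure Ω) (n r : ℕ) (J : Finset ℕ) (t κ : ℂ) (z : ℕ → ℂ)
    (g0 a1 a2 K q q' c θ ρ : ℝ) (gv : ℕ → ℂ) (bad : Set Ω)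
    (G : Ω → ℝ) (v : ℕ → Ω → ℂ) (w w2 o na nb : ℕ → Ω → ℝ) (Q Q' E1 E2 dd : Ω → ℝ)
    (T D : Ω → ℂ) : Prop where
  J_le : J ⊆ Finset.range n
  g0_pos : 0 < g0
  K0 : 0 ≤ K
  θ0 : 0 ≤ θ
  ρ0 : 0 ≤ ρ
  q0 : 0 ≤ q
  q0' : 0 ≤ q'
  tn : ‖t‖ = 1
  iG : Integrable G P
  G0 : ∀ ω, 0 ≤ G ω
  G1 : ∀ ω, G ω ≤ 1
  Gm : ∫ ω, G ω ∂P = g0
  mbad : MeasurableSet bad
  hbad : P.real bad ≤ ρ * g0
  /-- the corridor identity (`quenched` + `errR`) -/
  main : ∀ᵐ ω ∂P, ‖t * ((G ω : ℂ) * T ω) + ∑ l ∈ Finset.range n, v l ω * (o l ω : ℂ)‖ ≤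
    E1 ω + E2 ω + (∑ l ∈ Finset.range n, w l ω * (na l ω + nb l ω + bad.indicator 1 ω + θ) +
      √(G ω * Q ω) + √(G ω * Q' ω))
  i1 : Integrable E1 P
  e1 : ∫ ω, E1 ω ∂P ≤ a1 * g0
  i2 : Integrable E2 P
  e2 : ∫ ω, E2 ω ∂P ≤ a2 * g0
  /-- second moments of the tiles -/
  iw : ∀ l ∈ Finset.range n, AEStronglyMeasurable (w l) P
  w0 : ∀ l ∈ Finset.range n, ∀ ω, 0 ≤ w l ω
  iw2 : ∀ l ∈ Finset.range n, Integrable (w2 l) P
  w20 : ∀ l ∈ Finset.range n, ∀ ω, 0 ≤ w2 l ω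
  wcs : ∀ l ∈ Finset.range n, ∀ ω, w l ω ^ 2 ≤ G ω * w2 l ω
  e3 : ∀ l ∈ Finset.range n, ∫ ω, w2 l ω ∂P ≤ K ^ 2 * g0
  iQ : Integrable Q P
  Q0 : ∀ ω, 0 ≤ Q ω
  eQ : ∫ ω, Q ω ∂P ≤ q ^ 2 * g0
  iQ' : Integrable Q' P
  Q0' : ∀ ω, 0 ≤ Q' ω
  eQ' : ∫ ω, Q' ω ∂P ≤ q' ^ 2 * g0
  /-- independence of the corridor and the inside -/
  ina : ∀ l ∈ Finset.range n, Integrable (fun ω => w l ω * na l ω) P
  inb : ∀ l ∈ Finset.range n, Integrable (fun ω => w l ω * nb l ω) P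
  pna : ∀ l ∈ Finset.range n, ∫ ω, w l ω * na l ω ∂P = (∫ ω, w l ω ∂P) * ∫ ω, na l ω ∂P
  pnb : ∀ l ∈ Finset.range n, ∫ ω, w l ω * nb l ω ∂P = (∫ ω, w l ω ∂P) * ∫ ω, nb l ω ∂P
  na0 : ∀ l ∈ Finset.range n, 0 ≤ ∫ ω, na l ω ∂P
  nb0 : ∀ l ∈ Finset.range n, 0 ≤ ∫ ω, nb l ω ∂P
  sna : ∑ l ∈ Finset.range n, ∫ ω, na l ω ∂P ≤ 2 * r + 1
  snb : ∑ l ∈ Finset.range n, ∫ ω, nb l ω ∂P ≤ 2 * r + 1
  /-- means of the tiles -/
  iv : ∀ l ∈ Finset.range n, Integrable (fun ω => v l ω * (o l ω : ℂ)) P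
  io : ∀ l ∈ Finset.range n, Integrable (o l) P
  o0 : ∀ l ∈ Finset.range n, ∀ ω, 0 ≤ o l ω
  o1 : ∀ l ∈ Finset.range n, ∀ ω, o l ω ≤ 1
  mean : ∀ l ∈ J, gv l = (g0 : ℂ) * (κ * z l)
  gvn : ∀ l ∈ Finset.range n, ‖gv l‖ ≤ ∫ ω, w l ω ∂P
  iT : Integrable T P
  iGT : Integrable (fun ω => (G ω : ℂ) * T ω) P
  iD : Integrable D P
  idd : Integrable dd P
  edd : ∫ ω, dd ω ∂P ≤ c
  disp : ∀ᵐ ω ∂P, ‖D ω - ∑ l ∈ J, z l * (o l ω : ℂ)‖ ≤ dd ω

/-- product formulas for the weight `f` of the points inside -/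
structure EnvF (P : Measure Ω) (n : ℕ) (g0 : ℝ) (gv : ℕ → ℂ) (G : Ω → ℝ) (v : ℕ → Ω → ℂ)
    (o : ℕ → Ω → ℝ) (T f : Ω → ℂ) : Prop where
  fm : Measurable f
  f1 : ∀ ω, ‖f ω‖ ≤ 1
  prodT : ∫ ω, f ω * ((G ω : ℂ) * T ω) ∂P = (g0 : ℂ) * ∫ ω, f ω * T ω ∂P
  prodV : ∀ l ∈ Finset.range n,
    ∫ ω, f ω * (v l ω * (o l ω : ℂ)) ∂P = gv l * ∫ ω, f ω * (o l ω : ℂ) ∂P

variable {n r : ℕ} {J : Finset ℕ} {t κ : ℂ} {z : ℕ → ℂ}
  {g0 a1 a2 K q q' c θ ρ : ℝ} {gv : ℕ → ℂ} {bad : Set Ω}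
  {G : Ω → ℝ} {v : ℕ → Ω → ℂ} {w w2 o na nb : ℕ → Ω → ℝ} {Q Q' E1 E2 dd : Ω → ℝ}
  {T D f : Ω → ℂ}

/-- total error -/
def tot (n r : ℕ) (J : Finset ℕ) (a1 a2 K q q' c θ ρ κn : ℝ) : ℝ :=
  a1 + a2 + (K * (2 * (2 * r + 1)) + n * (K * (θ + √ρ)) + q + q') +
    (n - J.card) * K + κn * c

namespace Env

variable (h : Env P n r J t κ z g0 a1 a2 K q q' c θ ρ gv bad G v w w2 o na nb Q Q' E1 E2 dd T D)

include h

theorem w_int [IsProbabilityMeasure P] {l : ℕ} (hl : l ∈ Finset.range n) :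
    Integrable (w l) P ∧ ∫ ω, w l ω ∂P ≤ K * g0 ∧ ∫ ω, w l ω * bad.indicator 1 ω ∂P ≤ K * √ρ * g0 := by
  have hg := h.g0_pos
  have hw : ∀ ω, w l ω ≤ √(G ω * w2 l ω) := fun ω => Real.le_sqrt_of_sq_le (h.wcs l hl ω)
  obtain ⟨i1, b1⟩ := int_sqrt_le h.iG (h.iw2 l hl) h.G0 (h.w20 l hl)
  have iw : Integrable (w l) P := i1.mono' (h.iw l hl) (ae_of_all _ fun ω => by
    rw [Real.norm_of_nonneg (h.w0 l hl ω)]; exact hw ω)
  have s1 : √(∫ ω, w2 l ω ∂P) ≤ K * √g0 := by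
    rw [← Real.sqrt_sq h.K0, ← Real.sqrt_mul (sq_nonneg K)]
    exact Real.sqrt_le_sqrt (h.e3 l hl)
  have hs : √g0 * √g0 = g0 := Real.mul_self_sqrt hg.le
  refine ⟨iw, ?_, ?_⟩
  · calc ∫ ω, w l ω ∂P ≤ ∫ ω, √(G ω * w2 l ω) ∂P := integral_mono iw i1 hw
      _ ≤ √(∫ ω, G ω ∂P) * √(∫ ω, w2 l ω ∂P) := b1
      _ ≤ √g0 * (K * √g0) := by
          rw [h.Gm]; exact mul_le_mul_of_nonneg_left s1 (Real.sqrt_nonneg _)
      _ = K * g0 := by rw [mul_left_comm, hs]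
  · have ib : Integrable (bad.indicator (1 : Ω → ℝ)) P :=
      (integrable_const (1 : ℝ)).indicator h.mbad
    obtain ⟨i2, b2⟩ := int_sqrt_le ib (h.iw2 l hl)
      (fun ω => Set.indicator_nonneg (fun _ _ => zero_le_one) ω) (h.w20 l hl)
    have hb2 : ∀ ω, w l ω * bad.indicator 1 ω ≤ √(bad.indicator 1 ω * w2 l ω) := by
      intro ω
      by_cases hω : ω ∈ bad
      · rw [Set.indicator_of_mem hω, Pi.one_apply, mul_one, one_mul]
        refine (hw ω).trans (Real.sqrt_le_sqrt ?_)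
        exact mul_le_of_le_one_left (h.w20 l hl ω) (h.G1 ω)
      · rw [Set.indicator_of_notMem hω, mul_zero]
        exact Real.sqrt_nonneg _
    have iwb : Integrable (fun ω => w l ω * bad.indicator 1 ω) P := by
      have e : (fun ω => w l ω * bad.indicator 1 ω) = bad.indicator (w l) := by
        funext ω
        by_cases hω : ω ∈ bad
        · rw [Set.indicator_of_mem hω, Set.indicator_of_mem hω, Pi.one_apply, mul_one]
        · rw [Set.indicator_of_notMem hω, Set.indicator_of_notMem hω, mul_zero]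
      rw [e]; exact iw.indicator h.mbad
    have e3 : ∫ ω, bad.indicator (1 : Ω → ℝ) ω ∂P = P.real bad := by
      rw [integral_indicator_one h.mbad]
    calc ∫ ω, w l ω * bad.indicator 1 ω ∂P ≤ ∫ ω, √(bad.indicator 1 ω * w2 l ω) ∂P :=
          integral_mono iwb i2 hb2
      _ ≤ √(P.real bad) * √(∫ ω, w2 l ω ∂P) := by rw [← e3]; exact b2
      _ ≤ √(ρ * g0) * (K * √g0) :=
          mul_le_mul (Real.sqrt_le_sqrt h.hbad) s1 (Real.sqrt_nonneg _) (Real.sqrt_nonneg _)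
      _ = K * √ρ * g0 := by
          rw [Real.sqrt_mul h.ρ0]
          linear_combination (K * √ρ) * hs

/-- **the corridor identity, integrated** -/
theorem concl [IsProbabilityMeasure P] (hf : EnvF P n g0 gv G v o T f) :
    ‖t * ∫ ω, f ω * T ω ∂P + κ * ∫ ω, f ω * D ω ∂P‖ ≤ tot n r J a1 a2 K q q' c θ ρ ‖κ‖ := by
  have hg := h.g0_pos
  have hs : √g0 * √g0 = g0 := Real.mul_self_sqrt hg.le
  -- left side
  set X : Ω → ℂ := fun ω => t * ((G ω : ℂ) * T ω) + ∑ l ∈ Finset.range n, v l ω * (o l ω : ℂ)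
    with hX
  have iX : Integrable X P :=
    (h.iGT.const_mul t).add (integrable_finsetSum _ fun l hl => h.iv l hl)
  have L1 : ∫ ω, f ω * X ω ∂P = (g0 : ℂ) * (t * ∫ ω, f ω * T ω ∂P) +
      ∑ l ∈ Finset.range n, gv l * ∫ ω, f ω * (o l ω : ℂ) ∂P := by
    have e : (fun ω => f ω * X ω) = fun ω => t * (f ω * ((G ω : ℂ) * T ω)) +
        ∑ l ∈ Finset.range n, f ω * (v l ω * (o l ω : ℂ)) := by
      funext ω
      simp only [hX, mul_add, Finset.mul_sum]
      ring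
    rw [e, integral_add ((int_fm hf.fm hf.f1 h.iGT).const_mul t)
      (integrable_finsetSum _ fun l hl => int_fm hf.fm hf.f1 (h.iv l hl)),
      integral_const_mul, integral_finsetSum _ fun l hl => int_fm hf.fm hf.f1 (h.iv l hl),
      hf.prodT, Finset.sum_congr rfl hf.prodV]
    ring
  -- the error
  have iQG := int_sqrt_le h.iG h.iQ h.G0 h.Q0
  have iQG' := int_sqrt_le h.iG h.iQ' h.G0 h.Q0'
  have ibd : ∀ l ∈ Finset.range n, Integrable (fun ω => w l ω * bad.indicator 1 ω) P := by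
    intro l hl
    have e : (fun ω => w l ω * bad.indicator 1 ω) = bad.indicator (w l) := by
      funext ω
      by_cases hω : ω ∈ bad
      · rw [Set.indicator_of_mem hω, Set.indicator_of_mem hω, Pi.one_apply, mul_one]
      · rw [Set.indicator_of_notMem hω, Set.indicator_of_notMem hω, mul_zero]
    rw [e]; exact (h.w_int hl).1.indicator h.mbad
  have eW : ∀ l, (fun ω => w l ω * (na l ω + nb l ω + bad.indicator 1 ω + θ)) =
      fun ω => w l ω * na l ω + w l ω * nb l ω + w l ω * bad.indicator 1 ω + w l ω * θ := by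
    intro l; funext ω; ring
  have iW : ∀ l ∈ Finset.range n,
      Integrable (fun ω => w l ω * (na l ω + nb l ω + bad.indicator 1 ω + θ)) P := by
    intro l hl
    rw [eW]
    exact (((h.ina l hl).add (h.inb l hl)).add (ibd l hl)).add ((h.w_int hl).1.mul_const _)
  have bW : ∀ l ∈ Finset.range n,
      ∫ ω, w l ω * (na l ω + nb l ω + bad.indicator 1 ω + θ) ∂P ≤
        K * g0 * (∫ ω, na l ω ∂P + ∫ ω, nb l ω ∂P) + K * (θ + √ρ) * g0 := by
    intro l hl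
    obtain ⟨iw, b1, b2⟩ := h.w_int hl
    have i12 : Integrable (fun ω => w l ω * na l ω + w l ω * nb l ω) P :=
      (h.ina l hl).add (h.inb l hl)
    have i123 : Integrable (fun ω => w l ω * na l ω + w l ω * nb l ω + w l ω * bad.indicator 1 ω) P :=
      i12.add (ibd l hl)
    rw [eW, integral_add i123 (iw.mul_const _), integral_add i12 (ibd l hl),
      integral_add (h.ina l hl) (h.inb l hl), h.pna l hl, h.pnb l hl, integral_mul_const]
    have c1 := mul_le_mul_of_nonneg_right b1 (h.na0 l hl)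
    have c2 := mul_le_mul_of_nonneg_right b1 (h.nb0 l hl)
    have c3 := mul_le_mul_of_nonneg_right b1 h.θ0
    nlinarith
  set Y : Ω → ℝ := fun ω => E1 ω + E2 ω + (∑ l ∈ Finset.range n,
    w l ω * (na l ω + nb l ω + bad.indicator 1 ω + θ) + √(G ω * Q ω) + √(G ω * Q' ω)) with hY
  have iS : Integrable (fun ω => ∑ l ∈ Finset.range n,
      w l ω * (na l ω + nb l ω + bad.indicator 1 ω + θ)) P := integrable_finsetSum _ iW
  have iE : Integrable (fun ω => E1 ω + E2 ω) P := h.i1.add h.i2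
  have iS1 : Integrable (fun ω => ∑ l ∈ Finset.range n,
      w l ω * (na l ω + nb l ω + bad.indicator 1 ω + θ) + √(G ω * Q ω)) P := iS.add iQG.1
  have iS2 : Integrable (fun ω => ∑ l ∈ Finset.range n,
      w l ω * (na l ω + nb l ω + bad.indicator 1 ω + θ) + √(G ω * Q ω) + √(G ω * Q' ω)) P :=
    iS1.add iQG'.1
  have iY : Integrable Y P := iE.add iS2
  have hsq : ∀ {p : ℝ} {F : Ω → ℝ}, 0 ≤ p → ∫ ω, F ω ∂P ≤ p ^ 2 * g0 →
      √(∫ ω, G ω ∂P) * √(∫ ω, F ω ∂P) ≤ p * g0 := by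
    intro p F hp hF
    rw [h.Gm]
    have : √(∫ ω, F ω ∂P) ≤ p * √g0 := by
      rw [← Real.sqrt_sq hp, ← Real.sqrt_mul (sq_nonneg p)]
      exact Real.sqrt_le_sqrt hF
    calc _ ≤ √g0 * (p * √g0) := mul_le_mul_of_nonneg_left this (Real.sqrt_nonneg _)
      _ = p * g0 := by rw [mul_left_comm, hs]
  have bY : ∫ ω, Y ω ∂P ≤
      (a1 + a2 + (K * (2 * (2 * r + 1)) + n * (K * (θ + √ρ)) + q + q')) * g0 := by
    have eY : ∫ ω, Y ω ∂P = (∫ ω, E1 ω ∂P + ∫ ω, E2 ω ∂P) + ((∑ l ∈ Finset.range n,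
        ∫ ω, w l ω * (na l ω + nb l ω + bad.indicator 1 ω + θ) ∂P) + ∫ ω, √(G ω * Q ω) ∂P +
          ∫ ω, √(G ω * Q' ω) ∂P) := by
      rw [← integral_finsetSum _ iW, ← integral_add iS iQG.1, ← integral_add iS1 iQG'.1,
        ← integral_add h.i1 h.i2, ← integral_add iE iS2]
    rw [eY]
    have s1 := Finset.sum_le_sum bW
    rw [Finset.sum_add_distrib, ← Finset.mul_sum, Finset.sum_add_distrib, Finset.sum_const,
      Finset.card_range, nsmul_eq_mul] at s1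
    have s2 : K * g0 * (∑ l ∈ Finset.range n, ∫ ω, na l ω ∂P +
        ∑ l ∈ Finset.range n, ∫ ω, nb l ω ∂P) ≤ K * g0 * (2 * (2 * r + 1)) :=
      mul_le_mul_of_nonneg_left (by linarith [h.sna, h.snb]) (mul_nonneg h.K0 hg.le)
    have b3 := iQG.2.trans (hsq h.q0 h.eQ)
    have b4 := iQG'.2.trans (hsq h.q0' h.eQ')
    have b5 := h.e1
    have b6 := h.e2
    nlinarith
  have bX : ‖∫ ω, f ω * X ω ∂P‖ ≤
      (a1 + a2 + (K * (2 * (2 * r + 1)) + n * (K * (θ + √ρ)) + q + q')) * g0 := by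
    refine (norm_integral_le_integral_norm _).trans (le_trans ?_ bY)
    refine integral_mono_ae (int_fm hf.fm hf.f1 iX).norm iY ?_
    filter_upwards [h.main] with ω hω
    rw [norm_mul]
    exact (mul_le_of_le_one_left (norm_nonneg _) (hf.f1 ω)).trans hω
  -- the tiles
  have fo : ∀ l ∈ Finset.range n, ‖∫ ω, f ω * (o l ω : ℂ) ∂P‖ ≤ 1 := by
    intro l hl
    refine (norm_integral_le_integral_norm _).trans ?_
    have h1 : ∫ ω, ‖f ω * (o l ω : ℂ)‖ ∂P ≤ ∫ _, (1 : ℝ) ∂P := by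
      refine integral_mono_of_nonneg (ae_of_all _ fun _ => norm_nonneg _) (integrable_const _)
        (ae_of_all _ fun ω => ?_)
      simp only
      rw [norm_mul, Complex.norm_real, Real.norm_of_nonneg (h.o0 l hl ω)]
      exact mul_le_one₀ (hf.f1 ω) (h.o0 l hl ω) (h.o1 l hl ω)
    simpa using h1
  have S1 : ∑ l ∈ Finset.range n, gv l * ∫ ω, f ω * (o l ω : ℂ) ∂P =
      (g0 : ℂ) * (κ * ∑ l ∈ J, z l * ∫ ω, f ω * (o l ω : ℂ) ∂P) +
        ∑ l ∈ Finset.range n \ J, gv l * ∫ ω, f ω * (o l ω : ℂ) ∂P := by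
    rw [← Finset.sum_sdiff h.J_le, add_comm]
    congr 1
    rw [Finset.mul_sum, Finset.mul_sum]
    exact Finset.sum_congr rfl fun l hl => by rw [h.mean l hl]; ring
  have S2 : ‖∑ l ∈ Finset.range n \ J, gv l * ∫ ω, f ω * (o l ω : ℂ) ∂P‖ ≤
      (n - J.card) * K * g0 := by
    have h1 : ∀ l ∈ Finset.range n \ J, ‖gv l * ∫ ω, f ω * (o l ω : ℂ) ∂P‖ ≤ K * g0 := by
      intro l hl
      have hl' := (Finset.mem_sdiff.1 hl).1
      rw [norm_mul]
      have h2 : ‖gv l‖ ≤ K * g0 := (h.gvn l hl').trans (h.w_int hl').2.1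
      calc _ ≤ K * g0 * 1 := mul_le_mul h2 (fo l hl') (norm_nonneg _) (mul_nonneg h.K0 hg.le)
        _ = K * g0 := mul_one _
    refine (norm_sum_le_of_le _ h1).trans ?_
    rw [Finset.sum_const, nsmul_eq_mul, Finset.card_sdiff_of_subset h.J_le, Finset.card_range,
      Nat.cast_sub (by simpa using Finset.card_le_card h.J_le), mul_assoc]
  -- displacement
  have iz : ∀ l ∈ J, Integrable (fun ω => z l * (o l ω : ℂ)) P := fun l hl =>
    (h.io l (h.J_le hl)).ofReal.const_mul _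
  have S3 : ‖∫ ω, f ω * D ω ∂P - ∑ l ∈ J, z l * ∫ ω, f ω * (o l ω : ℂ) ∂P‖ ≤ c := by
    have e : ∑ l ∈ J, z l * ∫ ω, f ω * (o l ω : ℂ) ∂P =
        ∫ ω, f ω * ∑ l ∈ J, z l * (o l ω : ℂ) ∂P := by
      simp only [Finset.mul_sum]
      rw [integral_finsetSum _ fun l hl => int_fm hf.fm hf.f1 (iz l hl)]
      refine Finset.sum_congr rfl fun l _ => ?_
      rw [← integral_const_mul]
      exact integral_congr_ae (ae_of_all _ fun ω => by simp only; ring)
    rw [e, ← integral_sub (int_fm hf.fm hf.f1 h.iD)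
      (int_fm hf.fm hf.f1 (integrable_finsetSum _ iz))]
    refine (norm_integral_le_integral_norm _).trans (le_trans ?_ h.edd)
    refine integral_mono_ae ((int_fm hf.fm hf.f1 h.iD).sub
      (int_fm hf.fm hf.f1 (integrable_finsetSum _ iz))).norm h.idd ?_
    filter_upwards [h.disp] with ω hω
    rw [← mul_sub, norm_mul]
    exact (mul_le_of_le_one_left (norm_nonneg _) (hf.f1 ω)).trans hω
  -- conclusion
  set A := ∫ ω, f ω * T ω ∂P with hA
  set B := ∫ ω, f ω * D ω ∂P with hB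
  set S := ∑ l ∈ J, z l * ∫ ω, f ω * (o l ω : ℂ) ∂P with hS
  set R := ∑ l ∈ Finset.range n \ J, gv l * ∫ ω, f ω * (o l ω : ℂ) ∂P with hR
  have key : (g0 : ℂ) * (t * A + κ * B) = ∫ ω, f ω * X ω ∂P - R + (g0 : ℂ) * (κ * (B - S)) := by
    rw [L1, S1]; ring
  have b7 : ‖(g0 : ℂ) * (κ * (B - S))‖ ≤ ‖κ‖ * c * g0 := by
    rw [norm_mul, norm_mul, Complex.norm_real, Real.norm_of_nonneg hg.le, mul_comm]
    exact mul_le_mul_of_nonneg_right (mul_le_mul_of_nonneg_left S3 (norm_nonneg _)) hg.le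
  have tt : ‖(g0 : ℂ) * (t * A + κ * B)‖ ≤ tot n r J a1 a2 K q q' c θ ρ ‖κ‖ * g0 := by
    rw [key]
    have n1 := norm_add_le (∫ ω, f ω * X ω ∂P - R) ((g0 : ℂ) * (κ * (B - S)))
    have n2 := norm_sub_le (∫ ω, f ω * X ω ∂P) R
    unfold tot
    linarith
  rw [norm_mul, Complex.norm_real, Real.norm_of_nonneg hg.le, mul_comm] at tt
  exact le_of_mul_le_mul_right tt hg

/-- **the corridor identity in `L¹`** -/
theorem l1 [IsProbabilityMeasure P] {m : MeasurableSpace Ω} {X0 : Ω → ℂ}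
    (hX0 : Measurable[m] X0) (hX : (fun ω => t * T ω + κ * D ω) =ᵐ[P] X0)
    (hf : ∀ f : Ω → ℂ, Measurable[m] f → (∀ ω, ‖f ω‖ ≤ 1) → EnvF P n g0 gv G v o T f) :
    ∫ ω, ‖t * T ω + κ * D ω‖ ∂P ≤ tot n r J a1 a2 K q q' c θ ρ ‖κ‖ := by
  have e1 : ∫ ω, ‖t * T ω + κ * D ω‖ ∂P = ∫ ω, ‖X0 ω‖ ∂P :=
    integral_congr_ae (hX.mono fun ω h => by simp only at h ⊢; rw [h])
  rw [e1]
  refine PolyAx970.l1_dual hX0 fun f hfm hf1 => ?_
  have hF := hf f hfm hf1
  have e2 : ∫ ω, f ω * X0 ω ∂P = t * ∫ ω, f ω * T ω ∂P + κ * ∫ ω, f ω * D ω ∂P := by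
    rw [← integral_const_mul, ← integral_const_mul,
      ← integral_add ((int_fm hF.fm hF.f1 h.iT).const_mul t) ((int_fm hF.fm hF.f1 h.iD).const_mul κ)]
    refine integral_congr_ae (hX.mono fun ω h => ?_)
    simp only at h ⊢
    rw [← h]; ring
  rw [e2]
  exact h.concl hF

end Env

end annealed

end Crest.Agent.R143.CorMx970
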