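import Mathlib

/-!
# Row 143 (S0194): the product weight of a corridor (helper168, after 970's note 3261 (b),(c))

gates `q 0, ..., q n : Q` with the (finite) laws `ρ l`, tubes `u 0, ..., u (n - 1) : U` with the
probability laws `μ k`, kernels `K k ((q, q'), u)` (the indicator of the tube event times
`c / P(E_k | q, q')`) with `∫⁻ K k ((q, q'), u) dμ k = c k` for good gates.

* `g K` : the product weight; `T k` : the local variables of the tube `k`; `nu k` : the local law
* `lint_F` : `∫⁻ g * F ∘ T k = (C k) * ∫⁻ F dν k`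
* `map_g` : the image of the weighted measure under `T k` is `C k • ν k`
* `int_F`, `mean_eq` : Banach valued: `E[g F_k] = E[g] * m_k`, `m_k` = mean of `F` under `ν k`
* `mean_congr` : equal local means under a map of the local laws
* `int_in` : an additional independent variable
* `law_eq`, `law_restrict`, `omega`, `lomega` : from independent random elements `q l`, `u k` of a
  probability space (and good sets `G l` of the gates) to `law`
* `ker` : the kernel `1_E c / P(E | q, q')`; `ker_meas`, `ker_le`, `ker_norm`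
* `tower` : `∫ E[g|m] • Ψ = ∫ g • Ψ`, `w_le` : `0 ≤ E[g|m] ≤ 1`, `w_supp`, `w_cond`, `w_int`,
  `w_in`, `w_cs`
-/

set_option autoImplicit false
set_option linter.unusedSectionVars false

open MeasureTheory ProbabilityTheory Set
open scoped ENNReal

namespace Crest.Agent.R143.PWx168

section pi

variable {ι : Type*} [Fintype ι] {E : ι → Type*} [∀ i, MeasurableSpace (E i)]

theorem lint_pi (μ : ∀ i, Measure (E i)) [∀ i, IsProbabilityMeasure (μ i)]
    (f : ∀ i, E i → ℝ≥0∞) (hf : ∀ i, Measurable (f i)) :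
    ∫⁻ x, ∏ i, f i (x i) ∂(Measure.pi μ) = ∏ i, ∫⁻ x, f i x ∂(μ i) := by
  have h1 : iIndepFun (fun i (x : ∀ i, E i) => f i (x i)) (Measure.pi μ) :=
    iIndepFun_pi (X := fun i => f i) fun i => (hf i).aemeasurable
  have h2 := lintegral_prod_eq_prod_lintegral_of_indepFun Finset.univ
    (fun i (x : ∀ i, E i) => f i (x i)) h1 fun i => (hf i).comp (measurable_pi_apply i)
  rw [h2]
  refine Finset.prod_congr rfl fun i _ => ?_
  exact (measurePreserving_eval μ i).lintegral_comp (hf i)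

/-- the law of two coordinates of a product of finite measures -/
theorem map_two {ι : Type*} [Fintype ι] [DecidableEq ι] {E : Type*} [MeasurableSpace E]
    (ρ : ι → Measure E) [∀ i, IsFiniteMeasure (ρ i)] {i j : ι} (hij : i ≠ j) :
    (Measure.pi ρ).map (fun x => (x i, x j)) =
      (∏ l ∈ (Finset.univ.erase i).erase j, ρ l univ) • ((ρ i).prod (ρ j)) := by
  set c : ℝ≥0∞ := ∏ l ∈ (Finset.univ.erase i).erase j, ρ l univ with hc
  have hcf : c ≠ ∞ := by
    rw [hc]
    exact (ENNReal.prod_lt_top fun l _ => measure_lt_top (ρ l) _).ne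
  have hfin : IsFiniteMeasure (c • ρ i) := Measure.smul_finite (ρ i) hcf
  have e : c • ((ρ i).prod (ρ j)) = (c • ρ i).prod (ρ j) := by
    rw [Measure.prod_smul_left]
  rw [e]
  symm
  refine Measure.prod_eq fun s t hs ht => ?_
  rw [Measure.map_apply ((measurable_pi_apply i).prodMk (measurable_pi_apply j)) (hs.prod ht)]
  have e1 : (fun x : ι → E => (x i, x j)) ⁻¹' s ×ˢ t =
      Set.pi univ (fun l => if l = i then s else if l = j then t else univ) := by
    ext x
    simp only [mem_preimage, mem_prod, mem_pi, mem_univ, true_imp_iff]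
    constructor
    · rintro ⟨h1, h2⟩ l
      split_ifs with h3 h4
      · exact h3 ▸ h1
      · exact h4 ▸ h2
      · exact mem_univ _
    · intro h
      have h1 := h i
      have h2 := h j
      rw [if_pos rfl] at h1
      rw [if_neg (Ne.symm hij), if_pos rfl] at h2
      exact ⟨h1, h2⟩
  rw [e1, Measure.pi_pi]
  have hj : j ∈ Finset.univ.erase i := Finset.mem_erase.2 ⟨Ne.symm hij, Finset.mem_univ j⟩
  rw [← Finset.mul_prod_erase _ _ (Finset.mem_univ i), ← Finset.mul_prod_erase _ _ hj,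
    if_pos rfl, if_neg (Ne.symm hij), if_pos rfl]
  have e2 : ∏ l ∈ (Finset.univ.erase i).erase j,
      ρ l (if l = i then s else if l = j then t else univ) = c := by
    rw [hc]
    refine Finset.prod_congr rfl fun l hl => ?_
    obtain ⟨h1, h2⟩ := Finset.mem_erase.1 hl
    obtain ⟨h3, _⟩ := Finset.mem_erase.1 h2
    rw [if_neg h3, if_neg h1]
  rw [e2, Measure.smul_apply, smul_eq_mul]
  ring

end pi

variable {n : ℕ} {Q U : Type*} [MeasurableSpace Q] [MeasurableSpace U]

/-- the local variables of the tube `k` -/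
def T (k : Fin n) (x : (Fin (n + 1) → Q) × (Fin n → U)) : (Q × Q) × U :=
  ((x.1 k.castSucc, x.1 k.succ), x.2 k)

theorem T_meas (k : Fin n) : Measurable (T (Q := Q) (U := U) k) := by
  unfold T
  fun_prop

/-- the product weight -/
noncomputable def g (K : Fin n → (Q × Q) × U → ℝ≥0∞) (x : (Fin (n + 1) → Q) × (Fin n → U)) : ℝ≥0∞ :=
  ∏ k, K k (T k x)

theorem g_meas {K : Fin n → (Q × Q) × U → ℝ≥0∞} (hK : ∀ k, Measurable (K k)) :
    Measurable (g K) :=
  Finset.measurable_prod _ fun k _ => (hK k).comp (T_meas k)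

/-- the law of the corridor -/
noncomputable def law (ρ : Fin (n + 1) → Measure Q) (μ : Fin n → Measure U) :
    Measure ((Fin (n + 1) → Q) × (Fin n → U)) := (Measure.pi ρ).prod (Measure.pi μ)

/-- the local law of the tube `k` -/
noncomputable def nu (ρ : Fin (n + 1) → Measure Q) (μ : Fin n → Measure U)
    (K : Fin n → (Q × Q) × U → ℝ≥0∞) (k : Fin n) : Measure ((Q × Q) × U) :=
  (((ρ k.castSucc).prod (ρ k.succ)).prod (μ k)).withDensity (K k)

/-- the constant of the tube `k` -/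
noncomputable def CC (ρ : Fin (n + 1) → Measure Q) (c : Fin n → ℝ≥0∞) (k : Fin n) : ℝ≥0∞ :=
  (∏ j ∈ Finset.univ.erase k, c j) *
    ∏ l ∈ (Finset.univ.erase k.castSucc).erase k.succ, ρ l univ

/-- the normalisation of the kernels at good gates -/
def Norm (ρ : Fin (n + 1) → Measure Q) (μ : Fin n → Measure U)
    (K : Fin n → (Q × Q) × U → ℝ≥0∞) (c : Fin n → ℝ≥0∞) : Prop :=
  ∃ G : Fin (n + 1) → Set Q, (∀ l, ∀ᵐ q ∂ρ l, q ∈ G l) ∧
    ∀ k, ∀ q ∈ G k.castSucc, ∀ q' ∈ G k.succ, ∫⁻ u, K k ((q, q'), u) ∂μ k = c k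

variable {ρ : Fin (n + 1) → Measure Q} {μ : Fin n → Measure U}
  {K : Fin n → (Q × Q) × U → ℝ≥0∞} {c : Fin n → ℝ≥0∞}

theorem lint_F [∀ l, IsFiniteMeasure (ρ l)] [∀ k, IsProbabilityMeasure (μ k)]
    (hK : ∀ k, Measurable (K k)) (hN : Norm ρ μ K c) (k : Fin n) {F : (Q × Q) × U → ℝ≥0∞}
    (hF : Measurable F) :
    ∫⁻ x, g K x * F (T k x) ∂law ρ μ = CC ρ c k * ∫⁻ p, F p ∂nu ρ μ K k := by
  classical
  obtain ⟨G, hG, hc⟩ := hN
  have hm : Measurable fun x => g K x * F (T k x) := (g_meas hK).mul (hF.comp (T_meas k))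
  unfold law
  rw [lintegral_prod _ hm.aemeasurable]
  -- the inner integral
  have hin : ∀ᵐ q ∂(Measure.pi ρ), ∫⁻ u, g K (q, u) * F (T k (q, u)) ∂(Measure.pi μ) =
      (∏ j ∈ Finset.univ.erase k, c j) *
        ∫⁻ u, K k ((q k.castSucc, q k.succ), u) * F ((q k.castSucc, q k.succ), u) ∂μ k := by
    have hG' : ∀ᵐ q ∂(Measure.pi ρ), ∀ l, q l ∈ G l := by
      rw [ae_all_iff]
      intro l
      exact (Measure.quasiMeasurePreserving_eval ρ l).ae (hG l)
    filter_upwards [hG'] with q hq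
    have e1 : ∀ u : Fin n → U, g K (q, u) * F (T k (q, u)) =
        ∏ j, (K j ((q j.castSucc, q j.succ), u j) *
          if j = k then F ((q j.castSucc, q j.succ), u j) else 1) := by
      intro u
      rw [Finset.prod_mul_distrib, Finset.prod_ite_eq' Finset.univ k, if_pos (Finset.mem_univ k)]
      rfl
    simp only [e1]
    rw [lint_pi μ (fun j u => K j ((q j.castSucc, q j.succ), u) *
      if j = k then F ((q j.castSucc, q j.succ), u) else 1)]
    · rw [← Finset.mul_prod_erase _ _ (Finset.mem_univ k), mul_comm]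
      congr 1
      · refine Finset.prod_congr rfl fun j hj => ?_
        simp only [if_neg (Finset.mem_erase.1 hj).1, mul_one]
        exact hc j _ (hq _) _ (hq _)
      · simp only [if_true]
    · intro j
      have h1 : Measurable fun u : U => (((q j.castSucc, q j.succ) : Q × Q), u) :=
        measurable_const.prodMk measurable_id
      refine ((hK j).comp h1).mul ?_
      split_ifs
      · exact hF.comp h1
      · exact measurable_const
  rw [lintegral_congr_ae hin]
  have hφ : Measurable fun p : Q × Q => ∫⁻ u, K k (p, u) * F (p, u) ∂μ k :=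
    Measurable.lintegral_prod_right' ((hK k).mul hF)
  have hφ2 : Measurable fun q : Fin (n + 1) → Q => ∫⁻ u, K k ((q k.castSucc, q k.succ), u) *
      F ((q k.castSucc, q k.succ), u) ∂μ k :=
    hφ.comp ((measurable_pi_apply k.castSucc).prodMk (measurable_pi_apply k.succ))
  rw [lintegral_const_mul _ hφ2]
  have hne : k.castSucc ≠ k.succ := (Fin.castSucc_lt_succ (i := k)).ne
  have e2 : ∫⁻ q : Fin (n + 1) → Q, ∫⁻ u, K k ((q k.castSucc, q k.succ), u) *
      F ((q k.castSucc, q k.succ), u) ∂μ k ∂(Measure.pi ρ) =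
      (∏ l ∈ (Finset.univ.erase k.castSucc).erase k.succ, ρ l univ) *
        ∫⁻ p, (∫⁻ u, K k (p, u) * F (p, u) ∂μ k) ∂((ρ k.castSucc).prod (ρ k.succ)) := by
    have h3 := map_two ρ hne
    have h4 := lintegral_map (μ := Measure.pi ρ) hφ
      ((measurable_pi_apply k.castSucc).prodMk (measurable_pi_apply k.succ))
    rw [h3, lintegral_smul_measure, smul_eq_mul] at h4
    exact h4.symm
  rw [e2, nu, lintegral_withDensity_eq_lintegral_mul _ (hK k) hF, CC, mul_assoc]
  congr 2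
  rw [lintegral_prod _ ((hK k).mul hF).aemeasurable]
  rfl

/-- total mass of the weight -/
theorem lint_g [∀ l, IsFiniteMeasure (ρ l)] [∀ k, IsProbabilityMeasure (μ k)]
    (hK : ∀ k, Measurable (K k)) (hN : Norm ρ μ K c) :
    ∫⁻ x, g K x ∂law ρ μ = (∏ k, c k) * ∏ l, ρ l univ := by
  obtain ⟨G, hG, hc⟩ := hN
  unfold law
  rw [lintegral_prod _ (g_meas hK).aemeasurable]
  have hin : ∀ᵐ q ∂(Measure.pi ρ), ∫⁻ u, g K (q, u) ∂(Measure.pi μ) = ∏ k, c k := by
    have hG' : ∀ᵐ q ∂(Measure.pi ρ), ∀ l, q l ∈ G l := by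
      rw [ae_all_iff]
      intro l
      exact (Measure.quasiMeasurePreserving_eval ρ l).ae (hG l)
    filter_upwards [hG'] with q hq
    have e1 : ∀ u : Fin n → U, g K (q, u) = ∏ j, K j ((q j.castSucc, q j.succ), u j) :=
      fun u => rfl
    simp only [e1]
    rw [lint_pi μ (fun j u => K j ((q j.castSucc, q j.succ), u))]
    · exact Finset.prod_congr rfl fun j _ => hc j _ (hq _) _ (hq _)
    · intro j
      exact (hK j).comp (measurable_const.prodMk measurable_id)
  rw [lintegral_congr_ae hin, lintegral_const, Measure.pi_univ]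

/-- the image of the weighted law under the local variables -/
theorem map_g [∀ l, IsFiniteMeasure (ρ l)] [∀ k, IsProbabilityMeasure (μ k)]
    (hK : ∀ k, Measurable (K k)) (hN : Norm ρ μ K c) (k : Fin n) :
    ((law ρ μ).withDensity (g K)).map (T k) = CC ρ c k • nu ρ μ K k := by
  ext S hS
  rw [Measure.map_apply (T_meas k) hS, withDensity_apply _ (T_meas k hS),
    ← lintegral_indicator (T_meas k hS)]
  have h := lint_F hK hN k (F := S.indicator fun _ => (1 : ℝ≥0∞)) (measurable_const.indicator hS)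
  have e1 : ∀ x, (T k ⁻¹' S).indicator (fun x => g K x) x =
      g K x * (S.indicator (fun _ => (1 : ℝ≥0∞)) (T k x)) := by
    intro x
    by_cases hx : T k x ∈ S
    · rw [indicator_of_mem (show x ∈ T k ⁻¹' S from hx), indicator_of_mem hx, mul_one]
    · rw [indicator_of_notMem (show x ∉ T k ⁻¹' S from hx), indicator_of_notMem hx, mul_zero]
  simp only [e1]
  rw [h, lintegral_indicator hS, setLIntegral_one, Measure.smul_apply, smul_eq_mul]

/-- total mass of the local law -/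
theorem nu_univ [∀ l, IsFiniteMeasure (ρ l)] [∀ k, IsProbabilityMeasure (μ k)]
    (hK : ∀ k, Measurable (K k)) (hN : Norm ρ μ K c) (k : Fin n) :
    nu ρ μ K k univ = c k * (ρ k.castSucc univ * ρ k.succ univ) := by
  obtain ⟨G, hG, hc⟩ := hN
  rw [nu, withDensity_apply _ MeasurableSet.univ, Measure.restrict_univ,
    lintegral_prod _ (hK k).aemeasurable]
  have h1 : ∀ᵐ p ∂((ρ k.castSucc).prod (ρ k.succ)), ∫⁻ u, K k (p, u) ∂μ k = c k := by
    have h2 : ∀ᵐ p ∂((ρ k.castSucc).prod (ρ k.succ)), p.1 ∈ G k.castSucc :=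
      Measure.quasiMeasurePreserving_fst.ae (hG _)
    have h3 : ∀ᵐ p ∂((ρ k.castSucc).prod (ρ k.succ)), p.2 ∈ G k.succ :=
      Measure.quasiMeasurePreserving_snd.ae (hG _)
    filter_upwards [h2, h3] with p h4 h5
    exact hc k _ h4 _ h5
  rw [lintegral_congr_ae h1, lintegral_const, ← univ_prod_univ, Measure.prod_prod]

theorem CC_mul [∀ l, IsFiniteMeasure (ρ l)] [∀ k, IsProbabilityMeasure (μ k)]
    (hK : ∀ k, Measurable (K k)) (hN : Norm ρ μ K c) (k : Fin n) :
    CC ρ c k * nu ρ μ K k univ = ∫⁻ x, g K x ∂law ρ μ := by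
  have h := lint_F hK hN k (measurable_const : Measurable fun _ : (Q × Q) × U => (1 : ℝ≥0∞))
  simp only [mul_one, lintegral_one] at h
  exact h.symm

section integral

variable {E : Type*} [NormedAddCommGroup E] [NormedSpace ℝ E]

/-- the local integral -/
theorem int_F [∀ l, IsFiniteMeasure (ρ l)] [∀ k, IsProbabilityMeasure (μ k)]
    (hK : ∀ k, Measurable (K k)) (hN : Norm ρ μ K c) (hKt : ∀ k p, K k p ≠ ∞) (k : Fin n)
    {F : (Q × Q) × U → E} (hF : StronglyMeasurable F) :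
    ∫ x, (g K x).toReal • F (T k x) ∂law ρ μ = (CC ρ c k).toReal • ∫ p, F p ∂nu ρ μ K k := by
  have hgt : ∀ᵐ x ∂law ρ μ, g K x < ∞ := ae_of_all _ fun x =>
    ENNReal.prod_lt_top fun k _ => lt_top_iff_ne_top.2 (hKt k _)
  rw [← integral_withDensity_eq_integral_toReal_smul (g_meas hK) hgt (fun x => F (T k x)),
    ← integral_smul_measure, ← map_g hK hN k,
    integral_map (T_meas k).aemeasurable hF.aestronglyMeasurable]

/-- the local mean -/
noncomputable def mloc (ρ : Fin (n + 1) → Measure Q) (μ : Fin n → Measure U)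
    (K : Fin n → (Q × Q) × U → ℝ≥0∞) (k : Fin n) (F : (Q × Q) × U → E) : E :=
  ((nu ρ μ K k univ).toReal)⁻¹ • ∫ p, F p ∂nu ρ μ K k

/-- **`E[g F_k] = E[g] m_k`** -/
theorem mean_eq [∀ l, IsFiniteMeasure (ρ l)] [∀ k, IsProbabilityMeasure (μ k)]
    (hK : ∀ k, Measurable (K k)) (hN : Norm ρ μ K c) (hKt : ∀ k p, K k p ≠ ∞)
    (hc : ∀ k, c k ≠ ∞) (k : Fin n) {F : (Q × Q) × U → E} (hF : StronglyMeasurable F) :
    ∫ x, (g K x).toReal • F (T k x) ∂law ρ μ =
      (∫⁻ x, g K x ∂law ρ μ).toReal • mloc ρ μ K k F := by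
  rw [int_F hK hN hKt k hF, mloc, ← CC_mul hK hN k, ENNReal.toReal_mul, smul_smul]
  have hnt : nu ρ μ K k univ ≠ ∞ := by
    rw [nu_univ hK hN k]
    exact ENNReal.mul_ne_top (hc k) (ENNReal.mul_ne_top (measure_ne_top _ _) (measure_ne_top _ _))
  by_cases h0 : nu ρ μ K k univ = 0
  · have h1 : nu ρ μ K k = 0 := Measure.measure_univ_eq_zero.1 h0
    rw [h1]
    simp
  · congr 1
    have h2 : (nu ρ μ K k univ).toReal ≠ 0 := ENNReal.toReal_ne_zero.2 ⟨h0, hnt⟩
    field_simp

/-- equal local means under a map of the local laws -/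
theorem mean_congr (k l : Fin n) {σ : (Q × Q) × U → (Q × Q) × U} (hσ : Measurable σ)
    (h : (nu ρ μ K k).map σ = nu ρ μ K l) {F G : (Q × Q) × U → ℂ} (hG : StronglyMeasurable G)
    (a : ℂ) (e : ∀ᵐ p ∂nu ρ μ K k, G (σ p) = a * F p) :
    mloc ρ μ K l G = a * mloc ρ μ K k F := by
  have h1 : nu ρ μ K l univ = nu ρ μ K k univ := by
    rw [← h, Measure.map_apply hσ MeasurableSet.univ, preimage_univ]
  rw [mloc, mloc, h1]
  have h2 : ∫ p, G p ∂nu ρ μ K l = a * ∫ p, F p ∂nu ρ μ K k := by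
    rw [← h, integral_map hσ.aemeasurable hG.aestronglyMeasurable, integral_congr_ae e,
      integral_const_mul]
  rw [h2, mul_smul_comm]

end integral

/-- an additional independent variable (the inside) -/
theorem int_in {W : Type*} [MeasurableSpace W] (lam : Measure W) [IsProbabilityMeasure lam]
    [∀ l, IsFiniteMeasure (ρ l)] [∀ k, IsProbabilityMeasure (μ k)]
    (hK : ∀ k, Measurable (K k)) (hN : Norm ρ μ K c) (hKt : ∀ k p, K k p ≠ ∞)
    (hc : ∀ k, c k ≠ ∞) (k : Fin n) {F : (Q × Q) × U → ℂ} (hF : StronglyMeasurable F)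
    (Φ : W → ℂ) :
    ∫ x, ((g K x.1).toReal * F (T k x.1)) * Φ x.2 ∂((law ρ μ).prod lam) =
      (∫⁻ x, g K x ∂law ρ μ).toReal * mloc ρ μ K k F * ∫ w, Φ w ∂lam := by
  have : SFinite (law ρ μ) := by
    unfold law
    infer_instance
  rw [integral_prod_mul (fun x => ((g K x).toReal * F (T k x) : ℂ)) Φ]
  have h := mean_eq hK hN hKt hc k hF
  simp only [Complex.real_smul] at h
  rw [h]

/-! ### the same on a probability space with independent gates and tubes -/

section omega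

variable {Ω : Type*} {mΩ : MeasurableSpace Ω} {P : Measure Ω}
  {q : Fin (n + 1) → Ω → Q} {u : Fin n → Ω → U}

/-- the law of gates and tubes -/
theorem law_eq [IsProbabilityMeasure P] (hq : ∀ l, Measurable (q l)) (hu : ∀ k, Measurable (u k))
    (iq : iIndepFun q P) (iu : iIndepFun u P)
    (iqu : IndepFun (fun ω l => q l ω) (fun ω k => u k ω) P) :
    P.map (fun ω => ((fun l => q l ω : Fin (n + 1) → Q), (fun k => u k ω : Fin n → U))) =
      law (fun l => P.map (q l)) (fun k => P.map (u k)) := by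
  rw [(indepFun_iff_map_prod_eq_prod_map_map (measurable_pi_lambda _ hq).aemeasurable
    (measurable_pi_lambda _ hu).aemeasurable).1 iqu, law,
    (iIndepFun_iff_map_fun_eq_pi_map fun l => (hq l).aemeasurable).1 iq,
    (iIndepFun_iff_map_fun_eq_pi_map fun k => (hu k).aemeasurable).1 iu]

/-- good gates -/
def Gd (q : Fin (n + 1) → Ω → Q) (G : Fin (n + 1) → Set Q) : Set Ω := {ω | ∀ l, q l ω ∈ G l}

theorem law_restrict [IsProbabilityMeasure P] (hq : ∀ l, Measurable (q l))
    (hu : ∀ k, Measurable (u k)) (iq : iIndepFun q P) (iu : iIndepFun u P)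
    (iqu : IndepFun (fun ω l => q l ω) (fun ω k => u k ω) P) {G : Fin (n + 1) → Set Q}
    (hG : ∀ l, MeasurableSet (G l)) :
    (P.restrict (Gd q G)).map
      (fun ω => ((fun l => q l ω : Fin (n + 1) → Q), (fun k => u k ω : Fin n → U))) =
      law (fun l => (P.map (q l)).restrict (G l)) (fun k => P.map (u k)) := by
  have hX : Measurable
      (fun ω => ((fun l => q l ω : Fin (n + 1) → Q), (fun k => u k ω : Fin n → U))) :=
    (measurable_pi_lambda _ hq).prodMk (measurable_pi_lambda _ hu)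
  have hS : MeasurableSet ((Set.univ.pi G) ×ˢ (univ : Set (Fin n → U))) :=
    (MeasurableSet.univ_pi hG).prod MeasurableSet.univ
  have e1 : Gd q G = (fun ω => ((fun l => q l ω : Fin (n + 1) → Q),
      (fun k => u k ω : Fin n → U))) ⁻¹' ((Set.univ.pi G) ×ˢ (univ : Set (Fin n → U))) := by
    ext ω
    simp [Gd]
  have : ∀ l, IsProbabilityMeasure (P.map (q l)) := fun l =>
    Measure.isProbabilityMeasure_map (hq l).aemeasurable
  have : ∀ k, IsProbabilityMeasure (P.map (u k)) := fun k =>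
    Measure.isProbabilityMeasure_map (hu k).aemeasurable
  rw [e1, ← Measure.restrict_map hX hS, law_eq hq hu iq iu iqu, law, law,
    ← Measure.prod_restrict, Measure.restrict_univ, Measure.restrict_pi_pi]

/-- expectations over good gates = integrals over the law of the corridor -/
theorem omega {E : Type*} [NormedAddCommGroup E] [NormedSpace ℝ E] [IsProbabilityMeasure P]
    (hq : ∀ l, Measurable (q l))
    (hu : ∀ k, Measurable (u k)) (iq : iIndepFun q P) (iu : iIndepFun u P)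
    (iqu : IndepFun (fun ω l => q l ω) (fun ω k => u k ω) P) {G : Fin (n + 1) → Set Q}
    (hG : ∀ l, MeasurableSet (G l)) {f : (Fin (n + 1) → Q) × (Fin n → U) → E}
    (hf : StronglyMeasurable f) :
    ∫ ω in Gd q G, f (fun l => q l ω, fun k => u k ω) ∂P =
      ∫ x, f x ∂law (fun l => (P.map (q l)).restrict (G l)) (fun k => P.map (u k)) := by
  rw [← law_restrict hq hu iq iu iqu hG, integral_map
    ((measurable_pi_lambda _ hq).prodMk (measurable_pi_lambda _ hu)).aemeasurable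
    hf.aestronglyMeasurable]

theorem lomega [IsProbabilityMeasure P] (hq : ∀ l, Measurable (q l))
    (hu : ∀ k, Measurable (u k)) (iq : iIndepFun q P) (iu : iIndepFun u P)
    (iqu : IndepFun (fun ω l => q l ω) (fun ω k => u k ω) P) {G : Fin (n + 1) → Set Q}
    (hG : ∀ l, MeasurableSet (G l)) {f : (Fin (n + 1) → Q) × (Fin n → U) → ℝ≥0∞}
    (hf : Measurable f) :
    ∫⁻ ω in Gd q G, f (fun l => q l ω, fun k => u k ω) ∂P =
      ∫⁻ x, f x ∂law (fun l => (P.map (q l)).restrict (G l)) (fun k => P.map (u k)) := by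
  rw [← law_restrict hq hu iq iu iqu hG, lintegral_map hf
    ((measurable_pi_lambda _ hq).prodMk (measurable_pi_lambda _ hu))]

/-- the normalised kernel `1_E c / π`, `π(q, q') = P(E | q, q')` -/
noncomputable def ker (mu : Measure U) (Ev : Set ((Q × Q) × U)) (c : ℝ≥0∞)
    (p : (Q × Q) × U) : ℝ≥0∞ :=
  Ev.indicator (fun p => c / mu {w | (p.1, w) ∈ Ev}) p

theorem ker_meas (mu : Measure U) [SFinite mu] {Ev : Set ((Q × Q) × U)} (hE : MeasurableSet Ev)
    (c : ℝ≥0∞) : Measurable (ker mu Ev c) := by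
  unfold ker
  refine Measurable.indicator ?_ hE
  exact measurable_const.div ((measurable_measure_prodMk_left hE).comp measurable_fst)

/-- `ker ≤ 1` when `c ≤ π` -/
theorem ker_le {mu : Measure U} {Ev : Set ((Q × Q) × U)} {c : ℝ≥0∞} {p : (Q × Q) × U}
    (hp : c ≤ mu {w | (p.1, w) ∈ Ev}) : ker mu Ev c p ≤ 1 := by
  unfold ker
  by_cases h : p ∈ Ev
  · rw [indicator_of_mem h]
    exact ENNReal.div_le_of_le_mul (by rwa [one_mul])
  · rw [indicator_of_notMem h]
    exact zero_le_one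

/-- the normalisation -/
theorem ker_norm {mu : Measure U} [IsFiniteMeasure mu] {Ev : Set ((Q × Q) × U)}
    (hE : MeasurableSet Ev) {c : ℝ≥0∞} {p : Q × Q} (hc : c ≠ 0)
    (hp : c ≤ mu {w | (p, w) ∈ Ev}) : ∫⁻ w, ker mu Ev c (p, w) ∂mu = c := by
  have hS : MeasurableSet {w | (p, w) ∈ Ev} := measurable_prodMk_left hE
  have e : ∀ w, ker mu Ev c (p, w) =
      {w | (p, w) ∈ Ev}.indicator (fun _ => c / mu {w | (p, w) ∈ Ev}) w := by
    intro w
    unfold ker
    by_cases h : (p, w) ∈ Ev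
    · rw [indicator_of_mem h, indicator_of_mem (show w ∈ {w | (p, w) ∈ Ev} from h)]
    · rw [indicator_of_notMem h, indicator_of_notMem (show w ∉ {w | (p, w) ∈ Ev} from h)]
  simp only [e]
  rw [lintegral_indicator_const hS]
  refine ENNReal.div_mul_cancel ?_ (measure_ne_top mu _)
  intro h0
  rw [h0] at hp
  exact hc (le_antisymm hp zero_le)

theorem norm_ker {ρ : Fin (n + 1) → Measure Q} {μ : Fin n → Measure U}
    [∀ k, IsFiniteMeasure (μ k)] {Ev : Fin n → Set ((Q × Q) × U)}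
    (hE : ∀ k, MeasurableSet (Ev k)) {c : Fin n → ℝ≥0∞} (hc : ∀ k, c k ≠ 0)
    {G : Fin (n + 1) → Set Q} (hG : ∀ l, ∀ᵐ q ∂ρ l, q ∈ G l)
    (hp : ∀ k, ∀ q ∈ G k.castSucc, ∀ q' ∈ G k.succ, c k ≤ μ k {w | ((q, q'), w) ∈ Ev k}) :
    Norm ρ μ (fun k => ker (μ k) (Ev k) (c k)) c :=
  ⟨G, hG, fun k q hq q' hq' => ker_norm (hE k) (hc k) (hp k q hq q' hq')⟩

end omega

/-! ### the weight conditioned on the exploration -/

section cond

variable {Ω : Type*} {m mΩ : MeasurableSpace Ω} {P : Measure Ω} {E : Type*}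
  [NormedAddCommGroup E] [NormedSpace ℝ E] [CompleteSpace E]

/-- `E[w Ψ] = E[g Ψ]`, `w = E[g | m]`, `Ψ` measurable with respect to `m` -/
theorem tower (hm : m ≤ mΩ) [IsFiniteMeasure P] {G : Ω → ℝ} {Ψ : Ω → E} (hG : Integrable G P)
    (hΨ : StronglyMeasurable[m] Ψ) (hGΨ : Integrable (fun ω => G ω • Ψ ω) P) :
    ∫ ω, (P[G | m]) ω • Ψ ω ∂P = ∫ ω, G ω • Ψ ω ∂P := by
  have h1 := condExp_smul_of_aestronglyMeasurable_right (m := m) hG hGΨ hΨ.aestronglyMeasurable
  rw [← integral_condExp hm (f := fun ω => G ω • Ψ ω)]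
  exact (integral_congr_ae h1).symm

theorem w_nonneg {G : Ω → ℝ} (h0 : ∀ ω, 0 ≤ G ω) : 0 ≤ᵐ[P] P[G | m] :=
  condExp_nonneg (ae_of_all _ h0)

theorem w_le (hm : m ≤ mΩ) [IsFiniteMeasure P] {G : Ω → ℝ} (hG : Integrable G P)
    (h1 : ∀ ω, G ω ≤ 1) : P[G | m] ≤ᵐ[P] fun _ => (1 : ℝ) := by
  have h2 : P[G | m] ≤ᵐ[P] P[(fun _ => (1 : ℝ)) | m] :=
    condExp_mono hG (integrable_const 1) (ae_of_all _ h1)
  rwa [condExp_const hm] at h2

/-- `w` vanishes off every event of `m` which contains the support of `G` -/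
theorem w_supp {G : Ω → ℝ} (hG : Integrable G P) {S : Set Ω} (hS : MeasurableSet[m] S)
    (h : ∀ ω, ω ∉ S → G ω = 0) : ∀ᵐ ω ∂P, ω ∉ S → (P[G | m]) ω = 0 := by
  have e : S.indicator G = G := by
    ext ω
    by_cases hω : ω ∈ S
    · rw [indicator_of_mem hω]
    · rw [indicator_of_notMem hω, h ω hω]
  have h1 := condExp_indicator hG hS
  rw [e] at h1
  filter_upwards [h1] with ω h2 h3
  rw [h2, indicator_of_notMem h3]

/-- freshness: `E[w V] = E[w E[V | m]]` -/
theorem w_cond (hm : m ≤ mΩ) [IsFiniteMeasure P] {G : Ω → ℝ} {V : Ω → E}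
    (hV : Integrable V P) (hwV : Integrable (fun ω => (P[G | m]) ω • V ω) P) :
    ∫ ω, (P[G | m]) ω • V ω ∂P = ∫ ω, (P[G | m]) ω • (P[V | m]) ω ∂P := by
  have h1 := condExp_smul_of_aestronglyMeasurable_left (m := m)
    stronglyMeasurable_condExp.aestronglyMeasurable hwV hV
  rw [← integral_condExp hm (f := fun ω => (P[G | m]) ω • V ω)]
  exact integral_congr_ae h1

/-- bounded weights: integrability of `w V` -/
theorem w_int (hm : m ≤ mΩ) [IsFiniteMeasure P] {G : Ω → ℝ} (hG : Integrable G P)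
    (h0 : ∀ ω, 0 ≤ G ω) (h1 : ∀ ω, G ω ≤ 1) {V : Ω → E} (hV : Integrable V P) :
    Integrable (fun ω => (P[G | m]) ω • V ω) P := by
  refine hV.bdd_smul 1 (stronglyMeasurable_condExp.mono hm).aestronglyMeasurable ?_
  filter_upwards [w_nonneg (m := m) (P := P) h0, w_le hm hG h1] with ω h2 h3
  rw [Real.norm_eq_abs, abs_of_nonneg h2]
  exact h3

/-- `w` measurable, inside variable `Y` measurable with respect to `m` and independent of the
corridor: `E[w X Y] = E[g X] E[Y]` -/
theorem w_in (hm : m ≤ mΩ) [IsFiniteMeasure P] {G : Ω → ℝ} {X Y : Ω → ℂ} (hG : Integrable G P)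
    (hX : StronglyMeasurable[m] X) (hY : StronglyMeasurable[m] Y)
    (hGX : AEStronglyMeasurable (fun ω => (G ω : ℂ) * X ω) P)
    (hI : Integrable (fun ω => G ω • (X ω * Y ω)) P)
    (hi : IndepFun (fun ω => (G ω : ℂ) * X ω) Y P) :
    ∫ ω, (P[G | m]) ω • (X ω * Y ω) ∂P = (∫ ω, (G ω : ℂ) * X ω ∂P) * ∫ ω, Y ω ∂P := by
  rw [tower hm hG (Ψ := fun ω => X ω * Y ω) (hX.mul hY) hI]
  have h := hi.integral_mul_eq_mul_integral hGX (hY.mono hm).aestronglyMeasurable
  rw [← h]
  refine integral_congr_ae (ae_of_all _ fun ω => ?_)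
  simp only [Pi.mul_apply, Complex.real_smul]
  ring

/-- Cauchy-Schwarz with a weight `0 ≤ w`: `(∫ w |V|)² ≤ ∫ w * ∫ w |V|²` in `lintegral` form -/
theorem w_cs {w : Ω → ℝ≥0∞} (hw : AEMeasurable w P) {V : Ω → ℝ≥0∞} (hV : AEMeasurable V P) :
    (∫⁻ ω, w ω * V ω ∂P) ^ 2 ≤ (∫⁻ ω, w ω ∂P) * ∫⁻ ω, w ω * V ω ^ 2 ∂P := by
  have h := ENNReal.lintegral_mul_le_Lp_mul_Lq P Real.HolderConjugate.two_two
    (hw.pow_const (1 / 2 : ℝ)) ((hw.pow_const (1 / 2 : ℝ)).mul hV)
  have e1 : ∀ ω, (w ω ^ (1 / 2 : ℝ)) * (w ω ^ (1 / 2 : ℝ) * V ω) = w ω * V ω := by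
    intro ω
    rw [← mul_assoc, ← ENNReal.rpow_add_of_nonneg _ _ (by norm_num) (by norm_num)]
    norm_num
  have e2 : ∀ ω, (w ω ^ (1 / 2 : ℝ)) ^ (2 : ℝ) = w ω := by
    intro ω
    rw [← ENNReal.rpow_mul]
    norm_num
  have e3 : ∀ ω, (w ω ^ (1 / 2 : ℝ) * V ω) ^ (2 : ℝ) = w ω * V ω ^ 2 := by
    intro ω
    rw [ENNReal.mul_rpow_of_nonneg _ _ (by norm_num), e2, ENNReal.rpow_two]
  simp only [Pi.mul_apply, e1, e2, e3] at h
  calc (∫⁻ ω, w ω * V ω ∂P) ^ 2
      ≤ ((∫⁻ ω, w ω ∂P) ^ (1 / 2 : ℝ) * (∫⁻ ω, w ω * V ω ^ 2 ∂P) ^ (1 / 2 : ℝ)) ^ 2 := by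
        gcongr
    _ = (∫⁻ ω, w ω ∂P) * ∫⁻ ω, w ω * V ω ^ 2 ∂P := by
        rw [mul_pow, ← ENNReal.rpow_two, ← ENNReal.rpow_two, ← ENNReal.rpow_mul,
          ← ENNReal.rpow_mul]
        norm_num

end cond

end Crest.Agent.R143.PWx168
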