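import Crest.Agent.R143.IndLoc2_279
import Crest.Agent.R143.PW_168

/-!
# R143 (helper279), box R8: corridor | inside

* `int_mul`, `int_smul` : Bochner form of the independence over disjoint regions
* `psn`, `lint_psn`, `lint_psn_mul` : functionals of the positions only
* `clr S β` : the coloured set with sites `S`, black sites `β`; `cavE F S`, `cav F S` : mean over the
  colourings of the finite set `S`; `cavE_local`, `cav_local` : only the sites in `C` matter
* `lint_cav` : `E F(cfg) = E cavE F (sites)`, `lint_cav_mul` : `E [cavE F * cavE G] = E F(cfg) * E G(cfg)`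
  (two INDEPENDENT colourings for `F` local on `C` and `G` local on `U`)
-/

set_option autoImplicit false

noncomputable section

namespace Crest.Agent.R143.IndLoc3x279

open MeasureTheory Set ProbabilityTheory
open Crest.ProbabilityR.Voronoi
open Crest.Agent.R143.PP0x831 Crest.Agent.R143.Poisx304 Crest.Agent.R143.Janx304
open Crest.Agent.R143.IndLocx279 Crest.Agent.R143.IndLoc2x279
open scoped ENNReal Nat

variable {ε : ℝ}

/-! ## Bochner form -/

/-- **INDEP**, Bochner form (no integrability hypothesis) -/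
theorem int_mul {𝕜 : Type*} [RCLike 𝕜] (hε : 0 < ε) {B B' : Set ℂ} (hB : MeasurableSet B)
    (hb : Bornology.IsBounded B) (hB' : MeasurableSet B') (hb' : Bornology.IsBounded B')
    (hd : Disjoint B B') {F G : Set (ℂ × Bool) → 𝕜} (hF : LocalOn B F) (hG : LocalOn B' G)
    (hm : FinMeas F) (hm' : FinMeas G) :
    ∫ ω, F (cfg ε ω) * G (cfg ε ω) ∂sampleLaw =
      (∫ ω, F (cfg ε ω) ∂sampleLaw) * ∫ ω, G (cfg ε ω) ∂sampleLaw :=
  (indepFun hε hB hb hB' hb' hd hF hG hm hm').integral_fun_mul_eq_mul_integral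
    (meas_fun hε hB hb hF hm).aestronglyMeasurable
    (meas_fun hε hB' hb' hG hm').aestronglyMeasurable

/-- **INDEP**, Bochner form, real times vector valued -/
theorem int_smul {E : Type*} [NormedAddCommGroup E] [NormedSpace ℝ E] [MeasurableSpace E]
    [BorelSpace E] [SecondCountableTopology E] (hε : 0 < ε) {B B' : Set ℂ} (hB : MeasurableSet B)
    (hb : Bornology.IsBounded B) (hB' : MeasurableSet B') (hb' : Bornology.IsBounded B')
    (hd : Disjoint B B') {F : Set (ℂ × Bool) → ℝ} {G : Set (ℂ × Bool) → E} (hF : LocalOn B F)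
    (hG : LocalOn B' G) (hm : FinMeas F) (hm' : FinMeas G) :
    ∫ ω, F (cfg ε ω) • G (cfg ε ω) ∂sampleLaw =
      (∫ ω, F (cfg ε ω) ∂sampleLaw) • ∫ ω, G (cfg ε ω) ∂sampleLaw :=
  (indepFun hε hB hb hB' hb' hd hF hG hm hm').integral_fun_smul_eq_smul_integral
    (meas_fun hε hB hb hF hm).aestronglyMeasurable
    (meas_fun hε hB' hb' hG hm').aestronglyMeasurable

/-! ## positions -/

/-- positions of a coloured set -/
def psn (S : Set (ℂ × Bool)) : Set ℂ := Prod.fst '' S

lemma psn_cfg (ω : Sample) : psn (cfg ε ω) = points ε ω := by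
  unfold psn cfg points
  rw [image_image]

lemma psn_inter (S : Set (ℂ × Bool)) (B : Set ℂ) : psn (S ∩ ovr B) = psn S ∩ B := by
  ext z
  simp only [psn, mem_image, mem_inter_iff, ovr, mem_ofPred_eq]
  constructor
  · rintro ⟨p, ⟨h1, h2⟩, rfl⟩; exact ⟨⟨p, h1, rfl⟩, h2⟩
  · rintro ⟨⟨p, h1, rfl⟩, h2⟩; exact ⟨p, ⟨h1, h2⟩, rfl⟩

lemma psn_range {n : ℕ} (w : Fin n → ℂ × Bool) : psn (range w) = range fun i => (w i).1 := by
  unfold psn
  rw [← range_comp]
  rfl

/-- intensity of the positions in `B` -/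
def nu (ε : ℝ) (B : Set ℂ) : Measure ℂ := (ENNReal.ofReal (ε ^ 2))⁻¹ • volume.restrict B

lemma nu_fin (hε : 0 < ε) {B : Set ℂ} (hb : Bornology.IsBounded B) : IsFiniteMeasure (nu ε B) :=
  finite_mu hε hb

lemma coin_prob : IsProbabilityMeasure coin := inferInstance

/-- colours of `n` points integrated first -/
lemma P_split (ν : Measure ℂ) [SigmaFinite ν] (n : ℕ) {F : Set (ℂ × Bool) → ℝ≥0∞} (hF : FM F) :
    P (ν.prod coin) n F = ∫⁻ z, ∫⁻ b, F (range fun i : Fin n => (z i, b i))
      ∂(Measure.pi fun _ : Fin n => coin) ∂(Measure.pi fun _ : Fin n => ν) := by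
  have hmp := measurePreserving_arrowProdEquivProdArrow ℂ Bool (Fin n) (fun _ => ν)
    (fun _ => coin)
  unfold P
  have hm : Measurable fun q : (Fin n → ℂ) × (Fin n → Bool) =>
      F (range fun i : Fin n => (q.1 i, q.2 i)) := by
    refine (hF n).comp (measurable_pi_iff.2 fun i => ?_)
    exact ((measurable_pi_apply i).comp measurable_fst).prodMk
      ((measurable_pi_apply i).comp measurable_snd)
  have h1 := hmp.lintegral_comp hm
  rw [lintegral_prod _ hm.aemeasurable] at h1
  rw [← h1]
  rfl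

/-- the mean over the colours of `n` points -/
lemma lint_coin (n : ℕ) (f : (Fin n → Bool) → ℝ≥0∞) :
    ∫⁻ b, f b ∂(Measure.pi fun _ : Fin n => coin) = (2⁻¹ : ℝ≥0∞) ^ n * ∑ b, f b := by
  have hc : ∀ b : Bool, coin {b} = 2⁻¹ := by
    intro b
    unfold coin
    rw [Measure.smul_apply, Measure.count_singleton, smul_eq_mul, mul_one]
  rw [lintegral_fintype, Finset.mul_sum]
  refine Finset.sum_congr rfl fun b _ => ?_
  rw [Measure.pi_singleton, Finset.prod_congr rfl fun i _ => hc (b i), Finset.prod_const,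
    Finset.card_univ, Fintype.card_fin, mul_comm]

/-! ## mean over the colourings of a finite set -/

/-- the coloured set with the sites `S` and the black sites `β` -/
def clr (S β : Finset ℂ) : Set (ℂ × Bool) := {p | p.1 ∈ S ∧ (p.2 = true ↔ p.1 ∈ β)}

/-- mean over the colourings, `ℝ≥0∞` -/
def cavE (F : Set (ℂ × Bool) → ℝ≥0∞) (S : Finset ℂ) : ℝ≥0∞ :=
  (2⁻¹ : ℝ≥0∞) ^ S.card * ∑ β ∈ S.powerset, F (clr S β)

/-- mean over the colourings -/
def cav {E : Type*} [AddCommGroup E] [Module ℝ E] (F : Set (ℂ × Bool) → E) (S : Finset ℂ) : E :=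
  ((2⁻¹ : ℝ) ^ S.card) • ∑ β ∈ S.powerset, F (clr S β)

open Classical in
/-- sum over the subsets of a disjoint union -/
lemma sum_powerset_union {M : Type*} [AddCommMonoid M] {A B : Finset ℂ} (h : Disjoint A B)
    (f : Finset ℂ → M) : ∑ β ∈ (A ∪ B).powerset, f β =
      ∑ a ∈ A.powerset, ∑ b ∈ B.powerset, f (a ∪ b) := by
  rw [← Finset.sum_product']
  symm
  refine Finset.sum_bij' (fun p _ => p.1 ∪ p.2) (fun β _ => (β ∩ A, β ∩ B)) ?_ ?_ ?_ ?_ ?_
  · rintro ⟨a, b⟩ hp
    simp only [Finset.mem_product, Finset.mem_powerset] at hp ⊢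
    exact Finset.union_subset_union hp.1 hp.2
  · intro β hβ
    simp only [Finset.mem_product, Finset.mem_powerset] at hβ ⊢
    exact ⟨Finset.inter_subset_right, Finset.inter_subset_right⟩
  · rintro ⟨a, b⟩ hp
    simp only [Finset.mem_product, Finset.mem_powerset] at hp
    have h1 : Disjoint a B := Finset.disjoint_of_subset_left hp.1 h
    have h2 : Disjoint b A := Finset.disjoint_of_subset_left hp.2 h.symm
    ext1
    · ext x
      simp only [Finset.mem_inter, Finset.mem_union]
      constructor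
      · rintro ⟨h3 | h3, h4⟩
        · exact h3
        · exact absurd h4 (Finset.disjoint_left.1 h2 h3)
      · intro h3; exact ⟨Or.inl h3, hp.1 h3⟩
    · ext x
      simp only [Finset.mem_inter, Finset.mem_union]
      constructor
      · rintro ⟨h3 | h3, h4⟩
        · exact absurd h4 (Finset.disjoint_left.1 h1 h3)
        · exact h3
      · intro h3; exact ⟨Or.inr h3, hp.2 h3⟩
  · intro β hβ
    simp only [Finset.mem_powerset] at hβ
    ext x
    simp only [Finset.mem_inter, Finset.mem_union]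
    constructor
    · rintro (h3 | h3)
      · exact h3.1
      · exact h3.1
    · intro h3
      rcases Finset.mem_union.1 (hβ h3) with h4 | h4
      · exact Or.inl ⟨h3, h4⟩
      · exact Or.inr ⟨h3, h4⟩
  · rintro ⟨a, b⟩ _
    rfl

lemma clr_union {X : Type*} {C : Set ℂ} {F : Set (ℂ × Bool) → X} (hF : LocalOn C F)
    {A B a b : Finset ℂ} (hB : ∀ x ∈ B, x ∉ C) (ha : a ⊆ A) (hb : b ⊆ B) [DecidableEq ℂ] :
    F (clr (A ∪ B) (a ∪ b)) = F (clr A a) := by
  rw [hF (clr (A ∪ B) (a ∪ b)), hF (clr A a)]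
  congr 1
  ext p
  simp only [clr, mem_inter_iff, mem_ofPred_eq, Finset.mem_union]
  constructor
  · rintro ⟨⟨h1 | h1, h2⟩, h3⟩
    · refine ⟨⟨h1, h2.trans ⟨?_, Or.inl⟩⟩, h3⟩
      rintro (h4 | h4)
      · exact h4
      · exact absurd h3 (hB _ (hb h4))
    · exact absurd h3 (hB _ h1)
  · rintro ⟨⟨h1, h2⟩, h3⟩
    refine ⟨⟨Or.inl h1, h2.trans ⟨Or.inl, ?_⟩⟩, h3⟩
    rintro (h4 | h4)
    · exact h4
    · exact absurd h3 (hB _ (hb h4))

open Classical in
/-- only the sites in `C` matter -/
lemma cavE_local {C : Set ℂ} {F : Set (ℂ × Bool) → ℝ≥0∞} (hF : LocalOn C F) {A S : Finset ℂ}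
    (hAS : A ⊆ S) (h : ∀ x ∈ S, x ∈ C → x ∈ A) : cavE F S = cavE F A := by
  have hS : S = A ∪ (S \ A) := (Finset.union_sdiff_of_subset hAS).symm
  have hd : Disjoint A (S \ A) := Finset.disjoint_sdiff
  have hB : ∀ x ∈ S \ A, x ∉ C := by
    intro x hx hC
    rw [Finset.mem_sdiff] at hx
    exact hx.2 (h x hx.1 hC)
  generalize S \ A = B at hS hd hB
  subst hS
  unfold cavE
  rw [sum_powerset_union hd]
  have h1 : ∀ a ∈ A.powerset, ∑ b ∈ B.powerset, F (clr (A ∪ B) (a ∪ b)) =
      2 ^ B.card * F (clr A a) := by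
    intro a ha
    rw [Finset.sum_congr rfl fun b hb => clr_union hF hB (Finset.mem_powerset.1 ha)
      (Finset.mem_powerset.1 hb), Finset.sum_const, Finset.card_powerset, nsmul_eq_mul]
    push_cast
    rfl
  rw [Finset.sum_congr rfl h1, ← Finset.mul_sum, Finset.card_union_of_disjoint hd, pow_add,
    mul_assoc, ← mul_assoc ((2⁻¹ : ℝ≥0∞) ^ B.card), ← mul_pow,
    ENNReal.inv_mul_cancel (by norm_num) (by norm_num), one_pow, one_mul]

open Classical in
lemma cav_local {E : Type*} [AddCommGroup E] [Module ℝ E] {C : Set ℂ}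
    {F : Set (ℂ × Bool) → E} (hF : LocalOn C F) {A S : Finset ℂ}
    (hAS : A ⊆ S) (h : ∀ x ∈ S, x ∈ C → x ∈ A) : cav F S = cav F A := by
  have hS : S = A ∪ (S \ A) := (Finset.union_sdiff_of_subset hAS).symm
  have hd : Disjoint A (S \ A) := Finset.disjoint_sdiff
  have hB : ∀ x ∈ S \ A, x ∉ C := by
    intro x hx hC
    rw [Finset.mem_sdiff] at hx
    exact hx.2 (h x hx.1 hC)
  generalize S \ A = B at hS hd hB
  subst hS
  unfold cav
  rw [sum_powerset_union hd]
  have h1 : ∀ a ∈ A.powerset, ∑ b ∈ B.powerset, F (clr (A ∪ B) (a ∪ b)) =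
      ((2 : ℝ) ^ B.card) • F (clr A a) := by
    intro a ha
    rw [Finset.sum_congr rfl fun b hb => clr_union hF hB (Finset.mem_powerset.1 ha)
      (Finset.mem_powerset.1 hb), Finset.sum_const, Finset.card_powerset,
      ← Nat.cast_smul_eq_nsmul ℝ]
    push_cast
    rfl
  rw [Finset.sum_congr rfl h1, ← Finset.smul_sum, Finset.card_union_of_disjoint hd, pow_add,
    smul_smul, mul_assoc, ← mul_pow, inv_mul_cancel₀ (by norm_num), one_pow, mul_one]

/-! ## the mean over the colours of `n` points -/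

open Classical in
/-- colourings of the points `z i` as functions of the index -/
def cons {n : ℕ} (z : Fin n → ℂ) (b : Fin n → Bool) : Prop := ∀ i j, z i = z j → b i = b j

open Classical in
lemma sum_cons {M : Type*} [AddCommMonoid M] {n : ℕ} (z : Fin n → ℂ) (f : Finset ℂ → M) :
    ∑ β ∈ (Finset.univ.image z).powerset, f β =
      ∑ b ∈ Finset.univ.filter (cons z), f ((Finset.univ.filter fun i => b i = true).image z) := by
  refine Finset.sum_bij' (fun β _ => fun i => decide (z i ∈ β))
    (fun b _ => (Finset.univ.filter fun i => b i = true).image z) ?_ ?_ ?_ ?_ ?_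
  · intro β _
    simp only [Finset.mem_filter, Finset.mem_univ, true_and]
    intro i j hij
    simp only [hij]
  · intro b _
    rw [Finset.mem_powerset]
    exact Finset.image_subset_image (Finset.filter_subset _ _)
  · intro β hβ
    rw [Finset.mem_powerset] at hβ
    ext x
    simp only [Finset.mem_image, Finset.mem_filter, Finset.mem_univ, true_and, decide_eq_true_eq]
    constructor
    · rintro ⟨i, hi, rfl⟩; exact hi
    · intro hx
      obtain ⟨i, -, rfl⟩ := Finset.mem_image.1 (hβ hx)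
      exact ⟨i, hx, rfl⟩
  · intro b hb
    simp only [Finset.mem_filter, Finset.mem_univ, true_and] at hb
    funext i
    by_cases h : b i = true
    · rw [h, decide_eq_true_eq]
      exact Finset.mem_image.2 ⟨i, by simp [h], rfl⟩
    · have h' : b i = false := by simpa using h
      rw [h', decide_eq_false_iff_not, Finset.mem_image]
      rintro ⟨j, hj, hji⟩
      simp only [Finset.mem_filter, Finset.mem_univ, true_and] at hj
      rw [hb j i hji, h'] at hj
      exact Bool.noConfusion hj
  · intro β hβ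
    rw [Finset.mem_powerset] at hβ
    congr 1
    ext x
    simp only [Finset.mem_image, Finset.mem_filter, Finset.mem_univ, true_and, decide_eq_true_eq]
    constructor
    · intro hx
      obtain ⟨i, -, rfl⟩ := Finset.mem_image.1 (hβ hx)
      exact ⟨i, hx, rfl⟩
    · rintro ⟨i, hi, rfl⟩; exact hi

open Classical in
lemma clr_cons {n : ℕ} {z : Fin n → ℂ} {b : Fin n → Bool} (hb : cons z b) :
    clr (Finset.univ.image z) ((Finset.univ.filter fun i => b i = true).image z) =
      range fun i => (z i, b i) := by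
  ext p
  simp only [clr, mem_ofPred_eq, Finset.mem_image, Finset.mem_filter, Finset.mem_univ, true_and,
    mem_range]
  constructor
  · rintro ⟨⟨i, hi⟩, h⟩
    refine ⟨i, ?_⟩
    have : b i = p.2 := by
      by_cases hp : p.2 = true
      · obtain ⟨j, hj, hjp⟩ := h.1 hp
        rw [hp, ← hj]
        exact hb i j (hi.trans hjp.symm)
      · have hp' : p.2 = false := by simpa using hp
        rw [hp']
        by_contra hc
        have hc' : b i = true := by simpa using hc
        exact hp (h.2 ⟨i, hc', hi⟩)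
    exact Prod.ext hi this
  · rintro ⟨i, rfl⟩
    refine ⟨⟨i, rfl⟩, fun h => ⟨i, h, rfl⟩, ?_⟩
    rintro ⟨j, hj, hji⟩
    exact (hb j i hji) ▸ hj

open Classical in
/-- the finite set of a finite set -/
def fs (P : Set ℂ) : Finset ℂ := if h : P.Finite then h.toFinset else ∅

open Classical in
lemma fs_range {n : ℕ} (z : Fin n → ℂ) : fs (range z) = Finset.univ.image z := by
  unfold fs
  rw [dif_pos (finite_range z)]
  ext x
  simp

open Classical in
lemma card_image_cons {n : ℕ} (z : Fin n → ℂ) :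
    (2 : ℝ≥0∞) ^ (Finset.univ.image z).card = ∑ b : Fin n → Bool, if cons z b then 1 else 0 := by
  have h := sum_cons z (fun _ => (1 : ℝ≥0∞))
  rw [Finset.sum_const, Finset.card_powerset, nsmul_eq_mul, mul_one] at h
  push_cast at h
  rw [h, Finset.sum_filter]

open Classical in
/-- the mean over the colourings of the points `z` -/
lemma cavE_range {n : ℕ} (z : Fin n → ℂ) (F : Set (ℂ × Bool) → ℝ≥0∞) :
    cavE F (fs (range z)) = (∑ b : Fin n → Bool, if cons z b then (1 : ℝ≥0∞) else 0)⁻¹ *
      ∑ b : Fin n → Bool, if cons z b then F (range fun i => (z i, b i)) else 0 := by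
  unfold cavE
  rw [fs_range, sum_cons z, ← card_image_cons, ENNReal.inv_pow, ← Finset.sum_filter]
  congr 1
  refine Finset.sum_congr rfl fun b hb => ?_
  rw [clr_cons (Finset.mem_filter.1 hb).2]

open Classical in
lemma cavE_meas {F : Set (ℂ × Bool) → ℝ≥0∞} (hF : FM F) (n : ℕ) :
    Measurable fun z : Fin n → ℂ => cavE F (fs (range z)) := by
  simp only [cavE_range]
  have hc : ∀ b : Fin n → Bool, MeasurableSet {z : Fin n → ℂ | cons z b} := by
    intro b
    have : {z : Fin n → ℂ | cons z b} = ⋂ i, ⋂ j, {z : Fin n → ℂ | z i = z j → b i = b j} := by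
      ext z; simp [cons]
    rw [this]
    refine MeasurableSet.iInter fun i => MeasurableSet.iInter fun j => ?_
    by_cases h : b i = b j
    · have : {z : Fin n → ℂ | z i = z j → b i = b j} = univ := by ext z; simp [h]
      rw [this]; exact MeasurableSet.univ
    · have : {z : Fin n → ℂ | z i = z j → b i = b j} = {z | z i = z j}ᶜ := by ext z; simp [h]
      rw [this]
      exact (measurableSet_eq_fun (measurable_pi_apply i) (measurable_pi_apply j)).compl
  refine Measurable.mul (Measurable.inv ?_) ?_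
  · exact Finset.measurable_fun_sum _ fun b _ =>
      Measurable.ite (hc b) measurable_const measurable_const
  · refine Finset.measurable_fun_sum _ fun b _ => Measurable.ite (hc b) ?_ measurable_const
    exact (hF n).comp (measurable_pi_iff.2 fun i => (measurable_pi_apply i).prodMk measurable_const)

/-- almost every family of points is injective -/
lemma ae_inj (ν : Measure ℂ) [IsFiniteMeasure ν] (h : ∀ x, ν {x} = 0) (n : ℕ) :
    ∀ᵐ z ∂(Measure.pi fun _ : Fin n => ν), Function.Injective z := by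
  have h1 : ∀ i j : Fin n, i ≠ j → ∀ᵐ z ∂(Measure.pi fun _ : Fin n => ν), z i ≠ z j := by
    intro i j hij
    have h2 := PWx168.map_two (fun _ : Fin n => ν) hij
    have h3 : MeasurableSet (diagonal ℂ) := measurableSet_diagonal
    have h4 : (ν.prod ν) (diagonal ℂ) = 0 := by
      rw [Measure.prod_apply h3]
      have : ∀ x : ℂ, Prod.mk x ⁻¹' (diagonal ℂ) = {x} := by
        intro x; ext y; simp [eq_comm]
      simp only [this, h, lintegral_zero]
    have h5 : (Measure.pi fun _ : Fin n => ν) ((fun x => (x i, x j)) ⁻¹' (diagonal ℂ)) = 0 := by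
      rw [← Measure.map_apply ((measurable_pi_apply i).prodMk (measurable_pi_apply j)) h3, h2,
        Measure.smul_apply, h4, smul_zero]
    have h6 : {z : Fin n → ℂ | ¬ (z i ≠ z j)} = (fun x => (x i, x j)) ⁻¹' (diagonal ℂ) := by
      ext z; simp [diagonal]
    rw [ae_iff, h6]
    exact h5
  have h7 : ∀ᵐ z ∂(Measure.pi fun _ : Fin n => ν), ∀ i j : Fin n, i ≠ j → z i ≠ z j := by
    rw [ae_all_iff]
    intro i
    rw [ae_all_iff]
    intro j
    by_cases hij : i = j
    · exact Filter.Eventually.of_forall fun z h => absurd hij h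
    · filter_upwards [h1 i j hij] with z hz _
      exact hz
  filter_upwards [h7] with z hz i j hij
  by_contra hc
  exact hz i j hc hij

lemma nu_sing (x : ℂ) (B : Set ℂ) : nu ε B {x} = 0 := by
  unfold nu
  rw [Measure.smul_apply, smul_eq_mul]
  have : (volume.restrict B) {x} = 0 :=
    nonpos_iff_eq_zero.1 ((Measure.restrict_apply_le B {x}).trans_eq (by simp))
  rw [this, mul_zero]

/-- **the colours integrated out** -/
theorem J_colour (ν : Measure ℂ) [IsFiniteMeasure ν] (h : ∀ x, ν {x} = 0)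
    {F : Set (ℂ × Bool) → ℝ≥0∞} (hF : FM F) :
    J (ν.prod coin) F = J ν fun P => cavE F (fs P) := by
  classical
  unfold J Q
  congr 1
  · rw [← univ_prod_univ, Measure.prod_prod, measure_univ (μ := coin), mul_one]
  · refine tsum_congr fun n => ?_
    congr 1
    rw [P_split ν n hF]
    unfold P
    refine lintegral_congr_ae ?_
    filter_upwards [ae_inj ν h n] with z hz
    have hc : ∀ b : Fin n → Bool, cons z b := fun b i j hij => congrArg b (hz hij)
    rw [lint_coin, cavE_range]
    simp only [hc, if_true]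
    rw [Finset.sum_const, Finset.card_univ, Fintype.card_fun, Fintype.card_bool,
      Fintype.card_fin, nsmul_eq_mul, mul_one]
    push_cast
    rw [ENNReal.inv_pow]

/-- functionals of the positions only -/
theorem J_psn (ν : Measure ℂ) [IsFiniteMeasure ν] {f : Set ℂ → ℝ≥0∞} (hf : FM f) :
    J (ν.prod coin) (fun X => f (psn X)) = J ν f := by
  have hF : FM fun X : Set (ℂ × Bool) => f (psn X) := by
    intro n
    simp only [psn_range]
    exact (hf n).comp (measurable_pi_iff.2 fun i => measurable_fst.comp (measurable_pi_apply i))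
  unfold J Q
  congr 1
  · rw [← univ_prod_univ, Measure.prod_prod, measure_univ (μ := coin), mul_one]
  · refine tsum_congr fun n => ?_
    congr 1
    rw [P_split ν n hF]
    unfold P
    refine lintegral_congr fun z => ?_
    simp only [psn_range, lintegral_const, measure_univ, mul_one]

/-- the positions in `B` -/
lemma ps_meas {f : Set ℂ → ℝ≥0∞} (hf : FM f) {B : Set ℂ} (hB : MeasurableSet B) :
    FinMeas fun X : Set (ℂ × Bool) => f (psn X ∩ B) := by
  have h1 : FinMeas fun X : Set (ℂ × Bool) => f (psn X) := by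
    intro n
    simp only [psn_range]
    exact (hf n).comp (measurable_pi_iff.2 fun i => measurable_fst.comp (measurable_pi_apply i))
  have h2 := FinMeas_inter h1 hB
  simpa only [psn_inter] using h2

lemma ps_local {X : Type*} (f : Set ℂ → X) (B : Set ℂ) :
    LocalOn B fun S : Set (ℂ × Bool) => f (psn S ∩ B) := by
  intro S
  have : psn (S ∩ {p | p.1 ∈ B}) ∩ B = psn S ∩ B := by
    have e : psn (S ∩ {p | p.1 ∈ B}) = psn S ∩ B := psn_inter S B
    rw [e, inter_assoc, inter_self]
  simp only [this]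

/-- the law of the positions in `B` -/
theorem lint_psn (hε : 0 < ε) {B : Set ℂ} (hB : MeasurableSet B) (hb : Bornology.IsBounded B)
    {f : Set ℂ → ℝ≥0∞} (hf : FM f) :
    ∫⁻ ω, f (points ε ω ∩ B) ∂sampleLaw = J (nu ε B) f := by
  have := nu_fin hε hb
  have h1 := lint_one hε hB hb (ps_local f B) (ps_meas hf hB)
  simp only [psn_cfg] at h1
  rw [h1]
  have h2 : J (mu ε B) (fun X => f (psn X ∩ B)) = J (mu ε B) fun X => f (psn X) := by
    have := finite_mu' hε hb
    refine J_congr (mu_ae hε hB hb) fun S hS => ?_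
    congr 1
    rw [inter_eq_left]
    rintro _ ⟨p, hp, rfl⟩
    exact hS hp
  rw [h2]
  exact J_psn (nu ε B) hf

/-- **E F(cfg) = E (mean over the colourings of the sites)**; `S ω` = any finite set of points which
contains the points in `B` -/
theorem lint_cav (hε : 0 < ε) {B : Set ℂ} (hB : MeasurableSet B) (hb : Bornology.IsBounded B)
    {F : Set (ℂ × Bool) → ℝ≥0∞} (hF : LocalOn B F) (hm : FinMeas F) {S : Sample → Finset ℂ}
    (hS : ∀ᵐ ω ∂sampleLaw, (S ω : Set ℂ) ⊆ points ε ω ∧ points ε ω ∩ B ⊆ S ω) :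
    ∫⁻ ω, cavE F (S ω) ∂sampleLaw = ∫⁻ ω, F (cfg ε ω) ∂sampleLaw := by
  classical
  have := nu_fin hε hb
  have hm' : FM F := hm
  have h1 : FM fun P : Set ℂ => cavE F (fs P) := fun n => cavE_meas hm' n
  rw [lint_one hε hB hb hF hm]
  have h2 : J (mu ε B) F = J (nu ε B) fun P => cavE F (fs P) :=
    J_colour (nu ε B) (fun x => nu_sing x B) hm'
  rw [h2, ← lint_psn hε hB hb h1]
  refine lintegral_congr_ae ?_
  filter_upwards [hS] with ω hω
  have hfin : (points ε ω ∩ B).Finite := (Finset.finite_toSet (S ω)).subset hω.2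
  have e : fs (points ε ω ∩ B) = hfin.toFinset := by unfold fs; rw [dif_pos hfin]
  rw [e]
  refine cavE_local hF ?_ ?_
  · intro x hx
    rw [Set.Finite.mem_toFinset] at hx
    exact hω.2 hx
  · intro x hx hB'
    rw [Set.Finite.mem_toFinset]
    exact ⟨hω.1 hx, hB'⟩

/-- **R8**, `ℝ≥0∞` form: two independent colourings, `F` looks at the corridor `C`, `G` at the
inside `U`; `S ω` = sites -/
theorem lint_cav_mul (hε : 0 < ε) {C U : Set ℂ} (hC : MeasurableSet C)
    (hCb : Bornology.IsBounded C) (hU : MeasurableSet U) (hUb : Bornology.IsBounded U)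
    (hd : Disjoint C U) {F G : Set (ℂ × Bool) → ℝ≥0∞} (hF : LocalOn C F) (hG : LocalOn U G)
    (hm : FinMeas F) (hm' : FinMeas G) {S : Sample → Finset ℂ}
    (hS : ∀ᵐ ω ∂sampleLaw, (S ω : Set ℂ) ⊆ points ε ω ∧ points ε ω ∩ (C ∪ U) ⊆ S ω) :
    ∫⁻ ω, cavE F (S ω) * cavE G (S ω) ∂sampleLaw =
      (∫⁻ ω, F (cfg ε ω) ∂sampleLaw) * ∫⁻ ω, G (cfg ε ω) ∂sampleLaw := by
  classical
  have h1 : FM fun P : Set ℂ => cavE F (fs P) := fun n => cavE_meas (show FM F from hm) n
  have h2 : FM fun P : Set ℂ => cavE G (fs P) := fun n => cavE_meas (show FM G from hm') n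
  have key := lint_mul hε hC hCb hU hUb hd (ps_local (fun P => cavE F (fs P)) C)
    (ps_local (fun P => cavE G (fs P)) U) (ps_meas h1 hC) (ps_meas h2 hU)
  simp only [psn_cfg] at key
  have e : ∀ {D : Set ℂ} {H : Set (ℂ × Bool) → ℝ≥0∞} (ω : Sample), LocalOn D H →
      (S ω : Set ℂ) ⊆ points ε ω → points ε ω ∩ D ⊆ S ω →
      cavE H (S ω) = cavE H (fs (points ε ω ∩ D)) := by
    intro D H ω hH hω1 hω2
    have hfin : (points ε ω ∩ D).Finite := (Finset.finite_toSet (S ω)).subset hω2
    have e : fs (points ε ω ∩ D) = hfin.toFinset := by unfold fs; rw [dif_pos hfin]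
    rw [e]
    refine cavE_local hH ?_ ?_
    · intro x hx
      rw [Set.Finite.mem_toFinset] at hx
      exact hω2 hx
    · intro x hx hB'
      rw [Set.Finite.mem_toFinset]
      exact ⟨hω1 hx, hB'⟩
  have hSC : ∀ᵐ ω ∂sampleLaw, (S ω : Set ℂ) ⊆ points ε ω ∧ points ε ω ∩ C ⊆ S ω := by
    filter_upwards [hS] with ω hω
    exact ⟨hω.1, (inter_subset_inter_right _ subset_union_left).trans hω.2⟩
  have hSU : ∀ᵐ ω ∂sampleLaw, (S ω : Set ℂ) ⊆ points ε ω ∧ points ε ω ∩ U ⊆ S ω := by
    filter_upwards [hS] with ω hω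
    exact ⟨hω.1, (inter_subset_inter_right _ subset_union_right).trans hω.2⟩
  rw [← lint_cav hε hC hCb hF hm hSC, ← lint_cav hε hU hUb hG hm' hSU]
  have e1 : ∫⁻ ω, cavE F (S ω) * cavE G (S ω) ∂sampleLaw =
      ∫⁻ ω, cavE F (fs (points ε ω ∩ C)) * cavE G (fs (points ε ω ∩ U)) ∂sampleLaw := by
    refine lintegral_congr_ae ?_
    filter_upwards [hSC, hSU] with ω h3 h4
    rw [e ω hF h3.1 h3.2, e ω hG h4.1 h4.2]
  have e2 : ∫⁻ ω, cavE F (S ω) ∂sampleLaw =
      ∫⁻ ω, cavE F (fs (points ε ω ∩ C)) ∂sampleLaw := by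
    refine lintegral_congr_ae ?_
    filter_upwards [hSC] with ω h3
    rw [e ω hF h3.1 h3.2]
  have e3 : ∫⁻ ω, cavE G (S ω) ∂sampleLaw =
      ∫⁻ ω, cavE G (fs (points ε ω ∩ U)) ∂sampleLaw := by
    refine lintegral_congr_ae ?_
    filter_upwards [hSU] with ω h3
    rw [e ω hG h3.1 h3.2]
  rw [e1, e2, e3]
  exact key

end Crest.Agent.R143.IndLoc3x279
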