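import Crest.Agent.R143.GateB_838

/-!
# Row 143, CORE-C, block V, leaf V4: the neck gate (design helper117), definitions (helper921)

Coordinates `X z0 e s`, `Y z0 e s` of `GateA_838`; `V` = free sites, `β ⊆ V` = black sites.

* `Neck` : a vertical chain (`up`, `y`, `dn`) of the window `a0 < X < a1` which has only one black site
  `y` above the level `b0`; it reaches the level `b1`
* `NeckD` : gate predicate, `y` the neck, `x` the last site of the upper (white) arm
* `Neck.meet` : every black chain which crosses the window inside the strip `b0 < Y < b1` passes `y`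
* `Lk S A u v` : a chain of Delaunay neighbours inside the set `A`
* `Tile` : tile event: black link `y → y'`, white link `x → x'`, inside the region `R`
-/

set_option autoImplicit false

noncomputable section

open scoped Classical

namespace Crest.Agent.R143.Neckx921

open Crest.Agent.R143.B0x346 Crest.Agent.R143.DelGx806 Crest.Agent.R143.DelRx806
open Crest.Agent.R143.ToolWx838 Crest.Agent.R143.Blkx838 Crest.Agent.R143.ToolW2x838
open Crest.Agent.R143.ToolW3x838 Crest.Agent.R143.Circ4x838 Crest.Agent.R143.Harx315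
open Crest.Agent.R143.RB0x838 Crest.Agent.R143.CircPx838 Crest.Agent.R143.Gatex838

variable {S V β : Finset ℂ} {z0 e : ℂ} {a0 a1 b0 b1 m : ℝ}

/-- **neck**: vertical chain `up ++ y :: dn` with only one black site `y` above the level `b0` -/
structure Neck (S : Finset ℂ) (z0 e : ℂ) (a0 a1 b0 b1 m : ℝ) (V β : Finset ℂ) (up : List ℂ) (y : ℂ)
    (dn : List ℂ) : Prop where
  nu : up ≠ []
  nd : dn ≠ []
  adj : ∀ p ∈ prs (up ++ y :: dn), DE S p.1 p.2
  cu : ∀ s ∈ up, s ∈ V ∧ s ∉ β
  cd : ∀ s ∈ dn, b0 < Y z0 e s → s ∈ V ∧ s ∉ β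
  cy : y ∈ V ∧ y ∈ β
  win : ∀ s ∈ up ++ y :: dn, (a0 < X z0 e s ∧ X z0 e s < a1) ∧ b0 - m ≤ Y z0 e s ∧ Y z0 e s ≤ b1 + m
  yb : b0 < Y z0 e y ∧ Y z0 e y < b1
  top : b1 ≤ Y z0 e (up.head nu)
  bot : Y z0 e (dn.getLast nd) ≤ b0
  /-- the upper arm stays above the level `b0` -/
  upb : ∀ s ∈ up, b0 < Y z0 e s

/-- **gate predicate** -/
def NeckD (S : Finset ℂ) (z0 e : ℂ) (a0 a1 b0 b1 m : ℝ) (V β : Finset ℂ) (y x : ℂ) : Prop :=
  ∃ up dn, ∃ h : Neck S z0 e a0 a1 b0 b1 m V β up y dn, up.getLast h.nu = x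

/-- **every black chain crossing the window passes the neck** -/
theorem Neck.meet {up dn : List ℂ} {y : ℂ} (h : Neck S z0 e a0 a1 b0 b1 m V β up y dn)
    (hS : GP (S : Set ℂ)) (he : e ≠ 0) {P : List ℂ} (hP : P ≠ []) (dP : ∀ p ∈ prs P, DE S p.1 p.2)
    (cP : ∀ s ∈ P, s ∈ β) (hPy : ∀ s ∈ P, b0 < Y z0 e s ∧ Y z0 e s < b1)
    (h0 : X z0 e (P.head hP) ≤ a0) (h1 : a1 ≤ X z0 e (P.getLast hP)) : y ∈ P := by
  -- the vertical chain from the bottom to the top
  set Q : List ℂ := (up ++ y :: dn).reverse with hQ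
  have hQn : Q ≠ [] := by rw [hQ]; simp
  have dQ : ∀ p ∈ prs Q, DE S p.1 p.2 := by
    intro p hp
    rw [hQ, prs_reverse, List.mem_reverse, List.mem_map] at hp
    obtain ⟨q, hq, rfl⟩ := hp
    exact (h.adj q hq).symm
  have hl : (up ++ y :: dn).getLast (by simp) = dn.getLast h.nd := by
    rw [List.getLast_append_of_ne_nil _ (by simp), List.getLast_cons h.nd]
  have hh : (up ++ y :: dn).head (by simp) = up.head h.nu := by
    rw [List.head_append_of_ne_nil h.nu]
  obtain ⟨s, hs1, hs2⟩ := cross_e hS he hP hQn dP dQ hPy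
    (fun a ha => (h.win a (by rw [hQ, List.mem_reverse] at ha; exact ha)).1) h0 h1
    (by
      simp only [hQ]
      rw [List.head_reverse, hl]
      exact h.bot)
    (by
      simp only [hQ]
      rw [List.getLast_reverse, hh]
      exact h.top)
  rw [hQ, List.mem_reverse, List.mem_append, List.mem_cons] at hs2
  rcases hs2 with hs2 | hs2 | hs2
  · exact absurd (cP s hs1) (h.cu s hs2).2
  · rwa [← hs2]
  · exact absurd (cP s hs1) (h.cd s hs2 (hPy s hs1).1).2

/-- the last site of the upper arm is a neighbour of the neck -/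
theorem Neck.de {up dn : List ℂ} {y : ℂ} (h : Neck S z0 e a0 a1 b0 b1 m V β up y dn) :
    DE S (up.getLast h.nu) y := by
  have h1 := h.adj
  rw [← isChain_iff_prs, List.isChain_append] at h1
  exact h1.2.2 _ (by rw [List.getLast?_eq_some_getLast h.nu]; rfl) _ (by simp)

/-! ### links and tile events -/

/-- a chain of Delaunay neighbours inside `A` -/
def Lk (S : Finset ℂ) (A : Set ℂ) (u v : ℂ) : Prop :=
  (u ∈ A ∧ v ∈ A) ∧ Relation.ReflTransGen (fun p q => DE S p q ∧ p ∈ A ∧ q ∈ A) u v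

theorem Lk.refl {A : Set ℂ} {u : ℂ} (h : u ∈ A) : Lk S A u u := ⟨⟨h, h⟩, .refl⟩

theorem Lk.mono {A B : Set ℂ} {u v : ℂ} (h : Lk S A u v) (hAB : A ⊆ B) : Lk S B u v :=
  ⟨⟨hAB h.1.1, hAB h.1.2⟩, Relation.ReflTransGen.mono
    (fun _ _ h => ⟨h.1, hAB h.2.1, hAB h.2.2⟩) _ _ h.2⟩

theorem Lk.trans {A : Set ℂ} {u v w : ℂ} (h : Lk S A u v) (h' : Lk S A v w) : Lk S A u w :=
  ⟨⟨h.1.1, h'.1.2⟩, h.2.trans h'.2⟩

theorem Lk.symm {A : Set ℂ} {u v : ℂ} (h : Lk S A u v) : Lk S A v u := by
  refine ⟨⟨h.1.2, h.1.1⟩, ?_⟩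
  obtain ⟨-, h⟩ := h
  induction h with
  | refl => exact .refl
  | tail _ h1 ih => exact .head ⟨h1.1.symm, h1.2.2, h1.2.1⟩ ih

/-- the sites of a list chain are linked -/
theorem lk_list {A : Set ℂ} {l : List ℂ} (hl : ∀ p ∈ prs l, DE S p.1 p.2) (hA : ∀ s ∈ l, s ∈ A)
    {u v : ℂ} (hu : u ∈ l) (hv : v ∈ l) : Lk S A u v := by
  have key : ∀ l : List ℂ, (∀ p ∈ prs l, DE S p.1 p.2) → (∀ s ∈ l, s ∈ A) →
      ∀ u ∈ l, ∀ v ∈ l, Lk S A u v := by
    intro l
    induction l with
    | nil => intro _ _ u hu; simp at hu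
    | cons a l ih =>
      intro hd hA'
      cases l with
      | nil =>
        intro u hu v hv
        rw [List.mem_singleton] at hu hv
        rw [hu, hv]
        exact Lk.refl (hA' a (by simp))
      | cons b l =>
        have ih' := ih (fun p hp => hd p (by rw [prs]; exact List.mem_cons_of_mem _ hp))
          (fun s hs => hA' s (List.mem_cons_of_mem _ hs))
        have hab : Lk S A a b := ⟨⟨hA' a (by simp), hA' b (by simp)⟩,
          .single ⟨hd (a, b) (by rw [prs]; simp), hA' a (by simp), hA' b (by simp)⟩⟩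
        have h1 : ∀ u ∈ a :: b :: l, Lk S A b u := by
          intro u hu
          rcases List.mem_cons.1 hu with rfl | hu
          · exact hab.symm
          · exact ih' b (by simp) u hu
        intro u hu v hv
        exact (h1 u hu).symm.trans (h1 v hv)
  exact key l hl hA u hu v hv

/-- **tile event** (the two links): black link `y → y'` and white link `x → x'` inside `R` -/
def Tile (S V β : Finset ℂ) (R : Set ℂ) (y x y' x' : ℂ) : Prop :=
  Lk S {s | s ∈ β ∧ s ∈ R} y y' ∧ Lk S {s | (s ∈ V ∧ s ∉ β) ∧ s ∈ R} x x'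

end Crest.Agent.R143.Neckx921
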