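import Crest.Agent.R143.PP0_831

/-!
# Row 143 (S0194), part A free route: SUMMATION OVER SCALES (helper302)

* `sh k` : the shift of the samples by the Gaussian integer `k` preserves `sampleLaw`
* `Fam O` : a family of weighted objects (loops, blocks, ...) attached to a coloured configuration,
  covariant under translations and dilations (the weight is of dimension `length ^ 2`)
* `Fam.Ph U X` : total weight of the objects of `X` with support in `U`;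
  `Fam.Ps κ U X` : the same for the objects with support in `U` which is in no square of side `κ`
* `Fam.mass` : if the mean weight of a square of side `L` is at most `C L ^ 2` (mesh `1`), then the
  mean weight of the macroscopic objects tends to `0`: `E Ps κ U (cfg ε) → 0` as `ε → 0`, for every
  `κ > 0` and every bounded `U`. No measurability and no locality is used.
-/

set_option autoImplicit false

noncomputable section

open scoped Classical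

namespace Crest.Agent.R143.SumScx302

open MeasureTheory Set Filter Topology
open Crest.ProbabilityR.Voronoi
open Crest.Agent.R143.PP0x831
open scoped ENNReal

/-! ### stationarity -/

/-- shift by the Gaussian integer `k` -/
def shf (k : ℤ × ℤ) (ω : Sample) : Sample := (fun i => ω.1 (i - k), fun i => ω.2 (i - k))

theorem measurable_shf (k : ℤ × ℤ) : Measurable (shf k) := by
  unfold shf
  refine Measurable.prodMk ?_ ?_
  · exact measurable_pi_lambda _ fun i => (measurable_pi_apply (i - k)).comp measurable_fst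
  · exact measurable_pi_lambda _ fun i => (measurable_pi_apply (i - k)).comp measurable_snd

/-- the shift as an equivalence -/
def sh (k : ℤ × ℤ) : Sample ≃ᵐ Sample where
  toFun := shf k
  invFun := shf (-k)
  left_inv ω := by
    unfold shf
    simp
  right_inv ω := by
    unfold shf
    simp
  measurable_toFun := measurable_shf k
  measurable_invFun := measurable_shf (-k)

theorem mp_sh (k : ℤ × ℤ) : MeasurePreserving (sh k) sampleLaw sampleLaw := by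
  have key : ∀ {X : Type} [MeasurableSpace X] (μ : Measure X) [IsProbabilityMeasure μ],
      MeasurePreserving (fun (ω : ℤ × ℤ → X) (i : ℤ × ℤ) => ω (i - k))
        (Measure.infinitePi fun _ : ℤ × ℤ => μ) (Measure.infinitePi fun _ : ℤ × ℤ => μ) := by
    intro X _ μ _
    refine ⟨measurable_pi_lambda _ fun i => measurable_pi_apply (i - k), ?_⟩
    exact Measure.map_infinitePi_infinitePi_of_inj (P := fun _ : ℤ × ℤ => μ)
      (f := fun i : ℤ × ℤ => i - k) (fun a b h => sub_left_injective h)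
  exact MeasurePreserving.prod (key _) (key _)

/-- translation of a coloured set -/
def trX (z : ℂ) (X : Set (ℂ × Bool)) : Set (ℂ × Bool) := (fun p => (p.1 + z, p.2)) '' X

/-- dilation of a coloured set -/
def scX (r : ℝ) (X : Set (ℂ × Bool)) : Set (ℂ × Bool) := (fun p => ((r : ℂ) * p.1, p.2)) '' X

/-- Gaussian integer as a complex number -/
def gi (k : ℤ × ℤ) : ℂ := (k.1 : ℂ) + (k.2 : ℂ) * Complex.I

theorem gi_re (k : ℤ × ℤ) : (gi k).re = k.1 := by simp [gi]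

theorem gi_im (k : ℤ × ℤ) : (gi k).im = k.2 := by simp [gi]

theorem cfg_sh (k : ℤ × ℤ) (ω : Sample) : cfg 1 (sh k ω) = trX (gi k) (cfg 1 ω) := by
  have hp : ∀ (i : ℤ × ℤ) (j : ℕ), point 1 (sh k ω) i j = point 1 ω (i - k) j + gi k := by
    intro i j
    show point 1 (shf k ω) i j = _
    unfold point shf gi
    simp only [Prod.fst_sub, Prod.snd_sub]
    push_cast
    ring
  have hc : ∀ (i : ℤ × ℤ) (j : ℕ), col (sh k ω) i j = col ω (i - k) j := fun i j => rfl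
  ext p
  unfold cfg trX
  rw [image_image]
  constructor
  · rintro ⟨⟨i1, i2, j⟩, h, rfl⟩
    refine ⟨(i1 - k.1, i2 - k.2, j), h, ?_⟩
    show (point 1 ω ((i1, i2) - k) j + gi k, col ω ((i1, i2) - k) j) = _
    rw [← hp, ← hc]
  · rintro ⟨⟨i1, i2, j⟩, h, rfl⟩
    refine ⟨(i1 + k.1, i2 + k.2, j), ?_, ?_⟩
    · show j < ω.1 ((i1 + k.1, i2 + k.2) - k)
      have e : ((i1 + k.1, i2 + k.2) - k : ℤ × ℤ) = (i1, i2) := by
        ext <;> simp
      rw [e]; exact h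
    · show (point 1 (sh k ω) (i1 + k.1, i2 + k.2) j, col (sh k ω) (i1 + k.1, i2 + k.2) j) = _
      rw [hp, hc]
      have e : ((i1 + k.1, i2 + k.2) - k : ℤ × ℤ) = (i1, i2) := by
        ext <;> simp
      rw [e]

theorem cfg_eps (ε : ℝ) (ω : Sample) : cfg ε ω = scX ε (cfg 1 ω) := by
  unfold cfg scX
  rw [image_image]
  refine image_congr fun p _ => ?_
  unfold point
  simp

/-- **stationarity** (no measurability) -/
theorem stat (k : ℤ × ℤ) (F : Set (ℂ × Bool) → ℝ≥0∞) :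
    ∫⁻ ω, F (trX (gi k) (cfg 1 ω)) ∂sampleLaw = ∫⁻ ω, F (cfg 1 ω) ∂sampleLaw := by
  have h := (mp_sh k).lintegral_comp_emb (sh k).measurableEmbedding fun ω => F (cfg 1 ω)
  rw [← h]
  refine lintegral_congr fun ω => ?_
  rw [cfg_sh]

/-! ### squares -/

/-- half open square -/
def sq (z : ℂ) (L : ℝ) : Set ℂ :=
  {w | z.re ≤ w.re ∧ w.re < z.re + L ∧ z.im ≤ w.im ∧ w.im < z.im + L}

theorem sq_mono {z : ℂ} {L L' : ℝ} (h : L ≤ L') : sq z L ⊆ sq z L' := by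
  rintro w ⟨h1, h2, h3, h4⟩
  exact ⟨h1, by linarith, h3, by linarith⟩

theorem sq_tr (z u : ℂ) (L : ℝ) : (fun w => w + u) '' sq z L = sq (z + u) L := by
  ext w
  constructor
  · rintro ⟨v, ⟨h1, h2, h3, h4⟩, rfl⟩
    refine ⟨?_, ?_, ?_, ?_⟩ <;> simp only [Complex.add_re, Complex.add_im] <;> linarith
  · rintro ⟨h1, h2, h3, h4⟩
    simp only [Complex.add_re, Complex.add_im] at h1 h2 h3 h4
    refine ⟨w - u, ⟨?_, ?_, ?_, ?_⟩, by simp⟩ <;>
      simp only [Complex.sub_re, Complex.sub_im] <;> linarith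

theorem sq_sc {r : ℝ} (hr : 0 < r) (z : ℂ) (L : ℝ) :
    (fun w => (r : ℂ) * w) '' sq z L = sq ((r : ℂ) * z) (r * L) := by
  ext w
  constructor
  · rintro ⟨v, ⟨h1, h2, h3, h4⟩, rfl⟩
    refine ⟨?_, ?_, ?_, ?_⟩ <;> simp only [Complex.re_ofReal_mul, Complex.im_ofReal_mul] <;>
      nlinarith
  · rintro ⟨h1, h2, h3, h4⟩
    simp only [Complex.re_ofReal_mul, Complex.im_ofReal_mul] at h1 h2 h3 h4
    have e : w = (r : ℂ) * ((r⁻¹ : ℝ) * w) := by
      rw [← mul_assoc, ← Complex.ofReal_mul, mul_inv_cancel₀ hr.ne']; simp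
    refine ⟨((r⁻¹ : ℝ) : ℂ) * w, ⟨?_, ?_, ?_, ?_⟩, e.symm⟩ <;>
      simp only [Complex.re_ofReal_mul, Complex.im_ofReal_mul]
    · rw [← div_eq_inv_mul, le_div_iff₀ hr]; linarith
    · rw [← div_eq_inv_mul, div_lt_iff₀ hr]; linarith
    · rw [← div_eq_inv_mul, le_div_iff₀ hr]; linarith
    · rw [← div_eq_inv_mul, div_lt_iff₀ hr]; linarith

/-! ### families -/

/-- weighted objects attached to a coloured configuration -/
structure Fam (O : Type) where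
  Ob : Set (ℂ × Bool) → Set O
  sup : O → Set ℂ
  wt : O → ℝ≥0∞
  ne : ∀ X, ∀ o ∈ Ob X, (sup o).Nonempty
  tr : ℂ → O ≃ O
  tr_ob : ∀ z X o, tr z o ∈ Ob (trX z X) ↔ o ∈ Ob X
  tr_sup : ∀ z o, sup (tr z o) = (fun w => w + z) '' sup o
  tr_wt : ∀ z o, wt (tr z o) = wt o
  sc : ∀ r : ℝ, 0 < r → (O ≃ O)
  sc_ob : ∀ r hr X o, sc r hr o ∈ Ob (scX r X) ↔ o ∈ Ob X
  sc_sup : ∀ r hr o, sup (sc r hr o) = (fun w => (r : ℂ) * w) '' sup o
  sc_wt : ∀ r hr o, wt (sc r hr o) = ENNReal.ofReal (r ^ 2) * wt o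

variable {O : Type} (F : Fam O)

/-- total weight of the objects with support in `U` -/
def Fam.Ph (U : Set ℂ) (X : Set (ℂ × Bool)) : ℝ≥0∞ :=
  ∑' o, if o ∈ F.Ob X ∧ F.sup o ⊆ U then F.wt o else 0

/-- total weight of the objects with support in `U`, but in no square of side `κ` -/
def Fam.Ps (κ : ℝ) (U : Set ℂ) (X : Set (ℂ × Bool)) : ℝ≥0∞ :=
  ∑' o, if o ∈ F.Ob X ∧ F.sup o ⊆ U ∧ ∀ z, ¬ F.sup o ⊆ sq z κ then F.wt o else 0

theorem Fam.Ph_mono {U U' : Set ℂ} (h : U ⊆ U') (X : Set (ℂ × Bool)) : F.Ph U X ≤ F.Ph U' X := by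
  refine ENNReal.tsum_le_tsum fun o => ?_
  by_cases h1 : o ∈ F.Ob X ∧ F.sup o ⊆ U
  · rw [if_pos h1, if_pos ⟨h1.1, h1.2.trans h⟩]
  · rw [if_neg h1]; exact zero_le

theorem Fam.Ps_mono {κ κ' : ℝ} {U U' : Set ℂ} (h : U ⊆ U') (hκ : κ' ≤ κ) (X : Set (ℂ × Bool)) :
    F.Ps κ U X ≤ F.Ps κ' U' X := by
  refine ENNReal.tsum_le_tsum fun o => ?_
  by_cases h1 : o ∈ F.Ob X ∧ F.sup o ⊆ U ∧ ∀ z, ¬ F.sup o ⊆ sq z κ
  · rw [if_pos h1, if_pos ⟨h1.1, h1.2.1.trans h, fun z hz => h1.2.2 z (hz.trans (sq_mono hκ))⟩]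
  · rw [if_neg h1]; exact zero_le

theorem image_add_subset {z : ℂ} {A B : Set ℂ} :
    (fun w => w + z) '' A ⊆ (fun w => w + z) '' B ↔ A ⊆ B :=
  image_subset_image_iff (add_left_injective z)

theorem image_mul_subset {r : ℝ} (hr : 0 < r) {A B : Set ℂ} :
    (fun w => (r : ℂ) * w) '' A ⊆ (fun w => (r : ℂ) * w) '' B ↔ A ⊆ B :=
  image_subset_image_iff (mul_right_injective₀ (Complex.ofReal_ne_zero.2 hr.ne'))

theorem Fam.Ph_tr (z : ℂ) (U : Set ℂ) (X : Set (ℂ × Bool)) :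
    F.Ph ((fun w => w + z) '' U) (trX z X) = F.Ph U X := by
  unfold Fam.Ph
  rw [← (F.tr z).tsum_eq]
  refine tsum_congr fun o => ?_
  rw [F.tr_ob, F.tr_sup, F.tr_wt, image_add_subset]

theorem Fam.Ps_tr (κ : ℝ) (z : ℂ) (U : Set ℂ) (X : Set (ℂ × Bool)) :
    F.Ps κ ((fun w => w + z) '' U) (trX z X) = F.Ps κ U X := by
  unfold Fam.Ps
  rw [← (F.tr z).tsum_eq]
  refine tsum_congr fun o => ?_
  rw [F.tr_ob, F.tr_sup, F.tr_wt, image_add_subset]
  have e : (∀ u, ¬ (fun w => w + z) '' F.sup o ⊆ sq u κ) ↔ ∀ u, ¬ F.sup o ⊆ sq u κ := by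
    constructor
    · intro h u hu
      apply h (u + z)
      rw [← sq_tr]
      exact image_mono hu
    · intro h u hu
      apply h (u - z)
      rw [← image_add_subset (z := z), sq_tr, sub_add_cancel]
      exact hu
  rw [e]

theorem Fam.Ps_sc (κ : ℝ) {r : ℝ} (hr : 0 < r) (U : Set ℂ) (X : Set (ℂ × Bool)) :
    F.Ps (r * κ) ((fun w => (r : ℂ) * w) '' U) (scX r X) = ENNReal.ofReal (r ^ 2) * F.Ps κ U X := by
  unfold Fam.Ps
  rw [← (F.sc r hr).tsum_eq, ← ENNReal.tsum_mul_left]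
  refine tsum_congr fun o => ?_
  rw [F.sc_ob, F.sc_sup, F.sc_wt, image_mul_subset hr]
  have e : (∀ u, ¬ (fun w => (r : ℂ) * w) '' F.sup o ⊆ sq u (r * κ)) ↔
      ∀ u, ¬ F.sup o ⊆ sq u κ := by
    constructor
    · intro h u hu
      apply h ((r : ℂ) * u)
      rw [← sq_sc hr]
      exact image_mono hu
    · intro h u hu
      apply h (((r⁻¹ : ℝ) : ℂ) * u)
      rw [← image_mul_subset hr, sq_sc hr, ← mul_assoc, ← Complex.ofReal_mul,
        mul_inv_cancel₀ hr.ne', Complex.ofReal_one, one_mul]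
      exact hu
  rw [e]
  split_ifs <;> simp

/-! ### superadditivity -/

/-- the sub-squares of side `L` -/
def sub (L : ℕ) (p : ℕ × ℕ) : Set ℂ := sq (((p.1 * L : ℕ) : ℂ) + ((p.2 * L : ℕ) : ℂ) * Complex.I) L

theorem sub_eq (L : ℕ) (p : ℕ × ℕ) :
    sub L p = (fun w => w + gi ((p.1 * L : ℕ), (p.2 * L : ℕ))) '' sq 0 L := by
  rw [sq_tr]
  unfold sub gi
  simp

theorem mem_sub {L : ℕ} {p : ℕ × ℕ} {w : ℂ} : w ∈ sub L p ↔
    (p.1 * L : ℝ) ≤ w.re ∧ w.re < p.1 * L + L ∧ (p.2 * L : ℝ) ≤ w.im ∧ w.im < p.2 * L + L := by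
  unfold sub sq
  simp

theorem sub_disj {L : ℕ} {p q : ℕ × ℕ} {w : ℂ} (hp : w ∈ sub L p) (hq : w ∈ sub L q) : p = q := by
  rw [mem_sub] at hp hq
  obtain ⟨a1, a2, a3, a4⟩ := hp
  obtain ⟨b1, b2, b3, b4⟩ := hq
  have key : ∀ {m n : ℕ} {t : ℝ}, (m * L : ℝ) ≤ t → t < n * L + L → m ≤ n := by
    intro m n t h1 h2
    have h3 : (m * L : ℝ) < ((n + 1 : ℕ) : ℝ) * L := by push_cast; linarith
    have h4 : m < n + 1 := by
      by_contra hc
      push Not at hc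
      have h5 : ((n + 1 : ℕ) : ℝ) ≤ m := by exact_mod_cast hc
      have h6 : (0 : ℝ) ≤ L := Nat.cast_nonneg L
      nlinarith
    omega
  exact Prod.ext (le_antisymm (key a1 b2) (key b1 a2)) (le_antisymm (key a3 b4) (key b3 a4))

theorem sub_sub {L k : ℕ} {p : ℕ × ℕ} (hp : p ∈ Finset.range k ×ˢ Finset.range k) :
    sub L p ⊆ sq 0 ((k * L : ℕ) : ℝ) := by
  intro w hw
  rw [mem_sub] at hw
  obtain ⟨h1, h2⟩ := Finset.mem_product.1 hp
  have h3 : p.1 + 1 ≤ k := Finset.mem_range.1 h1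
  have h4 : p.2 + 1 ≤ k := Finset.mem_range.1 h2
  have h3' : (p.1 : ℝ) + 1 ≤ k := by exact_mod_cast h3
  have h4' : (p.2 : ℝ) + 1 ≤ k := by exact_mod_cast h4
  have h5 : (0 : ℝ) ≤ L := Nat.cast_nonneg L
  have h6 : (0 : ℝ) ≤ p.1 := Nat.cast_nonneg _
  have h7 : (0 : ℝ) ≤ p.2 := Nat.cast_nonneg _
  obtain ⟨a1, a2, a3, a4⟩ := hw
  refine ⟨?_, ?_, ?_, ?_⟩
  · simp only [Complex.zero_re]; nlinarith
  · simp only [Complex.zero_re]; push_cast; nlinarith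
  · simp only [Complex.zero_im]; nlinarith
  · simp only [Complex.zero_im]; push_cast; nlinarith

/-- pointwise superadditivity -/
theorem Fam.super_pt (L k : ℕ) (X : Set (ℂ × Bool)) :
    F.Ps L (sq 0 ((k * L : ℕ) : ℝ)) X + ∑ p ∈ Finset.range k ×ˢ Finset.range k, F.Ph (sub L p) X ≤
      F.Ph (sq 0 ((k * L : ℕ) : ℝ)) X := by
  unfold Fam.Ps Fam.Ph
  rw [← Summable.tsum_finsetSum (fun p _ => ENNReal.summable), ← ENNReal.tsum_add]
  refine ENNReal.tsum_le_tsum fun o => ?_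
  by_cases ho : o ∈ F.Ob X
  swap
  · simp [ho]
  by_cases h0 : F.sup o ⊆ sq 0 ((k * L : ℕ) : ℝ)
  swap
  · have h1 : ∀ p ∈ Finset.range k ×ˢ Finset.range k,
        (if o ∈ F.Ob X ∧ F.sup o ⊆ sub L p then F.wt o else 0) = 0 := by
      intro p hp
      rw [if_neg]
      exact fun h => h0 (h.2.trans (sub_sub hp))
    rw [Finset.sum_congr rfl h1, Finset.sum_const_zero, if_neg fun h => h0 h.2.1,
      if_neg fun h => h0 h.2, add_zero]
  by_cases h2 : ∃ p ∈ Finset.range k ×ˢ Finset.range k, F.sup o ⊆ sub L p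
  · obtain ⟨p, hp, h3⟩ := h2
    have h4 : ∀ q ∈ Finset.range k ×ˢ Finset.range k,
        (if o ∈ F.Ob X ∧ F.sup o ⊆ sub L q then F.wt o else 0) = if q = p then F.wt o else 0 := by
      intro q _
      by_cases hq : q = p
      · rw [if_pos hq, hq, if_pos ⟨ho, h3⟩]
      · rw [if_neg hq, if_neg]
        rintro ⟨-, h5⟩
        obtain ⟨w, hw⟩ := F.ne X o ho
        exact hq (sub_disj (h5 hw) (h3 hw))
    have e1 : (if o ∈ F.Ob X ∧ F.sup o ⊆ sq 0 ((k * L : ℕ) : ℝ) then F.wt o else 0) = F.wt o :=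
      if_pos ⟨ho, h0⟩
    have e2 : (if o ∈ F.Ob X ∧ F.sup o ⊆ sq 0 ((k * L : ℕ) : ℝ) ∧ ∀ z, ¬ F.sup o ⊆ sq z L then
        F.wt o else 0) = 0 := if_neg (fun h => h.2.2 _ h3)
    rw [Finset.sum_congr rfl h4, Finset.sum_ite_eq' _ p, if_pos hp, e1, e2, zero_add]
  · push Not at h2
    have h4 : ∀ q ∈ Finset.range k ×ˢ Finset.range k,
        (if o ∈ F.Ob X ∧ F.sup o ⊆ sub L q then F.wt o else 0) = 0 := by
      intro q hq
      rw [if_neg]
      exact fun h => h2 q hq h.2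
    have e1 : (if o ∈ F.Ob X ∧ F.sup o ⊆ sq 0 ((k * L : ℕ) : ℝ) then F.wt o else 0) = F.wt o :=
      if_pos ⟨ho, h0⟩
    rw [Finset.sum_congr rfl h4, Finset.sum_const_zero, add_zero, e1]
    split_ifs
    · exact le_rfl
    · exact zero_le

/-- mean weight of the square of side `L`, mesh `1` -/
def Fam.a (L : ℕ) : ℝ≥0∞ := ∫⁻ ω, F.Ph (sq 0 L) (cfg 1 ω) ∂sampleLaw

theorem le_lint_sum {α β : Type} [MeasurableSpace α] (μ : Measure α) (s : Finset β)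
    (f : β → α → ℝ≥0∞) : ∑ b ∈ s, ∫⁻ x, f b x ∂μ ≤ ∫⁻ x, ∑ b ∈ s, f b x ∂μ := by
  induction s using Finset.induction_on with
  | empty => simp
  | insert b s hb ih =>
    rw [Finset.sum_insert hb]
    calc ∫⁻ x, f b x ∂μ + ∑ b ∈ s, ∫⁻ x, f b x ∂μ
        ≤ ∫⁻ x, f b x ∂μ + ∫⁻ x, ∑ b ∈ s, f b x ∂μ := by gcongr
      _ ≤ ∫⁻ x, (f b x + ∑ b ∈ s, f b x) ∂μ := le_lintegral_add _ _
      _ = _ := lintegral_congr fun x => by rw [Finset.sum_insert hb]

theorem Fam.a_sub (L : ℕ) (p : ℕ × ℕ) :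
    ∫⁻ ω, F.Ph (sub L p) (cfg 1 ω) ∂sampleLaw = F.a L := by
  unfold Fam.a
  rw [← stat ((p.1 * L : ℕ), (p.2 * L : ℕ)) fun X => F.Ph (sub L p) X]
  refine lintegral_congr fun ω => ?_
  rw [sub_eq, F.Ph_tr]

theorem Fam.super (L k : ℕ) :
    ∫⁻ ω, F.Ps L (sq 0 ((k * L : ℕ) : ℝ)) (cfg 1 ω) ∂sampleLaw + (k : ℝ≥0∞) ^ 2 * F.a L ≤
      F.a (k * L) := by
  have h1 : (k : ℝ≥0∞) ^ 2 * F.a L =
      ∑ p ∈ Finset.range k ×ˢ Finset.range k, ∫⁻ ω, F.Ph (sub L p) (cfg 1 ω) ∂sampleLaw := by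
    rw [Finset.sum_congr rfl fun p _ => F.a_sub L p, Finset.sum_const, Finset.card_product,
      Finset.card_range, nsmul_eq_mul]
    push_cast
    ring
  rw [h1]
  calc _ ≤ ∫⁻ ω, F.Ps L (sq 0 ((k * L : ℕ) : ℝ)) (cfg 1 ω) ∂sampleLaw +
        ∫⁻ ω, ∑ p ∈ Finset.range k ×ˢ Finset.range k, F.Ph (sub L p) (cfg 1 ω) ∂sampleLaw := by
        gcongr
        exact le_lint_sum _ _ _
    _ ≤ ∫⁻ ω, (F.Ps L (sq 0 ((k * L : ℕ) : ℝ)) (cfg 1 ω) +
        ∑ p ∈ Finset.range k ×ˢ Finset.range k, F.Ph (sub L p) (cfg 1 ω)) ∂sampleLaw :=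
        le_lintegral_add _ _
    _ ≤ _ := lintegral_mono fun ω => F.super_pt L k _

/-! ### a superadditive bounded sequence -/

/-- `α (k L) ≥ k² α L`, `α ≤ C L²`, `α` monotone: then `α (k L) - k² α L ≤ δ (k L)²` for large `L`,
uniformly in `k` -/
theorem seq_bound (α : ℕ → ℝ) (hm : ∀ L L', L ≤ L' → α L ≤ α L') (h0 : ∀ L, 0 ≤ α L)
    (hs : ∀ k L : ℕ, (k : ℝ) ^ 2 * α L ≤ α (k * L)) {C : ℝ} (hC : ∀ L : ℕ, α L ≤ C * (L : ℝ) ^ 2)
    {δ : ℝ} (hδ : 0 < δ) :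
    ∃ L1 : ℕ, ∀ L ≥ L1, ∀ k : ℕ, α (k * L) ≤ (k : ℝ) ^ 2 * α L + δ * (k * L : ℝ) ^ 2 := by
  set S : Set ℝ := {b | ∃ L : ℕ, 1 ≤ L ∧ b = α L / (L : ℝ) ^ 2} with hS
  have hbd : BddAbove S := by
    refine ⟨C, ?_⟩
    rintro b ⟨L, hL, rfl⟩
    have hL' : (0 : ℝ) < (L : ℝ) ^ 2 := by positivity
    rw [div_le_iff₀ hL']
    exact hC L
  have hne : S.Nonempty := ⟨_, 1, le_rfl, rfl⟩
  set B := sSup S with hB
  have hB0 : 0 ≤ B := by
    refine le_trans ?_ (le_csSup hbd ⟨1, le_rfl, rfl⟩)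
    exact div_nonneg (h0 1) (by positivity)
  have hle : ∀ L : ℕ, α L ≤ B * (L : ℝ) ^ 2 := by
    intro L
    rcases Nat.eq_zero_or_pos L with rfl | hL
    · have := hC 0
      simpa using this
    · have hL' : (0 : ℝ) < (L : ℝ) ^ 2 := by positivity
      rw [← div_le_iff₀ hL']
      exact le_csSup hbd ⟨L, hL, rfl⟩
  obtain ⟨b, ⟨L0, hL0, rfl⟩, hb⟩ := exists_lt_of_lt_csSup hne (show B - δ / 2 < B by linarith)
  have hL0' : (0 : ℝ) < (L0 : ℝ) ^ 2 := by positivity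
  rw [lt_div_iff₀ hL0'] at hb
  obtain ⟨n, hn⟩ := exists_nat_gt (4 * (B + 1) / δ)
  refine ⟨n * L0 + 1, fun L hL k => ?_⟩
  have hn' : 4 * (B + 1) < n * δ := by rwa [div_lt_iff₀ hδ] at hn
  have hLn : (n : ℝ) * L0 ≤ L := by
    have : n * L0 ≤ L := by omega
    exact_mod_cast this
  have hLp : (0 : ℝ) < L := by
    have : 0 < L := by omega
    exact_mod_cast this
  -- lower bound for `α L`
  have key : (B - δ) * (L : ℝ) ^ 2 ≤ α L := by
    by_cases hBδ : B - δ ≤ 0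
    · have : (B - δ) * (L : ℝ) ^ 2 ≤ 0 := mul_nonpos_of_nonpos_of_nonneg hBδ (by positivity)
      exact this.trans (h0 L)
    push Not at hBδ
    set q := L / L0 with hq
    have hqL : q * L0 ≤ L := Nat.div_mul_le_self L L0
    have hqL2 : L < (q + 1) * L0 := by
      have := Nat.lt_div_mul_add (a := L) (b := L0) (by omega)
      rw [add_mul, one_mul]; exact this
    have h1 : (q : ℝ) ^ 2 * α L0 ≤ α L := (hs q L0).trans (hm _ _ hqL)
    have h2 : (L : ℝ) - L0 ≤ q * L0 := by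
      have : (L : ℝ) < (q + 1) * L0 := by exact_mod_cast hqL2
      linarith
    have hL0r : (1 : ℝ) ≤ L0 := by exact_mod_cast hL0
    have hn1 : (1 : ℝ) ≤ n := by
      have h3 : (0 : ℝ) < n := by
        by_contra hc
        push Not at hc
        have : (n : ℝ) * δ ≤ 0 := mul_nonpos_of_nonpos_of_nonneg hc hδ.le
        linarith
      have : 0 < n := by exact_mod_cast h3
      exact_mod_cast this
    have h3 : (L0 : ℝ) ≤ L := by nlinarith
    have h4 : ((L : ℝ) - L0) ^ 2 ≤ (q * L0 : ℝ) ^ 2 :=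
      pow_le_pow_left₀ (by linarith) h2 2
    have h5 : (B - δ / 2) * (q * L0 : ℝ) ^ 2 ≤ α L := by
      calc (B - δ / 2) * (q * L0 : ℝ) ^ 2 = (q : ℝ) ^ 2 * ((B - δ / 2) * (L0 : ℝ) ^ 2) := by ring
        _ ≤ (q : ℝ) ^ 2 * α L0 := by gcongr
        _ ≤ _ := h1
    have h6 : (B - δ / 2) * ((L : ℝ) - L0) ^ 2 ≤ α L := by
      refine le_trans ?_ h5
      exact mul_le_mul_of_nonneg_left h4 (by linarith)
    -- `(L - L0)² ≥ L² - 2 L L0`, `L0 ≤ L / n`
    have h7 : (L0 : ℝ) * (4 * (B + 1)) ≤ L * δ := by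
      calc (L0 : ℝ) * (4 * (B + 1)) ≤ L0 * (n * δ) := by
            apply mul_le_mul_of_nonneg_left hn'.le; linarith
        _ = (n * L0) * δ := by ring
        _ ≤ L * δ := by gcongr
    have h8 : (B - δ / 2) * (2 * L * L0) ≤ δ / 2 * (L : ℝ) ^ 2 := by
      have h9 : (B - δ / 2) * (2 * L * L0) ≤ (B + 1) * (2 * L * L0) := by
        apply mul_le_mul_of_nonneg_right (by linarith) (by positivity)
      have h10 : (B + 1) * (2 * L * L0) = L / 2 * (L0 * (4 * (B + 1))) := by ring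
      have h11 : (L : ℝ) / 2 * (L0 * (4 * (B + 1))) ≤ L / 2 * (L * δ) := by gcongr
      calc _ ≤ (B + 1) * (2 * L * L0) := h9
        _ = L / 2 * (L0 * (4 * (B + 1))) := h10
        _ ≤ L / 2 * (L * δ) := h11
        _ = _ := by ring
    have h12 : 0 ≤ (B - δ / 2) * (L0 : ℝ) ^ 2 := mul_nonneg (by linarith) (by positivity)
    nlinarith
  calc α (k * L) ≤ B * ((k * L : ℕ) : ℝ) ^ 2 := hle _
    _ = (k : ℝ) ^ 2 * ((B - δ) * (L : ℝ) ^ 2) + δ * (k * L : ℝ) ^ 2 := by push_cast; ring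
    _ ≤ _ := by gcongr

theorem Fam.a_mono {L L' : ℕ} (h : L ≤ L') : F.a L ≤ F.a L' := by
  unfold Fam.a
  refine lintegral_mono fun ω => F.Ph_mono (sq_mono ?_) _
  exact_mod_cast h

/-- macroscopic objects of a big square, mesh `1` -/
theorem Fam.big {C : ℝ≥0∞} (hC : C ≠ ∞) (hb : ∀ L : ℕ, F.a L ≤ C * (L : ℝ≥0∞) ^ 2) {δ : ℝ}
    (hδ : 0 < δ) : ∃ L1 : ℕ, ∀ L ≥ L1, ∀ k : ℕ,
      ∫⁻ ω, F.Ps L (sq 0 ((k * L : ℕ) : ℝ)) (cfg 1 ω) ∂sampleLaw ≤
        ENNReal.ofReal (δ * (k * L : ℝ) ^ 2) := by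
  have hfin : ∀ L : ℕ, F.a L ≠ ∞ := by
    intro L
    refine ne_top_of_le_ne_top ?_ (hb L)
    exact ENNReal.mul_ne_top hC (ENNReal.pow_ne_top (ENNReal.natCast_ne_top L))
  have hk : ∀ k : ℕ, (k : ℝ≥0∞) ^ 2 = ENNReal.ofReal ((k : ℝ) ^ 2) := by
    intro k
    rw [ENNReal.ofReal_pow (Nat.cast_nonneg k), ENNReal.ofReal_natCast]
  have hsup : ∀ k L : ℕ, (k : ℝ≥0∞) ^ 2 * F.a L ≤ F.a (k * L) := fun k L =>
    le_trans (le_add_left le_rfl) (F.super L k)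
  obtain ⟨L1, h1⟩ := seq_bound (fun L => (F.a L).toReal)
    (fun L L' h => ENNReal.toReal_mono (hfin L') (F.a_mono h)) (fun L => ENNReal.toReal_nonneg)
    (fun k L => by
      have h2 := ENNReal.toReal_mono (hfin _) (hsup k L)
      rwa [ENNReal.toReal_mul, ENNReal.toReal_pow, ENNReal.toReal_natCast] at h2)
    (C := C.toReal)
    (fun L => by
      have h2 := ENNReal.toReal_mono (ENNReal.mul_ne_top hC
        (ENNReal.pow_ne_top (ENNReal.natCast_ne_top L))) (hb L)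
      rwa [ENNReal.toReal_mul, ENNReal.toReal_pow, ENNReal.toReal_natCast] at h2)
    hδ
  refine ⟨L1, fun L hL k => ?_⟩
  have h2 := h1 L hL k
  have h3 : F.a (k * L) ≤ ENNReal.ofReal (δ * (k * L : ℝ) ^ 2) + (k : ℝ≥0∞) ^ 2 * F.a L := by
    rw [← ENNReal.ofReal_toReal (hfin (k * L))]
    refine (ENNReal.ofReal_le_ofReal h2).trans ?_
    rw [ENNReal.ofReal_add (by positivity) (by positivity), ENNReal.ofReal_mul (by positivity),
      ENNReal.ofReal_toReal (hfin L), ← hk, add_comm]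
  have h4 := (F.super L k).trans h3
  refine (ENNReal.add_le_add_iff_right ?_).1 h4
  exact ENNReal.mul_ne_top (ENNReal.pow_ne_top (ENNReal.natCast_ne_top k)) (hfin L)

/-- **summation over scales: the mean weight of the macroscopic objects tends to zero** -/
theorem Fam.mass {C : ℝ≥0∞} (hC : C ≠ ∞) (hb : ∀ L : ℕ, F.a L ≤ C * (L : ℝ≥0∞) ^ 2) {κ : ℝ}
    (hκ : 0 < κ) {U : Set ℂ} (hU : Bornology.IsBounded U) :
    Tendsto (fun ε : ℝ => ∫⁻ ω, F.Ps κ U (cfg ε ω) ∂sampleLaw) (𝓝[>] 0) (𝓝 0) := by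
  obtain ⟨R, hR⟩ := hU.subset_closedBall 0
  obtain ⟨M, hM⟩ := exists_nat_gt (max R 0)
  have hMR : R < M := lt_of_le_of_lt (le_max_left _ _) hM
  have hM0 : (0 : ℝ) < M := lt_of_le_of_lt (le_max_right _ _) hM
  obtain ⟨n, hn⟩ := exists_nat_gt (2 * M / κ)
  have hn' : 2 * (M : ℝ) < n * κ := by rwa [div_lt_iff₀ hκ] at hn
  rw [ENNReal.tendsto_nhds_zero]
  intro e he
  obtain ⟨η, hη0, hηe⟩ : ∃ η : ℝ, 0 < η ∧ ENNReal.ofReal η ≤ e := by
    rcases eq_or_ne e ∞ with rfl | hne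
    · exact ⟨1, one_pos, le_top⟩
    · exact ⟨e.toReal, ENNReal.toReal_pos he.ne' hne, by rw [ENNReal.ofReal_toReal hne]⟩
  have hKp : (0 : ℝ) < (2 * n : ℝ) ^ 2 * κ ^ 2 + 1 := by positivity
  obtain ⟨L1, hL1⟩ := F.big hC hb (δ := η / ((2 * n : ℝ) ^ 2 * κ ^ 2 + 1)) (div_pos hη0 hKp)
  have hpos : ∀ᶠ ε : ℝ in 𝓝[>] 0, 0 < ε := eventually_mem_nhdsWithin
  have hsm : ∀ᶠ ε : ℝ in 𝓝[>] 0, ε < min (κ / 2) (κ / (2 * (L1 + 1))) := by
    apply nhdsWithin_le_nhds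
    apply gt_mem_nhds
    refine lt_min (by linarith) (by positivity)
  filter_upwards [hpos, hsm] with ε h0 h1
  have h1a : ε < κ / 2 := h1.trans_le (min_le_left _ _)
  have h1b : ε < κ / (2 * (L1 + 1)) := h1.trans_le (min_le_right _ _)
  set L := ⌊κ / ε⌋₊ with hL
  have hLle : (L : ℝ) ≤ κ / ε := Nat.floor_le (div_pos hκ h0).le
  have hLlt : κ / ε < L + 1 := Nat.lt_floor_add_one _
  have hh : 2 < κ / ε := by rw [lt_div_iff₀ h0]; linarith
  have hLh : κ / (2 * ε) ≤ L := by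
    have : κ / (2 * ε) = κ / ε / 2 := by rw [div_div, mul_comm]
    rw [this]; linarith
  have hLL1 : L1 ≤ L := by
    have h2 : (L1 + 1 : ℝ) < κ / (2 * ε) := by
      rw [lt_div_iff₀ (by positivity)]
      rw [lt_div_iff₀ (by positivity)] at h1b
      linarith
    have h3 : (L1 : ℝ) < L := by linarith
    exact (Nat.cast_lt.1 h3).le
  -- reduction to mesh `1`
  have hcov : (fun w : ℂ => ((ε⁻¹ : ℝ) : ℂ) * w) '' U ⊆
      (fun w => w + gi (-((n * L : ℕ) : ℤ), -((n * L : ℕ) : ℤ))) '' sq 0 ((2 * n * L : ℕ) : ℝ) := by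
    rw [sq_tr]
    rintro _ ⟨w, hw, rfl⟩
    have h2 := hR hw
    rw [Metric.mem_closedBall, dist_zero_right] at h2
    have h3 := (Complex.abs_re_le_norm w).trans h2
    have h4 := (Complex.abs_im_le_norm w).trans h2
    rw [abs_le] at h3 h4
    have h5 : (M : ℝ) ≤ ε * (n * L) := by
      have h6 : κ / 2 ≤ ε * L := by
        have h7 : κ / (2 * ε) * ε = κ / 2 := by field_simp
        rw [← h7, mul_comm ε]
        exact mul_le_mul_of_nonneg_right hLh h0.le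
      have h8 : (0 : ℝ) ≤ n := Nat.cast_nonneg n
      nlinarith
    have key : ∀ t : ℝ, -R ≤ t → t ≤ R → -(n * L : ℝ) ≤ ε⁻¹ * t ∧ ε⁻¹ * t < n * L := by
      intro t h6 h7
      constructor
      · rw [← div_eq_inv_mul, le_div_iff₀ h0]; nlinarith
      · rw [← div_eq_inv_mul, div_lt_iff₀ h0]; nlinarith
    obtain ⟨a1, a2⟩ := key w.re h3.1 h3.2
    obtain ⟨b1, b2⟩ := key w.im h4.1 h4.2
    have e1 : (((ε⁻¹ : ℝ) : ℂ) * w).re = ε⁻¹ * w.re := Complex.re_ofReal_mul _ _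
    have e2 : (((ε⁻¹ : ℝ) : ℂ) * w).im = ε⁻¹ * w.im := Complex.im_ofReal_mul _ _
    refine ⟨?_, ?_, ?_, ?_⟩
    · rw [e1, zero_add, gi_re]; push_cast; linarith
    · rw [e1, zero_add, gi_re]; push_cast; linarith
    · rw [e2, zero_add, gi_im]; push_cast; linarith
    · rw [e2, zero_add, gi_im]; push_cast; linarith
  have hpt : ∀ ω, F.Ps κ U (cfg ε ω) ≤ ENNReal.ofReal (ε ^ 2) *
      F.Ps L ((fun w => w + gi (-((n * L : ℕ) : ℤ), -((n * L : ℕ) : ℤ))) ''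
        sq 0 ((2 * n * L : ℕ) : ℝ)) (cfg 1 ω) := by
    intro ω
    have e1 : U = (fun w : ℂ => (ε : ℂ) * w) '' ((fun w : ℂ => ((ε⁻¹ : ℝ) : ℂ) * w) '' U) := by
      rw [image_image]
      conv_lhs => rw [← image_id U]
      refine image_congr fun w _ => ?_
      rw [← mul_assoc, ← Complex.ofReal_mul, mul_inv_cancel₀ h0.ne']
      simp
    have e2 : κ = ε * (κ / ε) := by field_simp
    conv_lhs => rw [cfg_eps, e1, e2]
    rw [F.Ps_sc _ h0]
    gcongr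
    exact F.Ps_mono hcov hLle _
  calc ∫⁻ ω, F.Ps κ U (cfg ε ω) ∂sampleLaw
      ≤ ∫⁻ ω, ENNReal.ofReal (ε ^ 2) *
        F.Ps L ((fun w => w + gi (-((n * L : ℕ) : ℤ), -((n * L : ℕ) : ℤ))) ''
          sq 0 ((2 * n * L : ℕ) : ℝ)) (cfg 1 ω) ∂sampleLaw := lintegral_mono hpt
    _ = ENNReal.ofReal (ε ^ 2) * ∫⁻ ω,
        F.Ps L ((fun w => w + gi (-((n * L : ℕ) : ℤ), -((n * L : ℕ) : ℤ))) ''
          sq 0 ((2 * n * L : ℕ) : ℝ)) (cfg 1 ω) ∂sampleLaw :=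
        lintegral_const_mul' _ _ ENNReal.ofReal_ne_top
    _ = ENNReal.ofReal (ε ^ 2) * ∫⁻ ω, F.Ps L (sq 0 ((2 * n * L : ℕ) : ℝ)) (cfg 1 ω) ∂sampleLaw := by
        rw [← stat (-((n * L : ℕ) : ℤ), -((n * L : ℕ) : ℤ))
          fun X => F.Ps L ((fun w => w + gi (-((n * L : ℕ) : ℤ), -((n * L : ℕ) : ℤ))) ''
            sq 0 ((2 * n * L : ℕ) : ℝ)) X]
        simp only [F.Ps_tr]
    _ ≤ ENNReal.ofReal (ε ^ 2) * ENNReal.ofReal
        (η / ((2 * n : ℝ) ^ 2 * κ ^ 2 + 1) * (((2 * n : ℕ) : ℝ) * L) ^ 2) := by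
        gcongr
        exact hL1 L hLL1 (2 * n)
    _ = ENNReal.ofReal (ε ^ 2 * (η / ((2 * n : ℝ) ^ 2 * κ ^ 2 + 1) *
        (((2 * n : ℕ) : ℝ) * L) ^ 2)) := by
        rw [← ENNReal.ofReal_mul (by positivity)]
    _ ≤ ENNReal.ofReal η := by
        apply ENNReal.ofReal_le_ofReal
        have h5 : ε * L ≤ κ := by
          rw [le_div_iff₀ h0] at hLle; linarith
        have h6 : (ε * L) ^ 2 ≤ κ ^ 2 := pow_le_pow_left₀ (by positivity) h5 2
        calc ε ^ 2 * (η / ((2 * n : ℝ) ^ 2 * κ ^ 2 + 1) * (((2 * n : ℕ) : ℝ) * L) ^ 2)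
            = η / ((2 * n : ℝ) ^ 2 * κ ^ 2 + 1) * ((2 * n : ℝ) ^ 2 * (ε * L) ^ 2) := by
              push_cast; ring
          _ ≤ η / ((2 * n : ℝ) ^ 2 * κ ^ 2 + 1) * ((2 * n : ℝ) ^ 2 * κ ^ 2 + 1) := by
              gcongr
              nlinarith [sq_nonneg (2 * n : ℝ)]
          _ = η := div_mul_cancel₀ _ hKp.ne'
    _ ≤ e := hηe

end Crest.Agent.R143.SumScx302
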