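import Crest.Agent.R143.PoisM4U_501
import Crest.Agent.R143.SumSc_302

/-!
# Row 143 (S0194): second moment of the circumradii (helper810, leaf (S6) of helper302)

* `Circ S t o` : `o` is the centre of an empty circle through the three points `t` of `S`
* `cw S U t` : the square of the radius of such a circle, if its closed disc is contained in `U`
* `mom` : `E ∑ t, cw (points 1 ω) (sq 0 L) t ≤ C * L ^ 2`
* `mom_if` : the same for every weight and predicate which is dominated by `cw`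
-/

set_option autoImplicit false

noncomputable section

open scoped Classical

namespace Crest.Agent.R143.Momx810

open MeasureTheory Set ProbabilityTheory
open Crest.ProbabilityR.Voronoi
open Crest.Agent.R143.PP0x831 Crest.Agent.R143.SumScx302 Crest.Agent.R143.PoisM4x501
open Crest.Agent.R143.B0x346
open scoped ENNReal NNReal

/-- `o` is the centre of an empty circle through the three points of `t` -/
structure Circ (S : Set ℂ) (t : ℂ × ℂ × ℂ) (o : ℂ) : Prop where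
  m1 : t.1 ∈ S
  m2 : t.2.1 ∈ S
  m3 : t.2.2 ∈ S
  e2 : ‖t.2.1 - o‖ = ‖t.1 - o‖
  e3 : ‖t.2.2 - o‖ = ‖t.1 - o‖
  emp : ∀ s ∈ S, ‖t.1 - o‖ ≤ ‖s - o‖

/-- the square of the circumradius, if the closed circumdisc is contained in `U` -/
def cw (S U : Set ℂ) (t : ℂ × ℂ × ℂ) : ℝ≥0∞ :=
  ⨆ (o : ℂ) (_ : Circ S t o ∧ Metric.closedBall o ‖t.1 - o‖ ⊆ U), ENNReal.ofReal (‖t.1 - o‖ ^ 2)

/-- the cells of the square of side `L` -/
def bx (L : ℕ) : Finset Cell := Finset.Ico 0 (L : ℤ) ×ˢ Finset.Ico 0 (L : ℤ)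

theorem card_bx (L : ℕ) : (bx L).card = L ^ 2 := by
  simp [bx, pow_two]

/-- the points near the cell `k` -/
def pk (L : ℕ) (ω : Sample) (k : Cell) : Finset ℂ := pts 1 ω (nbr k (6 * eT L ω.1 k + 7))

/-- bound of the number of triangles with circumcentre in the cell `k`, times `r ^ 2` -/
def Yi (L : ℕ) (N : Cell → ℕ) (k : Cell) : ℝ≥0∞ := ⨆ B : ℕ, (Y L B N k : ℝ≥0∞)

theorem le_Yi (L : ℕ) (N : Cell → ℕ) (k : Cell) :
    (((eT L N k + 1) ^ 2 * (∑ k' ∈ nbr k (6 * eT L N k + 7), N k') ^ 3 : ℕ) : ℝ≥0∞) ≤ Yi L N k := by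
  refine le_trans (le_of_eq ?_) (le_iSup (fun B : ℕ => (Y L B N k : ℝ≥0∞))
    (∑ k' ∈ nbr k (6 * eT L N k + 7), N k'))
  have h : (∑ k' ∈ nbr k (6 * eT L N k + 7),
      min (N k') (∑ k' ∈ nbr k (6 * eT L N k + 7), N k')) =
      ∑ k' ∈ nbr k (6 * eT L N k + 7), N k' := by
    refine Finset.sum_congr rfl fun k' hk' => ?_
    exact min_eq_left (Finset.single_le_sum (f := N) (fun _ _ => Nat.zero_le _) hk')
  unfold Y
  rw [h]

theorem lint_Yi (L : ℕ) (k : Cell) : ∫⁻ N, Yi L N k ∂mu ≤ mu0 := by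
  unfold Yi
  rw [lintegral_iSup]
  · exact iSup_le fun B => lintegral_Y_le L B k
  · intro B
    refine meas_loc (nbr k (6 * L + 7)) _ fun N N' h => ?_
    rw [Y_congr h]
  · intro B B' h N
    show (Y L B N k : ℝ≥0∞) ≤ (Y L B' N k : ℝ≥0∞)
    unfold Y
    exact_mod_cast Nat.mul_le_mul_left _ (Nat.pow_le_pow_left
      (Finset.sum_le_sum fun k' _ => min_le_min_left _ h) 3)

theorem lint_fst (F : (Cell → ℕ) → ℝ≥0∞) (hF : Measurable F) :
    ∫⁻ ω : Sample, F ω.1 ∂sampleLaw = ∫⁻ N, F N ∂mu := by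
  have h : Measure.map Prod.fst sampleLaw = mu := by
    unfold sampleLaw
    rw [Measure.map_fst_prod, measure_univ, one_smul]
    rfl
  rw [← h, lintegral_map hF measurable_fst]

theorem meas_Yi (L : ℕ) (k : Cell) : Measurable fun N : Cell → ℕ => Yi L N k := by
  unfold Yi
  refine Measurable.iSup fun B => ?_
  refine meas_loc (nbr k (6 * L + 7)) _ fun N N' h => ?_
  rw [Y_congr h]

/-- the radius is small and the three points are near the cell of the centre -/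
theorem circ_bd {L : ℕ} {ω : Sample} {t : ℂ × ℂ × ℂ} {o : ℂ} (h : Circ (points 1 ω) t o)
    (hU : Metric.closedBall o ‖t.1 - o‖ ⊆ sq 0 (L : ℝ)) :
    cellOf 1 o ∈ bx L ∧ ‖t.1 - o‖ ≤ 2 * (eT L ω.1 (cellOf 1 o) + 1) := by
  have r0 : 0 ≤ ‖t.1 - o‖ := norm_nonneg _
  have ho := hU (Metric.mem_closedBall_self r0)
  have hp : o + (‖t.1 - o‖ : ℂ) ∈ Metric.closedBall o ‖t.1 - o‖ := by
    rw [Metric.mem_closedBall, dist_eq_norm]
    simp
  have hm : o - (‖t.1 - o‖ : ℂ) ∈ Metric.closedBall o ‖t.1 - o‖ := by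
    rw [Metric.mem_closedBall, dist_eq_norm]
    simp
  have h1 := hU hp
  have h2 := hU hm
  unfold SumScx302.sq at ho h1 h2
  simp only [mem_ofPred_eq, Complex.zero_re, Complex.zero_im, zero_add, Complex.add_re,
    Complex.sub_re, Complex.ofReal_re] at ho h1 h2
  constructor
  · unfold bx cellOf
    rw [Finset.mem_product, Finset.mem_Ico, Finset.mem_Ico, div_one, div_one]
    refine ⟨⟨Int.floor_nonneg.2 ho.1, ?_⟩, ⟨Int.floor_nonneg.2 ho.2.2.1, ?_⟩⟩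
    · exact Int.floor_lt.2 (by exact_mod_cast ho.2.1)
    · exact Int.floor_lt.2 (by exact_mod_cast ho.2.2.2)
  · rcases lt_or_ge (eT L ω.1 (cellOf 1 o)) L with hl | hl
    · obtain ⟨v, hv, hd⟩ := near (ε := 1) one_pos o hl
      have h3 := h.emp v hv
      rw [norm_sub_rev] at hd
      linarith
    · have hl' : (L : ℝ) ≤ (eT L ω.1 (cellOf 1 o) : ℝ) := by exact_mod_cast hl
      nlinarith [h1.2.1, h2.1]

theorem circ_mem {L : ℕ} {ω : Sample} {t : ℂ × ℂ × ℂ} {o : ℂ} (h : Circ (points 1 ω) t o)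
    (hr : ‖t.1 - o‖ ≤ 2 * (eT L ω.1 (cellOf 1 o) + 1)) :
    t ∈ (pk L ω (cellOf 1 o)) ×ˢ ((pk L ω (cellOf 1 o)) ×ˢ (pk L ω (cellOf 1 o))) := by
  have hb : ∀ v ∈ points 1 ω, ‖v - o‖ = ‖t.1 - o‖ → v ∈ pk L ω (cellOf 1 o) := by
    intro v hv he
    refine mem_pts one_pos hv ?_
    rw [he]
    have : (0 : ℝ) ≤ (eT L ω.1 (cellOf 1 o) : ℝ) := Nat.cast_nonneg _
    linarith
  rw [Finset.mem_product, Finset.mem_product]
  exact ⟨hb _ h.m1 rfl, hb _ h.m2 h.e2, hb _ h.m3 h.e3⟩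

/-- the pointwise bound -/
theorem cw_le (L : ℕ) (ω : Sample) (t : ℂ × ℂ × ℂ) :
    cw (points 1 ω) (sq 0 (L : ℝ)) t ≤ ∑ k ∈ bx L,
      if t ∈ (pk L ω k) ×ˢ ((pk L ω k) ×ˢ (pk L ω k)) then
        ((4 * (eT L ω.1 k + 1) ^ 2 : ℕ) : ℝ≥0∞) else 0 := by
  refine iSup_le fun o => iSup_le fun h => ?_
  obtain ⟨h1, h2⟩ := h
  obtain ⟨h3, h4⟩ := circ_bd h1 h2
  refine le_trans ?_ (Finset.single_le_sum (f := fun k =>
    if t ∈ (pk L ω k) ×ˢ ((pk L ω k) ×ˢ (pk L ω k)) then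
        ((4 * (eT L ω.1 k + 1) ^ 2 : ℕ) : ℝ≥0∞) else 0) (fun _ _ => zero_le) h3)
  show _ ≤ if _ then _ else _
  rw [if_pos (circ_mem h1 h4), ← ENNReal.ofReal_natCast]
  refine ENNReal.ofReal_le_ofReal ?_
  push_cast
  have r0 : 0 ≤ ‖t.1 - o‖ := norm_nonneg _
  nlinarith

/-- the sum over the triangles -/
theorem sum_cw (L : ℕ) (ω : Sample) :
    ∑' t : ℂ × ℂ × ℂ, cw (points 1 ω) (sq 0 (L : ℝ)) t ≤ ∑ k ∈ bx L, 4 * Yi L ω.1 k := by
  calc ∑' t : ℂ × ℂ × ℂ, cw (points 1 ω) (sq 0 (L : ℝ)) t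
      ≤ ∑' t : ℂ × ℂ × ℂ, ∑ k ∈ bx L,
        (if t ∈ (pk L ω k) ×ˢ ((pk L ω k) ×ˢ (pk L ω k)) then
          ((4 * (eT L ω.1 k + 1) ^ 2 : ℕ) : ℝ≥0∞) else 0) := ENNReal.tsum_le_tsum (cw_le L ω)
    _ = ∑ k ∈ bx L, ∑' t : ℂ × ℂ × ℂ,
        (if t ∈ (pk L ω k) ×ˢ ((pk L ω k) ×ˢ (pk L ω k)) then
          ((4 * (eT L ω.1 k + 1) ^ 2 : ℕ) : ℝ≥0∞) else 0) :=
        Summable.tsum_finsetSum fun _ _ => ENNReal.summable
    _ ≤ ∑ k ∈ bx L, 4 * Yi L ω.1 k := by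
        refine Finset.sum_le_sum fun k _ => ?_
        rw [tsum_eq_sum (s := (pk L ω k) ×ˢ ((pk L ω k) ×ˢ (pk L ω k)))
          (fun t ht => if_neg ht), Finset.sum_congr rfl (fun t ht => if_pos ht), Finset.sum_const,
          nsmul_eq_mul, Finset.card_product, Finset.card_product]
        refine le_trans ?_ (mul_le_mul_right (le_Yi L ω.1 k) 4)
        have hc : (pk L ω k).card ≤ ∑ k' ∈ nbr k (6 * eT L ω.1 k + 7), ω.1 k' := card_pts 1 ω _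
        have : (pk L ω k).card * ((pk L ω k).card * (pk L ω k).card) *
            (4 * (eT L ω.1 k + 1) ^ 2) ≤ 4 * ((eT L ω.1 k + 1) ^ 2 *
              (∑ k' ∈ nbr k (6 * eT L ω.1 k + 7), ω.1 k') ^ 3) := by
          have h3 : (pk L ω k).card * ((pk L ω k).card * (pk L ω k).card) ≤
              (∑ k' ∈ nbr k (6 * eT L ω.1 k + 7), ω.1 k') ^ 3 := by
            calc (pk L ω k).card * ((pk L ω k).card * (pk L ω k).card)
                = (pk L ω k).card ^ 3 := by ring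
              _ ≤ _ := Nat.pow_le_pow_left hc 3
          calc _ ≤ (∑ k' ∈ nbr k (6 * eT L ω.1 k + 7), ω.1 k') ^ 3 *
              (4 * (eT L ω.1 k + 1) ^ 2) := Nat.mul_le_mul_right _ h3
            _ = _ := by ring
        exact_mod_cast this

/-- **second moment of the circumradii** -/
theorem mom : ∃ C : ℝ≥0∞, C ≠ ∞ ∧ ∀ L : ℕ,
    ∫⁻ ω, ∑' t : ℂ × ℂ × ℂ, cw (points 1 ω) (sq 0 (L : ℝ)) t ∂sampleLaw ≤
      C * (L : ℝ≥0∞) ^ 2 := by
  refine ⟨4 * mu0, ENNReal.mul_ne_top (by simp) mu0_ne_top, fun L => ?_⟩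
  calc ∫⁻ ω, ∑' t : ℂ × ℂ × ℂ, cw (points 1 ω) (sq 0 (L : ℝ)) t ∂sampleLaw
      ≤ ∫⁻ ω : Sample, (fun N => ∑ k ∈ bx L, 4 * Yi L N k) ω.1 ∂sampleLaw :=
        lintegral_mono fun ω => sum_cw L ω
    _ = ∫⁻ N, ∑ k ∈ bx L, 4 * Yi L N k ∂mu :=
        lint_fst _ (Finset.measurable_sum _ fun k _ => (meas_Yi L k).const_mul _)
    _ = ∑ k ∈ bx L, 4 * ∫⁻ N, Yi L N k ∂mu := by
        rw [lintegral_finsetSum _ fun k _ => (meas_Yi L k).const_mul _]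
        refine Finset.sum_congr rfl fun k _ => lintegral_const_mul _ (meas_Yi L k)
    _ ≤ ∑ k ∈ bx L, 4 * mu0 := Finset.sum_le_sum fun k _ => mul_le_mul_right (lint_Yi L k) 4
    _ = 4 * mu0 * (L : ℝ≥0∞) ^ 2 := by
        rw [Finset.sum_const, card_bx, nsmul_eq_mul]
        push_cast
        ring

/-- every weight which is dominated by the square of the circumradius -/
theorem mom_if {W : Set ℂ → ℕ → ℂ × ℂ × ℂ → ℝ≥0∞} (c : ℝ≥0∞) (hc : c ≠ ∞)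
    (hW : ∀ S L t, W S L t ≤ c * cw S (sq 0 (L : ℝ)) t) :
    ∃ C : ℝ≥0∞, C ≠ ∞ ∧ ∀ L : ℕ,
      ∫⁻ ω, ∑' t : ℂ × ℂ × ℂ, W (points 1 ω) L t ∂sampleLaw ≤ C * (L : ℝ≥0∞) ^ 2 := by
  obtain ⟨C, hC, h⟩ := mom
  refine ⟨c * C, ENNReal.mul_ne_top hc hC, fun L => ?_⟩
  calc ∫⁻ ω, ∑' t : ℂ × ℂ × ℂ, W (points 1 ω) L t ∂sampleLaw
      ≤ ∫⁻ ω, c * ∑' t : ℂ × ℂ × ℂ, cw (points 1 ω) (sq 0 (L : ℝ)) t ∂sampleLaw := by
        refine lintegral_mono fun ω => ?_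
        show _ ≤ c * ∑' t : ℂ × ℂ × ℂ, cw (points 1 ω) (sq 0 (L : ℝ)) t
        rw [← ENNReal.tsum_mul_left]
        exact ENNReal.tsum_le_tsum fun t => hW _ _ _
    _ = c * ∫⁻ ω, ∑' t : ℂ × ℂ × ℂ, cw (points 1 ω) (sq 0 (L : ℝ)) t ∂sampleLaw :=
        lintegral_const_mul' _ _ hc
    _ ≤ c * (C * (L : ℝ≥0∞) ^ 2) := mul_le_mul_right (h L) c
    _ = c * C * (L : ℝ≥0∞) ^ 2 := (mul_assoc _ _ _).symm

/-- a Delaunay triangle has a centre -/
theorem circ_of_del {S : Set ℂ} {a b c : ℂ} (h : Del S a b c) : ∃ o, Circ S (a, b, c) o := by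
  obtain ⟨h1, h2, h3, -, o, h4, h5, h6⟩ := h
  exact ⟨o, h1, h2, h3, h4, h5, h6⟩

theorem le_cw {S U : Set ℂ} {t : ℂ × ℂ × ℂ} {o : ℂ} (h : Circ S t o)
    (hU : Metric.closedBall o ‖t.1 - o‖ ⊆ U) : ENNReal.ofReal (‖t.1 - o‖ ^ 2) ≤ cw S U t := by
  unfold cw
  exact le_iSup₂_of_le o ⟨h, hU⟩ le_rfl

end Crest.Agent.R143.Momx810
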