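import Crest.Agent.R143.Mass4_302
import Crest.Agent.R143.Mom_810
import Crest.Agent.R143.PoisM3_930

/-!
# Row 143 (S0194): MASS, part 5 (helper302): **the sum rule**

* `a_le` : the mean weight of the objects in a square of side `L` (mesh `1`) is at most `C L²`
* `mass0` : the mean weight of the macroscopic objects tends to `0`
* `blocks_mass` : for every closed map which agrees with the Delaunay triangulation inside `U`, the
  blocks whose loop is inside `U`, but in no square of side `κ`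
* `sum_rule` : the final form
-/

set_option autoImplicit false

noncomputable section

open scoped Classical

namespace Crest.Agent.R143.Mass5x302

open MeasureTheory Filter Topology
open Crest.ProbabilityR.Voronoi
open Crest.Agent.R143.B0x346 Crest.Agent.R143.SumScx302 Crest.Agent.R143.Mass1x302
  Crest.Agent.R143.Mass2x302 Crest.Agent.R143.Mass3x302 Crest.Agent.R143.Mass4x302
  Crest.Agent.R143.PP0x831 Crest.Agent.R143.Momx810
open Crest.Agent.R143.Frame1x395 Crest.Agent.R143.Frame2x395 Crest.Agent.R143.Frame3x395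
  Crest.Agent.R143.Frame4x395
open Crest.Agent.R143.Frame8x395 hiding cfg
open scoped ENNReal

theorem ps_cfg (ε : ℝ) (ω : Sample) : ps (cfg ε ω) = points ε ω := by
  unfold ps cfg points
  rw [Set.image_image]

theorem Nn_le {t : T3} {o : ℂ} (h2 : ‖t.2.1 - o‖ = ‖t.1 - o‖) (h3 : ‖t.2.2 - o‖ = ‖t.1 - o‖) :
    ‖Nn t‖ ≤ 3 * ‖t.1 - o‖ := by
  have hn : ‖om‖ = 1 := by
    unfold om
    exact Complex.norm_exp_ofReal_mul_I _
  have e : Nn t = (starRingEnd ℂ) (t.2.1 - o) + om * (starRingEnd ℂ) (t.1 - o) +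
      om ^ 2 * (starRingEnd ℂ) (t.2.2 - o) := by
    unfold Nn
    rw [map_sub, map_sub, map_sub]
    linear_combination ((starRingEnd ℂ) o) * om_rel
  rw [e]
  refine (norm_add_le _ _).trans ?_
  have h4 := norm_add_le ((starRingEnd ℂ) (t.2.1 - o)) (om * (starRingEnd ℂ) (t.1 - o))
  rw [norm_mul, hn, Complex.norm_conj, Complex.norm_conj] at h4
  rw [norm_mul, norm_pow, hn, Complex.norm_conj]
  linarith

theorem fc_cw {S U : Set ℂ} (t : T3) :
    (if Fc S U t.1 t.2.1 t.2.2 then ENNReal.ofReal (‖Nn t‖ ^ 2) else 0) ≤ 9 * cw S U t := by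
  by_cases h : Fc S U t.1 t.2.1 t.2.2
  · rw [if_pos h]
    obtain ⟨⟨m1, m2, m3, -, o, h2, h3, h4⟩, hU⟩ := h
    have hc : Circ S t o := ⟨m1, m2, m3, h2, h3, h4⟩
    have hb : Metric.closedBall o ‖t.1 - o‖ ⊆ U := by
      intro z hz
      apply hU
      refine ⟨o, h2, h3, ?_⟩
      rwa [Metric.mem_closedBall, dist_eq_norm] at hz
    have h5 := Nn_le h2 h3
    calc ENNReal.ofReal (‖Nn t‖ ^ 2) ≤ ENNReal.ofReal ((3 * ‖t.1 - o‖) ^ 2) :=
          ENNReal.ofReal_le_ofReal (pow_le_pow_left₀ (norm_nonneg _) h5 2)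
      _ = 9 * ENNReal.ofReal (‖t.1 - o‖ ^ 2) := by
          rw [mul_pow, ENNReal.ofReal_mul (by positivity)]
          congr 1
          norm_num
      _ ≤ _ := by
          gcongr
          exact le_cw hc hb
  · rw [if_neg h]; exact zero_le

/-- **mean weight of a square, mesh `1`** -/
theorem a_le : ∃ C : ℝ≥0∞, C ≠ ∞ ∧ ∀ L : ℕ, fam.a L ≤ C * (L : ℝ≥0∞) ^ 2 := by
  obtain ⟨C, hC, h⟩ := mom_if (W := fun S L t =>
    if Fc S (sq 0 (L : ℝ)) t.1 t.2.1 t.2.2 then ENNReal.ofReal (‖Nn t‖ ^ 2) else 0) 9 (by simp)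
    fun S L t => fc_cw t
  refine ⟨C, hC, fun L => le_trans ?_ (h L)⟩
  unfold Fam.a
  refine lintegral_mono_ae ?_
  have h3 := PoisM3x930.m3a 1 one_pos
  filter_upwards [h3] with ω hω
  have hbd : Bornology.IsBounded (sq 0 (L : ℝ)) := by
    refine (Metric.isBounded_closedBall (x := (0 : ℂ)) (r := 2 * L)).subset ?_
    rintro w ⟨a1, a2, a3, a4⟩
    simp only [Complex.zero_re, zero_add, Complex.zero_im] at a1 a2 a3 a4
    rw [mem_closedBall_zero_iff]
    have := Complex.norm_le_abs_re_add_abs_im w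
    rw [abs_of_nonneg a1, abs_of_nonneg a3] at this
    linarith
  have hfin : (points 1 ω ∩ sq 0 (L : ℝ)).Finite := by
    obtain ⟨r, hr⟩ := hbd.subset_closedBall 0
    exact (hω.2.2 r).subset fun z hz => ⟨hz.1, hr hz.2⟩
  exact ph_le hω.1 hfin hbd (ps_cfg 1 ω)

/-- **the mean weight of the macroscopic objects tends to zero** -/
theorem mass0 {κ : ℝ} (hκ : 0 < κ) {U : Set ℂ} (hU : Bornology.IsBounded U) :
    Tendsto (fun ε : ℝ => ∫⁻ ω, fam.Ps κ U (cfg ε ω) ∂sampleLaw) (𝓝[>] 0) (𝓝 0) := by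
  obtain ⟨C, hC, h⟩ := a_le
  exact fam.mass hC h hκ hU

variable {D C : Type} {M : CMap D C} {P U : Set ℂ} {δ : ℂ → ℂ → D} {κ : ℂ → C}
variable {x : D → ZMod 2}

/-- the loop of the gap `g` (inside `U`) is in no square of side `k` -/
def Big (P U : Set ℂ) (M : CMap D C) (δ : ℂ → ℂ → D) (x : D → ZMod 2) (k : ℝ) (g : D) : Prop :=
  ∀ z, ∃ n a b c, Fc P U a b c ∧ (stp M x)^[n] (M.rho g) = δ a b ∧ ¬ cdisc (a, b, c) ⊆ sq z k

/-- the blocks whose loop is inside `U`, but in no square of side `k` -/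
def bigB [Fintype D] (P U : Set ℂ) (M : CMap D C) (δ : ℂ → ℂ → D) (k : ℝ) (x : D → ZMod 2) :
    Finset (Finset D) :=
  (blks M x).filter fun β => ∃ g ∈ β, InU P U M δ x g ∧ Big P U M δ x k g

/-- **macroscopic blocks of the closed map** -/
theorem blocks_mass [Fintype D] (A : Agr P U M δ κ) {X : Set (ℂ × Bool)} (hX : ps X = P) (k : ℝ)
    {a : D → ℂ} (ha : ∀ t : T3, Fc P U t.1 t.2.1 t.2.2 → a (gd δ t) = Nn t) :
    ∑ x ∈ ev M, ∑ β ∈ bigB P U M δ k x, ENNReal.ofReal (‖∑ g ∈ β, a g‖ ^ 2) ≤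
      ((ev M).card : ℝ≥0∞) * fam.Ps k U X := by
  set R : Obj → Prop := fun o => ∀ z, ¬ spt o ⊆ sq z k with hR
  have s1 := sum_swap A R fun o => ENNReal.ofReal (‖NN o.2‖ ^ 2)
  have e1 : fam.Ps k U X = ∑' o : Obj, (if IsOb P o ∧ spt o ⊆ U ∧ R o then
      ENNReal.ofReal (‖NN o.2‖ ^ 2) * ENNReal.ofReal (pc o.1) else 0) := by
    unfold Fam.Ps
    refine tsum_congr fun o => ?_
    show (if IsOb (ps X) o ∧ spt o ⊆ U ∧ (∀ z, ¬ spt o ⊆ sq z k) then wgt o else 0) = _
    rw [hX]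
    refine if_congr Iff.rfl ?_ rfl
    unfold wgt
    rw [ENNReal.ofReal_mul (by positivity)]
  rw [e1, s1]
  refine Finset.sum_le_sum fun x hx => ?_
  rw [mem_ev] at hx
  refine blocks_le R _ _ _ fun β hβ => ?_
  unfold bigB at hβ
  obtain ⟨hβ, g, hgβ, hU, hB⟩ := Finset.mem_filter.1 hβ
  obtain ⟨hg, hb⟩ := mem_blks hx hβ hgβ
  obtain ⟨l, s, hl, hs, h1, hc, h2, ml⟩ := exists_lp A hx hg hU
  have ho : IsOb P (l, bl l s) := ⟨hl.lp, s, hs, h1, rfl⟩
  have hsp : spt (l, bl l s) ⊆ U := Set.iUnion₂_subset fun t ht => hl.sub t ht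
  have him : im δ (l, bl l s) = β := by
    show (bl l s).image (gd δ) = β
    rw [← A.blk_img hx hl hc hs h1, h2, hb]
  refine ⟨(l, bl l s), ho, hsp, ?_, hc, him, ?_⟩
  · intro z hz
    obtain ⟨n, a, b, c, f1, f2, f3⟩ := hB z
    apply f3
    have f4 : (a, b, c) ∈ l := (ml _).2 ⟨f1, n, f2⟩
    exact (Set.subset_biUnion_of_mem (u := fun t => cdisc t) f4).trans hz
  · rw [← sum_im A ho hsp a fun t ht => ha t (hl.fc ht), him]

/-- sufficient condition for `Big` -/
theorem big_of {k : ℝ} {g : D} {n n' : ℕ} {a b c a' b' c' : ℂ} (h : Fc P U a b c)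
    (h' : Fc P U a' b' c') (hn : (stp M x)^[n] (M.rho g) = δ a b)
    (hn' : (stp M x)^[n'] (M.rho g) = δ a' b')
    (hk : k ≤ |a.re - a'.re| ∨ k ≤ |a.im - a'.im|) : Big P U M δ x k g := by
  intro z
  have ma : a ∈ cdisc (a, b, c) := mem_cdisc h.1
  have ma' : a' ∈ cdisc (a', b', c') := mem_cdisc h'.1
  by_contra hcon
  push Not at hcon
  have h1 := hcon n a b c h hn ma
  have h2 := hcon n' a' b' c' h' hn' ma'
  obtain ⟨a1, a2, a3, a4⟩ := h1
  obtain ⟨b1, b2, b3, b4⟩ := h2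
  rcases hk with hk | hk
  · have : |a.re - a'.re| < k := by rw [abs_lt]; constructor <;> linarith
    linarith
  · have : |a.im - a'.im| < k := by rw [abs_lt]; constructor <;> linarith
    linarith

/-- **THE SUM RULE.** For every `k > 0` and every bounded `U` there is `r ε → 0` (mesh `ε → 0`), the
mean over the positions of the functional `fam.Ps k U`, which dominates the mean over the colours of
`∑ ‖N(β)‖²` over the blocks with their loop inside `U`, in no square of side `k`, of EVERY closed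
map that agrees with the Delaunay triangulation of the configuration inside `U`. -/
theorem sum_rule {k : ℝ} (hk : 0 < k) {U : Set ℂ} (hU : Bornology.IsBounded U) :
    ∃ E : ℝ → Sample → ℝ≥0∞,
      Tendsto (fun ε : ℝ => ∫⁻ ω, E ε ω ∂sampleLaw) (𝓝[>] 0) (𝓝 0) ∧
      ∀ (ε : ℝ) (ω : Sample) (D C : Type) [Fintype D] (M : CMap D C) (δ : ℂ → ℂ → D)
        (κ : ℂ → C), Agr (points ε ω) U M δ κ → ∀ a : D → ℂ,
        (∀ t : T3, Fc (points ε ω) U t.1 t.2.1 t.2.2 → a (gd δ t) = Nn t) →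
        ∑ x ∈ ev M, ∑ β ∈ bigB (points ε ω) U M δ k x, ENNReal.ofReal (‖∑ g ∈ β, a g‖ ^ 2) ≤
          ((ev M).card : ℝ≥0∞) * E ε ω :=
  ⟨fun ε ω => fam.Ps k U (cfg ε ω), mass0 hk hU, fun ε ω _ _ _ _ _ _ A _ ha =>
    blocks_mass A (ps_cfg ε ω) k ha⟩

end Crest.Agent.R143.Mass5x302
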