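import Crest.Agent.R143.SumSc_302
import Crest.Agent.R143.B0_346

/-!
# Row 143 (S0194): MASS, part 1 (helper302): interface loops of a Delaunay triangulation as local
weighted objects

A state of the walker is a triple `t = (a, b, c)` : he crosses the edge `{a, b}` and enters the
Delaunay triangle `(a, b, c)` with `a` on his left and `b` on his right (`Frame1_395`: the dart
`(a, b)`).

* `IsLp P l` : `l` is the set of the states of a directed interface loop of the Delaunay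
  triangulation of `P` (for some colours: `lf l` = left sites, `rt l` = right sites)
* `bl l s` : the block of the left gap after the state `s` (`Rel` of `Frame3_395`)
* `fam` : objects = pairs (loop, block), support = closed circumdiscs of the faces of the loop,
  weight = `‖N β‖² * 2 / 2 ^ (number of sites)` (the mean over the colours)
-/

set_option autoImplicit false

noncomputable section

open scoped Classical

namespace Crest.Agent.R143.Mass1x302

open Crest.Agent.R143.B0x346 Crest.Agent.R143.SumScx302 Crest.Agent.R143.PP0x831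
open scoped ENNReal

abbrev T3 : Type := ℂ × ℂ × ℂ

/-- left sites -/
def lf (l : Finset T3) : Finset ℂ := l.image fun t => t.1

/-- right sites -/
def rt (l : Finset T3) : Finset ℂ := l.image fun t => t.2.1

/-- `t` follows `s` -/
def St (l : Finset T3) (s t : T3) : Prop :=
  (s.2.2 ∈ lf l ∧ t.1 = s.2.2 ∧ t.2.1 = s.2.1) ∨ (s.2.2 ∈ rt l ∧ t.1 = s.1 ∧ t.2.1 = s.2.2)

/-- the walk from `s` to `t` avoids the site `c` on its left -/
def AvL (l : Finset T3) (c : ℂ) (s t : T3) : Prop :=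
  s ∈ l ∧ s.1 ≠ c ∧ Relation.ReflTransGen (fun u v => v ∈ l ∧ St l u v ∧ v.1 ≠ c) s t

/-- the relation of `Frame3_395` between the left gaps after `s` and after `t` -/
def Rl (l : Finset T3) (s t : T3) : Prop :=
  ∀ c, s = t ∨ (∃ s', St l s s' ∧ AvL l c s' t) ∨ (∃ t', St l t t' ∧ AvL l c t' s)

/-- the block of the left gap after `s` -/
def bl (l : Finset T3) (s : T3) : Finset T3 := l.filter fun t => t.2.2 ∈ lf l ∧ Rl l s t

/-- directed interface loops -/
structure IsLp (P : Set ℂ) (l : Finset T3) : Prop where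
  ne : l.Nonempty
  del : ∀ t ∈ l, Del P t.1 t.2.1 t.2.2
  dj : Disjoint (lf l) (rt l)
  nx : ∀ s ∈ l, ∃ t ∈ l, St l s t
  orb : ∀ s ∈ l, ∀ t ∈ l, Relation.ReflTransGen (fun u v => v ∈ l ∧ St l u v) s t

/-- objects: loop and block -/
abbrev Obj : Type := Finset T3 × Finset T3

/-- the objects of the point set `P` -/
def IsOb (P : Set ℂ) (o : Obj) : Prop :=
  IsLp P o.1 ∧ ∃ s ∈ o.1, s.2.2 ∈ lf o.1 ∧ o.2 = bl o.1 s

/-- closed circumdisc -/
def cdisc (t : T3) : Set ℂ :=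
  {z | ∃ o : ℂ, ‖t.2.1 - o‖ = ‖t.1 - o‖ ∧ ‖t.2.2 - o‖ = ‖t.1 - o‖ ∧ ‖z - o‖ ≤ ‖t.1 - o‖}

/-- support -/
def spt (o : Obj) : Set ℂ := ⋃ t ∈ o.1, cdisc t

/-- charge of the left gap after the state `(a, b, c)` (gap `(c, a)`, minority site `b`) -/
def Nn (t : T3) : ℂ :=
  (starRingEnd ℂ) t.2.1 + om * (starRingEnd ℂ) t.1 + om ^ 2 * (starRingEnd ℂ) t.2.2

/-- charge of a block -/
def NN (β : Finset T3) : ℂ := ∑ t ∈ β, Nn t

/-- probability of the colours -/
def pc (l : Finset T3) : ℝ := 2 / 2 ^ (lf l ∪ rt l).card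

/-- weight -/
def wgt (o : Obj) : ℝ≥0∞ := ENNReal.ofReal (‖NN o.2‖ ^ 2 * pc o.1)

/-! ### covariance -/

section cov

variable (e : ℂ ≃ ℂ)

/-- action on triples -/
def mt : T3 ≃ T3 := e.prodCongr (e.prodCongr e)

/-- action on sets of triples -/
def mp : Finset T3 ≃ Finset T3 := (mt e).finsetCongr

theorem mt_symm : (mt e).symm = mt e.symm := rfl

theorem mp_symm : (mp e).symm = mp e.symm := by
  ext l
  rfl

theorem mem_mp {l : Finset T3} {t : T3} : mt e t ∈ mp e l ↔ t ∈ l := by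
  unfold mp
  simp

theorem mem_mp' {l : Finset T3} {t : T3} : t ∈ mp e l ↔ ∃ s ∈ l, mt e s = t := by
  constructor
  · intro h
    refine ⟨(mt e).symm t, ?_, (mt e).apply_symm_apply t⟩
    rw [← mem_mp e, (mt e).apply_symm_apply]
    exact h
  · rintro ⟨s, hs, rfl⟩
    exact (mem_mp e).2 hs

theorem lf_mp (l : Finset T3) : lf (mp e l) = (lf l).image e := by
  ext z
  simp only [lf, Finset.mem_image, mem_mp']
  constructor
  · rintro ⟨t, ⟨s, hs, rfl⟩, rfl⟩
    exact ⟨s.1, ⟨s, hs, rfl⟩, rfl⟩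
  · rintro ⟨_, ⟨s, hs, rfl⟩, rfl⟩
    exact ⟨mt e s, ⟨s, hs, rfl⟩, rfl⟩

theorem rt_mp (l : Finset T3) : rt (mp e l) = (rt l).image e := by
  ext z
  simp only [rt, Finset.mem_image, mem_mp']
  constructor
  · rintro ⟨t, ⟨s, hs, rfl⟩, rfl⟩
    exact ⟨s.2.1, ⟨s, hs, rfl⟩, rfl⟩
  · rintro ⟨_, ⟨s, hs, rfl⟩, rfl⟩
    exact ⟨mt e s, ⟨s, hs, rfl⟩, rfl⟩

theorem mem_image_e {A : Finset ℂ} {z : ℂ} : e z ∈ A.image e ↔ z ∈ A := by
  rw [Finset.mem_image]
  constructor
  · rintro ⟨w, hw, h⟩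
    rwa [← e.injective h]
  · intro h
    exact ⟨z, h, rfl⟩

theorem St_map {l : Finset T3} {s t : T3} : St (mp e l) (mt e s) (mt e t) ↔ St l s t := by
  unfold St
  rw [lf_mp, rt_mp]
  show (e s.2.2 ∈ _ ∧ e t.1 = e s.2.2 ∧ e t.2.1 = e s.2.1) ∨
    (e s.2.2 ∈ _ ∧ e t.1 = e s.1 ∧ e t.2.1 = e s.2.2) ↔ _
  rw [mem_image_e, mem_image_e]
  simp only [e.injective.eq_iff]

theorem rtg_map {A : Type} (m : A ≃ A) {r r' : A → A → Prop} (h : ∀ u v, r u v → r' (m u) (m v))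
    {s t : A} (hs : Relation.ReflTransGen r s t) : Relation.ReflTransGen r' (m s) (m t) := by
  induction hs with
  | refl => exact Relation.ReflTransGen.refl
  | tail _ h2 ih => exact ih.tail (h _ _ h2)

theorem AvL.map {l : Finset T3} {c : ℂ} {s t : T3} (h : AvL l c s t) :
    AvL (mp e l) (e c) (mt e s) (mt e t) := by
  obtain ⟨h1, h2, h3⟩ := h
  refine ⟨(mem_mp e).2 h1, fun hc => h2 (e.injective hc), ?_⟩
  refine rtg_map (mt e) ?_ h3
  rintro u v ⟨a1, a2, a3⟩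
  exact ⟨(mem_mp e).2 a1, (St_map e).2 a2, fun hc => a3 (e.injective hc)⟩

theorem Rl.map {l : Finset T3} {s t : T3} (h : Rl l s t) : Rl (mp e l) (mt e s) (mt e t) := by
  intro c
  rcases h (e.symm c) with h1 | ⟨s', h1, h2⟩ | ⟨t', h1, h2⟩
  · exact Or.inl (by rw [h1])
  · refine Or.inr (Or.inl ⟨mt e s', (St_map e).2 h1, ?_⟩)
    have := h2.map e
    rwa [e.apply_symm_apply] at this
  · refine Or.inr (Or.inr ⟨mt e t', (St_map e).2 h1, ?_⟩)
    have := h2.map e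
    rwa [e.apply_symm_apply] at this

theorem mp_back (l : Finset T3) : mp e.symm (mp e l) = l := by
  rw [← mp_symm, Equiv.symm_apply_apply]

theorem mt_back (t : T3) : mt e.symm (mt e t) = t := by
  rw [← mt_symm, Equiv.symm_apply_apply]

theorem Rl_map {l : Finset T3} {s t : T3} : Rl (mp e l) (mt e s) (mt e t) ↔ Rl l s t := by
  constructor
  · intro h
    have := h.map e.symm
    rwa [mp_back, mt_back, mt_back] at this
  · exact fun h => h.map e

theorem bl_map (l : Finset T3) (s : T3) : bl (mp e l) (mt e s) = mp e (bl l s) := by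
  ext t
  obtain ⟨t, rfl⟩ := (mt e).surjective t
  rw [mem_mp]
  unfold bl
  rw [Finset.mem_filter, Finset.mem_filter, mem_mp, Rl_map, lf_mp]
  show t ∈ l ∧ e t.2.2 ∈ _ ∧ _ ↔ _
  rw [mem_image_e]

/-- `e` maps Delaunay triangles to Delaunay triangles -/
def Good (e : ℂ ≃ ℂ) : Prop :=
  ∀ (P : Set ℂ) (a b c : ℂ), Del (e '' P) (e a) (e b) (e c) ↔ Del P a b c

variable {e}

theorem IsLp_map (he : Good e) {P : Set ℂ} {l : Finset T3} :
    IsLp (e '' P) (mp e l) ↔ IsLp P l := by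
  have key : ∀ {e : ℂ ≃ ℂ}, Good e → ∀ {P : Set ℂ} {l : Finset T3}, IsLp P l →
      IsLp (e '' P) (mp e l) := by
    intro e he P l h
    refine ⟨?_, ?_, ?_, ?_, ?_⟩
    · obtain ⟨t, ht⟩ := h.ne
      exact ⟨mt e t, (mem_mp e).2 ht⟩
    · intro t ht
      obtain ⟨s, hs, rfl⟩ := (mem_mp' e).1 ht
      exact (he P _ _ _).2 (h.del s hs)
    · rw [lf_mp, rt_mp, Finset.disjoint_image e.injective]
      exact h.dj
    · intro s hs
      obtain ⟨s, hs', rfl⟩ := (mem_mp' e).1 hs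
      obtain ⟨t, ht, h1⟩ := h.nx s hs'
      exact ⟨mt e t, (mem_mp e).2 ht, (St_map e).2 h1⟩
    · intro s hs t ht
      obtain ⟨s, hs', rfl⟩ := (mem_mp' e).1 hs
      obtain ⟨t, ht', rfl⟩ := (mem_mp' e).1 ht
      refine rtg_map (mt e) ?_ (h.orb s hs' t ht')
      rintro u v ⟨a1, a2⟩
      exact ⟨(mem_mp e).2 a1, (St_map e).2 a2⟩
  refine ⟨fun h => ?_, key he⟩
  have hs : Good e.symm := by
    intro P a b c
    have := he (e.symm '' P) (e.symm a) (e.symm b) (e.symm c)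
    rw [e.apply_symm_apply, e.apply_symm_apply, e.apply_symm_apply, Set.image_image] at this
    simp only [e.apply_symm_apply, Set.image_id'] at this
    exact this.symm
  have h2 := key hs h
  rw [mp_back, Set.image_image] at h2
  simpa using h2

/-- action on objects -/
def mo (e : ℂ ≃ ℂ) : Obj ≃ Obj := (mp e).prodCongr (mp e)

theorem IsOb_map (he : Good e) {P : Set ℂ} {o : Obj} : IsOb (e '' P) (mo e o) ↔ IsOb P o := by
  obtain ⟨l, β⟩ := o
  show IsLp (e '' P) (mp e l) ∧ (∃ s ∈ mp e l, s.2.2 ∈ lf (mp e l) ∧ mp e β = bl (mp e l) s) ↔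
    IsLp P l ∧ ∃ s ∈ l, s.2.2 ∈ lf l ∧ β = bl l s
  rw [IsLp_map he]
  refine and_congr_right fun _ => ?_
  constructor
  · rintro ⟨s, hs, h1, h2⟩
    obtain ⟨s, hs', rfl⟩ := (mem_mp' e).1 hs
    rw [lf_mp] at h1
    rw [bl_map] at h2
    exact ⟨s, hs', (mem_image_e e).1 h1, (mp e).injective h2⟩
  · rintro ⟨s, hs, h1, rfl⟩
    refine ⟨mt e s, (mem_mp e).2 hs, ?_, (bl_map e l s).symm⟩
    rw [lf_mp]
    exact (mem_image_e e).2 h1

theorem pc_map (l : Finset T3) : pc (mp e l) = pc l := by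
  unfold pc
  rw [lf_mp, rt_mp, ← Finset.image_union, Finset.card_image_of_injective _ e.injective]

theorem NN_map {k : ℂ} (hN : ∀ t, Nn (mt e t) = k * Nn t) (β : Finset T3) :
    NN (mp e β) = k * NN β := by
  unfold NN mp
  rw [Finset.mul_sum]
  simp only [Equiv.finsetCongr_apply, Finset.sum_map, Equiv.coe_toEmbedding]
  exact Finset.sum_congr rfl fun t _ => hN t

theorem spt_map (hc : ∀ t, cdisc (mt e t) = e '' cdisc t) (o : Obj) :
    spt (mo e o) = e '' spt o := by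
  obtain ⟨l, β⟩ := o
  unfold spt
  show ⋃ t ∈ mp e l, cdisc t = e '' ⋃ t ∈ l, cdisc t
  rw [Set.image_iUnion₂]
  ext z
  simp only [Set.mem_iUnion, exists_prop]
  constructor
  · rintro ⟨t, ht, hz⟩
    obtain ⟨s, hs, rfl⟩ := (mem_mp' e).1 ht
    exact ⟨s, hs, by rwa [hc] at hz⟩
  · rintro ⟨s, hs, hz⟩
    exact ⟨mt e s, (mem_mp e).2 hs, by rwa [hc]⟩

end cov

/-! ### translations and dilations -/

/-- the translation -/
def eT (z : ℂ) : ℂ ≃ ℂ := Equiv.addRight z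

/-- the dilation -/
def eS (r : ℝ) (hr : 0 < r) : ℂ ≃ ℂ := Equiv.mulLeft₀ (r : ℂ) (Complex.ofReal_ne_zero.2 hr.ne')

theorem om_rel : 1 + om + om ^ 2 = 0 := by
  have h3 : om ^ 3 = 1 := by
    unfold om
    rw [← Complex.exp_nat_mul, show ((3 : ℕ) : ℂ) * (((2 * Real.pi / 3 : ℝ) : ℂ) * Complex.I) =
      2 * Real.pi * Complex.I by push_cast; ring, Complex.exp_two_pi_mul_I]
  have h1 : om ≠ 1 := by
    intro h
    have h2 : om.im = 0 := by rw [h]; simp
    have h4 : om.im = Real.sin (2 * Real.pi / 3) := by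
      unfold om
      rw [Complex.exp_ofReal_mul_I_im]
    have h5 : 0 < Real.sin (2 * Real.pi / 3) :=
      Real.sin_pos_of_pos_of_lt_pi (by positivity) (by linarith [Real.pi_pos])
    rw [h4] at h2
    linarith
  have h2 : (om - 1) * (1 + om + om ^ 2) = 0 := by linear_combination h3
  rcases mul_eq_zero.1 h2 with h | h
  · exact absurd (sub_eq_zero.1 h) h1
  · exact h

theorem Nn_tr (z : ℂ) (t : T3) : Nn (mt (eT z) t) = 1 * Nn t := by
  unfold Nn
  show (starRingEnd ℂ) (t.2.1 + z) + om * (starRingEnd ℂ) (t.1 + z) +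
    om ^ 2 * (starRingEnd ℂ) (t.2.2 + z) = _
  rw [map_add, map_add, map_add]
  linear_combination (starRingEnd ℂ z) * om_rel

theorem Nn_sc {r : ℝ} (hr : 0 < r) (t : T3) : Nn (mt (eS r hr) t) = (r : ℂ) * Nn t := by
  unfold Nn
  show (starRingEnd ℂ) ((r : ℂ) * t.2.1) + om * (starRingEnd ℂ) ((r : ℂ) * t.1) +
    om ^ 2 * (starRingEnd ℂ) ((r : ℂ) * t.2.2) = _
  rw [map_mul, map_mul, map_mul, Complex.conj_ofReal]
  ring

theorem good_of {e : ℂ ≃ ℂ} {k : ℝ} (hk : 0 < k) (hn : ∀ u v, ‖e u - e v‖ = k * ‖u - v‖)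
    (hcr : ∀ a b c, cr (e b - e a) (e c - e a) = k ^ 2 * cr (b - a) (c - a)) : Good e := by
  intro P a b c
  unfold Del
  rw [hcr]
  constructor
  · rintro ⟨⟨a', ha', ea⟩, ⟨b', hb', eb⟩, ⟨c', hc', ec⟩, h1, o, h2, h3, h4⟩
    refine ⟨e.injective ea ▸ ha', e.injective eb ▸ hb', e.injective ec ▸ hc', ?_, e.symm o, ?_⟩
    · exact pos_of_mul_pos_right h1 (by positivity)
    · have ho : o = e (e.symm o) := (e.apply_symm_apply o).symm
      rw [ho] at h2 h3 h4
      rw [hn, hn] at h2 h3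
      refine ⟨mul_left_cancel₀ hk.ne' h2, mul_left_cancel₀ hk.ne' h3, fun s hs => ?_⟩
      have := h4 (e s) ⟨s, hs, rfl⟩
      rw [hn, hn] at this
      exact le_of_mul_le_mul_left this hk
  · rintro ⟨h0, h0', h0'', h1, o, h2, h3, h4⟩
    refine ⟨⟨a, h0, rfl⟩, ⟨b, h0', rfl⟩, ⟨c, h0'', rfl⟩, by positivity, e o, ?_, ?_, ?_⟩
    · rw [hn, hn, h2]
    · rw [hn, hn, h3]
    · rintro _ ⟨s, hs, rfl⟩
      rw [hn, hn]
      exact mul_le_mul_of_nonneg_left (h4 s hs) hk.le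

theorem cdisc_of {e : ℂ ≃ ℂ} {k : ℝ} (hk : 0 < k) (hn : ∀ u v, ‖e u - e v‖ = k * ‖u - v‖) (t : T3) :
    cdisc (mt e t) = e '' cdisc t := by
  ext z
  constructor
  · rintro ⟨o, h1, h2, h3⟩
    have ho : o = e (e.symm o) := (e.apply_symm_apply o).symm
    have hz : z = e (e.symm z) := (e.apply_symm_apply z).symm
    rw [ho] at h1 h2 h3
    rw [hz] at h3
    change ‖e t.2.1 - _‖ = ‖e t.1 - _‖ at h1
    change ‖e t.2.2 - _‖ = ‖e t.1 - _‖ at h2
    change _ ≤ ‖e t.1 - _‖ at h3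
    rw [hn, hn] at h1 h2 h3
    exact ⟨e.symm z, ⟨e.symm o, mul_left_cancel₀ hk.ne' h1, mul_left_cancel₀ hk.ne' h2,
      le_of_mul_le_mul_left h3 hk⟩, hz.symm⟩
  · rintro ⟨w, ⟨o, h1, h2, h3⟩, rfl⟩
    refine ⟨e o, ?_, ?_, ?_⟩
    · show ‖e t.2.1 - _‖ = ‖e t.1 - _‖
      rw [hn, hn, h1]
    · show ‖e t.2.2 - _‖ = ‖e t.1 - _‖
      rw [hn, hn, h2]
    · show _ ≤ ‖e t.1 - _‖
      rw [hn, hn]
      exact mul_le_mul_of_nonneg_left h3 hk.le

theorem eT_norm (z u v : ℂ) : ‖eT z u - eT z v‖ = 1 * ‖u - v‖ := by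
  show ‖(u + z) - (v + z)‖ = _
  rw [add_sub_add_right_eq_sub, one_mul]

theorem eS_norm {r : ℝ} (hr : 0 < r) (u v : ℂ) : ‖eS r hr u - eS r hr v‖ = r * ‖u - v‖ := by
  show ‖(r : ℂ) * u - (r : ℂ) * v‖ = _
  rw [← mul_sub, norm_mul, Complex.norm_real, Real.norm_eq_abs, abs_of_pos hr]

theorem eT_good (z : ℂ) : Good (eT z) := by
  refine good_of one_pos (eT_norm z) fun a b c => ?_
  show cr ((b + z) - (a + z)) ((c + z) - (a + z)) = _
  rw [add_sub_add_right_eq_sub, add_sub_add_right_eq_sub, one_pow, one_mul]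

theorem eS_good {r : ℝ} (hr : 0 < r) : Good (eS r hr) := by
  refine good_of hr (eS_norm hr) fun a b c => ?_
  show cr ((r : ℂ) * b - (r : ℂ) * a) ((r : ℂ) * c - (r : ℂ) * a) = _
  unfold cr
  simp only [Complex.sub_re, Complex.sub_im, Complex.re_ofReal_mul, Complex.im_ofReal_mul]
  ring

/-- positions of a coloured set -/
def ps (X : Set (ℂ × Bool)) : Set ℂ := Prod.fst '' X

theorem ps_tr (z : ℂ) (X : Set (ℂ × Bool)) : ps (trX z X) = eT z '' ps X := by
  unfold ps trX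
  rw [Set.image_image, Set.image_image]
  rfl

theorem ps_sc {r : ℝ} (hr : 0 < r) (X : Set (ℂ × Bool)) : ps (scX r X) = eS r hr '' ps X := by
  unfold ps scX
  rw [Set.image_image, Set.image_image]
  rfl

theorem mem_cdisc {P : Set ℂ} {t : T3} (h : Del P t.1 t.2.1 t.2.2) : t.1 ∈ cdisc t := by
  obtain ⟨-, -, -, -, o, h1, h2, -⟩ := h
  exact ⟨o, h1, h2, le_rfl⟩

/-- **the family of the interface loops with their blocks** -/
def fam : Fam Obj where
  Ob X := {o | IsOb (ps X) o}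
  sup := spt
  wt := wgt
  ne X o ho := by
    obtain ⟨t, ht⟩ := ho.1.ne
    exact ⟨t.1, Set.mem_biUnion ht (mem_cdisc (ho.1.del t ht))⟩
  tr z := mo (eT z)
  tr_ob z X o := by
    show IsOb (ps (trX z X)) _ ↔ IsOb (ps X) o
    rw [ps_tr, IsOb_map (eT_good z)]
  tr_sup z o := spt_map (cdisc_of one_pos (eT_norm z)) o
  tr_wt z o := by
    unfold wgt
    show ENNReal.ofReal (‖NN (mp (eT z) o.2)‖ ^ 2 * pc (mp (eT z) o.1)) = _
    rw [NN_map (Nn_tr z), pc_map, one_mul]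
  sc r hr := mo (eS r hr)
  sc_ob r hr X o := by
    show IsOb (ps (scX r X)) _ ↔ IsOb (ps X) o
    rw [ps_sc hr, IsOb_map (eS_good hr)]
  sc_sup r hr o := spt_map (cdisc_of hr (eS_norm hr)) o
  sc_wt r hr o := by
    unfold wgt
    show ENNReal.ofReal (‖NN (mp (eS r hr) o.2)‖ ^ 2 * pc (mp (eS r hr) o.1)) = _
    rw [NN_map (Nn_sc hr), pc_map, norm_mul, mul_pow, Complex.norm_real, Real.norm_eq_abs, sq_abs,
      mul_assoc, ENNReal.ofReal_mul (by positivity)]

end Crest.Agent.R143.Mass1x302
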