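import Crest.Agent.R143.ColSum_304
import Crest.Agent.R143.Mass1_302

/-!
# Row 143 (S0194): MASS with the actual colours (helper304)

`PsC κ U X` : sum of `‖N β‖²` over the blocks `β` of the interface loops of the *coloured* set `X`
(loop of the Delaunay triangulation of the positions, left sites of one colour, right sites of the
other colour) with support in `U` and in no square of side `κ`.

* `PsC_le` : `E PsC κ U (cfg ε) ≤ E fam.Ps κ U (cfg ε)` (`fam` = 302's family, colours by counting)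
* `massC_of` : hence `E PsC → 0` from 302's theorem on `fam`
* `prob_massC` : in probability form
-/

set_option autoImplicit false

noncomputable section

open scoped Classical

namespace Crest.Agent.R143.MassCx304

open MeasureTheory Set Filter Topology
open Crest.ProbabilityR.Voronoi
open Crest.Agent.R143.B0x346 Crest.Agent.R143.SumScx302 Crest.Agent.R143.Mass1x302
  Crest.Agent.R143.PP0x831 Crest.Agent.R143.ColSumx304
open scoped ENNReal

theorem ps_cfg (ε : ℝ) (ω : Sample) : ps (cfg ε ω) = points ε ω := by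
  unfold ps cfg points
  rw [image_image]

/-- the loop `l` is an interface loop of the coloured set `X` -/
def Real' (X : Set (ℂ × Bool)) (l : Finset T3) : Prop := Rz X (lf l) (rt l)

/-- macroscopic objects of the positions `P` -/
def OkM (κ : ℝ) (U : Set ℂ) (P : Set ℂ) : Set Obj :=
  {o | IsOb P o ∧ spt o ⊆ U ∧ ∀ z, ¬ spt o ⊆ sq z κ}

/-- energy of the macroscopic blocks of the coloured set `X` -/
def PsC (κ : ℝ) (U : Set ℂ) (X : Set (ℂ × Bool)) : ℝ≥0∞ :=
  ∑' o : Obj, if o ∈ OkM κ U (ps X) ∧ Rz X (lf o.1) (rt o.1) then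
    ENNReal.ofReal (‖NN o.2‖ ^ 2) else 0

theorem fin_countable {S : Set T3} (hS : S.Countable) : {l : Finset T3 | (l : Set T3) ⊆ S}.Countable := by
  haveI : Countable S := hS.to_subtype
  have h : {l : Finset T3 | (l : Set T3) ⊆ S} ⊆
      Set.range fun m : Finset S => m.map (Function.Embedding.subtype _) := by
    intro l hl
    refine ⟨l.subtype (fun t => t ∈ S), ?_⟩
    ext t
    simp only [Finset.mem_map, Finset.mem_subtype, Function.Embedding.subtype_apply]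
    constructor
    · rintro ⟨u, hu, rfl⟩
      exact hu
    · intro ht
      exact ⟨⟨t, hl (Finset.mem_coe.2 ht)⟩, ht, rfl⟩
  exact (Set.countable_range _).mono h

theorem OkM_countable (κ : ℝ) (U : Set ℂ) {P : Set ℂ} (hP : P.Countable) :
    (OkM κ U P).Countable := by
  have h1 : (P ×ˢ P ×ˢ P : Set T3).Countable := hP.prod (hP.prod hP)
  have h2 : {l : Finset T3 | (l : Set T3) ⊆ P ×ˢ P ×ˢ P}.Countable := fin_countable h1
  have h3 := h2.prod h2
  refine h3.mono ?_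
  rintro ⟨l, β⟩ ⟨⟨hl, s, hs, -, hβ⟩, -⟩
  have hl' : (l : Set T3) ⊆ P ×ˢ P ×ˢ P := by
    intro t ht
    obtain ⟨ha, hb, hc, -⟩ := hl.del t ht
    exact ⟨ha, hb, hc⟩
  refine ⟨hl', ?_⟩
  show (β : Set T3) ⊆ _
  change β = bl l s at hβ
  rw [hβ]
  refine Subset.trans ?_ hl'
  intro t ht
  exact (Finset.mem_filter.1 ht).1

theorem wgt_eq (o : Obj) : wgt o =
    ENNReal.ofReal (‖NN o.2‖ ^ 2) * (2 / 2 ^ (lf o.1 ∪ rt o.1).card) := by
  unfold wgt pc
  rw [ENNReal.ofReal_mul (by positivity), ENNReal.ofReal_div_of_pos (by positivity),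
    ENNReal.ofReal_pow (by norm_num)]
  norm_num

/-- **the colours of the sample instead of counting** -/
theorem PsC_le (κ : ℝ) (U : Set ℂ) {ε : ℝ} (hε : 0 < ε) :
    ∫⁻ ω, PsC κ U (cfg ε ω) ∂sampleLaw ≤ ∫⁻ ω, fam.Ps κ U (cfg ε ω) ∂sampleLaw := by
  have h := col_le (O := Obj) (OkM κ U) (fun o => lf o.1) (fun o => rt o.1)
    (fun o => ENNReal.ofReal (‖NN o.2‖ ^ 2)) (fun P hP => OkM_countable κ U hP)
    (fun P o ho => by
      intro z hz
      obtain ⟨t, ht, rfl⟩ := Finset.mem_image.1 (Finset.mem_coe.1 hz)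
      exact (ho.1.1.del t ht).1)
    (fun P o ho => by
      intro z hz
      obtain ⟨t, ht, rfl⟩ := Finset.mem_image.1 (Finset.mem_coe.1 hz)
      exact (ho.1.1.del t ht).2.1)
    (fun P o ho => ho.1.1.dj) hε
  refine (le_of_eq ?_).trans (h.trans (le_of_eq ?_))
  · refine lintegral_congr fun ω => ?_
    unfold PsC
    rw [ps_cfg]
  · refine lintegral_congr fun ω => ?_
    unfold Fam.Ps
    refine tsum_congr fun o => ?_
    have e : (o ∈ fam.Ob (cfg ε ω) ∧ fam.sup o ⊆ U ∧ ∀ z, ¬ fam.sup o ⊆ sq z κ) ↔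
        o ∈ OkM κ U (points ε ω) := by
      rw [← ps_cfg]
      exact Iff.rfl
    by_cases h' : o ∈ OkM κ U (points ε ω)
    · rw [if_pos h', if_pos (e.2 h')]
      exact (wgt_eq o).symm
    · rw [if_neg h', if_neg fun h'' => h' (e.1 h'')]

/-- 302's theorem with the colours of the sample -/
theorem massC_of {κ : ℝ} {U : Set ℂ}
    (h : Tendsto (fun ε : ℝ => ∫⁻ ω, fam.Ps κ U (cfg ε ω) ∂sampleLaw) (𝓝[>] 0) (𝓝 0)) :
    Tendsto (fun ε : ℝ => ∫⁻ ω, PsC κ U (cfg ε ω) ∂sampleLaw) (𝓝[>] 0) (𝓝 0) := by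
  refine tendsto_of_tendsto_of_tendsto_of_le_of_le' tendsto_const_nhds h
    (Eventually.of_forall fun _ => zero_le) ?_
  filter_upwards [self_mem_nhdsWithin] with ε hε
  exact PsC_le κ U hε

/-- a single macroscopic block is bounded by `PsC` -/
theorem le_PsC {κ : ℝ} {U : Set ℂ} {X : Set (ℂ × Bool)} {o : Obj} (h1 : IsOb (ps X) o)
    (h2 : spt o ⊆ U) (h3 : ∀ z, ¬ spt o ⊆ sq z κ) (h4 : Rz X (lf o.1) (rt o.1)) :
    ENNReal.ofReal (‖NN o.2‖ ^ 2) ≤ PsC κ U X := by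
  unfold PsC
  refine le_trans ?_ (ENNReal.le_tsum o)
  rw [if_pos ⟨⟨h1, h2, h3⟩, h4⟩]

/-- a finite family of macroscopic blocks -/
theorem sum_le_PsC {κ : ℝ} {U : Set ℂ} {X : Set (ℂ × Bool)} (s : Finset Obj)
    (h : ∀ o ∈ s, IsOb (ps X) o ∧ spt o ⊆ U ∧ (∀ z, ¬ spt o ⊆ sq z κ) ∧ Rz X (lf o.1) (rt o.1)) :
    ∑ o ∈ s, ENNReal.ofReal (‖NN o.2‖ ^ 2) ≤ PsC κ U X := by
  unfold PsC
  refine le_trans (Finset.sum_le_sum fun o ho => ?_) (ENNReal.sum_le_tsum s)
  obtain ⟨h1, h2, h3, h4⟩ := h o ho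
  rw [if_pos ⟨⟨h1, h2, h3⟩, h4⟩]

/-- in probability: a measurable event on which some macroscopic block has charge `≥ t` -/
theorem prob_massC {κ : ℝ} {U : Set ℂ} {ε t : ℝ} (ht : 0 < t) {E : Set Sample}
    (hE : NullMeasurableSet E sampleLaw)
    (hs : ∀ ω ∈ E, ∃ o : Obj, IsOb (points ε ω) o ∧ spt o ⊆ U ∧ (∀ z, ¬ spt o ⊆ sq z κ) ∧
      Rz (cfg ε ω) (lf o.1) (rt o.1) ∧ t ≤ ‖NN o.2‖) :
    sampleLaw E ≤ (∫⁻ ω, PsC κ U (cfg ε ω) ∂sampleLaw) / ENNReal.ofReal (t ^ 2) := by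
  have ht2 : ENNReal.ofReal (t ^ 2) ≠ 0 := by
    rw [Ne, ENNReal.ofReal_eq_zero, not_le]; positivity
  rw [ENNReal.le_div_iff_mul_le (Or.inl ht2) (Or.inl ENNReal.ofReal_ne_top), mul_comm,
    ← lintegral_indicator_const₀ hE]
  refine lintegral_mono fun ω => ?_
  by_cases hω : ω ∈ E
  · rw [Set.indicator_of_mem hω]
    obtain ⟨o, h1, h2, h3, h4, h5⟩ := hs ω hω
    refine le_trans ?_ (le_PsC (by rw [ps_cfg]; exact h1) h2 h3 h4)
    refine ENNReal.ofReal_le_ofReal ?_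
    exact pow_le_pow_left₀ ht.le h5 2
  · rw [Set.indicator_of_notMem hω]
    exact zero_le

/-- the sum form: for a measurable function below the energy of the macroscopic blocks -/
theorem lint_massC {κ : ℝ} {U : Set ℂ} {ε : ℝ} {f : Sample → ℝ≥0∞}
    (hs : ∀ ω, f ω ≤ PsC κ U (cfg ε ω)) :
    ∫⁻ ω, f ω ∂sampleLaw ≤ ∫⁻ ω, PsC κ U (cfg ε ω) ∂sampleLaw := lintegral_mono hs

end Crest.Agent.R143.MassCx304
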