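import Crest.Agent.R143.RingD_117
import Crest.Agent.R143.Mass5_302
import Crest.Agent.R143.MassC_304

/-!
# Row 143 (S0194), part B without E3: energy of the block of a ring (helper117)

* `blk_PsC` : every macroscopic block of `cm0 hS` inside `U` is one of the blocks of `PsC κ U X`
* `ring_PsC` : `‖∑ ZZ k‖²` of a ring of tubes is at most `PsC κ U X` (whose mean tends to `0`)
-/

set_option autoImplicit false

noncomputable section

open scoped Classical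

namespace Crest.Agent.R143.RingEx117

open MeasureTheory
open Crest.ProbabilityR.Voronoi
open Crest.Agent.R143.B0x346 Crest.Agent.R143.DelGx806 Crest.Agent.R143.DelRx806
  Crest.Agent.R143.JColx54
open Crest.Agent.R143.Frame1x395 Crest.Agent.R143.Frame2x395 Crest.Agent.R143.Frame3x395
  Crest.Agent.R143.Frame4x395 Crest.Agent.R143.Frame9x395
  Crest.Agent.R143.Frame10x395 Crest.Agent.R143.Frame11x395
open Crest.Agent.R143.Frame8x395 hiding cfg
open Crest.Agent.R143.Frame5x395 (sd mem_sd th th_spec)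
open Crest.Agent.R143.Splx117 Crest.Agent.R143.RingDx117
open Crest.Agent.R143.WLocx713 (HullC lift xc)
open Crest.Agent.R143.SumScx302 Crest.Agent.R143.Mass1x302 Crest.Agent.R143.Mass2x302
  Crest.Agent.R143.Mass3x302 Crest.Agent.R143.Mass4x302 Crest.Agent.R143.Mass5x302
  Crest.Agent.R143.MassCx304 Crest.Agent.R143.PP0x831
open scoped ENNReal

variable {S : Finset ℂ} {χ : ℂ → ZMod 2} {U : Set ℂ} {X : Set (ℂ × Bool)}

/-- **a macroscopic block of `cm0 hS` is a block of `PsC`** -/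
theorem blk_PsC (hS : GP (S : Set ℂ)) (hχ : HullC S χ) (hP : GP (ps X))
    (hPS : ∀ z ∈ U, z ∈ ps X ↔ z ∈ (S : Set ℂ)) (hin : ∀ v ∈ S, v ∈ U → ¬ OnHull S v)
    (hX : ∀ v ∈ S, v ∈ U → (v, decide (χ v = 1)) ∈ X) (e0 : D0 S) {k : ℝ} {a : D0 S → ℂ}
    (ha : ∀ t : T3, Fc (ps X) U t.1 t.2.1 t.2.2 → a (gd (dl e0) t) = Nn t) {β : Finset (D0 S)}
    (hβ : β ∈ bigB (ps X) U (cm0 hS) (dl e0) k (xc hS hχ)) :
    ENNReal.ofReal (‖∑ g ∈ β, a g‖ ^ 2) ≤ PsC k U X := by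
  have A := agr0 hP hS hPS hin e0
  have hx : IsC (cm0 hS) ∅ (xc hS hχ) := cfg_isC _
  unfold bigB at hβ
  obtain ⟨hβ, g, hgβ, hU, hB⟩ := Finset.mem_filter.1 hβ
  obtain ⟨hg, hb⟩ := mem_blks hx hβ hgβ
  obtain ⟨l, s, hl, hs, h1, hc, h2, ml⟩ := exists_lp A hx hg hU
  have ho : IsOb (ps X) (l, bl l s) := ⟨hl.lp, s, hs, h1, rfl⟩
  have hsp : spt (l, bl l s) ⊆ U := Set.iUnion₂_subset fun t ht => hl.sub t ht
  have him : im (dl e0) (l, bl l s) = β := by
    have h3 := A.blk_img hx hl hc hs h1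
    rw [h2, ← hb] at h3
    exact h3.symm
  have e1 : ∑ g ∈ β, a g = NN (bl l s) := by
    rw [← him]
    exact sum_im A ho hsp a fun t ht => ha t (hl.fc ht)
  rw [e1]
  refine le_PsC (o := (l, bl l s)) ho hsp ?_ ?_
  · intro z hz
    obtain ⟨n, a, b, c, f1, f2, f3⟩ := hB z
    apply f3
    have f4 : (a, b, c) ∈ l := (ml _).2 ⟨f1, n, f2⟩
    exact (Set.subset_biUnion_of_mem (u := fun t => cdisc t) f4).trans hz
  · -- the colours
    have hχ0 : ∀ d, xc hS hχ d = 0 → lift S hχ ((cm0 hS).cell d) =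
        lift S hχ ((cm0 hS).cell ((cm0 hS).rho d)) := by
      intro d hd
      have : lift S hχ ((cm0 hS).cell d) + lift S hχ ((cm0 hS).cell ((cm0 hS).rho d)) = 0 := hd
      revert this
      generalize lift S hχ ((cm0 hS).cell d) = u
      generalize lift S hχ ((cm0 hS).cell ((cm0 hS).rho d)) = v
      revert u v; decide
    set q := (cm0 hS).rho g with hq
    have hsite : ∀ t ∈ l, t.1 ∈ S ∧ t.1 ∈ U ∧ t.2.1 ∈ S ∧ t.2.1 ∈ U ∧ χ t.1 = lift S hχ ((cm0 hS).cell q) ∧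
        χ t.1 + χ t.2.1 = 1 := by
      rintro ⟨a, b, c⟩ ht
      obtain ⟨f1, n, hn⟩ := (ml _).1 ht
      change Fc (ps X) U a b c at f1
      have hf := (fc_congr hPS f1).1
      have ht' : (a, b, c) ∈ delT S := mem_delT.2 hf
      have hsd : (a, b) ∈ sd S := mem_sd.2 ⟨c, ht'⟩
      have ed : dd (dl e0) (a, b, c) = ⟨(a, b), hsd⟩ := dl_eq hsd
      have m := mem_delT.1 ht'
      have ma : a ∈ U := f1.2 (mem_cdisc (t := (a, b, c)) f1.1)
      have mb : b ∈ U := f1.rot.2 (mem_cdisc (t := (b, c, a)) f1.rot.1)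
      refine ⟨m.1, ma, m.2.1, mb, ?_, ?_⟩
      · have h3 := it_col hx hg.2 hχ0 n
        rw [hn, ed] at h3
        exact h3
      · have h3 := hc _ ht
        change xc hS hχ (dl e0 a b) = 1 at h3
        rw [dl_eq hsd] at h3
        exact h3
    refine ⟨decide (lift S hχ ((cm0 hS).cell q) = 1), fun z hz => ?_, fun z hz => ?_⟩
    · obtain ⟨t, ht, rfl⟩ := Finset.mem_image.1 hz
      obtain ⟨h3, h4, -, -, h5, -⟩ := hsite t ht
      rw [← h5]
      exact hX _ h3 h4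
    · obtain ⟨t, ht, rfl⟩ := Finset.mem_image.1 hz
      obtain ⟨-, -, h3, h4, h5, h6⟩ := hsite t ht
      have h7 : (!decide (lift S hχ ((cm0 hS).cell q) = 1)) = decide (χ t.2.1 = 1) := by
        rw [← h5]
        revert h6
        generalize χ t.1 = u
        generalize χ t.2.1 = v
        revert u v; decide
      rw [h7]
      exact hX _ h3 h4

variable {n : ℕ} {y z : ℕ → ℂ} {A B : ℕ → Set ℂ} {p : ℕ → D0 S}

/-- **the energy of the block of a ring** -/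
theorem ring_PsC {hS : GP (S : Set ℂ)} {hχ : HullC S χ} (R : DRing hS hχ n y z A B p)
    (hP : GP (ps X)) (hPS : ∀ z ∈ U, z ∈ ps X ↔ z ∈ (S : Set ℂ))
    (hin : ∀ v ∈ S, v ∈ U → ¬ OnHull S v)
    (hX : ∀ v ∈ S, v ∈ U → (v, decide (χ v = 1)) ∈ X)
    (hfc : ∀ k a b c, (a, b, c) ∈ delT S → a ∈ B k → b ∈ B k → Fc (ps X) U a b c) {k : ℝ} {j : ℕ}
    (hk : k ≤ |(y 0).re - (y j).re| ∨ k ≤ |(y 0).im - (y j).im|) :
    ENNReal.ofReal (‖∑ i ∈ Finset.range n,
      ZZ (cm0 hS) (xc hS hχ) (ch (ps X) U S) (RD S (B i)) (p i) (p (i + 1))‖ ^ 2) ≤ PsC k U X := by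
  obtain ⟨β, h1, h2, h3, ⟨i0, h4⟩, h5⟩ := R.main
  have hx : IsC (cm0 hS) ∅ (xc hS hχ) := cfg_isC _
  rw [← h5]
  refine blk_PsC hS hχ hP hPS hin hX (p 0) (fun t ht => ch_gd hS hPS (p 0) ht) ?_
  unfold bigB
  rw [Finset.mem_filter]
  set g := gp (cm0 hS) (xc hS hχ) (p 0) i0 with hg
  have hgr : (cm0 hS).rho g = (stp (cm0 hS) (xc hS hχ))^[i0] (p 0) := rho_gp i0
  -- states
  have hfs : ∀ d : D0 S, (∃ k, d ∈ RD S (B k)) → Fc (ps X) U d.1.1 d.1.2 (th S d.1) ∧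
      d = dl (p 0) d.1.1 d.1.2 := by
    rintro ⟨⟨a, b⟩, hd⟩ ⟨k, hk1, hk2⟩
    exact ⟨hfc k _ _ _ (th_spec hd) hk1 hk2, (dl_eq hd).symm⟩
  refine ⟨h1, g, h4, fun m => ?_, ?_⟩
  · rw [hgr, ← Function.iterate_add_apply]
    obtain ⟨hf, hd⟩ := hfs _ (h3 (m + i0))
    exact ⟨_, _, _, hf, hd⟩
  · -- all gates are on the loop of `g`
    obtain ⟨N, L⟩ := lp_exists hx (R.ring.occ 0)
    have reach : ∀ j, ∃ m, (stp (cm0 hS) (xc hS hχ))^[m] ((cm0 hS).rho g) = p j := by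
      intro j
      obtain ⟨i, hi⟩ := h2 j
      refine ⟨i + i0 * N - i0, ?_⟩
      have h6 : i0 ≤ i0 * N := Nat.le_mul_of_pos_right _ L.pos
      rw [hgr, ← Function.iterate_add_apply, show i + i0 * N - i0 + i0 = i + i0 * N by omega,
        Function.iterate_add_apply, per_mul L.per, hi]
    obtain ⟨m, hm⟩ := reach 0
    obtain ⟨m', hm'⟩ := reach j
    have s0 := hfs (p 0) (by
      obtain ⟨k, hk⟩ := h3 0
      exact ⟨k, hk⟩)
    have sj := hfs (p j) (by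
      obtain ⟨i, hi⟩ := h2 j
      obtain ⟨k, hk⟩ := h3 i
      rw [hi] at hk
      exact ⟨k, hk⟩)
    refine big_of s0.1 sj.1 (n := m) (n' := m') (hm.trans s0.2) (hm'.trans sj.2) ?_
    rw [R.st, R.st]
    exact hk

end Crest.Agent.R143.RingEx117
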