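import Crest.Agent.R143.WLoc8_713
import Crest.Agent.R143.Neck1_921
import Crest.Agent.R143.RingE_117

/-!
# Row 143 (S0194), CORE-C block V, box R3 (helper713): the neck gate and the charge of 302

* `zz_zB'` : 117's `ZZ` is `zB` if the weight is a function of the face for the faces whose left and
  right sites are in `W`; `zz_ch` : the same for 302's charge `ch (ps X) U S` (`f = Nn`)
* `NX z0 e a0 a1 b0 b1 m X p` : 921's gate predicate `NeckD` for the configuration `X`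
* `neck_loc` : locality of `NeckD`; `NX_cut`
* `neck_ginv` : it is transported by the isomorphisms of 609
* `GInv.mono`, `UF` : change of the family of Borel sets
* `zB_neck_fme`, `TE_neck_fme`, `gate_fme`
-/

set_option autoImplicit false
set_option linter.all false

noncomputable section

open scoped Classical

namespace Crest.Agent.R143.WLocx713

open Set MeasureTheory
open Crest.Agent.R143.B0x346 Crest.Agent.R143.DelGx806 Crest.Agent.R143.DelRx806
  Crest.Agent.R143.JColx54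
open Crest.Agent.R143.Frame1x395 Crest.Agent.R143.Frame3x395 Crest.Agent.R143.Frame8x395
  Crest.Agent.R143.Frame10x395 Crest.Agent.R143.Locx922
open Crest.Agent.R143.Frame5x395 (sd mem_sd th th_spec)
open Crest.Agent.R143.Splx117
open Crest.Agent.R143.Blkx838 (DE)
open Crest.Agent.R143.ToolWx838 (prs)
open Crest.Agent.R143.Neckx921 (Neck NeckD)
open Crest.Agent.R143.PP0x831 Crest.Agent.R143.Poisx304 Crest.Agent.R143.Janx304
open Crest.Agent.R143.Prodx609 Crest.Agent.R143.FinMx609 Crest.Agent.R143.FinM2x609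

/-! ### weights which are functions of the face inside `W` only -/

section weights

variable {D C : Type} {M : CMap D C} {x : D → ZMod 2} {p : D}

theorem ks_congr {A : Type} [AddCommMonoid A] {w w' : D → A} {a b : ℕ}
    (h : ∀ i, a ≤ i → i < b → w (gp M x p i) = w' (gp M x p i)) :
    KS M x p w a b = KS M x p w' a b := by
  unfold KS
  refine Finset.sum_congr rfl fun i hi => ?_
  rw [Finset.mem_filter, Finset.mem_Ico] at hi
  exact h i hi.1.1 hi.1.2

end weights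

variable {S S' : Finset ℂ} {W : Set ℂ} {d : ℝ} {χ χ' : ℂ → ZMod 2}

theorem gp_sites (hS : GP (S : Set ℂ)) (x : D0 S → ZMod 2) (p : D0 S) (i : ℕ) :
    (gp (cm0 hS) x p i).1.2 = ((stp (cm0 hS) x)^[i] p).1.1 ∧
      th S (gp (cm0 hS) x p i).1 = ((stp (cm0 hS) x)^[i] p).1.2 := by
  unfold gp
  set q := (stp (cm0 hS) x)^[i] p with hq
  obtain ⟨⟨u, v⟩, hd⟩ := q
  have t1 := th_spec hd
  have t2 := delT_rot hS t1
  have t3 := delT_rot hS t2
  have e : ((cm0 hS).rho ((cm0 hS).rho ⟨(u, v), hd⟩)).1 = (th S (u, v), u) := by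
    show (th S (u, v), th S (v, th S (u, v))) = _
    rw [th0 hS t2]
  rw [e]
  exact ⟨rfl, th0 hS t3⟩

theorem ks_congrW (hS : GP (S : Set ℂ)) {x : D0 S → ZMod 2} {p q : D0 S} {w w' : D0 S → ℂ}
    (h : FA (cm0 hS) x (RW S W) p q)
    (hw : ∀ e : D0 S, e.1.2 ∈ W → th S e.1 ∈ W → w e = w' e) :
    KS (cm0 hS) x p w 0 (ft (cm0 hS) x p q) = KS (cm0 hS) x p w' 0 (ft (cm0 hS) x p q) := by
  obtain ⟨m, h1, h2⟩ := h
  have h3 := ft_min h1
  refine ks_congr fun i _ hi => ?_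
  obtain ⟨e1, e2⟩ := gp_sites hS x p i
  have h4 := h2 i (by omega)
  exact hw _ (by rw [e1]; exact h4.1) (by rw [e2]; exact h4.2)

theorem zz_congr (hS : GP (S : Set ℂ)) {x : D0 S → ZMod 2} {p q : D0 S} {w w' : D0 S → ℂ}
    (hw : ∀ e : D0 S, e.1.2 ∈ W → th S e.1 ∈ W → w e = w' e) :
    ZZ (cm0 hS) x w (RW S W) p q = ZZ (cm0 hS) x w' (RW S W) p q := by
  unfold ZZ
  by_cases h1 : FA (cm0 hS) x (RW S W) p q
  · rw [if_pos h1, if_pos h1, ks_congrW hS h1 hw]
  · rw [if_neg h1, if_neg h1]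
    by_cases h2 : FA (cm0 hS) x (RW S W) q p
    · rw [if_pos h2, if_pos h2, ks_congrW hS h2 hw]
    · rw [if_neg h2, if_neg h2]

/-- `zz_eq` with the weak hypothesis on the weight -/
theorem zz_eq' (hS : GP (S : Set ℂ)) (hχ : HullC S χ) {p q : D0 S} (hp : xc hS hχ p = 1)
    (hq : xc hS hχ q = 1) (hW : ∀ v ∈ W, v ∈ S → ¬ OnHull S v) {f : ℂ × ℂ × ℂ → ℂ}
    {w : D0 S → ℂ} (hw : ∀ e : D0 S, e.1.2 ∈ W → th S e.1 ∈ W →
      w e = f (e.1.2, th S e.1, e.1.1)) :
    ZZ (cm0 hS) (xc hS hχ) w (RW S W) p q = zzp S χ f W p.1 q.1 := by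
  rw [zz_congr hS (w' := fun e : D0 S => f (e.1.2, th S e.1, e.1.1)) hw]
  exact zz_eq hS hχ hp hq hW fun _ => rfl

/-- **117's `ZZ` is `zB`**, weak hypothesis on the weight -/
theorem zz_zB' {W Q Q' : Set ℂ} {G G' : Set (ℂ × Bool) → ℂ × ℂ → Prop} {X : Set (ℂ × Bool)}
    (hX : X.Finite) (hS : GP (sX X : Set ℂ)) (hχ : HullC (sX X) (cX X))
    {p q : D0 (sX X)} (hp : xc hS hχ p = 1) (hq : xc hS hχ q = 1)
    (hp' : Least (G (X ∩ ovr Q)) p.1) (hq' : Least (G' (X ∩ ovr Q')) q.1)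
    (hW : ∀ v ∈ W, v ∈ sX X → ¬ OnHull (sX X) v) {f : ℂ × ℂ × ℂ → ℂ}
    {w : D0 (sX X) → ℂ} (hw : ∀ e : D0 (sX X), e.1.2 ∈ W → th (sX X) e.1 ∈ W →
      w e = f (e.1.2, th (sX X) e.1, e.1.1)) :
    ZZ (cm0 hS) (xc hS hχ) w (RW (sX X) W) p q = zB f W Q Q' G G' X := by
  rw [zz_eq' hS hχ hp hq hW hw]
  rw [zB_eq hX (by rw [← coe_sX hX]; exact hS) hp' hq' f]

/-- 302's charge inside `W` -/
theorem ch_val {P U : Set ℂ} (hS : GP (S : Set ℂ))
    (hfc : ∀ a b c, (a, b, c) ∈ delT S → a ∈ W → b ∈ W → Mass2x302.Fc P U a b c) (e : D0 S)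
    (h1 : e.1.2 ∈ W) (h2 : th S e.1 ∈ W) :
    Mass4x302.ch P U S e = Mass1x302.Nn (e.1.2, th S e.1, e.1.1) := by
  have t1 := th_spec e.2
  have t2 := delT_rot hS t1
  unfold Mass4x302.ch
  rw [if_pos]
  exact (hfc _ _ _ t2 h1 h2).rot.rot

/-- **the charge of 302 between two gates is `zB Nn`** -/
theorem zz_ch {W Q Q' P U : Set ℂ} {G G' : Set (ℂ × Bool) → ℂ × ℂ → Prop} {X : Set (ℂ × Bool)}
    (hX : X.Finite) (hS : GP (sX X : Set ℂ)) (hχ : HullC (sX X) (cX X))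
    {p q : D0 (sX X)} (hp : xc hS hχ p = 1) (hq : xc hS hχ q = 1)
    (hp' : Least (G (X ∩ ovr Q)) p.1) (hq' : Least (G' (X ∩ ovr Q')) q.1)
    (hW : ∀ v ∈ W, v ∈ sX X → ¬ OnHull (sX X) v)
    (hfc : ∀ a b c, (a, b, c) ∈ delT (sX X) → a ∈ W → b ∈ W → Mass2x302.Fc P U a b c) :
    ZZ (cm0 hS) (xc hS hχ) (Mass4x302.ch P U (sX X)) (RingDx117.RD (sX X) W) p q =
      zB Mass1x302.Nn W Q Q' G G' X :=
  zz_zB' hX hS hχ hp hq hp' hq' hW fun e h1 h2 => ch_val hS hfc e h1 h2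

theorem meas_Nn : Measurable Mass1x302.Nn := by
  unfold Mass1x302.Nn
  fun_prop

/-! ### the gate predicate: locality -/

/-- the window of a neck -/
def wn (z0 e : ℂ) (a0 a1 b0 b1 m : ℝ) : Set ℂ :=
  {s | (a0 < Gatex838.X z0 e s ∧ Gatex838.X z0 e s < a1) ∧
    b0 - m ≤ Gatex838.Y z0 e s ∧ Gatex838.Y z0 e s ≤ b1 + m}

theorem prs_mem {l : List ℂ} {q : ℂ × ℂ} (h : q ∈ prs l) : q.1 ∈ l ∧ q.2 ∈ l := by
  induction l with
  | nil => simp [prs] at h
  | cons a l ih =>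
    cases l with
    | nil => simp [prs] at h
    | cons b l =>
      rw [prs, List.mem_cons] at h
      rcases h with rfl | h
      · exact ⟨by simp, by simp⟩
      · obtain ⟨h1, h2⟩ := ih h
        exact ⟨List.mem_cons_of_mem _ h1, List.mem_cons_of_mem _ h2⟩

variable {z0 e : ℂ} {a0 a1 b0 b1 m : ℝ} {V V' β β' : Finset ℂ}

theorem neck_loc_imp (hd : 0 < d) (hH : Hol (S : Set ℂ) (wn z0 e a0 a1 b0 b1 m) d)
    (hA : Agr (S : Set ℂ) (S' : Set ℂ) (wn z0 e a0 a1 b0 b1 m) (2 * d))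
    (hV : ∀ s ∈ wn z0 e a0 a1 b0 b1 m, s ∈ V ↔ s ∈ V')
    (hβ : ∀ s ∈ wn z0 e a0 a1 b0 b1 m, s ∈ β ↔ s ∈ β') {y x : ℂ}
    (h : NeckD S z0 e a0 a1 b0 b1 m V β y x) : NeckD S' z0 e a0 a1 b0 b1 m V' β' y x := by
  obtain ⟨up, dn, h, hx⟩ := h
  have hN : Neck S' z0 e a0 a1 b0 b1 m V' β' up y dn := by
    constructor
    case nu => exact h.nu
    case nd => exact h.nd
    case adj =>
      intro p hp
      exact (de_loc hd hH hA (h.win _ (prs_mem hp).1)).1 (h.adj p hp)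
    case cu =>
      intro s hs
      have h1 := h.win s (by simp [hs])
      rw [← hV s h1, ← hβ s h1]
      exact h.cu s hs
    case cd =>
      intro s hs hs2
      have h1 := h.win s (by simp [hs])
      rw [← hV s h1, ← hβ s h1]
      exact h.cd s hs hs2
    case cy =>
      have h1 := h.win y (by simp)
      rw [← hV y h1, ← hβ y h1]
      exact h.cy
    case win => exact h.win
    case yb => exact h.yb
    case top => exact h.top
    case bot => exact h.bot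
    all_goals exact h.upb
  exact ⟨up, dn, hN, hx⟩

/-- **locality of the gate predicate** -/
theorem neck_loc (hd : 0 < d) (hH : Hol (S : Set ℂ) (wn z0 e a0 a1 b0 b1 m) d)
    (hA : Agr (S : Set ℂ) (S' : Set ℂ) (wn z0 e a0 a1 b0 b1 m) (2 * d))
    (hV : ∀ s ∈ wn z0 e a0 a1 b0 b1 m, s ∈ V ↔ s ∈ V')
    (hβ : ∀ s ∈ wn z0 e a0 a1 b0 b1 m, s ∈ β ↔ s ∈ β') {y x : ℂ} :
    NeckD S z0 e a0 a1 b0 b1 m V β y x ↔ NeckD S' z0 e a0 a1 b0 b1 m V' β' y x :=
  ⟨neck_loc_imp hd hH hA hV hβ, neck_loc_imp hd (hH.agr hA) hA.symm (fun s hs => (hV s hs).symm)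
    fun s hs => (hβ s hs).symm⟩

/-- black sites of a configuration -/
def bX (X : Set (ℂ × Bool)) : Finset ℂ := (sX X).filter fun v => cX X v = 1

theorem mem_bX {X : Set (ℂ × Bool)} (hX : X.Finite) {v : ℂ} :
    v ∈ bX X ↔ v ∈ ps X ∧ cX X v = 1 := by
  unfold bX
  rw [Finset.mem_filter, mem_sX hX]

/-- **the gate predicate of a configuration** -/
def NX (z0 e : ℂ) (a0 a1 b0 b1 m : ℝ) (X : Set (ℂ × Bool)) (p : ℂ × ℂ) : Prop :=
  X.Finite ∧ NeckD (sX X) z0 e a0 a1 b0 b1 m (sX X) (bX X) p.1 p.2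

/-- **the gate predicate is decided by the configuration near the window** -/
theorem NX_cut {X : Set (ℂ × Bool)} (hX : X.Finite) (hd : 0 < d)
    (hH : Hol (ps X) (wn z0 e a0 a1 b0 b1 m) d) {R : Set ℂ}
    (hR : ∀ w ∈ wn z0 e a0 a1 b0 b1 m, ∀ s, ‖s - w‖ < 2 * d → s ∈ R) {p : ℂ × ℂ} :
    NX z0 e a0 a1 b0 b1 m (X ∩ ovr R) p ↔ NX z0 e a0 a1 b0 b1 m X p := by
  have hY : (X ∩ ovr R).Finite := hX.subset inter_subset_left
  have hc : (sX (X ∩ ovr R) : Set ℂ) = ps X ∩ R := by rw [coe_sX hY, ps_inter]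
  have hH' : Hol (sX X : Set ℂ) (wn z0 e a0 a1 b0 b1 m) d := by rw [coe_sX hX]; exact hH
  have hA : Agr (sX X : Set ℂ) (sX (X ∩ ovr R) : Set ℂ) (wn z0 e a0 a1 b0 b1 m) (2 * d) := by
    intro w hw s hs
    rw [hc, coe_sX hX]
    exact ⟨fun h => ⟨h, hR w hw s hs⟩, fun h => h.1⟩
  have hwR : ∀ s ∈ wn z0 e a0 a1 b0 b1 m, s ∈ R := fun s hs => hR s hs s (by simpa using hd)
  have hV : ∀ s ∈ wn z0 e a0 a1 b0 b1 m, s ∈ sX X ↔ s ∈ sX (X ∩ ovr R) := by
    intro s hs
    rw [mem_sX hX, mem_sX hY, ps_inter]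
    exact ⟨fun h => ⟨h, hwR s hs⟩, fun h => h.1⟩
  have hβ : ∀ s ∈ wn z0 e a0 a1 b0 b1 m, s ∈ bX X ↔ s ∈ bX (X ∩ ovr R) := by
    intro s hs
    rw [mem_bX hX, mem_bX hY, ps_inter, cX_inter (hwR s hs)]
    exact ⟨fun h => ⟨⟨h.1, hwR s hs⟩, h.2⟩, fun h => ⟨h.1.1, h.2⟩⟩
  unfold NX
  rw [neck_loc hd hH' hA hV hβ]
  exact ⟨fun h => ⟨hX, h.2⟩, fun h => ⟨hY, h.2⟩⟩

/-! ### the gate predicate: transport -/

/-- the Borel sets used by the gate predicate -/
def UN (z0 e : ℂ) (a0 a1 b0 b1 m : ℝ) : Fin 5 → Set ℂ :=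
  ![wn z0 e a0 a1 b0 b1 m, {s | b0 < Gatex838.Y z0 e s}, {s | Gatex838.Y z0 e s < b1},
    {s | b1 ≤ Gatex838.Y z0 e s}, {s | Gatex838.Y z0 e s ≤ b0}]

theorem meas_X : Measurable (Gatex838.X z0 e) := by
  unfold Gatex838.X
  fun_prop

theorem meas_Y : Measurable (Gatex838.Y z0 e) := by
  unfold Gatex838.Y
  fun_prop

theorem UN_meas (i : Fin 5) : MeasurableSet (UN z0 e a0 a1 b0 b1 m i) := by
  have hX := meas_X (z0 := z0) (e := e)
  have hY := meas_Y (z0 := z0) (e := e)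
  fin_cases i
  · exact ((measurableSet_lt measurable_const hX).inter (measurableSet_lt hX measurable_const)).inter
      ((measurableSet_le measurable_const hY).inter (measurableSet_le hY measurable_const))
  · exact measurableSet_lt measurable_const hY
  · exact measurableSet_lt hY measurable_const
  · exact measurableSet_le measurable_const hY
  · exact measurableSet_le hY measurable_const

section transport

variable {ι κ : Type*} [Finite ι] [Finite κ] {U : ι → Set ℂ} {R : κ → ℂ × ℂ × ℂ → Prop}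
  {X X' : Set (ℂ × Bool)} {f : ℂ → ℂ}

theorem iso_adj (hX : X.Finite) (hX' : X'.Finite) (he : PIso U R X X' f) {l : List ℂ}
    (h : ∀ p ∈ prs l, DE (sX X) p.1 p.2) : ∀ p ∈ prs (l.map f), DE (sX X') p.1 p.2 := by
  intro p hp
  rw [Gatex838.prs_map, List.mem_map] at hp
  obtain ⟨q, hq, rfl⟩ := hp
  exact iso_de hX hX' he (h q hq)

theorem iso_bX (hX : X.Finite) (hX' : X'.Finite) (he : PIso U R X X' f) {v : ℂ}
    (hv : v ∈ ps X) : v ∈ bX X ↔ f v ∈ bX X' := by
  rw [mem_bX hX, mem_bX hX', iso_col he hv]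
  exact ⟨fun h => ⟨he.bij.mapsTo hv, h.2⟩, fun h => ⟨hv, h.2⟩⟩

theorem iso_sX (hX : X.Finite) (hX' : X'.Finite) (he : PIso U R X X' f) {v : ℂ}
    (hv : v ∈ ps X) : v ∈ sX X ↔ f v ∈ sX X' := by
  rw [mem_sX hX, mem_sX hX']
  exact ⟨fun h => he.bij.mapsTo hv, fun h => hv⟩

/-- **transport of the gate predicate** -/
theorem neck_ginv (hU : ∀ i, ∃ a, U a = UN z0 e a0 a1 b0 b1 m i) :
    GInv U R (NX z0 e a0 a1 b0 b1 m) := by
  have lst : ∀ {X : Set (ℂ × Bool)} (hX : X.Finite) {up dn : List ℂ} {y : ℂ},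
      Neck (sX X) z0 e a0 a1 b0 b1 m (sX X) (bX X) up y dn → ∀ s ∈ up ++ y :: dn, s ∈ ps X := by
    intro X hX up dn y h s hs
    -- every site of a chain with at least two sites is a site
    have key : ∀ l : List ℂ, (∀ p ∈ prs l, DE (sX X) p.1 p.2) → 2 ≤ l.length → ∀ s ∈ l, s ∈ ps X := by
      intro l
      induction l with
      | nil => intro _ _ s hs; simp at hs
      | cons a l ih =>
        cases l with
        | nil => intro _ h2; simp at h2
        | cons b l =>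
          intro hl _ s hs
          have hab := hl (a, b) (by rw [prs]; simp)
          rcases List.mem_cons.1 hs with rfl | hs
          · exact (de_ps hX hab).1
          · cases l with
            | nil =>
              rw [List.mem_singleton] at hs
              rw [hs]
              exact (de_ps hX hab).2
            | cons c l =>
              exact ih (fun p hp => hl p (by rw [prs]; exact List.mem_cons_of_mem _ hp))
                (by simp) s hs
    refine key _ h.adj ?_ s hs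
    have h1 := List.length_pos_of_ne_nil h.nu
    rw [List.length_append, List.length_cons]
    omega
  refine ⟨?_, ?_⟩
  · rintro X ⟨y, x⟩ ⟨hX, up, dn, h, hx⟩
    have h1 := lst hX h
    refine ⟨h1 y (by simp), ?_⟩
    have h2 := h1 _ (List.mem_append_left _ (List.getLast_mem h.nu))
    rw [hx] at h2
    exact h2
  · rintro X X' hX hX' f he ⟨y, x⟩ ⟨-, up, dn, h, hx⟩
    change Neck (sX X) z0 e a0 a1 b0 b1 m (sX X) (bX X) up y dn at h
    change up.getLast h.nu = x at hx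
    have h1 := lst hX h
    show NX z0 e a0 a1 b0 b1 m X' (f y, f x)
    have loc : ∀ i, ∀ s ∈ up ++ y :: dn, s ∈ UN z0 e a0 a1 b0 b1 m i ↔
        f s ∈ UN z0 e a0 a1 b0 b1 m i := by
      intro i s hs
      obtain ⟨a, ha⟩ := hU i
      rw [← ha]
      exact he.loc s (h1 s hs) a
    have hmap : up.map f ++ f y :: dn.map f = (up ++ y :: dn).map f := by simp
    have my : y ∈ up ++ y :: dn := by simp
    have mu : ∀ s ∈ up, s ∈ up ++ y :: dn := fun s hs => List.mem_append_left _ hs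
    have md : ∀ s ∈ dn, s ∈ up ++ y :: dn := fun s hs =>
      List.mem_append_right _ (List.mem_cons_of_mem _ hs)
    have hN : Neck (sX X') z0 e a0 a1 b0 b1 m (sX X') (bX X') (up.map f) (f y) (dn.map f) := by
      constructor
      case nu => simpa using h.nu
      case nd => simpa using h.nd
      case adj =>
        rw [hmap]
        exact iso_adj hX hX' he h.adj
      case cu =>
        intro s' hs'
        obtain ⟨s, hs, rfl⟩ := List.mem_map.1 hs'
        have h2 := h1 s (mu s hs)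
        rw [← iso_sX hX hX' he h2, ← iso_bX hX hX' he h2]
        exact h.cu s hs
      case cd =>
        intro s' hs' hs2
        obtain ⟨s, hs, rfl⟩ := List.mem_map.1 hs'
        have h2 := h1 s (md s hs)
        rw [← iso_sX hX hX' he h2, ← iso_bX hX hX' he h2]
        exact h.cd s hs ((loc 1 s (md s hs)).2 hs2)
      case cy =>
        have h2 := h1 y my
        rw [← iso_sX hX hX' he h2, ← iso_bX hX hX' he h2]
        exact h.cy
      case win =>
        intro s' hs'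
        rw [hmap] at hs'
        obtain ⟨s, hs, rfl⟩ := List.mem_map.1 hs'
        exact (loc 0 s hs).1 (h.win s hs)
      case yb => exact ⟨(loc 1 y my).1 h.yb.1, (loc 2 y my).1 h.yb.2⟩
      case top =>
        rw [List.head_map]
        exact (loc 3 _ (mu _ (List.head_mem _))).1 h.top
      case bot =>
        rw [List.getLast_map]
        exact (loc 4 _ (md _ (List.getLast_mem _))).1 h.bot
      all_goals
        intro s' hs'
        obtain ⟨s, hs, rfl⟩ := List.mem_map.1 hs'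
        exact (loc 1 s (mu s hs)).1 (h.upb s hs)
    refine ⟨hX', up.map f, dn.map f, hN, ?_⟩
    show (up.map f).getLast _ = f x
    rw [List.getLast_map, hx]

end transport

/-! ### gate darts are occupied -/

theorem neck_occ {X : Set (ℂ × Bool)} (hX : X.Finite) (hχ : HullC (sX X) (cX X)) {p : ℂ × ℂ}
    (h : NX z0 e a0 a1 b0 b1 m X p) : Occ (sX X) (cX X) p := by
  obtain ⟨y, x⟩ := p
  obtain ⟨-, up, dn, h, hx⟩ := h
  change Neck (sX X) z0 e a0 a1 b0 b1 m (sX X) (bX X) up y dn at h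
  change up.getLast h.nu = x at hx
  have h1 : DE (sX X) x y := by
    rw [← hx]
    exact h.de
  have hy : cX X y = 1 := ((mem_bX hX).1 h.cy.2).2
  have hx' : cX X x = 0 := by
    have h2 := h.cu _ (List.getLast_mem h.nu)
    rw [hx] at h2
    have h3 : ¬ cX X x = 1 := fun h3 => h2.2 ((mem_bX hX).2 ⟨(mem_sX hX).1 h2.1, h3⟩)
    revert h3
    generalize cX X x = a
    revert a; decide
  rcases h1 with ⟨c, h1⟩ | ⟨c, h1⟩
  · refine ⟨twin hχ (mem_sd.2 ⟨c, h1⟩) ?_, ?_⟩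
    · rw [hy, hx', zero_add]
    · show cX X y + cX X x = 1
      rw [hy, hx', add_zero]
  · refine ⟨mem_sd.2 ⟨c, h1⟩, ?_⟩
    show cX X y + cX X x = 1
    rw [hy, hx', add_zero]

theorem NX_fin {X : Set (ℂ × Bool)} (hX : X.Finite) :
    {p | NX z0 e a0 a1 b0 b1 m X p}.Finite := by
  have h1 : (ps X).Finite := hX.image _
  refine (h1.prod h1).subset ?_
  intro p hp
  have h2 : GInv (UN z0 e a0 a1 b0 b1 m) (fun k : Empty => (Empty.elim k : ℂ × ℂ × ℂ → Prop))
      (NX z0 e a0 a1 b0 b1 m) := neck_ginv fun i => ⟨i, rfl⟩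
  exact ⟨(h2.mem X p hp).1, (h2.mem X p hp).2⟩

/-- the least gate dart exists iff there is a gate dart -/
theorem exists_gate {X : Set (ℂ × Bool)} (hX : X.Finite) :
    (∃ p, Least (NX z0 e a0 a1 b0 b1 m X) p) ↔ ∃ p, NX z0 e a0 a1 b0 b1 m X p :=
  ⟨fun ⟨p, hp⟩ => ⟨p, hp.1⟩, fun h => exists_least (NX_fin hX) h⟩

/-- the least gate dart of `X ∩ ovr Q` is a gate dart of `X` -/
theorem gate_up {X : Set (ℂ × Bool)} (hX : X.Finite) (hd : 0 < d)
    (hH : Hol (ps X) (wn z0 e a0 a1 b0 b1 m) d) {Q : Set ℂ}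
    (hQ : ∀ w ∈ wn z0 e a0 a1 b0 b1 m, ∀ s, ‖s - w‖ < 2 * d → s ∈ Q) {p : ℂ × ℂ}
    (hp : Least (NX z0 e a0 a1 b0 b1 m (X ∩ ovr Q)) p) : NX z0 e a0 a1 b0 b1 m X p :=
  (NX_cut hX hd hH hQ).1 hp.1

theorem gate_occ {X : Set (ℂ × Bool)} (hX : X.Finite) (hχ : HullC (sX X) (cX X)) (hd : 0 < d)
    (hH : Hol (ps X) (wn z0 e a0 a1 b0 b1 m) d) {Q : Set ℂ}
    (hQ : ∀ w ∈ wn z0 e a0 a1 b0 b1 m, ∀ s, ‖s - w‖ < 2 * d → s ∈ Q) {p : ℂ × ℂ}
    (hp : Least (NX z0 e a0 a1 b0 b1 m (X ∩ ovr Q)) p) : Occ (sX X) (cX X) p :=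
  neck_occ hX hχ (gate_up hX hd hH hQ hp)

/-! ### measurability for neck gates -/

/-- parameters of a gate -/
structure GPar where
  z0 : ℂ
  e : ℂ
  a0 : ℝ
  a1 : ℝ
  b0 : ℝ
  b1 : ℝ
  m : ℝ

/-- gate predicate with the parameters `g` -/
def NG (g : GPar) : Set (ℂ × Bool) → ℂ × ℂ → Prop := NX g.z0 g.e g.a0 g.a1 g.b0 g.b1 g.m

/-- window of the gate -/
def GPar.win (g : GPar) : Set ℂ := wn g.z0 g.e g.a0 g.a1 g.b0 g.b1 g.m

/-- Borel sets of the gate -/
def GPar.U (g : GPar) : Fin 5 → Set ℂ := UN g.z0 g.e g.a0 g.a1 g.b0 g.b1 g.m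

/-- the family of a tube -/
def UT (W A Q Q' : Set ℂ) (g g' : GPar) : Fin 4 ⊕ Fin 5 ⊕ Fin 5 → Set ℂ :=
  Sum.elim ![W, A, Q, Q'] (Sum.elim g.U g'.U)

theorem UT_meas {W A Q Q' : Set ℂ} (hW : MeasurableSet W) (hA : MeasurableSet A)
    (hQ : MeasurableSet Q) (hQ' : MeasurableSet Q') (g g' : GPar) :
    ∀ i, MeasurableSet (UT W A Q Q' g g' i) := by
  rintro (i | i | i)
  · fin_cases i
    · exact hW
    · exact hA
    · exact hQ
    · exact hQ'
  · exact UN_meas i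
  · exact UN_meas i

theorem UT_ginv {κ : Type*} [Finite κ] {R : κ → ℂ × ℂ × ℂ → Prop} {W A Q Q' : Set ℂ}
    (g g' : GPar) : GInv (UC (UT W A Q Q' g g')) R (NG g) :=
  neck_ginv fun i => ⟨{Sum.inr (Sum.inl i)}, by rw [UC_single]; rfl⟩

theorem UT_ginv' {κ : Type*} [Finite κ] {R : κ → ℂ × ℂ × ℂ → Prop} {W A Q Q' : Set ℂ}
    (g g' : GPar) : GInv (UC (UT W A Q Q' g g')) R (NG g') :=
  neck_ginv fun i => ⟨{Sum.inr (Sum.inr i)}, by rw [UC_single]; rfl⟩

/-- no relation -/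
def R0 : Empty → ℂ × ℂ × ℂ → Prop := fun k => Empty.elim k

/-- **measurability of the charge between two neck gates** -/
theorem zB_neck_fme {W Q Q' : Set ℂ} (hW : MeasurableSet W) (hQ : MeasurableSet Q)
    (hQ' : MeasurableSet Q') (g g' : GPar) {f : ℂ × ℂ × ℂ → ℂ} (hf : Measurable f) :
    FMe (zB f W Q Q' (NG g) (NG g')) :=
  zB_fme (U0 := UT W W Q Q' g g') (R := R0) (UT_meas hW hW hQ hQ' g g') (fun k => Empty.elim k)
    (UT_ginv g g') (UT_ginv' g g') (Sum.inl 0) (Sum.inl 2) (Sum.inl 3) hf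

/-- **measurability of the tube event between two neck gates** -/
theorem TE_neck_fme {A Q Q' : Set ℂ} (hA : MeasurableSet A) (hQ : MeasurableSet Q)
    (hQ' : MeasurableSet Q') (g g' : GPar) : FMe (TE A Q Q' (NG g) (NG g')) :=
  TE_fme (U0 := UT A A Q Q' g g') (R := R0) (UT_meas hA hA hQ hQ' g g') (fun k => Empty.elim k)
    (UT_ginv g g') (UT_ginv' g g') (Sum.inl 0) (Sum.inl 2) (Sum.inl 3)

/-- **measurability of the existence of a neck** -/
theorem gate_fme (g : GPar) : FMe fun X : Set (ℂ × Bool) => ∃ p, NG g X p := by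
  have h : GInv g.U R0 (NG g) := neck_ginv fun i => ⟨i, rfl⟩
  refine finMeas_iso (U := g.U) (R := R0) (P := fun X : Set (ℂ × Bool) => ∃ p, NG g X p)
    (fun i => UN_meas i) (fun k => Empty.elim k) ?_
  rintro X X' hX hX' e he ⟨p, hp⟩
  exact ⟨mp e p, h.tr X X' hX hX' e he p hp⟩

/-- **the least gate dart is measurable** -/
theorem dart_fme (g : GPar) : FMe fun X : Set (ℂ × Bool) => mind (NG g X) := by
  have h : GInv g.U (RL R0) (NG g) := neck_ginv fun i => ⟨i, rfl⟩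
  exact fme_mind (fun i => UN_meas i) (R := R0) (fun k => Empty.elim k) (G := NG g) h.mem
    fun X X' hX hX' e he x hx y hy hp => h.tr X X' hX hX' e he (x, y) hp

end Crest.Agent.R143.WLocx713
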