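import Crest.Agent.R143.SiteM_829
import Crest.Agent.R143.CorM_970
import Crest.Agent.R143.IndLoc3_279
import Crest.Agent.R143.WLoc9_713

/-!
# Row 143 (S0194), RIG glue (helper829; 831's ColX): the coloured sites of a colouring of the cells

`hS : GP S`, `s : Cs hS → ZMod 2` a colouring of the finitely many cells of `cm0 hS` (811).

* `bs hS h3 s` : the black sites; `Xc hS h3 s = clr S (bs ..)` : the coloured sites
* `fin_Xc`, `ps_Xc`, `sX_Xc`, `cX_Xc`, `bX_Xc`, `hullC_Xc`, `xc_Xc` (`xc = cfg (rc0 hS) s`)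
* `Xc_inter` : `Xc s ∩ ovr T = clr (S ∩ T) (black sites in T)`; `Xc_congr`, `Xc_glue_on`,
  `Xc_glue_off`, `Xc_mix_on`, `Xc_mix_off`
* `Xc_scol` : the colouring given by the set `β` of black sites
* **`av_Xc`** : mean over all the colourings of `F (Xc s)` = `cav F S` (279) for `F` local on a set
  without hull sites; `av_XcE` (`ℝ≥0∞`), `av_Xc_inter`; `av_pair` : two independent colourings
* `av_Xc_mul` : one colouring, two disjoint regions
-/

set_option autoImplicit false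
set_option linter.unusedSectionVars false

noncomputable section

open scoped Classical

namespace Crest.Agent.R143.ColXx829

open Set MeasureTheory
open Crest.Agent.R143.B0x346 Crest.Agent.R143.FinCx811 Crest.Agent.R143.Resax778
  Crest.Agent.R143.Frame10x395 Crest.Agent.R143.DelGx806 Crest.Agent.R143.Freshx829
  Crest.Agent.R143.Frame1x395
open Crest.Agent.R143.PP0x831 Crest.Agent.R143.Poisx304 Crest.Agent.R143.Janx304
  Crest.Agent.R143.FinMx609 Crest.Agent.R143.WLocx713 Crest.Agent.R143.IndLoc3x279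
open Crest.Agent.R143.CorMx970 (av)
open scoped ENNReal

variable {S : Finset ℂ}

/-- the black sites of a colouring of the cells -/
def bs (hS : GP (S : Set ℂ)) (h3 : 3 ≤ S.card) (s : Cs hS → ZMod 2) : Finset ℂ :=
  S.filter fun v => ∃ h : v ∈ S, s (cs hS h3 ⟨v, h⟩) = 1

/-- **the coloured sites** -/
def Xc (hS : GP (S : Set ℂ)) (h3 : 3 ≤ S.card) (s : Cs hS → ZMod 2) : Set (ℂ × Bool) :=
  clr S (bs hS h3 s)

section clr

variable {β : Finset ℂ}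

theorem clr_fin : (clr S β).Finite := by
  refine Set.Finite.subset ((S ×ˢ (Finset.univ : Finset Bool)).finite_toSet) ?_
  rintro ⟨v, b⟩ ⟨h, -⟩
  rw [Finset.mem_coe, Finset.mem_product]
  exact ⟨h, Finset.mem_univ _⟩

theorem ps_clr : ps (clr S β) = (S : Set ℂ) := by
  ext v
  constructor
  · rintro ⟨⟨w, b⟩, h, rfl⟩
    exact h.1
  · intro hv
    refine ⟨(v, decide (v ∈ β)), ⟨hv, ?_⟩, rfl⟩
    show decide (v ∈ β) = true ↔ v ∈ β
    exact decide_eq_true_iff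

theorem sX_clr : sX (clr S β) = S := by
  ext v
  rw [mem_sX clr_fin, ps_clr, Finset.mem_coe]

theorem cX_clr {v : ℂ} (hv : v ∈ S) : cX (clr S β) v = if v ∈ β then 1 else 0 := by
  unfold cX
  by_cases h : v ∈ β
  · rw [if_pos h, if_pos]
    exact ⟨hv, fun _ => h, fun _ => rfl⟩
  · rw [if_neg h, if_neg]
    rintro ⟨-, h'⟩
    exact h (h'.1 rfl)

theorem bX_clr (hβ : β ⊆ S) : bX (clr S β) = β := by
  unfold bX
  rw [sX_clr]
  ext v
  rw [Finset.mem_filter]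
  constructor
  · rintro ⟨h1, h2⟩
    rw [cX_clr h1] at h2
    by_contra h
    rw [if_neg h] at h2
    exact absurd h2 (by decide)
  · intro h
    exact ⟨hβ h, by rw [cX_clr (hβ h), if_pos h]⟩

/-- restriction to a region -/
theorem clr_inter (T : Set ℂ) : clr S β ∩ ovr T =
    clr (S.filter fun v => v ∈ T) (β.filter fun v => v ∈ T) := by
  ext ⟨v, b⟩
  simp only [clr, ovr, mem_inter_iff, mem_ofPred_eq, Finset.mem_filter]
  constructor
  · rintro ⟨⟨h1, h2⟩, h3⟩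
    exact ⟨⟨h1, h3⟩, h2.trans ⟨fun h => ⟨h, h3⟩, fun h => h.1⟩⟩
  · rintro ⟨⟨h1, h3⟩, h2⟩
    exact ⟨⟨h1, h2.trans ⟨fun h => h.1, fun h => ⟨h, h3⟩⟩⟩, h3⟩

/-- restrictions which agree -/
theorem clr_inter_congr {S' β' : Finset ℂ} {T : Set ℂ} (h1 : ∀ v ∈ T, v ∈ S ↔ v ∈ S')
    (h2 : ∀ v ∈ T, v ∈ S → (v ∈ β ↔ v ∈ β')) : clr S β ∩ ovr T = clr S' β' ∩ ovr T := by
  ext ⟨v, b⟩
  simp only [clr, ovr, mem_inter_iff, mem_ofPred_eq]
  constructor
  · rintro ⟨⟨h3, h4⟩, h5⟩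
    exact ⟨⟨(h1 v h5).1 h3, h4.trans (h2 v h5 h3)⟩, h5⟩
  · rintro ⟨⟨h3, h4⟩, h5⟩
    have h6 := (h1 v h5).2 h3
    exact ⟨⟨h6, h4.trans (h2 v h5 h6).symm⟩, h5⟩

end clr

section facts

variable {hS : GP (S : Set ℂ)} {h3 : 3 ≤ S.card} {s t : Cs hS → ZMod 2} {O : Finset (Cs hS)}

theorem mem_bs {v : ℂ} (hv : v ∈ S) : v ∈ bs hS h3 s ↔ s (cs hS h3 ⟨v, hv⟩) = 1 := by
  unfold bs
  rw [Finset.mem_filter]
  exact ⟨fun ⟨_, _, h⟩ => h, fun h => ⟨hv, hv, h⟩⟩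

theorem bs_sub : bs hS h3 s ⊆ S := Finset.filter_subset _ _

/-- 831's form -/
theorem mem_Xc {q : ℂ × Bool} : q ∈ Xc hS h3 s ↔
    ∃ h : q.1 ∈ S, (q.2 = true ↔ s (cs hS h3 ⟨q.1, h⟩) = 1) := by
  constructor
  · rintro ⟨h1, h2⟩
    exact ⟨h1, h2.trans (mem_bs h1)⟩
  · rintro ⟨h1, h2⟩
    exact ⟨h1, h2.trans (mem_bs h1).symm⟩

theorem fin_Xc : (Xc hS h3 s).Finite := clr_fin

theorem ps_Xc : ps (Xc hS h3 s) = (S : Set ℂ) := ps_clr

theorem sX_Xc : sX (Xc hS h3 s) = S := sX_clr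

theorem cX_Xc {v : ℂ} (hv : v ∈ S) : cX (Xc hS h3 s) v = s (cs hS h3 ⟨v, hv⟩) := by
  unfold Xc
  rw [cX_clr hv]
  by_cases h : s (cs hS h3 ⟨v, hv⟩) = 1
  · rw [if_pos ((mem_bs hv).2 h), h]
  · rw [if_neg fun h' => h ((mem_bs hv).1 h')]
    revert h
    generalize s (cs hS h3 ⟨v, hv⟩) = a
    revert a; decide

theorem bX_Xc : bX (Xc hS h3 s) = bs hS h3 s := bX_clr bs_sub

theorem mem_hull {a b : ℂ} (h : hullE S a b) : a ∈ S ∧ b ∈ S := by
  obtain ⟨c, hc⟩ := h.1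
  exact ⟨(mem_delT.1 hc).1, (mem_delT.1 hc).2.1⟩

theorem hullC_Xc : HullC S (cX (Xc hS h3 s)) := by
  intro a b h
  obtain ⟨ha, hb⟩ := mem_hull h
  rw [cX_Xc ha, cX_Xc hb, cs_hull hS h3 (v := ⟨a, ha⟩) (w := ⟨b, hb⟩) h]

theorem hullC_Xc' : HullC (sX (Xc hS h3 s)) (cX (Xc hS h3 s)) := by
  rw [sX_Xc]
  exact hullC_Xc

theorem gp_Xc : GP (sX (Xc hS h3 s) : Set ℂ) := by
  rw [sX_Xc]
  exact hS

theorem gp_ps_Xc : GP (ps (Xc hS h3 s)) := by
  rw [ps_Xc]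
  exact hS

/-- **the configurations of the darts agree** -/
theorem xc_Xc (hχ : HullC S (cX (Xc hS h3 s))) :
    xc hS hχ = Frame8x395.cfg (rc0 hS) s := by
  funext p
  have h1 : p.1.1 ∈ S ∧ p.1.2 ∈ S := by
    obtain ⟨c, hc⟩ := Crest.Agent.R143.Frame5x395.mem_sd.1 p.2
    exact ⟨(mem_delT.1 hc).1, (mem_delT.1 hc).2.1⟩
  rw [show xc hS hχ p = cX (Xc hS h3 s) p.1.1 + cX (Xc hS h3 s) p.1.2 from rfl, cX_Xc h1.1,
    cX_Xc h1.2, cfg_cells hS h3 s p h1.1 h1.2]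

/-- restriction to a region -/
theorem Xc_inter (T : Set ℂ) : Xc hS h3 s ∩ ovr T =
    clr (S.filter fun v => v ∈ T) ((bs hS h3 s).filter fun v => v ∈ T) := clr_inter T

/-- only the colours of the cells of the sites in `T` matter -/
theorem Xc_congr {T : Set ℂ} (h : ∀ v (hv : v ∈ S), v ∈ T →
    s (cs hS h3 ⟨v, hv⟩) = t (cs hS h3 ⟨v, hv⟩)) :
    Xc hS h3 s ∩ ovr T = Xc hS h3 t ∩ ovr T := by
  refine clr_inter_congr (fun _ _ => Iff.rfl) fun v hvT hv => ?_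
  rw [mem_bs hv, mem_bs hv, h v hv hvT]

theorem Xc_glue_on {T : Set ℂ} (h : ∀ v (hv : v ∈ S), v ∈ T → cs hS h3 ⟨v, hv⟩ ∈ O) :
    Xc hS h3 (glue O s t) ∩ ovr T = Xc hS h3 s ∩ ovr T :=
  Xc_congr fun v hv hvT => glue_on (h v hv hvT)

theorem Xc_glue_off {T : Set ℂ} (h : ∀ v (hv : v ∈ S), v ∈ T → cs hS h3 ⟨v, hv⟩ ∉ O) :
    Xc hS h3 (glue O s t) ∩ ovr T = Xc hS h3 t ∩ ovr T :=
  Xc_congr fun v hv hvT => glue_off (h v hv hvT)

theorem Xc_mix_on {OO : (Cs hS → ZMod 2) → Finset (Cs hS)} {T : Set ℂ}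
    (h : ∀ v (hv : v ∈ S), v ∈ T → cs hS h3 ⟨v, hv⟩ ∈ OO s) :
    Xc hS h3 (mix OO s t) ∩ ovr T = Xc hS h3 s ∩ ovr T := Xc_glue_on h

theorem Xc_mix_off {OO : (Cs hS → ZMod 2) → Finset (Cs hS)} {T : Set ℂ}
    (h : ∀ v (hv : v ∈ S), v ∈ T → cs hS h3 ⟨v, hv⟩ ∉ OO s) :
    Xc hS h3 (mix OO s t) ∩ ovr T = Xc hS h3 t ∩ ovr T := Xc_glue_off h

/-- the colouring given by a set of black sites, on a region without hull sites -/
theorem Xc_scol {β : Finset ℂ} {T : Set ℂ} (hT : ∀ v ∈ S, v ∈ T → ¬ OnHull S v) :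
    Xc hS h3 (scol hS (β : Set ℂ)) ∩ ovr T = clr S β ∩ ovr T := by
  refine clr_inter_congr (fun _ _ => Iff.rfl) fun v hvT hv => ?_
  rw [mem_bs hv, scol_inn h3 (v := ⟨v, hv⟩) (hT v hv hvT)]
  by_cases h : v ∈ β
  · rw [if_pos (show v ∈ (β : Set ℂ) from h)]
    exact ⟨fun _ => h, fun _ => rfl⟩
  · rw [if_neg (show v ∉ (β : Set ℂ) from h)]
    exact ⟨fun h' => absurd h' (by decide), fun h' => absurd h' h⟩

/-- a local function of the coloured sites depends on the inner cells only -/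
theorem Xc_inn {E : Type*} {F : Set (ℂ × Bool) → E} {T : Set ℂ} (hF : LocalOn T F)
    (hT : ∀ v ∈ S, v ∈ T → ¬ OnHull S v) (h : ∀ c, Inn hS c → s c = t c) :
    F (Xc hS h3 s) = F (Xc hS h3 t) := by
  rw [hF (Xc hS h3 s), hF (Xc hS h3 t)]
  congr 1
  exact Xc_congr (T := T) fun v hv hvT => h _ ((inn_cs h3).2 (hT v hv hvT))

end facts

/-! ### means -/

section means

variable (hS : GP (S : Set ℂ)) (h3 : 3 ≤ S.card)

theorem card_two {fi : Fintype (Cs hS → ZMod 2)} :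
    Fintype.card (Cs hS → ZMod 2) = 2 ^ Fintype.card (Cs hS) := by
  rw [← Nat.card_eq_fintype_card, Nat.card_fun, Nat.card_eq_fintype_card,
    Nat.card_eq_fintype_card, ZMod.card]

/-- sums over the colourings of the cells and over the sets of black sites -/
theorem sum_Xc {fi : Fintype (Cs hS → ZMod 2)} {E : Type*} [AddCommMonoid E]
    {F : Set (ℂ × Bool) → E} {T : Set ℂ} (hF : LocalOn T F)
    (hT : ∀ v ∈ S, v ∈ T → ¬ OnHull S v) :
    2 ^ Fintype.card (Cs hS) • ∑ β ∈ S.powerset, F (clr S β) =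
      2 ^ S.card • ∑ s : Cs hS → ZMod 2, F (Xc hS h3 s) := by
  rw [← site_mean (fi := fi) hS (Finset.Subset.refl S) (fun s => F (Xc hS h3 s))
    fun s t h => Xc_inn hF hT h]
  congr 1
  refine Finset.sum_congr rfl fun β _ => ?_
  show F (clr S β) = F (Xc hS h3 (scol hS (β : Set ℂ)))
  rw [hF (clr S β), hF (Xc hS h3 (scol hS (β : Set ℂ)))]
  exact congrArg F (Xc_scol (T := T) hT).symm

/-- **mean over all the colourings of the cells** -/
theorem av_Xc {fi : Fintype (Cs hS → ZMod 2)} {E : Type*} [AddCommGroup E] [Module ℝ E]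
    {F : Set (ℂ × Bool) → E} {T : Set ℂ} (hF : LocalOn T F)
    (hT : ∀ v ∈ S, v ∈ T → ¬ OnHull S v) :
    av (Finset.univ : Finset (Cs hS → ZMod 2)) (fun s => F (Xc hS h3 s)) = cav F S := by
  have h := sum_Xc (fi := fi) hS h3 hF hT
  unfold av cav
  rw [Finset.card_univ, card_two hS, ← Nat.cast_smul_eq_nsmul ℝ, ← Nat.cast_smul_eq_nsmul ℝ] at *
  push_cast at h ⊢
  have e1 : ((2 : ℝ) ^ Fintype.card (Cs hS)) ≠ 0 := pow_ne_zero _ two_ne_zero
  have e2 : ((2 : ℝ) ^ S.card) ≠ 0 := pow_ne_zero _ two_ne_zero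
  rw [inv_pow, inv_smul_eq_iff₀ e1, smul_comm, h, inv_smul_smul₀ e2]

/-- the same with the restriction written -/
theorem av_Xc_inter {fi : Fintype (Cs hS → ZMod 2)} {E : Type*} [AddCommGroup E] [Module ℝ E]
    (F : Set (ℂ × Bool) → E) {T : Set ℂ} (hT : ∀ v ∈ S, v ∈ T → ¬ OnHull S v) :
    av (Finset.univ : Finset (Cs hS → ZMod 2)) (fun s => F (Xc hS h3 s ∩ ovr T)) =
      cav F (S.filter fun v => v ∈ T) := by
  have hl : LocalOn T fun X => F (X ∩ ovr T) := by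
    intro X
    show F (X ∩ ovr T) = F (X ∩ {p | p.1 ∈ T} ∩ ovr T)
    congr 1
    ext p
    exact ⟨fun h => ⟨⟨h.1, h.2⟩, h.2⟩, fun h => ⟨h.1.1, h.2⟩⟩
  rw [av_Xc (fi := fi) hS h3 hl hT, cav_local hl (Finset.filter_subset (fun v => v ∈ T) S)
    fun x hx hxT => Finset.mem_filter.2 ⟨hx, hxT⟩]
  unfold cav
  congr 1
  refine Finset.sum_congr rfl fun β hβ => ?_
  have h1 := Finset.mem_powerset.1 hβ
  show F (clr _ β ∩ ovr T) = F (clr _ β)
  rw [clr_inter]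
  congr 2
  · ext v
    simp only [Finset.mem_filter]
    exact ⟨fun h => h.1, fun h => ⟨h, h.2⟩⟩
  · ext v
    simp only [Finset.mem_filter]
    exact ⟨fun h => h.1, fun h => ⟨h, (Finset.mem_filter.1 (h1 h)).2⟩⟩

/-- `ℝ≥0∞` -/
theorem av_XcE {fi : Fintype (Cs hS → ZMod 2)} {F : Set (ℂ × Bool) → ℝ≥0∞} {T : Set ℂ}
    (hF : LocalOn T F) (hT : ∀ v ∈ S, v ∈ T → ¬ OnHull S v) :
    (2⁻¹ : ℝ≥0∞) ^ Fintype.card (Cs hS) * ∑ s : Cs hS → ZMod 2, F (Xc hS h3 s) = cavE F S := by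
  have h := sum_Xc (fi := fi) hS h3 hF hT
  rw [nsmul_eq_mul, nsmul_eq_mul] at h
  push_cast at h
  unfold cavE
  have e : ∀ k : ℕ, (2⁻¹ : ℝ≥0∞) ^ k * 2 ^ k = 1 := fun k => by
    rw [← mul_pow, ENNReal.inv_mul_cancel (by norm_num) (by norm_num), one_pow]
  calc (2⁻¹ : ℝ≥0∞) ^ Fintype.card (Cs hS) * ∑ s : Cs hS → ZMod 2, F (Xc hS h3 s)
      = (2⁻¹ : ℝ≥0∞) ^ Fintype.card (Cs hS) * (((2⁻¹ : ℝ≥0∞) ^ S.card * 2 ^ S.card) *
          ∑ s : Cs hS → ZMod 2, F (Xc hS h3 s)) := by rw [e, one_mul]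
    _ = (2⁻¹ : ℝ≥0∞) ^ Fintype.card (Cs hS) * (2⁻¹ : ℝ≥0∞) ^ S.card *
          (2 ^ S.card * ∑ s : Cs hS → ZMod 2, F (Xc hS h3 s)) := by ring
    _ = (2⁻¹ : ℝ≥0∞) ^ Fintype.card (Cs hS) * (2⁻¹ : ℝ≥0∞) ^ S.card *
          (2 ^ Fintype.card (Cs hS) * ∑ β ∈ S.powerset, F (clr S β)) := by rw [h]
    _ = ((2⁻¹ : ℝ≥0∞) ^ Fintype.card (Cs hS) * 2 ^ Fintype.card (Cs hS)) *
          ((2⁻¹ : ℝ≥0∞) ^ S.card * ∑ β ∈ S.powerset, F (clr S β)) := by ring
    _ = _ := by rw [e, one_mul]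

/-- two independent colourings -/
theorem av_pair {fi : Fintype (Cs hS → ZMod 2)} {F G : Set (ℂ × Bool) → ℂ} {T U : Set ℂ}
    (hF : LocalOn T F) (hT : ∀ v ∈ S, v ∈ T → ¬ OnHull S v)
    (hG : LocalOn U G) (hU : ∀ v ∈ S, v ∈ U → ¬ OnHull S v) :
    av (Finset.univ : Finset (Cs hS → ZMod 2)) (fun s =>
      av (Finset.univ : Finset (Cs hS → ZMod 2)) fun t => F (Xc hS h3 s) * G (Xc hS h3 t)) =
      cav F S * cav G S := by
  have e : ∀ s : Cs hS → ZMod 2, av (Finset.univ : Finset (Cs hS → ZMod 2))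
      (fun t => F (Xc hS h3 s) * G (Xc hS h3 t)) = F (Xc hS h3 s) * cav G S := fun s => by
    rw [CorMx970.av_mulL, av_Xc (fi := fi) hS h3 hG hU]
  rw [funext e, CorMx970.av_mulR, av_Xc (fi := fi) hS h3 hF hT]

/-- the same, real -/
theorem av_pair' {fi : Fintype (Cs hS → ZMod 2)} {F G : Set (ℂ × Bool) → ℝ} {T U : Set ℂ}
    (hF : LocalOn T F) (hT : ∀ v ∈ S, v ∈ T → ¬ OnHull S v)
    (hG : LocalOn U G) (hU : ∀ v ∈ S, v ∈ U → ¬ OnHull S v) :
    av (Finset.univ : Finset (Cs hS → ZMod 2)) (fun s =>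
      av (Finset.univ : Finset (Cs hS → ZMod 2)) fun t => F (Xc hS h3 s) * G (Xc hS h3 t)) =
      cav F S * cav G S := by
  have e : ∀ s : Cs hS → ZMod 2, av (Finset.univ : Finset (Cs hS → ZMod 2))
      (fun t => F (Xc hS h3 s) * G (Xc hS h3 t)) = F (Xc hS h3 s) * cav G S := fun s => by
    rw [CorMx970.av_mulL', av_Xc (fi := fi) hS h3 hG hU]
  rw [funext e, CorMx970.av_mulR', av_Xc (fi := fi) hS h3 hF hT]

end means

/-! ### one colouring, two disjoint regions -/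

section prod

/-- product of two local functions, complex -/
theorem cav_mul {F G : Set (ℂ × Bool) → ℂ} {T U : Set ℂ} (hF : LocalOn T F) (hG : LocalOn U G)
    (hTU : Disjoint T U) (S : Finset ℂ) :
    cav (fun X => F X * G X) S = cav F S * cav G S := by
  set A := S.filter fun v => v ∈ T with hA
  set B := S \ A with hB
  have hS : S = A ∪ B := (Finset.union_sdiff_of_subset (Finset.filter_subset _ _)).symm
  have hd : Disjoint A B := Finset.disjoint_sdiff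
  have hBT : ∀ x ∈ B, x ∉ T := by
    intro x hx hxT
    rw [hB, Finset.mem_sdiff] at hx
    exact hx.2 (Finset.mem_filter.2 ⟨hx.1, hxT⟩)
  have hAU : ∀ x ∈ A, x ∉ U := by
    intro x hx hxU
    exact Set.disjoint_left.1 hTU (Finset.mem_filter.1 hx).2 hxU
  have e1 : cav F S = cav F A := cav_local hF (Finset.filter_subset _ _)
    fun x hx hxT => Finset.mem_filter.2 ⟨hx, hxT⟩
  have e2 : cav G S = cav G B := cav_local hG Finset.sdiff_subset fun x hx hxU =>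
    Finset.mem_sdiff.2 ⟨hx, fun h => hAU x h hxU⟩
  rw [e1, e2]
  clear_value A B
  subst hS
  unfold cav
  rw [sum_powerset_union hd]
  have h1 : ∀ a ∈ A.powerset, ∑ b ∈ B.powerset, F (clr (A ∪ B) (a ∪ b)) *
      G (clr (A ∪ B) (a ∪ b)) = F (clr A a) * ∑ b ∈ B.powerset, G (clr B b) := by
    intro a ha
    rw [Finset.mul_sum]
    refine Finset.sum_congr rfl fun b hb => ?_
    have h2 := Finset.mem_powerset.1 ha
    have h3 := Finset.mem_powerset.1 hb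
    rw [clr_union hF hBT h2 h3, Finset.union_comm A B, Finset.union_comm a b,
      clr_union hG hAU h3 h2]
  rw [Finset.sum_congr rfl h1, ← Finset.sum_mul, Finset.card_union_of_disjoint hd, pow_add]
  simp only [Complex.real_smul]
  push_cast
  ring

/-- **one colouring, two disjoint regions** -/
theorem av_Xc_mul (hS : GP (S : Set ℂ)) (h3 : 3 ≤ S.card) {fi : Fintype (Cs hS → ZMod 2)}
    {F G : Set (ℂ × Bool) → ℂ} {T U : Set ℂ}
    (hF : LocalOn T F) (hT : ∀ v ∈ S, v ∈ T → ¬ OnHull S v)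
    (hG : LocalOn U G) (hU : ∀ v ∈ S, v ∈ U → ¬ OnHull S v) (hTU : Disjoint T U) :
    av (Finset.univ : Finset (Cs hS → ZMod 2)) (fun s => F (Xc hS h3 s) * G (Xc hS h3 s)) =
      cav F S * cav G S := by
  have hl : LocalOn (T ∪ U) fun X => F X * G X := by
    intro X
    show F X * G X = F (X ∩ {p | p.1 ∈ T ∪ U}) * G (X ∩ {p | p.1 ∈ T ∪ U})
    rw [hF X, hG X, hF (X ∩ {p | p.1 ∈ T ∪ U}), hG (X ∩ {p | p.1 ∈ T ∪ U})]
    congr 2
    · ext p
      exact ⟨fun h => ⟨⟨h.1, Or.inl h.2⟩, h.2⟩, fun h => ⟨h.1.1, h.2⟩⟩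
    · ext p
      exact ⟨fun h => ⟨⟨h.1, Or.inr h.2⟩, h.2⟩, fun h => ⟨h.1.1, h.2⟩⟩
  rw [av_Xc (fi := fi) hS h3 hl fun v hv h => h.elim (hT v hv) (hU v hv), cav_mul hF hG hTU]

end prod

end Crest.Agent.R143.ColXx829
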