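import Crest.Agent.R143.Dbl_609

/-!
# Row 143 (S0194), box R8, part 2: the quenched bridge (helper609)

* `gr χ` for `χ : A → M` : the marked configuration `{(z, χ z)}`; `paint A β`, `paint2 A β β'`
* `pat` : given positions `p` with distinct points, the marks of the points `A` in `B` are
  independent with law `volume.map d`
* `qav d ε B Φ ω` : quenched average over the marks, ANY `Φ`; `qav_fin`, `qav_bool`, `qav_dd`
* `lint_le_qav`, `lint_eq_qav` : annealed `≤` quenched average (`=` for measurable `Φ`)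
* `qavE`, `int_eq_qavE` : Bochner form
-/

set_option autoImplicit false
set_option linter.unusedSectionVars false

noncomputable section

open scoped Classical

namespace Crest.Agent.R143.Dbl2x609

open MeasureTheory Set Filter Topology
open Crest.ProbabilityR.Voronoi
open Crest.Agent.R143.PP0x831 Crest.Agent.R143.Poisx304 Crest.Agent.R143.Janx304
open Crest.Agent.R143.Prodx609 Crest.Agent.R143.ColSumx304 Crest.Agent.R143.Lawx831
open Crest.Agent.R143.Dblx609
open scoped ENNReal Nat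

section mark

variable {M : Type*} [MeasurableSpace M] {d : unitInterval → M}

/-- the graph of a function on a finite set of sites -/
def gr {A : Finset ℂ} (χ : A → M) : Set (ℂ × M) := range fun z : A => ((z : ℂ), χ z)

/-- the law of finitely many marks -/
theorem map_pat {A : Type*} [Fintype A] {f : A → (ℤ × ℤ) × ℕ} (hf : Function.Injective f)
    (hd : Measurable d) :
    MeasurePreserving (fun (c : Col) (z : A) => d (c (f z))) colLaw
      (Measure.pi fun _ : A => (volume : Measure unitInterval).map d) := by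
  have hp : IsProbabilityMeasure ((volume : Measure unitInterval).map d) :=
    Measure.isProbabilityMeasure_map hd.aemeasurable
  have hm : Measurable fun (c : Col) (z : A) => d (c (f z)) :=
    measurable_pi_iff.2 fun z => hd.comp (measurable_pi_apply (f z))
  refine ⟨hm, ?_⟩
  symm
  apply Measure.pi_eq
  intro s hs
  rw [Measure.map_apply hm (MeasurableSet.univ_pi hs)]
  have h : (fun (c : Col) (z : A) => d (c (f z))) ⁻¹' Set.pi univ s =
      Set.pi ((Finset.univ.image f : Finset ((ℤ × ℤ) × ℕ)) : Set ((ℤ × ℤ) × ℕ))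
        fun i => d ⁻¹' (Function.extend f s (fun _ => univ) i) := by
    ext c
    simp only [mem_preimage, Set.mem_pi, mem_univ, true_implies, Finset.coe_image,
      Finset.coe_univ, image_univ, mem_range, forall_exists_index, forall_apply_eq_imp_iff,
      hf.extend_apply]
  rw [h]
  unfold colLaw
  rw [Measure.infinitePi_pi, Finset.prod_image fun a _ b _ hab => hf hab]
  · refine Finset.prod_congr rfl fun a _ => ?_
    rw [hf.extend_apply, Measure.map_apply hd (hs a)]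
  · intro i hi
    obtain ⟨a, -, rfl⟩ := Finset.mem_image.1 hi
    rw [hf.extend_apply]
    exact hd (hs a)

theorem present_iff (p : Pos) (c : Col) (i : ℤ × ℤ × ℕ) :
    i ∈ present (mk p c) ↔ i.2.2 < (p (i.1, i.2.1)).1 := Iff.rfl

theorem mcf_mk (ε : ℝ) (p : Pos) (c c0 : Col) : mcf d ε (mk p c) =
    (fun i : ℤ × ℤ × ℕ => (point ε (mk p c0) (i.1, i.2.1) i.2.2, d (c ((i.1, i.2.1), i.2.2)))) ''
      present (mk p c0) := by
  unfold mcf
  rw [present_mk p c c0]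
  refine image_congr fun i _ => ?_
  rw [point_mk ε p c c0]
  simp [Lawx831.mk]

/-- **(D3)** the marks of the points in `B` given the positions -/
theorem pat_exists {ε : ℝ} {p : Pos} (hi : ∀ c, Inj ε p c) {c0 : Col} {B : Set ℂ} {A : Finset ℂ}
    (hA : (A : Set ℂ) = points ε (mk p c0) ∩ B) (hd : Measurable d) :
    ∃ pat : Col → A → M, MeasurePreserving pat colLaw
      (Measure.pi fun _ : A => (volume : Measure unitInterval).map d) ∧
      ∀ c, mcf d ε (mk p c) ∩ ovM M B = gr (pat c) := by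
  have hch : ∀ z : A, ∃ i : ℤ × ℤ × ℕ, i ∈ present (mk p c0) ∧
      point ε (mk p c0) (i.1, i.2.1) i.2.2 = z := by
    intro z
    have hz : (z : ℂ) ∈ points ε (mk p c0) ∩ B := by rw [← hA]; exact z.2
    obtain ⟨i, h1, h2⟩ := hz.1
    exact ⟨i, h1, h2⟩
  choose g hg1 hg2 using hch
  set f : A → (ℤ × ℤ) × ℕ := fun z => (((g z).1, (g z).2.1), (g z).2.2) with hf
  have hinj : Function.Injective f := by
    intro z w h
    have h1 : g z = g w := by
      simp only [hf, Prod.mk.injEq] at h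
      ext
      · exact h.1.1
      · exact h.1.2
      · exact h.2
    apply Subtype.ext
    rw [← hg2 z, ← hg2 w, h1]
  refine ⟨fun c z => d (c (f z)), map_pat hinj hd, fun c => ?_⟩
  rw [mcf_mk ε p c c0]
  ext e
  simp only [gr, mem_inter_iff, mem_image, mem_range, ovM, mem_ofPred_eq]
  constructor
  · rintro ⟨⟨i, hi1, rfl⟩, he⟩
    have hz : point ε (mk p c0) (i.1, i.2.1) i.2.2 ∈ (A : Set ℂ) := by
      rw [hA]; exact ⟨⟨i, hi1, rfl⟩, he⟩
    refine ⟨⟨_, hz⟩, ?_⟩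
    have e1 : g ⟨_, hz⟩ = i := hi c0 _ (hg1 _) _ hi1 (hg2 _)
    simp only [hf, e1]
  · rintro ⟨z, rfl⟩
    have hz : (z : ℂ) ∈ points ε (mk p c0) ∩ B := by rw [← hA]; exact z.2
    refine ⟨⟨g z, hg1 z, ?_⟩, hz.2⟩
    rw [hg2 z]

/-- almost surely the positions are distinct -/
theorem ae_inj {ε : ℝ} (hε : 0 < ε) : ∀ᵐ p ∂posLaw, ∀ c, Inj ε p c := by
  have h1 : ∀ᵐ ω ∂sampleLaw, ∀ p ∈ present ω, ∀ q ∈ present ω,
      point ε ω (p.1, p.2.1) p.2.2 = point ε ω (q.1, q.2.1) q.2.2 → p = q := by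
    filter_upwards [Crest.Agent.R143.PoisM3x930.m3a ε hε] with ω h using h.2.1
  have h2 : ∀ᵐ q ∂(posLaw.prod colLaw), Inj ε q.1 q.2 :=
    mp_mk.quasiMeasurePreserving.ae h1
  have h3 := Measure.ae_ae_of_ae_prod h2
  filter_upwards [h3] with p hp c
  obtain ⟨c', hc'⟩ := hp.exists
  exact (Inj_iff ε p c' c).1 hc'

theorem ae_injω {ε : ℝ} (hε : 0 < ε) : ∀ᵐ ω ∂sampleLaw, ∀ c, Inj ε (toPos ω) c := by
  have h := ae_inj hε
  rw [← map_toPos] at h
  exact ae_of_ae_map measurable_toPos.aemeasurable h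

/-- the quenched average over the marks -/
def qav (d : unitInterval → M) (ε : ℝ) (B : Set ℂ) (Φ : Set (ℂ × M) → ℝ≥0∞) (ω : Sample) : ℝ≥0∞ :=
  ∫⁻ c, Φ (mcf d ε (mk (toPos ω) c) ∩ ovM M B) ∂colLaw

/-- `qav` is an average over the marks of the points in `B` -/
theorem qav_pi {ε : ℝ} {ω : Sample} (hi : ∀ c, Inj ε (toPos ω) c) {B : Set ℂ} {A : Finset ℂ}
    (hA : (A : Set ℂ) = points ε ω ∩ B) (hd : Measurable d) {Φ : Set (ℂ × M) → ℝ≥0∞}
    (hΦ : Measurable fun χ : A → M => Φ (gr χ)) :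
    qav d ε B Φ ω = ∫⁻ χ : A → M, Φ (gr χ)
      ∂(Measure.pi fun _ : A => (volume : Measure unitInterval).map d) := by
  rw [← points_toPos ε ω (fun _ => 0)] at hA
  obtain ⟨pat, h1, h2⟩ := pat_exists hi hA hd
  unfold qav
  simp only [h2]
  exact h1.lintegral_comp hΦ

/-- **(D4)** upper bound, any `Φ` -/
theorem lint_le_qav (ε : ℝ) (B : Set ℂ) (Φ : Set (ℂ × M) → ℝ≥0∞) :
    ∫⁻ ω, Φ (mcf d ε ω ∩ ovM M B) ∂sampleLaw ≤ ∫⁻ ω, qav d ε B Φ ω ∂sampleLaw := by
  set F : Sample → ℝ≥0∞ := fun ω => Φ (mcf d ε ω ∩ ovM M B) with hF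
  calc ∫⁻ ω, F ω ∂sampleLaw
      ≤ ∫⁻ q : Pos × Col, F (mk q.1 q.2) ∂(posLaw.prod colLaw) := by
        rw [← mp_mk.map_eq]
        exact lintegral_map_le F _
    _ ≤ ∫⁻ p, ∫⁻ c, F (mk p c) ∂colLaw ∂posLaw := lintegral_prod_le _
    _ ≤ ∫⁻ ω, qav d ε B Φ ω ∂sampleLaw := by
        rw [← map_toPos]
        exact lintegral_map_le _ _

theorem qav_meas (hd : Measurable d) [Nonempty M] {ε : ℝ} (hε : 0 < ε) {B : Set ℂ}
    (hB : MeasurableSet B) (hb : Bornology.IsBounded B) {Φ : Set (ℂ × M) → ℝ≥0∞} (hΦ : FM Φ) :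
    Measurable fun p : Pos => ∫⁻ c, Φ (mcf d ε (mk p c) ∩ ovM M B) ∂colLaw :=
  Measurable.lintegral_prod_right ((meas_mcf hd hε hB hb (F := Φ) hΦ).comp mp_mk.measurable)

theorem qav_measω (hd : Measurable d) [Nonempty M] {ε : ℝ} (hε : 0 < ε) {B : Set ℂ}
    (hB : MeasurableSet B) (hb : Bornology.IsBounded B) {Φ : Set (ℂ × M) → ℝ≥0∞} (hΦ : FM Φ) :
    Measurable (qav d ε B Φ) :=
  (qav_meas hd hε hB hb hΦ).comp measurable_toPos

/-- **(D4)** equality for measurable `Φ` -/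
theorem lint_eq_qav (hd : Measurable d) [Nonempty M] {ε : ℝ} (hε : 0 < ε) {B : Set ℂ}
    (hB : MeasurableSet B) (hb : Bornology.IsBounded B) {Φ : Set (ℂ × M) → ℝ≥0∞} (hΦ : FM Φ) :
    ∫⁻ ω, qav d ε B Φ ω ∂sampleLaw = ∫⁻ ω, Φ (mcf d ε ω ∩ ovM M B) ∂sampleLaw := by
  have hm := meas_mcf hd hε hB hb (F := Φ) hΦ
  have e1 : ∫⁻ ω, qav d ε B Φ ω ∂sampleLaw =
      ∫⁻ p, ∫⁻ c, Φ (mcf d ε (mk p c) ∩ ovM M B) ∂colLaw ∂posLaw := by
    rw [← map_toPos]
    exact (lintegral_map (qav_meas hd hε hB hb hΦ) measurable_toPos).symm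
  have e2 := lintegral_prod (μ := posLaw) (ν := colLaw)
    (fun q : Pos × Col => Φ (mcf d ε (mk q.1 q.2) ∩ ovM M B)) (hm.comp mp_mk.measurable).aemeasurable
  rw [e1, ← mp_mk.lintegral_comp hm, e2]

/-- with a weight `w` which depends on the positions only -/
theorem lint_eq_qav_mul (hd : Measurable d) [Nonempty M] {ε : ℝ} (hε : 0 < ε) {B : Set ℂ}
    (hB : MeasurableSet B) (hb : Bornology.IsBounded B) {Φ : Set (ℂ × M) → ℝ≥0∞} (hΦ : FM Φ)
    {w : Pos → ℝ≥0∞} (hw : Measurable w) :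
    ∫⁻ ω, w (toPos ω) * qav d ε B Φ ω ∂sampleLaw =
      ∫⁻ ω, w (toPos ω) * Φ (mcf d ε ω ∩ ovM M B) ∂sampleLaw := by
  have hm := meas_mcf hd hε hB hb (F := Φ) hΦ
  have e1 : ∫⁻ ω, w (toPos ω) * qav d ε B Φ ω ∂sampleLaw =
      ∫⁻ p, w p * ∫⁻ c, Φ (mcf d ε (mk p c) ∩ ovM M B) ∂colLaw ∂posLaw := by
    rw [← map_toPos]
    exact (lintegral_map (hw.mul (qav_meas hd hε hB hb hΦ)) measurable_toPos).symm
  have hm2 : Measurable fun ω => w (toPos ω) * Φ (mcf d ε ω ∩ ovM M B) :=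
    (hw.comp measurable_toPos).mul hm
  have e2 := lintegral_prod (μ := posLaw) (ν := colLaw)
    (fun q : Pos × Col => w (toPos (mk q.1 q.2)) * Φ (mcf d ε (mk q.1 q.2) ∩ ovM M B))
    (hm2.comp mp_mk.measurable).aemeasurable
  rw [e1, ← mp_mk.lintegral_comp hm2, e2]
  refine lintegral_congr fun p => ?_
  simp only [toPos_mk]
  rw [lintegral_const_mul]
  exact hm.comp (mp_mk.measurable.comp measurable_prodMk_left)

/-- an almost sure property of the configuration holds for almost every positions and every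
realisation of the marks of the points in `B` -/
theorem ae_all {P : Sample → Prop} (h : ∀ᵐ ω ∂sampleLaw, P ω) :
    ∀ᵐ ω ∂sampleLaw, ∀ᵐ c ∂colLaw, P (mk (toPos ω) c) := by
  have h2 : ∀ᵐ q ∂(posLaw.prod colLaw), P (mk q.1 q.2) :=
    mp_mk.quasiMeasurePreserving.ae h
  have h3 := Measure.ae_ae_of_ae_prod h2
  rw [← map_toPos] at h3
  exact ae_of_ae_map measurable_toPos.aemeasurable h3

end mark

/-! ### finite mark spaces -/

section fin

variable {M : Type*} [MeasurableSpace M] [Fintype M] [MeasurableSingletonClass M]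
  {d : unitInterval → M}

theorem meas_gr {A : Finset ℂ} {Y : Type*} [MeasurableSpace Y] (Φ : (A → M) → Y) :
    Measurable Φ := by
  have : Countable M := inferInstance
  exact measurable_of_countable _

/-- **(D3)** any `Φ`: uniform average over the functions `A → M` -/
theorem qav_fin {ε : ℝ} {ω : Sample} (hi : ∀ c, Inj ε (toPos ω) c) {B : Set ℂ} {A : Finset ℂ}
    (hA : (A : Set ℂ) = points ε ω ∩ B) (hd : Measurable d)
    (hu : ∀ b : M, (volume : Measure unitInterval).map d {b} = (Fintype.card M : ℝ≥0∞)⁻¹)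
    (Φ : Set (ℂ × M) → ℝ≥0∞) :
    qav d ε B Φ ω = ((Fintype.card M : ℝ≥0∞) ^ A.card)⁻¹ * ∑ χ : A → M, Φ (gr χ) := by
  have hp : IsProbabilityMeasure ((volume : Measure unitInterval).map d) :=
    Measure.isProbabilityMeasure_map hd.aemeasurable
  rw [qav_pi hi hA hd (meas_gr _), lintegral_fintype, Finset.mul_sum]
  refine Finset.sum_congr rfl fun χ _ => ?_
  rw [Measure.pi_singleton]
  simp only [hu]
  rw [Finset.prod_const, Finset.card_univ, Fintype.card_coe, mul_comm, ENNReal.inv_pow]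

end fin

/-! ### one colouring and two colourings, with sets of black sites -/

/-- the sites `A` with the black set `β` -/
def paint (A β : Finset ℂ) : Set (ℂ × Bool) := {q | q.1 ∈ A ∧ (q.2 = true ↔ q.1 ∈ β)}

def paint2 (A β β' : Finset ℂ) : Set (ℂ × (Bool × Bool)) :=
  {q | q.1 ∈ A ∧ (q.2.1 = true ↔ q.1 ∈ β) ∧ (q.2.2 = true ↔ q.1 ∈ β')}

theorem p1_paint2 (A β β' : Finset ℂ) : p1 (paint2 A β β') = paint A β := by
  ext ⟨z, b⟩
  simp only [p1, paint2, paint, mem_image, mem_ofPred_eq, Prod.exists, Prod.mk.injEq]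
  constructor
  · rintro ⟨a, x, y, ⟨h1, h2, h3⟩, rfl, rfl⟩; exact ⟨h1, h2⟩
  · rintro ⟨h1, h2⟩
    by_cases h : z ∈ β'
    · exact ⟨z, b, true, ⟨h1, h2, by simp [h]⟩, rfl, rfl⟩
    · exact ⟨z, b, false, ⟨h1, h2, by simp [h]⟩, rfl, rfl⟩

theorem p2_paint2 (A β β' : Finset ℂ) : p2 (paint2 A β β') = paint A β' := by
  ext ⟨z, b⟩
  simp only [p2, paint2, paint, mem_image, mem_ofPred_eq, Prod.exists, Prod.mk.injEq]
  constructor
  · rintro ⟨a, x, y, ⟨h1, h2, h3⟩, rfl, rfl⟩; exact ⟨h1, h3⟩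
  · rintro ⟨h1, h2⟩
    by_cases h : z ∈ β
    · exact ⟨z, true, b, ⟨h1, by simp [h], h2⟩, rfl, rfl⟩
    · exact ⟨z, false, b, ⟨h1, by simp [h], h2⟩, rfl, rfl⟩

/-- functions to `Bool` are subsets -/
def fs (A : Finset ℂ) (χ : A → Bool) : Finset ℂ :=
  (Finset.univ.filter fun z : A => χ z = true).map ⟨Subtype.val, Subtype.val_injective⟩

theorem mem_fs {A : Finset ℂ} {χ : A → Bool} {z : ℂ} :
    z ∈ fs A χ ↔ ∃ h : z ∈ A, χ ⟨z, h⟩ = true := by
  unfold fs
  simp only [Finset.mem_map, Finset.mem_filter, Finset.mem_univ, true_and,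
    Function.Embedding.coeFn_mk]
  constructor
  · rintro ⟨a, ha, rfl⟩; exact ⟨a.2, ha⟩
  · rintro ⟨h, h'⟩; exact ⟨⟨z, h⟩, h', rfl⟩

theorem fs_mem (A : Finset ℂ) (χ : A → Bool) : fs A χ ∈ A.powerset := by
  rw [Finset.mem_powerset]
  intro z hz
  exact (mem_fs.1 hz).1

theorem fs_decide {A β : Finset ℂ} (h : β ∈ A.powerset) :
    fs A (fun z => decide ((z : ℂ) ∈ β)) = β := by
  ext z
  rw [mem_fs]
  simp only [decide_eq_true_eq]
  exact ⟨fun ⟨_, h⟩ => h, fun hz => ⟨Finset.mem_powerset.1 h hz, hz⟩⟩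

theorem decide_fs {A : Finset ℂ} (χ : A → Bool) (z : A) : decide ((z : ℂ) ∈ fs A χ) = χ z := by
  by_cases h : χ z = true
  · rw [h, decide_eq_true_eq, mem_fs]; exact ⟨z.2, h⟩
  · have h' : χ z = false := by simpa using h
    rw [h', decide_eq_false_iff_not, mem_fs]
    rintro ⟨_, h2⟩
    exact h h2

theorem sum_fs {R : Type*} [AddCommMonoid R] (A : Finset ℂ) (g : Finset ℂ → R) :
    ∑ χ : A → Bool, g (fs A χ) = ∑ β ∈ A.powerset, g β := by
  refine Finset.sum_bij' (fun χ _ => fs A χ) (fun β _ => fun z : A => decide ((z : ℂ) ∈ β)) ?_ ?_ ?_ ?_ ?_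
  · intro χ _; exact fs_mem A χ
  · intro β _; exact Finset.mem_univ _
  · intro χ _; funext z; exact decide_fs χ z
  · intro β hβ; exact fs_decide hβ
  · intro χ _; rfl

theorem gr_paint {A : Finset ℂ} (χ : A → Bool) : gr χ = paint A (fs A χ) := by
  ext ⟨z, b⟩
  simp only [gr, paint, mem_range, mem_ofPred_eq, Prod.mk.injEq]
  constructor
  · rintro ⟨w, rfl, rfl⟩; exact ⟨w.2, by rw [mem_fs]; exact ⟨fun h => ⟨w.2, h⟩, fun ⟨_, h⟩ => h⟩⟩
  · rintro ⟨h1, h2⟩
    refine ⟨⟨z, h1⟩, rfl, ?_⟩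
    rw [Bool.eq_iff_iff, h2, mem_fs]
    exact ⟨fun h => ⟨h1, h⟩, fun ⟨_, h⟩ => h⟩

theorem gr_paint2 {A : Finset ℂ} (χ : A → Bool × Bool) :
    gr χ = paint2 A (fs A fun z => (χ z).1) (fs A fun z => (χ z).2) := by
  ext ⟨z, b⟩
  simp only [gr, paint2, mem_range, mem_ofPred_eq, Prod.mk.injEq]
  constructor
  · rintro ⟨w, rfl, rfl⟩
    refine ⟨w.2, ?_, ?_⟩
    · rw [mem_fs]; exact ⟨fun h => ⟨w.2, h⟩, fun ⟨_, h⟩ => h⟩
    · rw [mem_fs]; exact ⟨fun h => ⟨w.2, h⟩, fun ⟨_, h⟩ => h⟩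
  · rintro ⟨h1, h2, h3⟩
    refine ⟨⟨z, h1⟩, rfl, Prod.ext ?_ ?_⟩
    · rw [Bool.eq_iff_iff, h2, mem_fs]
      exact ⟨fun h => ⟨h1, h⟩, fun ⟨_, h⟩ => h⟩
    · rw [Bool.eq_iff_iff, h3, mem_fs]
      exact ⟨fun h => ⟨h1, h⟩, fun ⟨_, h⟩ => h⟩

theorem sum_gr {R : Type*} [AddCommMonoid R] (A : Finset ℂ) (g : Set (ℂ × Bool) → R) :
    ∑ χ : A → Bool, g (gr χ) = ∑ β ∈ A.powerset, g (paint A β) := by
  rw [← sum_fs A fun β => g (paint A β)]
  exact Finset.sum_congr rfl fun χ _ => by rw [gr_paint]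

theorem sum_gr2 {R : Type*} [AddCommMonoid R] (A : Finset ℂ) (g : Set (ℂ × (Bool × Bool)) → R) :
    ∑ χ : A → Bool × Bool, g (gr χ) =
      ∑ β ∈ A.powerset, ∑ β' ∈ A.powerset, g (paint2 A β β') := by
  rw [← sum_fs A fun β => ∑ β' ∈ A.powerset, g (paint2 A β β')]
  have h : ∀ χ : A → Bool, ∑ β' ∈ A.powerset, g (paint2 A (fs A χ) β') =
      ∑ χ' : A → Bool, g (paint2 A (fs A χ) (fs A χ')) := fun χ => (sum_fs A _).symm
  simp only [h]
  rw [← Finset.sum_product']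
  refine Finset.sum_bij' (fun χ _ => ((fun z => (χ z).1), fun z => (χ z).2))
    (fun q _ => fun z => (q.1 z, q.2 z)) ?_ ?_ ?_ ?_ ?_
  · intro χ _; simp
  · intro q _; exact Finset.mem_univ _
  · intro χ _; rfl
  · intro q _; rfl
  · intro χ _; rw [gr_paint2]

theorem unif_dec (b : Bool) :
    (volume : Measure unitInterval).map dec {b} = (Fintype.card Bool : ℝ≥0∞)⁻¹ := by
  rw [map_dec, coin_sing, Fintype.card_bool]
  rfl

theorem unif_dec2 (b : Bool) :
    (volume : Measure unitInterval).map dec2 {b} = (Fintype.card Bool : ℝ≥0∞)⁻¹ := by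
  rw [map_dec2, coin_sing, Fintype.card_bool]
  rfl

theorem unif_dd (b : Bool × Bool) :
    (volume : Measure unitInterval).map dd {b} = (Fintype.card (Bool × Bool) : ℝ≥0∞)⁻¹ := by
  obtain ⟨x, y⟩ := b
  rw [map_dd, ← singleton_prod_singleton, Measure.prod_prod, coin_sing, coin_sing,
    Fintype.card_prod, Fintype.card_bool, Nat.cast_mul, ENNReal.mul_inv (by simp) (by simp)]
  rfl

/-- **(D3)** one colouring -/
theorem qav_bool {ε : ℝ} {ω : Sample} (hi : ∀ c, Inj ε (toPos ω) c) {B : Set ℂ} {A : Finset ℂ}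
    (hA : (A : Set ℂ) = points ε ω ∩ B) (Φ : Set (ℂ × Bool) → ℝ≥0∞) :
    qav dec ε B Φ ω = ((2 : ℝ≥0∞) ^ A.card)⁻¹ * ∑ β ∈ A.powerset, Φ (paint A β) := by
  rw [qav_fin hi hA measurable_dec unif_dec Φ, sum_gr, Fintype.card_bool]
  rfl

/-- **(D3)** two colourings -/
theorem qav_dd {ε : ℝ} {ω : Sample} (hi : ∀ c, Inj ε (toPos ω) c) {B : Set ℂ} {A : Finset ℂ}
    (hA : (A : Set ℂ) = points ε ω ∩ B) (Φ : Set (ℂ × (Bool × Bool)) → ℝ≥0∞) :
    qav dd ε B Φ ω = ((4 : ℝ≥0∞) ^ A.card)⁻¹ *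
      ∑ β ∈ A.powerset, ∑ β' ∈ A.powerset, Φ (paint2 A β β') := by
  rw [qav_fin hi hA measurable_dd unif_dd Φ, sum_gr2, Fintype.card_prod, Fintype.card_bool]
  norm_num

/-! ### Bochner averages -/

section bochner

variable {M : Type*} [MeasurableSpace M] {d : unitInterval → M}
  {E : Type*} [NormedAddCommGroup E] [NormedSpace ℝ E] [CompleteSpace E]

/-- the quenched average, vector valued -/
def qavE (d : unitInterval → M) (ε : ℝ) (B : Set ℂ) (Φ : Set (ℂ × M) → E) (ω : Sample) : E :=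
  ∫ c, Φ (mcf d ε (mk (toPos ω) c) ∩ ovM M B) ∂colLaw

/-- **(D3)** vector valued, any `Φ` -/
theorem qavE_fin [Fintype M] [MeasurableSingletonClass M] {ε : ℝ} {ω : Sample}
    (hi : ∀ c, Inj ε (toPos ω) c) {B : Set ℂ} {A : Finset ℂ}
    (hA : (A : Set ℂ) = points ε ω ∩ B) (hd : Measurable d)
    (hu : ∀ b : M, (volume : Measure unitInterval).map d {b} = (Fintype.card M : ℝ≥0∞)⁻¹)
    (Φ : Set (ℂ × M) → E) :
    qavE d ε B Φ ω = ((Fintype.card M : ℝ) ^ A.card)⁻¹ • ∑ χ : A → M, Φ (gr χ) := by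
  have hp : IsProbabilityMeasure ((volume : Measure unitInterval).map d) :=
    Measure.isProbabilityMeasure_map hd.aemeasurable
  rw [← points_toPos ε ω (fun _ => 0)] at hA
  obtain ⟨pat, h1, h2⟩ := pat_exists hi hA hd
  unfold qavE
  simp only [h2]
  have h3 := integral_map (μ := colLaw) h1.measurable.aemeasurable
    (f := fun χ : A → M => Φ (gr χ)) (AEStronglyMeasurable.of_discrete)
  rw [← h3, h1.map_eq, integral_fintype, Finset.smul_sum]
  · refine Finset.sum_congr rfl fun χ _ => ?_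
    congr 1
    rw [measureReal_def, Measure.pi_singleton]
    simp only [hu]
    rw [Finset.prod_const, Finset.card_univ, Fintype.card_coe, ENNReal.toReal_pow,
      ENNReal.toReal_inv, ENNReal.toReal_natCast, inv_pow]
  · exact Integrable.of_finite

theorem qavE_bool {ε : ℝ} {ω : Sample} (hi : ∀ c, Inj ε (toPos ω) c) {B : Set ℂ} {A : Finset ℂ}
    (hA : (A : Set ℂ) = points ε ω ∩ B) (Φ : Set (ℂ × Bool) → E) :
    qavE dec ε B Φ ω = ((2 : ℝ) ^ A.card)⁻¹ • ∑ β ∈ A.powerset, Φ (paint A β) := by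
  rw [qavE_fin hi hA measurable_dec unif_dec Φ, sum_gr, Fintype.card_bool]
  norm_num

theorem qavE_dd {ε : ℝ} {ω : Sample} (hi : ∀ c, Inj ε (toPos ω) c) {B : Set ℂ} {A : Finset ℂ}
    (hA : (A : Set ℂ) = points ε ω ∩ B) (Φ : Set (ℂ × (Bool × Bool)) → E) :
    qavE dd ε B Φ ω = ((4 : ℝ) ^ A.card)⁻¹ •
      ∑ β ∈ A.powerset, ∑ β' ∈ A.powerset, Φ (paint2 A β β') := by
  rw [qavE_fin hi hA measurable_dd unif_dd Φ, sum_gr2, Fintype.card_prod, Fintype.card_bool]
  norm_num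

/-- **(D4)** Bochner: the mean is the mean of the quenched average, with a weight depending on the
positions -/
theorem int_eq_qavE {ε : ℝ} (Φ : Set (ℂ × M) → E) {B : Set ℂ} (w : Pos → ℝ)
    (hi : Integrable (fun ω => w (toPos ω) • Φ (mcf d ε ω ∩ ovM M B)) sampleLaw)
    (hm : AEStronglyMeasurable (fun p : Pos => w p • ∫ c, Φ (mcf d ε (mk p c) ∩ ovM M B) ∂colLaw)
      posLaw) :
    ∫ ω, w (toPos ω) • qavE d ε B Φ ω ∂sampleLaw =
      ∫ ω, w (toPos ω) • Φ (mcf d ε ω ∩ ovM M B) ∂sampleLaw := by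
  have e1 : ∫ ω, w (toPos ω) • qavE d ε B Φ ω ∂sampleLaw =
      ∫ p, w p • ∫ c, Φ (mcf d ε (mk p c) ∩ ovM M B) ∂colLaw ∂posLaw := by
    have h := integral_map (μ := sampleLaw) measurable_toPos.aemeasurable
      (f := fun p : Pos => w p • ∫ c, Φ (mcf d ε (mk p c) ∩ ovM M B) ∂colLaw)
      (by rw [map_toPos]; exact hm)
    rw [map_toPos] at h
    exact h.symm
  have hi' : Integrable (fun q : Pos × Col => w q.1 • Φ (mcf d ε (mk q.1 q.2) ∩ ovM M B))
      (posLaw.prod colLaw) := by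
    have h := mp_mk.integrable_comp_of_integrable hi
    simpa only [Function.comp_def, toPos_mk] using h
  have e2 : ∫ ω, w (toPos ω) • Φ (mcf d ε ω ∩ ovM M B) ∂sampleLaw =
      ∫ q : Pos × Col, w q.1 • Φ (mcf d ε (mk q.1 q.2) ∩ ovM M B) ∂(posLaw.prod colLaw) := by
    have h := integral_map (μ := posLaw.prod colLaw) mp_mk.measurable.aemeasurable
      (f := fun ω => w (toPos ω) • Φ (mcf d ε ω ∩ ovM M B))
      (by rw [mp_mk.map_eq]; exact hi.aestronglyMeasurable)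
    rw [mp_mk.map_eq] at h
    rw [h]
    simp only [toPos_mk]
  rw [e1, e2, integral_prod _ hi']
  refine integral_congr_ae (Eventually.of_forall fun p => ?_)
  exact (integral_smul _ _).symm

end bochner

/-- finitely many points in a bounded set -/
theorem finite_points {ε : ℝ} (hε : 0 < ε) {B : Set ℂ} (hb : Bornology.IsBounded B) (ω : Sample) :
    (points ε ω ∩ B).Finite := by
  obtain ⟨R, hR⟩ := hb.subset_closedBall 0
  obtain ⟨n, y, -, -, h⟩ := frs_cfg hε (B := Metric.closedBall (0 : ℂ) R)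
    Metric.isClosed_closedBall.measurableSet Metric.isBounded_closedBall
  have h1 : (cfg ε ω ∩ ovr (Metric.closedBall (0 : ℂ) R)).Finite := by
    have h2 : cfg ε ω ∩ ovr (Metric.closedBall (0 : ℂ) R) = _ := h ω
    rw [h2]
    exact (Set.finite_lt_nat _).image _
  refine (h1.image Prod.fst).subset ?_
  rintro z ⟨hz, hzB⟩
  rw [← fst_cfg] at hz
  obtain ⟨q, hq, rfl⟩ := hz
  exact ⟨q, ⟨hq, hR hzB⟩, rfl⟩

/-- the points in `B` -/
def Ap (ε : ℝ) (B : Set ℂ) (ω : Sample) : Finset ℂ :=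
  if h : (points ε ω ∩ B).Finite then h.toFinset else ∅

theorem coe_Ap {ε : ℝ} (hε : 0 < ε) {B : Set ℂ} (hb : Bornology.IsBounded B) (ω : Sample) :
    (Ap ε B ω : Set ℂ) = points ε ω ∩ B := by
  unfold Ap
  rw [dif_pos (finite_points hε hb ω)]
  exact Set.Finite.coe_toFinset _

/-- on the double sample the two configurations are the painted points -/
theorem dcf_paint {ε : ℝ} {ω : Sample} (hi : ∀ c, Inj ε (toPos ω) c) {B : Set ℂ} {A : Finset ℂ}
    (hA : (A : Set ℂ) = points ε ω ∩ B) :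
    ∃ β ∈ A.powerset, ∃ β' ∈ A.powerset, dcf ε ω ∩ ovM (Bool × Bool) B = paint2 A β β' ∧
      cfg ε ω ∩ ovr B = paint A β ∧ cfg2 ε ω ∩ ovr B = paint A β' := by
  have hA' := hA
  rw [← points_toPos ε ω (fun _ => 0)] at hA
  obtain ⟨pat, h1, h2⟩ := pat_exists hi hA measurable_dd
  have h3 : mk (toPos ω) (fun i => ω.2 i.1 i.2 2) = ω := by
    unfold Lawx831.mk toPos
    refine Prod.ext rfl ?_
    funext k j i
    fin_cases i <;> rfl
  have h4 := h2 fun i => ω.2 i.1 i.2 2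
  rw [h3] at h4
  refine ⟨_, fs_mem A _, _, fs_mem A _, h4.trans (gr_paint2 _), ?_, ?_⟩
  · have h5 := congrArg p1 (h4.trans (gr_paint2 _))
    rw [p1_inter, p1_paint2] at h5
    exact (congrArg (· ∩ ovr B) (p1_dcf ε ω)).symm.trans h5
  · have h5 := congrArg p2 (h4.trans (gr_paint2 _))
    rw [p2_inter, p2_paint2] at h5
    exact (congrArg (· ∩ ovr B) (p2_dcf ε ω)).symm.trans h5

end Crest.Agent.R143.Dbl2x609
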