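import Crest.Agent.R143.ChainV_323

/-!
# Row 143 (S0194), hedge block H: explicit maximal functions for range `r` chains (helper828)

Complement to `ChainV_323` (literal text of helper239).

* `BB Y n q` : explicit function which dominates `‖∑ k < j, Y k‖²` for all `j ≤ n` (check points at
  the multiples of `q`), `bb_le`;
* `YR Y r c` : the terms with index `≡ c mod r`; `BR Y n q r = r ∑_{c < r} BB (YR Y r c) n q`,
  `br_le`, `br_Ico` (factor `4`);
* `bb_nonneg`, `br_nonneg`, `bb_meas`, `br_meas`, `bb_congr`, `br_congr`;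
* `br_int_q`, `br_int` : if the terms with index distance `≥ r` are uncorrelated and
  `∫ ‖Y k‖² ≤ C`, then `BR Y n √n r` is integrable with integral `≤ 18 r² n √n C`.
-/

set_option autoImplicit false

noncomputable section

open MeasureTheory Finset
open scoped ComplexConjugate

namespace Crest.Agent.R143.ChainWx828

open Crest.Agent.R143.ChainVx323

section pointwise

variable {Ω : Type*} {Ω' : Type*}

/-- the explicit dominating function -/
def BB (Y : ℕ → Ω → ℂ) (n q : ℕ) (ω : Ω) : ℝ :=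
  2 * (∑ a ∈ range (n / q + 1), ‖∑ k ∈ range (q * a), Y k ω‖ ^ 2) +
    2 * q * ∑ k ∈ range n, ‖Y k ω‖ ^ 2

/-- the terms with index `≡ c mod r` -/
def YR (Y : ℕ → Ω → ℂ) (r c : ℕ) (k : ℕ) (ω : Ω) : ℂ := if k % r = c then Y k ω else 0

/-- the explicit dominating function, range `r` -/
def BR (Y : ℕ → Ω → ℂ) (n q r : ℕ) (ω : Ω) : ℝ := r * ∑ c ∈ range r, BB (YR Y r c) n q ω

variable {Y : ℕ → Ω → ℂ} {n q r : ℕ}

theorem bb_nonneg (ω : Ω) : 0 ≤ BB Y n q ω := by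
  unfold BB
  positivity

theorem br_nonneg (ω : Ω) : 0 ≤ BR Y n q r ω := by
  unfold BR
  exact mul_nonneg (Nat.cast_nonneg _) (Finset.sum_nonneg fun c _ => bb_nonneg ω)

/-- multiples of `q` up to `n` -/
theorem mul_le_of_mem {a : ℕ} (ha : a ∈ range (n / q + 1)) : q * a ≤ n := by
  have h1 : a ≤ n / q := Nat.lt_succ_iff.1 (Finset.mem_range.1 ha)
  calc q * a ≤ q * (n / q) := Nat.mul_le_mul_left _ h1
    _ ≤ n := Nat.mul_div_le n q

theorem bb_le (hq : 0 < q) (ω : Ω) {j : ℕ} (hj : j ≤ n) :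
    ‖∑ k ∈ range j, Y k ω‖ ^ 2 ≤ BB Y n q ω := by
  set a := j / q with ha
  have ham : a ∈ range (n / q + 1) := Finset.mem_range.2
    (Nat.lt_succ_iff.2 (Nat.div_le_div_right hj))
  have h1 : q * a ≤ j := Nat.mul_div_le j q
  have h2 : j < q * a + q := by
    have := Nat.lt_mul_div_succ j hq
    rw [Nat.mul_succ] at this
    exact this
  have e : ∑ k ∈ range j, Y k ω = ∑ k ∈ range (q * a), Y k ω + ∑ k ∈ Ico (q * a) j, Y k ω :=
    (Finset.sum_range_add_sum_Ico _ h1).symm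
  have h3 : ‖∑ k ∈ Ico (q * a) j, Y k ω‖ ^ 2 ≤ q * ∑ k ∈ range n, ‖Y k ω‖ ^ 2 := by
    have g1 : ‖∑ k ∈ Ico (q * a) j, Y k ω‖ ^ 2 ≤ (∑ k ∈ Ico (q * a) j, ‖Y k ω‖) ^ 2 :=
      pow_le_pow_left₀ (norm_nonneg _) (norm_sum_le _ _) 2
    have g2 : (∑ k ∈ Ico (q * a) j, ‖Y k ω‖) ^ 2 ≤
        (Ico (q * a) j).card * ∑ k ∈ Ico (q * a) j, ‖Y k ω‖ ^ 2 := sq_sum_le_card_mul_sum_sq
    have g3 : ((Ico (q * a) j).card : ℝ) ≤ q := by
      rw [Nat.card_Ico]
      exact_mod_cast (by omega : j - q * a ≤ q)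
    have g4 : ∑ k ∈ Ico (q * a) j, ‖Y k ω‖ ^ 2 ≤ ∑ k ∈ range n, ‖Y k ω‖ ^ 2 := by
      refine Finset.sum_le_sum_of_subset_of_nonneg ?_ fun k _ _ => by positivity
      intro k hk
      exact Finset.mem_range.2 (lt_of_lt_of_le (Finset.mem_Ico.1 hk).2 hj)
    have g5 : 0 ≤ ∑ k ∈ Ico (q * a) j, ‖Y k ω‖ ^ 2 := Finset.sum_nonneg fun k _ => by positivity
    calc _ ≤ _ := g1
      _ ≤ _ := g2
      _ ≤ (q : ℝ) * ∑ k ∈ range n, ‖Y k ω‖ ^ 2 :=
        mul_le_mul g3 g4 g5 (Nat.cast_nonneg _)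
  have h4 : ‖∑ k ∈ range (q * a), Y k ω‖ ^ 2 ≤
      ∑ a ∈ range (n / q + 1), ‖∑ k ∈ range (q * a), Y k ω‖ ^ 2 :=
    Finset.single_le_sum (f := fun a => ‖∑ k ∈ range (q * a), Y k ω‖ ^ 2)
      (fun a _ => by positivity) ham
  rw [e]
  refine (two_sq _ _).trans ?_
  unfold BB
  nlinarith

/-- every index has exactly one residue -/
theorem sum_yr (hr : 0 < r) (s : Finset ℕ) (ω : Ω) :
    ∑ c ∈ range r, ∑ k ∈ s, YR Y r c k ω = ∑ k ∈ s, Y k ω := by
  rw [Finset.sum_comm]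
  refine Finset.sum_congr rfl fun k _ => ?_
  unfold YR
  rw [Finset.sum_ite_eq (range r) (k % r) (fun _ => Y k ω),
    if_pos (Finset.mem_range.2 (Nat.mod_lt k hr))]

theorem sum_yr_sq (hr : 0 < r) (s : Finset ℕ) (ω : Ω) :
    ∑ c ∈ range r, ∑ k ∈ s, ‖YR Y r c k ω‖ ^ 2 = ∑ k ∈ s, ‖Y k ω‖ ^ 2 := by
  rw [Finset.sum_comm]
  refine Finset.sum_congr rfl fun k _ => ?_
  have e : ∀ c, ‖YR Y r c k ω‖ ^ 2 = if k % r = c then ‖Y k ω‖ ^ 2 else 0 := by
    intro c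
    unfold YR
    split_ifs
    · rfl
    · simp
  simp_rw [e]
  rw [Finset.sum_ite_eq (range r) (k % r) (fun _ => ‖Y k ω‖ ^ 2),
    if_pos (Finset.mem_range.2 (Nat.mod_lt k hr))]

theorem br_le (hq : 0 < q) (hr : 0 < r) (ω : Ω) {j : ℕ} (hj : j ≤ n) :
    ‖∑ k ∈ range j, Y k ω‖ ^ 2 ≤ BR Y n q r ω := by
  rw [← sum_yr hr (range j) ω]
  have g1 : ‖∑ c ∈ range r, ∑ k ∈ range j, YR Y r c k ω‖ ^ 2 ≤
      (∑ c ∈ range r, ‖∑ k ∈ range j, YR Y r c k ω‖) ^ 2 :=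
    pow_le_pow_left₀ (norm_nonneg _) (norm_sum_le _ _) 2
  have g2 : (∑ c ∈ range r, ‖∑ k ∈ range j, YR Y r c k ω‖) ^ 2 ≤
      (range r).card * ∑ c ∈ range r, ‖∑ k ∈ range j, YR Y r c k ω‖ ^ 2 :=
    sq_sum_le_card_mul_sum_sq
  rw [Finset.card_range] at g2
  refine g1.trans (g2.trans ?_)
  unfold BR
  exact mul_le_mul_of_nonneg_left (Finset.sum_le_sum fun c _ => bb_le hq ω hj)
    (Nat.cast_nonneg _)

theorem br_Ico (hq : 0 < q) (hr : 0 < r) (ω : Ω) {i j : ℕ} (hij : i ≤ j) (hj : j ≤ n) :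
    ‖∑ k ∈ Ico i j, Y k ω‖ ^ 2 ≤ 4 * BR Y n q r ω := by
  have e : ∑ k ∈ Ico i j, Y k ω = ∑ k ∈ range j, Y k ω + -∑ k ∈ range i, Y k ω := by
    rw [Finset.sum_Ico_eq_sub _ hij]
    ring
  rw [e]
  refine (two_sq _ _).trans ?_
  rw [norm_neg]
  have g1 := br_le (Y := Y) hq hr ω hj
  have g2 := br_le (Y := Y) hq hr ω (hij.trans hj)
  linarith

/-- the same for `bb` -/
theorem bb_Ico (hq : 0 < q) (ω : Ω) {i j : ℕ} (hij : i ≤ j) (hj : j ≤ n) :
    ‖∑ k ∈ Ico i j, Y k ω‖ ^ 2 ≤ 4 * BB Y n q ω := by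
  have e : ∑ k ∈ Ico i j, Y k ω = ∑ k ∈ range j, Y k ω + -∑ k ∈ range i, Y k ω := by
    rw [Finset.sum_Ico_eq_sub _ hij]
    ring
  rw [e]
  refine (two_sq _ _).trans ?_
  rw [norm_neg]
  have g1 := bb_le (Y := Y) hq ω hj
  have g2 := bb_le (Y := Y) hq ω (hij.trans hj)
  linarith

theorem bb_congr {Y' : ℕ → Ω' → ℂ} {ω : Ω} {ω' : Ω'} (h : ∀ k < n, Y k ω = Y' k ω') :
    BB Y n q ω = BB Y' n q ω' := by
  unfold BB
  congr 1
  · congr 1
    refine Finset.sum_congr rfl fun a ha => ?_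
    have e : ∑ k ∈ range (q * a), Y k ω = ∑ k ∈ range (q * a), Y' k ω' :=
      Finset.sum_congr rfl fun k hk =>
        h k (lt_of_lt_of_le (Finset.mem_range.1 hk) (mul_le_of_mem ha))
    rw [e]
  · congr 1
    exact Finset.sum_congr rfl fun k hk => by rw [h k (Finset.mem_range.1 hk)]

theorem br_congr {Y' : ℕ → Ω' → ℂ} {ω : Ω} {ω' : Ω'} (h : ∀ k < n, Y k ω = Y' k ω') :
    BR Y n q r ω = BR Y' n q r ω' := by
  unfold BR
  congr 1
  refine Finset.sum_congr rfl fun c _ => bb_congr fun k hk => ?_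
  unfold YR
  rw [h k hk]

end pointwise

section measure

variable {Ω : Type*} [MeasurableSpace Ω] {μ : Measure Ω} {Y : ℕ → Ω → ℂ} {n q r : ℕ}

theorem bb_meas (h : ∀ k, Measurable (Y k)) : Measurable (BB Y n q) := by
  unfold BB
  refine Measurable.add (Measurable.const_mul ?_ _) (Measurable.const_mul ?_ _)
  · exact Finset.measurable_fun_sum _ fun a _ =>
      ((Finset.measurable_fun_sum _ fun k _ => h k).norm.pow_const 2)
  · exact Finset.measurable_fun_sum _ fun k _ => ((h k).norm.pow_const 2)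

theorem yr_meas (h : ∀ k, Measurable (Y k)) (c k : ℕ) : Measurable (YR Y r c k) := by
  unfold YR
  by_cases hk : k % r = c
  · simp only [if_pos hk]
    exact h k
  · simp only [if_neg hk]
    exact measurable_const

theorem br_meas (h : ∀ k, Measurable (Y k)) : Measurable (BR Y n q r) := by
  unfold BR
  refine Measurable.const_mul ?_ _
  exact Finset.measurable_fun_sum _ fun c _ => bb_meas fun k => yr_meas h c k

theorem yr_memLp (hL : ∀ k < n, MemLp (Y k) 2 μ) (c : ℕ) {k : ℕ} (hk : k < n) :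
    MemLp (YR Y r c k) 2 μ := by
  have e : YR Y r c k = if k % r = c then Y k else 0 := by
    funext ω
    unfold YR
    split_ifs <;> rfl
  rw [e]
  split_ifs
  · exact hL k hk
  · exact MemLp.zero

/-- the terms of one residue class are orthogonal -/
theorem yr_orth (ho : ∀ k l, k + r ≤ l → l < n → ∫ ω, ip (Y k ω) (Y l ω) ∂μ = 0)
    (c : ℕ) {k l : ℕ} (hk : k < n) (hl : l < n) (hkl : k ≠ l) :
    ∫ ω, ip (YR Y r c k ω) (YR Y r c l ω) ∂μ = 0 := by
  have hz : ∀ v : ℂ, ip 0 v = 0 := by intro v; unfold ip; simp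
  have hz' : ∀ v : ℂ, ip v 0 = 0 := by intro v; unfold ip; simp
  unfold YR
  by_cases h1 : k % r = c
  · by_cases h2 : l % r = c
    · simp only [if_pos h1, if_pos h2]
      have key : ∀ {a b : ℕ}, a < b → a % r = c → b % r = c → a + r ≤ b := by
        intro a b hab ha hb
        have h3 : (b - a) % r = 0 := by
          have h4 : a ≡ b [MOD r] := by
            unfold Nat.ModEq
            rw [ha, hb]
          exact (Nat.modEq_iff_dvd' hab.le).1 h4 |> Nat.mod_eq_zero_of_dvd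
        have h5 : r ≤ b - a := by
          have h6 : 0 < b - a := by omega
          exact Nat.le_of_dvd h6 (Nat.dvd_of_mod_eq_zero h3)
        omega
      rcases lt_or_gt_of_ne hkl with h | h
      · exact ho k l (key h h1 h2) hl
      · have h7 := ho l k (key h h2 h1) hk
        rw [← h7]
        exact integral_congr_ae (Filter.Eventually.of_forall fun ω => ip_comm _ _)
    · simp only [if_neg h2, hz', integral_zero]
  · simp only [if_neg h1, hz, integral_zero]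

theorem bb_integrable (hL : ∀ k < n, MemLp (Y k) 2 μ) : Integrable (BB Y n q) μ := by
  unfold BB
  refine Integrable.add (Integrable.const_mul ?_ _) (Integrable.const_mul ?_ _)
  · exact integrable_finsetSum _ fun a ha => sq_integrable (memLp_sum _ fun k hk =>
      hL k (lt_of_lt_of_le (Finset.mem_range.1 hk) (mul_le_of_mem ha)))
  · exact integrable_finsetSum _ fun k hk => sq_integrable (hL k (Finset.mem_range.1 hk))

theorem br_integrable (hL : ∀ k < n, MemLp (Y k) 2 μ) : Integrable (BR Y n q r) μ := by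
  unfold BR
  refine Integrable.const_mul ?_ _
  exact integrable_finsetSum _ fun c _ => bb_integrable fun k hk => yr_memLp hL c hk

/-- orthogonal terms: integral of `BB` -/
theorem bb_int (hL : ∀ k < n, MemLp (Y k) 2 μ)
    (ho : ∀ k < n, ∀ l < n, k ≠ l → ∫ ω, ip (Y k ω) (Y l ω) ∂μ = 0) :
    ∫ ω, BB Y n q ω ∂μ ≤
      (2 * ((n / q : ℕ) + 1) + 2 * q) * ∑ k ∈ range n, ∫ ω, ‖Y k ω‖ ^ 2 ∂μ := by
  have hi1 : Integrable (fun ω => ∑ a ∈ range (n / q + 1), ‖∑ k ∈ range (q * a), Y k ω‖ ^ 2) μ :=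
    integrable_finsetSum _ fun a ha => sq_integrable (memLp_sum _ fun k hk =>
      hL k (lt_of_lt_of_le (Finset.mem_range.1 hk) (mul_le_of_mem ha)))
  have hi2 : Integrable (fun ω => ∑ k ∈ range n, ‖Y k ω‖ ^ 2) μ :=
    integrable_finsetSum _ fun k hk => sq_integrable (hL k (Finset.mem_range.1 hk))
  have e : ∫ ω, BB Y n q ω ∂μ =
      2 * ∑ a ∈ range (n / q + 1), ∫ ω, ‖∑ k ∈ range (q * a), Y k ω‖ ^ 2 ∂μ +
        2 * q * ∑ k ∈ range n, ∫ ω, ‖Y k ω‖ ^ 2 ∂μ := by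
    unfold BB
    rw [integral_add (hi1.const_mul 2) (hi2.const_mul _), integral_const_mul,
      integral_const_mul, integral_finsetSum, integral_finsetSum]
    · exact fun k hk => sq_integrable (hL k (Finset.mem_range.1 hk))
    · exact fun a ha => sq_integrable (memLp_sum _ fun k hk =>
        hL k (lt_of_lt_of_le (Finset.mem_range.1 hk) (mul_le_of_mem ha)))
  have hk : ∀ a ∈ range (n / q + 1), ∫ ω, ‖∑ k ∈ range (q * a), Y k ω‖ ^ 2 ∂μ ≤
      ∑ k ∈ range n, ∫ ω, ‖Y k ω‖ ^ 2 ∂μ := by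
    intro a ha
    have hqa := mul_le_of_mem ha
    rw [orth_sum (range (q * a))
      (fun k hk => hL k (lt_of_lt_of_le (Finset.mem_range.1 hk) hqa))
      (fun k hk l hl hkl => ho k (lt_of_lt_of_le (Finset.mem_range.1 hk) hqa) l
        (lt_of_lt_of_le (Finset.mem_range.1 hl) hqa) hkl)]
    refine Finset.sum_le_sum_of_subset_of_nonneg (Finset.range_subset_range.2 hqa) fun k _ _ => ?_
    exact integral_nonneg fun ω => by positivity
  rw [e]
  have h1 := Finset.sum_le_sum hk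
  rw [Finset.sum_const, Finset.card_range, nsmul_eq_mul] at h1
  push_cast at h1 ⊢
  nlinarith

/-- **integral of `BR`**, sharp form, any distance `q` of the check points -/
theorem br_int_q {C : ℝ} (hL : ∀ k < n, MemLp (Y k) 2 μ)
    (hC : ∀ k < n, ∫ ω, ‖Y k ω‖ ^ 2 ∂μ ≤ C)
    (ho : ∀ k l, k + r ≤ l → l < n → ∫ ω, ip (Y k ω) (Y l ω) ∂μ = 0) (hr : 0 < r) :
    ∫ ω, BR Y n q r ω ∂μ ≤ r * ((2 * ((n / q : ℕ) + 1) + 2 * q) * (n * C)) := by
  have e : ∫ ω, BR Y n q r ω ∂μ = r * ∑ c ∈ range r, ∫ ω, BB (YR Y r c) n q ω ∂μ := by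
    unfold BR
    rw [integral_const_mul, integral_finsetSum]
    exact fun c _ => bb_integrable fun k hk => yr_memLp hL c hk
  rw [e]
  refine mul_le_mul_of_nonneg_left ?_ (Nat.cast_nonneg _)
  have h1 : ∑ c ∈ range r, ∫ ω, BB (YR Y r c) n q ω ∂μ ≤
      ∑ c ∈ range r, (2 * (((n / q : ℕ) : ℝ) + 1) + 2 * q) *
        ∑ k ∈ range n, ∫ ω, ‖YR Y r c k ω‖ ^ 2 ∂μ :=
    Finset.sum_le_sum fun c _ => bb_int (fun k hk => yr_memLp hL c hk)
      fun k hk l hl hkl => yr_orth ho c hk hl hkl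
  refine h1.trans ?_
  rw [← Finset.mul_sum]
  refine mul_le_mul_of_nonneg_left ?_ (by positivity)
  have h2 : ∑ c ∈ range r, ∑ k ∈ range n, ∫ ω, ‖YR Y r c k ω‖ ^ 2 ∂μ =
      ∑ k ∈ range n, ∫ ω, ‖Y k ω‖ ^ 2 ∂μ := by
    have e1 : ∀ c ∈ range r, ∑ k ∈ range n, ∫ ω, ‖YR Y r c k ω‖ ^ 2 ∂μ =
        ∫ ω, ∑ k ∈ range n, ‖YR Y r c k ω‖ ^ 2 ∂μ := by
      intro c _
      rw [integral_finsetSum]
      exact fun k hk => sq_integrable (yr_memLp hL c (Finset.mem_range.1 hk))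
    rw [Finset.sum_congr rfl e1, ← integral_finsetSum]
    · simp_rw [sum_yr_sq hr (range n)]
      rw [integral_finsetSum]
      exact fun k hk => sq_integrable (hL k (Finset.mem_range.1 hk))
    · exact fun c _ => integrable_finsetSum _ fun k hk =>
        sq_integrable (yr_memLp hL c (Finset.mem_range.1 hk))
  rw [h2]
  refine (Finset.sum_le_sum fun k hk => hC k (Finset.mem_range.1 hk)).trans ?_
  rw [Finset.sum_const, Finset.card_range, nsmul_eq_mul]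

/-- check points at distance `≈ √n`, sharp form -/
theorem br_int' {C : ℝ} (hn : 0 < n) (hL : ∀ k < n, MemLp (Y k) 2 μ)
    (hC : ∀ k < n, ∫ ω, ‖Y k ω‖ ^ 2 ∂μ ≤ C)
    (ho : ∀ k l, k + r ≤ l → l < n → ∫ ω, ip (Y k ω) (Y l ω) ∂μ = 0) (hr : 0 < r) :
    ∫ ω, BR Y n (Nat.sqrt n) r ω ∂μ ≤ 10 * r * (n * Real.sqrt n) * C := by
  have hC' : 0 ≤ C := le_trans (integral_nonneg fun ω => by positivity) (hC 0 hn)
  set q := Nat.sqrt n with hqd
  have hq : 0 < q := Nat.sqrt_pos.2 hn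
  refine (br_int_q (q := q) hL hC ho hr).trans ?_
  have hn1 : (1 : ℝ) ≤ n := by exact_mod_cast hn
  have hs1 : 1 ≤ Real.sqrt n := by
    rw [Real.one_le_sqrt]; exact hn1
  have hq1 : (q : ℝ) ≤ Real.sqrt n := by
    rw [hqd]; exact Real.nat_sqrt_le_real_sqrt
  have hdiv : ((n / q : ℕ) : ℝ) ≤ q + 2 := by
    have hlt : n < (q + 1) * (q + 1) := Nat.lt_succ_sqrt n
    have h5 : n / q < q + 3 := by
      rw [Nat.div_lt_iff_lt_mul hq]
      nlinarith
    have h6 : n / q ≤ q + 2 := by omega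
    exact_mod_cast h6
  have h7 : (2 * (((n / q : ℕ) : ℝ) + 1) + 2 * q) ≤ 10 * Real.sqrt n := by linarith
  have h8 : (2 * (((n / q : ℕ) : ℝ) + 1) + 2 * q) * (n * C) ≤ 10 * Real.sqrt n * (n * C) :=
    mul_le_mul_of_nonneg_right h7 (by positivity)
  calc (r : ℝ) * ((2 * (((n / q : ℕ) : ℝ) + 1) + 2 * q) * (n * C))
      ≤ r * (10 * Real.sqrt n * (n * C)) := mul_le_mul_of_nonneg_left h8 (Nat.cast_nonneg _)
    _ = 10 * r * (n * Real.sqrt n) * C := by ring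

/-- **integral of `BR`** (literal form of helper239) -/
theorem br_int {C : ℝ} (hn : 0 < n) (hL : ∀ k < n, MemLp (Y k) 2 μ)
    (hC : ∀ k < n, ∫ ω, ‖Y k ω‖ ^ 2 ∂μ ≤ C)
    (ho : ∀ k l, k + r ≤ l → l < n → ∫ ω, ip (Y k ω) (Y l ω) ∂μ = 0) (hr : 0 < r) :
    Integrable (BR Y n (Nat.sqrt n) r) μ ∧
      ∫ ω, BR Y n (Nat.sqrt n) r ω ∂μ ≤ 18 * r ^ 2 * (n * Real.sqrt n) * C := by
  have hC' : 0 ≤ C := le_trans (integral_nonneg fun ω => by positivity) (hC 0 hn)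
  refine ⟨br_integrable hL, (br_int' hn hL hC ho hr).trans ?_⟩
  have hr1 : (1 : ℝ) ≤ r := by exact_mod_cast hr
  have h1 : 10 * (r : ℝ) ≤ 18 * r ^ 2 := by nlinarith
  have h2 : (0 : ℝ) ≤ n * Real.sqrt n * C := by positivity
  calc 10 * (r : ℝ) * (n * Real.sqrt n) * C = 10 * r * (n * Real.sqrt n * C) := by ring
    _ ≤ 18 * r ^ 2 * (n * Real.sqrt n * C) := mul_le_mul_of_nonneg_right h1 h2
    _ = 18 * r ^ 2 * (n * Real.sqrt n) * C := by ring

end measure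

end Crest.Agent.R143.ChainWx828
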