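import Crest.Agent.R143.PW2_978
import Crest.Agent.R143.ChainW_828

/-!
# Row 143 (S0194), block H: the law of a ring (corridor) of tiles under the product weight (helper239)

Everything is for `M : PWx978.Net ε ι κ` (gates and tubes on `sampleLaw`, weight `M.gw I J`).

* `prod_rule` : functions local on disjoint sub-nets are independent under the weight:
  `E[g] E[g F H] = E[g F] E[g H]`
* `wm` : the weighted probability measure, `mean_eq`, `cov_zero`

-/

set_option autoImplicit false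

noncomputable section

namespace Crest.Agent.R143.RingLx239

open MeasureTheory Set ProbabilityTheory
open Crest.ProbabilityR.Voronoi
open Crest.Agent.R143.PP0x831 Crest.Agent.R143.Poisx304 Crest.Agent.R143.Janx304
open Crest.Agent.R143.IndLocx279 Crest.Agent.R143.PWx978
open scoped ENNReal ComplexConjugate

variable {ε : ℝ} {ι κ : Type*} (M : Net ε ι κ)

/-- sub-nets without common gates and tubes have disjoint regions -/
lemma reg_disj {I₁ I₂ : Finset ι} {J₁ J₂ : Finset κ} (hI : Disjoint I₁ I₂) (hJ : Disjoint J₁ J₂) :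
    Disjoint (M.reg I₁ J₁) (M.reg I₂ J₂) := by
  unfold Net.reg
  rw [disjoint_union_left]
  constructor
  · rw [disjoint_iUnion₂_left]
    intro i hi
    rw [disjoint_union_right, disjoint_iUnion₂_right, disjoint_iUnion₂_right]
    exact ⟨fun i' hi' => M.BB i i' fun h => Finset.disjoint_left.1 hI hi (h ▸ hi'),
      fun k _ => M.BC i k⟩
  · rw [disjoint_iUnion₂_left]
    intro k hk
    rw [disjoint_union_right, disjoint_iUnion₂_right, disjoint_iUnion₂_right]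
    exact ⟨fun i _ => (M.BC i k).symm,
      fun k' hk' => M.CC k k' fun h => Finset.disjoint_left.1 hJ hk (h ▸ hk')⟩

/-- the weight of a disjoint union of sub-nets -/
lemma gw_union [DecidableEq ι] [DecidableEq κ] {I₁ I₂ : Finset ι} {J₁ J₂ : Finset κ}
    (hI : Disjoint I₁ I₂) (hJ : Disjoint J₁ J₂) (S : Cf) :
    M.gw (I₁ ∪ I₂) (J₁ ∪ J₂) S = M.gw I₁ J₁ S * M.gw I₂ J₂ S := by
  unfold Net.gw
  rw [Finset.prod_union hI, Finset.prod_union hJ]
  ring

/-- the mass of the weight -/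
def mass (I : Finset ι) (J : Finset κ) : ℝ≥0∞ := ∫⁻ ω, M.gw I J (cfg ε ω) ∂sampleLaw

variable {I I₁ I₂ : Finset ι} {J J₁ J₂ : Finset κ}

lemma mass_eq (hN : ∀ k ∈ J, M.N k ⊆ I) :
    mass M I J = M.c ^ J.card * ∏ i ∈ I, ∫⁻ ω, M.a i (cfg ε ω) ∂sampleLaw := M.mass hN

lemma mass_le_one (hN : ∀ k ∈ J, M.N k ⊆ I) : mass M I J ≤ 1 := by
  have : IsProbabilityMeasure sampleLaw := by unfold sampleLaw; infer_instance
  calc mass M I J ≤ ∫⁻ _, 1 ∂sampleLaw := lintegral_mono fun ω => M.gw_le_one hN ω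
    _ = 1 := by simp

lemma mass_ne_top (hN : ∀ k ∈ J, M.N k ⊆ I) : mass M I J ≠ ∞ :=
  ne_top_of_le_ne_top ENNReal.one_ne_top (mass_le_one M hN)

/-- sub-nets have positive mass -/
lemma mass_sub_ne (hN : ∀ k ∈ J, M.N k ⊆ I) (hN₁ : ∀ k ∈ J₁, M.N k ⊆ I₁) (hI₁ : I₁ ⊆ I)
    (h : mass M I J ≠ 0) : mass M I₁ J₁ ≠ 0 := by
  rw [mass_eq M hN] at h
  rw [mass_eq M hN₁]
  refine mul_ne_zero (pow_ne_zero _ M.c0) ?_
  rw [Finset.prod_ne_zero_iff]
  intro i hi
  exact Finset.prod_ne_zero_iff.1 (right_ne_zero_of_mul h) i (hI₁ hi)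

lemma mass_union [DecidableEq ι] [DecidableEq κ] (hI : Disjoint I₁ I₂) (hJ : Disjoint J₁ J₂)
    (hN₁ : ∀ k ∈ J₁, M.N k ⊆ I₁) (hN₂ : ∀ k ∈ J₂, M.N k ⊆ I₂) :
    mass M (I₁ ∪ I₂) (J₁ ∪ J₂) = mass M I₁ J₁ * mass M I₂ J₂ := by
  have hN : ∀ k ∈ J₁ ∪ J₂, M.N k ⊆ I₁ ∪ I₂ := by
    intro k hk
    rcases Finset.mem_union.1 hk with h | h
    · exact (hN₁ k h).trans Finset.subset_union_left
    · exact (hN₂ k h).trans Finset.subset_union_right
  rw [mass_eq M hN, mass_eq M hN₁, mass_eq M hN₂, Finset.card_union_of_disjoint hJ,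
    Finset.prod_union hI, pow_add]
  ring

/-- **product rule**, raw form -/
theorem prod_raw [DecidableEq ι] [DecidableEq κ] (hI : Disjoint I₁ I₂) (hJ : Disjoint J₁ J₂)
    (hN₁ : ∀ k ∈ J₁, M.N k ⊆ I₁) (hN₂ : ∀ k ∈ J₂, M.N k ⊆ I₂) {F H : Cf → ℂ}
    (hF : LocalOn (M.reg I₁ J₁) F) (hFm : FinMeas F) (hH : LocalOn (M.reg I₂ J₂) H)
    (hHm : FinMeas H) :
    ∫ ω, (M.gw (I₁ ∪ I₂) (J₁ ∪ J₂) (cfg ε ω)).toReal • (F (cfg ε ω) * H (cfg ε ω)) ∂sampleLaw =
      (∫ ω, (M.gw I₁ J₁ (cfg ε ω)).toReal • F (cfg ε ω) ∂sampleLaw) *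
        ∫ ω, (M.gw I₂ J₂ (cfg ε ω)).toReal • H (cfg ε ω) ∂sampleLaw := by
  have e1 : ∀ ω, (M.gw (I₁ ∪ I₂) (J₁ ∪ J₂) (cfg ε ω)).toReal • (F (cfg ε ω) * H (cfg ε ω)) =
      ((M.gw I₁ J₁ (cfg ε ω)).toReal • F (cfg ε ω)) *
        ((M.gw I₂ J₂ (cfg ε ω)).toReal • H (cfg ε ω)) := by
    intro ω
    rw [gw_union M hI hJ, ENNReal.toReal_mul]
    simp only [Complex.real_smul, Complex.ofReal_mul]
    ring
  simp_rw [e1]
  have l1 : LocalOn (M.reg I₁ J₁) fun S => (M.gw I₁ J₁ S).toReal • F S := by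
    intro S
    have h1 := M.gw_local hN₁ S
    have h2 := hF S
    change (M.gw I₁ J₁ S).toReal • F S = _
    rw [h1, h2]
  have l2 : LocalOn (M.reg I₂ J₂) fun S => (M.gw I₂ J₂ S).toReal • H S := by
    intro S
    have h1 := M.gw_local hN₂ S
    have h2 := hH S
    change (M.gw I₂ J₂ S).toReal • H S = _
    rw [h1, h2]
  have m1 : FinMeas fun S => (M.gw I₁ J₁ S).toReal • F S := fun n =>
    ((M.gw_meas I₁ J₁ n).ennreal_toReal).smul (hFm n)
  have m2 : FinMeas fun S => (M.gw I₂ J₂ S).toReal • H S := fun n =>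
    ((M.gw_meas I₂ J₂ n).ennreal_toReal).smul (hHm n)
  have hi := indepFun M.eps (M.reg_meas I₁ J₁) (M.reg_bdd I₁ J₁) (M.reg_meas I₂ J₂)
    (M.reg_bdd I₂ J₂) (reg_disj M hI hJ) l1 l2 m1 m2
  exact hi.integral_fun_mul_eq_mul_integral
    (meas_fun M.eps (M.reg_meas I₁ J₁) (M.reg_bdd I₁ J₁) l1 m1).aestronglyMeasurable
    (meas_fun M.eps (M.reg_meas I₂ J₂) (M.reg_bdd I₂ J₂) l2 m2).aestronglyMeasurable

/-- **PRODUCT RULE**: `E[g] E[g F H] = E[g F] E[g H]` -/
theorem prod_rule (hI₁ : I₁ ⊆ I) (hI₂ : I₂ ⊆ I) (hJ₁ : J₁ ⊆ J) (hJ₂ : J₂ ⊆ J)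
    (hN : ∀ k ∈ J, M.N k ⊆ I) (hI : Disjoint I₁ I₂) (hJ : Disjoint J₁ J₂)
    (hN₁ : ∀ k ∈ J₁, M.N k ⊆ I₁) (hN₂ : ∀ k ∈ J₂, M.N k ⊆ I₂) (h0 : mass M I J ≠ 0)
    {F H : Cf → ℂ} (hF : LocalOn (M.reg I₁ J₁) F) (hFm : FinMeas F)
    (hH : LocalOn (M.reg I₂ J₂) H) (hHm : FinMeas H) :
    ((mass M I J).toReal : ℂ) *
        ∫ ω, (M.gw I J (cfg ε ω)).toReal • (F (cfg ε ω) * H (cfg ε ω)) ∂sampleLaw =
      (∫ ω, (M.gw I J (cfg ε ω)).toReal • F (cfg ε ω) ∂sampleLaw) *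
        ∫ ω, (M.gw I J (cfg ε ω)).toReal • H (cfg ε ω) ∂sampleLaw := by
  classical
  have hN' : ∀ k ∈ J₁ ∪ J₂, M.N k ⊆ I₁ ∪ I₂ := by
    intro k hk
    rcases Finset.mem_union.1 hk with h | h
    · exact (hN₁ k h).trans Finset.subset_union_left
    · exact (hN₂ k h).trans Finset.subset_union_right
  have lFH : LocalOn (M.reg (I₁ ∪ I₂) (J₁ ∪ J₂)) fun S => F S * H S := by
    have h1 : LocalOn (M.reg (I₁ ∪ I₂) (J₁ ∪ J₂)) F :=
      LocalOn.mono (M.reg_mono Finset.subset_union_left Finset.subset_union_left) hF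
    have h2 : LocalOn (M.reg (I₁ ∪ I₂) (J₁ ∪ J₂)) H :=
      LocalOn.mono (M.reg_mono Finset.subset_union_right Finset.subset_union_right) hH
    intro S
    change F S * H S = _
    rw [h1 S, h2 S]
  have mFH : FinMeas fun S => F S * H S := fun n => (hFm n).mul (hHm n)
  have a1 := M.mean hI₁ hJ₁ hN hN₁ hF hFm
  have a2 := M.mean hI₂ hJ₂ hN hN₂ hH hHm
  have a3 := M.mean (Finset.union_subset hI₁ hI₂) (Finset.union_subset hJ₁ hJ₂) hN hN' lFH mFH
  rw [prod_raw M hI hJ hN₁ hN₂ hF hFm hH hHm] at a3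
  change (mass M I₁ J₁).toReal • _ = (mass M I J).toReal • _ at a1
  change (mass M I₂ J₂).toReal • _ = (mass M I J).toReal • _ at a2
  change (mass M (I₁ ∪ I₂) (J₁ ∪ J₂)).toReal • _ = (mass M I J).toReal • _ at a3
  rw [mass_union M hI hJ hN₁ hN₂, ENNReal.toReal_mul] at a3
  have p1 : ((mass M I₁ J₁).toReal : ℂ) ≠ 0 := by
    rw [Complex.ofReal_ne_zero]
    exact ENNReal.toReal_ne_zero.2 ⟨mass_sub_ne M hN hN₁ hI₁ h0, mass_ne_top M hN₁⟩
  have p2 : ((mass M I₂ J₂).toReal : ℂ) ≠ 0 := by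
    rw [Complex.ofReal_ne_zero]
    exact ENNReal.toReal_ne_zero.2 ⟨mass_sub_ne M hN hN₂ hI₂ h0, mass_ne_top M hN₂⟩
  simp only [Complex.real_smul, Complex.ofReal_mul] at a1 a2 a3 ⊢
  have key : ((mass M I₁ J₁).toReal : ℂ) * ((mass M I₂ J₂).toReal : ℂ) *
      (((mass M I J).toReal : ℂ) *
        ∫ ω, ((M.gw I J (cfg ε ω)).toReal : ℂ) * (F (cfg ε ω) * H (cfg ε ω)) ∂sampleLaw) =
      ((mass M I₁ J₁).toReal : ℂ) * ((mass M I₂ J₂).toReal : ℂ) *
      ((∫ ω, ((M.gw I J (cfg ε ω)).toReal : ℂ) * F (cfg ε ω) ∂sampleLaw) *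
        ∫ ω, ((M.gw I J (cfg ε ω)).toReal : ℂ) * H (cfg ε ω) ∂sampleLaw) := by
    linear_combination ((mass M I J).toReal : ℂ) * a3 -
      ((mass M I₂ J₂).toReal : ℂ) * (∫ ω, ((M.gw I J (cfg ε ω)).toReal : ℂ) * H (cfg ε ω)
        ∂sampleLaw) * a1 - ((mass M I J).toReal : ℂ) *
        (∫ ω, ((M.gw I₁ J₁ (cfg ε ω)).toReal : ℂ) * F (cfg ε ω) ∂sampleLaw) * a2
  exact mul_left_cancel₀ (mul_ne_zero p1 p2) key


/-! ### the weighted probability measure -/

/-- the law with density `g / E g` -/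
def wm (I : Finset ι) (J : Finset κ) : Measure Sample :=
  (mass M I J)⁻¹ • sampleLaw.withDensity fun ω => M.gw I J (cfg ε ω)

lemma meas_gw (hN : ∀ k ∈ J, M.N k ⊆ I) : Measurable fun ω => M.gw I J (cfg ε ω) :=
  meas_fun M.eps (M.reg_meas I J) (M.reg_bdd I J) (M.gw_local hN) (M.gw_meas I J)

lemma wm_prob (hN : ∀ k ∈ J, M.N k ⊆ I) (h0 : mass M I J ≠ 0) :
    IsProbabilityMeasure (wm M I J) := by
  constructor
  unfold wm
  rw [Measure.smul_apply, withDensity_apply _ MeasurableSet.univ, Measure.restrict_univ,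
    smul_eq_mul]
  exact ENNReal.inv_mul_cancel h0 (mass_ne_top M hN)

/-- integrals of nonnegative functions -/
lemma lint_wm (hN : ∀ k ∈ J, M.N k ⊆ I) {F : Sample → ℝ≥0∞} (hF : Measurable F) :
    ∫⁻ ω, F ω ∂(wm M I J) = (mass M I J)⁻¹ * ∫⁻ ω, M.gw I J (cfg ε ω) * F ω ∂sampleLaw := by
  unfold wm
  rw [lintegral_smul_measure, lintegral_withDensity_eq_lintegral_mul _ (meas_gw M hN) hF]
  rfl

/-- integrals -/
lemma int_wm (hN : ∀ k ∈ J, M.N k ⊆ I) (F : Sample → ℂ) :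
    ∫ ω, F ω ∂(wm M I J) =
      ((mass M I J).toReal : ℂ)⁻¹ * ∫ ω, (M.gw I J (cfg ε ω)).toReal • F ω ∂sampleLaw := by
  unfold wm
  rw [integral_smul_measure, integral_withDensity_eq_integral_toReal_smul (meas_gw M hN)
    (Filter.Eventually.of_forall fun ω => lt_of_le_of_lt (M.gw_le_one hN ω) ENNReal.one_lt_top),
    ENNReal.toReal_inv, Complex.real_smul, Complex.ofReal_inv]

/-- **independence under the weight** -/
theorem int_mul (hI₁ : I₁ ⊆ I) (hI₂ : I₂ ⊆ I) (hJ₁ : J₁ ⊆ J) (hJ₂ : J₂ ⊆ J)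
    (hN : ∀ k ∈ J, M.N k ⊆ I) (hI : Disjoint I₁ I₂) (hJ : Disjoint J₁ J₂)
    (hN₁ : ∀ k ∈ J₁, M.N k ⊆ I₁) (hN₂ : ∀ k ∈ J₂, M.N k ⊆ I₂) (h0 : mass M I J ≠ 0)
    {F H : Cf → ℂ} (hF : LocalOn (M.reg I₁ J₁) F) (hFm : FinMeas F)
    (hH : LocalOn (M.reg I₂ J₂) H) (hHm : FinMeas H) :
    ∫ ω, F (cfg ε ω) * H (cfg ε ω) ∂(wm M I J) =
      (∫ ω, F (cfg ε ω) ∂(wm M I J)) * ∫ ω, H (cfg ε ω) ∂(wm M I J) := by
  have h := prod_rule M hI₁ hI₂ hJ₁ hJ₂ hN hI hJ hN₁ hN₂ h0 hF hFm hH hHm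
  rw [int_wm M hN, int_wm M hN, int_wm M hN]
  have hm : ((mass M I J).toReal : ℂ) ≠ 0 := by
    rw [Complex.ofReal_ne_zero]
    exact ENNReal.toReal_ne_zero.2 ⟨h0, mass_ne_top M hN⟩
  have h2 : ∀ a x y z : ℂ, a ≠ 0 → a * x = y * z → a⁻¹ * x = a⁻¹ * y * (a⁻¹ * z) := by
    intro a x y z ha h
    field_simp
    exact h
  exact h2 _ _ _ _ hm h

/-! ### a chain of local charges -/

/-- data: charges `V k`, `k < n`, local on the sub-nets `II k`, `JJ k`, second moments at most `C`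
under the weight, no common gates and tubes at index distance at least `r` -/
structure Chain (M : Net ε ι κ) (I : Finset ι) (J : Finset κ) (n r : ℕ) (C : ℝ)
    (V : ℕ → Cf → ℂ) (II : ℕ → Finset ι) (JJ : ℕ → Finset κ) : Prop where
  hN : ∀ k ∈ J, M.N k ⊆ I
  h0 : mass M I J ≠ 0
  hII : ∀ k < n, II k ⊆ I
  hJJ : ∀ k < n, JJ k ⊆ J
  hNN : ∀ k < n, ∀ j ∈ JJ k, M.N j ⊆ II k
  hV : ∀ k < n, LocalOn (M.reg (II k) (JJ k)) (V k)
  hVm : ∀ k < n, FinMeas (V k)
  hd : ∀ k l, k + r ≤ l → l < n → Disjoint (II k) (II l) ∧ Disjoint (JJ k) (JJ l)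
  C0 : 0 ≤ C
  hC : ∀ k < n, ∫⁻ ω, M.gw I J (cfg ε ω) * ENNReal.ofReal (‖V k (cfg ε ω)‖ ^ 2) ∂sampleLaw ≤
    ENNReal.ofReal C * mass M I J

namespace Chain

variable {M} {n r : ℕ} {C : ℝ} {V : ℕ → Cf → ℂ} {II : ℕ → Finset ι} {JJ : ℕ → Finset κ}

/-- the mean of a charge -/
def av (M : Net ε ι κ) (I : Finset ι) (J : Finset κ) (V : Cf → ℂ) : ℂ :=
  ∫ ω, V (cfg ε ω) ∂(wm M I J)

lemma meas (H : Chain M I J n r C V II JJ) {k : ℕ} (hk : k < n) :
    Measurable fun ω => V k (cfg ε ω) :=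
  meas_fun M.eps (M.reg_meas _ _) (M.reg_bdd _ _) (H.hV k hk) (H.hVm k hk)

lemma sq_lint (H : Chain M I J n r C V II JJ) {k : ℕ} (hk : k < n) :
    ∫⁻ ω, ENNReal.ofReal (‖V k (cfg ε ω)‖ ^ 2) ∂(wm M I J) ≤ ENNReal.ofReal C := by
  rw [lint_wm M H.hN ((H.meas hk).norm.pow_const 2).ennreal_ofReal]
  calc (mass M I J)⁻¹ * ∫⁻ ω, M.gw I J (cfg ε ω) * ENNReal.ofReal (‖V k (cfg ε ω)‖ ^ 2)
        ∂sampleLaw ≤ (mass M I J)⁻¹ * (ENNReal.ofReal C * mass M I J) := by
        gcongr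
        exact H.hC k hk
    _ = ENNReal.ofReal C := by
        rw [mul_comm (ENNReal.ofReal C), ← mul_assoc,
          ENNReal.inv_mul_cancel H.h0 (mass_ne_top M H.hN), one_mul]

lemma memLp (H : Chain M I J n r C V II JJ) {k : ℕ} (hk : k < n) :
    MemLp (fun ω => V k (cfg ε ω)) 2 (wm M I J) := by
  refine ⟨(H.meas hk).aestronglyMeasurable, ?_⟩
  rw [eLpNorm_lt_top_iff_lintegral_rpow_enorm_lt_top (by norm_num) (by norm_num)]
  refine lt_of_le_of_lt ?_ (lt_of_le_of_lt (H.sq_lint hk) ENNReal.ofReal_lt_top)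
  refine le_of_eq (lintegral_congr fun ω => ?_)
  rw [ENNReal.toReal_ofNat, ← ofReal_norm, ENNReal.ofReal_pow (norm_nonneg _),
    ← ENNReal.rpow_natCast]
  norm_num

lemma sq_int (H : Chain M I J n r C V II JJ) {k : ℕ} (hk : k < n) :
    ∫ ω, ‖V k (cfg ε ω)‖ ^ 2 ∂(wm M I J) ≤ C := by
  rw [integral_eq_lintegral_of_nonneg_ae (Filter.Eventually.of_forall fun ω => by positivity)
    ((H.meas hk).norm.pow_const 2).aestronglyMeasurable]
  exact ENNReal.toReal_le_of_le_ofReal H.C0 (H.sq_lint hk)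

/-- centred second moment -/
lemma csq_int (H : Chain M I J n r C V II JJ) {k : ℕ} (hk : k < n) :
    ∫ ω, ‖V k (cfg ε ω) - av M I J (V k)‖ ^ 2 ∂(wm M I J) ≤ C := by
  have := wm_prob M H.hN H.h0
  have hL := H.memLp hk
  have hi : Integrable (fun ω => V k (cfg ε ω)) (wm M I J) := hL.integrable (by norm_num)
  have h1 : ∀ ω, ‖V k (cfg ε ω) - av M I J (V k)‖ ^ 2 = ‖V k (cfg ε ω)‖ ^ 2 -
      2 * (V k (cfg ε ω) * conj (av M I J (V k))).re + ‖av M I J (V k)‖ ^ 2 := by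
    intro ω
    rw [← Complex.normSq_eq_norm_sq, ← Complex.normSq_eq_norm_sq, ← Complex.normSq_eq_norm_sq,
      Complex.normSq_sub]
    ring
  have hi2 : Integrable (fun ω => (V k (cfg ε ω) * conj (av M I J (V k))).re) (wm M I J) :=
    (hi.mul_const _).re
  have hs : Integrable (fun ω => ‖V k (cfg ε ω)‖ ^ 2) (wm M I J) :=
    ChainVx323.sq_integrable hL
  have e2 : ∫ ω, (V k (cfg ε ω) * conj (av M I J (V k))).re ∂(wm M I J) =
      ‖av M I J (V k)‖ ^ 2 := by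
    have h3 : ∫ ω, (V k (cfg ε ω) * conj (av M I J (V k))).re ∂(wm M I J) =
        (∫ ω, V k (cfg ε ω) * conj (av M I J (V k)) ∂(wm M I J)).re :=
      integral_re (𝕜 := ℂ) (hi.mul_const _)
    rw [h3, integral_mul_const]
    change (av M I J (V k) * conj (av M I J (V k))).re = _
    rw [Complex.mul_conj, Complex.ofReal_re, Complex.normSq_eq_norm_sq]
  simp_rw [h1]
  have i1 : Integrable (fun ω => 2 * (V k (cfg ε ω) * conj (av M I J (V k))).re) (wm M I J) :=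
    hi2.const_mul 2
  have i2 : Integrable (fun ω => ‖V k (cfg ε ω)‖ ^ 2 -
      2 * (V k (cfg ε ω) * conj (av M I J (V k))).re) (wm M I J) := hs.sub i1
  rw [integral_add i2 (integrable_const _), integral_sub hs i1, integral_const_mul, e2,
    integral_const]
  simp only [probReal_univ, one_smul]
  have h4 := H.sq_int hk
  nlinarith [sq_nonneg ‖av M I J (V k)‖, norm_nonneg (av M I J (V k))]

/-- **the centred charges are uncorrelated at index distance at least `r`** -/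
theorem cov (H : Chain M I J n r C V II JJ) {k l : ℕ} (hkl : k + r ≤ l) (hl : l < n) :
    ∫ ω, ChainVx323.ip (V k (cfg ε ω) - av M I J (V k)) (V l (cfg ε ω) - av M I J (V l))
      ∂(wm M I J) = 0 := by
  have := wm_prob M H.hN H.h0
  have hk : k < n := by omega
  obtain ⟨d1, d2⟩ := H.hd k l hkl hl
  refine ChainVx323.ip_centred (H.memLp hk) (H.memLp hl) ?_
  have hc : LocalOn (M.reg (II l) (JJ l)) fun S => conj (V l S) := fun S => by
    change conj (V l S) = _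
    rw [H.hV l hl S]
  have hcm : FinMeas fun S => conj (V l S) := fun m =>
    Complex.continuous_conj.measurable.comp (H.hVm l hl m)
  have h := int_mul M (H.hII k hk) (H.hII l hl) (H.hJJ k hk) (H.hJJ l hl) H.hN d1 d2
    (H.hNN k hk) (H.hNN l hl) H.h0 (H.hV k hk) (H.hVm k hk) hc hcm
  rw [h, ← integral_conj]

end Chain

/-! ### the explicit dominating function -/

/-- centred charges, `0` from the index `n` on -/
def YY (M : Net ε ι κ) (I : Finset ι) (J : Finset κ) (n : ℕ) (V : ℕ → Cf → ℂ) (k : ℕ) (X : Cf) :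
    ℂ := if k < n then V k X - Chain.av M I J (V k) else 0

/-- dominating function of one chain -/
def B1 (M : Net ε ι κ) (I : Finset ι) (J : Finset κ) (n r : ℕ) (V : ℕ → Cf → ℂ) (X : Cf) : ℝ :=
  4 * ChainWx828.BR (YY M I J n V) n (Nat.sqrt n) r X

section one

variable {M} {n r : ℕ} {C : ℝ} {V : ℕ → Cf → ℂ} {II : ℕ → Finset ι} {JJ : ℕ → Finset κ}

lemma b1_nonneg (X : Cf) : 0 ≤ B1 M I J n r V X :=
  mul_nonneg (by norm_num) (ChainWx828.br_nonneg X)

/-- **pointwise bound** -/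
theorem b1_le (hr : 0 < r) (X : Cf) {i j : ℕ} (hij : i ≤ j) (hj : j ≤ n) :
    ‖∑ k ∈ Finset.Ico i j, (V k X - Chain.av M I J (V k))‖ ^ 2 ≤ B1 M I J n r V X := by
  rcases Nat.eq_zero_or_pos n with hn | hn
  · have hi : i = 0 := by omega
    have hj0 : j = 0 := by omega
    subst hi; subst hj0
    simpa using b1_nonneg X
  have h := ChainWx828.br_Ico (Y := YY M I J n V) (n := n) (q := Nat.sqrt n) (Nat.sqrt_pos.2 hn) hr
    X hij hj
  have e : ∑ k ∈ Finset.Ico i j, YY M I J n V k X =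
      ∑ k ∈ Finset.Ico i j, (V k X - Chain.av M I J (V k)) := by
    refine Finset.sum_congr rfl fun k hk => ?_
    unfold YY
    rw [if_pos (lt_of_lt_of_le (Finset.mem_Ico.1 hk).2 hj)]
  rw [← e]
  exact h

lemma b1_fm (hVm : ∀ k < n, FinMeas (V k)) : FinMeas (B1 M I J n r V) := by
  intro N
  have h : Measurable (ChainWx828.BR (fun k (z : Fin N → ℂ × Bool) => YY M I J n V k (range z)) n
      (Nat.sqrt n) r) := by
    refine ChainWx828.br_meas fun k => ?_
    unfold YY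
    by_cases hk : k < n
    · simp only [if_pos hk]
      exact (hVm k hk N).sub_const _
    · simp only [if_neg hk]
      exact measurable_const
  exact h.const_mul 4

lemma b1_local {B : Set ℂ} (hV : ∀ k < n, LocalOn B (V k)) : LocalOn B (B1 M I J n r V) := by
  intro S
  change 4 * ChainWx828.BR (YY M I J n V) n (Nat.sqrt n) r S = 4 * ChainWx828.BR
    (YY M I J n V) n (Nat.sqrt n) r (S ∩ {p | p.1 ∈ B})
  rw [ChainWx828.br_congr (Y := YY M I J n V) (Y' := YY M I J n V) (n := n)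
    (ω' := S ∩ {p | p.1 ∈ B}) fun k hk => ?_]
  unfold YY
  rw [if_pos hk, if_pos hk]
  have h := hV k hk S
  rw [h]

/-- **mean under the weight** -/
theorem b1_int (H : Chain M I J n r C V II JJ) (hr : 0 < r) :
    ∫⁻ ω, M.gw I J (cfg ε ω) * ENNReal.ofReal (B1 M I J n r V (cfg ε ω)) ∂sampleLaw ≤
      ENNReal.ofReal (72 * r ^ 2 * (n * Real.sqrt n) * C) * mass M I J := by
  have := wm_prob M H.hN H.h0
  rcases Nat.eq_zero_or_pos n with hn | hn
  · subst hn
    have e : ∀ X : Cf, B1 M I J 0 r V X = 0 := by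
      intro X
      unfold B1 ChainWx828.BR ChainWx828.BB
      simp
    simp [e]
  have hm : Measurable fun ω => B1 M I J n r V (cfg ε ω) :=
    meas_fun M.eps (M.reg_meas I J) (M.reg_bdd I J)
      (b1_local fun k hk => LocalOn.mono (M.reg_mono (H.hII k hk) (H.hJJ k hk)) (H.hV k hk))
      (b1_fm H.hVm)
  have hL : ∀ k < n, MemLp (fun ω => YY M I J n V k (cfg ε ω)) 2 (wm M I J) := by
    intro k hk
    unfold YY
    simp only [if_pos hk]
    exact (H.memLp hk).sub (memLp_const _)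
  obtain ⟨h1, h2⟩ := ChainWx828.br_int (μ := wm M I J) (Y := fun k ω => YY M I J n V k (cfg ε ω))
    (n := n) (r := r) (C := C) hn hL
    (by
      intro k hk
      unfold YY
      simp only [if_pos hk]
      exact H.csq_int hk)
    (by
      intro k l hkl hl
      have hk : k < n := by omega
      unfold YY
      simp only [if_pos hk, if_pos hl]
      exact H.cov hkl hl) hr
  have h3 : ∫⁻ ω, ENNReal.ofReal (B1 M I J n r V (cfg ε ω)) ∂(wm M I J) ≤
      ENNReal.ofReal (72 * r ^ 2 * (n * Real.sqrt n) * C) := by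
    rw [← ofReal_integral_eq_lintegral_ofReal]
    · refine ENNReal.ofReal_le_ofReal ?_
      have e : ∫ ω, B1 M I J n r V (cfg ε ω) ∂(wm M I J) = 4 * ∫ ω, ChainWx828.BR
          (fun k ω => YY M I J n V k (cfg ε ω)) n (Nat.sqrt n) r ω ∂(wm M I J) := by
        rw [← integral_const_mul]
        rfl
      rw [e]
      linarith
    · exact h1.const_mul 4
    · exact Filter.Eventually.of_forall fun ω => b1_nonneg _
  rw [lint_wm M H.hN hm.ennreal_ofReal] at h3
  have h4 := mul_le_mul_right h3 (mass M I J)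
  rw [← mul_assoc, ENNReal.mul_inv_cancel H.h0 (mass_ne_top M H.hN), one_mul, mul_comm] at h4
  rw [mul_comm]
  rw [mul_comm] at h4
  rw [mul_comm (mass M I J)] at h4 ⊢
  exact h4

end one

/-! ### rings -/

/-- a closed ring of `n` tiles: as `Chain`, the index distance is cyclic -/
structure Cyc (M : Net ε ι κ) (I : Finset ι) (J : Finset κ) (n r : ℕ) (C : ℝ)
    (V : ℕ → Cf → ℂ) (II : ℕ → Finset ι) (JJ : ℕ → Finset κ) : Prop where
  hN : ∀ k ∈ J, M.N k ⊆ I
  h0 : mass M I J ≠ 0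
  hII : ∀ k < n, II k ⊆ I
  hJJ : ∀ k < n, JJ k ⊆ J
  hNN : ∀ k < n, ∀ j ∈ JJ k, M.N j ⊆ II k
  hV : ∀ k < n, LocalOn (M.reg (II k) (JJ k)) (V k)
  hVm : ∀ k < n, FinMeas (V k)
  hd : ∀ k l, k + r ≤ l → l < n → l + r ≤ n + k → Disjoint (II k) (II l) ∧ Disjoint (JJ k) (JJ l)
  C0 : 0 ≤ C
  hC : ∀ k < n, ∫⁻ ω, M.gw I J (cfg ε ω) * ENNReal.ofReal (‖V k (cfg ε ω)‖ ^ 2) ∂sampleLaw ≤
    ENNReal.ofReal C * mass M I J

section ring

variable {M} {n r : ℕ} {C : ℝ} {V : ℕ → Cf → ℂ} {II : ℕ → Finset ι} {JJ : ℕ → Finset κ}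

/-- a part of the ring is a chain -/
theorem Cyc.chain (H : Cyc M I J n r C V II JJ) {a b : ℕ} (hab : a + b ≤ n) (hb : b + r ≤ n) :
    Chain M I J b r C (fun k => V (a + k)) (fun k => II (a + k)) (fun k => JJ (a + k)) where
  hN := H.hN
  h0 := H.h0
  hII k hk := H.hII _ (by omega)
  hJJ k hk := H.hJJ _ (by omega)
  hNN k hk := H.hNN _ (by omega)
  hV k hk := H.hV _ (by omega)
  hVm k hk := H.hVm _ (by omega)
  hd k l hkl hl := H.hd _ _ (by omega) (by omega) (by omega)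
  C0 := H.C0
  hC k hk := H.hC _ (by omega)

/-- an open corridor is a chain of every length -/
theorem Chain.sub (H : Chain M I J n r C V II JJ) {a b : ℕ} (hab : a + b ≤ n) :
    Chain M I J b r C (fun k => V (a + k)) (fun k => II (a + k)) (fun k => JJ (a + k)) where
  hN := H.hN
  h0 := H.h0
  hII k hk := H.hII _ (by omega)
  hJJ k hk := H.hJJ _ (by omega)
  hNN k hk := H.hNN _ (by omega)
  hV k hk := H.hV _ (by omega)
  hVm k hk := H.hVm _ (by omega)
  hd k l hkl hl := H.hd _ _ (by omega) (by omega)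
  C0 := H.C0
  hC k hk := H.hC _ (by omega)

/-- dominating function of the ring: the two halves `[0, n / 2)`, `[n / 2, n)` -/
def B2 (M : Net ε ι κ) (I : Finset ι) (J : Finset κ) (n r : ℕ) (V : ℕ → Cf → ℂ) (X : Cf) : ℝ :=
  2 * (B1 M I J (n / 2) r V X + B1 M I J (n - n / 2) r (fun k => V (n / 2 + k)) X)

lemma b2_nonneg (X : Cf) : 0 ≤ B2 M I J n r V X :=
  mul_nonneg (by norm_num) (add_nonneg (b1_nonneg X) (b1_nonneg X))

theorem b2_le (hr : 0 < r) (X : Cf) {i j : ℕ} (hij : i ≤ j) (hj : j ≤ n) :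
    ‖∑ k ∈ Finset.Ico i j, (V k X - Chain.av M I J (V k))‖ ^ 2 ≤ B2 M I J n r V X := by
  set b := n / 2 with hb
  have hbn : b ≤ n := Nat.div_le_self n 2
  have sh : ∀ i' j', b ≤ i' → i' ≤ j' → j' ≤ n →
      ‖∑ k ∈ Finset.Ico i' j', (V k X - Chain.av M I J (V k))‖ ^ 2 ≤
        B1 M I J (n - b) r (fun k => V (b + k)) X := by
    intro i' j' h1 h2 h3
    have h := b1_le (M := M) (I := I) (J := J) (V := fun k => V (b + k)) (n := n - b) hr X
      (i := i' - b) (j := j' - b) (by omega) (by omega)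
    have e : ∑ k ∈ Finset.Ico (i' - b) (j' - b), (V (b + k) X - Chain.av M I J (V (b + k))) =
        ∑ k ∈ Finset.Ico i' j', (V k X - Chain.av M I J (V k)) := by
      rw [Finset.sum_Ico_add (fun k => V k X - Chain.av M I J (V k)) (i' - b) (j' - b) b]
      congr 2 <;> omega
    rw [e] at h
    exact h
  have n1 := b1_nonneg (M := M) (I := I) (J := J) (n := b) (r := r) (V := V) X
  have n2 := b1_nonneg (M := M) (I := I) (J := J) (n := n - b) (r := r)
    (V := fun k => V (b + k)) X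
  unfold B2
  rw [← hb]
  rcases le_or_gt j b with h1 | h1
  · have := b1_le (M := M) (I := I) (J := J) (V := V) (n := b) hr X hij h1
    linarith
  rcases le_or_gt b i with h2 | h2
  · have := sh i j h2 hij hj
    linarith
  · have e : ∑ k ∈ Finset.Ico i j, (V k X - Chain.av M I J (V k)) =
        ∑ k ∈ Finset.Ico i b, (V k X - Chain.av M I J (V k)) +
          ∑ k ∈ Finset.Ico b j, (V k X - Chain.av M I J (V k)) :=
      (Finset.sum_Ico_consecutive _ h2.le h1.le).symm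
    rw [e]
    refine (ChainVx323.two_sq _ _).trans ?_
    have t1 := b1_le (M := M) (I := I) (J := J) (V := V) (n := b) hr X h2.le le_rfl
    have t2 := sh b j le_rfl h1.le hj
    linarith

lemma b2_fm (hVm : ∀ k < n, FinMeas (V k)) : FinMeas (B2 M I J n r V) := by
  intro N
  have h1 := b1_fm (M := M) (I := I) (J := J) (r := r) (n := n / 2) (V := V)
    (fun k hk => hVm k (by omega)) N
  have h2 := b1_fm (M := M) (I := I) (J := J) (r := r) (n := n - n / 2)
    (V := fun k => V (n / 2 + k)) (fun k hk => hVm _ (by omega)) N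
  exact (h1.add h2).const_mul 2

lemma b2_local {B : Set ℂ} (hV : ∀ k < n, LocalOn B (V k)) : LocalOn B (B2 M I J n r V) := by
  intro S
  have h1 := b1_local (M := M) (I := I) (J := J) (r := r) (n := n / 2) (V := V)
    (fun k hk => hV k (by omega)) S
  have h2 := b1_local (M := M) (I := I) (J := J) (r := r) (n := n - n / 2)
    (V := fun k => V (n / 2 + k)) (fun k hk => hV _ (by omega)) S
  unfold B2
  rw [h1, h2]

theorem b2_int (H : Cyc M I J n r C V II JJ) (hr : 0 < r) (hn : 2 * r + 2 ≤ n) :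
    ∫⁻ ω, M.gw I J (cfg ε ω) * ENNReal.ofReal (B2 M I J n r V (cfg ε ω)) ∂sampleLaw ≤
      ENNReal.ofReal (144 * r ^ 2 * (n * Real.sqrt n) * C) * mass M I J := by
  have a1 := b1_int (H.chain (a := 0) (b := n / 2) (by omega) (by omega)) hr
  have a2 := b1_int (H.chain (a := n / 2) (b := n - n / 2) (by omega) (by omega)) hr
  simp only [zero_add] at a1
  have hm : Measurable fun ω => B1 M I J (n / 2) r V (cfg ε ω) :=
    meas_fun M.eps (M.reg_meas I J) (M.reg_bdd I J)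
      (b1_local fun k hk => LocalOn.mono (M.reg_mono (H.hII k (by omega)) (H.hJJ k (by omega)))
        (H.hV k (by omega))) (b1_fm fun k hk => H.hVm k (by omega))
  have hg := meas_gw M (I := I) (J := J) H.hN
  have e : ∀ ω, M.gw I J (cfg ε ω) * ENNReal.ofReal (B2 M I J n r V (cfg ε ω)) =
      2 * (M.gw I J (cfg ε ω) * ENNReal.ofReal (B1 M I J (n / 2) r V (cfg ε ω))) +
      2 * (M.gw I J (cfg ε ω) * ENNReal.ofReal (B1 M I J (n - n / 2) r
        (fun k => V (n / 2 + k)) (cfg ε ω))) := by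
    intro ω
    unfold B2
    rw [ENNReal.ofReal_mul (by norm_num), ENNReal.ofReal_add (b1_nonneg _) (b1_nonneg _),
      ENNReal.ofReal_ofNat]
    ring
  simp_rw [e]
  have hmm : Measurable fun ω => 2 * (M.gw I J (cfg ε ω) *
      ENNReal.ofReal (B1 M I J (n / 2) r V (cfg ε ω))) := (hg.mul hm.ennreal_ofReal).const_mul 2
  rw [lintegral_add_left hmm,
    lintegral_const_mul' _ _ (by norm_num), lintegral_const_mul' _ _ (by norm_num)]
  have hsq : ∀ b : ℕ, b ≤ n → (b : ℝ) * Real.sqrt b ≤ b * Real.sqrt n := fun b hb =>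
    mul_le_mul_of_nonneg_left (Real.sqrt_le_sqrt (by exact_mod_cast hb)) (Nat.cast_nonneg _)
  have c1 := hsq (n / 2) (by omega)
  have c2 := hsq (n - n / 2) (by omega)
  have hsum : ((n / 2 : ℕ) : ℝ) + ((n - n / 2 : ℕ) : ℝ) = n := by
    rw [← Nat.cast_add]; congr 1; omega
  have hr2 : (0 : ℝ) ≤ 72 * r ^ 2 := by positivity
  have C0 := H.C0
  calc 2 * ∫⁻ ω, M.gw I J (cfg ε ω) * ENNReal.ofReal (B1 M I J (n / 2) r V (cfg ε ω)) ∂sampleLaw +
        2 * ∫⁻ ω, M.gw I J (cfg ε ω) * ENNReal.ofReal (B1 M I J (n - n / 2) r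
          (fun k => V (n / 2 + k)) (cfg ε ω)) ∂sampleLaw
      ≤ 2 * (ENNReal.ofReal (72 * r ^ 2 * ((n / 2 : ℕ) * Real.sqrt (n / 2 : ℕ)) * C) *
          mass M I J) + 2 * (ENNReal.ofReal (72 * r ^ 2 * ((n - n / 2 : ℕ) *
            Real.sqrt (n - n / 2 : ℕ)) * C) * mass M I J) := by gcongr
    _ = ENNReal.ofReal (2 * (72 * r ^ 2 * ((n / 2 : ℕ) * Real.sqrt (n / 2 : ℕ)) * C) +
          2 * (72 * r ^ 2 * ((n - n / 2 : ℕ) * Real.sqrt (n - n / 2 : ℕ)) * C)) *
            mass M I J := by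
        have gen : ∀ (a b : ℝ) (m : ℝ≥0∞), 0 ≤ a → 0 ≤ b →
            2 * (ENNReal.ofReal a * m) + 2 * (ENNReal.ofReal b * m) =
              ENNReal.ofReal (2 * a + 2 * b) * m := by
          intro a b m ha hb
          rw [← mul_assoc, ← mul_assoc, ← add_mul]
          congr 1
          rw [show (2 : ℝ≥0∞) = ENNReal.ofReal 2 by simp,
            ← ENNReal.ofReal_mul (by norm_num : (0 : ℝ) ≤ 2),
            ← ENNReal.ofReal_mul (by norm_num : (0 : ℝ) ≤ 2),
            ← ENNReal.ofReal_add (by positivity) (by positivity)]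
        exact gen _ _ _ (by positivity) (by positivity)
    _ ≤ ENNReal.ofReal (144 * r ^ 2 * (n * Real.sqrt n) * C) * mass M I J := by
        gcongr
        have h5 : 72 * (r : ℝ) ^ 2 * ((n / 2 : ℕ) * Real.sqrt (n / 2 : ℕ)) * C +
            72 * r ^ 2 * ((n - n / 2 : ℕ) * Real.sqrt (n - n / 2 : ℕ)) * C ≤
            72 * r ^ 2 * (n * Real.sqrt n) * C := by
          rw [← hsum, ← add_mul, ← mul_add, add_mul ((n / 2 : ℕ) : ℝ)]
          rw [hsum]
          gcongr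
        linarith

/-! ### means, corners, the linear law -/

/-- the dominating function of the linear law -/
def B3 (M : Net ε ι κ) (I : Finset ι) (J : Finset κ) (n r c0 : ℕ) (C : ℝ) (V : ℕ → Cf → ℂ)
    (X : Cf) : ℝ := 2 * B2 M I J n r V X + 18 * c0 ^ 2 * C

lemma b3_fm {c0 : ℕ} (hVm : ∀ k < n, FinMeas (V k)) : FinMeas (B3 M I J n r c0 C V) := fun N =>
  ((b2_fm hVm N).const_mul 2).add_const _

lemma b3_local {c0 : ℕ} {B : Set ℂ} (hV : ∀ k < n, LocalOn B (V k)) :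
    LocalOn B (B3 M I J n r c0 C V) := by
  intro S
  have h := b2_local (M := M) (I := I) (J := J) (r := r) hV S
  unfold B3
  rw [h]

lemma b3_nonneg {c0 : ℕ} (hC : 0 ≤ C) (X : Cf) : 0 ≤ B3 M I J n r c0 C V X := by
  have := b2_nonneg (M := M) (I := I) (J := J) (n := n) (r := r) (V := V) X
  unfold B3
  positivity

/-- the mean of a charge is bounded by the second moment -/
lemma Cyc.av_le (H : Cyc M I J n r C V II JJ) (hr : 0 < r) (hn : 2 * r + 2 ≤ n) {k : ℕ}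
    (hk : k < n) : ‖Chain.av M I J (V k)‖ ≤ Real.sqrt C := by
  have := wm_prob M H.hN H.h0
  have h := H.chain (a := k) (b := 1) (by omega) (by omega)
  have h1 := h.sq_int (k := 0) (by omega)
  have h2 := h.memLp (k := 0) (by omega)
  have h3 := h.csq_int (k := 0) (by omega)
  simp only [add_zero] at h1 h2
  have hi : Integrable (fun ω => V k (cfg ε ω)) (wm M I J) := h2.integrable (by norm_num)
  refine Real.le_sqrt_of_sq_le (le_trans ?_ h1)
  have hn1 : Integrable (fun ω => ‖V k (cfg ε ω)‖) (wm M I J) := hi.norm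
  have h4 : ‖Chain.av M I J (V k)‖ ≤ ∫ ω, ‖V k (cfg ε ω)‖ ∂(wm M I J) :=
    norm_integral_le_integral_norm _
  have h5 : (∫ ω, ‖V k (cfg ε ω)‖ ∂(wm M I J)) ^ 2 ≤ ∫ ω, ‖V k (cfg ε ω)‖ ^ 2 ∂(wm M I J) := by
    have hv := variance_nonneg (fun ω => ‖V k (cfg ε ω)‖) (wm M I J)
    have hL : MemLp (fun ω => ‖V k (cfg ε ω)‖) 2 (wm M I J) := h2.norm
    rw [variance_eq_sub hL] at hv
    have e : (fun ω => ‖V k (cfg ε ω)‖) ^ 2 = fun ω => ‖V k (cfg ε ω)‖ ^ 2 := rfl
    rw [e] at hv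
    linarith
  exact (pow_le_pow_left₀ (norm_nonneg _) h4 2).trans h5

open scoped Classical in
/-- data of the linear law: straight tiles `str k` with mean `m d_k` and displacement `h d_k`, at
most `c0` other tiles -/
structure Lin (M : Net ε ι κ) (I : Finset ι) (J : Finset κ) (n c0 : ℕ) (V : ℕ → Cf → ℂ)
    (str : ℕ → Prop) (m : ℂ) (h : ℝ) (d w : ℕ → ℂ) : Prop where
  hh : 0 < h
  mean : ∀ k < n, str k → Chain.av M I J (V k) = m * d k
  disp : ∀ k < n, str k → w (k + 1) - w k = h * d k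
  dn : ∀ k < n, str k → ‖d k‖ = 1
  disp' : ∀ k < n, ‖w (k + 1) - w k‖ ≤ 2 * h
  cor : ((Finset.range n).filter fun k => ¬ str k).card ≤ c0
  ex : ∃ k < n, str k

open scoped Classical in
/-- **RING LAW**, pointwise part -/
theorem lin_le (H : Cyc M I J n r C V II JJ) (hr : 0 < r) (hn : 2 * r + 2 ≤ n) {c0 : ℕ}
    {str : ℕ → Prop} {m : ℂ} {h : ℝ} {d w : ℕ → ℂ}
    (L : Lin M I J n c0 V str m h d w) (X : Cf) {i j : ℕ} (hij : i ≤ j) (hj : j ≤ n) :
    ‖∑ k ∈ Finset.Ico i j, V k X - m / h * (w j - w i)‖ ^ 2 ≤ B3 M I J n r c0 C V X := by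
  obtain ⟨k0, hk0, hs0⟩ := L.ex
  have hm : ‖m‖ ≤ Real.sqrt C := by
    have h1 := H.av_le hr hn hk0
    rw [L.mean k0 hk0 hs0, norm_mul, L.dn k0 hk0 hs0, mul_one] at h1
    exact h1
  have hh : (h : ℂ) ≠ 0 := by exact_mod_cast L.hh.ne'
  have e1 : w j - w i = ∑ k ∈ Finset.Ico i j, (w (k + 1) - w k) := by
    rw [Finset.sum_Ico_sub _ hij]
  have e2 : ∑ k ∈ Finset.Ico i j, V k X - m / h * (w j - w i) =
      ∑ k ∈ Finset.Ico i j, (V k X - Chain.av M I J (V k)) +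
        ∑ k ∈ Finset.Ico i j, (Chain.av M I J (V k) - m / h * (w (k + 1) - w k)) := by
    rw [e1, Finset.mul_sum, ← Finset.sum_sub_distrib, ← Finset.sum_add_distrib]
    exact Finset.sum_congr rfl fun k _ => by ring
  have e3 : ∑ k ∈ Finset.Ico i j, (Chain.av M I J (V k) - m / h * (w (k + 1) - w k)) =
      ∑ k ∈ (Finset.Ico i j).filter (fun k => ¬ str k),
        (Chain.av M I J (V k) - m / h * (w (k + 1) - w k)) := by
    rw [Finset.sum_filter]
    refine Finset.sum_congr rfl fun k hk => ?_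
    have hkn : k < n := lt_of_lt_of_le (Finset.mem_Ico.1 hk).2 hj
    by_cases hs : str k
    · rw [if_neg (not_not.2 hs), L.mean k hkn hs, L.disp k hkn hs]
      field_simp
      ring
    · rw [if_pos hs]
  have e4 : ‖∑ k ∈ (Finset.Ico i j).filter (fun k => ¬ str k),
      (Chain.av M I J (V k) - m / h * (w (k + 1) - w k))‖ ≤ c0 * (3 * Real.sqrt C) := by
    have hb : ∀ k ∈ (Finset.Ico i j).filter (fun k => ¬ str k),
        ‖Chain.av M I J (V k) - m / h * (w (k + 1) - w k)‖ ≤ 3 * Real.sqrt C := by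
      intro k hk
      have hkn : k < n := lt_of_lt_of_le (Finset.mem_Ico.1 (Finset.mem_filter.1 hk).1).2 hj
      have h1 := H.av_le hr hn hkn
      have h2 : ‖m / h * (w (k + 1) - w k)‖ ≤ 2 * Real.sqrt C := by
        rw [norm_mul, norm_div, Complex.norm_real, Real.norm_eq_abs, abs_of_pos L.hh]
        have h0 := L.hh.le
        calc ‖m‖ / h * ‖w (k + 1) - w k‖ ≤ Real.sqrt C / h * (2 * h) :=
              mul_le_mul (div_le_div_of_nonneg_right hm h0) (L.disp' k hkn) (norm_nonneg _)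
                (by positivity)
          _ = 2 * Real.sqrt C := by
              field_simp [L.hh.ne']
      calc ‖Chain.av M I J (V k) - m / h * (w (k + 1) - w k)‖ ≤
            ‖Chain.av M I J (V k)‖ + ‖m / h * (w (k + 1) - w k)‖ := norm_sub_le _ _
        _ ≤ 3 * Real.sqrt C := by linarith
    have hc : ((Finset.Ico i j).filter fun k => ¬ str k).card ≤ c0 := by
      refine le_trans (Finset.card_le_card ?_) L.cor
      intro k hk
      rw [Finset.mem_filter, Finset.mem_Ico] at hk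
      exact Finset.mem_filter.2 ⟨Finset.mem_range.2 (by omega), hk.2⟩
    calc _ ≤ ∑ k ∈ (Finset.Ico i j).filter (fun k => ¬ str k), 3 * Real.sqrt C :=
          norm_sum_le_of_le _ hb
      _ = ((Finset.Ico i j).filter fun k => ¬ str k).card * (3 * Real.sqrt C) := by
          rw [Finset.sum_const, nsmul_eq_mul]
      _ ≤ c0 * (3 * Real.sqrt C) := by
          gcongr
  rw [e2, e3]
  refine (ChainVx323.two_sq _ _).trans ?_
  have t1 := b2_le (M := M) (I := I) (J := J) (V := V) hr X hij hj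
  have t2 := pow_le_pow_left₀ (norm_nonneg _) e4 2
  have t3 : (c0 * (3 * Real.sqrt C)) ^ 2 = 9 * c0 ^ 2 * C := by
    rw [mul_pow, mul_pow, Real.sq_sqrt H.C0]
    ring
  rw [t3] at t2
  unfold B3
  linarith

/-- **RING LAW**, mean part -/
theorem lin_int (H : Cyc M I J n r C V II JJ) (hr : 0 < r) (hn : 2 * r + 2 ≤ n) (c0 : ℕ) :
    ∫⁻ ω, M.gw I J (cfg ε ω) * ENNReal.ofReal (B3 M I J n r c0 C V (cfg ε ω)) ∂sampleLaw ≤
      ENNReal.ofReal ((288 * r ^ 2 * (n * Real.sqrt n) + 18 * c0 ^ 2) * C) * mass M I J := by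
  have C0 := H.C0
  have e : ∀ ω, M.gw I J (cfg ε ω) * ENNReal.ofReal (B3 M I J n r c0 C V (cfg ε ω)) =
      2 * (M.gw I J (cfg ε ω) * ENNReal.ofReal (B2 M I J n r V (cfg ε ω))) +
        ENNReal.ofReal (18 * c0 ^ 2 * C) * M.gw I J (cfg ε ω) := by
    intro ω
    unfold B3
    rw [ENNReal.ofReal_add (mul_nonneg (by norm_num) (b2_nonneg _)) (by positivity),
      ENNReal.ofReal_mul (p := 2) (by norm_num), ENNReal.ofReal_ofNat]
    ring
  simp_rw [e]
  rw [lintegral_add_right _ ((meas_gw M H.hN).const_mul _),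
    lintegral_const_mul' _ _ (by norm_num), lintegral_const_mul' _ _ ENNReal.ofReal_ne_top]
  have h1 := b2_int H hr hn
  calc 2 * ∫⁻ ω, M.gw I J (cfg ε ω) * ENNReal.ofReal (B2 M I J n r V (cfg ε ω)) ∂sampleLaw +
        ENNReal.ofReal (18 * c0 ^ 2 * C) * ∫⁻ ω, M.gw I J (cfg ε ω) ∂sampleLaw
      ≤ 2 * (ENNReal.ofReal (144 * r ^ 2 * (n * Real.sqrt n) * C) * mass M I J) +
        ENNReal.ofReal (18 * c0 ^ 2 * C) * mass M I J := by
        gcongr
        exact le_rfl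
    _ = ENNReal.ofReal ((288 * r ^ 2 * (n * Real.sqrt n) + 18 * c0 ^ 2) * C) * mass M I J := by
        rw [← mul_assoc, ← add_mul]
        congr 1
        rw [show (2 : ℝ≥0∞) = ENNReal.ofReal 2 by simp, ← ENNReal.ofReal_mul (by norm_num),
          ← ENNReal.ofReal_add (by positivity) (by positivity)]
        congr 1
        ring

end ring

end Crest.Agent.R143.RingLx239
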