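import Crest.Agent.R143.TileR0_228

/-!
# Row 143 (S0194): the square as a fine path (helper503)

* `sqW K` : clockwise boundary of `{0..K}²`, period `4 K`
* **`sq_fpath`** : it is a fine path
* `sqW_side` : straight steps on the sides
-/

set_option autoImplicit false

noncomputable section

open scoped Classical

namespace Crest.Agent.R143.SqPx503

open Crest.Agent.R143.TileRx228

/-- the boundary of the square as a function of `r = a mod 4 K` -/
def sq0 (K r : ℤ) : ℤ × ℤ :=
  if r < K then (0, r) else if r < 2 * K then (r - K, K) else if r < 3 * K then (K, 3 * K - r)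
  else (4 * K - r, 0)

/-- **clockwise boundary of the square `{0..K}²`** -/
def sqW (K : ℕ) (a : ℤ) : ℤ × ℤ := sq0 K (a % (4 * K))

theorem sqW_per (K : ℕ) (a : ℤ) : sqW K (a + (4 * K : ℕ)) = sqW K a := by
  unfold sqW
  congr 1
  push_cast
  rw [Int.add_emod_right]

/-- the residue of the next index -/
theorem next_emod {L a : ℤ} (hL : 1 < L) :
    (a + 1) % L = if a % L + 1 = L then 0 else a % L + 1 := by
  have h0 := Int.emod_nonneg a (show L ≠ 0 by omega)
  have h1 := Int.emod_lt_of_pos a (show 0 < L by omega)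
  rw [Int.add_emod, Int.emod_eq_of_lt (a := 1) (by omega) hL]
  split_ifs with h
  · rw [h, Int.emod_self]
  · exact Int.emod_eq_of_lt (by omega) (by omega)

theorem sq0_step {K r : ℤ} (hK : 1 ≤ K) (h0 : 0 ≤ r) (_h1 : r < 4 * K) :
    U4 (sq0 K (if r + 1 = 4 * K then 0 else r + 1) - sq0 K r) := by
  unfold U4 sq0
  split_ifs <;> simp only [Prod.mk_sub_mk, Prod.mk.injEq] <;> omega

theorem sq0_inj {K r t : ℤ} (hK : 1 ≤ K) (_h0 : 0 ≤ r) (h1 : r < 4 * K) (_h2 : 0 ≤ t)
    (h3 : t < 4 * K) (h : sq0 K r = sq0 K t) : r = t := by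
  unfold sq0 at h
  split_ifs at h <;> simp only [Prod.mk.injEq] at h <;> omega

/-- **the square is a fine path** -/
theorem sq_fpath {K : ℕ} (hK : 1 ≤ K) : FPath (4 * K) (sqW K) where
  per := sqW_per K
  step := by
    intro a
    have hK' : (1 : ℤ) ≤ K := by exact_mod_cast hK
    have h0 := Int.emod_nonneg a (show (4 * K : ℤ) ≠ 0 by omega)
    have h1 := Int.emod_lt_of_pos a (show (0 : ℤ) < 4 * K by omega)
    unfold sqW
    rw [next_emod (by omega)]
    exact sq0_step hK' h0 h1
  turn := by
    intro a hc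
    have hK' : (1 : ℤ) ≤ K := by exact_mod_cast hK
    have hL : (4 * K : ℤ) ≠ 0 := by omega
    have h0 := Int.emod_nonneg a hL
    have h1 := Int.emod_lt_of_pos a (show (0 : ℤ) < 4 * K by omega)
    have h2 := Int.emod_nonneg (a + 2) hL
    have h3 := Int.emod_lt_of_pos (a + 2) (show (0 : ℤ) < 4 * K by omega)
    have h4 := sq0_inj hK' h2 h3 h0 h1 hc
    have h5 := Int.emod_emod_of_dvd (a + 2) (dvd_refl (4 * K : ℤ))
    have h6 : (4 * K : ℤ) ∣ 2 := by
      have := Int.sub_emod (a + 2) a (4 * K : ℤ)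
      rw [h4, sub_self, Int.zero_emod, show a + 2 - a = 2 by ring] at this
      exact Int.dvd_of_emod_eq_zero this
    have := Int.le_of_dvd (by norm_num) h6
    omega
  simple := by
    intro a c hc
    have hK' : (1 : ℤ) ≤ K := by exact_mod_cast hK
    have hL : (4 * K : ℤ) ≠ 0 := by omega
    have h0 := Int.emod_nonneg a hL
    have h1 := Int.emod_lt_of_pos a (show (0 : ℤ) < 4 * K by omega)
    have h2 := Int.emod_nonneg c hL
    have h3 := Int.emod_lt_of_pos c (show (0 : ℤ) < 4 * K by omega)
    have h4 := sq0_inj hK' h0 h1 h2 h3 hc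
    push_cast
    have := Int.sub_emod c a (4 * K : ℤ)
    rw [h4, sub_self, Int.zero_emod] at this
    exact Int.dvd_of_emod_eq_zero this

end Crest.Agent.R143.SqPx503
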