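import Crest.Agent.R143.SpV_169
import Crest.Agent.R143.CorL_765
import Crest.Agent.R143.RingL_239
import Crest.Agent.R143.SqP_503

/-!
# R143 (helper765), block H: the net and the weight of the CLOSED ring (all tiles full)

Any fine path `P : FPath M W` (period `M`), any template `T` with the standard boxes.

* `rty`, `rpth P Hs b` : all gates, all tiles, all tiles of type `(turn, b)` (`true` = full tile,
  `false` = white link)
* `rreg` : region `Rall A B h W`; `gO P Hs b` : **the weight**; `gO_local`, `gO_fm`, `gO_le_fin`,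
  `gO_le_one`, `gO_meas`; `lint_gO` : `∫ gO = c^M (∫ A)^M`; `gO_ge` : uniform lower bound;
  `lint_gO_mul` : independence of a factor which is local off the tiles
* `IR`, `JR` : gates and tiles of the window `o + k - 1, o + k, o + k + 1`; `IR_disj`, `JR_disj`,
  `reg3_sub` : the three tiles are in its region
* **`cyc`** : 239's `Cyc` (range 4) for charges local on three tiles; `cycV` : for 169's `VT`
* **`linV`** : 239's `Lin` for `VT` with the field `Nn` : means `m conj(ge)`, displacement of the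
  conjugate gate centres, at most `3 t` other tiles (`t` turns)
* `rvW` : reversed path, `rv_fpath`; `sq_turns`, `rsq_turns` : the square has at most 4 turns
* **`ring_law`** : pointwise + mean bound
-/

set_option autoImplicit false

noncomputable section

namespace Crest.Agent.R143.RngNx765

open MeasureTheory Set
open Crest.ProbabilityR.Voronoi
open Crest.Agent.R143.PP0x831 Crest.Agent.R143.Poisx304 Crest.Agent.R143.Janx304
open Crest.Agent.R143.IndLocx279 Crest.Agent.R143.PWx978 Crest.Agent.R143.Tplx978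
open Crest.Agent.R143.TileRx228 Crest.Agent.R143.PthFx765 Crest.Agent.R143.CorNx765
open Crest.Agent.R143.TplIx204 Crest.Agent.R143.SpVx169 Crest.Agent.R143.SqPx503
open scoped ENNReal ComplexConjugate

variable {M : ℕ} {W : ℤ → ℤ × ℤ} {A B h ε : ℝ} {T : Tpl ε (Tn × Bool)}

/-! ### the net -/

/-- types of the closed ring: all tiles full (`b = true`) or all tiles white (`b = false`) -/
def rty (M : ℕ) (W : ℤ → ℤ × ℤ) (b : Bool) (k : ZMod M) : Tn × Bool := (tn W (zc k), b)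

theorem rty_typ (b : Bool) : Typ W Prod.fst (rty M W b) := fun _ => rfl

theorem rty_cast (P : FPath M W) (b : Bool) (a : ℤ) : rty M W b (a : ZMod M) = (tn W a, b) := by
  unfold rty
  rw [tn_dvd P (zc_dvd a)]

/-- **the closed ring** -/
def rpth (P : FPath M W) (Hs : Std T A B h Prod.fst) (b : Bool) : Pth T (ZMod M) (ZMod M) :=
  pth P Hs (rty M W b) (rty_typ b)

/-- the region of the whole net of a path, any types -/
theorem reg_gen [DecidableEq (ZMod M)] [Fintype (ZMod M)] (P : FPath M W)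
    (Hs : Std T A B h Prod.fst) {ty : ZMod M → Tn × Bool} (hty : Typ W Prod.fst ty) :
    (pth P Hs ty hty).net.reg Finset.univ Finset.univ = Rall A B h W := by
  ext s
  unfold Net.reg Rall
  simp only [Finset.mem_univ, iUnion_true, mem_union, mem_iUnion]
  constructor
  · rintro (⟨k, hk⟩ | ⟨k, hk⟩)
    · have h1 := net_B P Hs hty (zc k)
      rw [zc_cast] at h1
      have h2 : s ∈ GB A B h W (zc k) := by
        rw [← h1]
        exact hk
      exact ⟨zc k, GB_sub P Hs.hA Hs.hB _ h2⟩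
    · have h1 := net_C P Hs hty (zc k)
      rw [zc_cast] at h1
      have h2 : s ∈ TB A B h W (zc k) := by
        rw [← h1]
        exact hk
      exact ⟨zc k, h2.1⟩
  · rintro ⟨a, ha⟩
    by_cases h1 : s ∈ GB A B h W a
    · left
      refine ⟨(a : ZMod M), ?_⟩
      have := net_B P Hs hty a
      rw [← this] at h1
      exact h1
    by_cases h2 : s ∈ GB A B h W (a + 1)
    · left
      refine ⟨((a + 1 : ℤ) : ZMod M), ?_⟩
      have := net_B P Hs hty (a + 1)
      rw [← this] at h2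
      exact h2
    · right
      refine ⟨(a : ZMod M), ?_⟩
      have h3 : s ∈ TB A B h W a := ⟨ha, fun h3 => h3.elim h1 h2⟩
      have := net_C P Hs hty a
      rw [← this] at h3
      exact h3

theorem rreg [DecidableEq (ZMod M)] [Fintype (ZMod M)] (P : FPath M W)
    (Hs : Std T A B h Prod.fst) (b : Bool) :
    (rpth P Hs b).net.reg Finset.univ Finset.univ = Rall A B h W := reg_gen P Hs (rty_typ b)

/-! ### the weight -/

section weight

variable (P : FPath M W) (Hs : Std T A B h Prod.fst) (b : Bool) [Fintype (ZMod M)]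

/-- **the weight of the closed ring** -/
def gO (P : FPath M W) (Hs : Std T A B h Prod.fst) (b : Bool) : Cf → ℝ≥0∞ :=
  (rpth P Hs b).net.gw Finset.univ Finset.univ

theorem hNr (k : ZMod M) (_ : k ∈ (Finset.univ : Finset (ZMod M))) :
    (rpth P Hs b).net.N k ⊆ Finset.univ := Finset.subset_univ _

theorem gO_local : LocalOn (Rall A B h W) (gO P Hs b) := by
  rw [← rreg P Hs b]
  exact Net.gw_local _ (hNr P Hs b)

theorem gO_fm : FinMeas (gO P Hs b) := Net.gw_meas _ _ _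

theorem gO_le {S : Cf} (hS : S.Finite) : gO P Hs b S ≤
    (∏ k, (rpth P Hs b).net.a k S) * ∏ k, (rpth P Hs b).net.e k S :=
  Net.gw_le_fin' _ (hNr P Hs b) hS

theorem gO_le_fin {S : Cf} (hS : S.Finite) : gO P Hs b S ≤ 1 :=
  (Net.gw_le_fin _ (hNr P Hs b) hS).trans
    (Finset.prod_le_one' fun k _ => (rpth P Hs b).net.a1 k S)

theorem gO_le_one (ω : Sample) : gO P Hs b (cfg ε ω) ≤ 1 := Net.gw_le_one _ (hNr P Hs b) ω

theorem gO_meas : Measurable fun ω => gO P Hs b (cfg ε ω) :=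
  meas_fun T.eps (Net.reg_meas (rpth P Hs b).net Finset.univ Finset.univ) (Net.reg_bdd _ _ _)
    (Net.gw_local _ (hNr P Hs b)) (Net.gw_meas _ _ _)

theorem lint_gO : ∫⁻ ω, gO P Hs b (cfg ε ω) ∂sampleLaw =
    T.c ^ M * (∫⁻ ω, T.A (cfg ε ω) ∂sampleLaw) ^ M := by
  have h1 := Win.piece_mass (P := rpth P Hs b) (I := Finset.univ) (J := Finset.univ)
    fun _ _ => ⟨Finset.mem_univ _, Finset.mem_univ _⟩
  have h2 : (Finset.univ : Finset (ZMod M)).card = M := by
    rw [Finset.card_univ, ZMod.card]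
  rw [h2] at h1
  exact h1

theorem lint_gO_ne (hA0 : ∫⁻ ω, T.A (cfg ε ω) ∂sampleLaw ≠ 0) :
    ∫⁻ ω, gO P Hs b (cfg ε ω) ∂sampleLaw ≠ 0 :=
  Win.piece_ne_zero (fun _ _ => ⟨Finset.mem_univ _, Finset.mem_univ _⟩) hA0

/-- **uniform lower bound** -/
theorem gO_ge {cc ca : ℝ≥0∞} (h1 : cc ≤ T.c) (h2 : ca ≤ ∫⁻ ω, T.A (cfg ε ω) ∂sampleLaw) :
    cc ^ M * ca ^ M ≤ ∫⁻ ω, gO P Hs b (cfg ε ω) ∂sampleLaw := by
  rw [lint_gO]
  gcongr

theorem mass_gO : RingLx239.mass (rpth P Hs b).net Finset.univ Finset.univ =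
    ∫⁻ ω, gO P Hs b (cfg ε ω) ∂sampleLaw := rfl

/-- **a factor which is local off the tiles is independent of the weight** -/
theorem lint_gO_mul {D : Set ℂ} (hD : MeasurableSet D) (hDb : Bornology.IsBounded D)
    (hd : Disjoint (Rall A B h W) D) {F : Cf → ℝ≥0∞} (hF : LocalOn D F) (hFm : FinMeas F) :
    ∫⁻ ω, gO P Hs b (cfg ε ω) * F (cfg ε ω) ∂sampleLaw =
      (∫⁻ ω, gO P Hs b (cfg ε ω) ∂sampleLaw) * ∫⁻ ω, F (cfg ε ω) ∂sampleLaw := by
  have h1 : Disjoint ((rpth P Hs b).net.reg Finset.univ Finset.univ) D := by rwa [rreg P Hs b]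
  have hi := indepFun T.eps ((rpth P Hs b).net.reg_meas Finset.univ Finset.univ)
    ((rpth P Hs b).net.reg_bdd Finset.univ Finset.univ) hD hDb h1
    (Net.gw_local _ (hNr P Hs b)) hF (Net.gw_meas _ _ _) hFm
  exact ProbabilityTheory.lintegral_mul_eq_lintegral_mul_lintegral_of_indepFun (gO_meas P Hs b)
    (meas_fun T.eps hD hDb hF hFm) hi

/-- the real weight -/
def rR (P : FPath M W) (Hs : Std T A B h Prod.fst) (b : Bool) (ω : Sample) : ℝ :=
  (gO P Hs b (cfg ε ω)).toReal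

theorem rR_nonneg (ω : Sample) : 0 ≤ rR P Hs b ω := ENNReal.toReal_nonneg

theorem rR_le (ω : Sample) : rR P Hs b ω ≤ 1 := by
  have h1 := ENNReal.toReal_mono ENNReal.one_ne_top (gO_le_one P Hs b ω)
  rwa [ENNReal.toReal_one] at h1

theorem rR_meas : Measurable (rR P Hs b) := (gO_meas P Hs b).ennreal_toReal

theorem rR_int : Integrable (rR P Hs b) sampleLaw := by
  have : IsProbabilityMeasure sampleLaw := by unfold sampleLaw; infer_instance
  refine (integrable_const (1 : ℝ)).mono' (rR_meas P Hs b).aestronglyMeasurable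
    (Filter.Eventually.of_forall fun ω => ?_)
  rw [Real.norm_of_nonneg (rR_nonneg P Hs b ω)]
  exact rR_le P Hs b ω

theorem int_rR : ∫ ω, rR P Hs b ω ∂sampleLaw =
    T.c.toReal ^ M * (∫⁻ ω, T.A (cfg ε ω) ∂sampleLaw).toReal ^ M := by
  have h1 : ∫ ω, rR P Hs b ω ∂sampleLaw = (∫⁻ ω, gO P Hs b (cfg ε ω) ∂sampleLaw).toReal :=
    integral_toReal (gO_meas P Hs b).aemeasurable
      (Filter.Eventually.of_forall fun ω => (gO_le_one P Hs b ω).trans_lt ENNReal.one_lt_top)
  rw [h1, lint_gO, ENNReal.toReal_mul, ENNReal.toReal_pow, ENNReal.toReal_pow]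

end weight

/-! ### windows of three tiles -/

/-- gates of the window of the tiles `o + k - 1, o + k, o + k + 1` -/
def IR (M : ℕ) (o : ℤ) (k : ℕ) : Finset (ZMod M) :=
  (Finset.range (3 + 1)).image fun j : ℕ => ((o + k - 1 + (j : ℤ) : ℤ) : ZMod M)

/-- tiles of the window -/
def JR (M : ℕ) (o : ℤ) (k : ℕ) : Finset (ZMod M) :=
  (Finset.range 3).image fun j : ℕ => ((o + k - 1 + (j : ℤ) : ℤ) : ZMod M)

/-- the window -/
def w3r (P : FPath M W) (Hs : Std T A B h Prod.fst) (b : Bool) (hM : Pr M 3) (a : ℤ) :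
    Win (rpth P Hs b) 3 fun j => (tn W (a + (j : ℤ)), b) :=
  win P Hs (rty_typ b) hM a fun _ _ => rty_cast P b _

theorem w3r_I (P : FPath M W) (Hs : Std T A B h Prod.fst) (b : Bool) (hM : Pr M 3) (o : ℤ) (k : ℕ) :
    (w3r P Hs b hM (o + k - 1)).I = IR M o k := rfl

theorem w3r_J (P : FPath M W) (Hs : Std T A B h Prod.fst) (b : Bool) (hM : Pr M 3) (o : ℤ) (k : ℕ) :
    (w3r P Hs b hM (o + k - 1)).J = JR M o k := rfl

theorem win_disj {o : ℤ} {k l : ℕ} (hkl : k + 4 ≤ l) (hl : l + 4 ≤ M + k) {i j : ℕ}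
    (hi : i < 4) (hj : j < 4) :
    ((o + k - 1 + (i : ℤ) : ℤ) : ZMod M) ≠ ((o + l - 1 + (j : ℤ) : ℤ) : ZMod M) := by
  intro he
  rw [ZMod.intCast_eq_intCast_iff_dvd_sub] at he
  have := Int.le_of_dvd (by omega) he
  omega

theorem IR_disj {o : ℤ} {k l : ℕ} (hkl : k + 4 ≤ l) (hl : l + 4 ≤ M + k) :
    Disjoint (IR M o k) (IR M o l) := by
  rw [Finset.disjoint_left]
  intro x hx hy
  obtain ⟨i, hi, rfl⟩ := Finset.mem_image.1 hx
  obtain ⟨j, hj, he⟩ := Finset.mem_image.1 hy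
  exact win_disj (o := o) hkl hl (Finset.mem_range.1 hi) (Finset.mem_range.1 hj) he.symm

theorem JR_disj {o : ℤ} {k l : ℕ} (hkl : k + 4 ≤ l) (hl : l + 4 ≤ M + k) :
    Disjoint (JR M o k) (JR M o l) := by
  rw [Finset.disjoint_left]
  intro x hx hy
  obtain ⟨i, hi, rfl⟩ := Finset.mem_image.1 hx
  obtain ⟨j, hj, he⟩ := Finset.mem_image.1 hy
  have h1 := Finset.mem_range.1 hi
  have h2 := Finset.mem_range.1 hj
  exact win_disj (o := o) hkl hl (by omega) (by omega) he.symm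

theorem reg_w3r (P : FPath M W) (Hs : Std T A B h Prod.fst) (b : Bool) (hM : Pr M 3) (o : ℤ) (k : ℕ) :
    (w3r P Hs b hM (o + k - 1)).reg = (rpth P Hs b).net.reg (IR M o k) (JR M o k) := rfl

/-- **the ring of 239**: charges which are local on three tiles have range 4 -/
theorem cyc [Fintype (ZMod M)] (P : FPath M W) (Hs : Std T A B h Prod.fst) (b : Bool)
    (hA0 : ∫⁻ ω, T.A (cfg ε ω) ∂sampleLaw ≠ 0) (o : ℤ) {V : ℕ → Cf → ℂ} {C : ℝ} (C0 : 0 ≤ C)
    (hV : ∀ k < M, LocalOn ((rpth P Hs b).net.reg (IR M o k) (JR M o k)) (V k))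
    (hVm : ∀ k < M, FinMeas (V k))
    (hC : ∀ k < M, ∫⁻ ω, gO P Hs b (cfg ε ω) * ENNReal.ofReal (‖V k (cfg ε ω)‖ ^ 2) ∂sampleLaw ≤
      ENNReal.ofReal C * ∫⁻ ω, gO P Hs b (cfg ε ω) ∂sampleLaw) :
    RingLx239.Cyc (rpth P Hs b).net Finset.univ Finset.univ M 4 C V (IR M o) (JR M o) where
  hN := hNr P Hs b
  h0 := lint_gO_ne P Hs b hA0
  hII _ _ := Finset.subset_univ _
  hJJ _ _ := Finset.subset_univ _
  hNN k _ j hj := by
    obtain ⟨i, hi, rfl⟩ := Finset.mem_image.1 hj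
    have h1 := Finset.mem_range.1 hi
    intro x hx
    have h2 : x ∈ ({((o + k - 1 + (i : ℤ) : ℤ) : ZMod M),
      ((o + k - 1 + (i : ℤ) : ℤ) : ZMod M) + 1} : Finset (ZMod M)) := hx
    rw [Finset.mem_insert, Finset.mem_singleton] at h2
    rcases h2 with rfl | rfl
    · exact Finset.mem_image.2 ⟨i, Finset.mem_range.2 (by omega), rfl⟩
    · refine Finset.mem_image.2 ⟨i + 1, Finset.mem_range.2 (by omega), ?_⟩
      push_cast
      ring
  hV := hV
  hVm := hVm
  hd k l hkl _ hl' := ⟨IR_disj hkl hl', JR_disj hkl hl'⟩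
  C0 := C0
  hC := hC

/-! ### the spatial charges -/

section spatial

variable {D : DT} (P : FPath M W) (Hs : Std T D.A' D.B' D.h Prod.fst) (b : Bool) (r : ℝ)

/-- **169's spatial charge of the tile `o + k`** -/
def SV (D : DT) (P : FPath M W) (r : ℝ) (o : ℤ) (k : ℕ) : Cf → ℂ :=
  VT D P r Mass1x302.Nn (o + k - 1)

theorem SV_fm (o : ℤ) (k : ℕ) : FinMeas (SV D P r o k) :=
  VT_fm D P r WLocx713.meas_Nn _

theorem SV_local (hM : Pr M 3) (o : ℤ) (k : ℕ) :
    LocalOn ((rpth P Hs b).net.reg (IR M o k) (JR M o k)) (SV D P r o k) :=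
  VT_local D P r Hs (rty_typ b) hM (o + k - 1) (τ := fun j => (tn W (o + k - 1 + (j : ℤ)), b))
    (fun _ _ => rty_cast P b _) Mass1x302.Nn

/-- the ring of the spatial charges -/
theorem cycV [Fintype (ZMod M)] (hM : Pr M 3) (hA0 : ∫⁻ ω, T.A (cfg ε ω) ∂sampleLaw ≠ 0) (o : ℤ)
    {C : ℝ} (C0 : 0 ≤ C)
    (hC : ∀ k < M, ∫⁻ ω, gO P Hs b (cfg ε ω) *
      ENNReal.ofReal (‖SV D P r o k (cfg ε ω)‖ ^ 2) ∂sampleLaw ≤
      ENNReal.ofReal C * ∫⁻ ω, gO P Hs b (cfg ε ω) ∂sampleLaw) :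
    RingLx239.Cyc (rpth P Hs b).net Finset.univ Finset.univ M 4 C (SV D P r o) (IR M o) (JR M o) :=
  cyc P Hs b hA0 o C0 (fun k _ => SV_local P Hs b r hM o k) (fun k _ => SV_fm P r o k) hC

/-- the tiles `o + k - 1, o + k, o + k + 1` are straight -/
def Str (W : ℤ → ℤ × ℤ) (o : ℤ) (k : ℕ) : Prop :=
  tn W (o + k - 1) = Tn.S ∧ tn W (o + k) = Tn.S ∧ tn W (o + k + 1) = Tn.S

/-- **the number** of the template: mean of the charge of the middle tile of three straight tiles -/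
def mS (D : DT) (Hs : Std T D.A' D.B' D.h Prod.fst) (b : Bool) (r : ℝ) : ℂ :=
  (win line Hs (line_typ (t := ((Tn.S, b) : Tn × Bool)) rfl) (n := 3)
    (τ := fun _ => ((Tn.S, b) : Tn × Bool)) (Or.inl rfl) 0 (fun _ _ => rfl)).m
      (VT D line r Mass1x302.Nn 0)

theorem Str.ty {o : ℤ} {k : ℕ} (P : FPath M W) (b : Bool) (hs : Str W o k) (j : ℕ) (hj : j < 3) :
    rty M W b ((o + k - 1 + (j : ℤ) : ℤ) : ZMod M) = (Tn.S, b) := by
  obtain ⟨h1, h2, h3⟩ := hs
  rw [rty_cast P]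
  interval_cases j
  · rw [Nat.cast_zero, add_zero, h1]
  · rw [show o + (k : ℤ) - 1 + ((1 : ℕ) : ℤ) = o + k by push_cast; ring, h2]
  · rw [show o + (k : ℤ) - 1 + ((2 : ℕ) : ℤ) = o + k + 1 by push_cast; ring, h3]

theorem Str.ge {o : ℤ} {k : ℕ} (P : FPath M W) (hs : Str W o k) :
    ge W (o + k - 1) = ge W (o + k) := by
  have h1 := ge_succ P (o + k - 1)
  rw [hs.1, rot, mul_one, sub_add_cancel] at h1
  exact h1.symm

/-- mean of a straight tile with straight neighbours under the weight -/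
theorem av_str [Fintype (ZMod M)] (hM : Pr M 3) (hA0 : ∫⁻ ω, T.A (cfg ε ω) ∂sampleLaw ≠ 0)
    {o : ℤ} {k : ℕ} (hs : Str W o k) :
    RingLx239.Chain.av (rpth P Hs b).net Finset.univ Finset.univ (SV D P r o k) =
      mS D Hs b r * conj (TileRx228.ge W (o + k)) := by
  have h1 := VT_mean_Nn D r Hs P (t := ((Tn.S, b) : Tn × Bool)) rfl (rty_typ b) hM (o + k - 1)
    (hs.ty P b) hA0 (I := Finset.univ) (J := Finset.univ) (Finset.subset_univ _)
    (Finset.subset_univ _) (fun _ _ => ⟨Finset.mem_univ _, Finset.mem_univ _⟩)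
  rw [hs.ge P] at h1
  unfold RingLx239.Chain.av
  rw [RingLx239.int_wm _ (hNr P Hs b)]
  have h2 : (((RingLx239.mass (rpth P Hs b).net Finset.univ Finset.univ).toReal : ℝ) : ℂ) ≠ 0 := by
    rw [Complex.ofReal_ne_zero]
    exact ENNReal.toReal_ne_zero.2 ⟨lint_gO_ne P Hs b hA0, RingLx239.mass_ne_top _ (hNr P Hs b)⟩
  have h3 : ∫ ω, ((rpth P Hs b).net.gw Finset.univ Finset.univ (cfg ε ω)).toReal •
      SV D P r o k (cfg ε ω) ∂sampleLaw =
      ((RingLx239.mass (rpth P Hs b).net Finset.univ Finset.univ).toReal : ℂ) *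
        (conj (TileRx228.ge W (o + k)) * mS D Hs b r) := by
    simp only [Complex.real_smul]
    exact h1
  rw [h3, ← mul_assoc, inv_mul_cancel₀ h2, one_mul, mul_comm]

end spatial

/-! ### displacements -/

/-- displacement of the gate centres -/
theorem gz_sub (h : ℝ) (W : ℤ → ℤ × ℤ) (a : ℤ) :
    gz h W (a + 1) - gz h W a = (h / 2 : ℝ) * (ge W a + ge W (a + 1)) := by
  unfold gz ge
  rw [LayQx811.cz_sub, LayQx811.cz_sub, show a + 1 - 1 = a by ring]
  push_cast
  ring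

theorem gz_str (h : ℝ) {a : ℤ} (P : FPath M W) (ha : tn W a = Tn.S) :
    gz h W (a + 1) - gz h W a = h * ge W a := by
  rw [gz_sub, ge_succ P, ha, rot, mul_one]
  push_cast
  ring

theorem gz_le {h : ℝ} (hh : 0 < h) (P : FPath M W) (a : ℤ) :
    ‖gz h W (a + 1) - gz h W a‖ ≤ 2 * h := by
  rw [gz_sub, norm_mul, Complex.norm_real, Real.norm_eq_abs, abs_of_pos (by linarith)]
  have h1 := norm_add_le (ge W a) (ge W (a + 1))
  rw [norm_ge P, norm_ge P] at h1
  nlinarith

/-! ### few turns -/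

open scoped Classical in
/-- the turns of a period -/
def Trn (M : ℕ) [Fintype (ZMod M)] (W : ℤ → ℤ × ℤ) : Finset (ZMod M) :=
  Finset.univ.filter fun k : ZMod M => tn W (zc k) ≠ Tn.S

theorem mem_Trn [Fintype (ZMod M)] (P : FPath M W) {a : ℤ} :
    (a : ZMod M) ∈ Trn M W ↔ tn W a ≠ Tn.S := by
  unfold Trn
  rw [Finset.mem_filter, tn_dvd P (zc_dvd a)]
  exact ⟨fun h => h.2, fun h => ⟨Finset.mem_univ _, h⟩⟩

open scoped Classical in
/-- **at most `3 t` tiles which are not the middle of three straight tiles** -/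
theorem cor_card [Fintype (ZMod M)] (P : FPath M W) (o : ℤ) {t : ℕ} (ht : (Trn M W).card ≤ t) :
    ((Finset.range M).filter fun k => ¬ Str W o k).card ≤ 3 * t := by
  have key : ∀ c : ℤ, ((Finset.range M).filter fun k : ℕ => tn W (c + k) ≠ Tn.S).card ≤ t := by
    intro c
    refine le_trans (Finset.card_le_card_of_injOn
      (fun k : ℕ => ((c + (k : ℤ) : ℤ) : ZMod M)) ?_ ?_) ht
    · intro k hk
      exact Finset.mem_coe.2 ((mem_Trn P).2 (Finset.mem_filter.1 (Finset.mem_coe.1 hk)).2)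
    · intro k hk l hl he
      exact idx_inj (Finset.mem_range.1 (Finset.mem_filter.1 (Finset.mem_coe.1 hk)).1)
        (Finset.mem_range.1 (Finset.mem_filter.1 (Finset.mem_coe.1 hl)).1) he
  have h1 : ((Finset.range M).filter fun k => ¬ Str W o k) ⊆
      ((Finset.range M).filter fun k : ℕ => tn W (o - 1 + k) ≠ Tn.S) ∪
      (((Finset.range M).filter fun k : ℕ => tn W (o + k) ≠ Tn.S) ∪
      ((Finset.range M).filter fun k : ℕ => tn W (o + 1 + k) ≠ Tn.S)) := by
    intro k hk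
    obtain ⟨hk1, hk2⟩ := Finset.mem_filter.1 hk
    unfold Str at hk2
    rw [show o + (k : ℤ) - 1 = o - 1 + k by ring, show o + (k : ℤ) + 1 = o + 1 + k by ring] at hk2
    simp only [Finset.mem_union, Finset.mem_filter]
    by_cases c1 : tn W (o - 1 + k) = Tn.S
    · by_cases c2 : tn W (o + k) = Tn.S
      · exact Or.inr (Or.inr ⟨hk1, fun c3 => hk2 ⟨c1, c2, c3⟩⟩)
      · exact Or.inr (Or.inl ⟨hk1, c2⟩)
    · exact Or.inl ⟨hk1, c1⟩
  have h2 := Finset.card_le_card h1
  have h3 := Finset.card_union_le ((Finset.range M).filter fun k : ℕ => tn W (o - 1 + k) ≠ Tn.S)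
    (((Finset.range M).filter fun k : ℕ => tn W (o + k) ≠ Tn.S) ∪
      ((Finset.range M).filter fun k : ℕ => tn W (o + 1 + k) ≠ Tn.S))
  have h4 := Finset.card_union_le ((Finset.range M).filter fun k : ℕ => tn W (o + k) ≠ Tn.S)
      ((Finset.range M).filter fun k : ℕ => tn W (o + 1 + k) ≠ Tn.S)
  have k1 := key (o - 1)
  have k2 := key o
  have k3 := key (o + 1)
  omega

/-- **239's `Lin`** for the spatial charges of the ring -/
theorem linV {D : DT} [Fintype (ZMod M)] (P : FPath M W) (Hs : Std T D.A' D.B' D.h Prod.fst)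
    (b : Bool) (r : ℝ) (hM : Pr M 3) (hA0 : ∫⁻ ω, T.A (cfg ε ω) ∂sampleLaw ≠ 0) (o : ℤ) {t : ℕ}
    (ht : (Trn M W).card ≤ t) (htM : 3 * t < M) :
    RingLx239.Lin (rpth P Hs b).net Finset.univ Finset.univ M (3 * t) (SV D P r o) (Str W o)
      (mS D Hs b r) D.h (fun k => conj (ge W (o + k))) (fun k => conj (gz D.h W (o + k))) where
  hh := by linarith [Hs.hA, Hs.hAB, Hs.hh]
  mean k _ hs := av_str P Hs b r hM hA0 hs
  disp k _ hs := by
    rw [← map_sub, show o + ((k + 1 : ℕ) : ℤ) = o + k + 1 by push_cast; ring, gz_str _ P hs.2.1,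
      map_mul, Complex.conj_ofReal]
  dn k _ _ := by rw [RCLike.norm_conj, norm_ge P]
  disp' k _ := by
    rw [← map_sub, RCLike.norm_conj, show o + ((k + 1 : ℕ) : ℤ) = o + k + 1 by push_cast; ring]
    exact gz_le (by linarith [Hs.hA, Hs.hAB, Hs.hh]) P _
  cor := cor_card P o ht
  ex := by
    classical
    by_contra h1
    push Not at h1
    have h2 := cor_card P o ht
    rw [Finset.filter_true_of_mem fun k hk => h1 k (Finset.mem_range.1 hk),
      Finset.card_range] at h2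
    omega

/-- the explicit dominating function of the ring -/
def BO {D : DT} [Fintype (ZMod M)] (P : FPath M W) (Hs : Std T D.A' D.B' D.h Prod.fst)
    (b : Bool) (r : ℝ) (o : ℤ) (t : ℕ) (C : ℝ) : Cf → ℝ :=
  RingLx239.B3 (rpth P Hs b).net Finset.univ Finset.univ M 4 (3 * t) C (SV D P r o)

/-- **RING LAW**: the sums of the spatial charges are linear in the gate centres, all `i ≤ j ≤ M` at
once -/
theorem ring_law {D : DT} [Fintype (ZMod M)] (P : FPath M W)
    (Hs : Std T D.A' D.B' D.h Prod.fst) (b : Bool) (r : ℝ)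
    (hA0 : ∫⁻ ω, T.A (cfg ε ω) ∂sampleLaw ≠ 0) (o : ℤ) {t : ℕ}
    (ht : (Trn M W).card ≤ t) (htM : 3 * t < M) (hM : 10 ≤ M) {C : ℝ} (C0 : 0 ≤ C)
    (hC : ∀ k < M, ∫⁻ ω, gO P Hs b (cfg ε ω) *
      ENNReal.ofReal (‖SV D P r o k (cfg ε ω)‖ ^ 2) ∂sampleLaw ≤
      ENNReal.ofReal C * ∫⁻ ω, gO P Hs b (cfg ε ω) ∂sampleLaw) :
    (∀ X : Cf, 0 ≤ BO P Hs b r o t C X) ∧
    (∀ (X : Cf) (i j : ℕ), i ≤ j → j ≤ M → ‖∑ k ∈ Finset.Ico i j, SV D P r o k X -
        mS D Hs b r / D.h * conj (gz D.h W (o + j) - gz D.h W (o + i))‖ ^ 2 ≤ BO P Hs b r o t C X) ∧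
    ∫⁻ ω, gO P Hs b (cfg ε ω) * ENNReal.ofReal (BO P Hs b r o t C (cfg ε ω)) ∂sampleLaw ≤
      ENNReal.ofReal ((288 * 16 * (M * Real.sqrt M) + 162 * t ^ 2) * C) *
        ∫⁻ ω, gO P Hs b (cfg ε ω) ∂sampleLaw ∧
    FinMeas (BO P Hs b r o t C) ∧ LocalOn (Rall D.A' D.B' D.h W) (BO P Hs b r o t C) := by
  have hp : Pr M 3 := Or.inr (by omega)
  have H := cycV P Hs b r hp hA0 o C0 hC
  have L := linV P Hs b r hp hA0 o ht htM
  refine ⟨fun X => RingLx239.b3_nonneg C0 X, fun X i j hij hj => ?_, ?_, ?_, ?_⟩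
  · have h1 := RingLx239.lin_le H (by norm_num) (by omega) L X hij hj
    rw [map_sub]
    exact h1
  · have h1 := RingLx239.lin_int H (by norm_num) (by omega) (3 * t)
    have e : (288 * ((4 : ℕ) : ℝ) ^ 2 * (M * Real.sqrt M) + 18 * ((3 * t : ℕ) : ℝ) ^ 2) * C =
        (288 * 16 * (M * Real.sqrt M) + 162 * t ^ 2) * C := by
      push_cast
      ring
    rw [e] at h1
    exact h1
  · exact RingLx239.b3_fm fun k _ => SV_fm P r o k
  · refine RingLx239.b3_local fun k hk => ?_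
    rw [← rreg P Hs b]
    exact LocalOn.mono (Net.reg_mono _ (Finset.subset_univ _) (Finset.subset_univ _))
      (SV_local P Hs b r hp o k)

/-! ### reversed path -/

/-- the reversed path -/
def rvW (W : ℤ → ℤ × ℤ) (a : ℤ) : ℤ × ℤ := W (-a)

theorem U4_neg {u v : ℤ × ℤ} (h : U4 (u - v)) : U4 (v - u) := by
  obtain ⟨u1, u2⟩ := u
  obtain ⟨v1, v2⟩ := v
  unfold U4 at h ⊢
  simp only [Prod.mk_sub_mk, Prod.mk.injEq] at h ⊢
  omega

theorem rv_fpath (P : FPath M W) : FPath M (rvW W) where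
  per a := by
    unfold rvW
    have h1 := P.per (-(a + M))
    rw [show -(a + (M : ℤ)) + M = -a by ring] at h1
    exact h1.symm
  step a := by
    unfold rvW
    have h1 := P.step (-(a + 1))
    rw [show -(a + 1) + 1 = -a by ring] at h1
    exact U4_neg h1
  turn a := by
    unfold rvW
    have h1 := P.turn (-(a + 2))
    rw [show -(a + 2) + 2 = -a by ring] at h1
    exact h1.symm
  simple a b hab := by
    unfold rvW at hab
    have h1 := P.simple _ _ hab
    rw [show -b - -a = -(b - a) by ring] at h1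
    exact (dvd_neg).1 h1

theorem rv_tn (P : FPath M W) (a : ℤ) : tn (rvW W) a = Tn.S ↔ tn W (-a) = Tn.S := by
  rw [tn_eq_S (rv_fpath P), tn_eq_S P]
  unfold rvW
  rw [show -(a + 1) = -a - 1 by ring, show -(a - 1) = -a + 1 by ring]
  constructor
  · intro h1
    rw [← neg_sub, ← h1, neg_sub]
  · intro h1
    rw [← neg_sub, ← h1, neg_sub]

theorem rv_trn [Fintype (ZMod M)] (P : FPath M W) : (Trn M (rvW W)).card ≤ (Trn M W).card := by
  refine Finset.card_le_card_of_injOn (fun k => -k) (fun k hk => ?_) (fun _ _ _ _ h => neg_injective h)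
  rw [Finset.mem_coe] at hk ⊢
  have h1 : ((zc k : ℤ) : ZMod M) ∈ Trn M (rvW W) := by rwa [zc_cast]
  rw [mem_Trn (rv_fpath P), Ne, rv_tn P] at h1
  have h2 := (mem_Trn P).2 h1
  have h3 : ((-zc k : ℤ) : ZMod M) = -k := by
    rw [Int.cast_neg, zc_cast]
  rwa [h3] at h2

/-! ### the square -/

theorem sq_str {K : ℕ} (hK : 2 ≤ K) {a : ℤ} (ha : ¬ (K : ℤ) ∣ a) : tn (sqW K) a = Tn.S := by
  rw [tn_eq_S (sq_fpath (by omega))]
  have hK' : (2 : ℤ) ≤ K := by exact_mod_cast hK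
  have h0 := Int.emod_nonneg a (show (4 * K : ℤ) ≠ 0 by omega)
  have h1 := Int.emod_lt_of_pos a (show (0 : ℤ) < 4 * K by omega)
  set q := a % (4 * (K : ℤ)) with hq
  have h2 : ∀ c : ℤ, q ≠ K * c := by
    intro c hc
    apply ha
    have h3 := Int.emod_add_mul_ediv a (4 * K)
    rw [← hq, hc] at h3
    exact ⟨c + 4 * (a / (4 * K)), by linarith⟩
  have n0 : q ≠ 0 := by simpa using h2 0
  have n1 : q ≠ K := by simpa using h2 1
  have n2 : q ≠ 2 * K := by have := h2 2; intro h; apply this; linarith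
  have n3 : q ≠ 3 * K := by have := h2 3; intro h; apply this; linarith
  have e1 : (a - 1) % (4 * K) = q - 1 := by
    have h3 := next_emod (L := 4 * K) (a := a - 1) (by omega)
    rw [sub_add_cancel, ← hq] at h3
    split_ifs at h3 <;> omega
  have e2 : (a + 1) % (4 * K) = if q + 1 = 4 * K then 0 else q + 1 := by
    have h3 := next_emod (L := 4 * K) (a := a) (by omega)
    rwa [← hq] at h3
  unfold sqW
  rw [e1, e2, ← hq]
  unfold sq0
  by_cases hc : q + 1 = 4 * K
  · rw [if_pos hc]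
    split_ifs <;> simp only [Prod.mk_sub_mk, Prod.mk.injEq, true_and, and_true] <;> omega
  · rw [if_neg hc]
    split_ifs <;> simp only [Prod.mk_sub_mk, Prod.mk.injEq, true_and, and_true] <;> omega

/-- **the square has at most 4 turns** -/
theorem sq_turns {K : ℕ} (hK : 2 ≤ K) [Fintype (ZMod (4 * K))] :
    (Trn (4 * K) (sqW K)).card ≤ 4 := by
  classical
  have h1 : Trn (4 * K) (sqW K) ⊆ (Finset.range 4).image fun j : ℕ =>
      (((K : ℤ) * (j : ℤ) : ℤ) : ZMod (4 * K)) := by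
    intro k hk
    have h2 : ((zc k : ℤ) : ZMod (4 * K)) ∈ Trn (4 * K) (sqW K) := by rwa [zc_cast]
    rw [mem_Trn (sq_fpath (by omega))] at h2
    have h3 : (K : ℤ) ∣ zc k := by
      by_contra h4
      exact h2 (sq_str hK h4)
    obtain ⟨c, hc⟩ := h3
    refine Finset.mem_image.2 ⟨(c % 4).toNat, Finset.mem_range.2 (by omega), ?_⟩
    have h5 : ((zc k : ℤ) : ZMod (4 * K)) = k := zc_cast k
    rw [← h5]
    refine cast_dvd ?_
    rw [Int.toNat_of_nonneg (by omega), hc]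
    refine ⟨-(c / 4), ?_⟩
    have h6 := Int.emod_add_mul_ediv c 4
    push_cast
    linear_combination (K : ℤ) * h6
  have h2 := Finset.card_le_card h1
  have h3 : ((Finset.range 4).image fun j : ℕ =>
      (((K : ℤ) * (j : ℤ) : ℤ) : ZMod (4 * K))).card ≤ 4 := by
    have := Finset.card_image_le (s := Finset.range 4) (f := fun j : ℕ =>
      (((K : ℤ) * (j : ℤ) : ℤ) : ZMod (4 * K)))
    rwa [Finset.card_range] at this
  omega

/-- the reversed (counterclockwise) square -/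
theorem rsq_turns {K : ℕ} (hK : 2 ≤ K) [Fintype (ZMod (4 * K))] :
    (Trn (4 * K) (rvW (sqW K))).card ≤ 4 :=
  (rv_trn (sq_fpath (by omega))).trans (sq_turns hK)

end Crest.Agent.R143.RngNx765
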