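import Crest.Agent.R143.Coarse_166
import Crest.Agent.R143.Frame9_395

/-!
# Row 143 (S0194): telescoping without genuine cells, end points of the root block (helper166)

* `nx_rel'` : the first return is in the same block, for EVERY cell (giants allowed)
* `nx_exists'` : the last departure
* `telescope'` : telescoping along a block, every cell allowed
* `giIn`, `giOut` : the gaps of the block of `g₀` next to `g₀`
* `ends` : `∑_{k ∈ blk g₀, k ≠ g₀} (z old − z new)` in the coarse net, `z` a function of the fine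
  cells, = difference of the two end points
* `wt_one`, `wt_two`, `dis_sum` : **the spin sums are the mean end points** (848)
-/

set_option autoImplicit false

noncomputable section

open scoped Classical

namespace Crest.Agent.R143.Coarse2x166

open Crest.Agent.R143.Frame1x395 Crest.Agent.R143.Frame2x395 Crest.Agent.R143.Frame3x395
  Crest.Agent.R143.Frame4x395 Crest.Agent.R143.Frame8x395 Crest.Agent.R143.Frame9x395
  Crest.Agent.R143.NonXx592 Crest.Agent.R143.Coarsex166

variable {D C C' : Type} {M : CMap D C} {x : D → ZMod 2}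

/-- the time of a gap on the loop of another gap -/
theorem time_of_av {k g : D} {N : ℕ} (hNpos : 0 < N)
    (hN : P M x (out M k) N = out M k) {c : C} (H : Av M x c (out M k) (M.rho g)) :
    ∃ b, b < N ∧ M.rho g = P M x (out M k) b := by
  obtain ⟨n, h1, -⟩ := H
  refine ⟨n % N, Nat.mod_lt _ hNpos, ?_⟩
  rw [← h1]
  conv_lhs => rw [← Nat.mod_add_div n N]
  show P M x (out M k) (n % N + N * (n / N)) = _
  rw [P_add]
  congr 1
  have : ∀ q, P M x (out M k) (N * q) = out M k := by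
    intro q
    induction q with
    | zero => rfl
    | succ q ih => rw [Nat.mul_succ, P_add, hN, ih]
  exact this _

/-- **the first return is in the same block** (no hypothesis on the cell) -/
theorem nx_rel' [Finite D] (hx : IsC M ∅ x) {k g : D} (hk : Gp M x k) (hg : Gp M x g)
    (H : Nx M x k g) : Rel M x k g := by
  by_cases hkg : k = g
  · subst hkg
    exact fun _ => Or.inl rfl
  obtain ⟨N, hNpos, hN, hinj, hlast⟩ := exists_period hx hk
  obtain ⟨b, hbN, hgb⟩ := time_of_av hNpos hN H.2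
  have hb1 : b + 1 < N := by
    rcases Nat.lt_or_ge (b + 1) N with h1 | h1
    · exact h1
    · exfalso
      have : b = N - 1 := by omega
      rw [this, ← hlast] at hgb
      exact hkg (rho_inj M hgb).symm
  rw [rel_loop hx hk hN hinj hlast hb1 hg hgb]
  -- the arc `0 .. b` avoids the cell of `rho k`
  have hav : ∀ u, u ≤ b → M.cell (P M x (out M k) u) ≠ M.cell (M.rho k) := by
    have h2 := (av_bwd hx hN hinj (a := b) (b := N - 1) (by omega) (by omega) hk hgb hlast _).1 H.2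
    exact h2.2
  intro u hu v hv1 hv2 e
  -- cells: `out g` is at time `b + 1`, its cell is the cell of `rho k`
  have hcb : M.cell (P M x (out M k) (b + 1)) = M.cell (M.rho k) := by
    rw [← out_eq hx hg hgb, cell_out hx hg, H.1]
  have hcl : M.cell (P M x (out M k) (N - 1)) = M.cell (M.rho k) := by rw [← hlast]
  have hvb : v ≠ b + 1 := by
    rintro rfl
    rw [hcb] at e
    exact hav u hu e
  have hvl : v ≠ N - 1 := by
    rintro rfl
    rw [hcl] at e
    exact hav u hu e
  -- noncrossing from the time `b + 1`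
  have key := noncross hx (p := P M x (out M k) (b + 1)) (P_occ hx (hk.out hx) _)
    (k := v - (b + 1)) (j := N - 1 - (b + 1)) (l := N + u - (b + 1)) (by omega) (by omega)
    (by omega) ?_ ?_ ?_
  · rw [← P_add, show v - (b + 1) + (b + 1) = v by omega, hcb] at key
    rw [← e] at key
    exact hav u hu key
  · intro a c hac hc h1
    rw [← P_add, ← P_add] at h1
    -- both times are reduced modulo `N`
    rcases Nat.lt_or_ge (c + (b + 1)) N with h2 | h2
    · exact hinj _ _ (by omega) h2 h1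
    · have h3 : P M x (out M k) (c + (b + 1)) = P M x (out M k) (c + (b + 1) - N) := by
        conv_lhs => rw [show c + (b + 1) = (c + (b + 1) - N) + N by omega]
        exact P_per hN _
      rw [h3] at h1
      rcases Nat.lt_or_ge (a + (b + 1)) N with h4 | h4
      · exact hinj _ _ (show c + (b + 1) - N < a + (b + 1) by omega) h4 h1.symm
      · have h5 : P M x (out M k) (a + (b + 1)) = P M x (out M k) (a + (b + 1) - N) := by
          conv_lhs => rw [show a + (b + 1) = (a + (b + 1) - N) + N by omega]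
          exact P_per hN _
        rw [h5] at h1
        exact hinj _ _ (by omega) (by omega) h1
  · rw [← P_add, show N - 1 - (b + 1) + (b + 1) = N - 1 by omega, hcl, hcb]
  · rw [← P_add, ← P_add, show v - (b + 1) + (b + 1) = v by omega,
      show N + u - (b + 1) + (b + 1) = u + N by omega, P_per hN, e]

/-- the transition between two states with different left cells is a gap -/
theorem gap_of_ne (hx : IsC M ∅ x) {p : D} (hp : x p = 1)
    (hne : M.cell (stp M x p) ≠ M.cell p) :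
    ∃ g, Gp M x g ∧ M.rho g = p ∧ out M g = stp M x p := by
  rcases stp_cases hx hp (Set.notMem_empty _) with ⟨h1, h2, e⟩ | ⟨h1, h2, e⟩
  · refine ⟨M.rho (M.rho p), ⟨h2, by rw [M.rho3]; exact hp⟩, M.rho3 p, ?_⟩
    rw [e]
    unfold out
    rw [M.rho3]
  · exfalso
    apply hne
    rw [e, M.cell_iota _ (hx.lv h2), M.rho3]

/-- the last departure exists -/
theorem nx_exists' [Finite D] (hx : IsC M ∅ x) {g : D} (hg : Gp M x g)
    (hne : M.cell g ≠ M.cell (M.rho g)) : ∃ k, Gp M x k ∧ Nx M x k g := by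
  obtain ⟨N, hNpos, hN, hinj, hlast⟩ := exists_period hx hg
  set p := out M g with hpdef
  have hc0 : M.cell (P M x p 0) = M.cell g := cell_out hx hg
  -- the last time with the cell of `g`
  have hfin : ∃ n, n ≤ N - 1 ∧ M.cell (P M x p (N - 1 - n)) = M.cell g :=
    ⟨N - 1, le_rfl, by rw [Nat.sub_self]; exact hc0⟩
  have hn := Nat.find_spec hfin
  have hmin : ∀ m, m < Nat.find hfin → M.cell (P M x p (N - 1 - m)) ≠ M.cell g := by
    intro m hm e
    exact Nat.find_min hfin hm ⟨by omega, e⟩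
  have hn0 : Nat.find hfin ≠ 0 := by
    intro h0
    have h1 := hn.2
    rw [h0, Nat.sub_zero, ← hlast] at h1
    exact hne h1.symm
  have hnext : M.cell (stp M x (P M x p (N - 1 - Nat.find hfin))) ≠
      M.cell (P M x p (N - 1 - Nat.find hfin)) := by
    rw [← P_succ, show N - 1 - Nat.find hfin + 1 = N - 1 - (Nat.find hfin - 1) by omega, hn.2]
    exact hmin _ (by omega)
  obtain ⟨k, hk, hk1, hk2⟩ := gap_of_ne hx (P_occ hx (hg.out hx) _) hnext
  refine ⟨k, hk, ?_, Nat.find hfin - 1, ?_, ?_⟩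
  · rw [hk1, hn.2]
  · show P M x (out M k) (Nat.find hfin - 1) = M.rho g
    rw [hk2, ← P_succ, ← P_add, hlast]
    congr 1
    omega
  · intro j hj
    show M.cell (P M x (out M k) j) ≠ M.cell (M.rho k)
    rw [hk2, ← P_succ, ← P_add, hk1, hn.2,
      show j + (N - 1 - Nat.find hfin + 1) = N - 1 - (Nat.find hfin - 1 - j) by omega]
    exact hmin _ (by omega)

/-- a gap inside a cell is alone in its block -/
theorem blk_single [Fintype D] (hx : IsC M ∅ x) {g : D} (hg : Gp M x g)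
    (he : M.cell g = M.cell (M.rho g)) : blk M x g = {g} := by
  ext h
  rw [mem_blk, Finset.mem_singleton]
  constructor
  · rintro ⟨h1, h2⟩
    rcases h2 (M.cell g) with h3 | ⟨n, h3, h4⟩ | ⟨n, h3, h4⟩
    · exact h3.symm
    · exact absurd (cell_out hx hg) (h4 0 (Nat.zero_le _))
    · refine absurd ?_ (h4 n le_rfl)
      rw [h3, he]
  · rintro rfl
    exact ⟨hg, rel_refl _⟩

/-- the successor in the block -/
theorem exists_next [Fintype D] (hx : IsC M ∅ x) {g₀ k : D} (hg₀ : Gp M x g₀)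
    (hk : k ∈ blk M x g₀) : ∃ g ∈ blk M x g₀, M.cell g = M.cell (M.rho k) := by
  obtain ⟨h1, h2⟩ := mem_blk.1 hk
  by_cases e : M.cell k = M.cell (M.rho k)
  · exact ⟨k, hk, e⟩
  · obtain ⟨g, hg, hn⟩ := nx_exists hx h1 e
    exact ⟨g, mem_blk.2 ⟨hg, rel_trans hx hg₀ h1 hg h2 (nx_rel' hx h1 hg hn)⟩, hn.1⟩

/-- the predecessor in the block -/
theorem exists_prev [Fintype D] (hx : IsC M ∅ x) {g₀ g : D} (hg₀ : Gp M x g₀)
    (hg : g ∈ blk M x g₀) : ∃ k ∈ blk M x g₀, M.cell (M.rho k) = M.cell g := by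
  obtain ⟨h1, h2⟩ := mem_blk.1 hg
  by_cases e : M.cell g = M.cell (M.rho g)
  · exact ⟨g, hg, e.symm⟩
  · obtain ⟨k, hk, hn⟩ := nx_exists' hx h1 e
    refine ⟨k, mem_blk.2 ⟨hk, ?_⟩, hn.1.symm⟩
    exact rel_trans hx hg₀ h1 hk h2 (rel_symm (nx_rel' hx hk h1 hn))

/-- inside a block the old cells are different -/
theorem blk_old_inj [Fintype D] (hx : IsC M ∅ x) {g₀ g k : D} (hg₀ : Gp M x g₀)
    (hg : g ∈ blk M x g₀) (hk : k ∈ blk M x g₀) (e : M.cell (M.rho g) = M.cell (M.rho k)) :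
    g = k := by
  obtain ⟨h1, h2⟩ := mem_blk.1 hg
  obtain ⟨h3, h4⟩ := mem_blk.1 hk
  exact old_inj (rel_trans hx h1 hg₀ h3 (rel_symm h2) h4) e

/-- inside a block the new cells are different -/
theorem blk_new_inj [Fintype D] (hx : IsC M ∅ x) {g₀ g k : D} (hg₀ : Gp M x g₀)
    (hg : g ∈ blk M x g₀) (hk : k ∈ blk M x g₀) (e : M.cell g = M.cell k) : g = k := by
  obtain ⟨h1, h2⟩ := mem_blk.1 hg
  obtain ⟨h3, h4⟩ := mem_blk.1 hk
  exact new_inj hx h1 h3 (rel_trans hx h1 hg₀ h3 (rel_symm h2) h4) e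

/-- **telescoping along a block**, every cell allowed -/
theorem telescope' [Fintype D] (hx : IsC M ∅ x) {g₀ : D} (hg₀ : Gp M x g₀)
    {A : Type} [AddCommMonoid A] (Z : C → A) :
    ∑ k ∈ blk M x g₀, Z (M.cell (M.rho k)) = ∑ k ∈ blk M x g₀, Z (M.cell k) := by
  have ex : ∀ k, ∃ g, k ∈ blk M x g₀ → g ∈ blk M x g₀ ∧ M.cell g = M.cell (M.rho k) := by
    intro k
    by_cases hk : k ∈ blk M x g₀
    · obtain ⟨g, h1, h2⟩ := exists_next hx hg₀ hk
      exact ⟨g, fun _ => ⟨h1, h2⟩⟩
    · exact ⟨k, fun h => absurd h hk⟩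
  choose f hf using ex
  refine Finset.sum_bij (fun k _ => f k) (fun k hk => (hf k hk).1) ?_ ?_ ?_
  · intro k hk l hl e
    refine blk_old_inj hx hg₀ hk hl ?_
    rw [← (hf k hk).2, ← (hf l hl).2, e]
  · intro g hg
    obtain ⟨k, hk, e⟩ := exists_prev hx hg₀ hg
    exact ⟨k, hk, blk_new_inj hx hg₀ (hf k hk).1 hg ((hf k hk).2.trans e)⟩
  · intro k hk
    rw [(hf k hk).2]

/-- the cells of a block have one colour -/
theorem blk_col [Fintype D] (hx : IsC M ∅ x) {g₀ k : D} (hg₀ : Gp M x g₀)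
    (hk : k ∈ blk M x g₀) (χ : C → ZMod 2) (hχ : cfg M χ = x) :
    χ (M.cell k) = χ (M.cell g₀) ∧ χ (M.cell (M.rho k)) = χ (M.cell g₀) := by
  have h0 : ∀ d, x d = 0 → χ (M.cell d) = χ (M.cell (M.rho d)) := by
    intro d hd
    rw [← hχ] at hd
    unfold cfg at hd
    revert hd
    generalize χ (M.cell d) = p
    generalize χ (M.cell (M.rho d)) = q
    revert p q; decide
  obtain ⟨h1, h2⟩ := mem_blk.1 hk
  have e1 := h0 k h1.1
  have e2 := h0 g₀ hg₀.1
  rcases h2 (M.cell g₀) with h3 | ⟨n, h3, -⟩ | ⟨n, h3, -⟩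
  · subst h3
    exact ⟨rfl, e1.symm⟩
  · have h4 := it_col hx (hg₀.out hx) h0 n
    rw [h3, cell_out hx hg₀] at h4
    exact ⟨e1.trans h4, h4⟩
  · have h4 := it_col hx (h1.out hx) h0 n
    rw [h3, cell_out hx h1] at h4
    exact ⟨h4.symm.trans e2.symm, e1.symm.trans (h4.symm.trans e2.symm)⟩

/-! ### the end points of the block of `g₀` -/

section ends

variable [Fintype D]

/-- the gap of the block of `g₀` whose old cell is the new cell of `g₀` (the block path leaves the
giant `A` = cell of `g₀`) -/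
def kA (M : CMap D C) (x : D → ZMod 2) (g₀ : D) : D :=
  if h : ∃ k ∈ blk M x g₀, M.cell (M.rho k) = M.cell g₀ then h.choose else g₀

/-- the gap of the block of `g₀` whose new cell is the old cell of `g₀` (the block path arrives at
the giant `B` = cell of `rho g₀`) -/
def kB (M : CMap D C) (x : D → ZMod 2) (g₀ : D) : D :=
  if h : ∃ k ∈ blk M x g₀, M.cell k = M.cell (M.rho g₀) then h.choose else g₀

theorem kA_spec (hx : IsC M ∅ x) {g₀ : D} (hg₀ : Gp M x g₀) :
    kA M x g₀ ∈ blk M x g₀ ∧ M.cell (M.rho (kA M x g₀)) = M.cell g₀ := by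
  have h := exists_prev hx hg₀ (self_mem hg₀)
  unfold kA
  rw [dif_pos h]
  exact h.choose_spec

theorem kB_spec (hx : IsC M ∅ x) {g₀ : D} (hg₀ : Gp M x g₀) :
    kB M x g₀ ∈ blk M x g₀ ∧ M.cell (kB M x g₀) = M.cell (M.rho g₀) := by
  have h := exists_next hx hg₀ (self_mem hg₀)
  unfold kB
  rw [dif_pos h]
  exact h.choose_spec

variable {π : C → C'} {hπ : ClsCon M π}

/-- **end points**: `z` is a function of the fine cells; the classes different from the two classes
at `g₀` which are met by the block are single cells for `z` -/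
theorem ends (hx : IsC (coarse M π hπ) ∅ x) {g₀ : D} (hg₀ : Gp M x g₀)
    (hne : π (M.cell g₀) ≠ π (M.cell (M.rho g₀))) {A : Type} [AddCommGroup A] (z : C → A)
    (hz : ∀ c c', π c = π c' → π c ≠ π (M.cell g₀) → π c ≠ π (M.cell (M.rho g₀)) →
      c ∈ (fun k => M.cell k) '' {k | k ∈ blk (coarse M π hπ) x g₀} →
      c' ∈ (fun k => M.cell (M.rho k)) '' {k | k ∈ blk (coarse M π hπ) x g₀} → z c = z c') :
    ∑ k ∈ (blk (coarse M π hπ) x g₀).erase g₀, (z (M.cell (M.rho k)) - z (M.cell k)) =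
      z (M.cell (M.rho (kA (coarse M π hπ) x g₀))) - z (M.cell (kB (coarse M π hπ) x g₀)) := by
  set K := coarse M π hπ with hK
  have hg₀' : Gp K x g₀ := hg₀
  obtain ⟨a1, a2⟩ := kA_spec hx hg₀'
  obtain ⟨b1, b2⟩ := kB_spec hx hg₀'
  have hself := self_mem (M := K) hg₀'
  have hA0 : kA K x g₀ ≠ g₀ := by
    intro e
    rw [e] at a2
    exact hne a2.symm
  have hB0 : kB K x g₀ ≠ g₀ := by
    intro e
    rw [e] at b2
    exact hne b2
  -- a bijection `k ↦ next k` between `blk \ kB... `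
  have ex : ∀ k, ∃ g, k ∈ blk K x g₀ → g ∈ blk K x g₀ ∧ K.cell g = K.cell (K.rho k) := by
    intro k
    by_cases hk : k ∈ blk K x g₀
    · obtain ⟨g, h1, h2⟩ := exists_next hx hg₀' hk
      exact ⟨g, fun _ => ⟨h1, h2⟩⟩
    · exact ⟨k, fun h => absurd h hk⟩
  choose f hf using ex
  -- old cells: all of the block except `g₀` and `kA`; new cells: all except `g₀` and `kB`
  have hold : ∀ k ∈ ((blk K x g₀).erase g₀).erase (kA K x g₀),
      π (M.cell (M.rho k)) ≠ π (M.cell g₀) ∧ π (M.cell (M.rho k)) ≠ π (M.cell (M.rho g₀)) := by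
    intro k hk
    obtain ⟨h1, h2⟩ := Finset.mem_erase.1 hk
    obtain ⟨h3, h4⟩ := Finset.mem_erase.1 h2
    refine ⟨fun e => h1 ?_, fun e => h3 ?_⟩
    · exact blk_old_inj hx hg₀' h4 a1 (by rw [a2]; exact e)
    · exact blk_old_inj hx hg₀' h4 hself e
  have hnew : ∀ k ∈ ((blk K x g₀).erase g₀).erase (kB K x g₀),
      π (M.cell k) ≠ π (M.cell g₀) ∧ π (M.cell k) ≠ π (M.cell (M.rho g₀)) := by
    intro k hk
    obtain ⟨h1, h2⟩ := Finset.mem_erase.1 hk
    obtain ⟨h3, h4⟩ := Finset.mem_erase.1 h2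
    refine ⟨fun e => h3 ?_, fun e => h1 ?_⟩
    · exact blk_new_inj hx hg₀' h4 hself e
    · exact blk_new_inj hx hg₀' h4 b1 (by rw [b2]; exact e)
  have key : ∑ k ∈ ((blk K x g₀).erase g₀).erase (kA K x g₀), z (M.cell (M.rho k)) =
      ∑ k ∈ ((blk K x g₀).erase g₀).erase (kB K x g₀), z (M.cell k) := by
    refine Finset.sum_bij (fun k _ => f k) ?_ ?_ ?_ ?_
    · intro k hk
      have h0 := hold k hk
      have hkm := Finset.mem_of_mem_erase (Finset.mem_of_mem_erase hk)
      obtain ⟨h1, h2⟩ := hf k hkm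
      refine Finset.mem_erase.2 ⟨?_, Finset.mem_erase.2 ⟨?_, h1⟩⟩
      · intro e
        rw [e, b2] at h2
        exact h0.2 h2.symm
      · intro e
        rw [e] at h2
        exact h0.1 h2.symm
    · intro k hk l hl e
      have hkm := Finset.mem_of_mem_erase (Finset.mem_of_mem_erase hk)
      have hlm := Finset.mem_of_mem_erase (Finset.mem_of_mem_erase hl)
      refine blk_old_inj hx hg₀' hkm hlm ?_
      rw [← (hf k hkm).2, ← (hf l hlm).2, e]
    · intro g hg
      have h0 := hnew g hg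
      have hgm := Finset.mem_of_mem_erase (Finset.mem_of_mem_erase hg)
      obtain ⟨k, hk, e⟩ := exists_prev hx hg₀' hgm
      refine ⟨k, Finset.mem_erase.2 ⟨?_, Finset.mem_erase.2 ⟨?_, hk⟩⟩, ?_⟩
      · rintro rfl
        rw [a2] at e
        exact h0.1 e.symm
      · rintro rfl
        exact h0.2 e.symm
      · exact blk_new_inj hx hg₀' (hf k hk).1 hgm ((hf k hk).2.trans e)
    · intro k hk
      have h0 := hold k hk
      have hkm := Finset.mem_of_mem_erase (Finset.mem_of_mem_erase hk)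
      obtain ⟨h1, h2⟩ := hf k hkm
      have h3 : π (M.cell (f k)) = π (M.cell (M.rho k)) := h2
      exact (hz _ _ h3 (by rw [h3]; exact h0.1) (by rw [h3]; exact h0.2)
        ⟨f k, h1, rfl⟩ ⟨k, hkm, rfl⟩).symm
  rw [Finset.sum_sub_distrib,
    ← Finset.add_sum_erase _ (fun k => z (M.cell (M.rho k)))
      (Finset.mem_erase.2 ⟨hA0, a1⟩),
    ← Finset.add_sum_erase _ (fun k => z (M.cell k)) (Finset.mem_erase.2 ⟨hB0, b1⟩), key]
  abel

end ends

/-! ### the spin sums are the mean end points -/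

section mean

variable [Fintype D] {π : C → C'} {hπ : ClsCon M π}

/-- the spin one combination of the positions -/
def zs (M : CMap D C) (w : ℂ) (z : C → ℂ) (h : D) : ℂ :=
  z (M.cell h) + w * z (M.cell (M.rho h)) + w ^ 2 * z (M.cell (M.rho (M.rho h)))

omit [Fintype D] in
theorem zs_spin {K : CMap D C'} (hrho : K.rho = M.rho) {w : ℂ} (w3 : w ^ 3 = 1) (z : C → ℂ) :
    Spin K (w ^ 2) (zs M w z) := by
  intro d
  unfold zs
  rw [hrho, M.rho3]
  linear_combination (-z (M.cell (M.rho d)) - w * z (M.cell (M.rho (M.rho d)))) * w3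

/-- sum over the configurations with the gap `g₀` of (end point on `A`) − (end point on `B`) -/
def Dis (M : CMap D C) (π : C → C') (hπ : ClsCon M π) (z : C → ℂ) (g₀ : D) : ℂ :=
  ∑ x ∈ ev (coarse M π hπ), if Gp M x g₀ then
    z (M.cell (M.rho (kA (coarse M π hπ) x g₀))) - z (M.cell (kB (coarse M π hπ) x g₀)) else 0

/-- the hypothesis of `ends`: `z` is constant on the classes except on the three giants, the third
giant is never met by the block -/
theorem dis_eq {w : ℂ} (w3 : w ^ 3 = 1) (w1 : 1 + w + w ^ 2 = 0) {g₀ : D}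
    (hne : π (M.cell g₀) ≠ π (M.cell (M.rho g₀))) (z : C → ℂ)
    (hz : ∀ c c', π c = π c' → π c ≠ π (M.cell g₀) → π c ≠ π (M.cell (M.rho g₀)) →
      π c ≠ π (M.cell (M.rho (M.rho g₀))) → z c = z c') :
    3 * Dis M π hπ z g₀ = (w ^ 2 - 1) * Wt (coarse M π hπ) g₀ (zs M w z) +
      (w - 1) * Wt (coarse M π hπ) g₀ (zs M (w ^ 2) z) := by
  unfold Dis Wt
  rw [Finset.mul_sum, Finset.mul_sum, Finset.mul_sum, ← Finset.sum_add_distrib]
  refine Finset.sum_congr rfl fun x hx => ?_
  rw [mem_ev] at hx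
  have hgg : Gp (coarse M π hπ) x g₀ ↔ Gp M x g₀ := Iff.rfl
  by_cases hg : Gp M x g₀
  · rw [if_pos hg, if_pos (hgg.2 hg), if_pos (hgg.2 hg)]
    rw [← ends hx hg hne z ?_, Finset.mul_sum, Finset.mul_sum, Finset.mul_sum,
      ← Finset.sum_add_distrib]
    · refine Finset.sum_congr rfl fun k _ => ?_
      unfold zs
      linear_combination (z (M.cell (M.rho k)) - z (M.cell k)) * w1 +
        (-2 * z (M.cell (M.rho k)) - w ^ 2 * z (M.cell (M.rho (M.rho k)))) * w3
    · -- the third giant has the other colour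
      intro c c' e h1 h2 h3 _
      refine hz c c' e h1 h2 ?_
      intro h4
      obtain ⟨k, hk, rfl⟩ := h3
      obtain ⟨χ, hχ⟩ := exists_cfg hx
      have h5 := (blk_col hx hg hk χ hχ).1
      have h6 : χ (π (M.cell (M.rho g₀))) + χ (π (M.cell (M.rho (M.rho g₀)))) = 1 := by
        have := hg.2
        rw [← hχ] at this
        exact this
      have h7 : χ (π (M.cell g₀)) + χ (π (M.cell (M.rho g₀))) = 0 := by
        have := hg.1
        rw [← hχ] at this
        exact this
      have h8 : χ (π (M.cell k)) = χ (π (M.cell g₀)) := h5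
      rw [show π (M.cell k) = _ from h4] at h8
      rw [h8] at h6
      revert h6 h7
      generalize χ (π (M.cell g₀)) = p
      generalize χ (π (M.cell (M.rho g₀))) = q
      revert p q; decide
  · rw [if_neg hg, if_neg fun h => hg (hgg.1 h), if_neg fun h => hg (hgg.1 h)]
    ring

/-- **the spin sums are the mean end points** (848): `(w² - 1) W₁ = ∑ᵢ w⁻ⁱ Disᵢ`,
`(w - 1) W₂ = ∑ᵢ w⁻²ⁱ Disᵢ`, `∑ᵢ Disᵢ = 0` -/
theorem wt_dis {w : ℂ} (w3 : w ^ 3 = 1) (w1 : 1 + w + w ^ 2 = 0) {g₀ : D}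
    (h01 : π (M.cell g₀) ≠ π (M.cell (M.rho g₀)))
    (h12 : π (M.cell (M.rho g₀)) ≠ π (M.cell (M.rho (M.rho g₀))))
    (h20 : π (M.cell (M.rho (M.rho g₀))) ≠ π (M.cell g₀)) (z : C → ℂ)
    (hz : ∀ c c', π c = π c' → π c ≠ π (M.cell g₀) → π c ≠ π (M.cell (M.rho g₀)) →
      π c ≠ π (M.cell (M.rho (M.rho g₀))) → z c = z c') :
    (w ^ 2 - 1) * Wt (coarse M π hπ) g₀ (zs M w z) = Dis M π hπ z g₀ +
      w ^ 2 * Dis M π hπ z (M.rho g₀) + w * Dis M π hπ z (M.rho (M.rho g₀)) ∧
    (w - 1) * Wt (coarse M π hπ) g₀ (zs M (w ^ 2) z) = Dis M π hπ z g₀ +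
      w * Dis M π hπ z (M.rho g₀) + w ^ 2 * Dis M π hπ z (M.rho (M.rho g₀)) ∧
    Dis M π hπ z g₀ + Dis M π hπ z (M.rho g₀) + Dis M π hπ z (M.rho (M.rho g₀)) = 0 := by
  have w6 : (w ^ 2) ^ 3 = 1 := by rw [← pow_mul, mul_comm, pow_mul, w3, one_pow]
  have d0 := dis_eq (hπ := hπ) w3 w1 h01 z hz
  have d1 := dis_eq (hπ := hπ) (g₀ := M.rho g₀) w3 w1 h12 z
    (by
      rw [M.rho3]
      intro c c' e a1 a2 a3
      exact hz c c' e a3 a1 a2)
  have d2 := dis_eq (hπ := hπ) (g₀ := M.rho (M.rho g₀)) w3 w1 (by rw [M.rho3]; exact h20) z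
    (by
      rw [M.rho3]
      intro c c' e a1 a2 a3
      exact hz c c' e a2 a3 a1)
  -- switching
  have s1 := swt (zs_spin (K := coarse M π hπ) (M := M) rfl w3 z) g₀
  have s2 := swt (zs_spin (K := coarse M π hπ) (M := M) rfl w3 z) (M.rho g₀)
  have t1 := swt (zs_spin (K := coarse M π hπ) (M := M) rfl w6 z) g₀
  have t2 := swt (zs_spin (K := coarse M π hπ) (M := M) rfl w6 z) (M.rho g₀)
  change w ^ 2 * Wt (coarse M π hπ) (M.rho g₀) (zs M w z) = _ at s1
  change w ^ 2 * Wt (coarse M π hπ) (M.rho (M.rho g₀)) (zs M w z) =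
    Wt (coarse M π hπ) (M.rho g₀) (zs M w z) at s2
  change (w ^ 2) ^ 2 * Wt (coarse M π hπ) (M.rho g₀) (zs M (w ^ 2) z) = _ at t1
  change (w ^ 2) ^ 2 * Wt (coarse M π hπ) (M.rho (M.rho g₀)) (zs M (w ^ 2) z) =
    Wt (coarse M π hπ) (M.rho g₀) (zs M (w ^ 2) z) at t2
  generalize Wt (coarse M π hπ) g₀ (zs M w z) = X0 at *
  generalize Wt (coarse M π hπ) (M.rho g₀) (zs M w z) = X1 at *
  generalize Wt (coarse M π hπ) (M.rho (M.rho g₀)) (zs M w z) = X2 at *
  generalize Wt (coarse M π hπ) g₀ (zs M (w ^ 2) z) = Y0 at *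
  generalize Wt (coarse M π hπ) (M.rho g₀) (zs M (w ^ 2) z) = Y1 at *
  generalize Wt (coarse M π hπ) (M.rho (M.rho g₀)) (zs M (w ^ 2) z) = Y2 at *
  generalize Dis M π hπ z g₀ = E0 at *
  generalize Dis M π hπ z (M.rho g₀) = E1 at *
  generalize Dis M π hπ z (M.rho (M.rho g₀)) = E2 at *
  have w2 : w ^ 2 = -1 - w := by linear_combination w1
  have x1 : X1 = w * X0 := by linear_combination w * s1 - X1 * w3
  have x2 : X2 = w ^ 2 * X0 := by linear_combination w * s2 - X2 * w3 + w * x1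
  have y1 : Y1 = w ^ 2 * Y0 := by linear_combination w ^ 2 * t1 - Y1 * (w ^ 3 + 1) * w3
  have y2 : Y2 = w * Y0 := by
    linear_combination w ^ 2 * t2 - Y2 * (w ^ 3 + 1) * w3 + w ^ 2 * y1 + w * Y0 * w3
  rw [x1, y1] at d1
  rw [x2, y2] at d2
  have three : (3 : ℂ) ≠ 0 := by norm_num
  refine ⟨?_, ?_, ?_⟩
  · apply mul_left_cancel₀ three
    linear_combination -d0 - w ^ 2 * d1 - w * d2 - 2 * (w ^ 2 - 1) * X0 * w3 -
      (w - 1) * Y0 * (w1 + w * w3)
  · apply mul_left_cancel₀ three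
    linear_combination -d0 - w * d1 - w ^ 2 * d2 - 2 * (w - 1) * Y0 * w3 -
      (w ^ 2 - 1) * X0 * (w1 + w * w3)
  · apply mul_left_cancel₀ three
    linear_combination d0 + d1 + d2 + ((w ^ 2 - 1) * X0 + (w - 1) * Y0) * w1

end mean

end Crest.Agent.R143.Coarse2x166
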