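import Crest.Agent.R143.MixF_304
import Crest.Agent.R143.Dbl2_609
import Crest.Agent.R143.Coarse2_166

/-!
# Row 143 (S0194), block RIG, field `small` of 970's `Cor`, annealed (helper304)

`dcf ε ω` (609) = the sample with two independent colourings of the same points.

* `chiS hS h3 β` : the colouring of 811's cells `Cs hS` of `cm0 hS` given by the set `β` of the black
  sites (the colour of a cell is the colour of a representative; `chiS_inner` : for inner sites it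
  is the colour of the site); `sum_chiS`, `avg_pair` : uniform subsets give uniform colourings
* `BdL1`, `BdL2` : the quenched hypothesis on a functional `Φ` of the double configuration in `B`
* `small` : `∫ Φ (dcf ε ω ∩ B) ≤ e ε → 0`, `e` depends on `k`, `U` only
* `fldU_zs`, `fldU_zs_conj` : 166's field `zs om z`, `z` = (conjugate) position, is admissible
* `small_nu` : Bochner form with respect to the weighted law
-/

set_option autoImplicit false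

noncomputable section

open scoped Classical

namespace Crest.Agent.R143.SmallAx304

open MeasureTheory Set Filter Topology
open Crest.ProbabilityR.Voronoi
open Crest.Agent.R143.B0x346 Crest.Agent.R143.SumScx302 Crest.Agent.R143.PP0x831
  Crest.Agent.R143.ColSumx304 Crest.Agent.R143.MassQx304 Crest.Agent.R143.Mass2x302
  Crest.Agent.R143.Mass3x302 Crest.Agent.R143.Mass4x302 Crest.Agent.R143.Mass5x302
  Crest.Agent.R143.DelGx806 Crest.Agent.R143.DelRx806 Crest.Agent.R143.JColx54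
  Crest.Agent.R143.FinCx811 Crest.Agent.R143.Resax778 Crest.Agent.R143.MixFx304
  Crest.Agent.R143.Dblx609 Crest.Agent.R143.Dbl2x609
open Crest.Agent.R143.Mass1x302 hiding ps
open Crest.Agent.R143.Frame1x395 Crest.Agent.R143.Frame2x395 Crest.Agent.R143.Frame3x395
  Crest.Agent.R143.Frame4x395 Crest.Agent.R143.Frame8x395 Crest.Agent.R143.Frame10x395
open Crest.Agent.R143.Frame5x395 (sd mem_sd th th_spec)
open scoped ENNReal

/-! ### colourings of the cells given by sets of sites -/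

section cells

variable {S : Finset ℂ} (hS : GP (S : Set ℂ)) (h3 : 3 ≤ S.card)

/-- representative site of a cell -/
def rp (c : Cs hS) : {v // v ∈ S} := (cs_surj hS h3 c).choose

theorem cs_rp (c : Cs hS) : cs hS h3 (rp hS h3 c) = c := (cs_surj hS h3 c).choose_spec

theorem rp_inj : Function.Injective (rp hS h3) := fun c c' h => by
  rw [← cs_rp hS h3 c, ← cs_rp hS h3 c', h]

theorem rp_inner {v : {v // v ∈ S}} (hv : ¬ OnHull S v.1) : rp hS h3 (cs hS h3 v) = v :=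
  cs_inj hS h3 hv (cs_rp hS h3 (cs hS h3 v)).symm

/-- colouring of the cells given by the set of the black sites -/
def chiS (β : Finset ℂ) (c : Cs hS) : ZMod 2 := if (rp hS h3 c).1 ∈ β then 1 else 0

theorem chiS_inner (β : Finset ℂ) {v : {v // v ∈ S}} (hv : ¬ OnHull S v.1) :
    chiS hS h3 β (cs hS h3 v) = if v.1 ∈ β then 1 else 0 := by
  unfold chiS
  rw [rp_inner hS h3 hv]

include h3 in
theorem card_Cs_le : Fintype.card (Cs hS) ≤ S.card := by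
  have h := Fintype.card_le_of_injective _ (rp_inj hS h3)
  rwa [Fintype.card_coe] at h

/-- sets of sites and colourings of the sites -/
theorem sum_pow {A : Type*} [AddCommMonoid A] (S : Finset ℂ) (F : ({v // v ∈ S} → ZMod 2) → A) :
    ∑ β ∈ S.powerset, F (fun v => if v.1 ∈ β then 1 else 0) = ∑ σ, F σ := by
  refine Finset.sum_bij' (fun β _ => fun v : {v // v ∈ S} => if v.1 ∈ β then (1 : ZMod 2) else 0)
    (fun σ _ => (Finset.univ.filter fun v : {v // v ∈ S} => σ v = 1).map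
      (Function.Embedding.subtype _)) (fun β _ => Finset.mem_univ _) ?_ ?_ ?_ ?_
  · intro σ _
    rw [Finset.mem_powerset]
    intro v hv
    obtain ⟨w, -, rfl⟩ := Finset.mem_map.1 hv
    exact w.2
  · intro β hβ
    ext v
    constructor
    · intro hv
      obtain ⟨w, hw, rfl⟩ := Finset.mem_map.1 hv
      have h1 : (if w.1 ∈ β then (1 : ZMod 2) else 0) = 1 := (Finset.mem_filter.1 hw).2
      by_contra hv'
      have h2 : ¬ (w.1 ∈ β) := hv'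
      rw [if_neg h2] at h1
      exact absurd h1 (by decide)
    · intro hv
      exact Finset.mem_map.2 ⟨⟨v, Finset.mem_powerset.1 hβ hv⟩,
        Finset.mem_filter.2 ⟨Finset.mem_univ _, if_pos hv⟩, rfl⟩
  · intro σ _
    funext v
    have e : v.1 ∈ (Finset.univ.filter fun v : {v // v ∈ S} => σ v = 1).map
        (Function.Embedding.subtype _) ↔ σ v = 1 := by
      simp
    by_cases h : σ v = 1
    · rw [if_pos (e.2 h), h]
    · rw [if_neg fun h' => h (e.1 h')]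
      revert h
      generalize σ v = a
      revert a; decide
  · intro β _
    rfl

theorem sum_chiS {A : Type*} [AddCommMonoid A] (F : (Cs hS → ZMod 2) → A) :
    ∑ β ∈ S.powerset, F (chiS hS h3 β) = (2 ^ (S.card - Fintype.card (Cs hS))) • ∑ χ, F χ := by
  have h1 := sum_comp_inj (B := ZMod 2) (rp_inj hS h3) F
  rw [ZMod.card, Fintype.card_coe] at h1
  have h2 := sum_pow S fun σ => F fun c => σ (rp hS h3 c)
  have h3' : ∑ σ : {v // v ∈ S} → ZMod 2, F (fun c => σ (rp hS h3 c)) =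
      (2 ^ (S.card - Fintype.card (Cs hS))) • ∑ χ, F χ := by
    convert h1
  exact h2.trans h3'

theorem avg_one (F : (Cs hS → ZMod 2) → ℝ≥0∞) :
    ((2 : ℝ≥0∞) ^ S.card)⁻¹ * ∑ β ∈ S.powerset, F (chiS hS h3 β) =
      ((2 : ℝ≥0∞) ^ Fintype.card (Cs hS))⁻¹ * ∑ χ, F χ := by
  rw [sum_chiS, nsmul_eq_mul, ← mul_assoc]
  congr 1
  push_cast
  have h := card_Cs_le hS h3
  have e : (2 : ℝ≥0∞) ^ S.card = 2 ^ Fintype.card (Cs hS) * 2 ^ (S.card - Fintype.card (Cs hS)) := by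
    rw [← pow_add, Nat.add_sub_cancel' h]
  have t1 : ∀ m : ℕ, (2 : ℝ≥0∞) ^ m ≠ 0 := fun m => by positivity
  have t2 : ∀ m : ℕ, (2 : ℝ≥0∞) ^ m ≠ ∞ := fun m => ENNReal.pow_ne_top (by norm_num)
  rw [e, ENNReal.mul_inv (Or.inl (t1 _)) (Or.inl (t2 _)), mul_assoc,
    ENNReal.inv_mul_cancel (t1 _) (t2 _), mul_one]

/-- uniform pairs of sets of sites give uniform pairs of colourings of the cells -/
theorem avg_pair (F : (Cs hS → ZMod 2) → (Cs hS → ZMod 2) → ℝ≥0∞) :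
    ((4 : ℝ≥0∞) ^ S.card)⁻¹ * ∑ β ∈ S.powerset, ∑ β' ∈ S.powerset,
        F (chiS hS h3 β) (chiS hS h3 β') =
      ((2 ^ Fintype.card (Cs hS)) ^ 2)⁻¹ * ∑ σ, ∑ τ, F σ τ := by
  have t1 : ∀ m : ℕ, (2 : ℝ≥0∞) ^ m ≠ 0 := fun m => by positivity
  have t2 : ∀ m : ℕ, (2 : ℝ≥0∞) ^ m ≠ ∞ := fun m => ENNReal.pow_ne_top (by norm_num)
  have e4 : ((4 : ℝ≥0∞) ^ S.card)⁻¹ = ((2 : ℝ≥0∞) ^ S.card)⁻¹ * ((2 : ℝ≥0∞) ^ S.card)⁻¹ := by
    rw [← ENNReal.mul_inv (Or.inl (t1 _)) (Or.inl (t2 _)), ← mul_pow]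
    norm_num
  have e2 : ((2 ^ Fintype.card (Cs hS)) ^ 2 : ℝ≥0∞)⁻¹ =
      ((2 : ℝ≥0∞) ^ Fintype.card (Cs hS))⁻¹ * ((2 : ℝ≥0∞) ^ Fintype.card (Cs hS))⁻¹ := by
    rw [pow_two, ENNReal.mul_inv (Or.inl (t1 _)) (Or.inl (t2 _))]
  have h1 : ∀ σ, ((2 : ℝ≥0∞) ^ S.card)⁻¹ * ∑ β' ∈ S.powerset, F σ (chiS hS h3 β') =
      ((2 : ℝ≥0∞) ^ Fintype.card (Cs hS))⁻¹ * ∑ τ, F σ τ := fun σ => avg_one hS h3 (F σ)
  have h2 := avg_one hS h3 fun σ => ((2 : ℝ≥0∞) ^ Fintype.card (Cs hS))⁻¹ * ∑ τ, F σ τ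
  rw [e4, e2, mul_assoc, mul_assoc, Finset.mul_sum (a := ((2 : ℝ≥0∞) ^ S.card)⁻¹),
    Finset.mul_sum (a := ((2 : ℝ≥0∞) ^ Fintype.card (Cs hS))⁻¹)]
  rw [← h2]
  congr 1
  refine Finset.sum_congr rfl fun β _ => ?_
  rw [h1]

end cells

/-! ### fields up to a unimodular constant -/

/-- the four fields up to a unimodular constant -/
def FldU {D : Type} (P U : Set ℂ) (δ : ℂ → ℂ → D) (a : D → ℂ) : Prop :=
  ∃ u : ℂ, ‖u‖ = 1 ∧ Fld P U δ fun d => u * a d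

theorem Fld.toU {D : Type} {P U : Set ℂ} {δ : ℂ → ℂ → D} {a : D → ℂ} (h : Fld P U δ a) :
    FldU P U δ a := ⟨1, norm_one, by simpa only [one_mul] using h⟩

theorem norm_om1 : ‖om‖ = 1 := by
  unfold om
  rw [Complex.norm_exp_ofReal_mul_I]

section zsf

variable {S : Finset ℂ} {P U : Set ℂ}

theorem zs_gd (hS : GP (S : Set ℂ)) (hPS : ∀ z ∈ U, z ∈ P ↔ z ∈ (S : Set ℂ)) (e0 : D0 S)
    {f : ℂ → ℂ} {z : Cs hS → ℂ} (hz : ∀ d : D0 S, d.1.1 ∈ U → z ((rc0 hS).cell d) = f d.1.1)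
    {t : T3} (ht : Fc P U t.1 t.2.1 t.2.2) :
    Coarse2x166.zs (rc0 hS) om z (gd (dl e0) t) =
      f t.2.2 + om * f t.1 + om ^ 2 * f t.2.1 := by
  obtain ⟨a, b, c⟩ := t
  change Fc P U a b c at ht
  have h3 : (c, a, b) ∈ delT S := mem_delT.2 (fc_congr hPS ht.rot.rot).1
  have hs : (c, a) ∈ sd S := mem_sd.2 ⟨b, h3⟩
  have hd : gd (dl e0) (a, b, c) = ⟨(c, a), hs⟩ := dl_eq hs
  rw [hd]
  have e1 : z ((rc0 hS).cell ⟨(c, a), hs⟩) = f c := hz _ (fc_memU ht.rot.rot)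
  have e2 : z ((rc0 hS).cell ((rc0 hS).rho ⟨(c, a), hs⟩)) = f a := hz _ (fc_memU ht)
  have e3 : z ((rc0 hS).cell ((rc0 hS).rho ((rc0 hS).rho ⟨(c, a), hs⟩))) = f b := by
    have hb : ((rc0 hS).rho ((rc0 hS).rho ⟨(c, a), hs⟩)).1.1 = b := th0 hS h3
    rw [hz _ (by rw [hb]; exact fc_memU ht.rot), hb]
  unfold Coarse2x166.zs
  rw [e1, e2, e3]

/-- the field of `T` (positions) -/
theorem fldU_zs (hS : GP (S : Set ℂ)) (hPS : ∀ z ∈ U, z ∈ P ↔ z ∈ (S : Set ℂ)) (e0 : D0 S)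
    {z : Cs hS → ℂ} (hz : ∀ d : D0 S, d.1.1 ∈ U → z ((rc0 hS).cell d) = d.1.1) :
    FldU P U (dl e0) (Coarse2x166.zs (rc0 hS) om z) := by
  refine ⟨om, norm_om1, Or.inr (Or.inl fun t ht => ?_)⟩
  show om * Coarse2x166.zs (rc0 hS) om z (gd (dl e0) t) = (starRingEnd ℂ) (Nn t)
  rw [zs_gd hS hPS e0 (f := id) hz ht]
  have h1 : (starRingEnd ℂ) om = om ^ 2 := Mass4x302.om_conj
  have h3 : om ^ 3 = 1 := Mass4x302.om3
  unfold Nn
  simp only [map_add, map_mul, map_pow, Complex.conj_conj, h1, id]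
  linear_combination (t.2.1 - om * t.2.2) * h3

/-- the field of `T'` (conjugate positions) -/
theorem fldU_zs_conj (hS : GP (S : Set ℂ)) (hPS : ∀ z ∈ U, z ∈ P ↔ z ∈ (S : Set ℂ)) (e0 : D0 S)
    {z : Cs hS → ℂ}
    (hz : ∀ d : D0 S, d.1.1 ∈ U → z ((rc0 hS).cell d) = (starRingEnd ℂ) d.1.1) :
    FldU P U (dl e0) (Coarse2x166.zs (rc0 hS) om z) := by
  refine ⟨om, norm_om1, Or.inr (Or.inr (Or.inr fun t ht => ?_))⟩
  show om * Coarse2x166.zs (rc0 hS) om z (gd (dl e0) t) = (starRingEnd ℂ) (Pn t)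
  rw [zs_gd hS hPS e0 (f := starRingEnd ℂ) hz ht]
  have h1 : (starRingEnd ℂ) om = om ^ 2 := Mass4x302.om_conj
  have h3 : om ^ 3 = 1 := Mass4x302.om3
  unfold Pn
  simp only [map_add, map_mul, map_pow, h1]
  linear_combination ((starRingEnd ℂ) t.2.1 - om * (starRingEnd ℂ) t.2.2) * h3

end zsf

/-! ### the annealed statement -/

/-- block sum of the field `a` over the block of `s0` in the resampled configuration -/
def Vm {S : Finset ℂ} (hS : GP (S : Set ℂ)) (O : (Cs hS → ZMod 2) → Finset (Cs hS))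
    (s0 : (Cs hS → ZMod 2) → (Cs hS → ZMod 2) → D0 S) (a : D0 S → ℂ) (σ τ : Cs hS → ZMod 2) : ℂ :=
  ∑ t ∈ blk (cm0 hS) (cfg (rc0 hS) (mix O σ τ)) (s0 σ τ), a t

/-- the quenched hypothesis at the set `A` of the points in `B`, power `m` (`m = 1`: L1 form,
`m = 2`: L2 form) -/
def Qh (m : ℕ) (k : ℝ) (U P : Set ℂ) (A : Finset ℂ) (Φ : Set (ℂ × (Bool × Bool)) → ℝ≥0∞) : Prop :=
  (∀ β ∈ A.powerset, ∀ β' ∈ A.powerset, Φ (paint2 A β β') = 0) ∨
  ∃ (hS : GP (A : Set ℂ)) (h3 : 3 ≤ A.card), (∀ v ∈ A, v ∈ U → ¬ OnHull A v) ∧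
    ∃ (e0 : D0 A) (a : D0 A → ℂ), FldU P U (dl e0) a ∧
    ∃ (O : (Cs hS → ZMod 2) → Finset (Cs hS)), StopSet O ∧
    ∃ (g : (Cs hS → ZMod 2) → (Cs hS → ZMod 2) → ℝ)
      (s0 : (Cs hS → ZMod 2) → (Cs hS → ZMod 2) → D0 A),
      (∀ σ τ, 0 ≤ g σ τ) ∧ (∀ σ τ, g σ τ ≤ 1) ∧
      (∀ σ τ, 0 < g σ τ →
        Gp (cm0 hS) (cfg (rc0 hS) (mix O σ τ)) (s0 σ τ) ∧
        InU P U (cm0 hS) (dl e0) (cfg (rc0 hS) (mix O σ τ)) (s0 σ τ) ∧
        Big P U (cm0 hS) (dl e0) (cfg (rc0 hS) (mix O σ τ)) k (s0 σ τ)) ∧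
      ∀ β ∈ A.powerset, ∀ β' ∈ A.powerset, Φ (paint2 A β β') ≤
        ENNReal.ofReal (g (chiS hS h3 β) (chiS hS h3 β') *
          ‖Vm hS O s0 a (chiS hS h3 β) (chiS hS h3 β')‖ ^ m)

/-- **FIELD `small`, annealed.** `e1 ε → 0` and `e2 ε → 0` depend only on `k` and `U`; for every
bounded `B ⊇ U` and every functional `Φ` of the double configuration in `B` (no measurability)
which is bounded, for a.e. environment, by `g * |V|` (resp. `g * |V|²`), `V` = sum of one of the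
four fields over a macroscopic block with loop in `U` of the resampled configuration:
`∫ Φ ≤ e1 ε` (resp. `e2 ε`). -/
theorem small {k : ℝ} (hk : 0 < k) {U : Set ℂ} (hU : Bornology.IsBounded U) :
    ∃ e1 e2 : ℝ → ℝ≥0∞, Tendsto e1 (𝓝[>] 0) (𝓝 0) ∧ Tendsto e2 (𝓝[>] 0) (𝓝 0) ∧
      ∀ ε : ℝ, 0 < ε → ∀ B : Set ℂ, Bornology.IsBounded B → U ⊆ B →
      ∀ Φ : Set (ℂ × (Bool × Bool)) → ℝ≥0∞,
      ((∀ᵐ ω ∂sampleLaw, Qh 1 k U (points ε ω) (Ap ε B ω) Φ) →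
        ∫⁻ ω, Φ (dcf ε ω ∩ ovM (Bool × Bool) B) ∂sampleLaw ≤ e1 ε) ∧
      ((∀ᵐ ω ∂sampleLaw, Qh 2 k U (points ε ω) (Ap ε B ω) Φ) →
        ∫⁻ ω, Φ (dcf ε ω ∩ ovM (Bool × Bool) B) ∂sampleLaw ≤ e2 ε) := by
  obtain ⟨E, h1, h2, h3, h4, h5⟩ := R7m hk hU
  refine ⟨fun ε => ∫⁻ ω, E ε ω ^ (1 / 2 : ℝ) ∂sampleLaw, fun ε => ∫⁻ ω, E ε ω ∂sampleLaw,
    h3, h2, ?_⟩
  intro ε hε B hB hUB Φ
  have hGP : ∀ᵐ ω ∂sampleLaw, GP (points ε ω) := by
    filter_upwards [PoisM3x930.m3a ε hε] with ω h using h.1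
  have key : ∀ m : ℕ, ∀ F : Sample → ℝ≥0∞,
      (∀ᵐ ω ∂sampleLaw, Qh m k U (points ε ω) (Ap ε B ω) Φ) →
      (∀ ω, GP (points ε ω) → ∀ (hS : GP ((Ap ε B ω : Finset ℂ) : Set ℂ)),
        (∀ v ∈ Ap ε B ω, v ∈ U → ¬ OnHull (Ap ε B ω) v) →
        ∀ (e0 : D0 (Ap ε B ω)) (a : D0 (Ap ε B ω) → ℂ), FldU (points ε ω) U (dl e0) a →
        ∀ (O : (Cs hS → ZMod 2) → Finset (Cs hS)), StopSet O →
        ∀ (g : (Cs hS → ZMod 2) → (Cs hS → ZMod 2) → ℝ)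
          (s0 : (Cs hS → ZMod 2) → (Cs hS → ZMod 2) → D0 (Ap ε B ω)),
        (∀ σ τ, 0 ≤ g σ τ) → (∀ σ τ, g σ τ ≤ 1) →
        (∀ σ τ, 0 < g σ τ →
          Gp (cm0 hS) (cfg (rc0 hS) (mix O σ τ)) (s0 σ τ) ∧
          InU (points ε ω) U (cm0 hS) (dl e0) (cfg (rc0 hS) (mix O σ τ)) (s0 σ τ) ∧
          Big (points ε ω) U (cm0 hS) (dl e0) (cfg (rc0 hS) (mix O σ τ)) k (s0 σ τ)) →
        ∑ σ, ∑ τ, ENNReal.ofReal (g σ τ * ‖Vm hS O s0 a σ τ‖ ^ m) ≤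
          (2 ^ Fintype.card (Cs hS)) ^ 2 * F ω) →
      ∫⁻ ω, Φ (dcf ε ω ∩ ovM (Bool × Bool) B) ∂sampleLaw ≤ ∫⁻ ω, F ω ∂sampleLaw := by
    intro m F hQ hF
    refine (lint_le_qav (d := dd) ε B Φ).trans (lintegral_mono_ae ?_)
    filter_upwards [ae_injω hε, hGP, hQ] with ω hi hP hq
    have hA := coe_Ap hε hB ω
    rw [qav_dd hi hA]
    rcases hq with hq | ⟨hS, h3, hin, e0, a, ha, O, hO, g, s0, g0, g1, hs, hΦ⟩
    · rw [Finset.sum_eq_zero fun β hβ => Finset.sum_eq_zero fun β' hβ' => hq β hβ β' hβ',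
        mul_zero]
      exact zero_le
    · have b1 : ∑ β ∈ (Ap ε B ω).powerset, ∑ β' ∈ (Ap ε B ω).powerset,
          Φ (paint2 (Ap ε B ω) β β') ≤
          ∑ β ∈ (Ap ε B ω).powerset, ∑ β' ∈ (Ap ε B ω).powerset,
          ENNReal.ofReal (g (chiS hS h3 β) (chiS hS h3 β') *
            ‖Vm hS O s0 a (chiS hS h3 β) (chiS hS h3 β')‖ ^ m) :=
        Finset.sum_le_sum fun β hβ => Finset.sum_le_sum fun β' hβ' => hΦ β hβ β' hβ'
      have b2 := avg_pair hS h3 fun σ τ => ENNReal.ofReal (g σ τ * ‖Vm hS O s0 a σ τ‖ ^ m)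
      have b3 := hF ω hP hS hin e0 a ha O hO g s0 g0 g1 hs
      have t1 : ((2 ^ Fintype.card (Cs hS)) ^ 2 : ℝ≥0∞) ≠ 0 := by positivity
      have t2 : ((2 ^ Fintype.card (Cs hS)) ^ 2 : ℝ≥0∞) ≠ ∞ :=
        ENNReal.pow_ne_top (ENNReal.pow_ne_top (by norm_num))
      calc _ ≤ ((4 : ℝ≥0∞) ^ (Ap ε B ω).card)⁻¹ * ∑ β ∈ (Ap ε B ω).powerset,
            ∑ β' ∈ (Ap ε B ω).powerset,
            ENNReal.ofReal (g (chiS hS h3 β) (chiS hS h3 β') *
              ‖Vm hS O s0 a (chiS hS h3 β) (chiS hS h3 β')‖ ^ m) := by gcongr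
        _ = ((2 ^ Fintype.card (Cs hS)) ^ 2)⁻¹ *
            ∑ σ, ∑ τ, ENNReal.ofReal (g σ τ * ‖Vm hS O s0 a σ τ‖ ^ m) := b2
        _ ≤ ((2 ^ Fintype.card (Cs hS)) ^ 2)⁻¹ * ((2 ^ Fintype.card (Cs hS)) ^ 2 * F ω) := by
            gcongr
        _ = F ω := by rw [← mul_assoc, ENNReal.inv_mul_cancel t1 t2, one_mul]
  have hPS : ∀ ω, ∀ z ∈ U, z ∈ points ε ω ↔ z ∈ ((Ap ε B ω : Finset ℂ) : Set ℂ) := by
    intro ω z hz
    rw [coe_Ap hε hB ω]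
    exact ⟨fun h => ⟨h, hUB hz⟩, fun h => h.1⟩
  have hnorm : ∀ {A : Finset ℂ} (hS : GP (A : Set ℂ)) (O : (Cs hS → ZMod 2) → Finset (Cs hS))
      (s0 : (Cs hS → ZMod 2) → (Cs hS → ZMod 2) → D0 A) (a : D0 A → ℂ) (u : ℂ), ‖u‖ = 1 →
      ∀ σ τ, ‖Vm hS O s0 a σ τ‖ = ‖∑ t ∈ blk (cm0 hS) (cfg (rc0 hS) (mix O σ τ)) (s0 σ τ),
        u * a t‖ := by
    intro A hS O s0 a u hu σ τ
    rw [← Finset.mul_sum, norm_mul, hu, one_mul]
    rfl
  constructor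
  · intro hQ
    refine key 1 (fun ω => E ε ω ^ (1 / 2 : ℝ)) hQ ?_
    intro ω hP hS hin e0 a ⟨u, hu, ha⟩ O hO g s0 g0 g1 hs
    have := (h5 ε ω (Ap ε B ω) hS hP (hPS ω) hin e0 _ ha O hO g s0 g0 g1 hs).2
    simp only [pow_one, hnorm hS O s0 a u hu]
    exact this
  · intro hQ
    refine key 2 (fun ω => E ε ω) hQ ?_
    intro ω hP hS hin e0 a ⟨u, hu, ha⟩ O hO g s0 g0 g1 hs
    simp only [hnorm hS O s0 a u hu]
    exact (h5 ε ω (Ap ε B ω) hS hP (hPS ω) hin e0 _ ha O hO g s0 g0 g1 hs).1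

/-- from `∫⁻ G * |V|` to the Bochner integral with respect to the weighted law (no measurability or
integrability hypothesis on `V`) -/
theorem small_nu {e : ℝ≥0∞} (he : e ≠ ∞) {G : Sample → ℝ≥0∞} (hG : Measurable G)
    {V : Sample → ℂ} (h : ∫⁻ ω, G ω * ‖V ω‖ₑ ∂sampleLaw ≤ e) :
    ∫ ω, ‖V ω‖ ∂(sampleLaw.withDensity G) ≤ e.toReal := by
  by_cases hV : AEStronglyMeasurable (fun ω => ‖V ω‖) (sampleLaw.withDensity G)
  · have h1 := integral_norm_eq_lintegral_enorm hV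
    simp only [norm_norm, enorm_norm] at h1
    rw [h1]
    refine ENNReal.toReal_mono he (le_trans ?_ h)
    exact lintegral_withDensity_le_lintegral_mul _ hG _
  · rw [integral_undef fun hi => hV hi.aestronglyMeasurable]
    exact ENNReal.toReal_nonneg

end Crest.Agent.R143.SmallAx304
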