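import Crest.Agent.R143.RingX_713
import Crest.Agent.R143.RingN_765
import Crest.Agent.R143.GPosC_348
import Crest.Agent.R143.ColX_829
import Crest.Agent.R143.Dbl2_609
import Crest.Agent.R143.SmallA_304

/-!
# Row 143 (S0194), block H (helper239): law ⇒ the closed ring

The closed path `W` (all tiles of kind `b`: `true` full, `false` white link), weight `gO P H b` (765).

* `fat_sub`, `fat_win` : the enlarged strips and the windows are in `U`
* `rng_ev` : a.e. environment, all colourings: `gO ≠ 0` ⇒ the event `TB b` of all tiles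
* **`rng_all`**, **`law_rng`** : `gO .. true ≠ 0` ⇒ 713's `RngH`
* `WhtH` : the closed white path; `WhtH.neck`, `wht`, `yper`, `xper`, `coly`, `colx`;
  **`wht_all`**, **`law_wht`** : `gO .. false ≠ 0` ⇒ `WhtH`
* `chi_inter` : `Xc hS h3 (chiS hS h3 β)` and `clr S β = paint S β` agree off the hull;
  `chi_loc` : local functionals; **`law_chi`**, **`law_chiw`** : the same for `paint A β`
-/

set_option autoImplicit false
set_option linter.all false

noncomputable section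

open scoped Classical

namespace Crest.Agent.R143.LawRx239

open MeasureTheory Set ProbabilityTheory
open Crest.ProbabilityR.Voronoi
open Crest.Agent.R143.B0x346 Crest.Agent.R143.DelGx806 Crest.Agent.R143.DelRx806
  Crest.Agent.R143.JColx54 Crest.Agent.R143.Locx922
open Crest.Agent.R143.Frame1x395
open Crest.Agent.R143.Neckx921 (Neck NeckD Tile Lk)
open Crest.Agent.R143.PP0x831 Crest.Agent.R143.Poisx304 Crest.Agent.R143.Janx304
open Crest.Agent.R143.Prodx609 Crest.Agent.R143.FinMx609 Crest.Agent.R143.FinM2x609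
open Crest.Agent.R143.IndLocx279 Crest.Agent.R143.PWx978 Crest.Agent.R143.Tplx978
open Crest.Agent.R143.WLocx713 Crest.Agent.R143.IndLoc3x279
open Crest.Agent.R143.TileRx228 Crest.Agent.R143.PthFx765 Crest.Agent.R143.TplIx204
open Crest.Agent.R143.PathDx503 Crest.Agent.R143.PathGx503 Crest.Agent.R143.RingPx503
open Crest.Agent.R143.DCorGx713 Crest.Agent.R143.DCorFx713
open Crest.Agent.R143.CorHx713 (gA QA sdt yy xx gA_per QA_per sdt_per mem_QA)
open Crest.Agent.R143.RingXx713 (RngH)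
open Crest.Agent.R143.GPosFx348 Crest.Agent.R143.GPosCx348
open Crest.Agent.R143.RngNx765 Crest.Agent.R143.CorNx765
open Crest.Agent.R143.Frame10x395
open Crest.Agent.R143.FinCx811 Crest.Agent.R143.ColXx829
open Crest.Agent.R143.Dbl2x609 (Ap coe_Ap paint)
open Crest.Agent.R143.SmallAx304 (chiS chiS_inner)
open scoped ENNReal

/-! ### geometry -/

section geo

variable {M : ℕ} {W : ℤ → ℤ × ℤ} {η : ℝ} {U : Set ℂ}

/-- the fattened strips -/
def Fat (η : ℝ) (W : ℤ → ℤ × ℤ) (U : Set ℂ) : Prop :=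
  ∀ a : ℤ, ∀ w ∈ RR (9 * η) (51 * η) (100 * η) W a, ∀ s : ℂ, ‖s - w‖ ≤ 100 * η → s ∈ U

theorem cen_mem (P : FPath M W) (h1 : 0 < η) (a : ℤ) :
    gz (100 * η) W a ∈ RR (9 * η) (51 * η) (100 * η) W a := by
  refine win_right P (by linarith) (by linarith) ?_ ?_
  · have : Gatex838.X (gz (100 * η) W a) (ge W a) (gz (100 * η) W a) = 0 := by
      unfold Gatex838.X
      simp
    rw [this]
    simp only [abs_zero]
    linarith
  · have : Gatex838.Y (gz (100 * η) W a) (ge W a) (gz (100 * η) W a) = 0 := by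
      unfold Gatex838.Y
      simp
    rw [this]
    simp only [abs_zero]
    linarith

/-- points near the centre of a gate are in `U` -/
theorem box_U (P : FPath M W) (h3 : 0 < η) (fat : Fat η W U) (a : ℤ) {s : ℂ}
    (h1 : |Gatex838.X (gz (100 * η) W a) (ge W a) s| ≤ 40 * η)
    (h2 : |Gatex838.Y (gz (100 * η) W a) (ge W a) s| ≤ 40 * η) : s ∈ U := by
  refine fat a _ (cen_mem P h3 a) s ?_
  exact (RegBx523.norm_le_XY (norm_ge P a)).trans (by linarith)

/-- the windows are in `U` -/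
theorem fat_win (P : FPath M W) (h3 : 0 < η) (fat : Fat η W U) (a : ℤ) : (gA η W a).win ⊆ U := by
  rintro s ⟨⟨h4, h5⟩, h6, h7⟩
  change -η < Gatex838.X (gz (100 * η) W a) (ge W a) s at h4
  change Gatex838.X (gz (100 * η) W a) (ge W a) s < η at h5
  change -(9 * η) - η ≤ Gatex838.Y (gz (100 * η) W a) (ge W a) s at h6
  change Gatex838.Y (gz (100 * η) W a) (ge W a) s ≤ 10 * η + η at h7
  refine box_U P h3 fat a ?_ ?_
  · rw [abs_le]
    constructor <;> linarith
  · rw [abs_le]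
    constructor <;> linarith

/-- the `2 d`-neighbourhood of a window is inside the gate box -/
theorem win_Q (P : FPath M W) (h1 : 0 < η) {d : ℝ} (h2 : 0 < d) (h3 : 100 * d ≤ η) (a : ℤ) :
    ∀ w ∈ (gA η W a).win, ∀ s : ℂ, ‖s - w‖ < 2 * d → s ∈ QA η W a := by
  rintro w ⟨⟨h4, h5⟩, h6, h7⟩ s hs
  change -η < Gatex838.X (gz (100 * η) W a) (ge W a) w at h4
  change Gatex838.X (gz (100 * η) W a) (ge W a) w < η at h5
  change -(9 * η) - η ≤ Gatex838.Y (gz (100 * η) W a) (ge W a) w at h6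
  change Gatex838.Y (gz (100 * η) W a) (ge W a) w ≤ 10 * η + η at h7
  have x1 := (Crossx228.abs_X_sub (gz (100 * η) W a) (ge_d4 P a).norm s w).trans_lt hs
  have y1 := (Crossx228.abs_Y_sub (gz (100 * η) W a) (ge_d4 P a).norm s w).trans_lt hs
  rw [abs_lt] at x1 y1
  rw [mem_QA, abs_lt, abs_lt]
  refine ⟨⟨?_, ?_⟩, ?_, ?_⟩ <;> linarith

/-- the enlarged strips are inside `U` -/
theorem fat_sub (P : FPath M W) (h1 : 0 < η) (fat : Fat η W U) {A B : ℝ} (hA : A ≤ 59 * η)
    (hB : B ≤ 101 * η) (a : ℤ) : RR A B (100 * η) W a ⊆ U := by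
  -- a point of an arm is near the strip
  have key : ∀ v : ℂ, D4 v → (∀ z ∈ Arm (9 * η) (51 * η) (cen (100 * η) W a) v, z ∈ RR (9 * η)
      (51 * η) (100 * η) W a) → ∀ s ∈ Arm A B (cen (100 * η) W a) v, s ∈ U := by
    intro v hv hsub s hs
    obtain ⟨⟨h2, h3⟩, h4⟩ := hs
    set c := cen (100 * η) W a with hc
    set x := Gatex838.X c v s with hx
    -- the nearest point of the axis of the strip
    set t : ℝ := max (-(8 * η)) (min x (50 * η)) with ht
    have ht0 : -(8 * η) ≤ t := le_max_left _ _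
    have ht1 : t ≤ 50 * η := max_le (by linarith) (min_le_right _ _)
    have hxt : |x - t| ≤ 51 * η := by
      rw [abs_le]
      constructor
      · rcases le_total (-(8 * η)) (min x (50 * η)) with h5 | h5
        · rw [ht, max_eq_right h5]
          have := min_le_left x (50 * η)
          linarith
        · rw [ht, max_eq_left h5]
          linarith
      · rcases le_total x (50 * η) with h5 | h5
        · have h6 : min x (50 * η) = x := min_eq_left h5
          have : x ≤ t := by rw [ht, h6]; exact le_max_right _ _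
          linarith
        · have h6 : min x (50 * η) = 50 * η := min_eq_right h5
          have : 50 * η ≤ t := by rw [ht, h6]; exact le_max_right _ _
          linarith
    have hz : c + (t : ℂ) * v ∈ Arm (9 * η) (51 * η) c v := by
      have e1 : Gatex838.X c v (c + (t : ℂ) * v) = t := by
        unfold Gatex838.X
        rw [add_sub_cancel_left, mul_div_assoc, div_self hv.ne0, mul_one, Complex.ofReal_re]
      have e2 : Gatex838.Y c v (c + (t : ℂ) * v) = 0 := by
        unfold Gatex838.Y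
        rw [add_sub_cancel_left, mul_div_assoc, div_self hv.ne0, mul_one, Complex.ofReal_im]
      refine ⟨⟨?_, ?_⟩, ?_⟩
      · rw [e1]; linarith
      · rw [e1]; linarith
      · rw [e2, abs_zero]; linarith
    refine fat a _ (hsub _ hz) s ?_
    have h5 : ‖s - (c + (t : ℂ) * v)‖ ^ 2 = (x - t) ^ 2 + (Gatex838.Y c v s) ^ 2 := by
      have e1 : (s - (c + (t : ℂ) * v)) / v = (s - c) / v - t := by
        rw [sub_div, sub_div, add_div, mul_div_assoc, div_self hv.ne0, mul_one]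
        ring
      have e2 : ‖s - (c + (t : ℂ) * v)‖ = ‖(s - (c + (t : ℂ) * v)) / v‖ := by
        rw [norm_div, hv.norm, div_one]
      rw [e2, e1, ← Complex.normSq_eq_norm_sq, Complex.normSq_apply]
      simp only [Complex.sub_re, Complex.sub_im, Complex.ofReal_re, Complex.ofReal_im, sub_zero]
      rw [hx]
      unfold Gatex838.X Gatex838.Y
      ring
    have h6 : |Gatex838.Y c v s| ≤ 59 * η := (h4.le).trans hA
    have h7 : (x - t) ^ 2 ≤ (51 * η) ^ 2 := sq_le_sq' (by linarith [(abs_le.1 hxt).1])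
      (abs_le.1 hxt).2
    have h8 : (Gatex838.Y c v s) ^ 2 ≤ (59 * η) ^ 2 := sq_le_sq' (by linarith [(abs_le.1 h6).1])
      (abs_le.1 h6).2
    have h9 : ‖s - (c + (t : ℂ) * v)‖ ^ 2 ≤ (100 * η) ^ 2 := by
      rw [h5]
      nlinarith
    exact le_of_sq_le_sq h9 (by linarith)
  rintro s (hs | hs)
  · exact key _ (arm_l P a) (fun z hz => Or.inl hz) s hs
  · exact key _ (arm_r P a) (fun z hz => Or.inr hz) s hs

/-- the region of the net is in `U` -/
theorem fat_rall (P : FPath M W) (h1 : 0 < η) (fat : Fat η W U) :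
    Rall (12 * η) (52 * η) (100 * η) W ⊆ U :=
  iUnion_subset fun a => fat_sub P h1 fat (by linarith) (by linarith) a

/-- no hull site in the region of the net -/
theorem rall_inn (P : FPath M W) (h1 : 0 < η) (fat : Fat η W U) {S : Finset ℂ} {d : ℝ}
    (hd : 0 < d) (hH : Hol (S : Set ℂ) U d) :
    ∀ v ∈ S, v ∈ Rall (12 * η) (52 * η) (100 * η) W → ¬ OnHull S v :=
  fun v _ hv ⟨a, h⟩ => (Locx922.not_hull hd hH (fat_rall P h1 fat hv) a).2 h

end geo

/-! ### the closed white path -/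

/-- **the closed white path** -/
structure WhtH (X : Set (ℂ × Bool)) (U : Set ℂ) (M : ℕ) (W : ℤ → ℤ × ℤ) (η d : ℝ) : Prop where
  path : FPath M W
  e0 : 0 < η
  d0 : 0 < d
  de : 100 * d ≤ η
  fin : X.Finite
  fat : Fat η W U
  hol : Hol (ps X) U d
  evt : ∀ a : ℤ, TB false (RR (9 * η) (51 * η) (100 * η) W a)
    (LG (gA η W a) (QA η W a)) (LG (gA η W (a + 1)) (QA η W (a + 1))) X

namespace WhtH

variable {X : Set (ℂ × Bool)} {U : Set ℂ} {M : ℕ} {W : ℤ → ℤ × ℤ} {η d : ℝ}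

theorem lg (H : WhtH X U M W η d) (a : ℤ) : LG (gA η W a) (QA η W a) X (sdt η W X a) := by
  obtain ⟨-, p, -, hp, -⟩ := H.evt a
  exact dg_spec ⟨p, hp⟩

theorem yper (H : WhtH X U M W η d) (a : ℤ) : yy η W X (a + M) = yy η W X a :=
  congrArg Prod.fst (sdt_per H.path η X a)

theorem xper (H : WhtH X U M W η d) (a : ℤ) : xx η W X (a + M) = xx η W X a :=
  congrArg Prod.snd (sdt_per H.path η X a)

/-- **the neck at the gate `a`** -/
theorem neck (H : WhtH X U M W η d) (a : ℤ) :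
    NeckD (sX X) (gz (100 * η) W a) (ge W a) (-η) η (-(9 * η)) (10 * η) η (sX X) (bX X)
      (yy η W X a) (xx η W X a) :=
  LG_neck H.fin H.d0 (H.hol.mono (fat_win H.path H.e0 H.fat a))
    (win_Q H.path H.e0 H.d0 H.de a) (H.lg a)

/-- **the white link of the tile `a`** -/
theorem wht (H : WhtH X U M W η d) (a : ℤ) :
    Lk (sX X) {s | (s ∈ sX X ∧ s ∉ bX X) ∧ s ∈ RR (9 * η) (51 * η) (100 * η) W a}
      (xx η W X a) (xx η W X (a + 1)) := by
  obtain ⟨-, p, q, hp, hq, -, h⟩ := H.evt a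
  have e1 : sdt η W X a = p := dg_eq hp
  have e2 : sdt η W X (a + 1) = q := dg_eq hq
  unfold xx
  rw [e1, e2]
  exact h

end WhtH

/-! ### the law -/

section main

variable {ε : ℝ} {hε : 0 < ε} {c : ℝ≥0∞} {c0 : c ≠ 0} {c1 : c ≤ 1} {D : DT} {η : ℝ}
  {M : ℕ} {W : ℤ → ℤ × ℤ} [Fintype (ZMod M)]

/-- **positive weight gives the events of all tiles**, all colourings -/
theorem rng_ev (N : NumC D η) (P : FPath M W)
    (H : Std (D.raw ε hε c c0 c1).tpl D.A' D.B' D.h Prod.fst) (hP : (D.raw ε hε c c0 c1).AePos)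
    (b : Bool) {S : Sample → Finset ℂ}
    (hS : ∀ᵐ ω ∂sampleLaw, (S ω : Set ℂ) ⊆ points ε ω ∧
      points ε ω ∩ Rall D.A' D.B' D.h W ⊆ S ω) {d : ℝ} (hd : 0 < d) (hd' : 2 * d ≤ η) :
    ∀ᵐ ω ∂sampleLaw,
      (∀ a : ℤ, Hol (S ω : Set ℂ) (RR (9 * η) (51 * η) (100 * η) W a) d) →
      ∀ β ⊆ S ω, gO P H b (clr (S ω) β) ≠ 0 →
        ∀ a : ℤ, TplIx204.TB b (RR (9 * η) (51 * η) (100 * η) W a)
          (LG (gA η W a) (QA η W a)) (LG (gA η W (a + 1)) (QA η W (a + 1))) (clr (S ω) β) := by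
  have h0 := N.pos
  have hS' : ∀ᵐ ω ∂sampleLaw, (S ω : Set ℂ) ⊆ points ε ω ∧
      points ε ω ∩ (pth P H (rty M W b) (rty_typ b)).net.reg Finset.univ Finset.univ ⊆
        S ω := by
    rw [reg_gen P H (rty_typ b)]
    exact hS
  filter_upwards [ev_full P H (rty_typ b) hP (I := Finset.univ) (J := Finset.univ)
    (fun k _ => ⟨Finset.mem_univ _, Finset.mem_univ _⟩) hS' hd
    (by rw [N.A, N.A']; linarith) (by rw [N.B, N.B']; linarith)] with ω hω hH β hβ h1 a
  have h2 : ∀ a : ℤ, ((a : ℤ) : ZMod M) ∈ (Finset.univ : Finset (ZMod M)) →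
      Hol (S ω : Set ℂ) (RR D.A D.B D.h W a) d := by
    intro a _
    rw [N.A, N.B, N.h]
    exact hH a
  obtain ⟨-, h4⟩ := hω h2 β hβ h1
  have h5 := h4 a (Finset.mem_univ _)
  rw [gt_eq N, bx_eq N, gt_eq N, bx_eq N, N.A, N.B, N.h, rty_cast P b a] at h5
  exact h5

/-- **law ⇒ 713's `RngH`** -/
theorem rng_all (N : NumC D η) (P : FPath M W)
    (H : Std (D.raw ε hε c c0 c1).tpl D.A' D.B' D.h Prod.fst) (hP : (D.raw ε hε c c0 c1).AePos)
    {S : Sample → Finset ℂ}
    (hS : ∀ᵐ ω ∂sampleLaw, (S ω : Set ℂ) ⊆ points ε ω ∧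
      points ε ω ∩ Rall D.A' D.B' D.h W ⊆ S ω) {d : ℝ} (hd : 0 < d) (hd' : 100 * d ≤ η)
    (hM : 5 ≤ M) (hst : ∃ g, ∀ j, g - 2 ≤ j → j ≤ g + 2 → ge W (j + 1) = ge W j)
    {U : Set ℂ} (hU : Fat η W U) :
    ∀ᵐ ω ∂sampleLaw, GP (S ω : Set ℂ) → Hol (S ω : Set ℂ) U d →
      ∀ β ⊆ S ω, HullC (S ω) (cX (clr (S ω) β)) → gO P H true (clr (S ω) β) ≠ 0 →
        RngH (clr (S ω) β) U M W η d := by
  have h0 := N.pos
  filter_upwards [rng_ev N P H hP true hS hd (by linarith)] with ω hω hG hH β hβ hh h1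
  have hR : ∀ a : ℤ, Hol (S ω : Set ℂ) (RR (9 * η) (51 * η) (100 * η) W a) d := fun a w hw =>
    hH w (hU a w hw w (by simp; linarith))
  exact
    { path := P
      M5 := hM
      e0 := h0
      d0 := hd
      de := hd'
      fin := GPosx348.clr_finite _ _
      gp := by rw [GPosFx348.sX_clr]; exact hG
      hull := by rw [GPosFx348.sX_clr]; exact hh
      fat := hU
      hol := by rw [ps_clr']; exact hH
      evt := hω hR β hβ h1
      str := hst }

/-- **law ⇒ the closed white path** -/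
theorem wht_all (N : NumC D η) (P : FPath M W)
    (H : Std (D.raw ε hε c c0 c1).tpl D.A' D.B' D.h Prod.fst) (hP : (D.raw ε hε c c0 c1).AePos)
    {S : Sample → Finset ℂ}
    (hS : ∀ᵐ ω ∂sampleLaw, (S ω : Set ℂ) ⊆ points ε ω ∧
      points ε ω ∩ Rall D.A' D.B' D.h W ⊆ S ω) {d : ℝ} (hd : 0 < d) (hd' : 100 * d ≤ η)
    {U : Set ℂ} (hU : Fat η W U) :
    ∀ᵐ ω ∂sampleLaw, Hol (S ω : Set ℂ) U d →
      ∀ β ⊆ S ω, gO P H false (clr (S ω) β) ≠ 0 → WhtH (clr (S ω) β) U M W η d := by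
  have h0 := N.pos
  filter_upwards [rng_ev N P H hP false hS hd (by linarith)] with ω hω hH β hβ h1
  have hR : ∀ a : ℤ, Hol (S ω : Set ℂ) (RR (9 * η) (51 * η) (100 * η) W a) d := fun a w hw =>
    hH w (hU a w hw w (by simp; linarith))
  exact
    { path := P
      e0 := h0
      d0 := hd
      de := hd'
      fin := GPosx348.clr_finite _ _
      fat := hU
      hol := by rw [ps_clr']; exact hH
      evt := hω hR β hβ h1 }

end main

/-! ### colourings of the cells -/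

section chi

variable {S : Finset ℂ} {hS : GP (S : Set ℂ)} {h3 : 3 ≤ S.card} {β : Finset ℂ}

theorem clr_paint : clr S β = paint S β := rfl

/-- the colouring of the cells and the colouring of the sites agree off the hull -/
theorem chi_inter {T : Set ℂ} (hT : ∀ v ∈ S, v ∈ T → ¬ OnHull S v) :
    Xc hS h3 (chiS hS h3 β) ∩ ovr T = paint S β ∩ ovr T := by
  refine clr_inter_congr (fun _ _ => Iff.rfl) fun v hvT hv => ?_
  rw [mem_bs hv, chiS_inner hS h3 β (v := ⟨v, hv⟩) (hT v hv hvT)]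
  by_cases h : v ∈ β
  · rw [if_pos h]
    exact ⟨fun _ => h, fun _ => rfl⟩
  · rw [if_neg h]
    exact ⟨fun h' => absurd h' (by decide), fun h' => absurd h' h⟩

/-- local functionals -/
theorem chi_loc {E : Type*} {F : Set (ℂ × Bool) → E} {T : Set ℂ} (hF : LocalOn T F)
    (hT : ∀ v ∈ S, v ∈ T → ¬ OnHull S v) :
    F (Xc hS h3 (chiS hS h3 β)) = F (paint S β) := by
  rw [hF (Xc hS h3 (chiS hS h3 β)), hF (paint S β)]
  exact congrArg F (chi_inter hT)

end chi

section ap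

variable {ε : ℝ} {hε : 0 < ε} {c : ℝ≥0∞} {c0 : c ≠ 0} {c1 : c ≤ 1} {D : DT} {η : ℝ}
  {M : ℕ} {W : ℤ → ℤ × ℤ} [Fintype (ZMod M)] {B U : Set ℂ} {d : ℝ}

theorem ap_hS (hε : 0 < ε) (N : NumC D η) (hB : Bornology.IsBounded B)
    (hR : Rall (12 * η) (52 * η) (100 * η) W ⊆ B) :
    ∀ᵐ ω ∂sampleLaw, (Ap ε B ω : Set ℂ) ⊆ points ε ω ∧
      points ε ω ∩ Rall D.A' D.B' D.h W ⊆ Ap ε B ω := by
  refine Filter.Eventually.of_forall fun ω => ?_
  rw [coe_Ap hε hB, N.A', N.B', N.h]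
  exact ⟨inter_subset_left, inter_subset_inter_right _ hR⟩

theorem rall_c (N : NumC D η) :
    Rall D.A' D.B' D.h W = Rall (12 * η) (52 * η) (100 * η) W := by
  rw [N.A', N.B', N.h]

theorem loc_c (N : NumC D η) (P : FPath M W)
    (H : Std (D.raw ε hε c c0 c1).tpl D.A' D.B' D.h Prod.fst) (b : Bool) :
    LocalOn (Rall (12 * η) (52 * η) (100 * η) W) (gO P H b) := by
  rw [← rall_c N]
  exact gO_local P H b

/-- **law ⇒ `RngH`** for the coloured cells -/
theorem law_rng (N : NumC D η) (P : FPath M W)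
    (H : Std (D.raw ε hε c c0 c1).tpl D.A' D.B' D.h Prod.fst) (hP : (D.raw ε hε c c0 c1).AePos)
    (hB : Bornology.IsBounded B) (hR : Rall (12 * η) (52 * η) (100 * η) W ⊆ B) (hd : 0 < d)
    (hd' : 100 * d ≤ η) (hM : 5 ≤ M)
    (hst : ∃ g, ∀ j, g - 2 ≤ j → j ≤ g + 2 → ge W (j + 1) = ge W j) (hU : Fat η W U) :
    ∀ᵐ ω ∂sampleLaw, Hol (Ap ε B ω : Set ℂ) U d →
      ∀ (hS : GP (Ap ε B ω : Set ℂ)) (h3 : 3 ≤ (Ap ε B ω).card) (s : Cs hS → ZMod 2),
        gO P H true (Xc hS h3 s) ≠ 0 → RngH (Xc hS h3 s) U M W η d := by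
  filter_upwards [rng_all N P H hP (ap_hS hε N hB hR) hd hd' hM hst hU] with ω hω hH hS h3 s hg
  exact hω hS hH (bs hS h3 s) bs_sub hullC_Xc hg

/-- **law ⇒ `WhtH`** for the coloured cells -/
theorem law_wht (N : NumC D η) (P : FPath M W)
    (H : Std (D.raw ε hε c c0 c1).tpl D.A' D.B' D.h Prod.fst) (hP : (D.raw ε hε c c0 c1).AePos)
    (hB : Bornology.IsBounded B) (hR : Rall (12 * η) (52 * η) (100 * η) W ⊆ B) (hd : 0 < d)
    (hd' : 100 * d ≤ η) (hU : Fat η W U) :
    ∀ᵐ ω ∂sampleLaw, Hol (Ap ε B ω : Set ℂ) U d →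
      ∀ (hS : GP (Ap ε B ω : Set ℂ)) (h3 : 3 ≤ (Ap ε B ω).card) (s : Cs hS → ZMod 2),
        gO P H false (Xc hS h3 s) ≠ 0 → WhtH (Xc hS h3 s) U M W η d := by
  filter_upwards [wht_all N P H hP (ap_hS hε N hB hR) hd hd' hU] with ω hω hH hS h3 s hg
  exact hω hH (bs hS h3 s) bs_sub hg

/-- **`paint A β`**: positive weight gives the ring -/
theorem law_chi (N : NumC D η) (P : FPath M W)
    (H : Std (D.raw ε hε c c0 c1).tpl D.A' D.B' D.h Prod.fst) (hP : (D.raw ε hε c c0 c1).AePos)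
    (hB : Bornology.IsBounded B) (hR : Rall (12 * η) (52 * η) (100 * η) W ⊆ B) (hd : 0 < d)
    (hd' : 100 * d ≤ η) (hM : 5 ≤ M)
    (hst : ∃ g, ∀ j, g - 2 ≤ j → j ≤ g + 2 → ge W (j + 1) = ge W j) (hU : Fat η W U) :
    ∀ᵐ ω ∂sampleLaw, Hol (Ap ε B ω : Set ℂ) U d →
      ∀ (hS : GP (Ap ε B ω : Set ℂ)) (h3 : 3 ≤ (Ap ε B ω).card) (β : Finset ℂ),
        gO P H true (paint (Ap ε B ω) β) ≠ 0 →
          RngH (Xc hS h3 (chiS hS h3 β)) U M W η d := by
  filter_upwards [law_rng N P H hP hB hR hd hd' hM hst hU] with ω hω hH hS h3 β hg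
  refine hω hH hS h3 _ ?_
  rwa [chi_loc (loc_c N P H true) (rall_inn P N.pos hU hd hH)]

/-- **`paint A β`**: positive weight gives the white path -/
theorem law_chiw (N : NumC D η) (P : FPath M W)
    (H : Std (D.raw ε hε c c0 c1).tpl D.A' D.B' D.h Prod.fst) (hP : (D.raw ε hε c c0 c1).AePos)
    (hB : Bornology.IsBounded B) (hR : Rall (12 * η) (52 * η) (100 * η) W ⊆ B) (hd : 0 < d)
    (hd' : 100 * d ≤ η) (hU : Fat η W U) :
    ∀ᵐ ω ∂sampleLaw, Hol (Ap ε B ω : Set ℂ) U d →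
      ∀ (hS : GP (Ap ε B ω : Set ℂ)) (h3 : 3 ≤ (Ap ε B ω).card) (β : Finset ℂ),
        gO P H false (paint (Ap ε B ω) β) ≠ 0 →
          WhtH (Xc hS h3 (chiS hS h3 β)) U M W η d := by
  filter_upwards [law_wht N P H hP hB hR hd hd' hU] with ω hω hH hS h3 β hg
  refine hω hH hS h3 _ ?_
  rwa [chi_loc (loc_c N P H false) (rall_inn P N.pos hU hd hH)]

end ap

end Crest.Agent.R143.LawRx239
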