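import Crest.Agent.R143.SpV_169
import Crest.Agent.R143.CorH_713

/-!
# Row 143 (S0194), CORE-C: spatial charges of 713's corridor `CorH` (helper169)

* `IsS D η` : the template data `D` (204) have 713's standard numbers; `gt_eq`, `St_eq`
* `CorH.qreg` : 832's regions (`QReg`) of the corridor
* `CorH.vx_vt` : 832's `VX` is `VT` (full tiles)
* **`CorH.vz_vt`** : the sum of the three `ZZ` of the planar colouring is `VT`
-/

set_option autoImplicit false
set_option linter.all false

noncomputable section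

open scoped Classical

namespace Crest.Agent.R143.CorVx169

open Set MeasureTheory
open Crest.Agent.R143.B0x346 Crest.Agent.R143.DelGx806 Crest.Agent.R143.DelRx806
  Crest.Agent.R143.JColx54
open Crest.Agent.R143.Frame1x395 Crest.Agent.R143.Frame2x395 Crest.Agent.R143.Frame3x395
  Crest.Agent.R143.Frame4x395 Crest.Agent.R143.Frame8x395 Crest.Agent.R143.Frame9x395
  Crest.Agent.R143.Frame10x395 Crest.Agent.R143.Frame11x395
open Crest.Agent.R143.Frame5x395 (sd mem_sd th th_spec)
open Crest.Agent.R143.Locx922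
open Crest.Agent.R143.Splx117 Crest.Agent.R143.WLocx713
open Crest.Agent.R143.PP0x831 Crest.Agent.R143.FinMx609 Crest.Agent.R143.PWx978
  Crest.Agent.R143.Tplx978
open Crest.Agent.R143.Janx304 (ovr)
open Crest.Agent.R143.TileRx228 Crest.Agent.R143.PthFx765 Crest.Agent.R143.TplIx204
open Crest.Agent.R143.CorHx713 Crest.Agent.R143.Sptx169 Crest.Agent.R143.Sptx832
  Crest.Agent.R143.SpRx169 Crest.Agent.R143.SpVx169
open Crest.Agent.R143.RingDx117 (RD)

/-- the standard numbers -/
structure IsS (D : DT) (η : ℝ) : Prop where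
  g : D.g = gO η
  A : D.A = 9 * η
  B : D.B = 51 * η
  A' : D.A' = 12 * η
  B' : D.B' = 52 * η
  h : D.h = 100 * η

variable {D : DT} {M : ℕ} {W : ℤ → ℤ × ℤ} {η d : ℝ} {X : Set (ℂ × Bool)} {U : Set ℂ} {o : ℤ}
  {n : ℕ}

theorem gt_eq (s : IsS D η) (P : FPath M W) (a : ℤ) : gt D P a = gA η W a := by
  unfold gt
  rw [s.g]
  refine gA_mv ?_
  rw [frm_apply, mul_zero, add_zero, s.h]

theorem Gb_eq (s : IsS D η) (a : ℤ) : Gb D W a = QA η W a := by
  unfold Gb QA
  rw [s.A', s.B', s.h]

theorem St_eq (s : IsS D η) (P : FPath M W) (a : ℤ) : St D P a = LG (gA η W a) (QA η W a) := by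
  unfold St
  rw [gt_eq s, Gb_eq s]

/-- **832's regions** -/
theorem _root_.Crest.Agent.R143.CorHx713.CorH.qreg (H : CorH X U M W η d o n) :
    QReg (sX X) n n (fun k => RR (19 / 2 * η) (103 / 2 * η) (100 * η) W (o + k))
      (QX (100 * η) W o n) := by
  have h1 := H.e0
  have h2 := H.d0
  have h3 := H.de
  have h4 := H.nM
  refine qx_qreg H.path h2 (by linarith) (by linarith) (by linarith) (Or.inr (by omega))
    fun k _ => ?_
  exact fun w hw => H.holS w (H.sub_U (by linarith) (by linarith) _ hw)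

/-- **832's spatial charge is `VT`** -/
theorem _root_.Crest.Agent.R143.CorHx713.CorH.vx_vt (H : CorH X U M W η d o n) (s : IsS D η)
    {l : ℕ} (h0 : 0 < l) (h1 : l + 1 < n) (f : ℂ × ℂ × ℂ → ℂ) :
    VX f n (fun k => RR (19 / 2 * η) (103 / 2 * η) (100 * η) W (o + k)) (QX (100 * η) W o n)
      (fun k => LG (gA η W (o + k)) (QA η W (o + k))) l X =
      VT D H.path (η / 2) f (o + l - 1) X := by
  have e1 := H.e0
  have e2 := H.d0
  have e3 := H.de
  have hgp : GP (ps X) := by
    rw [← coe_sX H.fin]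
    exact H.gp
  have hA : D.A + η / 2 = 19 / 2 * η := by rw [s.A]; ring
  have hB : D.B + η / 2 = 103 / 2 * η := by rw [s.B]; ring
  have h := VX_VT D H.path (η / 2) H.fin hgp H.hull e2 (by rw [s.A']; linarith)
    (by rw [s.B', s.h]; linarith) (by rw [hA, s.A']; linarith) (by rw [hB, s.B']; linarith)
    (o := o) (n := n) h0 h1 (fun k _ w hw => by
      refine H.hol w (H.sub_U (A := 19 / 2 * η) (B := 103 / 2 * η) (by linarith) (by linarith)
        (o + k) ?_)
      rw [hA, hB, s.h] at hw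
      exact hw) (fun k _ p hp => by
      rw [St_eq s] at hp
      exact LG_occ H.fin H.hull e2 (H.holw _) (H.win_Q _) hp) f
  rw [← h, hA, hB, s.h]
  congr 1
  funext k
  exact (St_eq s H.path _).symm

/-- **the spatial charge of the planar colouring** -/
theorem _root_.Crest.Agent.R143.CorHx713.CorH.vz_vt (H : CorH X U M W η d o n) (s : IsS D η)
    {l : ℕ} (h0 : 0 < l) (h1 : l + 1 < n) {f : ℂ × ℂ × ℂ → ℂ} {w : D0 (sX X) → ℂ}
    (hw : ∀ e : D0 (sX X), w e = f (e.1.2, th (sX X) e.1, e.1.1)) :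
    VZ H.gp H.hull n (fun k => RR (19 / 2 * η) (103 / 2 * η) (100 * η) W (o + k)) H.p w
      (FQ (sX X) n (QX (100 * η) W o n) l) l = VT D H.path (η / 2) f (o + l - 1) X := by
  rw [← H.vx_vt s h0 h1 f]
  exact H.corr.vz_VX (St := fun k => LG (gA η W (o + k)) (QA η W (o + k))) H.fin
    (fun k _ => H.lg (o + k)) (fun k _ r hr => LG.uniq (H.lg (o + k)) hr)
    (fun k _ e _ _ => hw e) (by omega)

end Crest.Agent.R143.CorVx169
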