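import Crest.Agent.R143.Win_355

/-!
# Row 143 (S0194), block H, glue of [A], part 2 (helper355)

Far deep chords of the net with one giant have a window: they are chords `Cd` of the arc off the
window and good (`gd` of 389).
-/

set_option autoImplicit false

noncomputable section

open scoped Classical

namespace Crest.Agent.R143.Win2x355

open Crest.Agent.R143.Frame1x395 Crest.Agent.R143.Frame2x395 Crest.Agent.R143.Frame3x395
  Crest.Agent.R143.Frame8x395 Crest.Agent.R143.Frame9x395 Crest.Agent.R143.Frame11x395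
  Crest.Agent.R143.NonXx592 Crest.Agent.R143.Coarsex166 Crest.Agent.R143.Budx432
  Crest.Agent.R143.Bud2x432 Crest.Agent.R143.RevCx389
  Crest.Agent.R143.Chordx355 Crest.Agent.R143.ChordCx357 Crest.Agent.R143.Chord2x355
  Crest.Agent.R143.H2x355 Crest.Agent.R143.Ox355 Crest.Agent.R143.Winx355

variable {D C C' : Type} {M : CMap D C} {ψ : C → ZMod 2} {π : C → C'} {hπ : ClsCon M π} {o : C'}
  {P₀ : D} {N n : ℕ} {T : ℕ → ℕ} {Reg : ℕ → Set C}

/-- the ring of the real configuration, the giant and the windows -/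
structure RW (M : CMap D C) (ψ : C → ZMod 2) (π : C → C') (o : C') (P₀ : D) (N n : ℕ) (T : ℕ → ℕ)
    (Reg : ℕ → Set C) (h l m₀ : ℕ) (G : ℕ → Rg D C) (tp tq : ℕ → ℕ) : Prop where
  gt : Gt M π o
  rim : Rim M π o ψ
  rl : RL M (cfg M ψ) P₀ N n T Reg
  /-- the left cells of the ring loop are in the giant -/
  hK : ∀ u, π (lc M (cfg M ψ) P₀ u) = o
  /-- a giant cell next to another cell is a left cell of the ring loop -/
  kin : ∀ d, π (M.cell d) = o → π (M.cell (M.rho d)) ≠ o → ∃ u, lc M (cfg M ψ) P₀ u = M.cell d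
  hh : 5 ≤ h
  hn : n = h * m₀
  hm : 2 ≤ m₀
  hl : l ≤ h
  p0 : ∀ i, i < m₀ → RevCx389.p0 M (G i) ψ = P M (cfg M ψ) P₀ (T (h * i + l) + tp i)
  ln : ∀ i, i < m₀ → RevCx389.ln M (G i) ψ = tq i - tp i + 1
  htp : ∀ i, i < m₀ → T (h * i + l) + tp i ≤ T (h * i + l + 3)
  htq1 : ∀ i, i < m₀ → T (h * i + n - 3) ≤ T (h * i + l) + tq i
  htq2 : ∀ i, i < m₀ → T (h * i + l) + tq i ≤ T (h * i + n)
  /-- the revealed white cells are in the giant -/
  hR : ∀ i, i < m₀ → ∀ c ∈ Cw M (G i) ψ, π c = o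

variable {h l m₀ : ℕ} {G : ℕ → Rg D C} {tp tq : ℕ → ℕ}

/-- the end cells of a chord are left cells of the ring loop -/
theorem RW.ends [Fintype D] (W : RW M ψ π o P₀ N n T Reg h l m₀ G tp tq) {k : D} {m : ℕ}
    (H : Gc M π o (cfg M (fil π o ψ)) k m) :
    (∃ u, lc M (cfg M ψ) P₀ u = M.cell (M.rho k)) ∧
      ∃ u, lc M (cfg M ψ) P₀ u = M.cell (P M (cfg M ψ) (M.rho k) m) := by
  constructor
  · exact W.kin (M.rho k) H.c0 (H.right 0)
  · have h1 := H.right m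
    have h2 := H.c1
    rw [← Rim.P W.rim H.gp.2 m] at h1 h2
    exact W.kin _ h2 h1

/-- **a chord with far end cells is a chord off a window on its facing side** -/
theorem RW.window [Fintype D] (W : RW M ψ π o P₀ N n T Reg h l m₀ G tp tq) {k : D} {m : ℕ}
    (H : Gc M π o (cfg M (fil π o ψ)) k m)
    (hf : FarC Reg n h (M.cell (M.rho k)) (M.cell (P M (cfg M ψ) (M.rho k) m))) :
    ∃ i, i < m₀ ∧ Cd M (cfg M ψ) (RevCx389.p0 M (G i) ψ) (RevCx389.ln M (G i) ψ)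
        (Cw M (G i) ψ) k m ∧
      ∀ Co : Set C, (∃ u, u ≤ m ∧ lc M (cfg M ψ) (M.rho k) u ∈ Co) → gd M (G i) Co ψ k m := by
  obtain ⟨e1, e2⟩ := W.ends H
  obtain ⟨i, hi, h1, h2, h3⟩ := W.rl.window W.hh W.hn W.hm W.hl e1 e2 hf W.htp W.htq1 W.htq2
  rw [← W.p0 i hi, ← W.ln i hi] at h1 h2 h3
  refine ⟨i, hi, H.cd W.rim ?_ (W.hR i hi) h1 h2, fun Co hCo => ⟨?_, h3, hCo⟩⟩
  · rintro c ⟨a, -, rfl⟩
    rw [W.p0 i hi, lc_shift]
    exact W.hK _
  · intro e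
    obtain ⟨u, hu⟩ := e1
    obtain ⟨s, hs1, hs2⟩ := W.rl.tile u
    have h4 := W.rl.reg s u hs1 hs2
    have h5 := (hf s s (hu ▸ h4) (by
      have e' : M.cell (M.rho k) = M.cell (P M (cfg M ψ) (M.rho k) m) := e
      rw [← e', ← hu]; exact h4) le_rfl (by have := W.rl.hn; omega)).1
    omega

/-- **the far deep chords are paid by the windows** -/
theorem RW.sum_far [Fintype D] (W : RW M ψ π o P₀ N n T Reg h l m₀ G tp tq) (Co : Set C)
    (I : Finset (D × ℕ)) {𝒟 : Finset (Finset D)} (h𝒟 : 𝒟 ⊆ chd M π hπ o (cfg M (fil π o ψ)))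
    (hG : ∀ β ∈ 𝒟, ∀ k ∈ β, ∀ m, Gc M π o (cfg M (fil π o ψ)) k m → (k, m) ∈ I ∧
      FarC Reg n h (M.cell (M.rho k)) (M.cell (P M (cfg M ψ) (M.rho k) m)) ∧
      ∃ u, u ≤ m ∧ lc M (cfg M ψ) (M.rho k) u ∈ Co) (φ : D → ℂ) :
    ∑ β ∈ 𝒟, ‖∑ d ∈ β, φ d‖ ^ 2 ≤ ∑ i ∈ Finset.range m₀, ∑ q ∈ I,
      if Cd M (cfg M ψ) (RevCx389.p0 M (G i) ψ) (RevCx389.ln M (G i) ψ) (Cw M (G i) ψ) q.1 q.2 ∧
        gd M (G i) Co ψ q.1 q.2 then
        2 * ‖cv M (cfg M ψ) (RevCx389.p0 M (G i) ψ) (RevCx389.ln M (G i) ψ) φ q.1 q.2‖ ^ 2 +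
          2 * ‖dp M (cfg M ψ) (RevCx389.p0 M (G i) ψ) (RevCx389.ln M (G i) ψ) φ q.1 q.2‖ ^ 2
      else 0 := by
  refine sum_chd W.gt W.rim (Finset.range m₀) (fun i => RevCx389.p0 M (G i) ψ)
    (fun i => RevCx389.ln M (G i) ψ) (fun i => Cw M (G i) ψ) ?_
    (fun i hi => W.hR i (Finset.mem_range.1 hi)) (fun i k m => gd M (G i) Co ψ k m) I h𝒟 ?_ φ
  · rintro i hi c ⟨a, -, rfl⟩
    rw [W.p0 i (Finset.mem_range.1 hi), lc_shift]
    exact W.hK _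
  · intro β hβ k hk m H
    obtain ⟨h1, h2, h3⟩ := hG β hβ k hk m H
    obtain ⟨i, hi, h4, h5⟩ := W.window H h2
    exact ⟨h1, i, Finset.mem_range.2 hi, h4.c0, h4.c1, h5 Co h3⟩

end Crest.Agent.R143.Win2x355
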