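import Crest.Agent.R143.OrientF_881
import Crest.Agent.R143.Win2_355
import Crest.Agent.R143.SqP_503

/-!
# Row 143 (S0194), block H: the closed ring of tubes as a ring loop (helper503)

* `Nums`, `Clo` : numbers and events of a closed fine path (gates, tiles, environment)
* `Clo.pz` : the gate darts; `Clo.back` : all arcs run from the gate `a + 1` to the gate `a`
* **`Clo.rl`** : 355's `RL` (ring loop with gate times); run `k` = tile `o - 1 - k`
-/

set_option autoImplicit false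

noncomputable section

open scoped Classical

namespace Crest.Agent.R143.RingIx503

open Set
open Crest.Agent.R143.B0x346 Crest.Agent.R143.DelGx806 Crest.Agent.R143.DelRx806
open Crest.Agent.R143.Frame1x395 Crest.Agent.R143.Frame2x395 Crest.Agent.R143.Frame3x395
  Crest.Agent.R143.Frame8x395 Crest.Agent.R143.Frame10x395 Crest.Agent.R143.Frame11x395
open Crest.Agent.R143.Frame5x395 (sd mem_sd th th_spec)
open Crest.Agent.R143.Splx117 (FA Ring)
open Crest.Agent.R143.WLocx713 Crest.Agent.R143.RingDx117 Crest.Agent.R143.CorrDx117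
open Crest.Agent.R143.Blkx838 (DE)
open Crest.Agent.R143.Circx63
open Crest.Agent.R143.Gatex838 (X Y)
open Crest.Agent.R143.TileRx228 Crest.Agent.R143.PathDx503 Crest.Agent.R143.PathGx503
open Crest.Agent.R143.ConfTx503 Crest.Agent.R143.RingPx503 Crest.Agent.R143.CorPx503
open Crest.Agent.R143.Neckx921 Crest.Agent.R143.OrientFx881
open Crest.Agent.R143.NonXx592 (P)
open Crest.Agent.R143.Winx355 (RL)

/-- the numbers of the ring -/
structure Nums (h A B A' B' κ bb a0 a1 b0 b1 m τ : ℝ) : Prop extends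
    Num h A B κ bb a0 a1 b0 b1 m where
  mτ : m < τ
  τh : τ ≤ h
  AB : A ≤ B
  hA : bb ≤ A'
  hB : h / 2 + κ ≤ B'
  hA2 : A + τ ≤ A'
  hB2 : B + τ ≤ B'
  hAB : A' ≤ B'
  hh : A' + B' < h
  q0 : B + τ - a0 ≤ 3 * h / 2
  q1 : a1 + B + τ ≤ 3 * h / 2
  q4 : h / 2 - B - τ ≤ a0
  q5 : a1 ≤ h / 2 + B + τ

variable {S V β : Finset ℂ} {χ : ℂ → ZMod 2} {h A B A' B' m m' τ κ bb : ℝ} {a0 a1 b0 b1 : ℝ}
  {M : ℕ} {W : ℤ → ℤ × ℤ} {y x : ℤ → ℂ} {U : Set ℂ}

/-- **gates and tiles along a closed fine path**, black = `1` -/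
structure Clo (S V β : Finset ℂ) (χ : ℂ → ZMod 2) (h A B A' B' κ bb a0 a1 b0 b1 m m' τ : ℝ)
    (M : ℕ) (W : ℤ → ℤ × ℤ) (y x : ℤ → ℂ) (U : Set ℂ) : Prop where
  N : Nums h A B A' B' κ bb a0 a1 b0 b1 m τ
  F : FPath M W
  E : Evp S V β h A B a0 a1 b0 b1 m' W (fun _ => True) y x
  hβ : ∀ s ∈ V, χ s = 1 ↔ s ∈ β
  hβV : β ⊆ V
  env : Envr S U m
  M5 : 5 ≤ M
  pery : ∀ a, y (a + M) = y a
  perx : ∀ a, x (a + M) = x a
  hU : ∀ a, RR (A + τ) (B + τ) h W a ⊆ U
  str : ∃ g, ∀ j, g - 2 ≤ j → j ≤ g + 2 → ge W (j + 1) = ge W j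

/-- the cells of the sites of a set -/
def cl (S : Finset ℂ) (R : Set ℂ) : Set (Quot (hullE S)) := {c | ∃ s ∈ S, s ∈ R ∧ Quot.mk _ s = c}

namespace Clo

variable (H : Clo S V β χ h A B A' B' κ bb a0 a1 b0 b1 m m' τ M W y x U)
include H

theorem gate (a : ℤ) : NeckD S (gz h W a) (ge W a) a0 a1 b0 b1 m' V β (y a) (x a) :=
  H.E.gate a (Or.inl trivial)

theorem sd' (hχ : HullC S χ) (a : ℤ) : (y a, x a) ∈ sd S := neck_sd hχ H.hβ (H.gate a)

theorem cy (a : ℤ) : χ (y a) = 1 := (neck_col H.hβ (H.gate a)).1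

theorem cx (a : ℤ) : χ (x a) = 0 := by
  have h1 := (neck_col H.hβ (H.gate a)).2
  rw [H.cy a] at h1
  revert h1
  generalize χ (x a) = u
  revert u; decide

end Clo

/-- the gate darts -/
def pz (hχ : HullC S χ) (H : Clo S V β χ h A B A' B' κ bb a0 a1 b0 b1 m m' τ M W y x U)
    (a : ℤ) : D0 S := ⟨(y a, x a), H.sd' hχ a⟩

namespace Clo

variable {hS : GP (S : Set ℂ)} {hχ : HullC S χ}
  (H : Clo S V β χ h A B A' B' κ bb a0 a1 b0 b1 m m' τ M W y x U)

theorem pz_per (a : ℤ) : pz hχ H (a + M) = pz hχ H a :=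
  Subtype.ext (by
    show (y (a + M), x (a + M)) = (y a, x a)
    rw [H.pery, H.perx])

include H in
theorem rr_per (a : ℤ) : RR (A + τ) (B + τ) h W (a + M) = RR (A + τ) (B + τ) h W a := by
  unfold RR cen
  rw [H.F.per, show a + (M : ℤ) - 1 = a - 1 + M by ring, H.F.per,
    show a + (M : ℤ) + 1 = a + 1 + M by ring, H.F.per]

/-- 117's ring, from the gate `o` -/
theorem dring (hS : GP (S : Set ℂ)) (hχ : HullC S χ) (o : ℤ) :
    DRing hS hχ M (fun k : ℕ => y (o + k)) (fun k : ℕ => x (o + k))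
      (fun k : ℕ => RR A B h W (o + k)) (fun k : ℕ => RR (A + τ) (B + τ) h W (o + k))
      (fun k : ℕ => pz hχ H (o + k)) :=
  CorPx503.ring H.E H.N.toNum H.F hS hχ H.hβ H.hβV H.env H.N.mτ (by have := H.M5; omega) H.pery
    H.perx H.hU H.N.hA H.N.hB H.N.hA2 H.N.hB2 H.N.hAB H.N.hh o

/-- **all arcs are backward** -/
theorem back (hS : GP (S : Set ℂ)) (hχ : HullC S χ) (a : ℤ) :
    FA (cm0 hS) (xc hS hχ) (RD S (RR (A + τ) (B + τ) h W a)) (pz hχ H (a + 1)) (pz hχ H a) := by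
  obtain ⟨g, hg⟩ := H.str
  have hM := H.M5
  have N := H.N
  have m0 := N.m0
  have hmτ := N.mτ
  -- the open corridor from the gate `g`
  have D := corr (o := g) (n := M - 1) (p := fun k : ℕ => pz hχ H (g + k)) (hS := hS) (hχ := hχ)
    (A' := A') (B' := B') H.E H.N.toNum H.F H.hβ H.hβV H.env H.N.mτ
    (by omega) (by omega) (fun _ _ => trivial) (fun _ _ => H.hU _) N.hA N.hB N.hA2 N.hB2 N.hAB N.hh
    (fun _ _ => rfl)
  have hb := back_path (k := 0) D H.E H.F N.A0 N.AB H.hβ H.hβV N.s0 N.s1 (by linarith) N.τh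
    (by omega) (fun j h1 h2 => hg j (by push_cast at h1; omega) (by push_cast at h2; omega))
    (fun _ _ _ => trivial) N.q1 N.q0 N.q4 N.q5
  have A0 := (H.dring hS hχ g).ring
  rcases A0.dir with h1 | ⟨h1, -⟩
  · exact absurd (h1 0) (hb.2 0 (by omega))
  · -- any tile is the tile `g + k` for some `k : ℕ`
    obtain ⟨k, hk⟩ : ∃ k : ℕ, ∃ j : ℤ, g + k = a + j * M := by
      refine ⟨(a + (|g| + |a|) * M - g).toNat, |g| + |a|, ?_⟩
      have h3 : (0 : ℤ) ≤ a + (|g| + |a|) * M - g := by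
        have h4 := neg_abs_le a
        have h5 := le_abs_self g
        have h6 := abs_nonneg a
        have h7 := abs_nonneg g
        have h8 : (1 : ℤ) ≤ M := by omega
        nlinarith
      rw [Int.toNat_of_nonneg h3]
      ring
    obtain ⟨j, hj⟩ := hk
    have perz : ∀ (j : ℤ) (a : ℤ), pz hχ H (a + j * M) = pz hχ H a ∧
        RR (A + τ) (B + τ) h W (a + j * M) = RR (A + τ) (B + τ) h W a := by
      intro j
      induction j using Int.induction_on with
      | zero => intro a; rw [zero_mul, add_zero]; exact ⟨rfl, rfl⟩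
      | succ i ih =>
        intro a
        rw [show a + ((i : ℤ) + 1) * M = a + i * M + M by ring, H.pz_per, H.rr_per]
        exact ih a
      | pred i ih =>
        intro a
        have h1 := H.pz_per (hχ := hχ) (a + (-(i : ℤ) - 1) * M)
        have h2 := H.rr_per (a + (-(i : ℤ) - 1) * M)
        rw [show a + (-(i : ℤ) - 1) * M + M = a + -(i : ℤ) * M by ring] at h1 h2
        rw [← h1, ← h2]
        exact ih a
    have h2 := h1 k
    have e1 : g + ((k + 1 : ℕ) : ℤ) = a + 1 + j * M := by push_cast; linarith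
    have h3 : FA (cm0 hS) (xc hS hχ) (RD S (RR (A + τ) (B + τ) h W (g + k)))
      (pz hχ H (g + ((k + 1 : ℕ) : ℤ))) (pz hχ H (g + k)) := h2
    rw [e1, hj, (perz j _).1, (perz j _).1, (perz j _).2] at h3
    exact h3

include H in
/-- disjoint cells of tiles which are not neighbours -/
theorem dis_cl (hS : GP (S : Set ℂ)) {a c : ℤ} (h0 : ¬ (M : ℤ) ∣ c - a)
    (h1 : ¬ (M : ℤ) ∣ c - a - 1) (h2 : ¬ (M : ℤ) ∣ c - a + 1) :
    Disjoint (cl S (RR (A + τ) (B + τ) h W a)) (cl S (RR (A + τ) (B + τ) h W c)) := by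
  have N := H.N
  have m0 := N.m0
  have mt := N.mτ
  have hA0 : 0 < A' := by have := N.A0; have := N.hA2; linarith
  rw [disjoint_left]
  rintro q ⟨s, sS, sR, rfl⟩ ⟨t, tS, tR, e⟩
  have e1 : t = s := quot_inner hS (H.env.inn s sS (H.hU _ sR)) e.symm
  subst e1
  exact disjoint_left.1 ((dsj_of H.F hA0 N.hAB N.hh) a c h0 h1 h2)
    (rr_sub N.hA2 N.hB2 a sR) (rr_sub N.hA2 N.hB2 c tR)

/-- 117's ring in the direction of the walk, from the gate `o` -/
theorem fring (hS : GP (S : Set ℂ)) (hχ : HullC S χ) (o : ℤ) :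
    Ring (cm0 hS) (xc hS hχ) M (fun k : ℕ => pz hχ H (o - k))
      (fun k : ℕ => RD S (RR (A + τ) (B + τ) h W (o - 1 - k))) where
  even := cfg_isC _
  n3 := by have := H.M5; omega
  perp := fun k => by
    show pz hχ H (o - ((k + M : ℕ) : ℤ)) = pz hχ H (o - k)
    rw [← H.pz_per (hχ := hχ) (o - ((k + M : ℕ) : ℤ))]
    congr 1
    push_cast
    ring
  perR := fun k => by
    show RD S (RR (A + τ) (B + τ) h W (o - 1 - ((k + M : ℕ) : ℤ))) = _
    rw [← H.rr_per (o - 1 - ((k + M : ℕ) : ℤ)), show o - 1 - ((k + M : ℕ) : ℤ) + M = o - 1 - k by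
      push_cast; ring]
  occ := fun k => by
    show χ (y _) + χ (x _) = 1
    rw [H.cy, H.cx, add_zero]
  far := fun k j h1 h2 hm => by
    have h3 := (H.dring hS hχ (o - 1 - k)).far 0 (M + 1 - j) (by omega) (by omega)
    apply h3
    have e1 : o - 1 - k + ((0 + (M + 1 - j) : ℕ) : ℤ) = o - ((k + j : ℕ) : ℤ) + M := by
      rw [zero_add, Nat.cast_sub (by omega)]
      push_cast
      ring
    show y (o - 1 - k + ((0 + (M + 1 - j) : ℕ) : ℤ)) ∈ RR (A + τ) (B + τ) h W (o - 1 - k + ((0 : ℕ) : ℤ))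
    rw [e1, H.pery, Nat.cast_zero, add_zero]
    exact hm.1
  arc := fun k => by
    left
    have h1 := H.back hS hχ (o - 1 - k)
    rw [show o - 1 - (k : ℤ) + 1 = o - k by ring] at h1
    show FA _ _ (RD S (RR (A + τ) (B + τ) h W (o - 1 - k))) (pz hχ H (o - k))
      (pz hχ H (o - ((k + 1 : ℕ) : ℤ)))
    rw [show o - ((k + 1 : ℕ) : ℤ) = o - 1 - k by push_cast; ring]
    exact h1

/-- **355's ring loop with gate times** -/
theorem rl (hS : GP (S : Set ℂ)) (hχ : HullC S χ) (o : ℤ) :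
    ∃ (N : ℕ) (T : ℕ → ℕ),
      RL (cm0 hS) (cfg (cm0 hS) (lift S hχ)) (pz hχ H o) N M T
        (fun k => cl S (RR (A + τ) (B + τ) h W (o - 1 - k))) ∧
      (∀ k, P (cm0 hS) (cfg (cm0 hS) (lift S hχ)) (pz hχ H o) (T k) = pz hχ H (o - k)) ∧
      ∀ k t, T k ≤ t → t ≤ T (k + 1) →
        P (cm0 hS) (cfg (cm0 hS) (lift S hχ)) (pz hχ H o) t ∈
          RD S (RR (A + τ) (B + τ) h W (o - 1 - k)) := by
  have R := H.fring hS hχ o
  have e0 : pz hχ H (o - ((0 : ℕ) : ℤ)) = pz hχ H o := by rw [Nat.cast_zero, sub_zero]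
  have hf : ∀ k : ℕ, FA (cm0 hS) (xc hS hχ) (RD S (RR (A + τ) (B + τ) h W (o - 1 - k)))
      (pz hχ H (o - k)) (pz hχ H (o - ((k + 1 : ℕ) : ℤ))) := by
    intro k
    have h1 := H.back hS hχ (o - 1 - k)
    rw [show o - 1 - (k : ℤ) + 1 = o - k by ring] at h1
    rw [show o - ((k + 1 : ℕ) : ℤ) = o - 1 - k by push_cast; ring]
    exact h1
  obtain ⟨T, L, T0, Ts, Tlt, Tp, TR⟩ := R.fwd hf
  simp only [e0] at L Tp TR
  have Tper : ∀ k, T (k + M) = T k + T M := by
    intro k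
    induction k with
    | zero => rw [zero_add, T0, zero_add]
    | succ k ih =>
      have h1 := Ts (k + M)
      have h2 := Ts k
      have p1 := R.perp k
      have p2 := R.perp (k + 1)
      have e1 : k + 1 + M = k + M + 1 := by omega
      simp only [e1] at p2
      rw [p1, p2] at h1
      rw [e1, h1, ih, h2]
      omega
  refine ⟨T M, T, ⟨⟨L.even, L.occ, L.pos, L.per, fun a b hab hb => L.inj a b hab hb⟩,
    strictMono_nat_of_lt_succ Tlt, T0, Tper, fun k u h1 h2 => ?_, fun k => ?_, fun k j h1 h2 => ?_⟩,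
    Tp, TR⟩
  · have h3 := TR k u h1 h2.le
    refine ⟨_, ?_, h3.1, rfl⟩
    exact (mem_delT.1 (th_spec ((stp (cm0 hS) (xc hS hχ))^[u] (pz hχ H o)).2)).1
  · show cl S (RR (A + τ) (B + τ) h W (o - 1 - ((k + M : ℕ) : ℤ))) = _
    rw [← H.rr_per (o - 1 - ((k + M : ℕ) : ℤ)), show o - 1 - ((k + M : ℕ) : ℤ) + M = o - 1 - k by
      push_cast; ring]
  · refine H.dis_cl hS ?_ ?_ ?_
    · exact not_dvd_of (by push_cast; omega) (by push_cast; omega) (by push_cast; omega)
    · exact not_dvd_of (by push_cast; omega) (by push_cast; omega) (by push_cast; omega)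
    · exact not_dvd_of (by push_cast; omega) (by push_cast; omega) (by push_cast; omega)

end Clo

end Crest.Agent.R143.RingIx503
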