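import Crest.Agent.R143.WLoc9_713

/-!
# Row 143 (S0194), CORE-C block V, box R3 (helper713): charges and tile events between neck gates,
measurable, local and covariant under similarities

* `zC f W St En X` : charge (117's `ZZ`) of the block path between the selected darts `St`, `En`
* `LG g Q X p` : `p` is the least gate dart of `X ∩ ovr Q` in the order of the coordinates of the gate
* `TC A St En X` : 921's tile event
* `zC_fme`, `zC_cut`, `zC_eq`, `zz_zC` ; `LG_ginv`, `LG.uniq`, `LG_exists`, `LG_cut` ; `TC_fme`, `TC_cut`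
* `mv c v X` : the configuration moved by `z ↦ c z + v`; `zC_mv`, `LG_mv`, `TC_mv`, `Nn_mv`
-/

set_option autoImplicit false
set_option linter.all false

noncomputable section

open scoped Classical

namespace Crest.Agent.R143.WLocx713

open Set MeasureTheory
open Crest.Agent.R143.B0x346 Crest.Agent.R143.DelGx806 Crest.Agent.R143.DelRx806
  Crest.Agent.R143.JColx54
open Crest.Agent.R143.Frame1x395 Crest.Agent.R143.Frame3x395 Crest.Agent.R143.Frame8x395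
  Crest.Agent.R143.Frame10x395 Crest.Agent.R143.Locx922
open Crest.Agent.R143.Frame5x395 (sd mem_sd th th_spec)
open Crest.Agent.R143.Splx117
open Crest.Agent.R143.Blkx838 (DE)
open Crest.Agent.R143.ToolWx838 (prs)
open Crest.Agent.R143.Neckx921 (Neck NeckD Tile Lk)
open Crest.Agent.R143.PP0x831 Crest.Agent.R143.Poisx304 Crest.Agent.R143.Janx304
open Crest.Agent.R143.Prodx609 Crest.Agent.R143.FinMx609 Crest.Agent.R143.FinM2x609

/-! ### the charge between selected darts -/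

/-- counted gaps between the selected darts -/
def pC (W : Set ℂ) (St En : Set (ℂ × Bool) → ℂ × ℂ → Prop) (X : Set (ℂ × Bool))
    (t : ℂ × ℂ × ℂ) : Prop :=
  X.Finite ∧ U3 (sX X) ∧ ∃ p q, St X p ∧ En X q ∧ CZ (sX X) (cX X) W p q t

/-- **the charge of the block path between the selected darts** -/
def zC (f : ℂ × ℂ × ℂ → ℂ) (W : Set ℂ) (St En : Set (ℂ × Bool) → ℂ × ℂ → Prop)
    (X : Set (ℂ × Bool)) : ℂ :=
  ∑ᶠ (t : ℂ × ℂ × ℂ) (_ : pC W St En X t), f t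

section

variable {ι κ : Type*} [Finite ι] [Finite κ] {U : ι → Set ℂ} {R : κ → ℂ × ℂ × ℂ → Prop}
  {St En : Set (ℂ × Bool) → ℂ × ℂ → Prop} {X : Set (ℂ × Bool)} {W : Set ℂ} {d : ℝ}

/-- **measurability** -/
theorem zC_fme (hU : ∀ a, MeasurableSet (U a)) (hR : ∀ a, MeasurableSet {t | R a t})
    (hSt : GInv U R St) (hEn : GInv U R En) (w : ι) {f : ℂ × ℂ × ℂ → ℂ} (hf : Measurable f) :
    FMe (zC f (U w) St En) := by
  refine fme_sum hU hR (P := pC (U w) St En) ?_ ?_ hf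
  · rintro X t ⟨hX, -, p, q, -, -, h⟩
    exact ps_of_del hX h.mem
  · rintro X X' hX hX' e he x hx y hy v hv ⟨-, h3, p, r, hp, hr, h⟩
    refine ⟨hX', iso_u3 hX hX' he h3, mp e p, mp e r, hSt.tr X X' hX hX' e he p hp,
      hEn.tr X X' hX hX' e he r hr, ?_⟩
    exact iso_cz hX hX' he h3 (hSt.mem X p hp).1 (hSt.mem X p hp).2 (hEn.mem X r hr).1
      (hEn.mem X r hr).2 h

/-- **value** -/
theorem zC_eq (hX : X.Finite) (hS : GP (ps X)) {p q : ℂ × ℂ} (hp : St X p) (hq : En X q)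
    (up : ∀ r, St X r → r = p) (uq : ∀ r, En X r → r = q) (f : ℂ × ℂ × ℂ → ℂ) :
    zC f W St En X = zzp (sX X) (cX X) f W p q := by
  have hS' : GP (sX X : Set ℂ) := by rw [coe_sX hX]; exact hS
  unfold zC zzp
  rw [← Finset.sum_filter, ← finsum_mem_coe_finset]
  refine finsum_congr fun t => finsum_congr_Prop ?_ fun _ => rfl
  rw [Finset.mem_coe, Finset.mem_filter]
  apply propext
  constructor
  · rintro ⟨-, -, p', q', hp', hq', h⟩
    rw [up _ hp', uq _ hq'] at h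
    exact ⟨h.mem, h⟩
  · rintro ⟨-, h⟩
    exact ⟨hX, u3_of_gp hS', p, q, hp, hq, h⟩

/-- **117's `ZZ` is `zC`** -/
theorem zz_zC (hX : X.Finite) (hS : GP (sX X : Set ℂ)) (hχ : HullC (sX X) (cX X))
    {p q : D0 (sX X)} (hp : xc hS hχ p = 1) (hq : xc hS hχ q = 1) (hp' : St X p.1)
    (hq' : En X q.1) (up : ∀ r, St X r → r = p.1) (uq : ∀ r, En X r → r = q.1)
    (hW : ∀ v ∈ W, v ∈ sX X → ¬ OnHull (sX X) v) {f : ℂ × ℂ × ℂ → ℂ}
    {w : D0 (sX X) → ℂ} (hw : ∀ e : D0 (sX X), e.1.2 ∈ W → th (sX X) e.1 ∈ W →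
      w e = f (e.1.2, th (sX X) e.1, e.1.1)) :
    ZZ (cm0 hS) (xc hS hχ) w (RingDx117.RD (sX X) W) p q = zC f W St En X := by
  have h1 := zz_eq' hS hχ hp hq hW hw
  rw [zC_eq hX (by rw [← coe_sX hX]; exact hS) hp' hq' up uq f, ← h1]
  rfl

/-- **locality** -/
theorem zC_cut (hX : X.Finite) (hS : GP (ps X)) (hχ : HullC (sX X) (cX X)) (hd : 0 < d)
    (hH : Hol (ps X) W d) {R : Set ℂ} (hR : ∀ w ∈ W, ∀ s, ‖s - w‖ < 2 * d → s ∈ R)
    (hSt : ∀ p, St (X ∩ ovr R) p ↔ St X p) (hEn : ∀ p, En (X ∩ ovr R) p ↔ En X p)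
    (ho : ∀ p, St X p → Occ (sX X) (cX X) p)
    (ho' : ∀ p, En X p → Occ (sX X) (cX X) p) (f : ℂ × ℂ × ℂ → ℂ) :
    zC f W St En (X ∩ ovr R) = zC f W St En X := by
  have hS' : GP (sX X : Set ℂ) := by rw [coe_sX hX]; exact hS
  have hY : (X ∩ ovr R).Finite := hX.subset inter_subset_left
  have hc : (sX (X ∩ ovr R) : Set ℂ) = ps X ∩ R := by rw [coe_sX hY, ps_inter]
  have hSY : GP (sX (X ∩ ovr R) : Set ℂ) := by
    rw [hc]
    exact Locx922.GP.mono hS inter_subset_left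
  have hH' : Hol (sX X : Set ℂ) W d := by rw [coe_sX hX]; exact hH
  have hA : Agr (sX X : Set ℂ) (sX (X ∩ ovr R) : Set ℂ) W (2 * d) := by
    intro w hw s hs
    rw [hc, coe_sX hX]
    exact ⟨fun h => ⟨h, hR w hw s hs⟩, fun h => h.1⟩
  have hC : CAgr (sX X) (cX X) (cX (X ∩ ovr R)) W (2 * d) := by
    intro w hw v _ hvw
    rw [cX_inter (hR w hw v hvw)]
  unfold zC
  refine finsum_congr fun t => finsum_congr_Prop ?_ fun _ => rfl
  unfold pC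
  apply propext
  constructor
  · rintro ⟨-, -, p, q, hp, hq, h⟩
    rw [hSt] at hp
    rw [hEn] at hq
    exact ⟨hX, u3_of_gp hS', p, q, hp, hq,
      (cz_loc hS' hSY hχ hd hH' hA hC (ho p hp) (ho' q hq) t).1 h⟩
  · rintro ⟨-, -, p, q, hp, hq, h⟩
    exact ⟨hY, u3_of_gp hSY, p, q, (hSt p).2 hp, (hEn q).2 hq,
      (cz_loc hS' hSY hχ hd hH' hA hC (ho p hp) (ho' q hq) t).2 h⟩

end

/-! ### selected gate darts -/

/-- coordinates of the gate -/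
def nrm (g : GPar) (s : ℂ) : ℂ := (s - g.z0) / g.e

/-- the least gate dart of `X ∩ ovr Q` in the order of the coordinates of the gate -/
def LG (g : GPar) (Q : Set ℂ) (X : Set (ℂ × Bool)) (p : ℂ × ℂ) : Prop :=
  NG g (X ∩ ovr Q) p ∧ ∀ q, NG g (X ∩ ovr Q) q → q = p ∨ dlt (mp (nrm g) p) (mp (nrm g) q)

theorem LG.uniq {g : GPar} {Q : Set ℂ} {X : Set (ℂ × Bool)} {p q : ℂ × ℂ} (hp : LG g Q X p)
    (hq : LG g Q X q) : q = p := by
  rcases hp.2 q hq.1 with h | h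
  · exact h
  rcases hq.2 p hp.1 with h' | h'
  · exact h'.symm
  · exact absurd (dlt_trans h h') (dlt_irrefl _)

theorem nrm_inj {g : GPar} (he : g.e ≠ 0) : Function.Injective (nrm g) := by
  intro a b h
  unfold nrm at h
  rw [div_left_inj' he] at h
  exact sub_left_injective h

theorem mp_inj {f : ℂ → ℂ} (hf : Function.Injective f) {p q : ℂ × ℂ} (h : mp f p = mp f q) :
    p = q := Prod.ext (hf (congrArg Prod.fst h)) (hf (congrArg Prod.snd h))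

/-- the selected gate dart exists iff there is a neck -/
theorem LG_exists {g : GPar} (he : g.e ≠ 0) {Q : Set ℂ} {X : Set (ℂ × Bool)} (hX : X.Finite) :
    (∃ p, LG g Q X p) ↔ ∃ p, NG g (X ∩ ovr Q) p := by
  refine ⟨fun ⟨p, hp⟩ => ⟨p, hp.1⟩, fun h => ?_⟩
  obtain ⟨p0, hp0⟩ := h
  have hf : {r | ∃ p, NG g (X ∩ ovr Q) p ∧ r = mp (nrm g) p}.Finite := by
    refine ((NX_fin (z0 := g.z0) (e := g.e) (a0 := g.a0) (a1 := g.a1) (b0 := g.b0) (b1 := g.b1)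
      (m := g.m) (hX.subset (inter_subset_left (t := ovr Q)))).image (mp (nrm g))).subset ?_
    rintro r ⟨p, hp, rfl⟩
    exact ⟨p, hp, rfl⟩
  obtain ⟨r, ⟨p, hp, rfl⟩, hr⟩ := exists_least
    (G := fun r => ∃ p, NG g (X ∩ ovr Q) p ∧ r = mp (nrm g) p) hf ⟨_, p0, hp0, rfl⟩
  refine ⟨p, hp, fun q hq => ?_⟩
  rcases hr _ ⟨q, hq, rfl⟩ with h | h
  · exact Or.inl (mp_inj (nrm_inj he) h)
  · exact Or.inr h

/-- the order of the gate -/
def RG (g : GPar) (t : ℂ × ℂ × ℂ) : Prop := lexlt (nrm g t.1) (nrm g t.2.1)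

theorem RG_meas (g : GPar) : MeasurableSet {t | RG g t} := by
  have h : Measurable (nrm g) := by unfold nrm; fun_prop
  have h1 : Measurable fun t : ℂ × ℂ × ℂ => (nrm g t.1, nrm g t.2.1, nrm g t.2.2) :=
    (h.comp measurable_fst).prodMk ((h.comp (measurable_fst.comp measurable_snd)).prodMk
      (h.comp (measurable_snd.comp measurable_snd)))
  exact h1 meas_lexlt

section

variable {ι κ : Type*} [Finite ι] [Finite κ] {U : ι → Set ℂ} {R : κ → ℂ × ℂ × ℂ → Prop}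

/-- **the selected gate dart is transported** -/
theorem LG_ginv (hcl : ICl U) {g : GPar} {Q : Set ℂ} (hU : ∀ i, ∃ a, U a = g.U i)
    (hQ : ∃ a, U a = Q) (hR : ∃ k, R k = RG g) : GInv U R (LG g Q) := by
  obtain ⟨a, rfl⟩ := hQ
  obtain ⟨k, hk⟩ := hR
  have h0 : GInv U R (NG g) := neck_ginv hU
  have h1 := h0.restrict hcl a
  refine ⟨fun X p hp => h1.mem X p hp.1, fun X X' hX hX' e he p hp => ?_⟩
  have mp0 := h1.mem X p hp.1
  have lx : ∀ u v, u ∈ ps X → v ∈ ps X →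
      (lexlt (nrm g u) (nrm g v) ↔ lexlt (nrm g (e u)) (nrm g (e v))) := by
    intro u v hu hv
    have := he.rel u hu v hv u hu k
    rw [hk] at this
    exact this
  refine ⟨h1.tr X X' hX hX' e he p hp.1, fun q' hq' => ?_⟩
  obtain ⟨m1, m2⟩ := h1.mem X' q' hq'
  obtain ⟨u, hu, hu'⟩ := he.bij.surjOn m1
  obtain ⟨v, hv, hv'⟩ := he.bij.surjOn m2
  have e1 : q' = mp e (u, v) := Prod.ext hu'.symm hv'.symm
  subst e1
  have h2 := (h1.iff hX hX' he (p := (u, v)) hu hv).2 hq'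
  rcases hp.2 _ h2 with h3 | h3
  · exact Or.inl (by rw [h3])
  · right
    unfold dlt at h3 ⊢
    rcases h3 with h3 | ⟨h3, h4⟩
    · exact Or.inl ((lx _ _ mp0.1 hu).1 h3)
    · by_cases hc : p.1 = u
      · right
        refine ⟨by show nrm g (e p.1) = nrm g (e u); rw [hc], (lx _ _ mp0.2 hv).1 h4⟩
      · -- different sites with the same coordinate: impossible unless `e = 0`
        right
        have he0 : g.e = 0 := by
          by_contra h0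
          exact hc (nrm_inj h0 h3)
        refine ⟨?_, (lx _ _ mp0.2 hv).1 h4⟩
        show nrm g (e p.1) = nrm g (e u)
        unfold nrm
        rw [he0, div_zero, div_zero]

end

theorem ovr_ovr {X : Set (ℂ × Bool)} {R A : Set ℂ} (hA : A ⊆ R) : X ∩ ovr R ∩ ovr A = X ∩ ovr A := by
  rw [inter_assoc]
  congr 1
  ext v
  exact ⟨fun h => h.2, fun h => ⟨hA h, h⟩⟩

theorem LG_cut {g : GPar} {Q R : Set ℂ} (hQ : Q ⊆ R) {X : Set (ℂ × Bool)} (p : ℂ × ℂ) :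
    LG g Q (X ∩ ovr R) p ↔ LG g Q X p := by
  unfold LG
  rw [ovr_ovr hQ]

theorem LG_occ {g : GPar} {Q : Set ℂ} {X : Set (ℂ × Bool)} {d : ℝ} (hX : X.Finite)
    (hχ : HullC (sX X) (cX X)) (hd : 0 < d) (hH : Hol (ps X) g.win d)
    (hQ : ∀ w ∈ g.win, ∀ s, ‖s - w‖ < 2 * d → s ∈ Q) {p : ℂ × ℂ} (hp : LG g Q X p) :
    Occ (sX X) (cX X) p := neck_occ hX hχ ((NX_cut hX hd hH hQ).1 hp.1)

theorem LG_neck {g : GPar} {Q : Set ℂ} {X : Set (ℂ × Bool)} {d : ℝ} (hX : X.Finite)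
    (hd : 0 < d) (hH : Hol (ps X) g.win d)
    (hQ : ∀ w ∈ g.win, ∀ s, ‖s - w‖ < 2 * d → s ∈ Q) {p : ℂ × ℂ} (hp : LG g Q X p) :
    NeckD (sX X) g.z0 g.e g.a0 g.a1 g.b0 g.b1 g.m (sX X) (bX X) p.1 p.2 :=
  ((NX_cut hX hd hH hQ).1 hp.1).2

/-! ### 921's tile event -/

/-- **tile event** -/
def TC (A : Set ℂ) (St En : Set (ℂ × Bool) → ℂ × ℂ → Prop) (X : Set (ℂ × Bool)) : Prop :=
  X.Finite ∧ ∃ p q, St X p ∧ En X q ∧ Tile (sX X) (sX X) (bX X) A p.1 p.2 q.1 q.2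

/-- links are transported -/
theorem iso_lk {ι κ : Type*} [Finite ι] [Finite κ] {U : ι → Set ℂ} {R : κ → ℂ × ℂ × ℂ → Prop}
    {X X' : Set (ℂ × Bool)} {e : ℂ → ℂ} (hX : X.Finite) (hX' : X'.Finite)
    (he : PIso U R X X' e) {A A' : Set ℂ} (hA : ∀ s ∈ ps X, s ∈ A → e s ∈ A') {u v : ℂ}
    (hu : u ∈ ps X) (hv : v ∈ ps X) (h : Lk (sX X) A u v) : Lk (sX X') A' (e u) (e v) := by
  obtain ⟨⟨h1, h2⟩, h⟩ := h
  refine ⟨⟨hA u hu h1, hA v hv h2⟩, ?_⟩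
  clear h1 h2 hv
  induction h with
  | refl => exact .refl
  | tail _ h ih =>
    obtain ⟨h3, h4, h5⟩ := h
    obtain ⟨m1, m2⟩ := de_ps hX h3
    exact ih.tail ⟨iso_de hX hX' he h3, hA _ m1 h4, hA _ m2 h5⟩

theorem iso_tile {ι κ : Type*} [Finite ι] [Finite κ] {U : ι → Set ℂ} {R : κ → ℂ × ℂ × ℂ → Prop}
    {X X' : Set (ℂ × Bool)} {e : ℂ → ℂ} (hX : X.Finite) (hX' : X'.Finite)
    (he : PIso U R X X' e) {A A' : Set ℂ} (hA : ∀ s ∈ ps X, s ∈ A → e s ∈ A') {p q : ℂ × ℂ}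
    (h1 : p.1 ∈ ps X) (h2 : p.2 ∈ ps X) (h3 : q.1 ∈ ps X) (h4 : q.2 ∈ ps X)
    (h : Tile (sX X) (sX X) (bX X) A p.1 p.2 q.1 q.2) :
    Tile (sX X') (sX X') (bX X') A' (e p.1) (e p.2) (e q.1) (e q.2) := by
  refine ⟨iso_lk hX hX' he ?_ h1 h3 h.1, iso_lk hX hX' he ?_ h2 h4 h.2⟩
  · rintro s hs ⟨h5, h6⟩
    exact ⟨(iso_bX hX hX' he hs).1 h5, hA s hs h6⟩
  · rintro s hs ⟨⟨h5, h6⟩, h7⟩
    exact ⟨⟨(iso_sX hX hX' he hs).1 h5, fun h => h6 ((iso_bX hX hX' he hs).2 h)⟩, hA s hs h7⟩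

section

variable {ι κ : Type*} [Finite ι] [Finite κ] {U : ι → Set ℂ} {R : κ → ℂ × ℂ × ℂ → Prop}
  {St En : Set (ℂ × Bool) → ℂ × ℂ → Prop} {X : Set (ℂ × Bool)} {A : Set ℂ} {d : ℝ}

theorem TC_fme (hU : ∀ a, MeasurableSet (U a)) (hR : ∀ a, MeasurableSet {t | R a t})
    (hSt : GInv U R St) (hEn : GInv U R En) (a : ι) : FMe (TC (U a) St En) := by
  refine finMeas_iso hU hR (P := TC (U a) St En) ?_
  rintro X X' hX hX' e he ⟨-, p, r, hp, hr, h⟩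
  exact ⟨hX', mp e p, mp e r, hSt.tr X X' hX hX' e he p hp, hEn.tr X X' hX hX' e he r hr,
    iso_tile hX hX' he (fun s hs h => (he.loc s hs a).1 h) (hSt.mem X p hp).1 (hSt.mem X p hp).2
      (hEn.mem X r hr).1 (hEn.mem X r hr).2 h⟩

theorem lk_congr {S S' : Finset ℂ} {B B' : Set ℂ}
    (h : ∀ u v, (DE S u v ∧ u ∈ B ∧ v ∈ B) ↔ (DE S' u v ∧ u ∈ B' ∧ v ∈ B'))
    (hB : ∀ u, u ∈ B ↔ u ∈ B') {u v : ℂ} : Lk S B u v ↔ Lk S' B' u v := by
  have e : (fun u v => DE S u v ∧ u ∈ B ∧ v ∈ B) = fun u v => DE S' u v ∧ u ∈ B' ∧ v ∈ B' := by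
    funext a b
    exact propext (h a b)
  unfold Neckx921.Lk
  rw [e, hB u, hB v]

/-- **locality of the tile event** -/
theorem TC_cut (hX : X.Finite) (hd : 0 < d) (hH : Hol (ps X) A d) {R : Set ℂ}
    (hR : ∀ w ∈ A, ∀ s, ‖s - w‖ < 2 * d → s ∈ R)
    (hSt : ∀ p, St (X ∩ ovr R) p ↔ St X p) (hEn : ∀ p, En (X ∩ ovr R) p ↔ En X p) :
    TC A St En (X ∩ ovr R) ↔ TC A St En X := by
  have hY : (X ∩ ovr R).Finite := hX.subset inter_subset_left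
  have hc : (sX (X ∩ ovr R) : Set ℂ) = ps X ∩ R := by rw [coe_sX hY, ps_inter]
  have hH' : Hol (sX X : Set ℂ) A d := by rw [coe_sX hX]; exact hH
  have hA : Agr (sX X : Set ℂ) (sX (X ∩ ovr R) : Set ℂ) A (2 * d) := by
    intro w hw s hs
    rw [hc, coe_sX hX]
    exact ⟨fun h => ⟨h, hR w hw s hs⟩, fun h => h.1⟩
  have hwR : ∀ s ∈ A, s ∈ R := fun s hs => hR s hs s (by simpa using hd)
  have mS : ∀ s ∈ A, (s ∈ sX X ↔ s ∈ sX (X ∩ ovr R)) := by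
    intro s hs
    rw [mem_sX hX, mem_sX hY, ps_inter]
    exact ⟨fun h => ⟨h, hwR s hs⟩, fun h => h.1⟩
  have mB : ∀ s ∈ A, (s ∈ bX X ↔ s ∈ bX (X ∩ ovr R)) := by
    intro s hs
    rw [mem_bX hX, mem_bX hY, ps_inter, cX_inter (hwR s hs)]
    exact ⟨fun h => ⟨⟨h.1, hwR s hs⟩, h.2⟩, fun h => ⟨h.1.1, h.2⟩⟩
  have key : ∀ (B B' : Set ℂ), (∀ u, u ∈ B ↔ u ∈ B') → (∀ u ∈ B, u ∈ A) → ∀ u v,
      (Lk (sX (X ∩ ovr R)) B' u v ↔ Lk (sX X) B u v) := by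
    intro B B' hB hBA u v
    refine (lk_congr (fun a b => ?_) hB).symm
    constructor
    · rintro ⟨h1, h2, h3⟩
      exact ⟨(de_loc hd hH' hA (hBA a h2)).1 h1, (hB a).1 h2, (hB b).1 h3⟩
    · rintro ⟨h1, h2, h3⟩
      have h2' := (hB a).2 h2
      exact ⟨(de_loc hd hH' hA (hBA a h2')).2 h1, h2', (hB b).2 h3⟩
  unfold TC Neckx921.Tile
  have k1 := key {s | s ∈ bX X ∧ s ∈ A} {s | s ∈ bX (X ∩ ovr R) ∧ s ∈ A}
    (fun u => by
      constructor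
      · rintro ⟨h1, h2⟩; exact ⟨(mB u h2).1 h1, h2⟩
      · rintro ⟨h1, h2⟩; exact ⟨(mB u h2).2 h1, h2⟩) (fun u h => h.2)
  have k2 := key {s | (s ∈ sX X ∧ s ∉ bX X) ∧ s ∈ A}
    {s | (s ∈ sX (X ∩ ovr R) ∧ s ∉ bX (X ∩ ovr R)) ∧ s ∈ A}
    (fun u => by
      constructor
      · rintro ⟨⟨h1, h3⟩, h2⟩; exact ⟨⟨(mS u h2).1 h1, fun h => h3 ((mB u h2).2 h)⟩, h2⟩
      · rintro ⟨⟨h1, h3⟩, h2⟩; exact ⟨⟨(mS u h2).2 h1, fun h => h3 ((mB u h2).1 h)⟩, h2⟩)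
    (fun u h => h.2)
  constructor
  · rintro ⟨-, p, q, hp, hq, h⟩
    exact ⟨hX, p, q, (hSt p).1 hp, (hEn q).1 hq, (k1 _ _).1 h.1, (k2 _ _).1 h.2⟩
  · rintro ⟨-, p, q, hp, hq, h⟩
    exact ⟨hY, p, q, (hSt p).2 hp, (hEn q).2 hq, (k1 _ _).2 h.1, (k2 _ _).2 h.2⟩

end

/-! ### measurability for neck gates -/

/-- the two orders -/
def RT (g g' : GPar) : Bool → ℂ × ℂ × ℂ → Prop := fun b => bif b then RG g else RG g'

theorem RT_meas (g g' : GPar) : ∀ b, MeasurableSet {t | RT g g' b t}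
  | true => RG_meas g
  | false => RG_meas g'

theorem UT_LG {W A Q Q' : Set ℂ} (g g' : GPar) :
    GInv (UC (UT W A Q Q' g g')) (RT g g') (LG g Q) :=
  LG_ginv (UC_cl _) (fun i => ⟨{Sum.inr (Sum.inl i)}, by rw [UC_single]; rfl⟩)
    ⟨{Sum.inl 2}, by rw [UC_single]; rfl⟩ ⟨true, rfl⟩

theorem UT_LG' {W A Q Q' : Set ℂ} (g g' : GPar) :
    GInv (UC (UT W A Q Q' g g')) (RT g g') (LG g' Q') :=
  LG_ginv (UC_cl _) (fun i => ⟨{Sum.inr (Sum.inr i)}, by rw [UC_single]; rfl⟩)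
    ⟨{Sum.inl 3}, by rw [UC_single]; rfl⟩ ⟨false, rfl⟩

/-- **measurability of the charge between two neck gates** -/
theorem zC_neck_fme {W Q Q' : Set ℂ} (hW : MeasurableSet W) (hQ : MeasurableSet Q)
    (hQ' : MeasurableSet Q') (g g' : GPar) {f : ℂ × ℂ × ℂ → ℂ} (hf : Measurable f) :
    FMe (zC f W (LG g Q) (LG g' Q')) := by
  have h := zC_fme (UC_meas (UT_meas hW hW hQ hQ' g g')) (RT_meas g g')
    (UT_LG (W := W) (A := W) (Q' := Q') g g') (UT_LG' (W := W) (A := W) (Q := Q) g g')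
    {Sum.inl 0} hf
  rw [UC_single] at h
  exact h

/-- **measurability of the tile event** -/
theorem TC_neck_fme {A Q Q' : Set ℂ} (hA : MeasurableSet A) (hQ : MeasurableSet Q)
    (hQ' : MeasurableSet Q') (g g' : GPar) : FMe (TC A (LG g Q) (LG g' Q')) := by
  have h := TC_fme (UC_meas (UT_meas hA hA hQ hQ' g g')) (RT_meas g g')
    (UT_LG (W := A) (A := A) (Q' := Q') g g') (UT_LG' (W := A) (A := A) (Q := Q) g g')
    {Sum.inl 0}
  rw [UC_single] at h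
  exact h

end Crest.Agent.R143.WLocx713
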