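import Crest.Agent.R143.PotP_263
import Crest.Agent.R143.Spt_832

/-!
# Row 143 (S0194), block H (helper263): gate times, regions and charges of a closed ring of tubes

`R : DRing hS hχ n y z A B p` (117), all arcs forward.
* `DRing.shift` : the ring with the base gate `a`
* `QR S n B Q` : regions of the centres, `n`-periodic (832's `QReg` for a closed ring)
* **`DRing.times`** : gate times `T` with `RQ` (`PotP_263`: cut property, regions `FR S Q`), `RL` (355's
  `Win_355`, tiles `RgC S (B k)`), `P (T k) = p k`, confinement, `KS = ZZ`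
* `DRing.vg` : `Vg .. l = ∑_{k < n} ZZ (rst φ (FR S Q l)) (RD S (B k)) (p k) (p (k + 1))`
-/

set_option autoImplicit false

noncomputable section

open scoped Classical

namespace Crest.Agent.R143.RingTx263

open Crest.Agent.R143.B0x346 Crest.Agent.R143.DelGx806 Crest.Agent.R143.DelRx806
  Crest.Agent.R143.JColx54
open Crest.Agent.R143.Frame1x395 Crest.Agent.R143.Frame2x395 Crest.Agent.R143.Frame3x395
  Crest.Agent.R143.Frame4x395 Crest.Agent.R143.Frame8x395 Crest.Agent.R143.Frame9x395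
  Crest.Agent.R143.Frame10x395 Crest.Agent.R143.Frame11x395 Crest.Agent.R143.NonXx592
open Crest.Agent.R143.Frame5x395 (sd mem_sd th th_spec)
open Crest.Agent.R143.Splx117 Crest.Agent.R143.RingDx117 Crest.Agent.R143.WLocx713
open Crest.Agent.R143.FinMx609 Crest.Agent.R143.Prodx609 Crest.Agent.R143.Sptx169
  Crest.Agent.R143.Sptx832
open Crest.Agent.R143.Winx355 Crest.Agent.R143.PotKx263 Crest.Agent.R143.PotPx263

variable {S : Finset ℂ} {χ : ℂ → ZMod 2} {hS : GP (S : Set ℂ)} {hχ : HullC S χ} {n : ℕ}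
  {y z : ℕ → ℂ} {A B : ℕ → Set ℂ} {p : ℕ → D0 S}

/-- the ring with the base gate `a` -/
theorem shift (R : DRing hS hχ n y z A B p) (a : ℕ) :
    DRing hS hχ n (fun k => y (a + k)) (fun k => z (a + k)) (fun k => A (a + k))
      (fun k => B (a + k)) (fun k => p (a + k)) where
  n3 := R.n3
  pery k := by
    show y (a + (k + n)) = y (a + k)
    rw [← Nat.add_assoc, R.pery]
  perz k := by
    show z (a + (k + n)) = z (a + k)
    rw [← Nat.add_assoc, R.perz]
  perA k := by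
    show A (a + (k + n)) = A (a + k)
    rw [← Nat.add_assoc, R.perA]
  perB k := by
    show B (a + (k + n)) = B (a + k)
    rw [← Nat.add_assoc, R.perB]
  st k := R.st _
  col k := R.col _
  innA k := R.innA _
  innB k := R.innB _
  link k := R.link (a + k)
  mem0 k := R.mem0 _
  mem1 k := R.mem1 (a + k)
  ne k := R.ne (a + k)
  dis k j h1 h2 := by
    have := R.dis (a + k) j h1 h2
    rwa [Nat.add_assoc] at this
  far k j h1 h2 := by
    have := R.far (a + k) j h1 h2
    rwa [Nat.add_assoc] at this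
  cross k := R.cross (a + k)
  conf k := R.conf (a + k)

/-- regions of the centres of a closed ring -/
structure QR (S : Finset ℂ) (n : ℕ) (B Q : ℕ → Set ℂ) : Prop where
  per : ∀ l, Q (l + n) = Q l
  dis : ∀ l j, 0 < j → j < n → Disjoint (Q l) (Q (l + j))
  cov : ∀ k a b c, (a, b, c) ∈ delT S → a ∈ B k → b ∈ B k →
    ∃ j, j ≤ 2 ∧ cen3 (a, b, c) ∈ Q (k + (n - 1) + j)

/-- gap darts whose face has its centre in `Q l` -/
def FR (S : Finset ℂ) (Q : ℕ → Set ℂ) (l : ℕ) : Set (D0 S) :=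
  {e | cen3 (e.1.2, th S e.1, e.1.1) ∈ Q l}

/-- cells of the sites of `B` -/
def RgC (S : Finset ℂ) (B : Set ℂ) : Set (Quot (hullE S)) := {c | ∃ v ∈ S, v ∈ B ∧ Quot.mk _ v = c}

theorem gp_FR (hS : GP (S : Set ℂ)) {Q : ℕ → Set ℂ} {l : ℕ} (P : D0 S) :
    (cm0 hS).rho ((cm0 hS).rho P) ∈ FR S Q l ↔ cen3 (P.1.1, P.1.2, th S P.1) ∈ Q l := by
  obtain ⟨e1, e2, e3⟩ := rr_form hS P
  show cen3 (_, _, _) ∈ Q l ↔ _
  rw [e1, e2, e3]

theorem rgc_disj (hS : GP (S : Set ℂ)) {B B' : Set ℂ} (hB : ∀ v ∈ S, v ∈ B → ¬ OnHull S v) (hd : Disjoint B B') :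
    Disjoint (RgC S B) (RgC S B') := by
  rw [Set.disjoint_left]
  rintro c ⟨v, hv, hvB, rfl⟩ ⟨v', -, hv', e⟩
  have h1 : v' = v := quot_inner hS (hB v hv hvB) e.symm
  subst h1
  exact Set.disjoint_left.1 hd hvB hv'

/-- **gate times of a ring of tubes** -/
theorem times (R : DRing hS hχ n y z A B p)
    (hf : ∀ k, FA (cm0 hS) (xc hS hχ) (RD S (B k)) (p k) (p (k + 1))) {Q : ℕ → Set ℂ}
    (H : QR S n B Q) (hB : ∀ k j, 2 ≤ j → j + 2 ≤ n → Disjoint (B k) (B (k + j))) :
    ∃ T : ℕ → ℕ, RQ (cm0 hS) (xc hS hχ) (p 0) (T n) n T (FR S Q) ∧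
      RL (cm0 hS) (xc hS hχ) (p 0) (T n) n T (fun k => RgC S (B k)) ∧
      (∀ k, NonXx592.P (cm0 hS) (xc hS hχ) (p 0) (T k) = p k) ∧
      (∀ k i, T k ≤ i → i ≤ T (k + 1) →
        NonXx592.P (cm0 hS) (xc hS hχ) (p 0) i ∈ RD S (B k)) ∧
      ∀ {E : Type} [AddCommMonoid E] (w : D0 S → E) (k : ℕ),
        KS (cm0 hS) (xc hS hχ) (p 0) w (T k) (T (k + 1)) =
          ZZ (cm0 hS) (xc hS hχ) w (RD S (B k)) (p k) (p (k + 1)) := by
  have hn := R.n3
  have Rr := R.ring
  obtain ⟨T, L, T0, Ts, Tlt, Tp, TR⟩ := Rr.fwd hf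
  have hmono : StrictMono T := strictMono_nat_of_lt_succ Tlt
  have hper : ∀ k, T (k + n) = T k + T n := by
    intro k
    induction k with
    | zero => rw [Nat.zero_add, T0, Nat.zero_add]
    | succ k ih =>
      rw [show k + 1 + n = k + n + 1 by omega, Ts, Ts, ih, Rr.perp,
        show k + n + 1 = k + 1 + n by omega, Rr.perp]
      omega
  have hgen : ∀ i, Gen (cm0 hS) (Splx117.lc (cm0 hS) (xc hS hχ) (p 0) i) := by
    intro i
    obtain ⟨k, hk⟩ : ∃ k, T k ≤ i ∧ i ≤ T (k + 1) := by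
      have h1 : ∃ k, i < T k := ⟨i + 1, lt_of_lt_of_le (Nat.lt_succ_self i) (hmono.id_le _)⟩
      have h2 := Nat.find_spec h1
      have h3 : Nat.find h1 ≠ 0 := by
        intro h
        rw [h, T0] at h2
        omega
      refine ⟨Nat.find h1 - 1, ?_, ?_⟩
      · have := Nat.find_min h1 (m := Nat.find h1 - 1) (by omega)
        omega
      · rw [Nat.sub_add_cancel (by omega)]
        omega
    have h1 := TR k i hk.1 hk.2
    exact gen_inner hS (R.innB k _ (mem_delT.1 (th_spec ((stp (cm0 hS) (xc hS hχ))^[i] (p 0)).2)).1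
      h1.1)
  -- the cut property at the base gate `a`
  have hcut : ∀ a, CutC (cm0 hS) (xc hS hχ) (p a) (fun k => T (a + k) - T a) n := by
    intro a
    have la : ∀ k, T a ≤ T (a + k) := fun k => hmono.monotone (by omega)
    have e0 : p a = NonXx592.P (cm0 hS) (xc hS hχ) (p 0) (T a) := (Tp a).symm
    have La : Splx117.Lp (cm0 hS) (xc hS hχ) (p a) (T n) := by
      rw [e0]
      exact lp_shift L (T a)
    have lca : ∀ i, Splx117.lc (cm0 hS) (xc hS hχ) (p a) i =
        Splx117.lc (cm0 hS) (xc hS hχ) (p 0) (T a + i) := by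
      intro i
      rw [e0]
      exact lcs (T a) i
    have lcT : ∀ k, Splx117.lc (cm0 hS) (xc hS hχ) (p a) (T (a + k) - T a) =
        (cm0 hS).cell (p (a + k)) := by
      intro k
      rw [lca, Nat.add_sub_cancel' (la k)]
      unfold Splx117.lc
      rw [Tp]
    refine cut_of_links La (fun i => by rw [lca]; exact hgen _) ?_ ?_ ?_
    · show T (a + n) - T a ≤ T n
      rw [hper]
      omega
    · intro k _
      show T (a + k) - T a ≤ T (a + (k + 1)) - T a
      have : T (a + k) ≤ T (a + (k + 1)) := hmono.monotone (by omega)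
      omega
    · intro k k' c h1 h2
      have h3 := (shift R a).links k k' c h1 h2
      have l0 : Splx117.lc (cm0 hS) (xc hS hχ) (p a) 0 = (cm0 hS).cell (p a) := rfl
      rw [lcT, lcT, lcT, lcT, l0]
      exact h3
  have hst : ∀ k i, T k ≤ i → i ≤ T (k + 1) →
      NonXx592.P (cm0 hS) (xc hS hχ) (p 0) i ∈ RD S (B k) := TR
  refine ⟨T, ⟨lp355 L, hn, hmono, T0, hper, ?_, ?_, ?_, ?_⟩, ⟨lp355 L, hmono, T0, hper, ?_, ?_, ?_⟩,
    Tp, hst, ?_⟩
  · intro k k' h1 h2 u v h3 h4 h5 h6 e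
    have e0 : p k = NonXx592.P (cm0 hS) (xc hS hχ) (p 0) (T k) := (Tp k).symm
    have lca : ∀ i, Splx117.lc (cm0 hS) (xc hS hχ) (p k) i =
        Chordx355.lc (cm0 hS) (xc hS hχ) (p 0) (T k + i) := by
      intro i
      rw [e0]
      exact lcs (T k) i
    have b1 : T k ≤ T k' := hmono.monotone h1.le
    have b2 : T k' ≤ T (k' + 1) := (Tlt k').le
    have i1 : T (k + 0) - T k ≤ u - T k := by rw [Nat.add_zero]; omega
    have i2 : u - T k ≤ T (k + (0 + 1)) - T k := by rw [Nat.zero_add]; omega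
    have i3 : T (k + (k' - k)) - T k ≤ v - T k := by
      rw [show k + (k' - k) = k' by omega]; omega
    have i4 : v - T k ≤ T (k + (k' - k + 1)) - T k := by
      rw [show k + (k' - k + 1) = k' + 1 by omega]; omega
    have e' : Splx117.lc (cm0 hS) (xc hS hχ) (p k) (u - T k) =
        Splx117.lc (cm0 hS) (xc hS hχ) (p k) (v - T k) := by
      rw [lca, lca, Nat.add_sub_cancel' h3, Nat.add_sub_cancel' (b1.trans h5)]
      exact e
    rcases hcut k 0 (k' - k) (by omega) (by omega) (u - T k) (v - T k) i1 i2 i3 i4 e' with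
      ⟨g1, g2⟩ | ⟨-, g1, g2⟩
    · left
      refine ⟨by omega, ?_⟩
      rw [lca, lca, Nat.add_sub_cancel' h3] at g2
      rw [g2]
      congr 1
      show T k + (T (k + (k' - k)) - T k) = T k'
      rw [show k + (k' - k) = k' by omega]
      omega
    · right
      refine ⟨by omega, ?_⟩
      rw [lca, lca, Nat.add_sub_cancel' h3, Nat.add_zero] at g2
      exact g2
  · intro l
    unfold FR
    rw [H.per]
  · intro k i h1 h2
    have h3 := hst k i h1 h2.le
    obtain ⟨j, hj, hm⟩ := H.cov k _ _ _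
      (th_spec (NonXx592.P (cm0 hS) (xc hS hχ) (p 0) i).2) h3.1 h3.2
    exact ⟨j, hj, (gp_FR hS _).2 hm⟩
  · intro i l j h1 h2 h3 h4
    exact Set.disjoint_left.1 (H.dis l j h1 h2) ((gp_FR hS _).1 h3) ((gp_FR hS _).1 h4)
  · intro k u h1 h2
    have h3 := hst k u h1 h2.le
    exact ⟨_, (mem_delT.1 (th_spec (NonXx592.P (cm0 hS) (xc hS hχ) (p 0) u).2)).1, h3.1, rfl⟩
  · intro k
    show RgC S (B (k + n)) = RgC S (B k)
    rw [R.perB]
  · intro k j h1 h2
    exact rgc_disj hS (R.innB k) (hB k j h1 h2)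
  · intro E _ w k
    have h1 := ks_shift (M := cm0 hS) (x := xc hS hχ) (q := p 0) (w := w) (t := T k) (a := 0)
      (b := ft (cm0 hS) (xc hS hχ) (p k) (p (k + 1)))
    rw [Tp k] at h1
    unfold ZZ
    rw [if_pos (hf k), h1, Ts, Nat.zero_add, Nat.add_comm (T k)]

/-- **the charge of a region as a sum of tile charges** -/
theorem vg_zz {T : ℕ → ℕ} {Q : ℕ → Set ℂ} {E : Type} [AddCommMonoid E] {φ : D0 S → E}
    (hK : ∀ (w : D0 S → E) (k : ℕ), KS (cm0 hS) (xc hS hχ) (p 0) w (T k) (T (k + 1)) =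
      ZZ (cm0 hS) (xc hS hχ) w (RD S (B k)) (p k) (p (k + 1))) (l : ℕ) :
    Vg (cm0 hS) (xc hS hχ) (p 0) T n φ (FR S Q) l = ∑ k ∈ Finset.range n,
      ZZ (cm0 hS) (xc hS hχ) (rst φ (FR S Q l)) (RD S (B k)) (p k) (p (k + 1)) :=
  Finset.sum_congr rfl fun k _ => hK _ k

end Crest.Agent.R143.RingTx263
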