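import Crest.Agent.R143.CorH_713
import Crest.Agent.R143.RingI1_503
import Crest.Agent.R143.RingT_263
import Crest.Agent.R143.CorV_169
import Crest.Agent.R143.SqP_503

/-!
# Row 143 (S0194), block H: the ring hypothesis `RngH` (helper713)

Closed fine path `W` of period `M`, all tiles full (black and white link), environment as in `CorH`.
* `RngH X U M W η d` ; `RngH.cor` : `CorH` for every `o`, `n` with `n + 4 ≤ M` (so `yy`, `xx`, `st`,
  `neck`, `val`, .. of `CorH_713` apply)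
* `RngH.clo` : 503's `Clo` (colours, `back`, `fring`, `rl`)
* `RngH.bk`, `RngH.nf` : the arc of the tile `a` runs from the gate `a + 1` to the gate `a` (only)
* `RngH.fdr` : 117's `DRing` in the direction of the walk (`k`-th gate `o - k`, tile `o - 1 - k`)
* `RngH.qr` : 263's regions ; **`RngH.times`** : gate times, `RQ`, `RL`, `KS = ZZ`, `KS = zC`
* **`RngH.vg_vt`** : the charge of the region `l` is 169's `VT .. (o - 2 - l)` (full configuration)
* `sq_str` : the square has five straight tiles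
-/

set_option autoImplicit false
set_option linter.all false

noncomputable section

open scoped Classical

namespace Crest.Agent.R143.RingXx713

open Set
open Crest.Agent.R143.B0x346 Crest.Agent.R143.DelGx806 Crest.Agent.R143.DelRx806
  Crest.Agent.R143.JColx54
open Crest.Agent.R143.Frame1x395 Crest.Agent.R143.Frame2x395 Crest.Agent.R143.Frame3x395
  Crest.Agent.R143.Frame4x395 Crest.Agent.R143.Frame8x395 Crest.Agent.R143.Frame9x395
  Crest.Agent.R143.Frame10x395 Crest.Agent.R143.Frame11x395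
open Crest.Agent.R143.Frame5x395 (sd mem_sd th th_spec)
open Crest.Agent.R143.Locx922
open Crest.Agent.R143.Splx117 Crest.Agent.R143.WLocx713
open Crest.Agent.R143.Blkx838 (DE)
open Crest.Agent.R143.Neckx921 (Neck NeckD Tile Lk)
open Crest.Agent.R143.PP0x831 Crest.Agent.R143.FinMx609
open Crest.Agent.R143.RingDx117 (RD DRing StC StR)
open Crest.Agent.R143.TileRx228 Crest.Agent.R143.PathDx503 Crest.Agent.R143.PathGx503
open Crest.Agent.R143.RingPx503 Crest.Agent.R143.RingIx503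
open Crest.Agent.R143.DCorGx713 Crest.Agent.R143.DCorFx713 Crest.Agent.R143.CorHx713
open Crest.Agent.R143.TplIx204 (TB TB_true TB_of DT)
open Crest.Agent.R143.Sptx169 Crest.Agent.R143.Sptx832 Crest.Agent.R143.SpRx169
open Crest.Agent.R143.RingTx263 Crest.Agent.R143.PotPx263 Crest.Agent.R143.Winx355
open Crest.Agent.R143.Tplx978 Crest.Agent.R143.PWx978 Crest.Agent.R143.SpVx169
  Crest.Agent.R143.CorVx169
open Crest.Agent.R143.Janx304 (ovr)

/-- **the ring hypothesis** -/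
structure RngH (X : Set (ℂ × Bool)) (U : Set ℂ) (M : ℕ) (W : ℤ → ℤ × ℤ) (η d : ℝ) : Prop where
  path : FPath M W
  M5 : 5 ≤ M
  e0 : 0 < η
  d0 : 0 < d
  de : 100 * d ≤ η
  fin : X.Finite
  gp : GP (sX X : Set ℂ)
  hull : HullC (sX X) (cX X)
  fat : ∀ a : ℤ, ∀ w ∈ RR (9 * η) (51 * η) (100 * η) W a, ∀ s : ℂ, ‖s - w‖ ≤ 100 * η → s ∈ U
  hol : Hol (ps X) U d
  evt : ∀ a : ℤ, TB true (RR (9 * η) (51 * η) (100 * η) W a)
    (LG (gA η W a) (QA η W a)) (LG (gA η W (a + 1)) (QA η W (a + 1))) X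
  str : ∃ g, ∀ j, g - 2 ≤ j → j ≤ g + 2 → ge W (j + 1) = ge W j

section rq

variable {D C : Type} {M : CMap D C} {x : D → ZMod 2} {P₀ : D} {N n : ℕ} {T : ℕ → ℕ}
  {F : ℕ → Set D}

/-- a far tile gives nothing to the region `l` -/
theorem ks_zero (R : RQ M x P₀ N n T F) (φ : D → ℂ) {l m : ℕ} (h1 : 3 ≤ m) (h2 : m < n) :
    KS M x P₀ (rst φ (F l)) (T (l + (n - 1) + m)) (T (l + (n - 1) + m + 1)) = 0 := by
  unfold KS
  refine Finset.sum_eq_zero fun i hi => ?_
  have hi2 := Finset.mem_Ico.1 (Finset.mem_filter.1 hi).1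
  obtain ⟨j, hj, hm⟩ := R.cov _ i hi2.1 hi2.2
  have e : l + (n - 1) + m + (n - 1) + j = l + (m + j - 2) + n + n := by omega
  rw [e, R.perF, R.perF] at hm
  refine rst_not fun h => ?_
  exact R.dis i l (m + j - 2) (by omega) (by omega) h hm

/-- **the charge of a region is the charge of three tiles** -/
theorem vg3 (R : RQ M x P₀ N n T F) (φ : D → ℂ) (l : ℕ) :
    Vg M x P₀ T n φ F l = ∑ m ∈ Finset.range 3,
      KS M x P₀ (rst φ (F l)) (T (l + (n - 1) + m)) (T (l + (n - 1) + m + 1)) := by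
  have hn := R.n3
  have h0 : Vg M x P₀ T n φ F l = ∑ m ∈ Finset.range n,
      KS M x P₀ (rst φ (F l)) (T (l + (n - 1) + m)) (T (l + (n - 1) + m + 1)) :=
    (sum_per (f := fun k => KS M x P₀ (rst φ (F l)) (T k) (T (k + 1))) (by omega)
      (fun k => R.ks_per (rst φ (F l)) k) (l + (n - 1))).symm
  rw [h0]
  symm
  refine Finset.sum_subset (fun m hm => Finset.mem_range.2 ?_) fun m hm hm' => ?_
  · have := Finset.mem_range.1 hm
    omega
  · exact ks_zero R φ (by simpa using hm') (Finset.mem_range.1 hm)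

end rq

variable {X : Set (ℂ × Bool)} {U : Set ℂ} {M : ℕ} {W : ℤ → ℤ × ℤ} {η d : ℝ}

namespace RngH

/-- **every open piece is a corridor** -/
theorem cor (H : RngH X U M W η d) (o : ℤ) {n : ℕ} (n1 : 1 ≤ n) (nM : n + 4 ≤ M) :
    CorH X U M W η d o n :=
  ⟨H.path, n1, nM, H.e0, H.d0, H.de, H.fin, H.gp, H.hull, H.fat, H.hol, fun a _ _ => H.evt a,
    fun a _ _ => TB_of (TB_true.1 (H.evt a))⟩

theorem cor1 (H : RngH X U M W η d) : CorH X U M W η d 0 1 :=
  H.cor 0 le_rfl (by have := H.M5; omega)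

/-- **503's closed path** -/
theorem clo (H : RngH X U M W η d) :
    Clo (sX X) (sX X) (bX X) (cX X) (100 * η) (9 * η) (51 * η) (10 * η) (52 * η) η (10 * η) (-η) η
      (-(9 * η)) (10 * η) (2 * d) η (η / 2) M W (yy η W X) (xx η W X) U := by
  have h1 := H.e0
  have h2 := H.d0
  have h3 := H.de
  have C := H.cor1
  refine ⟨⟨C.num, ?_, ?_, ?_, ?_, ?_, ?_, ?_, ?_, ?_, ?_, ?_, ?_, ?_⟩, H.path,
    ⟨fun a _ => C.neck a, fun a _ => ⟨?_, C.wht a⟩⟩, bX_iff, bX_sub, C.env, H.M5, C.yper,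
    C.xper, fun a => C.sub_U (by linarith) (by linarith) a, H.str⟩
  any_goals linarith
  exact (H.cor a (n := 1) le_rfl (by have := H.M5; omega)).blk le_rfl (by push_cast; omega)

/-- the state of the gate `a` -/
def st (H : RngH X U M W η d) (a : ℤ) : D0 (sX X) := H.cor1.st a

theorem st_per (H : RngH X U M W η d) (a : ℤ) : H.st (a + M) = H.st a :=
  Subtype.ext (Prod.ext (H.cor1.yper a) (H.cor1.xper a))

theorem st_occ (H : RngH X U M W η d) (a : ℤ) : xc H.gp H.hull (H.st a) = 1 := H.cor1.st_occ a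

/-- region of the arc `a` -/
abbrev BT (η : ℝ) (W : ℤ → ℤ × ℤ) (a : ℤ) : Set ℂ := RR (19 / 2 * η) (103 / 2 * η) (100 * η) W a

theorem BT_per (H : RngH X U M W η d) (a : ℤ) : BT η W (a + M) = BT η W a :=
  PthFx765.RR_dvd H.path ⟨1, by ring⟩

theorem BT_eq (η : ℝ) (W : ℤ → ℤ × ℤ) (a : ℤ) :
    RR (9 * η + η / 2) (51 * η + η / 2) (100 * η) W a = BT η W a := by
  rw [show 9 * η + η / 2 = 19 / 2 * η by ring, show 51 * η + η / 2 = 103 / 2 * η by ring]

/-- **the arcs are backward** -/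
theorem bk (H : RngH X U M W η d) (a : ℤ) :
    FA (cm0 H.gp) (xc H.gp H.hull) (RD (sX X) (BT η W a)) (H.st (a + 1)) (H.st a) := by
  have h := H.clo.back H.gp H.hull a
  rw [BT_eq] at h
  exact h

/-- the ring of 117, gates `o + k` -/
theorem dring (H : RngH X U M W η d) (o : ℤ) :
    DRing H.gp H.hull M (fun k : ℕ => yy η W X (o + k)) (fun k : ℕ => xx η W X (o + k))
      (fun k : ℕ => RR (9 * η) (51 * η) (100 * η) W (o + k)) (fun k : ℕ => BT η W (o + k))
      (fun k : ℕ => H.st (o + k)) := by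
  have h := H.clo.dring H.gp H.hull o
  simp only [BT_eq] at h
  exact h

/-- **no arc is forward** -/
theorem nf (H : RngH X U M W η d) (a : ℤ) :
    ¬ FA (cm0 H.gp) (xc H.gp H.hull) (RD (sX X) (BT η W a)) (H.st a) (H.st (a + 1)) := by
  obtain ⟨g, hg⟩ := H.str
  have hM := H.M5
  -- the tile `g`
  have h0 : ¬ FA (cm0 H.gp) (xc H.gp H.hull) (RD (sX X) (BT η W g)) (H.st g) (H.st (g + 1)) := by
    have h1 := H.e0
    have h2 := H.d0
    have h3 := H.de
    have K := H.clo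
    have N := K.N
    have D := CorPx503.corr (o := g) (n := M - 1) (p := fun k : ℕ => H.st (g + k)) (hS := H.gp)
      (hχ := H.hull) (A' := 10 * η) (B' := 52 * η) K.E N.toNum K.F K.hβ K.hβV K.env N.mτ
      (by omega) (by omega) (fun _ _ => trivial) (fun _ _ => K.hU _) N.hA N.hB N.hA2 N.hB2 N.hAB
      N.hh (fun _ _ => rfl)
    have hb := OrientFx881.back_path (k := 0) D K.E K.F N.A0 N.AB K.hβ K.hβV N.s0 N.s1
      (by linarith) N.τh (by omega)
      (fun j h1 h2 => hg j (by push_cast at h1; omega) (by push_cast at h2; omega))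
      (fun _ _ _ => trivial) N.q1 N.q0 N.q4 N.q5
    have h4 := hb.2 0 (by omega)
    rw [BT_eq] at h4
    have e0 : g + ((0 : ℕ) : ℤ) = g := by push_cast; ring
    have e1 : g + ((0 + 1 : ℕ) : ℤ) = g + 1 := by push_cast; ring
    rw [e0, e1] at h4
    exact h4
  -- the ring from the gate `g`
  rcases (H.dring g).ring.dir with h1 | ⟨-, h1⟩
  · have h2 := h1 0
    have e0 : g + ((0 : ℕ) : ℤ) = g := by push_cast; ring
    have e1 : g + ((0 + 1 : ℕ) : ℤ) = g + 1 := by push_cast; ring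
    simp only [e0, e1] at h2
    exact absurd h2 h0
  · -- the tile `a` is the tile `g + k`
    have hM0 : (0 : ℤ) < M := by omega
    obtain ⟨k, j, hk⟩ : ∃ k : ℕ, ∃ j : ℤ, g + k = a + j * M := by
      refine ⟨((a - g) % M).toNat, -((a - g) / M), ?_⟩
      have h3 := Int.emod_nonneg (a - g) hM0.ne'
      have h4 := Int.emod_add_mul_ediv (a - g) M
      rw [Int.toNat_of_nonneg h3]
      linarith
    have perz : ∀ (j : ℤ) (a : ℤ), H.st (a + j * M) = H.st a ∧ BT η W (a + j * M) = BT η W a := by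
      intro j
      induction j using Int.induction_on with
      | zero => intro a; rw [zero_mul, add_zero]; exact ⟨rfl, rfl⟩
      | succ i ih =>
        intro a
        rw [show a + ((i : ℤ) + 1) * M = a + i * M + M by ring, H.st_per, H.BT_per]
        exact ih a
      | pred i ih =>
        intro a
        have h1 := H.st_per (a + (-(i : ℤ) - 1) * M)
        have h2 := H.BT_per (a + (-(i : ℤ) - 1) * M)
        rw [show a + (-(i : ℤ) - 1) * M + M = a + -(i : ℤ) * M by ring] at h1 h2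
        rw [← h1, ← h2]
        exact ih a
    have h2 := h1 k
    have e1 : g + ((k + 1 : ℕ) : ℤ) = a + 1 + j * M := by push_cast; linarith
    simp only [e1, hk] at h2
    rw [(perz j _).1, (perz j _).1, (perz j _).2] at h2
    exact h2

/-- the value does not depend on the order of the two gates -/
theorem zz_symm (H : RngH X U M W η d) (a : ℤ) {E : Type} [AddCommMonoid E] (w : D0 (sX X) → E) :
    ZZ (cm0 H.gp) (xc H.gp H.hull) w (RD (sX X) (BT η W a)) (H.st (a + 1)) (H.st a) =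
      ZZ (cm0 H.gp) (xc H.gp H.hull) w (RD (sX X) (BT η W a)) (H.st a) (H.st (a + 1)) := by
  unfold ZZ
  rw [if_pos (H.bk a), if_neg (H.nf a), if_pos (H.bk a)]

/-- **the value of the arc of the tile `a`** -/
theorem val (H : RngH X U M W η d) (a : ℤ) {f : ℂ × ℂ × ℂ → ℂ} {w : D0 (sX X) → ℂ}
    (hw : ∀ e : D0 (sX X), e.1.2 ∈ BT η W a → th (sX X) e.1 ∈ BT η W a →
      w e = f (e.1.2, th (sX X) e.1, e.1.1)) :
    ZZ (cm0 H.gp) (xc H.gp H.hull) w (RD (sX X) (BT η W a)) (H.st (a + 1)) (H.st a) =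
      zC f (BT η W a) (LG (gA η W a) (QA η W a)) (LG (gA η W (a + 1)) (QA η W (a + 1))) X := by
  rw [H.zz_symm]
  exact H.cor1.val a hw

/-! ### the ring in the direction of the walk -/

/-- **117's ring in the direction of the walk**: gate `o - k`, tile `o - 1 - k` -/
theorem fdr (H : RngH X U M W η d) (o : ℤ) :
    DRing H.gp H.hull M (fun k : ℕ => yy η W X (o - k)) (fun k : ℕ => xx η W X (o - k))
      (fun k : ℕ => RR (9 * η) (51 * η) (100 * η) W (o - 1 - k))
      (fun k : ℕ => BT η W (o - 1 - k)) (fun k : ℕ => H.st (o - k)) where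
  n3 := by have := H.M5; omega
  pery k := by
    have h := H.cor1.yper (o - ((k + M : ℕ) : ℤ))
    rw [show o - ((k + M : ℕ) : ℤ) + M = o - k by push_cast; ring] at h
    exact h.symm
  perz k := by
    have h := H.cor1.xper (o - ((k + M : ℕ) : ℤ))
    rw [show o - ((k + M : ℕ) : ℤ) + M = o - k by push_cast; ring] at h
    exact h.symm
  perA k := by
    have h := PthFx765.RR_dvd (A := 9 * η) (B := 51 * η) (h := 100 * η) H.path
      (a := o - 1 - ((k + M : ℕ) : ℤ)) (b := o - 1 - k) ⟨1, by push_cast; ring⟩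
    exact h.symm
  perB k := by
    have h := H.BT_per (o - 1 - ((k + M : ℕ) : ℤ))
    rw [show o - 1 - ((k + M : ℕ) : ℤ) + M = o - 1 - k by push_cast; ring] at h
    exact h.symm
  st k := rfl
  col k := by
    show cX X (yy η W X _) + cX X (xx η W X _) = 1
    rw [H.cor1.coly, H.cor1.colx, add_zero]
  innA k v hv hv2 := H.cor1.inn (H.cor1.sub_U (by linarith [H.e0]) (by linarith [H.e0]) _ hv2)
  innB k v hv hv2 := H.cor1.inn (H.cor1.sub_U (by linarith [H.e0]) (by linarith [H.e0]) _ hv2)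
  link k := by
    have h := (H.dring (o - 1 - k)).link 0
    have e0 : o - 1 - (k : ℤ) + ((0 : ℕ) : ℤ) = o - 1 - k := by push_cast; ring
    have e1 : o - 1 - (k : ℤ) + ((0 + 1 : ℕ) : ℤ) = o - k := by push_cast; ring
    have e2 : o - 1 - (k : ℤ) = o - ((k + 1 : ℕ) : ℤ) := by push_cast; ring
    simp only [e0, e1] at h
    have h3 := rtg_symm (fun _ _ h => RingDx117.StC.symm h) h
    show Relation.ReflTransGen (StC (sX X) (cX X) (RR (9 * η) (51 * η) (100 * η) W (o - 1 - k)))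
      (yy η W X (o - k)) (yy η W X (o - ((k + 1 : ℕ) : ℤ)))
    rw [← e2]
    exact h3
  mem0 k := by
    have h := (H.dring (o - 1 - k)).mem1 0
    have e0 : o - 1 - (k : ℤ) + ((0 : ℕ) : ℤ) = o - 1 - k := by push_cast; ring
    have e1 : o - 1 - (k : ℤ) + ((0 + 1 : ℕ) : ℤ) = o - k := by push_cast; ring
    simp only [e0, e1] at h
    exact h
  mem1 k := by
    have h := (H.dring (o - 1 - k)).mem0 0
    have e0 : o - 1 - (k : ℤ) + ((0 : ℕ) : ℤ) = o - 1 - k := by push_cast; ring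
    have e2 : o - ((k + 1 : ℕ) : ℤ) = o - 1 - (k : ℤ) := by push_cast; ring
    simp only [e0] at h
    simp only [e2]
    exact h
  ne k := by
    have h := (H.dring (o - 1 - k)).ne 0
    have e0 : o - 1 - (k : ℤ) + ((0 : ℕ) : ℤ) = o - 1 - k := by push_cast; ring
    have e1 : o - 1 - (k : ℤ) + ((0 + 1 : ℕ) : ℤ) = o - k := by push_cast; ring
    have e2 : o - ((k + 1 : ℕ) : ℤ) = o - 1 - (k : ℤ) := by push_cast; ring
    simp only [e0, e1] at h
    simp only [e2]
    exact h.symm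
  dis k j h1 h2 := by
    have h := (H.dring (o - 1 - (k + j : ℕ))).dis 0 j h1 h2
    have e0 : o - 1 - ((k + j : ℕ) : ℤ) + ((0 : ℕ) : ℤ) = o - 1 - ((k + j : ℕ) : ℤ) := by
      push_cast; ring
    have e1 : o - 1 - ((k + j : ℕ) : ℤ) + ((0 + j : ℕ) : ℤ) = o - 1 - k := by push_cast; ring
    simp only [e0, e1] at h
    exact h.symm
  far k j h1 h2 hm := by
    have h := (H.dring (o - 1 - k)).far 0 (M + 1 - j) (by omega) (by omega)
    apply h
    have e0 : o - 1 - (k : ℤ) + ((0 : ℕ) : ℤ) = o - 1 - k := by push_cast; ring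
    have e1 : o - 1 - (k : ℤ) + ((0 + (M + 1 - j) : ℕ) : ℤ) = o - ((k + j : ℕ) : ℤ) + M := by
      rw [zero_add, Nat.cast_sub (by omega)]
      push_cast
      ring
    simp only [e0, e1]
    rw [H.cor1.yper]
    exact hm
  cross k hc := by
    have h := (H.dring (o - 2 - k)).cross 0
    have e0 : o - 2 - (k : ℤ) + ((0 : ℕ) : ℤ) = o - 1 - ((k + 1 : ℕ) : ℤ) := by push_cast; ring
    have e1 : o - 2 - (k : ℤ) + ((0 + 1 : ℕ) : ℤ) = o - 1 - k := by push_cast; ring
    have e2 : o - 2 - (k : ℤ) + ((0 + 2 : ℕ) : ℤ) = o - k := by push_cast; ring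
    have e3 : o - 1 - (k : ℤ) = o - ((k + 1 : ℕ) : ℤ) := by push_cast; ring
    have e4 : o - 1 - ((k + 1 : ℕ) : ℤ) = o - ((k + 2 : ℕ) : ℤ) := by push_cast; ring
    apply h
    simp only [e0, e1, e2]
    have h3 := rtg_symm (fun _ _ h => RingDx117.StR.symm h) hc
    rw [union_comm] at h3
    rw [e3] at h3 ⊢
    rw [e4] at h3 ⊢
    exact h3
  conf k := by
    left
    have h := H.bk (o - 1 - k)
    have e1 : o - 1 - (k : ℤ) + 1 = o - k := by ring
    have e2 : o - ((k + 1 : ℕ) : ℤ) = o - 1 - (k : ℤ) := by push_cast; ring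
    simp only [e1] at h
    simp only [e2]
    exact h

/-- all arcs of `fdr` are forward -/
theorem fa (H : RngH X U M W η d) (o : ℤ) (k : ℕ) :
    FA (cm0 H.gp) (xc H.gp H.hull) (RD (sX X) (BT η W (o - 1 - k))) (H.st (o - k))
      (H.st (o - ((k + 1 : ℕ) : ℤ))) := by
  have h := H.bk (o - 1 - k)
  have e1 : o - 1 - (k : ℤ) + 1 = o - k := by ring
  have e2 : o - ((k + 1 : ℕ) : ℤ) = o - 1 - (k : ℤ) := by push_cast; ring
  rw [e1] at h
  rw [e2]
  exact h

/-! ### regions of the centres, gate times -/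

theorem dvd_ne {M : ℕ} {k : ℤ} (h0 : 0 < k) (h1 : k < M) : ¬ (M : ℤ) ∣ k := fun h => by
  have := Int.le_of_dvd h0 h
  omega

theorem dvd_ne' {M : ℕ} {k : ℤ} (h0 : k < 0) (h1 : -k < M) : ¬ (M : ℤ) ∣ k := fun h =>
  dvd_ne (k := -k) (by omega) h1 ((dvd_neg).2 h)

/-- regions, in the direction of the walk -/
abbrev QO (η : ℝ) (W : ℤ → ℤ × ℤ) (o : ℤ) (l : ℕ) : Set ℂ := Rg (100 * η) W (o - 1 - l)

/-- **263's regions** -/
theorem qr (H : RngH X U M W η d) (o : ℤ) :
    QR (sX X) M (fun k : ℕ => BT η W (o - 1 - k)) (QO η W o) where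
  per l := by
    have h := Rg_per H.path (100 * η) (o - 1 - ((l + M : ℕ) : ℤ))
    rw [show o - 1 - ((l + M : ℕ) : ℤ) + M = o - 1 - l by push_cast; ring] at h
    exact h.symm
  dis l j h1 h2 := by
    rw [Set.disjoint_left]
    intro z h3 h4
    have h5 := Rg_disj H.path (by linarith [H.e0]) h3 h4
    rw [show o - 1 - ((l + j : ℕ) : ℤ) - (o - 1 - l) = -(j : ℤ) by push_cast; ring] at h5
    exact dvd_ne' (by omega) (by omega) h5
  cov k a b c h ha _ := by
    have e1 := H.e0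
    have e2 := H.d0
    have e3 := H.de
    have hM := H.M5
    have h1 : Del (sX X : Set ℂ) a b c := (Finset.mem_filter.1 h).2
    have hH : Hol (sX X : Set ℂ) (BT η W (o - 1 - k)) d := fun w hw =>
      H.cor1.holS w (H.cor1.sub_U (by linarith) (by linarith) _ hw)
    obtain ⟨c0, h2, h3, -, -, h4, -⟩ := del_small e2 hH ha (inD_self a b c) h1
    have h5 : c0 = cen3 (a, b, c) := (cen3_iff h1.2.2.2.1).1 ⟨h2, h3⟩
    rw [h5] at h4
    have h6 : ‖cen3 (a, b, c) - a‖ ≤ d := by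
      rw [norm_sub_rev]
      exact h4.le
    have key : ∀ j : ℕ, j ≤ 2 → QO η W o (k + (M - 1) + j) =
        Rg (100 * η) W (o - 1 - k + 1 - j) := by
      intro j hj
      have h := Rg_per H.path (100 * η) (o - 1 - ((k + (M - 1) + j : ℕ) : ℤ))
      rw [show o - 1 - ((k + (M - 1) + j : ℕ) : ℤ) + M = o - 1 - k + 1 - j by
        push_cast [Nat.cast_sub (show 1 ≤ M by omega)]; ring] at h
      exact h.symm
    rcases Rg_cover' H.path (A := 19 / 2 * η) (B := 103 / 2 * η) (h := 100 * η) e2.le (by linarith)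
      (by linarith) (by linarith) ha h6 with g | g | g
    · refine ⟨2, le_rfl, ?_⟩
      rw [key 2 le_rfl, show o - 1 - (k : ℤ) + 1 - ((2 : ℕ) : ℤ) = o - 1 - k - 1 by
        push_cast; ring]
      exact g
    · refine ⟨1, by omega, ?_⟩
      rw [key 1 (by omega), show o - 1 - (k : ℤ) + 1 - ((1 : ℕ) : ℤ) = o - 1 - k by
        push_cast; ring]
      exact g
    · refine ⟨0, by omega, ?_⟩
      rw [key 0 (by omega), show o - 1 - (k : ℤ) + 1 - ((0 : ℕ) : ℤ) = o - 1 - k + 1 by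
        push_cast; ring]
      exact g

/-- tiles which are not neighbours are disjoint -/
theorem bdis (H : RngH X U M W η d) (o : ℤ) (k j : ℕ) (h1 : 2 ≤ j) (h2 : j + 2 ≤ M) :
    Disjoint (BT η W (o - 1 - k)) (BT η W (o - 1 - ((k + j : ℕ) : ℤ))) := by
  have e1 := H.e0
  have h := H.cor1.dsj (o - 1 - k) (o - 1 - ((k + j : ℕ) : ℤ))
    (by rw [show o - 1 - ((k + j : ℕ) : ℤ) - (o - 1 - k) = -(j : ℤ) by push_cast; ring]
        exact dvd_ne' (by omega) (by omega))
    (by rw [show o - 1 - ((k + j : ℕ) : ℤ) - (o - 1 - k) - 1 = -(j : ℤ) - 1 by push_cast; ring]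
        exact dvd_ne' (by omega) (by omega))
    (by rw [show o - 1 - ((k + j : ℕ) : ℤ) - (o - 1 - k) + 1 = -(j : ℤ) + 1 by push_cast; ring]
        exact dvd_ne' (by omega) (by omega))
  exact h.mono (RR_mono (by linarith) (by linarith) _ _ _) (RR_mono (by linarith) (by linarith) _ _ _)

/-- **gate times of the ring** (base gate `o`) -/
theorem times (H : RngH X U M W η d) (o : ℤ) :
    ∃ T : ℕ → ℕ, RQ (cm0 H.gp) (xc H.gp H.hull) (H.st o) (T M) M T (FR (sX X) (QO η W o)) ∧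
      RL (cm0 H.gp) (xc H.gp H.hull) (H.st o) (T M) M T
        (fun k : ℕ => RgC (sX X) (BT η W (o - 1 - k))) ∧
      (∀ k : ℕ, NonXx592.P (cm0 H.gp) (xc H.gp H.hull) (H.st o) (T k) = H.st (o - k)) ∧
      (∀ k i : ℕ, T k ≤ i → i ≤ T (k + 1) →
        NonXx592.P (cm0 H.gp) (xc H.gp H.hull) (H.st o) i ∈ RD (sX X) (BT η W (o - 1 - k))) ∧
      (∀ {E : Type} [AddCommMonoid E] (w : D0 (sX X) → E) (k : ℕ),
        KS (cm0 H.gp) (xc H.gp H.hull) (H.st o) w (T k) (T (k + 1)) =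
          ZZ (cm0 H.gp) (xc H.gp H.hull) w (RD (sX X) (BT η W (o - 1 - k))) (H.st (o - k))
            (H.st (o - ((k + 1 : ℕ) : ℤ)))) ∧
      ∀ (f : ℂ × ℂ × ℂ → ℂ) (w : D0 (sX X) → ℂ) (k : ℕ),
        (∀ e : D0 (sX X), e.1.2 ∈ BT η W (o - 1 - k) → th (sX X) e.1 ∈ BT η W (o - 1 - k) →
          w e = f (e.1.2, th (sX X) e.1, e.1.1)) →
        KS (cm0 H.gp) (xc H.gp H.hull) (H.st o) w (T k) (T (k + 1)) =
          zC f (BT η W (o - 1 - k)) (LG (gA η W (o - 1 - k)) (QA η W (o - 1 - k)))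
            (LG (gA η W (o - k)) (QA η W (o - k))) X := by
  have h := RingTx263.times (H.fdr o) (H.fa o) (H.qr o) (H.bdis o)
  have e0 : o - ((0 : ℕ) : ℤ) = o := by push_cast; ring
  simp only [e0] at h
  obtain ⟨T, h1, h2, h3, h4, h5⟩ := h
  refine ⟨T, h1, h2, h3, h4, h5, fun f w k hw => ?_⟩
  rw [h5]
  have h6 := H.val (o - 1 - k) hw
  rw [show o - 1 - (k : ℤ) + 1 = o - k by ring] at h6
  rw [show o - ((k + 1 : ℕ) : ℤ) = o - 1 - k by push_cast; ring]
  exact h6

/-- **the spatial charge of the region `l` is `VT`** (`hK` : last clause of `times`) -/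
theorem vg_vt (H : RngH X U M W η d) {D : DT} (s : IsS D η) (o : ℤ) {T : ℕ → ℕ} {N : ℕ}
    (R : RQ (cm0 H.gp) (xc H.gp H.hull) (H.st o) N M T (FR (sX X) (QO η W o)))
    (hK : ∀ (f : ℂ × ℂ × ℂ → ℂ) (w : D0 (sX X) → ℂ) (k : ℕ),
      (∀ e : D0 (sX X), e.1.2 ∈ BT η W (o - 1 - k) → th (sX X) e.1 ∈ BT η W (o - 1 - k) →
        w e = f (e.1.2, th (sX X) e.1, e.1.1)) →
      KS (cm0 H.gp) (xc H.gp H.hull) (H.st o) w (T k) (T (k + 1)) =
        zC f (BT η W (o - 1 - k)) (LG (gA η W (o - 1 - k)) (QA η W (o - 1 - k)))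
          (LG (gA η W (o - k)) (QA η W (o - k))) X) {f : ℂ × ℂ × ℂ → ℂ} {φ : D0 (sX X) → ℂ}
    (hφ : ∀ e : D0 (sX X), φ e = f (e.1.2, th (sX X) e.1, e.1.1)) (l : ℕ) :
    Vg (cm0 H.gp) (xc H.gp H.hull) (H.st o) T M φ (FR (sX X) (QO η W o)) l =
      VT D H.path (η / 2) f (o - 2 - l) X := by
  have e1 := H.e0
  have e2 := H.d0
  have e3 := H.de
  have hM := H.M5
  have hgp : GP (ps X) := by
    rw [← coe_sX H.fin]
    exact H.gp
  have hA : D.A + η / 2 = 19 / 2 * η := by rw [s.A]; ring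
  have hB : D.B + η / 2 = 103 / 2 * η := by rw [s.B]; ring
  have hst : ∀ a : ℤ, ∀ p, St D H.path a X p → Occ (sX X) (cX X) p := by
    intro a p hp
    rw [St_eq s] at hp
    exact LG_occ H.fin H.hull e2 (H.cor1.holw _) (H.cor1.win_Q _) hp
  rw [vg3 R φ l]
  -- the three values
  have key : ∀ j : ℕ, j < 3 →
      KS (cm0 H.gp) (xc H.gp H.hull) (H.st o) (rst φ (FR (sX X) (QO η W o) l))
        (T (l + (M - 1) + (2 - j))) (T (l + (M - 1) + (2 - j) + 1)) =
      AC D H.path (η / 2) (fQ f (Rg D.h W (o - 2 - l + 1))) (o - 2 - l + (j : ℤ))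
        (X ∩ ovr (reg3 D W (o - 2 - l))) := by
    intro j hj
    rw [hK (fQ f (QO η W o l)) _ (l + (M - 1) + (2 - j)) (fun e _ _ => ?_)]
    · have hd : (M : ℤ) ∣ o - 2 - l + (j : ℤ) - (o - 1 - ((l + (M - 1) + (2 - j) : ℕ) : ℤ)) :=
        ⟨1, by push_cast [Nat.cast_sub (show 1 ≤ M by omega), Nat.cast_sub (show j ≤ 2 by omega)]
               ring⟩
      have hd' := PthFx765.dvd_succ hd
      rw [show o - 1 - ((l + (M - 1) + (2 - j) : ℕ) : ℤ) + 1 =
        o - ((l + (M - 1) + (2 - j) : ℕ) : ℤ) by ring] at hd'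
      rw [AC_cut D H.path (η / 2) H.fin hgp H.hull e2 (by rw [s.A']; linarith)
        (by rw [s.B', s.h]; linarith) (by rw [hA, s.A']; linarith) (by rw [hB, s.B']; linarith) hj
        (fun w hw => H.hol w (H.cor1.sub_U (A := 19 / 2 * η) (B := 103 / 2 * η) (by linarith)
          (by linarith) _ (by rw [hA, hB, s.h] at hw; exact hw))) (hst _) (hst _)]
      unfold AC
      rw [hA, hB, s.h, St_eq s, St_eq s, H.cor1.gA_dvd hd, H.cor1.QA_dvd hd, H.cor1.gA_dvd hd',
        H.cor1.QA_dvd hd', PthFx765.RR_dvd H.path hd,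
        show o - 2 - (l : ℤ) + 1 = o - 1 - l by ring]
    · unfold rst fQ FR
      rw [hφ]
      rfl
  rw [Finset.sum_range_succ, Finset.sum_range_succ, Finset.sum_range_one]
  unfold VT
  rw [Finset.sum_range_succ, Finset.sum_range_succ, Finset.sum_range_one]
  rw [← key 0 (by omega), ← key 1 (by omega), ← key 2 (by omega)]
  norm_num
  ring

end RngH

/-- **the square has five straight tiles** -/
theorem sq_str {K : ℕ} (hK : 6 ≤ K) :
    ∃ g, ∀ j, g - 2 ≤ j → j ≤ g + 2 → ge (SqPx503.sqW K) (j + 1) = ge (SqPx503.sqW K) j := by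
  have e : ∀ j : ℤ, 0 ≤ j → j ≤ 6 → SqPx503.sqW K j = (0, j) := by
    intro j h1 h2
    have hj : j % (4 * (K : ℤ)) = j := Int.emod_eq_of_lt h1 (by omega)
    unfold SqPx503.sqW SqPx503.sq0
    rw [hj]
    split_ifs with h3 h4 h5
    · rfl
    · have : j = K := by omega
      rw [this, sub_self]
    all_goals omega
  refine ⟨3, fun j h1 h2 => ?_⟩
  unfold ge
  rw [e (j + 1) (by omega) (by omega), e (j + 1 - 1) (by omega) (by omega), e j (by omega)
    (by omega), e (j - 1) (by omega) (by omega)]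
  congr 1
  ext
  · rfl
  · show j + 1 - (j + 1 - 1) = j - (j - 1)
    ring

end Crest.Agent.R143.RingXx713
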