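import Crest.Agent.R143.ArmC_345
import Crest.Agent.R143.GPosC_348
import Crest.Agent.R143.LawR_239
import Crest.Agent.R143.RingX_713

/-!
# Row 143 (S0194), block H (helper355): the arm event at a gate of the ring

* **`arm_chain`** : 345's arm event at the gate `a` of the painting gives, for the coloured cells, a
  white chain from the white site of the gate to the far side
-/

set_option autoImplicit false

noncomputable section

open scoped Classical

namespace Crest.Agent.R143.ArmFx355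

open Set
open Crest.Agent.R143.B0x346 Crest.Agent.R143.DelGx806 Crest.Agent.R143.DelRx806
  Crest.Agent.R143.JColx54
open Crest.Agent.R143.Locx922
open Crest.Agent.R143.Neckx921 (Lk)
open Crest.Agent.R143.PP0x831 Crest.Agent.R143.Janx304
open Crest.Agent.R143.CovBx126 (Mo)
open Crest.Agent.R143.IndLocx279
open Crest.Agent.R143.SmallAx304 (chiS)
open Crest.Agent.R143.WLocx713 Crest.Agent.R143.PWx978 Crest.Agent.R143.Tplx978
open Crest.Agent.R143.TileRx228 Crest.Agent.R143.PthFx765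
open Crest.Agent.R143.DCorGx713 Crest.Agent.R143.CorHx713 Crest.Agent.R143.RingXx713
open Crest.Agent.R143.TplIx204 Crest.Agent.R143.ArmBx345 Crest.Agent.R143.ArmCx345
open Crest.Agent.R143.FinCx811 Crest.Agent.R143.ColXx829 Crest.Agent.R143.LawRx239
open Crest.Agent.R143.GPosCx348 (NumC gO_mv bx_eq)
open Crest.Agent.R143.GPosFx348 (pre_Q)
open Crest.Agent.R143.Dbl2x609 (paint)

variable {D : DT} {η d : ℝ} {W : ℤ → ℤ × ℤ} {M : ℕ} {A β : Finset ℂ} {hS : GP (A : Set ℂ)}
  {h3 : 3 ≤ A.card} {U : Set ℂ}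

/-- **the white chain of the arm at the gate `a`** -/
theorem arm_chain (N : NumC D η) (P : FPath M W)
    (R : RngH (Xc hS h3 (chiS hS h3 β)) U M W η d) (a : ℤ)
    (hZ : (frm P (100 * η) a).e.symm ⁻¹' ZA D η ⊆ U)
    (hE : tr (frm P (100 * η) a).e (ArmE D η) (paint A β)) :
    ∃ u, 1600 * η ≤ ((frm P (100 * η) a).e.symm u).im ∧
      Lk A {v | (v ∈ A ∧ v ∉ bX (Xc hS h3 (chiS hS h3 β))) ∧
        (frm P (100 * η) a).e.symm v ∈ WR (9 * η) (51 * η) (100 * η) Tn.S ∪ Cl η}
        (xx η W (Xc hS h3 (chiS hS h3 β)) a) u := by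
  have e0 := R.e0
  have d0 := R.d0
  have de := R.de
  have hol : Hol (A : Set ℂ) U d := by
    have h := R.hol
    rwa [ps_Xc] at h
  have hloc : LocalOn ((frm P (100 * η) a).e.symm ⁻¹' ZA D η)
      (tr (frm P (100 * η) a).e (ArmE D η)) := tr_local _ (arm_local D)
  have h1 : tr (frm P (100 * η) a).e (ArmE D η) (Xc hS h3 (chiS hS h3 β)) := by
    rw [chi_loc hloc fun v _ hv => ?_]
    · exact hE
    · rintro ⟨x, h⟩
      exact (Locx922.not_hull d0 hol (hZ hv) x).2 h
  have hUZ : UA D η ⊆ ZA D η := fun w hw => near_ZA D (r := 2 * d)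
    (by rw [N.A, N.A']; linarith) (by rw [N.B, N.B']; linarith) (by linarith) hw (by simp; linarith)
  have hf : Mo (frm P (100 * η) a).e.toEquiv (ge W a) := mo_frm P (100 * η) a
  rw [arm_tr' D hf R.fin d0 (by rw [N.A, N.A']; linarith) (by rw [N.B, N.B']; linarith)
    (by linarith) (fun w hw => R.hol w (hZ (hUZ hw)))] at h1
  obtain ⟨-, p, u, hp, hu, hL⟩ := h1
  rw [sX_Xc] at hL
  have eQ : (frm P (100 * η) a).e.symm ⁻¹' D.Q = QA η W a := by
    rw [← bx_eq N, ← pre_Q P D a, N.h]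
  rw [N.g, gO_mv P a, eQ] at hp
  have e1 : sdt η W (Xc hS h3 (chiS hS h3 β)) a = p := dg_eq hp
  refine ⟨u, hu, ?_⟩
  unfold xx
  rw [e1]
  refine hL.mono ?_
  rintro v ⟨hv1, hv2⟩
  refine ⟨hv1, ?_⟩
  have hv3 : (frm P (100 * η) a).e.symm v ∈ WR D.A D.B D.h Tn.S ∪ Cl η := hv2
  rw [N.A, N.B, N.h] at hv3
  exact hv3

end Crest.Agent.R143.ArmFx355
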