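import Crest.Agent.R143.ArmQ_345

/-!
# Row 143, block H, box R1 (ARM BOX), the quenched lanes (helper345)

* `mids4` : the lanes of the three triangulations and the rope for the fresh positions
* `qarm_gm` : **quenched bound of the box on good samples**
-/

set_option autoImplicit false

noncomputable section

open scoped Classical

namespace Crest.Agent.R143.ArmLx345

open MeasureTheory Set ProbabilityTheory Filter Topology
open Crest.ProbabilityR.Voronoi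
open Crest.Agent.R143.B0x346 (GP)
open Crest.Agent.R143.PP0x831 Crest.Agent.R143.Poisx304 Crest.Agent.R143.Janx304
open Crest.Agent.R143.IndLocx279 Crest.Agent.R143.IndLoc3x279
open Crest.Agent.R143.PWx978 Crest.Agent.R143.Tplx978
open Crest.Agent.R143.Fairx653 Crest.Agent.R143.Posx653 Crest.Agent.R143.TplIx204
open Crest.Agent.R143.QTbx653 Crest.Agent.R143.CBx838
open Crest.Agent.R143.PthFx765 Crest.Agent.R143.WLocx713 Crest.Agent.R143.TileRx228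
open Crest.Agent.R143.Harx315 (pr pr_mono Dn harris_dn pr_nonneg)
open Crest.Agent.R143.PP1x831 (rad)
open Crest.Agent.R143.Locx922 (Hol Agr)
open Crest.Agent.R143.Gatex838 Crest.Agent.R143.TileRRx345 Crest.Agent.R143.Gmx838
open Crest.Agent.R143.Neckx921 (Tile Lk lk_list)
open Crest.Agent.R143.Thetax73 (Su theta_ge Gd)
open Crest.Agent.R143.RHx73
open Crest.Agent.R143.Halfx73 (g0 ZR ZL RH LH Q0 WQ_Q0 gS gB gB_sub KBR KWR KBL KWL net net_near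
  KR_bdd KL_bdd bxR bxL nearR nearL zbR zwR zbL zwL cut_eq HX_mv hf_scale mem_sx mem_bk bX_bk sX_sx)
open Crest.Agent.R143.Prodx609 Crest.Agent.R143.FinMx609 Crest.Agent.R143.FinM2x609
open Crest.Agent.R143.PosFx653 Crest.Agent.R143.ArmAx345 Crest.Agent.R143.ArmBx345
open Crest.Agent.R143.ArmCx345 Crest.Agent.R143.ArmDx345 Crest.Agent.R143.ArmQx345

variable {η d a ε : ℝ}

theorem up_norm (s w : ℂ) : ‖(up η).e.symm s - (up η).e.symm w‖ = ‖s - w‖ :=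
  mo_symm_norm mo_up s w

/-- points near the middle of the tile -/
theorem mi_D1 (hη : 0 < η) {r : ℝ} (hd : 4 * r ≤ η) {w s : ℂ}
    (h1 : w ∈ Mi 0 (η : ℂ) (v1 η) (η : ℂ)) (h2 : w ∈ Re 100 0 (η : ℂ) (v1 η) (η : ℂ))
    (hs : ‖s - w‖ < 2 * r) : s ∈ WD (12 * η) (52 * η) (100 * η) Tn.S := by
  have e1 : (nxt (100 * η) Tn.S).e 0 = v1 η := nx_zero
  have e2 : rot Tn.S * (η : ℂ) = (η : ℂ) := by rw [rot, one_mul]
  have h1' : w ∈ Mi 0 (η : ℂ) ((nxt (100 * η) Tn.S).e 0) (rot Tn.S * (η : ℂ)) := by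
    rw [e1, e2]; exact h1
  have h2' : w ∈ Re 100 0 (η : ℂ) ((nxt (100 * η) Tn.S).e 0) (rot Tn.S * (η : ℂ)) := by
    rw [e1, e2]; exact h2
  exact mi_D hη hd Tn.S h1' h2' hs

theorem X_up (v w : ℂ) : X (v3 η + v) (η : ℂ) w = X v (η : ℂ) ((up η).e.symm w) := by
  rw [X_v, X_v, Complex.add_re, v3_re, zero_add, (up_symm w).1]

theorem Y_up (v w : ℂ) : Y (v3 η + v) (η : ℂ) w = Y v (η : ℂ) ((up η).e.symm w) := by
  rw [Y_v, Y_v, Complex.add_im, v3_im, (up_symm w).2]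
  congr 1
  ring

theorem v4_eq : v4 η = v3 η + v1 η := by unfold v4 v3 v1; ring

/-- points near the middle of the tile above -/
theorem mi_D2 (hη : 0 < η) {r : ℝ} (hd : 4 * r ≤ η) {w s : ℂ}
    (h1 : w ∈ Mi (v3 η) (η : ℂ) (v4 η) (η : ℂ)) (h2 : w ∈ Re 100 (v3 η) (η : ℂ) (v4 η) (η : ℂ))
    (hs : ‖s - w‖ < 2 * r) : (up η).e.symm s ∈ WD (12 * η) (52 * η) (100 * η) Tn.S := by
  have e3 : v3 η = v3 η + 0 := (add_zero _).symm
  refine mi_D1 (w := (up η).e.symm w) hη hd ?_ ?_ (by rw [up_norm]; exact hs)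
  · obtain ⟨m1, m2⟩ := h1
    rw [e3, X_up] at m1
    rw [v4_eq, X_up] at m2
    exact ⟨m1, m2⟩
  · rcases h2 with ⟨⟨a1, a2⟩, a3, a4⟩ | ⟨⟨a1, a2⟩, a3, a4⟩
    · rw [e3, X_up] at a1 a2
      rw [e3, Y_up] at a3 a4
      exact Or.inl ⟨⟨a1, a2⟩, a3, a4⟩
    · rw [v4_eq, X_up] at a1 a2
      rw [v4_eq, Y_up] at a3 a4
      exact Or.inr ⟨⟨a1, a2⟩, a3, a4⟩

/-- points near the rope -/
theorem co_Cu (hη : 0 < η) {r : ℝ} (hd : 4 * r ≤ η) {w s : ℂ} (h : w ∈ Co 0 (η : ℂ))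
    (hs : ‖s - w‖ < 2 * r) : s ∈ Cu η := by
  obtain ⟨h1, h2⟩ := co_im hη h
  obtain ⟨k1, k2⟩ := near_abs hs
  rw [abs_lt] at k1 k2
  exact ⟨⟨by linarith, by linarith⟩, by linarith, by linarith⟩

theorem v1_norm (hη : 0 < η) : ‖v1 η‖ = 100 * η := by
  unfold v1
  rw [Complex.norm_real, Real.norm_of_nonneg (by positivity)]

theorem v3_norm (hη : 0 < η) : ‖v3 η‖ = 1000 * η := by
  unfold v3
  rw [norm_mul, Complex.norm_I, mul_one, Complex.norm_real, Real.norm_of_nonneg (by positivity)]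

theorem v4_norm (hη : 0 < η) : ‖v4 η‖ ≤ 1100 * η := by
  rw [v4_eq]
  refine (norm_add_le _ _).trans ?_
  rw [v3_norm hη, v1_norm hη]
  linarith

/-- **the lanes for the fresh positions** -/
theorem mids4 {p c1 c2 K r R0 : ℝ} (hp : 0 ≤ p) (H : MassFx73.MidH p c1 c2 K) (hc1 : c1 ≤ 1 / 20)
    (hK : 0 ≤ K) (hε : 0 < ε) (hη : 0 < η) (hη1 : 10 * η ≤ 1) (hr : 0 < r) (hr1 : r ≤ c1 * η)
    (hR : 200 + (K + 1) ≤ R0) {ω : Sample} (hω : Gmx838.Gm R0 ε r K c2 η ω) {S : Cf}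
    (hS : S.Finite) (hSQ : S ⊆ ovr (B4 (Dx η d a ε hε hη) η)) {T M1 M2 M3 : Finset ℂ}
    (hT : T = fs (points ε ω ∩ CT (Dx η d a ε hε hη) η))
    (e1 : M1 = (sx S ∪ T).filter (· ∈ (Dx η d a ε hε hη).Z Tn.S))
    (e2 : M2 = (sx S ∪ T).filter (· ∈ (up η).e.symm ⁻¹' (Dx η d a ε hε hη).Z Tn.S))
    (e3 : M3 = (sx S ∪ T).filter (· ∈ ZA (Dx η d a ε hε hη) η)) :
    p ≤ pr T (MidB M1 100 0 (η : ℂ) (v1 η) (η : ℂ)) ∧
    (p ≤ pr T fun τ => MidW M1 100 0 (η : ℂ) (v1 η) (η : ℂ) (T \ τ)) ∧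
    (p ≤ pr T fun τ => MidW M3 100 0 (η : ℂ) (v1 η) (η : ℂ) (T \ τ)) ∧
    (p ^ 31 ≤ pr T fun τ => Rope M3 0 (η : ℂ) (T \ τ)) ∧
    (p ≤ pr T fun τ => MidW M2 100 (v3 η) (η : ℂ) (v4 η) (η : ℂ) (T \ τ)) := by
  set P := Dx η d a ε hε hη with hP
  have hCb : Bornology.IsBounded (CT P η) :=
    ((P.D_bdd Tn.S).union ((up η).bdd' _ (P.D_bdd Tn.S))).union Cu_bdd
  have hTm : ∀ s, s ∈ T ↔ s ∈ points ε ω ∧ s ∈ CT P η := fun s => by
    rw [hT]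
    exact mem_fs (pts_fin hε hCb ω)
  have he : ‖((η : ℝ) : ℂ)‖ = η := by rw [Complex.norm_real, Real.norm_of_nonneg hη.le]
  have hc : c1 * η ≤ 1 / 20 * η := mul_le_mul_of_nonneg_right hc1 hη.le
  have hr4 : 4 * r ≤ η := by linarith
  have hKη : (K + 1) * (5 * η) ≤ (K + 1) / 2 := by nlinarith
  have dB4 := b4_ct (d := d) (a := a) hε hη
  have hS4 : ∀ s, s ∈ sx S → s ∉ CT P η := fun s hs h => by
    obtain ⟨v, hv, rfl⟩ := (mem_sx hS).1 hs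
    exact Set.disjoint_left.1 dB4 (hSQ hv) h
  have key : ∀ {Z : Set ℂ} {s : ℂ}, s ∈ CT P η → s ∈ Z →
      (s ∈ (sx S ∪ T).filter (· ∈ Z) ↔ s ∈ points ε ω) := fun {Z s} h1 h2 => by
    rw [Finset.mem_filter, Finset.mem_union, hTm]
    constructor
    · rintro ⟨h3 | h3, -⟩
      · exact absurd h1 (hS4 s h3)
      · exact h3.1
    · intro h3
      exact ⟨Or.inr ⟨h3, h1⟩, h2⟩
  have D1 : ∀ s, s ∈ P.D Tn.S → s ∈ CT P η := fun s hs => Or.inl (Or.inl hs)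
  have D2 : ∀ s, (up η).e.symm s ∈ P.D Tn.S → s ∈ CT P η := fun s hs => Or.inl (Or.inr hs)
  have hDZ : ∀ s, s ∈ P.D Tn.S → s ∈ P.Z Tn.S := fun s hs => Or.inr hs
  have n1 := v1_norm hη
  have n3 := v3_norm hη
  have n4 := v4_norm hη
  have A1 := H R0 ε r η 100 ω 0 (η : ℂ) (v1 η) (η : ℂ) hω hr hr1 hη hη1 (by norm_num)
    (by norm_num) he fr12 (by rw [norm_zero]; linarith) (by rw [n1]; linarith) (P.D Tn.S)
    (fun w h1 h2 s hs => mi_D1 hη hr4 h1 h2 hs)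
  obtain ⟨a1, a2⟩ := A1 M1 T (fun s hs => by rw [e1]; exact key (D1 s hs) (hDZ s hs))
    (fun s hs h => (hTm s).2 ⟨h, D1 s hs⟩)
  obtain ⟨-, a3⟩ := A1 M3 T (fun s hs => by rw [e3]; exact key (D1 s hs) (Or.inl (hDZ s hs)))
    (fun s hs h => (hTm s).2 ⟨h, D1 s hs⟩)
  obtain ⟨-, a4⟩ := H R0 ε r η 100 ω (v3 η) (η : ℂ) (v4 η) (η : ℂ) hω hr hr1 hη hη1 (by norm_num)
    (by norm_num) he fr34 (by rw [n3]; linarith) (by linarith) ((up η).e.symm ⁻¹' P.D Tn.S)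
    (fun w h1 h2 s hs => mi_D2 hη hr4 h1 h2 hs) M2 T
    (fun s hs => by rw [e2]; exact key (D2 s hs) (hDZ _ hs))
    (fun s hs h => (hTm s).2 ⟨h, D2 s hs⟩)
  refine ⟨a1, a2, a3, ?_, a4⟩
  exact rope_pr hp H hω hr hr1 hη hη1 he (by rw [norm_zero]; linarith) (D := Cu η)
    (fun w hw s hs => co_Cu hη hr4 hw hs)
    (fun s hs => by rw [e3]; exact key (Or.inr hs) (Or.inr hs))
    (fun s hs h => (hTm s).2 ⟨h, Or.inr hs⟩)

/-- the gate dart in a frame -/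
theorem KG_fr {P : DT} {f : Fr} {c : ℂ} {S : Cf} (hf : CovBx126.Mo f.e.toEquiv c)
    (h : tr f.e (KG P) S) : ∃ p, LG (P.g.mv f.e c) (f.e.symm ⁻¹' P.Q) S p := by
  obtain ⟨-, p, hp⟩ := h
  exact ⟨mp f.e p, (DT.LG_fr hf P.g P.Q p).2 ((LG_cut subset_rfl p).1 hp)⟩

/-- **quenched bound of the box on good samples** -/
theorem qarm_gm {p c1 c2 K r R0 b : ℝ} (hp : 0 ≤ p) (hp1 : p ≤ 1) (H : MassFx73.MidH p c1 c2 K)
    (hc1 : c1 ≤ 1 / 20) (hK : 0 ≤ K) (hε : 0 < ε) (hη : 0 < η) (hη1 : 10 * η ≤ 1) (hd : 0 < d)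
    (hdη : 4 * d ≤ η) (hr : 0 < r) (hr1 : r ≤ c1 * η) (hR : 200 + (K + 1) ≤ R0) (hb0 : 0 ≤ b)
    {ω : Sample} (hω : Gmx838.Gm R0 ε r K c2 η ω) {S : Cf}
    (hS : S.Finite) (hSQ : S ⊆ ovr (B4 (Dx η d a ε hε hη) η)) (hc : Sc S)
    (hgp : GP (psn S ∪ (points ε ω ∩ CT (Dx η d a ε hε hη) η))) {T : Finset ℂ}
    (hT : T = fs (points ε ω ∩ CT (Dx η d a ε hε hη) η))
    (g1 : KG (Dx η d a ε hε hη) S) (g2 : tr (nxt (100 * η) Tn.S).e (KG (Dx η d a ε hε hη)) S)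
    (g3 : tr (up η).e (KG (Dx η d a ε hε hη)) S)
    (g4 : tr (up η).e (tr (nxt (100 * η) Tn.S).e (KG (Dx η d a ε hε hη))) S)
    (h1 : b ≤ pr T fun τ => RH η d (S ∪ clr T τ))
    (h2 : b ≤ pr T fun τ => tr (nxt (100 * η) Tn.S).e (LH η d) (S ∪ clr T τ))
    (h3 : b ≤ pr T fun τ => tr (up η).e (RH η d) (S ∪ clr T τ))
    (h4 : b ≤ pr T fun τ => tr (up η).e (tr (nxt (100 * η) Tn.S).e (LH η d)) (S ∪ clr T τ)) :
    b * ((p ^ 34 * b ^ 2) * (p ^ 34 * b ^ 2)) * b ≤ pr T fun τ =>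
      (Dx η d a ε hε hη).TE (Tn.S, true) (S ∪ clr T τ) ∧
      tr (up η).e ((Dx η d a ε hε hη).TE (Tn.S, false)) (S ∪ clr T τ) ∧
      ArmE (Dx η d a ε hε hη) η (S ∪ clr T τ) := by
  set P := Dx η d a ε hε hη with hP
  have eQ : P.Q = Q0 η := dQ hε hη
  have hCb : Bornology.IsBounded (CT P η) :=
    ((P.D_bdd Tn.S).union ((up η).bdd' _ (P.D_bdd Tn.S))).union Cu_bdd
  have hTm : ∀ s, s ∈ T ↔ s ∈ points ε ω ∧ s ∈ CT P η := fun s => by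
    rw [hT]
    exact mem_fs (pts_fin hε hCb ω)
  have hcT : (T : Set ℂ) = points ε ω ∩ CT P η := by
    rw [hT]
    exact fs_fin (pts_fin hε hCb ω)
  have hb1 : b ≤ 1 := h1.trans Harx315.pr_le_one
  obtain ⟨m1, m2, m3, m4, m5⟩ := mids4 (d := d) (a := a) hp H hc1 hK hε hη hη1 hr hr1 hR hω hS hSQ hT
    rfl rfl rfl
  obtain ⟨x1, k1⟩ := KG_q g1
  obtain ⟨x2, k2⟩ := KG_fr (mo_nxt (100 * η) Tn.S) g2
  obtain ⟨x3, k3⟩ := KG_fr mo_up g3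
  obtain ⟨x4, k4⟩ := KG_fr (f := f4 η) mo_f4 (by
    have e : tr (f4 η).e (KG P) S = tr (up η).e (tr (nxt (100 * η) Tn.S).e (KG P)) S := by
      unfold tr
      rw [mv_mv]
      rfl
    rw [e]
    exact g4)
  rw [eQ] at k1 k2 k3 k4
  exact qarm hε hη hd hdη hb0 hb1 hp hp1 hS hc hSQ (fun s hs => ((hTm s).1 hs).2)
    (by rw [hcT]; exact hgp) k1 k2 k3 k4 h1 h2 h3 h4 rfl rfl rfl m1 m2 m3 m4 m5

end Crest.Agent.R143.ArmLx345
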