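import Crest.Agent.R143.ArmT_795
import Crest.Agent.R143.ArmL_345

/-!
# Row 143 (S0194), block H, [R1] arm box: absolute constants (helper795)

* `ArmLaw η d a ε c` : the conclusion of `arm_t` with the constant `c`
* **`arm_law`** : one absolute constant for all units (345's `qarm_gm`, `arm_t`); `cR`, `cR_pos`, `law`
-/

set_option autoImplicit false

noncomputable section

open scoped Classical

namespace Crest.Agent.R143.ArmFx795

open MeasureTheory Set ProbabilityTheory Filter Topology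
open Crest.ProbabilityR.Voronoi
open Crest.Agent.R143.B0x346 (GP)
open Crest.Agent.R143.PP0x831 Crest.Agent.R143.Poisx304 Crest.Agent.R143.Janx304
open Crest.Agent.R143.IndLocx279 Crest.Agent.R143.IndLoc3x279
open Crest.Agent.R143.PWx978 Crest.Agent.R143.Tplx978
open Crest.Agent.R143.Fairx653 Crest.Agent.R143.Posx653 Crest.Agent.R143.TplIx204
open Crest.Agent.R143.QTbx653 Crest.Agent.R143.CBx838
open Crest.Agent.R143.PthFx765 Crest.Agent.R143.WLocx713 Crest.Agent.R143.TileRx228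
open Crest.Agent.R143.Harx315 (pr pr_mono)
open Crest.Agent.R143.PP1x831 (rad)
open Crest.Agent.R143.CovBx126 (Mo)
open Crest.Agent.R143.TileRRx345 (MidB MidW)
open Crest.Agent.R143.Halfx73 (g0 RH LH Q0)
open Crest.Agent.R143.PosFx653 Crest.Agent.R143.ArmAx345 Crest.Agent.R143.ArmBx345
open Crest.Agent.R143.ArmCx345 Crest.Agent.R143.ArmDx345 Crest.Agent.R143.ArmLx345
open Crest.Agent.R143.MassFx73 (MidH)
open Crest.Agent.R143.ArmTx795
open scoped ENNReal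

variable {η d a ε : ℝ}

/-- **the annealed law of the arm box** -/
def ArmLaw (η d a ε : ℝ) (hε : 0 < ε) (hη : 0 < η) (c : ℝ≥0∞) : Prop :=
  ∀ᵐ ω ∂sampleLaw, (Dx η d a ε hε hη).wA (cfg ε ω) ≠ 0 →
    tr (nxt (100 * η) Tn.S).e (Dx η d a ε hε hη).wA (cfg ε ω) ≠ 0 →
    tr (up η).e (Dx η d a ε hε hη).wA (cfg ε ω) ≠ 0 →
    tr (up η).e (tr (nxt (100 * η) Tn.S).e (Dx η d a ε hε hη).wA) (cfg ε ω) ≠ 0 →
    c ≤ Rs ε (CT (Dx η d a ε hε hη) η)
      (fun X => ((Dx η d a ε hε hη).wE (Tn.S, true) X *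
        tr (up η).e ((Dx η d a ε hε hη).wE (Tn.S, false)) X) *
        ind (ArmE (Dx η d a ε hε hη) η X)) (cfg ε ω)

/-- **ONE ABSOLUTE CONSTANT** -/
theorem arm_law : ∃ c : ℝ, 0 < c ∧ ∀ η : ℝ, 0 < η → 10 * η ≤ 1 →
    ∀ᶠ ε : ℝ in 𝓝[>] 0, ∀ (hε : 0 < ε) (hη : 0 < η),
      ArmLaw η (2 * rad cC ε) ca ε hε hη (ENNReal.ofReal c) := by
  obtain ⟨p, c1, c2, K, hp, hp1, hc1, hc1', hc2, hc2', hK, HM, -⟩ := MassFx73.gm'
  obtain ⟨C, hC, HC⟩ := Gmx838.gm_pr (200 + (K + 1)) 1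
  have ha := ca_pos
  set q : ℝ := ca * ((p ^ 34 * ca ^ 2) * (p ^ 34 * ca ^ 2)) * ca with hq
  have hq0 : 0 < q := by positivity
  set p0 : ℝ := min 1 q with hp0
  have hp00 : 0 < p0 := lt_min one_pos hq0
  set δ : ℝ := ca ^ 4 / 2 with hδ
  have hδ0 : 0 < δ := by positivity
  refine ⟨p0 * δ, mul_pos hp00 hδ0, fun η hη hη1 => ?_⟩
  have hsm : ∀ᶠ ε : ℝ in 𝓝[>] 0, ε ≤ δ :=
    (tendsto_nhdsWithin_of_tendsto_nhds tendsto_id).eventually (Iic_mem_nhds hδ0)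
  filter_upwards [HC K (min c1 (1 / 16)) c2 η (by linarith) (by positivity) hc2 hη, hsm,
    posF hη hη1] with ε h1 h2 h3 hε hη'
  obtain ⟨⟨hr, hr1⟩, hGm⟩ := h1
  obtain ⟨hd0, hd1, -⟩ := h3
  have hra : rad C ε ≤ c1 * η := hr1.trans (mul_le_mul_of_nonneg_right (min_le_left _ _) hη.le)
  have hrb : rad C ε ≤ 1 / 16 * η := hr1.trans (mul_le_mul_of_nonneg_right (min_le_right _ _) hη.le)
  have hGd : sampleLaw {ω | Gmx838.Gm (200 + (K + 1)) ε (rad C ε) K c2 η ω}ᶜ ≤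
      ENNReal.ofReal δ := by
    refine hGm.trans (ENNReal.ofReal_le_ofReal ?_)
    rw [Real.rpow_one]
    exact h2
  have key := arm_t (η := η) (d := 2 * rad cC ε) (a := ca) hε hη' (p := p0) (min_le_left _ _) hGd ?_
  · unfold ArmLaw
    filter_upwards [key] with ω hω a1 a2 a3 a4
    refine le_trans ?_ (hω a1 a2 a3 a4)
    rw [← ENNReal.ofReal_mul ha.le, ← ENNReal.ofReal_mul (by positivity),
      ← ENNReal.ofReal_sub _ hδ0.le, ← ENNReal.ofReal_mul hp00.le]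
    refine ENNReal.ofReal_le_ofReal (mul_le_mul_of_nonneg_left ?_ hp00.le)
    rw [hδ]
    nlinarith
  · intro ω hω S hS hSQ hc hgp a1 a2 a3 a4 a5 a6 a7 a8
    exact (min_le_right _ _).trans (qarm_gm hp.le hp1 HM hc1' (by linarith) hε hη' hη1
      (by linarith) (by linarith) hr hra le_rfl ha.le hω hS hSQ hc hgp rfl a1 a2 a3 a4 a5 a6 a7 a8)

/-- **the constant of the arms** -/
def cR : ℝ := arm_law.choose

theorem cR_pos : 0 < cR := arm_law.choose_spec.1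

/-- **THE ANNEALED LAW OF THE ARM BOX** -/
theorem law {η : ℝ} (hη : 0 < η) (hη1 : 10 * η ≤ 1) :
    ∀ᶠ ε : ℝ in 𝓝[>] 0, ∀ (hε : 0 < ε) (hη : 0 < η),
      ArmLaw η (2 * rad cC ε) ca ε hε hη (ENNReal.ofReal cR) :=
  arm_law.choose_spec.2 η hη hη1

end Crest.Agent.R143.ArmFx795
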