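import Crest.Agent.R143.AsmO_758

/-!
# Row 143 (S0194), CONT, top assembly 1 (helper758)

* `leg N J` : the complete leg of `J` from `ex 0` to `ex 1`; `Shl`, `shal` : live triangles near the
  outside of the domain, near the circle or near the leg, and their energy
* **leaf `AREA Adm`** : the mean over `J` of the shallow energy is small for small scales
* **leaf `DC w T Adm`** : in most environments, for ALL `J` and all live states with the tip in the
  ball, the total is at most `η + A ∑ ‖T u‖ + 2 √(shal s J)`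
* `cont_of : DC w T Adm → AREA Adm → CONT w T Adm`
-/

set_option autoImplicit false

noncomputable section

open scoped Classical

namespace Crest.Agent.R143.AsmNx758

open Complex Set Filter Topology MeasureTheory
open scoped ENNReal
open Crest.ProbabilityR.Voronoi
open Crest.Agent.R143.B0x346 Crest.Agent.R143.B0Dx346 Crest.Agent.R143.PP1x831
open Crest.Agent.R143.J1x872 (sd)
open Crest.Agent.R143.Mabx377
open Crest.Agent.R143.Spinex422 (Room Linked)
open Crest.Agent.R143.B6Ix903 (net)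
open Crest.Agent.R143.DicBx831 (cc)

/-- the complete leg of `J` -/
def leg (N : Net ℂ) (J : Finset (ℂ × ℂ)) : Pt ℂ := (nx N (fun _ => False) J).1

/-- shallow triangles: live, near the outside of the domain, near the circle or near the leg -/
def Shl (D : Dom) (N : Net ℂ) (s : ℝ) (J : Finset (ℂ × ℂ)) (t : ℂ × ℂ × ℂ) : Prop :=
  (∀ i, sd t i ∉ N.kl) ∧ ((∃ p ∈ D.out, ‖cc t - p‖ < s) ∨ D.L - s < ‖cc t - D.c‖ ∨
    ∃ a ∈ leg N J, ‖mid a.1 - cc t‖ < s)

/-- shallow energy -/
def shal (D : Dom) (S : Finset ℂ) (N : Net ℂ) (s : ℝ) (J : Finset (ℂ × ℂ)) : ℝ :=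
  ∑ t ∈ (delT S).filter (Shl D N s J), ‖t.2.1 - t.1‖ ^ 2

theorem shal_nonneg (D : Dom) (S : Finset ℂ) (N : Net ℂ) (s : ℝ) (J : Finset (ℂ × ℂ)) :
    0 ≤ shal D S N s J := Finset.sum_nonneg fun _ _ => sq_nonneg _

/-- **leaf AREA**: the mean shallow energy is small -/
def AREA (Adm : Dom → ℝ → Prop) : Prop := ∀ (D : Dom) (δ : ℝ), Adm D δ → ∀ η > 0, ∃ s0 > 0,
  ∀ s > 0, s < s0 → ∀ᶠ ε : ℝ in 𝓝[>] 0,
    sampleLaw {ω | η < av (net D ε ω) (shal D (D.sites ε ω) (net D ε ω) s)} ≤ ENNReal.ofReal η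

/-- **leaf DC**: comparison of the explored networks with finitely many polygons, up to the
shallow energy -/
def DC {U : Type} (w : ℂ × ℂ × ℂ → ℂ) (T : U → ℝ → Sample → ℂ) (Adm : Dom → ℝ → Prop) : Prop :=
  ∀ (D : Dom) (δ : ℝ), Adm D δ → ∀ m > 0, ∀ r > 0, ∀ z : ℂ, Room D (4 * r) z → Linked D m z →
  ∀ l > 0, 4 * l < r → ∀ η > 0, ∃ s0 > 0, ∀ s > 0, s < s0 → ∃ (P : Finset U) (A : ℝ), 0 ≤ A ∧
  ∀ᶠ ε : ℝ in 𝓝[>] 0,
    sampleLaw {ω | ∃ J ∈ Om (net D ε ω), Bad (D.sites ε ω) (net D ε ω) w l z (2 * r)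
      (η + A * ∑ u ∈ P, ‖T u ε ω‖ + 2 * √(shal D (D.sites ε ω) (net D ε ω) s J)) J} ≤
      ENNReal.ofReal η

theorem Bad.mono {S : Finset ℂ} {N : Net ℂ} {w : ℂ × ℂ × ℂ → ℂ} {l : ℝ} {z : ℂ} {R θ θ' : ℝ}
    {J : Finset (ℂ × ℂ)} (h : Bad S N w l z R θ' J) (hθ : θ ≤ θ') : Bad S N w l z R θ J := by
  obtain ⟨j, h1, h2, h3, h4⟩ := h
  exact ⟨j, h1, h2, h3, lt_of_le_of_lt hθ h4⟩

/-- Markov -/
theorem av_markov {N : Net ℂ} {f : Finset (ℂ × ℂ) → ℝ} (hf : ∀ J, 0 ≤ f J) {a b : ℝ}
    (ha : 0 < a) (h : av N f ≤ a * b) : av N (fun J => if a < f J then 1 else 0) ≤ b := by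
  have h1 : a * av N (fun J => if a < f J then 1 else 0) ≤ av N f := by
    rw [← av_mul]
    refine av_mono fun J _ => ?_
    split_ifs with h2
    · linarith
    · rw [mul_zero]; exact hf J
  exact le_of_mul_le_mul_left (h1.trans h) ha

/-- **CONT from the deterministic comparison and the shallow energy** -/
theorem cont_of {U : Type} {w : ℂ × ℂ × ℂ → ℂ} {T : U → ℝ → Sample → ℂ}
    {Adm : Dom → ℝ → Prop} (h : DC w T Adm) (hA : AREA Adm) : CONT w T Adm := by
  intro D δ hD m hm r hr z hz hli l hl hlr η hη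
  obtain ⟨s0, hs0, h1⟩ := h D δ hD m hm r hr z hz hli l hl hlr (η / 2) (by positivity)
  obtain ⟨s1, hs1, h2⟩ := hA D δ hD (min (η / 2) (η ^ 2 / 16 * η)) (by positivity)
  obtain ⟨s, hs, hss0, hss1⟩ : ∃ s > 0, s < s0 ∧ s < s1 :=
    ⟨min s0 s1 / 2, by positivity, by
      have := min_le_left s0 s1
      have : 0 < min s0 s1 := by positivity
      linarith, by
      have := min_le_right s0 s1
      have : 0 < min s0 s1 := by positivity
      linarith⟩
  obtain ⟨P, A, hA0, h1⟩ := h1 s hs hss0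
  refine ⟨P, A, hA0, ?_⟩
  filter_upwards [h1, h2 s hs hss1] with ε e1 e2
  have hsub : {ω | η < av (net D ε ω) (fun J =>
      if Bad (D.sites ε ω) (net D ε ω) w l z (2 * r) (η + A * ∑ u ∈ P, ‖T u ε ω‖) J then
        1 else 0)} ⊆
      {ω | ∃ J ∈ Om (net D ε ω), Bad (D.sites ε ω) (net D ε ω) w l z (2 * r)
        (η / 2 + A * ∑ u ∈ P, ‖T u ε ω‖ + 2 * √(shal D (D.sites ε ω) (net D ε ω) s J)) J} ∪
      {ω | min (η / 2) (η ^ 2 / 16 * η) <
        av (net D ε ω) (shal D (D.sites ε ω) (net D ε ω) s)} := by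
    intro ω hω
    by_contra hcon
    simp only [mem_union, mem_ofPred_eq, not_or, not_exists, not_and, not_lt] at hcon
    obtain ⟨c1, c2⟩ := hcon
    have c3 := av_markov (shal_nonneg D (D.sites ε ω) (net D ε ω) s)
      (show 0 < η ^ 2 / 16 by positivity) (c2.trans (min_le_right _ _))
    have c4 : av (net D ε ω) (fun J =>
        if Bad (D.sites ε ω) (net D ε ω) w l z (2 * r) (η + A * ∑ u ∈ P, ‖T u ε ω‖) J then
        1 else 0) ≤ av (net D ε ω) (fun J =>
        if η ^ 2 / 16 < shal D (D.sites ε ω) (net D ε ω) s J then 1 else 0) := by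
      refine av_mono fun J hJ => ?_
      by_cases hb : Bad (D.sites ε ω) (net D ε ω) w l z (2 * r)
          (η + A * ∑ u ∈ P, ‖T u ε ω‖) J
      · rw [if_pos hb]
        by_cases hc : η ^ 2 / 16 < shal D (D.sites ε ω) (net D ε ω) s J
        · rw [if_pos hc]
        · exfalso
          refine c1 J hJ (hb.mono ?_)
          have h5 : √(shal D (D.sites ε ω) (net D ε ω) s J) ≤ η / 4 := by
            rw [Real.sqrt_le_left (by positivity)]
            linarith [not_lt.1 hc]
          linarith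
      · rw [if_neg hb]
        split_ifs <;> norm_num
    have hω' : η < av (net D ε ω) (fun J =>
      if Bad (D.sites ε ω) (net D ε ω) w l z (2 * r) (η + A * ∑ u ∈ P, ‖T u ε ω‖) J then
        1 else 0) := hω
    linarith
  refine (measure_mono hsub).trans ((measure_union_le _ _).trans ?_)
  have h3 : ENNReal.ofReal η = ENNReal.ofReal (η / 2) + ENNReal.ofReal (η / 2) := by
    rw [← ENNReal.ofReal_add (by positivity) (by positivity)]
    congr 1
    ring
  rw [h3]
  exact add_le_add e1 (e2.trans (ENNReal.ofReal_le_ofReal (min_le_left _ _)))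

end Crest.Agent.R143.AsmNx758
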