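import Crest.Agent.R143.HitL_54
import Crest.Agent.R143.NetU_346

/-!
# Row 143 (S0194): bridge HNet -> frozen static `TS` (helper346)

* `hitO_yv` : the first touched vertex of 848 / 54 is the vertex of an ORIENTED hit triple
* `hex_of` : `Hex S (sA S N)` from uniqueness (877's `HITU`)
* **`TT_TS` : `TT N z = TS S (sA S N) z`**
-/

set_option autoImplicit false

noncomputable section

open scoped Classical

namespace Crest.Agent.R143.NetHx346

open Crest.Agent.R143.B0x346 Crest.Agent.R143.Oscx63 Crest.Agent.R143.Sidesx697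
open Crest.Agent.R143.J1x872 (cases_z3 Good)
open Crest.Agent.R143.Bsumx848 Crest.Agent.R143.Massx848 Crest.Agent.R143.Hitx848
open Crest.Agent.R143.DelRx806 Crest.Agent.R143.JCardx872
open Crest.Agent.R143.J4x872 (sPath sPath_spec Fol Turn Stopped)
open Crest.Agent.R143.JWalkx872 (Term rotInv_empty rotInv_rots)
open Crest.Agent.R143.K33x877 Crest.Agent.R143.JColx54
open Crest.Agent.R143.JCol2x54 (colJ colJ_isJoin mem_joins_iff col_unique colJ_congr colJ_not
  isCol_not)
open Crest.Agent.R143.HitLx54 Crest.Agent.R143.NetUx346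

variable {S In : Finset ℂ} {N : Net ℂ}

/-- **the first touched vertex is an oriented hit** -/
theorem hitO_yv (h : HNet S N) (hd : Dj N) (F : Crsx117.Free S N In) {i : ZMod 3} {T : Finset ℂ}
    (hT : T ⊆ In) : ∃ b w, HitO S (sA S N) i (T : Set ℂ) (yv N i T, b, w) := by
  have hg := J1x872.good_of_hnet h
  have hpr := pairs_of h hd
  have hJ := JT_EE h hd F i hT
  have hJ' : IsJoin N.toTrg N.kl ∅ (Di N i) (JT N i T) := mem_joins.1 hJ
  have hp : N.ex (i + 2) ∈ Di N i := mem_Di hg (z3x i).2.1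
  obtain ⟨h1, h2, -⟩ := sPath_spec hJ' rotInv_empty hp (stp N i)
  obtain ⟨h4, h5⟩ := tch_side hg (marks3_of h) (hasCol h) hpr hJ
  have hn := side_next h (i + 1)
  rw [(z3x i).2.2.2.2.2.2.1] at hn
  obtain ⟨h6, h7⟩ := fol_clu h hd F hT _ _ _ h1 h2 (clu_self hn) (clu_self (side_self N (i + 2)))
  refine ⟨(sta N i (JT N i T)).1, (sta N i (JT N i T)).2, ?_, h5, h6, h7⟩
  have h8 : ((sta N i (JT N i T)).1, (sta N i (JT N i T)).2, yv N i T) ∈ delT S := by
    rw [← h.tri]
    exact h4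
  exact delT_rot h.gp (delT_rot h.gp h8)

theorem ff_eq (h : HNet S N) (F : Crsx117.Free S N In) : ff S (sA S N) = In := by
  ext v
  rw [mem_ff, fr_eq h F]
  rfl

theorem hex_of (hU : HITU) (h : HNet S N) (hd : Dj N) (F : Crsx117.Free S N In) :
    Hex S (sA S N) := by
  intro i T hT
  rw [ff_eq h F] at hT
  obtain ⟨b, w, hb⟩ := hitO_yv h hd F (i := i) hT
  refine ⟨_, hb, ?_⟩
  rintro ⟨u', b', w'⟩ h'
  have e1 := ((hitO_iff h.gp).1 hb).1
  have e2 := ((hitO_iff h.gp).1 h').1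
  obtain ⟨e3, e4, e5⟩ := hU S (sA S N) (tr_of h hd) (i + 1) (i + 2) i (z3x i).2.2.1 (z3x i).1
    (z3x i).2.1 (T : Set ℂ) _ _ _ _ _ _ e1 e2
  simp only at e3 e4 e5
  rw [e3, e4, e5]

/-- **`T` of an HNet = static `T`** -/
theorem TT_TS (hU : HITU) (h : HNet S N) (hd : Dj N) (F : Crsx117.Free S N In) (z : ℂ → ℂ) :
    TT N z = TS S (sA S N) z := by
  rw [TT_static h hd F z]
  unfold TS
  congr 1
  refine Finset.sum_congr rfl fun i _ => ?_
  congr 1
  rw [Ey_of (hex_of hU h hd F) z i (fun T => yv N i T)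
    (fun T hT => hitO_yv h hd F (by rwa [ff_eq h F] at hT)), ff_eq h F]
  rfl

end Crest.Agent.R143.NetHx346
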