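import Crest.Agent.R143.D1_377
import Crest.Agent.R143.NetH_346
import Crest.Agent.R143.AsmC_758

/-!
# Row 143 (S0194), CONT, top assembly 2 (helper377): no shallow energy

After helper802's (C) (a small centre makes the static total small) and (D) (no small centre: a
labelled polygon is seen). `S = D.sites ε ω`, `N = net D ε ω`, `x = (L, q)` an alive state,
`sx S N x i` = the sites of the side `i` of the explored network `knet N L`,
`TS S A z` = 346's static total.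

* `TYx` : `Y S N (rr z) x = TS S (sx S N x) z`, `norm_we`, `norm_wd` : `‖Y S N we x‖ ≤ ‖TS .. id‖`
* **leaf `SMALL Sm z Adm`** : in most environments, a state with a centre of size `ρ` has a total
  `≤ η` (`Sm S A ρ` = "small centre", any predicate)
* **leaf `VIS Sm T z Adm`** : in most environments, the total of a state without a centre of size
  `ρ` is `η`-close to one of finitely many polygons
* `dcp_of` : `SMALL → VIS → DCP w T Adm` (all `J`, all states), `cont_of_dcp : DCP → CONT`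
* **`cont_we`, `cont_wd`**
-/

set_option autoImplicit false

noncomputable section

open scoped Classical

namespace Crest.Agent.R143.Mabx377

open Complex Set Filter Topology MeasureTheory
open Crest.ProbabilityR.Voronoi
open Crest.Agent.R143.B0x346 Crest.Agent.R143.B0Dx346 Crest.Agent.R143.PP1x831
open Crest.Agent.R143.J1x872 Crest.Agent.R143.J4x872 Crest.Agent.R143.JWalkx872
open Crest.Agent.R143.JCardx872 Crest.Agent.R143.Oscx63
open Crest.Agent.R143.Sidesx697 (Wall Side)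
open Crest.Agent.R143.Bsumx848 (rr TT)
open Crest.Agent.R143.B6Ix903 (net)
open Crest.Agent.R143.DicCx831 (rad_small rad_pos ev_unit)
open Crest.Agent.R143.DicDx831 (hnet_ev good_ev)
open Crest.Agent.R143.AsmNx758 (Bad CONT we wd av av_mono)
open Crest.Agent.R143.Spinex422 (Room Linked)
open Crest.Agent.R143.HitLx54 (Dj sA)
open Crest.Agent.R143.K33x877 (HITU)
open Crest.Agent.R143.NetUx346 (TS)

/-- the classes of a state: the sites of the sides of the explored network -/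
def sx (S : Finset ℂ) (N : Net ℂ) (x : St ℂ) : ZMod 3 → Set ℂ := sA S (knet N x.1)

section det

variable {S : Finset ℂ} {N : Net ℂ}

/-- the total of an alive state is the static total of its classes -/
theorem TYx (hU : HITU) (h : HNet S N)
    (hkl : ∀ a b : ℂ, (a, b) ∈ N.kl → (a, b) ∈ N.E → ∃ i, Side N i a)
    {x : St ℂ} (hok : Ok N x.1 x.2) (hA : Alive S N x) (z : ℂ → ℂ) :
    Y S N (rr z) x = TS S (sx S N x) z := by
  obtain ⟨hN, -, hd, hF, -, -⟩ := alive_net h hkl hok hA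
  rw [Y_eq_TT h hA z]
  exact NetHx346.TT_TS hU hN hd hF z

/-- weight `z b - z a` -/
theorem norm_diff (hU : HITU) (h : HNet S N)
    (hkl : ∀ a b : ℂ, (a, b) ∈ N.kl → (a, b) ∈ N.E → ∃ i, Side N i a)
    {x : St ℂ} (hok : Ok N x.1 x.2) (hA : Alive S N x) (z : ℂ → ℂ) :
    ‖Y S N (fun t => z t.2.1 - z t.1) x‖ ≤ ‖TS S (sx S N x) z‖ := by
  rw [Y_diff h z x, TYx hU h hkl hok hA z, norm_mul, norm_div]
  have h2 := norm_one_sub_om
  have h3 : ‖(3 : ℂ)‖ = 3 := by norm_num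
  rw [h3]
  have h4 : ‖(1 : ℂ) - om‖ / 3 ≤ 1 := by linarith
  exact (mul_le_mul_of_nonneg_right h4 (norm_nonneg _)).trans (le_of_eq (one_mul _))

theorem norm_we (hU : HITU) (h : HNet S N)
    (hkl : ∀ a b : ℂ, (a, b) ∈ N.kl → (a, b) ∈ N.E → ∃ i, Side N i a)
    {x : St ℂ} (hok : Ok N x.1 x.2) (hA : Alive S N x) :
    ‖Y S N we x‖ ≤ ‖TS S (sx S N x) id‖ := norm_diff hU h hkl hok hA id

theorem wd_eq : (wd : ℂ × ℂ × ℂ → ℂ) =
    fun t => (starRingEnd ℂ) t.2.1 - (starRingEnd ℂ) t.1 := by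
  funext t
  unfold wd
  rw [map_sub]

theorem norm_wd (hU : HITU) (h : HNet S N)
    (hkl : ∀ a b : ℂ, (a, b) ∈ N.kl → (a, b) ∈ N.E → ∃ i, Side N i a)
    {x : St ℂ} (hok : Ok N x.1 x.2) (hA : Alive S N x) :
    ‖Y S N wd x‖ ≤ ‖TS S (sx S N x) (starRingEnd ℂ)‖ := by
  rw [wd_eq]
  exact norm_diff hU h hkl hok hA (starRingEnd ℂ)

end det

/-! ### the leaves -/

/-- **leaf SMALL**: a small centre makes the total small -/
def SMALL (Sm : Finset ℂ → (ZMod 3 → Set ℂ) → ℝ → Prop) (z : ℂ → ℂ)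
    (Adm : Dom → ℝ → Prop) : Prop :=
  ∀ (D : Dom) (δ : ℝ), Adm D δ → ∀ η > 0, ∃ ρ > 0, ∀ᶠ ε : ℝ in 𝓝[>] 0,
    sampleLaw {ω | ∃ x : St ℂ, Ok (net D ε ω) x.1 x.2 ∧ Alive (D.sites ε ω) (net D ε ω) x ∧
      Sm (D.sites ε ω) (sx (D.sites ε ω) (net D ε ω) x) ρ ∧
      η < ‖TS (D.sites ε ω) (sx (D.sites ε ω) (net D ε ω) x) z‖} ≤ ENNReal.ofReal η

/-- **leaf VIS**: without a small centre the total is close to the total of a polygon -/
def VIS {U : Type} (Sm : Finset ℂ → (ZMod 3 → Set ℂ) → ℝ → Prop) (T : U → ℝ → Sample → ℂ)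
    (z : ℂ → ℂ) (Adm : Dom → ℝ → Prop) : Prop :=
  ∀ (D : Dom) (δ : ℝ), Adm D δ → ∀ ρ > 0, ∀ η > 0, ∃ P : Finset U, ∀ᶠ ε : ℝ in 𝓝[>] 0,
    sampleLaw {ω | ∃ x : St ℂ, Ok (net D ε ω) x.1 x.2 ∧ Alive (D.sites ε ω) (net D ε ω) x ∧
      ¬ Sm (D.sites ε ω) (sx (D.sites ε ω) (net D ε ω) x) ρ ∧
      ∀ u ∈ P, η < ‖TS (D.sites ε ω) (sx (D.sites ε ω) (net D ε ω) x) z - T u ε ω‖} ≤
      ENNReal.ofReal η

/-- comparison of all explored networks with finitely many polygons (all `J`) -/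
def DCP {U : Type} (w : ℂ × ℂ × ℂ → ℂ) (T : U → ℝ → Sample → ℂ) (Adm : Dom → ℝ → Prop) : Prop :=
  ∀ (D : Dom) (δ : ℝ), Adm D δ → ∀ η > 0, ∃ (P : Finset U) (A : ℝ), 0 ≤ A ∧
  ∀ᶠ ε : ℝ in 𝓝[>] 0,
    sampleLaw {ω | ∃ J ∈ Om (net D ε ω), ∃ (l : ℝ) (z : ℂ) (R : ℝ),
      Bad (D.sites ε ω) (net D ε ω) w l z R (η + A * ∑ u ∈ P, ‖T u ε ω‖) J} ≤ ENNReal.ofReal η

/-- `CONT` from the comparison for all `J` -/
theorem cont_of_dcp {U : Type} {w : ℂ × ℂ × ℂ → ℂ} {T : U → ℝ → Sample → ℂ}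
    {Adm : Dom → ℝ → Prop} (h : DCP w T Adm) : CONT w T Adm := by
  intro D δ hD m hm r hr z hz hli l hl hlr η hη
  obtain ⟨P, A, hA, h1⟩ := h D δ hD η hη
  refine ⟨P, A, hA, ?_⟩
  filter_upwards [h1] with ε e1
  refine (measure_mono ?_).trans e1
  intro ω hω
  by_contra hcon
  have hcon' : ∀ J ∈ Om (net D ε ω), ¬ Bad (D.sites ε ω) (net D ε ω) w l z (2 * r)
      (η + A * ∑ u ∈ P, ‖T u ε ω‖) J := fun J hJ hb => hcon ⟨J, hJ, l, z, 2 * r, hb⟩
  have h0 : av (net D ε ω) (fun J =>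
      if Bad (D.sites ε ω) (net D ε ω) w l z (2 * r) (η + A * ∑ u ∈ P, ‖T u ε ω‖) J then
        (1 : ℝ) else 0) ≤ av (net D ε ω) (fun _ => 0) :=
    av_mono fun J hJ => by rw [if_neg (hcon' J hJ)]
  have h2 : av (net D ε ω) (fun _ => 0) = 0 := by
    unfold av
    simp
  have hω' : η < av (net D ε ω) (fun J =>
      if Bad (D.sites ε ω) (net D ε ω) w l z (2 * r) (η + A * ∑ u ∈ P, ‖T u ε ω‖) J then
        (1 : ℝ) else 0) := hω
  linarith

/-- **top assembly** -/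
theorem dcp_of {U : Type} {Sm : Finset ℂ → (ZMod 3 → Set ℂ) → ℝ → Prop} {w : ℂ × ℂ × ℂ → ℂ}
    {z : ℂ → ℂ} {T : U → ℝ → Sample → ℂ} {Adm : Dom → ℝ → Prop}
    (hAdm : ∀ D δ, Adm D δ → D.Ad δ)
    (hw : ∀ (S : Finset ℂ) (N : Net ℂ), HNet S N →
      (∀ a b : ℂ, (a, b) ∈ N.kl → (a, b) ∈ N.E → ∃ i, Side N i a) →
      ∀ x : St ℂ, Ok N x.1 x.2 → Alive S N x → ‖Y S N w x‖ ≤ ‖TS S (sx S N x) z‖)
    (h1 : SMALL Sm z Adm) (h2 : VIS Sm T z Adm) : DCP w T Adm := by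
  intro D δ hD η hη
  have hOK := hAdm D δ hD
  have hL := hOK.w.Lpos
  have hδ := hOK.w.dpos
  obtain ⟨ρ, hρ, a1⟩ := h1 D δ hD (η / 3) (by positivity)
  obtain ⟨P, a2⟩ := h2 D δ hD ρ hρ (η / 3) (by positivity)
  obtain ⟨C, K, a, C4, hC, hK, ha, hC4, hgood⟩ := good_ev D hL
  refine ⟨P, 1, zero_le_one, ?_⟩
  filter_upwards [a1, a2, hgood, hnet_ev hOK.w hC,
    (rad_small C).eventually (ge_mem_nhds (show (0 : ℝ) < δ ^ 6 / (40000 * D.L ^ 5) by positivity)),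
    (tendsto_id.mono_left nhdsWithin_le_nhds : Tendsto (fun ε : ℝ => ε) (𝓝[>] 0) (𝓝 0)).eventually
      (ge_mem_nhds (show (0 : ℝ) < η / 3 by positivity))] with ε g1 g2 g3 g4 g5 g6
  rw [le_div_iff₀ (by positivity)] at g5
  have hd : 40000 * D.L ^ 5 * rad C ε ≤ δ ^ 6 := by linarith
  set B1 : Set Sample := {ω | ∃ x : St ℂ, Ok (net D ε ω) x.1 x.2 ∧
      Alive (D.sites ε ω) (net D ε ω) x ∧
      Sm (D.sites ε ω) (sx (D.sites ε ω) (net D ε ω) x) ρ ∧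
      η / 3 < ‖TS (D.sites ε ω) (sx (D.sites ε ω) (net D ε ω) x) z‖} with hB1
  set B2 : Set Sample := {ω | ∃ x : St ℂ, Ok (net D ε ω) x.1 x.2 ∧
      Alive (D.sites ε ω) (net D ε ω) x ∧
      ¬ Sm (D.sites ε ω) (sx (D.sites ε ω) (net D ε ω) x) ρ ∧
      ∀ u ∈ P, η / 3 < ‖TS (D.sites ε ω) (sx (D.sites ε ω) (net D ε ω) x) z - T u ε ω‖} with hB2
  set B3 : Set Sample := {ω | ¬ Y0x831.Good D ε C K a C4 ω} with hB3
  have hsub : {ω | ∃ J ∈ Om (net D ε ω), ∃ (l : ℝ) (z : ℂ) (R : ℝ),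
      Bad (D.sites ε ω) (net D ε ω) w l z R (η + 1 * ∑ u ∈ P, ‖T u ε ω‖) J} ⊆ (B1 ∪ B2) ∪ B3 := by
    rintro ω ⟨J, hJ, l, p, R, j, -, hAl, -, hj⟩
    by_contra hcon
    simp only [mem_union, not_or] at hcon
    obtain ⟨⟨c1, c2⟩, c3⟩ := hcon
    have hω : Y0x831.Good D ε C K a C4 ω := by
      by_contra h'
      exact c3 h'
    have hN := g4 K a C4 ω hω
    have hS := DomAx722.dns_of_env hL (DomAx722.small_d hL hδ hOK.w.lt.le hd) hω.env
    have hkl := hkl_dom hOK hS hd hN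
    have hok := xs_ok (good_of_hnet hN) (l := l) hJ j
    have hY := hw _ _ hN hkl _ hok hAl
    have hsum : 0 ≤ ∑ u ∈ P, ‖T u ε ω‖ := Finset.sum_nonneg fun _ _ => norm_nonneg _
    by_cases hs : Sm (D.sites ε ω) (sx (D.sites ε ω) (net D ε ω) (xs (net D ε ω) l J j)) ρ
    · apply c1
      refine ⟨_, hok, hAl, hs, ?_⟩
      linarith
    · apply c2
      refine ⟨_, hok, hAl, hs, ?_⟩
      intro u hu
      have h3 : ‖T u ε ω‖ ≤ ∑ u ∈ P, ‖T u ε ω‖ :=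
        Finset.single_le_sum (f := fun u => ‖T u ε ω‖) (fun _ _ => norm_nonneg _) hu
      have h4 := norm_sub_norm_le
        (TS (D.sites ε ω) (sx (D.sites ε ω) (net D ε ω) (xs (net D ε ω) l J j)) z) (T u ε ω)
      linarith
  have h3 : ENNReal.ofReal η =
      ENNReal.ofReal (η / 3) + ENNReal.ofReal (η / 3) + ENNReal.ofReal (η / 3) := by
    rw [← ENNReal.ofReal_add (by positivity) (by positivity),
      ← ENNReal.ofReal_add (by positivity) (by positivity)]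
    congr 1
    ring
  rw [h3]
  refine (measure_mono hsub).trans ((measure_union_le _ _).trans ?_)
  refine add_le_add ((measure_union_le _ _).trans (add_le_add g1 g2)) ?_
  exact g3.trans (ENNReal.ofReal_le_ofReal g6)

/-- **CONT, weight `we`** -/
theorem cont_we {U : Type} {Sm : Finset ℂ → (ZMod 3 → Set ℂ) → ℝ → Prop}
    {T : U → ℝ → Sample → ℂ} {Adm : Dom → ℝ → Prop} (hU : HITU)
    (hAdm : ∀ D δ, Adm D δ → D.Ad δ) (h1 : SMALL Sm id Adm) (h2 : VIS Sm T id Adm) :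
    CONT we T Adm :=
  cont_of_dcp (dcp_of hAdm (fun _ _ h hkl _ hok hA => norm_we hU h hkl hok hA) h1 h2)

/-- **CONT, weight `wd`** -/
theorem cont_wd {U : Type} {Sm : Finset ℂ → (ZMod 3 → Set ℂ) → ℝ → Prop}
    {T : U → ℝ → Sample → ℂ} {Adm : Dom → ℝ → Prop} (hU : HITU)
    (hAdm : ∀ D δ, Adm D δ → D.Ad δ) (h1 : SMALL Sm (starRingEnd ℂ) Adm)
    (h2 : VIS Sm T (starRingEnd ℂ) Adm) : CONT wd T Adm :=
  cont_of_dcp (dcp_of hAdm (fun _ _ h hkl _ hok hA => norm_wd hU h hkl hok hA) h1 h2)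

end Crest.Agent.R143.Mabx377
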