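import Crest.Agent.R143.LocT3_700
import Crest.Agent.R143.NetV_346

/-!
# Row 143 (S0194), LocT for the frozen `TU` of 346's `NetV_346` (helper700)

* `clu_iff`, `hitV_iff`, `TV_sT1` : `TV S V (Bl S V L) z = sT1 S V L z`
* `deep P d` : centres of closed balls of radius `2 d` in `P`; `mem_Vin`
* **`TU_local`** : `TU S P d L z` is a function of the points of `S` IN `P` (and of `L` on them) as
  soon as `S` is `d`-dense near `deep P d`: `S`, `S'` with the same points in `P` have the same `TU`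
* `TU_congr_L` : only the labels of the sites next to `Vin` count (they are in `P`)
* `TS_TU` : a proper triple with free sites `Vin` and labels `L` next to it has `TS = TU`
-/

set_option autoImplicit false
set_option linter.all false

noncomputable section

open scoped Classical

namespace Crest.Agent.R143.LocUx700

open Crest.Agent.R143.B0x346 Crest.Agent.R143.DelGx806 Crest.Agent.R143.DelRx806
open Crest.Agent.R143.JColx54 Crest.Agent.R143.K33x877
open Crest.Agent.R143.RE0x723 (Pth)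
open Crest.Agent.R143.NetUx346
open Crest.Agent.R143.NetVx346 (TV TU Vin Bl zV)
open Crest.Agent.R143.LocTx700
open Crest.Agent.R143.Locx922 (Hol Agr)

variable {S S' V : Finset ℂ} {L L' : ℂ → ZMod 3} {i : ZMod 3} {T P : Set ℂ} {b x : ℂ} {d : ℝ}
  {t : ℂ × ℂ × ℂ}

theorem bl_eq (i : ZMod 3) : Bl S V L i = Lay S V L i := by
  ext x
  constructor
  · rintro ⟨h1, h2, ⟨v, hv, h3⟩, h4⟩
    exact ⟨mem_bd_of h2 hv h3.symm, h4⟩
  · rintro ⟨h1, h4⟩
    obtain ⟨h1, h2, v, hv, h3⟩ := mem_bd.1 h1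
    exact ⟨h1, h2, ⟨v, hv, h3.symm⟩, h4⟩

theorem clu_iff (T : Set ℂ) : b ∈ Clu S ((V : Set ℂ) ∩ T) (Lay S V L i) ↔ b ∈ CluV S V L i T := by
  constructor
  · intro h
    exact clu_cases h
  · rintro (h | ⟨x, hx, y, hxy, hp⟩)
    · exact ⟨b, h, Pth.refl (Or.inr h)⟩
    · refine ⟨x, hx, ?_⟩
      exact (Pth.single (Or.inr hx) hxy (Or.inl hp.1)).trans (hp.mono Set.subset_union_left)

theorem hitV_iff : NetVx346.HitV S V (Bl S V L) i T t ↔ LocTx700.HitV S V L i T t := by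
  have e1 : ({x | x ∈ V} : Set ℂ) ∩ T = (V : Set ℂ) ∩ T := rfl
  have e2 : ({x | x ∈ V} : Set ℂ) \ T = (V : Set ℂ) ∩ Tᶜ := by
    rw [Set.sdiff_eq]; rfl
  unfold NetVx346.HitV
  rw [e1, e2, bl_eq, bl_eq, bl_eq, clu_iff, clu_iff]
  exact ⟨fun ⟨h1, h2, h3, h4, h5⟩ => ⟨h1, h2, h4, h5, h3⟩,
    fun ⟨h1, h2, h4, h5, h3⟩ => ⟨h1, h2, h3, h4, h5⟩⟩

theorem hitsV_eq (i : ZMod 3) (T : Set ℂ) :
    NetVx346.hitsV S V (Bl S V L) i T = LocTx700.hitsV S V L i T := by
  ext t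
  rw [NetVx346.mem_hitsV, LocTx700.mem_hitsV, hitV_iff]

/-- `TV` of position labels is `sT1` -/
theorem TV_sT1 (z : ℂ → ℂ) : TV S V (Bl S V L) z = sT1 S V L z := by
  unfold TV sT1 sE1
  congr 1
  refine Finset.sum_congr rfl fun i _ => ?_
  congr 2
  funext T
  unfold zV
  rw [hitsV_eq]

/-- centres of closed balls of radius `2 d` in `P` -/
def deep (P : Set ℂ) (d : ℝ) : Set ℂ := {x | Metric.closedBall x (2 * d) ⊆ P}

theorem mem_Vin : x ∈ Vin S P d ↔ x ∈ S ∧ x ∈ deep P d := by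
  unfold Vin deep
  rw [Finset.mem_filter]
  exact Iff.rfl

theorem deep_sub (hd : 0 ≤ d) : deep P d ⊆ P := fun x hx =>
  hx (Metric.mem_closedBall_self (by linarith))

theorem agr_deep (hd : 0 < d) (h : ∀ x ∈ P, x ∈ S ↔ x ∈ S') :
    Agr (S : Set ℂ) (S' : Set ℂ) (deep P d) (2 * d) := by
  intro w hw s hs
  have : s ∈ P := hw (by rw [Metric.mem_closedBall, dist_eq_norm]; exact hs.le)
  exact_mod_cast h s this

theorem Vin_eq (hd : 0 < d) (h : ∀ x ∈ P, x ∈ S ↔ x ∈ S') : Vin S P d = Vin S' P d := by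
  ext x
  rw [mem_Vin, mem_Vin]
  constructor
  · rintro ⟨h1, h2⟩
    exact ⟨(h x (deep_sub hd.le h2)).1 h1, h2⟩
  · rintro ⟨h1, h2⟩
    exact ⟨(h x (deep_sub hd.le h2)).2 h1, h2⟩

/-- the sites next to `Vin` are in `P` -/
theorem bd_Vin (hd : 0 < d) (hH : Hol (S : Set ℂ) (deep P d) d) (hx : x ∈ bd S (Vin S P d)) :
    x ∈ P := by
  obtain ⟨w, hw, -, h⟩ := bd_near hd hH
    (fun v hv => (mem_Vin.1 (Finset.mem_coe.1 hv)).2) hx
  refine (mem_Vin.1 hw).2 ?_
  rw [Metric.mem_closedBall, dist_eq_norm]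
  exact h.le

/-- **LOCALITY of `TU`** : the points of `S` in `P` are enough -/
theorem TU_local (hd : 0 < d) (hH : Hol (S : Set ℂ) (deep P d) d)
    (h : ∀ x ∈ P, x ∈ S ↔ x ∈ S') (hL : ∀ x ∈ P, L x = L' x) (z : ℂ → ℂ) :
    TU S P d L z = TU S' P d L' z := by
  unfold TU
  rw [← Vin_eq hd h, TV_sT1, TV_sT1]
  exact sT1_local hd hH (agr_deep hd h) (fun v hv => (mem_Vin.1 (Finset.mem_coe.1 hv)).2)
    (fun x hx => hL x (bd_Vin hd hH hx)) z

/-- agreement near a larger set -/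
theorem TU_local' {W : Set ℂ} {r : ℝ} (hd : 0 < d) (hPW : P ⊆ W) (hH : Hol (S : Set ℂ) W d)
    (hr : 0 < r) (hA : Agr (S : Set ℂ) (S' : Set ℂ) W r) (z : ℂ → ℂ) :
    TU S P d L z = TU S' P d L z := by
  refine TU_local hd (hH.mono ((deep_sub hd.le).trans hPW)) (fun x hx => ?_) (fun _ _ => rfl) z
  have := hA x (hPW hx) x (by simpa using hr)
  exact_mod_cast this

/-- the trace of the sites on `P` is enough (as a set) -/
theorem TU_filter (hd : 0 < d) (hH : Hol (S : Set ℂ) (deep P d) d) (z : ℂ → ℂ) :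
    TU S P d L z = TU (S.filter (· ∈ P)) P d L z := by
  refine TU_local hd hH (fun x hx => ?_) (fun _ _ => rfl) z
  rw [Finset.mem_filter]
  exact ⟨fun h => ⟨h, hx⟩, fun h => h.1⟩

theorem Vin_sub : Vin S P d ⊆ S := Finset.filter_subset _ _

/-- **a proper triple with free sites `Vin` and labels `L` next to it** -/
theorem TS_TU {A : ZMod 3 → Set ℂ} (hA : G3 S A) (hX : Hex S A)
    (h : Cmp S (Vin S P d) L A) (hI : InV S (Vin S P d) A) (z : ℂ → ℂ) :
    TS S A z = TU S P d L z := by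
  unfold TU
  rw [TV_sT1]
  exact TS_sT1 hA hX h hI z

end Crest.Agent.R143.LocUx700
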