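import Crest.Agent.R143.PolyU_346
import Crest.Agent.R143.AsmD_377
import Crest.Agent.R143.LocU_700

/-!
# Row 143 (S0194), CONT: VIS, top (helper758)

* `fin_poly` : finitely many labelled brick polygons of a given unit in a given box, up to
  representatives with the same region and the same arcs
* `Tz u z` : `T` (`z = id`), `T'` (`z = conj`)
* **leaf `VISD Sm z Adm`** : without a small centre the static total is close to
  `TU (D.sites ε ω) u.P √ε u.Lab z` for some labelled polygon `u` of unit `2⁻ⁿ` in the disc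
* **`vis_of : VISD Sm z Adm → VIS Sm (fun u => Tz u z) z Adm`**
-/

set_option autoImplicit false

noncomputable section

open scoped Classical

namespace Crest.Agent.R143.VisAx758

open Complex Set Filter Topology MeasureTheory
open Crest.ProbabilityR.Voronoi
open Crest.Agent.R143.B0x346 Crest.Agent.R143.B0Dx346 Crest.Agent.R143.PP1x831
open Crest.Agent.R143.JCardx872
open Crest.Agent.R143.B6Ix903 (net)
open Crest.Agent.R143.Locx922 (Hol)
open Crest.Agent.R143.DicCx831 (rad_small rad_pos ev_unit)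
open Crest.Agent.R143.DicDx831 (good_ev)
open Crest.Agent.R143.Mabx377
open Crest.Agent.R143.NetUx346 (TS)
open Crest.Agent.R143.NetVx346
open Crest.Agent.R143.LocUx700 (deep TU_local)
open Crest.Agent.R143.PolyUx346
open Crest.Agent.R143.Brkx478 (Bk cells bk)
open Crest.Agent.R143.Tenx416 (Pg)
open Crest.Agent.R158.Sp896 hiding rad sq

/-! ### finitely many polygons -/

/-- the total of the polygon `u` with the coordinate `z` -/
def Tz (u : Poly) (z : ℂ → ℂ) (ε : ℝ) (ω : Sample) : ℂ := TU (u.S ε ω) u.P √ε u.Lab z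

theorem Tz_id (u : Poly) : Tz u id = u.T := rfl

theorem Tz_conj (u : Poly) : Tz u (starRingEnd ℂ) = u.T' := rfl

theorem s_eq {u u' : Poly} (hn : u'.n = u.n) : u'.s = u.s := by
  unfold Poly.s
  rw [hn]

theorem P_eq {u u' : Poly} (hn : u'.n = u.n) (hU : u'.U = u.U) : u'.P = u.P := by
  unfold Poly.P
  rw [s_eq hn, hU]

theorem lab_eq {u u' : Poly} (hA : u'.Arc = u.Arc) : u'.Lab = u.Lab := by
  have hN : u'.Near = u.Near := by
    funext x j
    unfold Poly.Near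
    rw [hA]
  funext x
  unfold Poly.Lab
  rw [hN]

theorem S_eq {u u' : Poly} (hn : u'.n = u.n) (hU : u'.U = u.U) : u'.S = u.S := by
  funext ε ω
  unfold Poly.S
  rw [P_eq hn hU]

theorem Tz_eq {u u' : Poly} (hn : u'.n = u.n) (hU : u'.U = u.U) (hA : u'.Arc = u.Arc) :
    Tz u' = Tz u := by
  funext z ε ω
  unfold Tz
  rw [S_eq hn hU, P_eq hn hU, lab_eq hA]

/-- all the cells are in the box -/
def InBox (U : Finset Bk) (M : ℕ) : Prop := ∀ q ∈ cells (U : Set Bk), |q.1| ≤ M ∧ |q.2| ≤ M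

theorem brick_box {U : Finset Bk} {M : ℕ} (h : InBox U M) :
    U ⊆ Finset.Icc (-(M : ℤ)) M ×ˢ Finset.Icc (-(M : ℤ)) M := by
  intro b hb
  have h1 : ((2 * b.1 + b.2, b.2) : V) ∈ cells (U : Set Bk) := by
    show bk (2 * b.1 + b.2, b.2) ∈ (U : Set Bk)
    have e : bk (2 * b.1 + b.2, b.2) = b := by
      unfold bk
      ext <;> simp
    rw [e]
    exact hb
  obtain ⟨h2, h3⟩ := h _ h1
  simp only at h2 h3
  rw [abs_le] at h2 h3
  rw [Finset.mem_product, Finset.mem_Icc, Finset.mem_Icc]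
  refine ⟨⟨?_, ?_⟩, ?_, ?_⟩ <;> omega

/-- the vertices of the boundary walk are in the box -/
theorem vert_box {u : Poly} {M : ℕ} (h : InBox u.U M) (i : ℕ) :
    |(u.v i).1| ≤ M + 1 ∧ |(u.v i).2| ≤ M + 1 := by
  obtain ⟨h2, h3⟩ := h _ (u.cyc.left i)
  have h1 := u.cyc.step i
  unfold lc at h2 h3
  unfold Adj at h1
  simp only at h2 h3
  rw [abs_le] at h2 h3 ⊢
  rw [abs_le]
  omega

/-- the lattice points in the box -/
def Wb (M : ℕ) : Set V := {a | |a.1| ≤ (M : ℤ) + 1 ∧ |a.2| ≤ (M : ℤ) + 1}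

theorem Wb_fin (M : ℕ) : (Wb M).Finite := by
  refine ((Finset.Icc (-((M : ℤ) + 1)) (M + 1) ×ˢ Finset.Icc (-((M : ℤ) + 1)) (M + 1) :
    Finset V).finite_toSet).subset ?_
  intro a ha
  obtain ⟨h1, h2⟩ := ha
  rw [abs_le] at h1 h2
  rw [Finset.mem_coe, Finset.mem_product, Finset.mem_Icc, Finset.mem_Icc]
  exact ⟨⟨h1.1, h1.2⟩, h2.1, h2.2⟩

/-- end points of the pieces -/
def Qs (s : ℝ) (M : ℕ) : Set ℂ :=
  (fun a => pt s a) '' Wb M ∪ (fun p : V × V => (pt s p.1 + pt s p.2) / 2) '' (Wb M ×ˢ Wb M)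

theorem Qs_fin (s : ℝ) (M : ℕ) : (Qs s M).Finite :=
  ((Wb_fin M).image _).union (((Wb_fin M).prod (Wb_fin M)).image _)

/-- the segments -/
def Sg (s : ℝ) (M : ℕ) : Set (Set ℂ) :=
  (fun p : ℂ × ℂ => segment ℝ p.1 p.2) '' (Qs s M ×ˢ Qs s M)

theorem Sg_fin (s : ℝ) (M : ℕ) : (Sg s M).Finite :=
  ((Qs_fin s M).prod (Qs_fin s M)).image _

theorem pt_Qs {u : Poly} {M : ℕ} (h : InBox u.U M) (i : ℕ) : pt u.s (u.v i) ∈ Qs u.s M :=
  Or.inl ⟨_, vert_box h i, rfl⟩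

theorem mid_Qs {u : Poly} {M : ℕ} (h : InBox u.U M) (i : ℕ) : u.mid i ∈ Qs u.s M :=
  Or.inr ⟨(u.v i, u.v (i + 1)), ⟨vert_box h i, vert_box h (i + 1)⟩, rfl⟩

theorem seg_Sg {s : ℝ} {M : ℕ} {x y : ℂ} (hx : x ∈ Qs s M) (hy : y ∈ Qs s M) :
    segment ℝ x y ∈ Sg s M := ⟨(x, y), ⟨hx, hy⟩, rfl⟩

/-- the arcs are finite unions of segments of the box -/
theorem arc_Sg {u : Poly} {M : ℕ} (h : InBox u.U M) (j : Fin 3) :
    u.Arc j ∈ sUnion '' {G | G ⊆ Sg u.s M} := by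
  refine ⟨insert (segment ℝ (u.mid (u.k j)) (pt u.s (u.v (u.k j + 1))))
    (insert (segment ℝ (pt u.s (u.v (u.k' j))) (u.mid (u.k' j)))
      ((fun i => ed u.s (u.v i) (u.v (i + 1))) '' Set.Ioo (u.k j) (u.k' j))), ?_, ?_⟩
  · rintro G (rfl | rfl | ⟨i, -, rfl⟩)
    · exact seg_Sg (mid_Qs h _) (pt_Qs h _)
    · exact seg_Sg (pt_Qs h _) (mid_Qs h _)
    · exact seg_Sg (pt_Qs h _) (pt_Qs h _)
  · rw [sUnion_insert, sUnion_insert, sUnion_image]
    unfold Poly.Arc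
    ext x
    simp only [mem_union]
    tauto

/-- **finitely many polygons** -/
theorem fin_poly (n M : ℕ) : ∃ P : Finset Poly, ∀ u : Poly, u.n = n → InBox u.U M →
    ∃ u' ∈ P, u'.n = u.n ∧ u'.U = u.U ∧ u'.Arc = u.Arc := by
  set s : ℝ := (1 / 2) ^ n with hs
  set K : Set (Finset Bk × (Fin 3 → Set ℂ)) :=
    {x | ∃ u : Poly, u.n = n ∧ InBox u.U M ∧ u.U = x.1 ∧ u.Arc = x.2} with hK
  have hfin : K.Finite := by
    have h1 : (((Finset.Icc (-(M : ℤ)) M ×ˢ Finset.Icc (-(M : ℤ)) M).powerset :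
        Finset (Finset Bk)) : Set (Finset Bk)).Finite := Finset.finite_toSet _
    have h2 : (Set.univ.pi fun _ : Fin 3 => sUnion '' {G | G ⊆ Sg s M}).Finite :=
      Set.Finite.pi fun _ => ((Sg_fin s M).finite_subsets).image _
    refine (h1.prod h2).subset ?_
    rintro ⟨a, b⟩ ⟨u, hn, hb, rfl, rfl⟩
    have e : u.s = s := by unfold Poly.s; rw [hn]
    refine ⟨Finset.mem_coe.2 (Finset.mem_powerset.2 (brick_box hb)), ?_⟩
    rw [Set.mem_pi]
    intro j _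
    have := arc_Sg hb j
    rw [e] at this
    exact this
  choose g hg using fun x : K => x.2
  have := hfin.fintype
  refine ⟨Finset.univ.image g, ?_⟩
  intro u hn hb
  refine ⟨g ⟨(u.U, u.Arc), u, hn, hb, rfl, rfl⟩, Finset.mem_image_of_mem _ (Finset.mem_univ _), ?_⟩
  obtain ⟨h1, -, h3, h4⟩ := hg ⟨(u.U, u.Arc), u, hn, hb, rfl, rfl⟩
  exact ⟨h1.trans hn.symm, h3, h4⟩

/-- regions inside a disc are in a box -/
theorem box_of_ball (n : ℕ) (c : ℂ) (R : ℝ) : ∃ M : ℕ, ∀ u : Poly, u.n = n →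
    u.P ⊆ Metric.closedBall c R → InBox u.U M := by
  obtain ⟨M, hM⟩ := exists_nat_ge ((‖c‖ + R) * 2 ^ n)
  refine ⟨M, ?_⟩
  intro u hn hP q hq
  have hs : u.s = (1 / 2) ^ n := by unfold Poly.s; rw [hn]
  have hs0 : 0 < u.s := u.s_pos
  have h1 : (⟨u.s * q.1, u.s * q.2⟩ : ℂ) ∈ u.P := by
    unfold Poly.P Pg
    rw [Set.mem_iUnion₂]
    refine ⟨q, hq, ?_⟩
    refine ⟨le_rfl, ?_, le_rfl, ?_⟩
    · exact mul_le_mul_of_nonneg_left (by linarith) hs0.le
    · exact mul_le_mul_of_nonneg_left (by linarith) hs0.le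
  have h2 := hP h1
  rw [Metric.mem_closedBall, dist_eq_norm] at h2
  have h3 : ‖(⟨u.s * q.1, u.s * q.2⟩ : ℂ)‖ ≤ ‖c‖ + R := by
    have := norm_le_norm_add_norm_sub' (⟨u.s * q.1, u.s * q.2⟩ : ℂ) c
    linarith
  have e : (2 : ℝ) ^ n * u.s = 1 := by
    rw [hs, ← mul_pow]
    norm_num
  have h4 : ∀ k : ℤ, |u.s * k| ≤ ‖c‖ + R → |k| ≤ (M : ℤ) := by
    intro k hk
    rw [abs_mul, abs_of_pos hs0] at hk
    have h5 : |(k : ℝ)| ≤ (M : ℝ) := by
      have h6 : |(k : ℝ)| = (u.s * |(k : ℝ)|) * 2 ^ n := by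
        have : (u.s * |(k : ℝ)|) * 2 ^ n = (2 ^ n * u.s) * |(k : ℝ)| := by ring
        rw [this, e, one_mul]
      rw [h6]
      exact (mul_le_mul_of_nonneg_right hk (by positivity)).trans hM
    exact_mod_cast h5
  exact ⟨h4 _ ((Complex.abs_re_le_norm _).trans h3), h4 _ ((Complex.abs_im_le_norm _).trans h3)⟩

/-! ### VIS -/

/-- **leaf VISD** -/
def VISD (Sm : Finset ℂ → (ZMod 3 → Set ℂ) → ℝ → Prop) (z : ℂ → ℂ)
    (Adm : Dom → ℝ → Prop) : Prop :=
  ∀ (D : Dom) (δ : ℝ), Adm D δ → ∀ ρ > 0, ∀ η > 0, ∃ n : ℕ, ∀ᶠ ε : ℝ in 𝓝[>] 0,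
    sampleLaw {ω | ∃ x : St ℂ, Ok (net D ε ω) x.1 x.2 ∧ Alive (D.sites ε ω) (net D ε ω) x ∧
      ¬ Sm (D.sites ε ω) (sx (D.sites ε ω) (net D ε ω) x) ρ ∧
      ∀ u : Poly, u.n = n → u.P ⊆ Metric.closedBall D.c D.L →
        η < ‖TS (D.sites ε ω) (sx (D.sites ε ω) (net D ε ω) x) z -
          TU (D.sites ε ω) u.P √ε u.Lab z‖} ≤ ENNReal.ofReal η

/-- `rad C ε ≤ √ε` -/
theorem rad_le_sqrt {C : ℝ} (hC : 0 < C) : ∀ᶠ ε : ℝ in 𝓝[>] 0, rad C ε ≤ √ε := by
  have h1 := (DicCx831.log_small 1).eventually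
    (ge_mem_nhds (show (0 : ℝ) < 1 / C ^ 2 by positivity))
  filter_upwards [h1, ev_unit] with ε h2 h3
  have hl : 0 < Real.log (1 / ε) := Real.log_pos (by rw [lt_div_iff₀ h3.1]; linarith [h3.2])
  rw [Real.rpow_one, le_div_iff₀ (by positivity)] at h2
  refine Real.le_sqrt_of_sq_le ?_
  have h4 : rad C ε ^ 2 = ε * (ε * Real.log (1 / ε) * C ^ 2) := by
    unfold rad
    rw [mul_pow, mul_pow, Real.sq_sqrt hl.le]
    ring
  rw [h4]
  have := h3.1
  nlinarith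

/-- a closed ball inside a closed ball -/
theorem ball_in {z c : ℂ} {r L : ℝ} (hr : 0 ≤ r)
    (h : Metric.closedBall z r ⊆ Metric.closedBall c L) : ‖z - c‖ + r ≤ L := by
  obtain ⟨e, he, hz⟩ : ∃ e : ℂ, ‖e‖ = 1 ∧ z - c = (‖z - c‖ : ℂ) * e := by
    by_cases h0 : z - c = 0
    · exact ⟨1, norm_one, by rw [h0]; simp⟩
    · have h1 : (‖z - c‖ : ℂ) ≠ 0 := by
        exact_mod_cast (norm_pos_iff.2 h0).ne'
      refine ⟨(z - c) / ‖z - c‖, ?_, by field_simp⟩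
      rw [norm_div, Complex.norm_real, norm_norm, div_self (norm_pos_iff.2 h0).ne']
  have h1 : z + r * e ∈ Metric.closedBall z r := by
    rw [Metric.mem_closedBall, dist_eq_norm, add_sub_cancel_left, norm_mul, he, mul_one,
      Complex.norm_real, Real.norm_eq_abs, abs_of_nonneg hr]
  have h2 := h h1
  rw [Metric.mem_closedBall, dist_eq_norm] at h2
  have h3 : z + r * e - c = ((‖z - c‖ + r : ℝ) : ℂ) * e := by
    push_cast
    linear_combination hz
  rw [h3, norm_mul, he, mul_one, Complex.norm_real, Real.norm_eq_abs,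
    abs_of_nonneg (by positivity)] at h2
  exact h2

theorem P_ne (u : Poly) : u.P.Nonempty := by
  refine ⟨⟨u.s * (lc (u.v 0) (u.v 1)).1, u.s * (lc (u.v 0) (u.v 1)).2⟩, ?_⟩
  have hs0 : 0 < u.s := u.s_pos
  unfold Poly.P Pg
  rw [Set.mem_iUnion₂]
  refine ⟨lc (u.v 0) (u.v 1), u.cyc.left 0, le_rfl, ?_, le_rfl, ?_⟩
  · exact mul_le_mul_of_nonneg_left (by linarith) hs0.le
  · exact mul_le_mul_of_nonneg_left (by linarith) hs0.le

/-- the points near a region in a disc are in a disc -/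
theorem near_in {u : Poly} {c : ℂ} {L a : ℝ} (h : u.P ⊆ Metric.closedBall c L) :
    {x | Metric.infDist x u.P ≤ a} ⊆ Metric.closedBall 0 (‖c‖ + L + a + 1) := by
  intro x hx
  obtain ⟨y, hy, hxy⟩ := (Metric.infDist_lt_iff (P_ne u)).1 (lt_of_le_of_lt hx (lt_add_one a))
  have h1 := h hy
  rw [Metric.mem_closedBall, dist_eq_norm] at h1
  rw [dist_eq_norm] at hxy
  rw [mem_closedBall_zero_iff]
  calc ‖x‖ = ‖c + (y - c) + (x - y)‖ := by congr 1; ring
    _ ≤ ‖c + (y - c)‖ + ‖x - y‖ := norm_add_le _ _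
    _ ≤ ‖c‖ + ‖y - c‖ + ‖x - y‖ := by linarith [norm_add_le c (y - c)]
    _ ≤ _ := by linarith

/-- **locality**: in a good environment `TU` of the sites of the domain is `T u` -/
theorem tu_eq {D : Dom} {ε C K a C4 : ℝ} {ω : Sample} {u : Poly} (hε : 0 < ε)
    (hr : rad C ε ≤ √ε) (hG : Y0x831.Good D ε C K a C4 ω)
    (hf : ∀ r : ℝ, (points ε ω ∩ Metric.closedBall 0 r).Finite)
    (hP : u.P ⊆ Metric.closedBall D.c D.L) (z : ℂ → ℂ) :
    TU (D.sites ε ω) u.P √ε u.Lab z = Tz u z ε ω := by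
  have hd : 0 < √ε := Real.sqrt_pos.2 hε
  have hE := hG.env
  have hfu : (points ε ω ∩ {x | Metric.infDist x u.P ≤ 100 * √ε}).Finite :=
    (hf _).subset (Set.inter_subset_inter_right _ (near_in hP))
  unfold Tz
  refine TU_local hd ?_ ?_ (fun _ _ => rfl) z
  · intro w hw y hy
    have hw2 : Metric.closedBall w (2 * √ε) ⊆ u.P := hw
    have h1 : Metric.closedBall y √ε ⊆ Metric.closedBall w (2 * √ε) := by
      refine Metric.closedBall_subset_closedBall' ?_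
      rw [dist_eq_norm]
      linarith
    have h2 := ball_in hd.le (h1.trans (hw2.trans hP))
    obtain ⟨s, hs, hs2⟩ := hE.hole y (by
      rw [Metric.mem_closedBall, dist_eq_norm]
      linarith)
    rw [Metric.mem_ball, dist_eq_norm] at hs2
    have h3 : s ∈ Metric.closedBall D.c D.L := by
      refine (h1.trans (hw2.trans hP)) ?_
      rw [Metric.mem_closedBall, dist_eq_norm]
      linarith
    rw [Metric.mem_closedBall, dist_eq_norm] at h3
    exact ⟨s, Finset.mem_coe.2 ((DomAx722.mem_sites hE.fin).2 ⟨hs, h3⟩), by linarith⟩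
  · intro x hx
    have h3 := hP hx
    rw [Metric.mem_closedBall, dist_eq_norm] at h3
    rw [DomAx722.mem_sites hE.fin, Poly.mem_S hfu]
    refine ⟨fun h => ⟨h.1, ?_⟩, fun h => ⟨h.1, h3⟩⟩
    rw [Metric.infDist_zero_of_mem hx]
    positivity

theorem vis_of {Sm : Finset ℂ → (ZMod 3 → Set ℂ) → ℝ → Prop} {z : ℂ → ℂ}
    {Adm : Dom → ℝ → Prop} (hAdm : ∀ D δ, Adm D δ → D.W δ) (h : VISD Sm z Adm) :
    VIS Sm (fun u => Tz u z) z Adm := by
  intro D δ hD ρ hρ η hη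
  have hL := (hAdm D δ hD).Lpos
  obtain ⟨n, h1⟩ := h D δ hD ρ hρ (η / 2) (by positivity)
  obtain ⟨M, hM⟩ := box_of_ball n D.c D.L
  obtain ⟨P, hP⟩ := fin_poly n M
  obtain ⟨C, K, a, C4, hC, hK, ha, hC4, hgood⟩ := good_ev D hL
  refine ⟨P, ?_⟩
  filter_upwards [h1, hgood, rad_le_sqrt hC, ev_unit,
    (tendsto_id.mono_left nhdsWithin_le_nhds : Tendsto (fun ε : ℝ => ε) (𝓝[>] 0) (𝓝 0)).eventually
      (ge_mem_nhds (show (0 : ℝ) < η / 2 by positivity))] with ε e1 e2 e3 e4 e5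
  set B1 : Set Sample := {ω | ∃ x : St ℂ, Ok (net D ε ω) x.1 x.2 ∧
      Alive (D.sites ε ω) (net D ε ω) x ∧
      ¬ Sm (D.sites ε ω) (sx (D.sites ε ω) (net D ε ω) x) ρ ∧
      ∀ u : Poly, u.n = n → u.P ⊆ Metric.closedBall D.c D.L →
        η / 2 < ‖TS (D.sites ε ω) (sx (D.sites ε ω) (net D ε ω) x) z -
          TU (D.sites ε ω) u.P √ε u.Lab z‖} with hB1
  set B2 : Set Sample := {ω | ¬ Y0x831.Good D ε C K a C4 ω} with hB2
  set Z : Set Sample := {ω | ¬ ∀ r : ℝ, (points ε ω ∩ Metric.closedBall 0 r).Finite} with hZ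
  have hZ0 : sampleLaw Z = 0 := by
    have h' : ∀ᵐ ω ∂sampleLaw, ∀ r : ℝ, (points ε ω ∩ Metric.closedBall 0 r).Finite := by
      filter_upwards [PoisM3x930.m3a ε e4.1] with ω hω
      exact hω.2.2
    exact ae_iff.1 h'
  have hsub : {ω | ∃ x : St ℂ, Ok (net D ε ω) x.1 x.2 ∧ Alive (D.sites ε ω) (net D ε ω) x ∧
      ¬ Sm (D.sites ε ω) (sx (D.sites ε ω) (net D ε ω) x) ρ ∧
      ∀ u ∈ P, η < ‖TS (D.sites ε ω) (sx (D.sites ε ω) (net D ε ω) x) z - Tz u z ε ω‖} ⊆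
      (B1 ∪ B2) ∪ Z := by
    rintro ω ⟨x, hok, hAl, hs, hu⟩
    by_contra hcon
    simp only [mem_union, not_or] at hcon
    obtain ⟨⟨c1, c2⟩, c3⟩ := hcon
    have hω : Y0x831.Good D ε C K a C4 ω := by
      by_contra h'
      exact c2 h'
    have hf : ∀ r : ℝ, (points ε ω ∩ Metric.closedBall 0 r).Finite := by
      by_contra h'
      exact c3 h'
    refine c1 ⟨x, hok, hAl, hs, ?_⟩
    intro u hn huP
    obtain ⟨u', hu', f1, f2, f3⟩ := hP u hn (hM u hn huP)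
    have h3 := hu u' hu'
    rw [Tz_eq f1 f2 f3] at h3
    rw [tu_eq e4.1 e3 hω hf huP]
    linarith
  refine (measure_mono hsub).trans ((measure_union_le _ _).trans ?_)
  rw [hZ0, add_zero]
  refine (measure_union_le _ _).trans ?_
  have h3 : ENNReal.ofReal η = ENNReal.ofReal (η / 2) + ENNReal.ofReal (η / 2) := by
    rw [← ENNReal.ofReal_add (by positivity) (by positivity)]
    congr 1
    ring
  rw [h3]
  exact add_le_add e1 (e2.trans (ENNReal.ofReal_le_ofReal e5))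

end Crest.Agent.R143.VisAx758
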