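import Crest.Agent.R143.SmlF_377
import Crest.Agent.R143.VisA_758
import Crest.Agent.R143.Hex_877

/-!
# Row 143 (S0194), CONT: the environment passage of the visible side (helper377)

* `DETQ z` : 877's deterministic statement `DETV z` (literal)
* `ccw_x` : the classes of an alive state are in counterclockwise order
* **`visd_of : DETQ z → ARMS Adm → HULLM Adm → VISD Sm1 z Adm`**
* **`cont_we_det`, `cont_wd_det`** : `HarmOne → DETQ z → CONT` for the frozen polygons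
-/

set_option autoImplicit false

noncomputable section

open scoped Classical

namespace Crest.Agent.R143.Mabx377

open Complex Set Filter Topology MeasureTheory
open Crest.ProbabilityR.Voronoi
open Crest.Agent.R143.B0x346 Crest.Agent.R143.B0Dx346 Crest.Agent.R143.PP1x831
open Crest.Agent.R143.J1x872 Crest.Agent.R143.J4x872 Crest.Agent.R143.JWalkx872
open Crest.Agent.R143.JCardx872 Crest.Agent.R143.Oscx63
open Crest.Agent.R143.Sidesx697 (Wall Side)
open Crest.Agent.R143.B6Ix903 (net)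
open Crest.Agent.R143.DicCx831 (rad_small rad_pos ev_unit)
open Crest.Agent.R143.DicDx831 (hnet_ev good_ev)
open Crest.Agent.R143.HitLx54 (Dj sA)
open Crest.Agent.R143.NetUx346 (TS ff Hex)
open Crest.Agent.R143.NetVx346 (TU)
open Crest.Agent.R143.PolyUx346
open Crest.Agent.R143.VisAx758 (VISD rad_le_sqrt)

/-- 877's deterministic statement -/
def DETQ (z : ℂ → ℂ) : Prop := ∀ (x0 : ℂ) (L C4 C c : ℝ), 0 < L → 0 ≤ C4 → 1 ≤ C → 0 < c →
  ∀ ρ > 0, ∀ η > 0, ∃ (n : ℕ) (b0 : ℝ), 0 < b0 ∧ ∀ (S : Finset ℂ) (e e' : ℝ),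
    DomAx722.Dns S x0 L e → e ≤ e' → e' ≤ b0 → HM S x0 L C4 b0 → Arms S x0 L C c b0 →
    ∀ A : ZMod 3 → Set ℂ, K33x877.Tr S A → Hexx877.Ccw S A → ¬ Sm1 S A ρ →
      ∃ u : Poly, u.n = n ∧ u.P ⊆ Metric.closedBall x0 L ∧
        ‖TS S A z - TU S u.P e' u.Lab z‖ ≤ η

/-- the classes of an alive state are counterclockwise -/
theorem ccw_x {S : Finset ℂ} {N : Net ℂ} (h : HNet S N)
    (hkl : ∀ a b : ℂ, (a, b) ∈ N.kl → (a, b) ∈ N.E → ∃ i, Side N i a)
    {x : St ℂ} (hok : Ok N x.1 x.2) (hA : Alive S N x) : Hexx877.Ccw S (sx S N x) := by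
  obtain ⟨hN, hpr, -⟩ := alive_net h hkl hok hA
  have O := PgNx848.tg_of_net hN hpr
  intro i
  refine ⟨_, _, O.hr (i + 1), ?_, O.end2 (i + 1)⟩
  have := O.end1 (i + 1)
  rw [add_sub_cancel_right] at this
  exact this

/-- **the environment passage of VIS** -/
theorem visd_of {z : ℂ → ℂ} {Adm : Dom → ℝ → Prop} (hAdm : ∀ D δ, Adm D δ → D.Ad δ)
    (hz : DETQ z) (hA : ARMS Adm) (hM : HULLM Adm) : VISD Sm1 z Adm := by
  intro D δ hD ρ hρ η hη
  have hOK := hAdm D δ hD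
  have hL := hOK.w.Lpos
  have hδ := hOK.w.dpos
  obtain ⟨C, c, hC, hc, h1⟩ := hA D δ hD
  obtain ⟨C4, hC4, h2⟩ := hM D δ hD
  obtain ⟨n, b0, hb0, h3⟩ := hz D.c D.L C4 C c hL hC4 hC hc ρ hρ η hη
  refine ⟨n, ?_⟩
  obtain ⟨C', K, a, C4', hC', hK, ha, hC4', hgood⟩ := good_ev D hL
  have hsq : ∀ᶠ ε : ℝ in 𝓝[>] 0, √ε ≤ b0 := by
    have ht : Tendsto (fun ε : ℝ => √ε) (𝓝[>] 0) (𝓝 0) := by
      have := (Real.continuous_sqrt.tendsto 0).mono_left
        (nhdsWithin_le_nhds (s := Ioi (0 : ℝ)))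
      rwa [Real.sqrt_zero] at this
    exact ht.eventually (ge_mem_nhds hb0)
  filter_upwards [h1 b0 hb0 (η / 3) (by positivity), h2 b0 hb0 (η / 3) (by positivity), hgood,
    hnet_ev hOK.w hC',
    (rad_small C').eventually (ge_mem_nhds (show (0 : ℝ) < δ ^ 6 / (40000 * D.L ^ 5) by positivity)),
    (tendsto_id.mono_left nhdsWithin_le_nhds : Tendsto (fun ε : ℝ => ε) (𝓝[>] 0) (𝓝 0)).eventually
      (ge_mem_nhds (show (0 : ℝ) < η / 3 by positivity)), rad_le_sqrt hC', hsq]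
    with ε g1 g2 g3 g4 g5 g6 g7 g8
  rw [le_div_iff₀ (by positivity)] at g5
  have hd : 40000 * D.L ^ 5 * rad C' ε ≤ δ ^ 6 := by linarith
  have hsub : {ω | ∃ x : St ℂ, Ok (net D ε ω) x.1 x.2 ∧ Alive (D.sites ε ω) (net D ε ω) x ∧
      ¬ Sm1 (D.sites ε ω) (sx (D.sites ε ω) (net D ε ω) x) ρ ∧
      ∀ u : Poly, u.n = n → u.P ⊆ Metric.closedBall D.c D.L →
        η < ‖TS (D.sites ε ω) (sx (D.sites ε ω) (net D ε ω) x) z -
          TU (D.sites ε ω) u.P √ε u.Lab z‖} ⊆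
      ({ω | ¬ Arms (D.sites ε ω) D.c D.L C c b0} ∪
        {ω | ¬ HM (D.sites ε ω) D.c D.L C4 b0}) ∪ {ω | ¬ Y0x831.Good D ε C' K a C4' ω} := by
    rintro ω ⟨x, hok, hAl, hSm, hbig⟩
    by_contra hcon
    simp only [mem_union, mem_ofPred_eq, not_or, not_not] at hcon
    obtain ⟨⟨c1, c2⟩, c3⟩ := hcon
    have hN := g4 K a C4' ω c3
    have hS := DomAx722.dns_of_env hL (DomAx722.small_d hL hδ hOK.w.lt.le hd) c3.env
    have hkl := hkl_dom hOK hS hd hN
    obtain ⟨-, -, -, -, hT, -⟩ := alive_net hN hkl hok hAl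
    obtain ⟨u, hu1, hu2, hu3⟩ := h3 _ _ √ε hS g7 g8 c2 c1 _ hT (ccw_x hN hkl hok hAl) hSm
    exact absurd (hbig u hu1 hu2) (not_lt.2 hu3)
  have h4 : ENNReal.ofReal η =
      ENNReal.ofReal (η / 3) + ENNReal.ofReal (η / 3) + ENNReal.ofReal (η / 3) := by
    rw [← ENNReal.ofReal_add (by positivity) (by positivity),
      ← ENNReal.ofReal_add (by positivity) (by positivity)]
    congr 1
    ring
  rw [h4]
  refine (measure_mono hsub).trans ((measure_union_le _ _).trans ?_)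
  refine add_le_add ((measure_union_le _ _).trans (add_le_add g1 g2)) ?_
  exact g3.trans (ENNReal.ofReal_le_ofReal g6)

/-- **VISD from the deterministic statement and one scale at the hull** -/
theorem visd_one {z : ℂ → ℂ} {Adm : Dom → ℝ → Prop} (hAdm : ∀ D δ, Adm D δ → D.Ad δ)
    (h : HarmSx496.HarmOne) (hz : DETQ z) : VISD Sm1 z Adm :=
  visd_of hAdm hz (arms_one hAdm h) (hullm_adm hAdm)

/-- **CONT, weight `we`, frozen polygons** -/
theorem cont_we_det {Adm : Dom → ℝ → Prop} (hAdm : ∀ D δ, Adm D δ → D.Ad δ)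
    (h : HarmSx496.HarmOne) (hz : DETQ id) :
    AsmNx758.CONT AsmNx758.we (fun u : Poly => u.T) Adm :=
  cont_we_one hAdm h (VisAx758.vis_of (fun D δ hD => (hAdm D δ hD).w) (visd_one hAdm h hz))

/-- **CONT, weight `wd`, frozen polygons** -/
theorem cont_wd_det {Adm : Dom → ℝ → Prop} (hAdm : ∀ D δ, Adm D δ → D.Ad δ)
    (h : HarmSx496.HarmOne) (hz : DETQ (starRingEnd ℂ)) :
    AsmNx758.CONT AsmNx758.wd (fun u : Poly => u.T') Adm :=
  cont_wd_one hAdm h (VisAx758.vis_of (fun D δ hD => (hAdm D δ hD).w) (visd_one hAdm h hz))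

end Crest.Agent.R143.Mabx377
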