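import Crest.Agent.R143.FinD_894
import Crest.Agent.R143.VisE_377

/-!
# Row 143 (S0194): what is left, third form (helper377)

* **`leaf_det`** : the leaf from four open Props, three of them deterministic:
  `HarmSx496.HarmOne` (the quad step at the hull), `DETQ id`, `DETQ conj` (877's visible side at one
  environment), and `RIGP Poly.T Dk`.
-/

set_option autoImplicit false

noncomputable section

namespace Crest.Agent.R143.Mabx377

open Crest.ProbabilityR.Voronoi
open Crest.Agent.R143.B0Dx346 Crest.Agent.R143.GeoSeqPx422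
open Crest.Agent.R143.AsmNx758 Crest.Agent.R143.Finx894 Crest.Agent.R143.PolyUx346
open Crest.Agent.R143.FinCx894 Crest.Agent.R143.VisAx758 Crest.Agent.R143.RelPx62
open Crest.Agent.R143.PolyQx854 (RIGP)

/-- CONT for the frozen polygons -/
theorem contB_det (h1 : HarmSx496.HarmOne) (h2 : DETQ id) : ContB :=
  FinDx894.contB_harm (harm_of (HarmSx496.harm_of_one h1)) HullQx93.hullM_adP
    (visd_one FinDx894.adP_ad h1 h2)

theorem contD_det (h1 : HarmSx496.HarmOne) (h2 : DETQ (starRingEnd ℂ)) : ContD :=
  FinDx894.contD_harm (harm_of (HarmSx496.harm_of_one h1)) HullQx93.hullM_adP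
    (visd_one FinDx894.adP_ad h1 h2)

/-- **the row from four open Props** -/
theorem leaf_det (h1 : HarmSx496.HarmOne) (h2 : DETQ id) (h3 : DETQ (starRingEnd ℂ))
    (h5 : RIGP Poly.T Dk) : Leaf894 :=
  leaf_frozen (contB_det h1 h2) (contD_det h1 h3) (FinDx894.rig_of h5)

/-- the row from `HARM` in the form of 802 and the visible side -/
theorem leaf_det' (h1 : HARM) (h2 : DETQ id) (h3 : DETQ (starRingEnd ℂ))
    (h5 : RIGP Poly.T Dk) : Leaf894 :=
  FinDx894.leaf_three h1
    (visd_of FinDx894.adP_ad h2 (arms_of FinDx894.adP_ad h1 (hullm_adm FinDx894.adP_ad))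
      (hullm_adm FinDx894.adP_ad))
    (visd_of FinDx894.adP_ad h3 (arms_of FinDx894.adP_ad h1 (hullm_adm FinDx894.adP_ad))
      (hullm_adm FinDx894.adP_ad)) h5

end Crest.Agent.R143.Mabx377
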