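import Crest.Agent.R143.HullF_93
import Crest.Agent.R143.ArmE_920

/-!
# Row 143 (S0194): HULLM in the literal form of 920's ARMENV (helper93)
-/

set_option autoImplicit false

noncomputable section

namespace Crest.Agent.R143.HullPx93

open Set MeasureTheory Filter Topology
open scoped Classical ENNReal
open Crest.ProbabilityR.Voronoi
open Crest.Agent.R143.B0Dx346 Crest.Agent.R143.HullMx93

/-- **HULLM in the form of `ArmEx920.armE`** -/
theorem hullP {D : Dom} (hL : 0 < D.L) : ArmEx920.HullP D CH := by
  intro b0 h0 η hη
  filter_upwards [HullFx93.hullm hL b0 h0 η hη] with ε h1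
  refine (measure_mono ?_).trans h1
  intro ω hω hcon
  refine hω fun z hz b hb hb' => hcon z ?_ b hb hb'
  rw [mem_closedBall_iff_norm]
  exact hz

end Crest.Agent.R143.HullPx93
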