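import Crest.Agent.R143.Harm_802
import Crest.Agent.R143.ArmE_920
import Crest.Agent.R143.HullP_93
import Crest.Agent.R143.FinE_377

/-!
# Row 143 (S0194): 802's `harm` put into all its consumers (helper920)

* `harmP`, `armEnv` : ARMENV without hypothesis
* `hARM : Mabx377.HARM`, `arms : ARMS AdP`
* `contB`, `contD` from `DETQ`; `leaf_two : DETQ id → DETQ conj → RIGP Poly.T Dk → Leaf894`
-/

set_option autoImplicit false

noncomputable section

open scoped Classical Topology
open Filter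

namespace Crest.Agent.R143.ArmFx920

open Crest.ProbabilityR.Voronoi
open Crest.Agent.R143.B0x346 Crest.Agent.R143.B0Dx346
open Crest.Agent.R143.GeoSeqPx422 Crest.Agent.R143.Finx894 Crest.Agent.R143.PolyUx346
open Crest.Agent.R143.PolyQx854 (RIGP)

/-- ARMENV's input -/
theorem harmP : ArmEx920.HarmP := by
  intro C4 h4
  obtain ⟨C, c, c2, A, hC, hc, hc2, -, hA, h⟩ := Harmx802.harm C4 h4
  refine ⟨C, c, c2, A, hC, hc, hc2, hA, ?_⟩
  intro S x0 L e r R h1 h2 h3 h5 h6 p hp V hV hVh
  exact h S x0 L e r R h1 h2 h3 h5 h6 p hp V hV fun v hv y hy => hVh v hv ⟨y, Or.inl hy⟩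

/-- **ARMENV** -/
theorem armEnv {D : Dom} (hL : 0 < D.L) : ArmEx920.ArmE D :=
  ArmEx920.armE harmP hL HullMx93.CH_pos.le (HullPx93.hullP hL)

/-- **HARM**, 377's form -/
theorem hARM : Mabx377.HARM := by
  intro C4 h4
  obtain ⟨C, c, c2, A, hC, hc, hc2, -, hA, h⟩ := Harmx802.harm C4 h4
  refine ⟨C, c, c2, A, hC, hc, hc2, hA, ?_⟩
  intro S x0 L e r R h1 h2 h3 h5 h6 p hp V hV hVh
  exact h S x0 L e r R h1 h2 h3 h5 h6 p hp V hV fun v hv y => (hVh v hv y).1

theorem arms : Mabx377.ARMS AdP := Mabx377.arms_of FinDx894.adP_ad hARM HullQx93.hullM_adP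

/-- CONT, first weight, from the deterministic statement -/
theorem contB (h : Mabx377.DETQ id) : FinCx894.ContB :=
  FinDx894.contB_harm hARM HullQx93.hullM_adP
    (Mabx377.visd_of FinDx894.adP_ad h arms HullQx93.hullM_adP)

/-- CONT, second weight, from the deterministic statement -/
theorem contD (h : Mabx377.DETQ (starRingEnd ℂ)) : FinCx894.ContD :=
  FinDx894.contD_harm hARM HullQx93.hullM_adP
    (Mabx377.visd_of FinDx894.adP_ad h arms HullQx93.hullM_adP)

/-- **the row from `DETQ` and RIG** -/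
theorem leaf_two (h : Mabx377.DETQ id) (h' : Mabx377.DETQ (starRingEnd ℂ))
    (h5 : RIGP Poly.T RelPx62.Dk) : Leaf894 :=
  FinCx894.leaf_frozen (contB h) (contD h') (FinDx894.rig_of h5)

end Crest.Agent.R143.ArmFx920
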