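import Crest.Agent.R143.ArmP_930
import Crest.Agent.R143.XW1_315

/-!
# Row 143: counting boxes (helper930), ARM + SUM of `E #steps`

* `Arm2` : a chain of one of the two colours across `A(p; r, R)`
* `arm2` : `P(Arm2) ≤ C (r / R) ^ c`
* `ex_box` : `E (X 1_{Arm2}) ≤ E X · C (l / R) ^ c` if `X` looks at the colours in `B(p, l)` only
* `grid` : grid of mesh `s`
* `sum_grid` : the sum over the boxes of a grid
-/

set_option autoImplicit false

noncomputable section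

open scoped Classical

namespace Crest.Agent.R143.CNTx930

open Crest.Agent.R143.B0x346 Crest.Agent.R143.DelGx806 Crest.Agent.R143.DelRx806
open Crest.Agent.R143.Circx63 Crest.Agent.R143.JColx54 Crest.Agent.R143.Harx315
open Crest.Agent.R143.D3Fx802 Crest.Agent.R143.ToolWx838 Crest.Agent.R143.ArmPx930
open Crest.Agent.R143.RB0x838 (LDns Mesh)
open Crest.Agent.R143.Lawx872 (ConnIn)
open Crest.Agent.R143.XW1x315 (ex ex_mono ex_mul ex_dep ex_ind ex_sum ex_mul_const ex_nonneg)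

variable {S V β β' : Finset ℂ} {p : ℂ} {d r R l : ℝ}

/-- a chain of one of the two colours across an annulus -/
def Arm2 (S V : Finset ℂ) (p : ℂ) (r R : ℝ) (β : Finset ℂ) : Prop :=
  CArm S β p r R ∨ CArm S (V \ β) p r R

theorem conn_mono (h : β ⊆ β') {x y : ℂ} (hc : ConnIn S β x y) : ConnIn S β' x y :=
  Relation.ReflTransGen.mono (fun _ _ h' => ⟨h'.1, h h'.2.1, h h'.2.2⟩) _ _ hc

theorem carm_mono (h : β ⊆ β') (hc : CArm S β p r R) : CArm S β' p r R := by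
  obtain ⟨x, y, h1, h2, h3, h4, h5⟩ := hc
  exact ⟨x, y, h h1, h h2, h3, h4, conn_mono h h5⟩

/-- the part of a chain outside of the ball -/
theorem carm_out (hst : ∀ u v, Adj S u v → ‖u - p‖ < R → ‖v - u‖ ≤ 2 * d) (hlR : l + 2 * d < R)
    (hd : 0 ≤ d) (hc : CArm S β p l R) :
    CArm S (β \ V.filter fun s => ‖s - p‖ < l) p (l + 2 * d) R := by
  obtain ⟨x, y, h1, h2, h3, h4, h5⟩ := hc
  obtain ⟨x', y', k1, k2, k3, k4, k5⟩ := extract (S := S) (β := β) (p := p) (a := l + 2 * d)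
    (b := R) (e := 2 * d) hlR hst h1 (by linarith) h4 h5
  have hsub : (β.filter fun s => l + 2 * d - 2 * d ≤ ‖s - p‖ ∧ ‖s - p‖ ≤ R + 2 * d) ⊆
      β \ V.filter fun s => ‖s - p‖ < l := by
    intro s hs
    rw [Finset.mem_filter] at hs
    rw [Finset.mem_sdiff, Finset.mem_filter]
    exact ⟨hs.1, fun h => by linarith [h.2, hs.2.1]⟩
  exact ⟨x', y', hsub k1, hsub k2, k3, k4, conn_mono hsub k5⟩

/-- one arm, two colours -/
theorem arm2 : ∀ C4 : ℝ, 0 ≤ C4 → ∃ C c c1 c2 K : ℝ, 0 < C ∧ 0 < c ∧ 0 < c1 ∧ 0 < c2 ∧ c2 ≤ 1 ∧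
    1 ≤ K ∧ ∀ (S : Finset ℂ) (p : ℂ) (d r R : ℝ), 0 < r → r ≤ R → LDns S p (K * R) d →
    (∀ b, c2 * r ≤ b → b ≤ R → Mesh S p (K * R) b C4) → d ≤ c1 * r → ∀ V ⊆ S,
    pr V (Arm2 S V p r R) ≤ C * (r / R) ^ c := by
  intro C4 hC4
  obtain ⟨C, c, c1, c2, K, hC, hc, hc1, hc2, hc2', hK, H⟩ := arm C4 hC4
  refine ⟨2 * C, c, c1, c2, K, by positivity, hc, hc1, hc2, hc2', hK, ?_⟩
  intro S p d r R hr hrR hD hM hd V hV
  have h1 := H S p d r R hr hrR hD hM hd V hV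
  have h2 : pr V (fun β => CArm S (V \ β) p r R) ≤ C * (r / R) ^ c := by
    rw [pr_flip V fun β => CArm S β p r R]
    exact h1
  have h3 : pr V (Arm2 S V p r R) ≤ pr V (fun β => CArm S β p r R) +
      pr V (fun β => CArm S (V \ β) p r R) := pr_or_le
  linarith

/-- **a functional of the colours near `p` and the arm away from `p`** -/
theorem ex_box : ∀ C4 : ℝ, 0 ≤ C4 → ∃ C c c1 c2 K : ℝ, 0 < C ∧ 0 < c ∧ 0 < c1 ∧ 0 < c2 ∧ c2 ≤ 1 ∧
    1 ≤ K ∧ ∀ (S : Finset ℂ) (p : ℂ) (d l R : ℝ), 0 < l → 2 * l ≤ R → LDns S p (K * R) d →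
    (∀ b, c2 * l ≤ b → b ≤ R → Mesh S p (K * R) b C4) → d ≤ c1 * l → ∀ V ⊆ S,
    ∀ X : Finset ℂ → ℝ, (∀ β ⊆ V, 0 ≤ X β) →
    (∀ β ⊆ V, X β = X (β ∩ V.filter fun s => ‖s - p‖ < l)) →
    ex V (fun β => X β * if Arm2 S V p l R β then 1 else 0) ≤ ex V X * (C * (l / R) ^ c) := by
  intro C4 hC4
  obtain ⟨C, c, c1, c2, K, hC, hc, hc1, hc2, hc2', hK, H⟩ := arm2 C4 hC4
  refine ⟨C * 2 ^ c, c, min c1 (1 / 8), c2, max K 2, by positivity, hc, by positivity, hc2, hc2',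
    le_trans (by norm_num) (le_max_right _ _), ?_⟩
  intro S p d l R hl hlR hD hM hd V hV X hX0 hXd
  have hR : 0 < R := by linarith
  have hd1 : d ≤ c1 * l := hd.trans (mul_le_mul_of_nonneg_right (min_le_left _ _) hl.le)
  have hd2 : d ≤ 1 / 8 * l := hd.trans (mul_le_mul_of_nonneg_right (min_le_right _ _) hl.le)
  have hdp := hD.dpos
  have hK2 : 2 * R ≤ max K 2 * R := mul_le_mul_of_nonneg_right (le_max_right _ _) hR.le
  have hKK : K * R ≤ max K 2 * R := mul_le_mul_of_nonneg_right (le_max_left _ _) hR.le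
  have hst : ∀ u v, Adj S u v → ‖u - p‖ < R → ‖v - u‖ ≤ 2 * d := fun u v huv hu =>
    (adj_small hD huv (by linarith)).le
  set W := V.filter fun s => ‖s - p‖ < l with hW
  have hWV : W ⊆ V := Finset.filter_subset _ _
  set g : Finset ℂ → ℝ := fun β => if Arm2 S (V \ W) p (2 * l) R (β \ W) then 1 else 0 with hg
  -- the arm outside
  have step : ∀ β ⊆ V, (X β * if Arm2 S V p l R β then (1 : ℝ) else 0) ≤ X β * g β := by
    intro β hβ
    apply mul_le_mul_of_nonneg_left _ (hX0 β hβ)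
    by_cases ha : Arm2 S V p l R β
    · have : Arm2 S (V \ W) p (2 * l) R (β \ W) := by
        have wid : ∀ {γ : Finset ℂ}, CArm S γ p (l + 2 * d) R → CArm S γ p (2 * l) R := by
          rintro γ ⟨x, y, h1, h2, h3, h4, h5⟩
          exact ⟨x, y, h1, h2, by linarith, h4, h5⟩
        rcases ha with ha | ha
        · exact Or.inl (wid (carm_out hst (by linarith) hdp.le ha))
        · right
          have h1 := wid (carm_out (V := V) hst (by linarith) hdp.le ha)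
          refine carm_mono ?_ h1
          intro s hs
          rw [Finset.mem_sdiff, Finset.mem_sdiff] at hs
          rw [Finset.mem_sdiff, Finset.mem_sdiff, Finset.mem_sdiff]
          exact ⟨⟨hs.1.1, hs.2⟩, fun h => hs.1.2 h.1⟩
      rw [if_pos ha, hg]
      simp only
      rw [if_pos this]
    · rw [if_neg ha, hg]
      simp only
      split_ifs <;> norm_num
  refine (ex_mono step).trans ?_
  rw [ex_mul hWV hXd (fun β _ => by rw [hg]; simp only [Finset.sdiff_idem])]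
  rw [← ex_dep hWV hXd]
  apply mul_le_mul_of_nonneg_left _ (ex_nonneg hX0)
  have e1 : ex (V \ W) g = pr (V \ W) (Arm2 S (V \ W) p (2 * l) R) := by
    rw [← ex_ind]
    apply XW1x315.ex_congr
    intro β hβ
    have : β \ W = β := by
      ext s
      rw [Finset.mem_sdiff]
      exact ⟨fun h => h.1, fun h => ⟨h, (Finset.mem_sdiff.1 (hβ h)).2⟩⟩
    rw [hg]
    simp only
    rw [this]
  rw [e1]
  refine (H S p d (2 * l) R (by linarith) hlR (ldns_mono hD hKK) ?_ ?_ (V \ W)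
    (Finset.sdiff_subset.trans hV)).trans ?_
  · intro b hb1 hb2
    refine mesh_mono (hM b ?_ hb2) hKK
    nlinarith
  · nlinarith
  · have : (2 * l / R) ^ c = 2 ^ c * (l / R) ^ c := by
      rw [mul_div_assoc, Real.mul_rpow (by norm_num) (by positivity)]
    rw [this]
    linarith

/-! ### grids -/

/-- grid of mesh `s` around `z` -/
def grid (z : ℂ) (ρ s : ℝ) : Finset ℂ :=
  (Finset.Icc (-⌈ρ / s⌉) ⌈ρ / s⌉ ×ˢ Finset.Icc (-⌈ρ / s⌉) ⌈ρ / s⌉).image fun p : ℤ × ℤ =>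
    z + (s : ℂ) * ((p.1 : ℂ) + (p.2 : ℂ) * Complex.I)

theorem grid_card (z : ℂ) {ρ s : ℝ} (hs : 0 < s) (hρ : s ≤ ρ) :
    ((grid z ρ s).card : ℝ) ≤ 25 * (ρ / s) ^ 2 := by
  have h1 : 1 ≤ ρ / s := (one_le_div hs).2 hρ
  have h2 : (grid z ρ s).card ≤ (2 * ⌈ρ / s⌉ + 1).toNat ^ 2 := by
    refine Finset.card_image_le.trans ?_
    rw [Finset.card_product, Int.card_Icc, sq]
    have : (⌈ρ / s⌉ + 1 - -⌈ρ / s⌉) = 2 * ⌈ρ / s⌉ + 1 := by ring
    rw [this]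
  have h3 : (⌈ρ / s⌉ : ℝ) < ρ / s + 1 := Int.ceil_lt_add_one _
  have h4 : (0 : ℤ) ≤ 2 * ⌈ρ / s⌉ + 1 := by
    have : 0 ≤ ⌈ρ / s⌉ := Int.ceil_nonneg (by linarith)
    linarith
  have h5 : (((2 * ⌈ρ / s⌉ + 1).toNat : ℕ) : ℝ) = 2 * ⌈ρ / s⌉ + 1 := by
    have : (((2 * ⌈ρ / s⌉ + 1).toNat : ℤ)) = 2 * ⌈ρ / s⌉ + 1 := Int.toNat_of_nonneg h4
    have h6 := congrArg (fun x : ℤ => (x : ℝ)) this
    simp only [Int.cast_natCast] at h6
    rw [h6]
    push_cast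
    ring
  have h6 : ((grid z ρ s).card : ℝ) ≤ (2 * ⌈ρ / s⌉ + 1) ^ 2 := by
    rw [← h5]
    exact_mod_cast h2
  refine h6.trans ?_
  have h7 : (0 : ℝ) ≤ 2 * ⌈ρ / s⌉ + 1 := by exact_mod_cast h4
  have h8 : (2 * (⌈ρ / s⌉ : ℝ) + 1) ≤ 5 * (ρ / s) := by linarith
  calc (2 * (⌈ρ / s⌉ : ℝ) + 1) ^ 2 ≤ (5 * (ρ / s)) ^ 2 := pow_le_pow_left₀ h7 h8 2
    _ = 25 * (ρ / s) ^ 2 := by ring

/-- the grid is inside a disc -/
theorem grid_near {z b : ℂ} {ρ s : ℝ} (hs : 0 < s) (hb : b ∈ grid z ρ s) :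
    ‖b - z‖ ≤ 2 * (ρ + s) := by
  unfold grid at hb
  rw [Finset.mem_image] at hb
  obtain ⟨⟨m, n⟩, hmn, rfl⟩ := hb
  rw [Finset.mem_product, Finset.mem_Icc, Finset.mem_Icc] at hmn
  obtain ⟨⟨a1, a2⟩, a3, a4⟩ := hmn
  simp only at a1 a2 a3 a4 ⊢
  have hc : (⌈ρ / s⌉ : ℝ) < ρ / s + 1 := Int.ceil_lt_add_one _
  have hc' : (⌈ρ / s⌉ : ℝ) * s ≤ ρ + s := by
    have := mul_le_mul_of_nonneg_right hc.le hs.le
    rwa [add_mul, div_mul_cancel₀ _ hs.ne', one_mul] at this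
  have hm : |(m : ℝ)| ≤ ⌈ρ / s⌉ := by
    rw [abs_le]
    constructor
    · exact_mod_cast a1
    · exact_mod_cast a2
  have hn : |(n : ℝ)| ≤ ⌈ρ / s⌉ := by
    rw [abs_le]
    constructor
    · exact_mod_cast a3
    · exact_mod_cast a4
  rw [add_sub_cancel_left, norm_mul, Complex.norm_real, Real.norm_of_nonneg hs.le]
  have h1 : ‖(m : ℂ) + (n : ℂ) * Complex.I‖ ≤ |(m : ℝ)| + |(n : ℝ)| := by
    refine (norm_add_le _ _).trans ?_
    rw [norm_mul, Complex.norm_I, mul_one]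
    have e1 : ‖(m : ℂ)‖ = |(m : ℝ)| := by
      rw [← Complex.ofReal_intCast, Complex.norm_real, Real.norm_eq_abs]
    have e2 : ‖(n : ℂ)‖ = |(n : ℝ)| := by
      rw [← Complex.ofReal_intCast, Complex.norm_real, Real.norm_eq_abs]
    rw [e1, e2]
  calc s * ‖(m : ℂ) + (n : ℂ) * Complex.I‖ ≤ s * (⌈ρ / s⌉ + ⌈ρ / s⌉) :=
        mul_le_mul_of_nonneg_left (h1.trans (add_le_add hm hn)) hs.le
    _ ≤ 2 * (ρ + s) := by linarith

/-- every point of the disc is near the grid -/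
theorem grid_cover {z w : ℂ} {ρ s : ℝ} (hs : 0 < s) (hw : ‖w - z‖ ≤ ρ) :
    ∃ b ∈ grid z ρ s, ‖w - b‖ ≤ s := by
  set v : ℂ := (w - z) / s with hv
  have hvn : ‖v‖ ≤ ρ / s := by
    rw [hv, norm_div, Complex.norm_real, Real.norm_of_nonneg hs.le]
    exact div_le_div_of_nonneg_right hw hs.le
  have hre : |v.re| ≤ ρ / s := (Complex.abs_re_le_norm v).trans hvn
  have him : |v.im| ≤ ρ / s := (Complex.abs_im_le_norm v).trans hvn
  have hc := Int.le_ceil (ρ / s)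
  have key : ∀ x : ℝ, |x| ≤ ρ / s → -⌈ρ / s⌉ ≤ round x ∧ round x ≤ ⌈ρ / s⌉ := by
    intro x hx
    rw [abs_le] at hx
    constructor
    · rw [round_eq, Int.le_floor]
      push_cast
      linarith
    · rw [round_eq, ← Int.lt_add_one_iff, Int.floor_lt]
      push_cast
      linarith
  obtain ⟨r1, r2⟩ := key _ hre
  obtain ⟨i1, i2⟩ := key _ him
  refine ⟨z + (s : ℂ) * (((round v.re : ℤ) : ℂ) + ((round v.im : ℤ) : ℂ) * Complex.I), ?_, ?_⟩
  · unfold grid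
    rw [Finset.mem_image]
    refine ⟨(round v.re, round v.im), ?_, rfl⟩
    rw [Finset.mem_product, Finset.mem_Icc, Finset.mem_Icc]
    exact ⟨⟨r1, r2⟩, i1, i2⟩
  · have hs' : (s : ℂ) ≠ 0 := by exact_mod_cast hs.ne'
    have e1 : w - (z + (s : ℂ) * (((round v.re : ℤ) : ℂ) + ((round v.im : ℤ) : ℂ) * Complex.I)) =
        (s : ℂ) * (((v.re - round v.re : ℝ) : ℂ) + ((v.im - round v.im : ℝ) : ℂ) * Complex.I) := by
      have e2 : w - z = s * v := by rw [hv]; field_simp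
      have e3 : (s : ℂ) * v = s * ((v.re : ℂ) + (v.im : ℂ) * Complex.I) := by
        rw [Complex.re_add_im]
      rw [← sub_sub, e2, e3]
      push_cast
      ring
    rw [e1, norm_mul, Complex.norm_real, Real.norm_of_nonneg hs.le]
    have h1 : ‖((v.re - round v.re : ℝ) : ℂ) + ((v.im - round v.im : ℝ) : ℂ) * Complex.I‖ ≤ 1 := by
      refine (norm_add_le _ _).trans ?_
      rw [norm_mul, Complex.norm_I, mul_one, Complex.norm_real, Complex.norm_real,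
        Real.norm_eq_abs, Real.norm_eq_abs]
      have h2 := abs_sub_round v.re
      have h3 := abs_sub_round v.im
      linarith
    nlinarith

/-- **SUM** : number of visits of boxes; `N` = total count, `X b` looks at the colours in
`B(b, l)` -/
theorem sum_grid : ∀ C4 : ℝ, 0 ≤ C4 → ∃ C c c1 c2 K : ℝ, 0 < C ∧ 0 < c ∧ 0 < c1 ∧ 0 < c2 ∧
    c2 ≤ 1 ∧ 1 ≤ K ∧ ∀ (S : Finset ℂ) (z : ℂ) (d l s ρ R : ℝ), 0 < s → s ≤ l → s ≤ ρ → 2 * l ≤ R →
    LDns S z (4 * ρ + K * R) d →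
    (∀ b, c2 * l ≤ b → b ≤ R → Mesh S z (4 * ρ + K * R) b C4) → d ≤ c1 * l → ∀ V ⊆ S,
    ∀ (C0 : ℝ) (X : ℂ → Finset ℂ → ℝ) (N : Finset ℂ → ℝ),
    (∀ b ∈ grid z ρ s, ∀ β ⊆ V, 0 ≤ X b β) →
    (∀ b ∈ grid z ρ s, ∀ β ⊆ V, X b β = X b (β ∩ V.filter fun s => ‖s - b‖ < l)) →
    (∀ b ∈ grid z ρ s, ex V (X b) ≤ C0) →
    (∀ β ⊆ V, N β ≤ ∑ b ∈ grid z ρ s, X b β * if Arm2 S V b l R β then 1 else 0) →
    ex V N ≤ C * C0 * (ρ / s) ^ 2 * (l / R) ^ c := by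
  intro C4 hC4
  obtain ⟨C, c, c1, c2, K, hC, hc, hc1, hc2, hc2', hK, H⟩ := ex_box C4 hC4
  refine ⟨25 * C, c, c1, c2, K, by positivity, hc, hc1, hc2, hc2', hK, ?_⟩
  intro S z d l s ρ R hs hsl hsρ hlR hD hM hd V hV C0 X N hX0 hXd hXe hN
  have hl : 0 < l := hs.trans_le hsl
  have hR : 0 < R := by linarith
  have hρ : 0 < ρ := hs.trans_le hsρ
  have hpow : 0 ≤ (l / R) ^ c := Real.rpow_nonneg (by positivity) _
  have hb : ∀ b ∈ grid z ρ s, ex V (fun β => X b β * if Arm2 S V b l R β then 1 else 0) ≤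
      C0 * (C * (l / R) ^ c) := by
    intro b hb
    have h1 := grid_near hs hb
    have h2 : ∀ w : ℂ, ‖w - b‖ ≤ K * R → ‖w - z‖ ≤ 4 * ρ + K * R := by
      intro w hw
      have := Locx922.norm_tri w b z
      linarith
    refine (H S b d l R hl hlR ⟨hD.gp, hD.dpos, fun w hw => hD.hole w (h2 w hw)⟩
      (fun x hx1 hx2 w hw => hM x hx1 hx2 w (h2 w hw)) hd V hV (X b) (hX0 b hb)
      (hXd b hb)).trans ?_
    exact mul_le_mul_of_nonneg_right (hXe b hb) (by positivity)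
  have h1 : ex V N ≤ ∑ b ∈ grid z ρ s, ex V (fun β => X b β * if Arm2 S V b l R β then 1 else 0) := by
    rw [← ex_sum]
    exact ex_mono hN
  have h2 := h1.trans (Finset.sum_le_sum hb)
  rw [Finset.sum_const, nsmul_eq_mul] at h2
  have hC0 : 0 ≤ C0 := by
    obtain ⟨b, hb, -⟩ := grid_cover (z := z) (w := z) (ρ := ρ) hs (by rw [sub_self, norm_zero]; exact hρ.le)
    exact (ex_nonneg (hX0 b hb)).trans (hXe b hb)
  refine h2.trans ?_
  have h3 := grid_card z hs hsρ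
  calc ((grid z ρ s).card : ℝ) * (C0 * (C * (l / R) ^ c))
      ≤ 25 * (ρ / s) ^ 2 * (C0 * (C * (l / R) ^ c)) :=
        mul_le_mul_of_nonneg_right h3 (by positivity)
    _ = 25 * C * C0 * (ρ / s) ^ 2 * (l / R) ^ c := by ring

end Crest.Agent.R143.CNTx930
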