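import Crest.Agent.R143.Cfg_416
import Crest.Agent.R143.G6W_723
import Crest.Agent.R143.DomB_722

/-!
# Row 143 (S0194), block D: `D4UP` (helper408)

* `cls_of_near` : a site whose cell meets a set `K` well inside the disc and far from the region
  `R j` is not in the class `j`
* `d4up : D4UP` : the official crossing implies the network crossing
-/

set_option autoImplicit false

noncomputable section

open scoped Classical

namespace Crest.Agent.R143.D4Ux408

open Crest.ProbabilityR.Voronoi MeasureTheory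
open Crest.Agent.R143.B0x346 Crest.Agent.R143.B0Dx346 Crest.Agent.R143.Cfgx416
  Crest.Agent.R143.G6Vx408

variable {n : ℕ} {C : Cfg n} {δ ε d M κ : ℝ} {ω : Sample}

/-- the Delaunay edges of `Cfg_416` and of `JCol_54` -/
theorem adj_iff {S : Finset ℂ} {a b : ℂ} : Adj S a b ↔ JColx54.Adj S a b :=
  ⟨fun ⟨c, h⟩ => h.elim (fun h => Or.inl ⟨c, h⟩) fun h => Or.inr ⟨c, h⟩,
    fun h => h.elim (fun ⟨c, h⟩ => ⟨c, Or.inl h⟩) fun ⟨c, h⟩ => ⟨c, Or.inr h⟩⟩

theorem env_pos (hL : 0 < C.L) (hdL : 8 * d ≤ C.L) (hE : Env ε d M C.c C.L ω) : 0 < d :=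
  (DomAx722.dns_of_env (D := C.dom) hL hdL hE).dpos

/-- the ray edges exist -/
theorem ray_spec (hC : C.OK δ) (hdL : 8 * d ≤ C.L) (hE : Env ε d M C.c C.L ω) (k : ZMod n) :
    crossRay (C.dom.sites ε ω) C.c (C.q k) (C.ray (C.dom.sites ε ω) k) :=
  DomAx722.rayMark_spec
    (DomAx722.crossRay_exists (DomAx722.dns_of_env (D := C.dom) hC.Lpos hdL hE) (hC.qn k))

/-- a site well inside the disc is in no hull arc -/
theorem not_harc (hC : C.OK δ) (hdL : 8 * d ≤ C.L) (hE : Env ε d M C.c C.L ω) {v : ℂ}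
    (hv : v ∈ Metric.closedBall C.c (C.L - 2 * d)) (j : ZMod n) :
    v ∉ C.harc (C.dom.sites ε ω) j := by
  intro h
  have hd := env_pos hC.Lpos hdL hE
  have hn := Locx922.not_hull hd (Locx922.Env.hol_sites (D := C.dom) hE) (a := v) hv
  have h' : Relation.ReflTransGen (fun a b => hullE (C.dom.sites ε ω) a b ∧
    ∀ k, C.ray (C.dom.sites ε ω) k ≠ (a, b)) (C.ray (C.dom.sites ε ω) j).2 v := h
  rcases Relation.ReflTransGen.cases_tail h' with h1 | ⟨a, -, h1⟩
  · refine (hn (C.ray (C.dom.sites ε ω) j).1).2 ?_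
    have h2 := (ray_spec hC hdL hE j).1
    rwa [← h1] at h2
  · exact (hn a).2 h1.1

/-- a site whose cell meets `z` well inside the disc, `z` far from `R j` -/
theorem not_cls (hC : C.OK δ) (hdL : 8 * d ≤ C.L) (hE : Env ε d M C.c C.L ω) {v z : ℂ}
    (hz : z ∈ Metric.closedBall C.c (C.L - 3 * d))
    (hzv : z ∈ voronoiCell (C.dom.sites ε ω : Set ℂ) v) (j : ZMod n)
    (hj : ∀ w ∈ C.R j, 2 * d ≤ dist z w) : v ∉ C.cls (C.dom.sites ε ω) j := by
  have hd := env_pos hC.Lpos hdL hE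
  have hL := hC.Lpos
  have hz1 : z ∈ Metric.closedBall C.c (C.L - 2 * d) :=
    Metric.closedBall_subset_closedBall (by linarith) hz
  have hHol := Locx922.Env.hol_sites (D := C.dom) hE
  have h1 : ‖z - v‖ < d := by
    obtain ⟨s, hs, hsz⟩ := hHol z hz1 z (by rw [sub_self, norm_zero]; exact hd.le)
    exact Locx922.cell_dist ⟨s, hs, hsz⟩ hzv
  have hv : v ∈ Metric.closedBall C.c (C.L - 2 * d) := by
    rw [Metric.mem_closedBall, dist_eq_norm] at hz ⊢
    have h2 := Locx922.norm_tri v z C.c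
    rw [norm_sub_rev v z] at h2
    linarith
  rintro (⟨-, p, hp, hpR⟩ | h)
  · have h3 : ‖p - v‖ < d := Locx922.cell_sub_ball hd hHol hv hp
    have h4 := hj p hpR
    rw [dist_eq_norm] at h4
    have h5 := Locx922.norm_tri z v p
    rw [norm_sub_rev v p] at h5
    linarith
  · exact not_harc hC hdL hE hv j h

theorem mem_inn {S : Finset ℂ} {y : ℂ} (hy : y ∈ S) (h : ∀ j, y ∉ C.cls S j) :
    y ∈ (C.inn S : Set ℂ) :=
  Finset.mem_coe.2 (Finset.mem_filter.2 ⟨hy, h⟩)

/-- **D4, upper** -/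
theorem d4up : D4UP := by
  intro C δ D A₁ A₂ i κ hC hD hDb hM
  have hL := hC.Lpos
  have hκ := hM.kpos
  refine ⟨min (κ / 2) (C.L / 16), by positivity, ?_⟩
  intro ε d M ω hε hE hd hω
  have hdκ : d ≤ κ / 2 := hd.trans (min_le_left _ _)
  have hdL : d ≤ C.L / 16 := hd.trans (min_le_right _ _)
  have hd8 : 8 * d ≤ C.L := by linarith
  have hd0 : 0 < d := env_pos hL hd8 hE
  obtain ⟨v, hv, w, hw, ⟨z1, hz1, hz1D, hz1A⟩, ⟨z2, hz2, hz2D, hz2A⟩, hch⟩ :=
    chain_of_crossing hε hDb hω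
  set S := C.dom.sites ε ω with hS
  have hDL : closure D ⊆ Metric.closedBall C.c (C.L - 3 * d) :=
    hM.bd.trans (Metric.closedBall_subset_closedBall (by linarith))
  have hDL' : closure D ⊆ Metric.closedBall C.c (C.L - d) :=
    hM.bd.trans (Metric.closedBall_subset_closedBall (by linarith))
  -- the two ends
  have hvS := G6Wx723.site_of_cell (D := C.dom) hE (hDL' hz1D) (blk_sub _ _ hv) hz1
  have hwS := G6Wx723.site_of_cell (D := C.dom) hE (hDL' hz2D) (blk_sub _ _ hw) hz2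
  refine ⟨v, Or.inl ⟨hvS.1, z1, hvS.2, hM.s1 hz1A⟩, w, Or.inl ⟨hwS.1, z2, hwS.2, hM.s2 hz2A⟩, ?_⟩
  -- the sites of the chain
  have key : ∀ y ∈ S, ∀ z ∈ closure D, z ∈ voronoiCell (S : Set ℂ) y → y ∈ blk ε ω →
      (y ∈ blk ε ω ∩ (C.inn S : Set ℂ)) ∨ y ∈ C.cls S i ∨ y ∈ C.cls S (i + 2) := by
    intro y hy z hz hzy hyb
    by_cases h1 : y ∈ C.cls S i
    · exact Or.inr (Or.inl h1)
    by_cases h2 : y ∈ C.cls S (i + 2)
    · exact Or.inr (Or.inr h2)
    refine Or.inl ⟨hyb, mem_inn hy fun j => ?_⟩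
    have hj : j = i ∨ j = i + 1 ∨ j = i + 2 ∨ j = i + 3 := by
      clear * -
      revert i j; decide
    have far : ∀ j, j = i + 1 ∨ j = i + 3 → ∀ w ∈ C.R j, 2 * d ≤ dist z w := by
      intro j hj w hw
      refine le_trans (by linarith) (hM.fr z hz w ?_)
      rcases hj with rfl | rfl
      · exact Or.inl hw
      · exact Or.inr hw
    rcases hj with rfl | hj | rfl | hj
    · exact h1
    · exact not_cls hC hd8 hE (hDL hz) hzy j (far j (Or.inl hj))
    · exact h2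
    · exact not_cls hC hd8 hE (hDL hz) hzy j (far j (Or.inr hj))
  have hch2 := G6Wx723.sites_chain (D := C.dom) hd0 (by show 2 * d ≤ C.L; linarith) hE hDL' hch
  refine Relation.ReflTransGen.mono ?_ _ _ hch2
  rintro a b ⟨ha, hb, hab, z, hz, hzD⟩
  refine ⟨adj_iff.2 hab, ?_⟩
  have hbS : b ∈ S := hab.mem.2
  exact key b hbS z hzD (G6Wx723.vedge_sub_cell' hz) hb

end Crest.Agent.R143.D4Ux408
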