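import Crest.Agent.R143.DomD_722
import Crest.Agent.R143.Cfg_416

/-!
# Row 143, block D: leaves D1, D2 of `Cfg_416` (helper722)

* `fanA_of_cfg` : the data of a configuration
* `d1_gen`, `d1` : **D1**
* `cls_eq` : `Cfg.cls` = `Cls`
* `d2` : **D2**
-/

set_option autoImplicit false

noncomputable section

open scoped Classical

namespace Crest.Agent.R143.DomEx722

open Crest.ProbabilityR.Voronoi MeasureTheory
open Crest.Agent.R143.B0x346 Crest.Agent.R143.B0Dx346 Crest.Agent.R143.DelGx806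
open Crest.Agent.R143.DelRx806 Crest.Agent.R143.DomAx722 Crest.Agent.R143.DomBx722
open Crest.Agent.R143.DomCx722 Crest.Agent.R143.DomDx722
open Crest.Agent.R143.Cfgx416 (Cfg)

variable {S : Finset ℂ} {n : ℕ} {C : Cfg n} {δ d : ℝ}

/-! ### the data -/

theorem cfg_lt (hC : C.OK δ) : δ < C.L := by
  have hL := hC.Lpos
  by_contra hcon
  push Not at hcon
  obtain ⟨e, he, h⟩ := hC.sect 0 C.L (by linarith)
  have hz := (h (Real.arcsin (δ / C.L) + e / 2) (by linarith) (by linarith)).1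
  have hn : ‖C.c + (C.L : ℂ) * C.q 0 * Complex.exp
      (((Real.arcsin (δ / C.L) + e / 2 : ℝ) : ℂ) * Complex.I) - C.c‖ = C.L := by
    rw [mul_assoc]
    exact norm_pol (hC.qn 0) hL.le _
  refine (hC.tent _ (by rw [hn]; linarith)).2 ⟨0, 0, le_rfl, ?_⟩ 0 hz
  have : 1 ≤ δ / C.L := by rw [le_div_iff₀ hL]; linarith
  rw [Complex.ofReal_zero, zero_mul, add_zero]
  have h0 := norm_nonneg (C.c + (C.L : ℂ) * C.q 0 * Complex.exp
      (((Real.arcsin (δ / C.L) + e / 2 : ℝ) : ℂ) * Complex.I) - C.c)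
  nlinarith

theorem fanA_of_cfg (hn : 0 < n) (hC : C.OK δ) : ∃ th, FanA n C.c C.L δ C.R C.q th := by
  obtain ⟨th, h1, h2, h3⟩ := hC.ang
  refine ⟨th, ⟨hC.Lpos, hC.dpos, cfg_lt hC, hC.opn, hC.con, hC.qn, hC.far, hC.tent⟩,
    ⟨hn, h1, h2⟩, h3, fun k r hr => ?_⟩
  obtain ⟨e, he, h⟩ := hC.sect k r hr
  refine ⟨e, he, fun φ f1 f2 => ?_⟩
  have := h φ f1 f2
  rw [mul_assoc, mul_assoc] at this
  exact this

/-! ### D1 -/

/-- **D1, general form** -/
theorem d1_gen {D : Dom} (hL : 0 < D.L) (hδ0 : 0 < δ) (hδ : δ ≤ D.L) (hqn : ∀ k, ‖D.q k‖ = 1)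
    (hq : (δ / D.L) ^ 3 / 2 ≤ cr (D.q 1 - D.q 0) (D.q 2 - D.q 0)) (hS : Dns S D.c D.L d)
    (hd : 40000 * D.L ^ 5 * d ≤ δ ^ 6) : HNet S (D.netS S) := by
  have hdp := hS.dpos
  have hm : ∀ k, crossRay S D.c (D.q k) ((D.netS S).ex k) := fun k => by
    rw [netS_ex hS.gp]
    exact rayMark_spec (crossRay_exists hS (hqn k))
  refine ⟨hS.gp, netS_T hS.gp, fun k => (hm k).1, fun k h => ?_, ?_⟩
  · rw [netS_kl hS.gp] at h
    exact h.2.1 k (netS_ex hS.gp k).symm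
  · -- margin
    set E : ℝ := Real.sqrt (D.L * d) with hE
    have hE0 : 0 ≤ E := Real.sqrt_nonneg _
    have hE2 : E ^ 2 = D.L * d := Real.sq_sqrt (by positivity)
    have hn := fun k => crossRay_near hS (hqn k) (hm k)
    rw [← hE] at hn
    set e : ZMod 3 → ℂ := fun k => mid ((D.netS S).ex k) - (D.c + D.L * D.q k) with he
    have hek : ∀ k, mid ((D.netS S).ex k) = D.c + D.L * D.q k + e k := fun k => by
      rw [he]; ring
    have hne : ∀ k, ‖e k‖ ≤ 4 * E := fun k => hn k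
    rw [hek 0, hek 1, hek 2]
    have r1 : D.c + D.L * D.q 1 + e 1 - (D.c + D.L * D.q 0 + e 0) =
        (D.L : ℂ) * (D.q 1 - D.q 0) + (e 1 - e 0) := by ring
    have r2 : D.c + D.L * D.q 2 + e 2 - (D.c + D.L * D.q 0 + e 0) =
        (D.L : ℂ) * (D.q 2 - D.q 0) + (e 2 - e 0) := by ring
    rw [r1, r2, cr_add_left, cr_add_right, cr_add_right, cr_smul_left, cr_smul_right,
      cr_smul_left, cr_smul_right]
    have b1 : ‖e 1 - e 0‖ ≤ 8 * E := by
      have := norm_sub_le (e 1) (e 0)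
      linarith [hne 1, hne 0]
    have b2 : ‖e 2 - e 0‖ ≤ 8 * E := by
      have := norm_sub_le (e 2) (e 0)
      linarith [hne 2, hne 0]
    have c1 : ‖D.q 1 - D.q 0‖ ≤ 2 := by
      have := norm_sub_le (D.q 1) (D.q 0)
      linarith [hqn 1, hqn 0]
    have c2 : ‖D.q 2 - D.q 0‖ ≤ 2 := by
      have := norm_sub_le (D.q 2) (D.q 0)
      linarith [hqn 2, hqn 0]
    have k1 := neg_abs_le (cr (D.q 1 - D.q 0) (e 2 - e 0))
    have k2 := neg_abs_le (cr (e 1 - e 0) (D.q 2 - D.q 0))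
    have k3 := neg_abs_le (cr (e 1 - e 0) (e 2 - e 0))
    have l1 : |cr (D.q 1 - D.q 0) (e 2 - e 0)| ≤ 2 * (8 * E) :=
      (abs_cr_le _ _).trans (by gcongr)
    have l2 : |cr (e 1 - e 0) (D.q 2 - D.q 0)| ≤ 8 * E * 2 :=
      (abs_cr_le _ _).trans (by gcongr)
    have l3 : |cr (e 1 - e 0) (e 2 - e 0)| ≤ 8 * E * (8 * E) :=
      (abs_cr_le _ _).trans (by gcongr)
    have hEL : E ≤ D.L := by
      have h8 := small_d hL hδ0 hδ hd
      have : E ^ 2 ≤ D.L ^ 2 := by rw [hE2]; nlinarith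
      exact le_of_sq_le_sq this hL.le
    -- `200 L² E ≤ δ³`
    have hEd : 200 * D.L ^ 2 * E ≤ δ ^ 3 := by
      have h9 : (200 * D.L ^ 2 * E) ^ 2 ≤ (δ ^ 3) ^ 2 := by
        calc (200 * D.L ^ 2 * E) ^ 2 = 40000 * D.L ^ 4 * E ^ 2 := by ring
          _ = 40000 * D.L ^ 5 * d := by rw [hE2]; ring
          _ ≤ δ ^ 6 := hd
          _ = (δ ^ 3) ^ 2 := by ring
      exact le_of_sq_le_sq h9 (by positivity)
    have h10 : D.L * (D.L * ((δ / D.L) ^ 3 / 2)) ≤
        D.L * (D.L * cr (D.q 1 - D.q 0) (D.q 2 - D.q 0)) := by gcongr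
    have h11 : D.L * (D.L * ((δ / D.L) ^ 3 / 2)) = δ ^ 3 / (2 * D.L) := by
      field_simp
    have h12 : 100 * D.L * E ≤ δ ^ 3 / (2 * D.L) := by
      rw [le_div_iff₀ (by positivity)]
      nlinarith
    have hEp : 0 < E := Real.sqrt_pos.2 (by positivity)
    have h13 : 8 * E * (8 * E) ≤ 64 * D.L * E := by nlinarith
    have h14 : D.L * -(2 * (8 * E)) ≤ D.L * cr (D.q 1 - D.q 0) (e 2 - e 0) :=
      mul_le_mul_of_nonneg_left (by linarith) hL.le
    have h15 : D.L * -(8 * E * 2) ≤ D.L * cr (e 1 - e 0) (D.q 2 - D.q 0) :=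
      mul_le_mul_of_nonneg_left (by linarith) hL.le
    have h16 : 0 < D.L * E := by positivity
    nlinarith

/-- sine of half an angle between two tentacles -/
theorem sin_half {η x : ℝ} (h0 : 0 < η) (h1 : η < 1) (hx : 2 * ang η ≤ x)
    (hx' : x ≤ 2 * Real.pi - 2 * ang η) : η ≤ Real.sin (x / 2) := by
  have ha := DomAx722.ang_pos h0
  have ha' := DomAx722.ang_lt h1
  have hpi := Real.pi_pos
  conv_lhs => rw [← sin_ang h0.le h1.le]
  rcases le_or_gt (x / 2) (Real.pi / 2) with h | h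
  · exact Real.sin_le_sin_of_le_of_le_pi_div_two (by linarith) h (by linarith)
  · rw [← Real.sin_pi_sub (x / 2)]
    exact Real.sin_le_sin_of_le_of_le_pi_div_two (by linarith) (by linarith) (by linarith)

theorem cr_exp3 (x y z : ℝ) : cr (Complex.exp (y * Complex.I) - Complex.exp (x * Complex.I))
    (Complex.exp (z * Complex.I) - Complex.exp (x * Complex.I)) =
    4 * Real.sin ((y - x) / 2) * Real.sin ((z - x) / 2) * Real.sin ((z - y) / 2) := by
  have e1 : Complex.exp (y * Complex.I) - Complex.exp (x * Complex.I) =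
      Complex.exp (x * Complex.I) * (Complex.exp (((y - x : ℝ) : ℂ) * Complex.I) - 1) := by
    rw [mul_sub, mul_one, exp_add_I]; congr 4; ring
  have e2 : Complex.exp (z * Complex.I) - Complex.exp (x * Complex.I) =
      Complex.exp (x * Complex.I) * (Complex.exp (((z - x : ℝ) : ℂ) * Complex.I) - 1) := by
    rw [mul_sub, mul_one, exp_add_I]; congr 4; ring
  have hn : (Complex.exp (x * Complex.I)).re ^ 2 + (Complex.exp (x * Complex.I)).im ^ 2 = 1 := by
    rw [← sq_norm, Complex.norm_exp_ofReal_mul_I, one_pow]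
  have e3 : (z - y) / 2 = ((z - x) - (y - x)) / 2 := by ring
  rw [e1, e2, e3, ← cr_exp]
  set u := Complex.exp (((y - x : ℝ) : ℂ) * Complex.I) - 1
  set v := Complex.exp (((z - x : ℝ) : ℂ) * Complex.I) - 1
  set t := Complex.exp (x * Complex.I)
  unfold cr
  simp only [Complex.mul_re, Complex.mul_im]
  linear_combination (u.re * v.im - u.im * v.re) * hn

theorem dom_q0 (C : Cfg n) : C.dom.q 0 = C.q 0 := by
  simp only [Cfg.dom]
  rw [if_neg (by decide), if_neg (by decide)]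

theorem dom_q1 (C : Cfg n) : C.dom.q 1 = C.q (-2) := by
  simp only [Cfg.dom]
  rw [if_pos trivial]

theorem dom_q2 (C : Cfg n) : C.dom.q 2 = C.q (-1) := by
  simp only [Cfg.dom]
  rw [if_neg (by decide), if_pos trivial]

theorem dom_qn (hC : C.OK δ) (k : ZMod 3) : ‖C.dom.q k‖ = 1 := by
  fin_cases k
  · show ‖C.dom.q 0‖ = 1
    rw [dom_q0]; exact hC.qn _
  · show ‖C.dom.q 1‖ = 1
    rw [dom_q1]; exact hC.qn _
  · show ‖C.dom.q 2‖ = 1
    rw [dom_q2]; exact hC.qn _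

theorem cfg_cr (hn : 3 ≤ n) (hC : C.OK δ) :
    (δ / C.L) ^ 3 / 2 ≤ cr (C.dom.q 1 - C.dom.q 0) (C.dom.q 2 - C.dom.q 0) := by
  obtain ⟨th, hF⟩ := fanA_of_cfg (by omega) hC
  have hη := hF.fan.eta_pos
  have hη1 := hF.fan.eta_lt
  have ha := hF.ang_pos
  rw [dom_q0, dom_q1, dom_q2]
  have e0 := hF.dir 0
  have e1 := hF.dir ((n : ℤ) - 2)
  have e2 := hF.dir ((n : ℤ) - 1)
  have z0 : ((0 : ℤ) : ZMod n) = 0 := by simp
  have z1 : (((n : ℤ) - 2 : ℤ) : ZMod n) = -2 := by simp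
  have z2 : (((n : ℤ) - 1 : ℤ) : ZMod n) = -1 := by simp
  rw [z0] at e0
  rw [z1] at e1
  rw [z2] at e2
  rw [e0, e1, e2, cr_exp3]
  have hper := hF.cyc.per 0
  rw [zero_add] at hper
  have g0 := hF.gap 0
  rw [zero_add] at g0
  have g1 := hF.gap ((n : ℤ) - 2)
  rw [show (n : ℤ) - 2 + 1 = n - 1 by ring] at g1
  have g2 := hF.gap ((n : ℤ) - 1)
  rw [sub_add_cancel] at g2
  have m1 := hF.cyc.mono.monotone (show (1 : ℤ) ≤ (n : ℤ) - 2 by omega)
  have m0 := hF.cyc.mono (show (0 : ℤ) < (n : ℤ) - 2 by omega)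
  have s1 := sin_half hη hη1 (x := th (n - 2) - th 0) (by linarith) (by linarith)
  have s2 := sin_half hη hη1 (x := th (n - 1) - th 0) (by linarith) (by linarith)
  have s3 := sin_half hη hη1 (x := th (n - 1) - th (n - 2)) (by linarith) (by linarith)
  set s := Real.sin ((th (n - 2) - th 0) / 2)
  set t := Real.sin ((th (n - 1) - th 0) / 2)
  set r := Real.sin ((th (n - 1) - th (n - 2)) / 2)
  set η := δ / C.L
  have q1 : 0 ≤ s := by linarith
  have q2 : 0 ≤ t := by linarith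
  have q3 : 0 ≤ r := by linarith
  calc η ^ 3 / 2 ≤ 4 * η * η * η := by
        have : 0 < η ^ 3 := by positivity
        nlinarith
    _ ≤ 4 * s * t * r := by gcongr

/-- **D1 for a finite set of sites** -/
theorem d1_S (hn : 3 ≤ n) (hC : C.OK δ) (hS : Dns S C.c C.L d)
    (hd : 40000 * C.L ^ 5 * d ≤ δ ^ 6) : HNet S (C.dom.netS S) :=
  d1_gen (D := C.dom) hC.Lpos hC.dpos (cfg_lt hC).le (dom_qn hC) (cfg_cr hn hC) hS hd

/-- **D1** -/
theorem d1 : Cfgx416.D1 := by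
  intro n C δ ε d M ω hn hC hE hd
  exact d1_S hn hC (dns_of_env (D := C.dom) hC.Lpos
    (small_d hC.Lpos hC.dpos (cfg_lt hC).le hd) hE) hd

/-! ### D2 -/

theorem cell_eq (S : Finset ℂ) (v : ℂ) : Cfgx416.cell S v = cell (S : Set ℂ) v := rfl

section D2

variable {N : ℕ} {th ϑ : ℤ → ℝ} {w : ℤ → ℂ} {J : ℤ → ℤ}

/-- the hull sites between two rays -/
theorem harc_eq (hn : 0 < n) (hS : Dns S C.c C.L d) (hH : HAng S C.c N w ϑ)
    (hA : Arr n N th ϑ w (C.ray S) J) (k : ℤ) :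
    C.harc S (k : ZMod n) = {v | ∃ i : ℤ, J k < i ∧ i ≤ J (k + 1) ∧ v = w i} := by
  have hk := hA.mono (lt_add_one k)
  have hstart : (C.ray S (k : ZMod n)).2 = w (J k + 1) := by rw [hA.edge]
  ext v
  unfold Cfg.harc
  rw [Set.mem_ofPred_eq, Set.mem_ofPred_eq, hstart]
  constructor
  · intro h
    induction h with
    | refl => exact ⟨J k + 1, by omega, by omega, rfl⟩
    | @tail b e _ hbe ih =>
      obtain ⟨i, h1, h2, rfl⟩ := ih
      obtain ⟨hh, hray⟩ := hbe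
      obtain ⟨e', he', huniq⟩ := hull_succ hS.gp (hH.hull.edge (i - 1))
      rw [sub_add_cancel] at he' huniq
      have h3 : e = w (i + 1) := (huniq e hh).trans (huniq _ (hH.hull.edge i)).symm
      have h4 : i ≠ J (k + 1) := by
        intro h
        refine hray ((k + 1 : ℤ) : ZMod n) ?_
        rw [hA.edge, ← h, h3]
      exact ⟨i + 1, by omega, by omega, h3⟩
  · rintro ⟨i, h1, h2, rfl⟩
    obtain ⟨m, hm⟩ := Int.eq_ofNat_of_zero_le (show 0 ≤ i - (J k + 1) by omega)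
    have e : i = J k + 1 + m := by omega
    rw [e] at h2 ⊢
    clear e hm h1
    induction m with
    | zero => simp; exact Relation.ReflTransGen.refl
    | succ m ih =>
      have h3 := ih (by push_cast at h2; omega)
      refine h3.tail ⟨?_, fun l => ?_⟩
      · have := hH.hull.edge (J k + 1 + m)
        rw [show J k + 1 + (m : ℤ) + 1 = J k + 1 + ((m + 1 : ℕ) : ℤ) by push_cast; ring] at this
        exact this
      · have := cls_not_mark hH hA hn (k := k) (i := J k + 1 + m) (by omega)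
          (by push_cast at h2; omega) l
        rw [show J k + 1 + (m : ℤ) + 1 = J k + 1 + ((m + 1 : ℕ) : ℤ) by push_cast; ring] at this
        exact this

theorem cls_eq (hn : 0 < n) (hS : Dns S C.c C.L d) (hH : HAng S C.c N w ϑ)
    (hA : Arr n N th ϑ w (C.ray S) J) (k : ℤ) :
    C.cls S (k : ZMod n) = Cls S C.R w J k := by
  unfold Cfg.cls Cls
  rw [harc_eq hn hS hH hA]
  rfl

theorem exists_data_cfg (hn : 0 < n) (hC : C.OK δ) (hS : Dns S C.c C.L d)
    (hd : 400 * (C.L * d) ≤ δ ^ 2) : ∃ (th ϑ : ℤ → ℝ) (N : ℕ) (w : ℤ → ℂ) (J : ℤ → ℤ),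
    FanA n C.c C.L δ C.R C.q th ∧ HAng S C.c N w ϑ ∧ Arr n N th ϑ w (C.ray S) J := by
  obtain ⟨th, hF⟩ := fanA_of_cfg hn hC
  obtain ⟨N, w, hw⟩ := hull_cycle hS.gp hS.card
  obtain ⟨ϑ, hH⟩ := hull_angle hS hw
  obtain ⟨J, hA⟩ := exists_arr hH hF hS hd (p := C.ray S) fun k =>
    rayMark_spec (crossRay_exists hS (hC.qn k))
  exact ⟨th, ϑ, N, w, J, hF, hH, hA⟩

theorem adj_iff {a b : ℂ} : Cfgx416.Adj S a b ↔ (∃ c, (a, b, c) ∈ delT S) ∨ ∃ c, (b, a, c) ∈ delT S := by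
  unfold Cfgx416.Adj
  constructor
  · rintro ⟨c, h | h⟩
    · exact Or.inl ⟨c, h⟩
    · exact Or.inr ⟨c, h⟩
  · rintro (⟨c, h⟩ | ⟨c, h⟩)
    · exact ⟨c, Or.inl h⟩
    · exact ⟨c, Or.inr h⟩

theorem mem_inn {v : ℂ} : v ∈ C.inn S ↔ v ∈ S ∧ ∀ i, v ∉ C.cls S i := by
  unfold Cfg.inn
  rw [Finset.mem_filter]

/-- **D2 for a finite set of sites** -/
theorem out_S (hn : 3 ≤ n) (hC : C.OK δ) (hS : Dns S C.c C.L d)
    (hd : 40000 * C.L ^ 5 * d ≤ δ ^ 6) : C.Out S := by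
  have hd2 := small_d2 hC.Lpos hC.dpos (cfg_lt hC).le hS.dpos.le hd
  obtain ⟨th, ϑ, N, w, J, hF, hH, hA⟩ := exists_data_cfg (by omega) hC hS hd2
  have hn0 : 0 < n := by omega
  have : NeZero n := ⟨hn0.ne'⟩
  have ek : ∀ k : ZMod n, ((k.val : ℤ) : ZMod n) = k := fun k => by
    rw [Int.cast_natCast, ZMod.natCast_zmod_val]
  have hcls : ∀ k : ZMod n, C.cls S k = Cls S C.R w J k.val := fun k => by
    rw [← cls_eq hn0 hS hH hA, ek]
  have hray : ∀ k, crossRay S C.c (C.q k) (C.ray S k) := fun k =>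
    rayMark_spec (crossRay_exists hS (hC.qn k))
  have hwS : ∀ i, w i ∈ S := fun i => (hullE.mem (hH.hull.edge i)).1
  have hsub : ∀ k : ℤ, Cls S C.R w J k ⊆ S := by
    rintro k v (⟨h, -⟩ | ⟨i, -, -, rfl⟩)
    · exact h
    · exact hwS i
  have hmiss : ∀ k, Disjoint (cell (S : Set ℂ) (C.ray S k).1) C.out ∧
      Disjoint (cell (S : Set ℂ) (C.ray S k).2) C.out := fun k => by
    have := hF.fan.free_mark hS hd2 (hray k)
    unfold Cfg.out
    rw [Set.disjoint_iUnion_right, Set.disjoint_iUnion_right]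
    exact this
  have hvk : ∀ a b : ℂ, (vedge (S : Set ℂ) a b ∩ C.out).Nonempty → a ∈ S → b ∈ S →
      ∃ k : ZMod n, a ∈ C.cls S k ∧ b ∈ C.cls S k := by
    rintro a b ⟨z, hz1, hz2⟩ ha hb
    unfold Cfg.out at hz2
    rw [Set.mem_iUnion] at hz2
    obtain ⟨l, hl⟩ := hz2
    refine ⟨l, ?_⟩
    rw [hcls]
    exact cls_vedge ha hb ⟨z, hz1, by rw [ek]; exact hl⟩
  have hkl : ∀ a b : ℂ, (a, b) ∈ C.dom.kl S → (vedge (S : Set ℂ) a b ∩ C.out).Nonempty := by
    intro a b h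
    unfold Dom.kl at h
    rw [Set.mem_ofPred_eq, C.dom_out] at h
    exact h
  have hkl' : ∀ a b : ℂ, (vedge (S : Set ℂ) a b ∩ C.out).Nonempty → (a, b) ∈ C.dom.kl S := by
    intro a b h
    unfold Dom.kl
    rw [Set.mem_ofPred_eq, C.dom_out]
    exact h
  refine ⟨hS.gp, d1_S hn hC hS hd, hray, fun k => by rw [hcls]; exact hsub _, ?_, ?_, ?_,
    fun k => (hmiss k).1, fun k => (hmiss k).2, ?_, ?_, ?_, ?_⟩
  · -- disjointness
    intro i j hij
    rw [Set.disjoint_left]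
    intro v h1 h2
    rw [hcls] at h1 h2
    have := cls_one hF hS hd2 hH hA h1 h2
    rw [ek, ek] at this
    exact hij this
  · -- end1
    intro k
    have e1 := ek k
    have e2 : (((k.val : ℤ) - 1 : ℤ) : ZMod n) = k - 1 := by
      rw [Int.cast_sub, e1, Int.cast_one]
    rw [← e2, cls_eq hn0 hS hH hA]
    have e3 := hA.edge k.val
    rw [e1] at e3
    rw [e3]
    exact Or.inr ⟨J k.val, hA.mono (by omega), by rw [sub_add_cancel], rfl⟩
  · -- end2
    intro k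
    rw [hcls]
    have e3 := hA.edge k.val
    rw [ek] at e3
    rw [e3]
    exact Or.inr ⟨J k.val + 1, by omega, by have := hA.mono (lt_add_one (k.val : ℤ)); omega, rfl⟩
  · -- hull edges
    intro a b h
    by_cases hr : ∃ k, C.ray S k = (a, b)
    · exact Or.inl hr
    · push Not at hr
      obtain ⟨k, i, g1, g2, rfl, rfl⟩ := cls_edge hH hA h hr
      refine Or.inr ⟨(k : ZMod n), ?_, ?_⟩
      · rw [cls_eq hn0 hS hH hA]; exact Or.inr ⟨i, g1, g2.le, rfl⟩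
      · rw [cls_eq hn0 hS hH hA]; exact Or.inr ⟨i + 1, by omega, by omega, rfl⟩
  · -- killed edges
    intro a b hab h
    have hm : a ∈ S ∧ b ∈ S := by
      rcases adj_iff.1 hab with ⟨c, hc⟩ | ⟨c, hc⟩
      · exact del_mem hc
      · exact (del_mem hc).symm
    exact hvk a b (hkl a b h) hm.1 hm.2
  · -- connectedness
    intro k v hv u hu
    rw [hcls] at hv hu ⊢
    refine rtg_mono (fun x y h => ?_) (cls_conn hF hS hd2 hH hA hv hu)
    obtain ⟨hx, hy, h⟩ := h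
    refine ⟨hx, hy, ?_⟩
    rcases h with ⟨h1, h2, h3, ⟨z, h4, h4'⟩, h5⟩ | ⟨i, h1, h2, h⟩
    · refine Or.inl ⟨adj_iff.2 h5, hkl' _ _ ⟨z, h4, ?_⟩⟩
      unfold Cfg.out
      exact Set.mem_iUnion.2 ⟨_, h4'⟩
    · have hh := hH.hull.edge i
      have m1 : ∀ l, C.ray S l ≠ (w i, w (i + 1)) := fun l => cls_not_mark hH hA hn0 h1 h2 l
      have m2 : ∀ l, C.ray S l ≠ (w (i + 1), w i) := fun l hl => by
        have h6 := (hray l).1
        rw [hl] at h6
        obtain ⟨e, he⟩ := h6.1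
        exact hh.2 e he
      rcases h with ⟨rfl, rfl⟩ | ⟨rfl, rfl⟩
      · exact Or.inr ⟨Or.inl hh, fun l => ⟨m1 l, m2 l⟩⟩
      · exact Or.inr ⟨Or.inr hh, fun l => ⟨m2 l, m1 l⟩⟩
  · -- inner sites
    intro v hv
    obtain ⟨hvS, hv⟩ := mem_inn.1 hv
    have hlive : ∀ u, (v, u) ∉ C.dom.kl S := by
      intro u hu
      obtain ⟨z, hz1, hz2⟩ := hkl v u hu
      unfold Cfg.out at hz2
      rw [Set.mem_iUnion] at hz2
      obtain ⟨l, hl⟩ := hz2
      refine hv l ?_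
      rw [hcls]
      exact Or.inl ⟨hvS, z, vedge_sub_left _ _ _ hz1, by rw [ek]; exact hl⟩
    have hnh : ∀ a, ¬ hullE S a v := by
      intro a ha
      obtain ⟨b, hb⟩ := (hull_in_iff_out hS.gp v).1 ⟨a, ha⟩
      obtain ⟨i, -, -, hi, -⟩ := hH.hull.all v b hb
      obtain ⟨k, g1, g2⟩ := cls_hull hH hA i
      refine hv (k : ZMod n) ?_
      rw [cls_eq hn0 hS hH hA]
      exact Or.inr ⟨i, g1, g2, hi.symm⟩
    obtain ⟨u0, hu0⟩ := exists_tri_at hS.gp hS.card hvS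
    obtain ⟨m, u, hR, -, hall⟩ := ring_exists hS.gp hu0 hnh (G := (C.dom.netS S).toTrg)
      (netS_T hS.gp)
    refine ⟨hlive, m, u, hR, fun x y hxy => ?_⟩
    obtain ⟨i, h1, h2⟩ := hall x y hxy
    exact ⟨i, h1.symm, h2.symm⟩

end D2

/-- **D2** -/
theorem d2 : Cfgx416.D2 := by
  intro n C δ hn hC
  have hL := hC.Lpos
  have hδ := hC.dpos
  refine ⟨δ ^ 6 / (40000 * C.L ^ 5), by positivity, fun ε d M ω hE hd => ?_⟩
  rw [le_div_iff₀ (by positivity)] at hd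
  have hd' : 40000 * C.L ^ 5 * d ≤ δ ^ 6 := by linarith
  exact out_S hn hC (dns_of_env (D := C.dom) hL (small_d hL hδ (cfg_lt hC).le hd') hE) hd'

end Crest.Agent.R143.DomEx722
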