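import Crest.Agent.R143.ArmP_930
import Crest.Agent.R143.CNT_930
import Crest.Agent.R143.D4L_408

/-!
# Row 143 (S0194), CONT: one arm up to the hull circle, product over the scales (helper496)

802's leaf HARM (one-colour arm at any place of the disc, also near the hull circle).
* `Msz S z b C` : the squares of the longest sides of the triangles which meet `closedBall z b` have
  sum `≤ C b²`
* `HarmOne` : one scale at the hull (half annulus of ratio `A`), bound `q < 1`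
* `Harm` : 802's literal statement
* `carm_pow2` : product over disjoint annuli, any ratio
* **`harm_of_one : HarmOne → Harm`**
-/

set_option autoImplicit false

noncomputable section

open scoped Classical

namespace Crest.Agent.R143.HarmSx496

open Crest.Agent.R143.B0x346 Crest.Agent.R143.DelGx806 Crest.Agent.R143.DelRx806
open Crest.Agent.R143.Circx63 Crest.Agent.R143.JColx54 Crest.Agent.R143.Harx315
open Crest.Agent.R143.D3Fx802 Crest.Agent.R143.ToolWx838
open Crest.Agent.R143.RB0x838 (LDns Mesh)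
open Crest.Agent.R143.Lawx872 (ConnIn)
open Crest.Agent.R143.DomAx722 (Dns)
open Crest.Agent.R143.CNTx930 (conn_mono carm_mono)

variable {S V β : Finset ℂ} {p : ℂ} {r1 r2 : ℝ}

/-- size of the triangles at one place and scale -/
def Msz (S : Finset ℂ) (z : ℂ) (b C : ℝ) : Prop :=
  ∑ t ∈ (delT S).filter (fun t => (cT t ∩ Metric.closedBall z b).Nonempty),
    Scalx63.dm t ^ 2 ≤ C * b ^ 2

/-- **one scale at the hull** -/
def HarmOne : Prop := ∀ C4 : ℝ, 0 ≤ C4 → ∃ q c2 A : ℝ, 0 < q ∧ q < 1 ∧ 0 < c2 ∧ c2 ≤ 1 ∧ 2 ≤ A ∧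
  ∀ (S : Finset ℂ) (x0 : ℂ) (L e r : ℝ), Dns S x0 L e → A * Real.sqrt (L * e) ≤ r → A * r ≤ L →
    (∀ z, ‖z - x0‖ ≤ L → ∀ b, c2 * r ≤ b → b ≤ A * r → Msz S z b C4) →
    ∀ p, ‖p - x0‖ ≤ L → L - r ≤ ‖p - x0‖ → ∀ V ⊆ S,
      (∀ v ∈ V, ∀ w, ¬ hullE S v w ∧ ¬ hullE S w v) → pr V (fun β => CArm S β p r (A * r)) ≤ q

/-- **the one-arm bound at any place of the disc** (802) -/
def Harm : Prop := ∀ C4 : ℝ, 0 ≤ C4 → ∃ C c c2 A : ℝ, 0 < C ∧ 0 < c ∧ 0 < c2 ∧ 1 ≤ A ∧
  ∀ (S : Finset ℂ) (x0 : ℂ) (L e r R : ℝ), Dns S x0 L e → A * Real.sqrt (L * e) ≤ r → r ≤ R →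
    A * R ≤ L → (∀ z, ‖z - x0‖ ≤ L → ∀ b, c2 * r ≤ b → b ≤ R → Msz S z b C4) →
    ∀ p, ‖p - x0‖ ≤ L → ∀ V ⊆ S, (∀ v ∈ V, ∀ w, ¬ hullE S v w ∧ ¬ hullE S w v) →
      pr V (fun β => CArm S β p r R) ≤ C * (r / R) ^ c

theorem carm_rad {r1' r2' : ℝ} (h : CArm S β p r1 r2) (h1 : r1 ≤ r1') (h2 : r2' ≤ r2) :
    CArm S β p r1' r2' := by
  obtain ⟨x, y, hx, hy, k1, k2, k3⟩ := h
  exact ⟨x, y, hx, hy, k1.trans h1, h2.trans k2, k3⟩

/-- **many scales** -/
theorem carm_pow2 {ρ A : ℝ} {r q : ℝ} (hr : 0 < r) (hA : 2 ≤ A) (hρ : ρ = 4 * A)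
    (m : ℕ) (h1 : ∀ j < m, ∀ W ⊆ V, pr W (fun β => CArm S β p (ρ ^ j * r) (A * (ρ ^ j * r))) ≤ q)
    (hst : ∀ u v, Adj S u v → ‖u - p‖ < ρ ^ m * r → ‖v - u‖ ≤ r / 4)
    (hr1 : r1 ≤ r) (hr2 : ρ ^ m * r ≤ r2) :
    pr V (fun β => CArm S β p r1 r2) ≤ q ^ m := by
  have hρ1 : 1 ≤ ρ := by rw [hρ]; linarith
  set W : ℕ → Finset ℂ := fun j => V.filter fun s => ρ ^ j * r / 2 < ‖s - p‖ ∧
    ‖s - p‖ < 2 * A * (ρ ^ j * r) with hW
  set E : ℕ → Finset ℂ → Prop := fun j β =>
    CArm S (β ∩ W j) p (ρ ^ j * r) (A * (ρ ^ j * r)) with hE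
  have hpow : ∀ j : ℕ, (1 : ℝ) ≤ ρ ^ j := fun j => one_le_pow₀ hρ1
  have hmono : ∀ i j : ℕ, i ≤ j → ρ ^ i ≤ ρ ^ j := fun i j h => pow_le_pow_right₀ hρ1 h
  have s1 : pr V (fun β => CArm S β p r1 r2) ≤ pr V (fun β => ∀ j ∈ Finset.range m, E j β) := by
    apply pr_mono
    rintro β hβ ⟨x, y, hx, hy, g1, g2, g3⟩ j hj
    rw [Finset.mem_range] at hj
    have hjr : 0 < ρ ^ j * r := by positivity
    have h8 : ρ ^ (j + 1) * r ≤ ρ ^ m * r := mul_le_mul_of_nonneg_right (hmono _ _ hj) hr.le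
    have h8' : ρ ^ (j + 1) * r = 4 * (A * (ρ ^ j * r)) := by rw [pow_succ, hρ]; ring
    have hjr1 : r ≤ ρ ^ j * r := by
      have := mul_le_mul_of_nonneg_right (hpow j) hr.le
      linarith
    have hAj : 2 * (ρ ^ j * r) ≤ A * (ρ ^ j * r) := mul_le_mul_of_nonneg_right hA hjr.le
    obtain ⟨x', y', k1, k2, k3, k4, k5⟩ := extract (S := S) (β := β) (p := p)
      (a := ρ ^ j * r) (b := A * (ρ ^ j * r)) (e := r / 4)
      (by linarith) (fun u v huv hu => hst u v huv (by linarith)) hx (by linarith) (by linarith) g3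
    have hsub : ∀ s ∈ β.filter (fun s => ρ ^ j * r - r / 4 ≤ ‖s - p‖ ∧
        ‖s - p‖ ≤ A * (ρ ^ j * r) + r / 4), s ∈ β ∩ W j := by
      intro s hs
      rw [Finset.mem_filter] at hs
      rw [hW, Finset.mem_inter, Finset.mem_filter]
      exact ⟨hs.1, hβ hs.1, by linarith [hs.2.1], by nlinarith [hs.2.2]⟩
    exact ⟨x', y', hsub _ k1, hsub _ k2, k3, k4, conn_mono hsub k5⟩
  have hWV : ∀ j, W j ⊆ V := fun j => Finset.filter_subset _ _
  have hdep : ∀ j, Dep V (W j) (E j) := by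
    intro j β _
    rw [hE]
    simp only [Finset.inter_assoc, Finset.inter_self]
  have s2 : pr V (fun β => ∀ j ∈ Finset.range m, E j β) = ∏ j ∈ Finset.range m, pr V (E j) := by
    apply pr_indep_prod _ (W := W) _ (fun j _ => hdep j)
    have hlt : ∀ i j : ℕ, i < j → Disjoint (W i) (W j) := by
      intro i j hij
      rw [Finset.disjoint_left]
      intro s hs hs'
      rw [hW, Finset.mem_filter] at hs hs'
      have h8 : ρ ^ (i + 1) * r ≤ ρ ^ j * r := mul_le_mul_of_nonneg_right (hmono _ _ hij) hr.le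
      have h8' : ρ ^ (i + 1) * r = 4 * (A * (ρ ^ i * r)) := by rw [pow_succ, hρ]; ring
      linarith [hs.2.2, hs'.2.1]
    intro i _ j _ hij
    rcases lt_or_gt_of_ne hij with h | h
    · exact hlt i j h
    · exact (hlt j i h).symm
  rw [s2] at s1
  refine s1.trans ?_
  have s3 : ∀ j ∈ Finset.range m, pr V (E j) ≤ q := by
    intro j hj
    rw [pr_dep (hWV j) (hdep j)]
    have : pr (W j) (E j) = pr (W j) (fun β => CArm S β p (ρ ^ j * r) (A * (ρ ^ j * r))) := by
      apply pr_congr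
      intro β hβ
      rw [hE]
      simp only [Finset.inter_eq_left.2 hβ]
    rw [this]
    exact h1 j (Finset.mem_range.1 hj) _ (hWV j)
  calc ∏ j ∈ Finset.range m, pr V (E j) ≤ ∏ _j ∈ Finset.range m, q :=
        Finset.prod_le_prod (fun j _ => pr_nonneg) s3
    _ = q ^ m := by rw [Finset.prod_const, Finset.card_range]

/-- geometric decay from the scales -/
theorem pow_floor {q ρ r R : ℝ} (hq0 : 0 < q) (hq1 : q < 1) (hρ : 1 < ρ) (hr : 0 < r)
    (hrR : r ≤ R) : ∃ m : ℕ, ρ ^ m * r ≤ R ∧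
      q ^ m ≤ q⁻¹ * (r / R) ^ (-Real.log q / Real.log ρ) := by
  have hR : 0 < R := hr.trans_le hrR
  have h8 : 0 < Real.log ρ := Real.log_pos hρ
  have hlq : Real.log q < 0 := Real.log_neg hq0 hq1
  have hx0 : 0 ≤ Real.log (R / r) / Real.log ρ :=
    div_nonneg (Real.log_nonneg ((one_le_div hr).2 hrR)) h8.le
  refine ⟨⌊Real.log (R / r) / Real.log ρ⌋₊, ?_, ?_⟩
  · have m1 := Nat.floor_le hx0
    rw [le_div_iff₀ h8] at m1
    have h1 : Real.log (ρ ^ ⌊Real.log (R / r) / Real.log ρ⌋₊) ≤ Real.log (R / r) := by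
      rwa [Real.log_pow]
    have h2 := (Real.log_le_log_iff (by positivity) (div_pos hR hr)).1 h1
    rwa [le_div_iff₀ hr] at h2
  · have m2 : Real.log (R / r) / Real.log ρ < ⌊Real.log (R / r) / Real.log ρ⌋₊ + 1 :=
      Nat.lt_floor_add_one _
    set m := ⌊Real.log (R / r) / Real.log ρ⌋₊
    have h3 : q ^ m = Real.exp (m * Real.log q) := by
      rw [mul_comm, Real.exp_mul, Real.exp_log hq0, Real.rpow_natCast]
    have h4 : (r / R) ^ (-Real.log q / Real.log ρ) =
        Real.exp (Real.log (R / r) / Real.log ρ * Real.log q) := by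
      rw [Real.rpow_def_of_pos (div_pos hr hR)]
      congr 1
      have : Real.log (r / R) = -Real.log (R / r) := by
        rw [← Real.log_inv, inv_div]
      rw [this]
      field_simp
    have h5 : (m : ℝ) * Real.log q ≤ -Real.log q + Real.log (R / r) / Real.log ρ * Real.log q := by
      nlinarith
    rw [h3, h4]
    calc Real.exp (m * Real.log q)
        ≤ Real.exp (-Real.log q + Real.log (R / r) / Real.log ρ * Real.log q) :=
          Real.exp_le_exp.2 h5
      _ = q⁻¹ * Real.exp (Real.log (R / r) / Real.log ρ * Real.log q) := by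
          rw [Real.exp_add, Real.exp_neg, Real.exp_log hq0]

theorem two_bounds {P M u v c : ℝ} (hP : 0 ≤ P) (hM : 0 ≤ M) (hu : 0 < u) (hv : 0 < v)
    (h1 : P ≤ M * u ^ c) (h2 : P ≤ M * v ^ c) : P ≤ M * (u * v) ^ (c / 2) := by
  have h3 : P ^ 2 ≤ (M * (u * v) ^ (c / 2)) ^ 2 := by
    have e : ((u * v) ^ (c / 2)) ^ 2 = u ^ c * v ^ c := by
      rw [← Real.rpow_natCast, ← Real.rpow_mul (by positivity), ← Real.mul_rpow hu.le hv.le]
      congr 1
      push_cast
      ring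
    rw [mul_pow, e]
    calc P ^ 2 = P * P := sq P
      _ ≤ (M * u ^ c) * (M * v ^ c) := mul_le_mul h1 h2 hP (hP.trans h1)
      _ = M ^ 2 * (u ^ c * v ^ c) := by ring
  exact (pow_le_pow_iff_left₀ hP (by positivity) two_ne_zero).1 h3

theorem weaken {C M u c c' : ℝ} (hu : 0 < u) (hu1 : u ≤ 1) (hc : c ≤ c') (hCM : C ≤ M)
    (hC : 0 ≤ C) : C * u ^ c' ≤ M * u ^ c :=
  mul_le_mul hCM (Real.rpow_le_rpow_of_exponent_ge hu hu1 hc) (Real.rpow_nonneg hu.le _)
    (hC.trans hCM)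

/-- the four cases -/
theorem combine {P : ℝ → ℝ → ℝ} {K C' C'' c' cB M cm r R a : ℝ} (hK : 1 ≤ K) (hC' : 0 ≤ C')
    (hC'' : 0 ≤ C'') (hr : 0 < r) (hrR : r ≤ R)
    (Pmono : ∀ {r1 r2 r1' r2' : ℝ}, r1 ≤ r1' → r2' ≤ r2 → P r1 r2 ≤ P r1' r2')
    (P0 : 0 ≤ P r R) (P1 : P r R ≤ 1) (hM1 : 1 ≤ M) (hM' : C' ≤ M) (hM'' : C'' ≤ M)
    (hcm0 : 0 < cm) (hcm' : cm ≤ c') (hcm'' : cm ≤ cB)
    (hB : ∀ r', r ≤ r' → r' ≤ R → a ≤ r' → P r' R ≤ C'' * (r' / R) ^ cB)
    (hI : ∀ R', r ≤ R' → R' ≤ R → 2 * K * R' ≤ a → P r R' ≤ C' * (r / R') ^ c') :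
    P r R ≤ M * (2 * K) ^ cm * (r / R) ^ (cm / 2) := by
  have hR : 0 < R := hr.trans_le hrR
  have h2K : 1 ≤ 2 * K := by linarith
  have h2K0 : 0 < 2 * K := by linarith
  -- the four cases
  have hX0 : 0 < r / R := div_pos hr hR
  have hX1 : r / R ≤ 1 := (div_le_one hR).2 hrR
  have fin : ∀ {x : ℝ}, x ≤ M * (2 * K * (r / R)) ^ cm → 
      x ≤ M * (2 * K) ^ cm * (r / R) ^ (cm / 2) := by
    intro x hx
    refine hx.trans ?_
    rw [Real.mul_rpow h2K0.le hX0.le, mul_assoc]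
    have : (r / R) ^ cm ≤ (r / R) ^ (cm / 2) :=
      Real.rpow_le_rpow_of_exponent_ge hX0 hX1 (by linarith)
    have h2 : 0 < (2 * K) ^ cm := by positivity
    gcongr
  rcases le_or_gt R (2 * K * r) with hcase | hcase
  · -- trivial
    refine P1.trans ?_
    have h1 : 1 ≤ 2 * K * (r / R) := by
      rw [mul_div_assoc', le_div_iff₀ hR]
      linarith
    have h2 : (1 : ℝ) ≤ (2 * K * (r / R)) ^ cm := Real.one_le_rpow h1 hcm0.le
    refine fin ?_
    nlinarith
  have hu0 : 0 < 2 * K * (r / R) := by positivity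
  have hu1 : 2 * K * (r / R) ≤ 1 := by
    rw [mul_div_assoc', div_le_one hR]
    exact hcase.le
  rcases le_or_gt a (2 * K * r) with hca | hca
  · refine fin ((Pmono (r1' := 2 * K * r) (by nlinarith) le_rfl).trans
      ((hB (2 * K * r) (by nlinarith) hcase.le hca).trans ?_))
    rw [mul_div_assoc]
    exact weaken hu0 hu1 hcm'' hM'' hC''
  rcases le_or_gt R a with hcb | hcb
  · have hR' : r ≤ R / (2 * K) := by
      rw [le_div_iff₀ h2K0]
      linarith
    have hR'' : R / (2 * K) ≤ R := div_le_self hR.le h2K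
    refine fin ((Pmono le_rfl hR'').trans ((hI (R / (2 * K)) hR' hR'' ?_).trans ?_))
    · rw [mul_div_cancel₀ _ h2K0.ne']
      exact hcb
    · have e : r / (R / (2 * K)) = 2 * K * (r / R) := by
        field_simp
      rw [e]
      exact weaken hu0 hu1 hcm' hM' hC'
  · have ha1 : 0 < a := by nlinarith
    have hu : 0 < 2 * K * r / a := by positivity
    have hu' : 2 * K * r / a ≤ 1 := (div_le_one ha1).2 hca.le
    have hv : 0 < a / R := by positivity
    have hv' : a / R ≤ 1 := (div_le_one hR).2 hcb.le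
    have b1 : P r R ≤ M * (2 * K * r / a) ^ cm := by
      have hR' : r ≤ a / (2 * K) := by
        rw [le_div_iff₀ h2K0]
        linarith
      have hR'' : a / (2 * K) ≤ R := (div_le_self ha1.le h2K).trans hcb.le
      refine (Pmono le_rfl hR'').trans ((hI (a / (2 * K)) hR' hR'' ?_).trans ?_)
      · rw [mul_div_cancel₀ _ h2K0.ne']
      · have e : r / (a / (2 * K)) = 2 * K * r / a := by
          field_simp
        rw [e]
        exact weaken hu hu' hcm' hM' hC'
    have b2 : P r R ≤ M * (a / R) ^ cm := by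
      refine (Pmono (r1' := a) (by nlinarith) le_rfl).trans
        ((hB a (by nlinarith) hcb.le le_rfl).trans ?_)
      exact weaken hv hv' hcm'' hM'' hC''
    have b3 := two_bounds (P := P r R) P0 (by linarith) hu hv b1 b2
    refine b3.trans ?_
    have e : 2 * K * r / a * (a / R) = 2 * K * (r / R) := by
      field_simp
    rw [e, Real.mul_rpow h2K0.le hX0.le, mul_assoc]
    have h5 : (2 * K) ^ (cm / 2) ≤ (2 * K) ^ cm :=
      Real.rpow_le_rpow_of_exponent_le h2K (by linarith)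
    have h6 : 0 < (r / R) ^ (cm / 2) := by positivity
    gcongr

/-- **HARM from one scale at the hull** -/
theorem harm_of_one (H : HarmOne) : Harm := by
  intro C4 hC4
  obtain ⟨q, c2, A1, hq0, hq1, hc2, hc2', hA1, H1⟩ := H C4 hC4
  obtain ⟨C', c', c1', c2', K, hC', hc', hc1', hc2p, hc2p', hK, H2⟩ := ArmPx930.arm C4 hC4
  set ρ : ℝ := 4 * A1 with hρ
  have hρ1 : 1 < ρ := by linarith
  have hlq : Real.log q < 0 := Real.log_neg hq0 hq1
  have hlρ : 0 < Real.log ρ := Real.log_pos hρ1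
  set cB : ℝ := -Real.log q / Real.log ρ with hcB
  have hcB0 : 0 < cB := div_pos (by linarith) hlρ
  set cm : ℝ := min c' cB with hcm
  have hcm0 : 0 < cm := lt_min hc' hcB0
  set M : ℝ := max C' q⁻¹ with hM
  have hqi : 1 ≤ q⁻¹ := (one_le_inv₀ hq0).2 hq1.le
  have hM1 : 1 ≤ M := hqi.trans (le_max_right _ _)
  have h2K : 1 ≤ 2 * K := by linarith
  have h2K0 : 0 < 2 * K := by linarith
  refine ⟨M * (2 * K) ^ cm, cm / 2, min c2 c2', max (max A1 24) (max (1 / c1') 1), by positivity,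
    by positivity, lt_min hc2 hc2p, (le_max_right _ _).trans (le_max_right _ _), ?_⟩
  intro S x0 L e r R hD hr0 hrR hRL hM4 p hp V hV hVh
  have he := hD.dpos
  have hL := hD.dL
  have hL0 : 0 < L := by linarith
  have hes : e ≤ Real.sqrt (L * e) := DomBx722.d_le_sqrt he.le (by linarith)
  have hs0 : 0 < Real.sqrt (L * e) := he.trans_le hes
  have a1 : A1 * Real.sqrt (L * e) ≤ r :=
    (mul_le_mul_of_nonneg_right ((le_max_left _ _).trans (le_max_left _ _)) hs0.le).trans hr0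
  have a2 : 24 * Real.sqrt (L * e) ≤ r :=
    (mul_le_mul_of_nonneg_right ((le_max_right _ _).trans (le_max_left _ _)) hs0.le).trans hr0
  have a3 : 1 / c1' * Real.sqrt (L * e) ≤ r :=
    (mul_le_mul_of_nonneg_right ((le_max_left _ _).trans (le_max_right _ _)) hs0.le).trans hr0
  have a4 : 1 * Real.sqrt (L * e) ≤ r :=
    (mul_le_mul_of_nonneg_right ((le_max_right _ _).trans (le_max_right _ _)) hs0.le).trans hr0
  have hr : 0 < r := by linarith
  have hR : 0 < R := hr.trans_le hrR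
  have hRL' : R ≤ L := by
    have : 1 * R ≤ max (max A1 24) (max (1 / c1') 1) * R :=
      mul_le_mul_of_nonneg_right ((le_max_right _ _).trans (le_max_right _ _)) hR.le
    linarith
  have her : e ≤ r := by linarith
  have hec : e ≤ c1' * r := by
    have h1 : 1 / c1' * e ≤ r := (mul_le_mul_of_nonneg_left hes (by positivity)).trans a3
    rw [div_mul_eq_mul_div, one_mul, div_le_iff₀ hc1'] at h1
    linarith
  set a : ℝ := L - ‖p - x0‖ with ha
  have ha0 : 0 ≤ a := by linarith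
  set P : ℝ → ℝ → ℝ := fun r1 r2 => pr V (fun β => CArm S β p r1 r2) with hP
  have Pmono : ∀ {r1 r2 r1' r2' : ℝ}, r1 ≤ r1' → r2' ≤ r2 → P r1 r2 ≤ P r1' r2' := by
    intro r1 r2 r1' r2' h1 h2
    exact pr_mono fun β _ h => carm_rad h h1 h2
  -- near the hull
  have hB : ∀ r', r ≤ r' → r' ≤ R → a ≤ r' → P r' R ≤ q⁻¹ * (r' / R) ^ cB := by
    intro r' h1 h2 h3
    have hr' : 0 < r' := hr.trans_le h1
    obtain ⟨m, hm1, hm2⟩ := pow_floor hq0 hq1 hρ1 hr' h2
    refine le_trans ?_ hm2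
    refine carm_pow2 (S := S) (p := p) (A := A1) (r := r') hr' hA1 hρ m ?_ ?_ le_rfl hm1
    · intro j hj W hW
      have e1 : (1 : ℝ) ≤ ρ ^ j := one_le_pow₀ hρ1.le
      have e2 : r' ≤ ρ ^ j * r' := by nlinarith
      have e3 : ρ ^ (j + 1) * r' ≤ ρ ^ m * r' :=
        mul_le_mul_of_nonneg_right (pow_le_pow_right₀ hρ1.le hj) hr'.le
      have e4 : ρ ^ (j + 1) * r' = 4 * (A1 * (ρ ^ j * r')) := by rw [pow_succ, hρ]; ring
      have e5 : 0 < A1 * (ρ ^ j * r') := by positivity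
      refine H1 S x0 L e (ρ ^ j * r') hD (by linarith) (by linarith) ?_ p hp (by linarith) W
        (hW.trans hV) fun v hv => hVh v (hW hv)
      intro z hz b hb1 hb2
      refine hM4 z hz b ?_ (by linarith)
      have e6 : min c2 c2' * r ≤ c2 * (ρ ^ j * r') :=
        mul_le_mul (min_le_left _ _) (by linarith) hr.le hc2.le
      linarith
    · intro u v huv _
      have := D4Lx408.adj_len hD (D4Ux408.adj_iff.2 huv)
      rw [norm_sub_rev]
      linarith
  -- inside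
  have hI : ∀ R', r ≤ R' → R' ≤ R → 2 * K * R' ≤ a → P r R' ≤ C' * (r / R') ^ c' := by
    intro R' h1 h2 h3
    have hR' : 0 < R' := hr.trans_le h1
    have hKR : R' ≤ K * R' := by nlinarith
    have tri : ∀ z : ℂ, ‖z - x0‖ ≤ ‖z - p‖ + ‖p - x0‖ := fun z => by
      have := norm_add_le (z - p) (p - x0)
      rwa [sub_add_sub_cancel] at this
    refine H2 S p e r R' hr h1 ⟨hD.gp, he, ?_⟩ ?_ hec V hV
    · intro z hz
      refine hD.hole z ?_
      have := tri z
      linarith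
    · intro b hb1 hb2 z hz
      refine hM4 z ?_ b ?_ (by linarith)
      · have := tri z
        linarith
      · have e6 : min c2 c2' * r ≤ c2' * r :=
          mul_le_mul_of_nonneg_right (min_le_right _ _) hr.le
        linarith
  exact combine hK hC'.le (inv_nonneg.2 hq0.le) hr hrR (P := P)
    (fun h1 h2 => Pmono h1 h2) pr_nonneg pr_le_one
    (hM1) (le_max_left _ _) (le_max_right _ _) hcm0 (min_le_left _ _) (min_le_right _ _) hB hI

end Crest.Agent.R143.HarmSx496
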