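import Crest.Agent.R143.PoisM4U_501

set_option autoImplicit false

noncomputable section

namespace Crest.Agent.R143.PoisM4x501

open MeasureTheory Set ProbabilityTheory Filter Topology
open Crest.ProbabilityR.Voronoi
open Crest.Agent.R143.B0x346 Crest.Agent.R143.PP1x831
open scoped ENNReal NNReal

lemma tendsto_logInv : Tendsto (fun ε : ℝ => Real.log (1 / ε)) (𝓝[>] 0) atTop := by
  have h : Tendsto (fun ε : ℝ => 1 / ε) (𝓝[>] 0) atTop := by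
    simpa using tendsto_inv_nhdsGT_zero (𝕜 := ℝ)
  exact Real.tendsto_log_atTop.comp h

/-- the estimate at a fixed small scale -/
lemma fixed {R A' ε : ℝ} (hA' : 1 ≤ A') (h0 : 0 < ε) (h1 : ε ≤ 1)
    (h2 : 18 * (A' + 3) ≤ Real.log (1 / ε))
    (h3 : (A' + 4) * ((39 * (A' + 3)) ^ 2 * ((3 * (A' + 3)) ^ 2 *
      ((39 * (A' + 3)) ^ 2 * (2 * (A' + 3))) ^ 3)) ≤ Real.log (1 / ε) ^ 2)
    (h4 : 28 * (A' + 3) * Real.log (1 / ε) + 10 ≤ 1 / ε)
    (h5 : ε * ((2 * |R| + 9) ^ 2 + (2 * |R| + 9) ^ 2 * Real.exp (Real.exp 1 - 1) +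
      (2 * |R| + 9) ^ 3) ≤ 1) :
    sampleLaw {ω | ¬ ∀ z ∈ Metric.closedBall (0 : ℂ) R, ∀ ρ : ℝ,
      ε * Real.log (1 / ε) ^ (8 : ℕ) ≤ ρ → ρ ≤ 1 →
      diamSum (points ε ω) (Metric.ball z ρ) ≤ ENNReal.ofReal (400 * (2 * m0 + 1) * ρ ^ 2)} ≤
        ENNReal.ofReal (ε ^ A') := by
  set l := Real.log (1 / ε) with hl
  set a := A' + 3 with ha
  set K := 2 * |R| + 9 with hK
  have ha4 : 4 ≤ a := by linarith
  have hl1 : 1 ≤ l := by linarith
  have hK0 : 0 < K := by positivity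
  have hal : 1 ≤ a * l := by nlinarith
  set M : ℕ := ⌈a * l⌉₊ with hM
  have hM1 : a * l ≤ M := Nat.le_ceil _
  have hM2 : (M : ℝ) ≤ 2 * a * l := by
    have : (M : ℝ) < a * l + 1 := Nat.ceil_lt_add_one (by positivity)
    linarith
  set n1 : ℕ := ⌈l ^ 8⌉₊ with hn1
  have hn1a : l ^ 8 ≤ n1 := Nat.le_ceil _
  have hn1b : (n1 : ℝ) ≤ l ^ 8 + 1 := (Nat.ceil_lt_add_one (by positivity)).le
  set L : ℕ := ⌈(|R| + 3) / ε⌉₊ with hL
  have hL1 : (|R| + 3) / ε ≤ L := Nat.le_ceil _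
  have hL2 : (L : ℝ) < (|R| + 3) / ε + 1 := Nat.ceil_lt_add_one (by positivity)
  have hLK : 2 * (L : ℝ) + 1 ≤ K / ε := by
    have h6 : (1 : ℝ) ≤ 1 / ε := by rw [le_div_iff₀ h0]; linarith
    have h7 : K / ε = 2 * ((|R| + 3) / ε) + 3 * (1 / ε) := by rw [hK]; ring
    rw [h7]; linarith
  -- the bad event
  have hsub : {ω : Sample | ¬ ∀ z ∈ Metric.closedBall (0 : ℂ) R, ∀ ρ : ℝ,
      ε * l ^ (8 : ℕ) ≤ ρ → ρ ≤ 1 →
      diamSum (points ε ω) (Metric.ball z ρ) ≤ ENNReal.ofReal (400 * (2 * m0 + 1) * ρ ^ 2)} ⊆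
      {ω : Sample | ω.1 ∈ Bad M M L n1} := by
    intro ω hω
    by_contra hN
    apply hω
    intro z hz ρ hρ1 hρ2
    rw [Metric.mem_closedBall, dist_zero_right] at hz
    refine good_sum (B := M) (L := L) (n1 := n1) h0 hN ?_ ?_ ?_
    · refine le_trans ?_ hρ1
      rw [mul_comm]
      refine mul_le_mul_of_nonneg_left ?_ h0.le
      have h6 : l ^ 2 ≤ l ^ 8 := pow_le_pow_right₀ hl1 (by norm_num)
      have h7 : 8 * (M : ℝ) + 2 ≤ 18 * a * l := by nlinarith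
      have h8 : 18 * a * l ≤ l ^ 2 := by nlinarith
      linarith
    · calc (n1 : ℝ) * ε ≤ (l ^ 8 + 1) * ε := by gcongr
        _ = ε * l ^ 8 + ε := by ring
        _ ≤ ρ + ε := by linarith
    · have hz' : ‖z‖ / ε ≤ |R| / ε := by
        gcongr
        exact hz.trans (le_abs_self R)
      have hρ' : ρ / ε ≤ 1 / ε := by gcongr
      have h6 : (|R| + 3) / ε = |R| / ε + 3 * (1 / ε) := by ring
      have h7 : (0 : ℝ) ≤ 1 / ε := by positivity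
      have h8 : 14 * (M : ℝ) + 10 ≤ 28 * a * l + 10 := by linarith
      linarith
  refine (measure_mono hsub).trans ?_
  rw [sampleLaw_fst]
  refine (mu_Bad M M L n1).trans ?_
  apply ENNReal.ofReal_le_ofReal
  -- exponentials
  have hlog : l = -Real.log ε := by rw [hl, one_div, Real.log_inv]
  have e1 : Real.exp (-(a * l)) = ε ^ A' * ε ^ 3 := by
    rw [← Real.rpow_natCast, ← Real.rpow_add h0, Real.rpow_def_of_pos h0, hlog, ha]
    congr 1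
    push_cast
    ring
  have e2 : Real.exp (-((A' + 4) * l)) = ε ^ A' * ε ^ 4 := by
    rw [← Real.rpow_natCast, ← Real.rpow_add h0, Real.rpow_def_of_pos h0, hlog]
    congr 1
    push_cast
    ring
  have e3 : Real.exp (-(M : ℝ)) ≤ ε ^ A' * ε ^ 3 := by
    rw [← e1]
    exact Real.exp_le_exp.2 (neg_le_neg hM1)
  have e4 : Real.exp (-((2 * n1 + 1) ^ 2 / ((12 * M + 15) ^ 2 * TT M M))) ≤ ε ^ A' * ε ^ 4 := by
    rw [← e2]
    apply Real.exp_le_exp.2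
    apply neg_le_neg
    have hMpos : (1 : ℝ) ≤ M := hal.trans hM1
    have hTT : (TT M M : ℝ) = (M + 1) ^ 2 * ((12 * M + 15) ^ 2 * M) ^ 3 := by
      unfold TT; push_cast; ring
    have hD0 : (0 : ℝ) < (12 * M + 15) ^ 2 * TT M M := by
      rw [hTT]; positivity
    rw [le_div_iff₀ hD0]
    have hD : (12 * M + 15) ^ 2 * (TT M M : ℝ) ≤ ((39 * a) ^ 2 * ((3 * a) ^ 2 *
        ((39 * a) ^ 2 * (2 * a)) ^ 3)) * l ^ 13 := by
      rw [hTT]
      have g1 : (12 * M + 15 : ℝ) ≤ 39 * a * l := by linarith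
      have g2 : (M + 1 : ℝ) ≤ 3 * a * l := by linarith
      calc (12 * (M : ℝ) + 15) ^ 2 * ((M + 1) ^ 2 * ((12 * M + 15) ^ 2 * M) ^ 3)
          ≤ (39 * a * l) ^ 2 * ((3 * a * l) ^ 2 * ((39 * a * l) ^ 2 * (2 * a * l)) ^ 3) := by
            gcongr
        _ = _ := by ring
    calc (A' + 4) * l * ((12 * M + 15) ^ 2 * (TT M M : ℝ))
        ≤ (A' + 4) * l * (((39 * a) ^ 2 * ((3 * a) ^ 2 *
        ((39 * a) ^ 2 * (2 * a)) ^ 3)) * l ^ 13) := by gcongr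
      _ = ((A' + 4) * ((39 * a) ^ 2 * ((3 * a) ^ 2 *
        ((39 * a) ^ 2 * (2 * a)) ^ 3))) * l ^ 14 := by ring
      _ ≤ l ^ 2 * l ^ 14 := by gcongr
      _ = (l ^ 8) ^ 2 := by ring
      _ ≤ (2 * n1 + 1) ^ 2 := by
        have : l ^ 8 ≤ 2 * (n1 : ℝ) + 1 := by
          have : (0 : ℝ) ≤ n1 := by positivity
          linarith
        gcongr
  have hE : 0 < ε ^ A' := Real.rpow_pos_of_pos h0 _
  calc (2 * (L : ℝ) + 1) ^ 2 * Real.exp (-(M : ℝ)) +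
      (2 * (L : ℝ) + 1) ^ 2 * (Real.exp (Real.exp 1 - 1) * Real.exp (-(M : ℝ))) +
      (2 * (L : ℝ) + 1) ^ 3 * Real.exp (-((2 * n1 + 1) ^ 2 / ((12 * M + 15) ^ 2 * TT M M)))
      ≤ (K / ε) ^ 2 * (ε ^ A' * ε ^ 3) +
      (K / ε) ^ 2 * (Real.exp (Real.exp 1 - 1) * (ε ^ A' * ε ^ 3)) +
      (K / ε) ^ 3 * (ε ^ A' * ε ^ 4) := by gcongr
    _ = ε ^ A' * (ε * (K ^ 2 + K ^ 2 * Real.exp (Real.exp 1 - 1) + K ^ 3)) := by
        field_simp
    _ ≤ ε ^ A' * 1 := by gcongr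
    _ = ε ^ A' := mul_one _

/-- **leaf M4** -/
theorem m4 : M4 := by
  refine ⟨8, by norm_num, fun R A => ⟨400 * (2 * m0 + 1), by have := m0_nonneg; positivity, ?_⟩⟩
  set A' := max A 1 with hA'
  have hA1 : 1 ≤ A' := le_max_right _ _
  have hlt := tendsto_logInv
  have f1 : ∀ᶠ ε : ℝ in 𝓝[>] 0, 0 < ε := eventually_mem_nhdsWithin
  have f2 : ∀ᶠ ε : ℝ in 𝓝[>] 0, ε ≤ 1 :=
    nhdsWithin_le_nhds ((eventually_lt_nhds (by norm_num : (0 : ℝ) < 1)).mono fun _ h => h.le)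
  have f3 := hlt.eventually_ge_atTop (18 * (A' + 3))
  have f4 := hlt.eventually_ge_atTop ((A' + 4) * ((39 * (A' + 3)) ^ 2 * ((3 * (A' + 3)) ^ 2 *
      ((39 * (A' + 3)) ^ 2 * (2 * (A' + 3))) ^ 3)))
  have f5 := hlt.eventually_ge_atTop (56 * (A' + 3) + 20)
  have f6 : ∀ᶠ ε : ℝ in 𝓝[>] 0, ε < ((2 * |R| + 9) ^ 2 +
      (2 * |R| + 9) ^ 2 * Real.exp (Real.exp 1 - 1) + (2 * |R| + 9) ^ 3)⁻¹ :=
    nhdsWithin_le_nhds (eventually_lt_nhds (by positivity))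
  filter_upwards [f1, f2, f3, f4, f5, f6] with ε h0 h1 h2 h3 h4 h5
  have hl1 : 1 ≤ Real.log (1 / ε) := by linarith
  have hfix := fixed (R := R) hA1 h0 h1 h2 (h3.trans (by nlinarith)) (by
    have h6 : 1 / ε = Real.exp (Real.log (1 / ε)) := (Real.exp_log (by positivity)).symm
    have h7 := Real.quadratic_le_exp_of_nonneg (x := Real.log (1 / ε)) (by linarith)
    rw [h6]
    rw [Real.log_exp]
    nlinarith) (by
    rw [← le_div_iff₀ (by positivity), one_div]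
    exact h5.le)
  refine le_trans (le_trans (le_of_eq ?_) hfix) ?_
  · congr 1
    ext ω
    simp only [mem_ofPred_eq]
    have h8 : Real.log (1 / ε) ^ (8 : ℝ) = Real.log (1 / ε) ^ (8 : ℕ) := by
      rw [← Real.rpow_natCast]
      norm_num
    rw [h8]
  · exact ENNReal.ofReal_le_ofReal
      (Real.rpow_le_rpow_of_exponent_ge h0 h1 (le_max_left _ _))

end Crest.Agent.R143.PoisM4x501
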