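import Crest.Agent.R143.EQ4_63
import Crest.Agent.R143.PoisM4_501
import Crest.Agent.R143.DomA_722
import Crest.Agent.R143.Spine_422
import Crest.Agent.R143.Ad2_422

/-!
# Row 143 (S0194), block EQ, part 5 (annealed): leaf `LEqui` of the spine (helper63)

* `m4u` : M4 with a constant which does not depend on the region
* `M3e` : a fixed point is on no line through two points of the process (a.s.)
* `En12` : the energy bound for the networks of a domain (T1 + T2 + D2)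
* `lequi` : `LEqui` from T5, `En12`, M3a, M3c, M3e
-/

set_option autoImplicit false

noncomputable section

namespace Crest.Agent.R143.EQ5x63

open Set MeasureTheory Filter Topology
open scoped Classical ENNReal
open Crest.ProbabilityR.Voronoi
open Crest.Agent.R143.B0x346 Crest.Agent.R143.B0Dx346 Crest.Agent.R143.Scalx63
open Crest.Agent.R143.EQ2x63 Crest.Agent.R143.EQ4x63 Crest.Agent.R143.Locx922
open Crest.Agent.R143.PP1x831 Crest.Agent.R143.PoisM4x501 Crest.Agent.R143.Spinex422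

/-- the constant of M4 -/
def CM : ℝ := 400 * (2 * m0 + 1)

theorem CM_nonneg : 0 ≤ CM := by
  unfold CM
  have := m0_nonneg
  positivity

/-- **M4 with a universal constant** (same proof as `PoisM4x501.m4`) -/
theorem m4u (R A : ℝ) : ∀ᶠ ε : ℝ in 𝓝[>] 0,
    sampleLaw {ω | ¬ ∀ z ∈ Metric.closedBall (0 : ℂ) R, ∀ ρ : ℝ,
      ε * Real.log (1 / ε) ^ (8 : ℕ) ≤ ρ → ρ ≤ 1 →
      diamSum (points ε ω) (Metric.ball z ρ) ≤ ENNReal.ofReal (CM * ρ ^ 2)} ≤
        ENNReal.ofReal (ε ^ A) := by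
  set A' := max A 1 with hA'
  have hA1 : 1 ≤ A' := le_max_right _ _
  have hlt := tendsto_logInv
  have f1 : ∀ᶠ ε : ℝ in 𝓝[>] 0, 0 < ε := eventually_mem_nhdsWithin
  have f2 : ∀ᶠ ε : ℝ in 𝓝[>] 0, ε ≤ 1 :=
    nhdsWithin_le_nhds ((eventually_lt_nhds (by norm_num : (0 : ℝ) < 1)).mono fun _ h => h.le)
  have f3 := hlt.eventually_ge_atTop (18 * (A' + 3))
  have f4 := hlt.eventually_ge_atTop ((A' + 4) * ((39 * (A' + 3)) ^ 2 * ((3 * (A' + 3)) ^ 2 *
      ((39 * (A' + 3)) ^ 2 * (2 * (A' + 3))) ^ 3)))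
  have f5 := hlt.eventually_ge_atTop (56 * (A' + 3) + 20)
  have f6 : ∀ᶠ ε : ℝ in 𝓝[>] 0, ε < ((2 * |R| + 9) ^ 2 +
      (2 * |R| + 9) ^ 2 * Real.exp (Real.exp 1 - 1) + (2 * |R| + 9) ^ 3)⁻¹ :=
    nhdsWithin_le_nhds (eventually_lt_nhds (by positivity))
  filter_upwards [f1, f2, f3, f4, f5, f6] with ε h0 h1 h2 h3 h4 h5
  have hl1 : 1 ≤ Real.log (1 / ε) := by linarith
  have hfix := fixed (R := R) hA1 h0 h1 h2 (h3.trans (by nlinarith)) (by
    have h6 : 1 / ε = Real.exp (Real.log (1 / ε)) := (Real.exp_log (by positivity)).symm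
    have h7 := Real.quadratic_le_exp_of_nonneg (x := Real.log (1 / ε)) (by linarith)
    rw [h6]
    rw [Real.log_exp]
    nlinarith) (by
    rw [← le_div_iff₀ (by positivity), one_div]
    exact h5.le)
  exact hfix.trans (ENNReal.ofReal_le_ofReal
    (Real.rpow_le_rpow_of_exponent_ge h0 h1 (le_max_left _ _)))

/-- **leaf M3e**: a fixed point is on no line through two points -/
def M3e : Prop := ∀ ε : ℝ, 0 < ε → ∀ z : ℂ, ∀ᵐ ω ∂sampleLaw,
  ∀ a ∈ points ε ω, ∀ b ∈ points ε ω, a ≠ b → cr (b - a) (z - a) ≠ 0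

/-- **energy bound** for the networks of a domain (T1, T2, D2, EXJ) -/
def En12 : Prop := ∀ (D : Dom) (δ : ℝ), D.Ad δ → ∀ ρ > 0, ∀ m > 0, ∃ c1 > 0,
  ∀ (ε d M : ℝ) (ω : Sample), Env ε d M D.c D.L ω → 0 < d → d ≤ c1 → ∀ z : ℂ,
    Spinex422.Room D ρ z → Linked D m z → ∀ U ⊆ delT (D.sites ε ω),
      ∑ t ∈ U, ‖(D.netS (D.sites ε ω)).Q t‖ ^ 2 ≤ 12

/-- the radius of the holes tends to `0` -/
theorem rad_lim (C : ℝ) : Tendsto (fun ε : ℝ => rad C ε) (𝓝[>] 0) (𝓝 0) := by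
  have h1 : Tendsto (fun ε : ℝ => Real.log ε * ε ^ (2 : ℝ)) (𝓝[>] 0) (𝓝 0) :=
    tendsto_log_mul_rpow_nhdsGT_zero (by norm_num)
  have h2 : Tendsto (fun ε : ℝ => C * Real.sqrt (-(Real.log ε * ε ^ (2 : ℝ)))) (𝓝[>] 0) (𝓝 0) := by
    have := ((Real.continuous_sqrt.tendsto _).comp h1.neg).const_mul C
    simpa using this
  refine h2.congr' ?_
  filter_upwards [eventually_mem_nhdsWithin] with ε hε
  have hε' : 0 < ε := hε
  unfold rad
  rw [one_div, Real.log_inv, Real.rpow_two, mul_assoc]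
  congr 1
  rw [show -(Real.log ε * ε ^ 2) = ε ^ 2 * (-Real.log ε) by ring, Real.sqrt_mul (sq_nonneg _),
    Real.sqrt_sq hε'.le]

theorem scale_lim : Tendsto (fun ε : ℝ => ε * Real.log (1 / ε) ^ (8 : ℕ)) (𝓝[>] 0) (𝓝 0) := by
  have h1 : Tendsto (fun ε : ℝ => Real.log ε * ε ^ (1 / 8 : ℝ)) (𝓝[>] 0) (𝓝 0) :=
    tendsto_log_mul_rpow_nhdsGT_zero (by norm_num)
  have h2 := (h1.neg.pow 8)
  rw [neg_zero, zero_pow (by norm_num)] at h2
  refine h2.congr' ?_
  filter_upwards [eventually_mem_nhdsWithin] with ε hε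
  have hε' : 0 < ε := hε
  have e0 : Real.log (1 / ε) = -Real.log ε := by rw [one_div, Real.log_inv]
  rw [e0]
  have e : ((ε : ℝ) ^ (1 / 8 : ℝ)) ^ (8 : ℕ) = ε := by
    rw [← Real.rpow_natCast, ← Real.rpow_mul hε'.le]
    norm_num
  rw [show -(Real.log ε * ε ^ (1 / 8 : ℝ)) = (-Real.log ε) * ε ^ (1 / 8 : ℝ) by ring, mul_pow, e]
  ring

/-- small scales -/
theorem exists_zpow_le {r : ℝ} (hr : 0 < r) : ∃ k : ℤ, (2 : ℝ) ^ k ≤ r := by
  obtain ⟨n, hn⟩ := exists_pow_lt_of_lt_one hr (show (1 / 2 : ℝ) < 1 by norm_num)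
  refine ⟨-n, ?_⟩
  rw [zpow_neg, zpow_natCast, ← inv_pow]
  have e : ((2 : ℝ)⁻¹) ^ n = (1 / 2) ^ n := by norm_num
  rw [e]
  exact hn.le

/-- the good environment: general position, local finiteness, no holes -/
theorem env_of {D : Dom} {ε d : ℝ} {ω : Sample} {R : ℝ} (hR : ‖D.c‖ + D.L ≤ R)
    (hd : 0 < d) (hgp : GP (points ε ω))
    (hfin : ∀ r : ℝ, (points ε ω ∩ Metric.closedBall 0 r).Finite)
    (hh : ∀ z ∈ Metric.closedBall (0 : ℂ) R, (points ε ω ∩ Metric.ball z d).Nonempty) :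
    ∃ M : ℝ, Env ε d M D.c D.L ω := by
  refine ⟨((points ε ω ∩ Metric.closedBall 0 (‖D.c‖ + D.L + d)).ncard : ℝ), ?_, hgp, ?_, ?_⟩
  · refine (hfin (‖D.c‖ + D.L)).subset (inter_subset_inter_right _ ?_)
    intro y hy
    rw [mem_closedBall_iff_norm] at hy
    rw [mem_closedBall_zero_iff]
    have := norm_add_le (y - D.c) D.c
    rw [sub_add_cancel] at this
    linarith
  · intro z hz
    apply hh
    rw [mem_closedBall_iff_norm] at hz
    rw [mem_closedBall_zero_iff]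
    have := norm_add_le (z - D.c) D.c
    rw [sub_add_cancel] at this
    linarith
  · intro z hz
    have h1 : points ε ω ∩ Metric.closedBall z d ⊆
        points ε ω ∩ Metric.closedBall 0 (‖D.c‖ + D.L + d) := by
      refine inter_subset_inter_right _ ?_
      intro y hy
      rw [mem_closedBall_iff_norm] at hy hz
      rw [mem_closedBall_zero_iff]
      have h2 := norm_add_le (y - z) z
      have h3 := norm_add_le (z - D.c) D.c
      rw [sub_add_cancel] at h2 h3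
      linarith
    exact_mod_cast Set.ncard_le_ncard h1 (hfin _)

/-- the quenched estimate -/
theorem quenched (hT5 : T5) (hEn : En12) {ρ : ℝ} (hρ : 0 < ρ) {D : Dom} {δ : ℝ} (hOK : D.Ad δ)
    {m : ℝ} (hm : 0 < m) (k0 : ℤ) (hk1 : (2 : ℝ) ^ (k0 + 1) ≤ 1) (hkρ : (2 : ℝ) ^ k0 < ρ)
    {n : ℕ} (hn : 0 < n) :
    ∃ c2 > 0, ∀ (ε d M : ℝ) (ω : Sample), Env ε d M D.c D.L ω → 0 < d → d ≤ c2 →
      (∀ z ∈ Metric.closedBall (0 : ℂ) (‖D.c‖ + D.L + 1), ∀ ρ : ℝ,
        (2 : ℝ) ^ (k0 - n) ≤ ρ → ρ ≤ 1 →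
        diamSum (points ε ω) (Metric.ball z ρ) ≤ ENNReal.ofReal (CM * ρ ^ 2)) →
      ∀ z w : ℂ, Spinex422.Room D ρ z → Linked D m z →
      ‖w - z‖ < (2 : ℝ) ^ (k0 - n) / 2 →
      (∀ a ∈ points ε ω, ∀ b ∈ points ε ω, a ≠ b → cr (b - a) (z - a) ≠ 0) →
      (∀ a ∈ points ε ω, ∀ b ∈ points ε ω, a ≠ b → cr (b - a) (w - a) ≠ 0) →
      ‖D.h ε ω z - D.h ε ω w‖ ≤ om2 (64 * CM) n := by
  obtain ⟨c1, hc1, hE⟩ := hEn D δ hOK ρ hρ m hm
  have hL := hOK.Lpos
  have hδ := hOK.dpos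
  have hb : 0 < (2 : ℝ) ^ (k0 - n) := by positivity
  refine ⟨min (min c1 ((ρ - (2 : ℝ) ^ k0) / 3)) (min (D.L / 4)
    (min ((2 : ℝ) ^ (k0 - n) / 8) (δ ^ 6 / (40000 * D.L ^ 5)))), ?_, ?_⟩
  · have : 0 < ρ - (2 : ℝ) ^ k0 := by linarith
    have h1 : 0 < δ ^ 6 / (40000 * D.L ^ 5) := by positivity
    refine lt_min (lt_min hc1 (by positivity)) (lt_min (by positivity) (lt_min (by positivity) h1))
  · intro ε d M ω h hd hdc hM z w hRoom hLk hzw hz hw
    have d1' : d ≤ c1 := hdc.trans ((min_le_left _ _).trans (min_le_left _ _))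
    have d2 : d ≤ (ρ - (2 : ℝ) ^ k0) / 3 := hdc.trans ((min_le_left _ _).trans (min_le_right _ _))
    have d3 : d ≤ D.L / 4 := hdc.trans ((min_le_right _ _).trans (min_le_left _ _))
    have d4 : d ≤ (2 : ℝ) ^ (k0 - n) / 8 :=
      hdc.trans ((min_le_right _ _).trans ((min_le_right _ _).trans (min_le_left _ _)))
    have d5 : d ≤ δ ^ 6 / (40000 * D.L ^ 5) :=
      hdc.trans ((min_le_right _ _).trans ((min_le_right _ _).trans (min_le_right _ _)))
    have d6 : 40000 * D.L ^ 5 * d ≤ δ ^ 6 := by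
      rw [le_div_iff₀ (by positivity)] at d5
      linarith
    have hN : HNet (D.sites ε ω) (D.netS (D.sites ε ω)) := Adx422.d1 hOK.w h d6
    have hzR : ‖z‖ ≤ ‖D.c‖ + D.L + 1 := by
      have h1 : z ∈ Metric.closedBall D.c (D.L / 2) :=
        hRoom.2 (Metric.mem_closedBall_self hρ.le)
      rw [mem_closedBall_iff_norm] at h1
      have := norm_add_le (z - D.c) D.c
      rw [sub_add_cancel] at this
      linarith
    have hR := room_of_env hT5 hd h hN (hE ε d M ω h hd d1' z hRoom hLk) hRoom.1 hRoom.2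
      (k0 := k0) (n := n) hn (by linarith) (by linarith) (by linarith) CM_nonneg
      (by
        intro k hk
        rw [Finset.mem_Ico] at hk
        apply hM z (by rw [mem_closedBall_zero_iff]; exact hzR)
        · exact zpow_le_zpow_right₀ (by norm_num) (by omega)
        · exact (zpow_le_zpow_right₀ (by norm_num) (by omega)).trans hk1)
    have hsites : ∀ s ∈ D.sites ε ω, s ∈ points ε ω := fun s hs => ((mem_sites h.fin).1 hs).1
    have hin : ∀ y : ℂ, ‖y - z‖ ≤ (2 : ℝ) ^ k0 →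
        (∀ a ∈ points ε ω, ∀ b ∈ points ε ω, a ≠ b → cr (b - a) (y - a) ≠ 0) →
        ∃ t ∈ delT (D.sites ε ω), InTri y t.1 t.2.1 t.2.2 := by
      intro y hy hl
      obtain ⟨t, ht, hyt⟩ := hR.cov y (by rw [mem_closedBall_iff_norm]; exact hy)
      exact inTri_of ht hyt fun a ha b hb => hl a (hsites a ha) b (hsites b hb)
    have hle : (2 : ℝ) ^ (k0 - n) ≤ (2 : ℝ) ^ k0 := zpow_le_zpow_right₀ (by norm_num) (by omega)
    refine osc_int hN hR ?_ ?_ (hin z (by simp; positivity) hz)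
      (hin w (by linarith) hw)
    · rw [sub_self, norm_zero]
      linarith
    · linarith

/-- **leaf LEqui of the spine** -/
theorem lequi (hT5 : T5) (hEn : En12) (hM3a : M3a) (hM3c : M3c) (hM3e : M3e)
    {Adm : Dom → ℝ → Prop} (hAdm : ∀ D δ, Adm D δ → D.Ad δ) : LEqui Adm := by
  intro ρ hρ η hη
  -- number of scales
  obtain ⟨n, hn⟩ := exists_nat_gt
    (3 * (64 * CM * (Real.sqrt (64 * CM) + 2) * 12) * (2 / η) ^ 2)
  have hn0 : (0 : ℝ) < n := lt_of_le_of_lt (by have := CM_nonneg; positivity) hn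
  have hn1 : 0 < n := by exact_mod_cast hn0
  have hom : om2 (64 * CM) n ≤ η / 2 := by
    unfold om2
    rw [← Real.sqrt_mul (by norm_num)]
    rw [Real.sqrt_le_left (by positivity)]
    rw [mul_div_assoc', div_le_iff₀ hn0]
    have h1 : (2 / η) ^ 2 * (η / 2) ^ 2 = 1 := by
      rw [← mul_pow]
      have : 2 / η * (η / 2) = 1 := by field_simp
      rw [this, one_pow]
    have h2 : 0 < (η / 2) ^ 2 := by positivity
    have h3 := mul_lt_mul_of_pos_right hn h2
    rw [mul_assoc, h1, mul_one] at h3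
    linarith
  obtain ⟨k0, hk0⟩ := exists_zpow_le (r := min (ρ / 2) (1 / 2)) (by positivity)
  have hkρ : (2 : ℝ) ^ k0 < ρ := lt_of_le_of_lt (hk0.trans (min_le_left _ _)) (by linarith)
  have hk1 : (2 : ℝ) ^ (k0 + 1) ≤ 1 := by
    rw [zpow_add₀ (by norm_num), zpow_one]
    have := hk0.trans (min_le_right _ _)
    linarith
  have hbpos : 0 < (2 : ℝ) ^ (k0 - n) := by positivity
  refine ⟨(2 : ℝ) ^ (k0 - n) / 2, by positivity, ?_⟩
  intro D δ hOK' G hG m hm
  have hOK := hAdm D δ hOK'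
  obtain ⟨c2, hc2, hq⟩ := quenched hT5 hEn hρ hOK hm k0 hk1 hkρ hn1
  set R := ‖D.c‖ + D.L + 1 with hRdef
  obtain ⟨C0, hC0, hhole⟩ := hM3c R 1
  have hrad := rad_lim C0
  have e1 : ∀ᶠ ε : ℝ in 𝓝[>] 0, 0 < ε := eventually_mem_nhdsWithin
  have e2 : ∀ᶠ ε : ℝ in 𝓝[>] 0, ε < min (1 / 2) (η / 24) :=
    nhdsWithin_le_nhds (eventually_lt_nhds (by positivity))
  have e3 : ∀ᶠ ε : ℝ in 𝓝[>] 0, rad C0 ε < c2 := hrad.eventually_lt_const hc2
  have e4 : ∀ᶠ ε : ℝ in 𝓝[>] 0, ε * Real.log (1 / ε) ^ (8 : ℕ) < (2 : ℝ) ^ (k0 - n) :=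
    scale_lim.eventually_lt_const hbpos
  filter_upwards [e1, e2, e3, e4, hhole, m4u R 1, hG.hm1] with ε h1 h2 h3 h4 h5 h6 h7 z w hRz hRw
    hLz hLw hzw
  have hε1 : ε < 1 / 2 := h2.trans_le (min_le_left _ _)
  have hε2 : ε < η / 24 := h2.trans_le (min_le_right _ _)
  have hdpos : 0 < rad C0 ε := by
    unfold rad
    have : 0 < Real.log (1 / ε) := Real.log_pos (by
      rw [lt_div_iff₀ h1]; linarith)
    positivity
  -- the bad event
  set B1 : Set Sample := {ω | ∃ z ∈ Metric.closedBall (0 : ℂ) R,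
    points ε ω ∩ Metric.ball z (rad C0 ε) = ∅} with hB1
  set B2 : Set Sample := {ω | ¬ ∀ z ∈ Metric.closedBall (0 : ℂ) R, ∀ ρ : ℝ,
      ε * Real.log (1 / ε) ^ (8 : ℕ) ≤ ρ → ρ ≤ 1 →
      diamSum (points ε ω) (Metric.ball z ρ) ≤ ENNReal.ofReal (CM * ρ ^ 2)} with hB2
  set B := toMeasurable sampleLaw (B1 ∪ B2) with hB
  have hBm : MeasurableSet B := measurableSet_toMeasurable _ _
  have hBs : B1 ∪ B2 ⊆ B := subset_toMeasurable _ _
  have hBp : sampleLaw B ≤ ENNReal.ofReal (2 * ε) := by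
    rw [hB, measure_toMeasurable]
    refine (measure_union_le _ _).trans ?_
    rw [Real.rpow_one] at h5 h6
    refine (add_le_add h5 h6).trans (le_of_eq ?_)
    rw [← ENNReal.ofReal_add h1.le h1.le]
    congr 1
    ring
  -- pointwise
  have hpt : ∀ᵐ ω ∂(sampleLaw.restrict (G ε)),
      ‖D.h ε ω z - D.h ε ω w‖ ≤ η / 2 + B.indicator (fun _ => (6 : ℝ)) ω := by
    apply ae_restrict_of_ae
    filter_upwards [hM3a ε h1, hM3e ε h1 z, hM3e ε h1 w] with ω g1 g2 g3
    by_cases hω : ω ∈ B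
    · rw [Set.indicator_of_mem hω]
      have a1 := norm_h_le D ε ω z
      have a2 := norm_h_le D ε ω w
      have a3 := norm_sub_le (D.h ε ω z) (D.h ε ω w)
      linarith
    · rw [Set.indicator_of_notMem hω, add_zero]
      have b1 : ω ∉ B1 := fun h => hω (hBs (Or.inl h))
      have b2 : ω ∉ B2 := fun h => hω (hBs (Or.inr h))
      have hholes : ∀ z ∈ Metric.closedBall (0 : ℂ) R,
          (points ε ω ∩ Metric.ball z (rad C0 ε)).Nonempty := by
        intro z hz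
        by_contra hcon
        rw [Set.not_nonempty_iff_eq_empty] at hcon
        exact b1 ⟨z, hz, hcon⟩
      obtain ⟨M, hEnv⟩ := env_of (D := D) (R := R) (by linarith) hdpos g1.1 g1.2.2 hholes
      rw [hB2, Set.mem_ofPred_eq, not_not] at b2
      refine (hq ε (rad C0 ε) M ω hEnv hdpos h3.le ?_ z w hRz hLz ?_ g2 g3).trans hom
      · intro y hy r hr hr1
        exact b2 y hy r (h4.le.trans hr) hr1
      · rw [← dist_eq_norm, dist_comm]; exact hzw
  -- integrals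
  have hfin : IsFiniteMeasure (sampleLaw.restrict (G ε)) := by infer_instance
  have i1 : Integrable (fun ω => D.h ε ω z) (sampleLaw.restrict (G ε)) :=
    Integrable.of_bound (h7 z) 3 (ae_of_all _ fun ω => norm_h_le D ε ω z)
  have i2 : Integrable (fun ω => D.h ε ω w) (sampleLaw.restrict (G ε)) :=
    Integrable.of_bound (h7 w) 3 (ae_of_all _ fun ω => norm_h_le D ε ω w)
  have i3 : Integrable (fun ω => η / 2 + B.indicator (fun _ => (6 : ℝ)) ω)
      (sampleLaw.restrict (G ε)) :=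
    (integrable_const _).add ((integrable_const _).indicator hBm)
  unfold HG
  rw [dist_eq_norm, ← integral_sub i1 i2]
  refine (norm_integral_le_of_norm_le i3 hpt).trans ?_
  rw [integral_add (integrable_const _) ((integrable_const _).indicator hBm), integral_const,
    integral_indicator hBm, integral_const, smul_eq_mul, smul_eq_mul]
  have p1 : (sampleLaw.restrict (G ε)).real univ ≤ 1 := by
    rw [measureReal_def, Measure.restrict_apply_univ]
    exact ENNReal.toReal_le_of_le_ofReal zero_le_one (by simpa using prob_le_one)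
  have p2 : ((sampleLaw.restrict (G ε)).restrict B).real univ ≤ 2 * ε := by
    rw [measureReal_def, Measure.restrict_apply_univ]
    apply ENNReal.toReal_le_of_le_ofReal (by linarith)
    exact (Measure.restrict_apply_le _ _).trans hBp
  nlinarith

end Crest.Agent.R143.EQ5x63
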