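import Crest.Agent.R143.EQ4_63
import Crest.Agent.R143.EQ5_63
import Crest.Agent.R143.Fam_930
import Crest.Agent.R143.PoisM3c_501
import Crest.Agent.R143.PoisM3_930
import Crest.Agent.R143.DelR_806
import Crest.Agent.R143.DomA_722

/-!
# Row 143 (S0194), leaf HULLM (helper93): the mesh bound M4 up to the hull circle

* `card_delT_le` : at most `6 |S|` (ordered) Delaunay triangles: every triangle has a unique middle
  vertex in a generic direction, every site is the middle vertex of at most two triangles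
* `side_le` : all the sides of the Delaunay triangles of the sites in the disc are short, as soon as
  there is no hole of radius `d` and every cap of the disc with half chord `w` contains a site
* `near_energy` : energy of the triangles which do not meet the disc of radius `L - 2 d`
* `inner_energy` : energy of the other triangles which meet a ball, from M4
* `mesh_hull` : the deterministic statement
-/

set_option autoImplicit false

noncomputable section

namespace Crest.Agent.R143.HullMx93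

open Set MeasureTheory Filter Topology
open scoped Classical ENNReal ComplexConjugate
open Crest.ProbabilityR.Voronoi
open Crest.Agent.R143.B0x346 Crest.Agent.R143.B0Dx346 Crest.Agent.R143.Scalx63
open Crest.Agent.R143.DelGx806 Crest.Agent.R143.Circx63
open Crest.Agent.R143.Locx922
open Crest.Agent.R143.PP1x831 Crest.Agent.R143.PoisM4x501
open Crest.Agent.R143.EQ5x63

/-! ### the number of triangles -/

/-- a generic direction -/
theorem exists_dir (S : Finset ℂ) : ∃ u : ℂ, ∀ a ∈ S, ∀ b ∈ S, a ≠ b → cr u (b - a) ≠ 0 := by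
  obtain ⟨k, hk⟩ := Infinite.exists_notMem_finset
    ((S ×ˢ S).image fun p : ℂ × ℂ => (p.2 - p.1).im / (p.2 - p.1).re)
  refine ⟨⟨1, k⟩, fun a ha b hb hab h => ?_⟩
  unfold cr at h
  simp only [one_mul] at h
  by_cases h0 : (b - a).re = 0
  · rw [h0] at h
    apply hab
    have h1 : (b - a).im = 0 := by linarith
    exact (sub_eq_zero.1 (Complex.ext h0 h1)).symm
  · apply hk
    rw [Finset.mem_image]
    refine ⟨(a, b), by simp [ha, hb], ?_⟩
    simp only
    rw [div_eq_iff h0]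
    linarith

/-- the first vertex is the middle one -/
def Mid (u : ℂ) (t : ℂ × ℂ × ℂ) : Prop :=
  (0 < cr u (t.2.2 - t.1) ∧ cr u (t.2.1 - t.1) < 0) ∨
    (cr u (t.2.2 - t.1) < 0 ∧ 0 < cr u (t.2.1 - t.1))

/-- one of the rotations of a triple of distinct numbers has the middle one first -/
theorem mid3 {x y z : ℝ} (h1 : x ≠ y) (h2 : y ≠ z) (h3 : z ≠ x) :
    ((x < z ∧ y < x) ∨ (z < x ∧ x < y)) ∨ ((y < x ∧ z < y) ∨ (x < y ∧ y < z)) ∨
      ((z < y ∧ x < z) ∨ (y < z ∧ z < x)) := by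
  rcases lt_or_gt_of_ne h1 with a | a <;> rcases lt_or_gt_of_ne h2 with b | b <;>
    rcases lt_or_gt_of_ne h3 with c | c <;> tauto

theorem cr_sub_right (u a b : ℂ) : cr u (b - a) = cr u b - cr u a := by
  unfold cr; simp; ring

/-- **at most `6 |S|` ordered Delaunay triangles** -/
theorem card_delT_le {S : Finset ℂ} (hS : GP (S : Set ℂ)) : (delT S).card ≤ 6 * S.card := by
  obtain ⟨u, hu⟩ := exists_dir S
  set M := (delT S).filter (Mid u) with hM
  set r : ℂ × ℂ × ℂ → ℂ × ℂ × ℂ := fun t => (t.2.1, t.2.2, t.1) with hr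
  have hu' : ∀ a ∈ S, ∀ b ∈ S, a ≠ b → cr u a ≠ cr u b := by
    intro a ha b hb hab h
    apply hu a ha b hb hab
    rw [cr_sub_right, h, sub_self]
  -- the two triangles with the middle vertex `a`
  have c1 : M.card ≤ (S ×ˢ (Finset.univ : Finset Bool)).card := by
    refine Finset.card_le_card_of_injOn (fun t => (t.1, decide (0 < cr u (t.2.2 - t.1)))) ?_ ?_
    · rintro ⟨a, b, c⟩ ht
      have ht' := (Finset.mem_filter.1 (Finset.mem_coe.1 ht)).1
      have := (mem_delT.1 ht').1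
      simp only [Finset.coe_product, Finset.coe_univ, Set.mem_prod, Set.mem_univ, and_true]
      exact this
    · rintro ⟨a, b, c⟩ ht ⟨a', b', c'⟩ ht' heq
      obtain ⟨m1, n1⟩ := Finset.mem_filter.1 (Finset.mem_coe.1 ht)
      obtain ⟨m2, n2⟩ := Finset.mem_filter.1 (Finset.mem_coe.1 ht')
      simp only [Prod.mk.injEq] at heq
      obtain ⟨rfl, hb⟩ := heq
      unfold Mid at n1 n2
      simp only at n1 n2
      rcases n1 with ⟨p1, q1⟩ | ⟨p1, q1⟩
      · have p2 : 0 < cr u (c' - a) := by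
          rw [decide_eq_true p1] at hb
          exact of_decide_eq_true hb.symm
        have q2 : cr u (b' - a) < 0 := by
          rcases n2 with ⟨_, h⟩ | ⟨h, _⟩
          · exact h
          · linarith
        have e1 : cr (b - a) u = - cr u (b - a) := by unfold cr; ring
        have e2 : cr (b' - a) u = - cr u (b' - a) := by unfold cr; ring
        have := DelRx806.sector_unique hS m1 m2 (e := u) (by rw [e1]; linarith) p1
          (by rw [e2]; linarith) p2.le
        rw [this.1, this.2]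
      · have p2 : cr u (c' - a) < 0 := by
          have hn : ¬ 0 < cr u (c - a) := not_lt.2 p1.le
          rw [decide_eq_false hn] at hb
          have h3 : ¬ 0 < cr u (c' - a) := of_decide_eq_false hb.symm
          rcases n2 with ⟨h, _⟩ | ⟨h, _⟩
          · exact absurd h h3
          · exact h
        have q2 : 0 < cr u (b' - a) := by
          rcases n2 with ⟨h, _⟩ | ⟨_, h⟩
          · linarith
          · exact h
        have e1 : ∀ x, cr x (-u) = cr u x := by intro x; unfold cr; simp; ring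
        have e2 : ∀ x, cr (-u) x = - cr u x := by intro x; unfold cr; simp; ring
        have := DelRx806.sector_unique hS m1 m2 (e := -u) (by rw [e1]; exact q1)
          (by rw [e2]; linarith) (by rw [e1]; exact q2.le) (by rw [e2]; linarith)
        rw [this.1, this.2]
  have c2 : delT S ⊆ M ∪ (M.image r ∪ M.image (fun t => r (r t))) := by
    rintro ⟨a, b, c⟩ ht
    have hD := mem_delT.1 ht
    obtain ⟨ma, mb, mc, hp, -⟩ := hD
    obtain ⟨n1, n2, n3⟩ := ne_of_cr_pos hp.ne'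
    have g := (g1 S hS).1
    have t2 := g _ _ _ ht
    have t3 := g _ _ _ t2
    simp only [Finset.mem_union, Finset.mem_image]
    rcases mid3 (hu' a ma b mb n1) (hu' b mb c mc n2) (hu' c mc a ma n3.symm) with h | h | h
    · left
      rw [hM, Finset.mem_filter]
      refine ⟨ht, ?_⟩
      unfold Mid
      simp only [cr_sub_right]
      rcases h with h | h
      · left; constructor <;> linarith
      · right; constructor <;> linarith
    · right; right
      refine ⟨(b, c, a), ?_, rfl⟩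
      rw [hM, Finset.mem_filter]
      refine ⟨t2, ?_⟩
      unfold Mid
      simp only [cr_sub_right]
      rcases h with h | h
      · left; constructor <;> linarith
      · right; constructor <;> linarith
    · right; left
      refine ⟨(c, a, b), ?_, rfl⟩
      rw [hM, Finset.mem_filter]
      refine ⟨t3, ?_⟩
      unfold Mid
      simp only [cr_sub_right]
      rcases h with h | h
      · left; constructor <;> linarith
      · right; constructor <;> linarith
  have c3 := Finset.card_le_card c2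
  have c4 := Finset.card_union_le M (M.image r ∪ M.image (fun t => r (r t)))
  have c5 := Finset.card_union_le (M.image r) (M.image (fun t => r (r t)))
  have c6 : (M.image r).card ≤ M.card := Finset.card_image_le
  have c7 : (M.image (fun t => r (r t))).card ≤ M.card := Finset.card_image_le
  rw [Finset.card_product, Finset.card_univ, Fintype.card_bool] at c1
  omega

/-! ### the length of the sides -/

/-- the lens between two circles, coordinates along and across the line of the centres -/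
theorem lens {L w h H x ρ τ y : ℝ} (hw : 0 ≤ w) (hh : 0 < h) (hH : 0 ≤ H) (hxH : H < x) (hxh : x ≤ h)
    (hHw : L ^ 2 - w ^ 2 ≤ H ^ 2) (hx : 2 * h * x = L ^ 2 + h ^ 2 - ρ ^ 2)
    (h1 : τ ^ 2 + y ^ 2 ≤ L ^ 2) (h2 : (τ - h) ^ 2 + y ^ 2 = ρ ^ 2) :
    τ ≤ x ∧ x - w ≤ τ ∧ |y| ≤ w := by
  have b1 : 2 * h * τ ≤ 2 * h * x := by rw [hx]; nlinarith
  have b2 : τ ≤ x := le_of_mul_le_mul_left b1 (by positivity)
  have b3 : (h - x) ^ 2 ≤ (h - τ) ^ 2 := by
    apply pow_le_pow_left₀ (by linarith)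
    linarith
  have b4 : ρ ^ 2 - (h - x) ^ 2 = L ^ 2 - x ^ 2 := by linear_combination hx
  have b5 : H ^ 2 ≤ x ^ 2 := by gcongr
  have b6 : (τ - h) ^ 2 = (h - τ) ^ 2 := by ring
  have b7 : 0 ≤ w * (h - x) := mul_nonneg hw (sub_nonneg.2 hxh)
  have b8 := sq_nonneg y
  refine ⟨b2, ?_, ?_⟩
  · by_contra hcon
    push Not at hcon
    have b9 : (w + (h - x)) ^ 2 < (h - τ) ^ 2 := by
      apply pow_lt_pow_left₀ (by linarith) (by linarith) (by norm_num)
    have b10 : (w + (h - x)) ^ 2 = w ^ 2 + 2 * (w * (h - x)) + (h - x) ^ 2 := by ring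
    linarith
  · apply abs_le_of_sq_le_sq _ hw
    linarith

/-- all the sides are short -/
theorem side_le {S : Finset ℂ} {c : ℂ} {L d w : ℝ} (hd : 0 < d) (hdL : d ≤ L) (hw : 0 ≤ w)
    (hsub : ∀ s ∈ S, ‖s - c‖ ≤ L) (hhole : ∀ z, ‖z - c‖ ≤ L - d → ∃ s ∈ S, ‖s - z‖ < d)
    (hcap : ∀ e : ℂ, ‖e‖ = 1 → ∃ s ∈ S, √(L ^ 2 - w ^ 2) < ((s - c) * conj e).re)
    {t : ℂ × ℂ × ℂ} (ht : t ∈ delT S) : dm t ≤ max (4 * d) (3 * w) := by
  obtain ⟨a, b, c'⟩ := t
  obtain ⟨ma, mb, mc, hp, o, h1, h2, h3⟩ := mem_delT.1 ht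
  have hL : 0 < L := hd.trans_le hdL
  rcases le_or_gt ‖o - c‖ L with hoL | hoL
  · -- the centre is in the disc
    obtain ⟨s, hs, hsz⟩ := hhole (c + ((1 - d / L : ℝ) : ℂ) * (o - c)) (by
      rw [add_sub_cancel_left, norm_mul, Complex.norm_of_nonneg (by
        rw [sub_nonneg, div_le_one hL]; exact hdL)]
      have e1 : L - d = (1 - d / L) * L := by field_simp
      rw [e1]
      apply mul_le_mul_of_nonneg_left hoL
      rw [sub_nonneg, div_le_one hL]; exact hdL)
    have h4 : ‖(c + ((1 - d / L : ℝ) : ℂ) * (o - c)) - o‖ ≤ d := by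
      have e1 : (c + ((1 - d / L : ℝ) : ℂ) * (o - c)) - o = -(((d / L : ℝ) : ℂ) * (o - c)) := by
        push_cast; ring
      rw [e1, norm_neg, norm_mul, Complex.norm_of_nonneg (by positivity)]
      calc d / L * ‖o - c‖ ≤ d / L * L := by gcongr
        _ = d := by field_simp
    have h5 := norm_tri s (c + ((1 - d / L : ℝ) : ℂ) * (o - c)) o
    have h6 := h3 s hs
    have h7 : ‖a - o‖ ≤ 2 * d := by linarith
    refine (EQ4x63.dm_le h7 (h1.le.trans h7) (h2.le.trans h7)).trans ?_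
    refine le_trans (by linarith) (le_max_left _ _)
  · -- the centre is outside
    refine le_trans ?_ (le_max_right _ _)
    set h := ‖o - c‖ with hh
    have hh0 : 0 < h := hL.trans hoL
    set e : ℂ := (o - c) / h with he
    have hhC : (h : ℂ) ≠ 0 := by exact_mod_cast hh0.ne'
    have he1 : ‖e‖ = 1 := by
      rw [he, norm_div, Complex.norm_of_nonneg hh0.le, ← hh, div_self hh0.ne']
    have hee : e * conj e = 1 := by
      rw [Complex.mul_conj, Complex.normSq_eq_norm_sq, he1]; norm_num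
    have hoe : (o - c) * conj e = h := by
      have : o - c = h * e := by rw [he]; field_simp
      rw [this, mul_assoc, hee, mul_one]
    obtain ⟨ρ, hρ⟩ : ∃ ρ : ℝ, ρ = ‖a - o‖ := ⟨_, rfl⟩
    rw [← hρ] at h1 h2
    simp only [← hρ] at h3
    -- coordinates
    have nc : ∀ x y : ℂ, ‖(x - c) * conj e - (y - c) * conj e‖ = ‖x - y‖ := by
      intro x y
      rw [← sub_mul, norm_mul, RCLike.norm_conj, he1, mul_one]
      congr 1; ring
    have n0 : ∀ x : ℂ, ‖(x - c) * conj e‖ = ‖x - c‖ := by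
      intro x
      rw [norm_mul, RCLike.norm_conj, he1, mul_one]
    have sq : ∀ x : ℂ, ‖x‖ ^ 2 = x.re ^ 2 + x.im ^ 2 := by
      intro x
      rw [← Complex.normSq_eq_norm_sq, Complex.normSq_apply]; ring
    have q1 : ∀ x : ℂ, ((x - c) * conj e).re ^ 2 + ((x - c) * conj e).im ^ 2 = ‖x - c‖ ^ 2 := by
      intro x
      rw [← sq, n0]
    have q2 : ∀ x : ℂ, (((x - c) * conj e).re - h) ^ 2 + ((x - c) * conj e).im ^ 2 =
        ‖x - o‖ ^ 2 := by
      intro x
      rw [← nc x o, hoe, sq, Complex.sub_re, Complex.sub_im, Complex.ofReal_re, Complex.ofReal_im,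
        sub_zero]
    -- the chord
    obtain ⟨s, hs, hsc⟩ := hcap e he1
    set H := √(L ^ 2 - w ^ 2) with hH
    have hH0 : 0 ≤ H := Real.sqrt_nonneg _
    have hHw : L ^ 2 - w ^ 2 ≤ H ^ 2 := by
      rcases le_total 0 (L ^ 2 - w ^ 2) with hc | hc
      · rw [hH, Real.sq_sqrt hc]
      · exact hc.trans (sq_nonneg _)
    have hρ0 : 0 ≤ ρ := by rw [hρ]; exact norm_nonneg _
    have hx : 2 * h * H < L ^ 2 + h ^ 2 - ρ ^ 2 := by
      have a1 := q1 s
      have a2 := q2 s
      have a3 := h3 s hs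
      have a4 := hsub s hs
      have a5 : ‖s - c‖ ^ 2 ≤ L ^ 2 := by gcongr
      have a6 : ρ ^ 2 ≤ ‖s - o‖ ^ 2 := by gcongr
      have a7 : h * H < h * ((s - c) * conj e).re := mul_lt_mul_of_pos_left hsc hh0
      nlinarith
    obtain ⟨x, hx1⟩ : ∃ x : ℝ, 2 * h * x = L ^ 2 + h ^ 2 - ρ ^ 2 :=
      ⟨(L ^ 2 + h ^ 2 - ρ ^ 2) / (2 * h), by field_simp⟩
    have hxH : H < x := by
      have : 2 * h * H < 2 * h * x := by rw [hx1]; exact hx
      exact lt_of_mul_lt_mul_left this (by positivity)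
    have hxh : x ≤ h := by
      have : 2 * h * x ≤ 2 * h * h := by
        rw [hx1]
        have : L ^ 2 ≤ h ^ 2 := by gcongr
        have := sq_nonneg ρ
        linarith
      exact le_of_mul_le_mul_left this (by positivity)
    -- the vertices
    have vert : ∀ v ∈ S, ‖v - o‖ = ρ → ((v - c) * conj e).re ≤ x ∧
        x - w ≤ ((v - c) * conj e).re ∧ |((v - c) * conj e).im| ≤ w := by
      intro v hv hvo
      have a1 := q1 v
      have a2 := q2 v
      rw [hvo] at a2
      have a4 := hsub v hv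
      have a5 : ‖v - c‖ ^ 2 ≤ L ^ 2 := by gcongr
      exact lens hw hh0 hH0 hxH hxh hHw hx1 (a1.le.trans a5) a2
    have dist2 : ∀ v ∈ S, ∀ v' ∈ S, ‖v - o‖ = ρ → ‖v' - o‖ = ρ → ‖v - v'‖ ≤ 3 * w := by
      intro v hv v' hv' hvo hvo'
      obtain ⟨a1, a2, a3⟩ := vert v hv hvo
      obtain ⟨b1, b2, b3⟩ := vert v' hv' hvo'
      rw [← nc v v']
      refine (Complex.norm_le_abs_re_add_abs_im _).trans ?_
      rw [Complex.sub_re, Complex.sub_im]
      have c1 : |((v - c) * conj e).re - ((v' - c) * conj e).re| ≤ w := by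
        rw [abs_le]; constructor <;> linarith
      have c2 : |((v - c) * conj e).im - ((v' - c) * conj e).im| ≤ 2 * w := by
        rw [abs_le] at *
        constructor <;> linarith [a3.1, a3.2, b3.1, b3.2]
      linarith
    unfold dm
    simp only
    exact max_le (max_le (dist2 a ma b mb hρ.symm h1) (dist2 b mb c' mc h1 h2))
      (dist2 c' mc a ma h2 hρ.symm)

/-! ### the triangles near the circle -/

/-- energy of the triangles which do not meet the disc of radius `L'` -/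
theorem near_energy {S : Finset ℂ} (hS : GP (S : Set ℂ)) {c : ℂ} {L' m : ℝ}
    (hm : ∀ t ∈ delT S, dm t ≤ m) :
    ∑ t ∈ (delT S).filter (fun t => ¬ (cT t ∩ Metric.closedBall c L').Nonempty), dm t ^ 2 ≤
      6 * ((S.filter fun s => L' < ‖s - c‖).card : ℝ) * m ^ 2 := by
  set A := S.filter fun s => L' < ‖s - c‖ with hA
  have hAS : (A : Set ℂ) ⊆ S := by
    intro s hs
    exact (Finset.mem_filter.1 (Finset.mem_coe.1 hs)).1
  have hAG : GP (A : Set ℂ) := DomAx722.gp_mono hAS hS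
  have hsub : (delT S).filter (fun t => ¬ (cT t ∩ Metric.closedBall c L').Nonempty) ⊆ delT A := by
    rintro ⟨a, b, c'⟩ ht
    obtain ⟨ht, hn⟩ := Finset.mem_filter.1 ht
    obtain ⟨ma, mb, mc, hp, o, h1, h2, h3⟩ := mem_delT.1 ht
    obtain ⟨va, vb, vc⟩ := vertex_mem hp
    have key : ∀ v, v ∈ cT (a, b, c') → L' < ‖v - c‖ := by
      intro v hv
      by_contra hcon
      push Not at hcon
      exact hn ⟨v, hv, by rw [mem_closedBall_iff_norm]; exact hcon⟩
    rw [mem_delT]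
    refine ⟨?_, ?_, ?_, hp, o, h1, h2, fun s hs => h3 s (hAS hs)⟩
    · rw [hA, Finset.mem_coe, Finset.mem_filter]; exact ⟨ma, key a va⟩
    · rw [hA, Finset.mem_coe, Finset.mem_filter]; exact ⟨mb, key b vb⟩
    · rw [hA, Finset.mem_coe, Finset.mem_filter]; exact ⟨mc, key c' vc⟩
  have h1 : ∀ t ∈ (delT S).filter (fun t => ¬ (cT t ∩ Metric.closedBall c L').Nonempty),
      dm t ^ 2 ≤ m ^ 2 := by
    intro t ht
    have h0 : 0 ≤ dm t := le_max_of_le_right (norm_nonneg _)
    exact pow_le_pow_left₀ h0 (hm t (Finset.mem_filter.1 ht).1) 2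
  refine (Finset.sum_le_card_nsmul _ _ _ h1).trans ?_
  rw [nsmul_eq_mul]
  apply mul_le_mul_of_nonneg_right _ (sq_nonneg m)
  have h2 := (Finset.card_le_card hsub).trans (card_delT_le hAG)
  exact_mod_cast h2

/-! ### the triangles which meet the smaller disc -/

variable {D : Dom} {ε d M : ℝ} {ω : Sample}

/-- energy of the triangles which meet the disc of radius `L - 2 d` and the ball `B(x, b)` -/
theorem inner_energy (hd : 0 < d) (h : Env ε d M D.c D.L ω) {x : ℂ} {b C m : ℝ}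
    (hC : 0 ≤ C) (hm : ∀ t ∈ delT (D.sites ε ω), dm t ≤ m) (hmb : m < b)
    (hM : diamSum (points ε ω) (Metric.ball x (2 * b)) ≤ ENNReal.ofReal (C * (2 * b) ^ 2)) :
    ∑ t ∈ (delT (D.sites ε ω)).filter (fun t => (cT t ∩ Metric.closedBall x b).Nonempty ∧
      (cT t ∩ Metric.closedBall D.c (D.L - 2 * d)).Nonempty), dm t ^ 2 ≤ 16 * C * b ^ 2 := by
  set F := (delT (D.sites ε ω)).filter (fun t => (cT t ∩ Metric.closedBall x b).Nonempty ∧
      (cT t ∩ Metric.closedBall D.c (D.L - 2 * d)).Nonempty) with hF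
  set P : Set (ℂ × ℂ × ℂ) := {t : ℂ × ℂ × ℂ | Del (points ε ω) t.1 t.2.1 t.2.2 ∧
    ((voronoiCell (points ε ω) t.1 ∪ voronoiCell (points ε ω) t.2.1 ∪
      voronoiCell (points ε ω) t.2.2) ∩ Metric.ball x (2 * b)).Nonempty} with hP
  -- every triangle of `F`
  have key : ∀ t ∈ F, t ∈ P ∧
      ENNReal.ofReal (dm t ^ 2) ≤ 4 * (Metric.ediam (voronoiCell (points ε ω) t.1)) ^ 2 := by
    rintro ⟨a, b', c⟩ ht
    rw [hF, Finset.mem_filter] at ht
    obtain ⟨htS, ⟨y, hy, hyb⟩, y', hy', hyW⟩ := ht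
    obtain ⟨o', hT⟩ := mem_delT_iff.1 htS
    have hyx : ‖y - x‖ ≤ b := by rw [mem_closedBall_iff_norm] at hyb; exact hyb
    have hyT : InT y' a b' c := hy'
    have hDel : Del (points ε ω) a b' c := (Env.mem_delT hd h hyW hyT).1 htS
    obtain ⟨-, -, -, -, o, h1, h2, h3⟩ := hDel
    have hDel : Del (points ε ω) a b' c := (Env.mem_delT hd h hyW hyT).1 htS
    have hay : ‖a - y‖ ≤ m :=
      (Famx930.dist_le_dm htS (vertex_mem hT.pos).1 hy).trans (hm _ htS)
    constructor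
    · refine ⟨hDel, a, Or.inl (Or.inl ?_), ?_⟩
      · intro s hs
        simp
      · rw [mem_ball_iff_norm]
        have := norm_tri a y x
        linarith
    · have hdm : dm (a, b', c) ≤ 2 * ‖a - o‖ := EQ4x63.dm_le le_rfl h1.le h2.le
      have hdm0 : 0 ≤ dm (a, b', c) := le_max_of_le_right (norm_nonneg _)
      have ha : a ∈ voronoiCell (points ε ω) a := fun s hs => by simp
      have ho : o ∈ voronoiCell (points ε ω) a := by
        intro s hs
        rw [norm_sub_rev o a, norm_sub_rev o s]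
        exact h3 s hs
      have h6 : ENNReal.ofReal ‖a - o‖ ≤ Metric.ediam (voronoiCell (points ε ω) a) := by
        have := Metric.edist_le_ediam_of_mem ha ho
        rwa [edist_dist, dist_eq_norm] at this
      calc ENNReal.ofReal (dm (a, b', c) ^ 2) ≤ ENNReal.ofReal (4 * ‖a - o‖ ^ 2) := by
            apply ENNReal.ofReal_le_ofReal
            nlinarith [norm_nonneg (a - o)]
        _ = 4 * (ENNReal.ofReal ‖a - o‖) ^ 2 := by
            rw [ENNReal.ofReal_mul (by norm_num), ENNReal.ofReal_pow (norm_nonneg _)]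
            norm_num
        _ ≤ 4 * (Metric.ediam (voronoiCell (points ε ω) a)) ^ 2 := by gcongr
  have hsum : ∑ t ∈ F, ENNReal.ofReal (dm t ^ 2) ≤
      4 * diamSum (points ε ω) (Metric.ball x (2 * b)) := by
    have e1 : diamSum (points ε ω) (Metric.ball x (2 * b)) =
        ∑' t : ℂ × ℂ × ℂ, P.indicator
          (fun t => (Metric.ediam (voronoiCell (points ε ω) t.1)) ^ 2) t := by
      rw [← tsum_subtype]
      rfl
    rw [e1]
    calc ∑ t ∈ F, ENNReal.ofReal (dm t ^ 2)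
        ≤ ∑ t ∈ F, 4 * P.indicator
          (fun t => (Metric.ediam (voronoiCell (points ε ω) t.1)) ^ 2) t := by
          apply Finset.sum_le_sum
          intro t ht
          rw [Set.indicator_of_mem (key t ht).1]
          exact (key t ht).2
      _ = 4 * ∑ t ∈ F, P.indicator
          (fun t => (Metric.ediam (voronoiCell (points ε ω) t.1)) ^ 2) t := by
          rw [Finset.mul_sum]
      _ ≤ _ := by
          gcongr
          exact ENNReal.sum_le_tsum _
  have h7 : ENNReal.ofReal (∑ t ∈ F, dm t ^ 2) ≤ ENNReal.ofReal (16 * C * b ^ 2) := by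
    rw [ENNReal.ofReal_sum_of_nonneg fun t _ => sq_nonneg _]
    refine hsum.trans ((mul_le_mul_right hM 4).trans (le_of_eq ?_))
    have e2 : (4 : ℝ≥0∞) = ENNReal.ofReal 4 := by norm_num
    rw [e2, ← ENNReal.ofReal_mul (by norm_num)]
    congr 1
    ring
  exact (ENNReal.ofReal_le_ofReal_iff (by positivity)).1 h7

/-- the centres of a covering of a disc of radius `1` by discs of radius `1 / 2` -/
def gp2 (z : ℂ) (p : ℤ × ℤ) : ℂ := z + ⟨(p.1 : ℝ) / 2, (p.2 : ℝ) / 2⟩

/-- the index set -/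
def I2 : Finset (ℤ × ℤ) := Finset.Icc (-2) 2 ×ˢ Finset.Icc (-2) 2

theorem round_half {x : ℝ} (h : |x| ≤ 1) :
    |x - (round (2 * x) : ℝ) / 2| ≤ 1 / 4 ∧ round (2 * x) ∈ Finset.Icc (-2 : ℤ) 2 := by
  have h1 := abs_sub_round (2 * x)
  rw [abs_le] at h h1
  refine ⟨?_, ?_⟩
  · rw [abs_le]; constructor <;> linarith [h1.1, h1.2]
  · rw [Finset.mem_Icc]
    have a1 : (-3 : ℝ) < (round (2 * x) : ℝ) := by linarith [h1.1, h1.2, h.1]
    have a2 : (round (2 * x) : ℝ) < 3 := by linarith [h1.1, h1.2, h.2]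
    have b1 : (-3 : ℤ) < round (2 * x) := by exact_mod_cast a1
    have b2 : round (2 * x) < (3 : ℤ) := by exact_mod_cast a2
    omega

theorem cover2 {z y : ℂ} {b : ℝ} (hb : b ≤ 1) (hy : y ∈ Metric.closedBall z b) :
    ∃ p ∈ I2, y ∈ Metric.closedBall (gp2 z p) (1 / 2) := by
  rw [mem_closedBall_iff_norm] at hy
  have h1 := (Complex.abs_re_le_norm (y - z)).trans (hy.trans hb)
  have h2 := (Complex.abs_im_le_norm (y - z)).trans (hy.trans hb)
  obtain ⟨a1, a2⟩ := round_half h1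
  obtain ⟨b1, b2⟩ := round_half h2
  refine ⟨(round (2 * (y - z).re), round (2 * (y - z).im)), ?_, ?_⟩
  · unfold I2
    rw [Finset.mem_product]
    exact ⟨a2, b2⟩
  · rw [mem_closedBall_iff_norm]
    refine (Complex.norm_le_abs_re_add_abs_im _).trans ?_
    unfold gp2
    have e1 : (y - (z + ⟨((round (2 * (y - z).re) : ℤ) : ℝ) / 2,
        ((round (2 * (y - z).im) : ℤ) : ℝ) / 2⟩)).re =
        (y - z).re - (round (2 * (y - z).re) : ℝ) / 2 := by
      simp only [Complex.sub_re, Complex.add_re]; ring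
    have e2 : (y - (z + ⟨((round (2 * (y - z).re) : ℤ) : ℝ) / 2,
        ((round (2 * (y - z).im) : ℤ) : ℝ) / 2⟩)).im =
        (y - z).im - (round (2 * (y - z).im) : ℝ) / 2 := by
      simp only [Complex.sub_im, Complex.add_im]; ring
    rw [e1, e2]
    linarith

theorem gp2_near {z : ℂ} {p : ℤ × ℤ} (hp : p ∈ I2) : ‖gp2 z p - z‖ ≤ 2 := by
  unfold I2 at hp
  rw [Finset.mem_product, Finset.mem_Icc, Finset.mem_Icc] at hp
  obtain ⟨⟨a1, a2⟩, b1, b2⟩ := hp
  unfold gp2
  rw [add_sub_cancel_left]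
  refine (Complex.norm_le_abs_re_add_abs_im _).trans ?_
  simp only
  have a1' : (-2 : ℝ) ≤ p.1 := by exact_mod_cast a1
  have a2' : (p.1 : ℝ) ≤ 2 := by exact_mod_cast a2
  have b1' : (-2 : ℝ) ≤ p.2 := by exact_mod_cast b1
  have b2' : (p.2 : ℝ) ≤ 2 := by exact_mod_cast b2
  have c1 : |(p.1 : ℝ) / 2| ≤ 1 := by rw [abs_le]; constructor <;> linarith
  have c2 : |(p.2 : ℝ) / 2| ≤ 1 := by rw [abs_le]; constructor <;> linarith
  linarith

/-- **the mesh bound up to the hull circle**, deterministic -/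
theorem mesh_hull {w C b0 : ℝ} (hd : 0 < d) (h : Env ε d M D.c D.L ω) (hdL : d ≤ D.L)
    (hw : 0 ≤ w) (hC : 0 ≤ C)
    (hcap : ∀ e : ℂ, ‖e‖ = 1 → ∃ s ∈ points ε ω, ‖s - D.c‖ ≤ D.L ∧
      √(D.L ^ 2 - w ^ 2) < ((s - D.c) * conj e).re)
    (hb0 : max (4 * d) (3 * w) < b0) (hb01 : b0 ≤ 1 / 2)
    (hM : ∀ z : ℂ, ‖z - D.c‖ ≤ D.L + 2 → ∀ r : ℝ, b0 ≤ r → r ≤ 1 →
      diamSum (points ε ω) (Metric.ball z r) ≤ ENNReal.ofReal (C * r ^ 2))
    (hann : 6 * ((points ε ω ∩ {s | D.L - 2 * d < ‖s - D.c‖ ∧ ‖s - D.c‖ ≤ D.L}).ncard : ℝ) *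
      max (4 * d) (3 * w) ^ 2 ≤ b0 ^ 2) :
    ∀ z ∈ Metric.closedBall D.c D.L, ∀ b : ℝ, b0 ≤ b → b ≤ 1 →
      ∑ t ∈ (delT (D.sites ε ω)).filter (fun t => (cT t ∩ Metric.closedBall z b).Nonempty),
        dm t ^ 2 ≤ (400 * C + 1) * b ^ 2 := by
  intro z hz b hbb hb1
  set S := D.sites ε ω with hS
  set m := max (4 * d) (3 * w) with hmdef
  have hm0 : 0 < m := lt_max_of_lt_left (by linarith)
  have hgp : GP (S : Set ℂ) := Env.gp_sites h
  have hsub : ∀ s ∈ S, ‖s - D.c‖ ≤ D.L := fun s hs => ((mem_sites h.fin).1 hs).2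
  have hhole : ∀ y, ‖y - D.c‖ ≤ D.L - d → ∃ s ∈ S, ‖s - y‖ < d := by
    intro y hy
    obtain ⟨s, hs, hsy⟩ := h.hole y (by rw [mem_closedBall_iff_norm]; exact hy)
    rw [mem_ball_iff_norm] at hsy
    refine ⟨s, (mem_sites h.fin).2 ⟨hs, ?_⟩, hsy⟩
    have := norm_tri s y D.c
    linarith
  have hside : ∀ t ∈ delT S, dm t ≤ m := by
    intro t ht
    refine side_le hd hdL hw hsub hhole ?_ ht
    intro e he
    obtain ⟨s, hs, h1, h2⟩ := hcap e he
    exact ⟨s, (mem_sites h.fin).2 ⟨hs, h1⟩, h2⟩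
  -- near the circle
  have hnear : ∑ t ∈ (delT S).filter
      (fun t => ¬ (cT t ∩ Metric.closedBall D.c (D.L - 2 * d)).Nonempty), dm t ^ 2 ≤ b0 ^ 2 := by
    refine (near_energy hgp hside).trans (le_trans (le_of_eq ?_) hann)
    have : (S.filter fun s => D.L - 2 * d < ‖s - D.c‖).card =
        (points ε ω ∩ {s | D.L - 2 * d < ‖s - D.c‖ ∧ ‖s - D.c‖ ≤ D.L}).ncard := by
      rw [← Set.ncard_coe_finset]
      congr 1
      ext s
      simp only [Finset.coe_filter, Set.mem_ofPred_eq, Set.mem_inter_iff]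
      rw [hS, mem_sites h.fin]
      tauto
    rw [this]
  -- a small ball
  have hsmall : ∀ y : ℂ, ‖y - D.c‖ ≤ D.L + 2 → ∀ r : ℝ, b0 ≤ r → r ≤ 1 / 2 →
      ∑ t ∈ (delT S).filter (fun t => (cT t ∩ Metric.closedBall y r).Nonempty ∧
        (cT t ∩ Metric.closedBall D.c (D.L - 2 * d)).Nonempty), dm t ^ 2 ≤ 16 * C * r ^ 2 := by
    intro y hy r hr1 hr2
    exact inner_energy hd h hC hside (hb0.trans_le hr1)
      (hM y hy (2 * r) (by linarith) (by linarith))
  have hb0' : b0 ^ 2 ≤ b ^ 2 := by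
    have : 0 < b0 := hm0.trans hb0
    gcongr
  have hsplit : ∑ t ∈ (delT S).filter (fun t => (cT t ∩ Metric.closedBall z b).Nonempty),
      dm t ^ 2 ≤ ∑ t ∈ (delT S).filter (fun t => (cT t ∩ Metric.closedBall z b).Nonempty ∧
        (cT t ∩ Metric.closedBall D.c (D.L - 2 * d)).Nonempty), dm t ^ 2 +
      ∑ t ∈ (delT S).filter
      (fun t => ¬ (cT t ∩ Metric.closedBall D.c (D.L - 2 * d)).Nonempty), dm t ^ 2 := by
    rw [Finset.sum_filter, Finset.sum_filter, Finset.sum_filter, ← Finset.sum_add_distrib]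
    apply Finset.sum_le_sum
    intro t _
    have := sq_nonneg (dm t)
    by_cases p : (cT t ∩ Metric.closedBall z b).Nonempty <;>
      by_cases q : (cT t ∩ Metric.closedBall D.c (D.L - 2 * d)).Nonempty <;> simp [p, q, this]
  have hCb : 0 ≤ C * b ^ 2 := by positivity
  rw [mem_closedBall_iff_norm] at hz
  rcases le_or_gt b (1 / 2) with hb2 | hb2
  · have := hsmall z (by linarith) b hbb hb2
    linarith
  · -- cover
    have hcov : ∑ t ∈ (delT S).filter (fun t => (cT t ∩ Metric.closedBall z b).Nonempty ∧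
        (cT t ∩ Metric.closedBall D.c (D.L - 2 * d)).Nonempty), dm t ^ 2 ≤
        ∑ p ∈ I2, ∑ t ∈ (delT S).filter
          (fun t => (cT t ∩ Metric.closedBall (gp2 z p) (1 / 2)).Nonempty ∧
          (cT t ∩ Metric.closedBall D.c (D.L - 2 * d)).Nonempty), dm t ^ 2 := by
      simp only [Finset.sum_filter]
      rw [Finset.sum_comm]
      apply Finset.sum_le_sum
      intro t _
      have hnn : ∀ p ∈ I2, 0 ≤ (if (cT t ∩ Metric.closedBall (gp2 z p) (1 / 2)).Nonempty ∧
          (cT t ∩ Metric.closedBall D.c (D.L - 2 * d)).Nonempty then dm t ^ 2 else 0) := by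
        intro p _
        split_ifs
        · exact sq_nonneg _
        · exact le_rfl
      split_ifs with hp
      · obtain ⟨⟨y, hy, hyb⟩, hq⟩ := hp
        obtain ⟨p, hp, hyp⟩ := cover2 hb1 hyb
        have h1 := Finset.single_le_sum hnn hp
        rw [if_pos ⟨⟨y, hy, hyp⟩, hq⟩] at h1
        exact h1
      · exact Finset.sum_nonneg hnn
    have hcard : I2.card = 25 := by decide
    have hsum : ∑ p ∈ I2, ∑ t ∈ (delT S).filter
          (fun t => (cT t ∩ Metric.closedBall (gp2 z p) (1 / 2)).Nonempty ∧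
          (cT t ∩ Metric.closedBall D.c (D.L - 2 * d)).Nonempty), dm t ^ 2 ≤
          I2.card • (16 * C * (1 / 2) ^ 2) := by
      apply Finset.sum_le_card_nsmul
      intro p hp
      refine hsmall (gp2 z p) ?_ (1 / 2) hb01 le_rfl
      have := norm_tri (gp2 z p) z D.c
      have := gp2_near (z := z) hp
      linarith
    rw [hcard, nsmul_eq_mul] at hsum
    have hb4 : 1 / 4 ≤ b ^ 2 := by nlinarith
    have : C * (1 / 4) ≤ C * b ^ 2 := mul_le_mul_of_nonneg_left hb4 hC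
    push_cast at hsum
    linarith

/-! ### with high probability -/

/-- every cap of the disc with half chord `ε ^ (3/5)` contains a point -/
def CapS (ε : ℝ) (c : ℂ) (L : ℝ) (ω : Sample) : Prop := ∀ e : ℂ, ‖e‖ = 1 →
  ∃ s ∈ points ε ω, ‖s - c‖ ≤ L ∧ √(L ^ 2 - (ε ^ (3 / 5 : ℝ)) ^ 2) < ((s - c) * conj e).re

/-- not too many points in the annulus of width `4 rad C ε` -/
def AnnS (C ε : ℝ) (c : ℂ) (L : ℝ) (ω : Sample) : Prop :=
  ((points ε ω ∩ {z | L - 4 * rad C ε ≤ ‖z - c‖ ∧ ‖z - c‖ ≤ L}).ncard : ℝ) ≤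
    ε ^ (-(11 / 10 : ℝ))

/-- the mesh bound M4 up to the hull circle, for the scales in `[b0, 1]` -/
def MHull (D : Dom) (C4 ε b0 : ℝ) (ω : Sample) : Prop :=
  ∀ z ∈ Metric.closedBall D.c D.L, ∀ b : ℝ, b0 ≤ b → b ≤ 1 →
    ∑ t ∈ (delT (D.sites ε ω)).filter (fun t => (cT t ∩ Metric.closedBall z b).Nonempty),
      dm t ^ 2 ≤ C4 * b ^ 2

/-- the constant -/
def CH : ℝ := 400 * CM + 1

theorem CH_pos : 0 < CH := by
  unfold CH
  have := CM_nonneg
  positivity

/-- `rad C ε ≤ ε ^ (3/5)` eventually -/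
theorem rad_le (C : ℝ) : ∀ᶠ ε : ℝ in 𝓝[>] 0, rad C ε ≤ ε ^ (3 / 5 : ℝ) := by
  have h1 : Tendsto (fun ε : ℝ => Real.log ε * ε ^ (4 / 5 : ℝ)) (𝓝[>] 0) (𝓝 0) :=
    tendsto_log_mul_rpow_nhdsGT_zero (by norm_num)
  have h2 : Tendsto (fun ε : ℝ => C * Real.sqrt (-(Real.log ε * ε ^ (4 / 5 : ℝ)))) (𝓝[>] 0)
      (𝓝 0) := by
    have := ((Real.continuous_sqrt.tendsto _).comp h1.neg).const_mul C
    simpa using this
  filter_upwards [h2.eventually_lt_const (zero_lt_one), eventually_mem_nhdsWithin] with ε h3 hε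
  have hε' : 0 < ε := hε
  have e1 : ε = ε ^ (3 / 5 : ℝ) * ε ^ (2 / 5 : ℝ) := by
    rw [← Real.rpow_add hε']; norm_num
  have e2 : Real.sqrt (-(Real.log ε * ε ^ (4 / 5 : ℝ))) =
      ε ^ (2 / 5 : ℝ) * Real.sqrt (Real.log (1 / ε)) := by
    have e3 : ε ^ (4 / 5 : ℝ) = (ε ^ (2 / 5 : ℝ)) ^ 2 := by
      rw [← Real.rpow_natCast, ← Real.rpow_mul hε'.le]; norm_num
    rw [one_div, Real.log_inv, e3,
      show -(Real.log ε * (ε ^ (2 / 5 : ℝ)) ^ 2) = (ε ^ (2 / 5 : ℝ)) ^ 2 * (-Real.log ε) by ring,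
      Real.sqrt_mul (sq_nonneg _), Real.sqrt_sq (by positivity)]
  rw [e2] at h3
  unfold rad
  have e4 : C * ε * Real.sqrt (Real.log (1 / ε)) =
      ε ^ (3 / 5 : ℝ) * (C * (ε ^ (2 / 5 : ℝ) * Real.sqrt (Real.log (1 / ε)))) := by
    linear_combination C * Real.sqrt (Real.log (1 / ε)) * e1
  rw [e4]
  have : 0 ≤ ε ^ (3 / 5 : ℝ) := by positivity
  nlinarith

/-- **HULLM**: the mesh bound up to the hull circle, with high probability, from the events of
helper66 -/
theorem hullm_of {D : Dom} (hL : 0 < D.L)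
    (hcap : ∀ η : ℝ, 0 < η → ∀ᶠ ε : ℝ in 𝓝[>] 0,
      sampleLaw {ω | ¬ CapS ε D.c D.L ω} ≤ ENNReal.ofReal η)
    (hann : ∀ C : ℝ, 0 < C → ∀ η : ℝ, 0 < η → ∀ᶠ ε : ℝ in 𝓝[>] 0,
      sampleLaw {ω | ¬ AnnS C ε D.c D.L ω} ≤ ENNReal.ofReal η) :
    ∀ b0 : ℝ, 0 < b0 → ∀ η : ℝ, 0 < η → ∀ᶠ ε : ℝ in 𝓝[>] 0,
      sampleLaw {ω | ¬ MHull D CH ε b0 ω} ≤ ENNReal.ofReal η := by
  intro b1 hb1 η hη
  set b0 := min b1 (1 / 2) with hb0def
  have hb0 : 0 < b0 := by positivity
  have hb01 : b0 ≤ 1 / 2 := min_le_right _ _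
  set R := ‖D.c‖ + D.L + 3 with hRdef
  obtain ⟨C0, hC0, hhole⟩ := PoisM3cx501.m3c R 1
  have e1 : ∀ᶠ ε : ℝ in 𝓝[>] 0, 0 < ε := eventually_mem_nhdsWithin
  have e2 : ∀ᶠ ε : ℝ in 𝓝[>] 0, ε < min (1 / 2) (η / 4) :=
    nhdsWithin_le_nhds (eventually_lt_nhds (by positivity))
  have e3 : ∀ᶠ ε : ℝ in 𝓝[>] 0, rad C0 ε < D.L := (rad_lim C0).eventually_lt_const hL
  have e4 : ∀ᶠ ε : ℝ in 𝓝[>] 0, ε * Real.log (1 / ε) ^ (8 : ℕ) < b0 :=
    scale_lim.eventually_lt_const hb0
  have l5 : Tendsto (fun ε : ℝ => 4 * ε ^ (3 / 5 : ℝ)) (𝓝[>] 0) (𝓝 0) := by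
    have h0 : Tendsto (fun ε : ℝ => 4 * ε ^ (3 / 5 : ℝ)) (𝓝 0) (𝓝 (4 * 0 ^ (3 / 5 : ℝ))) :=
      (Real.continuousAt_rpow_const 0 (3 / 5 : ℝ) (Or.inr (by norm_num))).tendsto.const_mul (4 : ℝ)
    rw [Real.zero_rpow (by norm_num), mul_zero] at h0
    exact h0.mono_left nhdsWithin_le_nhds
  have e5 : ∀ᶠ ε : ℝ in 𝓝[>] 0, 4 * ε ^ (3 / 5 : ℝ) < b0 := l5.eventually_lt_const hb0
  have l6 : Tendsto (fun ε : ℝ => 96 * ε ^ (1 / 10 : ℝ)) (𝓝[>] 0) (𝓝 0) := by
    have h0 : Tendsto (fun ε : ℝ => 96 * ε ^ (1 / 10 : ℝ)) (𝓝 0) (𝓝 (96 * 0 ^ (1 / 10 : ℝ))) :=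
      (Real.continuousAt_rpow_const 0 (1 / 10 : ℝ) (Or.inr (by norm_num))).tendsto.const_mul (96 : ℝ)
    rw [Real.zero_rpow (by norm_num), mul_zero] at h0
    exact h0.mono_left nhdsWithin_le_nhds
  have e6 : ∀ᶠ ε : ℝ in 𝓝[>] 0, 96 * ε ^ (1 / 10 : ℝ) < b0 ^ 2 :=
    l6.eventually_lt_const (by positivity)
  filter_upwards [e1, e2, e3, e4, e5, e6, rad_le C0, hhole, m4u R 1, hcap (η / 4) (by positivity),
    hann C0 hC0 (η / 4) (by positivity)] with ε h1 h2 h3 h4 h5 h6 h7 h8 h9 h10 h11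
  have hε1 : ε < 1 / 2 := h2.trans_le (min_le_left _ _)
  have hε2 : ε < η / 4 := h2.trans_le (min_le_right _ _)
  have hdpos : 0 < rad C0 ε := by
    unfold rad
    have : 0 < Real.log (1 / ε) := Real.log_pos (by
      rw [lt_div_iff₀ h1]; linarith)
    positivity
  set w := ε ^ (3 / 5 : ℝ) with hwdef
  have hw0 : 0 < w := by positivity
  -- the bad events
  set B0 : Set Sample := {ω | ¬ (GP (points ε ω) ∧
    (∀ p ∈ present ω, ∀ q ∈ present ω,
      point ε ω (p.1, p.2.1) p.2.2 = point ε ω (q.1, q.2.1) q.2.2 → p = q) ∧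
    (∀ r : ℝ, (points ε ω ∩ Metric.closedBall 0 r).Finite))} with hB0
  have hB00 : sampleLaw B0 = 0 := (ae_iff).1 (PoisM3x930.m3a ε h1)
  set B1 : Set Sample := {ω | ∃ z ∈ Metric.closedBall (0 : ℂ) R,
    points ε ω ∩ Metric.ball z (rad C0 ε) = ∅} with hB1
  set B2 : Set Sample := {ω | ¬ ∀ z ∈ Metric.closedBall (0 : ℂ) R, ∀ ρ : ℝ,
      ε * Real.log (1 / ε) ^ (8 : ℕ) ≤ ρ → ρ ≤ 1 →
      diamSum (points ε ω) (Metric.ball z ρ) ≤ ENNReal.ofReal (CM * ρ ^ 2)} with hB2
  have hsub : {ω | ¬ MHull D CH ε b1 ω} ⊆ B0 ∪ (B1 ∪ (B2 ∪ ({ω | ¬ CapS ε D.c D.L ω} ∪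
      {ω | ¬ AnnS C0 ε D.c D.L ω}))) := by
    intro ω hω
    by_contra hcon
    simp only [Set.mem_union, not_or] at hcon
    obtain ⟨k0, k1, k2, k3, k4⟩ := hcon
    rw [hB0, Set.mem_ofPred_eq, not_not] at k0
    rw [hB2, Set.mem_ofPred_eq, not_not] at k2
    rw [Set.mem_ofPred_eq, not_not] at k3 k4
    apply hω
    have hholes : ∀ z ∈ Metric.closedBall (0 : ℂ) R,
        (points ε ω ∩ Metric.ball z (rad C0 ε)).Nonempty := by
      intro z hz
      by_contra hcon
      rw [Set.not_nonempty_iff_eq_empty] at hcon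
      exact k1 ⟨z, hz, hcon⟩
    obtain ⟨M, hEnv⟩ := env_of (D := D) (R := R) (by linarith) hdpos k0.1 k0.2.2 hholes
    have hmax : max (4 * rad C0 ε) (3 * w) ≤ 4 * w := max_le (by linarith) (by linarith)
    have hmax0 : 0 ≤ max (4 * rad C0 ε) (3 * w) := le_max_of_le_right (by positivity)
    intro z hz b hb hb'
    refine mesh_hull hdpos hEnv h3.le hw0.le CM_nonneg k3 (hmax.trans_lt h5) hb01 ?_ ?_ z hz b
      ((min_le_left _ _).trans hb) hb'
    · intro y hy r hr hr1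
      refine k2 y ?_ r (h4.le.trans hr) hr1
      rw [mem_closedBall_zero_iff]
      have := norm_add_le (y - D.c) D.c
      rw [sub_add_cancel] at this
      linarith
    · have hfin : (points ε ω ∩ {z | D.L - 4 * rad C0 ε ≤ ‖z - D.c‖ ∧ ‖z - D.c‖ ≤ D.L}).Finite := by
        refine hEnv.fin.subset ?_
        rintro s ⟨hs, -, hs2⟩
        exact ⟨hs, by rw [mem_closedBall_iff_norm]; exact hs2⟩
      have hN : ((points ε ω ∩ {s | D.L - 2 * rad C0 ε < ‖s - D.c‖ ∧ ‖s - D.c‖ ≤ D.L}).ncard : ℝ) ≤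
          ε ^ (-(11 / 10 : ℝ)) := by
        refine le_trans ?_ k4
        have := Set.ncard_le_ncard (s := points ε ω ∩ {s | D.L - 2 * rad C0 ε < ‖s - D.c‖ ∧
          ‖s - D.c‖ ≤ D.L}) (t := points ε ω ∩ {z | D.L - 4 * rad C0 ε ≤ ‖z - D.c‖ ∧
            ‖z - D.c‖ ≤ D.L}) (by
              rintro s ⟨hs, hs1, hs2⟩
              exact ⟨hs, by linarith, hs2⟩) hfin
        exact_mod_cast this
      have hsq : max (4 * rad C0 ε) (3 * w) ^ 2 ≤ (4 * w) ^ 2 := pow_le_pow_left₀ hmax0 hmax 2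
      calc 6 * ((points ε ω ∩ {s | D.L - 2 * rad C0 ε < ‖s - D.c‖ ∧
              ‖s - D.c‖ ≤ D.L}).ncard : ℝ) * max (4 * rad C0 ε) (3 * w) ^ 2
          ≤ 6 * ε ^ (-(11 / 10 : ℝ)) * (4 * w) ^ 2 := by gcongr
        _ = 96 * ε ^ (1 / 10 : ℝ) := by
            have g1 : w ^ 2 = ε ^ (6 / 5 : ℝ) := by
              rw [hwdef, ← Real.rpow_natCast, ← Real.rpow_mul h1.le]; norm_num
            have g2 : ε ^ (-(11 / 10 : ℝ)) * ε ^ (6 / 5 : ℝ) = ε ^ (1 / 10 : ℝ) := by
              rw [← Real.rpow_add h1]; norm_num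
            rw [mul_pow, g1, ← g2]; ring
        _ ≤ b0 ^ 2 := h6.le
  refine (measure_mono hsub).trans ?_
  refine (measure_union_le _ _).trans ?_
  rw [hB00, zero_add]
  refine (measure_union_le _ _).trans ?_
  refine (add_le_add_right (measure_union_le _ _) _).trans ?_
  refine (add_le_add_right (add_le_add_right (measure_union_le _ _) _) _).trans ?_
  rw [Real.rpow_one] at h8 h9
  refine (add_le_add h8 (add_le_add h9 (add_le_add h10 h11))).trans ?_
  rw [← ENNReal.ofReal_add (by positivity) (by positivity),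
    ← ENNReal.ofReal_add (by positivity) (by positivity),
    ← ENNReal.ofReal_add (by positivity) (by positivity)]
  apply ENNReal.ofReal_le_ofReal
  linarith

end Crest.Agent.R143.HullMx93
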