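import Crest.Agent.R143.HullE_66
import Crest.Agent.R143.HullM_93

/-!
# Row 143 (S0194): HULLM, final form (helper66 with 93): the mesh bound up to the hull circle
-/

set_option autoImplicit false

noncomputable section

namespace Crest.Agent.R143.HullFx66

open MeasureTheory Set Filter Topology
open scoped ENNReal ComplexConjugate
open Crest.ProbabilityR.Voronoi
open Crest.Agent.R143.PP1x831 Crest.Agent.R143.B0Dx346 Crest.Agent.R143.HullEx66
  Crest.Agent.R143.HullMx93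

theorem caps {D : Dom} (hL : 0 < D.L) (η : ℝ) (hη : 0 < η) :
    ∀ᶠ ε : ℝ in 𝓝[>] 0, sampleLaw {ω | ¬ CapS ε D.c D.L ω} ≤ ENNReal.ofReal η := by
  have tW : Tendsto (fun ε : ℝ => ε ^ (3 / 5 : ℝ)) (𝓝[>] 0) (𝓝 0) := by
    have h1 := (Real.continuousAt_rpow_const 0 (3 / 5 : ℝ) (Or.inr (by norm_num))).tendsto
    rw [Real.zero_rpow (by norm_num)] at h1
    exact h1.mono_left nhdsWithin_le_nhds
  filter_upwards [cap_ok D.c hL hη, self_mem_nhdsWithin, tW.eventually (gt_mem_nhds hL)] with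
    ε h hε hW
  have hW0 : 0 < ε ^ (3 / 5 : ℝ) := Real.rpow_pos_of_pos hε _
  refine le_trans (measure_mono ?_) h
  intro ω hω hc
  refine hω ?_
  intro e he
  refine hc e he _ (ε ^ (3 / 5 : ℝ)) ?_ le_rfl
  rw [Real.sq_sqrt]
  · ring
  · nlinarith

theorem anns {D : Dom} (hL : 0 < D.L) (C : ℝ) (hC : 0 < C) (η : ℝ) (hη : 0 < η) :
    ∀ᶠ ε : ℝ in 𝓝[>] 0, sampleLaw {ω | ¬ AnnS C ε D.c D.L ω} ≤ ENNReal.ofReal η := by
  filter_upwards [ann_ok D.c hL hC (A := 4) (by norm_num) hη] with ε h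
  exact h

/-- **HULLM** -/
theorem hullm {D : Dom} (hL : 0 < D.L) :
    ∀ b0 : ℝ, 0 < b0 → ∀ η : ℝ, 0 < η → ∀ᶠ ε : ℝ in 𝓝[>] 0,
      sampleLaw {ω | ¬ MHull D CH ε b0 ω} ≤ ENNReal.ofReal η :=
  hullm_of hL (caps hL) (anns hL)

end Crest.Agent.R143.HullFx66
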