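import Crest.Agent.R143.ArmE_920
import Crest.Agent.R143.HarmS_496
import Crest.Agent.R143.HullF_66

/-!
# Row 143 (S0194), CONT, composition check: the environment of the arms (helper97)

`harmP_of : HarmSx496.Harm → HarmP`, `hullP : HullP D CH`, **`armE_of : HarmOne → ArmE D`**.
-/

set_option autoImplicit false

noncomputable section

open scoped Classical Topology
open Filter

namespace Crest.Agent.R143.ArmFx97

open Crest.ProbabilityR.Voronoi
open Crest.Agent.R143.B0x346 Crest.Agent.R143.B0Dx346
open Crest.Agent.R143.ArmEx920 Crest.Agent.R143.HarmSx496 Crest.Agent.R143.HullMx93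

theorem harmP_of (h : Harm) : HarmP := by
  intro C4 h4
  obtain ⟨C, c, c2, A, hC, hc, hc2, hA, H⟩ := h C4 h4
  refine ⟨C, c, c2, A, hC, hc, hc2, hA, ?_⟩
  intro S x0 L e r R hS h1 h2 h3 hE p hp V hV hVh
  refine H S x0 L e r R hS h1 h2 h3 ?_ p hp V hV ?_
  · intro z hz b hb hb'
    exact hE z hz b hb hb'
  · intro v hv w
    exact ⟨fun h' => hVh v hv ⟨w, Or.inl h'⟩, fun h' => hVh v hv ⟨w, Or.inr h'⟩⟩

theorem hullP {D : Dom} (hL : 0 < D.L) : HullP D CH := by
  intro b0 hb0 η hη
  filter_upwards [HullFx66.hullm hL b0 hb0 η hη] with ε he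
  refine (MeasureTheory.measure_mono ?_).trans he
  intro ω hω hM
  refine hω ?_
  intro z hz b hb hb'
  exact hM z (by rw [Metric.mem_closedBall, dist_eq_norm]; exact hz) b hb hb'

/-- **the arms of the environment from one scale at the hull** -/
theorem armE_of (h : HarmOne) {D : Dom} (hL : 0 < D.L) : ArmE D :=
  armE (harmP_of (harm_of_one h)) hL CH_pos.le (hullP hL)

end Crest.Agent.R143.ArmFx97
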