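import Crest.Agent.R143.SqP_503
import Crest.Agent.R143.CircP_838

/-!
# Row 143 (S0194), block H: the tiles of the square path in the plane (helper445)

* `sqV K v` : the square path shifted by `v`; `sqv_fpath`
* `sc h K v` : the centre of the square
* **`rr_sup`** : the tiles of the square path of side `K h` are in `|sup (s - c) - K h / 2| < A`
* `rr_dis` : tiles of squares with the same centre and sides which differ by at least `4 A`
-/

set_option autoImplicit false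

noncomputable section

open scoped Classical

namespace Crest.Agent.R143.SqGx445

open Crest.Agent.R143.TileRx228 Crest.Agent.R143.SqPx503
open Crest.Agent.R143.CircPx838 (sup)
open Crest.Agent.R143.Gatex838 (X Y)

/-- the shifted square path -/
def sqV (K : ℕ) (v : ℤ × ℤ) (a : ℤ) : ℤ × ℤ := sqW K a + v

theorem sqV_zero (K : ℕ) : sqV K 0 = sqW K := by
  funext a
  unfold sqV
  rw [add_zero]

theorem sqv_fpath {K : ℕ} (hK : 1 ≤ K) (v : ℤ × ℤ) : FPath (4 * K) (sqV K v) where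
  per := fun a => by unfold sqV; rw [(sq_fpath hK).per a]
  step := fun a => by
    unfold sqV
    rw [add_sub_add_right_eq_sub]
    exact (sq_fpath hK).step a
  turn := fun a h => (sq_fpath hK).turn a (add_right_cancel h)
  simple := fun a b h => (sq_fpath hK).simple a b (add_right_cancel h)

/-- centre of the square `v + [0, K]²` times `h` -/
def sc (h : ℝ) (K : ℕ) (v : ℤ × ℤ) : ℂ := ⟨h * (v.1 + K / 2), h * (v.2 + K / 2)⟩

/-- the sides of the square path -/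
theorem sqW_cases {K : ℕ} (hK : 1 ≤ K) (a : ℤ) :
    (0 ≤ (sqW K a).1 ∧ (sqW K a).1 ≤ K ∧ 0 ≤ (sqW K a).2 ∧ (sqW K a).2 ≤ K) ∧
    (0 ≤ (sqW K (a + 1)).1 ∧ (sqW K (a + 1)).1 ≤ K ∧ 0 ≤ (sqW K (a + 1)).2 ∧
      (sqW K (a + 1)).2 ≤ K) ∧
    (((sqW K a).1 = 0 ∧ (sqW K (a + 1)).1 = 0 ∧ (sqW K (a + 1)).2 = (sqW K a).2 + 1) ∨
     ((sqW K a).2 = K ∧ (sqW K (a + 1)).2 = K ∧ (sqW K (a + 1)).1 = (sqW K a).1 + 1) ∨
     ((sqW K a).1 = K ∧ (sqW K (a + 1)).1 = K ∧ (sqW K (a + 1)).2 = (sqW K a).2 - 1) ∨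
     ((sqW K a).2 = 0 ∧ (sqW K (a + 1)).2 = 0 ∧ (sqW K (a + 1)).1 = (sqW K a).1 - 1)) := by
  have hK' : (1 : ℤ) ≤ K := by exact_mod_cast hK
  have h0 := Int.emod_nonneg a (show (4 * K : ℤ) ≠ 0 by omega)
  have h1 := Int.emod_lt_of_pos a (show (0 : ℤ) < 4 * K by omega)
  unfold sqW
  rw [next_emod (by omega : (1 : ℤ) < 4 * K)]
  generalize a % (4 * K : ℤ) = r at h0 h1 ⊢
  unfold sq0
  by_cases h2 : r + 1 = 4 * K
  · simp only [if_pos h2]
    split_ifs <;> simp only [true_and] <;> omega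
  · simp only [if_neg h2]
    split_ifs <;> simp only [true_and, and_true, true_or, and_self] <;> omega

/-- coordinates -/
theorem sup_key {L A : ℝ} {m n : ℝ} (k1 : |m| < L + A) (k2 : |n| < L + A)
    (k3 : L - A < |m| ∨ L - A < |n|) : |max |m| |n| - L| < A := by
  rw [abs_lt]
  constructor
  · have : L - A < max |m| |n| := by
      rcases k3 with k3 | k3
      · exact k3.trans_le (le_max_left _ _)
      · exact k3.trans_le (le_max_right _ _)
    linarith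
  · have : max |m| |n| < L + A := max_lt k1 k2
    linarith

/-- a point of an arm in coordinates -/
theorem arm_re {A B h : ℝ} {v p q : ℤ × ℤ} (hpq : q ≠ p) {s : ℂ}
    (hs : s ∈ Arm A B ((h : ℂ) * cz (p + v)) (cz (q - p))) (K : ℕ) :
    ∃ x y : ℝ, -A < x ∧ x < B ∧ |y| < A ∧
      (s - sc h K v).re = h * p.1 - K * h / 2 + (((q.1 : ℝ) - p.1) * x - ((q.2 : ℝ) - p.2) * y) ∧
      (s - sc h K v).im = h * p.2 - K * h / 2 + (((q.1 : ℝ) - p.1) * y + ((q.2 : ℝ) - p.2) * x) := by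
  obtain ⟨⟨h1, h2⟩, h3⟩ := hs
  refine ⟨_, _, h1, h2, h3, ?_⟩
  obtain ⟨p1, p2⟩ := p
  obtain ⟨q1, q2⟩ := q
  obtain ⟨v1, v2⟩ := v
  set c : ℂ := (h : ℂ) * cz ((p1, p2) + (v1, v2)) with hc
  set u : ℂ := cz ((q1, q2) - (p1, p2)) with hu
  have hu1 : u.re = (q1 : ℝ) - p1 := by
    simp only [hu, cz, Prod.mk_sub_mk]
    push_cast
    ring
  have hu2 : u.im = (q2 : ℝ) - p2 := by
    simp only [hu, cz, Prod.mk_sub_mk]
    push_cast
    ring
  have hc1 : c.re = h * (p1 + v1) := by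
    simp only [hc, cz, Prod.mk_add_mk, Complex.mul_re, Complex.ofReal_re, Complex.ofReal_im]
    push_cast
    ring
  have hc2 : c.im = h * (p2 + v2) := by
    simp only [hc, cz, Prod.mk_add_mk, Complex.mul_im, Complex.ofReal_re, Complex.ofReal_im]
    push_cast
    ring
  have hun : u ≠ 0 := by
    intro h0
    have e1 : (q1 : ℝ) - p1 = 0 := by rw [← hu1, h0]; rfl
    have e2 : (q2 : ℝ) - p2 = 0 := by rw [← hu2, h0]; rfl
    have e1' : q1 = p1 := by exact_mod_cast (sub_eq_zero.1 e1)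
    have e2' : q2 = p2 := by exact_mod_cast (sub_eq_zero.1 e2)
    exact hpq (by rw [e1', e2'])
  have hs : s = c + u * ⟨X c u s, Y c u s⟩ := by
    have e : (⟨X c u s, Y c u s⟩ : ℂ) = (s - c) / u := by
      apply Complex.ext <;> rfl
    rw [e, mul_div_cancel₀ _ hun]
    ring
  have hs1 : s.re = h * (p1 + v1) + (((q1 : ℝ) - p1) * X c u s - ((q2 : ℝ) - p2) * Y c u s) := by
    rw [← hc1, ← hu1, ← hu2]
    conv_lhs => rw [hs]
    exact (Complex.add_re _ _).trans (congrArg (c.re + ·) (Complex.mul_re _ _))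
  have hs2 : s.im = h * (p2 + v2) + (((q1 : ℝ) - p1) * Y c u s + ((q2 : ℝ) - p2) * X c u s) := by
    rw [← hc2, ← hu1, ← hu2]
    conv_lhs => rw [hs]
    exact (Complex.add_im _ _).trans (congrArg (c.im + ·) (Complex.mul_im _ _))
  constructor
  · rw [Complex.sub_re, hs1]
    simp only [sc]
    ring
  · rw [Complex.sub_im, hs2]
    simp only [sc]
    ring

/-- a point of an arm along an edge of the boundary of the square -/
theorem arm_sup {K : ℕ} {A B h : ℝ} (hh : 0 < h) (hA : 0 < A) (hB : B ≤ h) {v p q : ℤ × ℤ}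
    (hp : 0 ≤ p.1 ∧ p.1 ≤ K ∧ 0 ≤ p.2 ∧ p.2 ≤ K) (hq : 0 ≤ q.1 ∧ q.1 ≤ K ∧ 0 ≤ q.2 ∧ q.2 ≤ K)
    (h4 : (p.1 = 0 ∧ q.1 = 0 ∧ (q.2 = p.2 + 1 ∨ q.2 = p.2 - 1)) ∨
      (p.2 = K ∧ q.2 = K ∧ (q.1 = p.1 + 1 ∨ q.1 = p.1 - 1)) ∨
      (p.1 = K ∧ q.1 = K ∧ (q.2 = p.2 + 1 ∨ q.2 = p.2 - 1)) ∨
      (p.2 = 0 ∧ q.2 = 0 ∧ (q.1 = p.1 + 1 ∨ q.1 = p.1 - 1))) {s : ℂ}
    (hs : s ∈ Arm A B ((h : ℂ) * cz (p + v)) (cz (q - p))) :
    |sup (s - sc h K v) - K * h / 2| < A := by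
  have hpq : q ≠ p := by
    rintro rfl
    omega
  obtain ⟨x, y, x1, x2, y1, t1, t2⟩ := arm_re hpq hs K
  obtain ⟨p1, p2⟩ := p
  obtain ⟨q1, q2⟩ := q
  simp only at hp hq h4 t1 t2
  obtain ⟨hp1, hp2, hp3, hp4⟩ := hp
  obtain ⟨hq1, hq2, hq3, hq4⟩ := hq
  have y2 := abs_lt.1 y1
  unfold sup
  rw [t1, t2]
  have c1 : (0 : ℝ) ≤ p1 := by exact_mod_cast hp1
  have c2 : (p1 : ℝ) ≤ K := by exact_mod_cast hp2
  have c3 : (0 : ℝ) ≤ p2 := by exact_mod_cast hp3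
  have c4 : (p2 : ℝ) ≤ K := by exact_mod_cast hp4
  have c5 : (0 : ℝ) ≤ q1 := by exact_mod_cast hq1
  have c6 : (q1 : ℝ) ≤ K := by exact_mod_cast hq2
  have c7 : (0 : ℝ) ≤ q2 := by exact_mod_cast hq3
  have c8 : (q2 : ℝ) ≤ K := by exact_mod_cast hq4
  have b1 : 0 ≤ h * p1 := mul_nonneg hh.le c1
  have b2 : h * p1 ≤ K * h := by nlinarith
  have b3 : 0 ≤ h * p2 := mul_nonneg hh.le c3
  have b4 : h * p2 ≤ K * h := by nlinarith
  have b5 : 0 ≤ h * q1 := mul_nonneg hh.le c5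
  have b6 : h * q1 ≤ K * h := by nlinarith
  have b7 : 0 ≤ h * q2 := mul_nonneg hh.le c7
  have b8 : h * q2 ≤ K * h := by nlinarith
  -- the line `re = const`, direction `±`
  have main : ∀ (l P Q : ℝ) (d : ℝ), (l = 0 ∨ l = K * h) → (0 ≤ P ∧ P ≤ K * h) →
      (0 ≤ Q ∧ Q ≤ K * h) → (d = 1 ∨ d = -1) → Q = P + d * h →
      ∀ m n : ℝ, (m = l - K * h / 2 + -(d * y) ∨ m = l - K * h / 2 + d * y) →
      n = P - K * h / 2 + d * x →
      |m| < K * h / 2 + A ∧ |n| < K * h / 2 + A ∧ K * h / 2 - A < |m| := by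
    intro l P Q d hl hP hQ hd hPQ m n hm hn
    have hK : 0 ≤ (K : ℝ) * h := by nlinarith
    rw [abs_lt, abs_lt, lt_abs]
    rcases hd with rfl | rfl
    · rcases hl with rfl | rfl
      · rcases hm with rfl | rfl
        · exact ⟨⟨by linarith, by linarith⟩, ⟨by rw [hn]; linarith, by rw [hn]; linarith⟩,
            Or.inr (by linarith)⟩
        · exact ⟨⟨by linarith, by linarith⟩, ⟨by rw [hn]; linarith, by rw [hn]; linarith⟩,
            Or.inr (by linarith)⟩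
      · rcases hm with rfl | rfl
        · exact ⟨⟨by linarith, by linarith⟩, ⟨by rw [hn]; linarith, by rw [hn]; linarith⟩,
            Or.inl (by linarith)⟩
        · exact ⟨⟨by linarith, by linarith⟩, ⟨by rw [hn]; linarith, by rw [hn]; linarith⟩,
            Or.inl (by linarith)⟩
    · rcases hl with rfl | rfl
      · rcases hm with rfl | rfl
        · exact ⟨⟨by linarith, by linarith⟩, ⟨by rw [hn]; linarith, by rw [hn]; linarith⟩,
            Or.inr (by linarith)⟩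
        · exact ⟨⟨by linarith, by linarith⟩, ⟨by rw [hn]; linarith, by rw [hn]; linarith⟩,
            Or.inr (by linarith)⟩
      · rcases hm with rfl | rfl
        · exact ⟨⟨by linarith, by linarith⟩, ⟨by rw [hn]; linarith, by rw [hn]; linarith⟩,
            Or.inl (by linarith)⟩
        · exact ⟨⟨by linarith, by linarith⟩, ⟨by rw [hn]; linarith, by rw [hn]; linarith⟩,
            Or.inl (by linarith)⟩
  have vert : ∀ d : ℝ, (d = 1 ∨ d = -1) → (h * p1 = 0 ∨ h * p1 = K * h) → (q1 : ℝ) = p1 →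
      (q2 : ℝ) = p2 + d → |max |h * p1 - K * h / 2 + (((q1 : ℝ) - p1) * x - ((q2 : ℝ) - p2) * y)|
        |h * p2 - K * h / 2 + (((q1 : ℝ) - p1) * y + ((q2 : ℝ) - p2) * x)| - K * h / 2| < A := by
    intro d hd hl e1 e2
    obtain ⟨k1, k2, k3⟩ := main (h * p1) (h * p2) (h * q2) d hl ⟨b3, b4⟩ ⟨b7, b8⟩ hd
      (by rw [e2]; ring) (h * p1 - K * h / 2 + (((q1 : ℝ) - p1) * x - ((q2 : ℝ) - p2) * y))
      (h * p2 - K * h / 2 + (((q1 : ℝ) - p1) * y + ((q2 : ℝ) - p2) * x))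
      (Or.inl (by rw [e1, e2]; ring)) (by rw [e1, e2]; ring)
    exact sup_key k1 k2 (Or.inl k3)
  have horz : ∀ d : ℝ, (d = 1 ∨ d = -1) → (h * p2 = 0 ∨ h * p2 = K * h) → (q2 : ℝ) = p2 →
      (q1 : ℝ) = p1 + d → |max |h * p1 - K * h / 2 + (((q1 : ℝ) - p1) * x - ((q2 : ℝ) - p2) * y)|
        |h * p2 - K * h / 2 + (((q1 : ℝ) - p1) * y + ((q2 : ℝ) - p2) * x)| - K * h / 2| < A := by
    intro d hd hl e1 e2
    obtain ⟨k1, k2, k3⟩ := main (h * p2) (h * p1) (h * q1) d hl ⟨b1, b2⟩ ⟨b5, b6⟩ hd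
      (by rw [e2]; ring) (h * p2 - K * h / 2 + (((q1 : ℝ) - p1) * y + ((q2 : ℝ) - p2) * x))
      (h * p1 - K * h / 2 + (((q1 : ℝ) - p1) * x - ((q2 : ℝ) - p2) * y))
      (Or.inr (by rw [e1, e2]; ring)) (by rw [e1, e2]; ring)
    exact sup_key k2 k1 (Or.inr k3)
  rcases h4 with ⟨e1, e2, e3⟩ | ⟨e1, e2, e3⟩ | ⟨e1, e2, e3⟩ | ⟨e1, e2, e3⟩
  · have f1 : (q1 : ℝ) = p1 := by rw [e1, e2]
    have f2 : h * p1 = 0 := by rw [e1]; simp
    rcases e3 with e3 | e3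
    · exact vert 1 (Or.inl rfl) (Or.inl f2) f1 (by rw [e3]; push_cast; ring)
    · exact vert (-1) (Or.inr rfl) (Or.inl f2) f1 (by rw [e3]; push_cast; ring)
  · have f1 : (q2 : ℝ) = p2 := by rw [e1, e2]
    have f2 : h * p2 = K * h := by rw [e1]; push_cast; ring
    rcases e3 with e3 | e3
    · exact horz 1 (Or.inl rfl) (Or.inr f2) f1 (by rw [e3]; push_cast; ring)
    · exact horz (-1) (Or.inr rfl) (Or.inr f2) f1 (by rw [e3]; push_cast; ring)
  · have f1 : (q1 : ℝ) = p1 := by rw [e1, e2]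
    have f2 : h * p1 = K * h := by rw [e1]; push_cast; ring
    rcases e3 with e3 | e3
    · exact vert 1 (Or.inl rfl) (Or.inr f2) f1 (by rw [e3]; push_cast; ring)
    · exact vert (-1) (Or.inr rfl) (Or.inr f2) f1 (by rw [e3]; push_cast; ring)
  · have f1 : (q2 : ℝ) = p2 := by rw [e1, e2]
    have f2 : h * p2 = 0 := by rw [e1]; simp
    rcases e3 with e3 | e3
    · exact horz 1 (Or.inl rfl) (Or.inl f2) f1 (by rw [e3]; push_cast; ring)
    · exact horz (-1) (Or.inr rfl) (Or.inl f2) f1 (by rw [e3]; push_cast; ring)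

/-- **the tiles of the square path are in the annulus of width `2 A` around the square** -/
theorem rr_sup {K : ℕ} (hK : 1 ≤ K) {A B h : ℝ} (hh : 0 < h) (hA : 0 < A) (hB : B ≤ h)
    {v : ℤ × ℤ} {a : ℤ} {s : ℂ} (hs : s ∈ RR A B h (sqV K v) a) :
    |sup (s - sc h K v) - K * h / 2| < A := by
  have hv : ∀ a b, sqV K v a - sqV K v b = sqW K a - sqW K b := fun a b => by
    unfold sqV; rw [add_sub_add_right_eq_sub]
  have h0 := sqW_cases hK a
  have h1 := sqW_cases hK (a - 1)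
  rw [sub_add_cancel] at h1
  rcases hs with hs | hs
  · rw [hv] at hs
    refine arm_sup hh hA hB h0.1 h1.1 ?_ (v := v) hs
    rcases h1.2.2 with h | h | h | h
    · exact Or.inl ⟨h.2.1, h.1, Or.inr (by omega)⟩
    · exact Or.inr (Or.inl ⟨h.2.1, h.1, Or.inr (by omega)⟩)
    · exact Or.inr (Or.inr (Or.inl ⟨h.2.1, h.1, Or.inl (by omega)⟩))
    · exact Or.inr (Or.inr (Or.inr ⟨h.2.1, h.1, Or.inl (by omega)⟩))
  · rw [hv] at hs
    refine arm_sup hh hA hB h0.1 h0.2.1 ?_ (v := v) hs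
    rcases h0.2.2 with h | h | h | h
    · exact Or.inl ⟨h.1, h.2.1, Or.inl h.2.2⟩
    · exact Or.inr (Or.inl ⟨h.1, h.2.1, Or.inl h.2.2⟩)
    · exact Or.inr (Or.inr (Or.inl ⟨h.1, h.2.1, Or.inr h.2.2⟩))
    · exact Or.inr (Or.inr (Or.inr ⟨h.1, h.2.1, Or.inr h.2.2⟩))

/-- concentric squares -/
theorem sc_shift (h : ℝ) (K t : ℕ) (v : ℤ × ℤ) :
    sc h (K + 2 * t) (v + (-(t : ℤ), -(t : ℤ))) = sc h K v := by
  unfold sc
  apply Complex.ext
  · simp only [Prod.fst_add]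
    push_cast
    ring
  · simp only [Prod.snd_add]
    push_cast
    ring

/-- **the tiles of two concentric squares are disjoint** -/
theorem rr_dis {K t : ℕ} (hK : 1 ≤ K) {A B h : ℝ} (hh : 0 < h) (hA : 0 < A) (hB : B ≤ h)
    (ht : 2 * A ≤ t * h) {v : ℤ × ℤ} (a b : ℤ) :
    Disjoint (RR A B h (sqV K v) a)
      (RR A B h (sqV (K + 2 * t) (v + (-(t : ℤ), -(t : ℤ)))) b) := by
  rw [Set.disjoint_left]
  intro s h1 h2
  have k1 := abs_lt.1 (rr_sup hK hh hA hB h1)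
  have k2 := rr_sup (K := K + 2 * t) (by omega) hh hA hB h2
  rw [sc_shift] at k2
  have k3 := abs_lt.1 k2
  push_cast at k3
  nlinarith [k1.2, k3.1]

end Crest.Agent.R143.SqGx445
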