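import Crest.Agent.R143.TwoR_366
import Crest.Agent.R143.SqG_445

/-!
# Row 143 (S0194), block H, note 4372: lattice geometry of the arms (helper366)

`W = sqV K v`, `W' = sqV (K + 2 d) (v - (d, d))` (concentric squares), mesh `h`.

* `Pos K v j e q` : `sqV K v` at `j - 1, j, j + 1` is on the side with direction `e`, position `q`
* `pos_ex` : every `j` with `0 < j % (4 K) % K`; `abv` : the index above; `pos_abv`
* **`Pos.up`** : `Up W W' h (d h) j a`
* `Pos.col` : coordinates of the points of a column relative to the centre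
* `off_abv` : `Off2` of the indices above
* **`arms_sq`**, `arms_gen` (any names of the paths) : `c₁^m ∫ gO ∫ gO' ≤ ∫ gO gO' ∏ F` for the square rings, only the arm box is left
-/

set_option autoImplicit false

noncomputable section

open scoped Classical

namespace Crest.Agent.R143.TwoGx366

open MeasureTheory Set Filter Topology
open Crest.ProbabilityR.Voronoi
open Crest.Agent.R143.PP0x831 Crest.Agent.R143.Poisx304 Crest.Agent.R143.Janx304
open Crest.Agent.R143.IndLocx279 Crest.Agent.R143.PWx978 Crest.Agent.R143.Tplx978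
open Crest.Agent.R143.TileRx228 Crest.Agent.R143.PthFx765 Crest.Agent.R143.CorNx765
open Crest.Agent.R143.TplIx204 Crest.Agent.R143.RngNx765 Crest.Agent.R143.TwoNx366
open Crest.Agent.R143.RingLx239 Crest.Agent.R143.RingWDx445 Crest.Agent.R143.TwoRx366
open Crest.Agent.R143.SqPx503 Crest.Agent.R143.SqGx445
open Crest.Agent.R143.CircPx838 (sup)
open scoped ENNReal

/-! ### positions on the square -/

/-- `2 W` at the position `q` of the side `e` -/
def tw (K : ℕ) (v : ℤ × ℤ) (e : ℤ × ℤ) (q : ℤ) : ℤ × ℤ :=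
  (2 * v.1 + K + (2 * q - K) * e.1 - K * e.2, 2 * v.2 + K + (2 * q - K) * e.2 + K * e.1)

/-- `j` is on the side `e`, at the position `q`, not at a corner -/
structure Pos (K : ℕ) (v : ℤ × ℤ) (j : ℤ) (e : ℤ × ℤ) (q : ℤ) : Prop where
  u : U4 e
  q1 : 1 ≤ q
  q2 : q + 1 ≤ K
  w0 : (2 * (sqV K v (j - 1)).1, 2 * (sqV K v (j - 1)).2) = tw K v e (q - 1)
  w1 : (2 * (sqV K v j).1, 2 * (sqV K v j).2) = tw K v e q
  w2 : (2 * (sqV K v (j + 1)).1, 2 * (sqV K v (j + 1)).2) = tw K v e (q + 1)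

/-- direction of the side `c` -/
def sdr (c : ℤ) : ℤ × ℤ :=
  if c = 0 then (0, 1) else if c = 1 then (1, 0) else if c = 2 then (0, -1) else (-1, 0)

theorem sdr_U4 (c : ℤ) : U4 (sdr c) := by
  unfold sdr U4
  split_ifs <;> simp

theorem sdr_inj {c c' : ℤ} (h0 : 0 ≤ c) (h1 : c ≤ 3) (h0' : 0 ≤ c') (h1' : c' ≤ 3)
    (h : sdr c = sdr c') : c = c' := by
  unfold sdr at h
  split_ifs at h <;> simp only [Prod.mk.injEq] at h <;> omega

theorem sq0_val {K q c : ℤ} (hK : 1 ≤ K) (hq0 : 0 ≤ q) (hq1 : q ≤ K)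
    (hc : c = 0 ∨ c = 1 ∨ c = 2 ∨ c = 3) :
    2 * (sq0 K (if q + c * K = 4 * K then 0 else q + c * K)).1 =
        K + (2 * q - K) * (sdr c).1 - K * (sdr c).2 ∧
      2 * (sq0 K (if q + c * K = 4 * K then 0 else q + c * K)).2 =
        K + (2 * q - K) * (sdr c).2 + K * (sdr c).1 := by
  rcases hc with rfl | rfl | rfl | rfl <;> unfold sq0 sdr <;> (try simp only [zero_mul, one_mul]) <;>
    split_ifs <;> constructor <;> (try simp only [mul_zero, mul_one, mul_neg]) <;> omega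

theorem prev_emod {L a : ℤ} (hL : 1 < L) (h0 : a % L ≠ 0) : (a - 1) % L = a % L - 1 := by
  have h1 := next_emod (L := L) (a := a - 1) hL
  rw [sub_add_cancel] at h1
  have h2 := Int.emod_nonneg (a - 1) (show L ≠ 0 by omega)
  have h3 := Int.emod_lt_of_pos (a - 1) (show 0 < L by omega)
  split_ifs at h1 with h
  · exact absurd h1 h0
  · omega

/-- the position from the residue -/
theorem pos_of {K : ℕ} (v : ℤ × ℤ) {j q c : ℤ} (hq1 : 1 ≤ q) (hq2 : q + 1 ≤ K)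
    (hc : c = 0 ∨ c = 1 ∨ c = 2 ∨ c = 3) (hj : j % (4 * K) = q + c * K) :
    Pos K v j (sdr c) q := by
  have hL : (1 : ℤ) < 4 * K := by omega
  have hcK : 0 ≤ c * (K : ℤ) := by rcases hc with rfl | rfl | rfl | rfl <;> omega
  have h0 : j % (4 * K : ℤ) ≠ 0 := by omega
  have e0 := prev_emod hL h0
  have e2 := next_emod (L := 4 * K) (a := j) hL
  have hlt := Int.emod_lt_of_pos j (show (0 : ℤ) < 4 * K by omega)
  have v0 := sq0_val (K := K) (q := q - 1) (c := c) (by omega) (by omega) (by omega) hc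
  have v1 := sq0_val (K := K) (q := q) (c := c) (by omega) (by omega) (by omega) hc
  have v2 := sq0_val (K := K) (q := q + 1) (c := c) (by omega) (by omega) (by omega) hc
  rw [if_neg (by omega)] at v0 v1
  have key : ∀ (w : ℤ × ℤ) (p : ℤ), 2 * w.1 = K + (2 * p - K) * (sdr c).1 - K * (sdr c).2 →
      2 * w.2 = K + (2 * p - K) * (sdr c).2 + K * (sdr c).1 →
      (2 * (w + v).1, 2 * (w + v).2) = tw K v (sdr c) p := by
    intro w p h1 h2
    refine Prod.ext ?_ ?_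
    · simp only [tw, Prod.fst_add]; linarith
    · simp only [tw, Prod.snd_add]; linarith
  refine ⟨sdr_U4 c, hq1, hq2, ?_, ?_, ?_⟩
  · refine key _ _ ?_ ?_
    · unfold sqW
      rw [e0, hj, show q + c * K - 1 = q - 1 + c * K by ring]
      exact v0.1
    · unfold sqW
      rw [e0, hj, show q + c * K - 1 = q - 1 + c * K by ring]
      exact v0.2
  · refine key _ _ ?_ ?_
    · unfold sqW
      rw [hj]
      exact v1.1
    · unfold sqW
      rw [hj]
      exact v1.2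
  · have e3 : (j + 1) % (4 * K : ℤ) = if q + 1 + c * K = 4 * K then 0 else q + 1 + c * K := by
      rw [e2, hj, show q + c * K + 1 = q + 1 + c * K by ring]
    refine key _ _ ?_ ?_
    · unfold sqW
      rw [e3]
      exact v2.1
    · unfold sqW
      rw [e3]
      exact v2.2

/-- side and position of an index which is not a corner -/
theorem pos_ex {K : ℕ} (hK : 1 ≤ K) {j : ℤ} (hj : 0 < j % (4 * K) % K) :
    (j % (4 * K) / K = 0 ∨ j % (4 * K) / K = 1 ∨ j % (4 * K) / K = 2 ∨ j % (4 * K) / K = 3) ∧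
      1 ≤ j % (4 * K) % K ∧ j % (4 * K) % K + 1 ≤ K ∧
      j % (4 * K) = j % (4 * K) % K + j % (4 * K) / K * K := by
  have hK' : (0 : ℤ) < K := by exact_mod_cast hK
  have h0 := Int.emod_nonneg j (show (4 * K : ℤ) ≠ 0 by omega)
  have h1 := Int.emod_lt_of_pos j (show (0 : ℤ) < 4 * K by omega)
  have h2 := Int.emod_lt_of_pos (j % (4 * K)) hK'
  have h3 := Int.emod_add_mul_ediv (j % (4 * K)) (K : ℤ)
  have h4 : 0 ≤ j % (4 * K : ℤ) / K := Int.ediv_nonneg h0 hK'.le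
  have h5 : j % (4 * K : ℤ) / K < 4 := Int.ediv_lt_of_lt_mul hK' h1
  refine ⟨by omega, by omega, by omega, ?_⟩
  rw [mul_comm (j % (4 * (K : ℤ)) / K)]
  exact h3.symm

/-- side of an index -/
def cs (K : ℕ) (j : ℤ) : ℤ := j % (4 * K) / K

/-- position of an index -/
def qs (K : ℕ) (j : ℤ) : ℤ := j % (4 * K) % K

/-- not a corner -/
def Nc (K : ℕ) (j : ℤ) : Prop := 0 < qs K j

theorem pos_nc {K : ℕ} (hK : 1 ≤ K) (v : ℤ × ℤ) {j : ℤ} (hj : Nc K j) :
    Pos K v j (sdr (cs K j)) (qs K j) := by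
  obtain ⟨h1, h2, h3, h4⟩ := pos_ex hK hj
  exact pos_of v h2 h3 h1 h4

/-- **the index above** -/
def abv (K d : ℕ) (j : ℤ) : ℤ := qs K j + d + cs K j * (K + 2 * d)

theorem abv_emod {K d : ℕ} (hK : 1 ≤ K) {j : ℤ} (hj : Nc K j) :
    abv K d j % (4 * (K + 2 * d : ℕ)) = qs K j + d + cs K j * (K + 2 * d) := by
  obtain ⟨h1, h2, h3, h4⟩ := pos_ex hK hj
  refine Int.emod_eq_of_lt ?_ ?_
  · unfold abv
    have : 0 ≤ cs K j * (K + 2 * d : ℤ) := by
      unfold cs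
      rcases h1 with h | h | h | h <;> rw [h] <;> positivity
    unfold qs at *
    omega
  · unfold abv cs qs
    push_cast
    rcases h1 with h | h | h | h <;> rw [h] <;> omega

theorem pos_abv {K d : ℕ} (hK : 1 ≤ K) (v : ℤ × ℤ) {j : ℤ} (hj : Nc K j) :
    Pos (K + 2 * d) (v + (-(d : ℤ), -(d : ℤ))) (abv K d j) (sdr (cs K j)) (qs K j + d) := by
  obtain ⟨h1, h2, h3, h4⟩ := pos_ex hK hj
  refine pos_of _ (by unfold qs; omega) (by unfold qs; push_cast; omega) h1 ?_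
  rw [abv_emod hK hj]
  push_cast
  ring

/-! ### coordinates -/

variable {K : ℕ} {v : ℤ × ℤ} {j : ℤ} {e : ℤ × ℤ} {q : ℤ}

theorem cz_eq {w t : ℤ × ℤ} (h : (2 * w.1, 2 * w.2) = t) : cz w = (cz t) / 2 := by
  have h1 : 2 * w.1 = t.1 := congrArg Prod.fst h
  have h2 : 2 * w.2 = t.2 := congrArg Prod.snd h
  unfold cz
  apply Complex.ext
  · have : ((t.1 : ℤ) : ℝ) = 2 * w.1 := by rw [← h1]; push_cast; ring
    simp [this]
  · have : ((t.2 : ℤ) : ℝ) = 2 * w.2 := by rw [← h2]; push_cast; ring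
    simp [this]

/-- `2 W` in complex coordinates -/
theorem cz_tw (K : ℕ) (v e : ℤ × ℤ) (q : ℤ) :
    cz (tw K v e q) = 2 * cz v + (K : ℂ) * (1 + Complex.I) +
      cz e * ((2 * q - K : ℂ) + Complex.I * K) := by
  unfold cz tw
  apply Complex.ext
  · simp
    ring
  · simp
    ring

theorem Pos.ge (H : Pos K v j e q) : ge (sqV K v) j = cz e := by
  unfold TileRx228.ge
  have h1 : cz (sqV K v j - sqV K v (j - 1)) = cz (sqV K v j) - cz (sqV K v (j - 1)) :=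
    LayQx811.cz_sub _ _
  rw [h1, cz_eq H.w0, cz_eq H.w1, cz_tw, cz_tw]
  push_cast
  ring

theorem Pos.gz (H : Pos K v j e q) (h : ℝ) : gz h (sqV K v) j =
    sc h K v + (h : ℂ) * cz e * (((q : ℂ) - 1 / 2 - K / 2) + Complex.I * (K / 2)) := by
  unfold TileRx228.gz
  rw [cz_eq H.w0, cz_eq H.w1, cz_tw, cz_tw]
  have h1 : sc h K v = (h : ℂ) * (cz v + (K : ℂ) / 2 * (1 + Complex.I)) := by
    unfold sc cz
    apply Complex.ext
    · simp
    · simp
  rw [h1]
  push_cast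
  ring

theorem Pos.straight (H : Pos K v j e q) (hK : 1 ≤ K) : tn (sqV K v) j = Tn.S := by
  rw [tn_eq_S (sqv_fpath hK v)]
  have a0 : 2 * (sqV K v (j - 1)).1 = _ := congrArg Prod.fst H.w0
  have b0 : 2 * (sqV K v (j - 1)).2 = _ := congrArg Prod.snd H.w0
  have a1 : 2 * (sqV K v j).1 = _ := congrArg Prod.fst H.w1
  have b1 : 2 * (sqV K v j).2 = _ := congrArg Prod.snd H.w1
  have a2 : 2 * (sqV K v (j + 1)).1 = _ := congrArg Prod.fst H.w2
  have b2 : 2 * (sqV K v (j + 1)).2 = _ := congrArg Prod.snd H.w2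
  simp only [tw] at a0 b0 a1 b1 a2 b2
  refine Prod.ext ?_ ?_
  · simp only [Prod.fst_sub]
    linarith
  · simp only [Prod.snd_sub]
    linarith

/-- **the gate above** -/
theorem Pos.up {d : ℕ} {a : ℤ} (h : ℝ) (hK : 1 ≤ K) (H : Pos K v j e q)
    (H' : Pos (K + 2 * d) (v + (-(d : ℤ), -(d : ℤ))) a e (q + d)) :
    Up (sqV K v) (sqV (K + 2 * d) (v + (-(d : ℤ), -(d : ℤ)))) h (d * h) j a where
  s := H.straight hK
  s' := H'.straight (by omega)
  g := by rw [H.ge, H'.ge]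
  z := by
    rw [H.gz, H'.gz, H.ge, sc_shift]
    push_cast
    ring

/-- **a point of a column in coordinates relative to the centre** -/
theorem Pos.col {h : ℝ} (hK : 1 ≤ K) (H : Pos K v j e q) {Cu : Set ℂ} {s : ℂ}
    (hs : s ∈ colT (sqv_fpath hK v) h Cu j) :
    ∃ z ∈ Cu, (frm (sqv_fpath hK v) h j).e.symm s = z ∧ s - sc h K v =
      cz e * (((h * (q - 1 / 2 - K / 2) + z.re : ℝ) : ℂ) + Complex.I * ((h * (K / 2) + z.im : ℝ) : ℂ)) := by
  refine ⟨(frm (sqv_fpath hK v) h j).e.symm s, hs, rfl, ?_⟩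
  set z := (frm (sqv_fpath hK v) h j).e.symm s with hz
  have h1 : s = (frm (sqv_fpath hK v) h j).e z := by
    rw [hz, MeasurableEquiv.apply_symm_apply]
  rw [frm_apply, H.gz, H.ge] at h1
  rw [h1]
  have h2 : z = (z.re : ℂ) + (z.im : ℂ) * Complex.I := (Complex.re_add_im z).symm
  conv_lhs => rw [h2]
  push_cast
  ring

/-! ### squares -/

/-- multiplication by a direction -/
theorem sup_mul {e : ℤ × ℤ} (he : U4 e) (w : ℂ) : sup (cz e * w) = sup w := by
  unfold sup cz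
  rcases he with rfl | rfl | rfl | rfl <;> simp [max_comm]

/-- the strip of the column is seen once -/
theorem dir_unique {c c' : ℤ} (hc : c = 0 ∨ c = 1 ∨ c = 2 ∨ c = 3)
    (hc' : c' = 0 ∨ c' = 1 ∨ c' = 2 ∨ c' = 3) {t n t' n' : ℝ} (h1 : |t| < n) (h2 : |t'| < n')
    (h : cz (sdr c) * ((t : ℂ) + Complex.I * (n : ℂ)) = cz (sdr c') * ((t' : ℂ) + Complex.I * (n' : ℂ))) :
    c = c' ∧ t = t' ∧ n = n' := by
  have r := congrArg Complex.re h
  have i := congrArg Complex.im h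
  have a1 := abs_lt.1 h1
  have a2 := abs_lt.1 h2
  rcases hc with rfl | rfl | rfl | rfl <;> rcases hc' with rfl | rfl | rfl | rfl <;>
    simp [sdr, cz] at r i <;>
    first
      | (refine ⟨rfl, ?_, ?_⟩ <;> linarith)
      | (exfalso; linarith [a1.1, a1.2, a2.1, a2.2])

/-! ### columns -/

section columns

variable {A B h : ℝ} {Cu : Set ℂ}

/-- the column is over the tile -/
def Over (h : ℝ) (Cu : Set ℂ) : Prop := ∀ z ∈ Cu, 0 < z.re ∧ z.re < h ∧ -(h / 2) < z.im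

theorem Over.cut {y : ℝ} (H : Over h Cu) : Over h (cutC A B h y Cu) := fun z hz => H z hz.1

theorem nxt_symm (h : ℝ) (z : ℂ) : (nxt h Tn.S).e.symm z = z - h := by
  unfold nxt
  rw [Fr.aff_symm]
  simp only [rot, inv_one, one_mul]
  ring

theorem up_symm (y : ℝ) (z : ℂ) : (up y).e.symm z = z - (y : ℂ) * Complex.I := by
  unfold up
  rw [Fr.aff_symm]
  simp

/-- the straight tile contains the full strip -/
theorem wr_of (hA : 0 < A) (hB : h / 2 ≤ B) {z : ℂ} (h1 : 0 < z.re) (h2 : z.re < h)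
    (h3 : |z.im| < A) : z ∈ WR A B h Tn.S := by
  by_cases h4 : z.re < h / 2 + A
  · exact Or.inl ⟨⟨by linarith, h4⟩, h3⟩
  · refine Or.inr ?_
    rw [nxt_symm]
    simp only [Complex.sub_re, Complex.ofReal_re, Complex.sub_im, Complex.ofReal_im, sub_zero]
    exact ⟨⟨by linarith, by linarith⟩, h3⟩

theorem col_abs (hh : 0 < h) (hq1 : 1 ≤ q) (hq2 : q + 1 ≤ K) {z : ℂ} (h1 : 0 < z.re)
    (h2 : z.re < h) (h3 : -(h / 2) < z.im) :
    |h * (q - 1 / 2 - K / 2) + z.re| < h * (K / 2) + z.im := by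
  have c1 : (1 : ℝ) ≤ q := by exact_mod_cast hq1
  have c2 : (q : ℝ) + 1 ≤ K := by exact_mod_cast hq2
  have e1 : h * 1 ≤ h * q := mul_le_mul_of_nonneg_left c1 hh.le
  have e2 : h * (q + 1) ≤ h * K := mul_le_mul_of_nonneg_left c2 hh.le
  rw [abs_lt]
  constructor <;> linarith

theorem sup_tn {t n : ℝ} (ht : |t| < n) : sup ((t : ℂ) + Complex.I * (n : ℂ)) = n := by
  unfold sup
  have h1 : ((t : ℂ) + Complex.I * (n : ℂ)).re = t := by simp
  have h2 : ((t : ℂ) + Complex.I * (n : ℂ)).im = n := by simp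
  rw [h1, h2]
  have h3 : 0 ≤ n := (abs_nonneg t).trans ht.le
  rw [abs_of_nonneg h3]
  exact max_eq_right ht.le

/-- the level of a point of a column -/
theorem Pos.level (hK : 1 ≤ K) (hh : 0 < h) (H : Pos K v j e q) (hC : Over h Cu) {s : ℂ}
    (hs : s ∈ colT (sqv_fpath hK v) h Cu j) :
    ∃ z ∈ Cu, sup (s - sc h K v) = h * (K / 2) + z.im := by
  obtain ⟨z, hz, -, e1⟩ := H.col hK hs
  obtain ⟨h1, h2, h3⟩ := hC z hz
  refine ⟨z, hz, ?_⟩
  rw [e1, sup_mul H.u]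
  exact sup_tn (col_abs hh H.q1 H.q2 h1 h2 h3)

/-- **columns are off the inner tiles** -/
theorem Pos.off_in {y : ℝ} (hK : 1 ≤ K) (hh : 0 < h) (hA : 0 < A) (hB : h / 2 ≤ B) (hB' : B ≤ h)
    (H : Pos K v j e q) (hC : Over h Cu) :
    Disjoint (colT (sqv_fpath hK v) h (cutC A B h y Cu) j) (Rall A B h (sqV K v)) := by
  rw [Set.disjoint_left]
  intro s hs hs'
  obtain ⟨b, hb⟩ := mem_iUnion.1 hs'
  obtain ⟨z, hz, e1⟩ := H.level hK hh hC.cut hs
  have h1 := rr_sup hK hh hA hB' hb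
  rw [e1, show h * (K / 2 : ℝ) + z.im - K * h / 2 = z.im by ring] at h1
  obtain ⟨k1, k2, -⟩ := hC z hz.1
  exact hz.2 (Or.inl (wr_of hA hB k1 k2 h1))

/-- **columns are off the outer tiles** -/
theorem Pos.off_out {d : ℕ} (hK : 1 ≤ K) (hh : 0 < h) (hA : 0 < A) (hB : h / 2 ≤ B) (hB' : B ≤ h)
    (H : Pos K v j e q) (hC : Over h Cu) :
    Disjoint (colT (sqv_fpath hK v) h (cutC A B h (d * h) Cu) j)
      (Rall A B h (sqV (K + 2 * d) (v + (-(d : ℤ), -(d : ℤ))))) := by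
  rw [Set.disjoint_left]
  intro s hs hs'
  obtain ⟨b, hb⟩ := mem_iUnion.1 hs'
  obtain ⟨z, hz, e1⟩ := H.level hK hh hC.cut hs
  have h1 := rr_sup (K := K + 2 * d) (by omega) hh hA hB' hb
  rw [sc_shift, e1] at h1
  push_cast at h1
  rw [show h * (K / 2 : ℝ) + z.im - (K + 2 * d) * h / 2 = z.im - d * h by ring] at h1
  obtain ⟨k1, k2, -⟩ := hC z hz.1
  refine hz.2 (Or.inr ?_)
  rw [mem_preimage, up_symm]
  refine wr_of hA hB ?_ ?_ ?_
  · simpa using k1
  · simpa using k2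
  · simpa using h1

/-- **columns are disjoint** -/
theorem col_disj {j' : ℤ} (hK : 1 ≤ K) (hh : 0 < h) (hj : Nc K j) (hj' : Nc K j')
    (hd : ¬ ((4 * K : ℕ) : ℤ) ∣ j' - j) (hC : Over h Cu) :
    Disjoint (colT (sqv_fpath hK v) h Cu j) (colT (sqv_fpath hK v) h Cu j') := by
  rw [Set.disjoint_left]
  intro s hs hs'
  have H := pos_nc hK v hj
  have H' := pos_nc hK v hj'
  obtain ⟨c1, c2, c3, c4⟩ := pos_ex hK hj
  obtain ⟨d1, d2, d3, d4⟩ := pos_ex hK hj'
  obtain ⟨z, hz, -, e1⟩ := H.col hK hs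
  obtain ⟨z', hz', -, e2⟩ := H'.col hK hs'
  obtain ⟨h1, h2, h3⟩ := hC z hz
  obtain ⟨h1', h2', h3'⟩ := hC z' hz'
  have e3 := e1.symm.trans e2
  obtain ⟨g1, g2, -⟩ := dir_unique c1 d1 (col_abs hh H.q1 H.q2 h1 h2 h3)
    (col_abs hh H'.q1 H'.q2 h1' h2' h3') e3
  have g3 : qs K j = qs K j' := by
    have g4 : h * ((qs K j : ℝ) - qs K j') = z'.re - z.re := by linarith
    have g5 : ((qs K j : ℝ) - qs K j') < 1 := by
      by_contra hc
      have : h * 1 ≤ h * ((qs K j : ℝ) - qs K j') :=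
        mul_le_mul_of_nonneg_left (not_lt.1 hc) hh.le
      linarith
    have g6 : -1 < ((qs K j : ℝ) - qs K j') := by
      by_contra hc
      have : h * ((qs K j : ℝ) - qs K j') ≤ h * (-1) :=
        mul_le_mul_of_nonneg_left (not_lt.1 hc) hh.le
      linarith
    have g7 : qs K j - qs K j' < 1 := by exact_mod_cast g5
    have g8 : -1 < qs K j - qs K j' := by exact_mod_cast g6
    omega
  apply hd
  have k1 : j % (4 * K : ℤ) = j' % (4 * K : ℤ) := by
    rw [c4, d4]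
    unfold qs at g3
    rw [g3, g1]
  have k2 := Int.emod_emod_of_dvd j (dvd_refl (4 * K : ℤ))
  have k3 : (4 * K : ℤ) ∣ j' - j := by
    refine Int.dvd_of_emod_eq_zero ?_
    rw [Int.sub_emod, k1, sub_self, Int.zero_emod]
  push_cast
  exact k3

end columns

/-! ### indices above -/

theorem off_abv {d : ℕ} (hK : 1 ≤ K) {i j : ℤ} (hi : Nc K i) (hj : Nc K j)
    (H : Off2 (4 * K) i j) : Off2 (4 * (K + 2 * d)) (abv K d i) (abv K d j) := by
  obtain ⟨c1, c2, c3, c4⟩ := pos_ex hK hi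
  obtain ⟨d1, d2, d3, d4⟩ := pos_ex hK hj
  have ki := Int.emod_add_mul_ediv i (4 * K : ℤ)
  have kj := Int.emod_add_mul_ediv j (4 * K : ℤ)
  have key : ∀ δ : ℤ, (δ = 0 ∨ δ = 1 ∨ δ = -1) →
      ((4 * (K + 2 * d) : ℕ) : ℤ) ∣ abv K d j - abv K d i + δ →
      ((4 * K : ℕ) : ℤ) ∣ j - i + δ := by
    intro δ hδ hdv
    have e0 : abv K d j - abv K d i + δ = 0 := by
      refine Int.eq_zero_of_abs_lt_dvd hdv ?_
      unfold abv cs qs
      push_cast
      rw [abs_lt]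
      rcases c1 with c1 | c1 | c1 | c1 <;> rcases d1 with d1 | d1 | d1 | d1 <;>
        rw [c1, d1] <;> omega
    have e1 : j % (4 * K : ℤ) - i % (4 * K : ℤ) + δ = 0 := by
      unfold abv cs qs at e0
      rcases c1 with c1 | c1 | c1 | c1 <;> rcases d1 with d1 | d1 | d1 | d1 <;>
        rw [c1, d1] at e0 <;> rw [c1] at c4 <;> rw [d1] at d4 <;> omega
    refine ⟨j / (4 * K : ℤ) - i / (4 * K : ℤ), ?_⟩
    push_cast
    rw [mul_sub]
    linarith
  obtain ⟨h0, h1, h2⟩ := H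
  refine ⟨fun hd => h0 ?_, fun hd => h1 ?_, fun hd => h2 ?_⟩
  · have := key 0 (Or.inl rfl) (by rwa [add_zero])
    rwa [add_zero] at this
  · exact key 1 (Or.inr (Or.inl rfl)) hd
  · have := key (-1) (Or.inr (Or.inr rfl)) (by rwa [← sub_eq_add_neg])
    rwa [← sub_eq_add_neg] at this

/-! ### the arms of the square rings -/

/-- **ARMS OF THE SQUARE RINGS**: only the arm box in standard position is left -/
theorem arms_sq {A B h ε : ℝ} {T : Tpl ε (Tn × Bool)} {d : ℕ} (hK : 1 ≤ K)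
    (hK' : 1 ≤ K + 2 * d) (hh : 0 < h) (hB : h / 2 ≤ B) (hd : 2 * A ≤ d * h)
    (Hs : Std T A B h Prod.fst) [Fintype (ZMod (4 * K))] [Fintype (ZMod (4 * (K + 2 * d)))]
    {Cu : Set ℂ} {F0 : Cf → ℝ≥0∞} {c₁ : ℝ≥0∞} (hC : Over h Cu)
    (H : AB T A B h (d * h) (cutC A B h (d * h) Cu) F0 c₁) {α : Type*} (s : Finset α) {j : α → ℤ}
    (hj : ∀ t ∈ s, Nc K (j t)) (hjj : ∀ t ∈ s, ∀ t' ∈ s, t ≠ t' → Off2 (4 * K) (j t) (j t')) :
    c₁ ^ s.card * ((∫⁻ ω, gO (sqv_fpath hK v) Hs true (cfg ε ω) ∂sampleLaw) *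
        ∫⁻ ω, gO (sqv_fpath hK' (v + (-(d : ℤ), -(d : ℤ)))) Hs false (cfg ε ω) ∂sampleLaw) ≤
      ∫⁻ ω, gO (sqv_fpath hK v) Hs true (cfg ε ω) *
        gO (sqv_fpath hK' (v + (-(d : ℤ), -(d : ℤ)))) Hs false (cfg ε ω) *
        ∏ t ∈ s, FT (sqv_fpath hK v) h F0 (j t) (cfg ε ω) ∂sampleLaw := by
  refine arms_ring (sqv_fpath hK v) (sqv_fpath hK' (v + (-(d : ℤ), -(d : ℤ)))) Hs
    (rall_dis fun a b => rr_dis hK hh Hs.hA Hs.hB hd a b) H s (a := fun t => abv K d (j t))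
    ?_ hjj ?_ ?_ ?_ ?_
  · intro t ht
    exact (pos_nc hK v (hj t ht)).up h hK (pos_abv hK v (hj t ht))
  · intro t ht t' ht' hne
    exact off_abv hK (hj t ht) (hj t' ht') (hjj t ht t' ht' hne)
  · intro t ht t' ht' hne
    exact col_disj hK hh (hj t ht) (hj t' ht') (hjj t ht t' ht' hne).1 hC.cut
  · intro t ht
    exact (pos_nc hK v (hj t ht)).off_in hK hh Hs.hA hB Hs.hB hC
  · intro t ht
    exact (pos_nc hK v (hj t ht)).off_out hK hh Hs.hA hB Hs.hB hC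

/-- the same for any names of the paths -/
theorem arms_gen {M M' : ℕ} {W W' : ℤ → ℤ × ℤ} {A B h y ε : ℝ} {T : Tpl ε (Tn × Bool)} (K d : ℕ)
    (v : ℤ × ℤ) (hM : M = 4 * K) (hM' : M' = 4 * (K + 2 * d)) (hW : W = sqV K v)
    (hW' : W' = sqV (K + 2 * d) (v + (-(d : ℤ), -(d : ℤ)))) (hy : y = d * h) (hK : 1 ≤ K)
    (hh : 0 < h) (hB : h / 2 ≤ B) (hd : 2 * A ≤ y) (Hs : Std T A B h Prod.fst)
    [Fintype (ZMod M)] [Fintype (ZMod M')] (P : FPath M W) (P' : FPath M' W')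
    {Cu : Set ℂ} {F0 : Cf → ℝ≥0∞} {c₁ : ℝ≥0∞} (hC : Over h Cu)
    (H : AB T A B h y (cutC A B h y Cu) F0 c₁) {α : Type*} (s : Finset α) {j : α → ℤ}
    (hj : ∀ t ∈ s, Nc K (j t)) (hjj : ∀ t ∈ s, ∀ t' ∈ s, t ≠ t' → Off2 M (j t) (j t')) :
    c₁ ^ s.card * ((∫⁻ ω, gO P Hs true (cfg ε ω) ∂sampleLaw) *
        ∫⁻ ω, gO P' Hs false (cfg ε ω) ∂sampleLaw) ≤
      ∫⁻ ω, gO P Hs true (cfg ε ω) * gO P' Hs false (cfg ε ω) *
        ∏ t ∈ s, FT P h F0 (j t) (cfg ε ω) ∂sampleLaw := by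
  subst hM hM' hW hW' hy
  exact arms_sq hK (by omega) hh hB hd Hs hC H s hj hjj

/-- disjointness of the two regions, any names -/
theorem rall_gen {W W' : ℤ → ℤ × ℤ} {A B h : ℝ} (K d : ℕ) (v : ℤ × ℤ) (hW : W = sqV K v)
    (hW' : W' = sqV (K + 2 * d) (v + (-(d : ℤ), -(d : ℤ)))) (hK : 1 ≤ K) (hh : 0 < h)
    (hA : 0 < A) (hB : B ≤ h) (hd : 2 * A ≤ d * h) :
    Disjoint (Rall A B h W) (Rall A B h W') := by
  subst hW hW'
  exact rall_dis fun a b => rr_dis hK hh hA hB hd a b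

end Crest.Agent.R143.TwoGx366
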