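import Crest.Agent.R143.WinR_503
import Crest.Agent.R143.TwoG_366

/-!
# Row 143 (S0194), block H (helper355): the arm of one gap tile misses all windows

`W = sqs K j0`, `K = hb j * m1` (503's windows); the arm tile is the tile `2` (gate `2`).
* `dir_rel` : two directions; `off_lane` : a lane over a vertex off the window
* `col_miss` : a column over a vertex off the window misses the sector of the window
* `sqs_eq`, `zq_eq` : 503's names = 445's names
* **`arm_miss`** : the tile `2` and the column over it miss all windows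
* `arm_far` : the level of a point of the column
* `gate_k` : the gate `2` in every window
-/

set_option autoImplicit false

noncomputable section

open scoped Classical

namespace Crest.Agent.R143.ArmGx355

open Crest.Agent.R143.ToolWx838 Crest.Agent.R143.CircPx838
open Crest.Agent.R143.Gatex838 (X Y)
open Crest.Agent.R143.TileRx228 Crest.Agent.R143.SqPx503
open Crest.Agent.R143.Stripx707 (Dir Sec)
open Crest.Agent.R143.RegGx707 Crest.Agent.R143.RadGx707
open Crest.Agent.R143.WinRx503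
open Crest.Agent.R143.SqGx445 (sqV sc sqv_fpath)
open Crest.Agent.R143.TwoGx366 (Pos pos_of sdr)
open Crest.Agent.R143.TwoRx366 (colT)
open Crest.Agent.R143.PthFx765 (frm WR mem_WR)

/-- two directions -/
theorem dir_rel {u u0 : ℂ} (hu : Dir u) (hu0 : Dir u0) (zB s : ℂ) :
    u = u0 ∨ X zB u s = -X zB u0 s ∨ |Y zB u s| = |X zB u0 s| := by
  unfold X Y
  rcases hu with rfl | rfl | rfl | rfl <;> rcases hu0 with rfl | rfl | rfl | rfl <;>
    first
    | exact Or.inl rfl
    | (right; left; simp [div_neg]; done)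
    | (right; right; simp [div_neg]; done)
    | (right; right; simp [div_neg, abs_sub_comm]; done)

variable {h hR : ℝ} {W : ℤ → ℤ × ℤ} {zB u u0 : ℂ}

/-- a lane over a vertex off the window -/
theorem off_lane (Q : SqR h hR W zB) (hu : Dir u) (hh : 0 < h) {ac : ℤ} {J j : ℕ} (hjJ : j < J)
    (hst : ∀ i : ℤ, |i| ≤ J → X zB u (cen h W (ac + i)) = -hR) {l : ℝ} (hl : l ≤ h * j) {a : ℤ}
    (hxa : X zB u (cen h W a) = -hR) (hno : ∀ i : ℤ, |i| ≤ j → W a ≠ W (ac + i)) {s : ℂ}
    (hs : |Y zB u s - Y zB u (cen h W a)| < h) : ¬ |Y zB u s - Y zB u (cen h W ac)| ≤ l := by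
  intro h2
  obtain ⟨e, he, hy⟩ := win_idx Q hu hh (by omega) hst
  rw [abs_lt] at hs
  rw [abs_le] at h2
  have hj1 : |Y zB u (cen h W a) - Y zB u (cen h W ac)| < h * (j + 1) := by
    rw [abs_lt]
    constructor
    · linarith
    · linarith
  obtain ⟨i, hi⟩ := lat_y (zB := zB) (h := h) (W := W) hu a ac
  have hij : |i| ≤ j := by
    rw [hi, abs_mul, abs_of_pos hh] at hj1
    have h6 : |(i : ℝ)| < (j : ℝ) + 1 := lt_of_mul_lt_mul_left hj1 hh.le
    have h7 : |i| < (j : ℤ) + 1 := by exact_mod_cast h6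
    omega
  have hfin : ∀ i' : ℤ, |i'| ≤ j → Y zB u (cen h W (ac + i')) = Y zB u (cen h W a) → False := by
    intro i' hi' hYi
    apply hno i' hi'
    have hcen : cen h W a = cen h W (ac + i') := by
      have h6 : (cen h W a - zB) / u = (cen h W (ac + i') - zB) / u := by
        apply Complex.ext
        · show X zB u (cen h W a) = X zB u (cen h W (ac + i'))
          rw [hxa, hst i' (by omega)]
        · exact hYi.symm
      have h7 := (div_left_inj' hu.ne).1 h6
      linear_combination h7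
    have hhc : (h : ℂ) ≠ 0 := by exact_mod_cast hh.ne'
    have h8 : cz (W a) = cz (W (ac + i')) := mul_left_cancel₀ hhc hcen
    unfold cz at h8
    rw [Complex.mk.injEq] at h8
    exact Prod.ext (by exact_mod_cast h8.1) (by exact_mod_cast h8.2)
  rcases he with rfl | rfl
  · refine hfin i hij ?_
    rw [hy i (by omega)]
    linarith
  · refine hfin (-i) (by rw [abs_neg]; exact hij) ?_
    rw [hy (-i) (by rw [abs_neg]; omega)]
    push_cast
    linarith

/-- **a column over a vertex off the window misses the sector** -/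
theorem col_miss (Q : SqR h hR W zB) (hu : Dir u) (hu0 : Dir u0) (hh : 0 < h) (hR0 : 0 < hR)
    {ac : ℤ} {J j : ℕ} (hjJ : j < J)
    (hst : ∀ i : ℤ, |i| ≤ J → X zB u (cen h W (ac + i)) = -hR) {hB' t0 l : ℝ} (hl : l ≤ h * j)
    (ht : t0 ≤ hB') {a : ℤ} (hxa : X zB u0 (cen h W a) = -hR)
    (hno : ∀ i : ℤ, |i| ≤ j → W a ≠ W (ac + i)) {s : ℂ}
    (hs : |Y zB u0 s - Y zB u0 (cen h W a)| < h) (hsx : X zB u0 s ≤ -hR) :
    ¬ Sec u zB hB' t0 (Y zB u (cen h W ac)) l s := by
  rintro ⟨h1, h2⟩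
  have hJ : 1 ≤ J := by omega
  rcases dir_rel hu hu0 zB s with e | e | e
  · subst e
    exact off_lane Q hu hh hjJ hst hl hxa hno hs h2
  · rw [e] at h1
    linarith
  · have h3 : hR ≤ |Y zB u s| := by
      rw [e]
      exact le_trans (by linarith) (neg_le_abs _)
    have h4 := stretch_y Q hu hh (ac := ac) (J := J) hJ hst (i := 0) (n := 0) (by simp)
      (Nat.zero_le _)
    rw [add_zero] at h4
    have h5 : |Y zB u s| ≤ |Y zB u s - Y zB u (cen h W ac)| + |Y zB u (cen h W ac)| := by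
      have := abs_add_le (Y zB u s - Y zB u (cen h W ac)) (Y zB u (cen h W ac))
      rwa [sub_add_cancel] at this
    have h6 : (j : ℝ) + 1 ≤ J := by exact_mod_cast hjJ
    have h7 : h * (j + 1) ≤ h * J := mul_le_mul_of_nonneg_left h6 hh.le
    push_cast at h4
    linarith

/-! ### names -/

theorem sqs_eq (K : ℕ) (j0 : ℤ) : sqs K j0 = sqV K (-j0, -j0) := by
  funext a
  show sqW K a - (j0, j0) = sqW K a + (-j0, -j0)
  rw [sub_eq_add_neg]
  rfl

theorem zq_eq (h : ℝ) (K : ℕ) (j0 : ℤ) : zq h K j0 = sc h K (-j0, -j0) := by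
  unfold zq sc
  apply Complex.ext
  · show h * ((K : ℝ) / 2 - j0) = h * (((-j0 : ℤ) : ℝ) + K / 2)
    push_cast
    ring
  · show h * ((K : ℝ) / 2 - j0) = h * (((-j0 : ℤ) : ℝ) + K / 2)
    push_cast
    ring

/-! ### the arm tile -/

variable {K j m1 : ℕ} {j0 : ℤ}

theorem pos_two (hK : 3 ≤ K) (v : ℤ × ℤ) : Pos K v 2 (sdr 0) 2 := by
  refine pos_of v (by norm_num) (by omega) (Or.inl rfl) ?_
  rw [Int.emod_eq_of_lt (by norm_num) (by omega)]
  ring

/-- coordinates of the points of the column over the tile `2` -/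
theorem col_two (hK : 3 ≤ K) (P : FPath (4 * K) (sqs K j0)) {s : ℂ} :
    X (zq h K j0) 1 s = -(h * K / 2 + ((frm P h 2).e.symm s).im) ∧
      Y (zq h K j0) 1 s - Y (zq h K j0) 1 (cen h (sqs K j0) 2) =
        ((frm P h 2).e.symm s).re - h / 2 := by
  obtain ⟨W, hW⟩ : ∃ W, W = sqs K j0 := ⟨_, rfl⟩
  have H := pos_two hK (-j0, -j0)
  have h1 : s ∈ colT (sqv_fpath (by omega : 1 ≤ K) (-j0, -j0)) h
      {((frm (sqv_fpath (by omega : 1 ≤ K) (-j0, -j0)) h 2).e.symm s)} 2 := rfl
  obtain ⟨z, hz, -, e1⟩ := H.col (by omega) h1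
  have hz' : z = (frm P h 2).e.symm s := by
    rw [Set.mem_singleton_iff] at hz
    rw [hz]
    have key : ∀ (W W' : ℤ → ℤ × ℤ) (P : FPath (4 * K) W) (P' : FPath (4 * K) W'), W = W' →
        (frm P h 2).e.symm s = (frm P' h 2).e.symm s := by
      intro W W' P P' e
      subst e
      rfl
    exact key _ _ _ _ (sqs_eq K j0).symm
  rw [← zq_eq, hz'] at e1
  set w := (frm P h 2).e.symm s
  have e2 := RegGx707.cen_sub h K j0 2
  have e3 : sqW K 2 = (0, 2) := by
    unfold sqW
    rw [Int.emod_eq_of_lt (by norm_num) (by omega)]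
    unfold sq0
    rw [if_pos (by omega)]
  rw [e3] at e2
  unfold X Y
  rw [div_one, div_one, e1, e2]
  constructor
  · simp [sdr, cz]
    ring
  · simp [sdr, cz]
    ring

/-- the tile `2` is off the windows -/
theorem two_no (hK : K = hb j * m1) (m1p : 1 ≤ m1) {i : ℕ} {t : ℤ} (ht : |t| ≤ j) :
    sqs K j0 2 ≠ sqs K j0 (ac j i + t) := by
  have hK1 := K_pos hK m1p
  rw [abs_le] at ht
  intro e
  unfold sqs at e
  have h1 := (sq_fpath (K := K) (by omega)).simple _ _ (sub_left_injective e)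
  have h2 : (hb j : ℤ) ∣ ac j i + t - 2 := by
    refine dvd_trans ?_ h1
    rw [hK]
    push_cast
    exact ⟨4 * m1, by ring⟩
  have h3 : (hb j : ℤ) ∣ j + 3 + t := by
    have h4 : (hb j : ℤ) ∣ hb j * i := Dvd.intro _ rfl
    have h5 := dvd_add h2 h4
    have e6 : ac j i + t - 2 + hb j * i = j + 3 + t := by unfold ac; ring
    rwa [e6] at h5
  have h4 := Int.le_of_dvd (by omega) h3
  unfold hb at h4
  push_cast at h4
  omega

/-- **the tile `2` and the column over it miss all windows** -/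
theorem arm_miss (hh : 0 < h) (hK : K = hb j * m1) (m1p : 1 ≤ m1) (P : FPath (4 * K) (sqs K j0))
    {i : ℕ} (hi : i < 4 * m1) {A B l t0 : ℝ} (hA : A ≤ B) (hB : B < h) (hl : l ≤ h * j)
    (ht : t0 + B ≤ h * K / 2) {s : ℂ}
    (hs : s ∈ RR A B h (sqs K j0) 2 ∨ (0 < ((frm P h 2).e.symm s).re ∧
      ((frm P h 2).e.symm s).re < h ∧ 0 < ((frm P h 2).e.symm s).im)) (hB0 : 0 ≤ B) :
    ¬ Sec (du (wp K j i)) (zq h K j0) (h * K / 2) t0 (cw0 h K j0 j i) l s := by
  have hK1 := K_pos hK m1p
  have Q := sqr_sqW (K := K) (by omega) hh j0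
  have hKr : (10 : ℝ) ≤ K := by exact_mod_cast hK1
  rcases hs with hs | ⟨h1, h2, h3⟩
  · exact off_win Q (dir_du _) hh hA hB (ac := ac j i) (J := j + 5) (by omega) (by omega)
      (stretch hK m1p hi) hl (by linarith) (fun t ht => two_no hK m1p ht) hs
  · obtain ⟨e1, e2⟩ := col_two (h := h) (by omega) P (s := s)
    refine col_miss Q (dir_du _) (Or.inl rfl : Dir (1 : ℂ)) hh (by positivity) (ac := ac j i)
      (J := j + 5) (j := j) (by omega) (stretch hK m1p hi) hl (by linarith) (a := 2) ?_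
      (fun t ht => two_no hK m1p ht) ?_ ?_
    · exact side_x (by omega) h j0 0 0 (by simp) (by simp; omega)
    · rw [e2, abs_lt]
      constructor <;> linarith
    · rw [e1]
      linarith

/-- the level of a point of the column -/
theorem arm_far (hK : 3 ≤ K) (P : FPath (4 * K) (sqs K j0)) {s : ℂ} :
    h * K / 2 + ((frm P h 2).e.symm s).im ≤ sup (s - zq h K j0) := by
  have h1 := (col_two (h := h) hK P (s := s)).1
  have hu : Dir (1 : ℂ) := Or.inl rfl
  rw [hu.sup]
  refine le_trans ?_ (le_max_left _ _)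
  rw [h1, abs_neg]
  exact le_abs_self _

/-- **the gate `2` off the window `i`** -/
theorem gate_k (hK : K = hb j * m1) {i : ℕ} (hi : i < 4 * m1) :
    ∃ k q : ℕ, hb j * i + (2 * j + 1) ≤ k ∧ k ≤ hb j * i + 4 * K ∧
      (2 * j + 6 : ℤ) - k + q * (4 * K : ℕ) = 2 := by
  have hi4 : hb j * i + hb j ≤ 4 * K := by
    rw [hK]
    calc hb j * i + hb j = hb j * (i + 1) := by ring
      _ ≤ hb j * (4 * m1) := Nat.mul_le_mul_left _ hi
      _ = 4 * (hb j * m1) := by ring
  have e : hb j = 2 * j + 10 := rfl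
  rcases Nat.eq_zero_or_pos i with h0 | h0
  · subst h0
    refine ⟨2 * j + 4, 0, by omega, by omega, by push_cast; ring⟩
  · refine ⟨2 * j + 4 + 4 * K, 1, by omega, ?_, by push_cast; ring⟩
    have : hb j ≤ hb j * i := Nat.le_mul_of_pos_right _ h0
    omega

end Crest.Agent.R143.ArmGx355
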