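import Crest.Agent.R143.TwoW_366
import Crest.Agent.R143.ArmD_345
import Crest.Agent.R143.LawR_239

/-!
# Row 143 (S0194), block H: 345's arm box gives `AB`, the weight and the arms (helper366)

* `ArmL η d a ε hε hη c1` : literal conclusion of `arm_t` (345 / 795)
* `armF η ε hε hη` : the arm event of the template as a weight
* **`ab_of`** : `ArmL` gives the arm box `AB`; **`wd_arm`** : 445's `WD` and the mass of 197's family
* `FA_arm`, `FT_chi`, `FA_chi` : the event at the tiles `j ∈ J`; painted configurations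
* **`arm_out`** : the white link from the right site of the gate `j` up the column, in the names of
  713's records; `lev_col`, `lev_rr`, **`arm_fam`** : its levels in 197's family
-/

set_option autoImplicit false

noncomputable section

open scoped Classical

namespace Crest.Agent.R143.ArmIx366

open MeasureTheory Set Filter Topology
open Crest.ProbabilityR.Voronoi
open Crest.Agent.R143.B0x346 Crest.Agent.R143.Locx922
open Crest.Agent.R143.JColx54 Crest.Agent.R143.DelGx806 Crest.Agent.R143.DelRx806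
open Crest.Agent.R143.PP0x831 Crest.Agent.R143.Poisx304 Crest.Agent.R143.Janx304
open Crest.Agent.R143.IndLocx279 Crest.Agent.R143.PWx978 Crest.Agent.R143.Tplx978
open Crest.Agent.R143.TileRx228 Crest.Agent.R143.PthFx765 Crest.Agent.R143.CorNx765
open Crest.Agent.R143.TplIx204 Crest.Agent.R143.RngNx765 Crest.Agent.R143.TwoNx366
open Crest.Agent.R143.RingLx239 Crest.Agent.R143.RingWDx445 Crest.Agent.R143.TwoRx366
open Crest.Agent.R143.SqPx503 Crest.Agent.R143.SqGx445 Crest.Agent.R143.TwoGx366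
open Crest.Agent.R143.CircPx838 (sup)
open Crest.Agent.R143.Asm3x414 Crest.Agent.R143.WgtHx445
open Crest.Agent.R143.RngLx765 Crest.Agent.R143.PosFx653
open Crest.Agent.R143.RingUx197 (et et_pos et_mul Wi Wo zB Bx norm_sp)
open Crest.Agent.R143.TwoWx366
open Crest.Agent.R143.Prodx609 Crest.Agent.R143.FinMx609 Crest.Agent.R143.FinM2x609
open Crest.Agent.R143.Neckx921 (Neck NeckD Tile Lk)
open Crest.Agent.R143.ArmBx345 (Cl Cu CT B4 b4_ct b4 m_Q m_Qn)
open Crest.Agent.R143.ArmCx345 (ArmE AC ZA UA Fa arm_tr' arm_local arm_fm Cl_meas Cu_meas Cu_bdd)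
open Crest.Agent.R143.CorHx713 (gA QA sdt yy xx)
open Crest.Agent.R143.DCorGx713 (dg dg_eq)
open Crest.Agent.R143.GPosCx348 Crest.Agent.R143.GPosFx348
open Crest.Agent.R143.SmallAx304 (chiS)
open Crest.Agent.R143.ColXx829 Crest.Agent.R143.FinCx811
open Crest.Agent.R143.Dbl2x609 (paint)
open Crest.Agent.R143.WLocx713 hiding zB
open Crest.Agent.R143.PP1x831 (rad)
open scoped ENNReal

variable {η d a ε : ℝ}

/-! ### the arm box -/

/-- **literal conclusion of `arm_t`** -/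
def ArmL (η d a ε : ℝ) (hε : 0 < ε) (hη : 0 < η) (c1 : ℝ≥0∞) : Prop :=
  ∀ᵐ ω ∂sampleLaw, (Dx η d a ε hε hη).wA (cfg ε ω) ≠ 0 →
    tr (nxt (100 * η) Tn.S).e (Dx η d a ε hε hη).wA (cfg ε ω) ≠ 0 →
    tr (ArmBx345.up η).e (Dx η d a ε hε hη).wA (cfg ε ω) ≠ 0 →
    tr (ArmBx345.up η).e (tr (nxt (100 * η) Tn.S).e (Dx η d a ε hε hη).wA) (cfg ε ω) ≠ 0 →
    c1 ≤ Rs ε (CT (Dx η d a ε hε hη) η) (fun X => ((Dx η d a ε hε hη).wE (Tn.S, true) X *
      tr (ArmBx345.up η).e ((Dx η d a ε hε hη).wE (Tn.S, false)) X) *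
        ind (ArmE (Dx η d a ε hε hη) η X)) (cfg ε ω)

/-- **the arm event of the template** -/
def armF (η ε : ℝ) (hε : 0 < ε) (hη : 0 < η) (X : Cf) : ℝ≥0∞ := ind (ArmE (Dt η ε hε hη) η X)

theorem armF_le (hε : 0 < ε) (hη : 0 < η) (X : Cf) : armF η ε hε hη X ≤ 1 := ind_le _

theorem armF_fm (hε : 0 < ε) (hη : 0 < η) : FinMeas (armF η ε hε hη) := ind_fm (arm_fm _)

theorem up_eq (η : ℝ) : ArmBx345.up η = TwoRx366.up (1000 * η) := rfl

theorem armF_loc (hε : 0 < ε) (hη : 0 < η) :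
    LocalOn (ZA (Dt η ε hε hη) η) (armF η ε hε hη) := by
  intro S
  have h := arm_local (η := η) (Dt η ε hε hη) S
  show ind (ArmE (Dt η ε hε hη) η S) = ind (ArmE (Dt η ε hε hη) η (S ∩ _))
  rw [← h]

/-- the region of the arm is in the two tiles and the column -/
theorem za_ub (hε : 0 < ε) (hη : 0 < η) : ZA (Dt η ε hε hη) η ⊆
    UB (12 * η) (52 * η) (100 * η) (1000 * η) (Cu η) := by
  rintro z (hz | hz)
  · refine Or.inl (Or.inl ?_)
    have h := WR_eq (A := (Dt η ε hε hη).A') (B := (Dt η ε hε hη).B') (h := (Dt η ε hε hη).h)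
      (show 0 < 12 * η by linarith) (show 52 * η ≤ 100 * η by linarith) Tn.S
    have h2 : (Dt η ε hε hη).Z Tn.S = WR (12 * η) (52 * η) (100 * η) Tn.S := h
    rw [← h2]
    exact hz
  · exact Or.inr hz

/-- **`AB` FROM THE ARM BOX** -/
theorem ab_of (hε : 0 < ε) (hη : 0 < η) {c1 : ℝ≥0∞} (H : ArmL η (2 * rad cC ε) ca ε hε hη c1) :
    AB (Tr η ε hε hη).tpl (12 * η) (52 * η) (100 * η) (1000 * η)
      (cutC (12 * η) (52 * η) (100 * η) (1000 * η) (Cu η)) (armF η ε hε hη) c1 := by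
  have hd := b4_ct (d := 2 * rad cC ε) (a := ca) hε hη
  have hC : ∀ {Q : Set ℂ}, Q ⊆ B4 (Dx η (2 * rad cC ε) ca ε hε hη) η → Disjoint (Cu η) Q :=
    fun {Q} hQ => Set.disjoint_left.2 fun z h1 h2 => Set.disjoint_left.1 hd (hQ h2) (Or.inr h1)
  refine AB.of_col (R := Tr η ε hε hη) Cu_meas (Cu_bdd) ?_ ?_ ?_ ?_ ?_ (armF_fm hε hη) H
  · exact hC fun z hz => Or.inl (Or.inl hz)
  · exact hC fun z hz => Or.inl (Or.inr hz)
  · exact hC fun z hz => Or.inr (Or.inl hz)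
  · exact hC fun z hz => Or.inr (Or.inr hz)
  · exact LocalOn.mono (za_ub hε hη) (armF_loc hε hη)

theorem cu_over (hη : 0 < η) : Over (100 * η) (Cu η) := by
  rintro z ⟨⟨h1, h2⟩, h3, h4⟩
  exact ⟨by linarith, by linarith, by linarith⟩

theorem cl_over (hη : 0 < η) : Over (100 * η) (Cl η) := by
  rintro z ⟨⟨h1, h2⟩, h3, h4⟩
  exact ⟨by linarith, by linarith, by linarith⟩

/-! ### the weight -/

variable {n : ℕ}

/-- **`WD` AND THE MASS OF THE FAMILY WITH THE ARMS**: only `arm_t` is left -/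
theorem wd_arm (hn : 20 ≤ n) {Rr ρ0 : ℝ} (hR : 4 ≤ Rr) (hρ0 : 0 < ρ0)
    [Fintype (ZMod (4 * (n + 2)))] [Fintype (ZMod (4 * (n + 22)))]
    (P : FPath (4 * (n + 2)) (Wi n)) (P' : FPath (4 * (n + 22)) (Wo n)) {J : Finset ℤ}
    (hJ : ∀ j ∈ J, Nc (n + 2) j) (hJJ : ∀ j ∈ J, ∀ j' ∈ J, j ≠ j' → Off2 (4 * (n + 2)) j j')
    {c1 : ℝ} (hc1 : 0 < c1)
    (H : ∀ᶠ ε : ℝ in 𝓝[>] 0, ∀ (hε : 0 < ε) (hη : 0 < et n),
      ArmL (et n) (2 * rad cC ε) ca ε hε hη (ENNReal.ofReal c1)) :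
    ∀ᶠ ε : ℝ in 𝓝[>] 0, ∀ (hε : 0 < ε) (hη : 0 < et n),
      WD ε (Bx Rr) (Rall (12 * et n) (52 * et n) (100 * et n) (Wi n))
          (Rall (12 * et n) (52 * et n) (100 * et n) (Wo n)) (gO P (stdT hε hη) true)
          (gO P' (stdT hε hη) false) (FA P (100 * et n) (armF (et n) ε hε hη) J)
          (eB (Bx Rr) Rr √ε ρ0) (ENNReal.ofReal (c1 ^ J.card))⁻¹ ∧
        ENNReal.ofReal (c1 ^ J.card *
            (cT ^ (4 * (n + 2)) * cA ^ (4 * (n + 2)) * (cT ^ (4 * (n + 22)) * cA ^ (4 * (n + 22)))) /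
              2) ≤
          Mg ε (Bx Rr) (wt (Bx Rr) (gO P (stdT hε hη) true) (gO P' (stdT hε hη) false)
            (FA P (100 * et n) (armF (et n) ε hε hη) J) (eB (Bx Rr) Rr √ε ρ0)) := by
  have h0 := et_pos (show 0 < n by omega)
  refine wd_fam hn hR hρ0 P P' hJ hJJ (cu_over h0) ?_ hc1
    (F0 := fun ε hε hη => armF (et n) ε hε hη) (fun ε hε hη X => armF_le hε hη X) ?_
  · rintro z ⟨-, -, h⟩
    linarith
  · filter_upwards [H] with ε g hε hη
    exact ab_of hε hη (g hε hη)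

/-! ### the arm at a tile -/

section tile

variable {M : ℕ} {W : ℤ → ℤ × ℤ} (P : FPath M W) (hε : 0 < ε) (hη : 0 < η)

theorem FT_arm {j : ℤ} {X : Cf} : FT P (100 * η) (armF η ε hε hη) j X ≠ 0 ↔
    tr (frm P (100 * η) j).e (ArmE (Dt η ε hε hη) η) X := ind_ne

theorem FA_arm {J : Finset ℤ} {X : Cf} : FA P (100 * η) (armF η ε hε hη) J X ≠ 0 ↔
    ∀ j ∈ J, tr (frm P (100 * η) j).e (ArmE (Dt η ε hε hη) η) X := by
  unfold FA
  rw [Finset.prod_ne_zero_iff]
  exact forall₂_congr fun j _ => FT_arm P hε hη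

/-- region of the points of the arm at the tile `j` -/
def ZT (η : ℝ) (j : ℤ) : Set ℂ := RR (12 * η) (52 * η) (100 * η) W j ∪ colT P (100 * η) (Cu η) j

/-- region of the link of the arm at the tile `j` -/
def UT (η : ℝ) (j : ℤ) : Set ℂ := RR (9 * η) (51 * η) (100 * η) W j ∪ colT P (100 * η) (Cl η) j

theorem pre_UA {j : ℤ} (hj : tn W j = Tn.S) :
    (frm P (100 * η) j).e.symm ⁻¹' UA (Dt η ε hε hη) η = UT P η j := by
  unfold UA UT colT
  rw [preimage_union]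
  refine congrArg₂ _ ?_ rfl
  have h := pre_WR P (Dt η ε hε hη) j (9 * η) (51 * η)
  rw [hj] at h
  exact h

theorem pre_ZA {j : ℤ} (hj : tn W j = Tn.S) :
    (frm P (100 * η) j).e.symm ⁻¹' ZA (Dt η ε hε hη) η = ZT P η j := by
  unfold ZA ZT colT
  rw [preimage_union]
  refine congrArg₂ _ ?_ rfl
  have h := pre_Z P (Dt η ε hε hη) j (show 0 < 12 * η by linarith)
    (show 52 * η ≤ 100 * η by linarith)
  rw [hj] at h
  exact h

theorem FT_loc {j : ℤ} (hj : tn W j = Tn.S) :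
    LocalOn (ZT P η j) (FT P (100 * η) (armF η ε hε hη) j) := by
  rw [← pre_ZA P hε hη hj]
  exact tr_local _ (armF_loc hε hη)

/-- **the white link of the arm**, from the right site of the gate `j` -/
theorem arm_out {j : ℤ} (hj : tn W j = Tn.S) {X : Cf} (hX : X.Finite) (hd : 0 < d)
    (hd' : 100 * d ≤ η) (hH : Hol (ps X) (UT P η j) d)
    (h : FT P (100 * η) (armF η ε hε hη) j X ≠ 0) :
    ∃ u, 1600 * η ≤ ((frm P (100 * η) j).e.symm u).im ∧
      Lk (sX X) {s | (s ∈ sX X ∧ s ∉ bX X) ∧ s ∈ UT P η j} (xx η W X j) u := by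
  have h1 := (FT_arm P hε hη).1 h
  rw [arm_tr' (Dt η ε hε hη) (mo_frm P (100 * η) j) hX hd
    (show 9 * η + 2 * d ≤ 12 * η by linarith) (show 51 * η + 2 * d ≤ 52 * η by linarith)
    (by linarith) (by rw [pre_UA P hε hη hj]; exact hH), pre_UA P hε hη hj] at h1
  obtain ⟨-, p, u, hp, hu, h2⟩ := h1
  refine ⟨u, hu, ?_⟩
  have e1 : (Dt η ε hε hη).g.mv (frm P (100 * η) j).e (ge W j) = gA η W j :=
    gt_eq (numC hε hη) P j
  have e2 : (frm P (100 * η) j).e.symm ⁻¹' (Dt η ε hε hη).Q = QA η W j := by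
    have h3 := pre_Q P (Dt η ε hε hη) j
    exact h3.trans (bx_eq (numC hε hη) j)
  rw [e1, e2] at hp
  have e3 : sdt η W X j = p := dg_eq hp
  unfold xx
  rw [e3]
  exact h2

/-- painted sets and coloured cells -/
theorem FT_chi {j : ℤ} (hj : tn W j = Tn.S) {S : Finset ℂ} {hS : GP (S : Set ℂ)} {h3 : 3 ≤ S.card}
    {U : Set ℂ} (hd : 0 < d) (hH : Hol (S : Set ℂ) U d) (hU : ZT P η j ⊆ U) (β : Finset ℂ) :
    FT P (100 * η) (armF η ε hε hη) j (Xc hS h3 (chiS hS h3 β)) =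
      FT P (100 * η) (armF η ε hε hη) j (paint S β) :=
  LawRx239.chi_loc (FT_loc P hε hη hj) fun _ _ hv ⟨a, h⟩ => (not_hull hd hH (hU hv) a).2 h

end tile

/-! ### levels in the family -/

section fam

variable (P : FPath (4 * (n + 2)) (Wi n)) {j : ℤ}

theorem nc_str (hj : Nc (n + 2) j) : tn (Wi n) j = Tn.S :=
  (pos_nc (K := n + 2) (by omega) (-1, -1) hj).straight (by omega)

theorem nc_wr (hj : Nc (n + 2) j) {A B h : ℝ} :
    (frm P h j).e.symm ⁻¹' WR A B h Tn.S = RR A B h (Wi n) j := by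
  ext s
  rw [mem_preimage, ← nc_str hj]
  exact mem_WR P j s

/-- **level of a point of a column** -/
theorem lev_col (hn : 0 < n) (hj : Nc (n + 2) j) {s : ℂ}
    (h1 : 0 < ((frm P (100 * et n) j).e.symm s).re)
    (h2 : ((frm P (100 * et n) j).e.symm s).re < 100 * et n)
    (h3 : -(50 * et n) < ((frm P (100 * et n) j).e.symm s).im) :
    sup (s - zB) = 1 / 2 + 100 * et n + ((frm P (100 * et n) j).e.symm s).im := by
  have h0 := et_pos hn
  have hm := et_mul hn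
  obtain ⟨z, hz, e1⟩ := (pos_nc (K := n + 2) (by omega) (-1, -1) hj).level (by omega)
    (h := 100 * et n) (by linarith) (Cu := {z | z = (frm P (100 * et n) j).e.symm s})
    (fun z hz => by
      rw [mem_ofPred_eq] at hz
      rw [hz]
      exact ⟨h1, h2, by linarith⟩) (s := s) rfl
  rw [sc_zB hn] at e1
  rw [mem_ofPred_eq] at hz
  rw [e1, hz]
  push_cast
  linear_combination hm / 2

/-- **level of a point of a tile** -/
theorem lev_rr (hn : 0 < n) {A B : ℝ} (hA : 0 < A) (hB : B ≤ 100 * et n) {s : ℂ}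
    (hs : s ∈ RR A B (100 * et n) (Wi n) j) : |sup (s - zB) - (1 / 2 + 100 * et n)| < A := by
  have h0 := et_pos hn
  have hm := et_mul hn
  have h1 := rr_sup (K := n + 2) (v := (-1, -1)) (by omega) (by linarith) hA hB hs
  rw [sc_zB hn] at h1
  have e : ((n + 2 : ℕ) : ℝ) * (100 * et n) / 2 = 1 / 2 + 100 * et n := by
    push_cast
    linear_combination hm / 2
  rw [e] at h1
  exact h1

/-- level of the points of the column -/
theorem lev_cu (hn : 0 < n) (hj : Nc (n + 2) j) {s : ℂ}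
    (hs : s ∈ colT P (100 * et n) (Cu (et n)) j) :
    1 / 2 + 99 * et n < sup (s - zB) ∧ sup (s - zB) < 1 / 2 + 1801 * et n := by
  have h0 := et_pos hn
  obtain ⟨⟨h1, h2⟩, h3, h4⟩ := hs
  rw [lev_col P hn hj (by linarith) (by linarith) (by linarith)]
  constructor <;> linarith

/-- level of the sites of the link -/
theorem lev_ut (hn : 0 < n) (hj : Nc (n + 2) j) {s : ℂ} (hs : s ∈ UT P (et n) j) :
    1 / 2 + 91 * et n < sup (s - zB) ∧ sup (s - zB) < 1 / 2 + 1800 * et n := by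
  have h0 := et_pos hn
  rcases hs with hs | ⟨⟨h1, h2⟩, h3, h4⟩
  · have h5 := abs_lt.1 (lev_rr hn (by linarith) (by linarith) hs)
    constructor <;> linarith
  · rw [lev_col P hn hj (by linarith) (by linarith) (by linarith)]
    constructor <;> linarith

theorem lev_zt (hn : 0 < n) (hj : Nc (n + 2) j) {s : ℂ} (hs : s ∈ ZT P (et n) j) :
    1 / 2 + 88 * et n < sup (s - zB) ∧ sup (s - zB) < 1 / 2 + 1801 * et n := by
  have h0 := et_pos hn
  rcases hs with hs | hs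
  · have h5 := abs_lt.1 (lev_rr hn (by linarith) (by linarith) hs)
    constructor <;> linarith
  · have h5 := lev_cu P hn hj hs
    exact ⟨by linarith, h5.2⟩

/-- **THE ARM IN THE FAMILY**: white link from the right site of the gate `j` to the level
`1 / 2 + 17 h` -/
theorem arm_fam (hn : 0 < n) (hj : Nc (n + 2) j) (hε : 0 < ε) (hη : 0 < et n) {X : Cf}
    (hX : X.Finite) (hd : 0 < d) (hd' : 100 * d ≤ et n) (hH : Hol (ps X) (UT P (et n) j) d)
    (h : FT P (100 * et n) (armF (et n) ε hε hη) j X ≠ 0) :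
    ∃ u, 1 / 2 + 17 * (100 * et n) ≤ sup (u - zB) ∧
      Lk (sX X) {s | (s ∈ sX X ∧ s ∉ bX X) ∧ s ∈ UT P (et n) j} (xx (et n) (Wi n) X j) u := by
  obtain ⟨u, hu, h2⟩ := arm_out P hε hη (nc_str hj) hX hd hd' hH h
  refine ⟨u, ?_, h2⟩
  have h3 : u ∈ UT P (et n) j := h2.1.2.2
  rcases h3 with h3 | ⟨⟨k1, k2⟩, k3, k4⟩
  · exfalso
    rw [← nc_wr P hj, mem_preimage] at h3
    rcases h3 with ⟨-, h4⟩ | ⟨-, h4⟩
    · have h5 := (abs_lt.1 h4).2
      linarith
    · rw [(ArmBx345.nx_symm _).2] at h4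
      have h5 := (abs_lt.1 h4).2
      linarith
  · rw [lev_col P hn hj (by linarith) (by linarith) (by linarith)]
    linarith

/-- **the arms of the painted set**, `J` = tiles of the arms -/
theorem arm_paint (hn : 0 < n) {J : Finset ℤ} (hJ : ∀ j ∈ J, Nc (n + 2) j) (hε : 0 < ε)
    (hη : 0 < et n) {S : Finset ℂ} {hS : GP (S : Set ℂ)} {h3 : 3 ≤ S.card} {U : Set ℂ}
    (hd : 0 < d) (hd' : 100 * d ≤ et n) (hH : Hol (S : Set ℂ) U d)
    (hU : ∀ s : ℂ, 1 / 2 + 88 * et n < sup (s - zB) → sup (s - zB) < 1 / 2 + 1801 * et n → s ∈ U)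
    {β : Finset ℂ} (h : FA P (100 * et n) (armF (et n) ε hε hη) J (paint S β) ≠ 0) {j : ℤ}
    (hj : j ∈ J) :
    ∃ u, 1 / 2 + 17 * (100 * et n) ≤ sup (u - zB) ∧
      Lk (sX (Xc hS h3 (chiS hS h3 β)))
        {s | (s ∈ sX (Xc hS h3 (chiS hS h3 β)) ∧ s ∉ bX (Xc hS h3 (chiS hS h3 β))) ∧
          s ∈ UT P (et n) j} (xx (et n) (Wi n) (Xc hS h3 (chiS hS h3 β)) j) u := by
  have h1 := FA_ne h hj
  rw [← FT_chi (hS := hS) (h3 := h3) P hε hη (nc_str (hJ j hj)) hd hH (fun s hs =>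
    hU s (lev_zt P hn (hJ j hj) hs).1 (lev_zt P hn (hJ j hj) hs).2) β] at h1
  refine arm_fam P hn (hJ j hj) hε hη fin_Xc hd hd' ?_ h1
  rw [ps_Xc]
  refine hH.mono fun s hs => ?_
  have h4 := lev_ut P hn (hJ j hj) hs
  exact hU s (by linarith [h4.1]) (by linarith [h4.2])

end fam

end Crest.Agent.R143.ArmIx366
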