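import Crest.Agent.R143.D3E_802

/-!
# Row 143 (S0194), block D3 without (E3), part 2: the law of free chains (helper802)

* `FArm` : a chain of sites of `V` without occupied edges which crosses an annulus
* `law` : its probability is at most twice the probability of a crossing by one colour
* `carm_pow` : many scales
-/

set_option autoImplicit false

noncomputable section

open scoped Classical

namespace Crest.Agent.R143.D3Fx802

open Crest.Agent.R143.B0x346 Crest.Agent.R143.DelGx806 Crest.Agent.R143.DelRx806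
open Crest.Agent.R143.Circx63 Crest.Agent.R143.JColx54 Crest.Agent.R143.Harx315
open Crest.Agent.R143.D3Ex802 Crest.Agent.R143.ToolWx838
open Crest.Agent.R143.Lawx872 (ConnIn)
open Crest.Agent.R143.CBx838 (Arm)

local notation "flp" => Crest.Agent.R143.X0Bx683.flip
local notation "bdy" => Crest.Agent.R143.X0Bx683.bd

variable {S : Finset ℂ} {N : Net ℂ} {V β : Finset ℂ} {J : Finset (ℂ × ℂ)} {t t' : ℂ × ℂ × ℂ}
  {p : ℂ} {r1 r2 : ℝ}

/-- a step without occupied edge inside `V` -/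
def FStep (S V : Finset ℂ) (J : Finset (ℂ × ℂ)) (a b : ℂ) : Prop :=
  a ∈ V ∧ b ∈ V ∧ Adj S a b ∧ (a, b) ∉ J ∧ (b, a) ∉ J

/-- a chain of sites of `V` without occupied edges across an annulus -/
def FArm (S V : Finset ℂ) (J : Finset (ℂ × ℂ)) (p : ℂ) (r1 r2 : ℝ) : Prop :=
  ∃ x y, x ∈ V ∧ y ∈ V ∧ ‖x - p‖ ≤ r1 ∧ r2 ≤ ‖y - p‖ ∧ Relation.ReflTransGen (FStep S V J) x y

/-- a chain of sites of the colour `β` across an annulus -/
def CArm (S β : Finset ℂ) (p : ℂ) (r1 r2 : ℝ) : Prop :=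
  ∃ x y, x ∈ β ∧ y ∈ β ∧ ‖x - p‖ ≤ r1 ∧ r2 ≤ ‖y - p‖ ∧ ConnIn S β x y

/-- along a path which does not leave `A` -/
theorem conn_of_steps {A : Finset ℂ} {R : ℂ → ℂ → Prop} {x y : ℂ}
    (hR : ∀ a b, R a b → Adj S a b ∧ (a ∈ A → b ∈ A)) (hx : x ∈ A)
    (h : Relation.ReflTransGen R x y) : y ∈ A ∧ ConnIn S A x y := by
  induction h with
  | refl => exact ⟨hx, Relation.ReflTransGen.refl⟩
  | tail _ hs ih =>
    obtain ⟨h1, h2⟩ := hR _ _ hs
    exact ⟨h2 ih.1, ih.2.tail ⟨h1, ih.1, h2 ih.1⟩⟩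

/-- **one join** -/
theorem law_one (h : HNet S N) (hV : J8x872.FreeS S N.kl V) (hg : Gd S V t)
    (hJ : IsJoin N.toTrg N.kl (rots t) N.exS J) :
    pr V (fun β => FArm S V (flp N.toTrg J β) p r1 r2) ≤ 2 * pr V (fun β => CArm S β p r1 r2) := by
  obtain ⟨τ, hτ⟩ := col_of_gd h hg hJ
  set T : Finset ℂ := V.filter fun s => τ s = true with hT
  have hTV : T ⊆ V := Finset.filter_subset _ _
  have hbd := J8x872.bd_mark' h hV
  have e1 : pr V (fun β => CArm S (symmDiff β T) p r1 r2) = pr V (fun β => CArm S β p r1 r2) := by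
    rw [← XW1x315.ex_ind, ← XW1x315.ex_ind]
    exact XW1x315.ex_symm hTV (fun β => if CArm S β p r1 r2 then (1 : ℝ) else 0)
  have e2 : pr V (fun β => CArm S (V \ symmDiff β T) p r1 r2) =
      pr V (fun β => CArm S β p r1 r2) := by
    have e3 : pr V (fun β => CArm S (V \ symmDiff β T) p r1 r2) =
        pr V (fun β => CArm S (V \ β) p r1 r2) := by
      rw [← XW1x315.ex_ind, ← XW1x315.ex_ind]
      exact XW1x315.ex_symm hTV (fun β => if CArm S (V \ β) p r1 r2 then (1 : ℝ) else 0)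
    rw [e3]
    exact pr_flip V fun β => CArm S β p r1 r2
  have e4 : pr V (fun β => FArm S V (flp N.toTrg J β) p r1 r2) ≤
      pr V (fun β => CArm S (symmDiff β T) p r1 r2 ∨ CArm S (V \ symmDiff β T) p r1 r2) := by
    apply pr_mono
    rintro β hβ ⟨x, y, hx, hy, h1, h2, h3⟩
    have step : ∀ a b, FStep S V (flp N.toTrg J β) a b →
        (a ∈ symmDiff β T ↔ b ∈ symmDiff β T) := by
      rintro a b ⟨ha, hb, hab, g1, g2⟩
      have h4 := J8x872.occ_flip (β := β) h.tri (hbd β hβ) hJ hab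
      have h5 : ¬ ((a, b) ∈ flp N.toTrg J β ∨ (b, a) ∈ flp N.toTrg J β) := by
        rintro (h6 | h6)
        · exact g1 h6
        · exact g2 h6
      rw [h4, ← hτ a ha b hb hab] at h5
      rw [Finset.mem_symmDiff, Finset.mem_symmDiff, hT, Finset.mem_filter, Finset.mem_filter]
      cases h7 : τ a <;> cases h8 : τ b <;> simp only [h7, h8] at h5 <;>
        by_cases h9 : a ∈ β <;> by_cases h10 : b ∈ β <;> simp_all
    by_cases hxs : x ∈ symmDiff β T
    · left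
      obtain ⟨h6, h7⟩ := conn_of_steps (A := symmDiff β T) (fun a b hab =>
        ⟨hab.2.2.1, (step a b hab).1⟩) hxs h3
      exact ⟨x, y, hxs, h6, h1, h2, h7⟩
    · right
      obtain ⟨h6, h7⟩ := conn_of_steps (A := V \ symmDiff β T) (fun a b hab =>
        ⟨hab.2.2.1, fun g => Finset.mem_sdiff.2 ⟨hab.2.1, fun g' =>
          (Finset.mem_sdiff.1 g).2 ((step a b hab).2 g')⟩⟩) (Finset.mem_sdiff.2 ⟨hx, hxs⟩) h3
      exact ⟨x, y, Finset.mem_sdiff.2 ⟨hx, hxs⟩, h6, h1, h2, h7⟩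
  refine e4.trans (pr_or_le.trans ?_)
  rw [e1, e2]
  linarith

/-- **the law of free chains** -/
theorem law (h : HNet S N) (hV : J8x872.FreeS S N.kl V) (hg : Gd S V t) (p : ℂ) (r1 r2 : ℝ) :
    (((N.tj t).filter fun J => FArm S V J p r1 r2).card : ℝ) ≤
      2 * pr V (fun β => CArm S β p r1 r2) * ((N.tj t).card : ℝ) := by
  rw [J8x872.card_tj h hV t]
  calc ∑ J ∈ N.tj t, pr V (fun β => FArm S V (flp N.toTrg J β) p r1 r2) ≤
      ∑ _J ∈ N.tj t, 2 * pr V (fun β => CArm S β p r1 r2) :=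
        Finset.sum_le_sum fun J hJ => law_one h hV hg (JCardx872.mem_joins.1 hJ)
    _ = _ := by rw [Finset.sum_const, nsmul_eq_mul]; ring

/-! ### scales -/

/-- a chain as a list -/
theorem list_of_conn {x y : ℂ} (hy : y ∈ β) (h : ConnIn S β x y) :
    ∃ (l : List ℂ) (ne : l ≠ []), (∀ q ∈ prs l, Blkx838.DE S q.1 q.2) ∧ (∀ s ∈ l, s ∈ β) ∧
      l.head ne = x ∧ l.getLast ne = y := by
  induction h using Relation.ReflTransGen.head_induction_on with
  | refl => exact ⟨[y], by simp, by simp [prs], by simpa using hy, rfl, rfl⟩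
  | head hs _ ih =>
    obtain ⟨l, ne, h1, h2, h3, h4⟩ := ih
    rename_i a c _
    obtain ⟨z, l', rfl⟩ := List.exists_cons_of_ne_nil ne
    simp only [List.head_cons] at h3
    refine ⟨a :: z :: l', by simp, ?_, ?_, rfl, ?_⟩
    · intro q hq
      simp only [prs, List.mem_cons] at hq
      rcases hq with rfl | hq
      · rw [h3]; exact hs.1
      · exact h1 q hq
    · intro s hsm
      rcases List.mem_cons.1 hsm with rfl | hsm
      · exact hs.2.1
      · exact h2 s hsm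
    · rw [List.getLast_cons (by simp)]
      exact h4

/-- a crossing of an annulus contains a crossing of a smaller annulus -/
theorem extract {a b e : ℝ} (hab : a < b)
    (hst : ∀ u v, Adj S u v → ‖u - p‖ < b → ‖v - u‖ ≤ e) {x y : ℂ} (hx : x ∈ β)
    (hxa : ‖x - p‖ ≤ a) (hyb : b ≤ ‖y - p‖) (h : ConnIn S β x y) :
    ∃ x' y', x' ∈ β.filter (fun s => a - e ≤ ‖s - p‖ ∧ ‖s - p‖ ≤ b + e) ∧
      y' ∈ β.filter (fun s => a - e ≤ ‖s - p‖ ∧ ‖s - p‖ ≤ b + e) ∧ ‖x' - p‖ ≤ a ∧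
      b ≤ ‖y' - p‖ ∧ ConnIn S (β.filter fun s => a - e ≤ ‖s - p‖ ∧ ‖s - p‖ ≤ b + e) x' y' := by
  set A := β.filter fun s => a - e ≤ ‖s - p‖ ∧ ‖s - p‖ ≤ b + e with hA
  have tri : ∀ u v : ℂ, ‖v - p‖ ≤ ‖v - u‖ + ‖u - p‖ := fun u v => by
    have := norm_add_le (v - u) (u - p)
    rwa [sub_add_sub_cancel] at this
  -- along the chain
  have key : ∀ z, ConnIn S β x z → z ∈ β ∧ ((∃ x' y', x' ∈ A ∧ y' ∈ A ∧ ‖x' - p‖ ≤ a ∧
      b ≤ ‖y' - p‖ ∧ ConnIn S A x' y') ∨ (‖z - p‖ < b ∧ (‖z - p‖ ≤ a ∨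
        ∃ x', x' ∈ A ∧ ‖x' - p‖ ≤ a ∧ z ∈ A ∧ ConnIn S A x' z))) := by
    intro z hz
    induction hz with
    | refl => exact ⟨hx, Or.inr ⟨by linarith, Or.inl hxa⟩⟩
    | tail _ hs ih =>
      rename_i u v _
      obtain ⟨h1, h2, h3⟩ := hs
      refine ⟨h3, ?_⟩
      rcases ih.2 with g | ⟨g1, g2⟩
      · exact Or.inl g
      have h4 := hst u v h1 g1
      have h5 := tri u v
      have h6 := tri v u
      rw [norm_sub_rev] at h6
      by_cases hv : ‖v - p‖ ≤ a
      · exact Or.inr ⟨by linarith, Or.inl hv⟩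
      push Not at hv
      have hvA : v ∈ A := by
        rw [hA, Finset.mem_filter]
        have he : 0 ≤ e := (norm_nonneg _).trans h4
        exact ⟨h3, by linarith, by linarith⟩
      -- the chain inside `A`
      have hch : ∃ x', x' ∈ A ∧ ‖x' - p‖ ≤ a ∧ ConnIn S A x' v := by
        rcases g2 with g2 | ⟨x', g2, g3, g4, g5⟩
        · have huA : u ∈ A := by
            rw [hA, Finset.mem_filter]
            have he : 0 ≤ e := (norm_nonneg _).trans h4
            exact ⟨h2, by linarith, by linarith⟩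
          exact ⟨u, huA, g2, Relation.ReflTransGen.single ⟨h1, huA, hvA⟩⟩
        · exact ⟨x', g2, g3, g5.tail ⟨h1, g4, hvA⟩⟩
      obtain ⟨x', k1, k2, k3⟩ := hch
      by_cases hvb : b ≤ ‖v - p‖
      · exact Or.inl ⟨x', v, k1, hvA, k2, hvb, k3⟩
      · push Not at hvb
        exact Or.inr ⟨hvb, Or.inr ⟨x', k1, k2, hvA, k3⟩⟩
  rcases (key y h).2 with g | ⟨g, -⟩
  · exact g
  · linarith

/-- **many scales** -/
theorem carm_pow (hV : V ⊆ S) {r q : ℝ} (hr : 0 < r) (m : ℕ)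
    (h1 : ∀ j < m, ∀ W ⊆ S, pr W (fun β => ∃ l, Arm S p (8 ^ j * r) (3 * (8 ^ j * r)) β l) ≤ q)
    (hst : ∀ u v, Adj S u v → ‖u - p‖ < 8 ^ m * r → ‖v - u‖ ≤ r / 4)
    (hr1 : r1 ≤ r) (hr2 : 8 ^ m * r ≤ r2) :
    pr V (fun β => CArm S β p r1 r2) ≤ q ^ m := by
  set W : ℕ → Finset ℂ := fun j => V.filter fun s => 8 ^ j * r / 2 < ‖s - p‖ ∧
    ‖s - p‖ < 4 * (8 ^ j * r) with hW
  set A : ℕ → Finset ℂ → Prop := fun j β =>
    ∃ l, Arm S p (8 ^ j * r) (3 * (8 ^ j * r)) (β ∩ W j) l with hA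
  have hpow : ∀ j : ℕ, (1 : ℝ) ≤ 8 ^ j := fun j => one_le_pow₀ (by norm_num)
  have hmono : ∀ i j : ℕ, i ≤ j → (8 : ℝ) ^ i ≤ 8 ^ j := fun i j h =>
    pow_le_pow_right₀ (by norm_num) h
  have s1 : pr V (fun β => CArm S β p r1 r2) ≤ pr V (fun β => ∀ j ∈ Finset.range m, A j β) := by
    apply pr_mono
    rintro β hβ ⟨x, y, hx, hy, g1, g2, g3⟩ j hj
    rw [Finset.mem_range] at hj
    have hjr : 0 < 8 ^ j * r := by positivity
    have h8 : 8 ^ (j + 1) * r ≤ 8 ^ m * r := mul_le_mul_of_nonneg_right (hmono _ _ hj) hr.le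
    have h8' : (8 : ℝ) ^ (j + 1) * r = 8 * (8 ^ j * r) := by ring
    have hjr1 : r ≤ 8 ^ j * r := by
      have := mul_le_mul_of_nonneg_right (hpow j) hr.le
      linarith
    obtain ⟨x', y', k1, k2, k3, k4, k5⟩ := extract (S := S) (β := β) (p := p)
      (a := 8 ^ j * r) (b := 3 * (8 ^ j * r)) (e := r / 4)
      (by linarith) (fun u v huv hu => hst u v huv (by linarith)) hx (by linarith) (by linarith) g3
    have hsub : ∀ s ∈ β.filter (fun s => 8 ^ j * r - r / 4 ≤ ‖s - p‖ ∧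
        ‖s - p‖ ≤ 3 * (8 ^ j * r) + r / 4), s ∈ β ∩ W j := by
      intro s hs
      rw [Finset.mem_filter] at hs
      rw [hW, Finset.mem_inter, Finset.mem_filter]
      exact ⟨hs.1, hβ hs.1, by linarith [hs.2.1], by linarith [hs.2.2]⟩
    obtain ⟨l, ne, l1, l2, l3, l4⟩ := list_of_conn k2 k5
    exact ⟨l, ⟨ne, l1, fun s hs => hsub s (l2 s hs), by rw [l3]; exact k3, by rw [l4]; exact k4⟩⟩
  have hWV : ∀ j, W j ⊆ V := fun j => Finset.filter_subset _ _
  have hdep : ∀ j, Dep V (W j) (A j) := by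
    intro j β _
    rw [hA]
    simp only [Finset.inter_assoc, Finset.inter_self]
  have s2 : pr V (fun β => ∀ j ∈ Finset.range m, A j β) = ∏ j ∈ Finset.range m, pr V (A j) := by
    apply pr_indep_prod _ (W := W) _ (fun j _ => hdep j)
    have hlt : ∀ i j : ℕ, i < j → Disjoint (W i) (W j) := by
      intro i j hij
      rw [Finset.disjoint_left]
      intro s hs hs'
      rw [hW, Finset.mem_filter] at hs hs'
      have h8 : 8 ^ (i + 1) * r ≤ 8 ^ j * r := mul_le_mul_of_nonneg_right (hmono _ _ hij) hr.le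
      have h8' : (8 : ℝ) ^ (i + 1) * r = 8 * (8 ^ i * r) := by ring
      linarith [hs.2.2, hs'.2.1]
    intro i _ j _ hij
    rcases lt_or_gt_of_ne hij with h | h
    · exact hlt i j h
    · exact (hlt j i h).symm
  rw [s2] at s1
  refine s1.trans ?_
  have s3 : ∀ j ∈ Finset.range m, pr V (A j) ≤ q := by
    intro j hj
    rw [pr_dep (hWV j) (hdep j)]
    have : pr (W j) (A j) = pr (W j) (fun β => ∃ l, Arm S p (8 ^ j * r) (3 * (8 ^ j * r)) β l) := by
      apply pr_congr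
      intro β hβ
      rw [hA]
      simp only [Finset.inter_eq_left.2 hβ]
    rw [this]
    exact h1 j (Finset.mem_range.1 hj) _ ((hWV j).trans hV)
  calc ∏ j ∈ Finset.range m, pr V (A j) ≤ ∏ _j ∈ Finset.range m, q :=
        Finset.prod_le_prod (fun j _ => pr_nonneg) s3
    _ = q ^ m := by rw [Finset.prod_const, Finset.card_range]

end Crest.Agent.R143.D3Fx802
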