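import Crest.Agent.R143.RBE_723
import Crest.Agent.R143.D3F_802

/-!
# Row 143: the one-arm bound with a power, quenched, without E3 (helper930)

* `adj_small` : adjacent sites in a dense disc are close
* `arm` : `P(chain of one colour across A(p; r, R)) ≤ C (r / R) ^ c`, any set of free sites
-/

set_option autoImplicit false

noncomputable section

open scoped Classical

namespace Crest.Agent.R143.ArmPx930

open Crest.Agent.R143.B0x346 Crest.Agent.R143.DelGx806 Crest.Agent.R143.DelRx806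
open Crest.Agent.R143.Circx63 Crest.Agent.R143.JColx54 Crest.Agent.R143.Harx315
open Crest.Agent.R143.D3Fx802 Crest.Agent.R143.ToolWx838
open Crest.Agent.R143.RB0x838 (LDns Mesh)
open Crest.Agent.R143.RBmx838 (MeshA)
open Crest.Agent.R143.CBx838 (Arm)

variable {S V : Finset ℂ} {p : ℂ} {d r R : ℝ}

/-- adjacent sites in a dense disc are close -/
theorem adj_small (h : LDns S p R d) {u v : ℂ} (ha : Adj S u v) (hu : ‖u - p‖ + d ≤ R) :
    ‖v - u‖ < 2 * d := by
  have hH : Locx922.Hol (S : Set ℂ) {w | ‖w - p‖ + d ≤ R} d := by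
    intro w hw z hz
    have hw' : ‖w - p‖ + d ≤ R := hw
    obtain ⟨s, hs, h1⟩ := h.hole z (by
      have := Locx922.norm_tri z w p
      linarith)
    exact ⟨s, hs, h1⟩
  rcases ha with ⟨c, hc⟩ | ⟨c, hc⟩
  · obtain ⟨o, -, -, -, -, -, -, h7, -⟩ := Locx922.del_small h.dpos hH
      (show u ∈ {w | ‖w - p‖ + d ≤ R} from hu) (Locx922.inD_self u v c) (mem_delT.1 hc)
    exact h7
  · obtain ⟨o, -, -, -, -, -, h6, -, -⟩ := Locx922.del_small h.dpos hH
      (show u ∈ {w | ‖w - p‖ + d ≤ R} from hu) (Locx922.inD_snd v u c) (mem_delT.1 hc)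
    exact h6

theorem ldns_mono {R' : ℝ} (h : LDns S p R d) (hR : R' ≤ R) : LDns S p R' d :=
  ⟨h.gp, h.dpos, fun z hz => h.hole z (hz.trans hR)⟩

theorem mesh_mono {R' b C : ℝ} (h : Mesh S p R b C) (hR : R' ≤ R) : Mesh S p R' b C :=
  fun z hz => h z (hz.trans hR)

/-- **one arm** -/
theorem arm : ∀ C4 : ℝ, 0 ≤ C4 → ∃ C c c1 c2 K : ℝ, 0 < C ∧ 0 < c ∧ 0 < c1 ∧ 0 < c2 ∧ c2 ≤ 1 ∧
    1 ≤ K ∧ ∀ (S : Finset ℂ) (p : ℂ) (d r R : ℝ), 0 < r → r ≤ R → LDns S p (K * R) d →
    (∀ b, c2 * r ≤ b → b ≤ R → Mesh S p (K * R) b C4) → d ≤ c1 * r → ∀ V ⊆ S,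
    pr V (fun β => CArm S β p r R) ≤ C * (r / R) ^ c := by
  intro C4 hC4
  obtain ⟨p0, c1, c2, K, hp, hc1, hc2, hc2', hK, H⟩ := RBmx838.cbm RBEx723.rbm C4 hC4
  set q : ℝ := max (1 - p0) (1 / 2) with hq
  have q1 : q < 1 := max_lt (by linarith) (by norm_num)
  have q2 : 1 / 2 ≤ q := le_max_right _ _
  have q0 : 0 < q := by linarith
  have h8 : 0 < Real.log 8 := Real.log_pos (by norm_num)
  have hlq : Real.log q < 0 := Real.log_neg q0 q1
  set c : ℝ := -Real.log q / Real.log 8 with hc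
  have c0 : 0 < c := div_pos (by linarith) h8
  refine ⟨2, c, min c1 (1 / 8), c2, max K 2, by norm_num, c0, by positivity, hc2, hc2',
    le_trans (by norm_num) (le_max_right _ _), ?_⟩
  intro S p d r R hr hrR hD hM hd V hV
  have hR : 0 < R := hr.trans_le hrR
  have hd1 : d ≤ c1 * r := hd.trans (mul_le_mul_of_nonneg_right (min_le_left _ _) hr.le)
  have hd2 : d ≤ 1 / 8 * r := hd.trans (mul_le_mul_of_nonneg_right (min_le_right _ _) hr.le)
  have hdp := hD.dpos
  have hK2 : 2 * R ≤ max K 2 * R := mul_le_mul_of_nonneg_right (le_max_right _ _) hR.le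
  have hKK : K * R ≤ max K 2 * R := mul_le_mul_of_nonneg_right (le_max_left _ _) hR.le
  have hx0 : 0 ≤ Real.log (R / r) / Real.log 8 :=
    div_nonneg (Real.log_nonneg ((one_le_div hr).2 hrR)) h8.le
  set m : ℕ := ⌊Real.log (R / r) / Real.log 8⌋₊ with hm
  have m1 : (m : ℝ) ≤ Real.log (R / r) / Real.log 8 := Nat.floor_le hx0
  have m2 : Real.log (R / r) / Real.log 8 < m + 1 := Nat.lt_floor_add_one _
  have m3 : 8 ^ m * r ≤ R := by
    rw [le_div_iff₀ h8] at m1
    have h1 : Real.log (8 ^ m) ≤ Real.log (R / r) := by rwa [Real.log_pow]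
    have h2 := (Real.log_le_log_iff (by positivity) (div_pos hR hr)).1 h1
    rwa [le_div_iff₀ hr] at h2
  have key : pr V (fun β => CArm S β p r R) ≤ q ^ m := by
    refine carm_pow (S := S) hV hr m ?_ ?_ le_rfl m3
    · intro j hj W hW
      have e1 : (8 : ℝ) ^ j ≤ 8 ^ m := pow_le_pow_right₀ (by norm_num) hj.le
      have e2 : (8 : ℝ) ^ j * r ≤ R := (mul_le_mul_of_nonneg_right e1 hr.le).trans m3
      have e3 : (1 : ℝ) ≤ 8 ^ j := one_le_pow₀ (by norm_num)
      have e4 : r ≤ 8 ^ j * r := by nlinarith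
      have e5 : K * (8 ^ j * r) ≤ max K 2 * R :=
        (mul_le_mul_of_nonneg_left e2 hK.le).trans hKK
      refine (H S p (8 ^ j * r) d (by positivity) (ldns_mono hD e5) ?_ ?_ W hW).trans
        (le_max_left _ _)
      · intro b hb1 hb2
        refine mesh_mono (hM b ?_ (hb2.trans e2)) e5
        exact (mul_le_mul_of_nonneg_left e4 hc2.le).trans hb1
      · exact hd1.trans (mul_le_mul_of_nonneg_left e4 hc1.le)
    · intro u v huv hu
      have h1 := adj_small hD huv (by linarith)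
      linarith
  refine key.trans ?_
  have h3 : q ^ m = Real.exp (m * Real.log q) := by
    rw [mul_comm, Real.exp_mul, Real.exp_log q0, Real.rpow_natCast]
  have h4 : (r / R) ^ c = Real.exp (Real.log (R / r) / Real.log 8 * Real.log q) := by
    rw [Real.rpow_def_of_pos (div_pos hr hR), hc]
    congr 1
    have : Real.log (r / R) = -Real.log (R / r) := by
      rw [← Real.log_inv, inv_div]
    rw [this]
    field_simp
  rw [h3, h4]
  have h5 : (m : ℝ) * Real.log q ≤ Real.log 2 + Real.log (R / r) / Real.log 8 * Real.log q := by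
    have h6 : -Real.log 2 ≤ Real.log q := by
      rw [← Real.log_inv]
      exact Real.log_le_log (by norm_num) (by linarith)
    nlinarith
  calc Real.exp (m * Real.log q)
      ≤ Real.exp (Real.log 2 + Real.log (R / r) / Real.log 8 * Real.log q) := Real.exp_le_exp.2 h5
    _ = 2 * Real.exp (Real.log (R / r) / Real.log 8 * Real.log q) := by
        rw [Real.exp_add, Real.exp_log (by norm_num)]

end Crest.Agent.R143.ArmPx930
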