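import Crest.Agent.R143.ArmD_345

/-!
# Row 143, block H, box R1 (ARM BOX), quenched bound (helper345)

* `qarm` : **quenched probability of the full tile, the white tile above and the arm**, from the four
  half events and the lanes
-/

set_option autoImplicit false

noncomputable section

open scoped Classical

namespace Crest.Agent.R143.ArmQx345

open MeasureTheory Set ProbabilityTheory Filter Topology
open Crest.ProbabilityR.Voronoi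
open Crest.Agent.R143.B0x346 (GP)
open Crest.Agent.R143.PP0x831 Crest.Agent.R143.Poisx304 Crest.Agent.R143.Janx304
open Crest.Agent.R143.IndLocx279 Crest.Agent.R143.IndLoc3x279
open Crest.Agent.R143.PWx978 Crest.Agent.R143.Tplx978
open Crest.Agent.R143.Fairx653 Crest.Agent.R143.Posx653 Crest.Agent.R143.TplIx204
open Crest.Agent.R143.QTbx653 Crest.Agent.R143.CBx838
open Crest.Agent.R143.PthFx765 Crest.Agent.R143.WLocx713 Crest.Agent.R143.TileRx228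
open Crest.Agent.R143.Harx315 (pr pr_mono Dn harris_dn pr_nonneg)
open Crest.Agent.R143.PP1x831 (rad)
open Crest.Agent.R143.Locx922 (Hol Agr)
open Crest.Agent.R143.Gatex838 Crest.Agent.R143.TileRRx345
open Crest.Agent.R143.Neckx921 (Tile Lk lk_list)
open Crest.Agent.R143.Thetax73 (Su theta_ge Gd)
open Crest.Agent.R143.RHx73
open Crest.Agent.R143.Halfx73 (g0 ZR ZL RH LH Q0 WQ_Q0 gS gB gB_sub KBR KWR KBL KWL net net_near
  KR_bdd KL_bdd bxR bxL nearR nearL zbR zwR zbL zwL cut_eq HX_mv hf_scale mem_sx mem_bk bX_bk sX_sx)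
open Crest.Agent.R143.Prodx609 Crest.Agent.R143.FinMx609 Crest.Agent.R143.FinM2x609
open Crest.Agent.R143.PosFx653 Crest.Agent.R143.ArmAx345 Crest.Agent.R143.ArmBx345
open Crest.Agent.R143.ArmCx345 Crest.Agent.R143.ArmDx345

variable {η d a ε : ℝ}

/-- the rectangle of a straight tile -/
theorem re_box (hη : 0 < η) {w : ℂ} (h2 : w ∈ Re 100 0 (η : ℂ) (v1 η) (η : ℂ)) :
    w ∈ WR (9 * η) (51 * η) (100 * η) Tn.S := by
  rcases h2 with ⟨⟨a1, a2⟩, a3, a4⟩ | ⟨⟨a1, a2⟩, a3, a4⟩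
  · rw [X_v, lt_div_iff₀ hη] at a1
    rw [X_v, div_lt_iff₀ hη] at a2
    rw [Y_v, lt_div_iff₀ hη] at a3
    rw [Y_v, div_lt_iff₀ hη] at a4
    rw [Complex.zero_re] at a1 a2
    rw [Complex.zero_im] at a3 a4
    refine m_WR (by linarith) (by linarith) ?_
    rw [abs_lt]
    constructor <;> linarith
  · rw [X_v, lt_div_iff₀ hη] at a1
    rw [X_v, div_lt_iff₀ hη] at a2
    rw [Y_v, lt_div_iff₀ hη] at a3
    rw [Y_v, div_lt_iff₀ hη] at a4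
    rw [v1_re] at a1 a2
    rw [v1_im] at a3 a4
    refine m_WR (by linarith) (by linarith) ?_
    rw [abs_lt]
    constructor <;> linarith

/-- the rectangle of the tile above -/
theorem re_box' (hη : 0 < η) {w : ℂ} (h2 : w ∈ Re 100 (v3 η) (η : ℂ) (v4 η) (η : ℂ)) :
    w ∈ (up η).e.symm ⁻¹' WR (9 * η) (51 * η) (100 * η) Tn.S := by
  show (up η).e.symm w ∈ WR (9 * η) (51 * η) (100 * η) Tn.S
  rcases h2 with ⟨⟨a1, a2⟩, a3, a4⟩ | ⟨⟨a1, a2⟩, a3, a4⟩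
  · rw [X_v, lt_div_iff₀ hη] at a1
    rw [X_v, div_lt_iff₀ hη] at a2
    rw [Y_v, lt_div_iff₀ hη] at a3
    rw [Y_v, div_lt_iff₀ hη] at a4
    rw [v3_re] at a1 a2
    rw [v3_im] at a3 a4
    refine m_WR (by rw [(up_symm w).1]; linarith) (by rw [(up_symm w).1]; linarith) ?_
    rw [(up_symm w).2, abs_lt]
    constructor <;> linarith
  · rw [X_v, lt_div_iff₀ hη] at a1
    rw [X_v, div_lt_iff₀ hη] at a2
    rw [Y_v, lt_div_iff₀ hη] at a3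
    rw [Y_v, div_lt_iff₀ hη] at a4
    rw [v4_re] at a1 a2
    rw [v4_im] at a3 a4
    refine m_WR (by rw [(up_symm w).1]; linarith) (by rw [(up_symm w).1]; linarith) ?_
    rw [(up_symm w).2, abs_lt]
    constructor <;> linarith

/-- the column of the rope -/
theorem co_im (hη : 0 < η) {s : ℂ} (h : s ∈ Co 0 (η : ℂ)) :
    (39 * η ≤ s.re ∧ s.re ≤ 64 * η) ∧ 3 * η ≤ s.im ∧ s.im ≤ 1635 * η := by
  obtain ⟨⟨h1, h2⟩, h3, h4⟩ := h
  rw [X_v, le_div_iff₀ hη, Complex.zero_re] at h1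
  rw [X_v, div_le_iff₀ hη, Complex.zero_re] at h2
  rw [Y_v, le_div_iff₀ hη, Complex.zero_im] at h3
  rw [Y_v, div_le_iff₀ hη, Complex.zero_im] at h4
  exact ⟨⟨by linarith, by linarith⟩, by linarith, by linarith⟩

theorem kw_WR (hη : 0 < η) {w : ℂ} (h : w ∈ KBR η ∪ KWR η) :
    w ∈ WR (9 * η) (51 * η) (100 * η) Tn.S := by
  rcases h with ⟨⟨h1, h2⟩, h3, -⟩ | ⟨⟨h1, h2⟩, h3, -⟩ <;> exact m_WR h1 (by linarith) h3

theorem kl_WR' (hη : 0 < η) {w : ℂ}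
    (h : (nxt (100 * η) Tn.S).e.symm w ∈ KBL η ∪ KWL η) :
    w ∈ WR (9 * η) (51 * η) (100 * η) Tn.S := by
  have h0 := nx_symm (η := η) w
  rcases h with ⟨⟨h1, h2⟩, h3, -⟩ | ⟨⟨h1, h2⟩, h3, -⟩ <;> rw [h0.1] at h1 h2 <;> rw [h0.2] at h3 <;>
    exact m_WR (by linarith) (by linarith) h3

/-- **the white events of the box** -/
def Mw (η : ℝ) (M1 M2 M3 : Finset ℂ) (K3 P3 K4 P4 : Set ℂ) (c3 c4 A : Finset ℂ) : Prop :=
  ((MidW M1 100 0 (η : ℂ) (v1 η) (η : ℂ) A ∧ MidW M3 100 0 (η : ℂ) (v1 η) (η : ℂ) A) ∧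
    Rope M3 0 (η : ℂ) A) ∧ MidW M2 100 (v3 η) (η : ℂ) (v4 η) (η : ℂ) A ∧
    Hf M2 (v3 η) (η : ℂ) 10 (101 / 10) 2 8 (1 / 20) K3 P3 (A ∪ c3) ∧
    Hf M2 (v4 η) (η : ℂ) (-(101 / 10)) (-10) 2 8 (1 / 20) K4 P4 (A ∪ c4)

section

variable {M1 M2 M3 : Finset ℂ} {K3 P3 K4 P4 : Set ℂ} {c3 c4 : Finset ℂ}

theorem mo_Mw : Thetax73.Mo (Mw η M1 M2 M3 K3 P3 K4 P4 c3 c4) :=
  mo_and (mo_and (mo_and mo_midW mo_midW) mo_rope)
    (mo_and mo_midW (mo_and (mo_un Hf.mo c3) (mo_un Hf.mo c4)))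

/-- probability of the white events -/
theorem pr_Mw {T : Finset ℂ} {p b : ℝ} (hp : 0 ≤ p) (hb : 0 ≤ b)
    (h1 : p ≤ pr T fun τ => MidW M1 100 0 (η : ℂ) (v1 η) (η : ℂ) (T \ τ))
    (h2 : p ≤ pr T fun τ => MidW M3 100 0 (η : ℂ) (v1 η) (η : ℂ) (T \ τ))
    (h3 : p ^ 31 ≤ pr T fun τ => Rope M3 0 (η : ℂ) (T \ τ))
    (h4 : p ≤ pr T fun τ => MidW M2 100 (v3 η) (η : ℂ) (v4 η) (η : ℂ) (T \ τ))
    (h5 : b ≤ pr T fun τ => Hf M2 (v3 η) (η : ℂ) 10 (101 / 10) 2 8 (1 / 20) K3 P3 ((T \ τ) ∪ c3))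
    (h6 : b ≤ pr T fun τ => Hf M2 (v4 η) (η : ℂ) (-(101 / 10)) (-10) 2 8 (1 / 20) K4 P4
      ((T \ τ) ∪ c4)) :
    p ^ 34 * b ^ 2 ≤ pr T fun τ => Mw η M1 M2 M3 K3 P3 K4 P4 c3 c4 (T \ τ) := by
  have e : p ^ 34 * b ^ 2 = ((p * p) * p ^ 31) * (p * (b * b)) := by ring
  rw [e]
  refine har2 (mo_and (mo_and mo_midW mo_midW) mo_rope)
    (mo_and mo_midW (mo_and (mo_un Hf.mo c3) (mo_un Hf.mo c4))) (by positivity) ?_ ?_
  · exact har2 (mo_and mo_midW mo_midW) mo_rope (by positivity) (har2 mo_midW mo_midW hp h1 h2) h3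
  · exact har2 mo_midW (mo_and (mo_un Hf.mo c3) (mo_un Hf.mo c4)) (by positivity) h4
      (har2 (mo_un Hf.mo c3) (mo_un Hf.mo c4) hb h5 h6)

/-- support of the white events -/
theorem su_Mw (hη : 0 < η) {T G3 G4 : Finset ℂ} (d3 : Disjoint G3 T) (d4 : Disjoint G4 T)
    (hc3 : c3 ⊆ G3) (hc4 : c4 ⊆ G4) (k3 : ∀ s ∈ T, s ∈ K3 → η < s.im)
    (k4 : ∀ s ∈ T, s ∈ K4 → η < s.im) :
    Su T (T.filter fun s => η < s.im) (Mw η M1 M2 M3 K3 P3 K4 P4 c3 c4) := by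
  have he : (η : ℂ) ≠ 0 := by exact_mod_cast hη.ne'
  have f1 : ∀ s ∈ T, η < s.im → s ∈ T.filter fun s => η < s.im := fun s h1 h2 =>
    Finset.mem_filter.2 ⟨h1, h2⟩
  have s1 : ∀ M : Finset ℂ, Su T (T.filter fun s => η < s.im)
      (MidW M 100 0 (η : ℂ) (v1 η) (η : ℂ)) := fun M =>
    su_midW he (by norm_num) fr12 fun s hs h3 _ _ => f1 s hs (by
      have := wh_im hη h3
      rwa [Complex.zero_im, sub_zero] at this)
  have s2 : Su T (T.filter fun s => η < s.im) (MidW M2 100 (v3 η) (η : ℂ) (v4 η) (η : ℂ)) :=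
    su_midW he (by norm_num) fr34 fun s hs h3 _ _ => f1 s hs (by
      have := wh_im hη h3
      rw [v3_im] at this
      linarith)
  have s3 : Su T (T.filter fun s => η < s.im) (Rope M3 0 (η : ℂ)) :=
    su_rope he fun s hs h => f1 s hs (by linarith [(co_im hη h).2.1])
  refine su_and (su_and (su_and (s1 M1) (s1 M3)) s3) (su_and s2 (su_and ?_ ?_))
  · refine su_un d3 hc3 (fun s hs h => f1 s hs (k3 s hs h)) fun s hs _ _ h3 _ => f1 s hs ?_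
    rw [Y_v, v3_im, le_div_iff₀ hη] at h3
    linarith
  · refine su_un d4 hc4 (fun s hs h => f1 s hs (k4 s hs h)) fun s hs _ _ h3 _ => f1 s hs ?_
    rw [Y_v, v4_im, le_div_iff₀ hη] at h3
    linarith

end

/-! ### the quenched bound -/

/-- **quenched probability of the box**: `S` = configuration of the four gates, `T` = fresh positions -/
theorem qarm (hε : 0 < ε) (hη : 0 < η) (hd : 0 < d) (hdη : 4 * d ≤ η) {b p : ℝ} (hb0 : 0 ≤ b)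
    (hb1 : b ≤ 1) (hp : 0 ≤ p) (hp1 : p ≤ 1) {S : Cf} {T : Finset ℂ} (hS : S.Finite) (hc : Sc S)
    (hSQ : S ⊆ ovr (B4 (Dx η d a ε hε hη) η)) (hT : ∀ s ∈ T, s ∈ CT (Dx η d a ε hε hη) η)
    (hgp : GP (psn S ∪ T)) {x1 x2 x3 x4 : ℂ × ℂ} (g1 : LG (g0 η) (Q0 η) S x1)
    (g2 : LG ((g0 η).mv (nxt (100 * η) Tn.S).e (rot Tn.S))
      ((nxt (100 * η) Tn.S).e.symm ⁻¹' Q0 η) S x2)
    (g3 : LG ((g0 η).mv (up η).e 1) ((up η).e.symm ⁻¹' Q0 η) S x3)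
    (g4 : LG ((g0 η).mv (f4 η).e (1 * rot Tn.S)) ((f4 η).e.symm ⁻¹' Q0 η) S x4)
    (h1 : b ≤ pr T fun τ => RH η d (S ∪ clr T τ))
    (h2 : b ≤ pr T fun τ => tr (nxt (100 * η) Tn.S).e (LH η d) (S ∪ clr T τ))
    (h3 : b ≤ pr T fun τ => tr (up η).e (RH η d) (S ∪ clr T τ))
    (h4 : b ≤ pr T fun τ => tr (up η).e (tr (nxt (100 * η) Tn.S).e (LH η d)) (S ∪ clr T τ))
    {M1 M2 M3 : Finset ℂ}
    (e1 : M1 = (sx S ∪ T).filter (· ∈ (Dx η d a ε hε hη).Z Tn.S))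
    (e2 : M2 = (sx S ∪ T).filter (· ∈ (up η).e.symm ⁻¹' (Dx η d a ε hε hη).Z Tn.S))
    (e3 : M3 = (sx S ∪ T).filter (· ∈ ZA (Dx η d a ε hε hη) η))
    (mB : p ≤ pr T (MidB M1 100 0 (η : ℂ) (v1 η) (η : ℂ)))
    (mW : p ≤ pr T fun τ => MidW M1 100 0 (η : ℂ) (v1 η) (η : ℂ) (T \ τ))
    (mW3 : p ≤ pr T fun τ => MidW M3 100 0 (η : ℂ) (v1 η) (η : ℂ) (T \ τ))
    (mR : p ^ 31 ≤ pr T fun τ => Rope M3 0 (η : ℂ) (T \ τ))
    (mW2 : p ≤ pr T fun τ => MidW M2 100 (v3 η) (η : ℂ) (v4 η) (η : ℂ) (T \ τ)) :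
    b * ((p ^ 34 * b ^ 2) * (p ^ 34 * b ^ 2)) * b ≤ pr T fun τ =>
      (Dx η d a ε hε hη).TE (Tn.S, true) (S ∪ clr T τ) ∧
      tr (up η).e ((Dx η d a ε hε hη).TE (Tn.S, false)) (S ∪ clr T τ) ∧
      ArmE (Dx η d a ε hε hη) η (S ∪ clr T τ) := by
  set P := Dx η d a ε hε hη with hP
  have hA := dA (d := d) (a := a) hε hη
  have hB := dB (d := d) (a := a) hε hη
  have hh := dh (d := d) (a := a) hε hη
  have eQ : P.Q = Q0 η := dQ hε hη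
  have he : (η : ℂ) ≠ 0 := by exact_mod_cast hη.ne'
  -- positions
  have dB4 := b4_ct (d := d) (a := a) hε hη
  have hS4 : ∀ s ∈ ps S, s ∉ CT P η := fun s hs h => by
    obtain ⟨v, hv, rfl⟩ := hs
    exact Set.disjoint_left.1 dB4 (hSQ hv) h
  have hT0 : ∀ s ∈ T, s ∉ B4 P η := fun s hs h => Set.disjoint_left.1 dB4 h (hT s hs)
  have hCR : ∀ s, s ∈ Halfx73.CR η → s ∈ P.D Tn.S := fun s hs => DT.CRD hA hB hη hh Tn.S hs
  have hCL : ∀ s, (nxt (100 * η) Tn.S).e.symm s ∈ Halfx73.CL η → s ∈ P.D Tn.S := fun s hs =>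
    DT.CLD hA hB hη hh Tn.S hs
  have hD1 : ∀ s, s ∈ P.D Tn.S → s ∈ CT P η := fun s hs => Or.inl (Or.inl hs)
  have hD2 : ∀ s, (up η).e.symm s ∈ P.D Tn.S → s ∈ CT P η := fun s hs => Or.inl (Or.inr hs)
  have hT1 : ∀ s ∈ T, s ∉ Q0 η := fun s hs h => hT0 s hs (Or.inl (Or.inl (by rw [eQ]; exact h)))
  have hT2 : ∀ s ∈ T, (nxt (100 * η) Tn.S).e.symm s ∉ Q0 η := fun s hs h =>
    hT0 s hs (Or.inl (Or.inr (by
      show (nxt (100 * η) Tn.S).e.symm s ∈ P.Q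
      rw [eQ]; exact h)))
  have hT3 : ∀ s ∈ T, (up η).e.symm s ∉ Q0 η := fun s hs h =>
    hT0 s hs (Or.inr (Or.inl (by
      show (up η).e.symm s ∈ P.Q
      rw [eQ]; exact h)))
  have hT4 : ∀ s ∈ T, (f4 η).e.symm s ∉ Q0 η := fun s hs h =>
    hT0 s hs (Or.inr (Or.inr (by
      show (nxt (100 * η) Tn.S).e.symm ((up η).e.symm s) ∈ P.Q
      rw [eQ]; exact h)))
  -- gates
  set G1 := gS S (Q0 η) with hG1
  set G2 := gS S ((nxt (100 * η) Tn.S).e.symm ⁻¹' Q0 η) with hG2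
  set G3 := gS S ((up η).e.symm ⁻¹' Q0 η) with hG3
  set G4 := gS S ((f4 η).e.symm ⁻¹' Q0 η) with hG4
  set q1 := gB S (Q0 η) with hq1
  set q2 := gB S ((nxt (100 * η) Tn.S).e.symm ⁻¹' Q0 η) with hq2
  set q3 := gB S ((up η).e.symm ⁻¹' Q0 η) with hq3
  set q4 := gB S ((f4 η).e.symm ⁻¹' Q0 η) with hq4
  have i1 : q1 ⊆ G1 := gB_sub hS _
  have i2 : q2 ⊆ G2 := gB_sub hS _
  have i3 : q3 ⊆ G3 := gB_sub hS _
  have i4 : q4 ⊆ G4 := gB_sub hS _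
  have dG1 : Disjoint G1 T := gs_disj hT1
  have dG2 : Disjoint G2 T := gs_disj hT2
  have dG3 : Disjoint G3 T := gs_disj hT3
  have dG4 : Disjoint G4 T := gs_disj hT4
  have dGG : Disjoint G1 G2 := by
    refine gs_gs ?_
    rw [Set.disjoint_left]
    rintro z ⟨m1, -⟩ ⟨m2, -⟩
    rw [(nx_symm z).1] at m2
    rw [abs_lt] at m1 m2
    linarith
  -- the triangulations
  have gN : GP ((sx S ∪ T : Finset ℂ) : Set ℂ) := by
    have e : ((sx S ∪ T : Finset ℂ) : Set ℂ) = psn S ∪ T := by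
      ext v
      rw [Finset.coe_union, mem_union, mem_union, Finset.mem_coe, mem_sx hS]
      rfl
    rw [e]
    exact hgp
  have gM1 : GP (M1 : Set ℂ) := Locx922.GP.mono gN (by
    rw [e1]; exact fun s hs => Finset.mem_coe.2 (Finset.mem_filter.1 (Finset.mem_coe.1 hs)).1)
  have gM2 : GP (M2 : Set ℂ) := Locx922.GP.mono gN (by
    rw [e2]; exact fun s hs => Finset.mem_coe.2 (Finset.mem_filter.1 (Finset.mem_coe.1 hs)).1)
  have gM3 : GP (M3 : Set ℂ) := Locx922.GP.mono gN (by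
    rw [e3]; exact fun s hs => Finset.mem_coe.2 (Finset.mem_filter.1 (Finset.mem_coe.1 hs)).1)
  have mM1 : ∀ s, s ∈ P.Z Tn.S → (s ∈ M1 ↔ s ∈ sx S ∪ T) := fun s hs => by
    rw [e1, Finset.mem_filter]
    exact ⟨fun h => h.1, fun h => ⟨h, hs⟩⟩
  have mM2 : ∀ s, (up η).e.symm s ∈ P.Z Tn.S → (s ∈ M2 ↔ s ∈ sx S ∪ T) := fun s hs => by
    rw [e2, Finset.mem_filter]
    exact ⟨fun h => h.1, fun h => ⟨h, hs⟩⟩
  have mM3 : ∀ s, s ∈ P.Z Tn.S → (s ∈ M3 ↔ s ∈ sx S ∪ T) := fun s hs => by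
    rw [e3, Finset.mem_filter]
    exact ⟨fun h => h.1, fun h => ⟨h, Or.inl hs⟩⟩
  have zR : ∀ s, s ∈ Q0 η ∪ Halfx73.CR η → s ∈ P.Z Tn.S := fun s hs =>
    DT.QCR_Z hA hB hη hh Tn.S (by rw [eQ]; exact hs)
  have zL : ∀ s, (nxt (100 * η) Tn.S).e.symm s ∈ Q0 η ∪ Halfx73.CL η → s ∈ P.Z Tn.S :=
    fun s hs => DT.QCL_Z hA hB hη hh Tn.S (hs.imp (fun h => by
      show (nxt (100 * η) Tn.S).e.symm s ∈ P.Q
      rw [eQ]; exact h) id)
  -- the half events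
  have r1 : Gd G1 T
      (fun A => Hf M1 0 (η : ℂ) 10 (101 / 10) 2 8 (1 / 20) (KWR η)
        (Pw (g0 η) (Q0 η) (clr G1 q1)) A ∧
        Hf M3 0 (η : ℂ) 10 (101 / 10) 2 8 (1 / 20) (KWR η) (Pw (g0 η) (Q0 η) (clr G1 q1)) A)
      (Hf M1 0 (η : ℂ) 10 (101 / 10) (-8) (-(47 / 10)) (1 / 20) (KBR η)
        (Pb (g0 η) (Q0 η) (clr G1 q1))) b q1 := by
    refine h1.trans (pr_mono fun τ hτ h => ?_)
    have k1 := rh_pt0 (M := M1) hη hd hdη hS hc (fun s hs h => hS4 s hs (hD1 s (hCR s h))) hT1 hτ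
      (fun s hs => mM1 s (zR s hs)) h
    have k3 := rh_pt0 (M := M3) hη hd hdη hS hc (fun s hs h => hS4 s hs (hD1 s (hCR s h))) hT1 hτ
      (fun s hs => mM3 s (zR s hs)) h
    exact ⟨⟨k1.1, k3.1⟩, k1.2⟩
  have r2 : Gd G2 T
      (Hf M1 (v1 η) (η : ℂ) (-(101 / 10)) (-10) 2 8 (1 / 20)
        ((nxt (100 * η) Tn.S).e.symm ⁻¹' KWL η)
        (Pw ((g0 η).mv (nxt (100 * η) Tn.S).e (rot Tn.S))
          ((nxt (100 * η) Tn.S).e.symm ⁻¹' Q0 η) (clr G2 q2)))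
      (Hf M1 (v1 η) (η : ℂ) (-(101 / 10)) (-10) (-8) (-(47 / 10)) (1 / 20)
        ((nxt (100 * η) Tn.S).e.symm ⁻¹' KBL η)
        (Pb ((g0 η).mv (nxt (100 * η) Tn.S).e (rot Tn.S))
          ((nxt (100 * η) Tn.S).e.symm ⁻¹' Q0 η) (clr G2 q2))) b q2 := by
    refine h2.trans (pr_mono fun τ hτ h => ?_)
    have k1 := lh_pt (M := M1) (φ := (nxt (100 * η) Tn.S).e.toEquiv) (c := rot Tn.S)
      (mo_nxt (100 * η) Tn.S) hη hd hdη hS hc (fun s hs h => hS4 s hs (hD1 s (hCL s h))) hT2 hτ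
      (fun s hs => mM1 s (zL s hs)) h
    have e0 : (nxt (100 * η) Tn.S).e.toEquiv 0 = v1 η := nx_zero
    have e00 : (η : ℂ) * rot Tn.S = (η : ℂ) := by rw [rot, mul_one]
    rw [e0, e00] at k1
    exact k1
  have r3 : b ≤ pr T fun τ => Hf M2 (v3 η) (η : ℂ) 10 (101 / 10) 2 8 (1 / 20)
      ((up η).e.symm ⁻¹' KWR η)
      (Pw ((g0 η).mv (up η).e 1) ((up η).e.symm ⁻¹' Q0 η) (clr G3 q3)) ((T \ τ) ∪ (G3 \ q3)) := by
    refine h3.trans (pr_mono fun τ hτ h => ?_)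
    have k1 := rh_pt (M := M2) (φ := (up η).e.toEquiv) (c := 1)
      mo_up hη hd hdη hS hc (fun s hs h => hS4 s hs (hD2 s (hCR _ h))) hT3 hτ
      (fun s hs => mM2 s (zR _ hs)) h
    have e0 : (up η).e.toEquiv 0 = v3 η := up_zero
    rw [e0, mul_one] at k1
    rw [← sd_eq dG3 i3 hτ]
    exact k1.1
  have r4 : b ≤ pr T fun τ => Hf M2 (v4 η) (η : ℂ) (-(101 / 10)) (-10) 2 8 (1 / 20)
      ((f4 η).e.symm ⁻¹' KWL η)
      (Pw ((g0 η).mv (f4 η).e (1 * rot Tn.S)) ((f4 η).e.symm ⁻¹' Q0 η) (clr G4 q4))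
      ((T \ τ) ∪ (G4 \ q4)) := by
    refine h4.trans (pr_mono fun τ hτ h => ?_)
    have k1 := lh_pt (M := M2) (φ := (f4 η).e.toEquiv) (c := 1 * rot Tn.S)
      mo_f4 hη hd hdη hS hc (fun s hs h => hS4 s hs (hD2 s (hCL _ h))) hT4 hτ
      (fun s hs => mM2 s (zL _ hs)) (by
        have e := f4_mv (η := η) (S ∪ clr T τ)
        rw [e]
        exact h)
    have e0 : (f4 η).e.toEquiv 0 = v4 η := f4_zero
    have e00 : (η : ℂ) * (1 * rot Tn.S) = (η : ℂ) := by rw [rot, mul_one, mul_one]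
    rw [e0, e00] at k1
    rw [← sd_eq dG4 i4 hτ]
    exact k1.1
  -- supports
  set To := T.filter (fun s => η < s.im) with hTo
  set Ti := T.filter (fun s => ¬ η < s.im) with hTi
  have hoi : Disjoint To Ti := by
    rw [Finset.disjoint_left]
    intro s h3 h4
    exact (Finset.mem_filter.1 h4).2 (Finset.mem_filter.1 h3).2
  have K1 : ∀ s ∈ T, s ∈ KBR η → s ∈ Ti := fun s hs h3 => by
    refine Finset.mem_filter.2 ⟨hs, not_lt.2 ?_⟩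
    have := h3.2.2 (off_Q0 hη (hT1 s hs) h3.1.1 h3.2.1)
    linarith
  have K2 : ∀ s ∈ T, s ∈ KWR η → s ∈ To := fun s hs h3 => by
    refine Finset.mem_filter.2 ⟨hs, ?_⟩
    have := h3.2.2 (off_Q0 hη (hT1 s hs) h3.1.1 h3.2.1)
    linarith
  have K3 : ∀ s ∈ T, s ∈ (nxt (100 * η) Tn.S).e.symm ⁻¹' KBL η → s ∈ Ti := fun s hs h3 => by
    refine Finset.mem_filter.2 ⟨hs, not_lt.2 ?_⟩
    have := h3.2.2 (off_Q0' hη (hT2 s hs) h3.1.2 h3.2.1)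
    rw [(nx_symm s).2] at this
    linarith
  have K4 : ∀ s ∈ T, s ∈ (nxt (100 * η) Tn.S).e.symm ⁻¹' KWL η → s ∈ To := fun s hs h3 => by
    refine Finset.mem_filter.2 ⟨hs, ?_⟩
    have := h3.2.2 (off_Q0' hη (hT2 s hs) h3.1.2 h3.2.1)
    rw [(nx_symm s).2] at this
    linarith
  have Zb : ∀ {v : ℂ} {l0 l1 : ℝ}, v.im = 0 → ∀ s ∈ T, l0 < X v (η : ℂ) s → X v (η : ℂ) s < l1 →
      (-8 : ℝ) - 1 / 20 ≤ Y v (η : ℂ) s → Y v (η : ℂ) s ≤ -(47 / 10) + 1 / 20 → s ∈ Ti := by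
    intro v l0 l1 hv s hs _ _ _ a4
    refine Finset.mem_filter.2 ⟨hs, not_lt.2 ?_⟩
    rw [Y_v, div_le_iff₀ hη, hv] at a4
    linarith
  have Zw : ∀ {v : ℂ} {l0 l1 : ℝ}, v.im = 0 → ∀ s ∈ T, l0 < X v (η : ℂ) s → X v (η : ℂ) s < l1 →
      (2 : ℝ) - 1 / 20 ≤ Y v (η : ℂ) s → Y v (η : ℂ) s ≤ 8 + 1 / 20 → s ∈ To := by
    intro v l0 l1 hv s hs _ _ a3 _
    refine Finset.mem_filter.2 ⟨hs, ?_⟩
    rw [Y_v, le_div_iff₀ hη, hv] at a3
    linarith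
  have su : ∀ {M G0 W : Finset ℂ} {z e : ℂ} {l0 l1 p0 p1 m : ℝ} {K P0 : Set ℂ},
      (∀ s ∈ T, s ∈ K → s ∈ W) → (∀ s ∈ T, l0 < X z e s → X z e s < l1 → p0 - m ≤ Y z e s →
        Y z e s ≤ p1 + m → s ∈ W) → Su (G0 ∪ T) (G0 ∪ W) (Hf M z e l0 l1 p0 p1 m K P0) := by
    intro M G0 W z e l0 l1 p0 p1 m K P0 k1 k2
    refine Hf.su (fun s hs hk => ?_) (fun s hs b1 b2 b3 b4 => ?_)
    · rw [Finset.mem_union] at hs ⊢
      exact hs.imp id fun h => k1 s h hk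
    · rw [Finset.mem_union] at hs ⊢
      exact hs.imp id fun h => k2 s h b1 b2 b3 b4
  have k3im : ∀ s ∈ T, s ∈ (up η).e.symm ⁻¹' KWR η → η < s.im := fun s _ h => by
    have h3 := h.2.1
    rw [(up_symm s).2, abs_lt] at h3
    linarith
  have k4im : ∀ s ∈ T, s ∈ (f4 η).e.symm ⁻¹' KWL η → η < s.im := fun s _ h => by
    have h3 := h.2.1
    rw [(f4_re s).2, abs_lt] at h3
    linarith
  have hpp : p ^ 34 * b ^ 2 ≤ p := by
    have h5 : p ^ 34 ≤ p := pow_le_of_le_one hp hp1 (by norm_num)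
    have h6 : b ^ 2 ≤ 1 := pow_le_one₀ hb0 hb1
    calc p ^ 34 * b ^ 2 ≤ p * 1 := mul_le_mul h5 h6 (by positivity) hp
      _ = p := mul_one p
  have gd1 : ∀ {g : GPar} {Q : Set ℂ} {x : ℂ × ℂ}, LG g Q S x →
      x.1 ∈ Pb g Q (clr (gS S Q) (gB S Q)) ∧ x.2 ∈ Pw g Q (clr (gS S Q) (gB S Q)) :=
    fun h => ⟨⟨_, (LG_q hS hc).1 h, rfl⟩, ⟨_, (LG_q hS hc).1 h, rfl⟩⟩
  refine (theta_ge (G := G1) (G' := G2) (To := To) (Ti := Ti) (a := b) (p := p ^ 34 * b ^ 2)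
    (Mw := Mw η M1 M2 M3 ((up η).e.symm ⁻¹' KWR η)
      (Pw ((g0 η).mv (up η).e 1) ((up η).e.symm ⁻¹' Q0 η) (clr G3 q3)) ((f4 η).e.symm ⁻¹' KWL η)
      (Pw ((g0 η).mv (f4 η).e (1 * rot Tn.S)) ((f4 η).e.symm ⁻¹' Q0 η) (clr G4 q4))
      (G3 \ q3) (G4 \ q4))
    (Mb := MidB M1 100 0 (η : ℂ) (v1 η) (η : ℂ))
    (E := fun β => Lk M1 {s | s ∈ β ∧ s ∈ WR (9 * η) (51 * η) (100 * η) Tn.S} x1.1 x2.1 ∧
      Lk M1 {s | s ∈ (G1 ∪ T ∪ G2) \ β ∧ s ∈ WR (9 * η) (51 * η) (100 * η) Tn.S} x1.2 x2.2 ∧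
      (∃ u, 1600 * η ≤ u.im ∧ Lk M3 {s | s ∈ (G1 ∪ T ∪ G2) \ β ∧ s ∈ UA P η} x1.2 u) ∧
      Lk M2 {s | s ∈ ((G1 ∪ T ∪ G2) \ β) ∪ ((G3 \ q3) ∪ (G4 \ q4)) ∧
        s ∈ (up η).e.symm ⁻¹' WR (9 * η) (51 * η) (100 * η) Tn.S} x3.2 x4.2)
    hb0 (by positivity) dG1 dG2 dGG hoi i1 i2 (mo_and Hf.mo Hf.mo) Hf.mo Hf.mo Hf.mo mo_Mw mo_midB
    (su_and (su K2 (Zw Complex.zero_im)) (su K2 (Zw Complex.zero_im)))
    (su K1 (Zb Complex.zero_im)) (su K4 (Zw v1_im)) (su K3 (Zb v1_im))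
    (su_Mw hη dG3 dG4 Finset.sdiff_subset Finset.sdiff_subset k3im k4im)
    (su_midB he (by norm_num) fr12 fun s hs h3 _ h5 => Finset.mem_filter.2 ⟨hs, ?_⟩)
    r1 (pr_Mw hp hb0 mW mW3 mR mW2 r3 r4) (hpp.trans mB) r2 ?_).trans (pr_mono fun τ hτ h => ?_)
  · intro h6
    refine h3 (Or.inr ⟨ne_I' he, ?_, ?_⟩)
    · rw [Y_v, lt_div_iff₀ hη, Complex.zero_im]
      linarith
    · rw [Y_v, lt_div_iff₀ hη, v1_im]
      linarith
  · rintro β hβ ⟨l1, v1', k1⟩ ⟨⟨l2, v2', k2⟩, l5, v5, k5⟩ ⟨l3, v3', k3⟩ ⟨l4, v4', k4⟩ hMb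
      ⟨⟨⟨hM1, hM3⟩, hRo⟩, hM2, ⟨l6, v6, k6⟩, l7, v7, k7⟩
    have hWU : ∀ s, s ∈ WR (9 * η) (51 * η) (100 * η) Tn.S → s ∈ UA P η := fun s hs => Or.inl hs
    set A := (G1 ∪ T ∪ G2) \ β with hAd
    have hA2 : A ⊆ A ∪ ((G3 \ q3) ∪ (G4 \ q4)) := Finset.subset_union_left
    have hA3 : A ∪ (G3 \ q3) ⊆ A ∪ ((G3 \ q3) ∪ (G4 \ q4)) :=
      Finset.union_subset_union_right Finset.subset_union_left
    have hA4 : A ∪ (G4 \ q4) ⊆ A ∪ ((G3 \ q3) ∪ (G4 \ q4)) :=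
      Finset.union_subset_union_right Finset.subset_union_right
    refine ⟨?_, ?_, ?_, ?_⟩
    · exact half_b gM1 he (by norm_num) fr12 v1' v3' (by norm_num) (by norm_num) (by norm_num)
        (by norm_num) hMb
        (fun t0 ht0 => (k1 x1.1 (gd1 g1).1 t0 ht0).mono fun s hs =>
          ⟨hs.1, kw_WR hη (Or.inl hs.2)⟩)
        (fun t0 ht0 => (k3 x2.1 (gd1 g2).1 t0 ht0).mono fun s hs =>
          ⟨hs.1, kl_WR' hη (Or.inl hs.2)⟩)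
        fun s _ _ h3 => re_box hη h3
    · obtain ⟨t, ht, t', ht', k⟩ := mid_w gM1 he (by norm_num) fr12 (A := A) v2' v4' (by norm_num)
        (by norm_num) (by norm_num) (by norm_num) hM1 fun s _ _ h3 => re_box hη h3
      refine (Lk.trans ?_ k).trans ?_
      · exact (k2 x1.2 (gd1 g1).2 t ht).mono fun s hs => ⟨hs.1, kw_WR hη (Or.inr hs.2)⟩
      · refine Lk.symm ?_
        exact (k4 x2.2 (gd1 g2).2 t' ht').mono fun s hs => ⟨hs.1, kl_WR' hη (Or.inr hs.2)⟩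
    · obtain ⟨l, c⟩ := hM3.1 rfl
      have hl := fun s hs => re_box hη (lane_reg he rfl fr12 (by norm_num) (by norm_num) c s hs).2
      rw [show (100 : ℝ) - 10 = 90 by norm_num] at c
      obtain ⟨t, ht, ht'⟩ := c.meet gM3 he v5 (by norm_num) (by norm_num) (by norm_num) (by norm_num)
      obtain ⟨u, hu, ku⟩ := rope_link gM3 he hRo c (R := UA P η) (fun s hs => hWU s (hl s hs))
        (fun s _ hs => Or.inr (by
          have h9 := co_im hη hs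
          exact ⟨⟨by linarith [h9.1.1], by linarith [h9.1.2]⟩, by linarith [h9.2.1],
            by linarith [h9.2.2]⟩)) ht
      refine ⟨u, ?_, Lk.trans ?_ ku⟩
      · rw [Y_v, Complex.zero_im, le_div_iff₀ hη] at hu
        linarith
      · exact (k5 x1.2 (gd1 g1).2 t ht').mono fun s hs =>
          ⟨hs.1, hWU s (kw_WR hη (Or.inr hs.2))⟩
    · obtain ⟨t, ht, t', ht', k⟩ := mid_w gM2 he (by norm_num) fr34 (A := A ∪ ((G3 \ q3) ∪ (G4 \ q4)))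
        (v6.mono hA3) (v7.mono hA4) (by norm_num)
        (by norm_num) (by norm_num) (by norm_num) (mo_midW _ _ hA2 hM2)
        (R := (up η).e.symm ⁻¹' WR (9 * η) (51 * η) (100 * η) Tn.S)
        fun s _ _ h3 => re_box' hη h3
      refine (Lk.trans ?_ k).trans ?_
      · exact (k6 x3.2 (gd1 g3).2 t ht).mono fun s hs => ⟨hA3 hs.1, kw_WR hη (Or.inr hs.2)⟩
      · refine Lk.symm ?_
        exact (k7 x4.2 (gd1 g4).2 t' ht').mono fun s hs =>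
          ⟨hA4 hs.1, kl_WR' (w := (up η).e.symm s) hη (Or.inr hs.2)⟩
  · obtain ⟨j1, j2, j3, j4⟩ := h
    have hbS : ∀ s, s ∈ bk S → s ∈ sx S := fun s hs => bk_sub hS hs
    have hsQ : ∀ s, s ∈ sx S → s ∉ T := fun s hs h1 => by
      obtain ⟨v, hv, rfl⟩ := (mem_sx hS).1 hs
      exact hT0 _ h1 (hSQ hv)
    have hG : ∀ {Q : Set ℂ} {s : ℂ}, s ∈ gS S Q → s ∉ gB S Q →
        s ∈ sx S ∪ T ∧ ¬ (s ∈ bk S ∨ s ∈ τ) := fun {Q s} h1 h2 => by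
      have h3 := Finset.mem_filter.1 h1
      refine ⟨Finset.mem_union_left _ h3.1, ?_⟩
      rintro (h4 | h4)
      · exact h2 (Finset.mem_filter.2 ⟨h4, h3.2⟩)
      · exact hsQ s h3.1 (hτ h4)
    have hA1 : ∀ s ∈ (G1 ∪ T ∪ G2) \ (τ ∪ (q1 ∪ q2)),
        s ∈ sx S ∪ T ∧ ¬ (s ∈ bk S ∨ s ∈ τ) := by
      intro s hs
      simp only [Finset.mem_sdiff, Finset.mem_union, not_or] at hs
      obtain ⟨(h1 | h1) | h1, h2, h3, h4⟩ := hs
      · exact hG h1 h3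
      · refine ⟨Finset.mem_union_right _ h1, ?_⟩
        rintro (h5 | h5)
        · exact hsQ s (hbS s h5) h1
        · exact h2 h5
      · exact hG h1 h4
    refine fin_of hε hη hS hT hτ (b := x1) (b' := x2) (b3 := x3) (b4 := x4) ?_ ?_ ?_ ?_
      (B := τ ∪ (q1 ∪ q2)) (A1 := (G1 ∪ T ∪ G2) \ (τ ∪ (q1 ∪ q2)))
      (A2 := ((G1 ∪ T ∪ G2) \ (τ ∪ (q1 ∪ q2))) ∪ ((G3 \ q3) ∪ (G4 \ q4))) ?_ hA1 ?_ ?_ ?_ ?_ ?_
    · rw [eQ]; exact g1
    · have := g2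
      rw [← eQ] at this
      exact this
    · have := g3
      rw [← eQ] at this
      exact this
    · have := g4
      rw [← eQ] at this
      have e5 : (P.gn Tn.S).mv (up η).e 1 = (g0 η).mv (f4 η).e (1 * rot Tn.S) := g_f4 (g0 η)
      rw [e5]
      exact this
    · intro s hs
      simp only [Finset.mem_union] at hs
      rcases hs with h1 | h1 | h1
      · exact Or.inr h1
      · exact Or.inl (Finset.mem_filter.1 h1).1
      · exact Or.inl (Finset.mem_filter.1 h1).1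
    · intro s hs
      rcases Finset.mem_union.1 hs with h1 | h1
      · exact hA1 s h1
      · rcases Finset.mem_union.1 h1 with h1 | h1
        · exact hG (Finset.mem_sdiff.1 h1).1 (Finset.mem_sdiff.1 h1).2
        · exact hG (Finset.mem_sdiff.1 h1).1 (Finset.mem_sdiff.1 h1).2
    · rw [← e1]; exact j1
    · rw [← e1]; exact j2
    · rw [← e3]; exact j3
    · rw [← e2]; exact j4

end Crest.Agent.R143.ArmQx345
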