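import Crest.Agent.R143.ArmR_659

/-!
# Row 143 (S0194), block H, box R3 of note 4372, almost sure form (helper659)

* `ArmsA` : as `ArmRx659.Arms`, but the lower bound `c1` for the mean over the region of the event is
  only almost sure: `∀ᵐ ω, gates good at cfg ω → c1 ≤ Rs ε (Dr i) (Gf i) (cfg ε ω)`
* `ArmsA.ge`, `ArmsA.mass_le` : the same conclusions
-/

set_option autoImplicit false

noncomputable section

namespace Crest.Agent.R143.ArmR2x659

open MeasureTheory Set ProbabilityTheory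
open Crest.ProbabilityR.Voronoi
open Crest.Agent.R143.PP0x831 Crest.Agent.R143.Poisx304 Crest.Agent.R143.Janx304
open Crest.Agent.R143.IndLocx279 Crest.Agent.R143.PWx978 Crest.Agent.R143.RingLx239
open Crest.Agent.R143.ArmRx659
open scoped ENNReal

variable {ε : ℝ} {ι κ ι' κ' α : Type*}

/-- two nets and `#s` local events, almost sure lower bound -/
structure ArmsA (M : Net ε ι κ) (M' : Net ε ι' κ') (I : Finset ι) (J : Finset κ) (I' : Finset ι')
    (J' : Finset κ') (s : Finset α) (T : α → Finset κ) (T' : α → Finset κ') (Bx : α → Set ℂ)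
    (F : α → Cf → ℝ≥0∞) (c1 : ℝ≥0∞) : Prop where
  hN : ∀ k ∈ J, M.N k ⊆ I
  hN' : ∀ k ∈ J', M'.N k ⊆ I'
  dis : Disjoint (M.reg I J) (M'.reg I' J')
  hT : ∀ i ∈ s, T i ⊆ J
  hT' : ∀ i ∈ s, T' i ⊆ J'
  dT : ∀ i ∈ s, ∀ j ∈ s, i ≠ j → Disjoint (T i) (T j)
  dT' : ∀ i ∈ s, ∀ j ∈ s, i ≠ j → Disjoint (T' i) (T' j)
  Bm : ∀ i ∈ s, MeasurableSet (Bx i)
  Bb : ∀ i ∈ s, Bornology.IsBounded (Bx i)
  dB : ∀ i ∈ s, ∀ j ∈ s, i ≠ j → Disjoint (Bx i) (Bx j)
  dR : ∀ i ∈ s, Disjoint (Bx i) (M.reg I J)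
  dR' : ∀ i ∈ s, Disjoint (Bx i) (M'.reg I' J')
  Fl : ∀ i ∈ s, LocalOn (M.reg I (T i) ∪ M'.reg I' (T' i) ∪ Bx i) (F i)
  Fm : ∀ i ∈ s, FinMeas (F i)
  F1 : ∀ i ∈ s, ∀ S, F i S ≤ 1
  pos : ∀ i ∈ s, ∀ᵐ ω ∂sampleLaw, (∀ l ∈ I, M.a l (cfg ε ω) ≠ 0) →
    (∀ l ∈ I', M'.a l (cfg ε ω) ≠ 0) →
    c1 ≤ Rs ε (Dr M M' T T' Bx i) (Gf M M' T T' F i) (cfg ε ω)

variable {M : Net ε ι κ} {M' : Net ε ι' κ'} {I : Finset ι} {J : Finset κ} {I' : Finset ι'}
  {J' : Finset κ'} {s : Finset α} {T : α → Finset κ} {T' : α → Finset κ'} {Bx : α → Set ℂ}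
  {F : α → Cf → ℝ≥0∞} {c1 : ℝ≥0∞}

/-- the same data with the trivial lower bound -/
theorem ArmsA.zero (H : ArmsA M M' I J I' J' s T T' Bx F c1) :
    Arms M M' I J I' J' s T T' Bx F 0 :=
  ⟨H.hN, H.hN', H.dis, H.hT, H.hT', H.dT, H.dT', H.Bm, H.Bb, H.dB, H.dR, H.dR', H.Fl, H.Fm, H.F1,
    fun _ _ _ _ _ _ => zero_le⟩

theorem ArmsA.of (H : Arms M M' I J I' J' s T T' Bx F 0)
    (h : ∀ i ∈ s, ∀ᵐ ω ∂sampleLaw, (∀ l ∈ I, M.a l (cfg ε ω) ≠ 0) →
      (∀ l ∈ I', M'.a l (cfg ε ω) ≠ 0) →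
      c1 ≤ Rs ε (Dr M M' T T' Bx i) (Gf M M' T T' F i) (cfg ε ω)) :
    ArmsA M M' I J I' J' s T T' Bx F c1 :=
  ⟨H.hN, H.hN', H.dis, H.hT, H.hT', H.dT, H.dT', H.Bm, H.Bb, H.dB, H.dR, H.dR', H.Fl, H.Fm, H.F1,
    h⟩

variable [DecidableEq κ] [DecidableEq κ']

/-- pointwise comparison where the means are at least `c1` -/
lemma key_fin' (H : Arms M M' I J I' J' s T T' Bx F 0) (hc0 : c1 ≠ 0) {X : Cf → ℝ≥0∞} {S : Cf}
    (hS : S.Finite) (hq : Hf M M' I J I' J' s T T' X S ≠ 0 → ∀ i ∈ s,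
      c1 ≤ Rs ε (Dr M M' T T' Bx i) (Gf M M' T T' F i) S) :
    c1 ^ s.card * (M.c ^ (s.biUnion T).card * M'.c ^ (s.biUnion T').card) *
      ((∏ i ∈ s, Gf M M' T T' F i S * (Rs ε (Dr M M' T T' Bx i) (Gf M M' T T' F i) S)⁻¹) *
        Hf M M' I J I' J' s T T' X S) ≤
      M.gw I J S * M'.gw I' J' S * X S * ∏ i ∈ s, F i S := by
  classical
  set U := s.biUnion T with hU
  set U' := s.biUnion T' with hU'
  by_cases h0 : Hf M M' I J I' J' s T T' X S = 0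
  · rw [h0, mul_zero, mul_zero]
    exact zero_le
  have h1 : c1 ^ s.card * ∏ i ∈ s, Gf M M' T T' F i S *
      (Rs ε (Dr M M' T T' Bx i) (Gf M M' T T' F i) S)⁻¹ ≤ ∏ i ∈ s, Gf M M' T T' F i S := by
    rw [← Finset.prod_const, ← Finset.prod_mul_distrib]
    refine Finset.prod_le_prod' fun i hi => ?_
    have h2 := hq h0 i hi
    set R := Rs ε (Dr M M' T T' Bx i) (Gf M M' T T' F i) S with hR
    have h3 : R ≤ 1 := Rs_le M.eps (dr_bdd hi H) (fun S => gf_one hi H S) (gf_meas hi H) hS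
    have h4 : R ≠ ∞ := ne_top_of_le_ne_top ENNReal.one_ne_top h3
    have h5 : R ≠ 0 := fun h => hc0 (le_zero_iff.1 (h ▸ h2))
    calc c1 * (Gf M M' T T' F i S * R⁻¹) = Gf M M' T T' F i S * (c1 * R⁻¹) := by ring
      _ ≤ Gf M M' T T' F i S * (R * R⁻¹) := by gcongr
      _ = Gf M M' T T' F i S := by rw [ENNReal.mul_inv_cancel h5 h4, mul_one]
  have h6 : ∏ i ∈ s, Gf M M' T T' F i S =
      (∏ k ∈ U, M.e k S) * (∏ k ∈ U', M'.e k S) * ∏ i ∈ s, F i S := by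
    unfold Gf
    rw [Finset.prod_mul_distrib, Finset.prod_mul_distrib, hU, hU',
      Finset.prod_biUnion fun i hi j hj hij => H.dT i hi j hj hij,
      Finset.prod_biUnion fun i hi j hj hij => H.dT' i hi j hj hij]
  have h7 := prod_fac_ge M U hS
  have h8 := prod_fac_ge M' U' hS
  have hUJ : U ⊆ J := Finset.biUnion_subset.2 H.hT
  have hUJ' : U' ⊆ J' := Finset.biUnion_subset.2 H.hT'
  have g1 : M.gw I J S = M.gw I (J \ U) S * ∏ k ∈ U, M.fac k S := by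
    unfold Net.gw
    rw [mul_assoc, Finset.prod_sdiff hUJ]
  have g2 : M'.gw I' J' S = M'.gw I' (J' \ U') S * ∏ k ∈ U', M'.fac k S := by
    unfold Net.gw
    rw [mul_assoc, Finset.prod_sdiff hUJ']
  calc c1 ^ s.card * (M.c ^ U.card * M'.c ^ U'.card) *
      ((∏ i ∈ s, Gf M M' T T' F i S * (Rs ε (Dr M M' T T' Bx i) (Gf M M' T T' F i) S)⁻¹) *
        Hf M M' I J I' J' s T T' X S)
      = (M.c ^ U.card * M'.c ^ U'.card) * ((c1 ^ s.card * ∏ i ∈ s, Gf M M' T T' F i S *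
          (Rs ε (Dr M M' T T' Bx i) (Gf M M' T T' F i) S)⁻¹) *
            Hf M M' I J I' J' s T T' X S) := by ring
    _ ≤ (M.c ^ U.card * M'.c ^ U'.card) * ((∏ i ∈ s, Gf M M' T T' F i S) *
            Hf M M' I J I' J' s T T' X S) := by gcongr
    _ = (M.c ^ U.card * ∏ k ∈ U, M.e k S) * (M'.c ^ U'.card * ∏ k ∈ U', M'.e k S) *
          (Hf M M' I J I' J' s T T' X S * ∏ i ∈ s, F i S) := by rw [h6]; ring
    _ ≤ (∏ k ∈ U, M.fac k S) * (∏ k ∈ U', M'.fac k S) *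
          (Hf M M' I J I' J' s T T' X S * ∏ i ∈ s, F i S) := by gcongr
    _ = _ := by
        rw [g1, g2]
        unfold Hf
        rw [← hU, ← hU']
        ring

/-- conclusion where the means are at least `c1` -/
theorem ge_of (H : Arms M M' I J I' J' s T T' Bx F 0) (hc : c1 ≠ ∞) (hc0 : c1 ≠ 0)
    {X : Cf → ℝ≥0∞} {Z : Set ℂ} (hZ : MeasurableSet Z) (hZb : Bornology.IsBounded Z)
    (hZd : ∀ i ∈ s, Disjoint Z (Dr M M' T T' Bx i))
    (hX : LocalOn (Ar M M' I J I' J' s T T' Z) X) (hXm : FinMeas X)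
    (hq : ∀ S : Cf, S.Finite → X S ≠ 0 → ∀ i ∈ s,
      c1 ≤ Rs ε (Dr M M' T T' Bx i) (Gf M M' T T' F i) S) :
    c1 ^ s.card * ∫⁻ ω, M.gw I J (cfg ε ω) * M'.gw I' J' (cfg ε ω) * X (cfg ε ω) ∂sampleLaw ≤
      ∫⁻ ω, M.gw I J (cfg ε ω) * M'.gw I' J' (cfg ε ω) * X (cfg ε ω) *
        ∏ i ∈ s, F i (cfg ε ω) ∂sampleLaw := by
  classical
  have hx : ∀ S, Hf M M' I J I' J' s T T' X S ≠ 0 → X S ≠ 0 := by
    intro S h h0
    apply h
    unfold Hf
    rw [h0, mul_zero]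
  rw [strip_tubes H hZ hZb hZd hX hXm]
  have e := strip M.eps s (Dr M M' T T' Bx) (Gf M M' T T' F) (H := Hf M M' I J I' J' s T T' X)
    (A := Ar M M' I J I' J' s T T' Z) (ar_meas hZ) (ar_bdd hZb) (fun i hi => dr_meas hi H)
    (fun i hi => dr_bdd hi H) (fun i hi j hj hij => dr_disj H hi hj hij)
    (fun i hi => ar_dr H hZd hi) (fun i hi => gf_local H hi) (fun i hi => gf_meas hi H)
    (fun i hi S => gf_one hi H S) (hf_local H hX) (hf_meas hXm)
    (fun i hi S hS h0 h => by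
      have h2 := hq S hS (hx S h0) i hi
      rw [h] at h2
      exact hc0 (le_zero_iff.1 h2))
  rw [← e, ← mul_assoc, ← lintegral_const_mul']
  swap
  · exact ENNReal.mul_ne_top (ENNReal.pow_ne_top hc)
      (ENNReal.mul_ne_top (ENNReal.pow_ne_top M.c1) (ENNReal.pow_ne_top M'.c1))
  refine lintegral_mono fun ω => ?_
  refine le_fin (F := fun S => c1 ^ s.card * (M.c ^ (s.biUnion T).card *
      M'.c ^ (s.biUnion T').card) * ((∏ i ∈ s, Gf M M' T T' F i S *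
        (Rs ε (Dr M M' T T' Bx i) (Gf M M' T T' F i) S)⁻¹) * Hf M M' I J I' J' s T T' X S))
    (G := fun S => M.gw I J S * M'.gw I' J' S * X S * ∏ i ∈ s, F i S)
    (B := Wr M M' I J I' J' s T T' Bx Z) M.eps (wr_bdd H hZb) ?_ ?_
    (fun S hS => key_fin' H hc0 hS fun h => hq S hS (hx S h)) ω
  · refine LocalOn.comp (X := ℝ≥0∞) (F := fun S => ((∏ i ∈ s, Gf M M' T T' F i S *
        (Rs ε (Dr M M' T T' Bx i) (Gf M M' T T' F i) S)⁻¹) * Hf M M' I J I' J' s T T' X S)) ?_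
      (fun x => c1 ^ s.card * (M.c ^ (s.biUnion T).card * M'.c ^ (s.biUnion T').card) * x)
    refine LocalOn.mul (local_prod' s fun i hi => LocalOn.mul ?_ ?_)
      (LocalOn.mono subset_union_left (hf_local H hX))
    · exact LocalOn.mono (union_subset_union_right _
        (subset_biUnion_of_mem (u := Dr M M' T T' Bx) hi)) (gf_local H hi)
    · refine LocalOn.comp (LocalOn.mono ?_ (Rs_local M.eps (dr_meas hi H) (dr_bdd hi H)
        (gf_local (Z := Z) H hi))) (·⁻¹)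
      rw [union_sdiff_right]
      exact sdiff_subset.trans subset_union_left
  · refine LocalOn.mul (LocalOn.mul (LocalOn.mul ?_ ?_) ?_) (local_prod' s fun i hi => ?_)
    · exact LocalOn.mono reg_wr (M.gw_local H.hN)
    · exact LocalOn.mono reg_wr' (M'.gw_local H.hN')
    · exact LocalOn.mono subset_union_left hX
    · refine LocalOn.mono (union_subset (union_subset ?_ ?_) ?_) (H.Fl i hi)
      · exact (M.reg_mono subset_rfl (H.hT i hi)).trans reg_wr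
      · exact (M'.reg_mono subset_rfl (H.hT' i hi)).trans reg_wr'
      · exact subset_union_right.trans (dr_wr hi)

/-- indicator of the configurations where the means are at least `c1` -/
def qf (M : Net ε ι κ) (M' : Net ε ι' κ') (s : Finset α) (T : α → Finset κ) (T' : α → Finset κ')
    (Bx : α → Set ℂ) (F : α → Cf → ℝ≥0∞) (c1 : ℝ≥0∞) (S : Cf) : ℝ≥0∞ :=
  ∏ i ∈ s, (Set.Ici c1).indicator (fun _ => (1 : ℝ≥0∞))
    (Rs ε (Dr M M' T T' Bx i) (Gf M M' T T' F i) S)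

omit [DecidableEq κ] [DecidableEq κ'] in
lemma qf_le (S : Cf) : qf M M' s T T' Bx F c1 S ≤ 1 := by
  refine Finset.prod_le_one' fun i _ => ?_
  unfold Set.indicator
  split_ifs
  · exact le_rfl
  · exact zero_le

omit [DecidableEq κ] [DecidableEq κ'] in
lemma qf_ne {S : Cf} (h : qf M M' s T T' Bx F c1 S ≠ 0) {i : α} (hi : i ∈ s) :
    c1 ≤ Rs ε (Dr M M' T T' Bx i) (Gf M M' T T' F i) S := by
  by_contra hn
  apply h
  refine Finset.prod_eq_zero hi ?_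
  unfold Set.indicator
  exact if_neg fun h' => hn h'

omit [DecidableEq κ] [DecidableEq κ'] in
lemma qf_eq {S : Cf} (h : ∀ i ∈ s, c1 ≤ Rs ε (Dr M M' T T' Bx i) (Gf M M' T T' F i) S) :
    qf M M' s T T' Bx F c1 S = 1 :=
  Finset.prod_eq_one fun i hi => by
    unfold Set.indicator
    exact if_pos (h i hi)

omit [DecidableEq κ] [DecidableEq κ'] in
lemma qf_meas (H : Arms M M' I J I' J' s T T' Bx F 0) : FinMeas (qf M M' s T T' Bx F c1) :=
  fm_prod s fun _ hi n => (measurable_const.indicator measurableSet_Ici).comp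
    (Rs_meas M.eps (dr_meas hi H) (dr_bdd hi H) (gf_meas hi H) n)

lemma qf_local (H : Arms M M' I J I' J' s T T' Bx F 0) {Z : Set ℂ} :
    LocalOn (Ar M M' I J I' J' s T T' Z) (qf M M' s T T' Bx F c1) := by
  refine local_prod' s fun i hi => LocalOn.comp (X := ℝ≥0∞) (LocalOn.mono ?_ (Rs_local M.eps
    (dr_meas hi H) (dr_bdd hi H) (gf_local (Z := Z) H hi)))
      ((Set.Ici c1).indicator (fun _ => (1 : ℝ≥0∞)))
  rw [union_sdiff_right]
  exact sdiff_subset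

/-- **THE PRODUCT OF THE EVENTS**, almost sure form -/
theorem ArmsA.ge (H : ArmsA M M' I J I' J' s T T' Bx F c1) (hc : c1 ≠ ∞) {X : Cf → ℝ≥0∞}
    {Z : Set ℂ} (hZ : MeasurableSet Z) (hZb : Bornology.IsBounded Z)
    (hZd : ∀ i ∈ s, Disjoint Z (Dr M M' T T' Bx i))
    (hX : LocalOn (Ar M M' I J I' J' s T T' Z) X) (hXm : FinMeas X) :
    c1 ^ s.card * ∫⁻ ω, M.gw I J (cfg ε ω) * M'.gw I' J' (cfg ε ω) * X (cfg ε ω) ∂sampleLaw ≤
      ∫⁻ ω, M.gw I J (cfg ε ω) * M'.gw I' J' (cfg ε ω) * X (cfg ε ω) *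
        ∏ i ∈ s, F i (cfg ε ω) ∂sampleLaw := by
  by_cases hc0 : c1 = 0
  · rcases s.eq_empty_or_nonempty with h | h
    · subst h
      simp
    · rw [hc0, zero_pow (Finset.card_ne_zero.2 h), zero_mul]
      exact zero_le
  have H0 := H.zero
  have h1 := ge_of H0 hc hc0 (X := fun S => X S * qf M M' s T T' Bx F c1 S) hZ hZb hZd
    (LocalOn.mul hX (qf_local H0)) (fm_mul hXm (qf_meas H0)) (fun S _ h i hi =>
      qf_ne (right_ne_zero_of_mul h) hi)
  have h2 : ∫⁻ ω, M.gw I J (cfg ε ω) * M'.gw I' J' (cfg ε ω) *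
        (X (cfg ε ω) * qf M M' s T T' Bx F c1 (cfg ε ω)) ∂sampleLaw =
      ∫⁻ ω, M.gw I J (cfg ε ω) * M'.gw I' J' (cfg ε ω) * X (cfg ε ω) ∂sampleLaw := by
    refine lintegral_congr_ae ?_
    have h3 : ∀ᵐ ω ∂sampleLaw, ∀ i ∈ s, (∀ l ∈ I, M.a l (cfg ε ω) ≠ 0) →
        (∀ l ∈ I', M'.a l (cfg ε ω) ≠ 0) →
        c1 ≤ Rs ε (Dr M M' T T' Bx i) (Gf M M' T T' F i) (cfg ε ω) :=
      (Finset.eventually_all s).2 H.pos
    filter_upwards [h3] with ω hω
    by_cases h0 : M.gw I J (cfg ε ω) * M'.gw I' J' (cfg ε ω) = 0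
    · rw [h0, zero_mul, zero_mul]
    · have g1 : ∀ l ∈ I, M.a l (cfg ε ω) ≠ 0 := by
        intro l hl h
        refine h0 ?_
        unfold Net.gw
        rw [Finset.prod_eq_zero hl h]
        simp
      have g2 : ∀ l ∈ I', M'.a l (cfg ε ω) ≠ 0 := by
        intro l hl h
        refine h0 ?_
        unfold Net.gw
        rw [Finset.prod_eq_zero (s := I') hl h]
        simp
      rw [qf_eq fun i hi => hω i hi g1 g2, mul_one]
  rw [h2] at h1
  refine h1.trans (lintegral_mono fun ω => ?_)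
  refine mul_le_mul_left ?_ _
  refine mul_le_mul_right ?_ _
  calc X (cfg ε ω) * qf M M' s T T' Bx F c1 (cfg ε ω) ≤ X (cfg ε ω) * 1 :=
        mul_le_mul_right (qf_le _) _
    _ = X (cfg ε ω) := mul_one _

/-- **`c1 ^ #s * (E[g] * E[g']) ≤ E[g g' ∏ F i]`**, almost sure form -/
theorem ArmsA.mass_le (H : ArmsA M M' I J I' J' s T T' Bx F c1) (hc : c1 ≠ ∞) :
    c1 ^ s.card * (mass M I J * mass M' I' J') ≤
      ∫⁻ ω, M.gw I J (cfg ε ω) * M'.gw I' J' (cfg ε ω) * ∏ i ∈ s, F i (cfg ε ω) ∂sampleLaw := by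
  have h := H.ge hc (X := fun _ => 1) (Z := ∅) MeasurableSet.empty Bornology.isBounded_empty
    (fun i _ => disjoint_bot_left) (fun _ => rfl) (fun n => measurable_const)
  simp only [mul_one] at h
  rw [H.zero.two] at h
  exact h

end Crest.Agent.R143.ArmR2x659
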