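import Crest.Agent.R143.RingL_239

/-!
# Row 143 (S0194), block H, box R3 of note 4372: many local events under the weight of two nets
(helper659)

* `Arms` : two nets on disjoint regions; the event `F i` (an arm) sees the gates, the tubes `T i`,
  `T' i` and a free box `Bx i`; given good gates the mean of `∏ e * ∏ e' * F i` over the region
  `Dr i` (tubes and box) is at least `c1`
* `Arms.ge` : `c1 ^ #s * E[g g' X] ≤ E[g g' X ∏ F i]` for every `X` local off the regions `Dr i`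
* `Arms.mass_le` : `c1 ^ #s * (E[g] * E[g']) ≤ E[g g' ∏ F i]`
-/

set_option autoImplicit false

noncomputable section

namespace Crest.Agent.R143.ArmRx659

open MeasureTheory Set ProbabilityTheory
open Crest.ProbabilityR.Voronoi
open Crest.Agent.R143.PP0x831 Crest.Agent.R143.Poisx304 Crest.Agent.R143.Janx304
open Crest.Agent.R143.IndLocx279 Crest.Agent.R143.PWx978 Crest.Agent.R143.RingLx239
open scoped ENNReal

variable {ε : ℝ} {ι κ ι' κ' α : Type*}

/-- pointwise inequality of local functions from the finite configurations -/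
lemma le_fin (hε : 0 < ε) {B : Set ℂ} (hb : Bornology.IsBounded B) {F G : Cf → ℝ≥0∞}
    (hF : LocalOn B F) (hG : LocalOn B G) (h : ∀ S : Cf, S.Finite → F S ≤ G S) (ω : Sample) :
    F (cfg ε ω) ≤ G (cfg ε ω) := by
  rw [hF (cfg ε ω), hG (cfg ε ω)]
  exact h _ (cfg_finite hε hb ω)

/-- region of the event `i` : its tubes and its box -/
def Dr (M : Net ε ι κ) (M' : Net ε ι' κ') (T : α → Finset κ) (T' : α → Finset κ')
    (Bx : α → Set ℂ) (i : α) : Set ℂ :=
  (⋃ k ∈ T i, M.C k) ∪ (⋃ k ∈ T' i, M'.C k) ∪ Bx i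

/-- the event `i` together with its tubes -/
def Gf (M : Net ε ι κ) (M' : Net ε ι' κ') (T : α → Finset κ) (T' : α → Finset κ')
    (F : α → Cf → ℝ≥0∞) (i : α) (S : Cf) : ℝ≥0∞ :=
  (∏ k ∈ T i, M.e k S) * (∏ k ∈ T' i, M'.e k S) * F i S

/-- two nets and `#s` local events -/
structure Arms (M : Net ε ι κ) (M' : Net ε ι' κ') (I : Finset ι) (J : Finset κ) (I' : Finset ι')
    (J' : Finset κ') (s : Finset α) (T : α → Finset κ) (T' : α → Finset κ') (Bx : α → Set ℂ)
    (F : α → Cf → ℝ≥0∞) (c1 : ℝ≥0∞) : Prop where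
  hN : ∀ k ∈ J, M.N k ⊆ I
  hN' : ∀ k ∈ J', M'.N k ⊆ I'
  dis : Disjoint (M.reg I J) (M'.reg I' J')
  hT : ∀ i ∈ s, T i ⊆ J
  hT' : ∀ i ∈ s, T' i ⊆ J'
  dT : ∀ i ∈ s, ∀ j ∈ s, i ≠ j → Disjoint (T i) (T j)
  dT' : ∀ i ∈ s, ∀ j ∈ s, i ≠ j → Disjoint (T' i) (T' j)
  Bm : ∀ i ∈ s, MeasurableSet (Bx i)
  Bb : ∀ i ∈ s, Bornology.IsBounded (Bx i)
  dB : ∀ i ∈ s, ∀ j ∈ s, i ≠ j → Disjoint (Bx i) (Bx j)
  dR : ∀ i ∈ s, Disjoint (Bx i) (M.reg I J)
  dR' : ∀ i ∈ s, Disjoint (Bx i) (M'.reg I' J')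
  Fl : ∀ i ∈ s, LocalOn (M.reg I (T i) ∪ M'.reg I' (T' i) ∪ Bx i) (F i)
  Fm : ∀ i ∈ s, FinMeas (F i)
  F1 : ∀ i ∈ s, ∀ S, F i S ≤ 1
  pos : ∀ i ∈ s, ∀ S : Cf, S.Finite → (∀ l ∈ I, M.a l S ≠ 0) → (∀ l ∈ I', M'.a l S ≠ 0) →
    c1 ≤ Rs ε (Dr M M' T T' Bx i) (Gf M M' T T' F i) S

variable {M : Net ε ι κ} {M' : Net ε ι' κ'} {I : Finset ι} {J : Finset κ} {I' : Finset ι'}
  {J' : Finset κ'} {s : Finset α} {T : α → Finset κ} {T' : α → Finset κ'} {Bx : α → Set ℂ}
  {F : α → Cf → ℝ≥0∞} {c1 : ℝ≥0∞}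

lemma C_sub {k : κ} (hk : k ∈ J) : M.C k ⊆ M.reg I J :=
  (subset_biUnion_of_mem (u := M.C) hk).trans subset_union_right

lemma reg_C (k : κ) (hk : k ∉ J) : Disjoint (M.reg I J) (M.C k) := by
  unfold Net.reg
  rw [disjoint_union_left, disjoint_iUnion₂_left, disjoint_iUnion₂_left]
  refine ⟨fun i _ => M.BC i k, fun k' hk' => M.CC k' k ?_⟩
  rintro rfl
  exact hk hk'

/-- `c e ≤ fac` at finite configurations -/
lemma fac_ge (M : Net ε ι κ) (k : κ) {S : Cf} (hS : S.Finite) : M.c * M.e k S ≤ M.fac k S := by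
  have h1 : Rs ε (M.C k) (M.e k) S ≤ 1 := Rs_le M.eps (M.Cb k) (M.e1 k) (M.em k) hS
  have h2 : (1 : ℝ≥0∞) ≤ (Rs ε (M.C k) (M.e k) S)⁻¹ := ENNReal.one_le_inv.2 h1
  unfold Net.fac
  calc M.c * M.e k S = M.e k S * (M.c * 1) := by ring
    _ ≤ M.e k S * (M.c * (Rs ε (M.C k) (M.e k) S)⁻¹) := by gcongr

lemma prod_fac_ge (M : Net ε ι κ) (U : Finset κ) {S : Cf} (hS : S.Finite) :
    M.c ^ U.card * ∏ k ∈ U, M.e k S ≤ ∏ k ∈ U, M.fac k S := by
  rw [← Finset.prod_const, ← Finset.prod_mul_distrib]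
  exact Finset.prod_le_prod' fun k _ => fac_ge M k hS

lemma prod_fac (M : Net ε ι κ) (U : Finset κ) (S : Cf) :
    ∏ k ∈ U, M.fac k S = M.c ^ U.card * ∏ k ∈ U, M.e k S * (Rs ε (M.C k) (M.e k) S)⁻¹ := by
  rw [← Finset.prod_const, ← Finset.prod_mul_distrib]
  refine Finset.prod_congr rfl fun k _ => ?_
  unfold Net.fac
  ring

lemma gf_one {i : α} (hi : i ∈ s) (H : Arms M M' I J I' J' s T T' Bx F c1) (S : Cf) :
    Gf M M' T T' F i S ≤ 1 := by
  unfold Gf
  have h1 : ∏ k ∈ T i, M.e k S ≤ 1 := Finset.prod_le_one' fun k _ => M.e1 k S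
  have h2 : ∏ k ∈ T' i, M'.e k S ≤ 1 := Finset.prod_le_one' fun k _ => M'.e1 k S
  calc (∏ k ∈ T i, M.e k S) * (∏ k ∈ T' i, M'.e k S) * F i S ≤ 1 * 1 * 1 := by
        gcongr
        exact H.F1 i hi S
    _ = 1 := by ring

lemma gf_meas {i : α} (hi : i ∈ s) (H : Arms M M' I J I' J' s T T' Bx F c1) :
    FinMeas (Gf M M' T T' F i) :=
  fm_mul (fm_mul (fm_prod _ fun k _ => M.em k) (fm_prod _ fun k _ => M'.em k)) (H.Fm i hi)

lemma dr_meas {i : α} (hi : i ∈ s) (H : Arms M M' I J I' J' s T T' Bx F c1) :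
    MeasurableSet (Dr M M' T T' Bx i) :=
  ((Finset.measurableSet_biUnion _ fun k _ => M.Cm k).union
    (Finset.measurableSet_biUnion _ fun k _ => M'.Cm k)).union (H.Bm i hi)

lemma dr_bdd {i : α} (hi : i ∈ s) (H : Arms M M' I J I' J' s T T' Bx F c1) :
    Bornology.IsBounded (Dr M M' T T' Bx i) :=
  (((Bornology.isBounded_biUnion_finset _).2 fun k _ => M.Cb k).union
    ((Bornology.isBounded_biUnion_finset _).2 fun k _ => M'.Cb k)).union (H.Bb i hi)

lemma dr_left {i : α} {Y : Set ℂ} (h1 : ∀ k ∈ T i, Disjoint (M.C k) Y)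
    (h2 : ∀ k ∈ T' i, Disjoint (M'.C k) Y) (h3 : Disjoint (Bx i) Y) :
    Disjoint (Dr M M' T T' Bx i) Y := by
  unfold Dr
  rw [disjoint_union_left, disjoint_union_left, disjoint_iUnion₂_left, disjoint_iUnion₂_left]
  exact ⟨⟨h1, h2⟩, h3⟩

/-- the regions of two events are disjoint -/
lemma dr_disj (H : Arms M M' I J I' J' s T T' Bx F c1) {i j : α} (hi : i ∈ s) (hj : j ∈ s)
    (hij : i ≠ j) : Disjoint (Dr M M' T T' Bx i) (Dr M M' T T' Bx j) := by
  have hC : ∀ i ∈ s, ∀ k ∈ T i, M.C k ⊆ M.reg I J := fun i hi k hk => C_sub (H.hT i hi hk)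
  have hC' : ∀ i ∈ s, ∀ k ∈ T' i, M'.C k ⊆ M'.reg I' J' := fun i hi k hk => C_sub (H.hT' i hi hk)
  refine dr_left (fun k hk => ?_) (fun k hk => ?_) ?_
  · refine (dr_left (fun l hl => ?_) (fun l hl => ?_) ?_).symm
    · refine M.CC l k ?_
      rintro rfl
      exact Finset.disjoint_left.1 (H.dT i hi j hj hij) hk hl
    · exact (H.dis.mono (hC i hi k hk) (hC' j hj l hl)).symm
    · exact (H.dR j hj).mono_right (hC i hi k hk)
  · refine (dr_left (fun l hl => ?_) (fun l hl => ?_) ?_).symm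
    · exact H.dis.mono (hC j hj l hl) (hC' i hi k hk)
    · refine M'.CC l k ?_
      rintro rfl
      exact Finset.disjoint_left.1 (H.dT' i hi j hj hij) hk hl
    · exact (H.dR' j hj).mono_right (hC' i hi k hk)
  · refine (dr_left (fun l hl => ?_) (fun l hl => ?_) ?_).symm
    · exact ((H.dR i hi).mono_right (hC j hj l hl)).symm
    · exact ((H.dR' i hi).mono_right (hC' j hj l hl)).symm
    · exact (H.dB i hi j hj hij).symm

variable [DecidableEq κ] [DecidableEq κ']

/-- the region which is not used by the events -/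
def Ar (M : Net ε ι κ) (M' : Net ε ι' κ') (I : Finset ι) (J : Finset κ) (I' : Finset ι')
    (J' : Finset κ') (s : Finset α) (T : α → Finset κ) (T' : α → Finset κ') (Z : Set ℂ) : Set ℂ :=
  M.reg I (J \ s.biUnion T) ∪ M'.reg I' (J' \ s.biUnion T') ∪ Z

lemma ar_dr (H : Arms M M' I J I' J' s T T' Bx F c1) {Z : Set ℂ}
    (hZd : ∀ i ∈ s, Disjoint Z (Dr M M' T T' Bx i)) {i : α} (hi : i ∈ s) :
    Disjoint (Ar M M' I J I' J' s T T' Z) (Dr M M' T T' Bx i) := by
  unfold Ar
  rw [disjoint_union_left, disjoint_union_left]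
  refine ⟨⟨?_, ?_⟩, hZd i hi⟩
  · refine (dr_left (fun l hl => ?_) (fun l hl => ?_) ?_).symm
    · refine (reg_C l fun h => ?_).symm
      exact (Finset.mem_sdiff.1 h).2 (Finset.mem_biUnion.2 ⟨i, hi, hl⟩)
    · exact (H.dis.mono (M.reg_mono subset_rfl Finset.sdiff_subset) (C_sub (H.hT' i hi hl))).symm
    · exact (H.dR i hi).mono_right (M.reg_mono subset_rfl Finset.sdiff_subset)
  · refine (dr_left (fun l hl => ?_) (fun l hl => ?_) ?_).symm
    · exact H.dis.mono (C_sub (H.hT i hi hl)) (M'.reg_mono subset_rfl Finset.sdiff_subset)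
    · refine (reg_C l fun h => ?_).symm
      exact (Finset.mem_sdiff.1 h).2 (Finset.mem_biUnion.2 ⟨i, hi, hl⟩)
    · exact (H.dR' i hi).mono_right (M'.reg_mono subset_rfl Finset.sdiff_subset)

/-- the weight without the tubes of the events, times `X` -/
def Hf (M : Net ε ι κ) (M' : Net ε ι' κ') (I : Finset ι) (J : Finset κ) (I' : Finset ι')
    (J' : Finset κ') (s : Finset α) (T : α → Finset κ) (T' : α → Finset κ') (X : Cf → ℝ≥0∞)
    (S : Cf) : ℝ≥0∞ :=
  M.gw I (J \ s.biUnion T) S * M'.gw I' (J' \ s.biUnion T') S * X S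

lemma hf_local (H : Arms M M' I J I' J' s T T' Bx F c1) {Z : Set ℂ} {X : Cf → ℝ≥0∞}
    (hX : LocalOn (Ar M M' I J I' J' s T T' Z) X) :
    LocalOn (Ar M M' I J I' J' s T T' Z) (Hf M M' I J I' J' s T T' X) := by
  refine LocalOn.mul (LocalOn.mul ?_ ?_) hX
  · exact LocalOn.mono (subset_union_left.trans subset_union_left)
      (M.gw_local fun k hk => H.hN k (Finset.mem_sdiff.1 hk).1)
  · exact LocalOn.mono (subset_union_right.trans subset_union_left)
      (M'.gw_local fun k hk => H.hN' k (Finset.mem_sdiff.1 hk).1)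

lemma hf_meas {X : Cf → ℝ≥0∞} (hXm : FinMeas X) : FinMeas (Hf M M' I J I' J' s T T' X) :=
  fm_mul (fm_mul (M.gw_meas _ _) (M'.gw_meas _ _)) hXm

lemma hf_gates {X : Cf → ℝ≥0∞} {S : Cf} (h : Hf M M' I J I' J' s T T' X S ≠ 0) :
    (∀ l ∈ I, M.a l S ≠ 0) ∧ ∀ l ∈ I', M'.a l S ≠ 0 := by
  constructor
  · intro l hl h0
    apply h
    unfold Hf Net.gw
    rw [Finset.prod_eq_zero hl h0]
    simp
  · intro l hl h0
    apply h
    unfold Hf Net.gw
    rw [Finset.prod_eq_zero (s := I') hl h0]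
    simp

lemma ar_meas {Z : Set ℂ} (hZ : MeasurableSet Z) :
    MeasurableSet (Ar M M' I J I' J' s T T' Z) :=
  ((M.reg_meas _ _).union (M'.reg_meas _ _)).union hZ

lemma ar_bdd {Z : Set ℂ} (hZ : Bornology.IsBounded Z) :
    Bornology.IsBounded (Ar M M' I J I' J' s T T' Z) :=
  ((M.reg_bdd _ _).union (M'.reg_bdd _ _)).union hZ

lemma gf_local (H : Arms M M' I J I' J' s T T' Bx F c1) {Z : Set ℂ} {i : α} (hi : i ∈ s) :
    LocalOn (Ar M M' I J I' J' s T T' Z ∪ Dr M M' T T' Bx i) (Gf M M' T T' F i) := by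
  have hB : (⋃ l ∈ I, M.B l) ⊆ Ar M M' I J I' J' s T T' Z :=
    subset_union_left.trans (subset_union_left.trans subset_union_left)
  have hB' : (⋃ l ∈ I', M'.B l) ⊆ Ar M M' I J I' J' s T T' Z :=
    subset_union_left.trans (subset_union_right.trans subset_union_left)
  have hD : (⋃ k ∈ T i, M.C k) ⊆ Dr M M' T T' Bx i := subset_union_left.trans subset_union_left
  have hD' : (⋃ k ∈ T' i, M'.C k) ⊆ Dr M M' T T' Bx i := subset_union_right.trans subset_union_left
  have hD2 : Bx i ⊆ Dr M M' T T' Bx i := subset_union_right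
  refine LocalOn.mul (LocalOn.mul ?_ ?_) ?_
  · refine local_prod' _ fun k hk => LocalOn.mono ?_ (M.el k)
    refine union_subset_union ((biUnion_subset_biUnion_left (H.hN k (H.hT i hi hk))).trans hB) ?_
    exact (subset_biUnion_of_mem (u := M.C) hk).trans hD
  · refine local_prod' _ fun k hk => LocalOn.mono ?_ (M'.el k)
    refine union_subset_union ((biUnion_subset_biUnion_left (H.hN' k (H.hT' i hi hk))).trans hB') ?_
    exact (subset_biUnion_of_mem (u := M'.C) hk).trans hD'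
  · refine LocalOn.mono ?_ (H.Fl i hi)
    refine union_subset (union_subset ?_ ?_) (hD2.trans subset_union_right)
    · exact union_subset (hB.trans subset_union_left) (hD.trans subset_union_right)
    · exact union_subset (hB'.trans subset_union_left) (hD'.trans subset_union_right)

/-- the tubes of the events integrated out -/
lemma strip_tubes (H : Arms M M' I J I' J' s T T' Bx F c1) {X : Cf → ℝ≥0∞} {Z : Set ℂ}
    (hZ : MeasurableSet Z) (hZb : Bornology.IsBounded Z)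
    (hZd : ∀ i ∈ s, Disjoint Z (Dr M M' T T' Bx i))
    (hX : LocalOn (Ar M M' I J I' J' s T T' Z) X) (hXm : FinMeas X) :
    ∫⁻ ω, M.gw I J (cfg ε ω) * M'.gw I' J' (cfg ε ω) * X (cfg ε ω) ∂sampleLaw =
      M.c ^ (s.biUnion T).card * M'.c ^ (s.biUnion T').card *
        ∫⁻ ω, Hf M M' I J I' J' s T T' X (cfg ε ω) ∂sampleLaw := by
  classical
  set U := s.biUnion T with hU
  set U' := s.biUnion T' with hU'
  have hUJ : U ⊆ J := Finset.biUnion_subset.2 H.hT
  have hUJ' : U' ⊆ J' := Finset.biUnion_subset.2 H.hT'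
  have e1 : ∀ S, M.gw I J S * M'.gw I' J' S * X S = M.c ^ U.card * M'.c ^ U'.card *
      ((∏ k ∈ U.disjSum U', Sum.elim M.e M'.e k S *
        (Rs ε (Sum.elim M.C M'.C k) (Sum.elim M.e M'.e k) S)⁻¹) *
          Hf M M' I J I' J' s T T' X S) := by
    intro S
    have h2 : ∏ k ∈ J, M.fac k S = (∏ k ∈ J \ U, M.fac k S) * ∏ k ∈ U, M.fac k S :=
      (Finset.prod_sdiff hUJ).symm
    have h2' : ∏ k ∈ J', M'.fac k S = (∏ k ∈ J' \ U', M'.fac k S) * ∏ k ∈ U', M'.fac k S :=
      (Finset.prod_sdiff hUJ').symm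
    rw [Finset.prod_disjSum]
    simp only [Sum.elim_inl, Sum.elim_inr]
    unfold Hf Net.gw
    rw [h2, h2', prod_fac M U, prod_fac M' U', ← hU, ← hU']
    ring
  simp only [e1]
  rw [lintegral_const_mul']
  swap
  · exact ENNReal.mul_ne_top (ENNReal.pow_ne_top M.c1) (ENNReal.pow_ne_top M'.c1)
  congr 1
  refine strip M.eps (U.disjSum U') (Sum.elim M.C M'.C) (Sum.elim M.e M'.e)
    (A := Ar M M' I J I' J' s T T' Z) (ar_meas hZ) (ar_bdd hZb) ?_ ?_ ?_ ?_ ?_ ?_ ?_
    (hf_local H hX) (hf_meas hXm) ?_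
  · rintro (k | k) _
    exacts [M.Cm k, M'.Cm k]
  · rintro (k | k) _
    exacts [M.Cb k, M'.Cb k]
  · rintro (k | k) hk (l | l) hl hkl
    · exact M.CC k l fun h => hkl (by rw [h])
    · rw [Finset.inl_mem_disjSum] at hk
      rw [Finset.inr_mem_disjSum] at hl
      exact H.dis.mono (C_sub (hUJ hk)) (C_sub (hUJ' hl))
    · rw [Finset.inr_mem_disjSum] at hk
      rw [Finset.inl_mem_disjSum] at hl
      exact (H.dis.mono (C_sub (hUJ hl)) (C_sub (hUJ' hk))).symm
    · exact M'.CC k l fun h => hkl (by rw [h])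
  · rintro (k | k) hk
    · rw [Finset.inl_mem_disjSum] at hk
      obtain ⟨i, hi, hki⟩ := Finset.mem_biUnion.1 hk
      exact (ar_dr H hZd hi).mono_right ((subset_biUnion_of_mem (u := M.C) hki).trans
        (subset_union_left.trans subset_union_left))
    · rw [Finset.inr_mem_disjSum] at hk
      obtain ⟨i, hi, hki⟩ := Finset.mem_biUnion.1 hk
      exact (ar_dr H hZd hi).mono_right ((subset_biUnion_of_mem (u := M'.C) hki).trans
        (subset_union_right.trans subset_union_left))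
  · rintro (k | k) hk
    · rw [Finset.inl_mem_disjSum] at hk
      refine LocalOn.mono (union_subset_union_left _ ?_) (M.el k)
      exact (biUnion_subset_biUnion_left (H.hN k (hUJ hk))).trans
        (subset_union_left.trans (subset_union_left.trans subset_union_left))
    · rw [Finset.inr_mem_disjSum] at hk
      refine LocalOn.mono (union_subset_union_left _ ?_) (M'.el k)
      exact (biUnion_subset_biUnion_left (H.hN' k (hUJ' hk))).trans
        (subset_union_left.trans (subset_union_right.trans subset_union_left))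
  · rintro (k | k) _
    exacts [M.em k, M'.em k]
  · rintro (k | k) _ S
    exacts [M.e1 k S, M'.e1 k S]
  · rintro (k | k) hk S hS h0 h
    · rw [Finset.inl_mem_disjSum] at hk
      have h3 := M.pos k S hS fun i hi => (hf_gates h0).1 i (H.hN k (hUJ hk) hi)
      change Rs ε (M.C k) (M.e k) S = 0 at h
      rw [h] at h3
      exact M.c0 (le_zero_iff.1 h3)
    · rw [Finset.inr_mem_disjSum] at hk
      have h3 := M'.pos k S hS fun i hi => (hf_gates h0).2 i (H.hN' k (hUJ' hk) hi)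
      change Rs ε (M'.C k) (M'.e k) S = 0 at h
      rw [h] at h3
      exact M'.c0 (le_zero_iff.1 h3)

/-- the region of everything -/
def Wr (M : Net ε ι κ) (M' : Net ε ι' κ') (I : Finset ι) (J : Finset κ) (I' : Finset ι')
    (J' : Finset κ') (s : Finset α) (T : α → Finset κ) (T' : α → Finset κ') (Bx : α → Set ℂ)
    (Z : Set ℂ) : Set ℂ :=
  Ar M M' I J I' J' s T T' Z ∪ ⋃ i ∈ s, Dr M M' T T' Bx i

lemma dr_wr {Z : Set ℂ} {i : α} (hi : i ∈ s) :
    Dr M M' T T' Bx i ⊆ Wr M M' I J I' J' s T T' Bx Z :=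
  (subset_biUnion_of_mem (u := Dr M M' T T' Bx) hi).trans subset_union_right

lemma reg_wr {Z : Set ℂ} : M.reg I J ⊆ Wr M M' I J I' J' s T T' Bx Z := by
  refine union_subset ?_ ?_
  · exact subset_union_left.trans (subset_union_left.trans (subset_union_left.trans
      subset_union_left))
  · refine iUnion₂_subset fun k hk => ?_
    by_cases h : k ∈ s.biUnion T
    · obtain ⟨i, hi, hki⟩ := Finset.mem_biUnion.1 h
      exact ((subset_biUnion_of_mem (u := M.C) hki).trans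
        (subset_union_left.trans subset_union_left)).trans (dr_wr hi)
    · exact (C_sub (Finset.mem_sdiff.2 ⟨hk, h⟩)).trans (subset_union_left.trans
        (subset_union_left.trans subset_union_left))

lemma reg_wr' {Z : Set ℂ} : M'.reg I' J' ⊆ Wr M M' I J I' J' s T T' Bx Z := by
  refine union_subset ?_ ?_
  · exact subset_union_left.trans (subset_union_right.trans (subset_union_left.trans
      subset_union_left))
  · refine iUnion₂_subset fun k hk => ?_
    by_cases h : k ∈ s.biUnion T'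
    · obtain ⟨i, hi, hki⟩ := Finset.mem_biUnion.1 h
      exact ((subset_biUnion_of_mem (u := M'.C) hki).trans
        (subset_union_right.trans subset_union_left)).trans (dr_wr hi)
    · exact (C_sub (Finset.mem_sdiff.2 ⟨hk, h⟩)).trans (subset_union_right.trans
        (subset_union_left.trans subset_union_left))

lemma wr_bdd (H : Arms M M' I J I' J' s T T' Bx F c1) {Z : Set ℂ} (hZ : Bornology.IsBounded Z) :
    Bornology.IsBounded (Wr M M' I J I' J' s T T' Bx Z) :=
  (ar_bdd hZ).union ((Bornology.isBounded_biUnion_finset _).2 fun _ hi => dr_bdd hi H)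

/-- pointwise comparison at finite configurations -/
lemma key_fin (H : Arms M M' I J I' J' s T T' Bx F c1) (hc0 : c1 ≠ 0) {X : Cf → ℝ≥0∞} {S : Cf}
    (hS : S.Finite) :
    c1 ^ s.card * (M.c ^ (s.biUnion T).card * M'.c ^ (s.biUnion T').card) *
      ((∏ i ∈ s, Gf M M' T T' F i S * (Rs ε (Dr M M' T T' Bx i) (Gf M M' T T' F i) S)⁻¹) *
        Hf M M' I J I' J' s T T' X S) ≤
      M.gw I J S * M'.gw I' J' S * X S * ∏ i ∈ s, F i S := by
  classical
  set U := s.biUnion T with hU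
  set U' := s.biUnion T' with hU'
  by_cases h0 : Hf M M' I J I' J' s T T' X S = 0
  · rw [h0, mul_zero, mul_zero]
    exact zero_le
  have hg := hf_gates h0
  have h1 : c1 ^ s.card * ∏ i ∈ s, Gf M M' T T' F i S *
      (Rs ε (Dr M M' T T' Bx i) (Gf M M' T T' F i) S)⁻¹ ≤ ∏ i ∈ s, Gf M M' T T' F i S := by
    rw [← Finset.prod_const, ← Finset.prod_mul_distrib]
    refine Finset.prod_le_prod' fun i hi => ?_
    have h2 := H.pos i hi S hS hg.1 hg.2
    set R := Rs ε (Dr M M' T T' Bx i) (Gf M M' T T' F i) S with hR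
    have h3 : R ≤ 1 := Rs_le M.eps (dr_bdd hi H) (fun S => gf_one hi H S) (gf_meas hi H) hS
    have h4 : R ≠ ∞ := ne_top_of_le_ne_top ENNReal.one_ne_top h3
    have h5 : R ≠ 0 := fun h => hc0 (le_zero_iff.1 (h ▸ h2))
    calc c1 * (Gf M M' T T' F i S * R⁻¹) = Gf M M' T T' F i S * (c1 * R⁻¹) := by ring
      _ ≤ Gf M M' T T' F i S * (R * R⁻¹) := by gcongr
      _ = Gf M M' T T' F i S := by rw [ENNReal.mul_inv_cancel h5 h4, mul_one]
  have h6 : ∏ i ∈ s, Gf M M' T T' F i S =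
      (∏ k ∈ U, M.e k S) * (∏ k ∈ U', M'.e k S) * ∏ i ∈ s, F i S := by
    unfold Gf
    rw [Finset.prod_mul_distrib, Finset.prod_mul_distrib, hU, hU',
      Finset.prod_biUnion fun i hi j hj hij => H.dT i hi j hj hij,
      Finset.prod_biUnion fun i hi j hj hij => H.dT' i hi j hj hij]
  have h7 := prod_fac_ge M U hS
  have h8 := prod_fac_ge M' U' hS
  have hUJ : U ⊆ J := Finset.biUnion_subset.2 H.hT
  have hUJ' : U' ⊆ J' := Finset.biUnion_subset.2 H.hT'
  have g1 : M.gw I J S = M.gw I (J \ U) S * ∏ k ∈ U, M.fac k S := by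
    unfold Net.gw
    rw [mul_assoc, Finset.prod_sdiff hUJ]
  have g2 : M'.gw I' J' S = M'.gw I' (J' \ U') S * ∏ k ∈ U', M'.fac k S := by
    unfold Net.gw
    rw [mul_assoc, Finset.prod_sdiff hUJ']
  calc c1 ^ s.card * (M.c ^ U.card * M'.c ^ U'.card) *
      ((∏ i ∈ s, Gf M M' T T' F i S * (Rs ε (Dr M M' T T' Bx i) (Gf M M' T T' F i) S)⁻¹) *
        Hf M M' I J I' J' s T T' X S)
      = (M.c ^ U.card * M'.c ^ U'.card) * ((c1 ^ s.card * ∏ i ∈ s, Gf M M' T T' F i S *
          (Rs ε (Dr M M' T T' Bx i) (Gf M M' T T' F i) S)⁻¹) *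
            Hf M M' I J I' J' s T T' X S) := by ring
    _ ≤ (M.c ^ U.card * M'.c ^ U'.card) * ((∏ i ∈ s, Gf M M' T T' F i S) *
            Hf M M' I J I' J' s T T' X S) := by gcongr
    _ = (M.c ^ U.card * ∏ k ∈ U, M.e k S) * (M'.c ^ U'.card * ∏ k ∈ U', M'.e k S) *
          (Hf M M' I J I' J' s T T' X S * ∏ i ∈ s, F i S) := by rw [h6]; ring
    _ ≤ (∏ k ∈ U, M.fac k S) * (∏ k ∈ U', M'.fac k S) *
          (Hf M M' I J I' J' s T T' X S * ∏ i ∈ s, F i S) := by gcongr
    _ = _ := by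
        rw [g1, g2]
        unfold Hf
        rw [← hU, ← hU']
        ring

/-- **THE PRODUCT OF THE EVENTS** : `c1 ^ #s * E[g g' X] ≤ E[g g' X ∏ F i]` for every `X` which does
not see the tubes and the boxes of the events -/
theorem Arms.ge (H : Arms M M' I J I' J' s T T' Bx F c1) (hc : c1 ≠ ∞) {X : Cf → ℝ≥0∞}
    {Z : Set ℂ} (hZ : MeasurableSet Z) (hZb : Bornology.IsBounded Z)
    (hZd : ∀ i ∈ s, Disjoint Z (Dr M M' T T' Bx i))
    (hX : LocalOn (Ar M M' I J I' J' s T T' Z) X) (hXm : FinMeas X) :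
    c1 ^ s.card * ∫⁻ ω, M.gw I J (cfg ε ω) * M'.gw I' J' (cfg ε ω) * X (cfg ε ω) ∂sampleLaw ≤
      ∫⁻ ω, M.gw I J (cfg ε ω) * M'.gw I' J' (cfg ε ω) * X (cfg ε ω) *
        ∏ i ∈ s, F i (cfg ε ω) ∂sampleLaw := by
  classical
  by_cases hc0 : c1 = 0
  · rcases s.eq_empty_or_nonempty with h | h
    · subst h
      simp
    · rw [hc0, zero_pow (Finset.card_ne_zero.2 h), zero_mul]
      exact zero_le
  rw [strip_tubes H hZ hZb hZd hX hXm]
  have e := strip M.eps s (Dr M M' T T' Bx) (Gf M M' T T' F) (H := Hf M M' I J I' J' s T T' X)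
    (A := Ar M M' I J I' J' s T T' Z) (ar_meas hZ) (ar_bdd hZb) (fun i hi => dr_meas hi H)
    (fun i hi => dr_bdd hi H) (fun i hi j hj hij => dr_disj H hi hj hij)
    (fun i hi => ar_dr H hZd hi) (fun i hi => gf_local H hi) (fun i hi => gf_meas hi H)
    (fun i hi S => gf_one hi H S) (hf_local H hX) (hf_meas hXm)
    (fun i hi S hS h0 h => by
      have h2 := H.pos i hi S hS (hf_gates h0).1 (hf_gates h0).2
      rw [h] at h2
      exact hc0 (le_zero_iff.1 h2))
  rw [← e, ← mul_assoc, ← lintegral_const_mul']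
  swap
  · exact ENNReal.mul_ne_top (ENNReal.pow_ne_top hc)
      (ENNReal.mul_ne_top (ENNReal.pow_ne_top M.c1) (ENNReal.pow_ne_top M'.c1))
  refine lintegral_mono fun ω => ?_
  refine le_fin (F := fun S => c1 ^ s.card * (M.c ^ (s.biUnion T).card *
      M'.c ^ (s.biUnion T').card) * ((∏ i ∈ s, Gf M M' T T' F i S *
        (Rs ε (Dr M M' T T' Bx i) (Gf M M' T T' F i) S)⁻¹) * Hf M M' I J I' J' s T T' X S))
    (G := fun S => M.gw I J S * M'.gw I' J' S * X S * ∏ i ∈ s, F i S)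
    (B := Wr M M' I J I' J' s T T' Bx Z) M.eps (wr_bdd H hZb) ?_ ?_
    (fun S hS => key_fin H hc0 hS) ω
  · refine LocalOn.comp (X := ℝ≥0∞) (F := fun S => ((∏ i ∈ s, Gf M M' T T' F i S *
        (Rs ε (Dr M M' T T' Bx i) (Gf M M' T T' F i) S)⁻¹) * Hf M M' I J I' J' s T T' X S)) ?_
      (fun x => c1 ^ s.card * (M.c ^ (s.biUnion T).card * M'.c ^ (s.biUnion T').card) * x)
    refine LocalOn.mul (local_prod' s fun i hi => LocalOn.mul ?_ ?_)
      (LocalOn.mono subset_union_left (hf_local H hX))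
    · exact LocalOn.mono (union_subset_union_right _
        (subset_biUnion_of_mem (u := Dr M M' T T' Bx) hi)) (gf_local H hi)
    · refine LocalOn.comp (LocalOn.mono ?_ (Rs_local M.eps (dr_meas hi H) (dr_bdd hi H)
        (gf_local (Z := Z) H hi))) (·⁻¹)
      rw [union_sdiff_right]
      exact sdiff_subset.trans subset_union_left
  · refine LocalOn.mul (LocalOn.mul (LocalOn.mul ?_ ?_) ?_) (local_prod' s fun i hi => ?_)
    · exact LocalOn.mono reg_wr (M.gw_local H.hN)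
    · exact LocalOn.mono reg_wr' (M'.gw_local H.hN')
    · exact LocalOn.mono subset_union_left hX
    · refine LocalOn.mono (union_subset (union_subset ?_ ?_) ?_) (H.Fl i hi)
      · exact (M.reg_mono subset_rfl (H.hT i hi)).trans reg_wr
      · exact (M'.reg_mono subset_rfl (H.hT' i hi)).trans reg_wr'
      · exact subset_union_right.trans (dr_wr hi)

omit [DecidableEq κ] [DecidableEq κ'] in
/-- the two nets are independent -/
theorem Arms.two (H : Arms M M' I J I' J' s T T' Bx F c1) :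
    ∫⁻ ω, M.gw I J (cfg ε ω) * M'.gw I' J' (cfg ε ω) ∂sampleLaw = mass M I J * mass M' I' J' :=
  lint_mul (F := M.gw I J) (G := M'.gw I' J') M.eps (M.reg_meas _ _) (M.reg_bdd _ _)
    (M'.reg_meas _ _) (M'.reg_bdd _ _) H.dis (M.gw_local H.hN) (M'.gw_local H.hN')
    (M.gw_meas _ _) (M'.gw_meas _ _)

/-- **`c1 ^ #s * (E[g] * E[g']) ≤ E[g g' ∏ F i]`** -/
theorem Arms.mass_le (H : Arms M M' I J I' J' s T T' Bx F c1) (hc : c1 ≠ ∞) :
    c1 ^ s.card * (mass M I J * mass M' I' J') ≤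
      ∫⁻ ω, M.gw I J (cfg ε ω) * M'.gw I' J' (cfg ε ω) * ∏ i ∈ s, F i (cfg ε ω) ∂sampleLaw := by
  have h := H.ge hc (X := fun _ => 1) (Z := ∅) MeasurableSet.empty Bornology.isBounded_empty
    (fun i _ => disjoint_bot_left) (fun _ => rfl) (fun n => measurable_const)
  simp only [mul_one] at h
  rw [H.two] at h
  exact h

end Crest.Agent.R143.ArmRx659
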