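import Crest.Agent.R143.Bud_432
import Crest.Agent.R143.Mass5_302

/-!
# Row 143 (S0194), block H, H4 (i) part 2: the energy budget of a net with one giant (helper432)

`M' = coarse M π hπ`, `o` = the giant, all the other cells (fresh cells) are single genuine cells
whose faces are Delaunay faces of `P` with closed circumdisc in `U`.

* `agr_coarse` : `M'` agrees with the Delaunay triangulation inside a set with fresh sites only
* `blocks_ph` : the blocks whose loop is inside `Q` against `fam.Ph Q`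
* `chd` : chords = blocks of `M'` which leave the giant; `clb` : closed blocks whose loop is in no
  square of side `k`
* `budget_one` : **the energy of the net is at most the energy of the chords + `fam.Ph` of the squares
  of a grid + the energy of the faces near the grid + the energy of the big closed blocks**
-/

set_option autoImplicit false

noncomputable section

open scoped Classical

namespace Crest.Agent.R143.Bud2x432

open Crest.Agent.R143.B0x346 Crest.Agent.R143.SumScx302 Crest.Agent.R143.Mass1x302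
  Crest.Agent.R143.Mass2x302 Crest.Agent.R143.Mass3x302 Crest.Agent.R143.Mass4x302
  Crest.Agent.R143.Mass5x302
open Crest.Agent.R143.Frame1x395 Crest.Agent.R143.Frame2x395 Crest.Agent.R143.Frame3x395
  Crest.Agent.R143.Frame4x395 Crest.Agent.R143.Frame8x395 Crest.Agent.R143.Frame9x395
  Crest.Agent.R143.Coarsex166 Crest.Agent.R143.Budx432
open scoped ENNReal

variable {D C C' : Type} {M : CMap D C} {P U : Set ℂ} {δ : ℂ → ℂ → D} {κ : ℂ → C}
variable {π : C → C'} {hπ : ClsCon M π} {o : C'} {x : D → ZMod 2} {a b : D → ℂ}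

theorem fc_mono {Q U : Set ℂ} (h : Q ⊆ U) {p q r : ℂ} (H : Fc P Q p q r) : Fc P U p q r :=
  ⟨H.1, H.2.trans h⟩

/-- the coarse map agrees with the Delaunay triangulation where all the sites are fresh -/
theorem agr_coarse (A : Agr P U M δ κ) (T : Gt M π o) {Q : Set ℂ} (hQU : Q ⊆ U)
    (hQ : ∀ p q r, Fc P Q p q r → π (κ p) ≠ o) : Agr P Q (coarse M π hπ) δ (fun v => π (κ v)) where
  gp := A.gp
  rho := fun p q r h => A.rho p q r (fc_mono hQU h)
  iot := fun p q r e h h' => A.iot p q r e (fc_mono hQU h) (fc_mono hQU h')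
  cel := fun p q r h => congrArg π (A.cel p q r (fc_mono hQU h))
  inj := fun p q r p' q' r' h h' e => A.inj p q r p' q' r' (fc_mono hQU h) (fc_mono hQU h')
    (T.inj' (hQ p q r h) _ e)

/-- **the blocks whose loop is inside `U`** -/
theorem blocks_ph [Fintype D] (A : Agr P U M δ κ) {X : Set (ℂ × Bool)} (hX : ps X = P)
    (ha : ∀ t : T3, Fc P U t.1 t.2.1 t.2.2 → a (gd δ t) = Nn t) :
    ∑ x ∈ ev M, ∑ β ∈ (blks M x).filter (fun β => ∃ g ∈ β, InU P U M δ x g),
      ENNReal.ofReal (‖∑ g ∈ β, a g‖ ^ 2) ≤ ((ev M).card : ℝ≥0∞) * fam.Ph U X := by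
  have s1 := sum_swap A Tru fun o => ENNReal.ofReal (‖NN o.2‖ ^ 2)
  have e1 : fam.Ph U X = ∑' o : Obj, (if IsOb P o ∧ spt o ⊆ U ∧ Tru o then
      ENNReal.ofReal (‖NN o.2‖ ^ 2) * ENNReal.ofReal (pc o.1) else 0) := by
    unfold Fam.Ph
    refine tsum_congr fun o => ?_
    show (if IsOb (ps X) o ∧ spt o ⊆ U then wgt o else 0) = _
    rw [hX]
    refine if_congr ⟨fun h => ⟨h.1, h.2, trivial⟩, fun h => ⟨h.1, h.2.1⟩⟩ ?_ rfl
    unfold wgt
    rw [ENNReal.ofReal_mul (by positivity)]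
  rw [e1, s1]
  refine Finset.sum_le_sum fun x hx => ?_
  rw [mem_ev] at hx
  refine blocks_le Tru _ _ _ fun β hβ => ?_
  obtain ⟨hβ, g, hgβ, hU⟩ := Finset.mem_filter.1 hβ
  obtain ⟨hg, hb⟩ := mem_blks hx hβ hgβ
  obtain ⟨l, s, hl, hs, h1, hc, h2, ml⟩ := exists_lp A hx hg hU
  have ho : IsOb P (l, bl l s) := ⟨hl.lp, s, hs, h1, rfl⟩
  have hsp : spt (l, bl l s) ⊆ U := Set.iUnion₂_subset fun t ht => hl.sub t ht
  have him : im δ (l, bl l s) = β := by
    show (bl l s).image (gd δ) = β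
    rw [← A.blk_img hx hl hc hs h1, h2, hb]
  refine ⟨(l, bl l s), ho, hsp, trivial, hc, him, ?_⟩
  rw [← sum_im A ho hsp a fun t ht => ha t (hl.fc ht), him]

/-- the faces of the fresh cells are Delaunay faces inside `U` -/
def FrF (P U : Set ℂ) (M : CMap D C) (π : C → C') (o : C') (δ : ℂ → ℂ → D) : Prop :=
  ∀ d, π (M.cell d) ≠ o → ∃ p q r, Fc P U p q r ∧ d = δ p q

/-- the states of the walker in `M'` -/
theorem FrF.st (A : Agr P U M δ κ) (F : FrF P U M π o δ) (hx : IsC (coarse M π hπ) ∅ x) {d : D}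
    (hd : x d = 1) : ∃ p q r, Fc P U p q r ∧ d = δ p q := by
  have hl := hx.lv hd
  rw [coarse_live] at hl
  by_cases h1 : π (M.cell d) = o
  · have h2 : π (M.cell (M.rho d)) ≠ o := fun h => hl.2 (h1.trans h.symm)
    obtain ⟨p, q, r, hf, e⟩ := F _ h2
    refine ⟨r, p, q, hf.rot.rot, ?_⟩
    have e1 := A.rho p q r hf
    have e2 := A.rho q r p hf.rot
    rw [← M.rho3 d, e, e1, e2]
  · exact F d h1

/-- chords: the blocks of the coarse map which leave the giant -/
def chd [Fintype D] (M : CMap D C) (π : C → C') (hπ : ClsCon M π) (o : C') (x : D → ZMod 2) :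
    Finset (Finset D) := (blks (coarse M π hπ) x).filter fun β => ¬ Cls M π o β

/-- closed blocks of the coarse map whose loop is in no square of side `k` -/
def clb [Fintype D] (P U : Set ℂ) (M : CMap D C) (π : C → C') (hπ : ClsCon M π) (o : C')
    (δ : ℂ → ℂ → D) (k : ℝ) (x : D → ZMod 2) : Finset (Finset D) :=
  (blks (coarse M π hπ) x).filter fun β => Cls M π o β ∧ ∃ g ∈ β, Big P U M δ x k g

/-- energy of a block -/
def en (a : D → ℂ) (β : Finset D) : ℝ≥0∞ := ENNReal.ofReal (‖∑ g ∈ β, a g‖ ^ 2)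

/-- the other gaps of the block are on the loop -/
theorem on_loop [Finite D] (hx : IsC M ∅ x) {g h : D} (hg : Gp M x g) (hh : Gp M x h)
    (H : Rel M x g h) : ∃ n, (stp M x)^[n] (M.rho g) = M.rho h := by
  rcases H (M.cell g) with h3 | ⟨n, h3, -⟩ | ⟨n, h3, -⟩
  · exact ⟨0, by rw [h3]; rfl⟩
  · refine ⟨n + 1, ?_⟩
    rw [Function.iterate_succ_apply, hg.stp hx, h3]
  · obtain ⟨m, hm⟩ := come_back hx hh hg h3
    refine ⟨m + 1, ?_⟩
    rw [Function.iterate_succ_apply, hg.stp hx, hm]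

variable {ι : Type} {J : Finset ι} {Q : ι → Set ℂ} {k : ℝ}

/-- every block is a chord, or inside a square of the grid, or near the grid, or big and closed -/
theorem blk_cases [Fintype D] (A : Agr P U M δ κ) (F : FrF P U M π o δ)
    (hb : ∀ z, (∃ j ∈ J, sq z k ⊆ Q j) ∨
      ∀ t : T3, Fc P U t.1 t.2.1 t.2.2 → cdisc t ⊆ sq z k → b (gd δ t) = a (gd δ t))
    (hx : x ∈ ev (coarse M π hπ)) {β : Finset D} (hβ : β ∈ blks (coarse M π hπ) x) :
    β ∈ chd M π hπ o x ∨ (∃ j ∈ J, ∃ g ∈ β, InU P (Q j) (coarse M π hπ) δ x g) ∨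
      (∑ g ∈ β, a g = ∑ g ∈ β, b g) ∨ β ∈ clb P U M π hπ o δ k x := by
  rw [mem_ev] at hx
  by_cases hc : Cls M π o β
  swap
  · exact Or.inl (Finset.mem_filter.2 ⟨hβ, hc⟩)
  by_cases hB : ∃ g ∈ β, Big P U M δ x k g
  · exact Or.inr (Or.inr (Or.inr (Finset.mem_filter.2 ⟨hβ, hc, hB⟩)))
  obtain ⟨g, hg, rfl⟩ := Finset.mem_image.1 hβ
  rw [mem_gaps] at hg
  have hg' : Gp M x g := hg
  push Not at hB
  have h1 := hB g (self_mem hg)
  unfold Big at h1
  push Not at h1
  obtain ⟨z, hz⟩ := h1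
  have hx' := IsC.of_coarse hx
  rcases hb z with ⟨j, hj, hs⟩ | hs
  · right; left
    refine ⟨j, hj, g, self_mem hg, fun n => ?_⟩
    obtain ⟨p, q, r, hf, e⟩ := F.st A hx (occ_it hx hg.2 n)
    refine ⟨p, q, r, ⟨hf.1, (hz n p q r hf e).trans hs⟩, e⟩
  · right; right; left
    refine Finset.sum_congr rfl fun h hh => ?_
    obtain ⟨h2, h3⟩ := mem_blk.1 hh
    obtain ⟨n, hn⟩ := on_loop hx hg h2 h3
    obtain ⟨p, q, r, hf, e⟩ := F.st A hx h2.2
    have e1 : gd δ (p, q, r) = h := by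
      have := A.gd_eq (s := (p, q, r)) hf
      rw [this]
      show M.rho (M.rho (δ p q)) = h
      rw [← e]
      exact M.rho3 h
    have h4 := hs (p, q, r) hf (hz n p q r hf (hn.trans e))
    rw [e1] at h4
    exact h4.symm

/-- pointwise form -/
theorem blk_sum [Fintype D] (A : Agr P U M δ κ) (F : FrF P U M π o δ)
    (hb : ∀ z, (∃ j ∈ J, sq z k ⊆ Q j) ∨
      ∀ t : T3, Fc P U t.1 t.2.1 t.2.2 → cdisc t ⊆ sq z k → b (gd δ t) = a (gd δ t))
    (hx : x ∈ ev (coarse M π hπ)) :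
    ∑ β ∈ blks (coarse M π hπ) x, en a β ≤ ∑ β ∈ chd M π hπ o x, en a β +
      ∑ j ∈ J, ∑ β ∈ (blks (coarse M π hπ) x).filter
        (fun β => ∃ g ∈ β, InU P (Q j) (coarse M π hπ) δ x g), en a β +
      ∑ β ∈ blks (coarse M π hπ) x, en b β + ∑ β ∈ clb P U M π hπ o δ k x, en a β := by
  have key : ∀ β ∈ blks (coarse M π hπ) x, en a β ≤ (if β ∈ chd M π hπ o x then en a β else 0) +
      (∑ j ∈ J, if ∃ g ∈ β, InU P (Q j) (coarse M π hπ) δ x g then en a β else 0) + en b β +
      (if β ∈ clb P U M π hπ o δ k x then en a β else 0) := by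
    intro β hβ
    rcases blk_cases A F hb hx hβ with h1 | ⟨j, hj, h1⟩ | h1 | h1
    · rw [if_pos h1, add_assoc, add_assoc]
      exact le_self_add
    · have h2 : en a β ≤ ∑ j ∈ J, if ∃ g ∈ β, InU P (Q j) (coarse M π hπ) δ x g then en a β
          else 0 := by
        refine le_trans ?_ (Finset.single_le_sum (f := fun j =>
          if ∃ g ∈ β, InU P (Q j) (coarse M π hπ) δ x g then en a β else 0)
          (fun _ _ => zero_le) hj)
        show en a β ≤ if ∃ g ∈ β, InU P (Q j) (coarse M π hπ) δ x g then en a β else 0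
        rw [if_pos h1]
      refine h2.trans ?_
      rw [add_assoc, add_assoc]
      exact le_add_self.trans (add_le_add_right le_self_add _)
    · have h2 : en a β = en b β := by unfold en; rw [h1]
      rw [h2]
      exact le_add_self.trans le_self_add
    · rw [if_pos h1]
      exact le_add_self
  refine (Finset.sum_le_sum key).trans ?_
  rw [Finset.sum_add_distrib, Finset.sum_add_distrib, Finset.sum_add_distrib]
  refine add_le_add (add_le_add (add_le_add ?_ ?_) le_rfl) ?_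
  · rw [← Finset.sum_filter]
    refine Finset.sum_le_sum_of_subset fun β hβ => (Finset.mem_filter.1 hβ).2
  · rw [Finset.sum_comm]
    refine Finset.sum_le_sum fun j _ => ?_
    rw [Finset.sum_filter]
  · rw [← Finset.sum_filter]
    refine Finset.sum_le_sum_of_subset fun β hβ => (Finset.mem_filter.1 hβ).2

/-- the total energy (`i1_norm`) -/
theorem sum_en [Fintype D] {w : ℂ} (w3 : w ^ 3 = 1) (w1 : w ≠ 1)
    (wc : (starRingEnd ℂ) w = w ^ 2) (ha : Spin M w a) :
    ∑ x ∈ ev M, ∑ β ∈ blks M x, en a β = ENNReal.ofReal (∑ g, ‖a g‖ ^ 2 * (nG M g : ℝ)) := by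
  rw [← i1_norm w3 w1 wc ha, ENNReal.ofReal_sum_of_nonneg
    (fun x _ => Finset.sum_nonneg fun β _ => by positivity)]
  refine Finset.sum_congr rfl fun x _ => ?_
  rw [ENNReal.ofReal_sum_of_nonneg (fun β _ => by positivity)]
  rfl

theorem spin_coarse {w : ℂ} (ha : Spin M w a) : Spin (coarse M π hπ) w a := ha

/-- **THE ENERGY BUDGET of a net with one giant** -/
theorem budget_one [Fintype D] (A : Agr P U M δ κ) (T : Gt M π o) (F : FrF P U M π o δ)
    {X : Set (ℂ × Bool)} (hX : ps X = P) (hQU : ∀ j ∈ J, Q j ⊆ U)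
    (hQ : ∀ j ∈ J, ∀ p q r, Fc P (Q j) p q r → π (κ p) ≠ o)
    (hb : ∀ z, (∃ j ∈ J, sq z k ⊆ Q j) ∨
      ∀ t : T3, Fc P U t.1 t.2.1 t.2.2 → cdisc t ⊆ sq z k → b (gd δ t) = a (gd δ t))
    (ha : ∀ t : T3, Fc P U t.1 t.2.1 t.2.2 → a (gd δ t) = Nn t)
    {w : ℂ} (w3 : w ^ 3 = 1) (w1 : w ≠ 1) (wc : (starRingEnd ℂ) w = w ^ 2)
    (sa : Spin M w a) (sb : Spin M w b) {G : Finset D}
    (hG : ∀ g ∈ G, π (M.cell g) ≠ π (M.cell (M.rho g)) ∧
      π (M.cell (M.rho g)) ≠ π (M.cell (M.rho (M.rho g))) ∧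
      π (M.cell (M.rho (M.rho g))) ≠ π (M.cell g)) :
    ((ev (coarse M π hπ)).card : ℝ≥0∞) * ENNReal.ofReal ((∑ g ∈ G, ‖a g‖ ^ 2) / 4) ≤
      ∑ x ∈ ev (coarse M π hπ), ∑ β ∈ chd M π hπ o x, en a β +
      ((ev (coarse M π hπ)).card : ℝ≥0∞) * (∑ j ∈ J, fam.Ph (Q j) X) +
      ((ev (coarse M π hπ)).card : ℝ≥0∞) * ENNReal.ofReal (∑ g, ‖b g‖ ^ 2) +
      ∑ x ∈ ev (coarse M π hπ), ∑ β ∈ clb P U M π hπ o δ k x, en a β := by
  set M' := coarse M π hπ with hM'
  -- the energy of the good faces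
  have l1 : ((ev M').card : ℝ≥0∞) * ENNReal.ofReal ((∑ g ∈ G, ‖a g‖ ^ 2) / 4) ≤
      ∑ x ∈ ev M', ∑ β ∈ blks M' x, en a β := by
    rw [sum_en w3 w1 wc (spin_coarse sa), ← ENNReal.ofReal_natCast,
      ← ENNReal.ofReal_mul (Nat.cast_nonneg _)]
    apply ENNReal.ofReal_le_ofReal
    calc ((ev M').card : ℝ) * ((∑ g ∈ G, ‖a g‖ ^ 2) / 4)
        = ∑ g ∈ G, ‖a g‖ ^ 2 * (nG M' g : ℝ) := by
          rw [mul_div_assoc', Finset.mul_sum, Finset.sum_div]
          refine Finset.sum_congr rfl fun g hg => ?_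
          obtain ⟨h1, h2, h3⟩ := hG g hg
          have h4 := nG_eq (M := M') (g := g) h1 h2 h3
          have h5 : ((ev M').card : ℝ) = 4 * (nG M' g : ℝ) := by
            have h6 : (ev M').card = 4 * nG M' g := h4.symm
            rw [h6]
            push_cast
            ring
          rw [h5]
          ring
      _ ≤ _ := Finset.sum_le_sum_of_subset_of_nonneg (Finset.subset_univ _)
          fun g _ _ => by positivity
  refine l1.trans ((Finset.sum_le_sum fun x hx => blk_sum A F hb hx).trans ?_)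
  rw [Finset.sum_add_distrib, Finset.sum_add_distrib, Finset.sum_add_distrib]
  refine add_le_add (add_le_add (add_le_add le_rfl ?_) ?_) le_rfl
  · rw [Finset.sum_comm, Finset.mul_sum]
    refine Finset.sum_le_sum fun j hj => ?_
    exact blocks_ph (agr_coarse A T (hQU j hj) (hQ j hj)) hX
      fun t ht => ha t (fc_mono (hQU j hj) ht)
  · rw [sum_en w3 w1 wc (spin_coarse sb), ← ENNReal.ofReal_natCast,
      ← ENNReal.ofReal_mul (Nat.cast_nonneg _), Finset.mul_sum]
    apply ENNReal.ofReal_le_ofReal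
    refine Finset.sum_le_sum fun g _ => ?_
    rw [mul_comm]
    refine mul_le_mul_of_nonneg_right ?_ (by positivity)
    exact_mod_cast nG_le_ev (M := M') g

end Crest.Agent.R143.Bud2x432
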