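import Crest.Agent.R143.H2_355
import Crest.Agent.R143.Bud2_432

/-!
# Row 143 (S0194), block H (helper355): chords of the net with one giant = chords of the plane net

`M' = coarse M π hπ`, `o` the giant (432's `Gt M π o`), `χ` the real colours, `fil π o χ` the colours
with the giant filled with `1`, `Rim M π o χ` (the giant cells next to the other cells have the colour
`1`).
* `Gc M π o x k n` : `k` is a gap which leaves the giant, the walker comes back after `n` steps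
* `chd_gc` : a chord (block of `M'` which leaves the giant) is `cset` of such a pair `(k, n)`
* `Gc.real`, `Gc.right`, `Gc.cd` : it is a chord `Cd` of the real configuration for every explored
  outer arc contained in the giant with the two end cells on it; block sum = `cset` sum
* `sum_chd` : `Σ_{chords} ‖Σ_β φ‖² ≤ Σ_{arcs} Σ_{(k, n)} 2 ‖cv‖² + 2 ‖pot start - pot end‖²`
-/

set_option autoImplicit false

noncomputable section

open scoped Classical

namespace Crest.Agent.R143.Ox355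

open Crest.Agent.R143.Frame1x395 Crest.Agent.R143.Frame2x395 Crest.Agent.R143.Frame3x395
  Crest.Agent.R143.Frame8x395 Crest.Agent.R143.Frame9x395 Crest.Agent.R143.Frame11x395
  Crest.Agent.R143.NonXx592 Crest.Agent.R143.Coarsex166 Crest.Agent.R143.Budx432
  Crest.Agent.R143.Bud2x432
  Crest.Agent.R143.Chordx355 Crest.Agent.R143.ChordCx357 Crest.Agent.R143.Chord2x355
  Crest.Agent.R143.H2x355

variable {D C C' : Type} {M : CMap D C} {x : D → ZMod 2} {π : C → C'} {hπ : ClsCon M π} {o : C'}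

/-- a gap `k` which leaves the giant, first return after `n` steps -/
structure Gc (M : CMap D C) (π : C → C') (o : C') (x : D → ZMod 2) (k : D) (n : ℕ) : Prop where
  gp : Gp M x k
  pos : 0 < n
  c0 : π (M.cell (M.rho k)) = o
  c1 : π (M.cell (P M x (M.rho k) n)) = o
  int : ∀ u, 0 < u → u < n → π (M.cell (P M x (M.rho k) u)) ≠ o

/-- every gap which leaves the giant starts a chord -/
theorem exists_gc [Finite D] (hx : IsC M ∅ x) {k : D} (hk : Gp M x k)
    (h0 : π (M.cell (M.rho k)) = o) : ∃ n, Gc M π o x k n := by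
  obtain ⟨N, hN, hN'⟩ := periodic hx (p := M.rho k) hk.2
  have h : ∃ n, 0 < n ∧ π (M.cell (P M x (M.rho k) n)) = o := by
    refine ⟨N, hN, ?_⟩
    have e : P M x (M.rho k) N = M.rho k := hN'
    rw [e]
    exact h0
  refine ⟨Nat.find h, hk, (Nat.find_spec h).1, h0, (Nat.find_spec h).2, fun u h1 h2 h3 => ?_⟩
  exact Nat.find_min h h2 ⟨h1, h3⟩

/-- the block of a chord -/
theorem Gc.blk [Fintype D] (hx : IsC (coarse M π hπ) ∅ x) (T : Gt M π o) {k : D} {n : ℕ}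
    (H : Gc M π o x k n) : blk (coarse M π hπ) x k = cset M (P M x (M.rho k)) 0 n := by
  have single : ∀ c c', π c ≠ o → π c = π c' → c = c' := fun c c' h1 h2 => T.inj' h1 c' h2
  exact chord_coarse (hπ := hπ) hx single (p := M.rho k) H.gp.2 H.pos H.gp rfl H.c0 H.c1 H.int

/-- **a chord block is the chord set of a pair** -/
theorem chd_gc [Fintype D] (hx : IsC (coarse M π hπ) ∅ x) (T : Gt M π o) {β : Finset D}
    (hβ : β ∈ chd M π hπ o x) : ∃ k ∈ β, ∃ n, Gc M π o x k n ∧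
      β = cset M (P M x (M.rho k)) 0 n := by
  unfold chd at hβ
  obtain ⟨h1, h2⟩ := Finset.mem_filter.1 hβ
  unfold Cls at h2
  push Not at h2
  obtain ⟨k, hk, h0⟩ := h2
  have hg := mem_blks hx h1 hk
  have hk1 : Gp M x k := hg.1
  obtain ⟨n, H⟩ := exists_gc (IsC.of_coarse hx) hk1 h0
  refine ⟨k, hk, n, H, ?_⟩
  rw [← H.blk (hπ := hπ) hx T]
  exact hg.2

/-- the start gap of a chord block is unique -/
theorem start_uniq (hx : IsC (coarse M π hπ) ∅ x) {k k' : D}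
    (R : Rel (coarse M π hπ) x k k') (h0 : π (M.cell (M.rho k)) = o)
    (h0' : π (M.cell (M.rho k')) = o) : k = k' :=
  old_inj R (h0.trans h0'.symm)

/-! ### the real configuration -/

theorem Rim.P [Fintype D] {χ : C → ZMod 2} (H : Rim M π o χ) {p : D}
    (hp : cfg M (fil π o χ) p = 1) (n : ℕ) :
    P M (cfg M χ) p n = P M (cfg M (fil π o χ)) p n :=
  H.same.it (cfg_isC _) hp n

/-- the right cells of a chord are not in the giant -/
theorem Gc.right [Fintype D] {χ : C → ZMod 2} {k : D} {n : ℕ} (H : Gc M π o (cfg M (fil π o χ)) k n) (u : ℕ) :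
    π (M.cell (M.rho (P M (cfg M (fil π o χ)) (M.rho k) u))) ≠ o := by
  intro h
  set x := cfg M (fil π o χ) with hx
  have h0 : IsC M ∅ x := cfg_isC _
  have hz : ∀ d, x d = 0 → fil π o χ (M.cell d) = fil π o χ (M.cell (M.rho d)) := by
    intro d hd
    have : fil π o χ (M.cell d) + fil π o χ (M.cell (M.rho d)) = 0 := hd
    revert this
    generalize fil π o χ (M.cell d) = a
    generalize fil π o χ (M.cell (M.rho d)) = b
    revert a b; decide
  have h1 := it_col h0 H.gp.2 hz u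
  have h2 : x (Crest.Agent.R143.NonXx592.P M x (M.rho k) u) = 1 := P_occ h0 H.gp.2 u
  have h3 : fil π o χ (M.cell (M.rho k)) = 1 := if_pos H.c0
  have h4 : fil π o χ (M.cell (M.rho (NonXx592.P M x (M.rho k) u))) = 1 := if_pos h
  have h5 : fil π o χ (M.cell (NonXx592.P M x (M.rho k) u)) = 1 := h1.trans h3
  have h6 : fil π o χ (M.cell (NonXx592.P M x (M.rho k) u)) +
    fil π o χ (M.cell (M.rho (NonXx592.P M x (M.rho k) u))) = 1 := h2
  rw [h4, h5] at h6
  exact absurd h6 (by decide)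

/-- a chord of the filled configuration is a chord of the real one -/
theorem Gc.real [Fintype D] {χ : C → ZMod 2} (R : Rim M π o χ) {k : D} {n : ℕ}
    (H : Gc M π o (cfg M (fil π o χ)) k n) : Gc M π o (cfg M χ) k n := by
  have e := Rim.P R H.gp.2
  refine ⟨(R.same.gp (cfg_isC _) (cfg_isC _) H.gp.2).2 H.gp, H.pos, H.c0, ?_, fun u h1 h2 => ?_⟩
  · rw [e n]; exact H.c1
  · rw [e u]; exact H.int u h1 h2

/-- **a chord of the giant net is a chord `Cd` of the real configuration** -/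
theorem Gc.cd [Fintype D] {χ : C → ZMod 2} (R : Rim M π o χ) {k : D} {n : ℕ}
    (H : Gc M π o (cfg M (fil π o χ)) k n) {p₀ : D} {m : ℕ} {Rv : Set C}
    (hK : ∀ c ∈ Kc M (cfg M χ) p₀ m, π c = o) (hR : ∀ c ∈ Rv, π c = o)
    (h0 : M.cell (M.rho k) ∈ Kc M (cfg M χ) p₀ m)
    (h1 : M.cell (P M (cfg M χ) (M.rho k) n) ∈ Kc M (cfg M χ) p₀ m) :
    Cd M (cfg M χ) p₀ m Rv k n := by
  have H' := H.real R
  refine ⟨H'.gp, H'.pos, h0, h1, fun u a b c => H'.int u a b (hK _ c), fun u _ hc => ?_⟩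
  have h2 := hR _ hc
  rw [Rim.P R H.gp.2 u] at h2
  exact H.right u h2

/-- the chord sum in the real configuration -/
theorem Gc.sum {χ : C → ZMod 2} [Fintype D] (R : Rim M π o χ) {k : D} {n : ℕ}
    (H : Gc M π o (cfg M (fil π o χ)) k n) {A : Type*} [AddCommMonoid A] (φ : D → A) :
    ∑ h ∈ cset M (P M (cfg M (fil π o χ)) (M.rho k)) 0 n, φ h =
      ∑ h ∈ cset M (P M (cfg M χ) (M.rho k)) 0 n, φ h := by
  rw [cset_congr (Q := P M (cfg M χ) (M.rho k)) (Q' := P M (cfg M (fil π o χ)) (M.rho k))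
    fun s _ _ => Rim.P R H.gp.2 s]

theorem sq_le (u v : ℂ) : ‖u‖ ^ 2 ≤ 2 * ‖u + v‖ ^ 2 + 2 * ‖v‖ ^ 2 := by
  have h1 : ‖u‖ ≤ ‖u + v‖ + ‖v‖ := by
    have := norm_sub_le (u + v) v
    rwa [add_sub_cancel_right] at this
  have h2 : 0 ≤ ‖u‖ := norm_nonneg _
  have h3 : 0 ≤ ‖u + v‖ := norm_nonneg _
  have h4 : 0 ≤ ‖v‖ := norm_nonneg _
  nlinarith [sq_nonneg (‖u + v‖ - ‖v‖)]

/-- the potential difference of a chord -/
def dp [Fintype D] (M : CMap D C) (x : D → ZMod 2) (p₀ : D) (m : ℕ) (φ : D → ℂ) (k : D) (n : ℕ) :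
    ℂ := pot M x p₀ m φ (M.cell (M.rho k)) - pot M x p₀ m φ (lc M x (M.rho k) n)

/-- **the chords of the giant net are paid by the chords of the outer arcs** -/
theorem sum_chd [Fintype D] (T : Gt M π o) {χ : C → ZMod 2} (R : Rim M π o χ)
    {ι : Type} (J : Finset ι) (p₀ : ι → D) (m : ι → ℕ) (Rv : ι → Set C)
    (hK : ∀ i ∈ J, ∀ c ∈ Kc M (cfg M χ) (p₀ i) (m i), π c = o) (hR : ∀ i ∈ J, ∀ c ∈ Rv i, π c = o)
    (G : ι → D → ℕ → Prop) (I : Finset (D × ℕ)) {𝒟 : Finset (Finset D)}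
    (h𝒟 : 𝒟 ⊆ chd M π hπ o (cfg M (fil π o χ)))
    (hG : ∀ β ∈ 𝒟, ∀ k ∈ β, ∀ n, Gc M π o (cfg M (fil π o χ)) k n → (k, n) ∈ I ∧
      ∃ i ∈ J, M.cell (M.rho k) ∈ Kc M (cfg M χ) (p₀ i) (m i) ∧
        M.cell (P M (cfg M χ) (M.rho k) n) ∈ Kc M (cfg M χ) (p₀ i) (m i) ∧ G i k n)
    (φ : D → ℂ) :
    ∑ β ∈ 𝒟, ‖∑ h ∈ β, φ h‖ ^ 2 ≤ ∑ i ∈ J, ∑ q ∈ I,
      if Cd M (cfg M χ) (p₀ i) (m i) (Rv i) q.1 q.2 ∧ G i q.1 q.2 then
        2 * ‖cv M (cfg M χ) (p₀ i) (m i) φ q.1 q.2‖ ^ 2 +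
          2 * ‖dp M (cfg M χ) (p₀ i) (m i) φ q.1 q.2‖ ^ 2 else 0 := by
  have hx : IsC (coarse M π hπ) ∅ (cfg M (fil π o χ)) := fil_isC T χ
  set x := cfg M (fil π o χ) with hxd
  set g : D × ℕ → Finset D := fun q => cset M (P M x (M.rho q.1)) 0 q.2 with hg
  set Γ : Finset (D × ℕ) := I.filter fun q => Gc M π o x q.1 q.2 ∧ g q ∈ 𝒟 ∧ q.1 ∈ g q with hΓ
  have s1 : 𝒟 ⊆ Γ.image g := by
    intro β hβ
    obtain ⟨k, hk, n, h1, h2⟩ := chd_gc hx T (h𝒟 hβ)
    refine Finset.mem_image.2 ⟨(k, n), Finset.mem_filter.2 ⟨(hG β hβ k hk n h1).1, h1, ?_, ?_⟩,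
      h2.symm⟩
    · show cset M (P M x (M.rho k)) 0 n ∈ 𝒟
      rw [← h2]; exact hβ
    · show k ∈ cset M (P M x (M.rho k)) 0 n
      rw [← h2]; exact hk
  have s2 : ∑ β ∈ 𝒟, ‖∑ h ∈ β, φ h‖ ^ 2 ≤ ∑ q ∈ Γ, ‖∑ h ∈ g q, φ h‖ ^ 2 :=
    (Finset.sum_le_sum_of_subset_of_nonneg s1 fun _ _ _ => by positivity).trans
      (Finset.sum_image_le_of_nonneg (s := Γ) (g := g) (f := fun β => ‖∑ h ∈ β, φ h‖ ^ 2)
        (fun _ _ => by positivity))
  refine s2.trans ?_
  rw [Finset.sum_comm]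
  have hΓI : Γ ⊆ I := Finset.filter_subset _ I
  refine le_trans ?_ (Finset.sum_le_sum_of_subset_of_nonneg hΓI ?_)
  swap
  · intro q _ _
    refine Finset.sum_nonneg fun i _ => ?_
    split_ifs <;> positivity
  · refine Finset.sum_le_sum fun q hq => ?_
    obtain ⟨-, h1, h2, h3⟩ := Finset.mem_filter.1 hq
    obtain ⟨-, i, hi, h4, h5, h6⟩ := hG _ h2 q.1 h3 q.2 h1
    have hc := h1.cd R (hK i hi) (hR i hi) h4 h5
    refine le_trans ?_ (Finset.single_le_sum (f := fun i =>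
      if Cd M (cfg M χ) (p₀ i) (m i) (Rv i) q.1 q.2 ∧ G i q.1 q.2 then
        2 * ‖cv M (cfg M χ) (p₀ i) (m i) φ q.1 q.2‖ ^ 2 +
          2 * ‖dp M (cfg M χ) (p₀ i) (m i) φ q.1 q.2‖ ^ 2 else 0) ?_ hi)
    · rw [if_pos ⟨hc, h6⟩]
      have e1 : ∑ h ∈ g q, φ h = ∑ h ∈ cset M (P M (cfg M χ) (M.rho q.1)) 0 q.2, φ h :=
        h1.sum R φ
      rw [e1]
      exact sq_le _ _
    · intro j _
      split_ifs <;> positivity

end Crest.Agent.R143.Ox355
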