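import Crest.Agent.R143.PotK_263
import Crest.Agent.R143.Win2_355

/-!
# Row 143 (S0194), block H (helper263): the ring charges, periodic form

* `RQ M x P₀ N n T F` : regions `F l` (`n`-periodic) on 355's ring loop `RL`: cut property of the gate
  times (117's `CutC`, invariant under the change of the base gate), every time `i` of the tile `k` has
  `gt i` in exactly one of `F (k - 1)`, `F k`, `F (k + 1)`
* `RQ.regC` : `RegC` at every base gate `a`
* `Vg` : charge of the region `l` of the ring; `vr_eq` : `VR` at the base `a` is `Vg (a + l)`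
* `lin_per` : linear law of the charges for intervals which go round the base gate
-/

set_option autoImplicit false

noncomputable section

open scoped Classical

namespace Crest.Agent.R143.PotPx263

open Crest.Agent.R143.Frame1x395 Crest.Agent.R143.Frame2x395 Crest.Agent.R143.Frame3x395
  Crest.Agent.R143.Frame8x395 Crest.Agent.R143.NonXx592
  Crest.Agent.R143.Winx355 Crest.Agent.R143.PotKx263
open Crest.Agent.R143.Splx117 (gp InK CutC KS rho_gp)
open Crest.Agent.R143.Sptx169
open Crest.Agent.R143.Chordx355 (Lp lc)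

variable {D C : Type} {M : CMap D C} {x : D → ZMod 2} {P₀ : D} {N n : ℕ} {T : ℕ → ℕ}
  {F : ℕ → Set D} {E : Type} {φ : D → E}

/-- **regions on the ring loop**, periodic form -/
structure RQ (M : CMap D C) (x : D → ZMod 2) (P₀ : D) (N n : ℕ) (T : ℕ → ℕ) (F : ℕ → Set D) :
    Prop where
  L : Lp M x P₀ N
  n3 : 3 ≤ n
  mono : StrictMono T
  zero : T 0 = 0
  per : ∀ k, T (k + n) = T k + N
  cut : ∀ k k', k < k' → k' < k + n → ∀ u v, T k ≤ u → u ≤ T (k + 1) → T k' ≤ v →
    v ≤ T (k' + 1) → lc M x P₀ u = lc M x P₀ v →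
    (k' = k + 1 ∧ lc M x P₀ u = lc M x P₀ (T k')) ∨
      (k' + 1 = k + n ∧ lc M x P₀ u = lc M x P₀ (T k))
  perF : ∀ l, F (l + n) = F l
  cov : ∀ k i, T k ≤ i → i < T (k + 1) → ∃ j, j ≤ 2 ∧ gp M x P₀ i ∈ F (k + (n - 1) + j)
  dis : ∀ i l j, 0 < j → j < n → gp M x P₀ i ∈ F l → gp M x P₀ i ∉ F (l + j)

/-- 355's loop is 117's loop -/
theorem lp117 (L : Lp M x P₀ N) : Splx117.Lp M x P₀ N := ⟨L.ev, L.occ, L.pos, L.per, L.inj⟩

theorem lp355 (L : Splx117.Lp M x P₀ N) : Lp M x P₀ N := ⟨L.even, L.occ, L.pos, L.per, L.inj⟩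

/-- the loop from another state -/
theorem lp_shift (L : Splx117.Lp M x P₀ N) (t : ℕ) : Splx117.Lp M x (P M x P₀ t) N where
  even := L.even
  occ := P_occ L.even L.occ t
  pos := L.pos
  per := by
    show P M x (P M x P₀ t) N = P M x P₀ t
    rw [← P_add, Nat.add_comm]
    exact L.add t
  inj := by
    intro i j h1 h2 e
    have e' : P M x P₀ (i + t) = P M x P₀ (j + t) := by rw [P_add, P_add]; exact e
    exact L.ne (i := i + t) (j := j + t) (by omega) (by omega) e'

theorem lcs (t i : ℕ) : Splx117.lc M x (P M x P₀ t) i = lc M x P₀ (t + i) := by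
  unfold Splx117.lc lc
  show M.cell (P M x (P M x P₀ t) i) = _
  rw [← P_add, Nat.add_comm]

theorem gps (t i : ℕ) : gp M x (P M x P₀ t) i = gp M x P₀ (t + i) := by
  unfold gp
  show M.rho (M.rho (P M x (P M x P₀ t) i)) = _
  rw [← P_add, Nat.add_comm]

theorem RQ.le (R : RQ M x P₀ N n T F) {a b : ℕ} (h : a ≤ b) : T a ≤ T b := R.mono.monotone h

/-- the tile of a time -/
theorem RQ.tile (R : RQ M x P₀ N n T F) {u a b : ℕ} (h1 : T a ≤ u) (h2 : u < T b) :
    ∃ k, a ≤ k ∧ k < b ∧ T k ≤ u ∧ u < T (k + 1) := by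
  induction b with
  | zero =>
    have := R.zero
    omega
  | succ b ih =>
    rcases Nat.lt_or_ge u (T b) with h3 | h3
    · obtain ⟨k, b1, b2, b3, b4⟩ := ih h3
      exact ⟨k, b1, by omega, b3, b4⟩
    · have hab : a ≤ b := by
        by_contra hc
        have := R.le (show b + 1 ≤ a by omega)
        omega
      exact ⟨b, hab, by omega, h3, h2⟩

/-- **regions at the base gate** `a` -/
theorem RQ.regC (R : RQ M x P₀ N n T F) (a : ℕ) :
    RegC M x (P M x P₀ (T a)) N (fun k => T (a + k) - T a) n (fun l => F (a + l)) := by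
  have hn := R.n3
  have la : ∀ k, T a ≤ T (a + k) := fun k => R.le (by omega)
  have covr : ∀ k, k < n → ∀ i, T (a + k) ≤ i → i < T (a + k + 1) →
      ∃ l, l < n ∧ Nr n k l ∧ gp M x P₀ i ∈ F (a + l) := by
    intro k hk i h1 h2
    obtain ⟨j, hj, hm⟩ := R.cov (a + k) i h1 h2
    by_cases c1 : k + (n - 1) + j < n
    · refine ⟨n - 1, by omega, Or.inr (Or.inl ⟨by omega, by omega⟩), ?_⟩
      rw [show a + k + (n - 1) + j = a + (n - 1) by omega] at hm
      exact hm
    by_cases c2 : k + (n - 1) + j < 2 * n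
    · refine ⟨k + (n - 1) + j - n, by omega, Or.inl ⟨by omega, by omega⟩, ?_⟩
      rw [show a + k + (n - 1) + j = a + (k + (n - 1) + j - n) + n by omega, R.perF] at hm
      exact hm
    · refine ⟨0, by omega, Or.inr (Or.inr ⟨rfl, by omega⟩), ?_⟩
      rw [show a + k + (n - 1) + j = a + 0 + n + n by omega, R.perF, R.perF] at hm
      exact hm
  have disr : ∀ i l l', l < n → l' < n → gp M x P₀ i ∈ F (a + l) → gp M x P₀ i ∈ F (a + l') →
      l = l' := by
    intro i l l' h1 h2 h3 h4
    rcases lt_trichotomy l l' with h | h | h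
    · have := R.dis i (a + l) (l' - l) (by omega) (by omega) h3
      rw [show a + l + (l' - l) = a + l' by omega] at this
      exact absurd h4 this
    · exact h
    · have := R.dis i (a + l') (l - l') (by omega) (by omega) h4
      rw [show a + l' + (l - l') = a + l by omega] at this
      exact absurd h3 this
  refine ⟨lp_shift (lp117 R.L) (T a), hn, by simp, ?_, ?_, ?_, ?_, ?_, ?_⟩
  · show T (a + n) - T a = N
    rw [R.per]
    omega
  · intro k _
    show T (a + k) - T a ≤ T (a + (k + 1)) - T a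
    have := R.le (show a + k ≤ a + (k + 1) by omega)
    omega
  · intro k k' h1 h2 u v h3 h4 h5 h6 e
    have b1 := la k
    have b2 := la (k + 1)
    have b3 := la k'
    have b4 := la (k' + 1)
    rw [lcs, lcs] at e
    have h3' : T (a + k) - T a ≤ u := h3
    have h4' : u ≤ T (a + (k + 1)) - T a := h4
    have h5' : T (a + k') - T a ≤ v := h5
    have h6' : v ≤ T (a + (k' + 1)) - T a := h6
    clear h3 h4 h5 h6
    have i1 : T (a + k) ≤ T a + u := by omega
    have i2 : T a + u ≤ T (a + k + 1) := by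
      rw [show a + k + 1 = a + (k + 1) by omega]; omega
    have i3 : T (a + k') ≤ T a + v := by omega
    have i4 : T a + v ≤ T (a + k' + 1) := by
      rw [show a + k' + 1 = a + (k' + 1) by omega]; omega
    rcases R.cut (a + k) (a + k') (by omega) (by omega) (T a + u) (T a + v) i1 i2 i3 i4 e with
      ⟨g1, g2⟩ | ⟨g1, g2⟩
    · left
      refine ⟨by omega, ?_⟩
      rw [lcs, lcs, g2]
      congr 1
      show T (a + k') = T a + (T (a + k') - T a)
      omega
    · right
      have hk : k = 0 := by omega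
      refine ⟨hk, by omega, ?_⟩
      rw [lcs, lcs, g2, hk]
      rfl
  · intro i hi
    have h1 : T a + i < T (a + n) := by rw [R.per]; omega
    obtain ⟨k, c1, c2, c3, c4⟩ := R.tile (a := a) (b := a + n) (u := T a + i) (by omega) h1
    obtain ⟨l, d1, -, d2⟩ := covr (k - a) (by omega) (T a + i)
      (by rw [show a + (k - a) = k by omega]; exact c3)
      (by rw [show a + (k - a) + 1 = k + 1 by omega]; exact c4)
    exact ⟨l, d1, by rw [gps]; exact d2⟩
  · intro i _ l l' h1 h2 h3 h4
    rw [gps] at h3 h4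
    exact disr _ l l' h1 h2 h3 h4
  · intro k hk i h1 h2 l hl h3
    have h1' : T (a + k) - T a ≤ i := h1
    have h2' : i < T (a + (k + 1)) - T a := h2
    rw [gps] at h3
    have b1 := la k
    have b2 := la (k + 1)
    obtain ⟨l', d1, d2, d3⟩ := covr k hk (T a + i) (by omega)
      (by rw [show a + k + 1 = a + (k + 1) by omega]; omega)
    rw [disr _ l l' hl d1 h3 d3]
    exact d2

/-- charge of the region `l` of the ring -/
def Vg [AddCommMonoid E] (M : CMap D C) (x : D → ZMod 2) (P₀ : D) (T : ℕ → ℕ) (n : ℕ) (φ : D → E)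
    (F : ℕ → Set D) (l : ℕ) : E := ∑ k ∈ Finset.range n, KS M x P₀ (rst φ (F l)) (T k) (T (k + 1))

/-- a periodic function has the same sum over every period -/
theorem sum_per [AddCommMonoid E] {f : ℕ → E} (hn : 0 < n) (hf : ∀ k, f (k + n) = f k) (a : ℕ) :
    ∑ k ∈ Finset.range n, f (a + k) = ∑ k ∈ Finset.range n, f k := by
  induction a with
  | zero => exact Finset.sum_congr rfl fun k _ => by rw [Nat.zero_add]
  | succ a ih =>
    rw [← ih]
    obtain ⟨m, rfl⟩ : ∃ m, n = m + 1 := ⟨n - 1, by omega⟩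
    rw [Finset.sum_range_succ, Finset.sum_range_succ' (fun k => f (a + k)) m]
    congr 1
    · exact Finset.sum_congr rfl fun k _ => by congr 1; omega
    · rw [show a + 1 + m = a + (m + 1) by omega, hf, Nat.add_zero]

theorem RQ.ks_per [AddCommMonoid E] (R : RQ M x P₀ N n T F) (ψ : D → E) (k : ℕ) :
    KS M x P₀ ψ (T (k + n)) (T (k + n + 1)) = KS M x P₀ ψ (T k) (T (k + 1)) := by
  have e : (stp M x)^[N] P₀ = P₀ := R.L.per
  have h := Splx117.ks_shift (M := M) (x := x) (q := P₀) (w := ψ) (t := N) (a := T k)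
    (b := T (k + 1))
  rw [e] at h
  rw [h, R.per, show k + n + 1 = k + 1 + n by omega, R.per]

/-- **the charge does not depend on the base gate** -/
theorem RQ.vr_eq [AddCommMonoid E] (R : RQ M x P₀ N n T F) (a l : ℕ) :
    VR M x (P M x P₀ (T a)) (fun k => T (a + k) - T a) n φ (fun l => F (a + l)) l =
      Vg M x P₀ T n φ F (a + l) := by
  have hn := R.n3
  have h0 : Vg M x P₀ T n φ F (a + l) = ∑ k ∈ Finset.range n,
      KS M x P₀ (rst φ (F (a + l))) (T (a + k)) (T (a + k + 1)) :=
    (sum_per (f := fun k => KS M x P₀ (rst φ (F (a + l))) (T k) (T (k + 1))) (by omega)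
      (fun k => R.ks_per (rst φ (F (a + l))) k) a).symm
  rw [h0]
  unfold VR
  refine Finset.sum_congr rfl fun k _ => ?_
  have h := Splx117.ks_shift (M := M) (x := x) (q := P₀) (w := rst φ (F (a + l))) (t := T a)
    (a := T (a + k) - T a) (b := T (a + (k + 1)) - T a)
  have h1 : T a ≤ T (a + k) := R.le (by omega)
  have h2 : T a ≤ T (a + (k + 1)) := R.le (by omega)
  rw [Nat.sub_add_cancel h1, Nat.sub_add_cancel h2] at h
  exact h

theorem RQ.vg_per [AddCommMonoid E] (R : RQ M x P₀ N n T F) (l : ℕ) :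
    Vg M x P₀ T n φ F (l + n) = Vg M x P₀ T n φ F l := by
  unfold Vg
  rw [R.perF]

/-- **the linear law for intervals which go round the base gate** -/
theorem lin_per {V w : ℕ → ℂ} {κ : ℂ} {B : ℝ} (hV : ∀ k, V (k + n) = V k)
    (hw : ∀ k, w (k + n) = w k) (hB : ∀ i j, i ≤ j → j ≤ n →
      ‖∑ k ∈ Finset.Ico i j, V k - κ * (w j - w i)‖ ^ 2 ≤ B) {i j : ℕ} (hij : i ≤ j)
    (hj : j ≤ 2 * n) : ‖∑ k ∈ Finset.Ico i j, V k - κ * (w j - w i)‖ ^ 2 ≤ 4 * B := by
  have hB0 : 0 ≤ B := (sq_nonneg _).trans (hB 0 0 le_rfl (Nat.zero_le n))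
  rcases Nat.lt_or_ge n j with h1 | h1
  · have e2 : ∑ k ∈ Finset.Ico n j, V k = ∑ k ∈ Finset.Ico 0 (j - n), V k := by
      have := Finset.sum_Ico_add' V 0 (j - n) n
      rw [Nat.zero_add, Nat.sub_add_cancel h1.le] at this
      rw [← this]
      exact Finset.sum_congr rfl fun k _ => hV k
    have e4 : w j = w (j - n) := by rw [← hw (j - n), Nat.sub_add_cancel h1.le]
    rcases Nat.lt_or_ge i n with h2 | h2
    · have e1 : ∑ k ∈ Finset.Ico i j, V k = ∑ k ∈ Finset.Ico i n, V k +
          ∑ k ∈ Finset.Ico n j, V k := (Finset.sum_Ico_consecutive V h2.le h1.le).symm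
      have e3 : w n = w 0 := by have := hw 0; rwa [Nat.zero_add] at this
      have e : ∑ k ∈ Finset.Ico i j, V k - κ * (w j - w i) =
          (∑ k ∈ Finset.Ico i n, V k - κ * (w n - w i)) +
          (∑ k ∈ Finset.Ico 0 (j - n), V k - κ * (w (j - n) - w 0)) := by
        rw [e1, e2, e4, e3]
        ring
      rw [e]
      have a1 := hB i n h2.le le_rfl
      have a2 := hB 0 (j - n) (Nat.zero_le _) (by omega)
      have a3 := nsq_add (∑ k ∈ Finset.Ico i n, V k - κ * (w n - w i))
        (∑ k ∈ Finset.Ico 0 (j - n), V k - κ * (w (j - n) - w 0))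
      linarith
    · have e1 : ∑ k ∈ Finset.Ico i j, V k = ∑ k ∈ Finset.Ico (i - n) (j - n), V k := by
        have := Finset.sum_Ico_add' V (i - n) (j - n) n
        rw [Nat.sub_add_cancel h2, Nat.sub_add_cancel h1.le] at this
        rw [← this]
        exact Finset.sum_congr rfl fun k _ => hV k
      have e5 : w i = w (i - n) := by rw [← hw (i - n), Nat.sub_add_cancel h2]
      rw [e1, e4, e5]
      have := hB (i - n) (j - n) (by omega) (by omega)
      linarith
  · have := hB i j hij h1
    linarith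

end Crest.Agent.R143.PotPx263
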