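import Crest.Agent.R143.RWi_355
import Crest.Agent.R143.RingW_389

/-!
# Row 143 (S0194), block H (helper355): all windows from one ring loop

* `RLW` : ring loop with closed two-sided tiles
* `RLW.rx` : the loop fields of 389's `RY` / `RX` for the window `h i .. h i + l - 1`
  (base = the gate after the window) from `RLW`
* `rw_ring` : 389's `RX` for every window and 197's giant ==> `Win2x355.RW`
-/

set_option autoImplicit false

noncomputable section

open scoped Classical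

namespace Crest.Agent.R143.RWrx355

open Crest.Agent.R143.Frame1x395 Crest.Agent.R143.Frame2x395 Crest.Agent.R143.Frame3x395
  Crest.Agent.R143.Frame8x395 Crest.Agent.R143.Frame9x395 Crest.Agent.R143.Frame11x395
  Crest.Agent.R143.NonXx592 Crest.Agent.R143.Coarsex166 Crest.Agent.R143.Budx432
  Crest.Agent.R143.RevCx389 Crest.Agent.R143.RevAx389 Crest.Agent.R143.HInst1x432
  Crest.Agent.R143.GiantEx197
  Crest.Agent.R143.Chordx355 Crest.Agent.R143.ChordCx357 Crest.Agent.R143.Chord2x355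
  Crest.Agent.R143.H2x355 Crest.Agent.R143.Ox355 Crest.Agent.R143.Winx355
  Crest.Agent.R143.Win2x355 Crest.Agent.R143.RWix355

open Crest.Agent.R143.Exitx707 (Nb nb_symm)

variable {D C : Type} {M : CMap D C} {ψ : C → ZMod 2} {P₀ : D} {N n : ℕ} {T : ℕ → ℕ}
  {Reg : ℕ → Set C} {h0 : C}

/-- one ring loop with closed two-sided tiles -/
structure RLW (M : CMap D C) (ψ : C → ZMod 2) (P₀ : D) (N n : ℕ) (T : ℕ → ℕ) (Reg : ℕ → Set C) :
    Prop extends RL M (cfg M ψ) P₀ N n T Reg where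
  bl : ψ (M.cell P₀) = 1
  tile2 : ∀ k t, T k ≤ t → t ≤ T (k + 1) → M.cell (P M (cfg M ψ) P₀ t) ∈ Reg k ∧
    M.cell (M.rho (P M (cfg M ψ) P₀ t)) ∈ Reg k

/-- same colour across an empty edge -/
theorem same_of (ψ : C → ZMod 2) (d : D) (hd : cfg M ψ d = 0) :
    ψ (M.cell d) = ψ (M.cell (M.rho d)) := by
  have : ψ (M.cell d) + ψ (M.cell (M.rho d)) = 0 := hd
  revert this
  generalize ψ (M.cell d) = a
  generalize ψ (M.cell (M.rho d)) = b
  revert a b; decide

/-- different colours across an occupied edge -/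
theorem diff_of (ψ : C → ZMod 2) (d : D) (hd : cfg M ψ d = 1) (hb : ψ (M.cell d) = 1) :
    ψ (M.cell (M.rho d)) = 0 := by
  have : ψ (M.cell d) + ψ (M.cell (M.rho d)) = 1 := hd
  revert this hb
  generalize ψ (M.cell d) = a
  generalize ψ (M.cell (M.rho d)) = b
  revert a b; decide

/-- the states of the ring loop are occupied -/
theorem occ_P {x : D → ZMod 2} (hx : IsC M ∅ x) {p : D} (hp : x p = 1) (t : ℕ) :
    x (P M x p t) = 1 := P_occ hx hp t

/-- shifted states are different -/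
theorem inj_shift {x : D → ZMod 2} (L : Lp M x P₀ N) (s : ℕ) {a b : ℕ} (hab : a < b) (hb : b < N) :
    P M x P₀ (a + s) ≠ P M x P₀ (b + s) := by
  intro e
  rw [L.mod (a + s), L.mod (b + s)] at e
  have h1 := Nat.mod_lt (a + s) L.pos
  have h2 := Nat.mod_lt (b + s) L.pos
  have h3 : (a + s) % N = (b + s) % N := by
    rcases lt_trichotomy ((a + s) % N) ((b + s) % N) with h | h | h
    · exact absurd e (L.inj _ _ h h2)
    · exact h
    · exact absurd e.symm (L.inj _ _ h h1)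
  have h4 : (a + s) ≡ (b + s) [MOD N] := h3
  have h5 := (Nat.modEq_iff_dvd' (by omega)).1 h4
  have h6 := Nat.le_of_dvd (by omega) h5
  omega

theorem left_one [Fintype D] (R : RLW M ψ P₀ N n T Reg) (t : ℕ) : ψ (M.cell (P M (cfg M ψ) P₀ t)) = 1 :=
  (it_col (cfg_isC ψ) R.L.occ (same_of ψ) t).trans R.bl

theorem right_zero [Fintype D] (R : RLW M ψ P₀ N n T Reg) (t : ℕ) :
    ψ (M.cell (M.rho (P M (cfg M ψ) P₀ t))) = 0 :=
  diff_of ψ _ (occ_P (cfg_isC ψ) R.L.occ t) (left_one R t)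

/-- **the fields of `RX` for one window**; the base is the gate `s` -/
theorem RLW.rx [Fintype D] (R : RLW M ψ P₀ N n T Reg) {G : Rg D C} {B' : Set C} {s m : ℕ}
    (m7 : 7 ≤ m) (mn : m ≤ n)
    (off : ∀ k, ∀ c ∈ Reg k, c ∉ G.Far ∧ c ∉ G.Ann)
    (out : ∀ k, k < m → ∀ c ∈ Reg (s + k), c ∈ G.Dw ∧ c ∉ G.Th ∧ c ∉ G.Dp)
    (h0 : G.h0 ∈ G.Far)
    (far : ∀ c ∈ G.Far, Relation.ReflTransGen (fun a a' => Nb M a a' ∧ a' ∈ G.Far) G.h0 c)
    (x1 : ∀ a ∈ Xs M G ψ, ∀ c, Nb M a c → c ∈ G.Far ∨ c ∈ G.Ann)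
    (b1 : ∀ c ∈ B', c ∉ G.Far ∧ c ∉ G.Ann ∧ c ∉ G.Dp ∧ ψ c = 1 ∧
      Con M (cfg M ψ) (M.cell (P M (cfg M ψ) P₀ (T s))) c)
    (bx : ∀ c ∈ G.Dp, ¬ Relation.ReflTransGen (fun a a' => Nb M a a' ∧ a' ∉ B') c G.h0)
    (ra : RingWx389.Rad M G (fun k => Reg (s + k)) n (fun k => k < 3) G.La)
    (rb : RingWx389.Rad M G (fun k => Reg (s + k)) n (fun k => m ≤ k + 3 ∧ k < m) G.Lb)
    (ac : ∃ t, T s ≤ t ∧ t ≤ T (s + m) ∧
      M.cell (M.rho (P M (cfg M ψ) P₀ t)) ∈ Cw M G ψ) :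
    RingWx389.RX M G ψ (P M (cfg M ψ) P₀ (T s)) (fun k => T (s + k) - T s) m n
      (fun k => Reg (s + k)) B' := by
  have hP : ∀ t, P M (cfg M ψ) (P M (cfg M ψ) P₀ (T s)) t = P M (cfg M ψ) P₀ (t + T s) :=
    fun t => (P_add _ _ _).symm
  have hT : ∀ k, T s ≤ T (s + k) := fun k => R.mono.monotone (Nat.le_add_right _ _)
  refine ⟨⟨left_one R _, right_zero R _, by simp, fun k _ => ?_, ?_, fun a b hab hb => ?_,
    fun k _ t h1 h2 => ?_, m7, mn, fun k _ => off _, out, h0, far, x1, b1, bx, ra, rb⟩, ?_⟩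
  · have h1 : T (s + k) < T (s + (k + 1)) := R.mono (by omega)
    have := hT k
    show T (s + k) - T s < T (s + (k + 1)) - T s
    omega
  · show P M (cfg M ψ) (P M (cfg M ψ) P₀ (T s)) (T (s + n) - T s) = _
    rw [hP, R.per s, show T s + N - T s + T s = T s + N by omega, P_add, R.L.per]
  · rw [hP, hP]
    have h1 : b < T (s + n) - T s := hb
    rw [R.per s] at h1
    exact inj_shift R.L _ hab (by omega)
  · rw [hP]
    have := hT k
    have h3 : T (s + k) - T s ≤ t := h1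
    have h4 : t ≤ T (s + (k + 1)) - T s := h2
    have h5 := hT (k + 1)
    exact R.tile2 (s + k) (t + T s) (by omega) (by rw [Nat.add_assoc]; omega)
  · obtain ⟨t, h1, h2, h3⟩ := ac
    refine ⟨t - T s, ?_, ?_⟩
    · show t - T s ≤ T (s + m) - T s
      omega
    · rw [hP, Nat.sub_add_cancel h1]
      exact h3

/-- **all windows** -/
theorem rw_ring [Fintype D] (R : RL M (cfg M ψ) P₀ N n T Reg) (hb : ψ (M.cell P₀) = 1)
    (gen : ∀ c, c ∉ Eg M h0 (Lf M (cfg M ψ) P₀ N) → Gen M c) {h l m₀ : ℕ} {G : ℕ → Rg D C}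
    {B' : ℕ → Set C} (hG : ∀ i, i < m₀ → (G i).h0 = h0)
    (hh : 5 ≤ h) (hn : n = h * m₀) (hm : 2 ≤ m₀) (hl : l ≤ h)
    (X : ∀ i, i < m₀ → RingWx389.RX M (G i) ψ (P M (cfg M ψ) P₀ (T (h * i + l)))
      (fun k => T (h * i + l + k) - T (h * i + l)) (n - l) n (fun k => Reg (h * i + l + k))
      (B' i)) :
    ∃ tp tq : ℕ → ℕ,
      RW M ψ (pe (Eg M h0 (Lf M (cfg M ψ) P₀ N))) none P₀ N n T Reg h l m₀ G tp tq ∧
      ∀ i, i < m₀ → RevCx389.q0 M (G i) ψ = P M (cfg M ψ) P₀ (T (h * i + l) + tq i) ∧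
        tp i < tq i := by
  have hT : ∀ s k, T s ≤ T (s + k) := fun s k => R.mono.monotone (Nat.le_add_right _ _)
  have hex : ∀ i, ∃ a b, i < m₀ → (T (h * i + l) + a ≤ T (h * i + l + 3) ∧
      T (h * i + n - 3) ≤ T (h * i + l) + b ∧ T (h * i + l) + b ≤ T (h * i + n) ∧ a < b ∧
      RevCx389.p0 M (G i) ψ = P M (cfg M ψ) P₀ (T (h * i + l) + a) ∧
      RevCx389.q0 M (G i) ψ = P M (cfg M ψ) P₀ (T (h * i + l) + b) ∧
      RevCx389.ln M (G i) ψ = b - a + 1) := by
    intro i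
    by_cases hi : i < m₀
    · obtain ⟨a, b, h1, h2, h3, h4, h5, h6, h7⟩ := (X i hi).pq
      have h8 := (X i hi).m7
      refine ⟨a, b, fun _ => ⟨?_, ?_, ?_, h4, ?_, ?_, h7⟩⟩
      · have := hT (h * i + l) 3
        have h1' : a < T (h * i + l + 3) - T (h * i + l) := h1
        omega
      · have h2' : T (h * i + l + (n - l - 3)) - T (h * i + l) ≤ b := h2
        have h9 := hT (h * i + l) (n - l - 3)
        rw [show h * i + l + (n - l - 3) = h * i + n - 3 by omega] at h2' h9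
        omega
      · have h3' : b < T (h * i + l + (n - l)) - T (h * i + l) := h3
        rw [show h * i + l + (n - l) = h * i + n by omega] at h3'
        omega
      · rw [h5, ← P_add, Nat.add_comm]
      · rw [h6, ← P_add, Nat.add_comm]
    · exact ⟨0, 0, fun h => absurd h hi⟩
  choose tp tq H using hex
  have hoff : ∀ i, i < m₀ → ∀ k, ∀ c ∈ Reg k, c ∉ (G i).Far ∧ c ∉ (G i).Ann := by
    intro i hi k c hc
    have hn0 : 0 < n := R.hn
    obtain ⟨j, hj, h1⟩ : ∃ j, j < n ∧ Reg (h * i + l + j) = Reg k := by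
      have h2 : k ≤ k + n * (h * i + l) := Nat.le_add_right _ _
      have h3 : h * i + l ≤ k + n * (h * i + l) := by
        calc h * i + l ≤ n * (h * i + l) := Nat.le_mul_of_pos_left _ hn0
          _ ≤ _ := Nat.le_add_left _ _
      refine ⟨(k + n * (h * i + l) - (h * i + l)) % n, Nat.mod_lt _ hn0, ?_⟩
      rw [← R.regm k (h * i + l),
        ← R.regm _ ((k + n * (h * i + l) - (h * i + l)) / n)]
      congr 1
      have := Nat.mod_add_div (k + n * (h * i + l) - (h * i + l)) n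
      omega
    exact (X i hi).off j hj c (h1 ▸ hc)
  refine ⟨tp, tq, rw_of R hb gen hG (fun i hi k c hc => (hoff i hi k c hc).1)
    (fun i hi k c hc => (hoff i hi k c hc).2) hh hn hm hl (fun i hi => (H i hi).2.2.2.2.1)
    (fun i hi => (H i hi).2.2.2.2.2.2) (fun i hi => (H i hi).1) (fun i hi => (H i hi).2.1)
    (fun i hi => (H i hi).2.2.1), fun i hi => ⟨(H i hi).2.2.2.2.2.1, (H i hi).2.2.2.1⟩⟩

end Crest.Agent.R143.RWrx355
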