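import Crest.Agent.R143.HGlue_136
import Crest.Agent.R143.O_355
import Crest.Agent.R143.RWr_355
import Crest.Agent.R143.PotP_263

/-!
# Row 143 (S0194), block H (helper355): maps with the same darts (bridge `rc0 hS` <-> `cm0 hS`)

* `Sm M₁ M₂ f` : same darts, `rho`, `iota`, `live`, cells of `M₂` = images of the cells of `M₁` under
  the injective map `f`; then `IsC`, `stp`, `P`, `Gp`, `Rel`, `ev`, `blk`, `blks`, `Con`, `Nb`, `Ek`,
  `Eg`, `Lf`, `Lp`, `RL`, `RQ` agree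
* `Sm.coarse` : the same for the coarse maps; `Sm.chd`, `Sm.clb`, `Sm.mE`, `Sm.CHq`, `Sm.CLq`, `Sm.gc`,
  `Sm.clsCon_pe`
* `sm_rc0` : `rc0 hS` and `cm0 hS`
-/

set_option autoImplicit false

noncomputable section

open scoped Classical

namespace Crest.Agent.R143.Brgx355

open Crest.Agent.R143.B0x346 Crest.Agent.R143.SumScx302 Crest.Agent.R143.Mass1x302
  Crest.Agent.R143.Mass2x302 Crest.Agent.R143.Mass3x302 Crest.Agent.R143.Mass4x302
  Crest.Agent.R143.Mass5x302 Crest.Agent.R143.DelGx806 Crest.Agent.R143.DelRx806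
open Crest.Agent.R143.Frame1x395 Crest.Agent.R143.Frame2x395 Crest.Agent.R143.Frame3x395
  Crest.Agent.R143.Frame4x395 Crest.Agent.R143.Frame8x395 Crest.Agent.R143.Frame9x395
  Crest.Agent.R143.Frame10x395 Crest.Agent.R143.Frame11x395 Crest.Agent.R143.NonXx592
  Crest.Agent.R143.Coarsex166 Crest.Agent.R143.Budx432 Crest.Agent.R143.Bud2x432
  Crest.Agent.R143.HInst1x432 Crest.Agent.R143.HInst2x432 Crest.Agent.R143.GiantEx197
open Crest.Agent.R143.HGluex136 (CHq CLq)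
open Crest.Agent.R143.Chordx355 (Lp lc)
open Crest.Agent.R143.Ox355 (Gc)
open Crest.Agent.R143.Winx355 (RL FarC)
open Crest.Agent.R143.PotPx263 (RQ)
open Crest.Agent.R143.FinCx811 (Cs rc0)
open Crest.Agent.R143.Exitx707 (Nb)
open scoped ENNReal

variable {D C₁ C₂ K₁ K₂ : Type} {M₁ : CMap D C₁} {M₂ : CMap D C₂} {f : C₁ → C₂}
  {x : D → ZMod 2} {O : Set D}

/-- the same darts, injective map of the cells -/
structure Sm (M₁ : CMap D C₁) (M₂ : CMap D C₂) (f : C₁ → C₂) : Prop where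
  rho : M₂.rho = M₁.rho
  iota : M₂.iota = M₁.iota
  live : M₂.live = M₁.live
  cell : ∀ d, M₂.cell d = f (M₁.cell d)
  inj : ∀ c c', f c = f c' → c = c'

namespace Sm

theorem cell_iff (H : Sm M₁ M₂ f) {d e : D} : M₂.cell d = M₂.cell e ↔ M₁.cell d = M₁.cell e := by
  rw [H.cell, H.cell]
  exact ⟨H.inj _ _, fun h => by rw [h]⟩

theorem isC (H : Sm M₁ M₂ f) : IsC M₂ O x ↔ IsC M₁ O x := by
  constructor
  · rintro ⟨h1, h2, h3⟩
    rw [H.live] at h1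
    rw [H.iota] at h2
    rw [H.rho] at h3
    exact ⟨h1, h2, h3⟩
  · rintro ⟨h1, h2, h3⟩
    rw [← H.live] at h1
    rw [← H.iota] at h2
    rw [← H.rho] at h3
    exact ⟨h1, h2, h3⟩

theorem stp (H : Sm M₁ M₂ f) : stp M₂ x = stp M₁ x := by
  funext p
  unfold Frame1x395.stp
  rw [H.rho, H.iota]

theorem P (H : Sm M₁ M₂ f) (p : D) (n : ℕ) : P M₂ x p n = P M₁ x p n := by
  unfold NonXx592.P
  rw [H.stp]

theorem lc (H : Sm M₁ M₂ f) (p : D) (n : ℕ) : lc M₂ x p n = f (lc M₁ x p n) := by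
  unfold Chordx355.lc
  rw [H.P, H.cell]

theorem gp (H : Sm M₁ M₂ f) {g : D} : Gp M₂ x g ↔ Gp M₁ x g := by
  unfold Gp
  rw [H.rho]

theorem out (H : Sm M₁ M₂ f) : out M₂ = out M₁ := by
  funext g
  unfold Frame3x395.out
  rw [H.iota, H.rho]

theorem av (H : Sm M₁ M₂ f) {c : C₁} {p q : D} : Av M₂ x (f c) p q ↔ Av M₁ x c p q := by
  unfold Av
  rw [H.stp]
  constructor
  · rintro ⟨n, h1, h2⟩
    exact ⟨n, h1, fun k hk e => h2 k hk (by rw [H.cell, e])⟩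
  · rintro ⟨n, h1, h2⟩
    exact ⟨n, h1, fun k hk e => h2 k hk (H.inj _ _ (by rw [← H.cell, e]))⟩

theorem rel (H : Sm M₁ M₂ f) {g h : D} : Rel M₂ x g h ↔ Rel M₁ x g h := by
  constructor
  · intro R c
    have h1 := R (f c)
    unfold Sc at h1 ⊢
    rwa [H.av, H.av, H.out, H.rho] at h1
  · intro R c
    by_cases hc : c ∈ Set.range f
    · obtain ⟨c', rfl⟩ := hc
      have h1 := R c'
      unfold Sc at h1 ⊢
      rwa [H.av, H.av, H.out, H.rho]
    · have h2 : ∀ p q : D, (∃ n, (Frame1x395.stp M₁ x)^[n] p = q) → Av M₂ x c p q := by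
        rintro p q ⟨n, hn⟩
        refine ⟨n, by rw [H.stp]; exact hn, fun k _ e => hc ⟨_, (H.cell _).symm.trans e⟩⟩
      rcases R (M₁.cell g) with h1 | ⟨n, h1, -⟩ | ⟨n, h1, -⟩
      · exact Or.inl h1
      · refine Or.inr (Or.inl ?_)
        rw [H.out, H.rho]
        exact h2 _ _ ⟨n, h1⟩
      · refine Or.inr (Or.inr ?_)
        rw [H.out, H.rho]
        exact h2 _ _ ⟨n, h1⟩

theorem cfg (H : Sm M₁ M₂ f) (χ : C₂ → ZMod 2) : cfg M₂ χ = cfg M₁ (fun c => χ (f c)) := by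
  funext d
  unfold Frame8x395.cfg
  rw [H.cell, H.cell, H.rho]

theorem ev [Fintype D] (H : Sm M₁ M₂ f) : ev M₂ = ev M₁ := by
  ext x
  rw [mem_ev, mem_ev, H.isC]

theorem gaps [Fintype D] (H : Sm M₁ M₂ f) : gaps M₂ x = gaps M₁ x := by
  ext g
  rw [mem_gaps, mem_gaps, H.gp]

theorem blk [Fintype D] (H : Sm M₁ M₂ f) (g : D) : blk M₂ x g = blk M₁ x g := by
  ext h
  rw [mem_blk, mem_blk, H.gp, H.rel]

theorem blks [Fintype D] (H : Sm M₁ M₂ f) : blks M₂ x = blks M₁ x := by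
  unfold Frame8x395.blks
  rw [H.gaps]
  exact Finset.image_congr fun g _ => H.blk g

theorem nb (H : Sm M₁ M₂ f) {a b : C₁} : Nb M₂ (f a) (f b) ↔ Nb M₁ a b := by
  constructor
  · rintro ⟨d, h1, h2⟩
    rw [H.cell] at h1 h2
    rw [H.rho] at h2
    exact ⟨d, H.inj _ _ h1, H.inj _ _ h2⟩
  · rintro ⟨d, rfl, rfl⟩
    exact ⟨d, H.cell d, by rw [H.cell, H.rho]⟩

/-- a neighbour is an image -/
theorem nb_range (H : Sm M₁ M₂ f) {a b : C₂} (h : Nb M₂ a b) : b ∈ Set.range f := by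
  obtain ⟨d, -, rfl⟩ := h
  exact ⟨_, (H.cell _).symm⟩

theorem ek (H : Sm M₁ M₂ f) {h0 : C₁} {K : Set C₁} :
    Ek M₂ (f h0) (f '' K) = f '' Ek M₁ h0 K := by
  ext c
  constructor
  · intro hc
    have hc' : Relation.ReflTransGen (fun a a' => Nb M₂ a a' ∧ a' ∉ f '' K) (f h0) c := hc
    clear hc
    induction hc' with
    | refl => exact ⟨h0, h0_ek, rfl⟩
    | @tail a c _ h1 ih =>
      obtain ⟨a', ha, rfl⟩ := ih
      obtain ⟨c', rfl⟩ := H.nb_range h1.1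
      exact ⟨c', ek_step ha (H.nb.1 h1.1) fun hk => h1.2 ⟨c', hk, rfl⟩, rfl⟩
  · rintro ⟨c', hc, rfl⟩
    have hc' : Relation.ReflTransGen (fun a a' => Nb M₁ a a' ∧ a' ∉ K) h0 c' := hc
    clear hc
    induction hc' with
    | refl => exact h0_ek
    | @tail a c _ h1 ih =>
      refine ek_step ih (H.nb.2 h1.1) ?_
      rintro ⟨k, hk, e⟩
      exact h1.2 (H.inj _ _ e ▸ hk)

theorem eg (H : Sm M₁ M₂ f) {h0 : C₁} {K : Set C₁} :
    Eg M₂ (f h0) (f '' K) = f '' Eg M₁ h0 K := by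
  unfold Eg
  rw [H.ek, Set.image_union]

theorem lf (H : Sm M₁ M₂ f) (p : D) (n : ℕ) : Lf M₂ x p n = f '' Lf M₁ x p n := by
  ext c
  constructor
  · rintro ⟨j, hj, rfl⟩
    exact ⟨_, ⟨j, hj, rfl⟩, by rw [H.cell, H.P]⟩
  · rintro ⟨c', ⟨j, hj, rfl⟩, rfl⟩
    exact ⟨j, hj, by rw [H.cell, H.P]⟩

theorem phi (H : Sm M₁ M₂ f) : phi M₂ = phi M₁ := by
  funext g
  unfold Frame9x395.phi
  rw [H.iota, H.rho]

theorem gen (H : Sm M₁ M₂ f) {c : C₁} : Gen M₂ (f c) ↔ Gen M₁ c := by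
  have e : ∀ a, M₂.cell a = f c ↔ M₁.cell a = c := fun a => by
    rw [H.cell]
    exact ⟨H.inj _ _, fun e => by rw [e]⟩
  constructor
  · rintro ⟨h1, h2, h3⟩
    refine ⟨fun a ha => ?_, fun a b ha hb => ?_, fun a ha => ?_⟩
    · rw [← H.live, ← H.rho]; exact h1 a ((e a).2 ha)
    · rw [← H.phi]; exact h2 a b ((e a).2 ha) ((e b).2 hb)
    · rw [Ne, ← e, ← H.rho]; exact h3 a ((e a).2 ha)
  · rintro ⟨h1, h2, h3⟩
    refine ⟨fun a ha => ?_, fun a b ha hb => ?_, fun a ha => ?_⟩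
    · rw [H.live, H.rho]; exact h1 a ((e a).1 ha)
    · rw [H.phi]; exact h2 a b ((e a).1 ha) ((e b).1 hb)
    · rw [Ne, e, H.rho]; exact h3 a ((e a).1 ha)

/-- connected cells -/
theorem con (H : Sm M₁ M₂ f) {a b : C₁} : Con M₂ x (f a) (f b) ↔ Con M₁ x a b := by
  constructor
  · intro h
    have key : ∀ u v : C₂, Con M₂ x u v → (u = v) ∨
        ∃ a b, f a = u ∧ f b = v ∧ Con M₁ x a b := by
      intro u v h
      induction h with
      | rel u v h =>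
        obtain ⟨d, h1, rfl, rfl⟩ := h
        refine Or.inr ⟨_, _, (H.cell _).symm, (H.cell _).symm, Relation.EqvGen.rel _ _ ⟨d, h1, rfl, ?_⟩⟩
        rw [H.rho]
      | refl u => exact Or.inl rfl
      | symm u v _ ih =>
        rcases ih with rfl | ⟨a, b, h1, h2, h3⟩
        · exact Or.inl rfl
        · exact Or.inr ⟨b, a, h2, h1, h3.symm⟩
      | trans u v w _ _ ih1 ih2 =>
        rcases ih1 with rfl | ⟨a, b, h1, h2, h3⟩
        · exact ih2
        · rcases ih2 with rfl | ⟨a', b', g1, g2, g3⟩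
          · exact Or.inr ⟨a, b, h1, h2, h3⟩
          · have e : b = a' := H.inj _ _ (h2.trans g1.symm)
            subst e
            exact Or.inr ⟨a, b', h1, g2, h3.trans _ _ _ g3⟩
    rcases key _ _ h with e | ⟨a', b', h1, h2, h3⟩
    · rw [H.inj _ _ e]
      exact Relation.EqvGen.refl _
    · rw [← H.inj _ _ h1, ← H.inj _ _ h2]
      exact h3
  · intro h
    induction h with
    | rel u v h =>
      obtain ⟨d, h1, rfl, rfl⟩ := h
      exact Relation.EqvGen.rel _ _ ⟨d, h1, H.cell d, by rw [H.cell, H.rho]⟩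
    | refl u => exact Relation.EqvGen.refl _
    | symm u v _ ih => exact ih.symm
    | trans u v w _ _ ih1 ih2 => exact ih1.trans _ _ _ ih2

/-! ### coarse maps -/

variable {π₁ : C₁ → K₁} {π₂ : C₂ → K₂} {g : K₁ → K₂}

/-- **the coarse maps** -/
theorem coarse (H : Sm M₁ M₂ f) (hg : ∀ c, π₂ (f c) = g (π₁ c)) (gi : ∀ c c', g c = g c' → c = c')
    (h₁ : ClsCon M₁ π₁) (h₂ : ClsCon M₂ π₂) : Sm (coarse M₁ π₁ h₁) (coarse M₂ π₂ h₂) g where
  rho := H.rho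
  iota := H.iota
  live := by
    ext d
    show (d ∈ M₂.live ∧ π₂ (M₂.cell d) ≠ π₂ (M₂.cell (M₂.rho d))) ↔
      (d ∈ M₁.live ∧ π₁ (M₁.cell d) ≠ π₁ (M₁.cell (M₁.rho d)))
    rw [H.live, H.cell, H.cell, H.rho, hg, hg]
    exact and_congr_right fun _ => not_congr ⟨gi _ _, fun e => by rw [e]⟩
  cell d := by
    show π₂ (M₂.cell d) = g (π₁ (M₁.cell d))
    rw [H.cell, hg]
  inj := gi

/-- connected classes -/
theorem clsCon (H : Sm M₁ M₂ f) (hg : ∀ c, π₂ (f c) = g (π₁ c)) (gi : ∀ c c', g c = g c' → c = c') :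
    ClsCon M₂ π₂ ↔ ClsCon M₁ π₁ := by
  constructor
  · intro h a b e
    have h1 := h a b (by rw [H.cell, H.cell, hg, hg, e])
    have key : ∀ u v : C₂, Relation.EqvGen (Adj M₂ π₂) u v → u = v ∨
        ∃ a b, f a = u ∧ f b = v ∧ Relation.EqvGen (Adj M₁ π₁) a b := by
      intro u v h
      induction h with
      | rel u v h =>
        obtain ⟨h0, d, h1, rfl, rfl⟩ := h
        refine Or.inr ⟨_, _, (H.cell _).symm, (H.cell _).symm,
          Relation.EqvGen.rel _ _ ⟨?_, d, H.live ▸ h1, rfl, by rw [H.rho]⟩⟩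
        rw [H.cell, H.cell, hg, hg] at h0
        exact gi _ _ h0
      | refl u => exact Or.inl rfl
      | symm u v _ ih =>
        rcases ih with rfl | ⟨a, b, h1, h2, h3⟩
        · exact Or.inl rfl
        · exact Or.inr ⟨b, a, h2, h1, h3.symm⟩
      | trans u v w _ _ ih1 ih2 =>
        rcases ih1 with rfl | ⟨a, b, h1, h2, h3⟩
        · exact ih2
        · rcases ih2 with rfl | ⟨a', b', g1, g2, g3⟩
          · exact Or.inr ⟨a, b, h1, h2, h3⟩
          · have e : b = a' := H.inj _ _ (h2.trans g1.symm)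
            subst e
            exact Or.inr ⟨a, b', h1, g2, h3.trans _ _ _ g3⟩
    rcases key _ _ h1 with e | ⟨a', b', e1, e2, h3⟩
    · rw [H.cell_iff.1 e]
      exact Relation.EqvGen.refl _
    · rw [H.cell] at e1 e2
      rw [← H.inj _ _ e1, ← H.inj _ _ e2]
      exact h3
  · intro h a b e
    rw [H.cell, H.cell, hg, hg] at e
    have h1 := h a b (gi _ _ e)
    rw [H.cell, H.cell]
    clear e
    revert h1
    generalize M₁.cell a = u
    generalize M₁.cell b = v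
    intro h1
    induction h1 with
    | rel u v h =>
      obtain ⟨h0, d, h1, rfl, rfl⟩ := h
      exact Relation.EqvGen.rel _ _ ⟨by rw [hg, hg, h0], d, by rw [H.live]; exact h1, H.cell d,
        by rw [H.cell, H.rho]⟩
    | refl u => exact Relation.EqvGen.refl _
    | symm u v _ ih => exact ih.symm
    | trans u v w _ _ ih1 ih2 => exact ih1.trans _ _ _ ih2

variable {h₁ : ClsCon M₁ π₁} {h₂ : ClsCon M₂ π₂} {o : K₁}

theorem cls (H : Sm M₁ M₂ f) (hg : ∀ c, π₂ (f c) = g (π₁ c)) (gi : ∀ c c', g c = g c' → c = c')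
    {β : Finset D} : Cls M₂ π₂ (g o) β ↔ Cls M₁ π₁ o β := by
  refine forall₂_congr fun k _ => ?_
  rw [H.cell, H.rho, hg]
  exact not_congr ⟨gi _ _, fun e => by rw [e]⟩

theorem chd [Fintype D] (H : Sm M₁ M₂ f) (hg : ∀ c, π₂ (f c) = g (π₁ c))
    (gi : ∀ c c', g c = g c' → c = c') : chd M₂ π₂ h₂ (g o) x = chd M₁ π₁ h₁ o x := by
  unfold Bud2x432.chd
  rw [(H.coarse hg gi h₁ h₂).blks]
  exact Finset.filter_congr fun β _ => not_congr (H.cls hg gi)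

theorem clb [Fintype D] (H : Sm M₁ M₂ f) (hg : ∀ c, π₂ (f c) = g (π₁ c))
    (gi : ∀ c c', g c = g c' → c = c') {P U : Set ℂ} {δ : ℂ → ℂ → D} {k : ℝ} :
    clb P U M₂ π₂ h₂ (g o) δ k x = clb P U M₁ π₁ h₁ o δ k x := by
  unfold Bud2x432.clb
  rw [(H.coarse hg gi h₁ h₂).blks]
  refine Finset.filter_congr fun β _ => and_congr (H.cls hg gi) ?_
  unfold Big
  rw [H.stp, H.rho]

theorem mE [Fintype D] (H : Sm M₁ M₂ f) (hg : ∀ c, π₂ (f c) = g (π₁ c))
    (gi : ∀ c c', g c = g c' → c = c') (F : (D → ZMod 2) → ℝ≥0∞) :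
    mE M₂ π₂ h₂ F = mE M₁ π₁ h₁ F := by
  unfold HInst2x432.mE
  rw [(H.coarse hg gi h₁ h₂).ev]

theorem cHq [Fintype D] (H : Sm M₁ M₂ f) (hg : ∀ c, π₂ (f c) = g (π₁ c))
    (gi : ∀ c c', g c = g c' → c = c') (a : D → ℂ) :
    CHq M₂ π₂ h₂ (g o) a = CHq M₁ π₁ h₁ o a := by
  unfold CHq
  rw [(H.coarse hg gi h₁ h₂).ev]
  simp only [H.chd hg gi (h₁ := h₁) (h₂ := h₂) (o := o)]

theorem cLq [Fintype D] (H : Sm M₁ M₂ f) (hg : ∀ c, π₂ (f c) = g (π₁ c))
    (gi : ∀ c c', g c = g c' → c = c') {P U : Set ℂ} {δ : ℂ → ℂ → D} {k : ℝ} (a : D → ℂ) :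
    CLq P U M₂ π₂ h₂ (g o) δ k a = CLq P U M₁ π₁ h₁ o δ k a := by
  unfold CLq
  rw [(H.coarse hg gi h₁ h₂).ev]
  simp only [H.clb hg gi (h₁ := h₁) (h₂ := h₂) (o := o)]

theorem gc (H : Sm M₁ M₂ f) (hg : ∀ c, π₂ (f c) = g (π₁ c)) (gi : ∀ c c', g c = g c' → c = c')
    {k : D} {n : ℕ} : Gc M₂ π₂ (g o) x k n ↔ Gc M₁ π₁ o x k n := by
  have e : ∀ d, π₂ (M₂.cell d) = g o ↔ π₁ (M₁.cell d) = o := fun d => by
    rw [H.cell, hg]
    exact ⟨gi _ _, fun e => by rw [e]⟩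
  constructor
  · rintro ⟨h1, h2, h3, h4, h5⟩
    refine ⟨H.gp.1 h1, h2, ?_, ?_, fun u hu hu' => ?_⟩
    · rw [← e, ← H.rho]; exact h3
    · rw [← e, ← H.P, ← H.rho]; exact h4
    · rw [Ne, ← e, ← H.P, ← H.rho]; exact h5 u hu hu'
  · rintro ⟨h1, h2, h3, h4, h5⟩
    refine ⟨H.gp.2 h1, h2, ?_, ?_, fun u hu hu' => ?_⟩
    · rw [e, H.rho]; exact h3
    · rw [e, H.P, H.rho]; exact h4
    · rw [Ne, e, H.P, H.rho]; exact h5 u hu hu'

/-! ### giants -/

theorem pe_map (H : Sm M₁ M₂ f) {E : Set C₁} (c : C₁) :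
    pe (f '' E) (f c) = Option.map f (pe E c) := by
  unfold pe
  have e : f c ∈ f '' E ↔ c ∈ E := ⟨fun ⟨c', h1, h2⟩ => H.inj _ _ h2 ▸ h1, fun h => ⟨c, h, rfl⟩⟩
  by_cases hc : c ∈ E
  · rw [if_pos (e.2 hc), if_pos hc]; rfl
  · rw [if_neg fun h => hc (e.1 h), if_neg hc]; rfl

theorem map_inj (H : Sm M₁ M₂ f) (c c' : Option C₁) (h : Option.map f c = Option.map f c') :
    c = c' := Option.map_injective (fun a b => H.inj a b) h

theorem clsCon_pe (H : Sm M₁ M₂ f) {E : Set C₁} :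
    ClsCon M₂ (pe (f '' E)) ↔ ClsCon M₁ (pe E) := H.clsCon H.pe_map H.map_inj

/-- the filled colouring -/
theorem fil (H : Sm M₁ M₂ f) (hg : ∀ c, π₂ (f c) = g (π₁ c)) (gi : ∀ c c', g c = g c' → c = c')
    (χ : C₂ → ZMod 2) : Frame8x395.cfg M₂ (fil π₂ (g o) χ) =
      Frame8x395.cfg M₁ (fil π₁ o fun c => χ (f c)) := by
  rw [H.cfg]
  congr 1
  funext c
  unfold Budx432.fil
  rw [hg]
  by_cases h : π₁ c = o
  · rw [if_pos h, if_pos (by rw [h])]
  · rw [if_neg h, if_neg fun e => h (gi _ _ e)]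

/-! ### the ring loop -/

theorem lp (H : Sm M₁ M₂ f) {p : D} {N : ℕ} : Lp M₂ x p N ↔ Lp M₁ x p N := by
  constructor
  · rintro ⟨h1, h2, h3, h4, h5⟩
    exact ⟨H.isC.1 h1, h2, h3, by rw [← H.P]; exact h4, fun a b h h' => by
      rw [← H.P, ← H.P]; exact h5 a b h h'⟩
  · rintro ⟨h1, h2, h3, h4, h5⟩
    exact ⟨H.isC.2 h1, h2, h3, by rw [H.P]; exact h4, fun a b h h' => by
      rw [H.P, H.P]; exact h5 a b h h'⟩

/-- 355's ring loop -/
theorem rl (H : Sm M₁ M₂ f) {P₀ : D} {N n : ℕ} {T : ℕ → ℕ} {Reg : ℕ → Set C₂}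
    (R : RL M₂ x P₀ N n T Reg) : RL M₁ x P₀ N n T (fun k => f ⁻¹' Reg k) where
  L := H.lp.1 R.L
  mono := R.mono
  zero := R.zero
  per := R.per
  reg k u h1 h2 := by
    show f (Chordx355.lc M₁ x P₀ u) ∈ Reg k
    rw [← H.lc]
    exact R.reg k u h1 h2
  perR k := by rw [R.perR]
  dis k j h1 h2 := by
    rw [Set.disjoint_left]
    intro c hc hc'
    exact Set.disjoint_left.1 (R.dis k j h1 h2) hc hc'

theorem farC {Reg : ℕ → Set C₂} {n h : ℕ} {p q : C₁} :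
    FarC (fun k => f ⁻¹' Reg k) n h p q ↔ FarC Reg n h (f p) (f q) := Iff.rfl

/-- 263's periodic ring -/
theorem rq (H : Sm M₁ M₂ f) {P₀ : D} {N n : ℕ} {T : ℕ → ℕ} {F : ℕ → Set D} :
    RQ M₂ x P₀ N n T F ↔ RQ M₁ x P₀ N n T F := by
  have e : ∀ u v, Chordx355.lc M₂ x P₀ u = Chordx355.lc M₂ x P₀ v ↔
      Chordx355.lc M₁ x P₀ u = Chordx355.lc M₁ x P₀ v := fun u v => by
    rw [H.lc, H.lc]
    exact ⟨H.inj _ _, fun e => by rw [e]⟩
  have g : ∀ i, Splx117.gp M₂ x P₀ i = Splx117.gp M₁ x P₀ i := fun i => by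
    unfold Splx117.gp
    rw [H.stp, H.rho]
  constructor
  · rintro ⟨h1, h2, h3, h4, h5, h6, h7, h8, h9⟩
    refine ⟨H.lp.1 h1, h2, h3, h4, h5, ?_, h7, ?_, ?_⟩
    · intro k k' a b u v c1 c2 c3 c4 c5
      rw [← e, ← e]
      exact h6 k k' a b u v c1 c2 c3 c4 ((e u v).2 c5)
    · intro k i a b
      rw [← g]
      exact h8 k i a b
    · intro i l j a b c
      rw [← g] at c ⊢
      exact h9 i l j a b c
  · rintro ⟨h1, h2, h3, h4, h5, h6, h7, h8, h9⟩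
    refine ⟨H.lp.2 h1, h2, h3, h4, h5, ?_, h7, ?_, ?_⟩
    · intro k k' a b u v c1 c2 c3 c4 c5
      rw [e, e]
      exact h6 k k' a b u v c1 c2 c3 c4 ((e u v).1 c5)
    · intro k i a b
      rw [g]
      exact h8 k i a b
    · intro i l j a b c
      rw [g] at c ⊢
      exact h9 i l j a b c

end Sm

/-- **`rc0 hS` and `cm0 hS`** -/
theorem sm_rc0 {S : Finset ℂ} (hS : GP (S : Set ℂ)) : Sm (rc0 hS) (cm0 hS) Subtype.val where
  rho := rfl
  iota := rfl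
  live := rfl
  cell _ := rfl
  inj _ _ h := Subtype.ext h

end Crest.Agent.R143.Brgx355
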