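import Crest.Agent.R143.SumA_389
import Crest.Agent.R143.RWr_355

/-!
# Row 143 (S0194), hedge block H, [A] (helper389): ring data from 355's `RLW`, transfer of `RLW`

* `rd_base`, **`rd_ring`** : `Rd` (input of `sumA`, `DatA`) from 355's ring loop `RLW` and the ring
  data `RX` of all windows
* **`Tf.rlw`**, `Tf.lf`, `Tf.rl` : the ring loop and its left cells in every configuration with the
  same full exploration
* `rd_tf` : `Rd` is transferred, hence **`rw_all`** : 355's `RW` in every configuration with the same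
  full exploration
-/

set_option autoImplicit false
set_option linter.unusedSectionVars false

noncomputable section

open scoped Classical

namespace Crest.Agent.R143.RdBx389

open Finset Crest.Agent.R143.Harx315 Crest.Agent.R143.Frame1x395 Crest.Agent.R143.Frame2x395
  Crest.Agent.R143.Frame3x395 Crest.Agent.R143.Frame8x395 Crest.Agent.R143.Frame9x395
  Crest.Agent.R143.Frame11x395 Crest.Agent.R143.NonXx592 Crest.Agent.R143.Chordx355
  Crest.Agent.R143.Histx389 Crest.Agent.R143.RevAx389 Crest.Agent.R143.Tubex389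
  Crest.Agent.R143.Chord2x355 Crest.Agent.R143.H2x355 Crest.Agent.R143.RevCx389
  Crest.Agent.R143.RingWx389 Crest.Agent.R143.RevEx389 Crest.Agent.R143.SumAx389
  Crest.Agent.R143.Winx355 Crest.Agent.R143.RWrx355

open Crest.Agent.R143.Exitx707 (Nb nb_symm gap_cases)
open Crest.Agent.R143.GiantEx197 (Eg Lf)
open Crest.Agent.R143.HInst1x432 (pe)

variable {α D C : Type} {M : CMap D C} {G : ℕ → Rg D C} {Gf : Rg D C} {m₀ : ℕ} [Fintype D]
  {ψ : C → ZMod 2} {P₀ : D} {N n : ℕ} {T : ℕ → ℕ} {Reg : ℕ → Set C}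

/-- `Rd` from one right cell in the white cluster -/
theorem rd_base (L : Lp M (cfg M ψ) P₀ N) (hb : ψ (M.cell P₀) = 1)
    (hd : ∀ t, M.cell (P M (cfg M ψ) P₀ t) ∈ Gf.Dw ∧ M.cell (M.rho (P M (cfg M ψ) P₀ t)) ∈ Gf.Dw)
    (h1 : ∃ t, M.cell (M.rho (P M (cfg M ψ) P₀ t)) ∈ Cw M Gf ψ)
    (h : ∀ i, i < m₀ → ∃ (s : ℕ) (T : ℕ → ℕ) (m n : ℕ) (B : ℕ → Set C) (B' : Set C),
      RX M (G i) ψ (P M (cfg M ψ) P₀ s) T m n B B' ∧
        ∀ c ∈ B', ∃ t, c = M.cell (P M (cfg M ψ) P₀ t)) : Rd M Gf G m₀ ψ P₀ := by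
  have hx : IsC M ∅ (cfg M ψ) := cfg_isC _
  have bl : ∀ t, ψ (M.cell (P M (cfg M ψ) P₀ t)) = 1 := fun t =>
    (it_col hx L.occ (same_of ψ) t).trans hb
  have wh : ∀ t, ψ (M.cell (M.rho (P M (cfg M ψ) P₀ t))) = 0 := fun t =>
    diff_of ψ _ (occ_P hx L.occ t) (bl t)
  obtain ⟨t1, h1⟩ := h1
  have step : ∀ u, M.cell (M.rho (P M (cfg M ψ) P₀ (t1 + u))) ∈ Cw M Gf ψ := by
    intro u
    induction u with
    | zero => exact h1
    | succ u ih =>
      rw [← add_assoc]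
      have h2 := (hd (t1 + u + 1)).2
      have h3 := wh (t1 + u + 1)
      rw [P_succ] at h2 h3 ⊢
      rcases stp_cases hx (P_occ hx L.occ (t1 + u)) (Set.notMem_empty _) with
        ⟨h4, h5, e⟩ | ⟨h4, h5, e⟩
      · rw [e, cell_rho_iota M (hx.lv h4)]
        exact ih
      · rw [e, cell_rho_iota M (hx.lv h5)] at h2 h3 ⊢
        exact cl_step ih (nb_rho _) h2 h3
  refine ⟨L.occ, fun t => (hd t).1, fun t => ?_, h⟩
  have hN := L.pos
  have h2 := step (t + t1 * N - t1)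
  have h3 : t1 ≤ t + t1 * N := by nlinarith
  rw [Nat.add_sub_cancel' h3, L.mod, Nat.add_mul_mod_self_right, ← L.mod] at h2
  exact h2

/-- **`Rd` from 355's ring loop and the ring data of all windows** -/
theorem rd_ring (R : RLW M ψ P₀ N n T Reg) {h l : ℕ} (hm : 0 < m₀) (hLe : ∀ i, i < m₀ → Le (G i) Gf)
    (hd : ∀ k, ∀ c ∈ Reg k, c ∈ Gf.Dw) {B' : ℕ → Set C}
    (hB : ∀ i, i < m₀ → ∀ c ∈ B' i, ∃ t, c = M.cell (P M (cfg M ψ) P₀ t))
    (X : ∀ i, i < m₀ → RX M (G i) ψ (P M (cfg M ψ) P₀ (T (h * i + l)))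
      (fun k => T (h * i + l + k) - T (h * i + l)) (n - l) n (fun k => Reg (h * i + l + k))
      (B' i)) : Rd M Gf G m₀ ψ P₀ := by
  refine rd_base R.L R.bl (fun t => ?_) ?_ fun i hi => ⟨_, _, _, _, _, _, X i hi, hB i hi⟩
  · obtain ⟨k, h1, h2⟩ := R.toRL.tile t
    have h3 := R.tile2 k t h1 h2.le
    exact ⟨hd k _ h3.1, hd k _ h3.2⟩
  · refine ⟨T (h * 0 + l), ?_⟩
    exact (hLe 0 hm).cw ((X 0 hm).rcw (t := 0) (Nat.zero_le _))

variable {V : Finset α} {χ : Finset α → C → ZMod 2} {K : C → Finset α} {b b' : Finset α} {r : D}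

/-- the ring loop in every configuration with the same full exploration -/
theorem tf_lp (H : Tf M Gf V χ K b b' P₀) (L : Lp M (cfg M (χ b)) P₀ N) :
    Lp M (cfg M (χ b')) P₀ N := by
  refine ⟨cfg_isC _, H.occ', L.pos, ?_, fun a c h1 h2 => ?_⟩
  · rw [H.st]; exact L.per
  · rw [H.st, H.st]; exact L.inj a c h1 h2

theorem tf_rl (H : Tf M Gf V χ K b b' P₀) (R : RL M (cfg M (χ b)) P₀ N n T Reg) :
    RL M (cfg M (χ b')) P₀ N n T Reg := by
  refine ⟨tf_lp H R.L, R.mono, R.zero, R.per, fun k u h1 h2 => ?_, R.perR, R.dis⟩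
  unfold lc
  rw [H.st]
  exact R.reg k u h1 h2

/-- **the ring loop with colours** -/
theorem tf_rlw (H : Tf M Gf V χ K b b' P₀) (R : RLW M (χ b) P₀ N n T Reg) :
    RLW M (χ b') P₀ N n T Reg := by
  refine { toRL := tf_rl H R.toRL, bl := ?_, tile2 := fun k t h1 h2 => ?_ }
  · exact (H.cl 0).trans R.bl
  · rw [H.st]
    exact R.tile2 k t h1 h2

/-- the left cells of the ring loop -/
theorem tf_lf (H : Tf M Gf V χ K b b' P₀) (N : ℕ) :
    Lf M (cfg M (χ b')) P₀ N = Lf M (cfg M (χ b)) P₀ N := by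
  unfold Lf
  simp only [H.st]

/-- **355's `RW` in every configuration with the same full exploration** -/
theorem rw_all (H : Tf M Gf V χ K b b' P₀) (hK : ∀ c, K c ⊆ V) (R : RLW M (χ b) P₀ N n T Reg)
    (gen : ∀ c, c ∉ Eg M Gf.h0 (Lf M (cfg M (χ b)) P₀ N) → Gen M c) {h l : ℕ} {B' : ℕ → Set C}
    (hLe : ∀ i, i < m₀ → Le (G i) Gf) (hh : 5 ≤ h) (hn : n = h * m₀) (hm : 2 ≤ m₀) (hl : l ≤ h)
    (hB : ∀ i, i < m₀ → ∀ c ∈ B' i, ∃ t, c = M.cell (P M (cfg M (χ b)) P₀ t))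
    (X : ∀ i, i < m₀ → RX M (G i) (χ b) (P M (cfg M (χ b)) P₀ (T (h * i + l)))
      (fun k => T (h * i + l + k) - T (h * i + l)) (n - l) n (fun k => Reg (h * i + l + k))
      (B' i)) :
    (∃ tp tq : ℕ → ℕ,
      Win2x355.RW M (χ b') (pe (Eg M Gf.h0 (Lf M (cfg M (χ b)) P₀ N))) none P₀ N n T Reg h l m₀ G
        tp tq ∧
      ∀ i, i < m₀ → RevCx389.q0 M (G i) (χ b') =
        P M (cfg M (χ b')) P₀ (T (h * i + l) + tq i) ∧ tp i < tq i) ∧
      ∀ i, i < m₀ → Ow M (G i) V χ K b' := by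
  have R' := tf_rlw H R
  have X' : ∀ i, i < m₀ → RX M (G i) (χ b') (P M (cfg M (χ b')) P₀ (T (h * i + l)))
      (fun k => T (h * i + l + k) - T (h * i + l)) (n - l) n (fun k => Reg (h * i + l + k))
      (B' i) := fun i hi => H.rx (hLe i hi) (X i hi) (hB i hi)
  refine ⟨?_, fun i hi => (X' i hi).ow hK⟩
  have e := tf_lf H N
  rw [← e] at gen ⊢
  exact rw_ring R'.toRL R'.bl gen (fun i hi => (hLe i hi).h0.symm) hh hn hm hl X'

end Crest.Agent.R143.RdBx389
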