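import Crest.Agent.R143.AnnC_707
import Crest.Agent.R143.RdB_389
import Crest.Agent.R143.Brg_355

/-!
# Row 143 (S0194), block H (helper355): the ring data of all windows at site level

* `rgw` : the regions of a window; `lev`, `le`, `rgw_th`, `geo_rgw` : 707's `Lev`, 389's `Le`, 707's
  `Geo`
* `Rgs` : regions given by predicates on the sites (`rgs_rgw`)
* `SiteR` : hypotheses at site level (ring loop, levels, white circuit, windows, arms, radial chains,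
  separation of the deep sites)
* `SiteR.rx` : 389's `RX` for every window; `SiteR.rd` : 389's `Rd`
* `Sm.rlw` : transport of the ring loop from `cm0` to `rc0`
-/

set_option autoImplicit false

noncomputable section

open scoped Classical

namespace Crest.Agent.R143.RingGx355

open Crest.Agent.R143.B0x346 Crest.Agent.R143.DelGx806 Crest.Agent.R143.DelRx806
open Crest.Agent.R143.ToolWx838 Crest.Agent.R143.Blkx838 Crest.Agent.R143.Circ4x838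
open Crest.Agent.R143.CircPx838
open Crest.Agent.R143.Frame1x395 Crest.Agent.R143.Frame2x395 Crest.Agent.R143.Frame3x395
  Crest.Agent.R143.Frame8x395 Crest.Agent.R143.Frame9x395 Crest.Agent.R143.Frame10x395
  Crest.Agent.R143.Frame11x395
open Crest.Agent.R143.Frame5x395 (sd mem_sd th th_spec)
open Crest.Agent.R143.NonXx592 Crest.Agent.R143.Chord2x355
open Crest.Agent.R143.Exitx707 (Nb nb_symm)
open Crest.Agent.R143.TubeWx707 Crest.Agent.R143.RevCx389 Crest.Agent.R143.RevAx389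
  Crest.Agent.R143.Meetx707 Crest.Agent.R143.Stripx707 Crest.Agent.R143.AnnCx707
  Crest.Agent.R143.RevEx389
open Crest.Agent.R143.RingWx389 (Rad)
open Crest.Agent.R143.SumAx389 (Rd)
open Crest.Agent.R143.RdBx389 (rd_ring)
open Crest.Agent.R143.RWrx355 (RLW)
open Crest.Agent.R143.GiantEx197 (Ek Lf ek_step h0_ek)
open Crest.Agent.R143.Brgx355 (Sm)

variable {S : Finset ℂ} {C : Type} {M : CMap (D0 S) C} {σ : ℂ → C} {hS : GP (S : Set ℂ)}
  {h0 : C} {zB : ℂ} {A0 A1 A2 lo hi : ℝ}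

/-- **the regions of one window** (`Th` = sites of the sector over the window) -/
def rgw (S : Finset ℂ) (σ : ℂ → C) (h0 : C) (zB : ℂ) (A0 A1 A2 : ℝ) (Th : ℂ → Prop)
    (La Lb : ℕ → D0 S) : Rg (D0 S) C where
  h0 := h0
  Far := insert h0 (cel S σ fun s => A2 ≤ sup (s - zB))
  Ann := cel S σ fun s => A1 ≤ sup (s - zB) ∧ sup (s - zB) < A2
  Dw := {c | c ∉ insert h0 (cel S σ fun s => A2 ≤ sup (s - zB)) ∧ c ∉ cel S σ Th}
  Th := cel S σ Th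
  Dp := cel S σ fun s => sup (s - zB) ≤ A0
  La := La
  Lb := Lb

variable {Th : ℂ → Prop} {La Lb La' Lb' : ℕ → D0 S}

theorem lev (hh : ∀ s, OnHull S s → σ s = h0) (hl : ∀ s ∈ S, OnHull S s → A2 ≤ sup (s - zB)) :
    Lev S σ (rgw S σ h0 zB A0 A1 A2 Th La Lb) zB A1 A2 := ⟨hh, rfl, rfl, hl⟩

/-- the full exploration -/
theorem le : Le (rgw S σ h0 zB A0 A1 A2 Th La Lb)
    (rgw S σ h0 zB A0 A1 A2 (fun _ => False) La' Lb') where
  h0 := rfl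
  far := rfl
  ann := rfl
  dw := by
    rintro c ⟨h1, -⟩
    refine ⟨h1, ?_⟩
    rintro ⟨s, -, -, h, -⟩
    exact h

theorem rgw_th : ∀ c, c ∈ (rgw S σ h0 zB A0 A1 A2 Th La Lb).Dw →
    c ∉ (rgw S σ h0 zB A0 A1 A2 Th La Lb).Th := fun _ h => h.2

/-- 707's geometric hypotheses -/
theorem geo_rgw {u z1 : ℂ} {hB d0 l t0 a2 r1 et E c0 : ℝ} {V : Finset ℂ}
    (P : Par hB d0 l t0 a2 r1 et E) (Q : Pos u zB z1 hB d0 l c0) (hV : V ⊆ S)
    (hVi : ∀ s ∈ V, ¬ OnHull S s) :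
    Geo S V σ (rgw S σ h0 zB (hB - t0) A1 (hB + a2) (Sec u zB hB t0 c0 l) La Lb) z1 zB r1
      (hB + a2) (strip u zB hB c0 z1 E et) :=
  geo P Q (Set.subset_insert _ _) subset_rfl subset_rfl hV hVi

/-- regions given by predicates on the sites -/
structure Rgs (S : Finset ℂ) (σ : ℂ → C) (G : Rg (D0 S) C) (zB : ℂ) (A0 A1 A2 : ℝ) (Th : ℂ → Prop) :
    Prop where
  lev : Lev S σ G zB A1 A2
  dw : ∀ s ∈ S, ¬ OnHull S s → sup (s - zB) < A2 → ¬ Th s → σ s ∈ G.Dw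
  th : ∀ c ∈ G.Th, ∃ s ∈ S, ¬ OnHull S s ∧ Th s ∧ σ s = c
  dp : ∀ c ∈ G.Dp, ∃ s ∈ S, ¬ OnHull S s ∧ sup (s - zB) ≤ A0 ∧ σ s = c

theorem rgs_rgw (H : Pl hS M σ) (h3 : 3 ≤ S.card) (hh : ∀ s, OnHull S s → σ s = h0)
    (hl : ∀ s ∈ S, OnHull S s → A2 ≤ sup (s - zB)) :
    Rgs S σ (rgw S σ h0 zB A0 A1 A2 Th La Lb) zB A0 A1 A2 Th where
  lev := lev hh hl
  dw s hs hi h1 h2 := by
    refine ⟨?_, fun h => h2 ((mem_cel H hs hi).1 h)⟩
    rintro (h | h)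
    · exact hi (hull_of_h0 H h3 hh hs h)
    · exact absurd ((mem_cel H hs hi).1 h) (not_le.2 h1)
  th _ h := h
  dp _ h := h

/-! ### cells of inner sites -/

variable {ψ : C → ZMod 2} {P₀ : D0 S} {N n : ℕ} {T : ℕ → ℕ} {Reg : ℕ → Set C}

/-- **the ring at site level** -/
structure SiteR (hS : GP (S : Set ℂ)) (M : CMap (D0 S) C) (σ : ℂ → C) (h0 : C) (zB : ℂ)
    (A0 A1 A2 : ℝ) (ψ : C → ZMod 2) (P₀ : D0 S) (N n : ℕ) (T : ℕ → ℕ) (Reg : ℕ → Set C)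
    (Rk : ℕ → Set ℂ) (h w m₀ : ℕ) (Th : ℕ → ℂ → Prop) (G : ℕ → Rg (D0 S) C) : Prop where
  pl : Pl hS M σ
  h3 : 3 ≤ S.card
  hh : ∀ s, OnHull S s → σ s = h0
  hl : ∀ s ∈ S, OnHull S s → A2 ≤ sup (s - zB)
  a12 : A1 ≤ A2
  rg : ∀ i, i < m₀ → Rgs S σ (G i) zB A0 A1 A2 (Th i)
  eh : ∀ i, i < m₀ → (G i).h0 = h0
  R : RLW M ψ P₀ N n T Reg
  hReg : ∀ k, ∀ c ∈ Reg k, ∃ s ∈ S, s ∈ Rk k ∧ σ s = c
  /-- the tiles are between the levels -/
  rk : ∀ k, ∀ s ∈ Rk k, A0 < sup (s - zB) ∧ sup (s - zB) < A1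
  /-- white circuit -/
  cir : ∃ (lo hi : ℝ) (β : Finset ℂ) (c : List ℂ), CircG S zB lo hi β c ∧ A1 ≤ lo ∧ hi ≤ A2 ∧
    (∀ s ∈ c, s ∈ S) ∧ ∀ s ∈ c, ψ (σ s) = 0
  /-- numbers of the windows -/
  hn : n = h * m₀
  m0 : 0 < m₀
  wn : w + 7 ≤ n
  /-- the tiles off the window miss the sector -/
  off : ∀ i, i < m₀ → ∀ k, k < n - w → ∀ s ∈ Rk (h * i + w + k), ¬ Th i s
  /-- one white arm off the window -/
  arm : ∀ i, i < m₀ → ∃ (v : ℕ → ℂ) (k t : ℕ), v 0 ∈ S ∧ A2 ≤ sup (v 0 - zB) ∧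
    (∀ j, j < k → DE S (v j) (v (j + 1))) ∧
    (∀ j, j ≤ k → A2 ≤ sup (v j - zB) ∨ (ψ (σ (v j)) = 0 ∧ ¬ Th i (v j))) ∧
    T (h * i + w) ≤ t ∧ t ≤ T (h * i + n) ∧
    M.cell (M.rho (P M (cfg M ψ) P₀ t)) = σ (v k)
  /-- the left cells of the ring loop separate the deep sites from the hull -/
  bx : ∀ s ∈ S, sup (s - zB) ≤ A0 → σ s ∉ Ek M h0 (Lf M (cfg M ψ) P₀ N)
  ra : ∀ i, i < m₀ → Rad M (G i) (fun k => Reg (h * i + w + k)) n (fun k => k < 3) (G i).La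
  rb : ∀ i, i < m₀ → Rad M (G i) (fun k => Reg (h * i + w + k)) n
    (fun k => n - w ≤ k + 3 ∧ k < n - w) (G i).Lb

namespace SiteR

variable {Rk : ℕ → Set ℂ} {h w m₀ : ℕ} {Th : ℕ → ℂ → Prop} {G : ℕ → Rg (D0 S) C}
  (H : SiteR hS M σ h0 zB A0 A1 A2 ψ P₀ N n T Reg Rk h w m₀ Th G)
include H

/-- a site below the outer level is inner -/
theorem inn {s : ℂ} (hs : s ∈ S) (h : sup (s - zB) < A2) : ¬ OnHull S s := fun h' =>
  absurd (H.hl s hs h') (not_le.2 h)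

theorem reg {k : ℕ} {c : C} (hc : c ∈ Reg k) : ∃ s ∈ S, ¬ OnHull S s ∧ s ∈ Rk k ∧ σ s = c := by
  obtain ⟨s, h1, h2, h3⟩ := H.hReg k c hc
  exact ⟨s, h1, H.inn h1 ((H.rk k s h2).2.trans_le H.a12), h2, h3⟩

theorem not_far {i : ℕ} (hi : i < m₀) {s : ℂ} (hs : s ∈ S) (h : sup (s - zB) < A2) :
    σ s ∉ (G i).Far := by
  have hin := H.inn hs h
  rw [(H.rg i hi).lev.far]
  rintro (h1 | h1)
  · exact hin (hull_of_h0 H.pl H.h3 (H.rg i hi).lev.h0 hs h1)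
  · exact absurd ((mem_cel H.pl hs hin).1 h1) (not_le.2 h)

/-- the cells of the tiles -/
theorem reg_off {i : ℕ} (hi : i < m₀) {k : ℕ} {c : C} (hc : c ∈ Reg k) :
    c ∉ (G i).Far ∧ c ∉ (G i).Ann ∧ c ∉ (G i).Dp := by
  obtain ⟨s, h1, h2, h3, rfl⟩ := H.reg hc
  have h4 := H.rk k s h3
  refine ⟨H.not_far hi h1 (h4.2.trans_le H.a12), fun h => ?_, fun h => ?_⟩
  · rw [(H.rg i hi).lev.ann] at h
    exact absurd ((mem_cel H.pl h1 h2).1 h).1 (not_le.2 h4.2)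
  · obtain ⟨s', h5, h6, h7, e⟩ := (H.rg i hi).dp _ h
    have e' := H.pl.inj s s' h1 h5 h6 e
    rw [← e'] at h7
    exact absurd h7 (not_le.2 h4.1)

theorem x1 {i : ℕ} (hi : i < m₀) : ∀ a ∈ Xs M (G i) ψ, ∀ c, Nb M a c →
    c ∈ (G i).Far ∨ c ∈ (G i).Ann := by
  obtain ⟨lo, hi', β, c0, hc, hlo, hhi, hcS, hψ⟩ := H.cir
  have L := (H.rg i hi).lev
  have wx := L.wx_of H.pl H.h3 hc hlo hhi (W0 := {y | ∃ s ∈ c0, σ s = y})
    fun s hs => ⟨s, hs, rfl⟩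
  have w0 := L.w0_of H.pl H.h3 hc hlo hhi hcS hψ
  intro a ha c hac
  by_contra hcc
  push Not at hcc
  apply wx c hcc.1 hcc.2
  have h1 : Relation.ReflTransGen (fun a a' => Nb M a a' ∧ a' ∉ {y | ∃ s ∈ c0, σ s = y})
      (G i).h0 a := by
    refine xs_ind (Q := fun a => Relation.ReflTransGen
      (fun a a' => Nb M a a' ∧ a' ∉ {y | ∃ s ∈ c0, σ s = y}) _ a)
      Relation.ReflTransGen.refl ?_ a ha
    intro a c _ ih h2 h3
    refine ih.tail ⟨h2, fun h4 => ?_⟩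
    obtain ⟨h5, h6, h7⟩ := w0 c h4
    rcases h3 with h3 | ⟨-, h3⟩
    · exact h6 h3
    · rw [h7] at h3; exact absurd h3 (by decide)
  exact h1.tail ⟨hac, fun h4 => hcc.2 (w0 c h4).1⟩

/-- the left cells of the ring loop -/
theorem mem_lf (t : ℕ) : M.cell (P M (cfg M ψ) P₀ t) ∈ Lf M (cfg M ψ) P₀ N :=
  RWix355.lc_lf H.R.L t

theorem tile (t : ℕ) : ∃ k, M.cell (P M (cfg M ψ) P₀ t) ∈ Reg k ∧
    M.cell (M.rho (P M (cfg M ψ) P₀ t)) ∈ Reg k := by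
  obtain ⟨k, h1, h2⟩ := H.R.toRL.tile t
  exact ⟨k, H.R.tile2 k t h1 h2.le⟩

theorem bx' {s : ℂ} (h1 : s ∈ S) (h3 : sup (s - zB) ≤ A0) :
    ¬ Relation.ReflTransGen (fun a a' => Nb M a a' ∧
      a' ∉ {c | ∃ t, c = M.cell (P M (cfg M ψ) P₀ t)}) (σ s) h0 := by
  intro h
  refine H.bx s h1 h3 ?_
  have key : ∀ a b : C, Relation.ReflTransGen (fun a a' => Nb M a a' ∧
      a' ∉ {c | ∃ t, c = M.cell (P M (cfg M ψ) P₀ t)}) a b → b = h0 →
      a ∉ Lf M (cfg M ψ) P₀ N → a ∈ Ek M h0 (Lf M (cfg M ψ) P₀ N) := by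
    intro a b hab
    induction hab using Relation.ReflTransGen.head_induction_on with
    | refl => rintro rfl _; exact h0_ek
    | @head a c h4 _ ih =>
      intro e ha
      refine ek_step (ih e fun h5 => ?_) (nb_symm h4.1) ha
      obtain ⟨j, -, e5⟩ := h5
      exact h4.2 ⟨j, e5.symm⟩
  refine key _ _ h rfl ?_
  rintro ⟨j, -, e⟩
  obtain ⟨k, h4, -⟩ := H.tile j
  rw [e] at h4
  obtain ⟨s', h5, h6, h7, e'⟩ := H.reg h4
  have e2 := H.pl.inj s s' h1 h5 h6 e'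
  rw [← e2] at h7
  exact absurd h3 (not_le.2 (H.rk k s h7).1)

/-- **389's `RX` for every window** -/
theorem rx [Fintype (D0 S)] {i : ℕ} (hi : i < m₀) :
    RingWx389.RX M (G i) ψ
      (P M (cfg M ψ) P₀ (T (h * i + w))) (fun k => T (h * i + w + k) - T (h * i + w)) (n - w) n
      (fun k => Reg (h * i + w + k)) {c | ∃ t, c = M.cell (P M (cfg M ψ) P₀ t)} := by
  have hwn := H.wn
  have L := (H.rg i hi).lev
  have hin : ∀ k, k < n - w → ∀ c ∈ Reg (h * i + w + k),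
      c ∈ (G i).Dw ∧ c ∉ (G i).Th ∧ c ∉ (G i).Dp := by
    intro k hk c hc
    have h5 := (H.reg_off hi hc).2.2
    obtain ⟨s, h1, h2, h3, rfl⟩ := H.reg hc
    have h6 := H.off i hi k hk s h3
    refine ⟨(H.rg i hi).dw s h1 h2 ((H.rk _ s h3).2.trans_le H.a12) h6, fun h => ?_, h5⟩
    obtain ⟨s', h7, h8, h9, e⟩ := (H.rg i hi).th _ h
    exact h6 (H.pl.inj s s' h1 h7 h8 e ▸ h9)
  have hb1 : ∀ c ∈ {c | ∃ t, c = M.cell (P M (cfg M ψ) P₀ t)},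
      c ∉ (G i).Far ∧ c ∉ (G i).Ann ∧ c ∉ (G i).Dp ∧ ψ c = 1 ∧
      Con M (cfg M ψ) (M.cell (P M (cfg M ψ) P₀ (T (h * i + w)))) c := by
    rintro c ⟨t, rfl⟩
    obtain ⟨k, h1, -⟩ := H.tile t
    obtain ⟨h2, h3, h4⟩ := H.reg_off hi h1
    refine ⟨h2, h3, h4, RWrx355.left_one H.R t, ?_⟩
    exact Relation.EqvGen.trans _ _ _
      (Relation.EqvGen.symm _ _ (con_left (cfg_isC ψ) H.R.L.occ _))
      (con_left (cfg_isC ψ) H.R.L.occ t)
  refine H.R.rx (by omega) (by omega)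
    (fun k c hc => ⟨(H.reg_off hi hc).1, (H.reg_off hi hc).2.1⟩) hin L.h0_far (L.far_of H.pl H.h3)
    (H.x1 hi) hb1 (fun c hc => ?_) (H.ra i hi) (H.rb i hi) ?_
  · obtain ⟨s, h1, -, h3, rfl⟩ := (H.rg i hi).dp c hc
    rw [H.eh i hi]
    exact H.bx' h1 h3
  -- the arm
  obtain ⟨v, k, t, v0S, v0, vs, vc, t1, t2, e⟩ := H.arm i hi
  refine ⟨t, t1, ?_, ?_⟩
  · rw [show h * i + w + (n - w) = h * i + n by omega]
    exact t2
  have vS : ∀ j, j ≤ k → v j ∈ S := by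
    intro j hj
    cases j with
    | zero => exact v0S
    | succ j =>
      rcases vs j (by omega) with ⟨c, hc⟩ | ⟨c, hc⟩
      · exact (mem_delT.1 hc).2.1
      · exact (mem_delT.1 hc).1
  have hdw : ∀ j, j ≤ k → σ (v j) ∈ (G i).Far ∨ (σ (v j) ∈ (G i).Dw ∧ ψ (σ (v j)) = 0) := by
    intro j hj
    rcases le_or_gt A2 (sup (v j - zB)) with h1 | h1
    · exact Or.inl (L.far_mem (vS j hj) h1)
    · rcases vc j hj with h2 | ⟨h2, h3⟩
      · exact absurd h1 (not_lt.2 h2)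
      · exact Or.inr ⟨(H.rg i hi).dw _ (vS j hj) (H.inn (vS j hj) h1) h1 h3, h2⟩
  have hxs : ∀ c ∈ (G i).Far, c ∈ Xs M (G i) ψ := by
    intro c hc
    have h := L.far_of H.pl H.h3 c hc
    clear hc
    induction h with
    | refl => exact h0_xs
    | tail _ h1 ih => exact xs_far ih h1.1 h1.2
  have key : ∀ j, j ≤ k → σ (v j) ∈ Xs M (G i) ψ ∨ σ (v j) ∈ Cw M (G i) ψ := by
    intro j
    induction j with
    | zero => exact fun _ => Or.inl (hxs _ (L.far_mem v0S v0))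
    | succ j ih =>
      intro hj
      by_cases hx : σ (v (j + 1)) ∈ Xs M (G i) ψ
      · exact Or.inl hx
      · right
        have hnb : Nb M (σ (v j)) (σ (v (j + 1))) := H.pl.nb (vs j (by omega))
        rcases ih (by omega) with h6 | h6
        · rcases H.x1 hi _ h6 _ hnb with h7 | h7
          · exact absurd (hxs _ h7) hx
          · rcases z01 (ψ (σ (v (j + 1)))) with h8 | h8
            · exact seed_cl ⟨h7, h8, _, h6, hnb⟩
            · exact absurd (xs_ann h6 hnb h7 h8) hx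
        · rcases hdw (j + 1) hj with h7 | ⟨h7, h8⟩
          · exact absurd (hxs _ h7) hx
          · exact cl_step h6 hnb h7 h8
  rw [e]
  rcases key k le_rfl with h6 | h6
  · obtain ⟨kk, -, h7⟩ := H.tile t
    rw [e] at h7
    obtain ⟨h8, h9, -⟩ := H.reg_off hi h7
    rcases RingWx389.xs_sub L.h0_far h6 with h10 | h10
    · exact absurd h10 h8
    · exact absurd h10.1 h9
  · exact h6

/-- the tiles are in the domain of the full exploration -/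
theorem reg_dw {Gf : Rg (D0 S) C} (hf : Rgs S σ Gf zB A0 A1 A2 fun _ => False) :
    ∀ k, ∀ c ∈ Reg k, c ∈ Gf.Dw := by
  intro k c hc
  obtain ⟨s, h1, h2, h3, rfl⟩ := H.reg hc
  exact hf.dw s h1 h2 ((H.rk _ s h3).2.trans_le H.a12) fun h => h

/-- **389's `Rd`** -/
theorem rd [Fintype (D0 S)] {Gf : Rg (D0 S) C} (hf : Rgs S σ Gf zB A0 A1 A2 fun _ => False)
    (hLe : ∀ i, i < m₀ → Le (G i) Gf) : Rd M Gf G m₀ ψ P₀ :=
  rd_ring H.R H.m0 hLe (H.reg_dw hf) (B' := fun _ => {c | ∃ t, c = M.cell (P M (cfg M ψ) P₀ t)})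
    (fun _ _ _ hc => hc) fun _ hi => H.rx hi

end SiteR

/-- **transport of the ring loop** -/
theorem rlw_of {D C₁ C₂ : Type} {M₁ : CMap D C₁} {M₂ : CMap D C₂} {f : C₁ → C₂}
    (H : Sm M₁ M₂ f) {ψ : C₂ → ZMod 2} {P₀ : D} {N n : ℕ} {T : ℕ → ℕ} {Reg : ℕ → Set C₂}
    (R : RLW M₂ ψ P₀ N n T Reg) :
    RLW M₁ (fun c => ψ (f c)) P₀ N n T (fun k => f ⁻¹' Reg k) where
  toRL := by
    have h := H.rl R.toRL
    rwa [H.cfg] at h
  bl := by
    have h := R.bl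
    rwa [H.cell] at h
  tile2 k t h1 h2 := by
    have h := R.tile2 k t h1 h2
    rw [H.rho, H.cell, H.cell, H.cfg, H.P] at h
    exact h

end Crest.Agent.R143.RingGx355
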