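import Crest.Agent.R143.Prod_609
import Crest.Agent.R143.B0_346

/-!
# Row 143 (S0194): `FinMeas` by combinatorial type (helper609)

* `ps X` : sites of the coloured configuration `X`
* `PIso U R X X' e` : `e` is a bijection of the sites of `X` onto the sites of `X'` which preserves
  the colours, the location (membership in the sets `U a`), the Delaunay triangles and the ternary
  relations `R a`
* `fme_iso` : `F X = F X'` for all `PIso` pairs of finite configurations (`U`, `R` finitely many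
  Borel sets) implies that `F` is measurable in the points (`FMe`, `FinMeas` for `Prop`)
* `meas3` : the marked version (properties of a triple of sites)
* `fme_sum` : sums over the triples of sites with such a property of a measurable weight
* `del_meas` : `Del` is measurable; `cen3` : explicit circumcentre
-/

set_option autoImplicit false
set_option linter.unusedSectionVars false

noncomputable section

open scoped Classical

namespace Crest.Agent.R143.FinMx609

open MeasureTheory Set Filter Topology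
open Crest.ProbabilityR.Voronoi
open Crest.Agent.R143.PP0x831 Crest.Agent.R143.Poisx304 Crest.Agent.R143.Janx304
open Crest.Agent.R143.Prodx609 Crest.Agent.R143.B0x346
open scoped ENNReal Nat

/-! ### the circumcentre -/

/-- explicit circumcentre -/
def cen3 (t : ℂ × ℂ × ℂ) : ℂ :=
  t.1 + Complex.I * (((‖t.2.2 - t.1‖ ^ 2 : ℝ) : ℂ) * (t.2.1 - t.1) -
    ((‖t.2.1 - t.1‖ ^ 2 : ℝ) : ℂ) * (t.2.2 - t.1)) /
    ((2 * cr (t.2.1 - t.1) (t.2.2 - t.1) : ℝ) : ℂ)

theorem meas_cr {X : Type*} [MeasurableSpace X] {f g : X → ℂ} (hf : Measurable f)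
    (hg : Measurable g) : Measurable fun x => cr (f x) (g x) := by
  unfold cr
  fun_prop

theorem meas_cen3 : Measurable cen3 := by
  have h1 : Measurable fun t : ℂ × ℂ × ℂ => cr (t.2.1 - t.1) (t.2.2 - t.1) :=
    meas_cr (by fun_prop) (by fun_prop)
  have h2 : Measurable fun t : ℂ × ℂ × ℂ =>
      ((2 * cr (t.2.1 - t.1) (t.2.2 - t.1) : ℝ) : ℂ) :=
    Complex.measurable_ofReal.comp (h1.const_mul 2)
  have h3 : Measurable fun t : ℂ × ℂ × ℂ =>
      Complex.I * (((‖t.2.2 - t.1‖ ^ 2 : ℝ) : ℂ) * (t.2.1 - t.1) -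
        ((‖t.2.1 - t.1‖ ^ 2 : ℝ) : ℂ) * (t.2.2 - t.1)) := by fun_prop
  exact measurable_fst.add (h3.div h2)

theorem norm_sq_sub (z w : ℂ) : ‖z - w‖ ^ 2 = (z.re - w.re) ^ 2 + (z.im - w.im) ^ 2 := by
  rw [← Complex.normSq_eq_norm_sq, Complex.normSq_apply, Complex.sub_re, Complex.sub_im]
  ring

/-- two linear equations -/
theorem eq_norm_iff (b a o : ℂ) : ‖b - o‖ = ‖a - o‖ ↔
    2 * ((o.re - a.re) * (b.re - a.re) + (o.im - a.im) * (b.im - a.im)) =
      (b.re - a.re) ^ 2 + (b.im - a.im) ^ 2 := by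
  rw [← sq_eq_sq₀ (norm_nonneg _) (norm_nonneg _), norm_sq_sub, norm_sq_sub]
  constructor <;> intro h <;> nlinarith

theorem cen3_re (t : ℂ × ℂ × ℂ) : (cen3 t).re = t.1.re +
    (‖t.2.1 - t.1‖ ^ 2 * (t.2.2 - t.1).im - ‖t.2.2 - t.1‖ ^ 2 * (t.2.1 - t.1).im) /
      (2 * cr (t.2.1 - t.1) (t.2.2 - t.1)) := by
  unfold cen3
  rw [Complex.add_re, Complex.div_ofReal_re]
  congr 2
  simp only [Complex.mul_re, Complex.I_re, Complex.I_im, Complex.sub_im, Complex.mul_im,
    Complex.ofReal_re, Complex.ofReal_im]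
  ring

theorem cen3_im (t : ℂ × ℂ × ℂ) : (cen3 t).im = t.1.im +
    (‖t.2.2 - t.1‖ ^ 2 * (t.2.1 - t.1).re - ‖t.2.1 - t.1‖ ^ 2 * (t.2.2 - t.1).re) /
      (2 * cr (t.2.1 - t.1) (t.2.2 - t.1)) := by
  unfold cen3
  rw [Complex.add_im, Complex.div_ofReal_im]
  congr 2
  simp only [Complex.mul_re, Complex.I_re, Complex.I_im, Complex.sub_re, Complex.mul_im,
    Complex.ofReal_re, Complex.ofReal_im, Complex.sub_im]
  ring

theorem cen3_iff {a b c o : ℂ} (h : 0 < cr (b - a) (c - a)) :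
    (‖b - o‖ = ‖a - o‖ ∧ ‖c - o‖ = ‖a - o‖) ↔ o = cen3 (a, b, c) := by
  have hD : (2 * cr (b - a) (c - a)) ≠ 0 := by positivity
  rw [eq_norm_iff, eq_norm_iff]
  have hre := cen3_re (a, b, c)
  have him := cen3_im (a, b, c)
  simp only at hre him
  rw [norm_sq_sub, norm_sq_sub, Complex.sub_im, Complex.sub_im] at hre
  rw [norm_sq_sub, norm_sq_sub, Complex.sub_re, Complex.sub_re] at him
  have hcr : cr (b - a) (c - a) =
      (b.re - a.re) * (c.im - a.im) - (b.im - a.im) * (c.re - a.re) := by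
    unfold cr
    simp only [Complex.sub_re, Complex.sub_im]
  constructor
  · rintro ⟨h1, h2⟩
    apply Complex.ext
    · rw [hre, ← sub_eq_iff_eq_add', eq_div_iff hD, hcr]
      linear_combination (c.im - a.im) * h1 - (b.im - a.im) * h2
    · rw [him, ← sub_eq_iff_eq_add', eq_div_iff hD, hcr]
      linear_combination (b.re - a.re) * h2 - (c.re - a.re) * h1
  · rintro rfl
    have e1 : ((cen3 (a, b, c)).re - a.re) * (2 * cr (b - a) (c - a)) =
        ((b.re - a.re) ^ 2 + (b.im - a.im) ^ 2) * (c.im - a.im) -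
          ((c.re - a.re) ^ 2 + (c.im - a.im) ^ 2) * (b.im - a.im) := by
      rw [hre, add_sub_cancel_left, div_mul_cancel₀ _ hD]
    have e2 : ((cen3 (a, b, c)).im - a.im) * (2 * cr (b - a) (c - a)) =
        ((c.re - a.re) ^ 2 + (c.im - a.im) ^ 2) * (b.re - a.re) -
          ((b.re - a.re) ^ 2 + (b.im - a.im) ^ 2) * (c.re - a.re) := by
      rw [him, add_sub_cancel_left, div_mul_cancel₀ _ hD]
    constructor
    · apply mul_right_cancel₀ hD
      calc _ = 2 * ((((cen3 (a, b, c)).re - a.re) * (2 * cr (b - a) (c - a))) * (b.re - a.re) +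
            (((cen3 (a, b, c)).im - a.im) * (2 * cr (b - a) (c - a))) * (b.im - a.im)) := by ring
        _ = _ := by rw [e1, e2, hcr]; ring
    · apply mul_right_cancel₀ hD
      calc _ = 2 * ((((cen3 (a, b, c)).re - a.re) * (2 * cr (b - a) (c - a))) * (c.re - a.re) +
            (((cen3 (a, b, c)).im - a.im) * (2 * cr (b - a) (c - a))) * (c.im - a.im)) := by ring
        _ = _ := by rw [e1, e2, hcr]; ring

/-- `Del` without the existential -/
theorem del_iff {S : Set ℂ} {a b c : ℂ} : Del S a b c ↔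
    a ∈ S ∧ b ∈ S ∧ c ∈ S ∧ 0 < cr (b - a) (c - a) ∧
      ∀ s ∈ S, ‖a - cen3 (a, b, c)‖ ≤ ‖s - cen3 (a, b, c)‖ := by
  unfold Del
  constructor
  · rintro ⟨ha, hb, hc, h, o, h1, h2, h3⟩
    obtain rfl := (cen3_iff h).1 ⟨h1, h2⟩
    exact ⟨ha, hb, hc, h, h3⟩
  · rintro ⟨ha, hb, hc, h, h3⟩
    obtain ⟨h1, h2⟩ := (cen3_iff h).2 rfl
    exact ⟨ha, hb, hc, h, _, h1, h2, h3⟩

/-! ### configurations -/

/-- the sites -/
def ps (X : Set (ℂ × Bool)) : Set ℂ := Prod.fst '' X

theorem mem_ps_range {n : ℕ} {z : Fin n → ℂ × Bool} {x : ℂ} :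
    x ∈ ps (range z) ↔ ∃ i, (z i).1 = x := by
  simp [ps]

theorem meas_pos (n : ℕ) (i : Fin n) : Measurable fun z : Fin n → ℂ × Bool => (z i).1 :=
  measurable_fst.comp (measurable_pi_apply i)

theorem meas_tri (n : ℕ) (i j k : Fin n) :
    Measurable fun z : Fin n → ℂ × Bool => ((z i).1, (z j).1, (z k).1) :=
  (meas_pos n i).prodMk ((meas_pos n j).prodMk (meas_pos n k))

/-- `Del` is measurable -/
theorem del_meas (n : ℕ) (i j k : Fin n) :
    MeasurableSet {z : Fin n → ℂ × Bool | Del (ps (range z)) (z i).1 (z j).1 (z k).1} := by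
  have e : {z : Fin n → ℂ × Bool | Del (ps (range z)) (z i).1 (z j).1 (z k).1} =
      {z | 0 < cr ((z j).1 - (z i).1) ((z k).1 - (z i).1)} ∩
        ⋂ l : Fin n, {z | ‖(z i).1 - cen3 ((z i).1, (z j).1, (z k).1)‖ ≤
          ‖(z l).1 - cen3 ((z i).1, (z j).1, (z k).1)‖} := by
    ext z
    simp only [mem_ofPred_eq, del_iff, mem_inter_iff, mem_iInter, mem_ps_range]
    constructor
    · rintro ⟨-, -, -, h, h'⟩
      exact ⟨h, fun l => h' _ ⟨l, rfl⟩⟩
    · rintro ⟨h, h'⟩
      refine ⟨⟨i, rfl⟩, ⟨j, rfl⟩, ⟨k, rfl⟩, h, ?_⟩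
      rintro s ⟨l, rfl⟩
      exact h' l
  rw [e]
  have hc : Measurable fun z : Fin n → ℂ × Bool => cen3 ((z i).1, (z j).1, (z k).1) :=
    meas_cen3.comp (meas_tri n i j k)
  refine (measurableSet_lt measurable_const (meas_cr ((meas_pos n j).sub (meas_pos n i))
    ((meas_pos n k).sub (meas_pos n i)))).inter (MeasurableSet.iInter fun l => ?_)
  exact measurableSet_le ((meas_pos n i).sub hc).norm ((meas_pos n l).sub hc).norm

/-- `Del` of the sites in a Borel set is measurable -/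
theorem del_measU {W : Set ℂ} (hW : MeasurableSet W) (n : ℕ) (i j k : Fin n) :
    MeasurableSet {z : Fin n → ℂ × Bool |
      Del (ps (range z) ∩ W) (z i).1 (z j).1 (z k).1} := by
  have e : {z : Fin n → ℂ × Bool | Del (ps (range z) ∩ W) (z i).1 (z j).1 (z k).1} =
      (({z | (z i).1 ∈ W} ∩ {z | (z j).1 ∈ W}) ∩ {z | (z k).1 ∈ W}) ∩
      ({z | 0 < cr ((z j).1 - (z i).1) ((z k).1 - (z i).1)} ∩
        ⋂ l : Fin n, ({z | (z l).1 ∈ W}ᶜ ∪ {z | ‖(z i).1 - cen3 ((z i).1, (z j).1, (z k).1)‖ ≤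
          ‖(z l).1 - cen3 ((z i).1, (z j).1, (z k).1)‖})) := by
    ext z
    simp only [mem_ofPred_eq, del_iff, mem_inter_iff, mem_iInter, mem_ps_range, mem_union,
      mem_compl_iff]
    constructor
    · rintro ⟨⟨-, h1⟩, ⟨-, h2⟩, ⟨-, h3⟩, h, h'⟩
      refine ⟨⟨⟨h1, h2⟩, h3⟩, h, fun l => ?_⟩
      by_cases hl : (z l).1 ∈ W
      · exact Or.inr (h' _ ⟨⟨l, rfl⟩, hl⟩)
      · exact Or.inl hl
    · rintro ⟨⟨⟨h1, h2⟩, h3⟩, h, h'⟩
      refine ⟨⟨⟨i, rfl⟩, h1⟩, ⟨⟨j, rfl⟩, h2⟩, ⟨⟨k, rfl⟩, h3⟩, h, ?_⟩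
      rintro s ⟨⟨l, rfl⟩, hs⟩
      rcases h' l with h4 | h4
      · exact absurd hs h4
      · exact h4
  rw [e]
  have hc : Measurable fun z : Fin n → ℂ × Bool => cen3 ((z i).1, (z j).1, (z k).1) :=
    meas_cen3.comp (meas_tri n i j k)
  refine ((((meas_pos n i) hW).inter ((meas_pos n j) hW)).inter ((meas_pos n k) hW)).inter
    ((measurableSet_lt measurable_const (meas_cr ((meas_pos n j).sub (meas_pos n i))
    ((meas_pos n k).sub (meas_pos n i)))).inter (MeasurableSet.iInter fun l =>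
      ((meas_pos n l) hW).compl.union ?_))
  exact measurableSet_le ((meas_pos n i).sub hc).norm ((meas_pos n l).sub hc).norm

/-! ### combinatorial type -/

section type

variable {ι κ : Type*} [Finite ι] [Finite κ] (U : ι → Set ℂ) (R : κ → ℂ × ℂ × ℂ → Prop)

/-- isomorphism of coloured configurations -/
structure PIso (X X' : Set (ℂ × Bool)) (e : ℂ → ℂ) : Prop where
  bij : BijOn e (ps X) (ps X')
  col : ∀ x ∈ ps X, ∀ b : Bool, (x, b) ∈ X ↔ (e x, b) ∈ X'
  loc : ∀ x ∈ ps X, ∀ a, x ∈ U a ↔ e x ∈ U a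
  del : ∀ x ∈ ps X, ∀ y ∈ ps X, ∀ w ∈ ps X, Del (ps X) x y w ↔ Del (ps X') (e x) (e y) (e w)
  delU : ∀ x ∈ ps X, ∀ y ∈ ps X, ∀ w ∈ ps X, ∀ a,
    Del (ps X ∩ U a) x y w ↔ Del (ps X' ∩ U a) (e x) (e y) (e w)
  rel : ∀ x ∈ ps X, ∀ y ∈ ps X, ∀ w ∈ ps X, ∀ a, R a (x, y, w) ↔ R a (e x, e y, e w)

/-- the combinatorial type of a list of points -/
abbrev Ty (ι κ : Type*) (n : ℕ) : Type _ :=
  (Fin n → Fin n → Prop) × (Fin n → Bool) × (Fin n → ι → Prop) ×
    (Fin n → Fin n → Fin n → Prop) × (Fin n → Fin n → Fin n → κ → Prop) ×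
    (Fin n → Fin n → Fin n → ι → Prop)

def ty {n : ℕ} (z : Fin n → ℂ × Bool) : Ty ι κ n :=
  (fun i j => (z i).1 = (z j).1, fun i => (z i).2, fun i a => (z i).1 ∈ U a,
    fun i j k => Del (ps (range z)) (z i).1 (z j).1 (z k).1,
    fun i j k a => R a ((z i).1, (z j).1, (z k).1),
    fun i j k a => Del (ps (range z) ∩ U a) (z i).1 (z j).1 (z k).1)

variable {U R}

theorem ty_meas (hU : ∀ a, MeasurableSet (U a)) (hR : ∀ a, MeasurableSet {t | R a t}) {n : ℕ}
    (t : Ty ι κ n) : MeasurableSet {z : Fin n → ℂ × Bool | ty U R z = t} := by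
  obtain ⟨t1, t2, t3, t4, t5, t6⟩ := t
  have e : {z : Fin n → ℂ × Bool | ty U R z = (t1, t2, t3, t4, t5, t6)} =
      (⋂ i, ⋂ j, {z | ((z i).1 = (z j).1) = t1 i j}) ∩ (⋂ i, {z | (z i).2 = t2 i}) ∩
      (⋂ i, ⋂ a, {z | ((z i).1 ∈ U a) = t3 i a}) ∩
      (⋂ i, ⋂ j, ⋂ k, {z | Del (ps (range z)) (z i).1 (z j).1 (z k).1 = t4 i j k}) ∩
      (⋂ i, ⋂ j, ⋂ k, ⋂ a, {z | R a ((z i).1, (z j).1, (z k).1) = t5 i j k a}) ∩
      (⋂ i, ⋂ j, ⋂ k, ⋂ a,
        {z | Del (ps (range z) ∩ U a) (z i).1 (z j).1 (z k).1 = t6 i j k a}) := by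
    ext z
    simp only [mem_ofPred_eq, ty, Prod.mk.injEq, funext_iff, mem_inter_iff, mem_iInter, and_assoc]
  have key : ∀ (s : Set (Fin n → ℂ × Bool)) (p : Prop), MeasurableSet s →
      MeasurableSet {z | (z ∈ s) = p} := by
    intro s p hs
    by_cases hp : p
    · have : {z | (z ∈ s) = p} = s := by ext z; simp [hp]
      rwa [this]
    · have : {z | (z ∈ s) = p} = sᶜ := by ext z; simp [hp]
      rw [this]; exact hs.compl
  have := Fintype.ofFinite ι
  have := Fintype.ofFinite κ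
  rw [e]
  refine (((((MeasurableSet.iInter fun i => MeasurableSet.iInter fun j => ?_).inter
    (MeasurableSet.iInter fun i => ?_)).inter
    (MeasurableSet.iInter fun i => MeasurableSet.iInter fun a => ?_)).inter
    (MeasurableSet.iInter fun i => MeasurableSet.iInter fun j => MeasurableSet.iInter fun k =>
      ?_)).inter
    (MeasurableSet.iInter fun i => MeasurableSet.iInter fun j => MeasurableSet.iInter fun k =>
      MeasurableSet.iInter fun a => ?_)).inter
    (MeasurableSet.iInter fun i => MeasurableSet.iInter fun j => MeasurableSet.iInter fun k =>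
      MeasurableSet.iInter fun a => ?_)
  · exact key {z | (z i).1 = (z j).1} _ (measurableSet_eq_fun (meas_pos n i) (meas_pos n j))
  · exact (measurable_snd.comp (measurable_pi_apply i)) (measurableSet_singleton (t2 i))
  · exact key {z | (z i).1 ∈ U a} _ (meas_pos n i (hU a))
  · exact key {z | Del (ps (range z)) (z i).1 (z j).1 (z k).1} _ (del_meas n i j k)
  · exact key {z | R a ((z i).1, (z j).1, (z k).1)} _ (meas_tri n i j k (hR a))
  · exact key {z | Del (ps (range z) ∩ U a) (z i).1 (z j).1 (z k).1} _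
      (del_measU (hU a) n i j k)

/-- the same type gives an isomorphism -/
theorem piso_of_ty {n : ℕ} {z z' : Fin n → ℂ × Bool} (h : ty U R z = ty U R z') :
    ∃ e : ℂ → ℂ, PIso U R (range z) (range z') e ∧ ∀ i, e (z i).1 = (z' i).1 := by
  simp only [ty, Prod.mk.injEq, funext_iff] at h
  obtain ⟨h1, h2, h3, h4, h5, h6⟩ := h
  let e : ℂ → ℂ := fun x => if hx : ∃ i, (z i).1 = x then (z' hx.choose).1 else 0
  have he : ∀ i, e (z i).1 = (z' i).1 := by
    intro i
    have hx : ∃ j, (z j).1 = (z i).1 := ⟨i, rfl⟩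
    simp only [e, dif_pos hx]
    rw [← h1]
    exact hx.choose_spec
  refine ⟨e, ⟨⟨?_, ?_, ?_⟩, ?_, ?_, ?_, ?_, ?_⟩, he⟩
  · intro x hx
    obtain ⟨i, rfl⟩ := mem_ps_range.1 hx
    rw [he]
    exact mem_ps_range.2 ⟨i, rfl⟩
  · intro x hx y hy hxy
    obtain ⟨i, rfl⟩ := mem_ps_range.1 hx
    obtain ⟨j, rfl⟩ := mem_ps_range.1 hy
    rw [he, he, ← h1] at hxy
    exact hxy
  · intro x hx
    obtain ⟨i, rfl⟩ := mem_ps_range.1 hx
    exact ⟨(z i).1, mem_ps_range.2 ⟨i, rfl⟩, he i⟩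
  · intro x hx b
    obtain ⟨i, rfl⟩ := mem_ps_range.1 hx
    rw [he]
    constructor
    · rintro ⟨j, hj⟩
      have hj1 : (z j).1 = (z i).1 := by rw [hj]
      have hj2 : (z j).2 = b := by rw [hj]
      refine ⟨j, Prod.ext ?_ ?_⟩
      · rw [h1] at hj1; exact hj1
      · rw [← h2]; exact hj2
    · rintro ⟨j, hj⟩
      have hj1 : (z' j).1 = (z' i).1 := by rw [hj]
      have hj2 : (z' j).2 = b := by rw [hj]
      refine ⟨j, Prod.ext ?_ ?_⟩
      · rw [← h1] at hj1; exact hj1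
      · rw [h2]; exact hj2
  · intro x hx a
    obtain ⟨i, rfl⟩ := mem_ps_range.1 hx
    rw [he, h3]
  · intro x hx y hy w hw
    obtain ⟨i, rfl⟩ := mem_ps_range.1 hx
    obtain ⟨j, rfl⟩ := mem_ps_range.1 hy
    obtain ⟨k, rfl⟩ := mem_ps_range.1 hw
    rw [he, he, he, h4]
  · intro x hx y hy w hw a
    obtain ⟨i, rfl⟩ := mem_ps_range.1 hx
    obtain ⟨j, rfl⟩ := mem_ps_range.1 hy
    obtain ⟨k, rfl⟩ := mem_ps_range.1 hw
    rw [he, he, he, h6]
  · intro x hx y hy w hw a
    obtain ⟨i, rfl⟩ := mem_ps_range.1 hx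
    obtain ⟨j, rfl⟩ := mem_ps_range.1 hy
    obtain ⟨k, rfl⟩ := mem_ps_range.1 hw
    rw [he, he, he, h5]

/-- **marked criterion**, any codomain: a function of the configuration and of finitely many of
its sites -/
theorem meas_mark (hU : ∀ a, MeasurableSet (U a)) (hR : ∀ a, MeasurableSet {t | R a t})
    {C : Type*} [MeasurableSpace C] {μ : Type*} {F : Set (ℂ × Bool) → (μ → ℂ) → C}
    (h : ∀ X X' : Set (ℂ × Bool), X.Finite → X'.Finite → ∀ e, PIso U R X X' e →
      ∀ v : μ → ℂ, (∀ a, v a ∈ ps X) → F X v = F X' (e ∘ v)) (n : ℕ) (i : μ → Fin n) :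
    Measurable fun z : Fin n → ℂ × Bool => F (range z) fun a => (z (i a)).1 := by
  intro T _
  have e : (fun z : Fin n → ℂ × Bool => F (range z) fun a => (z (i a)).1) ⁻¹' T =
      ⋃ t : Ty ι κ n, {z | ty U R z = t ∧
        ∃ z', ty U R z' = t ∧ (F (range z') fun a => (z' (i a)).1) ∈ T} := by
    ext z
    simp only [mem_preimage, mem_iUnion, mem_ofPred_eq]
    constructor
    · intro hz
      exact ⟨_, rfl, z, rfl, hz⟩
    · rintro ⟨t, hz, z', hz', hT⟩
      obtain ⟨e, he, he'⟩ := piso_of_ty (U := U) (R := R) (hz'.trans hz.symm)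
      rw [h _ _ (finite_range _) (finite_range _) e he (fun a => (z' (i a)).1)
        fun a => mem_ps_range.2 ⟨_, rfl⟩] at hT
      have e2 : (e ∘ fun a => (z' (i a)).1) = fun a => (z (i a)).1 := funext fun a => he' _
      rwa [e2] at hT
  rw [e]
  refine MeasurableSet.iUnion fun t => ?_
  by_cases ht : ∃ z' : Fin n → ℂ × Bool, ty U R z' = t ∧ (F (range z') fun a => (z' (i a)).1) ∈ T
  · simp only [ht, and_true]
    exact ty_meas hU hR t
  · simp only [ht, and_false]
    exact MeasurableSet.empty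

/-- **criterion**, any codomain -/
theorem fme_iso (hU : ∀ a, MeasurableSet (U a)) (hR : ∀ a, MeasurableSet {t | R a t})
    {C : Type*} [MeasurableSpace C] {F : Set (ℂ × Bool) → C}
    (h : ∀ X X' : Set (ℂ × Bool), X.Finite → X'.Finite → ∀ e, PIso U R X X' e → F X = F X') :
    FMe F := fun n =>
  meas_mark hU hR (μ := Empty) (F := fun X _ => F X)
    (fun X X' hX hX' e he _ _ => h X X' hX hX' e he) n fun a => a.elim

theorem PIso.symm {X X' : Set (ℂ × Bool)} {e : ℂ → ℂ} (h : PIso U R X X' e) :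
    PIso U R X' X (Function.invFunOn e (ps X)) := by
  have hinv := h.bij.invOn_invFunOn
  have hm : MapsTo (Function.invFunOn e (ps X)) (ps X') (ps X) := fun y hy =>
    Function.invFunOn_mem (h.bij.surjOn hy)
  have hr : ∀ y ∈ ps X', e (Function.invFunOn e (ps X) y) = y := fun y hy => hinv.2 hy
  refine ⟨⟨hm, ?_, ?_⟩, ?_, ?_, ?_, ?_, ?_⟩
  · exact hinv.2.injOn
  · intro x hx
    exact ⟨e x, h.bij.mapsTo hx, hinv.1 hx⟩
  · intro y hy b
    rw [h.col _ (hm hy), hr y hy]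
  · intro y hy a
    rw [h.loc _ (hm hy), hr y hy]
  · intro x hx y hy w hw
    rw [h.del _ (hm hx) _ (hm hy) _ (hm hw), hr x hx, hr y hy, hr w hw]
  · intro x hx y hy w hw a
    rw [h.delU _ (hm hx) _ (hm hy) _ (hm hw), hr x hx, hr y hy, hr w hw]
  · intro x hx y hy w hw a
    rw [h.rel _ (hm hx) _ (hm hy) _ (hm hw), hr x hx, hr y hy, hr w hw]

/-- one direction is enough for properties -/
theorem finMeas_iso (hU : ∀ a, MeasurableSet (U a)) (hR : ∀ a, MeasurableSet {t | R a t})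
    {P : Set (ℂ × Bool) → Prop}
    (h : ∀ X X' : Set (ℂ × Bool), X.Finite → X'.Finite → ∀ e, PIso U R X X' e → P X → P X') :
    FinMeas P :=
  fme_iso hU hR fun X X' hX hX' e he =>
    propext ⟨h X X' hX hX' e he, h X' X hX' hX _ he.symm⟩

/-- triples -/
theorem meas3 (hU : ∀ a, MeasurableSet (U a)) (hR : ∀ a, MeasurableSet {t | R a t})
    {P : Set (ℂ × Bool) → ℂ × ℂ × ℂ → Prop}
    (h : ∀ X X' : Set (ℂ × Bool), X.Finite → X'.Finite → ∀ e, PIso U R X X' e →
      ∀ x ∈ ps X, ∀ y ∈ ps X, ∀ w ∈ ps X, P X (x, y, w) → P X' (e x, e y, e w))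
    (n : ℕ) (i j k : Fin n) :
    MeasurableSet {z : Fin n → ℂ × Bool | P (range z) ((z i).1, (z j).1, (z k).1)} := by
  refine measurableSet_setOfPred.2 ?_
  refine meas_mark hU hR (μ := Fin 3) (F := fun X v => P X (v 0, v 1, v 2))
    (fun X X' hX hX' e he v hv => propext ⟨h X X' hX hX' e he _ (hv 0) _ (hv 1) _ (hv 2), ?_⟩) n
    ![i, j, k]
  intro h1
  have hl : ∀ a, Function.invFunOn e (ps X) (e (v a)) = v a := fun a =>
    he.bij.invOn_invFunOn.1 (hv a)
  have h2 := h X' X hX' hX _ he.symm (e (v 0)) (he.bij.mapsTo (hv 0)) (e (v 1))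
    (he.bij.mapsTo (hv 1)) (e (v 2)) (he.bij.mapsTo (hv 2)) h1
  rwa [hl, hl, hl] at h2

/-- first occurrence -/
def rep {n : ℕ} (z : Fin n → ℂ × Bool) (i : Fin n) : Prop := ∀ j, j < i → (z j).1 ≠ (z i).1

theorem exists_rep {n : ℕ} (z : Fin n → ℂ × Bool) (i : Fin n) :
    ∃ j, rep z j ∧ (z j).1 = (z i).1 := by
  have hne : ∃ j, (z j).1 = (z i).1 := ⟨i, rfl⟩
  let j := Finset.min' (Finset.univ.filter fun j => (z j).1 = (z i).1) ⟨i, by simp⟩
  have hj : j ∈ Finset.univ.filter fun j => (z j).1 = (z i).1 := Finset.min'_mem _ _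
  rw [Finset.mem_filter] at hj
  refine ⟨j, fun l hl he => ?_, hj.2⟩
  have : j ≤ l := Finset.min'_le _ _ (by simp [he, hj.2])
  exact absurd hl (not_lt.2 this)

theorem rep_inj {n : ℕ} {z : Fin n → ℂ × Bool} {i j : Fin n} (hi : rep z i) (hj : rep z j)
    (h : (z i).1 = (z j).1) : i = j := by
  rcases lt_trichotomy i j with h1 | h1 | h1
  · exact absurd h (hj i h1)
  · exact h1
  · exact absurd h.symm (hi j h1)

theorem rep_meas (n : ℕ) (i : Fin n) : MeasurableSet {z : Fin n → ℂ × Bool | rep z i} := by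
  have e : {z : Fin n → ℂ × Bool | rep z i} =
      ⋂ j, ⋂ (_ : j < i), {z | (z j).1 = (z i).1}ᶜ := by
    ext z; simp [rep]
  rw [e]
  exact MeasurableSet.iInter fun j => MeasurableSet.iInter fun _ =>
    (measurableSet_eq_fun (meas_pos n j) (meas_pos n i)).compl

/-- **sums over triples** -/
theorem fme_sum (hU : ∀ a, MeasurableSet (U a)) (hR : ∀ a, MeasurableSet {t | R a t})
    {C : Type*} [MeasurableSpace C] [AddCommMonoid C] [MeasurableAdd₂ C]
    {P : Set (ℂ × Bool) → ℂ × ℂ × ℂ → Prop}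
    (hP : ∀ X t, P X t → t.1 ∈ ps X ∧ t.2.1 ∈ ps X ∧ t.2.2 ∈ ps X)
    (h : ∀ X X' : Set (ℂ × Bool), X.Finite → X'.Finite → ∀ e, PIso U R X X' e →
      ∀ x ∈ ps X, ∀ y ∈ ps X, ∀ w ∈ ps X, P X (x, y, w) → P X' (e x, e y, e w))
    {f : ℂ × ℂ × ℂ → C} (hf : Measurable f) :
    FMe fun X => ∑ᶠ (t : ℂ × ℂ × ℂ) (_ : P X t), f t := by
  intro n
  have e : (fun z : Fin n → ℂ × Bool => ∑ᶠ (t : ℂ × ℂ × ℂ) (_ : P (range z) t), f t) =
      fun z => ∑ q : Fin n × Fin n × Fin n, if (rep z q.1 ∧ rep z q.2.1 ∧ rep z q.2.2) ∧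
        P (range z) ((z q.1).1, (z q.2.1).1, (z q.2.2).1) then
          f ((z q.1).1, (z q.2.1).1, (z q.2.2).1) else 0 := by
    funext z
    rw [← Finset.sum_filter]
    let g : Fin n × Fin n × Fin n → ℂ × ℂ × ℂ := fun q => ((z q.1).1, (z q.2.1).1, (z q.2.2).1)
    set A : Finset (Fin n × Fin n × Fin n) := Finset.univ.filter fun q =>
      (rep z q.1 ∧ rep z q.2.1 ∧ rep z q.2.2) ∧
        P (range z) ((z q.1).1, (z q.2.1).1, (z q.2.2).1) with hA
    have hinj : Set.InjOn g A := by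
      rintro ⟨i, j, k⟩ hq ⟨i', j', k'⟩ hq' hg
      simp only [hA, Finset.coe_filter, Finset.mem_univ, true_and, mem_ofPred_eq] at hq hq'
      simp only [g, Prod.mk.injEq] at hg
      rw [rep_inj hq.1.1 hq'.1.1 hg.1, rep_inj hq.1.2.1 hq'.1.2.1 hg.2.1,
        rep_inj hq.1.2.2 hq'.1.2.2 hg.2.2]
    have himg : ((A.image g : Finset (ℂ × ℂ × ℂ)) : Set (ℂ × ℂ × ℂ)) = {t | P (range z) t} := by
      ext t
      simp only [hA, Finset.coe_image, Finset.coe_filter, Finset.mem_univ, true_and, mem_image,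
        mem_ofPred_eq]
      constructor
      · rintro ⟨q, ⟨-, hq⟩, rfl⟩; exact hq
      · intro ht
        obtain ⟨h1, h2, h3⟩ := hP _ _ ht
        obtain ⟨i, hi⟩ := mem_ps_range.1 h1
        obtain ⟨j, hj⟩ := mem_ps_range.1 h2
        obtain ⟨k, hk⟩ := mem_ps_range.1 h3
        obtain ⟨i', hi1, hi2⟩ := exists_rep z i
        obtain ⟨j', hj1, hj2⟩ := exists_rep z j
        obtain ⟨k', hk1, hk2⟩ := exists_rep z k
        have et : ((z i').1, (z j').1, (z k').1) = t := by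
          rw [hi2, hj2, hk2, hi, hj, hk]
        exact ⟨(i', j', k'), ⟨⟨hi1, hj1, hk1⟩, by rw [et]; exact ht⟩, et⟩
    have h1 : ∑ᶠ (t : ℂ × ℂ × ℂ) (_ : P (range z) t), f t = ∑ t ∈ A.image g, f t := by
      rw [← finsum_mem_coe_finset, himg]
      rfl
    rw [h1, Finset.sum_image hinj]
  rw [e]
  refine Finset.measurable_fun_sum _ fun q _ => ?_
  refine Measurable.ite ?_ (hf.comp (meas_tri n _ _ _)) measurable_const
  exact (((rep_meas n q.1).inter ((rep_meas n q.2.1).inter (rep_meas n q.2.2)))).inter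
    (meas3 hU hR h n q.1 q.2.1 q.2.2)

end type

/-! ### circumdiscs in a set -/

/-- circumradius -/
def rad3 (t : ℂ × ℂ × ℂ) : ℝ := ‖t.1 - cen3 t‖

theorem meas_rad3 : Measurable rad3 := (measurable_fst.sub meas_cen3).norm

/-- the closed circumdisc is in the open set `W` -/
theorem meas_disc_open {W : Set ℂ} (hW : IsOpen W) :
    MeasurableSet {t : ℂ × ℂ × ℂ | Metric.closedBall (cen3 t) (rad3 t) ⊆ W} := by
  by_cases hne : (Wᶜ).Nonempty
  · have e : {t : ℂ × ℂ × ℂ | Metric.closedBall (cen3 t) (rad3 t) ⊆ W} =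
        {t | rad3 t < Metric.infDist (cen3 t) Wᶜ} := by
      ext t
      simp only [mem_ofPred_eq]
      constructor
      · intro h
        obtain ⟨y, hy, hy'⟩ := hW.isClosed_compl.exists_infDist_eq_dist hne (cen3 t)
        rw [hy']
        by_contra hcon
        exact hy (h (by rw [Metric.mem_closedBall, dist_comm]; exact not_lt.1 hcon))
      · intro h y hy
        by_contra hcon
        have h1 : Metric.infDist (cen3 t) Wᶜ ≤ dist (cen3 t) y := Metric.infDist_le_dist_of_mem hcon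
        rw [Metric.mem_closedBall, dist_comm] at hy
        linarith
    rw [e]
    exact measurableSet_lt meas_rad3 ((Metric.continuous_infDist_pt _).measurable.comp meas_cen3)
  · have hW' : W = univ := by
      rw [not_nonempty_iff_eq_empty, compl_empty_iff] at hne
      exact hne
    have e : {t : ℂ × ℂ × ℂ | Metric.closedBall (cen3 t) (rad3 t) ⊆ W} = univ := by
      ext t; simp [hW']
    rw [e]
    exact MeasurableSet.univ

/-- the closed circumdisc is in the closed set `W` -/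
theorem meas_disc_closed {W : Set ℂ} (hW : IsClosed W) :
    MeasurableSet {t : ℂ × ℂ × ℂ | Metric.closedBall (cen3 t) (rad3 t) ⊆ W} := by
  -- `W` is the decreasing intersection of its open thickenings
  have e : {t : ℂ × ℂ × ℂ | Metric.closedBall (cen3 t) (rad3 t) ⊆ W} =
      ⋂ n : ℕ, {t | Metric.closedBall (cen3 t) (rad3 t) ⊆ Metric.thickening (1 / (n + 1)) W} := by
    ext t
    simp only [mem_ofPred_eq, mem_iInter]
    constructor
    · intro h n
      exact h.trans (Metric.self_subset_thickening (by positivity) W)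
    · intro h y hy
      rw [← hW.closure_eq, Metric.closure_eq_iInter_thickening]
      simp only [mem_iInter]
      intro δ hδ
      obtain ⟨n, hn⟩ := exists_nat_one_div_lt hδ
      exact Metric.thickening_mono hn.le W (h n hy)
  rw [e]
  exact MeasurableSet.iInter fun n => meas_disc_open Metric.isOpen_thickening

/-- intersections -/
theorem meas_disc_inter {W W' : Set ℂ}
    (h : MeasurableSet {t : ℂ × ℂ × ℂ | Metric.closedBall (cen3 t) (rad3 t) ⊆ W})
    (h' : MeasurableSet {t : ℂ × ℂ × ℂ | Metric.closedBall (cen3 t) (rad3 t) ⊆ W'}) :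
    MeasurableSet {t : ℂ × ℂ × ℂ | Metric.closedBall (cen3 t) (rad3 t) ⊆ W ∩ W'} := by
  have e : {t : ℂ × ℂ × ℂ | Metric.closedBall (cen3 t) (rad3 t) ⊆ W ∩ W'} =
      {t | Metric.closedBall (cen3 t) (rad3 t) ⊆ W} ∩
        {t | Metric.closedBall (cen3 t) (rad3 t) ⊆ W'} := by
    ext t
    simp only [mem_ofPred_eq, subset_inter_iff, mem_inter_iff]
  rw [e]
  exact h.inter h'

/-- half open rectangles (the squares `sq z L` of `SumSc_302`) -/
theorem meas_disc_rect (x0 x1 y0 y1 : ℝ) :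
    MeasurableSet {t : ℂ × ℂ × ℂ | Metric.closedBall (cen3 t) (rad3 t) ⊆
      {w | x0 ≤ w.re ∧ w.re < x1 ∧ y0 ≤ w.im ∧ w.im < y1}} := by
  have e : {w : ℂ | x0 ≤ w.re ∧ w.re < x1 ∧ y0 ≤ w.im ∧ w.im < y1} =
      ({w | x0 ≤ w.re} ∩ {w | w.re < x1}) ∩ ({w | y0 ≤ w.im} ∩ {w | w.im < y1}) := by
    ext w
    simp only [mem_ofPred_eq, mem_inter_iff]
    tauto
  rw [e]
  exact meas_disc_inter
    (meas_disc_inter (meas_disc_closed (isClosed_le continuous_const Complex.continuous_re))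
      (meas_disc_open (isOpen_lt Complex.continuous_re continuous_const)))
    (meas_disc_inter (meas_disc_closed (isClosed_le continuous_const Complex.continuous_im))
      (meas_disc_open (isOpen_lt Complex.continuous_im continuous_const)))

end Crest.Agent.R143.FinMx609
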