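import Crest.Agent.R143.FinM_609

/-!
# Row 143 (S0194): measurable canonical choices (helper609)

* `lexlt` : lexicographic order of the plane; `RL R` : the ternary relations `R` and `lexlt`
* `dlt`, `mind G` : lexicographic minimum of a set of darts (default `0`)
* `mind_iso` : `mind` is transported by `PIso U (RL R)`
* `fme_mind` : the chosen dart is a measurable function of the configuration
* `fme_choice` : a unique triple with an invariant property
* `fme_comp` : `FMe` of `f ∘ F`, pairs, `ite`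
-/

set_option autoImplicit false
set_option linter.unusedSectionVars false

noncomputable section

open scoped Classical

namespace Crest.Agent.R143.FinM2x609

open MeasureTheory Set Filter Topology
open Crest.ProbabilityR.Voronoi
open Crest.Agent.R143.PP0x831 Crest.Agent.R143.Poisx304 Crest.Agent.R143.Janx304
open Crest.Agent.R143.Prodx609 Crest.Agent.R143.B0x346 Crest.Agent.R143.FinMx609
open scoped ENNReal Nat

/-! ### lexicographic order -/

/-- lexicographic order of the plane -/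
def lexlt (a b : ℂ) : Prop := a.re < b.re ∨ (a.re = b.re ∧ a.im < b.im)

theorem lexlt_tri (a b : ℂ) : lexlt a b ∨ a = b ∨ lexlt b a := by
  unfold lexlt
  rcases lt_trichotomy a.re b.re with h | h | h
  · exact Or.inl (Or.inl h)
  · rcases lt_trichotomy a.im b.im with h' | h' | h'
    · exact Or.inl (Or.inr ⟨h, h'⟩)
    · exact Or.inr (Or.inl (Complex.ext h h'))
    · exact Or.inr (Or.inr (Or.inr ⟨h.symm, h'⟩))
  · exact Or.inr (Or.inr (Or.inl h))

theorem lexlt_irrefl (a : ℂ) : ¬ lexlt a a := by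
  unfold lexlt
  simp

theorem lexlt_trans {a b c : ℂ} (h : lexlt a b) (h' : lexlt b c) : lexlt a c := by
  unfold lexlt at *
  rcases h with h | ⟨h1, h2⟩ <;> rcases h' with h' | ⟨h3, h4⟩
  · exact Or.inl (h.trans h')
  · exact Or.inl (by rw [← h3]; exact h)
  · exact Or.inl (by rw [h1]; exact h')
  · exact Or.inr ⟨h1.trans h3, h2.trans h4⟩

theorem meas_lexlt : MeasurableSet {t : ℂ × ℂ × ℂ | lexlt t.1 t.2.1} := by
  have h1 : Measurable fun t : ℂ × ℂ × ℂ => t.1.re := by fun_prop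
  have h2 : Measurable fun t : ℂ × ℂ × ℂ => t.2.1.re := by fun_prop
  have h3 : Measurable fun t : ℂ × ℂ × ℂ => t.1.im := by fun_prop
  have h4 : Measurable fun t : ℂ × ℂ × ℂ => t.2.1.im := by fun_prop
  have e : {t : ℂ × ℂ × ℂ | lexlt t.1 t.2.1} = {t | t.1.re < t.2.1.re} ∪
      ({t | t.1.re = t.2.1.re} ∩ {t | t.1.im < t.2.1.im}) := rfl
  rw [e]
  exact (measurableSet_lt h1 h2).union ((measurableSet_eq_fun h1 h2).inter (measurableSet_lt h3 h4))

/-- the relations `R` and the lexicographic order -/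
def RL {κ : Type*} (R : κ → ℂ × ℂ × ℂ → Prop) : Option κ → ℂ × ℂ × ℂ → Prop
  | none => fun t => lexlt t.1 t.2.1
  | some k => R k

theorem meas_RL {κ : Type*} {R : κ → ℂ × ℂ × ℂ → Prop} (hR : ∀ a, MeasurableSet {t | R a t}) :
    ∀ a, MeasurableSet {t | RL R a t}
  | none => meas_lexlt
  | some k => hR k

/-- lexicographic order of darts -/
def dlt (e e' : ℂ × ℂ) : Prop := lexlt e.1 e'.1 ∨ (e.1 = e'.1 ∧ lexlt e.2 e'.2)

theorem dlt_tri (e e' : ℂ × ℂ) : dlt e e' ∨ e = e' ∨ dlt e' e := by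
  unfold dlt
  rcases lexlt_tri e.1 e'.1 with h | h | h
  · exact Or.inl (Or.inl h)
  · rcases lexlt_tri e.2 e'.2 with h' | h' | h'
    · exact Or.inl (Or.inr ⟨h, h'⟩)
    · exact Or.inr (Or.inl (Prod.ext h h'))
    · exact Or.inr (Or.inr (Or.inr ⟨h.symm, h'⟩))
  · exact Or.inr (Or.inr (Or.inl h))

theorem dlt_irrefl (e : ℂ × ℂ) : ¬ dlt e e := by
  unfold dlt
  rintro (h | ⟨-, h⟩) <;> exact lexlt_irrefl _ h

theorem dlt_trans {a b c : ℂ × ℂ} (h : dlt a b) (h' : dlt b c) : dlt a c := by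
  unfold dlt at *
  rcases h with h | ⟨h1, h2⟩ <;> rcases h' with h' | ⟨h3, h4⟩
  · exact Or.inl (lexlt_trans h h')
  · exact Or.inl (by rw [← h3]; exact h)
  · exact Or.inl (by rw [h1]; exact h')
  · exact Or.inr ⟨h1.trans h3, lexlt_trans h2 h4⟩

/-- `e` is the least dart with `G` -/
def Least (G : ℂ × ℂ → Prop) (e : ℂ × ℂ) : Prop := G e ∧ ∀ e', G e' → e' = e ∨ dlt e e'

theorem Least.uniq {G : ℂ × ℂ → Prop} {e e' : ℂ × ℂ} (h : Least G e) (h' : Least G e') :
    e = e' := by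
  rcases h.2 _ h'.1 with h1 | h1
  · exact h1.symm
  · rcases h'.2 _ h.1 with h2 | h2
    · exact h2
    · exact absurd (dlt_trans h1 h2) (dlt_irrefl _)

theorem exists_least {G : ℂ × ℂ → Prop} (hf : {e | G e}.Finite) (hne : ∃ e, G e) :
    ∃ e, Least G e := by
  obtain ⟨s, hs⟩ : ∃ s : Finset (ℂ × ℂ), ∀ e, e ∈ s ↔ G e := ⟨hf.toFinset, by simp⟩
  have key : ∀ (s : Finset (ℂ × ℂ)), s.Nonempty → ∃ e ∈ s, ∀ e' ∈ s, e' = e ∨ dlt e e' := by
    intro s hs
    induction hs using Finset.Nonempty.cons_induction with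
    | singleton a => exact ⟨a, by simp, by simp⟩
    | cons a s ha hs ih =>
      obtain ⟨e, he, h⟩ := ih
      rcases dlt_tri a e with h1 | h1 | h1
      · refine ⟨a, by simp, fun e' he' => ?_⟩
        rcases Finset.mem_cons.1 he' with rfl | he'
        · exact Or.inl rfl
        · rcases h e' he' with rfl | h2
          · exact Or.inr h1
          · exact Or.inr (dlt_trans h1 h2)
      · exact absurd (h1 ▸ he) ha
      · refine ⟨e, by simp [he], fun e' he' => ?_⟩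
        rcases Finset.mem_cons.1 he' with rfl | he'
        · exact Or.inr h1
        · exact h e' he'
  obtain ⟨e0, h0⟩ := hne
  obtain ⟨e, he, h⟩ := key s ⟨e0, (hs _).2 h0⟩
  exact ⟨e, (hs _).1 he, fun e' he' => h e' ((hs _).2 he')⟩

/-- the least dart with `G`, default `0` -/
def mind (G : ℂ × ℂ → Prop) : ℂ × ℂ := if h : ∃ e, Least G e then h.choose else 0

theorem mind_eq {G : ℂ × ℂ → Prop} {e : ℂ × ℂ} (h : Least G e) : mind G = e := by
  have hx : ∃ e, Least G e := ⟨e, h⟩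
  unfold mind
  rw [dif_pos hx]
  exact hx.choose_spec.uniq h

theorem mind_none {G : ℂ × ℂ → Prop} (h : ¬ ∃ e, Least G e) : mind G = 0 := by
  unfold mind
  rw [dif_neg h]

theorem mind_spec {G : ℂ × ℂ → Prop} (hf : {e | G e}.Finite) (hne : ∃ e, G e) :
    Least G (mind G) := by
  obtain ⟨e, he⟩ := exists_least hf hne
  rw [mind_eq he]; exact he

/-! ### transport -/

section transport

variable {ι κ : Type*} [Finite ι] [Finite κ] {U : ι → Set ℂ} {R : κ → ℂ × ℂ × ℂ → Prop}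
  {X X' : Set (ℂ × Bool)} {e : ℂ → ℂ}

theorem lexlt_iso (h : PIso U (RL R) X X' e) {x y : ℂ} (hx : x ∈ ps X) (hy : y ∈ ps X) :
    lexlt x y ↔ lexlt (e x) (e y) :=
  h.rel x hx y hy x hx none

theorem dlt_iso (h : PIso U (RL R) X X' e) {a b : ℂ × ℂ} (ha : a.1 ∈ ps X) (ha' : a.2 ∈ ps X)
    (hb : b.1 ∈ ps X) (hb' : b.2 ∈ ps X) :
    dlt a b ↔ dlt (e a.1, e a.2) (e b.1, e b.2) := by
  unfold dlt
  rw [lexlt_iso h ha hb, lexlt_iso h ha' hb']
  simp only [h.bij.injOn.eq_iff ha hb]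

theorem least_iso {G : Set (ℂ × Bool) → ℂ × ℂ → Prop}
    (hG : ∀ X e, G X e → e.1 ∈ ps X ∧ e.2 ∈ ps X)
    (h : PIso U (RL R) X X' e)
    (hi : ∀ x ∈ ps X, ∀ y ∈ ps X, G X (x, y) ↔ G X' (e x, e y)) {a : ℂ × ℂ}
    (ha : Least (G X) a) : Least (G X') (e a.1, e a.2) := by
  obtain ⟨h1, h2⟩ := hG _ _ ha.1
  refine ⟨(hi _ h1 _ h2).1 ha.1, ?_⟩
  rintro ⟨x', y'⟩ hb
  obtain ⟨h3, h4⟩ := hG _ _ hb
  obtain ⟨x, hx, rfl⟩ := h.bij.surjOn h3
  obtain ⟨y, hy, rfl⟩ := h.bij.surjOn h4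
  rcases ha.2 (x, y) ((hi x hx y hy).2 hb) with h5 | h5
  · left
    rw [← h5]
  · right
    exact (dlt_iso h h1 h2 hx hy).1 h5

/-- the least dart is transported -/
theorem mind_iso {G : Set (ℂ × Bool) → ℂ × ℂ → Prop}
    (hG : ∀ X e, G X e → e.1 ∈ ps X ∧ e.2 ∈ ps X)
    (h : PIso U (RL R) X X' e)
    (hi : ∀ x ∈ ps X, ∀ y ∈ ps X, G X (x, y) ↔ G X' (e x, e y))
    (hne : ∃ a, Least (G X) a) :
    mind (G X') = (e (mind (G X)).1, e (mind (G X)).2) := by
  obtain ⟨a, ha⟩ := hne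
  rw [mind_eq ha]
  exact mind_eq (least_iso hG h hi ha)

end transport

/-! ### `FMe` -/

section fme

variable {ι κ : Type*} [Finite ι] [Finite κ] {U : ι → Set ℂ} {R : κ → ℂ × ℂ × ℂ → Prop}
  {C D : Type*} [MeasurableSpace C] [MeasurableSpace D]

theorem FMe.comp {F : Set (ℂ × Bool) → C} (hF : FMe F) {f : C → D} (hf : Measurable f) :
    FMe fun X => f (F X) := fun n => hf.comp (hF n)

theorem FMe.prod {F : Set (ℂ × Bool) → C} {G : Set (ℂ × Bool) → D} (hF : FMe F) (hG : FMe G) :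
    FMe fun X => (F X, G X) := fun n => (hF n).prodMk (hG n)

theorem FMe.ite {P : Set (ℂ × Bool) → Prop} (hP : FMe P) {F G : Set (ℂ × Bool) → C}
    (hF : FMe F) (hG : FMe G) : FMe fun X => if P X then F X else G X := fun n =>
  Measurable.ite (measurableSet_setOfPred.2 (hP n)) (hF n) (hG n)

theorem FMe.const (c : C) : FMe fun _ : Set (ℂ × Bool) => c := fun _ => measurable_const

theorem FMe.and {P Q : Set (ℂ × Bool) → Prop} (hP : FMe P) (hQ : FMe Q) :
    FMe fun X => P X ∧ Q X := fun n => (hP n).and (hQ n)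

theorem FMe.or {P Q : Set (ℂ × Bool) → Prop} (hP : FMe P) (hQ : FMe Q) :
    FMe fun X => P X ∨ Q X := fun n => (hP n).or (hQ n)

theorem FMe.not {P : Set (ℂ × Bool) → Prop} (hP : FMe P) :
    FMe fun X => ¬ P X := fun n => (hP n).not

theorem FMe.mul {F G : Set (ℂ × Bool) → ℂ} (hF : FMe F) (hG : FMe G) :
    FMe fun X => F X * G X := fun n => (hF n).mul (hG n)

theorem FMe.add {F G : Set (ℂ × Bool) → ℂ} (hF : FMe F) (hG : FMe G) :
    FMe fun X => F X + G X := fun n => (hF n).add (hG n)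

/-- a unique triple with an invariant property -/
theorem fme_choice (hU : ∀ a, MeasurableSet (U a)) (hR : ∀ a, MeasurableSet {t | R a t})
    {P : Set (ℂ × Bool) → ℂ × ℂ × ℂ → Prop}
    (hP : ∀ X t, P X t → t.1 ∈ ps X ∧ t.2.1 ∈ ps X ∧ t.2.2 ∈ ps X)
    (h : ∀ X X' : Set (ℂ × Bool), X.Finite → X'.Finite → ∀ e, PIso U R X X' e →
      ∀ x ∈ ps X, ∀ y ∈ ps X, ∀ w ∈ ps X, P X (x, y, w) → P X' (e x, e y, e w))
    (hu : ∀ X t t', P X t → P X t' → t = t') :
    FMe fun X => if hx : ∃ t, P X t then hx.choose else (0 : ℂ × ℂ × ℂ) := by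
  have h1 := fme_sum hU hR hP h (f := fun t : ℂ × ℂ × ℂ => t) measurable_id
  have e : (fun X : Set (ℂ × Bool) => ∑ᶠ (t : ℂ × ℂ × ℂ) (_ : P X t), t) =
      fun X => if hx : ∃ t, P X t then hx.choose else (0 : ℂ × ℂ × ℂ) := by
    funext X
    by_cases hx : ∃ t, P X t
    · rw [dif_pos hx]
      have h2 : ∀ t, P X t ↔ t = hx.choose := fun t =>
        ⟨fun ht => hu X _ _ ht hx.choose_spec, fun ht => ht ▸ hx.choose_spec⟩
      simp only [h2]
      exact finsum_mem_singleton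
    · rw [dif_neg hx]
      have h2 : ∀ t, ¬ P X t := fun t ht => hx ⟨t, ht⟩
      simp only [h2, finsum_false, finsum_zero]
  rw [← e]
  exact h1

/-- **the least dart is measurable** -/
theorem fme_mind (hU : ∀ a, MeasurableSet (U a)) (hR : ∀ a, MeasurableSet {t | R a t})
    {G : Set (ℂ × Bool) → ℂ × ℂ → Prop} (hG : ∀ X e, G X e → e.1 ∈ ps X ∧ e.2 ∈ ps X)
    (h : ∀ X X' : Set (ℂ × Bool), X.Finite → X'.Finite → ∀ e, PIso U (RL R) X X' e →
      ∀ x ∈ ps X, ∀ y ∈ ps X, G X (x, y) → G X' (e x, e y)) :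
    FMe fun X => mind (G X) := by
  have hiff : ∀ X X' : Set (ℂ × Bool), X.Finite → X'.Finite → ∀ e, PIso U (RL R) X X' e →
      ∀ x ∈ ps X, ∀ y ∈ ps X, G X (x, y) ↔ G X' (e x, e y) := by
    intro X X' hX hX' e he x hx y hy
    refine ⟨h X X' hX hX' e he x hx y hy, fun h1 => ?_⟩
    have h2 := h X' X hX' hX _ he.symm (e x) (he.bij.mapsTo hx) (e y) (he.bij.mapsTo hy) h1
    rwa [he.bij.invOn_invFunOn.1 hx, he.bij.invOn_invFunOn.1 hy] at h2
  have h1 := fme_choice (U := U) (R := RL R) hU (meas_RL hR)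
    (P := fun X t => Least (G X) (t.1, t.2.1) ∧ t.2.2 = t.1)
    (fun X t ht => ⟨(hG _ _ ht.1.1).1, (hG _ _ ht.1.1).2, ht.2 ▸ (hG _ _ ht.1.1).1⟩)
    (fun X X' hX hX' e he x hx y hy w hw ht =>
      ⟨least_iso hG he (hiff X X' hX hX' e he) ht.1, by rw [show w = x from ht.2]⟩)
    (fun X t t' ht ht' => by
      have h2 := ht.1.uniq ht'.1
      rw [Prod.mk.injEq] at h2
      exact Prod.ext h2.1 (Prod.ext h2.2 (by rw [ht.2, ht'.2, h2.1])))
  have e : (fun X => mind (G X)) = fun X : Set (ℂ × Bool) =>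
      (fun t : ℂ × ℂ × ℂ => (t.1, t.2.1))
        (if hx : ∃ t : ℂ × ℂ × ℂ, Least (G X) (t.1, t.2.1) ∧ t.2.2 = t.1 then hx.choose
          else (0 : ℂ × ℂ × ℂ)) := by
    funext X
    by_cases hx : ∃ t : ℂ × ℂ × ℂ, Least (G X) (t.1, t.2.1) ∧ t.2.2 = t.1
    · rw [dif_pos hx]
      exact mind_eq hx.choose_spec.1
    · rw [dif_neg hx]
      refine mind_none ?_
      rintro ⟨a, ha⟩
      exact hx ⟨(a.1, a.2, a.1), ha, rfl⟩
  rw [e]
  have hm : Measurable fun t : ℂ × ℂ × ℂ => (t.1, t.2.1) :=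
    measurable_fst.prodMk (measurable_fst.comp measurable_snd)
  exact FMe.comp h1 hm

end fme

end Crest.Agent.R143.FinM2x609
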