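import Crest.Agent.R143.PW_978
import Crest.Agent.R143.Mom_810
import Crest.Agent.R143.FinM2_609
import Crest.Agent.R143.Mass5_302

/-!
# Row 143 (S0194), box R6, model half (helper176): tiles split in space

* `mom_sq` : `E ∑ (circumradius)²` over the empty circumdiscs contained in a square of side `s ≥ ε`
  is at most `C s²`, every `ε`, every square
* `Ht D d X t`, `Hd D d X` : Delaunay triangles with centre in `D` and circumradius at most `d`; the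
  sum of the squares of their circumradii. `Hd_local`, `Hd_meas`, `Hd_mean`
* on 978's `Net` : window `I₁`, `J₁` (`J₁` contains all the tubes which see a gate of `I₁`),
  `win` = product of its weights (not normalised), `g_off = gw (I \ I₁) (J \ J₁)` :
  `gw_off` : `g ≤ g_off win`;  `mass_off` : `c^#J₁ ∏ E a_i · E[g_off] = E[g]`;
  `window`, `tile` : if `E[g_off (win X)] ≤ K E[g_off Hd]`, then
  `c^#J₁ ∏ E a_i · E[g X] ≤ K C s² E[g]` (`X` any function on the sample).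
-/

set_option autoImplicit false

noncomputable section

namespace Crest.Agent.R143.TilePx176

open MeasureTheory Set Filter Topology
open Crest.ProbabilityR.Voronoi
open Crest.Agent.R143.PP0x831 Crest.Agent.R143.Poisx304 Crest.Agent.R143.Janx304
open Crest.Agent.R143.IndLocx279 Crest.Agent.R143.PWx978
open Crest.Agent.R143.B0x346 Crest.Agent.R143.SumScx302 Crest.Agent.R143.Mass1x302
  Crest.Agent.R143.Momx810
open Crest.Agent.R143.FinMx609 (cen3 rad3 meas_cen3 meas_rad3 del_iff cen3_iff PIso fme_sum)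
open Crest.Agent.R143.Prodx609 (FMe)
open scoped ENNReal

/-! ## second moment of the circumradii, all scales -/

theorem cw_mono {P U U' : Set ℂ} (h : U ⊆ U') (t : T3) : cw P U t ≤ cw P U' t := by
  unfold cw
  refine iSup₂_le fun o ho => ?_
  exact le_iSup₂_of_le o ⟨ho.1, ho.2.trans h⟩ le_rfl

theorem cw_map {e : ℂ ≃ ℂ} {k : ℝ} (hk : 0 < k) (hn : ∀ u v, ‖e u - e v‖ = k * ‖u - v‖)
    (P U : Set ℂ) (t : T3) :
    cw (e '' P) (e '' U) (mt e t) ≤ ENNReal.ofReal (k ^ 2) * cw P U t := by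
  unfold cw
  refine iSup₂_le fun o' ho' => ?_
  obtain ⟨h, hU⟩ := ho'
  obtain ⟨o, rfl⟩ : ∃ o, o' = e o := ⟨e.symm o', (e.apply_symm_apply o').symm⟩
  have mem : ∀ {x : ℂ}, e x ∈ e '' P → x ∈ P := fun {x} hx => by
    obtain ⟨y, hy, hxy⟩ := hx
    exact e.injective hxy ▸ hy
  have hC : Circ P t o := by
    refine ⟨mem h.m1, mem h.m2, mem h.m3, ?_, ?_, fun s hs => ?_⟩
    · have h2 := h.e2
      change ‖e t.2.1 - e o‖ = ‖e t.1 - e o‖ at h2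
      rw [hn, hn] at h2
      exact mul_left_cancel₀ hk.ne' h2
    · have h2 := h.e3
      change ‖e t.2.2 - e o‖ = ‖e t.1 - e o‖ at h2
      rw [hn, hn] at h2
      exact mul_left_cancel₀ hk.ne' h2
    · have h2 := h.emp (e s) ⟨s, hs, rfl⟩
      change ‖e t.1 - e o‖ ≤ ‖e s - e o‖ at h2
      rw [hn, hn] at h2
      exact le_of_mul_le_mul_left h2 hk
  have hB : Metric.closedBall o ‖t.1 - o‖ ⊆ U := by
    intro x hx
    have h2 : e x ∈ e '' U := by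
      refine hU ?_
      rw [Metric.mem_closedBall, dist_eq_norm] at hx ⊢
      change ‖e x - e o‖ ≤ ‖e t.1 - e o‖
      rw [hn, hn]
      exact mul_le_mul_of_nonneg_left hx hk.le
    obtain ⟨y, hy, hxy⟩ := h2
    exact e.injective hxy ▸ hy
  have e1 : ‖(mt e t).1 - e o‖ = k * ‖t.1 - o‖ := hn _ _
  rw [e1, mul_pow, ENNReal.ofReal_mul (by positivity)]
  gcongr
  exact le_cw hC hB

theorem sum_cw_map {e : ℂ ≃ ℂ} {k : ℝ} (hk : 0 < k) (hn : ∀ u v, ‖e u - e v‖ = k * ‖u - v‖)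
    (P U : Set ℂ) :
    ∑' t : T3, cw (e '' P) (e '' U) t ≤ ENNReal.ofReal (k ^ 2) * ∑' t : T3, cw P U t := by
  rw [← Equiv.tsum_eq (mt e) fun t => cw (e '' P) (e '' U) t, ← ENNReal.tsum_mul_left]
  exact ENNReal.tsum_le_tsum fun t => cw_map hk hn P U t

/-- mesh `1`, squares at Gaussian integers -/
theorem mom_gi {C : ℝ≥0∞} (hC : ∀ L : ℕ,
    ∫⁻ ω, ∑' t : T3, cw (points 1 ω) (sq 0 (L : ℝ)) t ∂sampleLaw ≤ C * (L : ℝ≥0∞) ^ 2)
    (k : ℤ × ℤ) (L : ℕ) :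
    ∫⁻ ω, ∑' t : T3, cw (Mass1x302.ps (cfg 1 ω)) (sq (gi k) (L : ℝ)) t ∂sampleLaw ≤
      C * (L : ℝ≥0∞) ^ 2 := by
  rw [← stat k fun X => ∑' t : T3, cw (Mass1x302.ps X) (sq (gi k) (L : ℝ)) t]
  refine le_trans (lintegral_mono fun ω => ?_) (hC L)
  have h1 : sq (gi k) (L : ℝ) = eT (gi k) '' sq 0 (L : ℝ) := by
    have h2 := sq_tr 0 (gi k) (L : ℝ)
    rw [zero_add] at h2
    rw [← h2]
    rfl
  have h3 := sum_cw_map (e := eT (gi k)) one_pos (eT_norm (gi k)) (points 1 ω) (sq 0 (L : ℝ))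
  rw [one_pow, ENNReal.ofReal_one, one_mul] at h3
  show ∑' t : T3, cw (Mass1x302.ps (trX (gi k) (cfg 1 ω))) (sq (gi k) (L : ℝ)) t ≤ _
  rw [ps_tr, Mass5x302.ps_cfg, h1]
  exact h3

/-- **second moment of the circumradii**, mesh `ε`, squares of side `s ≥ ε` -/
theorem mom_sq : ∃ C : ℝ≥0∞, C ≠ ∞ ∧ ∀ ε s : ℝ, 0 < ε → ε ≤ s → ∀ z : ℂ,
    ∫⁻ ω, ∑' t : T3, cw (points ε ω) (sq z s) t ∂sampleLaw ≤ C * ENNReal.ofReal (s ^ 2) := by
  obtain ⟨C, hC, h⟩ := mom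
  refine ⟨9 * C, ENNReal.mul_ne_top (by simp) hC, fun ε s hε hs z => ?_⟩
  set k : ℤ × ℤ := (⌊z.re / ε⌋, ⌊z.im / ε⌋) with hk
  set L : ℕ := ⌈s / ε⌉₊ + 1 with hL
  have hs0 : 0 < s := lt_of_lt_of_le hε hs
  have hL1 : s / ε + 1 ≤ (L : ℝ) := by
    rw [hL]; push_cast
    have := Nat.le_ceil (s / ε)
    linarith
  have hL2 : ε * (L : ℝ) ≤ 3 * s := by
    have h1 := (Nat.ceil_lt_add_one (show (0 : ℝ) ≤ s / ε by positivity)).le
    have h2 : (L : ℝ) ≤ s / ε + 2 := by rw [hL]; push_cast; linarith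
    calc ε * (L : ℝ) ≤ ε * (s / ε + 2) := mul_le_mul_of_nonneg_left h2 hε.le
      _ = s + 2 * ε := by field_simp
      _ ≤ 3 * s := by linarith
  have hsub : sq z s ⊆ eS ε hε '' sq (gi k) (L : ℝ) := by
    intro w hw
    obtain ⟨w1, w2, w3, w4⟩ := hw
    refine ⟨(ε⁻¹ : ℝ) * w, ⟨?_, ?_, ?_, ?_⟩, ?_⟩
    · rw [gi_re, Complex.re_ofReal_mul]
      calc ((k.1 : ℤ) : ℝ) ≤ z.re / ε := Int.floor_le _
        _ ≤ ε⁻¹ * w.re := by rw [div_eq_inv_mul]; gcongr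
    · rw [gi_re, Complex.re_ofReal_mul]
      have h1 := Int.lt_floor_add_one (z.re / ε)
      have h2 : ε⁻¹ * w.re < z.re / ε + s / ε := by
        rw [← add_div, div_eq_inv_mul]; gcongr
      have h3 : (k.1 : ℝ) = ⌊z.re / ε⌋ := rfl
      linarith
    · rw [gi_im, Complex.im_ofReal_mul]
      calc ((k.2 : ℤ) : ℝ) ≤ z.im / ε := Int.floor_le _
        _ ≤ ε⁻¹ * w.im := by rw [div_eq_inv_mul]; gcongr
    · rw [gi_im, Complex.im_ofReal_mul]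
      have h1 := Int.lt_floor_add_one (z.im / ε)
      have h2 : ε⁻¹ * w.im < z.im / ε + s / ε := by
        rw [← add_div, div_eq_inv_mul]; gcongr
      have h3 : (k.2 : ℝ) = ⌊z.im / ε⌋ := rfl
      linarith
    · show (ε : ℂ) * ((ε⁻¹ : ℝ) * w) = w
      rw [← mul_assoc, ← Complex.ofReal_mul, mul_inv_cancel₀ hε.ne', Complex.ofReal_one, one_mul]
  have hpt : ∀ ω, points ε ω = eS ε hε '' Mass1x302.ps (cfg 1 ω) := by
    intro ω
    rw [← ps_sc hε, ← cfg_eps, Mass5x302.ps_cfg]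
  calc ∫⁻ ω, ∑' t : T3, cw (points ε ω) (sq z s) t ∂sampleLaw
      ≤ ∫⁻ ω, ENNReal.ofReal (ε ^ 2) *
          ∑' t : T3, cw (Mass1x302.ps (cfg 1 ω)) (sq (gi k) (L : ℝ)) t ∂sampleLaw := by
        refine lintegral_mono fun ω => ?_
        show ∑' t : T3, cw (points ε ω) (sq z s) t ≤ _
        rw [hpt ω]
        exact (ENNReal.tsum_le_tsum fun t => cw_mono hsub t).trans
          (sum_cw_map hε (eS_norm hε) _ _)
    _ = ENNReal.ofReal (ε ^ 2) *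
          ∫⁻ ω, ∑' t : T3, cw (Mass1x302.ps (cfg 1 ω)) (sq (gi k) (L : ℝ)) t ∂sampleLaw :=
        lintegral_const_mul' _ _ ENNReal.ofReal_ne_top
    _ ≤ ENNReal.ofReal (ε ^ 2) * (C * (L : ℝ≥0∞) ^ 2) := by
        gcongr
        exact mom_gi h k L
    _ = C * ENNReal.ofReal ((ε * (L : ℝ)) ^ 2) := by
        rw [mul_pow, ENNReal.ofReal_mul (by positivity), ENNReal.ofReal_pow (by positivity) 2,
          ENNReal.ofReal_pow (by positivity : (0 : ℝ) ≤ (L : ℝ)) 2, ENNReal.ofReal_natCast]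
        ring
    _ ≤ C * ENNReal.ofReal ((3 * s) ^ 2) := by
        gcongr
    _ = 9 * C * ENNReal.ofReal (s ^ 2) := by
        rw [mul_pow, ENNReal.ofReal_mul (by positivity)]
        have : ENNReal.ofReal ((3 : ℝ) ^ 2) = 9 := by norm_num
        rw [this]; ring

/-! ## the local energy -/

/-- Delaunay triangles with centre in `D` and circumradius at most `d` -/
def Ht (D : Set ℂ) (d : ℝ) (X : Set (ℂ × Bool)) (t : T3) : Prop :=
  Del (FinMx609.ps X) t.1 t.2.1 t.2.2 ∧ cen3 t ∈ D ∧ rad3 t ≤ d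

/-- the sum of the squares of their circumradii -/
def Hd (D : Set ℂ) (d : ℝ) (X : Set (ℂ × Bool)) : ℝ≥0∞ :=
  ∑ᶠ (t : T3) (_ : Ht D d X t), ENNReal.ofReal (rad3 t ^ 2)

variable {D W : Set ℂ} {d : ℝ}

theorem Hd_meas (hD : MeasurableSet D) (d : ℝ) : FinMeas (Hd D d) := by
  have hR : ∀ _ : Unit, MeasurableSet {t : T3 | cen3 t ∈ D ∧ rad3 t ≤ d} := fun _ =>
    (meas_cen3 hD).inter (measurableSet_le meas_rad3 measurable_const)
  refine fme_sum (U := fun a : Empty => a.elim) (R := fun (_ : Unit) t => cen3 t ∈ D ∧ rad3 t ≤ d)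
    (fun a => a.elim) hR (P := Ht D d) ?_ ?_ (meas_rad3.pow_const 2).ennreal_ofReal
  · rintro X t ⟨⟨h1, h2, h3, -⟩, -⟩
    exact ⟨h1, h2, h3⟩
  · rintro X X' - - e he x hx y hy w hw ⟨h1, h2⟩
    exact ⟨(he.del x hx y hy w hw).1 h1, (he.rel x hx y hy w hw ()).1 h2⟩

theorem ps_ovr (X : Set (ℂ × Bool)) (B : Set ℂ) :
    FinMx609.ps (X ∩ {p | p.1 ∈ B}) = FinMx609.ps X ∩ B := by
  ext x
  unfold FinMx609.ps
  simp only [mem_image, mem_inter_iff, mem_ofPred_eq]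
  constructor
  · rintro ⟨p, ⟨h1, h2⟩, rfl⟩
    exact ⟨⟨p, h1, rfl⟩, h2⟩
  · rintro ⟨⟨p, h1, rfl⟩, h2⟩
    exact ⟨p, ⟨h1, h2⟩, rfl⟩

theorem Ht_local (hW : ∀ o ∈ D, Metric.closedBall o d ⊆ W) (X : Set (ℂ × Bool)) (t : T3) :
    Ht D d X t ↔ Ht D d (X ∩ {p | p.1 ∈ W}) t := by
  unfold Ht
  rw [ps_ovr]
  refine and_congr_left fun h => ?_
  obtain ⟨h1, h2⟩ := h
  have hW' := hW _ h1
  unfold rad3 at h2
  have hm : ∀ {x : ℂ}, ‖x - cen3 t‖ ≤ d → x ∈ W := fun {x} hx =>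
    hW' (by rw [Metric.mem_closedBall, dist_eq_norm]; exact hx)
  rw [del_iff, del_iff]
  constructor
  · rintro ⟨a, b, c, hc, he⟩
    obtain ⟨e1, e2⟩ := (cen3_iff hc).2 rfl
    have e1' : ‖t.2.1 - cen3 t‖ = ‖t.1 - cen3 t‖ := e1
    have e2' : ‖t.2.2 - cen3 t‖ = ‖t.1 - cen3 t‖ := e2
    exact ⟨⟨a, hm h2⟩, ⟨b, hm (e1'.le.trans h2)⟩, ⟨c, hm (e2'.le.trans h2)⟩, hc,
      fun s hs => he s hs.1⟩
  · rintro ⟨a, b, c, hc, he⟩
    refine ⟨a.1, b.1, c.1, hc, fun s hs => ?_⟩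
    by_cases hsW : s ∈ W
    · exact he s ⟨hs, hsW⟩
    · by_contra hcon
      have h3 : ‖s - cen3 t‖ ≤ ‖t.1 - cen3 t‖ := (not_le.1 hcon).le
      exact hsW (hm (h3.trans h2))

theorem Hd_local (hW : ∀ o ∈ D, Metric.closedBall o d ⊆ W) : LocalOn W (Hd D d) := by
  intro X
  unfold Hd
  refine finsum_congr fun t => ?_
  rw [show Ht D d X t = Ht D d (X ∩ {p | p.1 ∈ W}) t from propext (Ht_local hW X t)]

/-- a `finsum` is at most the `tsum` -/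
theorem finsum_le_tsum' {α : Type*} (f : α → ℝ≥0∞) : ∑ᶠ a, f a ≤ ∑' a, f a := by
  by_cases h : (Function.support f).Finite
  · rw [finsum_eq_sum f h]
    exact ENNReal.sum_le_tsum _
  · rw [finsum_of_infinite_support h]
    exact zero_le

open scoped Classical in
theorem Hd_le {U : Set ℂ} (hU : ∀ o ∈ D, Metric.closedBall o d ⊆ U) (X : Set (ℂ × Bool)) :
    Hd D d X ≤ ∑' t : T3, cw (FinMx609.ps X) U t := by
  unfold Hd
  refine (finsum_le_tsum' _).trans (ENNReal.tsum_le_tsum fun t => ?_)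
  by_cases h : Ht D d X t
  · rw [finsum_eq_if, if_pos h]
    obtain ⟨h0, h1, h2⟩ := h
    obtain ⟨a, b, c, hc, h4⟩ := del_iff.1 h0
    obtain ⟨e1, e2⟩ := (cen3_iff hc).2 rfl
    refine le_cw ⟨a, b, c, e1, e2, h4⟩ ?_
    exact (Metric.closedBall_subset_closedBall h2).trans (hU _ h1)
  · rw [finsum_eq_if, if_neg h]
    exact zero_le

/-- **mean of the local energy** -/
theorem Hd_mean : ∃ C : ℝ≥0∞, C ≠ ∞ ∧ ∀ ε s : ℝ, 0 < ε → ε ≤ s → ∀ (z : ℂ) (D : Set ℂ) (d : ℝ),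
    (∀ o ∈ D, Metric.closedBall o d ⊆ sq z s) →
    ∫⁻ ω, Hd D d (cfg ε ω) ∂sampleLaw ≤ C * ENNReal.ofReal (s ^ 2) := by
  obtain ⟨C, hC, h⟩ := mom_sq
  refine ⟨C, hC, fun ε s hε hs z D d hD => le_trans (lintegral_mono fun ω => ?_) (h ε s hε hs z)⟩
  have h1 := Hd_le hD (cfg ε ω)
  have h2 : FinMx609.ps (cfg ε ω) = points ε ω := Mass5x302.ps_cfg ε ω
  rwa [h2] at h1

/-! ## the weight off a window -/

section net

variable {ε : ℝ} {ι κ : Type*} (M : Net ε ι κ)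

theorem fac_le_e {k : κ} {S : Cf} (hS : S.Finite) (h : ∀ i ∈ M.N k, M.a i S ≠ 0) :
    M.fac k S ≤ M.e k S := by
  have h1 := M.pos k S hS h
  have h2 : Rs ε (M.C k) (M.e k) S ≠ 0 := fun h => M.c0 (le_zero_iff.1 (h ▸ h1))
  have h3 : Rs ε (M.C k) (M.e k) S ≠ ∞ := ne_top_of_le_ne_top ENNReal.one_ne_top
    (Rs_le M.eps (M.Cb k) (M.e1 k) (M.em k) hS)
  calc M.fac k S ≤ M.e k S * (Rs ε (M.C k) (M.e k) S * (Rs ε (M.C k) (M.e k) S)⁻¹) := by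
        unfold Net.fac
        gcongr
    _ = M.e k S := by rw [ENNReal.mul_inv_cancel h2 h3, mul_one]

variable [DecidableEq ι] [DecidableEq κ] {I I₁ : Finset ι} {J J₁ : Finset κ}

/-- the weight of the window, without normalisation -/
def win (I₁ : Finset ι) (J₁ : Finset κ) (S : Cf) : ℝ≥0∞ := (∏ i ∈ I₁, M.a i S) * ∏ k ∈ J₁, M.e k S

omit [DecidableEq ι] [DecidableEq κ] in
theorem win_le_one (S : Cf) : win M I₁ J₁ S ≤ 1 := by
  unfold win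
  calc (∏ i ∈ I₁, M.a i S) * ∏ k ∈ J₁, M.e k S ≤ 1 * 1 := by
        gcongr
        · exact Finset.prod_le_one' fun i _ => M.a1 i S
        · exact Finset.prod_le_one' fun k _ => M.e1 k S
    _ = 1 := one_mul _

theorem gw_off_fin (hI : I₁ ⊆ I) (hJ : J₁ ⊆ J) (hN : ∀ k ∈ J, M.N k ⊆ I) {S : Cf}
    (hS : S.Finite) : M.gw I J S ≤ M.gw (I \ I₁) (J \ J₁) S * win M I₁ J₁ S := by
  by_cases h0 : ∏ i ∈ I, M.a i S = 0
  · unfold Net.gw; rw [h0, zero_mul]; exact zero_le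
  have h1 : ∀ i ∈ I, M.a i S ≠ 0 := fun i hi h => h0 (Finset.prod_eq_zero hi h)
  have e1 : ∏ i ∈ I, M.a i S = (∏ i ∈ I \ I₁, M.a i S) * ∏ i ∈ I₁, M.a i S :=
    (Finset.prod_sdiff hI).symm
  have e2 : ∏ k ∈ J, M.fac k S = (∏ k ∈ J \ J₁, M.fac k S) * ∏ k ∈ J₁, M.fac k S :=
    (Finset.prod_sdiff hJ).symm
  have h2 : ∏ k ∈ J₁, M.fac k S ≤ ∏ k ∈ J₁, M.e k S :=
    Finset.prod_le_prod' fun k hk => fac_le_e M hS fun i hi => h1 i (hN k (hJ hk) hi)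
  calc M.gw I J S = M.gw (I \ I₁) (J \ J₁) S * ((∏ i ∈ I₁, M.a i S) * ∏ k ∈ J₁, M.fac k S) := by
        unfold Net.gw
        rw [e1, e2]; ring
    _ ≤ _ := by
        unfold win
        gcongr

/-- **the weight is at most the weight off the window times the factors of the window** -/
theorem gw_off (hI : I₁ ⊆ I) (hJ : J₁ ⊆ J) (hN : ∀ k ∈ J, M.N k ⊆ I)
    (hN₁ : ∀ k ∈ J \ J₁, M.N k ⊆ I \ I₁) (ω : Sample) :
    M.gw I J (cfg ε ω) ≤ M.gw (I \ I₁) (J \ J₁) (cfg ε ω) * win M I₁ J₁ (cfg ε ω) := by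
  have h1 := gw_off_fin M hI hJ hN (cfg_finite M.eps (M.reg_bdd I J) ω)
  have h2 := M.gw_local hN (cfg ε ω)
  have h3 : LocalOn (M.reg I J) fun S => M.gw (I \ I₁) (J \ J₁) S * win M I₁ J₁ S := by
    refine LocalOn.mul (LocalOn.mono (M.reg_mono Finset.sdiff_subset Finset.sdiff_subset)
      (M.gw_local hN₁)) (LocalOn.mul ?_ (local_prod' J₁ fun k hk => LocalOn.mono ?_ (M.el k)))
    · exact LocalOn.mono (M.reg_mono hI hJ) (M.a_local (I := I₁) (J := J₁))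
    · exact union_subset_union (biUnion_subset_biUnion_left (hN k (hJ hk)))
        (subset_biUnion_of_mem (u := M.C) (hJ hk))
  rw [h2]
  exact h1.trans_eq (h3 (cfg ε ω)).symm

theorem mass_off (hI : I₁ ⊆ I) (hJ : J₁ ⊆ J) (hN : ∀ k ∈ J, M.N k ⊆ I)
    (hN₁ : ∀ k ∈ J \ J₁, M.N k ⊆ I \ I₁) :
    (M.c ^ J₁.card * ∏ i ∈ I₁, ∫⁻ ω, M.a i (cfg ε ω) ∂sampleLaw) *
        ∫⁻ ω, M.gw (I \ I₁) (J \ J₁) (cfg ε ω) ∂sampleLaw =
      ∫⁻ ω, M.gw I J (cfg ε ω) ∂sampleLaw := by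
  rw [M.mass hN, M.mass hN₁]
  have h1 : J.card = (J \ J₁).card + J₁.card := (Finset.card_sdiff_add_card_eq_card hJ).symm
  have h2 : ∏ i ∈ I, ∫⁻ ω, M.a i (cfg ε ω) ∂sampleLaw =
      (∏ i ∈ I \ I₁, ∫⁻ ω, M.a i (cfg ε ω) ∂sampleLaw) *
        ∏ i ∈ I₁, ∫⁻ ω, M.a i (cfg ε ω) ∂sampleLaw := (Finset.prod_sdiff hI).symm
  rw [h1, h2, pow_add]
  ring

/-- **WINDOW**: from a bound relative to the weight off the window to a bound relative to the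
weight. `X` is any function, `H` lives in `W`, away from the regions off the window. -/
theorem window (hI : I₁ ⊆ I) (hJ : J₁ ⊆ J) (hN : ∀ k ∈ J, M.N k ⊆ I)
    (hN₁ : ∀ k ∈ J \ J₁, M.N k ⊆ I \ I₁) {X : Sample → ℝ≥0∞} {H : Cf → ℝ≥0∞} {W : Set ℂ}
    (hW : MeasurableSet W) (hWb : Bornology.IsBounded W)
    (hd : Disjoint (M.reg (I \ I₁) (J \ J₁)) W) (hHl : LocalOn W H) (hHm : FinMeas H)
    {K : ℝ≥0∞} (hX : ∫⁻ ω, M.gw (I \ I₁) (J \ J₁) (cfg ε ω) *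
        (win M I₁ J₁ (cfg ε ω) * X ω) ∂sampleLaw ≤
      K * ∫⁻ ω, M.gw (I \ I₁) (J \ J₁) (cfg ε ω) * H (cfg ε ω) ∂sampleLaw) :
    (M.c ^ J₁.card * ∏ i ∈ I₁, ∫⁻ ω, M.a i (cfg ε ω) ∂sampleLaw) *
        ∫⁻ ω, M.gw I J (cfg ε ω) * X ω ∂sampleLaw ≤
      K * (∫⁻ ω, H (cfg ε ω) ∂sampleLaw) * ∫⁻ ω, M.gw I J (cfg ε ω) ∂sampleLaw := by
  have h1 : ∫⁻ ω, M.gw I J (cfg ε ω) * X ω ∂sampleLaw ≤
      ∫⁻ ω, M.gw (I \ I₁) (J \ J₁) (cfg ε ω) * (win M I₁ J₁ (cfg ε ω) * X ω) ∂sampleLaw := by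
    refine lintegral_mono fun ω => ?_
    show M.gw I J (cfg ε ω) * X ω ≤ _
    rw [← mul_assoc]
    gcongr
    exact gw_off M hI hJ hN hN₁ ω
  rw [lint_mul M.eps (M.reg_meas _ _) (M.reg_bdd _ _) hW hWb hd (M.gw_local hN₁) hHl
    (M.gw_meas _ _) hHm] at hX
  calc (M.c ^ J₁.card * ∏ i ∈ I₁, ∫⁻ ω, M.a i (cfg ε ω) ∂sampleLaw) *
        ∫⁻ ω, M.gw I J (cfg ε ω) * X ω ∂sampleLaw
      ≤ (M.c ^ J₁.card * ∏ i ∈ I₁, ∫⁻ ω, M.a i (cfg ε ω) ∂sampleLaw) *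
          (K * ((∫⁻ ω, M.gw (I \ I₁) (J \ J₁) (cfg ε ω) ∂sampleLaw) *
            ∫⁻ ω, H (cfg ε ω) ∂sampleLaw)) := by
        gcongr
        exact h1.trans hX
    _ = K * (∫⁻ ω, H (cfg ε ω) ∂sampleLaw) *
          ((M.c ^ J₁.card * ∏ i ∈ I₁, ∫⁻ ω, M.a i (cfg ε ω) ∂sampleLaw) *
            ∫⁻ ω, M.gw (I \ I₁) (J \ J₁) (cfg ε ω) ∂sampleLaw) := by ring
    _ = _ := by rw [mass_off M hI hJ hN hN₁]

end net

/-- **TILE**: one constant for all the tiles of all the nets of all the scales -/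
theorem tile : ∃ C : ℝ≥0∞, C ≠ ∞ ∧ ∀ {ε s : ℝ} {ι κ : Type} [DecidableEq ι] [DecidableEq κ]
    (M : Net ε ι κ) (I I₁ : Finset ι) (J J₁ : Finset κ), ε ≤ s → I₁ ⊆ I → J₁ ⊆ J →
    (∀ k ∈ J, M.N k ⊆ I) → (∀ k ∈ J \ J₁, M.N k ⊆ I \ I₁) →
    ∀ (z : ℂ) (D W : Set ℂ) (d : ℝ), MeasurableSet D → MeasurableSet W → W ⊆ sq z s →
    (∀ o ∈ D, Metric.closedBall o d ⊆ W) → Disjoint (M.reg (I \ I₁) (J \ J₁)) W →
    ∀ (X : Sample → ℝ≥0∞) (K : ℝ≥0∞),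
    ∫⁻ ω, M.gw (I \ I₁) (J \ J₁) (cfg ε ω) * (win M I₁ J₁ (cfg ε ω) * X ω) ∂sampleLaw ≤
      K * ∫⁻ ω, M.gw (I \ I₁) (J \ J₁) (cfg ε ω) * Hd D d (cfg ε ω) ∂sampleLaw →
    (M.c ^ J₁.card * ∏ i ∈ I₁, ∫⁻ ω, M.a i (cfg ε ω) ∂sampleLaw) *
        ∫⁻ ω, M.gw I J (cfg ε ω) * X ω ∂sampleLaw ≤
      K * (C * ENNReal.ofReal (s ^ 2)) * ∫⁻ ω, M.gw I J (cfg ε ω) ∂sampleLaw := by
  obtain ⟨C, hC, h⟩ := Hd_mean
  refine ⟨C, hC, ?_⟩
  intro ε s ι κ _ _ M I I₁ J J₁ hs hI hJ hN hN₁ z D W d hD hW hWs hDW hd X K hX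
  have hb : Bornology.IsBounded (sq z s) := by
    refine (Metric.isBounded_closedBall (x := z) (r := 2 * |s|)).subset ?_
    rintro w ⟨a1, a2, a3, a4⟩
    rw [Metric.mem_closedBall, dist_eq_norm]
    have h1 := Complex.norm_le_abs_re_add_abs_im (w - z)
    have h2 : |(w - z).re| ≤ |s| := by
      rw [Complex.sub_re, abs_of_nonneg (by linarith), abs_of_nonneg (by linarith)]
      linarith
    have h3 : |(w - z).im| ≤ |s| := by
      rw [Complex.sub_im, abs_of_nonneg (by linarith), abs_of_nonneg (by linarith)]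
      linarith
    linarith
  refine (window M hI hJ hN hN₁ hW (hb.subset hWs) hd (Hd_local hDW) (Hd_meas hD d) hX).trans ?_
  gcongr
  exact h ε s M.eps hs z D d fun o ho => (hDW o ho).trans hWs

end Crest.Agent.R143.TilePx176
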