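import Crest.Agent.R143.FinC_811
import Crest.Agent.R143.FinM_609
import Crest.Agent.R143.Dbl2_609
import Crest.Agent.R143.TileP_176

/-!
# Row 143 (S0194), box R6, model half: energy, spin, double sum (helper490, for 176)

* `energy` : (E1) a field dominated by `Nn`, carried by the faces with centre in `A` and
  radius at most `d`, has energy at most `9 * Hd A d X` (`Hd` of 176)
* `spin_res`, `spin_ch`, `spin_nn`, `spin_restr` : (E2)
* `bk`, `sum_cells`, `sum_cells2`, `le_cells`, `le_cells2` : (E3) sums over the black sets of sites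
  against sums over the colourings of the cells, for functions of the colours of the inner sites
-/

set_option autoImplicit false

noncomputable section

open scoped Classical

namespace Crest.Agent.R143.Engx490

open Crest.Agent.R143.B0x346 Crest.Agent.R143.Mass1x302 Crest.Agent.R143.Mass3x302
  Crest.Agent.R143.DelGx806 Crest.Agent.R143.Mass4x302
  Crest.Agent.R143.Mass5x302 Crest.Agent.R143.FinCx811
open Crest.Agent.R143.Frame1x395 Crest.Agent.R143.Frame2x395 Crest.Agent.R143.Frame3x395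
  Crest.Agent.R143.Frame4x395 Crest.Agent.R143.Frame8x395 Crest.Agent.R143.Frame10x395
open Crest.Agent.R143.Frame5x395 (sd mem_sd th th_spec)
open Crest.Agent.R143.FinMx609 (cen3 rad3 cen3_iff del_iff)
open Crest.Agent.R143.Dbl2x609 (paint paint2)
open Crest.Agent.R143.TilePx176 (Ht Hd)
open scoped ENNReal

/-! ### (E1) energy -/

variable {S : Finset ℂ}

/-- the face of a dart -/
def fc (S : Finset ℂ) (g : D0 S) : T3 := (g.1.1, g.1.2, th S g.1)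

/-- the face of a gap dart, the minority site in the middle -/
def tt (S : Finset ℂ) (g : D0 S) : T3 := (g.1.2, th S g.1, g.1.1)

theorem fc_del (g : D0 S) : Del (S : Set ℂ) (fc S g).1 (fc S g).2.1 (fc S g).2.2 :=
  (Finset.mem_filter.1 (th_spec g.2)).2

theorem tt_inj {g g' : D0 S} (h : tt S g = tt S g') : g = g' := by
  have e1 : g.1.2 = g'.1.2 := congrArg (fun t : T3 => t.1) h
  have e2 : g.1.1 = g'.1.1 := congrArg (fun t : T3 => t.2.2) h
  exact Subtype.ext (Prod.ext e2 e1)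

/-- rotation invariance of the centre -/
theorem cen3_rot {a b c : ℂ} (h : 0 < cr (b - a) (c - a)) : cen3 (b, c, a) = cen3 (a, b, c) := by
  have h' : 0 < cr (c - b) (a - b) := by rw [← cr_rot]; exact h
  obtain ⟨h1, h2⟩ := (cen3_iff h).2 rfl
  exact ((cen3_iff h').1 ⟨h2.trans h1.symm, h1.symm⟩).symm

theorem rad3_rot {a b c : ℂ} (h : 0 < cr (b - a) (c - a)) : rad3 (b, c, a) = rad3 (a, b, c) := by
  obtain ⟨h1, -⟩ := (cen3_iff h).2 rfl
  show ‖b - cen3 (b, c, a)‖ = ‖a - cen3 (a, b, c)‖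
  rw [cen3_rot h]
  exact h1

theorem tt_del (g : D0 S) : Del (S : Set ℂ) (tt S g).1 (tt S g).2.1 (tt S g).2.2 :=
  Crest.Agent.R143.Mass2x302.del_rot (fc_del g)

theorem cen3_tt (g : D0 S) : cen3 (tt S g) = cen3 (fc S g) := cen3_rot (fc_del g).2.2.2.1

theorem rad3_tt (g : D0 S) : rad3 (tt S g) = rad3 (fc S g) := rad3_rot (fc_del g).2.2.2.1

/-- the charge of a face is at most three radii -/
theorem nn_le {a b c : ℂ} (h : 0 < cr (b - a) (c - a)) : ‖Nn (a, b, c)‖ ≤ 3 * rad3 (a, b, c) := by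
  obtain ⟨h1, h2⟩ := (cen3_iff h).2 rfl
  exact Nn_le (t := (a, b, c)) h1 h2

/-- a finite sum is at most the sum over all triples -/
theorem le_Hd {A : Set ℂ} {d : ℝ} {X : Set (ℂ × Bool)}
    (hX : Crest.Agent.R143.FinMx609.ps X = (S : Set ℂ)) (G : Finset (D0 S))
    (hG : ∀ g ∈ G, cen3 (fc S g) ∈ A ∧ rad3 (fc S g) ≤ d) :
    ∑ g ∈ G, ENNReal.ofReal (rad3 (fc S g) ^ 2) ≤ Hd A d X := by
  set F : T3 → ℝ≥0∞ := fun t => ∑ᶠ (_ : Ht A d X t), ENNReal.ofReal (rad3 t ^ 2) with hF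
  have hFt : ∀ t, F t = if Ht A d X t then ENNReal.ofReal (rad3 t ^ 2) else 0 := by
    intro t
    by_cases h : Ht A d X t
    · rw [if_pos h]
      simp only [hF]
      exact finsum_eq_single (α := Ht A d X t) _ h (fun x hx => absurd (Subsingleton.elim _ _) hx)
    · rw [if_neg h]
      simp only [hF]
      have : IsEmpty (Ht A d X t) := ⟨h⟩
      exact finsum_of_isEmpty _
  have hsub : Function.support F ⊆ ((S ×ˢ (S ×ˢ S) : Finset T3) : Set T3) := by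
    intro t ht
    rw [Function.mem_support, hFt] at ht
    have h1 : Ht A d X t := by
      by_contra hc
      exact ht (if_neg hc)
    obtain ⟨⟨m1, m2, m3, -⟩, -⟩ := h1
    rw [hX] at m1 m2 m3
    exact Finset.mem_coe.2 (Finset.mem_product.2 ⟨m1, Finset.mem_product.2 ⟨m2, m3⟩⟩)
  have e1 : Hd A d X = ∑ t ∈ (S ×ˢ (S ×ˢ S) : Finset T3), F t := by
    show ∑ᶠ t, F t = _
    exact finsum_eq_sum_of_support_subset F hsub
  have e2 : ∑ g ∈ G, ENNReal.ofReal (rad3 (fc S g) ^ 2) = ∑ g ∈ G, F (tt S g) := by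
    refine Finset.sum_congr rfl fun g hg => ?_
    obtain ⟨h1, h2⟩ := hG g hg
    rw [hFt, if_pos, rad3_tt]
    refine ⟨?_, ?_, ?_⟩
    · rw [hX]; exact tt_del g
    · rw [cen3_tt]; exact h1
    · rw [rad3_tt]; exact h2
  have e3 : ∑ g ∈ G, F (tt S g) = ∑ t ∈ G.image (tt S), F t :=
    (Finset.sum_image (f := F) fun g _ g' _ e => tt_inj e).symm
  rw [e1, e2, e3]
  refine Finset.sum_le_sum_of_subset fun t ht => ?_
  obtain ⟨g, -, rfl⟩ := Finset.mem_image.1 ht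
  obtain ⟨m1, m2, m3, -⟩ := tt_del g
  exact Finset.mem_product.2 ⟨m1, Finset.mem_product.2 ⟨m2, m3⟩⟩

/-- **(E1)** -/
theorem energy {A : Set ℂ} {d : ℝ} {X : Set (ℂ × Bool)}
    (hX : Crest.Agent.R143.FinMx609.ps X = (S : Set ℂ)) {a : D0 S → ℂ}
    (ha : ∀ g : D0 S, ‖a g‖ ≤ ‖Nn (g.1.2, th S g.1, g.1.1)‖)
    (hs : ∀ g : D0 S, a g ≠ 0 → cen3 (fc S g) ∈ A ∧ rad3 (fc S g) ≤ d) :
    ENNReal.ofReal (∑ g, ‖a g‖ ^ 2) ≤ 9 * Hd A d X := by
  set G : Finset (D0 S) := Finset.univ.filter fun g => a g ≠ 0 with hG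
  have e0 : ∑ g, ‖a g‖ ^ 2 = ∑ g ∈ G, ‖a g‖ ^ 2 := by
    symm
    refine Finset.sum_subset (Finset.subset_univ _) fun g _ hg => ?_
    have h0 : a g = 0 := by
      by_contra hc
      exact hg (Finset.mem_filter.2 ⟨Finset.mem_univ _, hc⟩)
    rw [h0, norm_zero]
    norm_num
  rw [e0, ENNReal.ofReal_sum_of_nonneg fun g _ => by positivity]
  calc ∑ g ∈ G, ENNReal.ofReal (‖a g‖ ^ 2)
      ≤ ∑ g ∈ G, 9 * ENNReal.ofReal (rad3 (fc S g) ^ 2) := by
        refine Finset.sum_le_sum fun g _ => ?_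
        have h1 : ‖a g‖ ≤ 3 * rad3 (fc S g) := by
          refine (ha g).trans ?_
          have h2 := nn_le (a := g.1.2) (b := th S g.1) (c := g.1.1) (tt_del g).2.2.2.1
          rw [show rad3 (g.1.2, th S g.1, g.1.1) = rad3 (fc S g) from rad3_tt g] at h2
          exact h2
        calc ENNReal.ofReal (‖a g‖ ^ 2) ≤ ENNReal.ofReal ((3 * rad3 (fc S g)) ^ 2) :=
              ENNReal.ofReal_le_ofReal (pow_le_pow_left₀ (norm_nonneg _) h1 2)
          _ = 9 * ENNReal.ofReal (rad3 (fc S g) ^ 2) := by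
              rw [mul_pow, ENNReal.ofReal_mul (by positivity)]
              congr 1
              norm_num
    _ = 9 * ∑ g ∈ G, ENNReal.ofReal (rad3 (fc S g) ^ 2) := by rw [Finset.mul_sum]
    _ ≤ 9 * Hd A d X := by
        gcongr
        exact le_Hd hX G fun g hg => hs g (Finset.mem_filter.1 hg).2

/-! ### (E2) spin -/

/-- restriction of a spin field to a rotation invariant set of darts -/
theorem spin_res {D C : Type} {M : CMap D C} {w : ℂ} {a : D → ℂ} (ha : Spin M w a) {Q : D → Prop}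
    [DecidablePred Q] (hQ : ∀ d, Q (M.rho d) ↔ Q d) : Spin M w fun d => if Q d then a d else 0 := by
  intro d
  show (if Q (M.rho d) then a (M.rho d) else 0) = w * if Q d then a d else 0
  rw [if_congr (hQ d) rfl rfl, ha d]
  split_ifs
  · rfl
  · rw [mul_zero]

/-- the centre of the face is rotation invariant -/
theorem cen_rho (hS : GP (S : Set ℂ)) (g : D0 S) :
    cen3 (fc S ((cm0 hS).rho g)) = cen3 (fc S g) := by
  obtain ⟨⟨a, b⟩, he⟩ := g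
  have ht : (a, b, th S (a, b)) ∈ delT S := th_spec he
  have h2 : th S (b, th S (a, b)) = a := th0 hS (Crest.Agent.R143.JColx54.delT_rot hS ht)
  show cen3 (b, th S (a, b), th S (b, th S (a, b))) = cen3 (a, b, th S (a, b))
  rw [h2]
  exact cen3_rot (Finset.mem_filter.1 ht).2.2.2.2.1

theorem rad_rho (hS : GP (S : Set ℂ)) (g : D0 S) :
    rad3 (fc S ((cm0 hS).rho g)) = rad3 (fc S g) := by
  obtain ⟨⟨a, b⟩, he⟩ := g
  have ht : (a, b, th S (a, b)) ∈ delT S := th_spec he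
  have h2 : th S (b, th S (a, b)) = a := th0 hS (Crest.Agent.R143.JColx54.delT_rot hS ht)
  show rad3 (b, th S (a, b), th S (b, th S (a, b))) = rad3 (a, b, th S (a, b))
  rw [h2]
  exact rad3_rot (Finset.mem_filter.1 ht).2.2.2.2.1

/-- charge of a gap dart, without a domain -/
def nn (S : Finset ℂ) (g : D0 S) : ℂ := Nn (g.1.2, th S g.1, g.1.1)

theorem nn_spin (hS : GP (S : Set ℂ)) : Spin (cm0 hS) om (nn S) := by
  rintro ⟨⟨a, b⟩, he⟩
  set c := th S (a, b) with hc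
  have ht : (a, b, c) ∈ delT S := th_spec he
  have h2 : th S (b, c) = a := th0 hS (Crest.Agent.R143.JColx54.delT_rot hS ht)
  have e1 : nn S ((cm0 hS).rho ⟨(a, b), he⟩) = Nn (c, a, b) := by
    show Nn (c, th S (b, c), b) = _
    rw [h2]
  have e2 : nn S ⟨(a, b), he⟩ = Nn (b, c, a) := rfl
  rw [e1, e2]
  unfold Nn
  show (starRingEnd ℂ) a + om * (starRingEnd ℂ) c + om ^ 2 * (starRingEnd ℂ) b =
    om * ((starRingEnd ℂ) c + om * (starRingEnd ℂ) b + om ^ 2 * (starRingEnd ℂ) a)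
  linear_combination (-(starRingEnd ℂ) a) * om3

/-- **(E2)** with a domain -/
theorem spin_ch (hS : GP (S : Set ℂ)) (P U A : Set ℂ) :
    Spin (cm0 hS) om fun g => if cen3 (fc S g) ∈ A then ch P U S g else 0 :=
  spin_res (ch_spin hS) fun d => by rw [cen_rho hS d]

/-- **(E2)** without a domain -/
theorem spin_nn (hS : GP (S : Set ℂ)) (A : Set ℂ) :
    Spin (cm0 hS) om fun g => if cen3 (fc S g) ∈ A then nn S g else 0 :=
  spin_res (nn_spin hS) fun d => by rw [cen_rho hS d]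

/-- **(E2)** centre in `A` and radius at most `r` -/
theorem spin_nn_rad (hS : GP (S : Set ℂ)) (A : Set ℂ) (r : ℝ) :
    Spin (cm0 hS) om fun g => if cen3 (fc S g) ∈ A ∧ rad3 (fc S g) ≤ r then nn S g else 0 :=
  spin_res (Q := fun g => cen3 (fc S g) ∈ A ∧ rad3 (fc S g) ≤ r) (nn_spin hS) fun d => by
    rw [cen_rho hS d, rad_rho hS d]

theorem spin_restr {D C : Type} {M : CMap D C} {w : ℂ} {a : D → ℂ} (ha : Spin M w a) :
    Spin (restr M) w a := ha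

theorem spin_rc0 (hS : GP (S : Set ℂ)) {w : ℂ} {a : D0 S → ℂ} (ha : Spin (cm0 hS) w a) :
    Spin (rc0 hS) w a := ha

theorem ch_norm (P U : Set ℂ) (g : D0 S) : ‖ch P U S g‖ ≤ ‖Nn (g.1.2, th S g.1, g.1.1)‖ := by
  unfold ch
  split_ifs
  · exact le_rfl
  · rw [norm_zero]
    exact norm_nonneg _

/-! ### (E3) sums over the colourings -/

/-- the black sites of a colouring of the cells -/
def bk (hS : GP (S : Set ℂ)) (h3 : 3 ≤ S.card) (σ : Cs hS → ZMod 2) : Finset ℂ :=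
  S.filter fun v => ∃ h : v ∈ S, σ (cs hS h3 ⟨v, h⟩) = 1

theorem mem_bk {hS : GP (S : Set ℂ)} {h3 : 3 ≤ S.card} {σ : Cs hS → ZMod 2} {v : ℂ} (hv : v ∈ S) :
    v ∈ bk hS h3 σ ↔ σ (cs hS h3 ⟨v, hv⟩) = 1 := by
  unfold bk
  rw [Finset.mem_filter]
  exact ⟨fun ⟨_, _, h⟩ => h, fun h => ⟨hv, hv, h⟩⟩

theorem bk_sub (hS : GP (S : Set ℂ)) (h3 : 3 ≤ S.card) (σ : Cs hS → ZMod 2) :
    bk hS h3 σ ⊆ S := Finset.filter_subset _ _

/-- number of inner sites -/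
def ni (S : Finset ℂ) : ℕ := (S.filter fun v => ¬ OnHull S v).card

/-- the black sites of a colouring of the sites -/
def fb (S : Finset ℂ) (σ : {v // v ∈ S} → ZMod 2) : Finset ℂ :=
  S.filter fun v => ∃ h : v ∈ S, σ ⟨v, h⟩ = 1

theorem mem_fb {σ : {v // v ∈ S} → ZMod 2} {v : ℂ} (hv : v ∈ S) :
    v ∈ fb S σ ↔ σ ⟨v, hv⟩ = 1 := by
  unfold fb
  rw [Finset.mem_filter]
  exact ⟨fun ⟨_, _, h⟩ => h, fun h => ⟨hv, hv, h⟩⟩

theorem sum_fb {R : Type*} [AddCommMonoid R] (g : Finset ℂ → R) :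
    ∑ σ : {v // v ∈ S} → ZMod 2, g (fb S σ) = ∑ β ∈ S.powerset, g β := by
  refine Finset.sum_bij' (fun σ _ => fb S σ)
    (fun β _ => fun z : {v // v ∈ S} => if (z : ℂ) ∈ β then 1 else 0) ?_ ?_ ?_ ?_ ?_
  · intro σ _
    rw [Finset.mem_powerset]
    exact Finset.filter_subset _ _
  · intro β _; exact Finset.mem_univ _
  · intro σ _
    funext z
    show (if (z : ℂ) ∈ fb S σ then (1 : ZMod 2) else 0) = σ z
    rw [if_congr (mem_fb z.2) rfl rfl]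
    split_ifs with h
    · exact h.symm
    · rcases z01 (σ z) with h1 | h1
      · exact h1.symm
      · exact absurd h1 h
  · intro β hβ
    ext v
    constructor
    · intro hv
      have hvS : v ∈ S := Finset.filter_subset _ _ hv
      have h1 := (mem_fb hvS).1 hv
      by_contra hc
      rw [if_neg hc] at h1
      exact absurd h1 (by decide)
    · intro hv
      have hvS : v ∈ S := Finset.mem_powerset.1 hβ hv
      exact (mem_fb hvS).2 (if_pos hv)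
  · intro σ _; rfl

/-- the black sets agree on the inner sites -/
def Eqi (S b c : Finset ℂ) : Prop := ∀ v ∈ S, ¬ OnHull S v → (v ∈ b ↔ v ∈ c)

/-- **(E3)** one colouring: a function of the colours of the inner sites -/
theorem sum_cells {R : Type*} [AddCommMonoid R] (hS : GP (S : Set ℂ)) (h3 : 3 ≤ S.card)
    (Φ : Finset ℂ → R) (hΦ : ∀ b c, b ⊆ S → c ⊆ S → Eqi S b c → Φ b = Φ c) :
    (2 ^ (S.card - ni S)) • ∑ σ : Cs hS → ZMod 2, Φ (bk hS h3 σ) =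
      (2 ^ (Fintype.card (Cs hS) - ni S)) • ∑ β ∈ S.powerset, Φ β := by
  set G : ({v : {v // v ∈ S} // ¬ OnHull S v.1} → ZMod 2) → R := fun f =>
    Φ (S.filter fun v => ∃ (h : v ∈ S) (h' : ¬ OnHull S v), f ⟨⟨v, h⟩, h'⟩ = 1) with hG
  have e := sites_cells hS h3 G
  have e1 : ∀ σ : Cs hS → ZMod 2, G (fun v => σ (cs hS h3 v.1)) = Φ (bk hS h3 σ) := by
    intro σ
    refine hΦ _ _ (Finset.filter_subset _ _) (bk_sub hS h3 σ) fun v hv hn => ?_
    rw [mem_bk hv, Finset.mem_filter]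
    exact ⟨fun ⟨_, _, _, h⟩ => h, fun h => ⟨hv, hv, hn, h⟩⟩
  have e2 : ∀ σ : {v // v ∈ S} → ZMod 2, G (fun v => σ v.1) = Φ (fb S σ) := by
    intro σ
    refine hΦ _ _ (Finset.filter_subset _ _) (Finset.filter_subset _ _) fun v hv hn => ?_
    rw [mem_fb hv, Finset.mem_filter]
    exact ⟨fun ⟨_, _, _, h⟩ => h, fun h => ⟨hv, hv, hn, h⟩⟩
  simp only [e1, e2] at e
  rw [sum_fb] at e
  exact e

/-- **(E3)** two colourings -/
theorem sum_cells2 {R : Type*} [AddCommMonoid R] (hS : GP (S : Set ℂ)) (h3 : 3 ≤ S.card)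
    (Φ : Finset ℂ → Finset ℂ → R)
    (hΦ : ∀ b c b' c', b ⊆ S → c ⊆ S → b' ⊆ S → c' ⊆ S → Eqi S b c → Eqi S b' c' →
      Φ b b' = Φ c c') :
    (4 ^ (S.card - ni S)) • ∑ σ : Cs hS → ZMod 2, ∑ τ : Cs hS → ZMod 2,
        Φ (bk hS h3 σ) (bk hS h3 τ) =
      (4 ^ (Fintype.card (Cs hS) - ni S)) • ∑ β ∈ S.powerset, ∑ β' ∈ S.powerset, Φ β β' := by
  have rfl' : ∀ b : Finset ℂ, Eqi S b b := fun b v _ _ => Iff.rfl
  have p4 : ∀ n : ℕ, 4 ^ n = 2 ^ n * 2 ^ n := fun n => by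
    rw [← mul_pow]
    norm_num
  have e1 : ∀ σ : Cs hS → ZMod 2, (2 ^ (S.card - ni S)) • ∑ τ : Cs hS → ZMod 2,
      Φ (bk hS h3 σ) (bk hS h3 τ) = (2 ^ (Fintype.card (Cs hS) - ni S)) •
        ∑ β' ∈ S.powerset, Φ (bk hS h3 σ) β' := fun σ =>
    sum_cells hS h3 (fun β' => Φ (bk hS h3 σ) β') fun b c hb hc h =>
      hΦ _ _ _ _ (bk_sub hS h3 σ) (bk_sub hS h3 σ) hb hc (rfl' _) h
  have e2 := sum_cells hS h3 (fun β => ∑ β' ∈ S.powerset, Φ β β') fun b c hb hc h =>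
    Finset.sum_congr rfl fun β' hβ' => hΦ _ _ _ _ hb hc (Finset.mem_powerset.1 hβ')
      (Finset.mem_powerset.1 hβ') h (rfl' _)
  rw [p4, p4, mul_smul, mul_smul, Finset.smul_sum]
  simp only [e1]
  rw [← Finset.smul_sum, ← mul_smul, Nat.mul_comm, mul_smul, e2]

/-- cancellation -/
theorem le_of_smul {n : ℕ} (hn : n ≠ 0) {a b : ℝ≥0∞} (h : n • a ≤ n • b) : a ≤ b := by
  rw [nsmul_eq_mul, nsmul_eq_mul] at h
  exact (ENNReal.mul_le_mul_iff_right (by exact_mod_cast hn) (ENNReal.natCast_ne_top n)).1 h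

/-- **(E3)** one colouring, inequalities -/
theorem le_cells (hS : GP (S : Set ℂ)) (h3 : 3 ≤ S.card) {Φ Ψ : Finset ℂ → ℝ≥0∞}
    (hΦ : ∀ b c, b ⊆ S → c ⊆ S → Eqi S b c → Φ b = Φ c)
    (hΨ : ∀ b c, b ⊆ S → c ⊆ S → Eqi S b c → Ψ b = Ψ c) {K : ℝ≥0∞}
    (h : ∑ σ : Cs hS → ZMod 2, Φ (bk hS h3 σ) ≤ K * ∑ σ : Cs hS → ZMod 2, Ψ (bk hS h3 σ)) :
    ∑ β ∈ S.powerset, Φ β ≤ K * ∑ β ∈ S.powerset, Ψ β := by
  refine le_of_smul (n := 2 ^ (Fintype.card (Cs hS) - ni S)) (by positivity) ?_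
  rw [← mul_smul_comm, ← sum_cells hS h3 Φ hΦ, ← sum_cells hS h3 Ψ hΨ, mul_smul_comm]
  exact nsmul_le_nsmul_right h _

/-- **(E3)** two colourings, inequalities -/
theorem le_cells2 (hS : GP (S : Set ℂ)) (h3 : 3 ≤ S.card) {Φ Ψ : Finset ℂ → Finset ℂ → ℝ≥0∞}
    (hΦ : ∀ b c b' c', b ⊆ S → c ⊆ S → b' ⊆ S → c' ⊆ S → Eqi S b c → Eqi S b' c' →
      Φ b b' = Φ c c')
    (hΨ : ∀ b c b' c', b ⊆ S → c ⊆ S → b' ⊆ S → c' ⊆ S → Eqi S b c → Eqi S b' c' →
      Ψ b b' = Ψ c c') {K : ℝ≥0∞}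
    (h : ∑ σ : Cs hS → ZMod 2, ∑ τ : Cs hS → ZMod 2, Φ (bk hS h3 σ) (bk hS h3 τ) ≤
      K * ∑ σ : Cs hS → ZMod 2, ∑ τ : Cs hS → ZMod 2, Ψ (bk hS h3 σ) (bk hS h3 τ)) :
    ∑ β ∈ S.powerset, ∑ β' ∈ S.powerset, Φ β β' ≤
      K * ∑ β ∈ S.powerset, ∑ β' ∈ S.powerset, Ψ β β' := by
  refine le_of_smul (n := 4 ^ (Fintype.card (Cs hS) - ni S)) (by positivity) ?_
  rw [← mul_smul_comm, ← sum_cells2 hS h3 Φ hΦ, ← sum_cells2 hS h3 Ψ hΨ, mul_smul_comm]
  exact nsmul_le_nsmul_right h _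

/-! ### painted sites -/

/-- a function of a painted configuration depends on the inner colours only -/
def Inn (S : Finset ℂ) {R : Type*} (Φ : Set (ℂ × Bool) → R) : Prop :=
  ∀ b c, b ⊆ S → c ⊆ S → Eqi S b c → Φ (paint S b) = Φ (paint S c)

def Inn2 (S : Finset ℂ) {R : Type*} (Φ : Set (ℂ × (Bool × Bool)) → R) : Prop :=
  ∀ b c b' c', b ⊆ S → c ⊆ S → b' ⊆ S → c' ⊆ S → Eqi S b c → Eqi S b' c' →
    Φ (paint2 S b b') = Φ (paint2 S c c')

theorem sum_paint {R : Type*} [AddCommMonoid R] (hS : GP (S : Set ℂ)) (h3 : 3 ≤ S.card)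
    {Φ : Set (ℂ × Bool) → R} (hΦ : Inn S Φ) :
    (2 ^ (S.card - ni S)) • ∑ σ : Cs hS → ZMod 2, Φ (paint S (bk hS h3 σ)) =
      (2 ^ (Fintype.card (Cs hS) - ni S)) • ∑ β ∈ S.powerset, Φ (paint S β) :=
  sum_cells hS h3 (fun b => Φ (paint S b)) hΦ

theorem sum_paint2 {R : Type*} [AddCommMonoid R] (hS : GP (S : Set ℂ)) (h3 : 3 ≤ S.card)
    {Φ : Set (ℂ × (Bool × Bool)) → R} (hΦ : Inn2 S Φ) :
    (4 ^ (S.card - ni S)) • ∑ σ : Cs hS → ZMod 2, ∑ τ : Cs hS → ZMod 2,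
        Φ (paint2 S (bk hS h3 σ) (bk hS h3 τ)) =
      (4 ^ (Fintype.card (Cs hS) - ni S)) •
        ∑ β ∈ S.powerset, ∑ β' ∈ S.powerset, Φ (paint2 S β β') :=
  sum_cells2 hS h3 (fun b b' => Φ (paint2 S b b')) hΦ

theorem le_paint (hS : GP (S : Set ℂ)) (h3 : 3 ≤ S.card) {Φ Ψ : Set (ℂ × Bool) → ℝ≥0∞}
    (hΦ : Inn S Φ) (hΨ : Inn S Ψ) {K : ℝ≥0∞}
    (h : ∑ σ : Cs hS → ZMod 2, Φ (paint S (bk hS h3 σ)) ≤
      K * ∑ σ : Cs hS → ZMod 2, Ψ (paint S (bk hS h3 σ))) :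
    ∑ β ∈ S.powerset, Φ (paint S β) ≤ K * ∑ β ∈ S.powerset, Ψ (paint S β) :=
  le_cells hS h3 hΦ hΨ h

theorem le_paint2 (hS : GP (S : Set ℂ)) (h3 : 3 ≤ S.card)
    {Φ Ψ : Set (ℂ × (Bool × Bool)) → ℝ≥0∞} (hΦ : Inn2 S Φ) (hΨ : Inn2 S Ψ) {K : ℝ≥0∞}
    (h : ∑ σ : Cs hS → ZMod 2, ∑ τ : Cs hS → ZMod 2, Φ (paint2 S (bk hS h3 σ) (bk hS h3 τ)) ≤
      K * ∑ σ : Cs hS → ZMod 2, ∑ τ : Cs hS → ZMod 2,
        Ψ (paint2 S (bk hS h3 σ) (bk hS h3 τ))) :
    ∑ β ∈ S.powerset, ∑ β' ∈ S.powerset, Φ (paint2 S β β') ≤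
      K * ∑ β ∈ S.powerset, ∑ β' ∈ S.powerset, Ψ (paint2 S β β') :=
  le_cells2 hS h3 hΦ hΨ h

end Crest.Agent.R143.Engx490
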