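import Crest.Agent.R143.FarA_263
import Crest.Agent.R143.RWr_355

/-!
# Row 143 (S0194), block H (helper263): transfers

* `rl_congr`, `rq_congr`, `vg_congr` : two configurations with the same ring loop
* `rl_restr`, `rq_restr`, `vg_restr` : from `M` (`cm0`) to `restr M` (`rc0`)
* `eg_restr` : the giant of `restr M` is the giant of `M`
* `rw_cls` : 355's `RW` for other classes with the same giant
* `Wn` : ring data at one configuration for all windows and the full exploration; `Wn.tf` : the same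
  data at every configuration with the same full exploration; `Wn.rw` : 355's `RW`; `Wn.rd` : 389's
  `Rd`
-/

set_option autoImplicit false

noncomputable section

open scoped Classical

namespace Crest.Agent.R143.RcTx263

open Crest.Agent.R143.Frame1x395 Crest.Agent.R143.Frame2x395 Crest.Agent.R143.Frame3x395
  Crest.Agent.R143.Frame8x395 Crest.Agent.R143.Frame9x395 Crest.Agent.R143.Frame11x395
  Crest.Agent.R143.NonXx592 Crest.Agent.R143.Coarsex166 Crest.Agent.R143.Budx432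
  Crest.Agent.R143.Bud2x432 Crest.Agent.R143.RevCx389 Crest.Agent.R143.RevAx389
  Crest.Agent.R143.HInst1x432 Crest.Agent.R143.GiantEx197
  Crest.Agent.R143.ChordCx357 Crest.Agent.R143.Chord2x355
  Crest.Agent.R143.H2x355 Crest.Agent.R143.Ox355 Crest.Agent.R143.Winx355
  Crest.Agent.R143.Win2x355 Crest.Agent.R143.PotKx263 Crest.Agent.R143.PotPx263
  Crest.Agent.R143.Mass3x302 Crest.Agent.R143.RevEx389
open Crest.Agent.R143.Sptx169 (rst)
open Crest.Agent.R143.Chordx355 (lc Lp)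
open Crest.Agent.R143.Splx117 (gp KS InK)
open Crest.Agent.R143.RingWx389 (RX)
open Crest.Agent.R143.Exitx707 (Nb nb_symm)
open Crest.Agent.R143.SumAx389 (Rd)

variable {D C C' : Type} {M : CMap D C} {x x' : D → ZMod 2} {P₀ : D} {N n : ℕ} {T : ℕ → ℕ}
  {Reg : ℕ → Set C} {F : ℕ → Set D}

/-! ### two configurations with the same loop -/

section congr

theorem lp_congr (L : Lp M x P₀ N) (hx' : IsC M ∅ x') (ho : x' P₀ = 1)
    (h : ∀ t, P M x' P₀ t = P M x P₀ t) : Lp M x' P₀ N :=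
  ⟨hx', ho, L.pos, by rw [h]; exact L.per, fun a b h1 h2 => by rw [h, h]; exact L.inj a b h1 h2⟩

theorem lc_congr (h : ∀ t, P M x' P₀ t = P M x P₀ t) (u : ℕ) : lc M x' P₀ u = lc M x P₀ u := by
  unfold lc
  rw [h]

theorem gp_congr (h : ∀ t, P M x' P₀ t = P M x P₀ t) (u : ℕ) : gp M x' P₀ u = gp M x P₀ u := by
  unfold gp
  have := h u
  unfold P at this
  rw [this]

theorem rl_congr (R : RL M x P₀ N n T Reg) (hx' : IsC M ∅ x') (ho : x' P₀ = 1)
    (h : ∀ t, P M x' P₀ t = P M x P₀ t) : RL M x' P₀ N n T Reg :=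
  ⟨lp_congr R.L hx' ho h, R.mono, R.zero, R.per, fun k u h1 h2 => by
    rw [lc_congr h]; exact R.reg k u h1 h2, R.perR, R.dis⟩

theorem rq_congr (Q : RQ M x P₀ N n T F) (hx' : IsC M ∅ x') (ho : x' P₀ = 1)
    (h : ∀ t, P M x' P₀ t = P M x P₀ t) : RQ M x' P₀ N n T F :=
  ⟨lp_congr Q.L hx' ho h, Q.n3, Q.mono, Q.zero, Q.per, fun k k' h1 h2 u v h3 h4 h5 h6 e => by
    rw [lc_congr h, lc_congr h] at e
    rw [lc_congr h, lc_congr h, lc_congr h]
    exact Q.cut k k' h1 h2 u v h3 h4 h5 h6 e, Q.perF, fun k i h1 h2 => by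
    rw [gp_congr h]; exact Q.cov k i h1 h2, fun i l j h1 h2 => by
    rw [gp_congr h]; exact Q.dis i l j h1 h2⟩

/-- the gaps of a loop are determined by its states -/
theorem gap_congr (hx : IsC M ∅ x) (hx' : IsC M ∅ x') (ho : x P₀ = 1) (ho' : x' P₀ = 1)
    (h : ∀ t, P M x' P₀ t = P M x P₀ t) (i : ℕ) (h0 : x (gp M x P₀ i) = 0) :
    x' (gp M x' P₀ i) = 0 := by
  rw [gp_congr h]
  have e : gp M x P₀ i = M.rho (M.rho (P M x P₀ i)) := rfl
  rw [e] at h0 ⊢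
  have o1 := P_occ hx ho i
  have o2 := P_occ hx' ho' i
  rw [h i] at o2
  have hn : stp M x' (P M x P₀ i) = stp M x (P M x P₀ i) := by
    have h1 := h (i + 1)
    rw [P_succ, P_succ, h i] at h1
    exact h1
  rcases stp_cases hx o1 (Set.notMem_empty _) with ⟨-, -, e1⟩ | ⟨-, h2, -⟩
  · rcases stp_cases hx' o2 (Set.notMem_empty _) with ⟨-, h3, -⟩ | ⟨-, -, e2⟩
    · exact h3
    · exfalso
      rw [e1, e2] at hn
      have h4 := iota_inj M hn
      exact M.rho_ne _ (rho_inj M h4)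
  · rw [h2] at h0
    exact absurd h0 (by decide)

theorem ink_congr (hx : IsC M ∅ x) (hx' : IsC M ∅ x') (ho : x P₀ = 1) (ho' : x' P₀ = 1)
    (h : ∀ t, P M x' P₀ t = P M x P₀ t) (a b i : ℕ) : InK M x' P₀ a b i ↔ InK M x P₀ a b i := by
  have e : ∀ u, Splx117.lc M x' P₀ u = Splx117.lc M x P₀ u := fun u => lc_congr h u
  constructor
  · intro H
    refine ⟨H.lo, H.hi, gap_congr hx' hx ho' ho (fun t => (h t).symm) i H.gap,
      fun j l h1 h2 h3 h4 => ?_⟩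
    rw [← e, ← e]
    exact H.sep j l h1 h2 h3 h4
  · intro H
    refine ⟨H.lo, H.hi, gap_congr hx hx' ho ho' h i H.gap, fun j l h1 h2 h3 h4 => ?_⟩
    rw [e, e]
    exact H.sep j l h1 h2 h3 h4

theorem ks_congr {E : Type} [AddCommMonoid E] (hx : IsC M ∅ x) (hx' : IsC M ∅ x')
    (ho : x P₀ = 1) (ho' : x' P₀ = 1)
    (h : ∀ t, P M x' P₀ t = P M x P₀ t) (φ : D → E) (a b : ℕ) :
    KS M x' P₀ φ a b = KS M x P₀ φ a b := by
  unfold KS
  have e : (Finset.Ico a b).filter (InK M x' P₀ a b) = (Finset.Ico a b).filter (InK M x P₀ a b) :=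
    Finset.filter_congr fun i _ => ink_congr hx hx' ho ho' h a b i
  rw [e]
  exact Finset.sum_congr rfl fun i _ => by rw [gp_congr h]

theorem vg_congr {E : Type} [AddCommMonoid E] (hx : IsC M ∅ x) (hx' : IsC M ∅ x')
    (ho : x P₀ = 1) (ho' : x' P₀ = 1)
    (h : ∀ t, P M x' P₀ t = P M x P₀ t) (φ : D → E) (l : ℕ) :
    Vg M x' P₀ T n φ F l = Vg M x P₀ T n φ F l := by
  unfold Vg
  exact Finset.sum_congr rfl fun k _ => ks_congr hx hx' ho ho' h _ _ _

end congr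

/-! ### from `M` to `restr M` -/

section restr

theorem P_restr (p : D) (t : ℕ) : P (restr M) x p t = P M x p t := rfl

theorem lc_restr (p : D) (t : ℕ) : (lc (restr M) x p t).1 = lc M x p t := rfl

theorem gp_restr (p : D) (t : ℕ) : gp (restr M) x p t = gp M x p t := rfl

theorem cfg_restr (ψ : C → ZMod 2) : cfg (restr M) (fun c => ψ c.1) = cfg M ψ := rfl

theorem isC_restr' (h : IsC M ∅ x) : IsC (restr M) ∅ x := isC_restr.2 h

theorem lp_restr (L : Lp M x P₀ N) : Lp (restr M) x P₀ N :=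
  ⟨isC_restr.2 L.ev, L.occ, L.pos, L.per, L.inj⟩

theorem rl_restr (R : RL M x P₀ N n T Reg) :
    RL (restr M) x P₀ N n T (fun k => {c | c.1 ∈ Reg k}) :=
  ⟨lp_restr R.L, R.mono, R.zero, R.per, fun k u h1 h2 => R.reg k u h1 h2, fun k => by
    show {c : Set.range M.cell | c.1 ∈ Reg (k + n)} = _
    rw [R.perR], fun k j h1 h2 => by
    rw [Set.disjoint_left]
    intro c h3 h4
    exact Set.disjoint_left.1 (R.dis k j h1 h2) h3 h4⟩

theorem rq_restr (Q : RQ M x P₀ N n T F) : RQ (restr M) x P₀ N n T F :=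
  ⟨lp_restr Q.L, Q.n3, Q.mono, Q.zero, Q.per, fun k k' h1 h2 u v h3 h4 h5 h6 e => by
    have e' : lc M x P₀ u = lc M x P₀ v := congrArg Subtype.val e
    rcases Q.cut k k' h1 h2 u v h3 h4 h5 h6 e' with ⟨a, b⟩ | ⟨a, b⟩
    · exact Or.inl ⟨a, Subtype.ext b⟩
    · exact Or.inr ⟨a, Subtype.ext b⟩, Q.perF, Q.cov, Q.dis⟩

theorem ink_restr (p : D) (a b i : ℕ) : InK (restr M) x p a b i ↔ InK M x p a b i := by
  constructor
  · intro H
    exact ⟨H.lo, H.hi, H.gap, fun j l h1 h2 h3 h4 e => H.sep j l h1 h2 h3 h4 (Subtype.ext e)⟩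
  · intro H
    exact ⟨H.lo, H.hi, H.gap, fun j l h1 h2 h3 h4 e =>
      H.sep j l h1 h2 h3 h4 (congrArg Subtype.val e)⟩

theorem ks_restr {E : Type} [AddCommMonoid E] (p : D) (φ : D → E) (a b : ℕ) :
    KS (restr M) x p φ a b = KS M x p φ a b := by
  unfold KS
  have e : (Finset.Ico a b).filter (InK (restr M) x p a b) =
      (Finset.Ico a b).filter (InK M x p a b) :=
    Finset.filter_congr fun i _ => ink_restr p a b i
  rw [e]
  rfl

theorem vg_restr {E : Type} [AddCommMonoid E] (φ : D → E) (l : ℕ) :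
    Vg (restr M) x P₀ T n φ F l = Vg M x P₀ T n φ F l := by
  unfold Vg
  exact Finset.sum_congr rfl fun k _ => ks_restr _ _ _ _

/-- adjacency in `restr M` -/
theorem nb_restr {a c : Set.range M.cell} : Nb (restr M) a c ↔ Nb M a.1 c.1 := by
  constructor
  · rintro ⟨d, rfl, rfl⟩
    exact ⟨d, rfl, rfl⟩
  · rintro ⟨d, h1, h2⟩
    exact ⟨d, Subtype.ext h1, Subtype.ext h2⟩

theorem nb_range {a c : C} (h : Nb M a c) : c ∈ Set.range M.cell := by
  obtain ⟨d, h1, h2⟩ := nb_symm h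
  exact ⟨d, h1⟩

theorem ek_restr {h0 : Set.range M.cell} {K : Set C} (c : Set.range M.cell) :
    c ∈ Ek (restr M) h0 {c | c.1 ∈ K} ↔ c.1 ∈ Ek M h0.1 K := by
  constructor
  · intro hc
    refine ek_ind (M := restr M) (Q := fun c => c.1 ∈ Ek M h0.1 K) h0_ek
      (fun a c _ ih h1 h2 => ?_) c hc
    exact ek_step ih (nb_restr.1 h1) h2
  · intro hc
    have key : ∀ c ∈ Ek M h0.1 K, ∀ h : c ∈ Set.range M.cell,
        (⟨c, h⟩ : Set.range M.cell) ∈ Ek (restr M) h0 {c | c.1 ∈ K} := by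
      intro c hc
      refine ek_ind (M := M) (K := K) (Q := fun c => ∀ h : c ∈ Set.range M.cell,
        (⟨c, h⟩ : Set.range M.cell) ∈ Ek (restr M) h0 {c | c.1 ∈ K}) (fun _ => h0_ek)
        (fun a c _ ih h1 h2 h => ?_) c hc
      have ha := nb_range (nb_symm h1)
      exact ek_step (ih ha) (nb_restr.2 h1) h2
    exact key c.1 hc c.2

theorem eg_restr {h0 : Set.range M.cell} {K : Set C} (c : Set.range M.cell) :
    c ∈ Eg (restr M) h0 {c | c.1 ∈ K} ↔ c.1 ∈ Eg M h0.1 K := by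
  unfold Eg
  rw [Set.mem_union, Set.mem_union, ek_restr]
  exact Iff.rfl

theorem lf_restr (p : D) (m : ℕ) : Lf (restr M) x p m = {c | c.1 ∈ Lf M x p m} := by
  ext c
  constructor
  · rintro ⟨j, hj, rfl⟩
    exact ⟨j, hj, rfl⟩
  · rintro ⟨j, hj, e⟩
    exact ⟨j, hj, Subtype.ext e⟩

end restr

/-! ### other classes with the same giant -/

variable {h l m₀ : ℕ} {G : ℕ → Rg D C} {tp tq : ℕ → ℕ} {ψ : C → ZMod 2}

theorem rw_cls {π : C → C'} {o : C'} {C'' : Type} {π' : C → C''} {o' : C''}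
    (W : RW M ψ π o P₀ N n T Reg h l m₀ G tp tq) (he : ∀ c, π c = o ↔ π' c = o')
    (T' : Gt M π' o') : RW M ψ π' o' P₀ N n T Reg h l m₀ G tp tq :=
  ⟨T', fun d hd h1 h2 => W.rim d hd (fun e => h1 ((he _).1 e)) ((he _).2 h2), W.rl,
    fun u => (he _).1 (W.hK u), fun d h1 h2 => W.kin d ((he _).2 h1) fun e => h2 ((he _).1 e),
    W.hh, W.hn, W.hm, W.hl, W.p0, W.ln, W.htp, W.htq1, W.htq2,
    fun i hi c hc => (he _).1 (W.hR i hi c hc)⟩

/-! ### ring data at one configuration -/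

/-- **ring data at one configuration**: full exploration `Gf`, windows `G i`, `i < m₀` -/
structure Wn (M : CMap D C) (Gf : Rg D C) (G : ℕ → Rg D C) (h0 : C) (ψ : C → ZMod 2) (P₀ : D)
    (N n : ℕ) (T : ℕ → ℕ) (Reg : ℕ → Set C) (h l m₀ : ℕ) (B' : ℕ → Set C) : Prop where
  rl : RL M (cfg M ψ) P₀ N n T Reg
  bl : ψ (M.cell P₀) = 1
  lw : ∀ t, M.cell (P M (cfg M ψ) P₀ t) ∈ Gf.Dw
  rcw : ∀ t, M.cell (M.rho (P M (cfg M ψ) P₀ t)) ∈ Cw M Gf ψ
  hh : 6 ≤ h
  hn : n = h * m₀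
  hm : 2 ≤ m₀
  hl : l ≤ h
  hl1 : 1 ≤ l
  hG : ∀ i, i < m₀ → (G i).h0 = h0
  rx : ∀ i, i < m₀ → RX M (G i) ψ (P M (cfg M ψ) P₀ (T (h * i + l)))
    (fun k => T (h * i + l + k) - T (h * i + l)) (n - l) n (fun k => Reg (h * i + l + k)) (B' i)
  loop : ∀ i, i < m₀ → ∀ c ∈ B' i, ∃ t, c = M.cell (P M (cfg M ψ) P₀ t)

variable {Gf : Rg D C} {h0 : C} {B' : ℕ → Set C}

theorem Wn.rd [Fintype D] (W : Wn M Gf G h0 ψ P₀ N n T Reg h l m₀ B') : Rd M Gf G m₀ ψ P₀ :=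
  ⟨W.rl.L.occ, W.lw, W.rcw, fun i hi => ⟨_, _, _, _, _, _, W.rx i hi, W.loop i hi⟩⟩

theorem Wn.rw [Fintype D] (W : Wn M Gf G h0 ψ P₀ N n T Reg h l m₀ B')
    (gen : ∀ c, c ∉ Eg M h0 (Lf M (cfg M ψ) P₀ N) → Gen M c) :
    ∃ tp tq, RW M ψ (pe (Eg M h0 (Lf M (cfg M ψ) P₀ N))) none P₀ N n T Reg h l m₀ G tp tq := by
  obtain ⟨tp, tq, H, -⟩ := RWrx355.rw_ring W.rl W.bl gen (G := G) (B' := B') W.hG
    (by have := W.hh; omega) W.hn W.hm W.hl W.rx
  exact ⟨tp, tq, H⟩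

variable {α : Type} {V : Finset α} {χ : Finset α → C → ZMod 2} {K : C → Finset α}
  {b b' : Finset α}

theorem Wn.toTf [Fintype D] (W : Wn M Gf G h0 (χ b) P₀ N n T Reg h l m₀ B')
    (hχ : Histx389.Coins V χ K) (hK : ∀ c, K c ⊆ V) (hb : b ⊆ V) (hb' : b' ⊆ V)
    (e : b ∩ Ra M Gf V χ K b = b' ∩ Ra M Gf V χ K b) : Tf M Gf V χ K b b' P₀ :=
  ⟨hχ, hK, hb, hb', e, W.rl.L.occ, W.lw, W.rcw⟩

/-- **the ring data at the configurations with the same full exploration** -/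
theorem Wn.tf [Fintype D] (W : Wn M Gf G h0 (χ b) P₀ N n T Reg h l m₀ B')
    (hχ : Histx389.Coins V χ K) (hK : ∀ c, K c ⊆ V) (hb : b ⊆ V) (hb' : b' ⊆ V)
    (e : b ∩ Ra M Gf V χ K b = b' ∩ Ra M Gf V χ K b) (hLe : ∀ i, i < m₀ → Le (G i) Gf) :
    Wn M Gf G h0 (χ b') P₀ N n T Reg h l m₀ B' := by
  have H := W.toTf hχ hK hb hb' e
  have Lf : Le Gf Gf := ⟨rfl, rfl, rfl, subset_rfl⟩
  refine ⟨rl_congr W.rl (cfg_isC _) H.occ' H.st, (H.cl 0).trans W.bl, fun t => ?_, fun t => ?_,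
    W.hh, W.hn, W.hm, W.hl, W.hl1, W.hG, fun i hi => H.rx (hLe i hi) (W.rx i hi) (W.loop i hi),
    fun i hi c hc => ?_⟩
  · rw [H.st]; exact W.lw t
  · rw [H.st, H.cw Lf]; exact W.rcw t
  · obtain ⟨t, ht⟩ := W.loop i hi c hc
    exact ⟨t, by rw [H.st]; exact ht⟩

end Crest.Agent.R143.RcTx263
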