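import Crest.Agent.R143.RingX_713
import Crest.Agent.R143.RingN_765
import Crest.Agent.R143.RcT_263
import Crest.Agent.R143.ColX_829
import Crest.Agent.R143.Eng_490
import Crest.Agent.R143.RWr_355
import Crest.Agent.R143.LawR_239
import Crest.Agent.R143.SqG_445

/-!
# Row 143 (S0194), block H (helper239): the ring law in the language of `FarF_263.far_one`

`κ = -(mS / h)` (`kap`), `w l = conj (gz h W (o - l))` (`wl`), `B = BO P Hs b r (o - M) t C X` (765).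

* `law_rev` : 765's ring law in the direction of the walk (regions `o - 2 - l`)
* `wl_per` : `w (l + M) = w l`; `kap_le` : `‖κ (w j - w i)‖² ≤ ‖κ‖² L²` if the gate centres have
  diameter `≤ L`; `gz_diam` : for the square
* **`vg_law`** : `RngH` + `RQ` + `KS = ZZ` ⇒ the law for 263's charges `Vg` with the field `nn`
* **`vg_law_S`** : the same for any names of the site set, configuration and gate darts
* **`ring_all`** : `RngH (Xc hS h3 s)` ⇒ on `rc0 hS`, `cfg (rc0 hS) s`: gate darts, gate times, `RQ`,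
  `RLW`, confinement, law
-/

set_option autoImplicit false
set_option linter.all false

noncomputable section

open scoped Classical

namespace Crest.Agent.R143.VgLx239

open MeasureTheory Set
open Crest.ProbabilityR.Voronoi
open Crest.Agent.R143.B0x346 Crest.Agent.R143.DelGx806 Crest.Agent.R143.DelRx806
  Crest.Agent.R143.JColx54 Crest.Agent.R143.Locx922
open Crest.Agent.R143.Frame1x395 Crest.Agent.R143.Frame2x395 Crest.Agent.R143.Frame3x395
  Crest.Agent.R143.Frame4x395 Crest.Agent.R143.Frame8x395 Crest.Agent.R143.Frame9x395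
  Crest.Agent.R143.Frame10x395 Crest.Agent.R143.Frame11x395
open Crest.Agent.R143.Frame5x395 (sd mem_sd th th_spec)
open Crest.Agent.R143.Splx117 Crest.Agent.R143.WLocx713
open Crest.Agent.R143.PP0x831 Crest.Agent.R143.Poisx304 Crest.Agent.R143.FinMx609
open Crest.Agent.R143.Janx304 (ovr)
open Crest.Agent.R143.IndLocx279 Crest.Agent.R143.PWx978 Crest.Agent.R143.Tplx978
open Crest.Agent.R143.RingDx117 (RD DRing StC StR)
open Crest.Agent.R143.TileRx228 Crest.Agent.R143.PthFx765 Crest.Agent.R143.TplIx204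
open Crest.Agent.R143.PathDx503 Crest.Agent.R143.PathGx503 Crest.Agent.R143.RingPx503
  Crest.Agent.R143.RingIx503
open Crest.Agent.R143.DCorGx713 Crest.Agent.R143.DCorFx713
open Crest.Agent.R143.CorHx713 (gA QA sdt yy xx)
open Crest.Agent.R143.Sptx169 Crest.Agent.R143.SpRx169 Crest.Agent.R143.SpVx169
  Crest.Agent.R143.CorVx169
open Crest.Agent.R143.RingTx263 Crest.Agent.R143.PotPx263 Crest.Agent.R143.Winx355
  Crest.Agent.R143.RWrx355 Crest.Agent.R143.RcTx263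
open Crest.Agent.R143.RingXx713.RngH (BT QO)
open Crest.Agent.R143.RingXx713 Crest.Agent.R143.RngNx765 Crest.Agent.R143.CorNx765
open Crest.Agent.R143.FinCx811 Crest.Agent.R143.ColXx829
open Crest.Agent.R143.Engx490 (nn)
open scoped ENNReal ComplexConjugate

/-! ### the law in the direction of the walk -/

section rev

variable {M : ℕ} {W : ℤ → ℤ × ℤ} {ε : ℝ} {T₀ : Tpl ε (Tn × Bool)} {D : DT} [Fintype (ZMod M)]

/-- **the number** -/
def kap (D : DT) (Hs : Std T₀ D.A' D.B' D.h Prod.fst) (b : Bool) (r : ℝ) : ℂ :=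
  -(mS D Hs b r / D.h)

/-- the (conjugate) gate centres in the direction of the walk -/
def wl (h : ℝ) (W : ℤ → ℤ × ℤ) (o : ℤ) (l : ℕ) : ℂ := conj (gz h W (o - l))

theorem wl_per (P : FPath M W) (h : ℝ) (o : ℤ) (l : ℕ) : wl h W o (l + M) = wl h W o l := by
  unfold wl
  have h1 := gz_per P h (o - ((l + M : ℕ) : ℤ))
  rw [show o - ((l + M : ℕ) : ℤ) + M = o - l by push_cast; ring] at h1
  rw [h1]

/-- **765's ring law in the direction of the walk** -/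
theorem law_rev (P : FPath M W)
    (Hs : Std T₀ D.A' D.B' D.h Prod.fst) (b : Bool) (r : ℝ)
    (hA0 : ∫⁻ ω, T₀.A (cfg ε ω) ∂sampleLaw ≠ 0) (o : ℤ) {t : ℕ}
    (ht : (Trn M W).card ≤ t) (htM : 3 * t < M) (hM : 10 ≤ M) {C : ℝ} (C0 : 0 ≤ C)
    (hC : ∀ k < M, ∫⁻ ω, gO P Hs b (cfg ε ω) *
      ENNReal.ofReal (‖SV D P r (o - M) k (cfg ε ω)‖ ^ 2) ∂sampleLaw ≤
      ENNReal.ofReal C * ∫⁻ ω, gO P Hs b (cfg ε ω) ∂sampleLaw) (X : Cf) (i j : ℕ) (hij : i ≤ j)
    (hj : j ≤ M) :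
    ‖∑ l ∈ Finset.Ico i j, VT D P r Mass1x302.Nn (o - 2 - l) X -
      kap D Hs b r * (wl D.h W o j - wl D.h W o i)‖ ^ 2 ≤ BO P Hs b r (o - M) t C X := by
  have h1 := (ring_law P Hs b r hA0 (o - M) ht htM hM C0 hC).2.1 X (M - j) (M - i) (by omega)
    (by omega)
  have h2 := Finset.sum_Ico_reflect (fun k : ℕ => SV D P r (o - M) k X) i
    (show j ≤ (M - 1) + 1 by omega)
  rw [show M - 1 + 1 - j = M - j by omega, show M - 1 + 1 - i = M - i by omega] at h2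
  have h3 : ∑ l ∈ Finset.Ico i j, VT D P r Mass1x302.Nn (o - 2 - l) X =
      ∑ l ∈ Finset.Ico i j, SV D P r (o - M) (M - 1 - l) X := by
    refine Finset.sum_congr rfl fun l hl => ?_
    have hl' := Finset.mem_Ico.1 hl
    unfold SV
    congr 1
    rw [Nat.cast_sub (show l ≤ M - 1 by omega), Nat.cast_sub (show 1 ≤ M by omega)]
    push_cast
    ring
  rw [← h2, ← h3] at h1
  have e1 : o - (M : ℤ) + ((M - i : ℕ) : ℤ) = o - i := by
    rw [Nat.cast_sub (show i ≤ M by omega)]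
    ring
  have e2 : o - (M : ℤ) + ((M - j : ℕ) : ℤ) = o - j := by
    rw [Nat.cast_sub hj]
    ring
  rw [e1, e2] at h1
  have e3 : kap D Hs b r * (wl D.h W o j - wl D.h W o i) =
      mS D Hs b r / D.h * conj (gz D.h W (o - i) - gz D.h W (o - j)) := by
    unfold kap wl
    rw [map_sub]
    ring
  rw [e3]
  exact h1

omit [Fintype (ZMod M)] in
/-- **the size of the linear part** -/
theorem kap_le (Hs : Std T₀ D.A' D.B' D.h Prod.fst) (b : Bool) (r : ℝ) (o : ℤ) {L : ℝ}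
    (hL : ∀ a a', ‖gz D.h W a - gz D.h W a'‖ ≤ L) (i j : ℕ) :
    ‖kap D Hs b r * (wl D.h W o j - wl D.h W o i)‖ ^ 2 ≤ ‖kap D Hs b r‖ ^ 2 * L ^ 2 := by
  rw [norm_mul, mul_pow]
  refine mul_le_mul_of_nonneg_left ?_ (sq_nonneg _)
  refine pow_le_pow_left₀ (norm_nonneg _) ?_ 2
  unfold wl
  rw [← map_sub, RCLike.norm_conj]
  exact hL _ _

/-- the gate centres of the square -/
theorem gz_diam {K : ℕ} (hK : 1 ≤ K) {h : ℝ} (hh : 0 < h) (v : ℤ × ℤ) (a a' : ℤ) :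
    ‖gz h (SqGx445.sqV K v) a - gz h (SqGx445.sqV K v) a'‖ ≤ 2 * (K + 1) * h := by
  have key : ∀ a, ‖gz h (SqGx445.sqV K v) a - SqGx445.sc h K v‖ ≤ (K + 1) * h := by
    intro a
    have h1 := LawRx239.cen_mem (SqGx445.sqv_fpath hK v) (η := h / 100) (by positivity) a
    rw [show 100 * (h / 100) = h by ring] at h1
    have h2 := SqGx445.rr_sup hK hh (by positivity) (by linarith) h1
    have h3 := CircPx838.norm_le_sup (gz h (SqGx445.sqV K v) a - SqGx445.sc h K v)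
    have h4 := (abs_lt.1 h2).2
    nlinarith
  have h1 := key a
  have h2 := key a'
  have e : gz h (SqGx445.sqV K v) a - gz h (SqGx445.sqV K v) a' =
      (gz h (SqGx445.sqV K v) a - SqGx445.sc h K v) -
      (gz h (SqGx445.sqV K v) a' - SqGx445.sc h K v) := by ring
  rw [e]
  refine (norm_sub_le _ _).trans ?_
  linarith

end rev

/-! ### the charges of the ring -/

section vg

variable {X : Set (ℂ × Bool)} {U : Set ℂ} {M : ℕ} {W : ℤ → ℤ × ℤ} {η d : ℝ} {ε : ℝ}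
  {T₀ : Tpl ε (Tn × Bool)} {D : DT} [Fintype (ZMod M)]

/-- hypotheses of the ring law (765), base `o - M` -/
structure LawH (P : FPath M W) (Hs : Std T₀ D.A' D.B' D.h Prod.fst) (b : Bool) (r : ℝ) (o : ℤ)
    (t : ℕ) (C : ℝ) : Prop where
  hA0 : ∫⁻ ω, T₀.A (cfg ε ω) ∂sampleLaw ≠ 0
  ht : (Trn M W).card ≤ t
  htM : 3 * t < M
  hM : 10 ≤ M
  C0 : 0 ≤ C
  hC : ∀ k < M, ∫⁻ ω, gO P Hs b (cfg ε ω) *
      ENNReal.ofReal (‖SV D P r (o - M) k (cfg ε ω)‖ ^ 2) ∂sampleLaw ≤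
      ENNReal.ofReal C * ∫⁻ ω, gO P Hs b (cfg ε ω) ∂sampleLaw

/-- **the law of the charges of the ring** -/
theorem vg_law (H : RngH X U M W η d) (s : IsS D η) (Hs : Std T₀ D.A' D.B' D.h Prod.fst)
    {b : Bool} {o : ℤ} {t : ℕ} {C : ℝ} (L : LawH H.path Hs b (η / 2) o t C) {T : ℕ → ℕ} {N : ℕ}
    (R : RQ (cm0 H.gp) (xc H.gp H.hull) (H.st o) N M T (FR (sX X) (QO η W o)))
    (hK : ∀ (w : D0 (sX X) → ℂ) (k : ℕ),
      KS (cm0 H.gp) (xc H.gp H.hull) (H.st o) w (T k) (T (k + 1)) =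
        ZZ (cm0 H.gp) (xc H.gp H.hull) w (RD (sX X) (BT η W (o - 1 - k))) (H.st (o - k))
          (H.st (o - ((k + 1 : ℕ) : ℤ)))) (i j : ℕ) (hij : i ≤ j) (hj : j ≤ M) :
    ‖∑ l ∈ Finset.Ico i j, Vg (cm0 H.gp) (xc H.gp H.hull) (H.st o) T M (nn (sX X))
        (FR (sX X) (QO η W o)) l - kap D Hs b (η / 2) * (wl D.h W o j - wl D.h W o i)‖ ^ 2 ≤
      BO H.path Hs b (η / 2) (o - M) t C X := by
  have h1 := law_rev H.path Hs b (η / 2) L.hA0 o L.ht L.htM L.hM L.C0 L.hC X i j hij hj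
  have h2 : ∀ l, Vg (cm0 H.gp) (xc H.gp H.hull) (H.st o) T M (nn (sX X))
      (FR (sX X) (QO η W o)) l = VT D H.path (η / 2) Mass1x302.Nn (o - 2 - l) X := by
    intro l
    refine H.vg_vt s o R (fun f w k hw => ?_) (fun e => rfl) l
    rw [hK]
    have h6 := H.val (o - 1 - k) hw
    rw [show o - 1 - (k : ℤ) + 1 = o - k by ring] at h6
    rw [show o - ((k + 1 : ℕ) : ℤ) = o - 1 - k by push_cast; ring]
    exact h6
  rw [Finset.sum_congr rfl fun l _ => h2 l]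
  exact h1

/-- **the same for any names** of the sites, the configuration and the gate darts -/
theorem vg_law_S {S : Finset ℂ} {hS : GP (S : Set ℂ)} (hX : sX X = S) (H : RngH X U M W η d)
    (s : IsS D η) (Hs : Std T₀ D.A' D.B' D.h Prod.fst)
    {b : Bool} {o : ℤ} {t : ℕ} {C : ℝ} (L : LawH H.path Hs b (η / 2) o t C) {x : D0 S → ZMod 2}
    (hx : ∀ e : D0 S, x e = cX X e.1.1 + cX X e.1.2) {p : ℤ → D0 S}
    (hp : ∀ a, (p a).1 = (yy η W X a, xx η W X a)) {T : ℕ → ℕ} {N : ℕ}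
    (R : RQ (cm0 hS) x (p o) N M T (FR S (QO η W o)))
    (hK : ∀ (w : D0 S → ℂ) (k : ℕ), KS (cm0 hS) x (p o) w (T k) (T (k + 1)) =
        ZZ (cm0 hS) x w (RD S (BT η W (o - 1 - k))) (p (o - k)) (p (o - ((k + 1 : ℕ) : ℤ))))
    (i j : ℕ) (hij : i ≤ j) (hj : j ≤ M) :
    ‖∑ l ∈ Finset.Ico i j, Vg (cm0 hS) x (p o) T M (nn S) (FR S (QO η W o)) l -
        kap D Hs b (η / 2) * (wl D.h W o j - wl D.h W o i)‖ ^ 2 ≤
      BO H.path Hs b (η / 2) (o - M) t C X := by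
  subst hX
  have e1 : x = xc H.gp H.hull := funext hx
  have e2 : p = H.st := funext fun a => Subtype.ext (hp a)
  subst e1 e2
  exact vg_law H s Hs L R hK i j hij hj

end vg

/-! ### the ring on `rc0` -/

section rc

variable {U : Set ℂ} {M : ℕ} {W : ℤ → ℤ × ℤ} {η d : ℝ} {S : Finset ℂ} {hS : GP (S : Set ℂ)}
  {h3 : 3 ≤ S.card} {s : Cs hS → ZMod 2}

/-- cells (of `rc0`) of the sites in `B` -/
def clR (hS : GP (S : Set ℂ)) (B : Set ℂ) : Set (Cs hS) := {c | c.1 ∈ RgC S B}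

/-- gate times, regions and confinement for any name of the site set -/
theorem times_S {X : Set (ℂ × Bool)} (hX : sX X = S) (H : RngH X U M W η d) {x : D0 S → ZMod 2}
    (hx : ∀ e : D0 S, x e = cX X e.1.1 + cX X e.1.2) (o : ℤ) :
    ∃ (p : ℤ → D0 S) (T : ℕ → ℕ), (∀ a, (p a).1 = (yy η W X a, xx η W X a)) ∧
      (∀ a, p (a + M) = p a) ∧
      RQ (cm0 hS) x (p o) (T M) M T (FR S (QO η W o)) ∧
      RL (cm0 hS) x (p o) (T M) M T (fun k : ℕ => RgC S (BT η W (o - 1 - k))) ∧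
      (∀ k : ℕ, NonXx592.P (cm0 hS) x (p o) (T k) = p (o - k)) ∧
      (∀ k i : ℕ, T k ≤ i → i ≤ T (k + 1) →
        NonXx592.P (cm0 hS) x (p o) i ∈ RD S (BT η W (o - 1 - k))) ∧
      (∀ (w : D0 S → ℂ) (k : ℕ), KS (cm0 hS) x (p o) w (T k) (T (k + 1)) =
        ZZ (cm0 hS) x w (RD S (BT η W (o - 1 - k))) (p (o - k)) (p (o - ((k + 1 : ℕ) : ℤ)))) := by
  subst hX
  have e1 : x = xc H.gp H.hull := funext hx
  subst e1
  obtain ⟨T, h1, h2, h4, h5, h6, -⟩ := H.times o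
  exact ⟨H.st, T, fun a => rfl, H.st_per, h1, h2, h4, h5, fun w k => h6 w k⟩

theorem cX_cells (h3 : 3 ≤ S.card) (s : Cs hS → ZMod 2) (e : D0 S) :
    cfg (rc0 hS) s e = cX (Xc hS h3 s) e.1.1 + cX (Xc hS h3 s) e.1.2 := by
  have h1 := congrFun (xc_Xc (hS := hS) (h3 := h3) (s := s) hullC_Xc) e
  exact h1.symm

/-- **the ring of the coloured cells** -/
theorem ring_all (H : RngH (Xc hS h3 s) U M W η d) (o : ℤ) :
    ∃ (p : ℤ → D0 S) (T : ℕ → ℕ),
      (∀ a, (p a).1 = (yy η W (Xc hS h3 s) a, xx η W (Xc hS h3 s) a)) ∧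
      (∀ a, p (a + M) = p a) ∧
      RQ (rc0 hS) (cfg (rc0 hS) s) (p o) (T M) M T (FR S (QO η W o)) ∧
      RLW (rc0 hS) s (p o) (T M) M T (fun k : ℕ => clR hS (BT η W (o - 1 - k))) ∧
      (∀ k : ℕ, NonXx592.P (rc0 hS) (cfg (rc0 hS) s) (p o) (T k) = p (o - k)) ∧
      (∀ k i : ℕ, T k ≤ i → i ≤ T (k + 1) →
        NonXx592.P (rc0 hS) (cfg (rc0 hS) s) (p o) i ∈ RD S (BT η W (o - 1 - k))) ∧
      ∀ {ε : ℝ} {T₀ : Tpl ε (Tn × Bool)} {D : DT} [Fintype (ZMod M)] (_ : IsS D η)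
        (Hs : Std T₀ D.A' D.B' D.h Prod.fst) {b : Bool} {t : ℕ} {C : ℝ}
        (_ : LawH H.path Hs b (η / 2) o t C) (i j : ℕ), i ≤ j → j ≤ M →
        ‖∑ l ∈ Finset.Ico i j, Vg (rc0 hS) (cfg (rc0 hS) s) (p o) T M (nn S)
            (FR S (QO η W o)) l - kap D Hs b (η / 2) * (wl D.h W o j - wl D.h W o i)‖ ^ 2 ≤
          BO H.path Hs b (η / 2) (o - M) t C (Xc hS h3 s) := by
  obtain ⟨p, T, hp, hper, h1, h2, h4, h5, h6⟩ := times_S (hS := hS) sX_Xc H (cX_cells h3 s) o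
  refine ⟨p, T, hp, hper, rq_restr h1, ⟨rl_restr h2, ?_, ?_⟩, h4, h5, ?_⟩
  · -- the colour of the first gate
    have hc := H.cor1.coly o
    have hm : (yy η W (Xc hS h3 s) o) ∈ S := by
      have h7 := mem_sd.1 (p o).2
      obtain ⟨c, hc'⟩ := h7
      have h8 := (mem_delT.1 hc').1
      rwa [hp o] at h8
    rw [cX_Xc hm] at hc
    rw [← hc]
    congr 1
    apply Subtype.ext
    show (Quot.mk _ (p o).1.1 : Quot (hullE S)) = Quot.mk _ (yy η W (Xc hS h3 s) o)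
    rw [hp o]
  · intro k i hk hk'
    have h7 := h5 k i hk hk'
    obtain ⟨c, hc⟩ := mem_sd.1 (NonXx592.P (cm0 hS) (cfg (rc0 hS) s) (p o) i).2
    exact ⟨⟨_, (mem_delT.1 hc).1, h7.1, rfl⟩, ⟨_, (mem_delT.1 hc).2.1, h7.2, rfl⟩⟩
  · intro ε T₀ D _ hs Hs b t C L i j hij hj
    have h7 := vg_law_S (hS := hS) sX_Xc H hs Hs L (cX_cells h3 s) hp h1 h6 i j hij hj
    rw [Finset.sum_congr rfl fun l _ => (vg_restr (M := cm0 hS) (x := cfg (rc0 hS) s)
      (P₀ := p o) (T := T) (F := FR S (QO η W o)) (n := M) (nn S) l).symm] at h7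
    exact h7

end rc

end Crest.Agent.R143.VgLx239
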