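import Crest.Agent.R143.ArmG_355
import Crest.Agent.R143.RingG_355
import Crest.Agent.R143.VgL_239

/-!
# Row 143 (S0194), block H (helper355): the arm of the ring from one white chain at the gate `2`

* `rtg_seq` : a chain as a sequence
* **`arm_all`** : a white chain from the white site of the gate `2` to the level `A2` inside the tile
  `2` and the column over it gives the field `arm` of `SiteR` for all windows
-/

set_option autoImplicit false

noncomputable section

open scoped Classical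

namespace Crest.Agent.R143.ArmSx355

open Crest.Agent.R143.B0x346 Crest.Agent.R143.DelGx806 Crest.Agent.R143.DelRx806
open Crest.Agent.R143.ToolWx838 Crest.Agent.R143.Blkx838 Crest.Agent.R143.Circ4x838
open Crest.Agent.R143.CircPx838 Crest.Agent.R143.Circx63
open Crest.Agent.R143.Gatex838 (X Y)
open Crest.Agent.R143.Frame1x395 Crest.Agent.R143.Frame2x395 Crest.Agent.R143.Frame3x395
  Crest.Agent.R143.Frame8x395 Crest.Agent.R143.Frame9x395 Crest.Agent.R143.Frame10x395
  Crest.Agent.R143.Frame11x395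
open Crest.Agent.R143.TileRx228 Crest.Agent.R143.SqPx503
open Crest.Agent.R143.Stripx707 (Dir Sec)
open Crest.Agent.R143.RegGx707 Crest.Agent.R143.RadGx707
open Crest.Agent.R143.WinRx503 Crest.Agent.R143.WLocx713
open Crest.Agent.R143.Meetx707 (sr)
open Crest.Agent.R143.FinCx811 Crest.Agent.R143.ColXx829
open Crest.Agent.R143.CorHx713 (sdt yy xx)
open Crest.Agent.R143.Neckx921 (Lk)
open Crest.Agent.R143.PthFx765 (frm WR mem_WR)
open Crest.Agent.R143.PthFx765 (Tn)
open Crest.Agent.R143.PthFx765 (tn)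
open Crest.Agent.R143.ArmGx355

/-- a chain as a sequence -/
theorem rtg_seq {α : Type} {r : α → α → Prop} {a b : α} (h : Relation.ReflTransGen r a b) :
    ∃ (v : ℕ → α) (k : ℕ), v 0 = a ∧ v k = b ∧ ∀ i, i < k → r (v i) (v (i + 1)) := by
  induction h with
  | refl => exact ⟨fun _ => a, 0, rfl, rfl, fun i hi => absurd hi (by omega)⟩
  | @tail b c _ h1 ih =>
    obtain ⟨v, k, h2, h3, h4⟩ := ih
    refine ⟨fun i => if i ≤ k then v i else c, k + 1, by simp [h2], by simp, fun i hi => ?_⟩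
    rcases Nat.lt_or_ge i k with h5 | h5
    · simp only [if_pos h5.le, if_pos (show i + 1 ≤ k from h5)]
      exact h4 i h5
    · have : i = k := by omega
      subst this
      simp [h3, h1]

variable {A : Finset ℂ} {hS : GP (A : Set ℂ)} {h3 : 3 ≤ A.card} {s : Cs hS → ZMod 2}
  {K m1 j : ℕ} {j0 : ℤ} {η A2 l t0 : ℝ}

/-- **the arm for all windows** -/
theorem arm_all (hK : K = hb j * m1) (m1p : 1 ≤ m1) (he : 0 < η) (P : FPath (4 * K) (sqs K j0))
    {p : ℤ → D0 A} (hp : ∀ a, (p a).1 = (yy η (sqs K j0) (Xc hS h3 s) a,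
      xx η (sqs K j0) (Xc hS h3 s) a))
    (hper : ∀ a, p (a + (4 * K : ℕ)) = p a) {T : ℕ → ℕ} (hT : Monotone T)
    (hTp : ∀ k : ℕ, NonXx592.P (rc0 hS) (cfg (rc0 hS) s) (p (2 * j + 6)) (T k) =
      p (2 * j + 6 - k))
    {Cl : Set ℂ} (hCl : ∀ z ∈ Cl, 0 < z.re ∧ z.re < 100 * η ∧ 0 < z.im) {u : ℂ}
    (hu : A2 ≤ 100 * η * K / 2 + ((frm P (100 * η) 2).e.symm u).im)
    (hL : Lk A {v | (v ∈ A ∧ v ∉ bX (Xc hS h3 s)) ∧
      (frm P (100 * η) 2).e.symm v ∈ WR (9 * η) (51 * η) (100 * η) Tn.S ∪ Cl}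
      (xx η (sqs K j0) (Xc hS h3 s) 2) u)
    (hl : l ≤ 100 * η * j) (ht : t0 + 51 * η ≤ 100 * η * K / 2) :
    ∀ i, i < 4 * m1 → ∃ (v : ℕ → ℂ) (k t : ℕ), v 0 ∈ A ∧
      A2 ≤ sup (v 0 - zq (100 * η) K j0) ∧ (∀ a, a < k → DE A (v a) (v (a + 1))) ∧
      (∀ a, a ≤ k → A2 ≤ sup (v a - zq (100 * η) K j0) ∨ (s (sr hS h3 (v a)) = 0 ∧
        ¬ Sec (du (wp K j i)) (zq (100 * η) K j0) (100 * η * K / 2) t0
          (cw0 (100 * η) K j0 j i) l (v a))) ∧
      T (hb j * i + (2 * j + 1)) ≤ t ∧ t ≤ T (hb j * i + 4 * K) ∧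
      (rc0 hS).cell ((rc0 hS).rho (NonXx592.P (rc0 hS) (cfg (rc0 hS) s) (p (2 * j + 6)) t)) =
        sr hS h3 (v k) := by
  intro i hi
  have hK1 := K_pos hK m1p
  have L := hL.symm
  have white : ∀ v, ((v ∈ A ∧ v ∉ bX (Xc hS h3 s)) ∧
      (frm P (100 * η) 2).e.symm v ∈ WR (9 * η) (51 * η) (100 * η) Tn.S ∪ Cl) →
      v ∈ A ∧ s (sr hS h3 v) = 0 ∧
        ¬ Sec (du (wp K j i)) (zq (100 * η) K j0) (100 * η * K / 2) t0
          (cw0 (100 * η) K j0 j i) l v := by
    rintro v ⟨⟨h1, h2⟩, h4⟩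
    refine ⟨h1, ?_, ?_⟩
    · unfold Meetx707.sr
      rw [dif_pos h1]
      rw [bX_Xc, mem_bs h1] at h2
      generalize s (cs hS h3 ⟨v, h1⟩) = c at h2
      revert h2
      fin_cases c
      · intro _; rfl
      · intro h; exact absurd rfl h
    · refine arm_miss (A := 9 * η) (B := 51 * η) (by positivity) hK m1p P hi (by linarith)
        (by linarith) hl ht ?_ (by positivity)
      rcases h4 with h4 | h4
      · left
        have hs : tn (sqs K j0) 2 = Tn.S := by
          rw [sqs_eq]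
          exact (pos_two (by omega) (-j0, -j0)).straight (by omega)
        rw [← hs, mem_WR] at h4
        exact h4
      · right
        exact hCl _ h4
  obtain ⟨v, k, v0, vk, vs⟩ := rtg_seq L.2
  have hin : ∀ a, a ≤ k → (v a ∈ A ∧ v a ∉ bX (Xc hS h3 s)) ∧
      (frm P (100 * η) 2).e.symm (v a) ∈ WR (9 * η) (51 * η) (100 * η) Tn.S ∪ Cl := by
    intro a ha
    rcases Nat.lt_or_ge a k with h1 | h1
    · exact (vs a h1).2.1
    · have : a = k := by omega
      rw [this, vk]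
      exact L.1.2
  obtain ⟨κ, q, g1, g2, g3⟩ := gate_k hK hi
  refine ⟨v, k, T κ, (white _ (hin 0 (Nat.zero_le _))).1, ?_, fun a ha => (vs a ha).1,
    fun a ha => Or.inr (white _ (hin a ha)).2, hT g1, hT g2, ?_⟩
  · rw [v0]
    exact hu.trans (arm_far (h := 100 * η) (by omega) P)
  · have per : ∀ (q : ℕ) (a : ℤ), p (a + q * (4 * K : ℕ)) = p a := by
      intro q
      induction q with
      | zero => intro a; simp
      | succ q ih =>
        intro a
        rw [show a + ((q + 1 : ℕ) : ℤ) * (4 * K : ℕ) = a + q * (4 * K : ℕ) + (4 * K : ℕ) by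
          push_cast; ring, hper, ih]
    have e1 : NonXx592.P (rc0 hS) (cfg (rc0 hS) s) (p (2 * j + 6)) (T κ) = p 2 := by
      rw [hTp, ← per q, g3]
    rw [e1, vk]
    have h5 := (hin k le_rfl).1.1
    rw [vk] at h5
    unfold Meetx707.sr
    rw [dif_pos h5]
    apply Subtype.ext
    show (Quot.mk _ (p 2).1.2 : Quot (hullE A)) = Quot.mk _ _
    rw [hp 2]

end Crest.Agent.R143.ArmSx355
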