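import Crest.Agent.R143.ArmA_795
import Crest.Agent.R143.ArmD_345

/-!
# Row 143 (S0194), block H, [R1] arm box: the annealed bound from the quenched bound (helper795)

* `QArm` : quenched bound of the full tile, the white tile above and the arm (345's box)
* **`arm_t`** : from `QArm` on a set of samples of probability `≥ 1 - δ`: almost surely four good gates
  give `p (a⁴ - δ) ≤ Rs ε (CT P η) (E E' F0) (cfg ε ω)`
-/

set_option autoImplicit false

noncomputable section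

open scoped Classical

namespace Crest.Agent.R143.ArmTx795

open MeasureTheory Set ProbabilityTheory
open Crest.ProbabilityR.Voronoi
open Crest.Agent.R143.B0x346 (GP)
open Crest.Agent.R143.PP0x831 Crest.Agent.R143.Poisx304 Crest.Agent.R143.Janx304
open Crest.Agent.R143.IndLocx279 Crest.Agent.R143.IndLoc2x279 Crest.Agent.R143.IndLoc3x279
open Crest.Agent.R143.IndLoc4x279 Crest.Agent.R143.PWx978 Crest.Agent.R143.Tplx978
open Crest.Agent.R143.Fairx653 Crest.Agent.R143.GPmx653 Crest.Agent.R143.TplIx204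
open Crest.Agent.R143.Posx653 Crest.Agent.R143.PosFx653
open Crest.Agent.R143.PthFx765 Crest.Agent.R143.WLocx713 Crest.Agent.R143.TileRx228
open Crest.Agent.R143.Harx315 (pr nb)
open Crest.Agent.R143.Halfx73 (g0 RH LH RH_fm LH_fm RH_local LH_local Q0 WQ_Q0)
open Crest.Agent.R143.ArmBx345 Crest.Agent.R143.ArmCx345 Crest.Agent.R143.ArmDx345
open Crest.Agent.R143.ArmAx795
open scoped ENNReal

variable {η d a ε : ℝ}

/-- **the quenched bound of the box**: `S` = configuration of the four gates, `T` = fresh positions -/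
def QArm (P : DT) (η d a p : ℝ) (S : Cf) (T : Finset ℂ) : Prop :=
  KG P S → tr (nxt (100 * η) Tn.S).e (KG P) S → tr (up η).e (KG P) S →
  tr (up η).e (tr (nxt (100 * η) Tn.S).e (KG P)) S →
  a ≤ pr T (fun τ => RH η d (S ∪ clr T τ)) →
  a ≤ pr T (fun τ => tr (nxt (100 * η) Tn.S).e (LH η d) (S ∪ clr T τ)) →
  a ≤ pr T (fun τ => tr (up η).e (RH η d) (S ∪ clr T τ)) →
  a ≤ pr T (fun τ => tr (up η).e (tr (nxt (100 * η) Tn.S).e (LH η d)) (S ∪ clr T τ)) →
    p ≤ pr T fun τ => P.TE (Tn.S, true) (S ∪ clr T τ) ∧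
      tr (up η).e (P.TE (Tn.S, false)) (S ∪ clr T τ) ∧ ArmE P η (S ∪ clr T τ)

/-- the gate boxes -/
def Bq (P : DT) (η : ℝ) : Fin 4 → Set ℂ
  | 0 => P.Q
  | 1 => P.Qn Tn.S
  | 2 => (up η).e.symm ⁻¹' P.Q
  | 3 => (up η).e.symm ⁻¹' P.Qn Tn.S

/-- the contact zones -/
def Cq (η : ℝ) : Fin 4 → Set ℂ
  | 0 => TplIx204.CR η
  | 1 => (nxt (100 * η) Tn.S).e.symm ⁻¹' TplIx204.CL η
  | 2 => (up η).e.symm ⁻¹' TplIx204.CR η
  | 3 => (up η).e.symm ⁻¹' ((nxt (100 * η) Tn.S).e.symm ⁻¹' TplIx204.CL η)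

/-- the gate darts -/
def Kq (P : DT) (η : ℝ) : Fin 4 → Cf → Prop
  | 0 => KG P
  | 1 => tr (nxt (100 * η) Tn.S).e (KG P)
  | 2 => tr (up η).e (KG P)
  | 3 => tr (up η).e (tr (nxt (100 * η) Tn.S).e (KG P))

/-- the half events -/
def Hq (η d : ℝ) : Fin 4 → Cf → Prop
  | 0 => RH η d
  | 1 => tr (nxt (100 * η) Tn.S).e (LH η d)
  | 2 => tr (up η).e (RH η d)
  | 3 => tr (up η).e (tr (nxt (100 * η) Tn.S).e (LH η d))

theorem all4 {Q : Fin 4 → Prop} (h0 : Q 0) (h1 : Q 1) (h2 : Q 2) (h3 : Q 3) :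
    ∀ i ∈ (Finset.univ : Finset (Fin 4)), Q i := fun i _ =>
  match i with
  | 0 => h0
  | 1 => h1
  | 2 => h2
  | 3 => h3

theorem B4_eq (P : DT) (η : ℝ) : (⋃ i ∈ (Finset.univ : Finset (Fin 4)), Bq P η i) = B4 P η := by
  ext z
  simp only [mem_iUnion, Finset.mem_univ, exists_prop, true_and, B4, mem_union]
  constructor
  · rintro ⟨i, hi⟩
    match i with
    | 0 => exact Or.inl (Or.inl hi)
    | 1 => exact Or.inl (Or.inr hi)
    | 2 => exact Or.inr (Or.inl hi)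
    | 3 => exact Or.inr (Or.inr hi)
  · rintro ((h | h) | (h | h))
    · exact ⟨0, h⟩
    · exact ⟨1, h⟩
    · exact ⟨2, h⟩
    · exact ⟨3, h⟩

/-! ### events -/

theorem TE_local (P : DT) (t : Tn × Bool) : LocalOn (P.Z t.1) (P.TE t) := by
  intro S
  show P.TE t S = P.TE t (S ∩ ovr (P.Z t.1))
  unfold DT.TE
  rw [inter_ovr2]

theorem TE_fm (P : DT) (t : Tn × Bool) : FinMeas (P.TE t) := by
  have h1 : FinMeas (TB t.2 (WR P.A P.B P.h t.1) (LG P.g P.Q) (LG (P.gn t.1) (P.Qn t.1))) :=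
    TB_neck_fme (WR_meas _) P.Q_meas (P.Qn_meas _) _ _
  exact fm_interP h1 (P.Z_meas _)

/-- the event of the box -/
def EA (P : DT) (η : ℝ) (X : Cf) : Prop :=
  P.TE (Tn.S, true) X ∧ tr (up η).e (P.TE (Tn.S, false)) X ∧ ArmE P η X

/-- everything the box looks at -/
theorem Z_sub (P : DT) (η : ℝ) : P.Z Tn.S ⊆ B4 P η ∪ CT P η := by
  rintro z ((h | h) | h)
  · exact Or.inl (Or.inl (Or.inl h))
  · exact Or.inl (Or.inl (Or.inr h))
  · exact Or.inr (Or.inl (Or.inl h))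

theorem Z_sub' (P : DT) (η : ℝ) : (up η).e.symm ⁻¹' P.Z Tn.S ⊆ B4 P η ∪ CT P η := by
  rintro z ((h | h) | h)
  · exact Or.inl (Or.inr (Or.inl h))
  · exact Or.inl (Or.inr (Or.inr h))
  · exact Or.inr (Or.inl (Or.inr h))

theorem ZA_sub (P : DT) (η : ℝ) : ZA P η ⊆ B4 P η ∪ CT P η := by
  rintro z (h | h)
  · exact Z_sub P η h
  · exact Or.inr (Or.inr h)

theorem and_local {B : Set ℂ} {p q : Cf → Prop} (hp : LocalOn B p) (hq : LocalOn B q) :
    LocalOn B fun X => p X ∧ q X := by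
  intro S
  have h1 := hp S
  have h2 := hq S
  show (p S ∧ q S) = (p (S ∩ {x | x.1 ∈ B}) ∧ q (S ∩ {x | x.1 ∈ B}))
  rw [← h1, ← h2]

theorem EA_local (P : DT) (η : ℝ) : LocalOn (B4 P η ∪ CT P η) (EA P η) := by
  refine and_local (LocalOn.mono (Z_sub P η) (TE_local P (Tn.S, true))) (and_local ?_ ?_)
  · exact LocalOn.mono (Z_sub' P η) (tr_local _ (TE_local P (Tn.S, false)))
  · exact LocalOn.mono (ZA_sub P η) (arm_local P)

theorem EA_fm (P : DT) (η : ℝ) : FinMeas (EA P η) :=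
  fm_and (TE_fm P _) (fm_and (tr_fm _ (TE_fm P _)) (arm_fm P))

theorem CT_meas (P : DT) (η : ℝ) : MeasurableSet (CT P η) :=
  ((P.D_meas _).union ((up η).e.symm.measurable (P.D_meas _))).union Cu_meas

theorem CT_bdd (P : DT) (η : ℝ) : Bornology.IsBounded (CT P η) :=
  ((P.D_bdd _).union ((up η).bdd' _ (P.D_bdd _))).union Cu_bdd

theorem tr_tr {X : Type*} (f g : ℂ ≃ᵐ ℂ) (F : Cf → X) : tr g (tr f F) = tr (f.trans g) F := by
  funext S
  unfold tr
  rw [mv_mv]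
  rfl

section main

variable (hε : 0 < ε) (hη : 0 < η)

theorem D_up : Disjoint ((Dx η d a ε hε hη).D Tn.S)
    ((up η).e.symm ⁻¹' (Dx η d a ε hε hη).D Tn.S) := by
  rw [Set.disjoint_left]
  intro z h1 h2
  rw [mem_preimage, m_D, (up_symm z).2, abs_lt] at h2
  rw [m_D, abs_lt] at h1
  linarith [h1.2.2, h2.2.1]

theorem CRD' : TplIx204.CR η ⊆ (Dx η d a ε hε hη).D Tn.S :=
  DT.CRD (dA hε hη) (dB hε hη) hη (dh hε hη) Tn.S

theorem CLD' : (nxt (100 * η) Tn.S).e.symm ⁻¹' TplIx204.CL η ⊆ (Dx η d a ε hε hη).D Tn.S :=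
  DT.CLD (dA hε hη) (dB hε hη) hη (dh hε hη) Tn.S

theorem KG_tr {f : Fr} {X : Cf} (h : tr f.e (Dx η d a ε hε hη).wA X ≠ 0) :
    tr f.e (KG (Dx η d a ε hε hη)) X :=
  (ind_ne.1 (show ind ((Dx η d a ε hε hη).GA (mv f.e.symm X)) ≠ 0 from h)).1

/-- the right half event of a good gate -/
theorem gd_0 {ω : Sample} (h : (Dx η d a ε hε hη).wA (cfg ε ω) ≠ 0) :
    ENNReal.ofReal a + ENNReal.ofReal a ≤
      Rs ε (TplIx204.CR η) (fun X => ind (RH η d X)) (cfg ε ω) := by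
  set P := Dx η d a ε hε hη with hP
  have h1 : P.GA (cfg ε ω) := ind_ne.1 (show ind (P.GA (cfg ε ω)) ≠ 0 from h)
  have h2 : gd ε (ENNReal.ofReal a + ENNReal.ofReal a) (TplIx204.CR η) (TplIx204.CL η) (RH η d)
    (LH η d) (cfg ε ω ∩ ovr P.Q) := h1.2
  have lR : LocalOn (P.Q ∪ TplIx204.CR η) (RH η d) := by rw [hP, dQ]; exact RH_local η d
  have lL : LocalOn (P.Q ∪ TplIx204.CL η) (LH η d) := by rw [hP, dQ]; exact LH_local η d
  rw [gd_cut hε CR_meas (CR_bdd hη) CL_meas (CL_bdd hη) lR lL] at h2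
  exact h2.1

/-- the half events of a good gate in a frame -/
theorem gd_tr (f : Fr) {ω : Sample} (h : tr f.e (Dx η d a ε hε hη).wA (cfg ε ω) ≠ 0) :
    ENNReal.ofReal a + ENNReal.ofReal a ≤
      Rs ε (f.e.symm ⁻¹' TplIx204.CR η) (fun X => ind (tr f.e (RH η d) X)) (cfg ε ω) ∧
    ENNReal.ofReal a + ENNReal.ofReal a ≤
      Rs ε (f.e.symm ⁻¹' TplIx204.CL η) (fun X => ind (tr f.e (LH η d) X)) (cfg ε ω) := by
  set P := Dx η d a ε hε hη with hP
  have h1 : P.GA (mv f.e.symm (cfg ε ω)) :=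
    ind_ne.1 (show ind (P.GA (mv f.e.symm (cfg ε ω))) ≠ 0 from h)
  have h2 : gd ε (ENNReal.ofReal a + ENNReal.ofReal a) (TplIx204.CR η) (TplIx204.CL η) (RH η d)
    (LH η d) (mv f.e.symm (cfg ε ω) ∩ ovr P.Q) := h1.2
  have lR : LocalOn (P.Q ∪ TplIx204.CR η) (RH η d) := by rw [hP, dQ]; exact RH_local η d
  have lL : LocalOn (P.Q ∪ TplIx204.CL η) (LH η d) := by rw [hP, dQ]; exact LH_local η d
  rw [gd_cut hε CR_meas (CR_bdd hη) CL_meas (CL_bdd hη) lR lL] at h2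
  have e1 := Raw.Rs_tr_cfg (B := P.Q ∪ TplIx204.CR η) hε f CR_meas (CR_bdd hη)
    (P.Q_bdd.union (CR_bdd hη)) (ind_fm (RH_fm η d)) (ind_local lR) ω
  have e2 := Raw.Rs_tr_cfg (B := P.Q ∪ TplIx204.CL η) hε f CL_meas (CL_bdd hη)
    (P.Q_bdd.union (CL_bdd hη)) (ind_fm (LH_fm η d)) (ind_local lL) ω
  constructor
  · have h3 := h2.1
    change _ ≤ tr f.e (Rs ε (TplIx204.CR η) fun X => ind (RH η d X)) (cfg ε ω) at h3
    rw [← e1] at h3
    exact h3
  · have h3 := h2.2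
    change _ ≤ tr f.e (Rs ε (TplIx204.CL η) fun X => ind (LH η d X)) (cfg ε ω) at h3
    rw [← e2] at h3
    exact h3

set_option maxHeartbeats 2000000 in
/-- **THE ANNEALED BOUND OF THE BOX** -/
theorem arm_t {p : ℝ} (hp : p ≤ 1) {Gm : Set Sample} {δ : ℝ≥0∞} (hGm : sampleLaw Gmᶜ ≤ δ)
    (hq : ∀ ω ∈ Gm, ∀ S : Cf, S.Finite → S ⊆ ovr (B4 (Dx η d a ε hε hη) η) → Sc S →
      GP (psn S ∪ (points ε ω ∩ CT (Dx η d a ε hε hη) η)) →
      QArm (Dx η d a ε hε hη) η d a p S (fs (points ε ω ∩ CT (Dx η d a ε hε hη) η))) :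
    ∀ᵐ ω ∂sampleLaw, (Dx η d a ε hε hη).wA (cfg ε ω) ≠ 0 →
      tr (nxt (100 * η) Tn.S).e (Dx η d a ε hε hη).wA (cfg ε ω) ≠ 0 →
      tr (up η).e (Dx η d a ε hε hη).wA (cfg ε ω) ≠ 0 →
      tr (up η).e (tr (nxt (100 * η) Tn.S).e (Dx η d a ε hε hη).wA) (cfg ε ω) ≠ 0 →
      ENNReal.ofReal p * (ENNReal.ofReal a * ENNReal.ofReal a *
        (ENNReal.ofReal a * ENNReal.ofReal a) - δ) ≤
        Rs ε (CT (Dx η d a ε hε hη) η)
          (fun X => ((Dx η d a ε hε hη).wE (Tn.S, true) X *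
            tr (up η).e ((Dx η d a ε hε hη).wE (Tn.S, false)) X) *
            ind (ArmE (Dx η d a ε hε hη) η X)) (cfg ε ω) := by
  set P := Dx η d a ε hε hη with hP
  set N := nxt (100 * η) Tn.S with hN
  set U := up η with hU
  have dD : Disjoint (B4 P η) (CT P η) := b4_ct (d := d) (a := a) hε hη
  have dU : Disjoint (P.D Tn.S) (U.e.symm ⁻¹' P.D Tn.S) := D_up (d := d) (a := a) hε hη
  have cR : TplIx204.CR η ⊆ P.D Tn.S := CRD' (d := d) (a := a) hε hη
  have cL : N.e.symm ⁻¹' TplIx204.CL η ⊆ P.D Tn.S := CLD' (d := d) (a := a) hε hη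
  have hRL : Disjoint (TplIx204.CR η) (N.e.symm ⁻¹' TplIx204.CL η) :=
    CR_CLn hη (by linarith : 60 * η ≤ 100 * η) Tn.S
  have lR : LocalOn (P.Q ∪ TplIx204.CR η) (RH η d) := by rw [hP, dQ]; exact RH_local η d
  have lL : LocalOn (P.Q ∪ TplIx204.CL η) (LH η d) := by rw [hP, dQ]; exact LH_local η d
  have lLn : LocalOn (P.Qn Tn.S ∪ N.e.symm ⁻¹' TplIx204.CL η) (tr N.e (LH η d)) :=
    tr_local N.e lL
  have lK : LocalOn P.Q (KG P) := KG_local
  have lKn : LocalOn (P.Qn Tn.S) (tr N.e (KG P)) := tr_local N.e lK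
  have key := aeposN (ι := Fin 4) (C := CT P η) (Bg := Bq P η) (Cg := Cq η) hε (CT_meas P η)
    (CT_bdd P η) Finset.univ
    (all4 P.Q_meas (P.Qn_meas _) (U.e.symm.measurable P.Q_meas)
      (U.e.symm.measurable (P.Qn_meas _)))
    (all4 P.Q_bdd (P.Qn_bdd _) (U.bdd' _ P.Q_bdd) (U.bdd' _ (P.Qn_bdd _)))
    (all4 CR_meas (N.e.symm.measurable CL_meas) (U.e.symm.measurable CR_meas)
      (U.e.symm.measurable (N.e.symm.measurable CL_meas)))
    ?_
    (all4 (fun z hz => Or.inl (Or.inl (cR hz))) (fun z hz => Or.inl (Or.inl (cL hz)))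
      (fun z hz => Or.inl (Or.inr (cR hz))) (fun z hz => Or.inl (Or.inr (cL hz))))
    (all4 (Disjoint.mono_left (fun z hz => Or.inl (Or.inl hz)) dD)
      (Disjoint.mono_left (fun z hz => Or.inl (Or.inr hz)) dD)
      (Disjoint.mono_left (fun z hz => Or.inr (Or.inl hz)) dD)
      (Disjoint.mono_left (fun z hz => Or.inr (Or.inr hz)) dD))
    (K := Kq P η) (H := Hq η d) (E := EA P η)
    (all4 lK lKn (tr_local U.e lK) (tr_local U.e lKn))
    (all4 lR lLn (tr_local U.e lR) (tr_local U.e lLn))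
    (all4 (RH_fm η d) (tr_fm _ (LH_fm η d)) (tr_fm _ (RH_fm η d))
      (tr_fm _ (tr_fm _ (LH_fm η d))))
    (by rw [B4_eq]; exact EA_local P η) (EA_fm P η) (a := a) hp hGm ?_
  · have ec : ENNReal.ofReal a ^ (Finset.univ : Finset (Fin 4)).card =
        ENNReal.ofReal a * ENNReal.ofReal a * (ENNReal.ofReal a * ENNReal.ofReal a) := by
      rw [Finset.card_univ, Fintype.card_fin]
      ring
    filter_upwards [key] with ω hω h0 h1 h2 h3
    have h3' : tr (N.trans U).e P.wA (cfg ε ω) ≠ 0 := by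
      have e : tr U.e (tr N.e P.wA) = tr (N.trans U).e P.wA := tr_tr _ _ _
      rwa [e] at h3
    have g0 := gd_0 (d := d) (a := a) hε hη h0
    have g1 := gd_tr (d := d) (a := a) hε hη N h1
    have g2 := gd_tr (d := d) (a := a) hε hη U h2
    have g3 := gd_tr (d := d) (a := a) hε hη (N.trans U) h3'
    have k := hω ?_ ?_
    · rw [ec] at k
      refine k.trans (Fairx653.Rs_mono (fun X => ?_) _)
      show ind (EA P η X) ≤ ind (P.TE (Tn.S, true) X) * ind (tr U.e (P.TE (Tn.S, false)) X) *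
        ind (ArmE P η X)
      by_cases hE : EA P η X
      · rw [ind_of hE, ind_of hE.1, ind_of hE.2.1, ind_of hE.2.2, one_mul, one_mul]
      · have : ind (EA P η X) = 0 := by unfold ind; rw [if_neg hE]
        rw [this]
        exact zero_le
    · refine all4 ?_ ?_ ?_ ?_
      · exact (ind_ne.1 (show ind (P.GA (cfg ε ω)) ≠ 0 from h0)).1
      · exact KG_tr (d := d) (a := a) hε hη h1
      · exact KG_tr (d := d) (a := a) hε hη h2
      · have := KG_tr (d := d) (a := a) hε hη h3'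
        show tr U.e (tr N.e (KG P)) (cfg ε ω)
        rw [tr_tr]
        exact this
    · refine all4 g0 g1.2 g2.1 ?_
      · have g := g3.2
        have e2 : tr (N.trans U).e (LH η d) = tr U.e (tr N.e (LH η d)) := (tr_tr _ _ _).symm
        rw [e2] at g
        exact g
  · -- disjoint contact zones
    have hUp : ∀ {A A' : Set ℂ}, A ⊆ P.D Tn.S → A' ⊆ P.D Tn.S → Disjoint A (U.e.symm ⁻¹' A') :=
      fun h h' => Disjoint.mono h (preimage_mono h') dU
    have hRL' : Disjoint (U.e.symm ⁻¹' TplIx204.CR η)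
      (U.e.symm ⁻¹' (N.e.symm ⁻¹' TplIx204.CL η)) := hRL.preimage _
    refine all4 ?_ ?_ ?_ ?_
    · exact all4 (fun h => absurd rfl h) (fun _ => hRL) (fun _ => hUp cR cR) (fun _ => hUp cR cL)
    · exact all4 (fun _ => hRL.symm) (fun h => absurd rfl h) (fun _ => hUp cL cR)
        (fun _ => hUp cL cL)
    · exact all4 (fun _ => (hUp cR cR).symm) (fun _ => (hUp cL cR).symm) (fun h => absurd rfl h)
        (fun _ => hRL')
    · exact all4 (fun _ => (hUp cR cL).symm) (fun _ => (hUp cL cL).symm) (fun _ => hRL'.symm)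
        (fun h => absurd rfl h)
  · intro ω hω S hS hSB hSc hgp hK hH
    rw [B4_eq] at hSB
    exact hq ω hω S hS hSB hSc hgp (hK 0 (Finset.mem_univ _)) (hK 1 (Finset.mem_univ _))
      (hK 2 (Finset.mem_univ _)) (hK 3 (Finset.mem_univ _)) (hH 0 (Finset.mem_univ _))
      (hH 1 (Finset.mem_univ _)) (hH 2 (Finset.mem_univ _)) (hH 3 (Finset.mem_univ _))

end main

end Crest.Agent.R143.ArmTx795
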