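import Crest.Agent.R143.ArmI_366
import Crest.Agent.R143.ArmF_795

/-!
# Row 143 (S0194), block H: the weight of the family with its arms, no hypothesis left (helper795)

* `armL` : 366's `ArmL` with the absolute constant `cR`
* **`wd_arms`** : 445's `WD` and the mass of 197's family for the weight with arms at the tiles `J`
-/

set_option autoImplicit false

noncomputable section

open scoped Classical

namespace Crest.Agent.R143.ArmWx795

open MeasureTheory Set Filter Topology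
open Crest.ProbabilityR.Voronoi
open Crest.Agent.R143.B0x346 Crest.Agent.R143.Locx922
open Crest.Agent.R143.PP0x831 Crest.Agent.R143.Poisx304 Crest.Agent.R143.Janx304
open Crest.Agent.R143.IndLocx279 Crest.Agent.R143.PWx978 Crest.Agent.R143.Tplx978
open Crest.Agent.R143.TileRx228 Crest.Agent.R143.PthFx765 Crest.Agent.R143.CorNx765
open Crest.Agent.R143.TplIx204 Crest.Agent.R143.RngNx765 Crest.Agent.R143.TwoNx366
open Crest.Agent.R143.RingLx239 Crest.Agent.R143.RingWDx445 Crest.Agent.R143.TwoRx366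
open Crest.Agent.R143.SqPx503 Crest.Agent.R143.SqGx445 Crest.Agent.R143.TwoGx366
open Crest.Agent.R143.Asm3x414 Crest.Agent.R143.WgtHx445
open Crest.Agent.R143.RngLx765 Crest.Agent.R143.PosFx653
open Crest.Agent.R143.RingUx197 (et et_pos et_mul Wi Wo Bx)
open Crest.Agent.R143.TwoWx366 Crest.Agent.R143.ArmIx366
open Crest.Agent.R143.ArmFx795 (cR cR_pos law)
open Crest.Agent.R143.PP1x831 (rad)
open scoped ENNReal

/-- **the arm box of the template** -/
theorem armL {η : ℝ} (hη : 0 < η) (hη1 : 10 * η ≤ 1) :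
    ∀ᶠ ε : ℝ in 𝓝[>] 0, ∀ (hε : 0 < ε) (hη : 0 < η),
      ArmL η (2 * rad cC ε) ca ε hε hη (ENNReal.ofReal cR) :=
  law hη hη1

theorem et_le {n : ℕ} (hn : 20 ≤ n) : 10 * et n ≤ 1 := by
  unfold et
  have h : (20 : ℝ) ≤ n := by exact_mod_cast hn
  rw [mul_one_div, div_le_one (by positivity)]
  linarith

variable {n : ℕ}

/-- **`WD` AND THE MASS OF THE FAMILY WITH THE ARMS** -/
theorem wd_arms (hn : 20 ≤ n) {Rr ρ0 : ℝ} (hR : 4 ≤ Rr) (hρ0 : 0 < ρ0)
    [Fintype (ZMod (4 * (n + 2)))] [Fintype (ZMod (4 * (n + 22)))]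
    (P : FPath (4 * (n + 2)) (Wi n)) (P' : FPath (4 * (n + 22)) (Wo n)) {J : Finset ℤ}
    (hJ : ∀ j ∈ J, Nc (n + 2) j) (hJJ : ∀ j ∈ J, ∀ j' ∈ J, j ≠ j' → Off2 (4 * (n + 2)) j j') :
    ∀ᶠ ε : ℝ in 𝓝[>] 0, ∀ (hε : 0 < ε) (hη : 0 < et n),
      WD ε (Bx Rr) (Rall (12 * et n) (52 * et n) (100 * et n) (Wi n))
          (Rall (12 * et n) (52 * et n) (100 * et n) (Wo n)) (gO P (stdT hε hη) true)
          (gO P' (stdT hε hη) false) (FA P (100 * et n) (armF (et n) ε hε hη) J)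
          (eB (Bx Rr) Rr √ε ρ0) (ENNReal.ofReal (cR ^ J.card))⁻¹ ∧
        ENNReal.ofReal (cR ^ J.card *
            (cT ^ (4 * (n + 2)) * cA ^ (4 * (n + 2)) * (cT ^ (4 * (n + 22)) * cA ^ (4 * (n + 22)))) /
              2) ≤
          Mg ε (Bx Rr) (wt (Bx Rr) (gO P (stdT hε hη) true) (gO P' (stdT hε hη) false)
            (FA P (100 * et n) (armF (et n) ε hε hη) J) (eB (Bx Rr) Rr √ε ρ0)) :=
  wd_arm hn hR hρ0 P P' hJ hJJ cR_pos (armL (et_pos (by omega)) (et_le hn))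

end Crest.Agent.R143.ArmWx795
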