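import Crest.Agent.R143.Scal_63
import Crest.Agent.R143.B0D_346

/-!
# Row 143 (S0194), block EQ, part 3: interior oscillation of the quenched observable (helper63)

* `MaxP S N W` : the maximum principle (leaf T5) for the set `W` of inner sites
* `osc_int` : the oscillation of `hval N` on a small disc inside a live disc
-/

set_option autoImplicit false

noncomputable section

namespace Crest.Agent.R143.EQ2x63

open Set MeasureTheory
open scoped Classical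
open Crest.Agent.R143.B0x346 Crest.Agent.R143.B0Dx346 Crest.Agent.R143.Oscx63
open Crest.Agent.R143.DelGx806 Crest.Agent.R143.Circx63 Crest.Agent.R143.Scalx63

/-- `{a, b}` is a Delaunay edge -/
def Edg (S : Finset ℂ) (a b : ℂ) : Prop := (∃ c, (a, b, c) ∈ delT S) ∨ ∃ c, (b, a, c) ∈ delT S

/-- **maximum principle** for the set of sites `W` -/
def MaxP (S : Finset ℂ) (N : Net ℂ) (W : Finset ℂ) : Prop :=
  ∀ v ∈ W, ∀ u, Edg S v u →
    N.F v u ∈ convexHull ℝ {y : ℂ | ∃ a ∈ W, ∃ b, b ∉ W ∧ Edg S a b ∧ y = N.F a b}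

theorem isPreconnected_sph (x : ℂ) (r : ℝ) : IsPreconnected (Metric.sphere x r) := by
  apply isPreconnected_sphere
  rw [Complex.rank_real_complex]
  norm_num

/-- the segment from inside to outside meets the circle -/
theorem seg_sph {x a b : ℂ} {ρ : ℝ} (ha : ‖a - x‖ ≤ ρ) (hb : ρ ≤ ‖b - x‖) :
    ∃ y ∈ segment ℝ a b, y ∈ Metric.sphere x ρ := by
  have hc : IsPreconnected (segment ℝ a b) := (convex_segment a b).isPreconnected
  have hf : ContinuousOn (fun y : ℂ => ‖y - x‖) (segment ℝ a b) := by fun_prop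
  obtain ⟨y, hy, h⟩ := hc.intermediate_value (left_mem_segment ℝ a b) (right_mem_segment ℝ a b) hf
    ⟨ha, hb⟩
  exact ⟨y, hy, by rw [mem_sphere_iff_norm]; exact h⟩

/-- the hypotheses of `osc_int` -/
structure Room (S : Finset ℂ) (N : Net ℂ) (x : ℂ) (k0 : ℤ) (n : ℕ) (d C : ℝ) : Prop where
  hn : 0 < n
  C0 : 0 ≤ C
  mesh : ∀ t ∈ delT S, (cT t ∩ Metric.closedBall x ((2 : ℝ) ^ k0)).Nonempty → dm t ≤ d
  cov : ∀ y ∈ Metric.closedBall x ((2 : ℝ) ^ k0), ∃ t ∈ delT S, y ∈ cT t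
  live : ∀ u v w : ℂ, (u, v, w) ∈ delT S → ∀ y ∈ Metric.closedBall x ((2 : ℝ) ^ k0),
    y ∈ segment ℝ u v → (u, v) ∉ N.kl
  rel : ∀ t ∈ delT S, (cT t ∩ Metric.closedBall x ((2 : ℝ) ^ k0)).Nonempty → RelAt N t
  en : ∀ U ⊆ delT S, ∑ t ∈ U, ‖N.Q t‖ ^ 2 ≤ 12
  m4 : ∀ k ∈ Finset.Ico (k0 - n) k0,
    ∑ t ∈ (delT S).filter (fun t => lo x t ≤ (2 : ℝ) ^ (k + 1) ∧ (2 : ℝ) ^ k ≤ hi x t),
      dm t ^ 2 ≤ C * (4 : ℝ) ^ k
  max : ∀ ρ : ℝ, 0 < ρ → ρ ≤ (2 : ℝ) ^ k0 → MaxP S N (S.filter fun s => ‖s - x‖ < ρ)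

/-- the bound -/
def om2 (C : ℝ) (n : ℕ) : ℝ := Real.sqrt 3 * Real.sqrt (C * (Real.sqrt C + 2) * 12 / n)

theorem om2_nonneg (C : ℝ) (n : ℕ) : 0 ≤ om2 C n := by unfold om2; positivity

/-- a circle such that `F` has small oscillation on the triangles which meet it -/
theorem circle_osc {S : Finset ℂ} {N : Net ℂ} (hS : GP (S : Set ℂ)) {x : ℂ} {k0 : ℤ} {n : ℕ}
    {d C : ℝ} (h : Room S N x k0 n d C) :
    ∃ ρ : ℝ, (2 : ℝ) ^ (k0 - n) ≤ ρ ∧ ρ ≤ (2 : ℝ) ^ k0 ∧ (∀ s ∈ S, ‖s - x‖ ≠ ρ) ∧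
      ∀ t ∈ delT S, ∀ t' ∈ delT S, (cT t ∩ Metric.sphere x ρ).Nonempty →
      (cT t' ∩ Metric.sphere x ρ).Nonempty → ∀ e e' : ℂ × ℂ, LSide N t e → LSide N t' e' →
      ‖N.F e.1 e.2 - N.F e'.1 e'.2‖ ≤ om2 C n := by
  set U := (delT S).filter fun t => (cT t ∩ Metric.closedBall x ((2 : ℝ) ^ k0)).Nonempty with hU
  have hK : (Finset.Ico (k0 - n) k0).Nonempty := by
    rw [Finset.nonempty_Ico]
    have := h.hn
    omega
  have hcard : ((Finset.Ico (k0 - n) k0).card : ℝ) = n := by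
    rw [Int.card_Ico]
    norm_num
  obtain ⟨k, hk, ρ, ⟨hρ1, hρ2⟩, hρS, hosc⟩ := good_radius (N := N) x U (Finset.filter_subset _ _)
    (fun t ht => h.rel t (Finset.mem_filter.mp ht).1 (Finset.mem_filter.mp ht).2) h.C0
    (Finset.Ico (k0 - n) k0) hK
    (by
      intro k hk
      refine le_trans (Finset.sum_le_sum_of_subset_of_nonneg ?_ fun t _ _ => sq_nonneg _)
        (h.m4 k hk)
      intro t ht
      rw [Finset.mem_filter] at ht ⊢
      exact ⟨(Finset.mem_filter.mp ht.1).1, ht.2⟩)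
    (h.en U (Finset.filter_subset _ _))
  rw [Finset.mem_Ico] at hk
  have hρ3 : (2 : ℝ) ^ (k0 - n) ≤ ρ := (zpow_le_zpow_right₀ (by norm_num) hk.1).trans hρ1
  have hρ4 : ρ ≤ (2 : ℝ) ^ k0 := hρ2.trans (zpow_le_zpow_right₀ (by norm_num) (by omega))
  refine ⟨ρ, hρ3, hρ4, hρS, ?_⟩
  intro t ht t' ht' hm hm' e e' he he'
  rw [hcard] at hosc
  have hsph : Metric.sphere x ρ ⊆ Metric.closedBall x ((2 : ℝ) ^ k0) :=
    Metric.sphere_subset_closedBall.trans (Metric.closedBall_subset_closedBall hρ4)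
  apply hosc
  refine conn_all hS (isPreconnected_sph x ρ) (fun y hy => h.cov y (hsph hy)) ?_
    (fun u v w huv y hy hseg => h.live u v w huv y (hsph hy) hseg) ?_ ht hm ht' hm' he he'
  · intro y hy hyS
    rw [mem_sphere_iff_norm] at hy
    exact hρS y hyS hy
  · intro s hs hsm
    refine ⟨s, ?_, mem_rots_self s⟩
    obtain ⟨y, hy1, hy2⟩ := hsm
    obtain ⟨o, hT⟩ := mem_delT_iff.1 (show (s.1, s.2.1, s.2.2) ∈ delT S from hs)
    have hy3 : ‖y - x‖ = ρ := by rw [mem_sphere_iff_norm] at hy2; exact hy2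
    rw [Finset.mem_filter, Finset.mem_filter]
    refine ⟨⟨hs, ⟨y, hy1, hsph hy2⟩⟩, ?_, ?_⟩
    · rw [← hy3]; exact lo_le hy1
    · rw [← hy3]; exact le_hi hT.pos hy1

/-- **the quenched observable near the centre is in the convex hull of a small set** -/
theorem osc_int {S : Finset ℂ} {N : Net ℂ} (hN : HNet S N) {x : ℂ} {k0 : ℤ} {n : ℕ}
    {d C : ℝ} (h : Room S N x k0 n d C) {z w : ℂ}
    (hz : ‖z - x‖ + d < (2 : ℝ) ^ (k0 - n)) (hw : ‖w - x‖ + d < (2 : ℝ) ^ (k0 - n))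
    (hzT : ∃ t ∈ delT S, InTri z t.1 t.2.1 t.2.2) (hwT : ∃ t ∈ delT S, InTri w t.1 t.2.1 t.2.2) :
    ‖hval N z - hval N w‖ ≤ om2 C n := by
  have hS := hN.gp
  obtain ⟨ρ, hρ1, hρ2, hρS, hosc⟩ := circle_osc hS h
  have hρ0 : 0 < ρ := lt_of_lt_of_le (by positivity) hρ1
  set W := S.filter fun s => ‖s - x‖ < ρ with hW
  set B : Set ℂ := {y : ℂ | ∃ a ∈ W, ∃ b, b ∉ W ∧ Edg S a b ∧ y = N.F a b} with hB
  have hmax : MaxP S N W := h.max ρ hρ0 hρ2
  -- the values on the boundary are close to each other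
  have hBe : ∀ y ∈ B, ∃ t ∈ delT S, (cT t ∩ Metric.sphere x ρ).Nonempty ∧
      ∃ e : ℂ × ℂ, LSide N t e ∧ y = N.F e.1 e.2 := by
    rintro y ⟨a, haW, b, hbW, hab, rfl⟩
    have ha : ‖a - x‖ ≤ ρ := (Finset.mem_filter.mp haW).2.le
    have hbS : b ∈ S := by
      rcases hab with ⟨c, hc⟩ | ⟨c, hc⟩
      · obtain ⟨o, hT⟩ := mem_delT_iff.1 hc; exact hT.mb
      · obtain ⟨o, hT⟩ := mem_delT_iff.1 hc; exact hT.ma
    have hb : ρ ≤ ‖b - x‖ := by
      by_contra hcon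
      exact hbW (Finset.mem_filter.mpr ⟨hbS, not_le.mp hcon⟩)
    obtain ⟨y, hy1, hy2⟩ := seg_sph ha hb
    have hyB : y ∈ Metric.closedBall x ((2 : ℝ) ^ k0) :=
      (Metric.sphere_subset_closedBall.trans (Metric.closedBall_subset_closedBall hρ2)) hy2
    rcases hab with ⟨c, hc⟩ | ⟨c, hc⟩
    · obtain ⟨o, hT⟩ := mem_delT_iff.1 hc
      refine ⟨(a, b, c), hc, ⟨y, seg_sub_cT hT.pos hy1, hy2⟩, (a, b), ?_, rfl⟩
      exact LSide_of (mem_rots_self _) (h.live a b c hc y hyB hy1)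
    · obtain ⟨o, hT⟩ := mem_delT_iff.1 hc
      rw [segment_symm] at hy1
      refine ⟨(b, a, c), hc, ⟨y, seg_sub_cT hT.pos hy1, hy2⟩, (b, a), ?_, ?_⟩
      · exact LSide_of (mem_rots_self _) (h.live b a c hc y hyB hy1)
      · exact F_comm N a b
  have hBd : ∀ y ∈ B, ∀ y' ∈ B, ‖y - y'‖ ≤ om2 C n := by
    intro y hy y' hy'
    obtain ⟨t, ht, hm, e, he, rfl⟩ := hBe y hy
    obtain ⟨t', ht', hm', e', he', rfl⟩ := hBe y' hy'
    exact hosc t ht t' ht' hm hm' e e' he he'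
  -- the convex hull
  have hconv : ∀ y ∈ convexHull ℝ B, ∀ y' ∈ convexHull ℝ B, ‖y - y'‖ ≤ om2 C n := by
    intro y hy y' hy'
    have h1 : ∀ u ∈ B, convexHull ℝ B ⊆ Metric.closedBall u (om2 C n) := by
      intro u hu
      refine convexHull_min (fun v hv => ?_) (convex_closedBall _ _)
      rw [mem_closedBall_iff_norm]
      exact hBd v hv u hu
    have h2 : convexHull ℝ B ⊆ Metric.closedBall y' (om2 C n) := by
      refine convexHull_min (fun v hv => ?_) (convex_closedBall _ _)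
      have := h1 v hv hy'
      rw [mem_closedBall_iff_norm] at this ⊢
      rwa [norm_sub_rev]
    have := h2 hy
    rwa [mem_closedBall_iff_norm] at this
  -- the value at a point
  have hval_mem : ∀ z : ℂ, ‖z - x‖ + d < (2 : ℝ) ^ (k0 - n) →
      (∃ t ∈ delT S, InTri z t.1 t.2.1 t.2.2) → hval N z ∈ convexHull ℝ B := by
    intro z hz hzT
    have hex : ∃ t : ℂ × ℂ × ℂ, t ∈ N.T ∧ InTri z t.1 t.2.1 t.2.2 := by
      obtain ⟨t, ht, hzt⟩ := hzT
      exact ⟨t, by rw [hN.tri]; exact ht, hzt⟩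
    unfold hval
    rw [dif_pos hex]
    set t := hex.choose with htdef
    have htT : t ∈ delT S := by rw [← hN.tri]; exact hex.choose_spec.1
    have hzt : InTri z t.1 t.2.1 t.2.2 := hex.choose_spec.2
    clear_value t
    obtain ⟨a, b, c⟩ := t
    simp only at hzt ⊢
    obtain ⟨o, hT⟩ := mem_delT_iff.1 htT
    have hzc : z ∈ cT (a, b, c) := ⟨hzt.1.le, hzt.2.1.le, hzt.2.2.le⟩
    have hle : (2 : ℝ) ^ (k0 - n) ≤ (2 : ℝ) ^ k0 := zpow_le_zpow_right₀ (by norm_num) (by omega)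
    have hd : dm (a, b, c) ≤ d := by
      apply h.mesh _ htT
      refine ⟨z, hzc, ?_⟩
      rw [mem_closedBall_iff_norm]
      have : 0 ≤ dm (a, b, c) := by
        unfold dm
        exact le_max_of_le_right (norm_nonneg _)
      by_contra hcon
      push Not at hcon
      -- then `d < 0`
      have hd0 : d < 0 := by linarith
      -- contradiction with the mesh at the centre
      obtain ⟨t, ht, hxt⟩ := h.cov x (by rw [mem_closedBall_iff_norm]; simp; positivity)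
      have h1 := h.mesh t ht ⟨x, hxt, by rw [mem_closedBall_iff_norm]; simp; positivity⟩
      have h2 : 0 ≤ dm t := by
        unfold dm
        exact le_max_of_le_right (norm_nonneg _)
      linarith
    have hhi : hi x (a, b, c) < ρ := by
      have := hi_le_add (x := x) hT.pos hzc
      linarith
    have hva : a ∈ W := Finset.mem_filter.mpr ⟨hT.ma,
      lt_of_le_of_lt ((le_max_left _ _).trans (le_max_left _ _)) hhi⟩
    have hvb : b ∈ W := Finset.mem_filter.mpr ⟨hT.mb,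
      lt_of_le_of_lt ((le_max_right _ _).trans (le_max_left _ _)) hhi⟩
    have hvc : c ∈ W := Finset.mem_filter.mpr ⟨hT.mc, lt_of_le_of_lt (le_max_right _ _) hhi⟩
    have f1 := hmax a hva b (Or.inl ⟨c, htT⟩)
    have f2 := hmax b hvb c (Or.inl ⟨a, (g1 S hS).1 _ _ _ htT⟩)
    have f3 := hmax c hvc a (Or.inl ⟨b, (g1 S hS).1 _ _ _ ((g1 S hS).1 _ _ _ htT)⟩)
    have hcv : Convex ℝ (convexHull ℝ B) := convex_convexHull ℝ B
    have g1' := hcv f1 f2 (a := 1 / 2) (b := 1 / 2) (by norm_num) (by norm_num) (by norm_num)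
    have g2' := hcv g1' f3 (a := 2 / 3) (b := 1 / 3) (by norm_num) (by norm_num) (by norm_num)
    convert g2' using 1
    simp only [Complex.real_smul]
    push_cast
    ring
  exact hconv _ (hval_mem z hz hzT) _ (hval_mem w hw hwT)

end Crest.Agent.R143.EQ2x63
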