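import Crest.Agent.R143.J10_872
import Crest.Agent.R143.G6W_723
import Crest.Agent.R143.EQ2_63

/-!
# Row 143, block X, leaf LAW (helper872)

* `ann_conn` : the Delaunay graph of the sites of an annulus (of width at least `4 d`) is connected;
  `disc_conn'` : the same for a disc
* `restr_eq_iff` : two flips of a join have the same restriction to the annulus iff the colours are
  equal or complementary on the annulus; `fibre_two`, `pr_restr`
* `pr_indep_V`, `pair_pr_V` : events which look at the edges between the sites of `V`: the law does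
  not depend on the join (one world, two worlds)
* `restr_law`, `restr_law2` : the law of the restriction; `restr_split` : given the restriction the
  other colours are fair, and the colours of the annulus are one of two complementary colourings
-/

set_option autoImplicit false

noncomputable section

open scoped Classical

namespace Crest.Agent.R143.Lawx872

open Crest.ProbabilityR.Voronoi
open Crest.Agent.R143.B0x346 Crest.Agent.R143.DelGx806 Crest.Agent.R143.DelRx806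
  Crest.Agent.R143.JColx54 Crest.Agent.R143.JCol2x54 Crest.Agent.R143.Planarx54
  Crest.Agent.R143.Planar2x54 Crest.Agent.R143.Harx315 Crest.Agent.R143.J8x872
  Crest.Agent.R143.J9x872 Crest.Agent.R143.J10x872
open Crest.Agent.R143.X0Bx683 (OutP LeadsO LegTip Tips TipsS HO GO HI GI Dsc Fs Ann Fc World Rj restr)
open Crest.Agent.R143.X0Cx683 (Pair)

local notation "flp" => Crest.Agent.R143.X0Bx683.flip
local notation "bdy" => Crest.Agent.R143.X0Bx683.bd
local notation "eex" => Crest.Agent.R143.XW1x315.ex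
local notation "AgrJ" => Crest.Agent.R143.J9x872.Agr

variable {S S' : Finset ℂ} {N N' : Net ℂ} {G : Trg ℂ} {kl : Set (ℂ × ℂ)} {O : Set (ℂ × ℂ × ℂ)}
  {D : Set (ℂ × ℂ)} {J J' : Finset (ℂ × ℂ)} {V β β' : Finset ℂ} {z0 : ℂ}

/-! ### connectedness -/

/-- connected inside the set of sites `V` -/
def ConnIn (S V : Finset ℂ) (a b : ℂ) : Prop :=
  Relation.ReflTransGen (fun u v => Adj S u v ∧ u ∈ V ∧ v ∈ V) a b

theorem ConnIn.symm {a b : ℂ} (h : ConnIn S V a b) : ConnIn S V b a := by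
  induction h with
  | refl => exact Relation.ReflTransGen.refl
  | tail _ h2 ih => exact Relation.ReflTransGen.head ⟨h2.1.symm, h2.2.2, h2.2.1⟩ ih

theorem ConnIn.trans {a b c : ℂ} (h : ConnIn S V a b) (h' : ConnIn S V b c) : ConnIn S V a c :=
  Relation.ReflTransGen.trans h h'

/-- a function which is constant along the edges inside `V` -/
theorem ConnIn.const {B : Type} {φ : ℂ → B} (hφ : ∀ u v, Adj S u v → u ∈ V → v ∈ V → φ u = φ v)
    {a b : ℂ} (h : ConnIn S V a b) : φ a = φ b := by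
  induction h with
  | refl => rfl
  | tail _ h2 ih => exact ih.trans (hφ _ _ h2.1 h2.2.1 h2.2.2)

/-- the sites whose cells meet a connected set -/
theorem conn_of_set (hS : GP (S : Set ℂ)) (h3 : 3 ≤ S.card) {C : Set ℂ} (hC : IsPreconnected C)
    (hV : ∀ z ∈ C, ∀ s ∈ S, z ∈ voronoiCell (S : Set ℂ) s → s ∈ V) {a b : ℂ} (ha : a ∈ S)
    (hb : b ∈ S) (h1 : (C ∩ voronoiCell (S : Set ℂ) a).Nonempty)
    (h2 : (C ∩ voronoiCell (S : Set ℂ) b).Nonempty) : ConnIn S V a b := by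
  refine Relation.ReflTransGen.mono ?_ _ _ (G6Wx723.chain_of_conn_fin hS h3 hC ha hb h1 h2)
  rintro u v ⟨h, z, hz, hzC⟩
  exact ⟨h, hV z hzC u h.mem.1 (G6Wx723.vedge_sub_cell hz),
    hV z hzC v h.mem.2 (G6Wx723.vedge_sub_cell' hz)⟩

theorem cell_near {R1 d : ℝ} (hD : RB0x838.LDns S z0 R1 d) {z s : ℂ} (hz : ‖z - z0‖ ≤ R1)
    (hs : z ∈ voronoiCell (S : Set ℂ) s) : ‖s - z‖ < d := by
  obtain ⟨s', hs', h⟩ := hD.hole z hz
  have h1 := hs s' hs'
  rw [norm_sub_rev s z]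
  rw [norm_sub_rev s' z] at h
  exact lt_of_le_of_lt h1 h

/-- **the Delaunay graph of the sites of an annulus is connected** -/
theorem ann_conn {R1 d ρ' ρ : ℝ} (h3 : 3 ≤ S.card) (hD : RB0x838.LDns S z0 R1 d) (h0 : 0 ≤ ρ')
    (h : ρ' + 4 * d ≤ ρ) (hR : ρ ≤ R1) {a b : ℂ} (ha : a ∈ Ann S z0 ρ' ρ)
    (hb : b ∈ Ann S z0 ρ' ρ) : ConnIn S (Ann S z0 ρ' ρ) a b := by
  have hd := hD.dpos
  set m : ℝ := (ρ' + ρ) / 2 with hm
  have hmd : ρ' + d ≤ m := by rw [hm]; linarith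
  have hmd' : m + d ≤ ρ := by rw [hm]; linarith
  have hm0 : 0 < m := by linarith
  have mem : ∀ s : ℂ, s ∈ Ann S z0 ρ' ρ ↔ s ∈ S ∧ ρ' ≤ ‖s - z0‖ ∧ ‖s - z0‖ < ρ := by
    intro s
    unfold X0Bx683.Ann
    rw [Finset.mem_filter]
  -- the middle circle
  have hcirc : ∀ z ∈ Metric.sphere z0 m, ∀ s ∈ S, z ∈ voronoiCell (S : Set ℂ) s →
      s ∈ Ann S z0 ρ' ρ := by
    intro z hz s hs hzs
    rw [mem_sphere_iff_norm] at hz
    have h1 := cell_near hD (by linarith) hzs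
    rw [mem]
    have h2 : ‖s - z0‖ ≤ ‖s - z‖ + ‖z - z0‖ := norm_sub_le_norm_sub_add_norm_sub _ _ _
    have h4 : ‖z - z0‖ ≤ ‖z - s‖ + ‖s - z0‖ := norm_sub_le_norm_sub_add_norm_sub _ _ _
    rw [norm_sub_rev z s] at h4
    exact ⟨hs, by linarith, by linarith⟩
  -- from a site to the middle circle
  have hto : ∀ a ∈ Ann S z0 ρ' ρ, ∃ w ∈ S, (Metric.sphere z0 m ∩
      voronoiCell (S : Set ℂ) w).Nonempty ∧ ConnIn S (Ann S z0 ρ' ρ) a w := by
    intro a ha
    obtain ⟨haS, ha1, ha2⟩ := (mem a).1 ha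
    rcases eq_or_ne a z0 with haz | haz
    · -- the centre is a site: straight segment to a point of the circle
      subst haz
      set y : ℂ := a + (m : ℂ) with hy
      obtain ⟨w, hw, hyw⟩ := G6Wx723.exists_cell ⟨a, haS⟩ y
      have hys : y ∈ Metric.sphere a m := by
        rw [mem_sphere_iff_norm, hy, add_sub_cancel_left, Complex.norm_real, Real.norm_eq_abs,
          abs_of_pos hm0]
      refine ⟨w, hw, ⟨y, hys, hyw⟩, ?_⟩
      refine conn_of_set hD.gp h3 (convex_segment a y).isPreconnected ?_ haS hw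
        ⟨a, left_mem_segment ℝ _ _, fun s _ => by simp⟩ ⟨y, right_mem_segment ℝ _ _, hyw⟩
      intro z hz s hs hzs
      rw [segment_eq_image'] at hz
      obtain ⟨θ, ⟨hθ0, hθ1⟩, rfl⟩ := hz
      have hn : ‖a + θ • (y - a) - a‖ = θ * m := by
        rw [hy, add_sub_cancel_left, add_sub_cancel_left, norm_smul, Complex.norm_real,
          Real.norm_eq_abs, Real.norm_eq_abs, abs_of_nonneg hθ0, abs_of_pos hm0]
      have hle : θ * m ≤ m := by nlinarith
      have h1 := cell_near hD (by rw [hn]; linarith) hzs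
      rw [mem]
      have h2 : ‖s - a‖ ≤ ‖s - (a + θ • (y - a))‖ + ‖a + θ • (y - a) - a‖ :=
        norm_sub_le_norm_sub_add_norm_sub _ _ _
      rw [sub_self, norm_zero] at ha1
      refine ⟨hs, by linarith [norm_nonneg (s - a)], ?_⟩
      rw [hn] at h2
      linarith
    · have hA : 0 < ‖a - z0‖ := norm_pos_iff.2 (sub_ne_zero.2 haz)
      set A := ‖a - z0‖ with hAdef
      set y : ℂ := z0 + ((m / A : ℝ) : ℂ) * (a - z0) with hy
      obtain ⟨w, hw, hyw⟩ := G6Wx723.exists_cell ⟨a, haS⟩ y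
      have hys : y ∈ Metric.sphere z0 m := by
        rw [mem_sphere_iff_norm, hy, add_sub_cancel_left, norm_mul, Complex.norm_real,
          Real.norm_eq_abs, abs_of_pos (by positivity), ← hAdef]
        field_simp
      refine ⟨w, hw, ⟨y, hys, hyw⟩, ?_⟩
      refine conn_of_set hD.gp h3 (convex_segment a y).isPreconnected ?_ haS hw
        ⟨a, left_mem_segment ℝ _ _, fun s _ => by simp⟩ ⟨y, right_mem_segment ℝ _ _, hyw⟩
      intro z hz s hs hzs
      rw [segment_eq_image'] at hz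
      obtain ⟨θ, ⟨hθ0, hθ1⟩, hz⟩ := hz
      -- `z - z0 = l (a - z0)`
      set l : ℝ := 1 + θ * (m / A - 1) with hl
      have hz1 : z - z0 = (l : ℂ) * (a - z0) := by
        rw [← hz, hy, hl]
        push_cast
        rw [Complex.real_smul]
        ring
      have hz2 : z - a = ((l - 1 : ℝ) : ℂ) * (a - z0) := by
        have : z - a = (z - z0) - (a - z0) := by ring
        rw [this, hz1]
        push_cast
        ring
      have hl0 : 0 ≤ l := by
        have : 0 ≤ θ * (m / A) := by positivity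
        rw [hl]
        nlinarith
      have hn1 : ‖z - z0‖ = l * A := by
        rw [hz1, norm_mul, Complex.norm_real, Real.norm_eq_abs, abs_of_nonneg hl0]
      have hn2 : ‖z - a‖ = |l - 1| * A := by
        rw [hz2, norm_mul, Complex.norm_real, Real.norm_eq_abs]
      have hcell : ‖z - s‖ ≤ ‖z - a‖ := hzs a haS
      have h2 : ‖s - z0‖ ≤ ‖s - z‖ + ‖z - z0‖ := norm_sub_le_norm_sub_add_norm_sub _ _ _
      have h4 : ‖z - z0‖ ≤ ‖z - s‖ + ‖s - z0‖ := norm_sub_le_norm_sub_add_norm_sub _ _ _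
      have hlA : l * A = A + θ * (m - A) := by
        rw [hl]
        field_simp
      rw [mem]
      rcases le_total A m with hAm | hAm
      · have h5 : 0 ≤ θ * (m - A) := mul_nonneg hθ0 (by linarith)
        have h6 : θ * (m - A) ≤ m - A := mul_le_of_le_one_left (by linarith) hθ1
        have h7 : 0 ≤ l - 1 := by
          have : 0 ≤ (l - 1) * A := by
            have : (l - 1) * A = θ * (m - A) := by linarith [hlA]
            rw [this]; exact h5
          by_contra hcon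
          push Not at hcon
          have := mul_neg_of_neg_of_pos hcon hA
          linarith
        rw [abs_of_nonneg h7] at hn2
        have h8 := cell_near hD (by rw [hn1, hlA]; linarith) hzs
        refine ⟨hs, ?_, ?_⟩
        · have : (l - 1) * A = l * A - A := by ring
          linarith
        · linarith
      · have h5 : θ * (m - A) ≤ 0 := mul_nonpos_of_nonneg_of_nonpos hθ0 (by linarith)
        have h6 : m - A ≤ θ * (m - A) := by nlinarith
        have h7 : l - 1 ≤ 0 := by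
          by_contra hcon
          push Not at hcon
          have h9 := mul_pos hcon hA
          have : (l - 1) * A = θ * (m - A) := by linarith [hlA]
          linarith
        rw [abs_of_nonpos h7] at hn2
        have h8 := cell_near hD (by rw [hn1, hlA]; linarith) hzs
        rw [norm_sub_rev z s] at hcell h4
        refine ⟨hs, ?_, ?_⟩
        · linarith
        · have : -(l - 1) * A = A - l * A := by ring
          linarith
  obtain ⟨w, hw, hw1, hw2⟩ := hto a ha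
  obtain ⟨w', hw', hw1', hw2'⟩ := hto b hb
  exact hw2.trans ((conn_of_set hD.gp h3 (EQ2x63.isPreconnected_sph z0 m) hcirc hw hw' hw1
    hw1').trans hw2'.symm)

/-! ### the two colourings with a given restriction -/

theorem mem_restr {ρ' ρ : ℝ} {K : Finset (ℂ × ℂ)} {a b : ℂ} : (a, b) ∈ restr z0 ρ' ρ K ↔
    (a, b) ∈ K ∧ (ρ' ≤ ‖a - z0‖ ∧ ρ' ≤ ‖b - z0‖) ∧ (‖a - z0‖ < ρ ∧ ‖b - z0‖ < ρ) := by
  unfold X0Bx683.restr
  rw [Finset.mem_filter]

private theorem prop1 (p q : Prop) : (p ∧ ¬q ∨ q ∧ ¬p) ↔ (p ↔ ¬q) := by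
  by_cases h1 : p <;> by_cases h2 : q <;> simp [h1, h2]

private theorem prop2 (j u1 v1 u2 v2 : Prop)
    (h : (j ↔ ¬¬(u1 ↔ v1)) ↔ (j ↔ ¬¬(u2 ↔ v2))) : (u1 ↔ u2) ↔ (v1 ↔ v2) := by
  by_cases h1 : j <;> by_cases h2 : u1 <;> by_cases h3 : v1 <;> by_cases h4 : u2 <;>
    by_cases h5 : v2 <;> simp [h1, h2, h3, h4, h5] at h ⊢

/-- **equal restrictions**: equal or complementary colours -/
theorem restr_eq_iff (hG : G.T = delT S) {ρ' ρ : ℝ}
    (hc : ∀ a ∈ Ann S z0 ρ' ρ, ∀ b ∈ Ann S z0 ρ' ρ, ConnIn S (Ann S z0 ρ' ρ) a b) :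
    restr z0 ρ' ρ (flp G J β) = restr z0 ρ' ρ (flp G J β') ↔
      (∀ s ∈ Ann S z0 ρ' ρ, (s ∈ β ↔ s ∈ β')) ∨ (∀ s ∈ Ann S z0 ρ' ρ, (s ∈ β ↔ s ∉ β')) := by
  have mem : ∀ s : ℂ, s ∈ Ann S z0 ρ' ρ ↔ s ∈ S ∧ ρ' ≤ ‖s - z0‖ ∧ ‖s - z0‖ < ρ := by
    intro s
    unfold X0Bx683.Ann
    rw [Finset.mem_filter]
  have memf : ∀ (β : Finset ℂ) (a b : ℂ), (a, b) ∈ flp G J β ↔
      (((a, b) ∈ J) ↔ ¬ (Adj S a b ∧ ¬ (a ∈ β ↔ b ∈ β))) := by
    intro β a b
    unfold X0Bx683.flip
    rw [Finset.mem_symmDiff, mem_bd hG]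
    exact prop1 _ _
  constructor
  · intro h
    have hcst : ∀ u v, Adj S u v → u ∈ Ann S z0 ρ' ρ → v ∈ Ann S z0 ρ' ρ →
        ((u ∈ β ↔ u ∈ β') = (v ∈ β ↔ v ∈ β')) := by
      intro u v huv hu hv
      have h1 : (u, v) ∈ restr z0 ρ' ρ (flp G J β) ↔ (u, v) ∈ restr z0 ρ' ρ (flp G J β') := by
        rw [h]
      have hu' := (mem u).1 hu
      have hv' := (mem v).1 hv
      rw [mem_restr, mem_restr, memf, memf] at h1
      have h2 : (ρ' ≤ ‖u - z0‖ ∧ ρ' ≤ ‖v - z0‖) ∧ ‖u - z0‖ < ρ ∧ ‖v - z0‖ < ρ :=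
        ⟨⟨hu'.2.1, hv'.2.1⟩, hu'.2.2, hv'.2.2⟩
      rw [eq_iff_iff]
      simp only [h2, huv, true_and, and_true] at h1
      exact prop2 _ _ _ _ _ h1
    by_cases hne : (Ann S z0 ρ' ρ).Nonempty
    · obtain ⟨s0, hs0⟩ := hne
      by_cases h0 : (s0 ∈ β ↔ s0 ∈ β')
      · left
        intro s hs
        have := (hc s0 hs0 s hs).const hcst
        rw [← this]
        exact h0
      · right
        intro s hs
        have h1 := (hc s0 hs0 s hs).const hcst
        have h2 : ¬ (s ∈ β ↔ s ∈ β') := by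
          rw [← h1]
          exact h0
        by_cases x1 : s ∈ β <;> by_cases x2 : s ∈ β' <;> simp [x1, x2] at h2 ⊢
    · left
      intro s hs
      exact absurd ⟨s, hs⟩ hne
  · intro h
    ext ⟨a, b⟩
    rw [mem_restr, mem_restr, memf, memf]
    by_cases hr : (ρ' ≤ ‖a - z0‖ ∧ ρ' ≤ ‖b - z0‖) ∧ ‖a - z0‖ < ρ ∧ ‖b - z0‖ < ρ
    · by_cases hab : Adj S a b
      · have ha : a ∈ Ann S z0 ρ' ρ := (mem a).2 ⟨hab.mem.1, hr.1.1, hr.2.1⟩
        have hb : b ∈ Ann S z0 ρ' ρ := (mem b).2 ⟨hab.mem.2, hr.1.2, hr.2.2⟩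
        rcases h with h | h
        · rw [h a ha, h b hb]
        · rw [h a ha, h b hb, not_iff_not]
      · simp only [hab, false_and, not_false_iff, iff_true]
    · simp only [hr, and_false]

/-- the two colourings of the annulus with a given restriction -/
theorem fibre_two (hG : G.T = delT S) {ρ' ρ : ℝ}
    (hc : ∀ a ∈ Ann S z0 ρ' ρ, ∀ b ∈ Ann S z0 ρ' ρ, ConnIn S (Ann S z0 ρ' ρ) a b)
    (hβ : β ⊆ Ann S z0 ρ' ρ) (hβ' : β' ⊆ Ann S z0 ρ' ρ) :
    restr z0 ρ' ρ (flp G J β) = restr z0 ρ' ρ (flp G J β') ↔ β = β' ∨ β = Ann S z0 ρ' ρ \ β' := by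
  rw [restr_eq_iff hG hc]
  constructor
  · rintro (h | h)
    · left
      ext s
      constructor
      · intro hs
        exact (h s (hβ hs)).1 hs
      · intro hs
        exact (h s (hβ' hs)).2 hs
    · right
      ext s
      rw [Finset.mem_sdiff]
      constructor
      · intro hs
        exact ⟨hβ hs, (h s (hβ hs)).1 hs⟩
      · rintro ⟨h1, h2⟩
        exact (h s h1).2 h2
  · rintro (rfl | rfl)
    · left
      intro s _
      exact Iff.rfl
    · right
      intro s hs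
      rw [Finset.mem_sdiff]
      exact ⟨fun h => h.2, fun h => ⟨hs, h⟩⟩

/-- **given the restriction**: the colours of the annulus are one of two complementary colourings, the
colours outside are fair -/
theorem restr_split (hG : G.T = delT S) {ρ' ρ : ℝ}
    (hc : ∀ a ∈ Ann S z0 ρ' ρ, ∀ b ∈ Ann S z0 ρ' ρ, ConnIn S (Ann S z0 ρ' ρ) a b)
    (hne : (Ann S z0 ρ' ρ).Nonempty) (hV : Ann S z0 ρ' ρ ⊆ V) (hβ : β ⊆ Ann S z0 ρ' ρ)
    (A : Finset ℂ → Prop) :
    pr V (fun γ => A γ ∧ restr z0 ρ' ρ (flp G J γ) = restr z0 ρ' ρ (flp G J β)) =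
      (pr (V \ Ann S z0 ρ' ρ) (fun α => A (α ∪ β)) +
        pr (V \ Ann S z0 ρ' ρ) (fun α => A (α ∪ (Ann S z0 ρ' ρ \ β)))) /
          2 ^ (Ann S z0 ρ' ρ).card := by
  rw [pr_sum hV]
  congr 1
  have hne2 : β ≠ Ann S z0 ρ' ρ \ β := by
    intro h
    obtain ⟨s, hs⟩ := hne
    by_cases h1 : s ∈ β
    · have h2 := h1
      rw [h, Finset.mem_sdiff] at h2
      exact h2.2 h1
    · apply h1
      rw [h, Finset.mem_sdiff]
      exact ⟨hs, h1⟩
  have key : ∀ γ ∈ (Ann S z0 ρ' ρ).powerset, pr (V \ Ann S z0 ρ' ρ) (fun α => A (α ∪ γ) ∧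
      restr z0 ρ' ρ (flp G J (α ∪ γ)) = restr z0 ρ' ρ (flp G J β)) =
      if γ = β ∨ γ = Ann S z0 ρ' ρ \ β then
        pr (V \ Ann S z0 ρ' ρ) (fun α => A (α ∪ γ)) else 0 := by
    intro γ hγ
    rw [Finset.mem_powerset] at hγ
    have e : ∀ α, α ⊆ V \ Ann S z0 ρ' ρ →
        (restr z0 ρ' ρ (flp G J (α ∪ γ)) = restr z0 ρ' ρ (flp G J β) ↔
          (γ = β ∨ γ = Ann S z0 ρ' ρ \ β)) := by
      intro α hα
      rw [← fibre_two hG hc hγ hβ]
      have : restr z0 ρ' ρ (flp G J (α ∪ γ)) = restr z0 ρ' ρ (flp G J γ) := by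
        rw [restr_eq_iff hG hc]
        left
        intro s hs
        rw [Finset.mem_union]
        constructor
        · rintro (h | h)
          · exact absurd hs (Finset.mem_sdiff.1 (hα h)).2
          · exact h
        · exact Or.inr
      rw [this]
    by_cases h : γ = β ∨ γ = Ann S z0 ρ' ρ \ β
    · rw [if_pos h]
      apply pr_congr
      intro α hα
      rw [e α hα]
      exact ⟨fun h' => h'.1, fun h' => ⟨h', h⟩⟩
    · rw [if_neg h]
      have h0 : pr (V \ Ann S z0 ρ' ρ) (fun _ => False) = 0 := by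
        rw [← XW1x315.ex_ind]
        exact (XW1x315.ex_congr (g := fun _ => (0 : ℝ)) fun _ _ => if_neg not_false).trans
          (XW1x315.ex_const _ _)
      rw [← h0]
      apply pr_congr
      intro α hα
      rw [e α hα]
      tauto
  rw [Finset.sum_congr rfl key, ← Finset.sum_filter]
  have hfil : (Ann S z0 ρ' ρ).powerset.filter (fun γ => γ = β ∨ γ = Ann S z0 ρ' ρ \ β) =
      {β, Ann S z0 ρ' ρ \ β} := by
    ext γ
    rw [Finset.mem_filter, Finset.mem_powerset, Finset.mem_insert, Finset.mem_singleton]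
    constructor
    · exact fun h => h.2
    · rintro (rfl | rfl)
      · exact ⟨hβ, Or.inl rfl⟩
      · exact ⟨Finset.sdiff_subset, Or.inr rfl⟩
  rw [hfil, Finset.sum_pair hne2]

/-- the probability of a restriction which occurs -/
theorem pr_restr (hG : G.T = delT S) {ρ' ρ : ℝ}
    (hc : ∀ a ∈ Ann S z0 ρ' ρ, ∀ b ∈ Ann S z0 ρ' ρ, ConnIn S (Ann S z0 ρ' ρ) a b)
    (hne : (Ann S z0 ρ' ρ).Nonempty) (hV : Ann S z0 ρ' ρ ⊆ V) (hβ : β ⊆ Ann S z0 ρ' ρ) :
    pr V (fun γ => restr z0 ρ' ρ (flp G J γ) = restr z0 ρ' ρ (flp G J β)) =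
      2 / 2 ^ (Ann S z0 ρ' ρ).card := by
  have h := restr_split (J := J) hG hc hne hV hβ (fun _ => True)
  simp only [true_and] at h
  rw [h]
  have h1 : pr (V \ Ann S z0 ρ' ρ) (fun _ => True) = 1 := by
    rw [← XW1x315.ex_ind]
    exact (XW1x315.ex_congr (g := fun _ => (1 : ℝ)) fun _ _ => if_pos trivial).trans
      (XW1x315.ex_const _ _)
  rw [h1]
  norm_num

/-! ### the law does not depend on the join -/

/-- **one world**: an event which looks at the edges between the sites of `V` -/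
theorem pr_indep_V (H : HNet S N) (hJ : IsJoin N.toTrg N.kl O N.exS J)
    (hJ' : IsJoin N.toTrg N.kl O N.exS J') {E : Finset (ℂ × ℂ) → Prop}
    (hE : ∀ K K', K ⊆ N.E → K' ⊆ N.E → AgrJ (V : Set ℂ)ᶜ K K' → (E K ↔ E K')) :
    pr V (fun β => E (flp N.toTrg J' β)) = pr V (fun β => E (flp N.toTrg J β)) := by
  obtain ⟨τ, hτ, rfl⟩ := exists_flip H hJ hJ'
  have hsub : τ ∩ V ⊆ V := Finset.inter_subset_right
  have hJE : J ⊆ N.E := hJ.sub
  have hfE : ∀ (K : Finset (ℂ × ℂ)) (β : Finset ℂ), K ⊆ N.E → flp N.toTrg K β ⊆ N.E := by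
    intro K β hK p hp
    unfold X0Bx683.flip at hp
    rcases Finset.mem_symmDiff.1 hp with h | h
    · exact hK h.1
    · exact (Finset.mem_filter.1 h.1).1
  rw [← XW1x315.ex_ind, ← XW1x315.ex_ind, ← XW1x315.ex_symm hsub]
  refine XW1x315.ex_congr fun β hβ => ?_
  have e : E (flp N.toTrg (flp N.toTrg J τ) (symmDiff β (τ ∩ V))) ↔ E (flp N.toTrg J β) := by
    refine hE _ _ (hfE _ _ (hfE _ _ hJE)) (hfE _ _ hJE) ?_
    rw [J8x872.flip_flip]
    apply agr_flip₂
    intro s hs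
    have hs' : s ∈ V := Finset.mem_coe.1 (not_not.1 hs)
    rw [Finset.mem_symmDiff, Finset.mem_symmDiff, Finset.mem_inter]
    tauto
  simp only [e]

section pair

variable {R R1 d b0 C4 r : ℝ} {f : Fc S N z0 r} {f' : Fc S' N' z0 r}

/-- **two worlds**: events which look at the edges between the sites of `V` -/
theorem pair_pr_V (P : Pair S S' N N' z0 R R1 d b0 C4 r f f') (hd : 2 * d ≤ R) (hR1 : R + d ≤ R1)
    (hJ : J ∈ N.tj f.s0) (hJ' : J' ∈ N'.tj f'.s0) (hV : V ⊆ Fs S z0 R)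
    {E E' : Finset (ℂ × ℂ) → Prop}
    (hE : ∀ K K', K ⊆ N.E → K' ⊆ N'.E → AgrJ (V : Set ℂ)ᶜ K K' → (E K ↔ E' K')) :
    pr V (fun β => E' (flp N'.toTrg J' β)) = pr V (fun β => E (flp N.toTrg J β)) := by
  obtain ⟨τ, hτ, hag⟩ := pair_agr P hd hR1 hJ hJ'
  have H := P.w.hnet
  have H' := P.w'.hnet
  have hJ1 : J ⊆ N.E := (JCardx872.mem_joins.1 hJ).sub
  have hJ1' : J' ⊆ N'.E := (JCardx872.mem_joins.1 hJ').sub
  have hfE : ∀ (M : Net ℂ) (K : Finset (ℂ × ℂ)) (β : Finset ℂ), K ⊆ M.E →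
      flp M.toTrg K β ⊆ M.E := by
    intro M K β hK p hp
    unfold X0Bx683.flip at hp
    rcases Finset.mem_symmDiff.1 hp with h | h
    · exact hK h.1
    · exact (Finset.mem_filter.1 h.1).1
  have hsub : τ ∩ V ⊆ V := Finset.inter_subset_right
  rw [← XW1x315.ex_ind, ← XW1x315.ex_ind, ← XW1x315.ex_symm hsub]
  refine XW1x315.ex_congr fun β hβ => ?_
  have e : E (flp N.toTrg J β) ↔ E' (flp N'.toTrg J' (symmDiff β (τ ∩ V))) := by
    refine hE _ _ (hfE _ _ _ hJ1) (hfE _ _ _ hJ1') ?_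
    intro a b ha hb
    have haV : a ∈ V := Finset.mem_coe.1 (not_not.1 ha)
    have hbV : b ∈ V := Finset.mem_coe.1 (not_not.1 hb)
    have ha' : ‖a - z0‖ < R := (Finset.mem_filter.1 (hV haV)).2
    have hb' : ‖b - z0‖ < R := (Finset.mem_filter.1 (hV hbV)).2
    have haR : a ∉ (Dsc z0 R)ᶜ := fun h => h ha'
    have hbR : b ∉ (Dsc z0 R)ᶜ := fun h => h hb'
    have h1 := hag a b haR hbR
    unfold X0Bx683.flip at h1 ⊢
    rw [Finset.mem_symmDiff, mem_bd H.tri] at h1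
    rw [Finset.mem_symmDiff, Finset.mem_symmDiff, mem_bd H.tri, mem_bd H'.tri,
      ← pair_adj P hd hR1 ha' hb']
    rw [Finset.mem_symmDiff, Finset.mem_symmDiff, Finset.mem_inter, Finset.mem_inter]
    simp only [haV, hbV, and_true]
    generalize (a ∈ τ) = A1 at *
    generalize (b ∈ τ) = B1 at *
    generalize (a ∈ β) = A2 at *
    generalize (b ∈ β) = B2 at *
    generalize (Adj S a b) = A3 at *
    generalize ((a, b) ∈ J) = A4 at *
    generalize ((a, b) ∈ J') = A5 at *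
    clear hag hsub hβ hτ
    by_cases y1 : A1 <;> by_cases y2 : B1 <;> by_cases y3 : A2 <;> by_cases y4 : B2 <;>
      by_cases y5 : A3 <;> by_cases y6 : A4 <;> by_cases y7 : A5 <;>
      simp only [y1, y2, y3, y4, y5, y6, y7, not_true, not_false_iff, iff_true, iff_false,
        and_true, and_false, or_false, false_or] at h1 ⊢
  simp only [e]

end pair

/-- the restriction only looks at the edges between the sites of the annulus -/
theorem restr_congr {ρ' ρ : ℝ} (hG : G.T = delT S) {G' : Trg ℂ} (hG' : G'.T = delT S')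
    (hS : Ann S z0 ρ' ρ = Ann S' z0 ρ' ρ) {K K' : Finset (ℂ × ℂ)} (hK : K ⊆ G.E)
    (hK' : K' ⊆ G'.E) (h : AgrJ (Ann S z0 ρ' ρ : Set ℂ)ᶜ K K') :
    restr z0 ρ' ρ K = restr z0 ρ' ρ K' := by
  have mem : ∀ (S : Finset ℂ) (s : ℂ), s ∈ Ann S z0 ρ' ρ ↔
      s ∈ S ∧ ρ' ≤ ‖s - z0‖ ∧ ‖s - z0‖ < ρ := by
    intro S s
    unfold X0Bx683.Ann
    rw [Finset.mem_filter]
  ext ⟨a, b⟩
  rw [mem_restr, mem_restr]
  constructor
  · rintro ⟨h1, h2, h3⟩
    have hab := (mem_E hG).1 (hK h1)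
    have ha : a ∈ Ann S z0 ρ' ρ := (mem S a).2 ⟨hab.mem.1, h2.1, h3.1⟩
    have hb : b ∈ Ann S z0 ρ' ρ := (mem S b).2 ⟨hab.mem.2, h2.2, h3.2⟩
    exact ⟨(h a b (fun h' => h' (Finset.mem_coe.2 ha)) (fun h' => h' (Finset.mem_coe.2 hb))).1 h1,
      h2, h3⟩
  · rintro ⟨h1, h2, h3⟩
    have hab := (mem_E hG').1 (hK' h1)
    have ha : a ∈ Ann S z0 ρ' ρ := by rw [hS]; exact (mem S' a).2 ⟨hab.mem.1, h2.1, h3.1⟩
    have hb : b ∈ Ann S z0 ρ' ρ := by rw [hS]; exact (mem S' b).2 ⟨hab.mem.2, h2.2, h3.2⟩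
    exact ⟨(h a b (fun h' => h' (Finset.mem_coe.2 ha)) (fun h' => h' (Finset.mem_coe.2 hb))).2 h1,
      h2, h3⟩

/-- **the law of the restriction to an annulus does not depend on the join** -/
theorem restr_law (H : HNet S N) (hJ : IsJoin N.toTrg N.kl O N.exS J)
    (hJ' : IsJoin N.toTrg N.kl O N.exS J') {ρ' ρ : ℝ} (E : Finset (ℂ × ℂ) → Prop) :
    pr (Ann S z0 ρ' ρ) (fun β => E (restr z0 ρ' ρ (flp N.toTrg J' β))) =
      pr (Ann S z0 ρ' ρ) (fun β => E (restr z0 ρ' ρ (flp N.toTrg J β))) := by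
  refine pr_indep_V H hJ hJ' (E := fun K => E (restr z0 ρ' ρ K)) fun K K' hK hK' h => ?_
  rw [restr_congr H.tri H.tri rfl hK hK' h]

section pair

variable {R R1 d b0 C4 r : ℝ} {f : Fc S N z0 r} {f' : Fc S' N' z0 r}

/-- **the law of the restriction to an annulus is the same in two worlds with the same inside** -/
theorem restr_law2 (P : Pair S S' N N' z0 R R1 d b0 C4 r f f') (hd : 2 * d ≤ R)
    (hR1 : R + d ≤ R1) (hJ : J ∈ N.tj f.s0) (hJ' : J' ∈ N'.tj f'.s0) {ρ' ρ : ℝ} (hρ : ρ ≤ R)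
    (E : Finset (ℂ × ℂ) → Prop) :
    pr (Ann S z0 ρ' ρ) (fun β => E (restr z0 ρ' ρ (flp N'.toTrg J' β))) =
      pr (Ann S z0 ρ' ρ) (fun β => E (restr z0 ρ' ρ (flp N.toTrg J β))) := by
  refine pair_pr_V P hd hR1 hJ hJ' ((ann_sub S z0 ρ' ρ).trans (fs_sub S z0 hρ))
    (E := fun K => E (restr z0 ρ' ρ K)) (E' := fun K => E (restr z0 ρ' ρ K))
    fun K K' hK hK' h => ?_
  rw [restr_congr P.w.hnet.tri P.w'.hnet.tri (pair_ann P hρ) hK hK' h]

end pair

/-- marginal: extra flips outside the annulus do not change the law of the restriction -/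
theorem restr_marg (hG : G.T = delT S) {ρ' ρ : ℝ} (hV : Ann S z0 ρ' ρ ⊆ V)
    (E : Finset (ℂ × ℂ) → Prop) :
    pr V (fun β => E (restr z0 ρ' ρ (flp G J β))) =
      pr (Ann S z0 ρ' ρ) (fun β => E (restr z0 ρ' ρ (flp G J β))) := by
  refine pr_dep hV fun β hβ => ?_
  have : restr z0 ρ' ρ (flp G J β) = restr z0 ρ' ρ (flp G J (β ∩ Ann S z0 ρ' ρ)) := by
    ext ⟨a, b⟩
    rw [mem_restr, mem_restr]
    unfold X0Bx683.flip
    rw [Finset.mem_symmDiff, Finset.mem_symmDiff, mem_bd hG, mem_bd hG]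
    by_cases hr : (ρ' ≤ ‖a - z0‖ ∧ ρ' ≤ ‖b - z0‖) ∧ ‖a - z0‖ < ρ ∧ ‖b - z0‖ < ρ
    · by_cases hab : Adj S a b
      · have ha : a ∈ Ann S z0 ρ' ρ := by
          unfold X0Bx683.Ann
          rw [Finset.mem_filter]
          exact ⟨hab.mem.1, hr.1.1, hr.2.1⟩
        have hb : b ∈ Ann S z0 ρ' ρ := by
          unfold X0Bx683.Ann
          rw [Finset.mem_filter]
          exact ⟨hab.mem.2, hr.1.2, hr.2.2⟩
        rw [Finset.mem_inter, Finset.mem_inter]
        tauto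
      · tauto
    · tauto
  rw [this]

end Crest.Agent.R143.Lawx872
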