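import Crest.Agent.R143.Inv_969
import Crest.Agent.R143.Har_315
import Crest.Agent.R143.Law_872

/-!
# Row 143 (S0194): the root block has an arm to each side (helper969)

For a network `h : HNet S N` and the closed map `cm h` (root gap `Sum.inr j`: the sides `j` and `j-1`
have the colour of the block, the side `j+1` has the other colour).

* `walk_conn` : the left sites of the walker form a Delaunay chain
* `arm` : if the root block meets a dart `(a, b)` (so that `b` is a left site), there is a chain of sites which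
  are on no side, of the colour of the block, from `b` to a neighbour of the side `j`
* `PB_le_pr` : `PB (cm h) (Sum.inr j) (dA A) ≤ pr V E` if `E` contains the event that there is a
  one-colour chain of inner sites from a triangle of `A` to a neighbour of the side `j`
  (`V = inn S N` = sites on no side)
* `invisible` : the invisible case of 660's LEMMA CONT: bound of `∑ u t * N.Q t` (e.g. of `T(N)`)
-/

set_option autoImplicit false

noncomputable section

open scoped Classical

namespace Crest.Agent.R143.Armx969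

open Crest.Agent.R143.B0x346 Crest.Agent.R143.DelGx806 Crest.Agent.R143.DelRx806
  Crest.Agent.R143.JColx54 Crest.Agent.R143.JCardx872 Crest.Agent.R143.Planarx54
  Crest.Agent.R143.Sidesx697
open Crest.Agent.R143.Frame1x395 Crest.Agent.R143.Frame2x395 Crest.Agent.R143.Frame3x395
  Crest.Agent.R143.Frame4x395 Crest.Agent.R143.Frame5x395 Crest.Agent.R143.Frame6x395
  Crest.Agent.R143.Frame7x395 Crest.Agent.R143.Frame8x395 Crest.Agent.R143.DefsNx346
  Crest.Agent.R143.Explx253 Crest.Agent.R143.Invx969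
open Crest.Agent.R143.Lawx872 (ConnIn)
open Crest.Agent.R143.Harx315 (pr nb fl mem_fil)

variable {S : Finset ℂ} {N : Net ℂ}

theorem wall_symm {x y : ℂ} (h : Wall N x y) : Wall N y x := by
  obtain ⟨hE, h1, h2, h3⟩ := h
  refine ⟨?_, h2, h1, ?_⟩
  · unfold Trg.E at hE ⊢
    simp only [Finset.mem_union, Finset.mem_image, Prod.mk.injEq] at hE ⊢
    rcases hE with ⟨t, ht, e1, e2⟩ | ⟨t, ht, e1, e2⟩
    · exact Or.inr ⟨t, ht, e2, e1⟩
    · exact Or.inl ⟨t, ht, e2, e1⟩
  · rcases h3 with h | h | h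
    · exact Or.inl (N.klsym _ _ h)
    · exact Or.inr (Or.inr h)
    · exact Or.inr (Or.inl h)

/-- the class of a site is the giant of the side `i` iff the site is on the side `i` -/
theorem cell_side {i : ZMod 3} {v : ℂ} :
    (Quot.mk (Wall N) v : Quot (Wall N)) = Quot.mk (Wall N) (N.ex i).2 ↔ Side N i v := by
  constructor
  · intro e
    have h1 := Quot.eqvGen_exact e
    have key : ∀ a b, Relation.EqvGen (Wall N) a b →
        Relation.ReflTransGen (Wall N) a b ∧ Relation.ReflTransGen (Wall N) b a := by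
      intro a b hab
      induction hab with
      | rel a b h => exact ⟨Relation.ReflTransGen.single h, Relation.ReflTransGen.single (wall_symm h)⟩
      | refl a => exact ⟨Relation.ReflTransGen.refl, Relation.ReflTransGen.refl⟩
      | symm a b _ ih => exact ⟨ih.2, ih.1⟩
      | trans a b c _ _ ih1 ih2 => exact ⟨ih1.1.trans ih2.1, ih2.2.trans ih1.2⟩
    exact (key _ _ h1).2
  · intro h1
    unfold Side at h1
    induction h1 with
    | refl => rfl
    | tail _ hs ih => rw [← ih]; exact (Quot.sound hs).symm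

/-- the tail of a dart (a mark dart: head of the mark) -/
def tl : Dt S → ℂ → ℂ
  | Sum.inl e, _ => e.1.1
  | Sum.inr _, z => z

/-- one step of the walker in sites -/
theorem step_site (h : HNet S N) {x : Dt S → ZMod 2} (hx : IsC (cm h) ∅ x)
    {e e' : {e : ℂ × ℂ // e ∈ sd S}} (hp : x (Sum.inl e) = 1)
    (hs : stp (cm h) x (Sum.inl e) = Sum.inl e') : e'.1.1 = e.1.1 ∨ Adj S e.1.1 e'.1.1 := by
  obtain ⟨⟨a, b⟩, he⟩ := e
  set c := th S (a, b) with hc
  have ht : (a, b, c) ∈ delT S := th_spec he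
  have r1 : (cm h).rho (Sum.inl ⟨(a, b), he⟩ : Dt S) = Sum.inl ⟨(b, c), mem_sd.2 ⟨a, rot_mem h ht⟩⟩ :=
    rfl
  have e3 : th S (b, c) = a := th_eq h (rot_mem h ht)
  have r2 : (cm h).rho (Sum.inl ⟨(b, c), mem_sd.2 ⟨a, rot_mem h ht⟩⟩ : Dt S) =
      Sum.inl ⟨(c, a), mem_sd.2 ⟨b, rot_mem h (rot_mem h ht)⟩⟩ := by
    show (Sum.inl _ : Dt S) = Sum.inl _
    congr 1
    apply Subtype.ext
    show (c, th S (b, c)) = (c, a)
    rw [e3]
  have io1 : ∀ (u v : ℂ) (huv : (u, v) ∈ sd S), x (Sum.inl ⟨(u, v), huv⟩) = 1 →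
      ∀ e' : {e : ℂ × ℂ // e ∈ sd S}, (cm h).iota (Sum.inl ⟨(u, v), huv⟩) = Sum.inl e' →
      e'.1.1 = v := by
    intro u v huv hx1 e' he'
    have he'' : io h (Sum.inl ⟨(u, v), huv⟩) = Sum.inl e' := he'
    by_cases h1 : (v, u) ∈ sd S
    · rw [io_twin h (e := ⟨(u, v), huv⟩) h1] at he''
      rw [← Sum.inl.inj he'']
    · by_cases h2 : ∃ k, N.ex k = (u, v)
      · obtain ⟨k, hk⟩ := h2
        rw [io_mark h (e := ⟨(u, v), huv⟩) hk] at he''
        exact absurd he'' (by simp)
      · exfalso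
        have h3 := hx.lv hx1
        obtain ⟨-, h4⟩ := h3 ⟨(u, v), huv⟩ rfl
        rcases h4 with h4 | ⟨k, h4⟩
        · exact h1 h4
        · exact h2 ⟨k, h4⟩
  rcases stp_cases hx hp (Set.notMem_empty _) with ⟨h1, -, e⟩ | ⟨-, h1, e⟩
  · rw [hs] at e
    rw [r1] at e h1
    have := io1 b c _ h1 e' e.symm
    right
    rw [this]
    exact adj_tri'' h.gp ht |>.symm
  · rw [hs] at e
    rw [r1, r2] at e h1
    have := io1 c a _ h1 e' e.symm
    left
    exact this

/-- **the left sites of the walker form a chain** -/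
theorem walk_conn (h : HNet S N) {x : Dt S → ZMod 2} (hx : IsC (cm h) ∅ x) {β : Finset ℂ}
    {p : Dt S} (hp : x p = 1) : ∀ n : ℕ,
    (∀ k ≤ n, ∃ e, (stp (cm h) x)^[k] p = Sum.inl e ∧ e.1.1 ∈ β) →
    ∀ e e', p = Sum.inl e → (stp (cm h) x)^[n] p = Sum.inl e' → ConnIn S β e.1.1 e'.1.1 := by
  intro n
  induction n with
  | zero =>
    intro _ e e' h1 h2
    have h3 : p = Sum.inl e' := h2
    rw [h1] at h3
    rw [Sum.inl.inj h3]
    exact Relation.ReflTransGen.refl
  | succ n ih =>
    intro H e e' h1 h2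
    obtain ⟨e1, h3, h4⟩ := H n (by omega)
    obtain ⟨e2, h5, h6⟩ := H (n + 1) le_rfl
    have h7 := ih (fun k hk => H k (by omega)) e e1 h1 h3
    rw [h2] at h5
    have h8 : e' = e2 := Sum.inl.inj h5
    subst h8
    rw [Function.iterate_succ_apply', h3] at h2
    have h9 : x (Sum.inl e1) = 1 := by rw [← h3]; exact occ_it hx hp n
    rcases step_site h hx h9 h2 with h10 | h10
    · rw [h10]; exact h7
    · exact Relation.ReflTransGen.tail h7 ⟨h10, h4, h6⟩

/-- the sites on no side -/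
def inn (S : Finset ℂ) (N : Net ℂ) : Finset ℂ := S.filter fun v => ∀ i, ¬ Side N i v

/-- the giant of the side `i` -/
abbrev gt (N : Net ℂ) (i : ZMod 3) : Quot (Wall N) := Quot.mk (Wall N) (N.ex i).2

theorem cell_inr (h : HNet S N) (k : ZMod 3) : (cm h).cell (Sum.inr k : Dt S) = gt N k := rfl

theorem rho_inr (h : HNet S N) (k : ZMod 3) :
    (cm h).rho (Sum.inr k : Dt S) = Sum.inr (k - 1) := rfl

theorem sd_mem {e : ℂ × ℂ} (he : e ∈ sd S) : e.1 ∈ S ∧ e.2 ∈ S := by
  obtain ⟨c, hc⟩ := mem_sd.1 he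
  have := mem_delT.1 hc
  exact ⟨this.1, this.2.1⟩

theorem z3f : ∀ j : ZMod 3, j - 1 - 1 = j + 1 := by decide

theorem z3e : ∀ j m : ZMod 3, m = j ∨ m = j - 1 ∨ m = j - 1 - 1 := by decide

/-- a left site of the root block has an arm to the side `j` -/
theorem arm (h : HNet S N) {x : Dt S → ZMod 2} (hx : IsC (cm h) ∅ x) {j : ZMod 3}
    (ho : Gp (cm h) x (Sum.inr j)) {χ : Quot (Wall N) → ZMod 2} (hχ : cfg (cm h) χ = x)
    {g : Dt S} (hg : Rel (cm h) x (Sum.inr j) g) {eg : {e : ℂ × ℂ // e ∈ sd S}}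
    (heg : (cm h).rho g = Sum.inl eg)
    {β : Finset ℂ} (hβ : ∀ v ∈ inn S N, χ (Quot.mk _ v) = χ (gt N j) → v ∈ β) :
    Side N j eg.1.1 ∨ ∃ v w, eg.1.1 ∈ β ∧ v ∈ β ∧ Side N j w ∧ Adj S v w ∧
      ConnIn S β eg.1.1 v := by
  set M := cm h with hM
  have hne : (Sum.inr j : Dt S) ≠ g := by
    rintro rfl
    exact absurd heg (by rw [hM, rho_inr]; simp)
  -- the walk avoids the giant `j - 1`
  obtain ⟨n, hn, hav⟩ : Av M x (gt N (j - 1)) (out M (Sum.inr j)) (M.rho g) := by
    rcases hg (gt N (j - 1)) with h1 | h1 | ⟨n, h1, h2⟩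
    · exact absurd h1 hne
    · exact h1
    · exfalso
      apply h2 n le_rfl
      rw [h1]
      rfl
  set p : Dt S := out M (Sum.inr j) with hp
  have hp1 : x p = 1 := ho.out hx
  have hcell0 : M.cell p = gt N j := by
    show M.cell (M.iota (M.rho (M.rho (Sum.inr j)))) = _
    rw [M.cell_iota _ (hx.lv (ho.two hx)), M.rho3]
    rfl
  have hcol : ∀ k, χ (M.cell ((stp M x)^[k] p)) = χ (gt N j) := by
    intro k
    have hχ0 : ∀ d, x d = 0 → χ (M.cell d) = χ (M.cell (M.rho d)) := by
      intro d hd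
      rw [← hχ] at hd
      have h1 : χ (M.cell d) + χ (M.cell (M.rho d)) = 0 := hd
      revert h1
      generalize χ (M.cell d) = a
      generalize χ (M.cell (M.rho d)) = b
      revert a b; decide
    rw [it_col hx hp1 hχ0 k, hcell0]
  have hminor : χ (gt N (j - 1 - 1)) ≠ χ (gt N j) := by
    intro e
    have h1 := ho.two hx
    rw [← hχ] at h1
    have h2 : χ (M.cell (M.rho (M.rho (Sum.inr j)))) +
      χ (M.cell (M.rho (M.rho (M.rho (Sum.inr j))))) = 1 := h1
    rw [M.rho3] at h2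
    have h3 : χ (gt N (j - 1 - 1)) + χ (gt N j) = 1 := h2
    rw [e, z_self] at h3
    exact absurd h3 (by decide)
  -- last time at the giant `j`
  by_cases hlast : M.cell (M.rho g) = gt N j
  · left
    rw [heg] at hlast
    exact cell_side.1 hlast
  right
  obtain ⟨k0, hk0, hk0n, hk1⟩ : ∃ k0, M.cell ((stp M x)^[k0] p) = gt N j ∧ k0 < n ∧
      ∀ k, k0 < k → k ≤ n → M.cell ((stp M x)^[k] p) ≠ gt N j := by
    have hex : ∃ m, m ≤ n ∧ M.cell ((stp M x)^[n - m] p) = gt N j := ⟨n, le_rfl, by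
      rw [Nat.sub_self]; exact hcell0⟩
    have h1 := Nat.find_spec hex
    have h2 : ∀ m, m < Nat.find hex → ¬ (m ≤ n ∧ M.cell ((stp M x)^[n - m] p) = gt N j) :=
      fun m hm => Nat.find_min hex hm
    have h3 : Nat.find hex ≠ 0 := by
      intro e
      rw [e, Nat.sub_zero, hn] at h1
      exact hlast h1.2
    refine ⟨n - Nat.find hex, h1.2, by omega, fun k hk hkn e => ?_⟩
    apply h2 (n - k) (by omega)
    refine ⟨by omega, ?_⟩
    rw [show n - (n - k) = k by omega]
    exact e
  -- the states after `k0`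
  have hst : ∀ k, k0 < k → k ≤ n → ∃ e, (stp M x)^[k] p = Sum.inl e ∧ e.1.1 ∈ β := by
    intro k hk hkn
    have h1 := hk1 k hk hkn
    have h2 := hav k hkn
    have h3 := hcol k
    have hall : ∀ m, M.cell ((stp M x)^[k] p) ≠ gt N m := by
      intro m e
      rcases z3e j m with rfl | rfl | rfl
      · exact h1 e
      · exact h2 e
      · rw [e] at h3
        exact hminor h3
    rcases hd : (stp M x)^[k] p with e | m
    · refine ⟨e, rfl, ?_⟩
      rw [hd] at h3 hall
      refine hβ _ (Finset.mem_filter.2 ⟨(sd_mem e.2).1, fun i hi => hall i ?_⟩) h3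
      exact cell_side.2 hi
    · exfalso
      rw [hd] at hall
      exact hall m rfl
  obtain ⟨e1, he1, he1β⟩ := hst (k0 + 1) (by omega) (by omega)
  obtain ⟨e2, he2, he2β⟩ := hst n (by omega) le_rfl
  have e2eq : e2 = eg := by
    rw [hn, heg] at he2
    exact (Sum.inl.inj he2).symm
  subst e2eq
  -- the step out of the giant
  have hx0 : x ((stp M x)^[k0] p) = 1 := occ_it hx hp1 k0
  have hw : ∃ w, Side N j w ∧ Adj S e1.1.1 w := by
    have hs : stp M x ((stp M x)^[k0] p) = Sum.inl e1 := by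
      have h1 := he1
      rw [Function.iterate_succ_apply'] at h1
      exact h1
    have hc1 := hk1 (k0 + 1) (by omega) (by omega)
    rw [he1] at hc1
    rcases hd : (stp M x)^[k0] p with e0 | m
    · rw [hd] at hs hx0 hk0
      rcases step_site h hx hx0 hs with h1 | h1
      · exfalso
        apply hc1
        show (Quot.mk (Wall N) e1.1.1 : Quot (Wall N)) = _
        rw [h1]
        exact hk0
      · exact ⟨e0.1.1, cell_side.1 hk0, h1.symm⟩
    · exfalso
      -- the states of the root face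
      rw [hd] at hs hx0 hk0
      have hall : ∀ m, (Quot.mk (Wall N) e1.1.1 : Quot (Wall N)) ≠ gt N m := by
        intro m e
        have h3 := (Finset.mem_filter.1 (show e1.1.1 ∈ inn S N from ?_)).2
        · exact h3 m (cell_side.1 e)
        · have h1 := hk1 (k0 + 1) (by omega) (by omega)
          have h2 := hav (k0 + 1) (by omega)
          have h4 := hcol (k0 + 1)
          rw [he1] at h1 h2 h4
          refine Finset.mem_filter.2 ⟨(sd_mem e1.2).1, fun i hi => ?_⟩
          rcases z3e j i with rfl | rfl | rfl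
          · exact h1 (cell_side.2 hi)
          · exact h2 (cell_side.2 hi)
          · have h5 : (Quot.mk (Wall N) e1.1.1 : Quot (Wall N)) = gt N (j - 1 - 1) :=
              cell_side.2 hi
            have h6 : χ (Quot.mk (Wall N) e1.1.1) = χ (gt N j) := h4
            rw [h5] at h6
            exact hminor h6
      have hlv : M.cell (stp M x (Sum.inr m)) = gt N m ∨
          M.cell (stp M x (Sum.inr m)) = gt N (m - 1 - 1) := by
        rcases stp_cases hx hx0 (Set.notMem_empty _) with ⟨h1, -, e⟩ | ⟨-, h1, e⟩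
        · right
          rw [e, M.cell_iota _ (hx.lv h1)]
          rfl
        · left
          rw [e, M.cell_iota _ (hx.lv h1), M.rho3]
          rfl
      rw [hs] at hlv
      rcases hlv with h1 | h1
      · exact hall _ h1
      · exact hall _ h1
  obtain ⟨w, hw1, hw2⟩ := hw
  refine ⟨e1.1.1, w, he2β, he1β, hw1, hw2, ?_⟩
  have hconn := walk_conn h hx (β := β) (p := (stp M x)^[k0 + 1] p) (occ_it hx hp1 _)
    (n - (k0 + 1)) (by
      intro k hk
      rw [← Function.iterate_add_apply]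
      exact hst _ (by omega) (by omega)) e1 e2 he1 (by
      rw [← Function.iterate_add_apply, show n - (k0 + 1) + (k0 + 1) = n by omega]
      exact he2)
  exact hconn.symm

/-! ### counting -/

/-- all walls are on the sides -/
def WallS (N : Net ℂ) : Prop := ∀ x y, Wall N x y → ∃ i, Side N i x

theorem wall_lift {j : ZMod 3} (hW : WallS N) (β : Finset ℂ) {a b : ℂ} (hab : Wall N a b) :
    (if Side N (j + 1) a then (1 : ZMod 2) else if (∃ i, Side N i a) then 0 else if a ∈ β then 0
      else 1) = (if Side N (j + 1) b then (1 : ZMod 2) else if (∃ i, Side N i b) then 0 else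
      if b ∈ β then 0 else 1) := by
  have h1 : ∀ i, Side N i a ↔ Side N i b := fun i =>
    ⟨fun h => Relation.ReflTransGen.tail h hab, fun h => Relation.ReflTransGen.tail h (wall_symm hab)⟩
  obtain ⟨i, hi⟩ := hW a b hab
  have ha : ∃ i, Side N i a := ⟨i, hi⟩
  have hb : ∃ i, Side N i b := ⟨i, (h1 i).1 hi⟩
  simp only [h1 (j + 1)]
  rw [if_pos ha, if_pos hb]

/-- the colouring of the cells given by the colours of the inner sites; `0` = colour of the block -/
def chi (N : Net ℂ) (j : ZMod 3) (hW : WallS N) (β : Finset ℂ) : Quot (Wall N) → ZMod 2 :=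
  Quot.lift (fun a => if Side N (j + 1) a then (1 : ZMod 2) else if (∃ i, Side N i a) then 0 else
    if a ∈ β then 0 else 1) fun _ _ hab => wall_lift hW β hab

theorem chi_mk {j : ZMod 3} (hW : WallS N) (β : Finset ℂ) (a : ℂ) :
    chi N j hW β (Quot.mk _ a) = if Side N (j + 1) a then (1 : ZMod 2) else
      if (∃ i, Side N i a) then 0 else if a ∈ β then 0 else 1 := rfl

theorem mem_A0_ne (h : HNet S N) {x : Dt S → ZMod 2} {j : ZMod 3}
    (hx : x ∈ A0 (cm h) (Sum.inr j)) :
    ¬ Side N (j + 1) (N.ex j).2 ∧ ¬ Side N (j + 1) (N.ex (j - 1)).2 := by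
  obtain ⟨h1, h2⟩ := mem_A0.1 hx
  obtain ⟨χ, hχ⟩ := exists_cfg h1
  have a1 : χ (gt N j) + χ (gt N (j - 1)) = 0 := by
    have := h2.1
    rw [← hχ] at this
    exact this
  have a2 : χ (gt N (j - 1)) + χ (gt N (j - 1 - 1)) = 1 := by
    have := h2.2
    rw [← hχ] at this
    exact this
  have e : j - 1 - 1 = j + 1 := z3f j
  rw [e] at a2
  constructor
  · intro hs
    have h3 : gt N j = gt N (j + 1) := cell_side.2 hs
    rw [h3] at a1
    rw [add_comm, a1] at a2
    exact absurd a2 (by decide)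
  · intro hs
    have h3 : gt N (j - 1) = gt N (j + 1) := cell_side.2 hs
    rw [h3, z_self] at a2
    exact absurd a2 (by decide)

/-- lower bound for the number of the configurations -/
theorem two_pow_le (h : HNet S N) (hW : WallS N) {j : ZMod 3}
    (hne : (A0 (cm h) (Sum.inr j)).Nonempty) :
    2 ^ (inn S N).card ≤ nG (cm h) (Sum.inr j : Dt S) := by
  obtain ⟨x0, hx0⟩ := hne
  obtain ⟨n1, n2⟩ := mem_A0_ne h hx0
  rw [← card_A0, ← Finset.card_powerset]
  refine Finset.card_le_card_of_injOn (fun β => cfg (cm h) (chi N j hW β)) ?_ ?_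
  · intro β _
    refine Finset.mem_coe.2 (mem_A0.2 ⟨cfg_isC _, ?_, ?_⟩)
    · show chi N j hW β (gt N j) + chi N j hW β (gt N (j - 1)) = 0
      rw [chi_mk, chi_mk, if_neg n1, if_neg n2, if_pos ⟨j, Relation.ReflTransGen.refl⟩,
        if_pos ⟨j - 1, Relation.ReflTransGen.refl⟩]
      decide
    · show chi N j hW β (gt N (j - 1)) + chi N j hW β (gt N (j - 1 - 1)) = 1
      have e : j - 1 - 1 = j + 1 := z3f j
      have hs : Side N (j + 1) (N.ex (j + 1)).2 := Relation.ReflTransGen.refl
      rw [e, chi_mk, chi_mk, if_neg n2, if_pos ⟨j - 1, Relation.ReflTransGen.refl⟩, if_pos hs]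
      decide
  · intro β hβ β' hβ' e
    have hβ1 := Finset.mem_powerset.1 (Finset.mem_coe.1 hβ)
    have hβ2 := Finset.mem_powerset.1 (Finset.mem_coe.1 hβ')
    set f : ℂ → ZMod 2 := fun a => chi N j hW β (Quot.mk _ a) + chi N j hW β' (Quot.mk _ a) with hf
    have z4 : ∀ a b c d : ZMod 2, a + b = c + d → a + c = b + d := by decide
    have hs : ∀ a b : ℂ, (a, b) ∈ sd S → f a = f b := by
      intro a b hab
      have h1 := congrFun e (Sum.inl ⟨(a, b), hab⟩)
      have h2 : chi N j hW β (Quot.mk _ a) + chi N j hW β (Quot.mk _ b) =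
        chi N j hW β' (Quot.mk _ a) + chi N j hW β' (Quot.mk _ b) := h1
      exact z4 _ _ _ _ h2
    have hconst := JColx54.const h.gp (HNet.card h) (σ := f) (fun a b hab => by
      rcases hab with ⟨c, hc⟩ | ⟨c, hc⟩
      · exact hs a b (mem_sd.2 ⟨c, hc⟩)
      · exact (hs b a (mem_sd.2 ⟨c, hc⟩)).symm)
    have hg : (N.ex j).2 ∈ S := (sd_mem (ex_mem h j)).2
    have hf0 : f (N.ex j).2 = 0 := by
      simp only [hf]
      rw [chi_mk, chi_mk, if_neg n1, if_pos ⟨j, Relation.ReflTransGen.refl⟩, if_neg n1,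
        if_pos ⟨j, Relation.ReflTransGen.refl⟩]
      decide
    have hall : ∀ v ∈ S, f v = 0 := fun v hv => (hconst v hv _ hg).trans hf0
    ext v
    have key : v ∈ inn S N → (v ∈ β ↔ v ∈ β') := by
      intro hv
      obtain ⟨h1, h2⟩ := Finset.mem_filter.1 hv
      have h3 := hall v h1
      simp only [hf] at h3
      have h4 : ¬ ∃ i, Side N i v := by
        rintro ⟨i, hi⟩; exact h2 i hi
      rw [chi_mk, chi_mk, if_neg (h2 _), if_neg h4, if_neg (h2 _), if_neg h4] at h3
      by_cases b1 : v ∈ β <;> by_cases b2 : v ∈ β' <;> simp [b1, b2] at h3 ⊢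
    constructor
    · intro hv
      exact (key (hβ1 hv)).1 hv
    · intro hv
      exact (key (hβ2 hv)).2 hv

/-- the inner sites of the colour of the block -/
def bt (h : HNet S N) (j : ZMod 3) (x : Dt S → ZMod 2) : Finset ℂ :=
  if hx : IsC (cm h) ∅ x then (inn S N).filter fun v =>
    (exists_cfg hx).choose (Quot.mk _ v) = (exists_cfg hx).choose (gt N j) else ∅

theorem bt_sub (h : HNet S N) (j : ZMod 3) (x : Dt S → ZMod 2) : bt h j x ⊆ inn S N := by
  unfold bt
  split_ifs
  · exact Finset.filter_subset _ _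
  · exact Finset.empty_subset _

theorem bt_inj (h : HNet S N) {j : ZMod 3} {x y : Dt S → ZMod 2}
    (hx : x ∈ A0 (cm h) (Sum.inr j)) (hy : y ∈ A0 (cm h) (Sum.inr j)) (e : bt h j x = bt h j y) :
    x = y := by
  obtain ⟨x1, x2⟩ := mem_A0.1 hx
  obtain ⟨y1, y2⟩ := mem_A0.1 hy
  have cx := (exists_cfg x1).choose_spec
  have cy := (exists_cfg y1).choose_spec
  unfold bt at e
  rw [dif_pos x1, dif_pos y1] at e
  set χ := (exists_cfg x1).choose
  set χ' := (exists_cfg y1).choose
  have pat : ∀ (χ : Quot (Wall N) → ZMod 2) (x : Dt S → ZMod 2), cfg (cm h) χ = x →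
      Gp (cm h) x (Sum.inr j) → χ (gt N (j - 1)) = χ (gt N j) ∧
        χ (gt N (j - 1 - 1)) = χ (gt N j) + 1 := by
    intro χ x hχ hx
    have a1 : χ (gt N j) + χ (gt N (j - 1)) = 0 := by
      have := hx.1
      rw [← hχ] at this
      exact this
    have a2 : χ (gt N (j - 1)) + χ (gt N (j - 1 - 1)) = 1 := by
      have := hx.2
      rw [← hχ] at this
      exact this
    revert a1 a2
    generalize χ (gt N j) = a
    generalize χ (gt N (j - 1)) = b
    generalize χ (gt N (j - 1 - 1)) = c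
    revert a b c; decide
  obtain ⟨px1, px2⟩ := pat χ x cx x2
  obtain ⟨py1, py2⟩ := pat χ' y cy y2
  have key : ∀ v ∈ S, χ (Quot.mk _ v) + χ (gt N j) = χ' (Quot.mk _ v) + χ' (gt N j) := by
    intro v hv
    by_cases hs : ∃ i, Side N i v
    · obtain ⟨i, hi⟩ := hs
      have h1 : (Quot.mk (Wall N) v : Quot (Wall N)) = gt N i := cell_side.2 hi
      rw [h1]
      rcases z3e j i with rfl | rfl | rfl
      · rw [z_self, z_self]
      · rw [px1, py1, z_self, z_self]
      · rw [px2, py2]
        generalize χ (gt N j) = a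
        generalize χ' (gt N j) = b
        revert a b; decide
    · have hin : v ∈ inn S N := Finset.mem_filter.2 ⟨hv, fun i hi => hs ⟨i, hi⟩⟩
      have h1 : (χ (Quot.mk _ v) = χ (gt N j)) ↔ (χ' (Quot.mk _ v) = χ' (gt N j)) := by
        have h2 := Finset.ext_iff.1 e v
        simp only [Finset.mem_filter, hin, true_and] at h2
        exact h2
      revert h1
      generalize χ (Quot.mk _ v) = a
      generalize χ (gt N j) = b
      generalize χ' (Quot.mk _ v) = c
      generalize χ' (gt N j) = d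
      revert a b c d; decide
  have key2 : ∀ d : Dt S, χ ((cm h).cell d) + χ (gt N j) = χ' ((cm h).cell d) + χ' (gt N j) := by
    rintro (e | k)
    · exact key e.1.1 (sd_mem e.2).1
    · exact key _ (sd_mem (ex_mem h k)).2
  funext d
  rw [← cx, ← cy]
  show χ ((cm h).cell d) + χ ((cm h).cell ((cm h).rho d)) =
    χ' ((cm h).cell d) + χ' ((cm h).cell ((cm h).rho d))
  have h1 := key2 d
  have h2 := key2 ((cm h).rho d)
  revert h1 h2
  generalize χ ((cm h).cell d) = a1
  generalize χ ((cm h).cell ((cm h).rho d)) = a2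
  generalize χ (gt N j) = a3
  generalize χ' ((cm h).cell d) = b1
  generalize χ' ((cm h).cell ((cm h).rho d)) = b2
  generalize χ' (gt N j) = b3
  revert a1 a2 a3 b1 b2 b3; decide

/-- a one-colour chain of sites of `β` from a triangle of `A` to a neighbour of the side `j` -/
def ArmTo (S : Finset ℂ) (N : Net ℂ) (j : ZMod 3) (A : Finset (ℂ × ℂ × ℂ)) (β : Finset ℂ) : Prop :=
  ∃ t ∈ A, ∃ v w, t.2.1 ∈ β ∧ v ∈ β ∧ Side N j w ∧ Adj S v w ∧ ConnIn S β t.2.1 v

/-- **the root block meets `A` only if there is an arm** -/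
theorem PB_le_pr (h : HNet S N) (hW : WallS N) (j : ZMod 3) {A : Finset (ℂ × ℂ × ℂ)}
    (h0 : ∀ t ∈ A, ¬ Side N j t.2.1) {E : Finset ℂ → Prop}
    (hE : ∀ β ⊆ inn S N, ArmTo S N j A β → E β) :
    PB (cm h) (Sum.inr j) (dA A) ≤ pr (inn S N) E := by
  rcases (A0 (cm h) (Sum.inr j)).eq_empty_or_nonempty with he | hne
  · have h1 : nG (cm h) (Sum.inr j : Dt S) = 0 := by rw [← card_A0, he]; rfl
    unfold PB
    rw [h1]
    simp only [Nat.cast_zero, div_zero]
    unfold Harx315.pr
    positivity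
  have h2 := two_pow_le h hW hne
  have h3 : (XA (cm h) (Sum.inr j) (dA A)).card ≤ nb (inn S N) E := by
    unfold Harx315.nb
    refine Finset.card_le_card_of_injOn (bt h j) ?_ ?_
    · intro x hx
      obtain ⟨h4, g, h5, e, rfl, h7⟩ := Finset.mem_filter.1 (Finset.mem_coe.1 hx)
      obtain ⟨h8, h9⟩ := mem_A0.1 h4
      obtain ⟨h10, h11⟩ := mem_blk.1 h5
      have hr : (cm h).rho (Sum.inl e : Dt S) = Sum.inl ⟨(e.1.2, th S e.1), nx_mem h e⟩ := rfl
      refine Finset.mem_coe.2 (mem_fil.2 ⟨bt_sub h j x, hE _ (bt_sub h j x) ?_⟩)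
      have h12 := arm h h8 h9 (exists_cfg h8).choose_spec h11 hr (β := bt h j x) (by
        intro v hv hc
        unfold bt
        rw [dif_pos h8]
        exact Finset.mem_filter.2 ⟨hv, hc⟩)
      rcases h12 with h12 | ⟨v, w, a1, a2, a3, a4, a5⟩
      · exact absurd h12 (h0 _ h7)
      · exact ⟨_, h7, v, w, a1, a2, a3, a4, a5⟩
    · intro x hx y hy e
      exact bt_inj h (Finset.mem_filter.1 (Finset.mem_coe.1 hx)).1
        (Finset.mem_filter.1 (Finset.mem_coe.1 hy)).1 e
  unfold PB Harx315.pr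
  have h4 : (0 : ℝ) < 2 ^ (inn S N).card := by positivity
  have h5 : (2 : ℝ) ^ (inn S N).card ≤ (nG (cm h) (Sum.inr j : Dt S) : ℝ) := by exact_mod_cast h2
  have h6 : ((XA (cm h) (Sum.inr j) (dA A)).card : ℝ) ≤ (nb (inn S N) E : ℝ) := by exact_mod_cast h3
  exact div_le_div₀ (Nat.cast_nonneg _) h6 h4 h5

theorem inn_sub : inn S N ⊆ S := Finset.filter_subset _ _

/-- **INVISIBLE CASE** (660's note 3308): deep parts `A i`, each with one side `k i` such that every
one-colour chain from `A i` to a neighbour of the side `k i` implies the event `E i` (e.g. crosses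
an annulus around a short crosscut), `pr (E i) ≤ q i` -/
theorem invisible (h : HNet S N) (hW : WallS N) {ι : Type} (s : Finset ι)
    (A : ι → Finset (ℂ × ℂ × ℂ)) (hA : ∀ i ∈ s, A i ⊆ delT S) (hr : ∀ i ∈ s, RotC (A i))
    (hd : ∀ i ∈ s, ∀ j ∈ s, i ≠ j → Disjoint (A i) (A j)) (k : ι → ZMod 3)
    (h0 : ∀ i ∈ s, ∀ t ∈ A i, ¬ Side N (k i) t.2.1) (E : ι → Finset ℂ → Prop)
    (hE : ∀ i ∈ s, ∀ β ⊆ inn S N, ArmTo S N (k i) (A i) β → E i β) (q : ι → ℝ)
    (hq : ∀ i ∈ s, pr (inn S N) (E i) ≤ q i) (u : ℂ × ℂ × ℂ → ℂ) :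
    ‖∑ t ∈ delT S, u t * N.Q t‖ ≤
      √3 * √(∑ t ∈ (delT S).filter (fun t => ∀ i ∈ s, t ∉ A i), ‖u t‖ ^ 2) +
      ∑ i ∈ s, √(18 * q i) * √(∑ t ∈ A i, ‖u t‖ ^ 2) := by
  refine (Q_parts h s A hA hr hd u k).trans (add_le_add le_rfl (Finset.sum_le_sum fun i hi => ?_))
  refine mul_le_mul_of_nonneg_right (Real.sqrt_le_sqrt ?_) (Real.sqrt_nonneg _)
  exact mul_le_mul_of_nonneg_left ((PB_le_pr h hW (k i) (h0 i hi) (hE i hi)).trans (hq i hi))
    (by norm_num)

end Crest.Agent.R143.Armx969
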