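import Crest.Agent.R143.NetH_346
import Crest.Agent.R143.K33R_877

/-!
# Row 143 (S0194): bridge HNet -> frozen static `TS`, without hypothesis (helper346)
-/

set_option autoImplicit false

noncomputable section

open scoped Classical

namespace Crest.Agent.R143.NetH2x346

open Crest.Agent.R143.B0x346 Crest.Agent.R143.DelRx806 Crest.Agent.R143.Bsumx848
open Crest.Agent.R143.K33x877 Crest.Agent.R143.HitLx54 Crest.Agent.R143.NetUx346
open Crest.Agent.R143.NetHx346

variable {S In : Finset ℂ} {N : Net ℂ}

theorem hitu' : HITU := by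
  first
    | exact Crest.Agent.R143.K33Rx877.hitu
    | exact Crest.Agent.R143.K33x877.hitu

theorem hex_net (h : HNet S N) (hd : Dj N) (F : Crsx117.Free S N In) : Hex S (sA S N) :=
  hex_of hitu' h hd F

/-- **`T` of an HNet = static `T`** -/
theorem TT_TS' (h : HNet S N) (hd : Dj N) (F : Crsx117.Free S N In) (z : ℂ → ℂ) :
    TT N z = TS S (sA S N) z := TT_TS hitu' h hd F z

end Crest.Agent.R143.NetH2x346
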