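import Crest.Agent.R143.ToolW3_838

/-!
# Row 143, block X (CI), deterministic half: gluing four crossings to a circuit (helper838)

* `sub_chain` : a chain between two members of a chain
* `glue4` : four chains which cross the four rectangles of a square annulus contain a closed chain
  around the inner square
* `circuit` : the same for chains of Delaunay edges (no intersection hypotheses)
-/

set_option autoImplicit false

noncomputable section

open scoped Classical

namespace Crest.Agent.R143.Circ4x838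

open Crest.Agent.R143.B0x346 Crest.Agent.R143.DelGx806 Crest.Agent.R143.DelRx806
open Crest.Agent.R143.ToolWx838 Crest.Agent.R143.Blkx838 Crest.Agent.R143.ToolW2x838
open Crest.Agent.R143.ToolW3x838

variable {S : Finset ℂ}

/-- `m` is a chain from `a` to `b` inside the chain `l` (forwards or backwards) -/
structure Sub (l : List ℂ) (a b : ℂ) (m : List ℂ) : Prop where
  head : m.head? = some a
  last : m.getLast? = some b
  mem : ∀ s ∈ m, s ∈ l
  prs : ∀ p ∈ prs m, p ∈ prs l ∨ p.swap ∈ prs l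

theorem Sub.ne {l m : List ℂ} {a b : ℂ} (h : Sub l a b m) : m ≠ [] := by
  rintro rfl; simpa using h.head

theorem Sub.reverse {l m : List ℂ} {a b : ℂ} (h : Sub l a b m) : Sub l b a m.reverse where
  head := by rw [List.head?_reverse]; exact h.last
  last := by rw [List.getLast?_reverse]; exact h.head
  mem s hs := h.mem s (List.mem_reverse.1 hs)
  prs p hp := by
    rw [prs_reverse] at hp
    simp only [List.mem_reverse, List.mem_map] at hp
    obtain ⟨q, hq, rfl⟩ := hp
    rw [Prod.swap_swap]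
    exact (h.prs q hq).symm

theorem sub_chain_aux {l1 l2 : List ℂ} {a b : ℂ} (hb : b ∈ a :: l2) :
    ∃ m, Sub (l1 ++ a :: l2) a b m := by
  obtain ⟨u, v, huv⟩ := List.append_of_mem hb
  -- a :: l2 = u ++ b :: v
  refine ⟨u ++ [b], ?_, by simp, ?_, ?_⟩
  · cases u with
    | nil => simp only [List.nil_append, List.cons.injEq] at huv; simp [huv.1]
    | cons c u => simp only [List.cons_append, List.cons.injEq] at huv; simp [huv.1]
  · intro s hs
    rw [List.mem_append]; right
    rw [huv]
    simp only [List.mem_append, List.mem_cons, List.not_mem_nil, or_false] at hs ⊢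
    rcases hs with h | h
    · exact Or.inl h
    · exact Or.inr (Or.inl h)
  · intro p hp
    left
    rw [prs_append, List.mem_append]; right
    rw [huv, prs_append, List.mem_append]
    exact Or.inl hp

/-- a chain between two members of a chain -/
theorem sub_chain {l : List ℂ} {a b : ℂ} (ha : a ∈ l) (hb : b ∈ l) : ∃ m, Sub l a b m := by
  obtain ⟨l1, l2, rfl⟩ := List.append_of_mem ha
  rw [List.mem_append] at hb
  rcases hb with hb | hb
  · -- b comes before a
    obtain ⟨u, v, rfl⟩ := List.append_of_mem hb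
    have e : (u ++ b :: v) ++ a :: l2 = u ++ b :: (v ++ a :: l2) := by simp
    rw [e]
    obtain ⟨m, hm⟩ := sub_chain_aux (l1 := u) (l2 := v ++ a :: l2) (a := b) (b := a) (by simp)
    exact ⟨_, hm.reverse⟩
  · exact sub_chain_aux hb

/-- concatenation at a common end -/
def cat (l m : List ℂ) : List ℂ := l ++ m.tail

theorem cat_last {l m : List ℂ} {b : ℂ} (h1 : l.getLast? = some b) (h2 : m.head? = some b) :
    (cat l m).getLast? = m.getLast? := by
  cases m with
  | nil => simp at h2
  | cons c m =>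
    simp only [List.head?_cons, Option.some.injEq] at h2
    subst h2
    unfold cat
    cases m with
    | nil => simpa using h1
    | cons d m =>
      rw [List.tail_cons, List.getLast?_append_of_ne_nil _ (List.cons_ne_nil d m),
        List.getLast?_cons_cons]

theorem cat_head {l m : List ℂ} (h : l ≠ []) : (cat l m).head? = l.head? := by
  unfold cat
  rw [List.head?_append_of_ne_nil _ h]

theorem cat_eq {l m : List ℂ} {b : ℂ} (h1 : l.getLast? = some b) (h2 : m.head? = some b) :
    cat l m = l.dropLast ++ m := by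
  cases m with
  | nil => simp at h2
  | cons c m =>
    simp only [List.head?_cons, Option.some.injEq] at h2
    subst h2
    have hl : l ≠ [] := by rintro rfl; simp at h1
    have : l.getLast hl = c := by
      rw [List.getLast?_eq_some_getLast hl] at h1
      exact Option.some.inj h1
    unfold cat
    conv_lhs => rw [← List.dropLast_append_getLast hl, this]
    simp

theorem prs_cat {l m : List ℂ} {b : ℂ} (h1 : l.getLast? = some b) (h2 : m.head? = some b) :
    prs (cat l m) = prs l ++ prs m := by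
  rw [cat_eq h1 h2]
  cases m with
  | nil => simp at h2
  | cons c m =>
    simp only [List.head?_cons, Option.some.injEq] at h2
    subst h2
    have hl : l ≠ [] := by rintro rfl; simp at h1
    have : l.getLast hl = c := by
      rw [List.getLast?_eq_some_getLast hl] at h1
      exact Option.some.inj h1
    rw [prs_append]
    congr 2
    conv_rhs => rw [← List.dropLast_append_getLast hl, this]

theorem asum_cat {l m : List ℂ} {b : ℂ} (h1 : l.getLast? = some b) (h2 : m.head? = some b) (z : ℂ) :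
    asum z (cat l m) = asum z l + asum z m := by
  rw [asum_eq, asum_eq, asum_eq, prs_cat h1 h2, List.map_append, List.sum_append]

theorem mem_cat {l m : List ℂ} {s : ℂ} (h : s ∈ cat l m) : s ∈ l ∨ s ∈ m := by
  unfold cat at h
  rcases List.mem_append.1 h with h | h
  · exact Or.inl h
  · exact Or.inr (List.mem_of_mem_tail h)

/-- total angle of a chain in a half plane, by the ends -/
theorem asum_ends {z u a b : ℂ} {m : List ℂ} (h1 : m.head? = some a) (h2 : m.getLast? = some b)
    (h : ∀ s ∈ m, 0 < ((s - z) / u).re) :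
    asum z m = ((b - z) / u).arg - ((a - z) / u).arg := by
  have hm : m ≠ [] := by rintro rfl; simp at h1
  rw [asum_half hm h]
  rw [List.head?_eq_some_head hm] at h1
  rw [List.getLast?_eq_some_getLast hm] at h2
  rw [Option.some.inj h1, Option.some.inj h2]

theorem div_I (w : ℂ) : w / Complex.I = -Complex.I * w := by
  rw [div_eq_mul_inv, Complex.inv_I]; ring

theorem div_negI (w : ℂ) : w / (-Complex.I) = Complex.I * w := by
  rw [div_eq_iff (neg_ne_zero.2 Complex.I_ne_zero)]
  linear_combination w * Complex.I_mul_I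

theorem div_neg1 (w : ℂ) : w / (-1) = -w := by
  rw [div_neg, div_one]

/-- **gluing**: closed chain through the four quadrants -/
theorem asum_glue {z s1 s2 s3 s4 : ℂ} {mT mL mB mR : List ℂ}
    (hT1 : mT.head? = some s1) (hT2 : mT.getLast? = some s2) (hL1 : mL.head? = some s2)
    (hL2 : mL.getLast? = some s3) (hB1 : mB.head? = some s3) (hB2 : mB.getLast? = some s4)
    (hR1 : mR.head? = some s4) (hR2 : mR.getLast? = some s1)
    (hT : ∀ s ∈ mT, z.im < s.im) (hL : ∀ s ∈ mL, s.re < z.re) (hB : ∀ s ∈ mB, s.im < z.im)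
    (hR : ∀ s ∈ mR, z.re < s.re) :
    asum z mT + asum z mL + asum z mB + asum z mR = 2 * Real.pi := by
  have mem1 : ∀ {m : List ℂ} {a : ℂ}, m.head? = some a → a ∈ m := fun h => List.mem_of_head? h
  have mem2 : ∀ {m : List ℂ} {a : ℂ}, m.getLast? = some a → a ∈ m := fun h =>
    List.mem_of_getLast? h
  have i1 : 0 < (s1 - z).im := by simpa using hT s1 (mem1 hT1)
  have i2 : 0 < (s2 - z).im := by simpa using hT s2 (mem2 hT2)
  have i3 : (s3 - z).im < 0 := by simpa using hB s3 (mem1 hB1)
  have i4 : (s4 - z).im < 0 := by simpa using hB s4 (mem2 hB2)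
  have eT := asum_ends (z := z) (u := Complex.I) hT1 hT2 (fun s hs => by
    rw [div_I]; simpa using hT s hs)
  have eL := asum_ends (z := z) (u := -1) hL1 hL2 (fun s hs => by
    rw [div_neg1]; simpa using hL s hs)
  have eB := asum_ends (z := z) (u := -Complex.I) hB1 hB2 (fun s hs => by
    rw [div_negI]; simpa using hB s hs)
  have eR := asum_ends (z := z) (u := 1) hR1 hR2 (fun s hs => by
    rw [div_one]; simpa using hR s hs)
  rw [arg_div_I_up i1, arg_div_I_up i2] at eT
  rw [div_neg1, div_neg1, arg_neg_up i2, arg_neg_low i3] at eL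
  rw [div_negI, div_negI, arg_I_mul_low i3, arg_I_mul_low i4] at eB
  rw [div_one, div_one] at eR
  rw [eT, eL, eB, eR]
  ring

/-- closed chain made of pieces of the four chains -/
structure Circ (T L B R : List ℂ) (r : ℝ) (z0 : ℂ) (c : List ℂ) : Prop where
  closed : c.head? = c.getLast?
  mem : ∀ s ∈ c, s ∈ T ∨ s ∈ L ∨ s ∈ B ∨ s ∈ R
  prs : ∀ p ∈ prs c, (p ∈ prs T ∨ p.swap ∈ prs T) ∨ (p ∈ prs L ∨ p.swap ∈ prs L) ∨
    (p ∈ prs B ∨ p.swap ∈ prs B) ∨ (p ∈ prs R ∨ p.swap ∈ prs R)
  wind : ∀ z : ℂ, |z.re - z0.re| ≤ r → |z.im - z0.im| ≤ r → asum z c = 2 * Real.pi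

theorem glue4 {T L B R : List ℂ} {r : ℝ} {z0 s1 s2 s3 s4 : ℂ}
    (hT : ∀ s ∈ T, z0.im + r < s.im) (hL : ∀ s ∈ L, s.re < z0.re - r)
    (hB : ∀ s ∈ B, s.im < z0.im - r) (hR : ∀ s ∈ R, z0.re + r < s.re)
    (h1 : s1 ∈ T ∧ s1 ∈ R) (h2 : s2 ∈ T ∧ s2 ∈ L) (h3 : s3 ∈ B ∧ s3 ∈ L) (h4 : s4 ∈ B ∧ s4 ∈ R) :
    ∃ c, Circ T L B R r z0 c := by
  obtain ⟨mT, kT⟩ := sub_chain h1.1 h2.1
  obtain ⟨mL, kL⟩ := sub_chain h2.2 h3.2
  obtain ⟨mB, kB⟩ := sub_chain h3.1 h4.1
  obtain ⟨mR, kR⟩ := sub_chain h4.2 h1.2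
  have e1 := kT.last
  have e2 : (cat mT mL).getLast? = some s3 := by rw [cat_last kT.last kL.head]; exact kL.last
  have e3 : (cat (cat mT mL) mB).getLast? = some s4 := by rw [cat_last e2 kB.head]; exact kB.last
  have n1 : cat mT mL ≠ [] := by intro h; rw [h] at e2; simp at e2
  have n2 : cat (cat mT mL) mB ≠ [] := by intro h; rw [h] at e3; simp at e3
  refine ⟨cat (cat (cat mT mL) mB) mR, ?_, ?_, ?_, ?_⟩
  · rw [cat_last e3 kR.head, kR.last, cat_head n2, cat_head n1, cat_head kT.ne, kT.head]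
  · intro s hs
    rcases mem_cat hs with hs | hs
    · rcases mem_cat hs with hs | hs
      · rcases mem_cat hs with hs | hs
        · exact Or.inl (kT.mem s hs)
        · exact Or.inr (Or.inl (kL.mem s hs))
      · exact Or.inr (Or.inr (Or.inl (kB.mem s hs)))
    · exact Or.inr (Or.inr (Or.inr (kR.mem s hs)))
  · intro p hp
    rw [prs_cat e3 kR.head, prs_cat e2 kB.head, prs_cat kT.last kL.head] at hp
    simp only [List.mem_append] at hp
    rcases hp with ((hp | hp) | hp) | hp
    · exact Or.inl (kT.prs p hp)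
    · exact Or.inr (Or.inl (kL.prs p hp))
    · exact Or.inr (Or.inr (Or.inl (kB.prs p hp)))
    · exact Or.inr (Or.inr (Or.inr (kR.prs p hp)))
  · intro z hz1 hz2
    rw [abs_le] at hz1 hz2
    rw [asum_cat e3 kR.head, asum_cat e2 kB.head, asum_cat kT.last kL.head]
    exact asum_glue kT.head kT.last kL.head kL.last kB.head kB.last kR.head kR.last
      (fun s hs => by have := hT s (kT.mem s hs); linarith)
      (fun s hs => by have := hL s (kL.mem s hs); linarith)
      (fun s hs => by have := hB s (kB.mem s hs); linarith)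
      (fun s hs => by have := hR s (kR.mem s hs); linarith)

/-- **circuit**: four chains of Delaunay edges crossing the four rectangles of the square annulus
`r < |.|_∞ < R` around `z0` -/
theorem circuit (hS : GP (S : Set ℂ)) {T L B R : List ℂ} {r ρ : ℝ} {z0 : ℂ} (hr : -ρ ≤ r)
    (nT : T ≠ []) (nL : L ≠ []) (nB : B ≠ []) (nR : R ≠ [])
    (dT : ∀ p ∈ prs T, DE S p.1 p.2) (dL : ∀ p ∈ prs L, DE S p.1 p.2)
    (dB : ∀ p ∈ prs B, DE S p.1 p.2) (dR : ∀ p ∈ prs R, DE S p.1 p.2)
    (hT : ∀ s ∈ T, z0.im + r < s.im ∧ s.im < z0.im + ρ)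
    (hL : ∀ s ∈ L, z0.re - ρ < s.re ∧ s.re < z0.re - r)
    (hB : ∀ s ∈ B, z0.im - ρ < s.im ∧ s.im < z0.im - r)
    (hR : ∀ s ∈ R, z0.re + r < s.re ∧ s.re < z0.re + ρ)
    (T0 : (T.head nT).re ≤ z0.re - ρ) (T1 : z0.re + ρ ≤ (T.getLast nT).re)
    (B0 : (B.head nB).re ≤ z0.re - ρ) (B1 : z0.re + ρ ≤ (B.getLast nB).re)
    (L0 : (L.head nL).im ≤ z0.im - ρ) (L1 : z0.im + ρ ≤ (L.getLast nL).im)
    (R0 : (R.head nR).im ≤ z0.im - ρ) (R1 : z0.im + ρ ≤ (R.getLast nR).im) :
    ∃ c, Circ T L B R r z0 c ∧ Loop S c := by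
  obtain ⟨s1, a1, b1⟩ := cross_rect_site hS nT nR dT dR (x0 := z0.re + r) (x1 := z0.re + ρ)
    (y0 := z0.im + r) (y1 := z0.im + ρ) hT hR (by linarith) T1 (by linarith) R1
  obtain ⟨s2, a2, b2⟩ := cross_rect_site hS nT nL dT dL (x0 := z0.re - ρ) (x1 := z0.re - r)
    (y0 := z0.im + r) (y1 := z0.im + ρ) hT hL T0 (by linarith) (by linarith) L1
  obtain ⟨s3, a3, b3⟩ := cross_rect_site hS nB nL dB dL (x0 := z0.re - ρ) (x1 := z0.re - r)
    (y0 := z0.im - ρ) (y1 := z0.im - r) hB hL B0 (by linarith) L0 (by linarith)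
  obtain ⟨s4, a4, b4⟩ := cross_rect_site hS nB nR dB dR (x0 := z0.re + r) (x1 := z0.re + ρ)
    (y0 := z0.im - ρ) (y1 := z0.im - r) hB hR (by linarith) B1 R0 (by linarith)
  obtain ⟨c, hc⟩ := glue4 (r := r) (z0 := z0) (fun s hs => (hT s hs).1) (fun s hs => (hL s hs).2)
    (fun s hs => (hB s hs).2) (fun s hs => (hR s hs).1) ⟨a1, b1⟩ ⟨a2, b2⟩ ⟨a3, b3⟩ ⟨a4, b4⟩
  refine ⟨c, hc, hc.closed, fun p hp => ?_⟩
  have key : ∀ m : List ℂ, (∀ p ∈ prs m, DE S p.1 p.2) → (p ∈ prs m ∨ p.swap ∈ prs m) →
      DE S p.1 p.2 := by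
    intro m hm h
    rcases h with h | h
    · exact hm p h
    · exact (hm _ h).symm
  rcases hc.prs p hp with h | h | h | h
  · exact key _ dT h
  · exact key _ dL h
  · exact key _ dB h
  · exact key _ dR h

end Crest.Agent.R143.Circ4x838
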