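import Crest.Agent.R143.Har_315
import Crest.Agent.R143.Circ4_838
import Crest.Agent.R143.Scal_63

/-!
# Row 143, block X: crossings of rectangles (RB) and circuits, literal statements (helper838)

* `LDns S z0 R d` : general position, every ball of radius `d` centred in the disc `B(z0, R)`
  contains a site (`S` may be the sites of a big net)
* `Cross S z0 e a b β l` : `l` is a chain of Delaunay edges with all sites in `β`, inside the open
  strip `|im ((s - z0) / e)| < b`, and `|re ((s - z0) / e)| ≤ a + b`, from `re ≤ - a` to `re ≥ a`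
* `Mesh S z0 R b C` : the squares of the longest sides of the triangles which meet a ball of
  radius `b` centred in `B(z0, R)` have sum `≤ C b²`
* `RB` : such a crossing exists with probability `≥ exp (- C (1 + C4))` in every rectangle of bounded
  aspect ratio
-/

set_option autoImplicit false

noncomputable section

open scoped Classical

namespace Crest.Agent.R143.RB0x838

open Crest.Agent.R143.B0x346 Crest.Agent.R143.DelGx806 Crest.Agent.R143.DelRx806
open Crest.Agent.R143.ToolWx838 Crest.Agent.R143.Blkx838 Crest.Agent.R143.Harx315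

/-- local density of the sites -/
structure LDns (S : Finset ℂ) (z0 : ℂ) (R d : ℝ) : Prop where
  gp : GP (S : Set ℂ)
  dpos : 0 < d
  hole : ∀ z : ℂ, ‖z - z0‖ ≤ R → ∃ s ∈ S, ‖s - z‖ < d

/-- size of the triangles at the scale `b` -/
def Mesh (S : Finset ℂ) (z0 : ℂ) (R b C : ℝ) : Prop := ∀ z : ℂ, ‖z - z0‖ ≤ R →
  ∑ t ∈ (delT S).filter (fun t => (Circx63.cT t ∩ Metric.closedBall z b).Nonempty),
    Scalx63.dm t ^ 2 ≤ C * b ^ 2

/-- the chain `l` of sites of `β` crosses the rectangle with centre `z0`, direction `e` and half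
sides `a` (along `e`) and `b` -/
structure Cross (S : Finset ℂ) (z0 e : ℂ) (a b : ℝ) (β : Finset ℂ) (l : List ℂ) : Prop where
  ne : l ≠ []
  adj : ∀ p ∈ prs l, DE S p.1 p.2
  col : ∀ s ∈ l, s ∈ β
  strip : ∀ s ∈ l, |((s - z0) / e).im| < b
  loc : ∀ s ∈ l, |((s - z0) / e).re| ≤ a + b
  left : ((l.head ne - z0) / e).re ≤ -a
  right : a ≤ ((l.getLast ne - z0) / e).re

/-- **RB**: crossings of rectangles of bounded aspect ratio -/
def RB : Prop := ∀ k : ℝ, 1 ≤ k → ∃ C c1 K : ℝ, 0 < C ∧ 0 < c1 ∧ 0 < K ∧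
  ∀ (S : Finset ℂ) (z0 e : ℂ) (a b d C4 : ℝ), ‖e‖ = 1 → 0 < a → 0 < b → a ≤ k * b → b ≤ k * a →
    LDns S z0 (K * (a + b)) d → 0 ≤ C4 → Mesh S z0 (K * (a + b)) b C4 → d ≤ c1 * b →
    ∃ V : Finset ℂ, V ⊆ S ∧ Real.exp (-C * (1 + C4)) ≤ pr V (fun β => ∃ l, Cross S z0 e a b β l)

end Crest.Agent.R143.RB0x838
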