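import Crest.Agent.R143.AsmD_377
import Crest.Agent.R143.NetH2_346
import Crest.Agent.R143.CenS_496
import Crest.Agent.R143.RB0_838

/-!
# Row 143 (S0194), CONT: one arm up to the hull circle, small centres (helper377)

* `HM S x0 L C4 b0` : the size of the triangles of `delT S` at all scales `b ∈ [b0, 1]`, up to the
  circle; **leaf `HULLM Adm`** (helper93, helper66)
* **leaf `HARM`** (helper802) : one arm near the circle, literal of his message
* `Arms S x0 L C c r0` : the one-arm bound at all points of the disc, all scales `≥ r0`, all sets of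
  free sites; `arms_det` : from `HARM`
* `ARMS Adm` : the environment event; `arms_of : HARM → HULLM Adm → ARMS Adm`
* `Sm1 S A ρ` : a centre of size `ρ`; **`small_of : HARM → HULLM Adm → SMALL Sm1 z Adm`**
-/

set_option autoImplicit false

noncomputable section

open scoped Classical

namespace Crest.Agent.R143.Mabx377

open Complex Set Filter Topology MeasureTheory
open Crest.ProbabilityR.Voronoi
open Crest.Agent.R143.B0x346 Crest.Agent.R143.B0Dx346 Crest.Agent.R143.PP1x831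
open Crest.Agent.R143.J1x872 Crest.Agent.R143.J4x872 Crest.Agent.R143.JWalkx872
open Crest.Agent.R143.JCardx872 Crest.Agent.R143.Oscx63
open Crest.Agent.R143.DelGx806 Crest.Agent.R143.DelRx806 Crest.Agent.R143.JColx54
open Crest.Agent.R143.Circx63 (cT)
open Crest.Agent.R143.Scalx63 (dm)
open Crest.Agent.R143.Sidesx697 (Wall Side)
open Crest.Agent.R143.B6Ix903 (net)
open Crest.Agent.R143.DicCx831 (rad_small rad_pos ev_unit)
open Crest.Agent.R143.DicDx831 (hnet_ev good_ev)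
open Crest.Agent.R143.HitLx54 (Dj sA)
open Crest.Agent.R143.K33x877 (HITU Tr CtrT CtrX fr)
open Crest.Agent.R143.RB2x54 (Vt)
open Crest.Agent.R143.NetUx346 (TS ff Hex)
open Crest.Agent.R143.D3Fx802 (CArm)
open Crest.Agent.R143.Harx315
open Crest.Agent.R143.CNTx930 (Arm2)
open Crest.Agent.R143.CenSx496 (SmC)

/-- size of the triangles up to the circle, scales `b0` to `1` -/
def HM (S : Finset ℂ) (x0 : ℂ) (L C4 b0 : ℝ) : Prop :=
  ∀ z : ℂ, ‖z - x0‖ ≤ L → ∀ b : ℝ, b0 ≤ b → b ≤ 1 →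
    ∑ t ∈ (delT S).filter (fun t => (cT t ∩ Metric.closedBall z b).Nonempty), dm t ^ 2 ≤
      C4 * b ^ 2

/-- **leaf HULLM** -/
def HULLM (Adm : Dom → ℝ → Prop) : Prop := ∀ (D : Dom) (δ : ℝ), Adm D δ →
  ∃ C4 : ℝ, 0 ≤ C4 ∧ ∀ b0 > 0, ∀ η > 0, ∀ᶠ ε : ℝ in 𝓝[>] 0,
    sampleLaw {ω | ¬ HM (D.sites ε ω) D.c D.L C4 b0} ≤ ENNReal.ofReal η

/-- **leaf HARM**: one arm near the circle -/
def HARM : Prop := ∀ C4 : ℝ, 0 ≤ C4 → ∃ C c c2 A : ℝ, 0 < C ∧ 0 < c ∧ 0 < c2 ∧ 1 ≤ A ∧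
  ∀ (S : Finset ℂ) (x0 : ℂ) (L e r R : ℝ), DomAx722.Dns S x0 L e → A * √(L * e) ≤ r → r ≤ R →
    A * R ≤ L →
    (∀ z, ‖z - x0‖ ≤ L → ∀ b, c2 * r ≤ b → b ≤ R →
      ∑ t ∈ (delT S).filter (fun t => (cT t ∩ Metric.closedBall z b).Nonempty), dm t ^ 2 ≤
        C4 * b ^ 2) →
    ∀ p, ‖p - x0‖ ≤ L → ∀ V ⊆ S, (∀ v ∈ V, ∀ u, ¬ hullE S v u ∧ ¬ hullE S u v) →
      pr V (fun β => CArm S β p r R) ≤ C * (r / R) ^ c

/-- the one-arm bound at all points of the disc -/
def Arms (S : Finset ℂ) (x0 : ℂ) (L C c r0 : ℝ) : Prop :=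
  ∀ p, ‖p - x0‖ ≤ L → ∀ r R : ℝ, r0 ≤ r → r ≤ R → ∀ V ⊆ S,
    (∀ v ∈ V, ∀ u, ¬ hullE S v u ∧ ¬ hullE S u v) →
      pr V (fun β => CArm S β p r R) ≤ C * (r / R) ^ c

theorem carm_le {S β : Finset ℂ} {p : ℂ} {r R R' : ℝ} (h : R' ≤ R) (hc : CArm S β p r R) :
    CArm S β p r R' := by
  obtain ⟨x, y, h1, h2, h3, h4, h5⟩ := hc
  exact ⟨x, y, h1, h2, h3, h.trans h4, h5⟩

theorem pr_zero {V : Finset ℂ} {P : Finset ℂ → Prop} (h : ∀ β ⊆ V, ¬ P β) : pr V P = 0 := by
  have h1 : nb V P = 0 := by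
    unfold nb fl
    rw [Finset.card_eq_zero, Finset.filter_eq_empty_iff]
    intro β hβ
    exact h β (Finset.mem_powerset.1 hβ)
  unfold pr
  rw [h1]
  simp

/-- **the one-arm bound for all scales** -/
theorem arms_det (hH : HARM) {C4 L : ℝ} (hC4 : 0 ≤ C4) (hL : 0 < L) :
    ∃ C c c2 A : ℝ, 1 ≤ C ∧ 0 < c ∧ 0 < c2 ∧ 1 ≤ A ∧ ∀ (S : Finset ℂ) (x0 : ℂ) (e r0 : ℝ),
      DomAx722.Dns S x0 L e → 0 < r0 → A * √(L * e) ≤ r0 → HM S x0 L C4 (c2 * r0) →
      Arms S x0 L C c r0 := by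
  obtain ⟨C, c, c2, A, hC, hc, hc2, hA, H⟩ := hH C4 hC4
  have hA0 : 0 < A := by linarith
  set R1 : ℝ := min (L / A) 1 with hR1
  have hR1p : 0 < R1 := lt_min (by positivity) one_pos
  have hR1A : A * R1 ≤ L := by
    have h1 := min_le_left (L / A) 1
    rw [← hR1] at h1
    calc A * R1 ≤ A * (L / A) := mul_le_mul_of_nonneg_left h1 hA0.le
      _ = L := by field_simp
  have hR1L : R1 ≤ L := by nlinarith
  set Q : ℝ := (2 * L / R1) ^ c with hQ
  have hQ1 : 1 ≤ Q := by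
    refine Real.one_le_rpow ?_ hc.le
    rw [one_le_div hR1p]
    linarith
  refine ⟨max C 1 * Q, c, c2, A, ?_, hc, hc2, hA, ?_⟩
  · have := le_max_right C 1
    nlinarith
  intro S x0 e r0 hS hr0 hr0e hM p hp r R hr hrR V hV hVh
  have hrp : 0 < r := by linarith
  have hRp : 0 < R := by linarith
  have hC1 : C ≤ max C 1 := le_max_left _ _
  have hone : (1 : ℝ) ≤ max C 1 := le_max_right _ _
  have hfp : 0 ≤ (r / R) ^ c := Real.rpow_nonneg (by positivity) _
  rcases le_total R R1 with hRR | hRR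
  · have h1 := H S x0 L e r R hS (hr0e.trans hr) hrR
      ((mul_le_mul_of_nonneg_left hRR hA0.le).trans hR1A) (by
        intro z hz b hb1 hb2
        refine hM z hz b ((mul_le_mul_of_nonneg_left hr hc2.le).trans hb1) (hb2.trans ?_)
        exact hRR.trans (min_le_right _ _)) p hp V hV hVh
    refine h1.trans ?_
    refine mul_le_mul_of_nonneg_right ?_ hfp
    nlinarith
  · rcases lt_or_ge (2 * L) R with hbig | hbig
    · -- no site at this distance
      rw [pr_zero]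
      · positivity
      · rintro β hβ ⟨x, y, -, hy, -, h4, -⟩
        have h5 := hS.sub y (hV (hβ hy))
        have h6 : ‖y - p‖ ≤ ‖y - x0‖ + ‖p - x0‖ := by
          have : y - p = (y - x0) - (p - x0) := by ring
          rw [this]
          exact norm_sub_le _ _
        linarith
    · have key : (r / R1) ^ c ≤ Q * (r / R) ^ c := by
        rw [hQ, ← Real.mul_rpow (by positivity) (by positivity)]
        refine Real.rpow_le_rpow (by positivity) ?_ hc.le
        rw [div_mul_div_comm, div_le_div_iff₀ hR1p (by positivity)]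
        have : R ≤ 2 * L := hbig
        nlinarith [mul_pos hrp hR1p]
      rcases le_total r R1 with hrR1 | hrR1
      · have h1 := H S x0 L e r R1 hS (hr0e.trans hr) hrR1 hR1A (by
          intro z hz b hb1 hb2
          refine hM z hz b ((mul_le_mul_of_nonneg_left hr hc2.le).trans hb1) (hb2.trans ?_)
          exact min_le_right _ _) p hp V hV hVh
        have h2 : pr V (fun β => CArm S β p r R) ≤ pr V (fun β => CArm S β p r R1) :=
          pr_mono fun β _ h => carm_le hRR h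
        refine (h2.trans h1).trans ?_
        calc C * (r / R1) ^ c ≤ max C 1 * (Q * (r / R) ^ c) :=
              mul_le_mul hC1 key (Real.rpow_nonneg (by positivity) _) (by positivity)
          _ = max C 1 * Q * (r / R) ^ c := by ring
      · refine pr_le_one.trans ?_
        have h3 : 1 ≤ (r / R1) ^ c := Real.one_le_rpow ((one_le_div hR1p).2 hrR1) hc.le
        calc (1 : ℝ) ≤ max C 1 * (Q * (r / R) ^ c) := by
              have := h3.trans key
              nlinarith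
          _ = max C 1 * Q * (r / R) ^ c := by ring

/-- both colours -/
theorem Arms.two {S : Finset ℂ} {x0 : ℂ} {L C c r0 : ℝ} (h : Arms S x0 L C c r0) {p : ℂ}
    (hp : ‖p - x0‖ ≤ L) {r R : ℝ} (hr : r0 ≤ r) (hR : r ≤ R) {V : Finset ℂ} (hV : V ⊆ S)
    (hVh : ∀ v ∈ V, ∀ u, ¬ hullE S v u ∧ ¬ hullE S u v) :
    pr V (Arm2 S V p r R) ≤ 2 * C * (r / R) ^ c := by
  have h1 := h p hp r R hr hR V hV hVh
  have h2 : pr V (fun β => CArm S (V \ β) p r R) ≤ C * (r / R) ^ c := by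
    rw [pr_flip V fun β => CArm S β p r R]
    exact h1
  have h3 : pr V (Arm2 S V p r R) ≤ pr V (fun β => CArm S β p r R) +
      pr V (fun β => CArm S (V \ β) p r R) := pr_or_le
  linarith

/-- the environment event -/
def ARMS (Adm : Dom → ℝ → Prop) : Prop := ∀ (D : Dom) (δ : ℝ), Adm D δ →
  ∃ C c : ℝ, 1 ≤ C ∧ 0 < c ∧ ∀ r0 > 0, ∀ η > 0, ∀ᶠ ε : ℝ in 𝓝[>] 0,
    sampleLaw {ω | ¬ Arms (D.sites ε ω) D.c D.L C c r0} ≤ ENNReal.ofReal η

/-- short edges from `HM` -/
theorem edge_of_hm {S : Finset ℂ} {x0 : ℂ} {L C4 b0 : ℝ} (hS : ∀ s ∈ S, ‖s - x0‖ ≤ L)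
    (h : HM S x0 L C4 b0) (hb0 : 0 < b0) (hb1 : b0 ≤ 1) {u v : ℂ} (huv : Adj S u v) :
    ‖v - u‖ ≤ √C4 * b0 := by
  have key : ∀ {u v c : ℂ}, (u, v, c) ∈ delT S → ‖v - u‖ ≤ √C4 * b0 := by
    intro u v c ht
    have hu := (mem_delT.1 ht).1
    have h1 := h u (hS u hu) b0 le_rfl hb1
    have hmem : (u, v, c) ∈ (delT S).filter
        (fun t => (cT t ∩ Metric.closedBall u b0).Nonempty) := by
      refine Finset.mem_filter.2 ⟨ht, u, ?_, Metric.mem_closedBall_self hb0.le⟩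
      change InT u u v c
      have hc := (mem_delT.1 ht).2.2.2.1
      refine ⟨?_, ?_, ?_⟩
      · rw [sub_self]
        unfold cr
        simp
      · have e : cr (c - v) (u - v) = cr (v - u) (c - u) := by
          unfold cr
          simp only [Complex.sub_re, Complex.sub_im]
          ring
        rw [e]
        exact hc.le
      · unfold cr
        simp only [Complex.sub_re, Complex.sub_im]
        ring_nf
        exact le_refl _
    have h2 : dm (u, v, c) ^ 2 ≤ ∑ t ∈ (delT S).filter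
        (fun t => (cT t ∩ Metric.closedBall u b0).Nonempty), dm t ^ 2 :=
      Finset.single_le_sum (f := fun t => dm t ^ 2) (fun _ _ => sq_nonneg _) hmem
    have h3 : ‖v - u‖ ≤ dm (u, v, c) := by
      unfold dm
      rw [norm_sub_rev]
      exact (le_max_left _ _).trans (le_max_left _ _)
    have h4 : dm (u, v, c) ^ 2 ≤ C4 * b0 ^ 2 := h2.trans h1
    have h5 : dm (u, v, c) ≤ √(C4 * b0 ^ 2) := Real.le_sqrt_of_sq_le h4
    rw [Real.sqrt_mul' _ (sq_nonneg _), Real.sqrt_sq hb0.le] at h5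
    exact h3.trans h5
  rcases huv with ⟨c, hc⟩ | ⟨c, hc⟩
  · exact key hc
  · rw [norm_sub_rev]
    exact key hc

/-- **the environment event of the arms** -/
theorem arms_of {Adm : Dom → ℝ → Prop} (hAdm : ∀ D δ, Adm D δ → D.Ad δ) (hH : HARM)
    (hM : HULLM Adm) : ARMS Adm := by
  intro D δ hD
  have hOK := hAdm D δ hD
  have hL := hOK.w.Lpos
  have hδ := hOK.w.dpos
  obtain ⟨C4, hC4, h1⟩ := hM D δ hD
  obtain ⟨C, c, c2, A, hC, hc, hc2, hA, H⟩ := arms_det hH hC4 hL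
  refine ⟨C, c, hC, hc, ?_⟩
  intro r0 hr0 η hη
  obtain ⟨C', K, a, C4', hC', hK, ha, hC4', hgood⟩ := good_ev D hL
  have hr1 : (0 : ℝ) < (r0 / A) ^ 2 / D.L := by
    have : 0 < A := by linarith
    positivity
  filter_upwards [h1 (c2 * r0) (by positivity) (η / 2) (by positivity), hgood,
    (rad_small C').eventually (ge_mem_nhds (show (0 : ℝ) < δ ^ 6 / (40000 * D.L ^ 5) by positivity)),
    (rad_small C').eventually (ge_mem_nhds hr1),
    (tendsto_id.mono_left nhdsWithin_le_nhds : Tendsto (fun ε : ℝ => ε) (𝓝[>] 0) (𝓝 0)).eventually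
      (ge_mem_nhds (show (0 : ℝ) < η / 2 by positivity))] with ε g1 g2 g3 g4 g5
  rw [le_div_iff₀ (by positivity)] at g3
  have hd : 40000 * D.L ^ 5 * rad C' ε ≤ δ ^ 6 := by linarith
  have hsub : {ω | ¬ Arms (D.sites ε ω) D.c D.L C c r0} ⊆
      {ω | ¬ HM (D.sites ε ω) D.c D.L C4 (c2 * r0)} ∪ {ω | ¬ Y0x831.Good D ε C' K a C4' ω} := by
    intro ω hω
    by_contra hcon
    simp only [mem_union, mem_ofPred_eq, not_or, not_not] at hcon
    obtain ⟨c1, c3⟩ := hcon
    refine hω ?_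
    have hS := DomAx722.dns_of_env hL (DomAx722.small_d hL hδ hOK.w.lt.le hd) c3.env
    refine H _ _ _ r0 hS hr0 ?_ c1
    have hA0 : 0 < A := by linarith
    have h5 : √(D.L * rad C' ε) ≤ r0 / A := by
      rw [Real.sqrt_le_left (by positivity)]
      rw [le_div_iff₀ hL] at g4
      linarith
    calc A * √(D.L * rad C' ε) ≤ A * (r0 / A) := mul_le_mul_of_nonneg_left h5 hA0.le
      _ = r0 := by field_simp
  have h3 : ENNReal.ofReal η = ENNReal.ofReal (η / 2) + ENNReal.ofReal (η / 2) := by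
    rw [← ENNReal.ofReal_add (by positivity) (by positivity)]
    congr 1
    ring
  rw [h3]
  refine (measure_mono hsub).trans ((measure_union_le _ _).trans ?_)
  exact add_le_add g1 (g2.trans (ENNReal.ofReal_le_ofReal g5))

/-! ### small centres -/

/-- a centre of size `ρ` -/
def Sm1 (S : Finset ℂ) (A : ZMod 3 → Set ℂ) (ρ : ℝ) : Prop := ∃ p, SmC S A p ρ

/-- a centre is near one of its sites -/
theorem smc_site {S : Finset ℂ} {A : ZMod 3 → Set ℂ} {ρ : ℝ} (h : Sm1 S A ρ) :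
    ∃ p ∈ S, SmC S A p (2 * ρ) := by
  have tri : ∀ {a b p : ℂ}, ‖a - p‖ ≤ ρ → ‖b - p‖ ≤ ρ → ‖a - b‖ ≤ 2 * ρ := by
    intro a b p h1 h2
    have : a - b = (a - p) - (b - p) := by ring
    rw [this]
    exact (norm_sub_le _ _).trans (by linarith)
  obtain ⟨p, ⟨t, ht, h1⟩ | ⟨X, hX, h1⟩⟩ := h
  · refine ⟨t.1, (mem_delT.1 ht.1).1, Or.inl ⟨t, ht, fun v hv => ?_⟩⟩
    exact tri (h1 v hv) (h1 _ (Or.inl rfl))
  · obtain ⟨x, hx, y, -, hxy⟩ := hX.2.2 0
    exact ⟨x, hxy.mem.1, Or.inr ⟨X, hX, fun v hv => tri (h1 v hv) (h1 x hx)⟩⟩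

theorem exists_rho {C c M η : ℝ} (hC : 0 < C) (hc : 0 < c) (hM : 0 < M) (hη : 0 < η) :
    ∃ ρ > 0, 4 * ρ ≤ η ∧ 9 * (M * (2 * C * (2 * ρ / (η / 2)) ^ c)) ≤ 18 * η := by
  set κ : ℝ := η / (C * M) with hκ
  have hκ0 : 0 < κ := by positivity
  refine ⟨min (η / 4) (η / 4 * κ ^ (1 / c)), by positivity, ?_, ?_⟩
  · have := min_le_left (η / 4) (η / 4 * κ ^ (1 / c))
    linarith
  · set ρ := min (η / 4) (η / 4 * κ ^ (1 / c)) with hρ
    have hρ0 : 0 < ρ := by positivity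
    have h1 : ρ ≤ η / 4 * κ ^ (1 / c) := min_le_right _ _
    have h2 : 2 * ρ / (η / 2) ≤ κ ^ (1 / c) := by
      rw [div_le_iff₀ (by positivity)]
      linarith
    have h3 : (2 * ρ / (η / 2)) ^ c ≤ κ := by
      calc (2 * ρ / (η / 2)) ^ c ≤ (κ ^ (1 / c)) ^ c :=
            Real.rpow_le_rpow (by positivity) h2 hc.le
        _ = κ := by
            rw [← Real.rpow_mul hκ0.le, one_div, inv_mul_cancel₀ hc.ne', Real.rpow_one]
    calc 9 * (M * (2 * C * (2 * ρ / (η / 2)) ^ c)) ≤ 9 * (M * (2 * C * κ)) := by gcongr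
      _ = 18 * η := by
          rw [hκ]
          field_simp
          ring

/-- **leaf SMALL** -/
theorem small_of {Adm : Dom → ℝ → Prop} (hAdm : ∀ D δ, Adm D δ → D.Ad δ) (hA : ARMS Adm)
    (hM : HULLM Adm) {z : ℂ → ℂ} (hz : ∀ u v, ‖z u - z v‖ ≤ ‖u - v‖) : SMALL Sm1 z Adm := by
  intro D δ hD η hη
  have hOK := hAdm D δ hD
  have hL := hOK.w.Lpos
  have hδ := hOK.w.dpos
  obtain ⟨C, c, hC, hc, h1⟩ := hA D δ hD
  obtain ⟨C4, hC4, h2⟩ := hM D δ hD
  have hC0 : 0 < C := by linarith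
  set η1 : ℝ := η / 36 with hη1
  have hη1p : 0 < η1 := by positivity
  obtain ⟨ρ, hρ, hρ1, hρ2⟩ := exists_rho (M := 2 * D.L) hC0 hc (by positivity) hη1p
  refine ⟨ρ, hρ, ?_⟩
  set b0 : ℝ := min 1 (η1 / 2 / (√C4 + 1)) with hb0
  have hsq : 0 ≤ √C4 := Real.sqrt_nonneg _
  have hb0p : 0 < b0 := by positivity
  obtain ⟨C', K, a, C4', hC', hK, ha, hC4', hgood⟩ := good_ev D hL
  filter_upwards [h1 (2 * ρ) (by positivity) (η / 3) (by positivity),
    h2 b0 hb0p (η / 3) (by positivity), hgood, hnet_ev hOK.w hC',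
    (rad_small C').eventually (ge_mem_nhds (show (0 : ℝ) < δ ^ 6 / (40000 * D.L ^ 5) by positivity)),
    (tendsto_id.mono_left nhdsWithin_le_nhds : Tendsto (fun ε : ℝ => ε) (𝓝[>] 0) (𝓝 0)).eventually
      (ge_mem_nhds (show (0 : ℝ) < η / 3 by positivity))] with ε g1 g2 g3 g4 g5 g6
  rw [le_div_iff₀ (by positivity)] at g5
  have hd : 40000 * D.L ^ 5 * rad C' ε ≤ δ ^ 6 := by linarith
  have hsub : {ω | ∃ x : St ℂ, Ok (net D ε ω) x.1 x.2 ∧ Alive (D.sites ε ω) (net D ε ω) x ∧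
      Sm1 (D.sites ε ω) (sx (D.sites ε ω) (net D ε ω) x) ρ ∧
      η < ‖TS (D.sites ε ω) (sx (D.sites ε ω) (net D ε ω) x) z‖} ⊆
      ({ω | ¬ Arms (D.sites ε ω) D.c D.L C c (2 * ρ)} ∪
        {ω | ¬ HM (D.sites ε ω) D.c D.L C4 b0}) ∪ {ω | ¬ Y0x831.Good D ε C' K a C4' ω} := by
    rintro ω ⟨x, hok, hAl, hSm, hbig⟩
    by_contra hcon
    simp only [mem_union, mem_ofPred_eq, not_or, not_not] at hcon
    obtain ⟨⟨c1, c2⟩, c3⟩ := hcon
    have hN := g4 K a C4' ω c3
    have hS := DomAx722.dns_of_env hL (DomAx722.small_d hL hδ hOK.w.lt.le hd) c3.env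
    have hkl := hkl_dom hOK hS hd hN
    obtain ⟨hK', -, hdj, hF, hT, -⟩ := alive_net hN hkl hok hAl
    have hE := NetH2x346.hex_net hK' hdj hF
    obtain ⟨p, hp, hC'⟩ := smc_site hSm
    have hpL := hS.sub p hp
    have hsubA : ∀ i, ∀ v ∈ sx (D.sites ε ω) (net D ε ω) x i, v ∈ D.sites ε ω := fun i v hv =>
      hT.sub i hv
    have e1 : η1 - η1 / 2 = η1 / 2 := by ring
    have hq := c1.two hpL (r := 2 * ρ) (R := η1 / 2) le_rfl (by linarith)
      (V := ff (D.sites ε ω) (sx (D.sites ε ω) (net D ε ω) x)) (Finset.filter_subset _ _) (by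
        intro v hv u
        have hv' := (Finset.mem_filter.1 hv).2
        constructor
        · intro h
          obtain ⟨i, hi⟩ := hT.hull v u h
          exact hv' i hi
        · intro h
          obtain ⟨i, hi⟩ := hT.hull_mem (Or.inr h)
          exact hv' i hi)
    have h3 := CenSx496.small hT hE hC' (η := η1) (d := η1 / 2) (M := 2 * D.L)
      (q := 2 * C * (2 * ρ / (η1 / 2)) ^ c) (by linarith) hη1p.le (by
        intro u v huv _
        have h4 := edge_of_hm hS.sub c2 hb0p (min_le_left _ _) huv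
        refine h4.trans ?_
        have h5 : b0 ≤ η1 / 2 / (√C4 + 1) := min_le_right _ _
        calc √C4 * b0 ≤ (√C4 + 1) * (η1 / 2 / (√C4 + 1)) := by
              apply mul_le_mul _ h5 hb0p.le (by positivity)
              linarith
          _ = η1 / 2 := by field_simp) (by
        intro i v hv
        have h6 := hS.sub v (hsubA i v hv)
        have : v - p = (v - D.c) - (p - D.c) := by ring
        rw [this]
        exact (norm_sub_le _ _).trans (by linarith)) (by positivity) (by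
        rw [e1]
        exact hq) hz
    have h7 : ‖TS (D.sites ε ω) (sx (D.sites ε ω) (net D ε ω) x) z‖ ≤ 9 * η1 + 18 * η1 := by
      refine h3.trans ?_
      linarith
    rw [hη1] at h7
    linarith
  have h3 : ENNReal.ofReal η =
      ENNReal.ofReal (η / 3) + ENNReal.ofReal (η / 3) + ENNReal.ofReal (η / 3) := by
    rw [← ENNReal.ofReal_add (by positivity) (by positivity),
      ← ENNReal.ofReal_add (by positivity) (by positivity)]
    congr 1
    ring
  rw [h3]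
  refine (measure_mono hsub).trans ((measure_union_le _ _).trans ?_)
  refine add_le_add ((measure_union_le _ _).trans (add_le_add g1 g2)) ?_
  exact g3.trans (ENNReal.ofReal_le_ofReal g6)

/-- **SMALL from the two leaves** -/
theorem small_id {Adm : Dom → ℝ → Prop} (hAdm : ∀ D δ, Adm D δ → D.Ad δ) (hH : HARM)
    (hM : HULLM Adm) : SMALL Sm1 id Adm :=
  small_of hAdm (arms_of hAdm hH hM) hM fun _ _ => le_rfl

theorem small_conj {Adm : Dom → ℝ → Prop} (hAdm : ∀ D δ, Adm D δ → D.Ad δ) (hH : HARM)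
    (hM : HULLM Adm) : SMALL Sm1 (starRingEnd ℂ) Adm :=
  small_of hAdm (arms_of hAdm hH hM) hM fun u v => by rw [← map_sub, Complex.norm_conj]

/-- **CONT, weight `we`** -/
theorem cont_we' {U : Type} {T : U → ℝ → Sample → ℂ} {Adm : Dom → ℝ → Prop}
    (hAdm : ∀ D δ, Adm D δ → D.Ad δ) (hH : HARM) (hM : HULLM Adm) (h2 : VIS Sm1 T id Adm) :
    AsmNx758.CONT AsmNx758.we T Adm :=
  cont_we NetH2x346.hitu' hAdm (small_id hAdm hH hM) h2

/-- **CONT, weight `wd`** -/
theorem cont_wd' {U : Type} {T : U → ℝ → Sample → ℂ} {Adm : Dom → ℝ → Prop}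
    (hAdm : ∀ D δ, Adm D δ → D.Ad δ) (hH : HARM) (hM : HULLM Adm)
    (h2 : VIS Sm1 T (starRingEnd ℂ) Adm) : AsmNx758.CONT AsmNx758.wd T Adm :=
  cont_wd NetH2x346.hitu' hAdm (small_conj hAdm hH hM) h2

end Crest.Agent.R143.Mabx377
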