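import Mathlib

/-!
# Row 143: the sum rule over the scales, abstract form (helper705)

`G L` = expected energy of the blocks closed in a box of side `L` (unit mesh).  If `G` is
superadditive under cutting the box of side `k L` in `k²` boxes, monotone and `G L ≤ C L²`, then
`G L / L²` converges to its supremum and the energy `G L - k² G (L / k)` of the blocks of the box
of side `L` which are in none of the `k²` subboxes is `o(L²)`.

* `tendsto_div` : `G L / L ^ 2` converges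
* `mid_tendsto` : `(G L - k ^ 2 * G (L / k)) / L ^ 2 → 0`
* `mid_eps` : the same at mesh `ε`, `ε → 0⁺`

-/

set_option autoImplicit false

noncomputable section

namespace Crest.Agent.R143.Fekx705

open Filter Topology

/-- hypotheses: only side lengths `≥ 1` (or any threshold `L₀`) matter -/
structure Sup (G : ℝ → ℝ) (L₀ C : ℝ) : Prop where
  pos : 0 < L₀
  nn : ∀ L, L₀ ≤ L → 0 ≤ G L
  mono : ∀ L L', L₀ ≤ L → L ≤ L' → G L ≤ G L'
  sup : ∀ (k : ℕ) (L : ℝ), 1 ≤ k → L₀ ≤ L → (k : ℝ) ^ 2 * G L ≤ G (k * L)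
  bd : ∀ L, L₀ ≤ L → G L ≤ C * L ^ 2

variable {G : ℝ → ℝ} {L₀ C : ℝ}

theorem Sup.low (h : Sup G L₀ C) {L L' : ℝ} (hL : L₀ ≤ L) (hL' : L ≤ L') :
    G L / L ^ 2 * ((L' - L) / L') ^ 2 ≤ G L' / L' ^ 2 := by
  have hp : 0 < L := h.pos.trans_le hL
  have hp' : 0 < L' := hp.trans_le hL'
  set k : ℕ := ⌊L' / L⌋₊ with hk
  have h1 : 1 ≤ k := Nat.le_floor (by rw [Nat.cast_one, le_div_iff₀ hp, one_mul]; exact hL')
  have h2 : (k : ℝ) * L ≤ L' := by
    have := Nat.floor_le (div_nonneg hp'.le hp.le)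
    rwa [← hk, le_div_iff₀ hp] at this
  have h3 : L' < ((k : ℝ) + 1) * L := by
    have := Nat.lt_floor_add_one (L' / L)
    rwa [← hk, div_lt_iff₀ hp] at this
  have hkL : L₀ ≤ (k : ℝ) * L := by
    have : (1 : ℝ) ≤ k := by exact_mod_cast h1
    nlinarith
  have h4 : (k : ℝ) ^ 2 * G L ≤ G L' := (h.sup k L h1 hL).trans (h.mono _ _ hkL h2)
  have h5 : 0 ≤ G L := h.nn L hL
  have h6 : 0 ≤ L' - L := by linarith
  have h7 : L' - L ≤ k * L := by linarith
  have h8 : (L' - L) ^ 2 ≤ (k * L) ^ 2 := pow_le_pow_left₀ h6 h7 2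
  rw [div_pow, div_mul_div_comm, div_le_div_iff₀ (by positivity) (by positivity)]
  have h9 : G L * (L' - L) ^ 2 ≤ G L' * L ^ 2 :=
    calc G L * (L' - L) ^ 2 ≤ G L * (k * L) ^ 2 := mul_le_mul_of_nonneg_left h8 h5
      _ = ((k : ℝ) ^ 2 * G L) * L ^ 2 := by ring
      _ ≤ G L' * L ^ 2 := mul_le_mul_of_nonneg_right h4 (by positivity)
  calc G L * (L' - L) ^ 2 * L' ^ 2 ≤ G L' * L ^ 2 * L' ^ 2 :=
        mul_le_mul_of_nonneg_right h9 (by positivity)
    _ = G L' * (L ^ 2 * L' ^ 2) := by ring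

/-- `G L / L²` converges to `s = sup` -/
theorem Sup.tendsto_div (h : Sup G L₀ C) :
    ∃ s : ℝ, Tendsto (fun L => G L / L ^ 2) atTop (𝓝 s) ∧ (∀ L, L₀ ≤ L → G L / L ^ 2 ≤ s) ∧
      s ≤ C := by
  set A : Set ℝ := (fun L => G L / L ^ 2) '' Set.Ici L₀ with hA
  have hne : A.Nonempty := ⟨_, L₀, Set.self_mem_Ici, rfl⟩
  have hC : ∀ x ∈ A, x ≤ C := by
    rintro x ⟨L, hL, rfl⟩
    have hp : 0 < L := h.pos.trans_le hL
    exact (div_le_iff₀ (by positivity)).2 (h.bd L hL)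
  have hb : BddAbove A := ⟨C, hC⟩
  have hle : ∀ L, L₀ ≤ L → G L / L ^ 2 ≤ sSup A := fun L hL => le_csSup hb ⟨L, hL, rfl⟩
  refine ⟨sSup A, ?_, hle, csSup_le hne hC⟩
  rw [tendsto_order]
  constructor
  · intro a ha
    obtain ⟨x, ⟨L, hL, rfl⟩, hx⟩ := exists_lt_of_lt_csSup hne ha
    have hp : 0 < L := h.pos.trans_le hL
    have ht : Tendsto (fun L' : ℝ => G L / L ^ 2 * ((L' - L) / L') ^ 2) atTop
        (𝓝 (G L / L ^ 2 * (1 - 0) ^ 2)) := by
      refine Tendsto.const_mul _ (Tendsto.pow ?_ 2)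
      have h1 : Tendsto (fun L' : ℝ => 1 - L / L') atTop (𝓝 (1 - 0)) :=
        tendsto_const_nhds.sub (tendsto_const_nhds.div_atTop tendsto_id)
      refine h1.congr' ?_
      filter_upwards [eventually_gt_atTop 0] with L' hL'
      rw [sub_div, div_self hL'.ne']
    rw [sub_zero, one_pow, mul_one] at ht
    filter_upwards [ht.eventually (lt_mem_nhds hx), eventually_ge_atTop L] with L' h1 h2
    exact h1.trans_le (h.low hL h2)
  · intro a ha
    filter_upwards [eventually_ge_atTop L₀] with L hL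
    exact (hle L hL).trans_lt ha

/-- **the energy of the mid scales is `o(L²)`** -/
theorem Sup.mid_tendsto (h : Sup G L₀ C) (k : ℕ) (hk : 1 ≤ k) :
    Tendsto (fun L => (G L - (k : ℝ) ^ 2 * G (L / k)) / L ^ 2) atTop (𝓝 0) := by
  obtain ⟨s, hs, -, -⟩ := h.tendsto_div
  have hk0 : (0 : ℝ) < k := by exact_mod_cast hk
  have h1 : Tendsto (fun L : ℝ => G (L / k) / (L / k) ^ 2) atTop (𝓝 s) :=
    hs.comp (tendsto_id.atTop_div_const hk0)
  have h2 := hs.sub h1
  rw [sub_self] at h2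
  refine h2.congr' ?_
  filter_upwards [eventually_gt_atTop 0] with L hL
  field_simp

/-- at mesh `ε`: `G (a / ε) ε²` = expected energy in a box of side `a` at mesh `ε` -/
theorem Sup.mid_eps (h : Sup G L₀ C) (k : ℕ) (hk : 1 ≤ k) {a : ℝ} (ha : 0 < a) :
    Tendsto (fun ε => ε ^ 2 * G (a / ε) - (k : ℝ) ^ 2 * (ε ^ 2 * G (a / (k * ε)))) (𝓝[>] 0)
      (𝓝 0) := by
  have h1 : Tendsto (fun ε : ℝ => a / ε) (𝓝[>] 0) atTop := by
    simpa [div_eq_mul_inv] using tendsto_inv_nhdsGT_zero.const_mul_atTop ha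
  have h2 := ((h.mid_tendsto k hk).comp h1).const_mul (a ^ 2)
  rw [mul_zero] at h2
  refine h2.congr' ?_
  filter_upwards [self_mem_nhdsWithin] with ε hε
  have hε' : (0 : ℝ) < ε := hε
  have hk0 : (0 : ℝ) < k := by exact_mod_cast hk
  have e : a / ε / k = a / (k * ε) := by rw [div_div, mul_comm ε]
  simp only [Function.comp_apply]
  rw [e, div_pow]
  field_simp

end Crest.Agent.R143.Fekx705
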