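import Crest.Agent.R143.Trans2_690
import Crest.Agent.R143.Mass5_302
import Crest.Agent.R143.Fek_705

/-!
# Row 143 (S0194), energy transfer, part 3 (helper690): densities

* `Dens F α` : the mean weight of the objects of `F` in the square `sq z s` tends to `α s²` (mesh
  `ε → 0`), for all `z`, `s > 0`
* `exists_dens` : every family with `F.a L ≤ C L²` has a density
* `famF` : the family of the Delaunay faces, `famF.Ph U X = Wf (ps X) U`
* `four_ph_le` : `4 Ph U X ≤ Wf (ps X) U`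
-/

set_option autoImplicit false
set_option linter.unusedSectionVars false
set_option linter.unusedVariables false

noncomputable section

open scoped Classical

namespace Crest.Agent.R143.Trans3x690

open MeasureTheory Filter Topology
open Crest.ProbabilityR.Voronoi
open Crest.Agent.R143.B0x346 Crest.Agent.R143.SumScx302 Crest.Agent.R143.Mass1x302
  Crest.Agent.R143.PP0x831 Crest.Agent.R143.Trans2x690
open scoped ENNReal

variable {O : Type} (F : Fam O)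

theorem Ph_sc {r : ℝ} (hr : 0 < r) (U : Set ℂ) (X : Set (ℂ × Bool)) :
    F.Ph ((fun w => (r : ℂ) * w) '' U) (scX r X) = ENNReal.ofReal (r ^ 2) * F.Ph U X := by
  unfold Fam.Ph
  rw [← (F.sc r hr).tsum_eq, ← ENNReal.tsum_mul_left]
  refine tsum_congr fun o => ?_
  rw [F.sc_ob, F.sc_sup, F.sc_wt, image_mul_subset hr]
  split_ifs <;> simp

/-- mean weight of a square -/
def Ag (z : ℂ) (s ε : ℝ) : ℝ≥0∞ := ∫⁻ ω, F.Ph (sq z s) (cfg ε ω) ∂sampleLaw

/-- mean weight of a square with Gaussian integer corner, mesh `1` -/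
theorem ag_gi (k : ℤ × ℤ) (L : ℕ) :
    ∫⁻ ω, F.Ph (sq (gi k) L) (cfg 1 ω) ∂sampleLaw = F.a L := by
  unfold Fam.a
  rw [← stat k fun X => F.Ph (sq (gi k) L) X]
  refine lintegral_congr fun ω => ?_
  have e : sq (gi k) (L : ℝ) = (fun w => w + gi k) '' sq 0 L := by
    rw [sq_tr, zero_add]
  rw [e, F.Ph_tr]

theorem ag_eq {z : ℂ} {s ε : ℝ} (hε : 0 < ε) : Ag F z s ε =
    ENNReal.ofReal (ε ^ 2) * ∫⁻ ω, F.Ph (sq (((ε⁻¹ : ℝ) : ℂ) * z) (ε⁻¹ * s)) (cfg 1 ω)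
      ∂sampleLaw := by
  unfold Ag
  rw [← lintegral_const_mul' _ _ ENNReal.ofReal_ne_top]
  refine lintegral_congr fun ω => ?_
  rw [cfg_eps, ← Ph_sc F hε, sq_sc hε]
  congr 1
  · rw [← mul_assoc, ← Complex.ofReal_mul, ← mul_assoc, mul_inv_cancel₀ hε.ne']
    simp

theorem sq_gi_sub {k : ℤ × ℤ} {L : ℕ} {z : ℂ} {s : ℝ} (h1 : z.re ≤ k.1) (h2 : z.im ≤ k.2)
    (h3 : (k.1 : ℝ) + L ≤ z.re + s) (h4 : (k.2 : ℝ) + L ≤ z.im + s) : sq (gi k) L ⊆ sq z s := by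
  rintro w ⟨a1, a2, a3, a4⟩
  rw [gi_re] at a1 a2
  rw [gi_im] at a3 a4
  exact ⟨by linarith, by linarith, by linarith, by linarith⟩

theorem sq_sub_gi {k : ℤ × ℤ} {L : ℕ} {z : ℂ} {s : ℝ} (h1 : (k.1 : ℝ) ≤ z.re)
    (h2 : (k.2 : ℝ) ≤ z.im) (h3 : z.re + s ≤ (k.1 : ℝ) + L) (h4 : z.im + s ≤ (k.2 : ℝ) + L) :
    sq z s ⊆ sq (gi k) L := by
  rintro w ⟨a1, a2, a3, a4⟩
  refine ⟨?_, ?_, ?_, ?_⟩
  · rw [gi_re]; linarith
  · rw [gi_re]; linarith
  · rw [gi_im]; linarith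
  · rw [gi_im]; linarith

theorem ag_le {z : ℂ} {s ε : ℝ} (hε : 0 < ε) (hs : 0 < s) :
    Ag F z s ε ≤ ENNReal.ofReal (ε ^ 2) * F.a ⌊s / ε + 2⌋₊ := by
  rw [ag_eq F hε]
  gcongr
  set z' : ℂ := ((ε⁻¹ : ℝ) : ℂ) * z with hz'
  set k : ℤ × ℤ := (⌊z'.re⌋, ⌊z'.im⌋) with hk
  rw [← ag_gi F k]
  refine lintegral_mono fun ω => F.Ph_mono ?_ _
  have h0 : ε⁻¹ * s = s / ε := by rw [div_eq_inv_mul]
  have h5 : s / ε + 2 < (⌊s / ε + 2⌋₊ : ℝ) + 1 := Nat.lt_floor_add_one _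
  refine sq_sub_gi (Int.floor_le _) (Int.floor_le _) ?_ ?_
  · have := Int.lt_floor_add_one z'.re
    rw [h0]
    show z'.re + s / ε ≤ (⌊z'.re⌋ : ℝ) + _
    linarith
  · have := Int.lt_floor_add_one z'.im
    rw [h0]
    show z'.im + s / ε ≤ (⌊z'.im⌋ : ℝ) + _
    linarith

theorem le_ag {z : ℂ} {s ε : ℝ} (hε : 0 < ε) (hs : 1 ≤ s / ε) :
    ENNReal.ofReal (ε ^ 2) * F.a ⌊s / ε - 1⌋₊ ≤ Ag F z s ε := by
  rw [ag_eq F hε]
  gcongr
  set z' : ℂ := ((ε⁻¹ : ℝ) : ℂ) * z with hz'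
  set k : ℤ × ℤ := (⌊z'.re⌋ + 1, ⌊z'.im⌋ + 1) with hk
  rw [← ag_gi F k]
  refine lintegral_mono fun ω => F.Ph_mono ?_ _
  have h0 : ε⁻¹ * s = s / ε := by rw [div_eq_inv_mul]
  have h5 : (⌊s / ε - 1⌋₊ : ℝ) ≤ s / ε - 1 := Nat.floor_le (by linarith)
  have a1 := Int.lt_floor_add_one z'.re
  have a2 := Int.lt_floor_add_one z'.im
  have b1 := Int.floor_le z'.re
  have b2 := Int.floor_le z'.im
  refine sq_gi_sub ?_ ?_ ?_ ?_
  · show z'.re ≤ ((⌊z'.re⌋ + 1 : ℤ) : ℝ)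
    push_cast; linarith
  · show z'.im ≤ ((⌊z'.im⌋ + 1 : ℤ) : ℝ)
    push_cast; linarith
  · show ((⌊z'.re⌋ + 1 : ℤ) : ℝ) + _ ≤ _
    rw [h0]
    push_cast; linarith
  · show ((⌊z'.im⌋ + 1 : ℤ) : ℝ) + _ ≤ _
    rw [h0]
    push_cast; linarith

/-- `α` is the density of the family -/
def Dens (α : ℝ) : Prop := ∀ (z : ℂ) (s : ℝ), 0 < s →
  Tendsto (fun ε : ℝ => Ag F z s ε) (𝓝[>] 0) (𝓝 (ENNReal.ofReal (α * s ^ 2)))

/-- **every bounded family has a density** -/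
theorem exists_dens {C : ℝ≥0∞} (hC : C ≠ ∞) (hb : ∀ L : ℕ, F.a L ≤ C * (L : ℝ≥0∞) ^ 2) :
    ∃ α : ℝ, 0 ≤ α ∧ Dens F α := by
  have hfin : ∀ L : ℕ, F.a L ≠ ∞ := by
    intro L
    refine ne_top_of_le_ne_top ?_ (hb L)
    exact ENNReal.mul_ne_top hC (ENNReal.pow_ne_top (ENNReal.natCast_ne_top L))
  have hsup : ∀ k L : ℕ, (k : ℝ≥0∞) ^ 2 * F.a L ≤ F.a (k * L) := fun k L =>
    le_trans (le_add_left le_rfl) (F.super L k)
  have hbr : ∀ L : ℕ, (F.a L).toReal ≤ C.toReal * (L : ℝ) ^ 2 := by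
    intro L
    have h2 := ENNReal.toReal_mono (ENNReal.mul_ne_top hC
      (ENNReal.pow_ne_top (ENNReal.natCast_ne_top L))) (hb L)
    rwa [ENNReal.toReal_mul, ENNReal.toReal_pow, ENNReal.toReal_natCast] at h2
  have hmono : ∀ L L' : ℕ, L ≤ L' → (F.a L).toReal ≤ (F.a L').toReal := fun L L' h =>
    ENNReal.toReal_mono (hfin L') (F.a_mono h)
  set G : ℝ → ℝ := fun L => (F.a ⌊L⌋₊).toReal with hG
  have hS : Fekx705.Sup G 1 C.toReal := by
    refine ⟨one_pos, fun L _ => ENNReal.toReal_nonneg, fun L L' _ h => ?_, ?_, ?_⟩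
    · exact hmono _ _ (Nat.floor_le_floor h)
    · intro k L hk hL
      have h2 := ENNReal.toReal_mono (hfin _) (hsup k ⌊L⌋₊)
      rw [ENNReal.toReal_mul, ENNReal.toReal_pow, ENNReal.toReal_natCast] at h2
      refine h2.trans (hmono _ _ ?_)
      refine Nat.le_floor ?_
      push_cast
      exact mul_le_mul_of_nonneg_left (Nat.floor_le (by linarith)) (Nat.cast_nonneg k)
    · intro L hL
      refine (hbr _).trans ?_
      have h1 : (⌊L⌋₊ : ℝ) ≤ L := Nat.floor_le (by linarith)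
      have h2 : (⌊L⌋₊ : ℝ) ^ 2 ≤ L ^ 2 := pow_le_pow_left₀ (Nat.cast_nonneg _) h1 2
      exact mul_le_mul_of_nonneg_left h2 ENNReal.toReal_nonneg
  obtain ⟨α, hα, hα1, -⟩ := hS.tendsto_div
  have hα0 : 0 ≤ α := le_trans (div_nonneg ENNReal.toReal_nonneg (by norm_num)) (hα1 1 le_rfl)
  refine ⟨α, hα0, fun z s hs => ?_⟩
  -- the two bounds
  have hinv : Tendsto (fun ε : ℝ => s / ε) (𝓝[>] 0) atTop := by
    simpa [div_eq_mul_inv] using tendsto_inv_nhdsGT_zero.const_mul_atTop hs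
  have key : ∀ c : ℝ, Tendsto (fun ε : ℝ => ε ^ 2 * G (s / ε + c)) (𝓝[>] 0) (𝓝 (α * s ^ 2)) := by
    intro c
    have h1 : Tendsto (fun ε : ℝ => s / ε + c) (𝓝[>] 0) atTop := hinv.atTop_add tendsto_const_nhds
    have h2 := hα.comp h1
    have h3 : Tendsto (fun ε : ℝ => (s + c * ε) ^ 2) (𝓝[>] 0) (𝓝 (s ^ 2)) := by
      have : Continuous fun ε : ℝ => (s + c * ε) ^ 2 := by fun_prop
      have h4 := this.tendsto 0
      simp only [mul_zero, add_zero] at h4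
      exact h4.mono_left nhdsWithin_le_nhds
    have h5 := h2.mul h3
    refine h5.congr' ?_
    filter_upwards [h1.eventually_gt_atTop 0, self_mem_nhdsWithin] with ε h6 h7
    have h7' : (0 : ℝ) < ε := h7
    simp only [Function.comp_apply]
    have e : s + c * ε = ε * (s / ε + c) := by field_simp
    rw [e, mul_pow]
    clear e
    generalize s / ε + c = y at h6 ⊢
    field_simp
  have hofr : ∀ c : ℝ, Tendsto (fun ε : ℝ => ENNReal.ofReal (ε ^ 2) * F.a ⌊s / ε + c⌋₊) (𝓝[>] 0)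
      (𝓝 (ENNReal.ofReal (α * s ^ 2))) := by
    intro c
    have h1 := ENNReal.tendsto_ofReal (key c)
    refine h1.congr fun ε => ?_
    rw [ENNReal.ofReal_mul (by positivity)]
    simp only [hG]
    rw [ENNReal.ofReal_toReal (hfin _)]
  refine tendsto_of_tendsto_of_tendsto_of_le_of_le' (hofr (-1)) (hofr 2) ?_ ?_
  · filter_upwards [hinv.eventually_ge_atTop 1, self_mem_nhdsWithin] with ε h1 h2
    have := le_ag F (z := z) (s := s) (ε := ε) h2 h1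
    rwa [← sub_eq_add_neg]
  · filter_upwards [self_mem_nhdsWithin] with ε h2
    exact ag_le F h2 hs

/-! ### faces -/

/-- the family of the Delaunay faces -/
def famF : Fam T3 where
  Ob X := {t | Del (ps X) t.1 t.2.1 t.2.2}
  sup := cdisc
  wt t := ENNReal.ofReal (‖Nn t‖ ^ 2)
  ne X t ht := ⟨t.1, mem_cdisc ht⟩
  tr z := mt (eT z)
  tr_ob z X t := by
    show Del (ps (trX z X)) (eT z t.1) (eT z t.2.1) (eT z t.2.2) ↔ Del (ps X) t.1 t.2.1 t.2.2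
    rw [ps_tr]
    exact eT_good z _ _ _ _
  tr_sup z t := cdisc_of one_pos (eT_norm z) t
  tr_wt z t := by rw [Nn_tr, one_mul]
  sc r hr := mt (eS r hr)
  sc_ob r hr X t := by
    show Del (ps (scX r X)) (eS r hr t.1) (eS r hr t.2.1) (eS r hr t.2.2) ↔
      Del (ps X) t.1 t.2.1 t.2.2
    rw [ps_sc hr]
    exact eS_good hr _ _ _ _
  sc_sup r hr t := cdisc_of hr (eS_norm hr) t
  sc_wt r hr t := by
    rw [Nn_sc hr, norm_mul, mul_pow, Complex.norm_real, Real.norm_eq_abs, sq_abs,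
      ENNReal.ofReal_mul (by positivity)]

theorem famF_Ph (U : Set ℂ) (X : Set (ℂ × Bool)) : famF.Ph U X = Wf (ps X) U := by
  unfold Fam.Ph Wf
  exact tsum_congr fun t => if_congr Iff.rfl rfl rfl

theorem famF_a : ∃ C : ℝ≥0∞, C ≠ ∞ ∧ ∀ L : ℕ, famF.a L ≤ C * (L : ℝ≥0∞) ^ 2 := by
  obtain ⟨C, hC, h⟩ := Momx810.mom_if (W := fun S L t =>
    if Mass2x302.Fc S (sq 0 (L : ℝ)) t.1 t.2.1 t.2.2 then ENNReal.ofReal (‖Nn t‖ ^ 2) else 0) 9
    (by simp) fun S L t => Mass5x302.fc_cw t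
  refine ⟨C, hC, fun L => le_trans (le_of_eq ?_) (h L)⟩
  unfold Fam.a
  refine lintegral_congr fun ω => ?_
  rw [famF_Ph, Mass5x302.ps_cfg]
  rfl

/-- density of the faces -/
def wD : ℝ := (exists_dens famF famF_a.choose_spec.1 famF_a.choose_spec.2).choose

/-- density of the closed blocks -/
def aD : ℝ := (exists_dens fam Mass5x302.a_le.choose_spec.1 Mass5x302.a_le.choose_spec.2).choose

theorem wD_nonneg : 0 ≤ wD :=
  (exists_dens famF famF_a.choose_spec.1 famF_a.choose_spec.2).choose_spec.1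

theorem aD_nonneg : 0 ≤ aD :=
  (exists_dens fam Mass5x302.a_le.choose_spec.1 Mass5x302.a_le.choose_spec.2).choose_spec.1

theorem dens_w : Dens famF wD :=
  (exists_dens famF famF_a.choose_spec.1 famF_a.choose_spec.2).choose_spec.2

theorem dens_a : Dens fam aD :=
  (exists_dens fam Mass5x302.a_le.choose_spec.1 Mass5x302.a_le.choose_spec.2).choose_spec.2

end Crest.Agent.R143.Trans3x690
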