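import Crest.Agent.R143.Bud3_432
import Crest.Agent.R143.Trans3_690

/-!
# Row 143 (S0194), block H, H4 (c) (helper136): the energy budget in expectation

`B = sq z b` the box, `U = sq (z - s (1 + i)) (b + 2 s)` the box with the ring, `g` a weight of the
sample with values in `[0, 1]`.
* `LLN F α` : law of large numbers in `L¹` for the weight of a square
* `wf_split` : `Wf (Nk ∩ U) + Wf (B shrunk by k) ≤ Wf U`
* `hbud` : for small `k` and then small `ε`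
  `(wD / 4) b² ∫ g ≤ ∫ g E + (aD b² + wD (4 s b + 4 s²) + δ) ∫ g + δ`, if
  `Wf B / 4 ≤ E + Ph B + Wf (Nk ∩ U)` where `g ≠ 0` (= `budget_W` of `Bud3_432`)
* `hbud'` : two error terms
-/

set_option autoImplicit false

noncomputable section

open scoped Classical

namespace Crest.Agent.R143.HBudx136

open MeasureTheory Filter Topology
open Crest.ProbabilityR.Voronoi
open Crest.Agent.R143.B0x346 Crest.Agent.R143.SumScx302 Crest.Agent.R143.Mass1x302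
  Crest.Agent.R143.Mass2x302
  Crest.Agent.R143.PP0x831 Crest.Agent.R143.Trans2x690 Crest.Agent.R143.Trans3x690
  Crest.Agent.R143.Bud3x432
open scoped ENNReal

/-- law of large numbers in `L¹` -/
def LLN {O : Type} (F : Fam O) (α : ℝ) : Prop := ∀ (z : ℂ) (s : ℝ), 0 < s →
  ∃ R : ℝ → Sample → ℝ≥0∞, (∀ ε, AEMeasurable (R ε) sampleLaw) ∧
    (∀ᶠ ε : ℝ in 𝓝[>] 0, ∀ᵐ ω ∂sampleLaw,
      F.Ph (sq z s) (cfg ε ω) ≤ ENNReal.ofReal (α * s ^ 2) + R ε ω ∧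
      ENNReal.ofReal (α * s ^ 2) ≤ F.Ph (sq z s) (cfg ε ω) + R ε ω) ∧
    Tendsto (fun ε : ℝ => ∫⁻ ω, R ε ω ∂sampleLaw) (𝓝[>] 0) (𝓝 0)

/-- the box with the ring -/
def Ub (z : ℂ) (b s : ℝ) : Set ℂ := sq (z - ((s : ℝ) : ℂ) * (1 + Complex.I)) (b + 2 * s)

/-- the box shrunk by `k` -/
def Sb (z : ℂ) (b k : ℝ) : Set ℂ := sq (z + ((k : ℝ) : ℂ) * (1 + Complex.I)) (b - 2 * k)

theorem re_k (z : ℂ) (k : ℝ) : (z + (k : ℂ) * (1 + Complex.I)).re = z.re + k := by simp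

theorem im_k (z : ℂ) (k : ℝ) : (z + (k : ℂ) * (1 + Complex.I)).im = z.im + k := by simp

theorem re_k' (z : ℂ) (k : ℝ) : (z - (k : ℂ) * (1 + Complex.I)).re = z.re - k := by simp

theorem im_k' (z : ℂ) (k : ℝ) : (z - (k : ℂ) * (1 + Complex.I)).im = z.im - k := by simp

theorem sb_sub {z : ℂ} {b s k : ℝ} (hs : 0 ≤ s) (hk : 0 ≤ k) : Sb z b k ⊆ Ub z b s := by
  rintro w ⟨h1, h2, h3, h4⟩
  rw [re_k] at h1 h2
  rw [im_k] at h3 h4
  refine ⟨?_, ?_, ?_, ?_⟩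
  · rw [re_k']; linarith
  · rw [re_k']; linarith
  · rw [im_k']; linarith
  · rw [im_k']; linarith

/-- the squares of side `k` which are not in the box do not meet the shrunk box -/
theorem nk_disj {z : ℂ} {b k : ℝ} :
    Disjoint (Nk (Finset.univ : Finset Unit) (fun _ => sq z b) k) (Sb z b k) := by
  rw [Set.disjoint_left]
  rintro w ⟨y, hy, hw⟩ ⟨h1, h2, h3, h4⟩
  rw [re_k] at h1 h2
  rw [im_k] at h3 h4
  obtain ⟨w1, w2, w3, w4⟩ := hw
  refine hy () (Finset.mem_univ _) ?_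
  rintro v ⟨v1, v2, v3, v4⟩
  exact ⟨by linarith, by linarith, by linarith, by linarith⟩

/-- disjoint sets of faces -/
theorem wf_split {P V V' U : Set ℂ} (hd : Disjoint V V') (hV : V ⊆ U) (hV' : V' ⊆ U) :
    Wf P V + Wf P V' ≤ Wf P U := by
  unfold Trans2x690.Wf
  rw [← ENNReal.tsum_add]
  refine ENNReal.tsum_le_tsum fun t => ?_
  by_cases h1 : Fc P V t.1 t.2.1 t.2.2
  · have h2 : ¬ Fc P V' t.1 t.2.1 t.2.2 := fun h2 =>
      Set.disjoint_left.1 hd (h1.2 (mem_cdisc h1.1)) (h2.2 (mem_cdisc h1.1))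
    have h3 : Fc P U t.1 t.2.1 t.2.2 := ⟨h1.1, h1.2.trans hV⟩
    rw [if_pos h1, if_neg h2, if_pos h3, add_zero]
  · rw [if_neg h1, zero_add]
    by_cases h2 : Fc P V' t.1 t.2.1 t.2.2
    · have h3 : Fc P U t.1 t.2.1 t.2.2 := ⟨h2.1, h2.2.trans hV'⟩
      rw [if_pos h2, if_pos h3]
    · rw [if_neg h2]; exact zero_le

/-- pointwise form of the budget -/
theorem point {A B E Ph N S U c1 c2 c3 c4 r1 r2 r3 r4 : ℝ≥0∞} (hA : A = c1 / 4)
    (h0 : B / 4 ≤ E + Ph + N) (h1 : c1 ≤ B + r1) (h2 : Ph ≤ c2 + r2) (h3 : U ≤ c3 + r3)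
    (h4 : c4 ≤ S + r4) (h5 : N + S ≤ U) (hc4 : c4 ≠ ∞) :
    A ≤ E + (c2 + (c3 - c4)) + (r1 + r2 + r3 + r4) := by
  have h6 : N ≤ (c3 - c4) + (r3 + r4) := by
    have h7 : N + c4 ≤ c3 + r3 + r4 := by
      calc N + c4 ≤ N + (S + r4) := by gcongr
        _ = N + S + r4 := by ring
        _ ≤ U + r4 := by gcongr
        _ ≤ c3 + r3 + r4 := by gcongr
    have h8 : c3 ≤ (c3 - c4) + c4 := le_tsub_add
    have h9 : N + c4 ≤ ((c3 - c4) + (r3 + r4)) + c4 := by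
      calc N + c4 ≤ c3 + r3 + r4 := h7
        _ ≤ ((c3 - c4) + c4) + r3 + r4 := by gcongr
        _ = _ := by ring
    exact (ENNReal.add_le_add_iff_right hc4).1 h9
  have h10 : A ≤ B / 4 + r1 := by
    rw [hA]
    calc c1 / 4 ≤ (B + r1) / 4 := by gcongr
      _ = B / 4 + r1 / 4 := by rw [ENNReal.add_div]
      _ ≤ B / 4 + r1 := by
        gcongr
        exact ENNReal.div_le_of_le_mul (by
          calc r1 = r1 * 1 := (mul_one _).symm
            _ ≤ r1 * 4 := by gcongr; norm_num)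
  calc A ≤ B / 4 + r1 := h10
    _ ≤ (E + Ph + N) + r1 := by gcongr
    _ ≤ (E + (c2 + r2) + ((c3 - c4) + (r3 + r4))) + r1 := by gcongr
    _ = _ := by ring

/-- **the energy budget in expectation** -/
theorem hbud (Lw : LLN famF wD) (La : LLN fam aD) (z : ℂ) {b s δ : ℝ} (hb : 0 < b) (hs : 0 < s)
    (hδ : 0 < δ) : ∃ k0 : ℝ, 0 < k0 ∧ ∀ k : ℝ, 0 < k → k ≤ k0 → ∀ᶠ ε : ℝ in 𝓝[>] 0,
    ∀ (g E : Sample → ℝ≥0∞), AEMeasurable g sampleLaw → (∀ ω, g ω ≤ 1) →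
      (∀ᵐ ω ∂sampleLaw, g ω ≠ 0 → Wf (ps (cfg ε ω)) (sq z b) / 4 ≤ E ω +
        fam.Ph (sq z b) (cfg ε ω) +
        Wf (ps (cfg ε ω)) (Nk (Finset.univ : Finset Unit) (fun _ => sq z b) k ∩ Ub z b s)) →
      ENNReal.ofReal (wD / 4 * b ^ 2) * ∫⁻ ω, g ω ∂sampleLaw ≤ ∫⁻ ω, g ω * E ω ∂sampleLaw +
        ENNReal.ofReal (aD * b ^ 2 + wD * (4 * s * b + 4 * s ^ 2) + δ) *
          ∫⁻ ω, g ω ∂sampleLaw + ENNReal.ofReal δ := by
  have hw := wD_nonneg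
  have ha := aD_nonneg
  refine ⟨min (b / 4) (δ / (4 * b * (wD + 1))), by positivity, fun k hk hk0 => ?_⟩
  have hk1 : k ≤ b / 4 := hk0.trans (min_le_left _ _)
  have hk2 : wD * (4 * k * b) ≤ δ := by
    have h1 : k ≤ δ / (4 * b * (wD + 1)) := hk0.trans (min_le_right _ _)
    rw [le_div_iff₀ (by positivity)] at h1
    nlinarith [mul_pos hk hb]
  obtain ⟨R1, m1, p1, t1⟩ := Lw z b hb
  obtain ⟨R2, m2, p2, t2⟩ := La z b hb
  obtain ⟨R3, m3, p3, t3⟩ := Lw (z - ((s : ℝ) : ℂ) * (1 + Complex.I)) (b + 2 * s) (by linarith)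
  obtain ⟨R4, m4, p4, t4⟩ := Lw (z + ((k : ℝ) : ℂ) * (1 + Complex.I)) (b - 2 * k) (by linarith)
  have ht := ((t1.add t2).add t3).add t4
  rw [add_zero, add_zero, add_zero] at ht
  have hδ' : (0 : ℝ≥0∞) < ENNReal.ofReal δ := ENNReal.ofReal_pos.2 hδ
  filter_upwards [p1, p2, p3, p4, ht.eventually (ge_mem_nhds hδ')] with ε q1 q2 q3 q4 q5
  intro g E hg hg1 h
  set c : ℝ := aD * b ^ 2 + wD * (4 * s * b + 4 * s ^ 2) + δ with hc
  have hRm : AEMeasurable (fun ω => R1 ε ω + R2 ε ω + R3 ε ω + R4 ε ω) sampleLaw :=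
    (((m1 ε).add (m2 ε)).add (m3 ε)).add (m4 ε)
  -- the constants
  have hcc : ENNReal.ofReal (aD * b ^ 2) + (ENNReal.ofReal (wD * (b + 2 * s) ^ 2) -
      ENNReal.ofReal (wD * (b - 2 * k) ^ 2)) ≤ ENNReal.ofReal c := by
    rw [← ENNReal.ofReal_sub _ (by positivity)]
    have e1 : wD * (b + 2 * s) ^ 2 - wD * (b - 2 * k) ^ 2 ≤ wD * (4 * s * b + 4 * s ^ 2) + δ := by
      nlinarith [mul_nonneg hw (sq_nonneg k)]
    calc _ ≤ ENNReal.ofReal (aD * b ^ 2) + ENNReal.ofReal (wD * (4 * s * b + 4 * s ^ 2) + δ) := by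
          gcongr
      _ = ENNReal.ofReal c := by
          rw [← ENNReal.ofReal_add (by positivity) (by positivity), hc, add_assoc]
  have hpt : ∀ᵐ ω ∂sampleLaw, ENNReal.ofReal (wD / 4 * b ^ 2) * g ω ≤
      g ω * E ω + ENNReal.ofReal c * g ω + (R1 ε ω + R2 ε ω + R3 ε ω + R4 ε ω) := by
    filter_upwards [h, q1, q2, q3, q4] with ω h q1 q2 q3 q4
    by_cases h0 : g ω = 0
    · rw [h0, mul_zero]; exact zero_le
    have h1 := h h0
    rw [famF_Ph] at q1 q3 q4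
    have h2 := point (A := ENNReal.ofReal (wD / 4 * b ^ 2)) (c1 := ENNReal.ofReal (wD * b ^ 2))
      (by
        rw [show wD / 4 * b ^ 2 = wD * b ^ 2 / 4 by ring, ENNReal.ofReal_div_of_pos (by norm_num)]
        norm_num) h1 q1.2 q2.1 q3.1 q4.2
      (wf_split (nk_disj.mono_left Set.inter_subset_left) Set.inter_subset_right
        (sb_sub hs.le hk.le)) ENNReal.ofReal_ne_top
    calc ENNReal.ofReal (wD / 4 * b ^ 2) * g ω = g ω * ENNReal.ofReal (wD / 4 * b ^ 2) :=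
          mul_comm _ _
      _ ≤ g ω * (E ω + ENNReal.ofReal c + (R1 ε ω + R2 ε ω + R3 ε ω + R4 ε ω)) := by
          gcongr
          refine h2.trans ?_
          gcongr
      _ = g ω * E ω + ENNReal.ofReal c * g ω +
          g ω * (R1 ε ω + R2 ε ω + R3 ε ω + R4 ε ω) := by ring
      _ ≤ _ := by
          gcongr
          calc g ω * (R1 ε ω + R2 ε ω + R3 ε ω + R4 ε ω)
              ≤ 1 * (R1 ε ω + R2 ε ω + R3 ε ω + R4 ε ω) := by gcongr; exact hg1 ω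
            _ = _ := one_mul _
  calc ENNReal.ofReal (wD / 4 * b ^ 2) * ∫⁻ ω, g ω ∂sampleLaw
      = ∫⁻ ω, ENNReal.ofReal (wD / 4 * b ^ 2) * g ω ∂sampleLaw :=
        (lintegral_const_mul'' _ hg).symm
    _ ≤ ∫⁻ ω, (g ω * E ω + ENNReal.ofReal c * g ω + (R1 ε ω + R2 ε ω + R3 ε ω + R4 ε ω))
        ∂sampleLaw := lintegral_mono_ae hpt
    _ = ∫⁻ ω, g ω * E ω ∂sampleLaw + ENNReal.ofReal c * ∫⁻ ω, g ω ∂sampleLaw +
        ∫⁻ ω, (R1 ε ω + R2 ε ω + R3 ε ω + R4 ε ω) ∂sampleLaw := by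
        rw [lintegral_add_right' _ hRm, lintegral_add_right' _ (hg.const_mul _),
          lintegral_const_mul'' _ hg]
    _ ≤ _ := by
        gcongr
        refine le_trans (le_of_eq ?_) q5
        rw [lintegral_add_right' _ (m4 ε), lintegral_add_right' _ (m3 ε),
          lintegral_add_right' _ (m2 ε)]

end Crest.Agent.R143.HBudx136
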