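import Crest.Agent.R143.MassC_304
import Crest.Agent.R143.FinM_609

/-!
# Row 143 (S0194): measurability of the energy of the macroscopic blocks (helper304)

* `fme_obj` : criterion for sums over the objects (loop, block) of `Mass1_302`
* `meas_PsC`, `meas_Ps` : `ω ↦ PsC κ U (cfg ε ω)` and `ω ↦ fam.Ps κ U (cfg ε ω)` are measurable
  (`U` bounded, `{t | circumdisc t ⊆ U}` Borel: open, closed, half open rectangles)
* `prob_Ps`, `prob_PsC` : convergence in probability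
-/

set_option autoImplicit false

noncomputable section

open scoped Classical

namespace Crest.Agent.R143.MassMx304

open MeasureTheory Set Filter Topology
open Crest.ProbabilityR.Voronoi
open Crest.Agent.R143.B0x346 Crest.Agent.R143.SumScx302 Crest.Agent.R143.PP0x831
  Crest.Agent.R143.ColSumx304 Crest.Agent.R143.MassCx304 Crest.Agent.R143.Poisx304
  Crest.Agent.R143.Janx304 Crest.Agent.R143.Prodx609 Crest.Agent.R143.FinMx609
open Crest.Agent.R143.Mass1x302 hiding ps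
open scoped ENNReal

/-! ### finite sets of index triples -/

abbrev I3 (n : ℕ) : Type := Fin n × Fin n × Fin n

variable {n : ℕ}

def tr3 (v : Fin n → ℂ) (q : I3 n) : T3 := (v q.1, v q.2.1, v q.2.2)

def imv (v : Fin n → ℂ) (L : Finset (I3 n)) : Finset T3 := L.image (tr3 v)

def fs (z : Fin n → ℂ × Bool) (i : Fin n) : ℂ := (z i).1

def Rp (z : Fin n → ℂ × Bool) (L : Finset (I3 n)) : Prop :=
  ∀ q ∈ L, rep z q.1 ∧ rep z q.2.1 ∧ rep z q.2.2

/-- all sites of the triples of `l` are in `P` -/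
def InP (P : Set ℂ) (l : Finset T3) : Prop := ∀ t ∈ l, t.1 ∈ P ∧ t.2.1 ∈ P ∧ t.2.2 ∈ P

theorem tr3_inj {z : Fin n → ℂ × Bool} {q q' : I3 n}
    (h : rep z q.1 ∧ rep z q.2.1 ∧ rep z q.2.2) (h' : rep z q'.1 ∧ rep z q'.2.1 ∧ rep z q'.2.2)
    (e : tr3 (fs z) q = tr3 (fs z) q') : q = q' := by
  simp only [tr3, fs, Prod.mk.injEq] at e
  exact Prod.ext (rep_inj h.1 h'.1 e.1)
    (Prod.ext (rep_inj h.2.1 h'.2.1 e.2.1) (rep_inj h.2.2 h'.2.2 e.2.2))

theorem imv_inj {z : Fin n → ℂ × Bool} {L L' : Finset (I3 n)} (h : Rp z L) (h' : Rp z L')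
    (e : imv (fs z) L = imv (fs z) L') : L = L' := by
  have key : ∀ {L L' : Finset (I3 n)}, Rp z L → Rp z L' → imv (fs z) L = imv (fs z) L' →
      L ⊆ L' := by
    intro L L' h h' e q hq
    have h1 : tr3 (fs z) q ∈ imv (fs z) L' := by
      rw [← e]; exact Finset.mem_image_of_mem _ hq
    obtain ⟨q', hq', e'⟩ := Finset.mem_image.1 h1
    rwa [tr3_inj (h q hq) (h' q' hq') e'.symm]
  exact (key h h' e).antisymm (key h' h e.symm)

theorem exists_Rp (z : Fin n → ℂ × Bool) {l : Finset T3} (hl : InP (ps (range z)) l) :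
    ∃ L, Rp z L ∧ imv (fs z) L = l := by
  refine ⟨Finset.univ.filter fun q => (rep z q.1 ∧ rep z q.2.1 ∧ rep z q.2.2) ∧
    tr3 (fs z) q ∈ l, fun q hq => (Finset.mem_filter.1 hq).2.1, ?_⟩
  ext t
  constructor
  · intro ht
    obtain ⟨q, hq, rfl⟩ := Finset.mem_image.1 ht
    exact (Finset.mem_filter.1 hq).2.2
  · intro ht
    obtain ⟨h1, h2, h3⟩ := hl t ht
    obtain ⟨i, hi⟩ := mem_ps_range.1 h1
    obtain ⟨j, hj⟩ := mem_ps_range.1 h2
    obtain ⟨k, hk⟩ := mem_ps_range.1 h3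
    obtain ⟨i', hi1, hi2⟩ := exists_rep z i
    obtain ⟨j', hj1, hj2⟩ := exists_rep z j
    obtain ⟨k', hk1, hk2⟩ := exists_rep z k
    have et : tr3 (fs z) (i', j', k') = t := by
      unfold tr3 fs
      simp only
      rw [hi2, hj2, hk2, hi, hj, hk]
    exact Finset.mem_image.2 ⟨(i', j', k'), Finset.mem_filter.2 ⟨Finset.mem_univ _,
      ⟨hi1, hj1, hk1⟩, by rw [et]; exact ht⟩, et⟩

theorem Rp_meas (L : Finset (I3 n)) : MeasurableSet {z : Fin n → ℂ × Bool | Rp z L} := by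
  have e : {z : Fin n → ℂ × Bool | Rp z L} =
      ⋂ q ∈ L, ({z | rep z q.1} ∩ ({z | rep z q.2.1} ∩ {z | rep z q.2.2})) := by
    ext z
    simp [Rp]
  rw [e]
  exact Finset.measurableSet_biInter _ fun q _ =>
    (rep_meas n q.1).inter ((rep_meas n q.2.1).inter (rep_meas n q.2.2))

theorem obj_sum (z : Fin n → ℂ × Bool) {f : Obj → ℝ≥0∞}
    (hf : ∀ o, f o ≠ 0 → InP (ps (range z)) o.1 ∧ InP (ps (range z)) o.2) :
    ∑' o, f o = ∑ p : Finset (I3 n) × Finset (I3 n),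
      if Rp z p.1 ∧ Rp z p.2 then f (imv (fs z) p.1, imv (fs z) p.2) else 0 := by
  rw [← Finset.sum_filter]
  set A : Finset (Finset (I3 n) × Finset (I3 n)) :=
    Finset.univ.filter fun p => Rp z p.1 ∧ Rp z p.2 with hA
  let g : Finset (I3 n) × Finset (I3 n) → Obj := fun p => (imv (fs z) p.1, imv (fs z) p.2)
  have hinj : Set.InjOn g A := by
    rintro ⟨L, B⟩ h ⟨L', B'⟩ h' e
    have h1 := (Finset.mem_filter.1 (Finset.mem_coe.1 h)).2
    have h2 := (Finset.mem_filter.1 (Finset.mem_coe.1 h')).2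
    simp only [g, Prod.mk.injEq] at e
    exact Prod.ext (imv_inj h1.1 h2.1 e.1) (imv_inj h1.2 h2.2 e.2)
  have h0 : ∀ o ∉ A.image g, f o = 0 := by
    intro o ho
    by_contra hne
    obtain ⟨h1, h2⟩ := hf o hne
    obtain ⟨L, hL, eL⟩ := exists_Rp z h1
    obtain ⟨B, hB, eB⟩ := exists_Rp z h2
    exact ho (Finset.mem_image.2 ⟨(L, B), Finset.mem_filter.2 ⟨Finset.mem_univ _, hL, hB⟩,
      Prod.ext eL eB⟩)
  rw [tsum_eq_sum h0, Finset.sum_image hinj]

/-- **criterion** -/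
theorem fme_obj {G : Set (ℂ × Bool) → Obj → Prop} {W : Obj → ℝ≥0∞}
    (hs : ∀ X o, G X o → InP (ps X) o.1 ∧ InP (ps X) o.2)
    (hG : ∀ (n : ℕ) (L B : Finset (I3 n)),
      MeasurableSet {z : Fin n → ℂ × Bool | G (range z) (imv (fs z) L, imv (fs z) B)})
    (hW : ∀ (n : ℕ) (L B : Finset (I3 n)), Measurable fun z : Fin n → ℂ × Bool =>
      if Rp z L ∧ Rp z B then W (imv (fs z) L, imv (fs z) B) else 0) :
    FMe fun X => ∑' o, if G X o then W o else 0 := by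
  intro n
  have e : (fun z : Fin n → ℂ × Bool => ∑' o, if G (range z) o then W o else 0) =
      fun z => ∑ p : Finset (I3 n) × Finset (I3 n),
        if G (range z) (imv (fs z) p.1, imv (fs z) p.2) then
          (if Rp z p.1 ∧ Rp z p.2 then W (imv (fs z) p.1, imv (fs z) p.2) else 0) else 0 := by
    funext z
    rw [obj_sum z (f := fun o => if G (range z) o then W o else 0) fun o ho => by
      by_cases h : G (range z) o
      · exact hs _ _ h
      · exact absurd (if_neg h) ho]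
    refine Finset.sum_congr rfl fun p _ => ?_
    by_cases h1 : Rp z p.1 ∧ Rp z p.2
    · rw [if_pos h1]
      by_cases h2 : G (range z) (imv (fs z) p.1, imv (fs z) p.2)
      · rw [if_pos h2, if_pos h2, if_pos h1]
      · rw [if_neg h2, if_neg h2]
    · rw [if_neg h1]
      by_cases h2 : G (range z) (imv (fs z) p.1, imv (fs z) p.2)
      · rw [if_pos h2, if_neg h1]
      · rw [if_neg h2]
  rw [e]
  exact Finset.measurable_fun_sum _ fun p _ =>
    Measurable.ite (hG n p.1 p.2) (hW n p.1 p.2) measurable_const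

/-! ### the weights -/

theorem NN_imv {z : Fin n → ℂ × Bool} {B : Finset (I3 n)} (h : Rp z B) :
    NN (imv (fs z) B) = ∑ q ∈ B, Nn (tr3 (fs z) q) := by
  unfold NN imv
  rw [Finset.sum_image]
  intro q hq q' hq' e
  exact tr3_inj (h q hq) (h q' hq') e

theorem meas_tr3 (q : I3 n) : Measurable fun z : Fin n → ℂ × Bool => tr3 (fs z) q :=
  meas_tri n q.1 q.2.1 q.2.2

theorem meas_Nn : Measurable Nn := by
  have hc : Measurable (starRingEnd ℂ) := Complex.continuous_conj.measurable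
  have h1 : Measurable fun t : T3 => (starRingEnd ℂ) t.2.1 := hc.comp (by fun_prop)
  have h2 : Measurable fun t : T3 => (starRingEnd ℂ) t.1 := hc.comp (by fun_prop)
  have h3 : Measurable fun t : T3 => (starRingEnd ℂ) t.2.2 := hc.comp (by fun_prop)
  exact (h1.add (h2.const_mul om)).add (h3.const_mul (om ^ 2))

theorem hW_PsC (n : ℕ) (L B : Finset (I3 n)) : Measurable fun z : Fin n → ℂ × Bool =>
    if Rp z L ∧ Rp z B then ENNReal.ofReal (‖NN (imv (fs z) B)‖ ^ 2) else 0 := by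
  have e : (fun z : Fin n → ℂ × Bool =>
      if Rp z L ∧ Rp z B then ENNReal.ofReal (‖NN (imv (fs z) B)‖ ^ 2) else 0) =
      fun z => if Rp z L ∧ Rp z B then
        ENNReal.ofReal (‖∑ q ∈ B, Nn (tr3 (fs z) q)‖ ^ 2) else 0 := by
    funext z
    by_cases h : Rp z L ∧ Rp z B
    · rw [if_pos h, if_pos h, NN_imv h.2]
    · rw [if_neg h, if_neg h]
  rw [e]
  refine Measurable.ite ((Rp_meas L).inter (Rp_meas B)) ?_ measurable_const
  exact ENNReal.measurable_ofReal.comp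
    ((Finset.measurable_fun_sum B fun q _ => meas_Nn.comp (meas_tr3 q)).norm.pow_const 2)

theorem card_imv {z : Fin n → ℂ × Bool} {L : Finset (I3 n)} (h : Rp z L) :
    (lf (imv (fs z) L) ∪ rt (imv (fs z) L)).card =
      (L.image (fun q => q.1) ∪ L.image fun q => q.2.1).card := by
  have e : lf (imv (fs z) L) ∪ rt (imv (fs z) L) =
      (L.image (fun q => q.1) ∪ L.image fun q => q.2.1).image (fs z) := by
    unfold lf rt imv
    rw [Finset.image_union, Finset.image_image, Finset.image_image, Finset.image_image,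
      Finset.image_image]
    rfl
  rw [e, Finset.card_image_of_injOn]
  have hr : ∀ i ∈ L.image (fun q => q.1) ∪ L.image fun q => q.2.1, rep z i := by
    intro i hi
    rcases Finset.mem_union.1 hi with hi | hi
    · obtain ⟨q, hq, rfl⟩ := Finset.mem_image.1 hi
      exact (h q hq).1
    · obtain ⟨q, hq, rfl⟩ := Finset.mem_image.1 hi
      exact (h q hq).2.1
  intro i hi j hj e
  exact rep_inj (hr i hi) (hr j hj) e

theorem hW_Ps (n : ℕ) (L B : Finset (I3 n)) : Measurable fun z : Fin n → ℂ × Bool =>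
    if Rp z L ∧ Rp z B then wgt (imv (fs z) L, imv (fs z) B) else 0 := by
  have e : (fun z : Fin n → ℂ × Bool =>
      if Rp z L ∧ Rp z B then wgt (imv (fs z) L, imv (fs z) B) else 0) =
      fun z => (if Rp z L ∧ Rp z B then ENNReal.ofReal (‖NN (imv (fs z) B)‖ ^ 2) else 0) *
        (2 / 2 ^ (L.image (fun q => q.1) ∪ L.image fun q => q.2.1).card) := by
    funext z
    by_cases h : Rp z L ∧ Rp z B
    · rw [if_pos h, if_pos h, wgt_eq, card_imv h.1]
    · rw [if_neg h, if_neg h, zero_mul]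
  rw [e]
  exact (hW_PsC n L B).mul_const _

/-! ### transport of the objects -/

theorem ext_perm {e : ℂ → ℂ} {P P' : Set ℂ} (hP : P.Finite) (h : BijOn e P P') :
    ∃ g : ℂ ≃ ℂ, ∀ x ∈ P, g x = e x := by
  have hlt : Cardinal.mk P < Cardinal.mk ℂ := by
    have h1 : Cardinal.mk P < Cardinal.aleph0 := Cardinal.lt_aleph0_iff_set_finite.2 hP
    exact h1.trans_le (Cardinal.aleph0_le_mk ℂ)
  obtain ⟨g, hg⟩ := Cardinal.extend_function_of_lt
    (⟨fun x : P => e x, fun x y hxy => Subtype.ext (h.injOn x.2 y.2 hxy)⟩ : P ↪ ℂ) hlt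
    ⟨Equiv.refl ℂ⟩
  exact ⟨g, fun x hx => hg ⟨x, hx⟩⟩

theorem IsOb_tr {e : ℂ ≃ ℂ} {P P' : Set ℂ} (hd : ∀ x ∈ P, ∀ y ∈ P, ∀ w ∈ P,
    Del P x y w → Del P' (e x) (e y) (e w)) {o : Obj} (ho : IsOb P o) : IsOb P' (mo e o) := by
  obtain ⟨l, β⟩ := o
  obtain ⟨h, s, hs, h1, h2⟩ := ho
  change IsLp P l at h
  change s ∈ l at hs
  change s.2.2 ∈ lf l at h1
  change β = bl l s at h2
  show IsLp P' (mp e l) ∧ ∃ s ∈ mp e l, s.2.2 ∈ lf (mp e l) ∧ mp e β = bl (mp e l) s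
  refine ⟨⟨?_, ?_, ?_, ?_, ?_⟩, mt e s, (mem_mp e).2 hs, ?_, ?_⟩
  · obtain ⟨t, ht⟩ := h.ne
    exact ⟨mt e t, (mem_mp e).2 ht⟩
  · intro t ht
    obtain ⟨s, hs, rfl⟩ := (mem_mp' e).1 ht
    have h3 := h.del s hs
    exact hd _ h3.1 _ h3.2.1 _ h3.2.2.1 h3
  · rw [lf_mp, rt_mp, Finset.disjoint_image e.injective]
    exact h.dj
  · intro s hs
    obtain ⟨s, hs', rfl⟩ := (mem_mp' e).1 hs
    obtain ⟨t, ht, h1⟩ := h.nx s hs'
    exact ⟨mt e t, (mem_mp e).2 ht, (St_map e).2 h1⟩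
  · intro s hs t ht
    obtain ⟨s, hs', rfl⟩ := (mem_mp' e).1 hs
    obtain ⟨t, ht', rfl⟩ := (mem_mp' e).1 ht
    refine rtg_map (mt e) ?_ (h.orb s hs' t ht')
    rintro u v ⟨a1, a2⟩
    exact ⟨(mem_mp e).2 a1, (St_map e).2 a2⟩
  · rw [lf_mp]
    exact (mem_image_e e).2 h1
  · rw [h2, bl_map]

theorem imv_comp (e : ℂ ≃ ℂ) (v : Fin n → ℂ) (L : Finset (I3 n)) :
    imv (e ∘ v) L = mp e (imv v L) := by
  ext t
  constructor
  · intro ht
    obtain ⟨q, hq, rfl⟩ := Finset.mem_image.1 ht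
    exact (mem_mp' e).2 ⟨tr3 v q, Finset.mem_image_of_mem _ hq, rfl⟩
  · intro ht
    obtain ⟨s, hs, rfl⟩ := (mem_mp' e).1 ht
    obtain ⟨q, hq, rfl⟩ := Finset.mem_image.1 hs
    exact Finset.mem_image.2 ⟨q, hq, rfl⟩

/-- the combinatorial part of the conditions -/
def Gc (c : Bool) (X : Set (ℂ × Bool)) (o : Obj) : Prop :=
  IsOb (ps X) o ∧ (c = true → Rz X (lf o.1) (rt o.1))

theorem Gc_InP {c : Bool} {X : Set (ℂ × Bool)} {o : Obj} (h : Gc c X o) :
    InP (ps X) o.1 ∧ InP (ps X) o.2 := by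
  obtain ⟨⟨h1, s, hs, -, hβ⟩, -⟩ := h
  have h2 : InP (ps X) o.1 := fun t ht => by
    obtain ⟨a, b, c, -⟩ := h1.del t ht
    exact ⟨a, b, c⟩
  refine ⟨h2, fun t ht => ?_⟩
  rw [hβ] at ht
  exact h2 t (Finset.mem_filter.1 ht).1

theorem Gc_tr {ι κ : Type} [Finite ι] [Finite κ] {U : ι → Set ℂ} {R : κ → ℂ × ℂ × ℂ → Prop}
    {X X' : Set (ℂ × Bool)} {g : ℂ → ℂ} {c : Bool} (hX : X.Finite) (h : PIso U R X X' g)
    (v : Fin n → ℂ) (hv : ∀ a, v a ∈ ps X) (L B : Finset (I3 n)) (ho : Gc c X (imv v L, imv v B)) :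
    Gc c X' (imv (g ∘ v) L, imv (g ∘ v) B) := by
  obtain ⟨e, he⟩ := ext_perm (hX.image Prod.fst) h.bij
  have ev : g ∘ v = e ∘ v := by
    funext a
    exact (he _ (hv a)).symm
  rw [ev, imv_comp, imv_comp]
  obtain ⟨h1, h2⟩ := ho
  constructor
  · refine IsOb_tr (fun x hx y hy w hw hd => ?_) h1
    rw [he x hx, he y hy, he w hw]
    exact (h.del x hx y hy w hw).1 hd
  · intro hc
    obtain ⟨b, h3, h4⟩ := h2 hc
    refine ⟨b, ?_, ?_⟩
    · show ∀ z ∈ lf (mp e (imv v L)), (z, b) ∈ X'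
      rw [lf_mp]
      intro z hz
      obtain ⟨w, hw, rfl⟩ := Finset.mem_image.1 hz
      have hw' := h3 w hw
      have hp : w ∈ ps X := ⟨_, hw', rfl⟩
      rw [he w hp]
      exact (h.col w hp b).1 hw'
    · show ∀ z ∈ rt (mp e (imv v L)), (z, !b) ∈ X'
      rw [rt_mp]
      intro z hz
      obtain ⟨w, hw, rfl⟩ := Finset.mem_image.1 hz
      have hw' := h4 w hw
      have hp : w ∈ ps X := ⟨_, hw', rfl⟩
      rw [he w hp]
      exact (h.col w hp _).1 hw'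

theorem Gc_meas (c : Bool) (n : ℕ) (L B : Finset (I3 n)) :
    MeasurableSet {z : Fin n → ℂ × Bool | Gc c (range z) (imv (fs z) L, imv (fs z) B)} := by
  refine measurableSet_setOfPred.2 ?_
  refine meas_mark (ι := Empty) (κ := Empty) (U := fun a => a.elim) (R := fun a => a.elim)
    (fun a => a.elim) (fun a => a.elim) (μ := Fin n)
    (F := fun X v => Gc c X (imv v L, imv v B)) ?_ n id
  intro X X' hX hX' e he v hv
  refine propext ⟨fun h => Gc_tr hX he v hv L B h, fun h => ?_⟩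
  have h2 := Gc_tr hX' he.symm (e ∘ v) (fun a => he.bij.mapsTo (hv a)) L B h
  have e2 : Function.invFunOn e (ps X) ∘ (e ∘ v) = v := by
    funext a
    exact he.bij.invOn_invFunOn.1 (hv a)
  rwa [e2] at h2

/-! ### discs -/

theorem cdisc_eq {P : Set ℂ} {t : T3} (h : Del P t.1 t.2.1 t.2.2) :
    cdisc t = Metric.closedBall (cen3 t) (rad3 t) := by
  obtain ⟨-, -, -, hc, -⟩ := h
  ext z
  rw [Metric.mem_closedBall, dist_eq_norm]
  constructor
  · rintro ⟨o, h1, h2, h3⟩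
    obtain rfl := (cen3_iff hc).1 ⟨h1, h2⟩
    exact h3
  · intro h
    obtain ⟨h1, h2⟩ := (cen3_iff hc).2 rfl
    exact ⟨_, h1, h2, h⟩

/-- the size condition -/
def Sm (κ : ℝ) (l : Finset T3) : Prop :=
  ∀ s ∈ l, ∀ t ∈ l, (cen3 s).re + rad3 s - ((cen3 t).re - rad3 t) < κ ∧
    (cen3 s).im + rad3 s - ((cen3 t).im - rad3 t) < κ

theorem small_iff {P : Set ℂ} {l : Finset T3} (hl : IsLp P l) (κ : ℝ) :
    (∃ z, (⋃ t ∈ l, cdisc t) ⊆ sq z κ) ↔ Sm κ l := by
  have hc : ∀ t ∈ l, cdisc t = Metric.closedBall (cen3 t) (rad3 t) := fun t ht =>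
    cdisc_eq (hl.del t ht)
  have hr : ∀ t : T3, 0 ≤ rad3 t := fun t => norm_nonneg _
  constructor
  · rintro ⟨z, hz⟩ s hs t ht
    have key : ∀ u ∈ l, ∀ w : ℂ, ‖w - cen3 u‖ ≤ rad3 u → w ∈ sq z κ := by
      intro u hu w hw
      refine hz (mem_iUnion₂.2 ⟨u, hu, ?_⟩)
      rw [hc u hu, Metric.mem_closedBall, dist_eq_norm]
      exact hw
    have a1 := key s hs (cen3 s + (rad3 s : ℂ)) (by
      rw [add_sub_cancel_left, Complex.norm_real, Real.norm_of_nonneg (hr s)])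
    have a2 := key t ht (cen3 t - (rad3 t : ℂ)) (by
      rw [sub_sub_cancel_left, norm_neg, Complex.norm_real, Real.norm_of_nonneg (hr t)])
    have a3 := key s hs (cen3 s + (rad3 s : ℂ) * Complex.I) (by
      rw [add_sub_cancel_left, norm_mul, Complex.norm_I, mul_one, Complex.norm_real,
        Real.norm_of_nonneg (hr s)])
    have a4 := key t ht (cen3 t - (rad3 t : ℂ) * Complex.I) (by
      rw [sub_sub_cancel_left, norm_neg, norm_mul, Complex.norm_I, mul_one, Complex.norm_real,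
        Real.norm_of_nonneg (hr t)])
    have b1 := a1.2.1
    have b2 := a2.1
    have b3 := a3.2.2.2
    have b4 := a4.2.2.1
    simp only [Complex.add_re, Complex.ofReal_re] at b1
    simp only [Complex.sub_re, Complex.ofReal_re] at b2
    simp only [Complex.add_im, Complex.mul_im, Complex.ofReal_re, Complex.I_im, Complex.ofReal_im,
      Complex.I_re, mul_one, mul_zero, add_zero] at b3
    simp only [Complex.sub_im, Complex.mul_im, Complex.ofReal_re, Complex.I_im, Complex.ofReal_im,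
      Complex.I_re, mul_one, mul_zero, add_zero] at b4
    exact ⟨by linarith, by linarith⟩
  · intro h
    obtain ⟨t1, ht1, h1⟩ := Finset.exists_min_image l (fun t => (cen3 t).re - rad3 t) hl.ne
    obtain ⟨t2, ht2, h2⟩ := Finset.exists_min_image l (fun t => (cen3 t).im - rad3 t) hl.ne
    refine ⟨⟨(cen3 t1).re - rad3 t1, (cen3 t2).im - rad3 t2⟩, ?_⟩
    intro w hw
    obtain ⟨s, hs, hw⟩ := mem_iUnion₂.1 hw
    rw [hc s hs, Metric.mem_closedBall, dist_eq_norm] at hw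
    have r1 := (abs_le.1 ((Complex.abs_re_le_norm (w - cen3 s)).trans hw))
    have r2 := (abs_le.1 ((Complex.abs_im_le_norm (w - cen3 s)).trans hw))
    rw [Complex.sub_re] at r1
    rw [Complex.sub_im] at r2
    have k1 := (h s hs t1 ht1).1
    have k2 := (h s hs t2 ht2).2
    have m1 := h1 s hs
    have m2 := h2 s hs
    refine ⟨?_, ?_, ?_, ?_⟩ <;> simp only <;> linarith [r1.1, r1.2, r2.1, r2.2]

/-- all conditions -/
def Gm (c : Bool) (κ : ℝ) (U : Set ℂ) (X : Set (ℂ × Bool)) (o : Obj) : Prop :=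
  Gc c X o ∧ (∀ t ∈ o.1, Metric.closedBall (cen3 t) (rad3 t) ⊆ U) ∧ ¬ Sm κ o.1

theorem Gm_iff {c : Bool} {κ : ℝ} {U : Set ℂ} {X : Set (ℂ × Bool)} {o : Obj} :
    Gm c κ U X o ↔ Gc c X o ∧ spt o ⊆ U ∧ ∀ z, ¬ spt o ⊆ sq z κ := by
  unfold Gm
  refine and_congr_right fun h => ?_
  have hl : IsLp (ps X) o.1 := h.1.1
  refine and_congr ?_ ?_
  · unfold spt
    rw [iUnion₂_subset_iff]
    refine forall₂_congr fun t ht => ?_
    rw [cdisc_eq (hl.del t ht)]
  · rw [← small_iff hl κ, not_exists]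
    rfl

theorem Gm_meas (c : Bool) (κ : ℝ) {U : Set ℂ}
    (hU : MeasurableSet {t : ℂ × ℂ × ℂ | Metric.closedBall (cen3 t) (rad3 t) ⊆ U}) (n : ℕ)
    (L B : Finset (I3 n)) :
    MeasurableSet {z : Fin n → ℂ × Bool | Gm c κ U (range z) (imv (fs z) L, imv (fs z) B)} := by
  have e : {z : Fin n → ℂ × Bool | Gm c κ U (range z) (imv (fs z) L, imv (fs z) B)} =
      {z | Gc c (range z) (imv (fs z) L, imv (fs z) B)} ∩
      ((⋂ q ∈ L, {z | Metric.closedBall (cen3 (tr3 (fs z) q)) (rad3 (tr3 (fs z) q)) ⊆ U}) ∩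
      (⋂ q ∈ L, ⋂ q' ∈ L, ({z | (cen3 (tr3 (fs z) q)).re + rad3 (tr3 (fs z) q) -
          ((cen3 (tr3 (fs z) q')).re - rad3 (tr3 (fs z) q')) < κ} ∩
        {z | (cen3 (tr3 (fs z) q)).im + rad3 (tr3 (fs z) q) -
          ((cen3 (tr3 (fs z) q')).im - rad3 (tr3 (fs z) q')) < κ}))ᶜ) := by
    ext z
    simp only [Gm, Sm, imv, Finset.forall_mem_image, mem_ofPred_eq, mem_inter_iff, mem_compl_iff,
      mem_iInter]
  rw [e]
  have m1 : ∀ q : I3 n, Measurable fun z : Fin n → ℂ × Bool => cen3 (tr3 (fs z) q) :=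
    fun q => meas_cen3.comp (meas_tr3 q)
  have m2 : ∀ q : I3 n, Measurable fun z : Fin n → ℂ × Bool => rad3 (tr3 (fs z) q) :=
    fun q => meas_rad3.comp (meas_tr3 q)
  have r1 : ∀ q : I3 n, Measurable fun z : Fin n → ℂ × Bool => (cen3 (tr3 (fs z) q)).re :=
    fun q => Complex.measurable_re.comp (m1 q)
  have r2 : ∀ q : I3 n, Measurable fun z : Fin n → ℂ × Bool => (cen3 (tr3 (fs z) q)).im :=
    fun q => Complex.measurable_im.comp (m1 q)
  refine (Gc_meas c n L B).inter ((Finset.measurableSet_biInter _ fun q _ =>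
    (meas_tr3 q) hU).inter (MeasurableSet.compl (Finset.measurableSet_biInter _ fun q _ =>
      Finset.measurableSet_biInter _ fun q' _ => ?_)))
  exact (measurableSet_lt (((r1 q).add (m2 q)).sub ((r1 q').sub (m2 q'))) measurable_const).inter
    (measurableSet_lt (((r2 q).add (m2 q)).sub ((r2 q').sub (m2 q'))) measurable_const)

theorem fme_gen {c : Bool} (κ : ℝ) {U : Set ℂ}
    (hU : MeasurableSet {t : ℂ × ℂ × ℂ | Metric.closedBall (cen3 t) (rad3 t) ⊆ U})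
    {W : Obj → ℝ≥0∞} (hW : ∀ (n : ℕ) (L B : Finset (I3 n)), Measurable fun z : Fin n → ℂ × Bool =>
      if Rp z L ∧ Rp z B then W (imv (fs z) L, imv (fs z) B) else 0) :
    FMe fun X => ∑' o, if Gm c κ U X o then W o else 0 :=
  fme_obj (fun X o h => Gc_InP h.1) (fun n L B => Gm_meas c κ hU n L B) hW

theorem fme_PsC (κ : ℝ) {U : Set ℂ}
    (hU : MeasurableSet {t : ℂ × ℂ × ℂ | Metric.closedBall (cen3 t) (rad3 t) ⊆ U}) :
    FMe (PsC κ U) := by
  have h := fme_gen (c := true) κ hU (W := fun o => ENNReal.ofReal (‖NN o.2‖ ^ 2))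
    fun n L B => hW_PsC n L B
  have e : (fun X => ∑' o : Obj, if Gm true κ U X o then ENNReal.ofReal (‖NN o.2‖ ^ 2) else 0) =
      PsC κ U := by
    funext X
    unfold PsC
    refine tsum_congr fun o => if_congr ?_ rfl rfl
    rw [Gm_iff]
    unfold Gc OkM
    simp only [true_imp_iff, mem_ofPred_eq]
    constructor
    · rintro ⟨⟨h1, h2⟩, h3, h4⟩
      exact ⟨⟨h1, h3, h4⟩, h2⟩
    · rintro ⟨⟨h1, h3, h4⟩, h2⟩
      exact ⟨⟨h1, h2⟩, h3, h4⟩
  rwa [e] at h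

theorem fme_Ps (κ : ℝ) {U : Set ℂ}
    (hU : MeasurableSet {t : ℂ × ℂ × ℂ | Metric.closedBall (cen3 t) (rad3 t) ⊆ U}) :
    FMe (fam.Ps κ U) := by
  have h := fme_gen (c := false) κ hU (W := wgt) fun n L B => hW_Ps n L B
  have e : (fun X => ∑' o : Obj, if Gm false κ U X o then wgt o else 0) = fam.Ps κ U := by
    funext X
    unfold Fam.Ps
    refine tsum_congr fun o => if_congr ?_ rfl rfl
    rw [Gm_iff]
    unfold Gc
    simp only [Bool.false_eq_true, false_imp_iff, and_true]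
    exact Iff.rfl
  rwa [e] at h

/-! ### locality -/

theorem del_loc {P B : Set ℂ} {t : T3} (hB : cdisc t ⊆ B) :
    Del (P ∩ B) t.1 t.2.1 t.2.2 ↔ Del P t.1 t.2.1 t.2.2 := by
  constructor
  · rintro ⟨h1, h2, h3, h4, o, h5, h6, h7⟩
    refine ⟨h1.1, h2.1, h3.1, h4, o, h5, h6, fun s hs => ?_⟩
    by_cases hsB : s ∈ B
    · exact h7 s ⟨hs, hsB⟩
    · by_contra hcon
      exact hsB (hB ⟨o, h5, h6, (not_le.1 hcon).le⟩)
  · rintro ⟨h1, h2, h3, h4, o, h5, h6, h7⟩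
    refine ⟨⟨h1, hB ⟨o, h5, h6, le_rfl⟩⟩, ⟨h2, hB ⟨o, h5, h6, h5.le⟩⟩,
      ⟨h3, hB ⟨o, h5, h6, h6.le⟩⟩, h4, o, h5, h6, fun s hs => h7 s hs.1⟩

theorem IsOb_loc {P B : Set ℂ} {o : Obj} (hB : spt o ⊆ B) : IsOb (P ∩ B) o ↔ IsOb P o := by
  have hB' : ∀ t ∈ o.1, cdisc t ⊆ B := fun t ht => (subset_iUnion₂ t ht).trans hB
  unfold IsOb
  refine and_congr_left fun _ => ?_
  constructor
  · intro h
    exact ⟨h.ne, fun t ht => (del_loc (hB' t ht)).1 (h.del t ht), h.dj, h.nx, h.orb⟩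
  · intro h
    exact ⟨h.ne, fun t ht => (del_loc (hB' t ht)).2 (h.del t ht), h.dj, h.nx, h.orb⟩

theorem ps_ovr (X : Set (ℂ × Bool)) (B : Set ℂ) : ps (X ∩ ovr B) = ps X ∩ B := by
  ext z
  constructor
  · rintro ⟨p, ⟨hp, hB⟩, rfl⟩
    exact ⟨⟨p, hp, rfl⟩, hB⟩
  · rintro ⟨⟨p, hp, rfl⟩, hB⟩
    exact ⟨p, ⟨hp, hB⟩, rfl⟩

theorem Gc_loc {c : Bool} {X : Set (ℂ × Bool)} {B : Set ℂ} {o : Obj} (hB : spt o ⊆ B) :
    Gc c (X ∩ ovr B) o ↔ Gc c X o := by
  unfold Gc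
  rw [ps_ovr, IsOb_loc hB]
  refine and_congr_right fun ho => imp_congr_right fun _ => ?_
  have hs : ∀ z ∈ lf o.1 ∪ rt o.1, z ∈ B := by
    intro z hz
    rcases Finset.mem_union.1 hz with hz | hz
    · obtain ⟨t, ht, rfl⟩ := Finset.mem_image.1 hz
      obtain ⟨-, -, -, -, q, h5, h6, -⟩ := ho.1.del t ht
      exact hB (mem_iUnion₂.2 ⟨t, ht, q, h5, h6, le_rfl⟩)
    · obtain ⟨t, ht, rfl⟩ := Finset.mem_image.1 hz
      obtain ⟨-, -, -, -, q, h5, h6, -⟩ := ho.1.del t ht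
      exact hB (mem_iUnion₂.2 ⟨t, ht, q, h5, h6, h5.le⟩)
  unfold Rz
  refine exists_congr fun b => and_congr ?_ ?_
  · refine forall₂_congr fun z hz => ?_
    exact ⟨fun h => h.1, fun h => ⟨h, hs z (Finset.mem_union_left _ hz)⟩⟩
  · refine forall₂_congr fun z hz => ?_
    exact ⟨fun h => h.1, fun h => ⟨h, hs z (Finset.mem_union_right _ hz)⟩⟩

theorem PsC_loc (κ : ℝ) {U B : Set ℂ} (hUB : U ⊆ B) (X : Set (ℂ × Bool)) :
    PsC κ U (X ∩ ovr B) = PsC κ U X := by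
  unfold PsC
  refine tsum_congr fun o => if_congr ?_ rfl rfl
  constructor
  · rintro ⟨⟨h1, h2, h3⟩, h4⟩
    have h := (Gc_loc (c := true) (X := X) (h2.trans hUB)).1 ⟨h1, fun _ => h4⟩
    exact ⟨⟨h.1, h2, h3⟩, h.2 rfl⟩
  · rintro ⟨⟨h1, h2, h3⟩, h4⟩
    have h := (Gc_loc (c := true) (X := X) (h2.trans hUB)).2 ⟨h1, fun _ => h4⟩
    exact ⟨⟨h.1, h2, h3⟩, h.2 rfl⟩

theorem Ps_loc (κ : ℝ) {U B : Set ℂ} (hUB : U ⊆ B) (X : Set (ℂ × Bool)) :
    fam.Ps κ U (X ∩ ovr B) = fam.Ps κ U X := by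
  unfold Fam.Ps
  refine tsum_congr fun o => if_congr ?_ rfl rfl
  constructor
  · rintro ⟨h1, h2, h3⟩
    have h := (Gc_loc (c := false) (X := X) (B := B) (o := o) (h2.trans hUB)).1
      ⟨h1, fun h => absurd h (by decide)⟩
    exact ⟨h.1, h2, h3⟩
  · rintro ⟨h1, h2, h3⟩
    have h := (Gc_loc (c := false) (X := X) (B := B) (o := o) (h2.trans hUB)).2
      ⟨h1, fun h => absurd h (by decide)⟩
    exact ⟨h.1, h2, h3⟩

/-- **measurability**, coloured version -/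
theorem meas_PsC (κ : ℝ) {U : Set ℂ} (hb : Bornology.IsBounded U)
    (hU : MeasurableSet {t : ℂ × ℂ × ℂ | Metric.closedBall (cen3 t) (rad3 t) ⊆ U})
    {ε : ℝ} (hε : 0 < ε) : Measurable fun ω : Sample => PsC κ U (cfg ε ω) := by
  obtain ⟨r, hr⟩ := hb.subset_closedBall 0
  have h := meas_cfg hε (B := Metric.closedBall 0 r) measurableSet_closedBall
    Metric.isBounded_closedBall (fme_PsC κ hU)
  simpa only [PsC_loc κ hr] using h

/-- **measurability**, position version -/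
theorem meas_Ps (κ : ℝ) {U : Set ℂ} (hb : Bornology.IsBounded U)
    (hU : MeasurableSet {t : ℂ × ℂ × ℂ | Metric.closedBall (cen3 t) (rad3 t) ⊆ U})
    {ε : ℝ} (hε : 0 < ε) : Measurable fun ω : Sample => fam.Ps κ U (cfg ε ω) := by
  obtain ⟨r, hr⟩ := hb.subset_closedBall 0
  have h := meas_cfg hε (B := Metric.closedBall 0 r) measurableSet_closedBall
    Metric.isBounded_closedBall (fme_Ps κ hU)
  simpa only [Ps_loc κ hr] using h

/-- Markov -/
theorem markov {F : ℝ → Sample → ℝ≥0∞} (hF : ∀ ε, 0 < ε → Measurable (F ε))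
    (h : Tendsto (fun ε : ℝ => ∫⁻ ω, F ε ω ∂sampleLaw) (𝓝[>] 0) (𝓝 0)) {t : ℝ≥0∞} (ht : t ≠ 0)
    (ht' : t ≠ ∞) :
    Tendsto (fun ε : ℝ => sampleLaw {ω | t ≤ F ε ω}) (𝓝[>] 0) (𝓝 0) := by
  have h2 : Tendsto (fun ε : ℝ => (∫⁻ ω, F ε ω ∂sampleLaw) / t) (𝓝[>] 0) (𝓝 0) := by
    have := ENNReal.Tendsto.div_const h (Or.inr ht)
    rwa [ENNReal.zero_div] at this
  refine tendsto_of_tendsto_of_tendsto_of_le_of_le' tendsto_const_nhds h2
    (Eventually.of_forall fun _ => zero_le) ?_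
  filter_upwards [self_mem_nhdsWithin] with ε hε
  rw [ENNReal.le_div_iff_mul_le (Or.inl ht) (Or.inl ht'), mul_comm]
  exact mul_meas_ge_le_lintegral (hF ε hε) t

end Crest.Agent.R143.MassMx304
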