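import Crest.Agent.R143.LLN3_432
import Crest.Agent.R143.MassM_304
import Crest.Agent.R143.HBud_136

/-!
# Row 143 (S0194): law of large numbers, part 4 (helper432): closed blocks and faces

* `nice_fam`, `nice_famF` : the family of the closed blocks and the family of the faces are measurable
  local bounded families
* `lln_fam : LLN fam aD`, `lln_famF : LLN famF wD` (`LLN` of `HBud_136`)
-/

set_option autoImplicit false

noncomputable section

open scoped Classical

namespace Crest.Agent.R143.LLN4x432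

open MeasureTheory Filter Topology ProbabilityTheory
open Crest.ProbabilityR.Voronoi
open Crest.Agent.R143.B0x346 Crest.Agent.R143.SumScx302 Crest.Agent.R143.Mass1x302
  Crest.Agent.R143.PP0x831 Crest.Agent.R143.MassMx304 Crest.Agent.R143.Janx304
  Crest.Agent.R143.Trans2x690 Crest.Agent.R143.Trans3x690 Crest.Agent.R143.LLN2x432
  Crest.Agent.R143.LLN3x432 Crest.Agent.R143.HBudx136
open Crest.Agent.R143.FinMx609 (cen3 rad3 meas_disc_rect fme_sum PIso meas_rad3 meas_cen3)
open scoped ENNReal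

theorem disc_sq (z : ℂ) (L : ℝ) : MeasurableSet {t : ℂ × ℂ × ℂ |
    Metric.closedBall (cen3 t) (rad3 t) ⊆ SumScx302.sq z L} := by
  have h := meas_disc_rect z.re (z.re + L) z.im (z.im + L)
  exact h

theorem Ph_eq_Ps (U : Set ℂ) (X : Set (ℂ × Bool)) : fam.Ph U X = fam.Ps 0 U X := by
  unfold Fam.Ph Fam.Ps
  refine tsum_congr fun o => if_congr ?_ rfl rfl
  constructor
  · rintro ⟨h1, h2⟩
    refine ⟨h1, h2, fun z hz => ?_⟩
    obtain ⟨w, hw⟩ := fam.ne X o h1
    obtain ⟨a1, a2, -⟩ := hz hw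
    linarith
  · rintro ⟨h1, h2, -⟩
    exact ⟨h1, h2⟩

theorem nice_fam : Nice fam where
  fm z L := by
    have h := fme_Ps 0 (disc_sq z L)
    intro n
    simp only [Ph_eq_Ps]
    exact h n
  loc z L := by
    intro X
    simp only [Ph_eq_Ps]
    exact (Ps_loc 0 subset_rfl X).symm
  bd := Mass5x302.a_le

theorem famF_eq (U : Set ℂ) (X : Set (ℂ × Bool)) (hX : X.Finite) : famF.Ph U X =
    ∑ᶠ (t : ℂ × ℂ × ℂ) (_ : Del (ps X) t.1 t.2.1 t.2.2 ∧
      Metric.closedBall (cen3 t) (rad3 t) ⊆ U), ENNReal.ofReal (‖Nn t‖ ^ 2) := by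
  have hp : (ps X).Finite := hX.image _
  have hfin : {t : ℂ × ℂ × ℂ | Del (ps X) t.1 t.2.1 t.2.2 ∧
      Metric.closedBall (cen3 t) (rad3 t) ⊆ U}.Finite := by
    refine (hp.prod (hp.prod hp)).subset ?_
    rintro ⟨a, b, c⟩ ⟨⟨ha, hb, hc, -⟩, -⟩
    exact ⟨ha, hb, hc⟩
  have e1 : (∑ᶠ (t : ℂ × ℂ × ℂ) (_ : Del (ps X) t.1 t.2.1 t.2.2 ∧
      Metric.closedBall (cen3 t) (rad3 t) ⊆ U), ENNReal.ofReal (‖Nn t‖ ^ 2)) =
      ∑ t ∈ hfin.toFinset, ENNReal.ofReal (‖Nn t‖ ^ 2) := by
    rw [← finsum_mem_coe_finset, Set.Finite.coe_toFinset]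
    rfl
  rw [e1]
  unfold Fam.Ph
  rw [tsum_eq_sum (s := hfin.toFinset)]
  · refine Finset.sum_congr rfl fun t ht => ?_
    rw [Set.Finite.mem_toFinset] at ht
    have h2 : t ∈ famF.Ob X ∧ famF.sup t ⊆ U := ⟨ht.1, by
      show cdisc t ⊆ U
      rw [cdisc_eq ht.1]; exact ht.2⟩
    rw [if_pos h2]
    rfl
  · intro t ht
    rw [Set.Finite.mem_toFinset] at ht
    rw [if_neg]
    rintro ⟨h1, h2⟩
    refine ht ⟨h1, ?_⟩
    have h3 : Del (ps X) t.1 t.2.1 t.2.2 := h1
    rw [← cdisc_eq h3]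
    exact h2

theorem nice_famF : Nice famF where
  fm z L := by
    have h := fme_sum (ι := Empty) (κ := Unit) (U := fun a => a.elim)
      (R := fun _ t => Metric.closedBall (cen3 t) (rad3 t) ⊆ SumScx302.sq z L)
      (fun a => a.elim) (fun _ => disc_sq z L)
      (P := fun X t => Del (ps X) t.1 t.2.1 t.2.2 ∧
        Metric.closedBall (cen3 t) (rad3 t) ⊆ SumScx302.sq z L)
      (fun X t ht => ⟨ht.1.1, ht.1.2.1, ht.1.2.2.1⟩)
      (fun X X' _ _ e he x hx y hy w hw ht =>
        ⟨(he.del x hx y hy w hw).1 ht.1, (he.rel x hx y hy w hw ()).1 ht.2⟩)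
      (f := fun t => ENNReal.ofReal (‖Nn t‖ ^ 2))
      ((meas_Nn.norm.pow_const 2).ennreal_ofReal)
    intro n
    have e : (fun q : Fin n → ℂ × Bool => famF.Ph (SumScx302.sq z L) (Set.range q)) =
        fun q => ∑ᶠ (t : ℂ × ℂ × ℂ) (_ : Del (ps (Set.range q)) t.1 t.2.1 t.2.2 ∧
          Metric.closedBall (cen3 t) (rad3 t) ⊆ SumScx302.sq z L),
          ENNReal.ofReal (‖Nn t‖ ^ 2) := funext fun q => famF_eq _ _ (Set.finite_range q)
    rw [e]
    exact h n
  loc z L := by
    intro X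
    show famF.Ph (SumScx302.sq z L) X = famF.Ph (SumScx302.sq z L) (X ∩ ovr (SumScx302.sq z L))
    unfold Fam.Ph
    refine tsum_congr fun t => if_congr ?_ rfl rfl
    show (Del (ps X) t.1 t.2.1 t.2.2 ∧ cdisc t ⊆ SumScx302.sq z L) ↔
      (Del (ps (X ∩ ovr (SumScx302.sq z L))) t.1 t.2.1 t.2.2 ∧ cdisc t ⊆ SumScx302.sq z L)
    have e : ps (X ∩ ovr (SumScx302.sq z L)) = ps X ∩ SumScx302.sq z L := ps_ovr X _
    rw [e]
    exact and_congr_left fun h => (del_loc h).symm
  bd := famF_a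

/-- the form of `HBud_136` -/
theorem lln_of {O : Type} {F : Fam O} {α : ℝ} (N : Nice F) (h0 : 0 ≤ α) (hα : Dens F α) :
    LLN F α := by
  intro z s hs
  set c : ℝ≥0∞ := ENNReal.ofReal (α * s ^ 2) with hc
  refine ⟨fun ε ω => if 0 < ε then (F.Ph (SumScx302.sq z s) (cfg ε ω) - c) +
    (c - F.Ph (SumScx302.sq z s) (cfg ε ω)) else 0, ?_, ?_, ?_⟩
  · intro ε
    by_cases hε : 0 < ε
    · simp only [if_pos hε]
      exact (((N.meas hε z s).sub measurable_const).add
        (measurable_const.sub (N.meas hε z s))).aemeasurable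
    · simp only [if_neg hε]
      exact aemeasurable_const
  · filter_upwards [self_mem_nhdsWithin] with ε hε
    have hε' : (0 : ℝ) < ε := hε
    refine Eventually.of_forall fun ω => ?_
    rw [if_pos hε']
    constructor
    · exact le_add_tsub.trans (add_le_add le_rfl le_self_add)
    · exact le_add_tsub.trans (add_le_add le_rfl le_add_self)
  · have h1 := (up_lim N h0 hα z hs).add (low_lim N h0 hα z hs)
    rw [add_zero] at h1
    refine h1.congr' ?_
    filter_upwards [self_mem_nhdsWithin] with ε hε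
    have hε' : (0 : ℝ) < ε := hε
    simp only [if_pos hε']
    exact (lintegral_add_left ((N.meas hε' z s).sub measurable_const) _).symm

theorem lln_fam : LLN fam aD := lln_of nice_fam aD_nonneg dens_a

theorem lln_famF : LLN famF wD := lln_of nice_famF wD_nonneg dens_w

end Crest.Agent.R143.LLN4x432
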