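import Crest.Agent.R143.Spine8_422

/-!
# Row 143 (S0194): final wiring (helper894)

`body` : the whole row from the remaining leaf; `literal_of` : the literal statement of S0194
from the remaining leaf. The leaf is only asked on domains with null frontier of the outside
(`AdP`, 422).
-/

set_option autoImplicit false

noncomputable section

namespace Crest.Agent.R143.Finx894

open Crest.ProbabilityR.Voronoi
open Crest Crest.ProbabilityR Crest.ProbabilityR.Voronoi
open Crest.Agent.R143.B0Dx346 Crest.Agent.R143.Spinex422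

/-- remaining leaf of row 143: weak holomorphy or antiholomorphy of the annealed observable -/
abbrev Leaf894 : Prop := LMinW GeoSeqPx422.AdP

theorem body (L : Leaf894) : Body := Spine8x422.body_p L

/-- the leaf on all admissible domains is more than enough -/
theorem leaf_of_ad (L : LMinW Dom.Ad) : Leaf894 := Spine8x422.lminW_mono (fun _ _ h => h.1) L

/-- the literal statement of S0194 -/
theorem literal_of (L : Leaf894)
    (D : Set ℂ) (hD : IsOpen D) (hDb : Bornology.IsBounded D) (hDc : IsConnected D)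
    (γ : ℝ → ℂ) (hγ : Continuous γ) (hγp : Function.Periodic γ 1) (hγi : Set.InjOn γ (Set.Ico 0 1))
    (hγD : Set.range γ = frontier D)
    (φ : ℂ → ℂ) (hφ : DifferentiableOn ℂ φ D) (hφi : Set.InjOn φ D)
    (hφD : φ '' D = {z : ℂ | 0 < z.im})
    (a b c d : ℂ) (ha : a ∈ frontier D) (hb : b ∈ frontier D) (hc : c ∈ frontier D)
    (hd : d ∈ frontier D)
    (hφc : ContinuousOn φ (closure D \ {d}))
    (hφd : Filter.Tendsto (fun z => ‖φ z‖) (nhdsWithin d D) Filter.atTop)
    (x : ℝ) (hx0 : 0 < x) (hx1 : x < 1)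
    (hφa : φ a = 0) (hφb : φ b = x) (hφc1 : φ c = 1) :
    Filter.Tendsto
      (fun ε : ℝ => sampleLaw (crossingEvent ε D
        {z | z ∈ frontier D ∧ z ≠ d ∧ (φ z).im = 0 ∧ 0 ≤ (φ z).re ∧ (φ z).re ≤ x}
        ({z | z ∈ frontier D ∧ z ≠ d ∧ (φ z).im = 0 ∧ 1 ≤ (φ z).re} ∪ {d})))
      (nhdsWithin 0 (Set.Ioi 0))
      (nhds (ENNReal.ofReal (crossingFormula x))) :=
  literal (body L) D hD hDb hDc γ hγ hγp hγi hγD φ hφ hφi hφD a b c d ha hb hc hd hφc hφd
    x hx0 hx1 hφa hφb hφc1

end Crest.Agent.R143.Finx894
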