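import Crest.Agent.R143.Trans5_690
import Crest.Agent.R143.Final_894

/-!
# Row 143 (S0194), energy transfer, part 6 (helper690): the row from `Sat`

`leaf_of_sat`, `body_of_sat`, `sat_of_seq` : it is enough to compare the two mean energies of ONE
square, up to `δ`, for arbitrarily small meshes, for every `δ > 0`.
-/

set_option autoImplicit false

noncomputable section

namespace Crest.Agent.R143.Trans6x690

open MeasureTheory Filter Topology
open Crest.ProbabilityR.Voronoi
open Crest.Agent.R143.B0Dx346 Crest.Agent.R143.SumScx302 Crest.Agent.R143.Mass1x302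
open Crest.Agent.R143.PP0x831 (cfg)
open Crest.Agent.R143.Spinex422 Crest.Agent.R143.GeoSeqPx422 Crest.Agent.R143.Finx894
open Crest.Agent.R143.Trans2x690 Crest.Agent.R143.Trans3x690 Crest.Agent.R143.Trans5x690
open scoped ENNReal

/-- **the remaining leaf of the row from the saturation** -/
theorem leaf_of_sat (hS : Sat) : Leaf894 := lmin_of_sat hS fun _ _ h => h.1.w

/-- **the row from the saturation** -/
theorem body_of_sat (hS : Sat) : Body := body (leaf_of_sat hS)

/-- one square and arbitrarily small meshes are enough -/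
theorem sat_of_seq {z : ℂ} {s : ℝ} (hs : 0 < s) (h : ∀ δ : ℝ, 0 < δ → ∃ᶠ ε : ℝ in 𝓝[>] 0,
    ∫⁻ ω, Wf (points ε ω) (sq z s) ∂sampleLaw ≤
      4 * ∫⁻ ω, fam.Ph (sq z s) (cfg ε ω) ∂sampleLaw + ENNReal.ofReal δ) : Sat := by
  have hw : Tendsto (fun ε : ℝ => ∫⁻ ω, Wf (points ε ω) (sq z s) ∂sampleLaw) (𝓝[>] 0)
      (𝓝 (ENNReal.ofReal (wD * s ^ 2))) := by
    refine (dens_w z s hs).congr fun ε => ?_
    unfold Ag
    refine lintegral_congr fun ω => ?_
    rw [famF_Ph, Mass5x302.ps_cfg]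
  have ha : Tendsto (fun ε : ℝ => 4 * ∫⁻ ω, fam.Ph (sq z s) (cfg ε ω) ∂sampleLaw) (𝓝[>] 0)
      (𝓝 (4 * ENNReal.ofReal (aD * s ^ 2))) :=
    ENNReal.Tendsto.const_mul (dens_a z s hs) (Or.inr (by norm_num))
  have key : ∀ δ : ℝ, 0 < δ → wD * s ^ 2 ≤ 4 * (aD * s ^ 2) + δ := by
    intro δ hδ
    by_contra hcon
    push Not at hcon
    have ha0 := aD_nonneg
    have h1 : 4 * ENNReal.ofReal (aD * s ^ 2) + ENNReal.ofReal δ <
        ENNReal.ofReal (wD * s ^ 2) := by
      have e4 : (4 : ℝ≥0∞) = ENNReal.ofReal 4 := by norm_num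
      rw [e4, ← ENNReal.ofReal_mul (by norm_num), ← ENNReal.ofReal_add (by positivity) hδ.le]
      exact (ENNReal.ofReal_lt_ofReal_iff (by nlinarith [mul_nonneg ha0 (sq_nonneg s)])).2 hcon
    have h2 := (ha.add_const (ENNReal.ofReal δ)).eventually_lt hw h1
    obtain ⟨ε, h3, h4⟩ := ((h δ hδ).and_eventually h2).exists
    exact absurd h4 (not_lt.2 h3)
  have h5 : wD * s ^ 2 ≤ 4 * (aD * s ^ 2) := le_of_forall_pos_le_add key
  have h6 : (0 : ℝ) < s ^ 2 := by positivity
  unfold Sat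
  nlinarith

end Crest.Agent.R143.Trans6x690
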