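import Crest.Agent.R143.Asm_414
import Crest.Agent.R143.LLN4_432
import Crest.Agent.R143.Trans6_690

/-!
# Row 143 (S0194), block H, final assembly (helper414): `Inp ⟹ Sat ⟹ Body`
-/

set_option autoImplicit false

noncomputable section

namespace Crest.Agent.R143.Asm2x414

open Crest.Agent.R143.Asmx414 Crest.Agent.R143.Trans5x690
open Crest.Agent.R143.Spinex422 (Body)

theorem sat {z : ℂ} {b : ℝ} (hb : 0 < b) (H : Inp z b) : Sat :=
  sat_of_inp LLN4x432.lln_famF LLN4x432.lln_fam hb H

theorem body {z : ℂ} {b : ℝ} (hb : 0 < b) (H : Inp z b) : Body :=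
  Trans6x690.body_of_sat (sat hb H)

end Crest.Agent.R143.Asm2x414
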