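import Crest.Agent.R143.Frame4_395

/-!
# Row 143 (S0194): the tight frame in block form (helper395, after helper493)

* `blk M x g` : the block of the gap `g`; `blks M x` : the blocks of the even configuration `x`
* `i1` : **polarised white noise identity** for spin functions
  `∑ x, ∑ β, (∑ g ∈ β, a g) * (∑ g ∈ β, b g) = ∑ g, a g * b g * nG g`
* `i1_norm` : `∑ x, ∑ β, ‖∑ g ∈ β, a g‖² = ∑ g, ‖a g‖² * nG g`
* `cfg M χ` : configuration of a colouring; `sum_cfg` : averages over colourings = averages over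
  even configurations
* `nG_eq` : `4 * nG g = nE` if the three cells of the face are different
-/

set_option autoImplicit false

noncomputable section

open scoped Classical

namespace Crest.Agent.R143.Frame8x395

open Crest.Agent.R143.Frame1x395 Crest.Agent.R143.Frame2x395 Crest.Agent.R143.Frame3x395
  Crest.Agent.R143.Frame4x395

variable {D C : Type} [Fintype D] {M : CMap D C} {x : D → ZMod 2}

/-- even configurations -/
def ev (M : CMap D C) : Finset (D → ZMod 2) := Finset.univ.filter (IsC M ∅)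

theorem mem_ev : x ∈ ev M ↔ IsC M ∅ x := by
  unfold ev
  simp

/-- the gaps -/
def gaps (M : CMap D C) (x : D → ZMod 2) : Finset D := Finset.univ.filter (Gp M x)

theorem mem_gaps {g : D} : g ∈ gaps M x ↔ Gp M x g := by
  unfold gaps
  simp

/-- the block of a gap -/
def blk (M : CMap D C) (x : D → ZMod 2) (g : D) : Finset D := (gaps M x).filter (Rel M x g)

theorem mem_blk {g h : D} : h ∈ blk M x g ↔ Gp M x h ∧ Rel M x g h := by
  unfold blk
  rw [Finset.mem_filter, mem_gaps]

/-- the blocks -/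
def blks (M : CMap D C) (x : D → ZMod 2) : Finset (Finset D) := (gaps M x).image (blk M x)

theorem rel_refl (g : D) : Rel M x g g := fun _ => Or.inl rfl

theorem rel_symm {g h : D} (H : Rel M x g h) : Rel M x h g := fun c => (H c).symm

theorem rel_trans (hx : IsC M ∅ x) {g h k : D} (hg : Gp M x g) (hh : Gp M x h) (hk : Gp M x k)
    (H : Rel M x g h) (K : Rel M x h k) : Rel M x g k := fun c => (H c).trans hx hg hh hk (K c)

theorem blk_eq (hx : IsC M ∅ x) {g h : D} (hg : Gp M x g) (hh : h ∈ blk M x g) :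
    blk M x h = blk M x g := by
  obtain ⟨h1, h2⟩ := mem_blk.1 hh
  ext k
  rw [mem_blk, mem_blk]
  constructor
  · rintro ⟨h3, h4⟩
    exact ⟨h3, rel_trans hx hg h1 h3 h2 h4⟩
  · rintro ⟨h3, h4⟩
    exact ⟨h3, rel_trans hx h1 hg h3 (rel_symm h2) h4⟩

theorem self_mem {g : D} (hg : Gp M x g) : g ∈ blk M x g := mem_blk.2 ⟨hg, rel_refl g⟩

/-- every gap is in exactly one block -/
theorem mem_blks (hx : IsC M ∅ x) {β : Finset D} (hβ : β ∈ blks M x) {g : D} (hg : g ∈ β) :
    Gp M x g ∧ β = blk M x g := by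
  obtain ⟨h, hh, rfl⟩ := Finset.mem_image.1 hβ
  rw [mem_gaps] at hh
  exact ⟨(mem_blk.1 hg).1, (blk_eq hx hh hg).symm⟩

/-- sums over the blocks -/
theorem sum_blks (hx : IsC M ∅ x) {A : Type} [AddCommMonoid A] (F : D → Finset D → A) :
    ∑ β ∈ blks M x, ∑ g ∈ β, F g β = ∑ g ∈ gaps M x, F g (blk M x g) := by
  rw [← Finset.sum_fiberwise_of_maps_to (s := gaps M x) (t := blks M x) (g := blk M x)
    (fun g hg => Finset.mem_image_of_mem _ hg)]
  refine Finset.sum_congr rfl fun β hβ => ?_
  have e : (gaps M x).filter (fun g => blk M x g = β) = β := by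
    ext g
    rw [Finset.mem_filter, mem_gaps]
    constructor
    · rintro ⟨h1, h2⟩
      rw [← h2]; exact self_mem h1
    · intro hg
      obtain ⟨h1, h2⟩ := mem_blks hx hβ hg
      exact ⟨h1, h2.symm⟩
  conv_lhs => rw [← e]
  refine Finset.sum_congr rfl fun g hg => ?_
  rw [(Finset.mem_filter.1 hg).2, e]

/-- number of even configurations with the gaps `g`, `h` in one block -/
theorem sum_rel (g h : D) {R : Type} [Semiring R] :
    (∑ x ∈ ev M, if Gp M x g ∧ Gp M x h ∧ Rel M x g h then (1 : R) else 0) = (nP M g h : R) := by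
  unfold nP
  rw [Finset.sum_boole]
  congr 2
  ext x
  simp only [Finset.mem_filter, Finset.mem_univ, true_and, mem_ev]
  constructor
  · rintro ⟨h1, h2, h3, h4⟩
    exact ⟨h1, h2, h3, (lab_iff h1 h2 h3).2 h4⟩
  · rintro ⟨h1, h2, h3, h4⟩
    exact ⟨h1, h2, h3, (lab_iff h1 h2 h3).1 h4⟩

/-- block sums in terms of pairs -/
theorem pairs (a b : D → ℂ) :
    ∑ x ∈ ev M, ∑ β ∈ blks M x, (∑ g ∈ β, a g) * (∑ h ∈ β, b h) =
      ∑ g, ∑ h, a g * b h * (nP M g h : ℂ) := by
  have e1 : ∀ x ∈ ev M, ∑ β ∈ blks M x, (∑ g ∈ β, a g) * (∑ h ∈ β, b h) =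
      ∑ g, ∑ h, a g * b h * (if Gp M x g ∧ Gp M x h ∧ Rel M x g h then 1 else 0) := by
    intro x hx
    rw [mem_ev] at hx
    calc ∑ β ∈ blks M x, (∑ g ∈ β, a g) * (∑ h ∈ β, b h)
        = ∑ β ∈ blks M x, ∑ g ∈ β, a g * ∑ h ∈ β, b h := by
          refine Finset.sum_congr rfl fun β _ => ?_
          rw [Finset.sum_mul]
      _ = ∑ g ∈ gaps M x, a g * ∑ h ∈ blk M x g, b h :=
          sum_blks hx (F := fun g β => a g * ∑ h ∈ β, b h)
      _ = ∑ g, if Gp M x g then a g * ∑ h ∈ blk M x g, b h else 0 := by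
          unfold gaps
          rw [Finset.sum_filter]
      _ = _ := by
          refine Finset.sum_congr rfl fun g _ => ?_
          by_cases hg : Gp M x g
          · rw [if_pos hg]
            unfold blk gaps
            rw [Finset.filter_filter, Finset.sum_filter, Finset.mul_sum]
            refine Finset.sum_congr rfl fun h _ => ?_
            by_cases hh : Gp M x h ∧ Rel M x g h
            · rw [if_pos hh, if_pos ⟨hg, hh⟩, mul_one]
            · rw [if_neg hh, if_neg fun h' => hh h'.2, mul_zero, mul_zero]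
          · rw [if_neg hg]
            symm
            refine Finset.sum_eq_zero fun h _ => ?_
            rw [if_neg fun h' => hg h'.1, mul_zero]
  rw [Finset.sum_congr rfl e1, Finset.sum_comm]
  refine Finset.sum_congr rfl fun g _ => ?_
  rw [Finset.sum_comm]
  refine Finset.sum_congr rfl fun h _ => ?_
  rw [← Finset.mul_sum, sum_rel]

/-- spin functions -/
def Spin (M : CMap D C) (w : ℂ) (a : D → ℂ) : Prop := ∀ d, a (M.rho d) = w * a d

/-- `rho` as a permutation -/
def rhoE (M : CMap D C) : D ≃ D where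
  toFun := M.rho
  invFun := fun d => M.rho (M.rho d)
  left_inv := M.rho3
  right_inv := M.rho3

/-- **polarised white noise identity** -/
theorem i1 {w : ℂ} (w3 : w ^ 3 = 1) (w1 : w ≠ 1) {a b : D → ℂ} (ha : Spin M w a)
    (hb : Spin M (w ^ 2) b) :
    ∑ x ∈ ev M, ∑ β ∈ blks M x, (∑ g ∈ β, a g) * (∑ h ∈ β, b h) =
      ∑ g, a g * b g * (nG M g : ℂ) := by
  rw [pairs]
  set T : ℂ := ∑ g, ∑ h, if h ∈ Fa M g then 0 else a g * b h * (nT M g h : ℂ) with hT
  have hT0 : T = 0 := by
    have e : T = w ^ 2 * T := by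
      calc T = ∑ g, ∑ h, if M.rho (M.rho h) ∈ Fa M (M.rho g) then 0 else
            a (M.rho g) * b (M.rho (M.rho h)) * (nT M (M.rho g) (M.rho (M.rho h)) : ℂ) := by
            rw [hT]
            symm
            refine Fintype.sum_equiv (rhoE M) _ _ fun g => ?_
            exact Fintype.sum_equiv ((rhoE M).trans (rhoE M)) _ _ fun h => rfl
        _ = ∑ g, ∑ h, w ^ 2 * (if h ∈ Fa M g then 0 else a g * b h * (nT M g h : ℂ)) := by
            refine Finset.sum_congr rfl fun g _ => Finset.sum_congr rfl fun h _ => ?_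
            have e1 : M.rho (M.rho h) ∈ Fa M (M.rho g) ↔ h ∈ Fa M g := by
              rw [fa_rot, fa_inv M g, fa_inv M g]
            by_cases hh : h ∈ Fa M g
            · rw [if_pos hh, if_pos (e1.2 hh), mul_zero]
            · rw [if_neg hh, if_neg fun h' => hh (e1.1 h'), nT_rot, ha, hb, hb]
              linear_combination (a g * b h * (nT M g h : ℂ) * w ^ 2) * w3
        _ = w ^ 2 * T := by
            rw [hT, Finset.mul_sum]
            refine Finset.sum_congr rfl fun g _ => ?_
            rw [Finset.mul_sum]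
    have h2 : w ^ 2 ≠ 1 := by
      intro h2
      apply w1
      calc w = w ^ 3 * w := by rw [w3, one_mul]
        _ = (w ^ 2) * (w ^ 2) := by ring
        _ = 1 := by rw [h2, one_mul]
    have h3 : (1 - w ^ 2) * T = 0 := by linear_combination e
    rcases mul_eq_zero.1 h3 with h4 | h4
    · exact absurd (sub_eq_zero.1 h4).symm h2
    · exact h4
  have e2 : ∀ g h : D, a g * b h * (nP M g h : ℂ) =
      (if h ∈ Fa M g then 0 else a g * b h * (nT M g h : ℂ)) +
      (if h = g then a g * b g * (nG M g : ℂ) else 0) := by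
    intro g h
    by_cases h1 : h = g
    · subst h1
      rw [if_pos (fa0 M h), if_pos rfl, nP_self, zero_add]
    · rw [if_neg h1, add_zero]
      by_cases h2 : h ∈ Fa M g
      · rw [if_pos h2, nP_face h2 (Ne.symm h1)]
        simp
      · rw [if_neg h2, nP_eq h2]
  simp only [e2, Finset.sum_add_distrib]
  rw [← hT, hT0, zero_add]
  refine Finset.sum_congr rfl fun g _ => ?_
  rw [Finset.sum_ite_eq' Finset.univ g]
  simp

theorem spin_conj {w : ℂ} (wc : (starRingEnd ℂ) w = w ^ 2) {a : D → ℂ} (ha : Spin M w a) :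
    Spin M (w ^ 2) (fun d => (starRingEnd ℂ) (a d)) := by
  intro d
  show (starRingEnd ℂ) (a (M.rho d)) = w ^ 2 * (starRingEnd ℂ) (a d)
  rw [ha, map_mul, wc]

/-- **white noise identity** -/
theorem i1_norm {w : ℂ} (w3 : w ^ 3 = 1) (w1 : w ≠ 1) (wc : (starRingEnd ℂ) w = w ^ 2)
    {a : D → ℂ} (ha : Spin M w a) :
    ∑ x ∈ ev M, ∑ β ∈ blks M x, ‖∑ g ∈ β, a g‖ ^ 2 = ∑ g, ‖a g‖ ^ 2 * (nG M g : ℝ) := by
  have h1 := i1 w3 w1 ha (spin_conj wc ha)
  have h2 : ∀ z : ℂ, z * (starRingEnd ℂ) z = ((‖z‖ ^ 2 : ℝ) : ℂ) := by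
    intro z
    rw [Complex.mul_conj, Complex.normSq_eq_norm_sq]
  have h3 : ((∑ x ∈ ev M, ∑ β ∈ blks M x, ‖∑ g ∈ β, a g‖ ^ 2 : ℝ) : ℂ) =
      ((∑ g, ‖a g‖ ^ 2 * (nG M g : ℝ) : ℝ) : ℂ) := by
    rw [Complex.ofReal_sum, Complex.ofReal_sum]
    simp only [Complex.ofReal_sum, Complex.ofReal_mul, Complex.ofReal_natCast]
    simp only [← h2, map_sum]
    exact h1
  exact_mod_cast h3

/-! ### colourings -/

/-- the configuration of a colouring -/
def cfg (M : CMap D C) (χ : C → ZMod 2) (d : D) : ZMod 2 := χ (M.cell d) + χ (M.cell (M.rho d))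

theorem cfg_isC (χ : C → ZMod 2) : IsC M ∅ (cfg M χ) := by
  have hd : ∀ d, d ∉ M.live → cfg M χ d = 0 := by
    intro d hd
    unfold cfg
    rw [← M.dead d hd, z_self]
  refine ⟨hd, fun d => ?_, fun d => ?_⟩
  · by_cases hl : d ∈ M.live
    · unfold cfg
      rw [M.cell_iota d hl, cell_rho_iota M hl, add_comm]
    · have h1 : M.iota d ∉ M.live := fun h1 => hl (by
        have := M.iota_live _ h1
        rwa [M.iota2] at this)
      rw [hd _ hl, hd _ h1]
  · rw [if_neg (Set.notMem_empty d)]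
    unfold cfg
    rw [M.rho3]
    linear_combination z_self (χ (M.cell d)) + z_self (χ (M.cell (M.rho d))) +
      z_self (χ (M.cell (M.rho (M.rho d))))

theorem exists_cfg (hx : IsC M ∅ x) : ∃ χ, cfg M χ = x := by
  obtain ⟨χ, hχ⟩ := M.ex x hx.dead hx.iot
    (fun d => by rw [hx.par d, if_neg (Set.notMem_empty d)])
  exact ⟨χ, funext fun d => (hχ d).symm⟩

/-- number of colourings of one configuration -/
def nK [Fintype C] (M : CMap D C) : ℕ :=
  (Finset.univ.filter fun χ : C → ZMod 2 => cfg M χ = fun _ => 0).card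

/-- **averages over the colourings = averages over the even configurations** -/
theorem sum_cfg [Fintype C] {A : Type} [AddCommMonoid A] (F : (D → ZMod 2) → A) :
    ∑ χ : C → ZMod 2, F (cfg M χ) = nK M • ∑ x ∈ ev M, F x := by
  rw [← Finset.sum_fiberwise_of_maps_to (s := (Finset.univ : Finset (C → ZMod 2))) (t := ev M)
    (g := cfg M) (fun χ _ => mem_ev.2 (cfg_isC χ)), Finset.smul_sum]
  refine Finset.sum_congr rfl fun x hx => ?_
  rw [mem_ev] at hx
  have e : ∀ χ ∈ (Finset.univ : Finset (C → ZMod 2)).filter (fun χ => cfg M χ = x),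
      F (cfg M χ) = F x := fun χ hχ => by rw [(Finset.mem_filter.1 hχ).2]
  rw [Finset.sum_congr rfl e, Finset.sum_const]
  congr 1
  unfold nK
  obtain ⟨χ0, h0⟩ := exists_cfg hx
  refine Finset.card_bij' (fun χ _ => fun c => χ c + χ0 c) (fun χ _ => fun c => χ c + χ0 c)
    ?_ ?_ ?_ ?_
  · intro χ hχ
    have h1 := (Finset.mem_filter.1 hχ).2
    refine Finset.mem_filter.2 ⟨Finset.mem_univ _, funext fun d => ?_⟩
    have h2 := congrFun h1 d
    have h3 := congrFun h0 d
    unfold cfg at h2 h3 ⊢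
    linear_combination h2 + h3 + z_self (x d)
  · intro χ hχ
    have h1 := (Finset.mem_filter.1 hχ).2
    refine Finset.mem_filter.2 ⟨Finset.mem_univ _, funext fun d => ?_⟩
    have h2 := congrFun h1 d
    have h3 := congrFun h0 d
    unfold cfg at h2 h3 ⊢
    linear_combination h2 + h3
  · intro χ _
    funext c
    show χ c + χ0 c + χ0 c = χ c
    rw [add_assoc, z_self, add_zero]
  · intro χ _
    funext c
    show χ c + χ0 c + χ0 c = χ c
    rw [add_assoc, z_self, add_zero]

/-- **a face with three different cells**: each gap has probability one quarter -/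
theorem nG_eq {g : D} (h1 : M.cell g ≠ M.cell (M.rho g))
    (h2 : M.cell (M.rho g) ≠ M.cell (M.rho (M.rho g)))
    (h3 : M.cell (M.rho (M.rho g)) ≠ M.cell g) : 4 * nG M g = nE M := by
  -- the configuration of one minority cell
  have key : ∀ g : D, M.cell g ≠ M.cell (M.rho g) →
      M.cell (M.rho g) ≠ M.cell (M.rho (M.rho g)) →
      M.cell (M.rho (M.rho g)) ≠ M.cell g → nZ M g ≤ nG M g := by
    intro g h1 h2 h3
    set χ : C → ZMod 2 := fun c => if c = M.cell (M.rho (M.rho g)) then 1 else 0 with hχ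
    have hc := cfg_isC (M := M) χ
    have v0 : cfg M χ g = 0 := by
      unfold cfg
      simp only [hχ]
      rw [if_neg (Ne.symm h3), if_neg h2]; decide
    have v1 : cfg M χ (M.rho g) = 1 := by
      unfold cfg
      simp only [hχ]
      rw [if_neg h2, if_pos trivial]; decide
    unfold nZ nG
    refine Finset.card_le_card_of_injOn (fun x d => x d + cfg M χ d) ?_ ?_
    · intro x hx
      obtain ⟨-, h4, h5, h6, h7⟩ := Finset.mem_filter.1 hx
      refine Finset.mem_coe.2 (Finset.mem_filter.2 ⟨Finset.mem_univ _, isC_add' h4 hc, ?_, ?_⟩)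
      · show x g + cfg M χ g = 0
        rw [h5, v0]; decide
      · show x (M.rho g) + cfg M χ (M.rho g) = 1
        rw [h6, v1]; decide
    · intro x _ y _ hxy
      funext d
      exact add_right_cancel (congrFun hxy d)
  have a0 := key g h1 h2 h3
  have a1 := key (M.rho g) h2 (by rw [M.rho3]; exact h3) (by rw [M.rho3]; exact h1)
  have a2 := key (M.rho (M.rho g)) (by rw [M.rho3]; exact h3) (by rw [M.rho3]; exact h1)
    (by rw [M.rho3]; exact h2)
  have b0 := nG_le (M := M) g
  have b1 := nG_le (M := M) (M.rho g)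
  have b2 := nG_le (M := M) (M.rho (M.rho g))
  rw [nZ_rot] at a1 b1 a2 b2
  rw [nZ_rot] at a2 b2
  have := nE_eq (M := M) g
  omega

end Crest.Agent.R143.Frame8x395
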