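import Crest.Agent.R143.Har_315
import Crest.Agent.R143.Frame8_395

/-!
# Row 143 (S0194), hedge block H, leaf H2d / counting half of H3 (helper389)

The history of a walker is a stopping set; sums of decided weights against a conditional
probability.

* `DecF V J F` : the function `F` of the colours is decided by the exploration `J`
* `sum_stop` : strong Markov property for sums; `wt_ge`, `wt_le` : `c * Σ F ≤ Σ_{B} F` (`≥`)
  if the conditional probability of `B` given the exploration is `≥ c` (`≤ c`) wherever `F ≠ 0`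
* `tube` : a decreasing event (white tube) which forces `B` with the explored cells recoloured white;
  `glue` : the same without monotonicity (707's form)
* `hist M x B p0 K` : coins of the cells seen by the walker from `p0` up to the first state in `B`
* `stp_hist`, `it_hist`, `tr_hist`, `hist_hist` : the walk depends on these coins only
* `hist_stop` : explored set of a first exploration followed by a walk
* `fam_ge`, `fam_glue`, `fam_le`, `fam_not` : the sum over start darts (H2d)
-/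

set_option autoImplicit false

noncomputable section

open scoped Classical

namespace Crest.Agent.R143.Histx389

open Finset Crest.Agent.R143.Harx315 Crest.Agent.R143.Frame1x395 Crest.Agent.R143.Frame8x395

section abstract

variable {α : Type*} {V : Finset α} {J R : Finset α → Finset α}

/-- `F` is decided by the exploration `J` -/
def DecF {β : Type*} (V : Finset α) (J : Finset α → Finset α) (F : Finset α → β) : Prop :=
  ∀ b b', b ⊆ V → b' ⊆ V → b ∩ J b = b' ∩ J b → F b = F b'

theorem DecF.comp {β γ : Type*} {F : Finset α → β} (h : DecF V J F) (G : β → γ) :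
    DecF V J fun b => G (F b) := fun b b' h1 h2 h3 => congrArg G (h b b' h1 h2 h3)

theorem decF_iff {A : Finset α → Prop} : Decided V J A ↔ DecF V J A :=
  ⟨fun h b b' h1 h2 h3 => propext (h b b' h1 h2 h3), fun h b b' h1 h2 h3 => by
    rw [h b b' h1 h2 h3]⟩

theorem DecF.self (hJ : IsStop V J) : DecF V J J := fun b b' h1 h2 h3 =>
  (hJ.stop b b' h1 h2 h3).symm

theorem DecF.inter (hJ : IsStop V J) : DecF V J fun b => b ∩ J b := fun b b' h1 h2 h3 => by
  dsimp only
  rw [hJ.stop b b' h1 h2 h3, h3]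

/-- more information -/
theorem DecF.mono {β : Type*} {F : Finset α → β} (h : DecF V J F)
    (hs : ∀ b, b ⊆ V → J b ⊆ R b) : DecF V R F := by
  intro b b' h1 h2 h3
  apply h b b' h1 h2
  have h4 := hs b h1
  ext y
  have h5 : y ∈ b ∩ R b ↔ y ∈ b' ∩ R b := by rw [h3]
  simp only [mem_inter] at h5 ⊢
  constructor
  · rintro ⟨h6, h7⟩; exact ⟨(h5.1 ⟨h6, h4 h7⟩).1, h7⟩
  · rintro ⟨h6, h7⟩; exact ⟨(h5.2 ⟨h6, h4 h7⟩).1, h7⟩

theorem DecF.outc {β : Type*} {F : Finset α → β} (hF : DecF V J F) {b0 : Finset α}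
    (hb0 : b0 ⊆ V) {b : Finset α} (hb : b ⊆ V \ J b0) :
    F (b ∪ (b0 ∩ J b0)) = F b0 := by
  symm
  apply hF b0 _ hb0
  · exact union_subset (hb.trans sdiff_subset) (inter_subset_left.trans hb0)
  · ext y
    simp only [mem_inter, mem_union]
    constructor
    · rintro ⟨h1, h2⟩; exact ⟨Or.inr ⟨h1, h2⟩, h2⟩
    · rintro ⟨h1 | h1, h2⟩
      · exact absurd h2 (mem_sdiff.1 (hb h1)).2
      · exact ⟨h1.1, h2⟩

/-- **strong Markov property** for sums -/
theorem sum_stop {A : Type*} [AddCommMonoid A] (hJ : IsStop V J) (F : Finset α → A) :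
    ∑ b ∈ V.powerset, F b = ∑ x ∈ outc V J, ∑ b ∈ (V \ x.1).powerset, F (b ∪ x.2) := by
  rw [← sum_fiberwise_of_maps_to (g := fun b => (J b, b ∩ J b)) (t := outc V J)]
  · apply sum_congr rfl
    intro x hx
    obtain ⟨hx1, hx2⟩ := outc_sub hJ hx
    symm
    apply sum_bij (fun b _ => b ∪ x.2)
    · intro b hb
      rw [mem_powerset] at hb
      have hs : b ∪ x.2 ⊆ V := union_subset (hb.trans sdiff_subset) (hx2.trans hx1)
      rw [mem_filter, mem_powerset]
      refine ⟨hs, ?_⟩
      rw [outc_iff hJ hx hs]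
      ext y
      simp only [mem_inter, mem_union]
      constructor
      · rintro ⟨h1 | h1, h2⟩
        · exact absurd h2 (mem_sdiff.1 (hb h1)).2
        · exact h1
      · intro h1; exact ⟨Or.inr h1, hx2 h1⟩
    · intro b hb b' hb' h
      rw [mem_powerset] at hb hb'
      have key : ∀ {d : Finset α}, d ⊆ V \ x.1 → (d ∪ x.2) \ x.1 = d := by
        intro d hd
        ext y
        simp only [mem_sdiff, mem_union]
        constructor
        · rintro ⟨h1 | h1, h2⟩
          · exact h1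
          · exact absurd (hx2 h1) h2
        · intro h1; exact ⟨Or.inl h1, (mem_sdiff.1 (hd h1)).2⟩
      rw [← key hb, ← key hb', h]
    · intro b hb
      rw [mem_filter, mem_powerset] at hb
      have h1 := (outc_iff hJ hx hb.1).1 hb.2
      have he : b \ x.1 ∪ x.2 = b := by
        rw [← h1]
        exact sdiff_union_inter b x.1
      exact ⟨b \ x.1, mem_powerset.2 (sdiff_subset_sdiff hb.1 subset_rfl), he⟩
    · intro b _
      rfl
  · intro b hb
    unfold Harx315.outc
    exact mem_image_of_mem _ hb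

theorem sum_ind_pr (W : Finset α) (A : Finset α → Prop) :
    ∑ b ∈ W.powerset, (if A b then (1 : ℝ) else 0) = 2 ^ W.card * pr W A := by
  rw [sum_ite, sum_const_zero, add_zero, sum_const, nsmul_eq_mul, mul_one]
  unfold pr nb fl
  field_simp

/-- the conditional sum -/
theorem wt_aux {F : Finset α → ℝ} (hF : DecF V J F) (B : Finset α → Prop) {b0 : Finset α}
    (hb0 : b0 ⊆ V) :
    ∑ b ∈ (V \ J b0).powerset, (if B (b ∪ (b0 ∩ J b0)) then F (b ∪ (b0 ∩ J b0)) else 0) =
      F b0 * (2 ^ (V \ J b0).card * pr (V \ J b0) fun b => B (b ∪ (b0 ∩ J b0))) := by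
  rw [← sum_ind_pr, mul_sum]
  apply sum_congr rfl
  intro b hb
  rw [hF.outc hb0 (mem_powerset.1 hb)]
  split_ifs
  · rw [mul_one]
  · rw [mul_zero]

/-- **lower bound** : decided weights against the conditional probability -/
theorem wt_ge (hJ : IsStop V J) {F : Finset α → ℝ} (hF : DecF V J F) (h0 : ∀ b, b ⊆ V → 0 ≤ F b)
    {B : Finset α → Prop} {c : ℝ}
    (h : ∀ b0, b0 ⊆ V → F b0 ≠ 0 → c ≤ pr (V \ J b0) fun b => B (b ∪ (b0 ∩ J b0))) :
    c * ∑ b ∈ V.powerset, F b ≤ ∑ b ∈ V.powerset, if B b then F b else 0 := by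
  rw [sum_stop hJ F, sum_stop hJ (fun b => if B b then F b else 0), mul_sum]
  apply sum_le_sum
  intro x hx
  unfold Harx315.outc at hx
  rw [mem_image] at hx
  obtain ⟨b0, hb0, rfl⟩ := hx
  rw [mem_powerset] at hb0
  have h1 := wt_aux hF (fun _ => True) hb0
  have h2 := wt_aux hF B hb0
  simp only [if_true, pr_true, mul_one] at h1
  dsimp only
  rw [h1, h2]
  by_cases h3 : F b0 = 0
  · rw [h3]; simp
  · have h4 := h b0 hb0 h3
    have h5 : (0 : ℝ) ≤ F b0 * 2 ^ (V \ J b0).card := mul_nonneg (h0 b0 hb0) (by positivity)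
    have h6 := mul_le_mul_of_nonneg_left h4 h5
    linarith

/-- **upper bound** -/
theorem wt_le (hJ : IsStop V J) {F : Finset α → ℝ} (hF : DecF V J F) (h0 : ∀ b, b ⊆ V → 0 ≤ F b)
    {B : Finset α → Prop} {c : ℝ}
    (h : ∀ b0, b0 ⊆ V → F b0 ≠ 0 → pr (V \ J b0) (fun b => B (b ∪ (b0 ∩ J b0))) ≤ c) :
    (∑ b ∈ V.powerset, if B b then F b else 0) ≤ c * ∑ b ∈ V.powerset, F b := by
  rw [sum_stop hJ F, sum_stop hJ (fun b => if B b then F b else 0), mul_sum]
  apply sum_le_sum
  intro x hx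
  unfold Harx315.outc at hx
  rw [mem_image] at hx
  obtain ⟨b0, hb0, rfl⟩ := hx
  rw [mem_powerset] at hb0
  have h1 := wt_aux hF (fun _ => True) hb0
  have h2 := wt_aux hF B hb0
  simp only [if_true, pr_true, mul_one] at h1
  dsimp only
  rw [h1, h2]
  by_cases h3 : F b0 = 0
  · rw [h3]; simp
  · have h4 := h b0 hb0 h3
    have h5 : (0 : ℝ) ≤ F b0 * 2 ^ (V \ J b0).card := mul_nonneg (h0 b0 hb0) (by positivity)
    have h6 := mul_le_mul_of_nonneg_left h4 h5
    linarith

/-- a decreasing event does not see a set coloured favourably -/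
theorem pr_sdiff_dn {T : Finset α → Prop} (hT : Dn V T) (W : Finset α) :
    pr V T ≤ pr (V \ W) T := by
  have h1 : pr V (fun b => T (b \ W)) = pr (V \ W) (fun b => T (b \ W)) := by
    apply pr_dep sdiff_subset
    intro b hb
    have : (b ∩ (V \ W)) \ W = b \ W := by
      ext y
      simp only [mem_sdiff, mem_inter]
      constructor
      · rintro ⟨⟨h2, -, -⟩, h3⟩; exact ⟨h2, h3⟩
      · rintro ⟨h2, h3⟩; exact ⟨⟨h2, hb h2, h3⟩, h3⟩
    dsimp only
    rw [this]
  have h2 : pr (V \ W) (fun b => T (b \ W)) = pr (V \ W) T := by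
    apply pr_congr
    intro b hb
    have : b \ W = b := by
      ext y
      simp only [mem_sdiff]
      exact ⟨fun h => h.1, fun h => ⟨h, (mem_sdiff.1 (hb h)).2⟩⟩
    rw [this]
  rw [← h2, ← h1]
  apply pr_mono
  intro b hb h3
  exact hT (b \ W) b sdiff_subset hb h3

/-- an increasing event does not see a set coloured favourably -/
theorem pr_union_up {T : Finset α → Prop} (hT : Up V T) {W : Finset α} (hW : W ⊆ V) :
    pr V T ≤ pr (V \ W) fun b => T (b ∪ W) := by
  have h1 : pr V (fun b => T (b ∪ W)) = pr (V \ W) (fun b => T (b ∪ W)) := by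
    apply pr_dep sdiff_subset
    intro b hb
    have : b ∩ (V \ W) ∪ W = b ∪ W := by
      ext y
      simp only [mem_sdiff, mem_inter, mem_union]
      constructor
      · rintro (⟨h2, -⟩ | h2)
        · exact Or.inl h2
        · exact Or.inr h2
      · rintro (h2 | h2)
        · by_cases h3 : y ∈ W
          · exact Or.inr h3
          · exact Or.inl ⟨h2, hb h2, h3⟩
        · exact Or.inr h2
    dsimp only
    rw [this]
  rw [← h1]
  apply pr_mono
  intro b hb h3
  exact hT b (b ∪ W) subset_union_left (union_subset hb hW) h3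

/-- **tube**: `T` decreasing (white), and `T` with the explored cells recoloured white forces `B` -/
theorem tube {T B : Finset α → Prop} (hT : Dn V T) {b0 : Finset α}
    (hb0 : b0 ⊆ V) (h : ∀ b, b ⊆ V → b ∩ J b0 = b0 ∩ J b0 → T (b \ J b0) → B b) :
    pr V T ≤ pr (V \ J b0) fun b => B (b ∪ (b0 ∩ J b0)) := by
  refine (pr_sdiff_dn hT (J b0)).trans (pr_mono fun b hb h1 => ?_)
  apply h _ (union_subset (hb.trans sdiff_subset) (inter_subset_left.trans hb0))
  · ext y
    simp only [mem_inter, mem_union]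
    constructor
    · rintro ⟨h2 | h2, h3⟩
      · exact absurd h3 (mem_sdiff.1 (hb h2)).2
      · exact h2
    · intro h2; exact ⟨Or.inr h2, h2.2⟩
  · have : (b ∪ b0 ∩ J b0) \ J b0 = b := by
      ext y
      simp only [mem_sdiff, mem_union, mem_inter]
      constructor
      · rintro ⟨h2 | h2, h3⟩
        · exact h2
        · exact absurd h2.2 h3
      · intro h2; exact ⟨Or.inl h2, (mem_sdiff.1 (hb h2)).2⟩
    rw [this]
    exact h1

/-- **tube**, increasing version (black) -/
theorem tube_up (hJ : IsStop V J) {T B : Finset α → Prop} (hT : Up V T) {b0 : Finset α}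
    (hb0 : b0 ⊆ V) (h : ∀ b, b ⊆ V → b ∩ J b0 = b0 ∩ J b0 → T (b ∪ J b0) → B b) :
    pr V T ≤ pr (V \ J b0) fun b => B (b ∪ (b0 ∩ J b0)) := by
  refine (pr_union_up hT (hJ.sub b0 hb0)).trans (pr_mono fun b hb h1 => ?_)
  apply h _ (union_subset (hb.trans sdiff_subset) (inter_subset_left.trans hb0))
  · ext y
    simp only [mem_inter, mem_union]
    constructor
    · rintro ⟨h2 | h2, h3⟩
      · exact absurd h3 (mem_sdiff.1 (hb h2)).2
      · exact h2
    · intro h2; exact ⟨Or.inr h2, h2.2⟩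
  · have : b ∪ b0 ∩ J b0 ∪ J b0 = b ∪ J b0 := by
      ext y
      simp only [mem_union, mem_inter]
      tauto
    rw [this]
    exact h1

/-- **tube, glue form** (707): any event `T`, no monotonicity: `T b'` forces `B` for the colouring
which agrees with `b0` on the explored cells and with `b'` off them -/
theorem glue {T B : Finset α → Prop} {b0 : Finset α}
    (h : ∀ b', b' ⊆ V → T b' → B ((b' \ J b0) ∪ (b0 ∩ J b0))) :
    pr V T ≤ pr (V \ J b0) fun b => B (b ∪ (b0 ∩ J b0)) := by
  have h1 : pr V (fun b => B ((b \ J b0) ∪ (b0 ∩ J b0))) =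
      pr (V \ J b0) (fun b => B ((b \ J b0) ∪ (b0 ∩ J b0))) := by
    apply pr_dep sdiff_subset
    intro b hb
    have : (b ∩ (V \ J b0)) \ J b0 = b \ J b0 := by
      ext y
      simp only [mem_sdiff, mem_inter]
      constructor
      · rintro ⟨⟨h2, -, -⟩, h3⟩; exact ⟨h2, h3⟩
      · rintro ⟨h2, h3⟩; exact ⟨⟨h2, hb h2, h3⟩, h3⟩
    dsimp only
    rw [this]
  have h2 : pr (V \ J b0) (fun b => B ((b \ J b0) ∪ (b0 ∩ J b0))) =
      pr (V \ J b0) (fun b => B (b ∪ (b0 ∩ J b0))) := by
    apply pr_congr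
    intro b hb
    have : b \ J b0 = b := by
      ext y
      simp only [mem_sdiff]
      exact ⟨fun h => h.1, fun h => ⟨h, (mem_sdiff.1 (hb h)).2⟩⟩
    rw [this]
  rw [← h2, ← h1]
  exact pr_mono h

/-- **the sum over start darts, lower bound** (H2d): weights `F i` decided by `R i`, decreasing
(white) tube events `T i` of probability `≥ c` which force `B i` -/
theorem fam_ge {ι : Type*} (I : Finset ι) {R : ι → Finset α → Finset α}
    (hR : ∀ i ∈ I, IsStop V (R i)) {F : ι → Finset α → ℝ} (hF : ∀ i ∈ I, DecF V (R i) (F i))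
    (h0 : ∀ i ∈ I, ∀ b, b ⊆ V → 0 ≤ F i b) {T B : ι → Finset α → Prop}
    (hT : ∀ i ∈ I, Dn V (T i)) {c : ℝ} (hc : ∀ i ∈ I, c ≤ pr V (T i))
    (hB : ∀ i ∈ I, ∀ b, b ⊆ V → F i b ≠ 0 → T i (b \ R i b) → B i b) :
    c * ∑ b ∈ V.powerset, ∑ i ∈ I, F i b ≤
      ∑ b ∈ V.powerset, ∑ i ∈ I, if B i b then F i b else 0 := by
  rw [sum_comm, sum_comm (s := V.powerset), mul_sum]
  apply sum_le_sum
  intro i hi
  apply wt_ge (hR i hi) (hF i hi) (h0 i hi)
  intro b0 hb0 h1
  refine (hc i hi).trans (tube (hT i hi) hb0 fun b hb h2 h3 => ?_)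
  have h4 := (hR i hi).stop b0 b hb0 hb h2.symm
  apply hB i hi b hb
  · rw [← hF i hi b0 b hb0 hb h2.symm]; exact h1
  · rw [h4]; exact h3

/-- **the sum over start darts, lower bound, glue form** (H2d with 707's exit lemma) -/
theorem fam_glue {ι : Type*} (I : Finset ι) {R : ι → Finset α → Finset α}
    (hR : ∀ i ∈ I, IsStop V (R i)) {F : ι → Finset α → ℝ} (hF : ∀ i ∈ I, DecF V (R i) (F i))
    (h0 : ∀ i ∈ I, ∀ b, b ⊆ V → 0 ≤ F i b) {T B : ι → Finset α → Prop} {c : ℝ}
    (hc : ∀ i ∈ I, c ≤ pr V (T i))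
    (hB : ∀ i ∈ I, ∀ b b', b ⊆ V → b' ⊆ V → F i b ≠ 0 → T i b' →
      B i ((b' \ R i b) ∪ (b ∩ R i b))) :
    c * ∑ b ∈ V.powerset, ∑ i ∈ I, F i b ≤
      ∑ b ∈ V.powerset, ∑ i ∈ I, if B i b then F i b else 0 := by
  rw [sum_comm, sum_comm (s := V.powerset), mul_sum]
  apply sum_le_sum
  intro i hi
  apply wt_ge (hR i hi) (hF i hi) (h0 i hi)
  intro b0 hb0 h1
  exact (hc i hi).trans (glue fun b' hb' h2 => hB i hi b0 b' hb0 hb' h1 h2)

/-- the sum over start darts, upper bound: `B i` has conditional probability `≤ c` -/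
theorem fam_le {ι : Type*} (I : Finset ι) {R : ι → Finset α → Finset α}
    (hR : ∀ i ∈ I, IsStop V (R i)) {F : ι → Finset α → ℝ} (hF : ∀ i ∈ I, DecF V (R i) (F i))
    (h0 : ∀ i ∈ I, ∀ b, b ⊆ V → 0 ≤ F i b) {B : ι → Finset α → Prop} {c : ℝ}
    (hB : ∀ i ∈ I, ∀ b0, b0 ⊆ V → F i b0 ≠ 0 →
      pr (V \ R i b0) (fun b => B i (b ∪ (b0 ∩ R i b0))) ≤ c) :
    (∑ b ∈ V.powerset, ∑ i ∈ I, if B i b then F i b else 0) ≤
      c * ∑ b ∈ V.powerset, ∑ i ∈ I, F i b := by
  rw [sum_comm, sum_comm (s := V.powerset), mul_sum]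
  exact sum_le_sum fun i hi => wt_le (hR i hi) (hF i hi) (h0 i hi) (hB i hi)

/-- the same with the complementary event: if `B i` has conditional probability `≤ c`, then
`(1 - c) Σ F ≤ Σ_{not B} F` -/
theorem fam_not {ι : Type*} (I : Finset ι) {R : ι → Finset α → Finset α}
    (hR : ∀ i ∈ I, IsStop V (R i)) {F : ι → Finset α → ℝ} (hF : ∀ i ∈ I, DecF V (R i) (F i))
    (h0 : ∀ i ∈ I, ∀ b, b ⊆ V → 0 ≤ F i b) {B : ι → Finset α → Prop} {c : ℝ}
    (hB : ∀ i ∈ I, ∀ b0, b0 ⊆ V → F i b0 ≠ 0 →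
      pr (V \ R i b0) (fun b => B i (b ∪ (b0 ∩ R i b0))) ≤ c) :
    (1 - c) * ∑ b ∈ V.powerset, ∑ i ∈ I, F i b ≤
      ∑ b ∈ V.powerset, ∑ i ∈ I, if B i b then 0 else F i b := by
  have h1 := fam_le I hR hF h0 hB
  have h2 : ∑ b ∈ V.powerset, ∑ i ∈ I, F i b =
      (∑ b ∈ V.powerset, ∑ i ∈ I, if B i b then F i b else 0) +
        ∑ b ∈ V.powerset, ∑ i ∈ I, if B i b then 0 else F i b := by
    rw [← sum_add_distrib]
    apply sum_congr rfl
    intro b _
    rw [← sum_add_distrib]
    apply sum_congr rfl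
    intro i _
    split_ifs
    · rw [add_zero]
    · rw [zero_add]
  linarith

end abstract

/-! ### the history of a walker -/

variable {D C : Type} {M : CMap D C} {α : Type*} {V : Finset α}

/-- the colour of the cell `c` depends only on the coins in `K c` -/
def Coins (V : Finset α) (χ : Finset α → C → ZMod 2) (K : C → Finset α) : Prop :=
  ∀ c b b', b ⊆ V → b' ⊆ V → b ∩ K c = b' ∩ K c → χ b c = χ b' c

/-- the coins of the face of the dart `p` -/
def fc (M : CMap D C) (K : C → Finset α) (p : D) : Finset α :=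
  K (M.cell p) ∪ K (M.cell (M.rho p)) ∪ K (M.cell (M.rho (M.rho p)))

/-- the coins of the two cells of the state `p` -/
def ec (M : CMap D C) (K : C → Finset α) (p : D) : Finset α :=
  K (M.cell p) ∪ K (M.cell (M.rho p))

variable [Fintype D]

/-- the coins seen by the walker which starts in the state `p0` and stops in `B` -/
def hist (M : CMap D C) (K : C → Finset α) (x : D → ZMod 2) (B : Set D) (p0 : D) : Finset α :=
  (univ.filter fun p => p ∈ Tr M x B p0).biUnion fun p => if p ∈ B then ec M K p else fc M K p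

theorem mem_hist {K : C → Finset α} {x : D → ZMod 2} {B : Set D} {p0 : D} {y : α} :
    y ∈ hist M K x B p0 ↔ ∃ p, p ∈ Tr M x B p0 ∧ (y ∈ K (M.cell p) ∨ y ∈ K (M.cell (M.rho p)) ∨
      p ∉ B ∧ y ∈ K (M.cell (M.rho (M.rho p)))) := by
  unfold hist
  rw [mem_biUnion]
  constructor
  · rintro ⟨p, hp, hy⟩
    refine ⟨p, (mem_filter.1 hp).2, ?_⟩
    by_cases hB : p ∈ B
    · rw [if_pos hB] at hy
      unfold ec at hy
      rcases mem_union.1 hy with h | h
      · exact Or.inl h
      · exact Or.inr (Or.inl h)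
    · rw [if_neg hB] at hy
      unfold fc at hy
      rcases mem_union.1 hy with h | h
      · rcases mem_union.1 h with h | h
        · exact Or.inl h
        · exact Or.inr (Or.inl h)
      · exact Or.inr (Or.inr ⟨hB, h⟩)
  · rintro ⟨p, hp, hy⟩
    refine ⟨p, mem_filter.2 ⟨mem_univ _, hp⟩, ?_⟩
    by_cases hB : p ∈ B
    · rw [if_pos hB]
      unfold ec
      rcases hy with h | h | h
      · exact mem_union_left _ h
      · exact mem_union_right _ h
      · exact absurd hB h.1
    · rw [if_neg hB]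
      unfold fc
      rcases hy with h | h | h
      · exact mem_union_left _ (mem_union_left _ h)
      · exact mem_union_left _ (mem_union_right _ h)
      · exact mem_union_right _ h.2

theorem hist_sub {K : C → Finset α} (hK : ∀ c, K c ⊆ V) {x : D → ZMod 2} {B : Set D} {p0 : D} :
    hist M K x B p0 ⊆ V := by
  intro y hy
  obtain ⟨p, -, h | h | h⟩ := mem_hist.1 hy
  · exact hK _ h
  · exact hK _ h
  · exact hK _ h.2

variable {χ : Finset α → C → ZMod 2} {K : C → Finset α} {B : Set D} {p0 : D} {b b' : Finset α}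

theorem inter_sub {W U : Finset α} (h : b ∩ U = b' ∩ U) (hs : W ⊆ U) : b ∩ W = b' ∩ W := by
  ext y
  have h1 : y ∈ b ∩ U ↔ y ∈ b' ∩ U := by rw [h]
  simp only [mem_inter] at h1 ⊢
  constructor
  · rintro ⟨h2, h3⟩; exact ⟨(h1.1 ⟨h2, hs h3⟩).1, h3⟩
  · rintro ⟨h2, h3⟩; exact ⟨(h1.2 ⟨h2, hs h3⟩).1, h3⟩

omit [Fintype D] in
/-- one step looks at the face only -/
theorem stp_hist (hχ : Coins V χ K) (hb : b ⊆ V) (hb' : b' ⊆ V) {p : D}
    (h : b ∩ fc M K p = b' ∩ fc M K p) :
    stp M (cfg M (χ b')) p = stp M (cfg M (χ b)) p := by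
  have h1 : cfg M (χ b') (M.rho p) = cfg M (χ b) (M.rho p) := by
    unfold cfg
    rw [hχ (M.cell (M.rho p)) b b' hb hb' (inter_sub h fun y hy => by
        unfold fc; exact mem_union_left _ (mem_union_right _ hy)),
      hχ (M.cell (M.rho (M.rho p))) b b' hb hb' (inter_sub h fun y hy => by
        unfold fc; exact mem_union_right _ hy)]
  unfold stp
  rw [h1]

theorem fc_hist {x : D → ZMod 2} {p : D} (hp : p ∈ Tr M x B p0) (hB : p ∉ B) :
    fc M K p ⊆ hist M K x B p0 := by
  intro y hy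
  unfold hist
  rw [mem_biUnion]
  exact ⟨p, mem_filter.2 ⟨mem_univ _, hp⟩, by rw [if_neg hB]; exact hy⟩

theorem ec_hist {x : D → ZMod 2} {p : D} (hp : p ∈ Tr M x B p0) :
    ec M K p ⊆ hist M K x B p0 := by
  intro y hy
  unfold ec at hy
  rw [mem_hist]
  refine ⟨p, hp, ?_⟩
  rcases mem_union.1 hy with h | h
  · exact Or.inl h
  · exact Or.inr (Or.inl h)

/-- **the walk is decided by its history** -/
theorem tr_hist (hχ : Coins V χ K) (hb : b ⊆ V) (hb' : b' ⊆ V)
    (h : b ∩ hist M K (cfg M (χ b)) B p0 = b' ∩ hist M K (cfg M (χ b)) B p0) :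
    Tr M (cfg M (χ b')) B p0 = Tr M (cfg M (χ b)) B p0 :=
  tr_congr fun _ hp hB => stp_hist hχ hb hb' (inter_sub h (fc_hist hp hB))

theorem hist_hist (hχ : Coins V χ K) (hb : b ⊆ V) (hb' : b' ⊆ V)
    (h : b ∩ hist M K (cfg M (χ b)) B p0 = b' ∩ hist M K (cfg M (χ b)) B p0) :
    hist M K (cfg M (χ b')) B p0 = hist M K (cfg M (χ b)) B p0 := by
  unfold hist
  rw [tr_hist hχ hb hb' h]

/-- every state up to the first one in `B` is decided by the history -/
theorem it_hist (hχ : Coins V χ K) (hb : b ⊆ V) (hb' : b' ⊆ V)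
    (h : b ∩ hist M K (cfg M (χ b)) B p0 = b' ∩ hist M K (cfg M (χ b)) B p0) :
    ∀ n, (∀ k < n, (stp M (cfg M (χ b)))^[k] p0 ∉ B) →
      (stp M (cfg M (χ b')))^[n] p0 = (stp M (cfg M (χ b)))^[n] p0 := by
  intro n
  induction n with
  | zero => intro _; rfl
  | succ n ih =>
    intro h1
    have h2 : ∀ k < n, (stp M (cfg M (χ b)))^[k] p0 ∉ B := fun k hk => h1 k (by omega)
    rw [Function.iterate_succ_apply', Function.iterate_succ_apply', ih h2]
    exact stp_hist hχ hb hb' (inter_sub h (fc_hist ⟨n, rfl, h2⟩ (h1 n (by omega))))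

/-- colours of the two cells of every state of the walk -/
theorem cell_hist (hχ : Coins V χ K) (hb : b ⊆ V) (hb' : b' ⊆ V)
    (h : b ∩ hist M K (cfg M (χ b)) B p0 = b' ∩ hist M K (cfg M (χ b)) B p0) {p : D}
    (hp : p ∈ Tr M (cfg M (χ b)) B p0) :
    χ b' (M.cell p) = χ b (M.cell p) ∧ χ b' (M.cell (M.rho p)) = χ b (M.cell (M.rho p)) := by
  have h1 := inter_sub h (ec_hist (K := K) hp)
  constructor
  · exact (hχ (M.cell p) b b' hb hb' (inter_sub h1 fun y hy => by
      unfold ec; exact mem_union_left _ hy)).symm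
  · exact (hχ (M.cell (M.rho p)) b b' hb hb' (inter_sub h1 fun y hy => by
      unfold ec; exact mem_union_right _ hy)).symm

variable {R1 : Finset α → Finset α}

/-- **a first exploration followed by a walk is an exploration** -/
theorem hist_stop (hχ : Coins V χ K) (hK : ∀ c, K c ⊆ V) (h1 : IsStop V R1)
    {B : Finset α → Set D} (hB : DecF V R1 B) {p0 : Finset α → D} (hp : DecF V R1 p0) :
    IsStop V fun b => R1 b ∪ hist M K (cfg M (χ b)) (B b) (p0 b) where
  sub b hb := union_subset (h1.sub b hb) (hist_sub hK)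
  stop b b' hb hb' h := by
    have h2 : b ∩ R1 b = b' ∩ R1 b := inter_sub h subset_union_left
    have h3 : b ∩ hist M K (cfg M (χ b)) (B b) (p0 b) =
      b' ∩ hist M K (cfg M (χ b)) (B b) (p0 b) := inter_sub h subset_union_right
    rw [h1.stop b b' hb hb' h2, ← hB b b' hb hb' h2, ← hp b b' hb hb' h2,
      hist_hist hχ hb hb' h3]

/-- the set of states of the walk is decided -/
theorem hist_tr (hχ : Coins V χ K) {B : Finset α → Set D} (hB : DecF V R1 B)
    {p0 : Finset α → D} (hp : DecF V R1 p0) :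
    DecF V (fun b => R1 b ∪ hist M K (cfg M (χ b)) (B b) (p0 b))
      fun b => Tr M (cfg M (χ b)) (B b) (p0 b) := by
  intro b b' hb hb' h
  have h2 : b ∩ R1 b = b' ∩ R1 b := inter_sub h subset_union_left
  have h3 : b ∩ hist M K (cfg M (χ b)) (B b) (p0 b) =
    b' ∩ hist M K (cfg M (χ b)) (B b) (p0 b) := inter_sub h subset_union_right
  dsimp only
  rw [← hB b b' hb hb' h2, ← hp b b' hb hb' h2, tr_hist hχ hb hb' h3]

/-- the walk as a function of time, stopped in `B` -/
def wk (M : CMap D C) (x : D → ZMod 2) (B : Set D) (p0 : D) (n : ℕ) : Option D :=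
  if ∀ k < n, (stp M x)^[k] p0 ∉ B then some ((stp M x)^[n] p0) else none

omit [Fintype D] in
theorem wk_some {x : D → ZMod 2} {n : ℕ} {q : D} :
    wk M x B p0 n = some q ↔ (∀ k < n, (stp M x)^[k] p0 ∉ B) ∧ (stp M x)^[n] p0 = q := by
  unfold wk
  split_ifs with h
  · rw [Option.some_inj]
    exact ⟨fun h2 => ⟨h, h2⟩, fun h2 => h2.2⟩
  · constructor
    · intro h2
      exact absurd h2 (by simp)
    · intro h2
      exact absurd h2.1 h

theorem wk_hist (hχ : Coins V χ K) (hb : b ⊆ V) (hb' : b' ⊆ V)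
    (h : b ∩ hist M K (cfg M (χ b)) B p0 = b' ∩ hist M K (cfg M (χ b)) B p0) (n : ℕ) :
    wk M (cfg M (χ b')) B p0 n = wk M (cfg M (χ b)) B p0 n := by
  have key : ∀ n, (∀ k < n, (stp M (cfg M (χ b)))^[k] p0 ∉ B) ↔
      ∀ k < n, (stp M (cfg M (χ b')))^[k] p0 ∉ B := by
    intro n
    induction n with
    | zero => simp
    | succ n ih =>
      constructor
      · intro h1 k hk
        have h2 : ∀ k < n, (stp M (cfg M (χ b)))^[k] p0 ∉ B := fun j hj => h1 j (by omega)
        rcases Nat.lt_succ_iff_lt_or_eq.1 hk with h3 | rfl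
        · exact ih.1 h2 k h3
        · rw [it_hist hχ hb hb' h k h2]; exact h1 k (by omega)
      · intro h1 k hk
        have h2 := ih.2 fun j hj => h1 j (by omega)
        rcases Nat.lt_succ_iff_lt_or_eq.1 hk with h3 | rfl
        · exact h2 k h3
        · rw [← it_hist hχ hb hb' h k h2]; exact h1 k (by omega)
  unfold wk
  by_cases h1 : ∀ k < n, (stp M (cfg M (χ b)))^[k] p0 ∉ B
  · rw [if_pos h1, if_pos ((key n).1 h1), it_hist hχ hb hb' h n h1]
  · rw [if_neg h1, if_neg fun h2 => h1 ((key n).2 h2)]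

/-- **the walk is decided** by the exploration of `hist_stop` -/
theorem hist_wk (hχ : Coins V χ K) {B : Finset α → Set D} (hB : DecF V R1 B)
    {p0 : Finset α → D} (hp : DecF V R1 p0) :
    DecF V (fun b => R1 b ∪ hist M K (cfg M (χ b)) (B b) (p0 b))
      fun b => wk M (cfg M (χ b)) (B b) (p0 b) := by
  intro b b' hb hb' h
  have h2 : b ∩ R1 b = b' ∩ R1 b := inter_sub h subset_union_left
  have h3 : b ∩ hist M K (cfg M (χ b)) (B b) (p0 b) =
    b' ∩ hist M K (cfg M (χ b)) (B b) (p0 b) := inter_sub h subset_union_right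
  funext n
  dsimp only
  rw [← hB b b' hb hb' h2, ← hp b b' hb hb' h2, wk_hist hχ hb hb' h3]

/-- everything that was decided by the first exploration is still decided -/
theorem dec_of_first {β : Type*} {F : Finset α → β} (hF : DecF V R1 F) {B : Finset α → Set D}
    {p0 : Finset α → D} :
    DecF V (fun b => R1 b ∪ hist M K (cfg M (χ b)) (B b) (p0 b)) F :=
  hF.mono fun _ _ => subset_union_left

/-- a function of two decided functions -/
theorem DecF.pair {β γ δ : Type*} {J : Finset α → Finset α} {F : Finset α → β}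
    {G : Finset α → γ} (hF : DecF V J F) (hG : DecF V J G) (H : β → γ → δ) :
    DecF V J fun b => H (F b) (G b) := fun b b' h1 h2 h3 => by
  dsimp only
  rw [hF b b' h1 h2 h3, hG b b' h1 h2 h3]

end Crest.Agent.R143.Histx389
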