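import Crest.Agent.R143.Bud3_432
import Crest.Agent.R143.SmallA_304
import Crest.Agent.R143.Hist_389
import Crest.Agent.R143.HBud_136

/-!
# Row 143 (S0194), block H (helper136): the big closed blocks of the net with the giant

* `sum_fil` : averages over the configurations of the net with the giant = averages over the colours
* `CHq`, `CLq` : mean energy of the chords / of the big closed blocks; `budget_q`
* `Stg` : one stage of an exploration: the giant contains the revealed cells, the colours of the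
  other cells are fair coins
* `glueQ` : `∑ g b * CLq b ≤ ∑ (big blocks of the real configuration)`, `glueE` : `≤ 2 ^ |V| * E`
* `glue` : annealed form
-/

set_option autoImplicit false

noncomputable section

open scoped Classical

namespace Crest.Agent.R143.HGluex136

open MeasureTheory Filter Topology
open Crest.ProbabilityR.Voronoi
open Crest.Agent.R143.B0x346 Crest.Agent.R143.SumScx302 Crest.Agent.R143.Mass1x302
  Crest.Agent.R143.Mass2x302 Crest.Agent.R143.Mass3x302 Crest.Agent.R143.Mass4x302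
  Crest.Agent.R143.Mass5x302
open Crest.Agent.R143.Frame1x395 Crest.Agent.R143.Frame2x395 Crest.Agent.R143.Frame3x395
  Crest.Agent.R143.Frame4x395 Crest.Agent.R143.Frame8x395 Crest.Agent.R143.Frame9x395
  Crest.Agent.R143.Coarsex166 Crest.Agent.R143.Budx432 Crest.Agent.R143.Bud2x432
  Crest.Agent.R143.Bud3x432
open Crest.Agent.R143.Harx315 Crest.Agent.R143.Histx389
open Crest.Agent.R143.Trans2x690 (Wf)
open Crest.Agent.R143.MassQx304 (Eqd)
open scoped ENNReal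

variable {D C C' : Type} {M : CMap D C} {P U : Set ℂ} {δ : ℂ → ℂ → D} {κ : ℂ → C}
variable {π : C → C'} {hπ : ClsCon M π} {o : C'} {x : D → ZMod 2} {a : D → ℂ}

/-! ### configurations of the net with the giant -/

theorem z2 (u : ZMod 2) : u + u = 0 := by revert u; decide

/-- every configuration of the net with the giant is given by colours -/
theorem exists_fil [Fintype D] (hx : IsC (coarse M π hπ) ∅ x) : ∃ τ, cfg M (fil π o τ) = x := by
  obtain ⟨χ, hχ⟩ := exists_cfg hx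
  refine ⟨fun c => χ (π c) + χ o + 1, funext fun d => ?_⟩
  have h1 : χ (π (M.cell d)) + χ (π (M.cell (M.rho d))) = x d := congrFun hχ d
  have h2 : ∀ c, fil π o (fun c => χ (π c) + χ o + 1) c = χ (π c) + χ o + 1 := by
    intro c
    unfold fil
    split_ifs with h
    · rw [h, z2, zero_add]
    · rfl
  unfold cfg
  rw [h2, h2, ← h1]
  have key : ∀ u v w : ZMod 2, u + w + 1 + (v + w + 1) = u + v := by decide
  exact key _ _ _

/-- number of the colourings of one configuration -/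
def nF [Fintype C] (M : CMap D C) (π : C → C') (o : C') : ℕ :=
  (Finset.univ.filter fun τ : C → ZMod 2 => cfg M (fil π o τ) = cfg M (fil π o 0)).card

theorem card_fib [Fintype C] (τ0 : C → ZMod 2) :
    (Finset.univ.filter fun τ : C → ZMod 2 => cfg M (fil π o τ) = cfg M (fil π o τ0)).card =
      nF M π o := by
  have h2 : ∀ (τ : C → ZMod 2) (c : C), fil π o (fun c => τ c + τ0 c) c =
      fil π o τ c + fil π o τ0 c + fil π o 0 c := by
    intro τ c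
    unfold fil
    split_ifs with h
    · decide
    · simp
  have h3 : ∀ (τ : C → ZMod 2) (d : D), cfg M (fil π o fun c => τ c + τ0 c) d =
      cfg M (fil π o τ) d + cfg M (fil π o τ0) d + cfg M (fil π o 0) d := by
    intro τ d
    unfold cfg
    rw [h2, h2]
    ring
  unfold nF
  refine Finset.card_bij' (fun τ _ => fun c => τ c + τ0 c) (fun τ _ => fun c => τ c + τ0 c)
    ?_ ?_ ?_ ?_
  · intro τ hτ
    have h1 := (Finset.mem_filter.1 hτ).2
    refine Finset.mem_filter.2 ⟨Finset.mem_univ _, funext fun d => ?_⟩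
    rw [h3, h1, z2, zero_add]
  · intro τ hτ
    have h1 := (Finset.mem_filter.1 hτ).2
    refine Finset.mem_filter.2 ⟨Finset.mem_univ _, funext fun d => ?_⟩
    rw [h3, h1]
    have key : ∀ u v : ZMod 2, u + v + u = v := by decide
    exact key _ _
  · intro τ _
    funext c
    show τ c + τ0 c + τ0 c = τ c
    rw [add_assoc, z2, add_zero]
  · intro τ _
    funext c
    show τ c + τ0 c + τ0 c = τ c
    rw [add_assoc, z2, add_zero]

/-- **averages over the configurations of the net with the giant** -/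
theorem sum_fil [Fintype D] [Fintype C] (T : Gt M π o) {A : Type} [AddCommMonoid A]
    (F : (D → ZMod 2) → A) :
    ∑ τ : C → ZMod 2, F (cfg M (fil π o τ)) = nF M π o • ∑ x ∈ ev (coarse M π hπ), F x := by
  rw [← Finset.sum_fiberwise_of_maps_to (s := (Finset.univ : Finset (C → ZMod 2)))
    (t := ev (coarse M π hπ)) (g := fun τ => cfg M (fil π o τ))
    (fun τ _ => mem_ev.2 (fil_isC T τ)), Finset.smul_sum]
  refine Finset.sum_congr rfl fun x hx => ?_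
  rw [mem_ev] at hx
  have e : ∀ τ ∈ (Finset.univ : Finset (C → ZMod 2)).filter (fun τ => cfg M (fil π o τ) = x),
      F (cfg M (fil π o τ)) = F x := fun χ hχ => by rw [(Finset.mem_filter.1 hχ).2]
  rw [Finset.sum_congr rfl e, Finset.sum_const]
  congr 1
  obtain ⟨τ0, h0⟩ := exists_fil (o := o) hx
  subst h0
  convert card_fib (M := M) (π := π) (o := o) τ0

theorem card_fil [Fintype D] [Fintype C] (T : Gt M π o) :
    nF M π o * (ev (coarse M π hπ)).card = 2 ^ Fintype.card C := by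
  have h := sum_fil (hπ := hπ) T (A := ℕ) fun _ => 1
  simp only [Finset.sum_const, Finset.card_univ, smul_eq_mul, mul_one] at h
  rw [← h, Fintype.card_fun, ZMod.card]

theorem ev_ne [Fintype D] : (ev M).card ≠ 0 := by
  refine (Finset.card_pos.2 ⟨cfg M 0, mem_ev.2 (cfg_isC _)⟩).ne'

/-- normalised form -/
theorem avg_fil [Fintype D] [Fintype C] (T : Gt M π o) (F : (D → ZMod 2) → ℝ≥0∞) :
    ((ev (coarse M π hπ)).card : ℝ≥0∞)⁻¹ * ∑ x ∈ ev (coarse M π hπ), F x =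
      ((2 : ℝ≥0∞) ^ Fintype.card C)⁻¹ * ∑ τ : C → ZMod 2, F (cfg M (fil π o τ)) := by
  have h1 := card_fil (hπ := hπ) T
  have h0 : (ev (coarse M π hπ)).card ≠ 0 := ev_ne
  have h2 : nF M π o ≠ 0 := fun h => by
    rw [h, zero_mul] at h1
    exact absurd h1 (by positivity)
  rw [sum_fil (hπ := hπ) T, nsmul_eq_mul]
  have h3 : (2 : ℝ≥0∞) ^ Fintype.card C = (nF M π o : ℝ≥0∞) * ((ev (coarse M π hπ)).card : ℝ≥0∞) := by
    exact_mod_cast h1.symm
  have t1 : (nF M π o : ℝ≥0∞) ≠ 0 := Nat.cast_ne_zero.2 h2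
  have t2 : (nF M π o : ℝ≥0∞) ≠ ∞ := ENNReal.natCast_ne_top _
  rw [h3, ENNReal.mul_inv (Or.inl t1) (Or.inl t2), ← mul_assoc, mul_comm _ (nF M π o : ℝ≥0∞),
    ← mul_assoc, ENNReal.mul_inv_cancel t1 t2, one_mul]

/-! ### the mean energies -/

/-- mean energy of the chords -/
def CHq [Fintype D] (M : CMap D C) (π : C → C') (hπ : ClsCon M π) (o : C') (a : D → ℂ) : ℝ≥0∞ :=
  ((ev (coarse M π hπ)).card : ℝ≥0∞)⁻¹ *
    ∑ x ∈ ev (coarse M π hπ), ∑ β ∈ chd M π hπ o x, en a β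

/-- mean energy of the big closed blocks -/
def CLq [Fintype D] (P U : Set ℂ) (M : CMap D C) (π : C → C') (hπ : ClsCon M π) (o : C')
    (δ : ℂ → ℂ → D) (k : ℝ) (a : D → ℂ) : ℝ≥0∞ :=
  ((ev (coarse M π hπ)).card : ℝ≥0∞)⁻¹ *
    ∑ x ∈ ev (coarse M π hπ), ∑ β ∈ clb P U M π hπ o δ k x, en a β

variable {ι : Type} {J : Finset ι} {Q : ι → Set ℂ} {k : ℝ}

/-- **the energy budget, normalised** -/
theorem budget_q [Fintype D] (A : Agr P U M δ κ) (T : Gt M π o) (F : FrF P U M π o δ)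
    {X : Set (ℂ × Bool)} (hX : ps X = P) (hQU : ∀ j ∈ J, Q j ⊆ U)
    (hQ : ∀ j ∈ J, ∀ p q r, Fc P (Q j) p q r → π (κ p) ≠ o)
    (ha : ∀ t : T3, Fc P U t.1 t.2.1 t.2.2 → a (gd δ t) = Nn t)
    {w : ℂ} (w3 : w ^ 3 = 1) (w1 : w ≠ 1) (wc : (starRingEnd ℂ) w = w ^ 2) (sa : Spin M w a)
    {B : Set ℂ} (hBU : B ⊆ U) (hB : ∀ p q r, Fc P B p q r → π (κ p) ≠ o) :
    Wf P B / 4 ≤ CHq M π hπ o a + ∑ j ∈ J, fam.Ph (Q j) X + Wf P (Nk J Q k ∩ U) +
      CLq P U M π hπ o δ k a := by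
  have h := budget_W (hπ := hπ) (k := k) A T F hX hQU hQ ha w3 w1 wc sa hBU hB
  set n : ℝ≥0∞ := ((ev (coarse M π hπ)).card : ℝ≥0∞) with hn
  have t1 : n ≠ 0 := Nat.cast_ne_zero.2 ev_ne
  have t2 : n ≠ ∞ := ENNReal.natCast_ne_top _
  have key : ∀ y : ℝ≥0∞, n⁻¹ * (n * y) = y := fun y => by
    rw [← mul_assoc, ENNReal.inv_mul_cancel t1 t2, one_mul]
  have h2 : n⁻¹ * (n * (Wf P B / 4)) ≤ _ := mul_le_mul_right h _
  rw [key, mul_add, mul_add, mul_add, key, key] at h2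
  exact h2

/-! ### fair coins -/

section coins

variable {α : Type*}

theorem sum_pow (S : Finset α) {A : Type*} [AddCommMonoid A] (F : ({v // v ∈ S} → ZMod 2) → A) :
    ∑ β ∈ S.powerset, F (fun v => if v.1 ∈ β then 1 else 0) = ∑ σ, F σ := by
  refine Finset.sum_bij' (fun β _ => fun v : {v // v ∈ S} => if v.1 ∈ β then (1 : ZMod 2) else 0)
    (fun σ _ => (Finset.univ.filter fun v : {v // v ∈ S} => σ v = 1).map
      (Function.Embedding.subtype _)) (fun β _ => Finset.mem_univ _) ?_ ?_ ?_ ?_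
  · intro σ _
    rw [Finset.mem_powerset]
    intro v hv
    obtain ⟨w, -, rfl⟩ := Finset.mem_map.1 hv
    exact w.2
  · intro β hβ
    ext v
    constructor
    · intro hv
      obtain ⟨w, hw, rfl⟩ := Finset.mem_map.1 hv
      have h1 : (if w.1 ∈ β then (1 : ZMod 2) else 0) = 1 := (Finset.mem_filter.1 hw).2
      by_contra hv'
      have h2 : ¬ (w.1 ∈ β) := hv'
      rw [if_neg h2] at h1
      exact absurd h1 (by decide)
    · intro hv
      exact Finset.mem_map.2 ⟨⟨v, Finset.mem_powerset.1 hβ hv⟩,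
        Finset.mem_filter.2 ⟨Finset.mem_univ _, if_pos hv⟩, rfl⟩
  · intro σ _
    funext v
    have e : v.1 ∈ (Finset.univ.filter fun v : {v // v ∈ S} => σ v = 1).map
        (Function.Embedding.subtype _) ↔ σ v = 1 := by
      simp
    by_cases h : σ v = 1
    · rw [if_pos (e.2 h), h]
    · rw [if_neg fun h' => h (e.1 h')]
      revert h
      generalize σ v = a
      revert a; decide
  · intro β _
    rfl

theorem pow_aux {m n : ℕ} (h : m ≤ n) (y : ℝ≥0∞) :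
    ((2 : ℝ≥0∞) ^ n)⁻¹ * (((2 ^ (n - m) : ℕ) : ℝ≥0∞) * y) = ((2 : ℝ≥0∞) ^ m)⁻¹ * y := by
  have t1 : ∀ m : ℕ, (2 : ℝ≥0∞) ^ m ≠ 0 := fun m => by positivity
  have t2 : ∀ m : ℕ, (2 : ℝ≥0∞) ^ m ≠ ∞ := fun m => ENNReal.pow_ne_top (by norm_num)
  have e : (2 : ℝ≥0∞) ^ n = 2 ^ m * 2 ^ (n - m) := by rw [← pow_add, Nat.add_sub_cancel' h]
  rw [e, ENNReal.mul_inv (Or.inl (t1 _)) (Or.inl (t2 _))]
  push_cast
  rw [mul_assoc, ← mul_assoc ((2 : ℝ≥0∞) ^ (n - m))⁻¹, ENNReal.inv_mul_cancel (t1 _) (t2 _), one_mul]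

/-- **averages over the coins = averages over the colours** -/
theorem avg_coin [Fintype C] {p : C → Prop} {W : Finset α} {K0 : C → α} {u : C → ZMod 2}
    (h1 : ∀ c, p c → K0 c ∈ W) (h2 : ∀ c c', p c → p c' → K0 c = K0 c' → c = c')
    {G : (C → ZMod 2) → ℝ≥0∞} (hG : ∀ τ τ', (∀ c, p c → τ c = τ' c) → G τ = G τ') :
    ((2 : ℝ≥0∞) ^ W.card)⁻¹ * ∑ b ∈ W.powerset, G (fun c => (if K0 c ∈ b then 1 else 0) + u c) =
      ((2 : ℝ≥0∞) ^ Fintype.card C)⁻¹ * ∑ τ, G τ := by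
  set G1 : ({c // p c} → ZMod 2) → ℝ≥0∞ := fun σ => G fun c => if h : p c then σ ⟨c, h⟩ else 0
    with hG1
  have hGG : ∀ τ : C → ZMod 2, G τ = G1 fun i => τ i.1 := by
    intro τ
    refine hG _ _ fun c hc => ?_
    rw [dif_pos hc]
  -- the colours
  have s1 : ∑ τ, G τ = (2 ^ (Fintype.card C - Fintype.card {c // p c})) • ∑ σ, G1 σ := by
    have h := FinCx811.sum_comp_inj (B := ZMod 2)
      (Subtype.val_injective : Function.Injective (Subtype.val : {c // p c} → C)) G1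
    rw [ZMod.card] at h
    refine (Finset.sum_congr rfl fun τ _ => hGG τ).trans ?_
    convert h
  -- the coins
  set j : {c // p c} → {v // v ∈ W} := fun i => ⟨K0 i.1, h1 i.1 i.2⟩ with hj
  have hjinj : Function.Injective j := fun i i' h =>
    Subtype.ext (h2 _ _ i.2 i'.2 (congrArg Subtype.val h))
  have s2 : ∑ b ∈ W.powerset, G (fun c => (if K0 c ∈ b then 1 else 0) + u c) =
      (2 ^ (W.card - Fintype.card {c // p c})) • ∑ σ, G1 σ := by
    have h := FinCx811.sum_comp_inj (B := ZMod 2) hjinj fun σ => G1 fun i => σ i + u i.1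
    rw [ZMod.card, Fintype.card_coe] at h
    have h3 := sum_pow W fun η : {v // v ∈ W} → ZMod 2 => G1 fun i => η (j i) + u i.1
    have h4 : ∑ σ : {c // p c} → ZMod 2, G1 (fun i => σ i + u i.1) = ∑ σ, G1 σ :=
      Equiv.sum_comp (Equiv.addRight fun i : {c // p c} => u i.1) G1
    rw [← h4]
    refine Eq.trans ?_ (h3.trans ?_)
    · refine Finset.sum_congr rfl fun b _ => ?_
      rw [hGG]
    · convert h
  have c1 : Fintype.card {c // p c} ≤ Fintype.card C := Fintype.card_subtype_le _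
  have c2 : Fintype.card {c // p c} ≤ W.card := by
    have := Fintype.card_le_of_injective _ hjinj
    rwa [Fintype.card_coe] at this
  rw [s1, s2, nsmul_eq_mul, nsmul_eq_mul, pow_aux c1, pow_aux c2]

/-- one stage of an exploration: the giant `o` contains the revealed cells, the colours of the other
cells are fair coins, the cells of the giant next to them have the colour `1` -/
structure Stg (P U : Set ℂ) (M : CMap D C) (δ : ℂ → ℂ → D) (V : Finset α)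
    (χ : Finset α → C → ZMod 2) (R b : Finset α) (π : C → C') (o : C') : Prop where
  gt : Gt M π o
  fr : FrF P U M π o δ
  fair : ∃ (K0 : C → α) (u : C → ZMod 2), (∀ c, π c ≠ o → K0 c ∈ V \ R) ∧
    (∀ c c', π c ≠ o → π c' ≠ o → K0 c = K0 c' → c = c') ∧
    ∀ b', b' ⊆ V → ∀ c, π c ≠ o → χ b' c = (if K0 c ∈ b' then 1 else 0) + u c
  rim : ∀ b', b' ⊆ V → b' ∩ R = b ∩ R → Rim M π o (χ b')

variable {V R : Finset α} {χ : Finset α → C → ZMod 2} {b : Finset α}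

/-- energy of the big blocks of the real configuration -/
def Hb [Fintype D] (P U : Set ℂ) (M : CMap D C) (δ : ℂ → ℂ → D) (k : ℝ) (a : D → ℂ)
    (χ : Finset α → C → ZMod 2) (b : Finset α) : ℝ≥0∞ :=
  ∑ β ∈ bigB P U M δ k (cfg M (χ b)), en a β

/-- mean over the fresh coins -/
def av (V R : Finset α) (H : Finset α → ℝ≥0∞) (b : Finset α) : ℝ≥0∞ :=
  ((2 : ℝ≥0∞) ^ (V \ R).card)⁻¹ * ∑ b' ∈ (V \ R).powerset, H (b' ∪ (b ∩ R))

theorem fil_congr {τ τ' : C → ZMod 2} (h : ∀ c, π c ≠ o → τ c = τ' c) :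
    fil π o τ = fil π o τ' := by
  funext c
  unfold fil
  split_ifs with h1
  · rfl
  · exact h c h1

/-- **the big closed blocks of a stage** -/
theorem Stg.cl_le [Fintype D] [Fintype C] (A : Agr P U M δ κ)
    (S : Stg P U M δ V χ R b π o) (hb : b ⊆ V) :
    CLq P U M π hπ o δ k a ≤ av V R (Hb P U M δ k a χ) b := by
  obtain ⟨K0, u, f1, f2, f3⟩ := S.fair
  have hG : ∀ τ τ' : C → ZMod 2, (∀ c, π c ≠ o → τ c = τ' c) →
      ∑ β ∈ clb P U M π hπ o δ k (cfg M (fil π o τ)), en a β =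
      ∑ β ∈ clb P U M π hπ o δ k (cfg M (fil π o τ')), en a β := by
    intro τ τ' h
    rw [fil_congr h]
  unfold CLq av
  rw [avg_fil S.gt (fun x => ∑ β ∈ clb P U M π hπ o δ k x, en a β),
    ← avg_coin (u := u) f1 f2 hG]
  gcongr with b' hb'
  rw [Finset.mem_powerset] at hb'
  have h1 : b' ∪ (b ∩ R) ⊆ V := Finset.union_subset (hb'.trans Finset.sdiff_subset)
    (Finset.inter_subset_left.trans hb)
  have h2 : (b' ∪ (b ∩ R)) ∩ R = b ∩ R := by
    ext y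
    simp only [Finset.mem_inter, Finset.mem_union]
    constructor
    · rintro ⟨h3 | h3, h4⟩
      · exact absurd h4 (Finset.mem_sdiff.1 (hb' h3)).2
      · exact h3
    · exact fun h3 => ⟨Or.inr h3, h3.2⟩
  have h3 : fil π o (fun c => (if K0 c ∈ b' then 1 else 0) + u c) =
      fil π o (χ (b' ∪ (b ∩ R))) := by
    refine fil_congr fun c hc => ?_
    rw [f3 _ h1 c hc]
    congr 1
    refine if_congr ?_ rfl rfl
    have h4 := (Finset.mem_sdiff.1 (f1 c hc)).2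
    simp only [Finset.mem_union, Finset.mem_inter]
    exact ⟨Or.inl, fun h => h.elim id fun h => absurd h.2 h4⟩
  rw [h3]
  exact clb_le A S.gt S.fr (S.rim _ h1 h2)

/-- strong Markov property for means -/
theorem sum_av {Jf : Finset α → Finset α} (hJ : IsStop V Jf) (H : Finset α → ℝ≥0∞) :
    ∑ b ∈ V.powerset, av V (Jf b) H b = ∑ b ∈ V.powerset, H b := by
  rw [sum_stop hJ, sum_stop hJ]
  refine Finset.sum_congr rfl fun x hx => ?_
  obtain ⟨hx1, hx2⟩ := outc_sub hJ hx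
  have e : ∀ b ∈ (V \ x.1).powerset, av V (Jf (b ∪ x.2)) H (b ∪ x.2) =
      ((2 : ℝ≥0∞) ^ (V \ x.1).card)⁻¹ * ∑ b' ∈ (V \ x.1).powerset, H (b' ∪ x.2) := by
    intro b hb
    rw [Finset.mem_powerset] at hb
    have hs : b ∪ x.2 ⊆ V := Finset.union_subset (hb.trans Finset.sdiff_subset) (hx2.trans hx1)
    have h1 := (outc_iff hJ hx hs).2 (by
      ext y
      simp only [Finset.mem_inter, Finset.mem_union]
      constructor
      · rintro ⟨h1 | h1, h2⟩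
        · exact absurd h2 (Finset.mem_sdiff.1 (hb h1)).2
        · exact h1
      · intro h1; exact ⟨Or.inr h1, hx2 h1⟩)
    have h2 : Jf (b ∪ x.2) = x.1 := congrArg Prod.fst h1
    have h3 : (b ∪ x.2) ∩ Jf (b ∪ x.2) = x.2 := congrArg Prod.snd h1
    unfold av
    rw [h3, h2]
  rw [Finset.sum_congr rfl e, Finset.sum_const, Finset.card_powerset, nsmul_eq_mul]
  have t1 : ∀ m : ℕ, (2 : ℝ≥0∞) ^ m ≠ 0 := fun m => by positivity
  have t2 : ∀ m : ℕ, (2 : ℝ≥0∞) ^ m ≠ ∞ := fun m => ENNReal.pow_ne_top (by norm_num)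
  push_cast
  rw [← mul_assoc, ENNReal.mul_inv_cancel (t1 _) (t2 _), one_mul]

/-- **THE GLUE, quenched** -/
theorem glueQ [Fintype D] [Fintype C] {Jf : Finset α → Finset α} (hJ : IsStop V Jf)
    (A : Agr P U M δ κ) {g CL : Finset α → ℝ≥0∞} (hg : ∀ b, g b ≤ 1)
    (h : ∀ b, b ⊆ V → g b ≠ 0 → ∃ (C' : Type) (π : C → C') (hπ : ClsCon M π) (o : C'),
      Stg P U M δ V χ (Jf b) b π o ∧ CL b ≤ CLq P U M π hπ o δ k a) :
    ∑ b ∈ V.powerset, g b * CL b ≤ ∑ b ∈ V.powerset, Hb P U M δ k a χ b := by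
  refine le_trans ?_ (sum_av hJ _).le
  refine Finset.sum_le_sum fun b hb => ?_
  rw [Finset.mem_powerset] at hb
  by_cases h0 : g b = 0
  · rw [h0, zero_mul]; exact zero_le
  · obtain ⟨C', π, hπ, o, S, h1⟩ := h b hb h0
    calc g b * CL b ≤ 1 * CL b := by gcongr; exact hg b
      _ = CL b := one_mul _
      _ ≤ _ := h1.trans (S.cl_le A hb)

end coins

/-! ### the annealed form -/

open Crest.Agent.R143.PP0x831 Crest.Agent.R143.DelGx806 Crest.Agent.R143.DelRx806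
  Crest.Agent.R143.JColx54 Crest.Agent.R143.FinCx811 Crest.Agent.R143.SmallAx304
  Crest.Agent.R143.Dblx609 Crest.Agent.R143.Dbl2x609 Crest.Agent.R143.MassPx304
  Crest.Agent.R143.Frame10x395

/-- the quenched hypothesis at the set `A` of the points in the box -/
def Qg (k : ℝ) (U P : Set ℂ) (A : Finset ℂ) (Φ : Set (ℂ × Bool) → ℝ≥0∞) : Prop :=
  (∀ β ∈ A.powerset, Φ (paint A β) = 0) ∨
  ∃ (hS : GP (A : Set ℂ)) (h3 : 3 ≤ A.card), (∀ v ∈ A, v ∈ U → ¬ OnHull A v) ∧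
    ∃ (e0 : D0 A) (a : D0 A → ℂ),
      (∀ t : T3, Fc P U t.1 t.2.1 t.2.2 → a (gd (dl e0) t) = Nn t) ∧
    ∃ Jf : Finset ℂ → Finset ℂ, IsStop A Jf ∧
      ∀ β ∈ A.powerset, Φ (paint A β) ≠ 0 →
        ∃ (C' : Type) (π : Cs hS → C') (hπ : ClsCon (rc0 hS) π) (o : C'),
          Stg P U (rc0 hS) (dl e0) A (chiS hS h3) (Jf β) β π o ∧
          Φ (paint A β) ≤ CLq P U (rc0 hS) π hπ o (dl e0) k a

/-- the mean over the colours of the big blocks of the real configuration -/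
theorem real_le {A : Finset ℂ} (hS : GP (A : Set ℂ)) (h3 : 3 ≤ A.card) {δ : ℂ → ℂ → D0 A}
    {a : D0 A → ℂ} {E : ℝ≥0∞}
    (h : ∑ x ∈ ev (rc0 hS), ∑ β ∈ bigB P U (rc0 hS) δ k x, ENNReal.ofReal (‖∑ g ∈ β, a g‖ ^ 2) ≤
      ((ev (rc0 hS)).card : ℝ≥0∞) * E) :
    ((2 : ℝ≥0∞) ^ A.card)⁻¹ * ∑ β ∈ A.powerset, Hb P U (rc0 hS) δ k a (chiS hS h3) β ≤ E := by
  have e1 := avg_one hS h3 fun χ => ∑ β ∈ bigB P U (rc0 hS) δ k (cfg (rc0 hS) χ), en a β
  have e2 := sum_cfg (M := rc0 hS) fun x => ∑ β ∈ bigB P U (rc0 hS) δ k x, en a β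
  have e3 := Giantsx421.card_col (M := rc0 hS)
  have t1 : ∀ m : ℕ, (2 : ℝ≥0∞) ^ m ≠ 0 := fun m => by positivity
  have t2 : ∀ m : ℕ, (2 : ℝ≥0∞) ^ m ≠ ∞ := fun m => ENNReal.pow_ne_top (by norm_num)
  have e4 : (nK (rc0 hS) : ℝ≥0∞) * ((ev (rc0 hS)).card : ℝ≥0∞) = 2 ^ Fintype.card (Cs hS) := by
    exact_mod_cast e3
  unfold Hb
  rw [e1, e2, nsmul_eq_mul]
  calc ((2 : ℝ≥0∞) ^ Fintype.card (Cs hS))⁻¹ * ((nK (rc0 hS) : ℝ≥0∞) *
        ∑ x ∈ ev (rc0 hS), ∑ β ∈ bigB P U (rc0 hS) δ k x, en a β)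
      ≤ ((2 : ℝ≥0∞) ^ Fintype.card (Cs hS))⁻¹ * ((nK (rc0 hS) : ℝ≥0∞) *
        (((ev (rc0 hS)).card : ℝ≥0∞) * E)) := by gcongr; exact h
    _ = E := by
        rw [← mul_assoc (nK (rc0 hS) : ℝ≥0∞), e4, ← mul_assoc, ENNReal.inv_mul_cancel (t1 _) (t2 _),
          one_mul]

/-- quenched mean over the colours of the points in the box `B` -/
def mq (ε : ℝ) (B : Set ℂ) (Φ : Set (ℂ × Bool) → ℝ≥0∞) (ω : Sample) : ℝ≥0∞ :=
  ((2 : ℝ≥0∞) ^ (Ap ε B ω).card)⁻¹ * ∑ β ∈ (Ap ε B ω).powerset, Φ (paint (Ap ε B ω) β)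

theorem mq_add (ε : ℝ) (B : Set ℂ) (Φ Ψ : Set (ℂ × Bool) → ℝ≥0∞) (ω : Sample) :
    mq ε B (fun X => Φ X + Ψ X) ω = mq ε B Φ ω + mq ε B Ψ ω := by
  unfold mq
  rw [Finset.sum_add_distrib, mul_add]

theorem mq_mul (ε : ℝ) (B : Set ℂ) (c : ℝ≥0∞) (Φ : Set (ℂ × Bool) → ℝ≥0∞) (ω : Sample) :
    mq ε B (fun X => c * Φ X) ω = c * mq ε B Φ ω := by
  unfold mq
  rw [← Finset.mul_sum, mul_left_comm]

theorem mq_mono {ε : ℝ} {B : Set ℂ} {Φ Ψ : Set (ℂ × Bool) → ℝ≥0∞} {ω : Sample}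
    (h : ∀ β ∈ (Ap ε B ω).powerset, Φ (paint (Ap ε B ω) β) ≤ Ψ (paint (Ap ε B ω) β)) :
    mq ε B Φ ω ≤ mq ε B Ψ ω := by
  unfold mq
  exact mul_le_mul_right (Finset.sum_le_sum h) _

theorem mq_qav {ε : ℝ} (hε : 0 < ε) {B : Set ℂ} (hB : Bornology.IsBounded B)
    (Φ : Set (ℂ × Bool) → ℝ≥0∞) :
    ∀ᵐ ω ∂sampleLaw, qav Janx304.dec ε B Φ ω = mq ε B Φ ω := by
  filter_upwards [ae_injω hε] with ω hi
  exact qav_bool hi (coe_Ap hε hB ω) Φ

/-- **quenched bounds with a majorant `R` give annealed bounds** (no measurability of `Φ`) -/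
theorem lint_le_mq {ε : ℝ} (hε : 0 < ε) {B : Set ℂ} (hB : Bornology.IsBounded B)
    {Φ : Set (ℂ × Bool) → ℝ≥0∞} {R : Sample → ℝ≥0∞} (h : ∀ᵐ ω ∂sampleLaw, mq ε B Φ ω ≤ R ω) :
    ∫⁻ ω, Φ (PP0x831.cfg ε ω ∩ ovM Bool B) ∂sampleLaw ≤ ∫⁻ ω, R ω ∂sampleLaw := by
  refine (lint_le_qav (d := Janx304.dec) ε B Φ).trans (lintegral_mono_ae ?_)
  filter_upwards [mq_qav hε hB Φ, h] with ω h1 h2
  rw [h1]
  exact h2

/-- equality for measurable functionals -/
theorem lint_eq_mq {ε : ℝ} (hε : 0 < ε) {B : Set ℂ} (hBm : MeasurableSet B)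
    (hB : Bornology.IsBounded B) {Φ : Set (ℂ × Bool) → ℝ≥0∞} (hΦ : Poisx304.FM Φ) :
    ∫⁻ ω, mq ε B Φ ω ∂sampleLaw = ∫⁻ ω, Φ (PP0x831.cfg ε ω ∩ ovM Bool B) ∂sampleLaw := by
  refine Eq.trans (lintegral_congr_ae ?_) (lint_eq_qav Janx304.measurable_dec hε hBm hB hΦ)
  filter_upwards [mq_qav hε hB Φ] with ω h1
  exact h1.symm

theorem mq_meas {ε : ℝ} (hε : 0 < ε) {B : Set ℂ} (hBm : MeasurableSet B)
    (hB : Bornology.IsBounded B) {Φ : Set (ℂ × Bool) → ℝ≥0∞} (hΦ : Poisx304.FM Φ) :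
    AEMeasurable (mq ε B Φ) sampleLaw :=
  ⟨qav Janx304.dec ε B Φ, qav_measω Janx304.measurable_dec hε hBm hB hΦ, by
    filter_upwards [mq_qav hε hB Φ] with ω h1
    exact h1.symm⟩

/-- **THE GLUE, quenched form.** `E ε` is measurable, `∫ E ε → 0`, and depends only on `k` and `U`;
any functional `Φ` of the configuration in a box `B` which is, where it does not vanish, at most
the mean energy of the big closed blocks of a stage of an exploration has quenched mean `≤ E ε`. -/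
theorem glueM {k : ℝ} (hk : 0 < k) {U : Set ℂ} (hU : Bornology.IsBounded U) :
    ∃ E : ℝ → Sample → ℝ≥0∞, (∀ ε, 0 < ε → Measurable (E ε)) ∧
      Tendsto (fun ε : ℝ => ∫⁻ ω, E ε ω ∂sampleLaw) (𝓝[>] 0) (𝓝 0) ∧
      ∀ ε : ℝ, 0 < ε → ∀ B : Set ℂ, Bornology.IsBounded B → U ⊆ B →
      ∀ Φ : Set (ℂ × Bool) → ℝ≥0∞, (∀ᵐ ω ∂sampleLaw, Qg k U (points ε ω) (Ap ε B ω) Φ) →
        ∀ᵐ ω ∂sampleLaw, mq ε B Φ ω ≤ E ε ω := by
  obtain ⟨E, h1, h2, -, h4⟩ := sum_rule_meas hk hU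
  refine ⟨E, h1, h2, ?_⟩
  intro ε hε B hB hUB Φ hQ
  have hGP : ∀ᵐ ω ∂sampleLaw, GP (points ε ω) := by
    filter_upwards [PoisM3x930.m3a ε hε] with ω h using h.1
  filter_upwards [hGP, hQ] with ω hP hq
  have hA := coe_Ap hε hB ω
  have hPS : ∀ z ∈ U, z ∈ points ε ω ↔ z ∈ ((Ap ε B ω : Finset ℂ) : Set ℂ) := by
    intro z hz
    rw [hA]
    exact ⟨fun h => ⟨h, hUB hz⟩, fun h => h.1⟩
  unfold mq
  rcases hq with hq | ⟨hS, h3, hin, e0, a, ha, Jf, hJ, hst⟩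
  · rw [Finset.sum_eq_zero fun β hβ => hq β hβ, mul_zero]
    exact zero_le
  · have A := agr_restr (agr0 hP hS hPS hin e0) e0
    have h5 := h4 ε ω (D0 (Ap ε B ω)) (Cs hS) (rc0 hS) (dl e0) _ A a ha
    refine le_trans (mul_le_mul_right ?_ _) (real_le hS h3 h5)
    have h6 := glueQ (k := k) (a := a) (V := Ap ε B ω) (χ := chiS hS h3) hJ A
      (g := fun β => if Φ (paint (Ap ε B ω) β) = 0 then 0 else 1)
      (CL := fun β => Φ (paint (Ap ε B ω) β)) (fun β => by split_ifs <;> simp)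
      (fun β hβ h0 => hst β (Finset.mem_powerset.2 hβ) (by
        intro h; exact h0 (if_pos h)))
    refine le_trans (Finset.sum_le_sum fun β _ => ?_) h6
    split_ifs with h
    · rw [h, mul_zero]
    · rw [one_mul]

/-- **THE GLUE, annealed form** -/
theorem glue {k : ℝ} (hk : 0 < k) {U : Set ℂ} (hU : Bornology.IsBounded U) :
    ∃ e : ℝ → ℝ≥0∞, Tendsto e (𝓝[>] 0) (𝓝 0) ∧
      ∀ ε : ℝ, 0 < ε → ∀ B : Set ℂ, Bornology.IsBounded B → U ⊆ B →
      ∀ Φ : Set (ℂ × Bool) → ℝ≥0∞, (∀ᵐ ω ∂sampleLaw, Qg k U (points ε ω) (Ap ε B ω) Φ) →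
        ∫⁻ ω, Φ (PP0x831.cfg ε ω ∩ ovM Bool B) ∂sampleLaw ≤ e ε := by
  obtain ⟨E, -, h2, h3⟩ := glueM hk hU
  exact ⟨_, h2, fun ε hε B hB hUB Φ hQ => lint_le_mq hε hB (h3 ε hε B hB hUB Φ hQ)⟩

/-! ### the budget with the glue -/

theorem ub_bdd (z : ℂ) (b s : ℝ) : Bornology.IsBounded (HBudx136.Ub z b s) := by
  refine (Metric.isBounded_closedBall (x := (z - ((s : ℝ) : ℂ) * (1 + Complex.I)))
    (r := 2 * |b + 2 * s|)).subset ?_
  intro w hw
  obtain ⟨h1, h2, h3, h4⟩ := hw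
  set v : ℂ := z - ((s : ℝ) : ℂ) * (1 + Complex.I) with hv
  rw [Metric.mem_closedBall, dist_eq_norm]
  refine (Complex.norm_le_abs_re_add_abs_im _).trans ?_
  have h5 : |(w - v).re| ≤ |b + 2 * s| := by
    rw [Complex.sub_re, abs_of_nonneg (by linarith)]
    exact le_trans (by linarith) (le_abs_self _)
  have h6 : |(w - v).im| ≤ |b + 2 * s| := by
    rw [Complex.sub_im, abs_of_nonneg (by linarith)]
    exact le_trans (by linarith) (le_abs_self _)
  linarith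

/-- **THE BUDGET.** `g, CH, CL` functionals of the configuration in the box `B ⊇ Ub z b s`, `g`
measurable with values in `[0, 1]`; `R` a measurable majorant of the quenched mean of `g * CH` -/
theorem hbudM (z : ℂ) {b s δ : ℝ} (hb : 0 < b) (hs : 0 < s) (hδ : 0 < δ)
    (Lw : HBudx136.LLN Trans3x690.famF Trans3x690.wD) (La : HBudx136.LLN fam Trans3x690.aD) :
    ∃ k0 : ℝ, 0 < k0 ∧ ∀ k : ℝ, 0 < k → k ≤ k0 → ∀ᶠ ε : ℝ in 𝓝[>] 0,
    ∀ (B : Set ℂ), MeasurableSet B → Bornology.IsBounded B → HBudx136.Ub z b s ⊆ B →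
    ∀ g CH CL : Set (ℂ × Bool) → ℝ≥0∞, Poisx304.FM g → (∀ X, g X ≤ 1) →
      (∀ᵐ ω ∂sampleLaw, g (PP0x831.cfg ε ω ∩ ovM Bool B) ≠ 0 →
        Wf (ps (PP0x831.cfg ε ω)) (sq z b) / 4 ≤ CH (PP0x831.cfg ε ω ∩ ovM Bool B) +
          CL (PP0x831.cfg ε ω ∩ ovM Bool B) + fam.Ph (sq z b) (PP0x831.cfg ε ω) +
          Wf (ps (PP0x831.cfg ε ω)) (Nk (Finset.univ : Finset Unit) (fun _ => sq z b) k ∩
            HBudx136.Ub z b s)) →
      (∀ᵐ ω ∂sampleLaw, Qg k (HBudx136.Ub z b s) (points ε ω) (Ap ε B ω) fun X => g X * CL X) →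
      ∀ R : Sample → ℝ≥0∞, AEMeasurable R sampleLaw →
      (∀ᵐ ω ∂sampleLaw, mq ε B (fun X => g X * CH X) ω ≤ R ω) →
      ENNReal.ofReal (Trans3x690.wD / 4 * b ^ 2) *
          ∫⁻ ω, g (PP0x831.cfg ε ω ∩ ovM Bool B) ∂sampleLaw ≤
        ∫⁻ ω, R ω ∂sampleLaw +
        ENNReal.ofReal (Trans3x690.aD * b ^ 2 + Trans3x690.wD * (4 * s * b + 4 * s ^ 2) + δ) *
          ∫⁻ ω, g (PP0x831.cfg ε ω ∩ ovM Bool B) ∂sampleLaw + ENNReal.ofReal δ := by
  obtain ⟨k0, hk0, h⟩ := HBudx136.hbud Lw La z hb hs (half_pos hδ)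
  refine ⟨k0, hk0, fun k hk hkk => ?_⟩
  obtain ⟨E, m1, m2, m3⟩ := glueM hk (ub_bdd z b s)
  have hδ' : (0 : ℝ≥0∞) < ENNReal.ofReal (δ / 2) := ENNReal.ofReal_pos.2 (half_pos hδ)
  filter_upwards [h k hk hkk, m2.eventually (ge_mem_nhds hδ'), eventually_mem_nhdsWithin]
    with ε h1 h2 hε
  have hε : 0 < ε := hε
  intro B hBm hB hUB g CH CL hg hg1 hp hQ R hR hRm
  have hgm : Measurable fun ω => g (PP0x831.cfg ε ω ∩ ovM Bool B) :=
    meas_mcf Janx304.measurable_dec hε hBm hB (F := g) hg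
  have h3 := h1 (fun ω => g (PP0x831.cfg ε ω ∩ ovM Bool B))
    (fun ω => CH (PP0x831.cfg ε ω ∩ ovM Bool B) + CL (PP0x831.cfg ε ω ∩ ovM Bool B))
    hgm.aemeasurable (fun ω => hg1 _) hp
  have h4 : ∫⁻ ω, g (PP0x831.cfg ε ω ∩ ovM Bool B) * (CH (PP0x831.cfg ε ω ∩ ovM Bool B) +
      CL (PP0x831.cfg ε ω ∩ ovM Bool B)) ∂sampleLaw ≤
      ∫⁻ ω, R ω ∂sampleLaw + ENNReal.ofReal (δ / 2) := by
    have h5 := lint_le_mq hε hB (Φ := fun X => g X * (CH X + CL X)) (R := fun ω => R ω + E ε ω)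
      (by
        filter_upwards [hRm, m3 ε hε B hB hUB _ hQ] with ω h6 h7
        have h8 : mq ε B (fun X => g X * (CH X + CL X)) ω =
            mq ε B (fun X => g X * CH X) ω + mq ε B (fun X => g X * CL X) ω := by
          rw [← mq_add]
          simp only [mul_add]
        rw [h8]
        exact add_le_add h6 h7)
    refine h5.trans ?_
    rw [lintegral_add_left' hR]
    gcongr
  refine h3.trans ?_
  have hw := Trans3x690.wD_nonneg
  have ha := Trans3x690.aD_nonneg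
  calc _ ≤ (∫⁻ ω, R ω ∂sampleLaw + ENNReal.ofReal (δ / 2)) +
        ENNReal.ofReal (Trans3x690.aD * b ^ 2 + Trans3x690.wD * (4 * s * b + 4 * s ^ 2) + δ) *
          ∫⁻ ω, g (PP0x831.cfg ε ω ∩ ovM Bool B) ∂sampleLaw + ENNReal.ofReal (δ / 2) := by
        gcongr
        linarith
    _ = ∫⁻ ω, R ω ∂sampleLaw +
        ENNReal.ofReal (Trans3x690.aD * b ^ 2 + Trans3x690.wD * (4 * s * b + 4 * s ^ 2) + δ) *
          ∫⁻ ω, g (PP0x831.cfg ε ω ∩ ovM Bool B) ∂sampleLaw +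
          (ENNReal.ofReal (δ / 2) + ENNReal.ofReal (δ / 2)) := by ring
    _ = _ := by
        rw [← ENNReal.ofReal_add (by positivity) (by positivity), add_halves]

end Crest.Agent.R143.HGluex136
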