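import Crest.Agent.R143.Asm2_414
import Crest.Agent.R143.HGlue_136

/-!
# Row 143 (S0194), block H, final interface (helper414): quenched means with measurable majorants

All inputs are functionals of the painted configuration in a box `B`; an input `X` is given by a
measurable majorant `R` of the quenched mean of `g * X` (`HGluex136.mq`), so no measurability of the
energies is needed (136, note 4091).

* `BudM` : the budget at one mesh: box `B`, weight `g`, chord energy `CH`, closed blocks `CL`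
* `sat_of_smallM` : `Sat` from majorants `R` of `g * CH` with `∫ R ≤ δ ∫ g`
* `Maj` : majorant; `ValsM`, `InpM` : the inputs of block H; `satM`, `bodyM` : `InpM ⟹ Sat ⟹ Body`
-/

set_option autoImplicit false

noncomputable section

open scoped Classical

namespace Crest.Agent.R143.Asm3x414

open MeasureTheory Filter Topology
open Crest.ProbabilityR.Voronoi
open Crest.Agent.R143.B0x346 Crest.Agent.R143.SumScx302 Crest.Agent.R143.Mass1x302
  Crest.Agent.R143.Mass2x302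
  Crest.Agent.R143.PP0x831 Crest.Agent.R143.Trans2x690 Crest.Agent.R143.Trans3x690
  Crest.Agent.R143.Trans5x690 Crest.Agent.R143.Bud3x432 Crest.Agent.R143.HBudx136
  Crest.Agent.R143.HGluex136 Crest.Agent.R143.JColx54 Crest.Agent.R143.MassPx304
  Crest.Agent.R143.FinCx811 Crest.Agent.R143.Dblx609 Crest.Agent.R143.Dbl2x609
  Crest.Agent.R143.SmallAx304
open Crest.Agent.R143.Spinex422 (Body)
open scoped ENNReal

/-- mean of the weight -/
def Mg (ε : ℝ) (B : Set ℂ) (g : Set (ℂ × Bool) → ℝ≥0∞) : ℝ≥0∞ :=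
  ∫⁻ ω, g (cfg ε ω ∩ ovM Bool B) ∂sampleLaw

/-- the budget at one mesh: `g` weight, `CH` chord energy, `CL` energy of the big closed blocks, all
functionals of the configuration in the box `B` -/
structure BudM (z : ℂ) (b s k ε : ℝ) (B : Set ℂ) (g CH CL : Set (ℂ × Bool) → ℝ≥0∞) : Prop where
  Bm : MeasurableSet B
  Bb : Bornology.IsBounded B
  UB : Ub z b s ⊆ B
  gm : Poisx304.FM g
  g1 : ∀ X, g X ≤ 1
  bud : ∀ᵐ ω ∂sampleLaw, g (cfg ε ω ∩ ovM Bool B) ≠ 0 →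
    Wf (ps (cfg ε ω)) (sq z b) / 4 ≤ CH (cfg ε ω ∩ ovM Bool B) + CL (cfg ε ω ∩ ovM Bool B) +
      fam.Ph (sq z b) (cfg ε ω) +
      Wf (ps (cfg ε ω)) (Nk (Finset.univ : Finset Unit) (fun _ => sq z b) k ∩ Ub z b s)
  big : ∀ᵐ ω ∂sampleLaw, Qg k (Ub z b s) (points ε ω) (Ap ε B ω) fun X => g X * CL X

/-- `R` is a measurable majorant of the quenched mean of `g * X` -/
structure Maj (ε : ℝ) (B : Set ℂ) (g X : Set (ℂ × Bool) → ℝ≥0∞) (R : Sample → ℝ≥0∞) : Prop where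
  me : AEMeasurable R sampleLaw
  le : ∀ᵐ ω ∂sampleLaw, mq ε B (fun Y => g Y * X Y) ω ≤ R ω

theorem Maj.add {ε : ℝ} {B : Set ℂ} {g X Y : Set (ℂ × Bool) → ℝ≥0∞} {R T : Sample → ℝ≥0∞}
    (h : Maj ε B g X R) (h' : Maj ε B g Y T) :
    Maj ε B g (fun Z => X Z + Y Z) (fun ω => R ω + T ω) := by
  refine ⟨h.me.add h'.me, ?_⟩
  filter_upwards [h.le, h'.le] with ω h1 h2
  have e : (fun Z => g Z * (X Z + Y Z)) = fun Z => g Z * X Z + g Z * Y Z := by
    funext Z; rw [mul_add]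
  rw [e, mq_add]
  exact add_le_add h1 h2

theorem Maj.mul {ε : ℝ} {B : Set ℂ} {g X : Set (ℂ × Bool) → ℝ≥0∞} {R : Sample → ℝ≥0∞}
    (c : ℝ≥0∞) (h : Maj ε B g X R) : Maj ε B g (fun Z => c * X Z) (fun ω => c * R ω) := by
  refine ⟨h.me.const_mul c, ?_⟩
  filter_upwards [h.le] with ω h1
  have e : (fun Z => g Z * (c * X Z)) = fun Z => c * (g Z * X Z) := by
    funext Z; ring
  rw [e, mq_mul]
  gcongr

/-- monotone in the functional, only where `g ≠ 0` -/
theorem Maj.mono {ε : ℝ} {B : Set ℂ} {g X Y : Set (ℂ × Bool) → ℝ≥0∞} {R : Sample → ℝ≥0∞}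
    (h : Maj ε B g Y R) (hXY : ∀ᵐ ω ∂sampleLaw, ∀ β ∈ (Ap ε B ω).powerset,
      g (paint (Ap ε B ω) β) ≠ 0 → X (paint (Ap ε B ω) β) ≤ Y (paint (Ap ε B ω) β)) :
    Maj ε B g X R := by
  refine ⟨h.me, ?_⟩
  filter_upwards [h.le, hXY] with ω h1 h2
  refine (mq_mono fun β hβ => ?_).trans h1
  by_cases h0 : g (paint (Ap ε B ω) β) = 0
  · rw [h0, zero_mul, zero_mul]
  · exact mul_le_mul_right (h2 β hβ h0) _

theorem Maj.mono_R {ε : ℝ} {B : Set ℂ} {g X : Set (ℂ × Bool) → ℝ≥0∞} {R T : Sample → ℝ≥0∞}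
    (h : Maj ε B g X R) (hT : AEMeasurable T sampleLaw) (hRT : ∀ᵐ ω ∂sampleLaw, R ω ≤ T ω) :
    Maj ε B g X T := by
  refine ⟨hT, ?_⟩
  filter_upwards [h.le, hRT] with ω h1 h2
  exact h1.trans h2

/-- a constant bound where `g ≠ 0` -/
theorem Maj.const {ε : ℝ} (hε : 0 < ε) {B : Set ℂ} (hBm : MeasurableSet B)
    (hB : Bornology.IsBounded B) {g X : Set (ℂ × Bool) → ℝ≥0∞} (hg : Poisx304.FM g) (c : ℝ≥0∞)
    (h : ∀ᵐ ω ∂sampleLaw, ∀ β ∈ (Ap ε B ω).powerset,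
      g (paint (Ap ε B ω) β) ≠ 0 → X (paint (Ap ε B ω) β) ≤ c) :
    Maj ε B g X (fun ω => c * mq ε B g ω) := by
  refine ⟨(mq_meas hε hBm hB hg).const_mul c, ?_⟩
  filter_upwards [h] with ω h1
  rw [← mq_mul]
  refine mq_mono fun β hβ => ?_
  by_cases h0 : g (paint (Ap ε B ω) β) = 0
  · simp only [h0, zero_mul, mul_zero, le_refl]
  · rw [mul_comm]
    exact mul_le_mul_left (h1 β hβ h0) _

/-- the quenched mean of the weight -/
theorem lint_mq {ε : ℝ} (hε : 0 < ε) {B : Set ℂ} (hBm : MeasurableSet B)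
    (hB : Bornology.IsBounded B) {g : Set (ℂ × Bool) → ℝ≥0∞} (hg : Poisx304.FM g) (c : ℝ≥0∞) :
    ∫⁻ ω, c * mq ε B g ω ∂sampleLaw = c * Mg ε B g := by
  rw [lintegral_const_mul'' _ (mq_meas hε hBm hB hg), lint_eq_mq hε hBm hB hg]
  rfl

/-- a measurable functional is its own majorant -/
theorem Maj.self {ε : ℝ} (hε : 0 < ε) {B : Set ℂ} (hBm : MeasurableSet B)
    (hB : Bornology.IsBounded B) {g X : Set (ℂ × Bool) → ℝ≥0∞}
    (hg : Poisx304.FM fun Z => g Z * X Z) :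
    Maj ε B g X (mq ε B fun Z => g Z * X Z) :=
  ⟨mq_meas hε hBm hB hg, Filter.Eventually.of_forall fun _ => le_rfl⟩

/-- **small chord energy relative to the weight** ⟹ `Sat`, quenched form -/
theorem sat_of_smallM (Lw : LLN famF wD) (La : LLN fam aD) (z : ℂ) {b : ℝ} (hb : 0 < b)
    (H : ∀ δ : ℝ, 0 < δ → ∃ s c : ℝ, 0 < s ∧ s ≤ δ ∧ 0 < c ∧ ∀ k0 : ℝ, 0 < k0 →
      ∃ k : ℝ, 0 < k ∧ k ≤ k0 ∧ ∃ᶠ ε : ℝ in 𝓝[>] 0, ∃ (B : Set ℂ)
        (g CH CL : Set (ℂ × Bool) → ℝ≥0∞) (R : Sample → ℝ≥0∞), BudM z b s k ε B g CH CL ∧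
        ENNReal.ofReal c ≤ Mg ε B g ∧ Maj ε B g CH R ∧
        ∫⁻ ω, R ω ∂sampleLaw ≤ ENNReal.ofReal δ * Mg ε B g) : Sat := by
  have hw := wD_nonneg
  have ha := aD_nonneg
  have key : ∀ δ : ℝ, 0 < δ → δ ≤ 1 → wD / 4 * b ^ 2 ≤ aD * b ^ 2 + (wD * (4 * b + 4) + 3) * δ := by
    intro δ hδ hδ1
    obtain ⟨s, c, hs, hsδ, hc, h⟩ := H δ hδ
    obtain ⟨k0, hk0, h1⟩ := hbudM z hb hs (δ := min δ (δ * c)) (by positivity) Lw La
    obtain ⟨k, hk, hkk, h2⟩ := h k0 hk0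
    have h3 := h1 k hk hkk
    obtain ⟨ε, ⟨B, g, CH, CL, R, hP, hcg, hR, hE⟩, hε⟩ := (h2.and_eventually h3).exists
    have h4 := hε B hP.Bm hP.Bb hP.UB g CH CL hP.gm hP.g1 hP.bud hP.big R hR.me hR.le
    set I := ∫⁻ ω, g (cfg ε ω ∩ ovM Bool B) ∂sampleLaw with hI
    have hIt : I ≠ ∞ := by
      have : I ≤ ∫⁻ _, 1 ∂sampleLaw := lintegral_mono fun ω => hP.g1 _
      rw [lintegral_one, measure_univ] at this
      exact (this.trans_lt ENNReal.one_lt_top).ne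
    have hcI : ENNReal.ofReal c ≤ I := hcg
    have hI0 : I ≠ 0 := by
      have : 0 < ENNReal.ofReal c := ENNReal.ofReal_pos.2 hc
      exact (this.trans_le hcI).ne'
    have hEI : ∫⁻ ω, R ω ∂sampleLaw ≤ ENNReal.ofReal δ * I := hE
    have h5 : ENNReal.ofReal (min δ (δ * c)) ≤ ENNReal.ofReal δ * I := by
      calc ENNReal.ofReal (min δ (δ * c)) ≤ ENNReal.ofReal (δ * c) :=
            ENNReal.ofReal_le_ofReal (min_le_right _ _)
        _ = ENNReal.ofReal δ * ENNReal.ofReal c := ENNReal.ofReal_mul hδ.le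
        _ ≤ _ := by gcongr
    have h6 : ENNReal.ofReal (wD / 4 * b ^ 2) * I ≤
        ENNReal.ofReal (aD * b ^ 2 + (wD * (4 * b + 4) + 3) * δ) * I := by
      refine h4.trans ?_
      calc _ ≤ ENNReal.ofReal δ * I + ENNReal.ofReal (aD * b ^ 2 + wD * (4 * s * b + 4 * s ^ 2) +
            min δ (δ * c)) * I + ENNReal.ofReal δ * I := by gcongr
        _ = ENNReal.ofReal (δ + (aD * b ^ 2 + wD * (4 * s * b + 4 * s ^ 2) + min δ (δ * c)) + δ) *
            I := by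
            rw [ENNReal.ofReal_add (by positivity) hδ.le, ENNReal.ofReal_add hδ.le (by positivity)]
            ring
        _ ≤ _ := by
            gcongr ENNReal.ofReal ?_ * _
            have e1 : min δ (δ * c) ≤ δ := min_le_left _ _
            have e2 : s ^ 2 ≤ δ := by nlinarith
            have e3 : wD * (4 * s * b + 4 * s ^ 2) ≤ wD * (4 * b + 4) * δ := by
              have e4 : s * b ≤ δ * b := mul_le_mul_of_nonneg_right hsδ hb.le
              have : 4 * s * b + 4 * s ^ 2 ≤ (4 * b + 4) * δ := by nlinarith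
              calc wD * (4 * s * b + 4 * s ^ 2) ≤ wD * ((4 * b + 4) * δ) := by gcongr
                _ = _ := by ring
            nlinarith
    have h7 := (ENNReal.mul_le_mul_iff_left hI0 hIt).1 h6
    exact (ENNReal.ofReal_le_ofReal_iff (by positivity)).1 h7
  show wD ≤ 4 * aD
  by_contra hlt
  push Not at hlt
  have hpos : 0 < wD / 4 * b ^ 2 - aD * b ^ 2 := by
    have : 0 < (wD / 4 - aD) * b ^ 2 := by
      have : 0 < wD / 4 - aD := by linarith
      positivity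
    nlinarith
  set Δ := wD / 4 * b ^ 2 - aD * b ^ 2 with hΔ
  set A := wD * (4 * b + 4) + 3 with hA
  have hA0 : 0 < A := by positivity
  have h8 := key (min 1 (Δ / (2 * A))) (by positivity) (min_le_left _ _)
  have h9 : A * min 1 (Δ / (2 * A)) ≤ Δ / 2 := by
    calc A * min 1 (Δ / (2 * A)) ≤ A * (Δ / (2 * A)) := by
          gcongr
          exact min_le_right _ _
      _ = Δ / 2 := by field_simp
  linarith

/-- the values at one mesh: `g` weight; `CH` chord energy; `CL` energy of the big closed blocks;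
`L` chord energy of the layer (`Layx88.lay_chd`); `Z` everything which is small relative to `g`
(near end points, squared error of the potential times the number of the deep chords, partial
tiles); `Y` everything which tends to `0` with the mesh (defect of the deep chords); `N` number of
the deep chords, `κ2` = constant times `|κ|²` -/
def ValsM (z : ℂ) (b s k ε : ℝ) (c Cl d0 CN τ δ : ℝ) : Prop :=
  ∃ (B : Set ℂ) (g CH CL L Z Y N : Set (ℂ × Bool) → ℝ≥0∞) (RL RZ RY RN : Sample → ℝ≥0∞)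
    (κ2 : ℝ≥0∞), BudM z b s k ε B g CH CL ∧ ENNReal.ofReal c ≤ Mg ε B g ∧
    (∀ᵐ ω ∂sampleLaw, ∀ β ∈ (Ap ε B ω).powerset, g (paint (Ap ε B ω) β) ≠ 0 →
      CH (paint (Ap ε B ω) β) ≤ 2 * L (paint (Ap ε B ω) β) + Z (paint (Ap ε B ω) β) +
        Y (paint (Ap ε B ω) β) + κ2 * N (paint (Ap ε B ω) β)) ∧
    Maj ε B g L RL ∧ Maj ε B g Z RZ ∧ Maj ε B g Y RY ∧ Maj ε B g N RN ∧
    ∫⁻ ω, RL ω ∂sampleLaw ≤ ENNReal.ofReal (Cl * (d0 + s) + δ) * Mg ε B g + ENNReal.ofReal δ ∧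
    ∫⁻ ω, RZ ω ∂sampleLaw ≤ ENNReal.ofReal τ * Mg ε B g ∧
    ∫⁻ ω, RY ω ∂sampleLaw ≤ ENNReal.ofReal δ ∧
    ∫⁻ ω, RN ω ∂sampleLaw ≤ ENNReal.ofReal CN * Mg ε B g ∧
    κ2 ≤ ENNReal.ofReal (τ / (CN + 1))

/-- **the inputs of block H**: first the depth `d0`, then `τ` (radius `R` of the near pairs), then the
ring width `s`, then the cut off `k`, then the mesh -/
def InpM (z : ℂ) (b : ℝ) : Prop :=
  ∃ Cl : ℝ, 0 ≤ Cl ∧ ∀ d0 : ℝ, 0 < d0 → ∃ CN : ℝ, 0 ≤ CN ∧ ∀ τ : ℝ, 0 < τ → ∃ s c : ℝ, 0 < s ∧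
    s ≤ τ ∧ 0 < c ∧ ∀ k0 : ℝ, 0 < k0 → ∃ k : ℝ, 0 < k ∧ k ≤ k0 ∧ ∀ δ : ℝ, 0 < δ →
      ∃ᶠ ε : ℝ in 𝓝[>] 0, ValsM z b s k ε c Cl d0 CN τ δ

/-- **BLOCK H, final quantifiers, quenched form** -/
theorem sat_of_inpM (Lw : LLN famF wD) (La : LLN fam aD) {z : ℂ} {b : ℝ} (hb : 0 < b)
    (H : InpM z b) : Sat := by
  obtain ⟨Cl, hCl, H⟩ := H
  refine sat_of_smallM Lw La z hb fun δ hδ => ?_
  set η : ℝ := δ / 20 with hη
  have hη0 : 0 < η := by positivity
  obtain ⟨CN, hCN, H⟩ := H (η / (Cl + 1)) (by positivity)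
  obtain ⟨s, c, hs, hsτ, hc, H⟩ := H (min (η / (Cl + 1)) δ) (by positivity)
  refine ⟨s, c, hs, hsτ.trans (min_le_right _ _), hc, fun k0 hk0 => ?_⟩
  obtain ⟨k, hk, hkk, H⟩ := H k0 hk0
  refine ⟨k, hk, hkk, ?_⟩
  have H := H (min η (η * c)) (by positivity)
  refine H.mono fun ε hε => ?_
  obtain ⟨B, g, CH, CL, L, Z, Y, N, RL, RZ, RY, RN, κ2, hP, hcg, hpt, m1, m2, m3, m4, i1, i2,
    i3, i4, hκ⟩ := hε
  refine ⟨B, g, CH, CL, fun ω => 2 * RL ω + RZ ω + RY ω + κ2 * RN ω, hP, hcg,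
    ((((m1.mul 2).add m2).add m3).add (m4.mul κ2)).mono hpt, ?_⟩
  set I := Mg ε B g with hI
  have hδI : ENNReal.ofReal (min η (η * c)) ≤ ENNReal.ofReal η * I := by
    calc ENNReal.ofReal (min η (η * c)) ≤ ENNReal.ofReal (η * c) :=
          ENNReal.ofReal_le_ofReal (min_le_right _ _)
      _ = ENNReal.ofReal η * ENNReal.ofReal c := ENNReal.ofReal_mul hη0.le
      _ ≤ _ := by gcongr
  have hC1 : η / (Cl + 1) ≤ η := div_le_self hη0.le (by linarith)
  have hCη : Cl * (η / (Cl + 1)) ≤ η := by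
    rw [mul_div_assoc', div_le_iff₀ (by positivity)]
    nlinarith
  have hτ : ENNReal.ofReal (min (η / (Cl + 1)) δ) ≤ ENNReal.ofReal η :=
    ENNReal.ofReal_le_ofReal ((min_le_left _ _).trans hC1)
  have j1 : ∫⁻ ω, RL ω ∂sampleLaw ≤ ENNReal.ofReal (4 * η) * I := by
    refine i1.trans ?_
    have e1 : Cl * (η / (Cl + 1) + s) + min η (η * c) ≤ 3 * η := by
      have e2 : Cl * s ≤ Cl * (η / (Cl + 1)) :=
        mul_le_mul_of_nonneg_left (hsτ.trans (min_le_left _ _)) hCl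
      nlinarith [min_le_left η (η * c)]
    calc _ ≤ ENNReal.ofReal (3 * η) * I + ENNReal.ofReal η * I := by gcongr
      _ = ENNReal.ofReal (4 * η) * I := by
          rw [← add_mul, ← ENNReal.ofReal_add (by positivity) hη0.le]
          congr 2
          ring
  have j2 : ∫⁻ ω, RZ ω ∂sampleLaw ≤ ENNReal.ofReal η * I := i2.trans (by gcongr)
  have j3 : ∫⁻ ω, RY ω ∂sampleLaw ≤ ENNReal.ofReal η * I := i3.trans hδI
  have j4 : κ2 * ∫⁻ ω, RN ω ∂sampleLaw ≤ ENNReal.ofReal η * I := by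
    calc κ2 * ∫⁻ ω, RN ω ∂sampleLaw
        ≤ ENNReal.ofReal (min (η / (Cl + 1)) δ / (CN + 1)) * (ENNReal.ofReal CN * I) := by
          gcongr
      _ = ENNReal.ofReal (min (η / (Cl + 1)) δ / (CN + 1) * CN) * I := by
          rw [← mul_assoc, ← ENNReal.ofReal_mul (by positivity)]
      _ ≤ ENNReal.ofReal η * I := by
          gcongr
          rw [div_mul_eq_mul_div, div_le_iff₀ (by positivity)]
          have h1 := (min_le_left (η / (Cl + 1)) δ).trans hC1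
          have h2 : 0 ≤ min (η / (Cl + 1)) δ := by positivity
          nlinarith
  have n1 := m1.me
  have n2 := m2.me
  have n3 := m3.me
  have n4 := m4.me
  rw [lintegral_add_left' (by fun_prop), lintegral_add_left' (by fun_prop),
    lintegral_add_left' (by fun_prop),
    lintegral_const_mul'' _ n1, lintegral_const_mul'' _ n4]
  have e4 : ENNReal.ofReal (4 * η) = 4 * ENNReal.ofReal η := by
    rw [ENNReal.ofReal_mul (by norm_num : (0 : ℝ) ≤ 4)]
    norm_num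
  have e20 : ENNReal.ofReal δ = 20 * ENNReal.ofReal η := by
    rw [show δ = 20 * η by rw [hη]; ring, ENNReal.ofReal_mul (by norm_num : (0 : ℝ) ≤ 20)]
    norm_num
  calc _ ≤ 2 * (ENNReal.ofReal (4 * η) * I) + ENNReal.ofReal η * I + ENNReal.ofReal η * I +
        ENNReal.ofReal η * I := by gcongr
    _ = 11 * (ENNReal.ofReal η * I) := by rw [e4]; ring
    _ ≤ 20 * (ENNReal.ofReal η * I) := by
        gcongr
        norm_num
    _ = ENNReal.ofReal δ * I := by rw [e20]; ring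

theorem satM {z : ℂ} {b : ℝ} (hb : 0 < b) (H : InpM z b) : Sat :=
  sat_of_inpM LLN4x432.lln_famF LLN4x432.lln_fam hb H

theorem bodyM {z : ℂ} {b : ℝ} (hb : 0 < b) (H : InpM z b) : Body :=
  Trans6x690.body_of_sat (satM hb H)

end Crest.Agent.R143.Asm3x414
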