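import Crest.Agent.R143.Asm3_414

/-!
# Row 143 (S0194), block H, final interface (helper414): functions of (sites, black sites)

* `st`, `bl` : sites and black sites of a configuration; `val Ψ X = Ψ (st X) (bl X)`, `val_paint`
* `QQ` : `Qg` without choice; `BudQ`, `MajQ`, `ValsQ`, `InpQ` : `BudM`, `Maj`, `ValsM`, `InpM` for
  functions `Ψ A β` of the set `A` of the sites in the box and the set `β ⊆ A` of the black sites
* `satQ`, `bodyQ` : `InpQ ⟹ Sat ⟹ Body`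
-/

set_option autoImplicit false

noncomputable section

open scoped Classical

namespace Crest.Agent.R143.Asm4x414

open MeasureTheory Filter Topology
open Crest.ProbabilityR.Voronoi
open Crest.Agent.R143.B0x346 Crest.Agent.R143.SumScx302 Crest.Agent.R143.Mass1x302
  Crest.Agent.R143.Mass2x302
  Crest.Agent.R143.PP0x831 Crest.Agent.R143.Trans2x690 Crest.Agent.R143.Trans3x690
  Crest.Agent.R143.Trans5x690 Crest.Agent.R143.Bud3x432 Crest.Agent.R143.HBudx136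
  Crest.Agent.R143.HGluex136 Crest.Agent.R143.JColx54 Crest.Agent.R143.MassPx304
  Crest.Agent.R143.FinCx811 Crest.Agent.R143.Dblx609 Crest.Agent.R143.Dbl2x609
  Crest.Agent.R143.SmallAx304 Crest.Agent.R143.Asm3x414
open Crest.Agent.R143.DelGx806 Crest.Agent.R143.DelRx806 Crest.Agent.R143.Frame10x395
  Crest.Agent.R143.Coarsex166 Crest.Agent.R143.Histx389 Crest.Agent.R143.Frame1x395
  Crest.Agent.R143.Frame2x395 Crest.Agent.R143.Mass4x302 Crest.Agent.R143.Mass5x302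
  Crest.Agent.R143.Mass3x302 Crest.Agent.R143.Harx315 Crest.Agent.R143.Budx432
  Crest.Agent.R143.Bud2x432
open Crest.Agent.R143.Spinex422 (Body)
open scoped ENNReal

/-- the sites of a configuration -/
def st (X : Set (ℂ × Bool)) : Finset ℂ := if h : X.Finite then h.toFinset.image Prod.fst else ∅

/-- the black sites of a configuration -/
def bl (X : Set (ℂ × Bool)) : Finset ℂ :=
  if h : X.Finite then (h.toFinset.filter fun q => q.2 = true).image Prod.fst else ∅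

/-- a function of (sites, black sites) as a functional of configurations -/
def val (Ψ : Finset ℂ → Finset ℂ → ℝ≥0∞) (X : Set (ℂ × Bool)) : ℝ≥0∞ := Ψ (st X) (bl X)

theorem paint_fin (A β : Finset ℂ) : (paint A β).Finite := by
  refine ((A.finite_toSet).prod (Set.finite_univ (α := Bool))).subset ?_
  rintro ⟨v, c⟩ ⟨h, -⟩
  exact ⟨h, Set.mem_univ _⟩

theorem st_paint (A β : Finset ℂ) : st (paint A β) = A := by
  unfold st
  rw [dif_pos (paint_fin A β)]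
  ext v
  rw [Finset.mem_image]
  constructor
  · rintro ⟨q, hq, rfl⟩
    exact ((Set.Finite.mem_toFinset _).1 hq).1
  · intro hv
    refine ⟨(v, decide (v ∈ β)), (Set.Finite.mem_toFinset _).2 ⟨hv, ?_⟩, rfl⟩
    simp

theorem bl_paint {A β : Finset ℂ} (h : β ⊆ A) : bl (paint A β) = β := by
  unfold bl
  rw [dif_pos (paint_fin A β)]
  ext v
  rw [Finset.mem_image]
  constructor
  · rintro ⟨q, hq, rfl⟩
    obtain ⟨h1, h2⟩ := Finset.mem_filter.1 hq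
    exact ((Set.Finite.mem_toFinset _).1 h1).2.1 h2
  · intro hv
    refine ⟨(v, true), Finset.mem_filter.2 ⟨(Set.Finite.mem_toFinset _).2 ⟨h hv, ?_⟩, rfl⟩, rfl⟩
    simp [hv]

theorem val_paint (Ψ : Finset ℂ → Finset ℂ → ℝ≥0∞) {A β : Finset ℂ} (h : β ⊆ A) :
    val Ψ (paint A β) = Ψ A β := by
  unfold val
  rw [st_paint, bl_paint h]

/-- the real configuration in a box is painted -/
theorem real_paint {ε : ℝ} (hε : 0 < ε) {B : Set ℂ} (hB : Bornology.IsBounded B) :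
    ∀ᵐ ω ∂sampleLaw, ∃ β ∈ (Ap ε B ω).powerset, cfg ε ω ∩ ovM Bool B = paint (Ap ε B ω) β := by
  filter_upwards [ae_injω hε] with ω hi
  obtain ⟨β, hβ, -, -, -, h, -⟩ := dcf_paint hi (coe_Ap hε hB ω)
  exact ⟨β, hβ, h⟩

/-- `Qg` for a weight `G` of the colours and a function `CL` of the colours -/
def QQ (k : ℝ) (U P : Set ℂ) (A : Finset ℂ) (G CL : Finset ℂ → ℝ≥0∞) : Prop :=
  (∀ β ∈ A.powerset, G β = 0) ∨
  ∃ (hS : GP (A : Set ℂ)) (h3 : 3 ≤ A.card), (∀ v ∈ A, v ∈ U → ¬ OnHull A v) ∧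
    ∃ (e0 : D0 A) (a : D0 A → ℂ),
      (∀ t : T3, Fc P U t.1 t.2.1 t.2.2 → a (gd (dl e0) t) = Nn t) ∧
    ∃ Jf : Finset ℂ → Finset ℂ, IsStop A Jf ∧
      ∀ β ∈ A.powerset, G β ≠ 0 →
        ∃ (C' : Type) (π : Cs hS → C') (hπ : ClsCon (rc0 hS) π) (o : C'),
          Stg P U (rc0 hS) (dl e0) A (chiS hS h3) (Jf β) β π o ∧
          CL β ≤ CLq P U (rc0 hS) π hπ o (dl e0) k a

/-- the budget at one mesh, for functions of (sites, black sites) -/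
structure BudQ (z : ℂ) (b s k ε : ℝ) (B : Set ℂ) (g : Set (ℂ × Bool) → ℝ≥0∞)
    (CH CL : Finset ℂ → Finset ℂ → ℝ≥0∞) : Prop where
  Bm : MeasurableSet B
  Bb : Bornology.IsBounded B
  UB : Ub z b s ⊆ B
  gm : Poisx304.FM g
  g1 : ∀ X, g X ≤ 1
  bud : ∀ᵐ ω ∂sampleLaw, ∀ β ∈ (Ap ε B ω).powerset,
    cfg ε ω ∩ ovM Bool B = paint (Ap ε B ω) β → g (paint (Ap ε B ω) β) ≠ 0 →
    Wf (ps (cfg ε ω)) (sq z b) / 4 ≤ CH (Ap ε B ω) β + CL (Ap ε B ω) β +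
      fam.Ph (sq z b) (cfg ε ω) +
      Wf (ps (cfg ε ω)) (Nk (Finset.univ : Finset Unit) (fun _ => sq z b) k ∩ Ub z b s)
  big : ∀ᵐ ω ∂sampleLaw, QQ k (Ub z b s) (points ε ω) (Ap ε B ω)
    (fun β => g (paint (Ap ε B ω) β)) (CL (Ap ε B ω))

theorem BudQ.budM {z : ℂ} {b s k ε : ℝ} {B : Set ℂ} {g : Set (ℂ × Bool) → ℝ≥0∞}
    {CH CL : Finset ℂ → Finset ℂ → ℝ≥0∞} (h : BudQ z b s k ε B g CH CL) (hε : 0 < ε) :
    BudM z b s k ε B g (val CH) (val CL) := by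
  refine ⟨h.Bm, h.Bb, h.UB, h.gm, h.g1, ?_, ?_⟩
  · filter_upwards [h.bud, real_paint hε h.Bb] with ω h1 h2 h0
    obtain ⟨β, hβ, e⟩ := h2
    have hs := Finset.mem_powerset.1 hβ
    rw [e] at h0 ⊢
    rw [val_paint _ hs, val_paint _ hs]
    exact h1 β hβ e h0
  · filter_upwards [h.big] with ω h1
    rcases h1 with h1 | ⟨hS, h3, hin, e0, a, ha, Jf, hJ, hst⟩
    · refine Or.inl fun β hβ => ?_
      have := h1 β hβ
      simp only [this, zero_mul]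
    · refine Or.inr ⟨hS, h3, hin, e0, a, ha, Jf, hJ, fun β hβ h0 => ?_⟩
      have hs := Finset.mem_powerset.1 hβ
      have h2 : g (paint (Ap ε B ω) β) ≠ 0 := fun h => h0 (by simp only [h, zero_mul])
      obtain ⟨C', π, hπ, o, S, h4⟩ := hst β hβ h2
      refine ⟨C', π, hπ, o, S, ?_⟩
      show g (paint (Ap ε B ω) β) * val CL (paint (Ap ε B ω) β) ≤ _
      rw [val_paint _ hs]
      refine le_trans ?_ h4
      calc _ ≤ 1 * CL (Ap ε B ω) β := by gcongr; exact h.g1 _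
        _ = _ := one_mul _

/-- `R` is a measurable majorant of the quenched mean of `g * Ψ` -/
structure MajQ (ε : ℝ) (B : Set ℂ) (g : Set (ℂ × Bool) → ℝ≥0∞)
    (Ψ : Finset ℂ → Finset ℂ → ℝ≥0∞) (R : Sample → ℝ≥0∞) : Prop where
  me : AEMeasurable R sampleLaw
  le : ∀ᵐ ω ∂sampleLaw, ∑ β ∈ (Ap ε B ω).powerset, g (paint (Ap ε B ω) β) * Ψ (Ap ε B ω) β ≤
    (2 : ℝ≥0∞) ^ (Ap ε B ω).card * R ω

theorem inv_pow_mul (n : ℕ) (y : ℝ≥0∞) : ((2 : ℝ≥0∞) ^ n)⁻¹ * ((2 : ℝ≥0∞) ^ n * y) = y := by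
  rw [← mul_assoc, ENNReal.inv_mul_cancel (by positivity) (ENNReal.pow_ne_top (by norm_num)),
    one_mul]

theorem pow_inv_mul (n : ℕ) (y : ℝ≥0∞) : (2 : ℝ≥0∞) ^ n * (((2 : ℝ≥0∞) ^ n)⁻¹ * y) = y := by
  rw [← mul_assoc, ENNReal.mul_inv_cancel (by positivity) (ENNReal.pow_ne_top (by norm_num)),
    one_mul]

theorem mq_val (ε : ℝ) (B : Set ℂ) (g : Set (ℂ × Bool) → ℝ≥0∞)
    (Ψ : Finset ℂ → Finset ℂ → ℝ≥0∞) (ω : Sample) :
    mq ε B (fun X => g X * val Ψ X) ω = ((2 : ℝ≥0∞) ^ (Ap ε B ω).card)⁻¹ *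
      ∑ β ∈ (Ap ε B ω).powerset, g (paint (Ap ε B ω) β) * Ψ (Ap ε B ω) β := by
  unfold mq
  congr 1
  refine Finset.sum_congr rfl fun β hβ => ?_
  show g (paint (Ap ε B ω) β) * val Ψ (paint (Ap ε B ω) β) = _
  rw [val_paint _ (Finset.mem_powerset.1 hβ)]

theorem MajQ.maj {ε : ℝ} {B : Set ℂ} {g : Set (ℂ × Bool) → ℝ≥0∞}
    {Ψ : Finset ℂ → Finset ℂ → ℝ≥0∞} {R : Sample → ℝ≥0∞} (h : MajQ ε B g Ψ R) :
    Maj ε B g (val Ψ) R := by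
  refine ⟨h.me, ?_⟩
  filter_upwards [h.le] with ω h1
  rw [mq_val]
  refine (mul_le_mul_right h1 _).trans ?_
  rw [inv_pow_mul]

theorem MajQ.add {ε : ℝ} {B : Set ℂ} {g : Set (ℂ × Bool) → ℝ≥0∞}
    {Ψ Φ : Finset ℂ → Finset ℂ → ℝ≥0∞} {R T : Sample → ℝ≥0∞}
    (h : MajQ ε B g Ψ R) (h' : MajQ ε B g Φ T) :
    MajQ ε B g (fun A β => Ψ A β + Φ A β) (fun ω => R ω + T ω) := by
  refine ⟨h.me.add h'.me, ?_⟩
  filter_upwards [h.le, h'.le] with ω h1 h2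
  simp only [mul_add, Finset.sum_add_distrib]
  exact add_le_add h1 h2

theorem MajQ.mul {ε : ℝ} {B : Set ℂ} {g : Set (ℂ × Bool) → ℝ≥0∞}
    {Ψ : Finset ℂ → Finset ℂ → ℝ≥0∞} {R : Sample → ℝ≥0∞} (c : ℝ≥0∞) (h : MajQ ε B g Ψ R) :
    MajQ ε B g (fun A β => c * Ψ A β) (fun ω => c * R ω) := by
  refine ⟨h.me.const_mul c, ?_⟩
  filter_upwards [h.le] with ω h1
  have e : ∀ β, g (paint (Ap ε B ω) β) * (c * Ψ (Ap ε B ω) β) =
      c * (g (paint (Ap ε B ω) β) * Ψ (Ap ε B ω) β) := fun β => by ring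
  simp only [e]
  rw [← Finset.mul_sum, mul_left_comm]
  gcongr

/-- monotone in the function, only where `g ≠ 0` -/
theorem MajQ.mono {ε : ℝ} {B : Set ℂ} {g : Set (ℂ × Bool) → ℝ≥0∞}
    {Ψ Φ : Finset ℂ → Finset ℂ → ℝ≥0∞} {R : Sample → ℝ≥0∞} (h : MajQ ε B g Φ R)
    (hle : ∀ᵐ ω ∂sampleLaw, ∀ β ∈ (Ap ε B ω).powerset, g (paint (Ap ε B ω) β) ≠ 0 →
      Ψ (Ap ε B ω) β ≤ Φ (Ap ε B ω) β) : MajQ ε B g Ψ R := by
  refine ⟨h.me, ?_⟩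
  filter_upwards [h.le, hle] with ω h1 h2
  refine (Finset.sum_le_sum fun β hβ => ?_).trans h1
  by_cases h0 : g (paint (Ap ε B ω) β) = 0
  · rw [h0, zero_mul, zero_mul]
  · exact mul_le_mul_right (h2 β hβ h0) _

theorem MajQ.mono_R {ε : ℝ} {B : Set ℂ} {g : Set (ℂ × Bool) → ℝ≥0∞}
    {Ψ : Finset ℂ → Finset ℂ → ℝ≥0∞} {R T : Sample → ℝ≥0∞} (h : MajQ ε B g Ψ R)
    (hT : AEMeasurable T sampleLaw) (hRT : ∀ᵐ ω ∂sampleLaw, R ω ≤ T ω) : MajQ ε B g Ψ T := by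
  refine ⟨hT, ?_⟩
  filter_upwards [h.le, hRT] with ω h1 h2
  exact h1.trans (mul_le_mul_right h2 _)

/-- the quenched mean of the weight is a measurable function -/
theorem MajQ.const {ε : ℝ} (hε : 0 < ε) {B : Set ℂ} (hBm : MeasurableSet B)
    (hB : Bornology.IsBounded B) {g : Set (ℂ × Bool) → ℝ≥0∞} (hg : Poisx304.FM g)
    {Ψ : Finset ℂ → Finset ℂ → ℝ≥0∞} (c : ℝ≥0∞)
    (h : ∀ᵐ ω ∂sampleLaw, ∑ β ∈ (Ap ε B ω).powerset, g (paint (Ap ε B ω) β) * Ψ (Ap ε B ω) β ≤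
      c * ∑ β ∈ (Ap ε B ω).powerset, g (paint (Ap ε B ω) β)) :
    MajQ ε B g Ψ (fun ω => c * mq ε B g ω) := by
  refine ⟨(mq_meas hε hBm hB hg).const_mul c, ?_⟩
  filter_upwards [h] with ω h1
  refine h1.trans (le_of_eq ?_)
  unfold mq
  rw [mul_left_comm, pow_inv_mul]

/-- a random constant: `c ω` times the weight -/
theorem MajQ.rand {ε : ℝ} (hε : 0 < ε) {B : Set ℂ} (hBm : MeasurableSet B)
    (hB : Bornology.IsBounded B) {g : Set (ℂ × Bool) → ℝ≥0∞} (hg : Poisx304.FM g)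
    {Ψ : Finset ℂ → Finset ℂ → ℝ≥0∞} {c : Sample → ℝ≥0∞} (hc : AEMeasurable c sampleLaw)
    (h : ∀ᵐ ω ∂sampleLaw, ∑ β ∈ (Ap ε B ω).powerset, g (paint (Ap ε B ω) β) * Ψ (Ap ε B ω) β ≤
      c ω * ∑ β ∈ (Ap ε B ω).powerset, g (paint (Ap ε B ω) β)) :
    MajQ ε B g Ψ (fun ω => c ω * mq ε B g ω) := by
  refine ⟨hc.mul (mq_meas hε hBm hB hg), ?_⟩
  filter_upwards [h] with ω h1
  refine h1.trans (le_of_eq ?_)
  unfold mq
  rw [mul_left_comm, pow_inv_mul]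

/-- the values at one mesh, for functions of (sites, black sites) -/
def ValsQ (z : ℂ) (b s k ε : ℝ) (c Cl d0 CN τ δ : ℝ) : Prop :=
  ∃ (B : Set ℂ) (g : Set (ℂ × Bool) → ℝ≥0∞) (CH CL L Z Y N : Finset ℂ → Finset ℂ → ℝ≥0∞)
    (RL RZ RY RN : Sample → ℝ≥0∞) (κ2 : ℝ≥0∞), BudQ z b s k ε B g CH CL ∧
    ENNReal.ofReal c ≤ Mg ε B g ∧
    (∀ᵐ ω ∂sampleLaw, ∀ β ∈ (Ap ε B ω).powerset, g (paint (Ap ε B ω) β) ≠ 0 →
      CH (Ap ε B ω) β ≤ 2 * L (Ap ε B ω) β + Z (Ap ε B ω) β + Y (Ap ε B ω) β +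
        κ2 * N (Ap ε B ω) β) ∧
    MajQ ε B g L RL ∧ MajQ ε B g Z RZ ∧ MajQ ε B g Y RY ∧ MajQ ε B g N RN ∧
    ∫⁻ ω, RL ω ∂sampleLaw ≤ ENNReal.ofReal (Cl * (d0 + s) + δ) * Mg ε B g + ENNReal.ofReal δ ∧
    ∫⁻ ω, RZ ω ∂sampleLaw ≤ ENNReal.ofReal τ * Mg ε B g ∧
    ∫⁻ ω, RY ω ∂sampleLaw ≤ ENNReal.ofReal δ ∧
    ∫⁻ ω, RN ω ∂sampleLaw ≤ ENNReal.ofReal CN * Mg ε B g ∧
    κ2 ≤ ENNReal.ofReal (τ / (CN + 1))

theorem valsM {z : ℂ} {b s k ε c Cl d0 CN τ δ : ℝ} (hε : 0 < ε)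
    (h : ValsQ z b s k ε c Cl d0 CN τ δ) : ValsM z b s k ε c Cl d0 CN τ δ := by
  obtain ⟨B, g, CH, CL, L, Z, Y, N, RL, RZ, RY, RN, κ2, hP, hcg, hpt, m1, m2, m3, m4, i1, i2,
    i3, i4, hκ⟩ := h
  refine ⟨B, g, val CH, val CL, val L, val Z, val Y, val N, RL, RZ, RY, RN, κ2, hP.budM hε, hcg,
    ?_, m1.maj, m2.maj, m3.maj, m4.maj, i1, i2, i3, i4, hκ⟩
  filter_upwards [hpt] with ω h1 β hβ h0
  have hs := Finset.mem_powerset.1 hβ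
  simp only [val_paint _ hs]
  exact h1 β hβ h0

/-- **the inputs of block H**: first the depth `d0`, then `τ` (radius `R` of the near pairs), then the
ring width `s`, then the cut off `k`, then the mesh -/
def InpQ (z : ℂ) (b : ℝ) : Prop :=
  ∃ Cl : ℝ, 0 ≤ Cl ∧ ∀ d0 : ℝ, 0 < d0 → ∃ CN : ℝ, 0 ≤ CN ∧ ∀ τ : ℝ, 0 < τ → ∃ s c : ℝ, 0 < s ∧
    s ≤ τ ∧ 0 < c ∧ ∀ k0 : ℝ, 0 < k0 → ∃ k : ℝ, 0 < k ∧ k ≤ k0 ∧ ∀ δ : ℝ, 0 < δ →
      ∃ᶠ ε : ℝ in 𝓝[>] 0, ValsQ z b s k ε c Cl d0 CN τ δ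

theorem inpM {z : ℂ} {b : ℝ} (H : InpQ z b) : InpM z b := by
  obtain ⟨Cl, hCl, H⟩ := H
  refine ⟨Cl, hCl, fun d0 hd0 => ?_⟩
  obtain ⟨CN, hCN, H⟩ := H d0 hd0
  refine ⟨CN, hCN, fun τ hτ => ?_⟩
  obtain ⟨s, c, hs, hsτ, hc, H⟩ := H τ hτ
  refine ⟨s, c, hs, hsτ, hc, fun k0 hk0 => ?_⟩
  obtain ⟨k, hk, hkk, H⟩ := H k0 hk0
  refine ⟨k, hk, hkk, fun δ hδ => ?_⟩
  have h1 : ∀ᶠ ε : ℝ in 𝓝[>] 0, 0 < ε := by
    filter_upwards [eventually_mem_nhdsWithin] with ε hε using hε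
  exact ((H δ hδ).and_eventually h1).mono fun ε hε => valsM hε.2 hε.1

theorem satQ {z : ℂ} {b : ℝ} (hb : 0 < b) (H : InpQ z b) : Sat := satM hb (inpM H)

theorem bodyQ {z : ℂ} {b : ℝ} (hb : 0 < b) (H : InpQ z b) : Body := bodyM hb (inpM H)

end Crest.Agent.R143.Asm4x414
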