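import Crest.Agent.R143.Mab3_377
import Crest.Agent.R143.DicD_831

/-!
# Row 143 (S0194), STEP 4, analysis half, deterministic part (helper758)

`S` sites, `N` network, `xs N l J j` = states of the exploration by exits of `l`-balls (Mab_377).
* `cnt` : number of live states with the tip in the ball `B(z, R)`; `av` : mean over `Om N`
* `sY` : sum of `‖Y‖` over these states
* `det1` : `‖∑ Q w φ(cc)‖ ≤ K1 l² av cnt + K2 l av sY`
* `det2` : `av sY ≤ M θ + B av (cnt; cnt > M) + B M av (bad θ)`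
-/

set_option autoImplicit false

noncomputable section

open scoped Classical

namespace Crest.Agent.R143.AsmNx758

open Complex Set Filter Topology MeasureTheory
open Crest.ProbabilityR.Voronoi
open Crest.Agent.R143.B0x346 Crest.Agent.R143.B0Dx346
open Crest.Agent.R143.JCardx872 Crest.Agent.R143.JWalkx872
open Crest.Agent.R143.J1x872 Crest.Agent.R143.J4x872
open Crest.Agent.R143.Mabx377
open Crest.Agent.R143.B1gx991 (side_inT tri_pos)
open Crest.Agent.R143.B1bx796 (touch phi phi_zero)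
open Crest.Agent.R143.Locx922
open Crest.Agent.R143.DicBx831 (cc)
open Crest.Agent.R143.DicCx831 (near_pt cc_near cc_inT phi_lip)
open Crest.Agent.R143.DicDx831 (tst)

variable {S : Finset ℂ} {N : Net ℂ} {z : ℂ} {l d r R : ℝ}

/-! ### counting -/

/-- number of live states with the tip in the ball -/
def cnt (S : Finset ℂ) (N : Net ℂ) (l : ℝ) (z : ℂ) (R : ℝ) (J : Finset (ℂ × ℂ)) : ℕ :=
  ((Finset.range (fuel N + 1)).filter fun j =>
    Alive S N (xs N l J j) ∧ dist (mid (xs N l J j).2) z < R).card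

/-- mean over the interfaces -/
def av (N : Net ℂ) (f : Finset (ℂ × ℂ) → ℝ) : ℝ := (∑ J ∈ Om N, f J) / ((Om N).card : ℝ)

/-- sum of `‖Y‖` over the live states with the tip in the ball -/
def sY (S : Finset ℂ) (N : Net ℂ) (w : ℂ × ℂ × ℂ → ℂ) (l : ℝ) (z : ℂ) (R : ℝ)
    (J : Finset (ℂ × ℂ)) : ℝ :=
  ∑ j ∈ (Finset.range (fuel N + 1)).filter fun j =>
    Alive S N (xs N l J j) ∧ dist (mid (xs N l J j).2) z < R, ‖Y S N w (xs N l J j)‖

/-- some live state with the tip in the ball has a large total -/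
def Bad (S : Finset ℂ) (N : Net ℂ) (w : ℂ × ℂ × ℂ → ℂ) (l : ℝ) (z : ℂ) (R θ : ℝ)
    (J : Finset (ℂ × ℂ)) : Prop :=
  ∃ j ∈ Finset.range (fuel N + 1), Alive S N (xs N l J j) ∧
    dist (mid (xs N l J j).2) z < R ∧ θ < ‖Y S N w (xs N l J j)‖

theorem av_mono {f g : Finset (ℂ × ℂ) → ℝ} (h : ∀ J ∈ Om N, f J ≤ g J) : av N f ≤ av N g :=
  div_le_div_of_nonneg_right (Finset.sum_le_sum h) (Nat.cast_nonneg _)

theorem av_add (f g : Finset (ℂ × ℂ) → ℝ) : av N (fun J => f J + g J) = av N f + av N g := by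
  unfold av
  rw [Finset.sum_add_distrib, add_div]

theorem av_mul (c : ℝ) (f : Finset (ℂ × ℂ) → ℝ) : av N (fun J => c * f J) = c * av N f := by
  unfold av
  rw [← Finset.mul_sum, mul_div_assoc]

theorem av_const_le {c : ℝ} (hc : 0 ≤ c) : av N (fun _ => c) ≤ c := by
  unfold av
  rw [Finset.sum_const, nsmul_eq_mul]
  rcases eq_or_ne ((Om N).card : ℝ) 0 with h | h
  · rw [h, div_zero]
    exact hc
  · rw [mul_div_cancel_left₀ _ h]

theorem av_nonneg {f : Finset (ℂ × ℂ) → ℝ} (h : ∀ J ∈ Om N, 0 ≤ f J) : 0 ≤ av N f :=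
  div_nonneg (Finset.sum_nonneg h) (Nat.cast_nonneg _)

/-! ### geometry near a point -/

/-- the vertices of a triangle are near the middle of each side -/
theorem sd_near (h : HNet S N) (hd : 0 < d) (hH : Hol (S : Set ℂ) (Metric.closedBall z R) d)
    {t : ℂ × ℂ × ℂ} (ht : t ∈ delT S) (i : ZMod 3) (hx : ‖mid (sd t i) - z‖ ≤ R) :
    ‖t.1 - mid (sd t i)‖ < 2 * d ∧ ‖t.2.1 - mid (sd t i)‖ < 2 * d ∧
      ‖t.2.2 - mid (sd t i)‖ < 2 * d := by
  have hm : ∀ a b : ℂ, mid (a, b) ∈ segment ℝ a b := by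
    intro a b
    unfold mid
    rw [segment_eq_image]
    refine ⟨1 / 2, ⟨by norm_num, by norm_num⟩, ?_⟩
    simp only [Complex.real_smul]
    push_cast
    ring
  obtain ⟨a, b, c⟩ := t
  have h1 : (b, c, a) ∈ delT S := Frame5x395.rot_mem h ht
  have h2 : (c, a, b) ∈ delT S := Frame5x395.rot_mem h h1
  revert i
  rw [forall_z3, sd0, sd1, sd2]
  refine ⟨fun hx => ?_, fun hx => ?_, fun hx => ?_⟩
  · obtain ⟨e1, e2, e3⟩ := near_pt hd hH ht (side_inT (tri_pos ht) (hm a b)) hx
    exact ⟨e1, e2, e3⟩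
  · obtain ⟨e1, e2, e3⟩ := near_pt hd hH h1 (side_inT (tri_pos h1) (hm b c)) hx
    exact ⟨e3, e1, e2⟩
  · obtain ⟨e1, e2, e3⟩ := near_pt hd hH h2 (side_inT (tri_pos h2) (hm c a)) hx
    exact ⟨e2, e3, e1⟩

theorem mid_le {a b x : ℂ} {e : ℝ} (h1 : ‖a - x‖ < e) (h2 : ‖b - x‖ < e) :
    ‖mid (a, b) - x‖ < e := by
  have h : mid (a, b) - x = ((a - x) + (b - x)) / 2 := by
    unfold mid
    ring
  have h3 := norm_add_le (a - x) (b - x)
  rw [h, norm_div, Complex.norm_ofNat]
  linarith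

/-- the middles of the sides of a triangle near the ball -/
theorem sd_sd (h : HNet S N) (hd : 0 < d) (hH : Hol (S : Set ℂ) (Metric.closedBall z R) d)
    {t : ℂ × ℂ × ℂ} (ht : t ∈ delT S) (i j : ZMod 3) (hx : ‖mid (sd t i) - z‖ ≤ R) :
    ‖mid (sd t j) - mid (sd t i)‖ < 2 * d := by
  obtain ⟨e1, e2, e3⟩ := sd_near h hd hH ht i hx
  revert j
  rw [forall_z3, sd0, sd1, sd2]
  exact ⟨mid_le e1 e2, mid_le e2 e3, mid_le e3 e1⟩

theorem mid_sw (a b : ℂ) : mid (a, b) = mid (b, a) := by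
  unfold mid
  ring

/-- a turn near the ball is short -/
theorem turn_near (h : HNet S N) (hd : 0 < d) (hH : Hol (S : Set ℂ) (Metric.closedBall z R) d)
    {p q u : ℂ × ℂ} (ht : Turn N.toTrg p q u)
    (hx : ‖mid p - z‖ ≤ R ∨ ‖mid q - z‖ ≤ R) : ‖mid q - mid p‖ < 2 * d := by
  obtain ⟨c, hc, hq⟩ := ht
  have hS : (p.1, p.2, c) ∈ delT S := h.tri ▸ hc
  have hp : mid p = mid (sd (p.1, p.2, c) 0) := by rw [sd0]
  have key : ∃ i, mid q = mid (sd (p.1, p.2, c) i) := by
    rcases hq with ⟨rfl, _⟩ | ⟨rfl, _⟩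
    · exact ⟨1, by rw [sd1, mid_sw]⟩
    · exact ⟨2, by rw [sd2, mid_sw]⟩
  obtain ⟨i, hi⟩ := key
  rw [hp, hi] at hx ⊢
  rcases hx with hx | hx
  · exact sd_sd h hd hH hS 0 i hx
  · rw [norm_sub_rev]
    exact sd_sd h hd hH hS i 0 hx

/-- the last turn of a path -/
theorem fol_last {G : Trg ℂ} {O : Set (ℂ × ℂ × ℂ)} {D : Set (ℂ × ℂ)} {J : Finset (ℂ × ℂ)} :
    ∀ (L : Pt ℂ) (p q : ℂ × ℂ), Fol G O D J p L q →
      q = p ∨ ∃ m u, (∃ a ∈ L, a.1 = m) ∧ Turn G m q u := by
  intro L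
  induction L with
  | nil =>
    intro p q h
    exact Or.inl (Eq.symm h)
  | cons a L ih =>
    rintro p q ⟨h1, m, h2, _, h4⟩
    right
    rcases ih m q h4 with e | ⟨m', u, ⟨b, hb, hb'⟩, hT⟩
    · subst e
      exact ⟨p, a.2, ⟨a, List.mem_cons_self .., h1⟩, h2⟩
    · exact ⟨m', u, ⟨b, List.mem_cons_of_mem _ hb, hb'⟩, hT⟩

/-! ### the test function -/

/-- hypotheses near the point `z` -/
structure Nr (S : Finset ℂ) (N : Net ℂ) (z : ℂ) (r l d L V : ℝ) : Prop where
  net : HNet S N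
  rpos : 0 < r
  lpos : 0 < l
  dpos : 0 < d
  hol : Hol (S : Set ℂ) (Metric.closedBall z (3 * r)) d
  sm1 : 2 * d ≤ l
  sm2 : 2 * l ≤ r
  L0 : 0 ≤ L
  lip : ∀ x y, ‖phi r z x - phi r z y‖ ≤ L * ‖x - y‖
  V0 : 0 ≤ V
  sq : ∀ c, ‖c - z‖ < 2 * r → ∑ t ∈ touch c (2 * l) S, ‖t.2.1 - t.1‖ ^ 2 ≤ V * l ^ 2

variable {L V : ℝ}

/-- the test function on the states -/
def psi (r : ℝ) (z : ℂ) (p : ℂ × ℂ) : ℂ := phi r z (mid p)

/-- the test function on the triangles -/
def phc (r : ℝ) (z : ℂ) (t : ℂ × ℂ × ℂ) : ℂ := phi r z (cc t)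

theorem near_cc (H : Nr S N z r l d L V) {t : ℂ × ℂ × ℂ} (ht : t ∈ delT S) {i : ZMod 3}
    (hx : ‖mid (sd t i) - z‖ ≤ 3 * r) : ‖cc t - mid (sd t i)‖ ≤ 2 * d := by
  obtain ⟨e1, e2, e3⟩ := sd_near H.net H.dpos H.hol ht i hx
  exact cc_near e1 e2 e3

/-- if the centre of gravity is in the ball, the middles of the sides are near it -/
theorem near_cc' (H : Nr S N z r l d L V) {t : ℂ × ℂ × ℂ} (ht : t ∈ delT S) (i : ZMod 3)
    (hx : ‖cc t - z‖ ≤ 3 * r) : ‖mid (sd t i) - cc t‖ < 2 * d := by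
  obtain ⟨e1, e2, e3⟩ := near_pt H.dpos H.hol ht (cc_inT (tri_pos ht)) hx
  change ‖t.1 - cc t‖ < 2 * d at e1
  change ‖t.2.1 - cc t‖ < 2 * d at e2
  change ‖t.2.2 - cc t‖ < 2 * d at e3
  revert i
  rw [forall_z3, sd0, sd1, sd2]
  exact ⟨mid_le e1 e2, mid_le e2 e3, mid_le e3 e1⟩

/-- error of one step -/
theorem errB_le (H : Nr S N z r l d L V) {w : ℂ × ℂ × ℂ → ℂ}
    (hw : ∀ t, ‖w t‖ ≤ ‖t.2.1 - t.1‖) (x : St ℂ) :
    errB S l (phc r z) w (psi r z) x ≤
      if dist (mid x.2) z < 2 * r then 4 * √3 * L * √V * l ^ 2 else 0 := by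
  have hl := H.lpos
  have hd := H.dpos
  have h1 := H.sm1
  have h2 := H.sm2
  have hL := H.L0
  unfold errB
  split_ifs with hx
  · rw [dist_eq_norm] at hx
    have hpt : ∀ t ∈ near S l x, ‖(phc r z t - psi r z x.2) * w t‖ ^ 2 ≤
        (L * (2 * l)) ^ 2 * ‖t.2.1 - t.1‖ ^ 2 := by
      intro t ht
      obtain ⟨htS, i, hi⟩ := Finset.mem_filter.1 ht
      rw [dist_eq_norm] at hi
      have h3 := norm_tri (mid (sd t i)) (mid x.2) z
      have h4 := near_cc H htS (i := i) (by linarith)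
      have h5 := norm_tri (cc t) (mid (sd t i)) (mid x.2)
      have h6 : ‖phc r z t - psi r z x.2‖ ≤ L * (2 * l) :=
        (H.lip _ _).trans (mul_le_mul_of_nonneg_left (by linarith) hL)
      rw [norm_mul, mul_pow]
      have h7 := hw t
      have h8 := norm_nonneg (w t)
      have h9 := norm_nonneg (phc r z t - psi r z x.2)
      gcongr
    have hsub : near S l x ⊆ touch (mid x.2) (2 * l) S := by
      intro t ht
      obtain ⟨htS, i, hi⟩ := Finset.mem_filter.1 ht
      rw [dist_eq_norm] at hi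
      have h3 := norm_tri (mid (sd t i)) (mid x.2) z
      have h4 := (sd_near H.net hd H.hol htS i (by linarith)).1
      have h5 := norm_tri t.1 (mid (sd t i)) (mid x.2)
      exact Finset.mem_filter.2 ⟨htS, t.1, left_mem_segment ℝ _ _, by linarith⟩
    have h3 : ∑ t ∈ near S l x, ‖(phc r z t - psi r z x.2) * w t‖ ^ 2 ≤
        (L * (2 * l)) ^ 2 * (V * l ^ 2) := by
      refine (Finset.sum_le_sum hpt).trans ?_
      rw [← Finset.mul_sum]
      refine mul_le_mul_of_nonneg_left ?_ (sq_nonneg _)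
      exact (Finset.sum_le_sum_of_subset_of_nonneg hsub fun _ _ _ => sq_nonneg _).trans
        (H.sq _ hx)
    have h4 := Real.sqrt_le_sqrt h3
    rw [Real.sqrt_mul (sq_nonneg _), Real.sqrt_sq (by positivity), Real.sqrt_mul H.V0,
      Real.sqrt_sq hl.le] at h4
    have h5 : (0 : ℝ) ≤ √3 := Real.sqrt_nonneg _
    have h6 := mul_le_mul_of_nonneg_left h4 h5
    have e : √3 * (L * (2 * l) * (√V * l)) = 2 * √3 * L * √V * l ^ 2 := by ring
    linarith
  · rw [dist_eq_norm] at hx
    have h0 : ∑ t ∈ near S l x, ‖(phc r z t - psi r z x.2) * w t‖ ^ 2 = 0 := by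
      refine Finset.sum_eq_zero fun t ht => ?_
      obtain ⟨htS, i, hi⟩ := Finset.mem_filter.1 ht
      rw [dist_eq_norm] at hi
      have h3 : psi r z x.2 = 0 := phi_zero H.rpos (by linarith)
      have h4 : phc r z t = 0 := by
        refine phi_zero H.rpos ?_
        by_contra hcon
        push Not at hcon
        have h5 := near_cc' H htS i (by linarith)
        have h6 := norm_tri (mid x.2) (mid (sd t i)) z
        have h7 := norm_tri (mid (sd t i)) (cc t) z
        rw [norm_sub_rev (mid x.2) (mid (sd t i))] at h6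
        apply hx
        linarith
      rw [h3, h4, sub_zero, zero_mul, norm_zero]
      norm_num
    rw [h0, Real.sqrt_zero]
    simp

/-- the increment of the test function -/
theorem psi_step (H : Nr S N z r l d L V) {J : Finset (ℂ × ℂ)} (hJ : J ∈ Om N) (n : ℕ) :
    ‖psi r z (xs N l J (n + 1)).2 - psi r z (xs N l J n).2‖ ≤
      if dist (mid (xs N l J (n + 1)).2) z < 2 * r then 2 * L * l else 0 := by
  have hl := H.lpos
  have hd := H.dpos
  have h1 := H.sm1
  have h2 := H.sm2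
  have hL := H.L0
  obtain ⟨L'', _, hF, hin, _⟩ := xs_step (good_of_hnet H.net) hl hJ n
  set p := (xs N l J n).2 with hp
  set q := (xs N l J (n + 1)).2 with hq
  rcases fol_last L'' p q hF with e | ⟨m, u, ⟨a, ha, ham⟩, hT⟩
  · rw [e, sub_self, norm_zero]
    split_ifs
    · positivity
    · exact le_refl _
  · have h3 := hin a ha
    rw [ham, dist_eq_norm] at h3
    by_cases hq0 : ‖mid q - z‖ < r
    · have h4 := turn_near H.net hd H.hol hT (Or.inr (by linarith))
      have h5 := norm_tri (mid q) (mid m) (mid p)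
      rw [if_pos (by rw [dist_eq_norm]; linarith)]
      refine (H.lip _ _).trans ?_
      have := mul_le_mul_of_nonneg_left (show ‖mid q - mid p‖ ≤ 2 * l by linarith) hL
      linarith
    · by_cases hp0 : ‖mid p - z‖ < r
      · have h6 := norm_tri (mid m) (mid p) z
        have h4 := turn_near H.net hd H.hol hT (Or.inl (by linarith))
        have h5 := norm_tri (mid q) (mid m) (mid p)
        have h7 := norm_tri (mid q) (mid p) z
        rw [if_pos (by rw [dist_eq_norm]; linarith)]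
        refine (H.lip _ _).trans ?_
        have := mul_le_mul_of_nonneg_left (show ‖mid q - mid p‖ ≤ 2 * l by linarith) hL
        linarith
      · have e1 : psi r z q = 0 := phi_zero H.rpos (not_lt.1 hq0)
        have e2 : psi r z p = 0 := phi_zero H.rpos (not_lt.1 hp0)
        rw [e1, e2, sub_zero, norm_zero]
        split_ifs
        · positivity
        · exact le_refl _

theorem Y_zero {w : ℂ × ℂ × ℂ → ℂ} {x : St ℂ} (h : ¬ Alive S N x) : Y S N w x = 0 := by
  unfold Y
  refine Finset.sum_eq_zero fun t ht => ?_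
  by_contra hne
  refine h ⟨t, ht, fun h0 => hne ?_⟩
  rw [h0, mul_zero]

/-- **STEP 4, deterministic form** -/
theorem det1 (H : Nr S N z r l d L V) {w : ℂ × ℂ × ℂ → ℂ} (hw : ∀ t, ‖w t‖ ≤ ‖t.2.1 - t.1‖)
    (hm : r ≤ ‖mid (N.ex 0) - z‖) :
    ‖∑ t ∈ delT S, N.Q t * (w t * (tst r z (cc t) : ℂ))‖ ≤
      4 * √3 * L * √V * (l ^ 2 * av N fun J => (cnt S N l z (2 * r) J : ℝ)) +
        2 * L * l * av N (sY S N w l z (2 * r)) := by
  have hl := H.lpos
  have hL := H.L0
  have h1 := mab_ball H.net hl (phc r z) w (psi r z) (le_refl (fuel N))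
  have e0 : ∑ t ∈ delT S, N.Q t * (w t * (tst r z (cc t) : ℂ)) =
      ∑ t ∈ delT S, phc r z t * w t * N.Q t := by
    refine Finset.sum_congr rfl fun t _ => ?_
    have : phc r z t = (tst r z (cc t) : ℂ) := rfl
    rw [this]
    ring
  have e1 : psi r z (N.ex 0) = 0 := phi_zero H.rpos hm
  rw [e1, norm_zero, zero_mul, zero_add] at h1
  rw [e0]
  refine h1.trans ?_
  rw [← mul_assoc, ← av_mul, ← av_mul, ← av_add]
  refine av_mono (N := N) fun J hJ => ?_
  set K1 : ℝ := 4 * √3 * L * √V with hK1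
  have hK1' : 0 ≤ K1 := by positivity
  have a1 : ∀ j, (if Alive S N (xs N l J j) then
      errB S l (phc r z) w (psi r z) (xs N l J j) else 0) ≤
      if Alive S N (xs N l J j) ∧ dist (mid (xs N l J j).2) z < 2 * r then K1 * l ^ 2 else 0 := by
    intro j
    by_cases h2 : Alive S N (xs N l J j)
    · rw [if_pos h2]
      refine (errB_le H hw _).trans (le_of_eq ?_)
      by_cases h3 : dist (mid (xs N l J j).2) z < 2 * r
      · rw [if_pos h3, if_pos ⟨h2, h3⟩]
      · rw [if_neg h3, if_neg fun h => h3 h.2]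
    · rw [if_neg h2, if_neg fun h => h2 h.1]
  have a2 : ∀ j, ‖psi r z (xs N l J (j + 1)).2 - psi r z (xs N l J j).2‖ *
      ‖Y S N w (xs N l J (j + 1))‖ ≤ 2 * L * l *
      (if Alive S N (xs N l J (j + 1)) ∧ dist (mid (xs N l J (j + 1)).2) z < 2 * r then
        ‖Y S N w (xs N l J (j + 1))‖ else 0) := by
    intro j
    by_cases h2 : Alive S N (xs N l J (j + 1))
    · have h4 := psi_step H hJ j
      by_cases h3 : dist (mid (xs N l J (j + 1)).2) z < 2 * r
      · rw [if_pos h3] at h4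
        rw [if_pos ⟨h2, h3⟩]
        exact mul_le_mul_of_nonneg_right h4 (norm_nonneg _)
      · rw [if_neg h3] at h4
        rw [if_neg fun h => h3 h.2, mul_zero]
        have h5 : ‖psi r z (xs N l J (j + 1)).2 - psi r z (xs N l J j).2‖ = 0 :=
          le_antisymm h4 (norm_nonneg _)
        rw [h5, zero_mul]
    · rw [Y_zero h2, norm_zero, mul_zero]
      split_ifs <;> simp
  have b1 : ∑ j ∈ Finset.range (fuel N), (if Alive S N (xs N l J j) then
      errB S l (phc r z) w (psi r z) (xs N l J j) else 0) ≤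
      K1 * l ^ 2 * (cnt S N l z (2 * r) J : ℝ) := by
    refine (Finset.sum_le_sum fun j _ => a1 j).trans ?_
    have h5 : ∑ j ∈ Finset.range (fuel N), (if Alive S N (xs N l J j) ∧
        dist (mid (xs N l J j).2) z < 2 * r then K1 * l ^ 2 else 0) ≤
        ∑ j ∈ Finset.range (fuel N + 1), (if Alive S N (xs N l J j) ∧
        dist (mid (xs N l J j).2) z < 2 * r then K1 * l ^ 2 else 0) := by
      refine Finset.sum_le_sum_of_subset_of_nonneg
        (Finset.range_mono (Nat.le_succ _)) fun j _ _ => ?_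
      split_ifs
      · positivity
      · exact le_refl _
    refine h5.trans (le_of_eq ?_)
    rw [← Finset.sum_filter, Finset.sum_const, nsmul_eq_mul, mul_comm]
    rfl
  have b2 : ∑ j ∈ Finset.range (fuel N), ‖psi r z (xs N l J (j + 1)).2 -
      psi r z (xs N l J j).2‖ * ‖Y S N w (xs N l J (j + 1))‖ ≤
      2 * L * l * sY S N w l z (2 * r) J := by
    refine (Finset.sum_le_sum fun j _ => a2 j).trans ?_
    rw [← Finset.mul_sum]
    refine mul_le_mul_of_nonneg_left ?_ (by positivity)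
    unfold sY
    rw [Finset.sum_filter, Finset.sum_range_succ' (n := fuel N)]
    have : (0 : ℝ) ≤ if Alive S N (xs N l J 0) ∧ dist (mid (xs N l J 0).2) z < 2 * r then
        ‖Y S N w (xs N l J 0)‖ else 0 := by
      split_ifs
      · exact norm_nonneg _
      · exact le_refl _
    linarith
  unfold costB
  rw [Finset.sum_add_distrib]
  exact add_le_add b1 b2

/-- **STEP 4, splitting** -/
theorem det2 {w : ℂ × ℂ × ℂ → ℂ} {B θ : ℝ} (hθ : 0 ≤ θ) (hB : 0 ≤ B)
    (M : ℕ) (hY : ∀ J ∈ Om N, ¬ Bad S N w l z R B J) :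
    av N (sY S N w l z R) ≤ M * θ + B * av N (fun J => if M < cnt S N l z R J then
      (cnt S N l z R J : ℝ) else 0) + B * M * av N (fun J => if Bad S N w l z R θ J then
        1 else 0) := by
  have h1 : ∀ J ∈ Om N, sY S N w l z R J ≤ M * θ + (B * (if M < cnt S N l z R J then
      (cnt S N l z R J : ℝ) else 0) + B * M * (if Bad S N w l z R θ J then 1 else 0)) := by
    intro J hJ
    have hb : ∀ {b : ℝ}, ¬ Bad S N w l z R b J → sY S N w l z R J ≤ cnt S N l z R J * b := by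
      intro b hb
      unfold sY cnt
      rw [← nsmul_eq_mul]
      refine Finset.sum_le_card_nsmul _ _ _ fun j hj => ?_
      obtain ⟨hj1, hj2, hj3⟩ := Finset.mem_filter.1 hj
      by_contra hcon
      push Not at hcon
      exact hb ⟨j, hj1, hj2, hj3, hcon⟩
    have hc := hb (hY J hJ)
    have hn : (0 : ℝ) ≤ (cnt S N l z R J : ℝ) := Nat.cast_nonneg _
    have hM : (0 : ℝ) ≤ (M : ℝ) := Nat.cast_nonneg _
    by_cases h2 : M < cnt S N l z R J
    · rw [if_pos h2]
      have h5 : 0 ≤ B * M * (if Bad S N w l z R θ J then (1 : ℝ) else 0) := by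
        split_ifs <;> positivity
      have h6 : 0 ≤ M * θ := by positivity
      linarith
    · rw [if_neg h2, mul_zero, zero_add]
      have h3 : (cnt S N l z R J : ℝ) ≤ M := by exact_mod_cast not_lt.1 h2
      by_cases h4 : Bad S N w l z R θ J
      · rw [if_pos h4, mul_one]
        have h6 : 0 ≤ M * θ := by positivity
        have h7 := mul_le_mul_of_nonneg_right h3 hB
        linarith
      · rw [if_neg h4, mul_zero, add_zero]
        exact (hb h4).trans (mul_le_mul_of_nonneg_right h3 hθ)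
  refine (av_mono h1).trans ?_
  have h2 := av_const_le (N := N) (c := (M : ℝ) * θ) (by positivity)
  have h3 := av_add (N := N) (fun _ => (M : ℝ) * θ) (fun J => B * (if M < cnt S N l z R J then
      (cnt S N l z R J : ℝ) else 0) + B * M * (if Bad S N w l z R θ J then 1 else 0))
  have h4 := av_add (N := N) (fun J => B * (if M < cnt S N l z R J then
      (cnt S N l z R J : ℝ) else 0)) (fun J => B * M * (if Bad S N w l z R θ J then 1 else 0))
  have h5 := av_mul (N := N) B (fun J => if M < cnt S N l z R J then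
      (cnt S N l z R J : ℝ) else 0)
  have h6 := av_mul (N := N) (B * M) (fun J => if Bad S N w l z R θ J then 1 else 0)
  rw [h3, h4, h5, h6]
  linarith

end Crest.Agent.R143.AsmNx758
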