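import Crest.Agent.R143.AsmN_758
import Crest.Agent.R143.Ad_422

/-!
# Row 143 (S0194), STEP 4, analysis half, assembly (helper758)

Literal leaves (all for `Adm`, e.g. `AdP`): `NST` (number of steps), `UIJ` (uniform integrability at
fixed `l`), `BND w` (bounded totals), `CONT w T` (slit domains against finitely many polygons),
`POLY T T'` (the dichotomy for polygons, per `ε`).
* `yw_of : NST → UIJ → BND we → BND wd → CONT we T → CONT wd T' → POLY T T' → YW`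
-/

set_option autoImplicit false

noncomputable section

open scoped Classical

namespace Crest.Agent.R143.AsmNx758

open Complex Set Filter Topology MeasureTheory
open scoped ENNReal
open Crest.ProbabilityR.Voronoi
open Crest.Agent.R143.B0x346 Crest.Agent.R143.B0Dx346 Crest.Agent.R143.PP1x831
open Crest.Agent.R143.Y0x831 (Good)
open Crest.Agent.R143.Mabx377
open Crest.Agent.R143.B1bx796 (touch phi phi_zero)
open Crest.Agent.R143.Locx922
open Crest.Agent.R143.Spinex422 (Room Linked)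
open Crest.Agent.R143.B6Ix903 (net)
open Crest.Agent.R143.DicBx831 (cc)
open Crest.Agent.R143.DicCx831 (phi_lip rad_small rad_pos ev_unit log_small)
open Crest.Agent.R143.DicDx831 (tst Yb Yd YW room_norm good_ev)

/-- weight of the mean end point -/
def we (t : ℂ × ℂ × ℂ) : ℂ := t.2.1 - t.1

/-- conjugate weight -/
def wd (t : ℂ × ℂ × ℂ) : ℂ := (starRingEnd ℂ) (t.2.1 - t.1)

theorem we_le (t : ℂ × ℂ × ℂ) : ‖we t‖ ≤ ‖t.2.1 - t.1‖ := le_rfl

theorem wd_le (t : ℂ × ℂ × ℂ) : ‖wd t‖ ≤ ‖t.2.1 - t.1‖ := by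
  unfold wd
  rw [Complex.norm_conj]

/-! ### the leaves -/

/-- **leaf NST**: `l²` times the mean number of steps is small -/
def NST (Adm : Dom → ℝ → Prop) : Prop := ∀ (D : Dom) (δ : ℝ), Adm D δ → ∀ m > 0, ∀ r > 0,
  ∀ z : ℂ, Room D (4 * r) z → Linked D m z → ∀ η > 0, ∃ l0 > 0, ∀ l > 0, l < l0 →
  ∀ᶠ ε : ℝ in 𝓝[>] 0, sampleLaw {ω | η < l ^ 2 * av (net D ε ω) (fun J =>
    (cnt (D.sites ε ω) (net D ε ω) l z (2 * r) J : ℝ))} ≤ ENNReal.ofReal η

/-- **leaf UIJ**: for fixed `l`, the number of steps is uniformly integrable -/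
def UIJ (Adm : Dom → ℝ → Prop) : Prop := ∀ (D : Dom) (δ : ℝ), Adm D δ → ∀ m > 0, ∀ r > 0,
  ∀ z : ℂ, Room D (4 * r) z → Linked D m z → ∀ l > 0, 4 * l < r → ∀ η > 0, ∃ M : ℕ,
  ∀ᶠ ε : ℝ in 𝓝[>] 0, sampleLaw {ω | η < av (net D ε ω) (fun J =>
    if M < cnt (D.sites ε ω) (net D ε ω) l z (2 * r) J then
      (cnt (D.sites ε ω) (net D ε ω) l z (2 * r) J : ℝ) else 0)} ≤ ENNReal.ofReal η

/-- **leaf BND**: the totals of the explored networks are bounded -/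
def BND (w : ℂ × ℂ × ℂ → ℂ) (Adm : Dom → ℝ → Prop) : Prop := ∀ (D : Dom) (δ : ℝ), Adm D δ →
  ∀ m > 0, ∀ r > 0, ∀ z : ℂ, Room D (4 * r) z → Linked D m z → ∃ B : ℝ, 0 ≤ B ∧
  ∀ l > 0, 4 * l < r → ∀ η > 0, ∀ᶠ ε : ℝ in 𝓝[>] 0,
    sampleLaw {ω | ∃ J ∈ Om (net D ε ω), Bad (D.sites ε ω) (net D ε ω) w l z (2 * r) B J} ≤
      ENNReal.ofReal η

/-- **leaf CONT**: the totals of the explored networks are controlled by finitely many polygons -/
def CONT {U : Type} (w : ℂ × ℂ × ℂ → ℂ) (T : U → ℝ → Sample → ℂ) (Adm : Dom → ℝ → Prop) : Prop :=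
  ∀ (D : Dom) (δ : ℝ), Adm D δ → ∀ m > 0, ∀ r > 0, ∀ z : ℂ, Room D (4 * r) z → Linked D m z →
  ∀ l > 0, 4 * l < r → ∀ η > 0, ∃ (P : Finset U) (A : ℝ), 0 ≤ A ∧ ∀ᶠ ε : ℝ in 𝓝[>] 0,
    sampleLaw {ω | η < av (net D ε ω) (fun J =>
      if Bad (D.sites ε ω) (net D ε ω) w l z (2 * r) (η + A * ∑ u ∈ P, ‖T u ε ω‖) J then
        1 else 0)} ≤ ENNReal.ofReal η

/-- **leaf POLY**: dichotomy of the totals of the polygons, per `ε` -/
def POLY {U U' : Type} (T : U → ℝ → Sample → ℂ) (T' : U' → ℝ → Sample → ℂ) : Prop :=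
  ∀ (u : U) (u' : U'), ∀ η > 0, ∀ᶠ ε : ℝ in 𝓝[>] 0,
    sampleLaw {ω | η < ‖T u ε ω‖} ≤ ENNReal.ofReal η ∨
    sampleLaw {ω | η < ‖T' u' ε ω‖} ≤ ENNReal.ofReal η

/-! ### a good environment gives the hypotheses of the deterministic part -/

/-- a good environment gives a network -/
theorem hnet_evW {D : Dom} {δ C : ℝ} (hD : D.W δ) :
    ∀ᶠ ε : ℝ in 𝓝[>] 0, ∀ (K a C4 : ℝ) (ω : Sample), Good D ε C K a C4 ω →
      HNet (D.sites ε ω) (net D ε ω) := by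
  have hδ := hD.dpos
  have hL := hD.Lpos
  filter_upwards [(rad_small C).eventually
    (ge_mem_nhds (show (0 : ℝ) < δ ^ 6 / (40000 * D.L ^ 5) by positivity))] with ε h K a C4 ω hω
  refine Adx422.d1 hD hω.env ?_
  rw [le_div_iff₀ (by positivity)] at h
  linarith

theorem nr_of_good {D : Dom} {δ C K a C4 : ℝ} (hD : D.W δ) (hC : 0 < C) (hC4 : 0 ≤ C4) {r : ℝ}
    (hr : 0 < r) {z : ℂ} (hz : Room D (4 * r) z) {l : ℝ} (hl : 0 < l) (hlr : 4 * l < r)
    (hl1 : 4 * l ≤ 1) {L : ℝ} (hL : 0 ≤ L)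
    (hLip : ∀ x y, ‖phi r z x - phi r z y‖ ≤ L * ‖x - y‖) :
    ∀ᶠ ε : ℝ in 𝓝[>] 0, ∀ ω : Sample, Good D ε C K a C4 ω →
      Nr (D.sites ε ω) (net D ε ω) z r l (rad C ε) L (64 * C4) ∧
        r ≤ ‖mid ((net D ε ω).ex 0) - z‖ := by
  have h1 := room_norm hz (by linarith)
  have h7 : 0 ≤ ‖z - D.c‖ := norm_nonneg _
  have hL0 := hD.Lpos
  filter_upwards [ev_unit, hnet_evW (C := C) hD, (rad_small C).eventually
    (ge_mem_nhds (show (0 : ℝ) < l / 4 by linarith)),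
    (log_small a).eventually (ge_mem_nhds (show (0 : ℝ) < 2 * (2 * l) by linarith))]
    with ε e1 e3 e4 e5 ω hω
  have hrad := rad_pos hC e1
  have hN := e3 K a C4 ω hω
  have hH : Hol (D.sites ε ω : Set ℂ) (Metric.closedBall z (3 * r)) (rad C ε) := by
    refine (Env.hol_sites hω.env).mono (Metric.closedBall_subset_closedBall' ?_)
    rw [dist_eq_norm]
    linarith
  refine ⟨⟨hN, hr, hl, hrad, hH, by linarith, by linarith, hL, hLip, by positivity,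
    fun c hc => ?_⟩, ?_⟩
  · have h2 := norm_tri c z D.c
    have h3 := (B6Cx654.touch_sq hω hrad hC4 (z₀ := c) (r := 2 * l) (by linarith) (by linarith)
      e5 (by linarith)).2
    linarith
  · have h2 := B1gx991.hull_far hrad hH (hN.hex 0) (mid ((net D ε ω).ex 0)) ?_
    · linarith
    · unfold mid
      rw [segment_eq_image]
      refine ⟨1 / 2, ⟨by norm_num, by norm_num⟩, ?_⟩
      simp only [Complex.real_smul]
      push_cast
      ring

/-! ### one side -/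

section side

variable {U : Type} {w : ℂ × ℂ × ℂ → ℂ} {T : U → ℝ → Sample → ℂ} {Adm : Dom → ℝ → Prop}

/-- the weighted sum -/
def Yg (w : ℂ × ℂ × ℂ → ℂ) (D : Dom) (ε : ℝ) (ω : Sample) (φ : ℂ → ℝ) : ℂ :=
  ∑ t ∈ delT (D.sites ε ω), (net D ε ω).Q t * (w t * (φ (cc t) : ℂ))

theorem side (hw : ∀ t, ‖w t‖ ≤ ‖t.2.1 - t.1‖) (hAdm : ∀ D δ, Adm D δ → D.W δ)
    (h1 : NST Adm) (h2 : UIJ Adm) (h3 : BND w Adm) (h4 : CONT w T Adm)
    {D : Dom} {δ : ℝ} (hD : Adm D δ) {m : ℝ} (hm : 0 < m) {r : ℝ} (hr : 0 < r) {z : ℂ}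
    (hz : Room D (4 * r) z) (hli : Linked D m z) {η : ℝ} (hη : 0 < η) :
    ∃ (P : Finset U) (η1 : ℝ), 0 < η1 ∧ ∀ᶠ ε : ℝ in 𝓝[>] 0,
      (∀ u ∈ P, sampleLaw {ω | η1 < ‖T u ε ω‖} ≤ ENNReal.ofReal η1) →
      sampleLaw {ω | η < ‖Yg w D ε ω (tst r z)‖} ≤ ENNReal.ofReal η := by
  have hOK := hAdm D δ hD
  obtain ⟨C, K, a, C4, hC, hK, ha, hC4, hgood⟩ := good_ev D hOK.Lpos
  obtain ⟨L, hL, hLip⟩ := phi_lip hr z
  obtain ⟨B, hB, h3⟩ := h3 D δ hD m hm r hr z hz hli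
  set K1 : ℝ := 4 * √3 * L * √(64 * C4) with hK1
  have hK10 : 0 ≤ K1 := by positivity
  -- the scale
  obtain ⟨ηa, hηa, hηa1, hηa2⟩ : ∃ ηa > 0, K1 * ηa ≤ η / 8 ∧ ηa ≤ η / 8 := by
    refine ⟨η / (8 * (1 + K1)), by positivity, ?_, ?_⟩
    · rw [mul_div_assoc', div_le_div_iff₀ (by positivity) (by norm_num)]
      nlinarith
    · rw [div_le_div_iff₀ (by positivity) (by norm_num)]
      nlinarith [mul_nonneg hη.le hK10]
  obtain ⟨l0, hl0, h1⟩ := h1 D δ hD m hm r hr z hz hli ηa hηa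
  obtain ⟨l, hl, hll0, hlr, hl1⟩ : ∃ l > 0, l < l0 ∧ 4 * l < r ∧ 4 * l ≤ 1 := by
    refine ⟨min (l0 / 2) (min (r / 8) (1 / 4)), by positivity, ?_, ?_, ?_⟩
    · exact lt_of_le_of_lt (min_le_left _ _) (by linarith)
    · have : min (l0 / 2) (min (r / 8) (1 / 4)) ≤ r / 8 :=
        (min_le_right _ _).trans (min_le_left _ _)
      linarith
    · have : min (l0 / 2) (min (r / 8) (1 / 4)) ≤ 1 / 4 :=
        (min_le_right _ _).trans (min_le_right _ _)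
      linarith
  have h1 := h1 l hl hll0
  set κ : ℝ := 2 * L * l with hκ
  have hκ0 : 0 ≤ κ := by positivity
  obtain ⟨ηb, hηb, hηb1, hηb2⟩ : ∃ ηb > 0, κ * (B * ηb) ≤ η / 8 ∧ ηb ≤ η / 8 := by
    have hx : 0 ≤ κ * B := mul_nonneg hκ0 hB
    refine ⟨η / (8 * (1 + κ * B)), by positivity, ?_, ?_⟩
    · rw [← mul_assoc, mul_div_assoc', div_le_div_iff₀ (by positivity) (by norm_num)]
      nlinarith
    · rw [div_le_div_iff₀ (by positivity) (by norm_num)]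
      nlinarith [mul_nonneg hη.le hx]
  obtain ⟨M, h2⟩ := h2 D δ hD m hm r hr z hz hli l hl hlr ηb hηb
  obtain ⟨ηc, hηc, hηc1, hηc2⟩ : ∃ ηc > 0, κ * (M * (2 * ηc) + B * M * ηc) ≤ η / 8 ∧
      ηc ≤ η / 8 := by
    have hM : (0 : ℝ) ≤ (M : ℝ) := Nat.cast_nonneg _
    have hx : 0 ≤ κ * (M * 2 + B * M) := by positivity
    refine ⟨η / (8 * (1 + κ * (M * 2 + B * M))), by positivity, ?_, ?_⟩
    · have e : κ * (M * (2 * (η / (8 * (1 + κ * (M * 2 + B * M))))) +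
          B * M * (η / (8 * (1 + κ * (M * 2 + B * M))))) =
          (κ * (M * 2 + B * M)) * (η / (8 * (1 + κ * (M * 2 + B * M)))) := by ring
      rw [e, mul_div_assoc', div_le_div_iff₀ (by positivity) (by norm_num)]
      nlinarith
    · rw [div_le_div_iff₀ (by positivity) (by norm_num)]
      nlinarith [mul_nonneg hη.le hx]
  obtain ⟨P, A, hA, h4⟩ := h4 D δ hD m hm r hr z hz hli l hl hlr ηc hηc
  have h3 := h3 l hl hlr (η / 8) (by positivity)
  have hP0 : (0 : ℝ) ≤ (P.card : ℝ) := Nat.cast_nonneg _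
  obtain ⟨η1, hη1, hη11, hη12⟩ : ∃ η1 > 0, A * (P.card * η1) ≤ ηc ∧ P.card * η1 ≤ η / 8 := by
    refine ⟨ηc / (1 + P.card + A * P.card), by positivity, ?_, ?_⟩
    · rw [← mul_assoc, mul_div_assoc', div_le_iff₀ (by positivity)]
      nlinarith
    · have : P.card * (ηc / (1 + P.card + A * P.card)) ≤ ηc := by
        rw [mul_div_assoc', div_le_iff₀ (by positivity)]
        nlinarith [mul_nonneg hA hP0]
      linarith
  refine ⟨P, η1, hη1, ?_⟩
  have hNr := nr_of_good (K := K) (a := a) hOK hC hC4.le hr hz hl hlr hl1 hL hLip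
  filter_upwards [hgood, hNr, h1, h2, h3, h4, ev_unit,
    (tendsto_id.mono_left nhdsWithin_le_nhds : Tendsto (fun ε : ℝ => ε) (𝓝[>] 0) (𝓝 0)).eventually
      (ge_mem_nhds (show (0 : ℝ) < η / 8 by positivity))] with ε g0 g1 g2 g3 g4 g5 g6 g7 hT
  have hsub : {ω | η < ‖Yg w D ε ω (tst r z)‖} ⊆
      ({ω | ¬ Good D ε C K a C4 ω} ∪ {ω | ηa < l ^ 2 * av (net D ε ω) (fun J =>
        (cnt (D.sites ε ω) (net D ε ω) l z (2 * r) J : ℝ))}) ∪
      ({ω | ηb < av (net D ε ω) (fun J =>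
        if M < cnt (D.sites ε ω) (net D ε ω) l z (2 * r) J then
          (cnt (D.sites ε ω) (net D ε ω) l z (2 * r) J : ℝ) else 0)} ∪
        {ω | ∃ J ∈ Om (net D ε ω),
          Bad (D.sites ε ω) (net D ε ω) w l z (2 * r) B J}) ∪
      ({ω | ηc < av (net D ε ω) (fun J =>
        if Bad (D.sites ε ω) (net D ε ω) w l z (2 * r) (ηc + A * ∑ u ∈ P, ‖T u ε ω‖) J then
          1 else 0)} ∪ ⋃ u ∈ P, {ω | η1 < ‖T u ε ω‖}) := by
    intro ω hω
    by_contra hcon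
    simp only [mem_union, mem_ofPred_eq, mem_iUnion, not_or, not_exists, not_lt, not_not,
      not_and] at hcon
    obtain ⟨⟨⟨c0, c1⟩, c2, c3⟩, c4, c5⟩ := hcon
    obtain ⟨hN, hex⟩ := g1 ω c0
    have hd1 := det1 hN hw hex
    set S' := D.sites ε ω with hS'
    set N' := net D ε ω with hN'
    have hsum0 : 0 ≤ ∑ u ∈ P, ‖T u ε ω‖ := Finset.sum_nonneg fun _ _ => norm_nonneg _
    have hsum : ∑ u ∈ P, ‖T u ε ω‖ ≤ P.card * η1 := by
      rw [← nsmul_eq_mul]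
      exact Finset.sum_le_card_nsmul _ _ _ fun u hu => c5 u hu
    have hθ : ηc + A * ∑ u ∈ P, ‖T u ε ω‖ ≤ 2 * ηc := by
      have := mul_le_mul_of_nonneg_left hsum hA
      linarith
    have hθ0 : 0 ≤ ηc + A * ∑ u ∈ P, ‖T u ε ω‖ := by positivity
    have hd2 := det2 (S := S') (N := N') (w := w) (l := l) (z := z) (R := 2 * r) hθ0 hB M
      (fun J hJ => c3 J hJ)
    have hM : (0 : ℝ) ≤ (M : ℝ) := Nat.cast_nonneg _
    have hd3 : av N' (sY S' N' w l z (2 * r)) ≤ M * (2 * ηc) + B * ηb + B * M * ηc := by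
      refine hd2.trans ?_
      have x1 := mul_le_mul_of_nonneg_left hθ hM
      have x2 := mul_le_mul_of_nonneg_left c2 hB
      have x3 := mul_le_mul_of_nonneg_left c4 (mul_nonneg hB hM)
      linarith
    have hd4 := mul_le_mul_of_nonneg_left hd3 hκ0
    have hd5 := mul_le_mul_of_nonneg_left c1 hK10
    have hd6 : ‖Yg w D ε ω (tst r z)‖ ≤ K1 * (l ^ 2 * av N' fun J =>
        (cnt S' N' l z (2 * r) J : ℝ)) + κ * av N' (sY S' N' w l z (2 * r)) := hd1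
    have hω' : η < ‖Yg w D ε ω (tst r z)‖ := hω
    have e1 : κ * (M * (2 * ηc) + B * ηb + B * M * ηc) =
        κ * (M * (2 * ηc) + B * M * ηc) + κ * (B * ηb) := by ring
    rw [e1] at hd4
    linarith
  have hU : sampleLaw (⋃ u ∈ P, {ω | η1 < ‖T u ε ω‖}) ≤ ENNReal.ofReal (η / 8) := by
    refine (measure_biUnion_finset_le _ _).trans ((Finset.sum_le_sum hT).trans ?_)
    rw [Finset.sum_const, nsmul_eq_mul]
    have e : (P.card : ℝ≥0∞) * ENNReal.ofReal η1 = ENNReal.ofReal (P.card * η1) := by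
      rw [ENNReal.ofReal_mul hP0, ENNReal.ofReal_natCast]
    rw [e]
    exact ENNReal.ofReal_le_ofReal hη12
  have k0 := g0.trans (ENNReal.ofReal_le_ofReal g7)
  have k2 := g2.trans (ENNReal.ofReal_le_ofReal hηa2)
  have k3 := g3.trans (ENNReal.ofReal_le_ofReal hηb2)
  have k5 := g5.trans (ENNReal.ofReal_le_ofReal hηc2)
  have h8 : (0 : ℝ) ≤ η / 8 := by positivity
  have two : ∀ {X Y : Set Sample} {x y : ℝ}, 0 ≤ x → 0 ≤ y → sampleLaw X ≤ ENNReal.ofReal x →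
      sampleLaw Y ≤ ENNReal.ofReal y → sampleLaw (X ∪ Y) ≤ ENNReal.ofReal (x + y) := by
    intro X Y x y hx hy h1 h2
    refine (measure_union_le _ _).trans ?_
    rw [ENNReal.ofReal_add hx hy]
    exact add_le_add h1 h2
  refine (measure_mono hsub).trans ((two (by positivity) (by positivity)
    (two (by positivity) (by positivity) (two h8 h8 k0 k2) (two h8 h8 k3 g4))
    (two h8 h8 k5 hU)).trans (ENNReal.ofReal_le_ofReal (by linarith)))

end side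

/-! ### the assembly -/

/-- eventually, for finitely many pairs -/
theorem poly_fin {U U' : Type} {T : U → ℝ → Sample → ℂ} {T' : U' → ℝ → Sample → ℂ}
    (h : POLY T T') (P : Finset U) (P' : Finset U') {η : ℝ} (hη : 0 < η) :
    ∀ᶠ ε : ℝ in 𝓝[>] 0, (∀ u ∈ P, sampleLaw {ω | η < ‖T u ε ω‖} ≤ ENNReal.ofReal η) ∨
      (∀ u' ∈ P', sampleLaw {ω | η < ‖T' u' ε ω‖} ≤ ENNReal.ofReal η) := by
  have h1 : ∀ᶠ ε : ℝ in 𝓝[>] 0, ∀ u ∈ P, ∀ u' ∈ P',
      sampleLaw {ω | η < ‖T u ε ω‖} ≤ ENNReal.ofReal η ∨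
      sampleLaw {ω | η < ‖T' u' ε ω‖} ≤ ENNReal.ofReal η := by
    rw [Filter.eventually_all_finset]
    intro u _
    rw [Filter.eventually_all_finset]
    intro u' _
    exact h u u' η hη
  filter_upwards [h1] with ε hε
  by_cases h2 : ∀ u ∈ P, sampleLaw {ω | η < ‖T u ε ω‖} ≤ ENNReal.ofReal η
  · exact Or.inl h2
  · right
    push Not at h2
    obtain ⟨u, hu, hu2⟩ := h2
    intro u' hu'
    rcases hε u hu u' hu' with h3 | h3
    · exact absurd h3 (not_le.2 hu2)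
    · exact h3

theorem small_mono {f : Sample → ℂ} {η η' : ℝ} (h : η ≤ η')
    (h1 : sampleLaw {ω | η < ‖f ω‖} ≤ ENNReal.ofReal η) :
    sampleLaw {ω | η' < ‖f ω‖} ≤ ENNReal.ofReal η' :=
  (measure_mono fun _ hω => lt_of_le_of_lt h hω).trans (h1.trans (ENNReal.ofReal_le_ofReal h))

/-- **STEP 4, assembly** -/
theorem yw_of {U U' : Type} {T : U → ℝ → Sample → ℂ} {T' : U' → ℝ → Sample → ℂ}
    {Adm : Dom → ℝ → Prop} (hAdm : ∀ D δ, Adm D δ → D.W δ)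
    (h1 : NST Adm) (h2 : UIJ Adm) (h3 : BND we Adm) (h3' : BND wd Adm)
    (h4 : CONT we T Adm) (h4' : CONT wd T' Adm) (h5 : POLY T T') : YW Adm := by
  intro D δ hD m hm r hr z hz hl r' hr' z' hz' hl' η hη
  obtain ⟨P, η1, hη1, hs⟩ := side we_le hAdm h1 h2 h3 h4 hD hm hr hz hl hη
  obtain ⟨P', η1', hη1', hs'⟩ := side wd_le hAdm h1 h2 h3' h4' hD hm hr' hz' hl' hη
  filter_upwards [hs, hs', poly_fin h5 P P' (lt_min hη1 hη1')] with ε e1 e2 e3
  rcases e3 with e3 | e3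
  · left
    exact e1 fun u hu => small_mono (min_le_left _ _) (e3 u hu)
  · right
    exact e2 fun u hu => small_mono (min_le_right _ _) (e3 u hu)

/-- **the core leaf `LMinW`** -/
theorem lminW_of {U U' : Type} {T : U → ℝ → Sample → ℂ} {T' : U' → ℝ → Sample → ℂ}
    {Adm : Dom → ℝ → Prop} (hAdm : ∀ D δ, Adm D δ → D.W δ)
    (h1 : NST Adm) (h2 : UIJ Adm) (h3 : BND we Adm) (h3' : BND wd Adm)
    (h4 : CONT we T Adm) (h4' : CONT wd T' Adm) (h5 : POLY T T') : DicDx831.LMinW Adm :=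
  DicDx831.lmin_of_yw hAdm (yw_of hAdm h1 h2 h3 h3' h4 h4' h5)

end Crest.Agent.R143.AsmNx758
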