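import Mathlib
import Crest.Agent.R143.BC0_336

/-!
# Row 143 (S0194), block B-complex, leaf BC3 (helper63)

`bc3 : BC3` : if `g i` are `C¹`, converge locally uniformly on the open set `Ω` to `h` (along any
filter) and `∫_K ‖∂̄ g i‖ → 0` for all compact `K ⊆ Ω`, then `h` is holomorphic on `Ω`
(Green's formula on rectangles and Morera's theorem).
-/

set_option autoImplicit false

noncomputable section

namespace Crest.Agent.R143.DbarMorx63

open Complex Set Filter Topology MeasureTheory
open scoped Interval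
open Crest.Agent.R143.BC0x336

/-- the iterated integral over a rectangle is bounded by the area integral of the norm -/
theorem area_bound (F : ℂ → ℂ) (hF : Continuous F) (a b c d : ℝ) :
    ‖∫ x : ℝ in a..b, ∫ y : ℝ in c..d, F (x + y * I)‖ ≤
      ∫ z in ([[a, b]] ×ℂ [[c, d]]), ‖F z‖ := by
  have hcont : Continuous fun p : ℝ × ℝ => F (p.1 + p.2 * I) := by fun_prop
  have h1 : Continuous fun x : ℝ => ∫ y : ℝ in c..d, F (x + y * I) :=
    intervalIntegral.continuous_parametric_intervalIntegral_of_continuous' hcont c d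
  have hint : IntegrableOn (fun p : ℝ × ℝ => ‖F (p.1 + p.2 * I)‖) (Ι a b ×ˢ Ι c d)
      (volume.prod volume) := by
    have : IntegrableOn (fun p : ℝ × ℝ => ‖F (p.1 + p.2 * I)‖) ([[a, b]] ×ˢ [[c, d]])
        (volume.prod volume) := by
      apply ContinuousOn.integrableOn_compact (isCompact_uIcc.prod isCompact_uIcc)
      exact hcont.norm.continuousOn
    exact this.mono_set (Set.prod_mono uIoc_subset_uIcc uIoc_subset_uIcc)
  have h2 : ∀ x : ℝ, ‖∫ y : ℝ in c..d, F (x + y * I)‖ ≤ ∫ y in Ι c d, ‖F (x + y * I)‖ := fun x =>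
    intervalIntegral.norm_integral_le_integral_norm_uIoc
  have h3 : Continuous fun x : ℝ => ∫ y in Ι c d, ‖F (x + y * I)‖ := by
    have h4 : (fun x : ℝ => ∫ y in Ι c d, ‖F (x + y * I)‖) =
        fun x : ℝ => ∫ y in (min c d)..(max c d), ‖F (x + y * I)‖ := by
      funext x
      rw [intervalIntegral.integral_of_le min_le_max]
      rfl
    rw [h4]
    exact intervalIntegral.continuous_parametric_intervalIntegral_of_continuous' hcont.norm _ _
  calc ‖∫ x : ℝ in a..b, ∫ y : ℝ in c..d, F (x + y * I)‖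
      ≤ ∫ x in Ι a b, ‖∫ y : ℝ in c..d, F (x + y * I)‖ :=
        intervalIntegral.norm_integral_le_integral_norm_uIoc
    _ ≤ ∫ x in Ι a b, ∫ y in Ι c d, ‖F (x + y * I)‖ := by
        apply setIntegral_mono
        · exact (h1.norm.continuousOn.integrableOn_compact isCompact_uIcc).mono_set
            uIoc_subset_uIcc
        · exact (h3.continuousOn.integrableOn_compact isCompact_uIcc).mono_set
            uIoc_subset_uIcc
        · exact h2
    _ = ∫ p in Ι a b ×ˢ Ι c d, ‖F ((p : ℝ × ℝ).1 + p.2 * I)‖ ∂(volume.prod volume) :=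
        (setIntegral_prod _ hint).symm
    _ = ∫ z in Complex.measurableEquivRealProd ⁻¹' (Ι a b ×ˢ Ι c d), ‖F z‖ := by
        have h5 := Complex.volume_preserving_equiv_real_prod.setIntegral_preimage_emb
          (MeasurableEquiv.measurableEmbedding _) (fun p : ℝ × ℝ => ‖F (p.1 + p.2 * I)‖)
          (Ι a b ×ˢ Ι c d)
        rw [Measure.volume_eq_prod] at h5
        rw [← h5]
        congr 1
        funext z
        simp [Complex.measurableEquivRealProd_apply]
    _ ≤ ∫ z in ([[a, b]] ×ℂ [[c, d]]), ‖F z‖ := by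
        apply setIntegral_mono_set
        · exact hF.norm.continuousOn.integrableOn_compact (isCompact_uIcc.reProdIm isCompact_uIcc)
        · exact Filter.Eventually.of_forall fun z => norm_nonneg _
        · apply HasSubset.Subset.eventuallyLE
          intro z hz
          have hz' : z.re ∈ Ι a b ∧ z.im ∈ Ι c d := by
            simpa [Complex.measurableEquivRealProd_apply] using hz
          exact ⟨uIoc_subset_uIcc hz'.1, uIoc_subset_uIcc hz'.2⟩

/-- the boundary integral of a rectangle -/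
def bd (z w : ℂ) (f : ℂ → ℂ) : ℂ := wedgeIntegral z w f + wedgeIntegral w z f

/-- Green's formula as an inequality -/
theorem bd_le (f : ℂ → ℂ) (hf : ContDiff ℝ 1 f) (z w : ℂ) :
    ‖bd z w f‖ ≤ 2 * ∫ u in Rectangle z w, ‖dbar f u‖ := by
  have hd : Differentiable ℝ f := hf.differentiable (by norm_num)
  have hc : Continuous (fderiv ℝ f) := hf.continuous_fderiv (by norm_num)
  have hF : Continuous fun u => I • fderiv ℝ f u 1 - fderiv ℝ f u I := by fun_prop
  have hR : IsCompact ([[z.re, w.re]] ×ℂ [[z.im, w.im]]) :=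
    isCompact_uIcc.reProdIm isCompact_uIcc
  have h1 := integral_boundary_rect_of_differentiableOn_real f z w hd.differentiableOn
    (hF.continuousOn.integrableOn_compact hR)
  rw [bd, wedgeIntegral_add_wedgeIntegral_eq, h1]
  refine (area_bound (fun u => I • fderiv ℝ f u 1 - fderiv ℝ f u I) hF _ _ _ _).trans ?_
  rw [← integral_const_mul]
  apply le_of_eq
  congr 1
  funext u
  have h2 : I • fderiv ℝ f u 1 - fderiv ℝ f u I = (2 * I) * dbar f u := by
    rw [dbar, smul_eq_mul]
    have : I * I = -1 := I_mul_I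
    linear_combination (-(fderiv ℝ f u I)) * this
  rw [h2]
  simp

theorem bd_cont {z w : ℂ} {f g : ℂ → ℂ} (hf : ContinuousOn f (Rectangle z w))
    (hg : ContinuousOn g (Rectangle z w)) {ε : ℝ} (h : ∀ u ∈ Rectangle z w, ‖f u - g u‖ ≤ ε) :
    ‖bd z w f - bd z w g‖ ≤ ε * (2 * |w.re - z.re| + 2 * |w.im - z.im|) := by
  have e1 : ∀ y ∈ [[z.im, w.im]], ∀ k : ℂ → ℂ, ContinuousOn k (Rectangle z w) →
      IntervalIntegrable (fun x : ℝ => k (x + y * I)) volume z.re w.re := by
    intro y hy k hk
    apply ContinuousOn.intervalIntegrable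
    apply hk.comp (by fun_prop)
    intro x hx
    simp only [Rectangle, mem_reProdIm]
    simp [hx, hy]
  have e2 : ∀ x ∈ [[z.re, w.re]], ∀ k : ℂ → ℂ, ContinuousOn k (Rectangle z w) →
      IntervalIntegrable (fun y : ℝ => k (x + y * I)) volume z.im w.im := by
    intro x hx k hk
    apply ContinuousOn.intervalIntegrable
    apply hk.comp (by fun_prop)
    intro y hy
    simp only [Rectangle, mem_reProdIm]
    simp [hx, hy]
  have b1 : ∀ y ∈ [[z.im, w.im]], ‖(∫ x : ℝ in z.re..w.re, f (x + y * I)) -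
      ∫ x : ℝ in z.re..w.re, g (x + y * I)‖ ≤ ε * |w.re - z.re| := by
    intro y hy
    rw [← intervalIntegral.integral_sub (e1 y hy f hf) (e1 y hy g hg)]
    apply intervalIntegral.norm_integral_le_of_norm_le_const
    intro x hx
    apply h
    simp only [Rectangle, mem_reProdIm]
    simp [uIoc_subset_uIcc hx, hy]
  have b2 : ∀ x ∈ [[z.re, w.re]], ‖(∫ y : ℝ in z.im..w.im, f (x + y * I)) -
      ∫ y : ℝ in z.im..w.im, g (x + y * I)‖ ≤ ε * |w.im - z.im| := by
    intro x hx
    rw [← intervalIntegral.integral_sub (e2 x hx f hf) (e2 x hx g hg)]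
    apply intervalIntegral.norm_integral_le_of_norm_le_const
    intro y hy
    apply h
    simp only [Rectangle, mem_reProdIm]
    simp [uIoc_subset_uIcc hy, hx]
  rw [bd, bd, wedgeIntegral_add_wedgeIntegral_eq, wedgeIntegral_add_wedgeIntegral_eq]
  have c1 := b1 z.im left_mem_uIcc
  have c2 := b1 w.im right_mem_uIcc
  have c3 := b2 z.re left_mem_uIcc
  have c4 := b2 w.re right_mem_uIcc
  set A1 := ∫ x : ℝ in z.re..w.re, f (x + z.im * I)
  set A2 := ∫ x : ℝ in z.re..w.re, g (x + z.im * I)
  set B1 := ∫ x : ℝ in z.re..w.re, f (x + w.im * I)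
  set B2 := ∫ x : ℝ in z.re..w.re, g (x + w.im * I)
  set C1 := ∫ y : ℝ in z.im..w.im, f (z.re + y * I)
  set C2 := ∫ y : ℝ in z.im..w.im, g (z.re + y * I)
  set D1 := ∫ y : ℝ in z.im..w.im, f (w.re + y * I)
  set D2 := ∫ y : ℝ in z.im..w.im, g (w.re + y * I)
  have h3 : A1 - B1 + I • D1 - I • C1 - (A2 - B2 + I • D2 - I • C2) =
      (A1 - A2) - (B1 - B2) + I * (D1 - D2) - I * (C1 - C2) := by
    simp only [smul_eq_mul]
    ring
  rw [h3]
  calc ‖(A1 - A2) - (B1 - B2) + I * (D1 - D2) - I * (C1 - C2)‖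
      ≤ ‖A1 - A2‖ + ‖B1 - B2‖ + ‖I * (D1 - D2)‖ + ‖I * (C1 - C2)‖ := by
        refine (norm_sub_le _ _).trans ?_
        gcongr
        refine (norm_add_le _ _).trans ?_
        gcongr
        exact norm_sub_le _ _
    _ ≤ ε * |w.re - z.re| + ε * |w.re - z.re| + ε * |w.im - z.im| + ε * |w.im - z.im| := by
        rw [norm_mul, norm_mul, norm_I, one_mul, one_mul]
        gcongr
    _ = ε * (2 * |w.re - z.re| + 2 * |w.im - z.im|) := by ring

/-- (BC3) vanishing `∂̄` in the limit gives holomorphic limits -/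
theorem bc3 : BC3 := by
  intro Ω hΩ ι l hl g h hg hlim hd
  have := hl
  have hcont : ContinuousOn h Ω :=
    hlim.continuousOn (Filter.Eventually.of_forall fun i => (hg i).continuous.continuousOn).frequently
  rw [← isConservativeOn_and_continuousOn_iff_isDifferentiableOn hΩ]
  refine ⟨?_, hcont⟩
  intro z w hzw
  rw [← add_eq_zero_iff_eq_neg]
  change bd z w h = 0
  have hR : IsCompact (Rectangle z w) := isCompact_uIcc.reProdIm isCompact_uIcc
  have hunif : TendstoUniformlyOn g h l (Rectangle z w) :=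
    (tendstoLocallyUniformlyOn_iff_forall_isCompact hΩ).mp hlim _ hzw hR
  have hd' := hd _ hR hzw
  rw [Metric.tendstoUniformlyOn_iff] at hunif
  set L : ℝ := 2 * |w.re - z.re| + 2 * |w.im - z.im| with hL
  have hL0 : 0 ≤ L := by positivity
  by_contra hne
  have hpos : 0 < ‖bd z w h‖ := norm_pos_iff.mpr hne
  set δ : ℝ := ‖bd z w h‖ / (4 * (L + 1)) with hδ
  have hδ0 : 0 < δ := by positivity
  have e1 := hunif δ hδ0
  have e2 : ∀ᶠ i in l, ∫ u in Rectangle z w, ‖dbar (g i) u‖ < ‖bd z w h‖ / 4 := by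
    exact hd'.eventually (gt_mem_nhds (by positivity))
  obtain ⟨i, hi1, hi2⟩ := (e1.and e2).exists
  have h1 : ‖bd z w h - bd z w (g i)‖ ≤ δ * L := by
    apply bd_cont (hcont.mono hzw) (hg i).continuous.continuousOn
    intro u hu
    have := hi1 u hu
    rw [dist_eq_norm] at this
    exact this.le
  have h2 := bd_le (g i) (hg i) z w
  have h3 : ‖bd z w h‖ ≤ ‖bd z w h - bd z w (g i)‖ + ‖bd z w (g i)‖ := by
    have := norm_add_le (bd z w h - bd z w (g i)) (bd z w (g i))
    simpa using this
  have h4 : δ * L ≤ ‖bd z w h‖ / 4 := by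
    rw [hδ, div_mul_eq_mul_div, div_le_div_iff₀ (by positivity) (by norm_num)]
    nlinarith
  linarith

end Crest.Agent.R143.DbarMorx63
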