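import Crest.Agent.R143.Spine2_422
import Crest.Agent.R143.DbarMor_63

/-!
# Row 143 (S0194), SPINE 5: the spine with a WEAK holomorphy leaf (helper422)

* `weyl` : a continuous function with vanishing mollified `∂̄` is holomorphic
* `EndW`, `end_coreW` : end theorem; instead of smooth approximations with small `∂̄` or `∂` only
  `Sb r (H i) z → 0` for fixed `z`, `r` (weak form of `∂̄ H = 0`, no rates)
* `LHol` : leaf: `Sb r (HG D G ε) z → 0` for fixed `D`, `z`, `r`
* `final3` : LGood, LEqui, LHol, LDom → Body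
-/

set_option autoImplicit false

noncomputable section

namespace Crest.Agent.R143.Spinex422

open Complex Set Filter Topology MeasureTheory
open Crest.ProbabilityR.Voronoi
open Crest.Agent.R143.B0x346 Crest.Agent.R143.B0Dx346 Crest.Agent.R143.PP1x831
open Crest.Agent.R143.BC0x336 Crest.Agent.R143.EndAx336 Crest.Agent.R143.EndBx336
open Crest.Agent.R143.Mollx887

/-! ### Weyl's lemma -/

/-- `Sb r` only depends on the values in the ball -/
theorem Sb_congr' {h h' : ℂ → ℂ} {r : ℝ} (hr : 0 < r) {z₀ : ℂ}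
    (hh : ∀ z, ‖z‖ < r → h (z₀ + z) = h' (z₀ + z)) : Sb r h z₀ = Sb r h' z₀ := by
  unfold Sb
  refine integral_congr_ae (ae_of_all _ fun z => ?_)
  simp only
  by_cases hz : ‖z‖ < r
  · rw [hh z hz]
  · rw [kb_zero hr (not_lt.1 hz), zero_mul, zero_mul]

/-- **Weyl's lemma for the mollified `∂̄`** -/
theorem weyl {D : Set ℂ} (hD : IsOpen D) {f : ℂ → ℂ} (hf : ContinuousOn f D)
    (h : ∀ z ∈ D, ∀ r > 0, Metric.closedBall z (4 * r) ⊆ D → Sb r f z = 0) :
    DifferentiableOn ℂ f D := by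
  intro z0 hz0
  obtain ⟨R, hR, hsub⟩ := Metric.isOpen_iff.1 hD z0 hz0
  set r := R / 8 with hr
  have hr0 : 0 < r := by positivity
  set B := Metric.closedBall z0 (4 * r) with hB
  have hBD : B ⊆ D := (Metric.closedBall_subset_ball (by rw [hr]; linarith)).trans hsub
  have hBc : IsCompact B := isCompact_closedBall _ _
  have hfB : ContinuousOn f B := hf.mono hBD
  obtain ⟨M, hM⟩ := hBc.exists_bound_of_continuousOn hfB
  set g : ℂ → ℂ := B.indicator f with hg
  have hgBM : BM g (max M 0) := by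
    refine ⟨?_, fun z => ?_⟩
    · exact (aestronglyMeasurable_indicator_iff hBc.measurableSet).2
        (hfB.aestronglyMeasurable hBc.measurableSet)
    · rw [hg]
      by_cases hz : z ∈ B
      · rw [Set.indicator_of_mem hz]; exact (hM z hz).trans (le_max_left _ _)
      · rw [Set.indicator_of_notMem hz, norm_zero]; exact le_max_right _ _
  have hgf : ∀ z ∈ B, g z = f z := fun z hz => Set.indicator_of_mem hz f
  have huc : UniformContinuousOn f B := hBc.uniformContinuousOn_of_continuous hfB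
  rw [Metric.uniformContinuousOn_iff_le] at huc
  set rn : ℕ → ℝ := fun n => r / (8 * ((n : ℝ) + 1)) with hrn
  have hrn0 : ∀ n, 0 < rn n := fun n => by rw [hrn]; positivity
  have hrn1 : ∀ n, rn n ≤ r / 8 := fun n => by
    rw [hrn]
    simp only
    apply div_le_div_of_nonneg_left hr0.le (by norm_num)
    have : (0 : ℝ) ≤ n := Nat.cast_nonneg n
    linarith
  have hrnl : Tendsto rn atTop (𝓝 0) := by
    have h1 : Tendsto (fun n : ℕ => (1 : ℝ) / ((n : ℝ) + 1)) atTop (𝓝 0) :=
      tendsto_one_div_add_atTop_nhds_zero_nat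
    have h2 := h1.const_mul (r / 8)
    rw [mul_zero] at h2
    refine h2.congr fun n => ?_
    rw [hrn]
    field_simp
  have hhol : DifferentiableOn ℂ f (Metric.ball z0 r) := by
    refine DbarMorx63.bc3 (Metric.ball z0 r) Metric.isOpen_ball ℕ atTop inferInstance
      (fun n => moll (rn n) g) f (fun n => moll_contDiff hgBM (hrn0 n) (n := 1)) ?_ ?_
    · apply TendstoUniformlyOn.tendstoLocallyUniformlyOn
      rw [Metric.tendstoUniformlyOn_iff]
      intro e he
      obtain ⟨s, hs, hs'⟩ := huc (e / 2) (by linarith)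
      filter_upwards [hrnl.eventually (gt_mem_nhds hs)] with n hn z hz
      rw [dist_comm, dist_eq_norm]
      have hzB : z ∈ B := by
        rw [Metric.mem_ball] at hz
        rw [hB, Metric.mem_closedBall]; linarith
      refine lt_of_le_of_lt (moll_close hgBM (hrn0 n) (η := e / 2) fun w hw => ?_) (by linarith)
      have hzw : z + w ∈ B := by
        rw [Metric.mem_ball] at hz
        rw [hB, Metric.mem_closedBall]
        have h1 := dist_triangle (z + w) z z0
        have h2 : dist (z + w) z = ‖w‖ := by rw [dist_eq_norm, add_sub_cancel_left]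
        have h3 := hrn1 n
        linarith
      rw [hgf _ hzw, ← dist_eq_norm]
      apply hs' _ hzw _ hzB
      rw [dist_eq_norm, add_sub_cancel_left]
      linarith
    · intro K hK hKs
      have h0 : ∀ n, ∀ z ∈ K, dbar (moll (rn n) g) z = 0 := by
        intro n z hz
        have hzr := hKs hz
        rw [Metric.mem_ball] at hzr
        rw [dbar_moll hgBM (hrn0 n)]
        have hb : Metric.closedBall z (4 * rn n) ⊆ B := by
          apply Metric.closedBall_subset_closedBall'
          have := hrn1 n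
          linarith
        rw [Sb_congr' (hrn0 n) (h' := f) fun w hw => ?_]
        · exact h z (hBD (hb (Metric.mem_closedBall_self (by have := hrn0 n; linarith)))) _ (hrn0 n)
            (hb.trans hBD)
        · apply hgf
          apply hb
          rw [Metric.mem_closedBall, dist_eq_norm, add_sub_cancel_left]
          linarith [hrn0 n]
      have h1 : ∀ n : ℕ, ∫ z in K, ‖dbar (moll (rn n) g) z‖ = 0 := by
        intro n
        rw [setIntegral_congr_fun (g := fun _ => (0 : ℝ)) hK.measurableSet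
          (fun z hz => by simp only; rw [h0 n z hz, norm_zero])]
        simp
      simp only [h1]
      exact tendsto_const_nhds
  exact (hhol.differentiableAt (Metric.ball_mem_nhds z0 hr0)).differentiableWithinAt

/-! ### the end theorem -/

section ptw

variable {ι : Type} {D : Set ℂ}

/-- conjugate or not -/
def cjb (r : Bool) (w : ℂ) : ℂ := if r then (starRingEnd ℂ) w else w

theorem cjb_dist (r : Bool) (w w' : ℂ) : dist (cjb r w) (cjb r w') = dist w w' := by
  unfold cjb
  cases r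
  · rfl
  · simp only [if_true]
    rw [dist_eq_norm, ← map_sub, Complex.norm_conj, ← dist_eq_norm]

/-- hypotheses of the end theorem, weak holomorphy -/
structure EndW (D : Set ℂ) (φ : ℂ → ℂ) (d b : ℂ) (l : Filter ι) (H : ι → ℂ → ℂ) (c : ι → ℝ) :
    Prop where
  bd : ∃ M : ℝ, ∀ i, ∀ z, ‖H i z‖ ≤ M
  ms : ∀ᶠ i in l, AEStronglyMeasurable (H i) volume
  equi : AEqui D l H
  /-- weakly holomorphic or antiholomorphic -/
  wk : ∃ q : ι → Bool, ∀ z ∈ D, ∀ r > 0, Metric.closedBall z (4 * r) ⊆ D →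
    Tendsto (fun i => Sb r (fun w => cjb (q i) (H i w)) z) l (𝓝 0)
  b1 : ∀ p ∈ frontier D, p ≠ d → (φ p).im = 0 → 0 < (φ p).re → (φ p).re < 1 →
    ALBP D l H 1 (tau3 - 1) p
  b2 : ∀ p ∈ frontier D, p ≠ d → (φ p).im = 0 → 1 < (φ p).re →
    ALBP D l H tau3 (tau3 ^ 2 - tau3) p
  b3 : ∀ p ∈ frontier D, p ≠ d → (φ p).im = 0 → (φ p).re < 0 →
    ALBP D l H (tau3 ^ 2) (1 - tau3 ^ 2) p
  val : ∀ η > 0, ∃ δ > 0, ∀ z ∈ D, dist z b < δ → ∀ᶠ i in l,
    dist (H i z) (1 + (c i : ℂ) * (tau3 - 1)) ≤ η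

theorem EndW.mono {φ : ℂ → ℂ} {d b : ℂ} {l l' : Filter ι} {H : ι → ℂ → ℂ} {c : ι → ℝ}
    (h : EndW D φ d b l H c) (hl : l' ≤ l) : EndW D φ d b l' H c where
  bd := h.bd
  ms := hl h.ms
  equi := h.equi.mono hl
  wk := by
    obtain ⟨q, hq⟩ := h.wk
    exact ⟨q, fun z hz r hr hb => (hq z hz r hr hb).mono_left hl⟩
  b1 p hp h1 h2 h3 h4 := (h.b1 p hp h1 h2 h3 h4).mono hl
  b2 p hp h1 h2 h3 := (h.b2 p hp h1 h2 h3).mono hl
  b3 p hp h1 h2 h3 := (h.b3 p hp h1 h2 h3).mono hl
  val η hη := by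
    obtain ⟨δ, hδ, h1⟩ := h.val η hη
    exact ⟨δ, hδ, fun z hz hzb => hl (h1 z hz hzb)⟩

/-- `Sb r` is continuous for uniform convergence -/
theorem Sb_lim {l : Filter ι} {H : ι → ℂ → ℂ} {f : ℂ → ℂ} {M : ℝ}
    (hb : ∀ i, ∀ z, ‖H i z‖ ≤ M) (hm : ∀ᶠ i in l, AEStronglyMeasurable (H i) volume)
    {z : ℂ} {r : ℝ} (hr : 0 < r) (hf : ContinuousOn f (Metric.closedBall z (4 * r)))
    (hlim : TendstoUniformlyOn H f l (Metric.closedBall z (4 * r))) :
    Tendsto (fun i => Sb r (H i) z) l (𝓝 (Sb r f z)) := by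
  set B := Metric.closedBall z (4 * r) with hB
  have hBc : IsCompact B := isCompact_closedBall _ _
  obtain ⟨M', hM'⟩ := hBc.exists_bound_of_continuousOn hf
  set g : ℂ → ℂ := B.indicator f with hg
  have hgBM : BM g (max M' 0) := by
    refine ⟨?_, fun z => ?_⟩
    · exact (aestronglyMeasurable_indicator_iff hBc.measurableSet).2
        (hf.aestronglyMeasurable hBc.measurableSet)
    · rw [hg]
      by_cases hz : z ∈ B
      · rw [Set.indicator_of_mem hz]; exact (hM' z hz).trans (le_max_left _ _)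
      · rw [Set.indicator_of_notMem hz, norm_zero]; exact le_max_right _ _
  have hin : ∀ w, ‖w‖ < r → z + w ∈ B := fun w hw => by
    rw [hB, Metric.mem_closedBall, dist_eq_norm, add_sub_cancel_left]; linarith
  have e1 : Sb r f z = Sb r g z := Sb_congr' hr fun w hw =>
    (Set.indicator_of_mem (hin w hw) f).symm
  rw [e1, Metric.tendsto_nhds]
  intro e he
  set A := CS / r with hA
  have hA0 : 0 ≤ A := div_nonneg CS_nonneg hr.le
  have h1 := Metric.tendstoUniformlyOn_iff.1 hlim (e / (2 * (A + 1))) (by positivity)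
  filter_upwards [h1, hm] with i hi hmi
  have hiBM : BM (H i) M := ⟨hmi, hb i⟩
  rw [dist_eq_norm, ← Sb_sub hiBM hgBM hr]
  have h2 : ‖Sb r (fun w => H i w - g w) z‖ ≤ A * (e / (2 * (A + 1))) := by
    unfold Sb
    refine (norm_integral_le_of_norm_le (g := fun w => ‖kb r w‖ * (e / (2 * (A + 1)))) ?_
      (ae_of_all _ fun w => ?_)).trans ?_
    · exact (kb_integrable hr).norm.mul_const _
    · rw [norm_mul]
      by_cases hw : ‖w‖ < r
      · apply mul_le_mul_of_nonneg_left _ (norm_nonneg _)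
        have h3 := hi (z + w) (hin w hw)
        rw [dist_comm, dist_eq_norm] at h3
        have h4 : g (z + w) = f (z + w) := Set.indicator_of_mem (hin w hw) f
        simp only
        rw [h4]
        exact h3.le
      · rw [kb_zero hr (not_lt.1 hw), norm_zero, zero_mul, zero_mul]
    · rw [integral_mul_const, integral_norm_kb hr]
  refine lt_of_le_of_lt h2 ?_
  have h3 : A * (e / (2 * (A + 1))) = e / 2 * (A / (A + 1)) := by
    field_simp
  rw [h3]
  have h4 : A / (A + 1) ≤ 1 := (div_le_one (by linarith)).2 (by linarith)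
  nlinarith

/-- **end theorem**, weak holomorphy -/
theorem end_coreW (hD : IsOpen D) {φ : ℂ → ℂ} {d b : ℂ} (hid : Ident D φ d)
    (hb : b ∈ frontier D) (hbd : b ≠ d) {x : ℝ} (hx0 : 0 < x) (hx1 : x < 1) (hφb : φ b = x)
    {l : Filter ι} {H : ι → ℂ → ℂ} {c : ι → ℝ} (h : EndW D φ d b l H c) :
    Tendsto c l (𝓝 (crossingFormula x)) := by
  rw [tendsto_iff_ultrafilter]
  intro U hU
  have hU' := h.mono hU
  obtain ⟨M, hM⟩ := h.bd
  obtain ⟨f, hfM, hf⟩ := exists_ulim U (fun i z (_ : z ∈ D) => hM i z)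
  have hunif : ∀ K, IsCompact K → K ⊆ D → TendstoUniformlyOn H f U K := fun K hK hKD =>
    unif_of_equi hU'.equi hf hK hKD
  -- the limit is continuous
  have hfc : ContinuousOn f D := by
    intro z hz
    obtain ⟨R, hR, hsub⟩ := Metric.isOpen_iff.1 hD z hz
    set K := Metric.closedBall z (R / 2) with hK
    have hKD : K ⊆ D := (Metric.closedBall_subset_ball (by linarith)).trans hsub
    have hKc : IsCompact K := isCompact_closedBall _ _
    have hcK : ContinuousWithinAt f K z := by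
      rw [Metric.continuousWithinAt_iff]
      intro e he
      obtain ⟨s, hs, h1⟩ := hU'.equi K hKc hKD (e / 4) (by linarith)
      refine ⟨s, hs, fun {w} hw hwz => ?_⟩
      have h2 := Metric.tendstoUniformlyOn_iff.1 (hunif K hKc hKD) (e / 4) (by linarith)
      obtain ⟨i, hi1, hi2⟩ := (h1.and h2).exists
      have hzK : z ∈ K := Metric.mem_closedBall_self (by linarith)
      calc dist (f w) (f z) ≤ dist (f w) (H i w) + dist (H i w) (H i z) + dist (H i z) (f z) :=
            dist_triangle4 _ _ _ _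
        _ < e / 4 + e / 4 + e / 4 + e / 4 := by
            have e1 := hi2 w hw
            have e2 := hi2 z hzK
            have e3 := hi1 w hw z hzK hwz
            rw [dist_comm] at e2
            linarith
        _ = e := by ring
    exact (hcK.continuousAt (Metric.closedBall_mem_nhds z (by linarith))).continuousWithinAt
  obtain ⟨q, hq⟩ := hU'.wk
  have hcases : (∀ᶠ i in (U : Filter ι), q i = false) ∨ (∀ᶠ i in (U : Filter ι), q i = true) := by
    rcases U.em (fun i => q i = false) with h1 | h1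
    · exact Or.inl h1
    · right
      filter_upwards [h1] with i hi
      simpa using hi
  have hol : DifferentiableOn ℂ f D ∨ DifferentiableOn ℂ (fun z => (starRingEnd ℂ) (f z)) D := by
    rcases hcases with h1 | h1
    · left
      refine weyl hD hfc fun z hz r hr hb => ?_
      have h2 := Sb_lim hM hU'.ms hr (hfc.mono hb) (hunif _ (isCompact_closedBall _ _) hb)
      refine tendsto_nhds_unique h2 ((hq z hz r hr hb).congr' ?_)
      filter_upwards [h1] with i hi
      rw [hi]
      rfl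
    · right
      have hcc : ContinuousOn (fun z => (starRingEnd ℂ) (f z)) D :=
        Complex.continuous_conj.comp_continuousOn hfc
      refine weyl hD hcc fun z hz r hr hb => ?_
      have hu2 : TendstoUniformlyOn (fun i w => (starRingEnd ℂ) (H i w))
          (fun z => (starRingEnd ℂ) (f z)) U (Metric.closedBall z (4 * r)) := by
        have h5 := hunif _ (isCompact_closedBall z (4 * r)) hb
        rw [Metric.tendstoUniformlyOn_iff] at h5 ⊢
        intro e he
        filter_upwards [h5 e he] with i hi w hw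
        rw [dist_eq_norm, ← map_sub, Complex.norm_conj, ← dist_eq_norm]
        exact hi w hw
      have h2 := Sb_lim (H := fun i w => (starRingEnd ℂ) (H i w)) (M := M)
        (fun i w => by rw [Complex.norm_conj]; exact hM i w)
        (hU'.ms.mono fun i hi => Complex.continuous_conj.comp_aestronglyMeasurable hi) hr
        (hcc.mono hb) hu2
      refine tendsto_nhds_unique h2 ((hq z hz r hr hb).congr' ?_)
      filter_upwards [h1] with i hi
      rw [hi]
      rfl
  have htri : TriBC D φ d f :=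
    ⟨⟨M, hfM⟩, fun p hp h1 h2 h3 h4 => (hU'.b1 p hp h1 h2 h3 h4).LB hf,
      fun p hp h1 h2 h3 => (hU'.b2 p hp h1 h2 h3).LB hf,
      fun p hp h1 h2 h3 => (hU'.b3 p hp h1 h2 h3).LB hf⟩
  have hlim := hid f htri hol b hb hbd x hx0 hx1 hφb
  have hne : (𝓝[D] b).NeBot := by
    rw [← mem_closure_iff_nhdsWithin_neBot]
    exact frontier_subset_closure hb
  have hT : 0 < ‖tau3 - 1‖ := norm_pos_iff.2 tau3_ne_one
  rw [Metric.tendsto_nhds]
  intro η hη
  set η' := η * ‖tau3 - 1‖ / 4 with hη'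
  have hη'0 : 0 < η' := by positivity
  obtain ⟨δ, hδ, h1⟩ := hU'.val η' hη'0
  have h2 := Metric.tendsto_nhds.1 hlim η' hη'0
  have h3 : Metric.ball b δ ∩ D ∈ 𝓝[D] b := by
    rw [inter_comm]
    exact inter_mem_nhdsWithin D (Metric.ball_mem_nhds b hδ)
  obtain ⟨z, hz1, hz2, hz3⟩ := (h2.and h3).exists
  have h4 := Metric.tendsto_nhds.1 (hf z hz3) η' hη'0
  filter_upwards [h1 z hz3 hz2, h4] with i hi1 hi4
  have e1 : dist (1 + (c i : ℂ) * (tau3 - 1)) (1 + (crossingFormula x : ℂ) * (tau3 - 1)) <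
      4 * η' := by
    calc dist (1 + (c i : ℂ) * (tau3 - 1)) (1 + (crossingFormula x : ℂ) * (tau3 - 1))
        ≤ dist (1 + (c i : ℂ) * (tau3 - 1)) (H i z) + dist (H i z) (f z) +
          dist (f z) (1 + (crossingFormula x : ℂ) * (tau3 - 1)) := dist_triangle4 _ _ _ _
      _ ≤ η' + η' + η' := by
          refine add_le_add (add_le_add ?_ hi4.le) hz1.le
          rw [dist_comm]; exact hi1
      _ < 4 * η' := by linarith
  have e2 : dist (1 + (c i : ℂ) * (tau3 - 1)) (1 + (crossingFormula x : ℂ) * (tau3 - 1)) =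
      dist (c i) (crossingFormula x) * ‖tau3 - 1‖ := by
    rw [dist_add_left, dist_eq_norm, ← sub_mul, norm_mul, Real.dist_eq, ← Complex.ofReal_sub,
      Complex.norm_real, Real.norm_eq_abs]
  rw [e2, hη'] at e1
  have e3 : dist (c i) (crossingFormula x) * ‖tau3 - 1‖ < η * ‖tau3 - 1‖ := by linarith
  exact lt_of_mul_lt_mul_right e3 hT.le

end ptw

/-- **top of the assembly**, weak version -/
theorem topW (S : Dat) {b : ℂ} (hb : b ∈ frontier S.D) (hbd : b ≠ S.d) (hφb : S.φ b = S.x)
    {H H' : ℕ × ℝ → ℂ → ℂ} {c c' : ℕ × ℝ → ℝ}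
    (h : EndW S.D S.φ S.d b lc H c) (h' : EndW S.D S.φ S.d b lc H' c')
    (hle : ∀ η > 0, ∀ᶠ i in lc, c i - η ≤ S.P i.2)
    (hle' : ∀ η > 0, ∀ᶠ i in lc, S.P i.2 ≤ c' i + η) :
    Tendsto (fun ε : ℝ => sampleLaw (crossingEvent ε S.D S.A1 S.A2)) (𝓝[>] 0)
      (𝓝 (ENNReal.ofReal (crossingFormula S.x))) := by
  have hid : Ident S.D S.φ S.d :=
    IdentDx439.bc5 S.D S.hD S.hDb S.hDc S.φ S.hφ S.hφi S.hφD S.d S.hd S.hφc S.hφd
  have h1 := end_coreW S.hD hid hb hbd S.hx0 S.hx1 hφb h
  have h2 := end_coreW S.hD hid hb hbd S.hx0 S.hx1 hφb h'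
  have h3 : Tendsto S.P (𝓝[>] 0) (𝓝 (crossingFormula S.x)) := by
    rw [Metric.tendsto_nhds]
    intro η hη
    have h4 : ∀ᶠ i in lc, dist (S.P i.2) (crossingFormula S.x) < η := by
      filter_upwards [Metric.tendsto_nhds.1 h1 (η / 2) (by linarith),
        Metric.tendsto_nhds.1 h2 (η / 2) (by linarith), hle (η / 2) (by linarith),
        hle' (η / 2) (by linarith)] with i e1 e2 e3 e4
      rw [Real.dist_eq, abs_lt] at e1 e2 ⊢
      constructor <;> linarith [e1.1, e1.2, e2.1, e2.2]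
    rw [ev_lc] at h4
    exact h4.exists.choose_spec
  have h4 := ENNReal.tendsto_ofReal h3
  refine h4.congr fun ε => ?_
  exact ENNReal.ofReal_toReal (measure_ne_top _ _)

/-! ### the spine -/

/-- **leaf HOL** (no part A): the annealed observable is asymptotically WEAKLY holomorphic; `Sb r`
is `∂̄` of the mollification at the FIXED scale `r` (`dbar_moll`) -/
def LHol (Adm : Dom → ℝ → Prop) : Prop := ∀ (D : Dom) (δ : ℝ), Adm D δ →
  ∀ G : ℝ → Set Sample, GoodFam D G → ∀ m > 0, ∀ r > 0, ∀ z : ℂ, Room D (4 * r) z → Linked D m z →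
    Tendsto (fun ε : ℝ => Sb r (HG D G ε) z) (𝓝[>] 0) (𝓝 0)

/-- the four leaves, weak version -/
structure Leaves3 (Adm : Dom → ℝ → Prop) : Prop where
  good : LGood Adm
  equi : LEqui Adm
  hol : LHol Adm
  dom : LDom Adm

theorem cjb_tr (r : Bool) (w : ℂ) :
    cjb r (tr r w) = (if r then (starRingEnd ℂ) om else 1) * w := by
  cases r
  · simp [cjb, tr]
  · simp [cjb, tr]

theorem tr_cont (r : Bool) : Continuous (tr r) := by
  unfold tr
  cases r
  · exact continuous_id
  · simp only [if_true]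
    exact continuous_const.mul Complex.continuous_conj

/-- the ball of a point of `D` has room -/
theorem room_of_ball {D : Dom} {ρ r : ℝ} {z : ℂ} (hr : 0 ≤ r) (hρ : 0 < ρ)
    (h : ∀ y ∈ Metric.closedBall z r, Room D ρ y) : Room D r z := by
  constructor
  · rw [Set.disjoint_left]
    intro y hy hyo
    exact Set.disjoint_left.1 (h y hy).1 (Metric.mem_closedBall_self hρ.le) hyo
  · intro y hy
    exact (h y hy).2 (Metric.mem_closedBall_self hρ.le)

theorem endW_of {Adm : Dom → ℝ → Prop} (hE : LEqui Adm) (hM : LHol Adm) (hG : LGood Adm)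
    (S : Dat) (b : ℂ) {rv : ℕ → Bool} {Dm : ℕ → Dom} {δ m : ℕ → ℝ}
    (hOK : ∀ n, Adm (Dm n) (δ n)) (hR : RoomOK S.D Dm m) {P : (ℕ × ℝ → ℝ) → Prop}
    (h : ∀ G : ℕ → ℝ → Set Sample, (∀ n, GoodFam (Dm n) (G n)) →
      ∃ c : ℕ × ℝ → ℝ, Bdry S b (Hs rv Dm G) c ∧ P c) :
    ∃ (H : ℕ × ℝ → ℂ → ℂ) (c : ℕ × ℝ → ℝ), EndW S.D S.φ S.d b lc H c ∧ P c := by
  choose G hGf using fun n => hG (Dm n) (δ n) (hOK n)
  obtain ⟨c, hc, hP⟩ := h G hGf
  obtain ⟨hm0, hR⟩ := hR
  have hbm : ∀ n, ∀ᶠ ε in 𝓝[>] (0 : ℝ), BM (HG (Dm n) (G n) ε) 3 := by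
    intro n
    filter_upwards [(hGf n).hm2] with ε hε
    exact bm_HG hε
  refine ⟨Hs rv Dm G, c, ?_, hP⟩
  refine ⟨⟨3, fun i z => ?_⟩, ?_, ?_, ?_, hc.b1, hc.b2, hc.b3, hc.val⟩
  · rw [Hs, norm_tr]; exact norm_HG_le _ _ _ _
  · rw [ev_lc]
    refine Eventually.of_forall fun n => ?_
    filter_upwards [hbm n] with ε hε
    exact (tr_cont (rv n)).comp_aestronglyMeasurable hε.meas
  · -- equicontinuity
    intro K hK hKD η hη
    obtain ⟨ρ, hρ0, hρ1⟩ := hR K hK hKD
    obtain ⟨s, hs, h1⟩ := hE ρ hρ0 η hη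
    refine ⟨s, hs, ?_⟩
    rw [ev_lc]
    filter_upwards [hρ1] with n hn
    filter_upwards [h1 (Dm n) (δ n) (hOK n) (G n) (hGf n) (m n) (hm0 n)] with ε hε z hz w hw hzw
    rw [Hs, Hs, tr_dist]
    exact hε z w (hn z hz).1 (hn w hw).1 (hn z hz).2 (hn w hw).2 hzw
  · -- weak holomorphy
    refine ⟨fun i => rv i.1, fun z hz r hr hb => ?_⟩
    rw [tendsto_zero_iff_norm_tendsto_zero]
    have e : ∀ i : ℕ × ℝ, ‖Sb r (fun w => cjb (rv i.1) (Hs rv Dm G i w)) z‖ =
        ‖Sb r (HG (Dm i.1) (G i.1) i.2) z‖ := by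
      intro i
      have e1 : (fun w => cjb (rv i.1) (Hs rv Dm G i w)) =
          fun w => (if rv i.1 then (starRingEnd ℂ) om else 1) * HG (Dm i.1) (G i.1) i.2 w := by
        funext w
        rw [Hs, cjb_tr]
      rw [e1, Sb_mul, norm_mul]
      have e2 : ‖(if rv i.1 then (starRingEnd ℂ) om else 1)‖ = 1 := by
        split_ifs
        · rw [Complex.norm_conj, norm_om]
        · exact norm_one
      rw [e2, one_mul]
    simp only [e]
    refine tendsto_lc ?_
    obtain ⟨ρ, hρ0, hρ1⟩ := hR _ (isCompact_closedBall z (4 * r)) hb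
    filter_upwards [hρ1] with n hn
    have hz4 : z ∈ Metric.closedBall z (4 * r) := Metric.mem_closedBall_self (by linarith)
    rw [← tendsto_zero_iff_norm_tendsto_zero]
    exact hM (Dm n) (δ n) (hOK n) (G n) (hGf n) (m n) (hm0 n) r hr z
      (room_of_ball (by linarith) hρ0 fun y hy => (hn y hy).1) (hn z hz4).2

/-- **the spine, weak version** -/
theorem final3 {Adm : Dom → ℝ → Prop} (L : Leaves3 Adm) : Body := by
  intro S
  obtain ⟨b, hb, hbd, hφb⟩ := S.exists_b
  obtain ⟨v1, D1, d1, m1, ok1, r1, e1⟩ := L.dom S b hb hbd hφb false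
  obtain ⟨v2, D2, d2, m2, ok2, r2, e2⟩ := L.dom S b hb hbd hφb true
  obtain ⟨H, c, h, hc⟩ := endW_of L.equi L.hol L.good S b ok1 r1 e1
  obtain ⟨H', c', h', hc'⟩ := endW_of L.equi L.hol L.good S b ok2 r2 e2
  exact topW S hb hbd hφb h h' (fun η hη => by simpa using hc η hη)
    (fun η hη => by simpa using hc' η hη)

end Crest.Agent.R143.Spinex422
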