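import Crest.Agent.R143.B6F_654
import Crest.Agent.R143.MG_501
import Crest.Agent.R143.Spine5_422

/-!
# Row 143 (S0194), new route: from the discrete sum in probability to the leaf `LHol` (helper758)

* `QHol` : quenched weak holomorphy, in probability; `lhol_of_q : QHol Adm → LHol Adm`
* `sumQ S N r z` : `∑ t, Q t * (t.2.1 - t.1) * seg (phi r z) t.1 t.2.1` over all oriented triangles
* `QSum` : `sumQ` of the network of the domain tends to zero in probability;
  `qhol_of_sum : QSum Dom.Ad → QHol Dom.Ad`; `lhol_of_sum : QSum Dom.Ad → LHol Dom.Ad`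
* `regular part`: on the good event the caller may assume `GoodB` (`QSumG`)
-/

set_option autoImplicit false

noncomputable section

open scoped Classical

namespace Crest.Agent.R143.AsmPx758

open Complex Set Filter Topology MeasureTheory
open scoped ENNReal
open Crest.ProbabilityR.Voronoi
open Crest.Agent.R143.B0x346 Crest.Agent.R143.B0Dx346 Crest.Agent.R143.PP1x831
open Crest.Agent.R143.Mollx887
open Crest.Agent.R143.B1bx796 (touch Stk seg phi sum_touch Sb_net)
open Crest.Agent.R143.B6bx903 (hval_BM)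
open Crest.Agent.R143.B6x654 (Sb_le)
open Crest.Agent.R143.B6Ix903 (GoodB MP MG net)
open Crest.Agent.R143.Spinex422

/-! ### in probability -/

/-- quenched weak holomorphy, in probability -/
def QHol (Adm : Dom → ℝ → Prop) : Prop := ∀ (D : Dom) (δ : ℝ), Adm D δ → ∀ m > 0, ∀ r > 0,
  ∀ z : ℂ, Room D (4 * r) z → Linked D m z →
  ∀ η > 0, ∀ᶠ ε : ℝ in 𝓝[>] 0, sampleLaw {ω | η < ‖Sb r (D.h ε ω) z‖} ≤ ENNReal.ofReal η

/-- `L¹` from probability, bounded by `B` -/
theorem lint_le {Ω : Type*} [MeasurableSpace Ω] (P : Measure Ω) [IsProbabilityMeasure P]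
    (G : Set Ω) {f : Ω → ℝ} {B η : ℝ} (hB : 0 ≤ B) (hη : 0 ≤ η) (h0 : ∀ ω, f ω ≤ B)
    (h : P {ω | η < f ω} ≤ ENNReal.ofReal η) :
    ∫⁻ ω in G, ENNReal.ofReal (f ω) ∂P ≤ ENNReal.ofReal (η + B * η) := by
  set T := toMeasurable P {ω | η < f ω} with hT
  have h1 : ∀ ω, ENNReal.ofReal (f ω) ≤
      ENNReal.ofReal η + T.indicator (fun _ => ENNReal.ofReal B) ω := by
    intro ω
    by_cases hω : η < f ω
    · have h2 : ω ∈ T := subset_toMeasurable P _ hω
      rw [indicator_of_mem h2]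
      exact (ENNReal.ofReal_le_ofReal (h0 ω)).trans le_add_self
    · exact (ENNReal.ofReal_le_ofReal (not_lt.1 hω)).trans le_self_add
  calc ∫⁻ ω in G, ENNReal.ofReal (f ω) ∂P ≤ ∫⁻ ω, ENNReal.ofReal (f ω) ∂P :=
        setLIntegral_le_lintegral _ _
    _ ≤ ∫⁻ ω, (ENNReal.ofReal η + T.indicator (fun _ => ENNReal.ofReal B) ω) ∂P :=
        lintegral_mono h1
    _ = ENNReal.ofReal η + ENNReal.ofReal B * P T := by
        rw [lintegral_add_left measurable_const, lintegral_const, measure_univ, mul_one,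
          lintegral_indicator (measurableSet_toMeasurable _ _), setLIntegral_const]
    _ ≤ ENNReal.ofReal η + ENNReal.ofReal B * ENNReal.ofReal η := by
        rw [hT, measure_toMeasurable]
        gcongr
    _ = ENNReal.ofReal (η + B * η) := by
        rw [← ENNReal.ofReal_mul hB, ← ENNReal.ofReal_add hη (by positivity)]

/-- **the leaf `LHol` from convergence in probability** -/
theorem lhol_of_q {Adm : Dom → ℝ → Prop} (h : QHol Adm) : LHol Adm := by
  intro D δ hA G hG m hm r hr z hR hL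
  rw [tendsto_zero_iff_norm_tendsto_zero, Metric.tendsto_nhds]
  intro e he
  have hCS : 0 ≤ CS / r * 3 := mul_nonneg (div_nonneg CS_nonneg hr.le) (by norm_num)
  set B := CS / r * 3 with hB
  have hη : 0 < e / (2 * (1 + B)) := by positivity
  filter_upwards [h D δ hA m hm r hr z hR hL _ hη, hG.hm2] with ε hε hm2
  have h1 : Sb r (HG D G ε) z = ∫ ω in G ε, Sb r (D.h ε ω) z ∂sampleLaw :=
    (Sb_integral (sampleLaw.restrict (G ε)) hm2 (fun ω z => norm_h_le D ε ω z) hr z).symm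
  have h2 : ∀ ω, ‖Sb r (D.h ε ω) z‖ ≤ B := fun ω => Sb_le (hval_BM (net D ε ω)) hr z
  have h3 := lint_le sampleLaw (G ε) hCS hη.le h2 hε
  rw [dist_zero_right, norm_norm, h1]
  have h4 : ‖∫ ω in G ε, Sb r (D.h ε ω) z ∂sampleLaw‖ₑ ≤
      ENNReal.ofReal (e / (2 * (1 + B)) + B * (e / (2 * (1 + B)))) := by
    refine (enorm_integral_le_lintegral_enorm _).trans (le_trans (le_of_eq ?_) h3)
    refine lintegral_congr fun ω => ?_
    rw [← ofReal_norm]
  have h5 : ‖∫ ω in G ε, Sb r (D.h ε ω) z ∂sampleLaw‖ ≤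
      e / (2 * (1 + B)) + B * (e / (2 * (1 + B))) := by
    rw [← ofReal_norm] at h4
    exact (ENNReal.ofReal_le_ofReal_iff (by positivity)).1 h4
  refine lt_of_le_of_lt h5 ?_
  have h6 : e / (2 * (1 + B)) + B * (e / (2 * (1 + B))) = e / 2 := by
    have : (1 + B) ≠ 0 := by positivity
    field_simp
  rw [h6]
  linarith

/-! ### the discrete sum -/

/-- the discrete sum of the amplitudes with the mollifier -/
def sumQ (S : Finset ℂ) (N : Net ℂ) (r : ℝ) (z : ℂ) : ℂ :=
  ∑ t ∈ delT S, N.Q t * (t.2.1 - t.1) * seg (phi r z) t.1 t.2.1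

theorem Sb_sumQ {S : Finset ℂ} {N : Net ℂ} {r : ℝ} {z : ℂ} (hr : 0 < r) (h : Stk S N r z) :
    Sb r (hval N) z = -(I / 2) * sumQ S N r z := by
  rw [Sb_net hr h, sumQ, sum_touch hr fun t => N.Q t * (t.2.1 - t.1)]

/-- **core in probability, on good environments** : for one choice of the constants of the
environment -/
def QSumG (Adm : Dom → ℝ → Prop) : Prop := ∀ (D : Dom) (δ : ℝ), Adm D δ → ∀ m > 0, ∀ r > 0,
  ∀ z : ℂ, Room D (4 * r) z → Linked D m z → ∀ C K a C4 : ℝ, 0 < C → 0 < K → 0 < a → 0 < C4 →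
  MP (‖D.c‖ + D.L) 30 C K a C4 → ∀ η > 0, ∀ᶠ ε : ℝ in 𝓝[>] 0,
    sampleLaw {ω | GoodB (‖D.c‖ + D.L) ε C K a C4 ω ∧
      η < ‖sumQ (D.sites ε ω) (net D ε ω) r z‖} ≤ ENNReal.ofReal η

/-- Stokes in a good environment -/
theorem stk_good {D : Dom} {δ ε C K a C4 r : ℝ} {ω : Sample} {z : ℂ} (hA : D.Ad δ) (hr : 0 < r)
    (hC : 0 < C) (hε : 0 < ε ∧ ε < 1) (hω : GoodB (‖D.c‖ + D.L) ε C K a C4 ω)
    (h1 : 40000 * D.L ^ 5 * rad C ε ≤ δ ^ 6) (h2 : 4 * rad C ε ≤ r) (hR : Room D (4 * r) z) :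
    Stk (D.sites ε ω) (net D ε ω) r z := by
  have hg := B6Fx654.GoodB.good hω (D := D) le_rfl
  have hd := B6cx903.rad_pos hC hε.1 hε.2
  have hN : HNet (D.sites ε ω) (net D ε ω) := Adx422.d1 hA.w hg.env h1
  have hL := hA.Lpos
  have h7 := B6cx903.room_norm hR (by positivity)
  refine B1hx991.stk_env hd hr hg.env hN (by linarith) fun w hw hwo => ?_
  refine Set.disjoint_left.1 hR.1 ?_ hwo
  rw [Metric.mem_closedBall, dist_eq_norm]
  linarith

/-- **quenched holomorphy from the discrete sum** -/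
theorem qhol_of_sum (h : QSumG Dom.Ad) : QHol Dom.Ad := by
  intro D δ hA m hm r hr z hR hL η hη
  have hLp := hA.Lpos
  have hδ := hA.dpos
  obtain ⟨C, K, a, C4, hC, hK, ha, hC4, hMP⟩ := MGx501.mg (‖D.c‖ + D.L) 30
    (by positivity) (by norm_num)
  have e1 := B6cx903.ev_unit
  have e2 := B6cx903.small_rad C 0 (δ ^ 6 / (40000 * D.L ^ 5)) hC (by norm_num) (by positivity)
  have e3 := B6cx903.small_rad C 0 (r / 4) hC (by norm_num) (by positivity)
  have e4 := B6cx903.ev_small (κ := 30) (by norm_num) (show 0 < η / 2 by positivity)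
  filter_upwards [h D δ hA m hm r hr z hR hL C K a C4 hC hK ha hC4 hMP (η / 2) (by positivity),
    hMP, e1, e2, e3, e4] with ε hε hmp he1 he2 he3 he4
  rw [Real.rpow_zero, mul_one] at he2 he3
  have hsub : {ω | η < ‖Sb r (D.h ε ω) z‖} ⊆ {ω | ¬ GoodB (‖D.c‖ + D.L) ε C K a C4 ω} ∪
      {ω | GoodB (‖D.c‖ + D.L) ε C K a C4 ω ∧
        η / 2 < ‖sumQ (D.sites ε ω) (net D ε ω) r z‖} := by
    intro ω hω
    by_cases hg : GoodB (‖D.c‖ + D.L) ε C K a C4 ω
    · right
      refine ⟨hg, ?_⟩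
      have hs := stk_good hA hr hC he1 hg (by
        rw [le_div_iff₀ (by positivity)] at he2
        linarith) (by linarith) hR
      have h1 : Sb r (D.h ε ω) z = -(I / 2) * sumQ (D.sites ε ω) (net D ε ω) r z :=
        Sb_sumQ hr hs
      have h2 : ‖Sb r (D.h ε ω) z‖ = 1 / 2 * ‖sumQ (D.sites ε ω) (net D ε ω) r z‖ := by
        rw [h1, norm_mul, norm_neg, norm_div, Complex.norm_I]
        norm_num
      have h3 : η < ‖Sb r (D.h ε ω) z‖ := hω
      rw [h2] at h3
      linarith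
    · left
      exact hg
  calc sampleLaw {ω | η < ‖Sb r (D.h ε ω) z‖} ≤ _ := measure_mono hsub
    _ ≤ ENNReal.ofReal (ε ^ (30 : ℝ)) + ENNReal.ofReal (η / 2) :=
        (measure_union_le _ _).trans (add_le_add hmp hε)
    _ ≤ ENNReal.ofReal (η / 2) + ENNReal.ofReal (η / 2) := by gcongr
    _ = ENNReal.ofReal η := by
        rw [← ENNReal.ofReal_add (by positivity) (by positivity)]
        congr 1
        ring

/-- **the leaf `LHol` from the discrete sum** -/
theorem lhol_of_sum (h : QSumG Dom.Ad) : LHol Dom.Ad := lhol_of_q (qhol_of_sum h)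

end Crest.Agent.R143.AsmPx758
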