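import Crest.Agent.R143.HTop2_690

/-!
# Row 143 (S0194), block H (helper136): the quantifiers of the assembly

Order of the parameters: `d` (depth), `R` (near chords), `N` (width `w N` of the ring), `ε`.

* `Maj ε B g X t` : the quenched mean of `g * X` has a measurable majorant with integral
  `≤ t * mass g`; `Maj.mono`, `Maj.add`, `Maj.sum`, `Maj.const`
* `Bas` : the pointwise budget and the glue for the size `k`
* `small_of` : a system of rings with small energy of the chords gives `HSmallM`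
* `chord_of` : finite decomposition of the energy of the chords
* `c_L`, `c_B`, `c_S`, `c_A`, `c_N` : the five types of terms
-/

set_option autoImplicit false

noncomputable section

open scoped Classical

namespace Crest.Agent.R143.AsmQx136

open MeasureTheory Filter Topology
open Crest.ProbabilityR.Voronoi
open Crest.Agent.R143.B0x346 Crest.Agent.R143.SumScx302 Crest.Agent.R143.Mass1x302
  Crest.Agent.R143.Mass2x302
  Crest.Agent.R143.PP0x831 Crest.Agent.R143.Trans2x690 Crest.Agent.R143.Trans3x690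
  Crest.Agent.R143.Bud3x432 Crest.Agent.R143.HBudx136 Crest.Agent.R143.HGluex136
  Crest.Agent.R143.Dblx609 Crest.Agent.R143.Dbl2x609 Crest.Agent.R143.HTop2x690
open scoped ENNReal

/-- functionals of the configuration in the box -/
abbrev Fn : Type := Set (ℂ × Bool) → ℝ≥0∞

/-- **relative bound with a measurable majorant** -/
def Maj (ε : ℝ) (B : Set ℂ) (g X : Fn) (t : ℝ) : Prop :=
  ∃ R : Sample → ℝ≥0∞, AEMeasurable R sampleLaw ∧
    (∀ᵐ ω ∂sampleLaw, mq ε B (fun Y => g Y * X Y) ω ≤ R ω) ∧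
    ∫⁻ ω, R ω ∂sampleLaw ≤ ENNReal.ofReal t * mass ε B g

variable {ε : ℝ} {B : Set ℂ} {g X Y : Fn} {t u : ℝ}

theorem mass_le_one (hg : ∀ Z, g Z ≤ 1) : mass ε B g ≤ 1 := by
  unfold mass
  calc ∫⁻ ω, g (cfg ε ω ∩ ovM Bool B) ∂sampleLaw ≤ ∫⁻ _, 1 ∂sampleLaw :=
        lintegral_mono fun ω => hg _
    _ = 1 := by simp

/-- comparison on the painted configurations -/
theorem Maj.mono_fn (h : Maj ε B g Y t) (hXY : ∀ᵐ ω ∂sampleLaw, ∀ β ∈ (Ap ε B ω).powerset,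
    g (paint (Ap ε B ω) β) ≠ 0 → X (paint (Ap ε B ω) β) ≤ Y (paint (Ap ε B ω) β)) :
    Maj ε B g X t := by
  obtain ⟨R, h1, h2, h3⟩ := h
  refine ⟨R, h1, ?_, h3⟩
  filter_upwards [h2, hXY] with ω e1 e2
  refine le_trans (mq_mono fun β hβ => ?_) e1
  by_cases h0 : g (paint (Ap ε B ω) β) = 0
  · rw [h0, zero_mul, zero_mul]
  · exact mul_le_mul_right (e2 β hβ h0) _

theorem Maj.mono (h : Maj ε B g X t) (htu : t ≤ u) : Maj ε B g X u := by
  obtain ⟨R, h1, h2, h3⟩ := h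
  exact ⟨R, h1, h2, h3.trans (by gcongr)⟩

theorem Maj.zero : Maj ε B g (fun _ => 0) 0 := by
  refine ⟨fun _ => 0, measurable_const.aemeasurable, Filter.Eventually.of_forall fun ω => ?_, ?_⟩
  · unfold mq
    simp
  · simp

theorem Maj.add (hX : Maj ε B g X t) (hY : Maj ε B g Y u) (ht : 0 ≤ t) (hu : 0 ≤ u) :
    Maj ε B g (fun Z => X Z + Y Z) (t + u) := by
  obtain ⟨R, h1, h2, h3⟩ := hX
  obtain ⟨R', h1', h2', h3'⟩ := hY
  refine ⟨fun ω => R ω + R' ω, h1.add h1', ?_, ?_⟩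
  · filter_upwards [h2, h2'] with ω e1 e2
    have h8 : mq ε B (fun Z => g Z * (X Z + Y Z)) ω =
        mq ε B (fun Z => g Z * X Z) ω + mq ε B (fun Z => g Z * Y Z) ω := by
      rw [← mq_add]
      simp only [mul_add]
    rw [h8]
    exact add_le_add e1 e2
  · rw [lintegral_add_left' h1, ENNReal.ofReal_add ht hu, add_mul]
    exact add_le_add h3 h3'

theorem Maj.const {c : ℝ} (hX : Maj ε B g X t) (hc : 0 ≤ c) :
    Maj ε B g (fun Z => ENNReal.ofReal c * X Z) (c * t) := by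
  obtain ⟨R, h1, h2, h3⟩ := hX
  refine ⟨fun ω => ENNReal.ofReal c * R ω, h1.const_mul _, ?_, ?_⟩
  · filter_upwards [h2] with ω e1
    have h8 : mq ε B (fun Z => g Z * (ENNReal.ofReal c * X Z)) ω =
        ENNReal.ofReal c * mq ε B (fun Z => g Z * X Z) ω := by
      rw [← mq_mul]
      simp only [mul_left_comm]
    rw [h8]
    gcongr
  · rw [lintegral_const_mul'' _ h1, ENNReal.ofReal_mul hc, mul_assoc]
    gcongr

theorem Maj.sum {ι : Type*} (s : Finset ι) {X : ι → Fn} {t : ι → ℝ}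
    (h : ∀ i ∈ s, Maj ε B g (X i) (t i)) (ht : ∀ i ∈ s, 0 ≤ t i) :
    Maj ε B g (fun Z => ∑ i ∈ s, X i Z) (∑ i ∈ s, t i) := by
  induction s using Finset.induction_on with
  | empty => simpa using Maj.zero
  | insert a s ha ih =>
    have h1 := (h a (Finset.mem_insert_self _ _)).add
      (ih (fun i hi => h i (Finset.mem_insert_of_mem hi)) fun i hi =>
        ht i (Finset.mem_insert_of_mem hi)) (ht a (Finset.mem_insert_self _ _))
      (Finset.sum_nonneg fun i hi => ht i (Finset.mem_insert_of_mem hi))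
    simpa only [Finset.sum_insert ha] using h1

/-- an absolute bound is a relative bound -/
theorem maj_abs {R : Sample → ℝ≥0∞} {c : ℝ} (h1 : AEMeasurable R sampleLaw)
    (h2 : ∀ᵐ ω ∂sampleLaw, mq ε B (fun Y => g Y * X Y) ω ≤ R ω)
    (h3 : ∫⁻ ω, R ω ∂sampleLaw ≤ ENNReal.ofReal (t * c)) (ht : 0 ≤ t)
    (hm : ENNReal.ofReal c ≤ mass ε B g) : Maj ε B g X t := by
  refine ⟨R, h1, h2, h3.trans ?_⟩
  rw [ENNReal.ofReal_mul ht]
  gcongr

/-- a constant bound -/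
theorem maj_const (hε : 0 < ε) (hBm : MeasurableSet B) (hB : Bornology.IsBounded B)
    (hg : Poisx304.FM g) (ht : 0 ≤ t) (h : ∀ᵐ ω ∂sampleLaw, mq ε B (fun Y => g Y * X Y) ω ≤
      ENNReal.ofReal t * mq ε B g ω) : Maj ε B g X t := by
  have _ := ht
  refine ⟨fun ω => ENNReal.ofReal t * mq ε B g ω, (mq_meas hε hBm hB hg).const_mul _, h, ?_⟩
  rw [lintegral_const_mul'' _ (mq_meas hε hBm hB hg), lint_eq_mq hε hBm hB hg]
  rfl

/-! ### the system of rings -/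

/-- the pointwise budget and the glue for the size `k` -/
def Bas (z : ℂ) (b s k ε : ℝ) (B : Set ℂ) (g CH : Fn) : Prop :=
  ∃ CL : Fn,
    (∀ᵐ ω ∂sampleLaw, g (cfg ε ω ∩ ovM Bool B) ≠ 0 →
      Wf (ps (cfg ε ω)) (sq z b) / 4 ≤ CH (cfg ε ω ∩ ovM Bool B) + CL (cfg ε ω ∩ ovM Bool B) +
        fam.Ph (sq z b) (cfg ε ω) +
        Wf (ps (cfg ε ω)) (Nk (Finset.univ : Finset Unit) (fun _ => sq z b) k ∩ Ub z b s)) ∧
    (∀ᵐ ω ∂sampleLaw, Qg k (Ub z b s) (points ε ω) (Ap ε B ω) fun X => g X * CL X)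

/-- the box and the weight are admissible -/
structure Wt (z : ℂ) (b s : ℝ) (B : Set ℂ) (g : Fn) : Prop where
  meas : MeasurableSet B
  bdd : Bornology.IsBounded B
  sub : Ub z b s ⊆ B
  fm : Poisx304.FM g
  le : ∀ Z, g Z ≤ 1

/-- `P` holds for small `d`, then small `R`, then large `N` -/
def E3 (P : ℝ → ℝ → ℕ → Prop) : Prop :=
  ∀ᶠ d : ℝ in 𝓝[>] 0, ∀ᶠ R : ℝ in 𝓝[>] 0, ∀ᶠ N : ℕ in atTop, P d R N

theorem E3.and {P Q : ℝ → ℝ → ℕ → Prop} (hP : E3 P) (hQ : E3 Q) :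
    E3 fun d R N => P d R N ∧ Q d R N := by
  filter_upwards [hP, hQ] with d h1 h2
  filter_upwards [h1, h2] with R h3 h4
  filter_upwards [h3, h4] with N h5 h6
  exact ⟨h5, h6⟩

theorem E3.mono {P Q : ℝ → ℝ → ℕ → Prop} (hP : E3 P) (h : ∀ d R N, P d R N → Q d R N) : E3 Q := by
  filter_upwards [hP] with d h1
  filter_upwards [h1] with R h3
  filter_upwards [h3] with N h5
  exact h _ _ _ h5

theorem E3.of {P : ℝ → ℝ → ℕ → Prop} (h : ∀ d R N, P d R N) : E3 P :=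
  Filter.Eventually.of_forall fun d => Filter.Eventually.of_forall fun R =>
    Filter.Eventually.of_forall fun N => h d R N

theorem E3.ofN {P : ℕ → Prop} (h : ∀ᶠ N : ℕ in atTop, P N) : E3 fun _ _ N => P N :=
  Filter.Eventually.of_forall fun _ => Filter.Eventually.of_forall fun _ => h

theorem E3.ex {P : ℝ → ℝ → ℕ → Prop} (h : E3 P) : ∃ d R N, P d R N := by
  obtain ⟨d, h1⟩ := Filter.Eventually.exists h
  obtain ⟨R, h2⟩ := Filter.Eventually.exists h1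
  obtain ⟨N, h3⟩ := Filter.Eventually.exists h2
  exact ⟨d, R, N, h3⟩

theorem E3.all {ι : Type*} (s : Finset ι) {P : ι → ℝ → ℝ → ℕ → Prop} (h : ∀ i ∈ s, E3 (P i)) :
    E3 fun d R N => ∀ i ∈ s, P i d R N := by
  induction s using Finset.induction_on with
  | empty => exact E3.of fun d R N i hi => absurd hi (Finset.notMem_empty i)
  | insert a s _ ih =>
    refine ((h a (Finset.mem_insert_self _ _)).and
      (ih fun i hi => h i (Finset.mem_insert_of_mem hi))).mono fun d R N hh i hi => ?_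
    rcases Finset.mem_insert.1 hi with rfl | hi
    · exact hh.1
    · exact hh.2 i hi

/-- **THE QUANTIFIERS OF BLOCK H** : `B, g, CH` depend on `d R N ε` -/
theorem small_of {z : ℂ} {b : ℝ} (hb : 0 < b) {w : ℕ → ℝ} (hw0 : ∀ N, 0 < w N)
    (hw : Tendsto w atTop (𝓝 0)) (B : ℝ → ℝ → ℕ → ℝ → Set ℂ) (g CH : ℝ → ℝ → ℕ → ℝ → Fn)
    (wt : E3 fun d R N => ∀ᶠ ε : ℝ in 𝓝[>] 0, Wt z b (w N) (B d R N ε) (g d R N ε))
    (bas : E3 fun d R N => ∀ k : ℝ, 0 < k → ∀ᶠ ε : ℝ in 𝓝[>] 0,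
      Bas z b (w N) k ε (B d R N ε) (g d R N ε) (CH d R N ε))
    (hm : E3 fun d R N => ∃ c : ℝ, 0 < c ∧ ∀ᶠ ε : ℝ in 𝓝[>] 0,
      ENNReal.ofReal c ≤ mass ε (B d R N ε) (g d R N ε))
    (ch : ∀ η : ℝ, 0 < η → E3 fun d R N => ∀ᶠ ε : ℝ in 𝓝[>] 0,
      Maj ε (B d R N ε) (g d R N ε) (CH d R N ε) η) : HSmallM := by
  refine ⟨z, b, hb, fun η hη => ?_⟩
  have h1 : E3 fun _ _ N => w N ≤ η := E3.ofN (hw.eventually (ge_mem_nhds hη))
  obtain ⟨d, R, N, ⟨⟨⟨g1, g2⟩, c, hc, g3⟩, g4⟩, g5⟩ :=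
    ((((wt.and bas).and hm).and (ch η hη)).and h1).ex
  refine ⟨w N, hw0 N, g5, c, hc, fun k0 hk0 => ⟨k0, hk0, le_rfl, ?_⟩⟩
  refine Filter.Eventually.frequently ?_
  filter_upwards [g1, g2 k0 hk0, g3, g4] with ε e1 e2 e3 e4
  obtain ⟨CL, f1, f2⟩ := e2
  obtain ⟨Rm, f3, f4, f5⟩ := e4
  exact ⟨⟨B d R N ε, g d R N ε, CH d R N ε, CL, Rm, e1.meas, e1.bdd, e1.sub, e1.fm, e1.le, f1, f2,
    f3, f4, e3, f5⟩⟩

/-- **finite decomposition of the energy of the chords** -/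
theorem chord_of {ι : Type*} (s : Finset ι) {B : ℝ → ℝ → ℕ → ℝ → Set ℂ}
    {g CH : ℝ → ℝ → ℕ → ℝ → Fn} {X : ι → ℝ → ℝ → ℕ → ℝ → Fn}
    (dec : E3 fun d R N => ∀ᶠ ε : ℝ in 𝓝[>] 0, ∀ᵐ ω ∂sampleLaw,
      ∀ β ∈ (Ap ε (B d R N ε) ω).powerset,
        g d R N ε (paint (Ap ε (B d R N ε) ω) β) ≠ 0 →
        CH d R N ε (paint (Ap ε (B d R N ε) ω) β) ≤
          ∑ i ∈ s, X i d R N ε (paint (Ap ε (B d R N ε) ω) β))
    (h : ∀ i ∈ s, ∀ η : ℝ, 0 < η → E3 fun d R N => ∀ᶠ ε : ℝ in 𝓝[>] 0,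
      Maj ε (B d R N ε) (g d R N ε) (X i d R N ε) η) :
    ∀ η : ℝ, 0 < η → E3 fun d R N => ∀ᶠ ε : ℝ in 𝓝[>] 0,
      Maj ε (B d R N ε) (g d R N ε) (CH d R N ε) η := by
  intro η hη
  have hη' : 0 < η / (s.card + 1) := by positivity
  refine ((E3.all s fun i hi => h i hi _ hη').and dec).mono fun d R N hh => ?_
  obtain ⟨h1, h2⟩ := hh
  filter_upwards [h2, (Finset.eventually_all s).2 h1] with ε e2 e1
  refine Maj.mono (Maj.mono_fn (Maj.sum s e1 fun i _ => hη'.le) e2) ?_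
  rw [Finset.sum_const, nsmul_eq_mul, mul_div_assoc', div_le_iff₀ (by positivity)]
  nlinarith

/-! ### the types of terms -/

section types

variable {B : ℝ → ℝ → ℕ → ℝ → Set ℂ} {g X : ℝ → ℝ → ℕ → ℝ → Fn}

/-- [LAY] : the term is at most `C (d + w N) + δ` -/
theorem c_L {C c : ℝ} (hC : 0 ≤ C) (hc : 0 ≤ c) {w : ℕ → ℝ} (hw : Tendsto w atTop (𝓝 0))
    (h : E3 fun d R N => ∀ δ : ℝ, 0 < δ → ∀ᶠ ε : ℝ in 𝓝[>] 0,
      Maj ε (B d R N ε) (g d R N ε) (X d R N ε) (C * (d + w N) + δ)) :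
    ∀ η : ℝ, 0 < η → E3 fun d R N => ∀ᶠ ε : ℝ in 𝓝[>] 0,
      Maj ε (B d R N ε) (g d R N ε) (fun Z => ENNReal.ofReal c * X d R N ε Z) η := by
  intro η hη
  set q : ℝ := η / (3 * (c + 1) * (C + 1)) with hq
  have hq0 : 0 < q := by positivity
  have hqe : q * (3 * (c + 1) * (C + 1)) = η := by rw [hq]; field_simp
  have h1 : E3 fun d _ _ => d ≤ q := by
    have : ∀ᶠ d : ℝ in 𝓝[>] 0, d ≤ q := nhdsWithin_le_nhds (ge_mem_nhds hq0)
    filter_upwards [this] with d hd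
    exact Filter.Eventually.of_forall fun R => Filter.Eventually.of_forall fun N => hd
  have h2 : E3 fun _ _ N => w N ≤ q := E3.ofN (hw.eventually (ge_mem_nhds hq0))
  refine ((h.and h1).and h2).mono fun d R N hh => ?_
  obtain ⟨⟨h3, h4⟩, h5⟩ := hh
  filter_upwards [h3 q hq0] with ε e1
  refine (e1.const hc).mono ?_
  have h6 : C * (d + w N) ≤ C * (q + q) := by gcongr
  have h7 : c * (C * (d + w N) + q) ≤ c * (C * (q + q) + q) := by gcongr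
  nlinarith [mul_nonneg hC hq0.le, mul_nonneg hc hq0.le, mul_nonneg (mul_nonneg hc hC) hq0.le]

/-- [B] : small as `R → 0` for fixed `d` (constants may depend on `d`) -/
theorem c_B {c : ℝ → ℝ} (hc : ∀ d, 0 ≤ c d)
    (h : ∀ᶠ d : ℝ in 𝓝[>] 0, ∀ η : ℝ, 0 < η → ∀ᶠ R : ℝ in 𝓝[>] 0, ∀ᶠ N : ℕ in atTop,
      ∀ᶠ ε : ℝ in 𝓝[>] 0, Maj ε (B d R N ε) (g d R N ε) (X d R N ε) η) :
    ∀ η : ℝ, 0 < η → E3 fun d R N => ∀ᶠ ε : ℝ in 𝓝[>] 0,
      Maj ε (B d R N ε) (g d R N ε) (fun Z => ENNReal.ofReal (c d) * X d R N ε Z) η := by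
  intro η hη
  filter_upwards [h] with d h1
  have hcd := hc d
  filter_upwards [h1 (η / (c d + 1)) (by positivity)] with R h2
  filter_upwards [h2] with N h3
  filter_upwards [h3] with ε e1
  refine (e1.const (hc d)).mono ?_
  rw [mul_div_assoc', div_le_iff₀ (by positivity)]
  nlinarith

/-- [E], [P] : small as `N → ∞` for fixed `d, R` (constants may depend on `d, R`) -/
theorem c_S {c : ℝ → ℝ → ℝ} (hc : ∀ d R, 0 ≤ c d R)
    (h : ∀ᶠ d : ℝ in 𝓝[>] 0, ∀ᶠ R : ℝ in 𝓝[>] 0, ∀ η : ℝ, 0 < η → ∀ᶠ N : ℕ in atTop,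
      ∀ᶠ ε : ℝ in 𝓝[>] 0, Maj ε (B d R N ε) (g d R N ε) (X d R N ε) η) :
    ∀ η : ℝ, 0 < η → E3 fun d R N => ∀ᶠ ε : ℝ in 𝓝[>] 0,
      Maj ε (B d R N ε) (g d R N ε) (fun Z => ENNReal.ofReal (c d R) * X d R N ε Z) η := by
  intro η hη
  filter_upwards [h] with d h1
  filter_upwards [h1] with R h2
  have hcd := hc d R
  filter_upwards [h2 (η / (c d R + 1)) (by positivity)] with N h3
  filter_upwards [h3] with ε e1
  refine (e1.const (hc d R)).mono ?_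
  rw [mul_div_assoc', div_le_iff₀ (by positivity)]
  nlinarith

/-- [A] : small as `ε → 0` for fixed `d, R, N` (constants may depend on `d, R, N`); absolute bound,
turned into a relative bound by the lower bound of the mass -/
theorem c_A {c : ℝ → ℝ → ℕ → ℝ} (hc : ∀ d R N, 0 ≤ c d R N)
    (hm : E3 fun d R N => ∃ c : ℝ, 0 < c ∧ ∀ᶠ ε : ℝ in 𝓝[>] 0,
      ENNReal.ofReal c ≤ mass ε (B d R N ε) (g d R N ε))
    (h : E3 fun d R N => ∀ δ : ℝ, 0 < δ → ∀ᶠ ε : ℝ in 𝓝[>] 0, ∃ Rm : Sample → ℝ≥0∞,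
      AEMeasurable Rm sampleLaw ∧
      (∀ᵐ ω ∂sampleLaw, mq ε (B d R N ε) (fun Y => g d R N ε Y * X d R N ε Y) ω ≤ Rm ω) ∧
      ∫⁻ ω, Rm ω ∂sampleLaw ≤ ENNReal.ofReal δ) :
    ∀ η : ℝ, 0 < η → E3 fun d R N => ∀ᶠ ε : ℝ in 𝓝[>] 0,
      Maj ε (B d R N ε) (g d R N ε) (fun Z => ENNReal.ofReal (c d R N) * X d R N ε Z) η := by
  intro η hη
  refine (hm.and h).mono fun d R N hh => ?_
  obtain ⟨⟨c0, hc0, h1⟩, h2⟩ := hh
  have hcd := hc d R N
  have hq : 0 < η / (c d R N + 1) := by positivity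
  filter_upwards [h1, h2 (η / (c d R N + 1) * c0) (by positivity)] with ε e1 e2
  obtain ⟨Rm, f1, f2, f3⟩ := e2
  refine ((maj_abs f1 f2 f3 hq.le e1).const (hc d R N)).mono ?_
  rw [mul_div_assoc', div_le_iff₀ (by positivity)]
  nlinarith

/-- [N] + [K] : `κ² *` (number of deep chords), `κ N ε` small as `N → ∞` -/
theorem c_N {c : ℝ → ℝ → ℝ} (hc : ∀ d R, 0 ≤ c d R) {κ : ℕ → ℝ → ℝ}
    (hκ : ∀ δ : ℝ, 0 < δ → ∀ᶠ N : ℕ in atTop, ∀ᶠ ε : ℝ in 𝓝[>] 0, |κ N ε| ≤ δ)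
    (h : ∀ᶠ d : ℝ in 𝓝[>] 0, ∀ᶠ R : ℝ in 𝓝[>] 0, ∃ C : ℝ, 0 ≤ C ∧ ∀ᶠ N : ℕ in atTop,
      ∀ᶠ ε : ℝ in 𝓝[>] 0, Maj ε (B d R N ε) (g d R N ε) (X d R N ε) C) :
    ∀ η : ℝ, 0 < η → E3 fun d R N => ∀ᶠ ε : ℝ in 𝓝[>] 0,
      Maj ε (B d R N ε) (g d R N ε)
        (fun Z => ENNReal.ofReal (c d R * κ N ε ^ 2) * X d R N ε Z) η := by
  intro η hη
  filter_upwards [h] with d h1
  filter_upwards [h1] with R h2
  obtain ⟨C, hC, h2⟩ := h2
  have hcd := hc d R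
  set δ : ℝ := min 1 (η / (c d R * C + 1)) with hδ
  have hδ0 : 0 < δ := by positivity
  filter_upwards [h2, hκ δ hδ0] with N h3 h4
  filter_upwards [h3, h4] with ε e1 e2
  have h5 : κ N ε ^ 2 ≤ δ := by
    have h6 : κ N ε ^ 2 = |κ N ε| ^ 2 := (sq_abs _).symm
    have h7 : δ ≤ 1 := min_le_left _ _
    rw [h6]
    nlinarith [abs_nonneg (κ N ε)]
  refine (e1.const (c := c d R * κ N ε ^ 2) (by positivity)).mono ?_
  have h8 : δ ≤ η / (c d R * C + 1) := min_le_right _ _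
  have h9 : 0 ≤ c d R * C := mul_nonneg hcd hC
  rw [le_div_iff₀ (by positivity)] at h8
  calc c d R * κ N ε ^ 2 * C = (c d R * C) * κ N ε ^ 2 := by ring
    _ ≤ (c d R * C) * δ := by gcongr
    _ ≤ η := by nlinarith

end types

end Crest.Agent.R143.AsmQx136
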