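import Crest.Agent.R143.EndB_336
import Crest.Agent.R143.Moll_887

/-!
# Row 143 (S0194): from the annealed observable to the end theorem (helper336)

* `Db` : the `∂/∂z` version of `Sb`; `del_moll`
* `Sb_aesm` : joint measurability of `(ω, z) ↦ Sb r (h ω) z`
* `AnnM` : hypotheses on the quenched observable `h ε ω z` (bounded, jointly measurable) and on
  its expectation; `AnnM.endM`
-/

set_option autoImplicit false

noncomputable section

namespace Crest.Agent.R143.Asmx336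

open Complex Set Filter Topology MeasureTheory
open Crest.ProbabilityR.Voronoi Crest.Agent.R143.BC0x336 Crest.Agent.R143.EndAx336
open Crest.Agent.R143.EndBx336 Crest.Agent.R143.Mollx887
open scoped ENNReal

/-! ### the operator `∂/∂z` -/

/-- `∂/∂z` of the radial mollification -/
def Db (r : ℝ) (h : ℂ → ℂ) (z₀ : ℂ) : ℂ := (starRingEnd ℂ) (Sb r (cj h) z₀)

theorem BM.cj {h : ℂ → ℂ} {M : ℝ} (hh : BM h M) : BM (cj h) M :=
  ⟨Complex.continuous_conj.comp_aestronglyMeasurable hh.meas, fun z => by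
    rw [EndBx336.cj, Complex.norm_conj]; exact hh.bd z⟩

theorem moll_cj (r : ℝ) (h : ℂ → ℂ) (z₀ : ℂ) :
    moll r (cj h) z₀ = (starRingEnd ℂ) (moll r h z₀) := by
  unfold moll
  rw [← integral_conj]
  refine integral_congr_ae (ae_of_all _ fun z => ?_)
  simp only [EndBx336.cj, map_mul, Complex.conj_ofReal]

theorem del_moll {h : ℂ → ℂ} {M : ℝ} (hh : BM h M) {r : ℝ} (hr : 0 < r) (z₀ : ℂ) :
    del (moll r h) z₀ = Db r h z₀ := by
  have h1 : (moll r (EndBx336.cj h)) = EndBx336.cj (moll r h) := by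
    funext z; exact moll_cj r h z
  have h2 := dbar_moll (BM.cj hh) hr z₀
  rw [h1, dbar_cj (moll_contDiff hh hr (n := 1))] at h2
  rw [Db, ← h2, Complex.conj_conj]

theorem Db_eq (r : ℝ) (h : ℂ → ℂ) (z₀ : ℂ) :
    Db r h z₀ = ∫ z, (starRingEnd ℂ) (kb r z) * h (z₀ + z) := by
  rw [Db, Sb, ← integral_conj]
  refine integral_congr_ae (ae_of_all _ fun z => ?_)
  simp only [EndBx336.cj, map_mul, Complex.conj_conj]

theorem norm_Db (r : ℝ) (h : ℂ → ℂ) (z₀ : ℂ) : ‖Db r h z₀‖ = ‖Sb r (EndBx336.cj h) z₀‖ := by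
  rw [Db, Complex.norm_conj]

theorem Db_continuous {h : ℂ → ℂ} {M : ℝ} (hh : BM h M) {r : ℝ} (hr : 0 < r) :
    Continuous (Db r h) := Complex.continuous_conj.comp (Sb_continuous (BM.cj hh) hr)

theorem Db_add {h h' : ℂ → ℂ} {M M' : ℝ} (hh : BM h M) (hh' : BM h' M') {r : ℝ} (hr : 0 < r)
    (z₀ : ℂ) : Db r (fun z => h z + h' z) z₀ = Db r h z₀ + Db r h' z₀ := by
  have h1 := Sb_add (BM.cj hh) (BM.cj hh') hr z₀
  rw [Db, Db, Db, ← map_add, ← h1]
  congr 2
  funext z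
  simp only [EndBx336.cj, map_add]

theorem Db_mul (a : ℂ) (h : ℂ → ℂ) (r : ℝ) (z₀ : ℂ) :
    Db r (fun z => a * h z) z₀ = a * Db r h z₀ := by
  rw [Db_eq, Db_eq, ← integral_const_mul]
  refine integral_congr_ae (ae_of_all _ fun z => ?_)
  simp only
  ring

theorem Db_sub {h h' : ℂ → ℂ} {M M' : ℝ} (hh : BM h M) (hh' : BM h' M') {r : ℝ} (hr : 0 < r)
    (z₀ : ℂ) : Db r (fun z => h z - h' z) z₀ = Db r h z₀ - Db r h' z₀ := by
  have h1 := Sb_sub (BM.cj hh) (BM.cj hh') hr z₀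
  rw [Db, Db, Db, ← map_sub, ← h1]
  congr 2
  funext z
  simp only [EndBx336.cj, map_sub]

/-- bound of `Db` -/
theorem Db_bound {h : ℂ → ℂ} {M : ℝ} (hh : BM h M) {r : ℝ} (hr : 0 < r) {z₀ c : ℂ} {η : ℝ}
    (hη : ∀ z, ‖z‖ < r → ‖h (z₀ + z) - c‖ ≤ η) : ‖Db r h z₀‖ ≤ CS / r * η := by
  rw [norm_Db]
  refine Sb_bound (BM.cj hh) hr (c := (starRingEnd ℂ) c) fun z hz => ?_
  rw [EndBx336.cj, ← map_sub, Complex.norm_conj]
  exact hη z hz

/-- bound of `Db` for a difference -/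
theorem Db_close {h h' : ℂ → ℂ} {M M' : ℝ} (hh : BM h M) (hh' : BM h' M') {r : ℝ} (hr : 0 < r)
    {z₀ c : ℂ} {η : ℝ} (hη : ∀ z, ‖z‖ < r → ‖h (z₀ + z) - h' (z₀ + z) - c‖ ≤ η) :
    ‖Db r h z₀ - Db r h' z₀‖ ≤ CS / r * η := by
  rw [← Db_sub hh hh' hr]
  exact Db_bound (hh.sub hh') hr hη

/-- rotation covariance of `Db` -/
theorem Db_rot {e : ℂ} (he : ‖e‖ = 1) (h : ℂ → ℂ) (r : ℝ) (z₀ : ℂ) :
    Db r (fun z => h (z₀ + e * (z - z₀))) z₀ = e * Db r h z₀ := by
  have h1 := Sb_rot he (EndBx336.cj h) r z₀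
  rw [Db]
  have h2 : EndBx336.cj (fun z => h (z₀ + e * (z - z₀))) =
      fun z => EndBx336.cj h (z₀ + e * (z - z₀)) := rfl
  rw [h2, h1, map_mul, Db]
  congr 1
  have h3 : e * (starRingEnd ℂ) e = 1 := by
    rw [Complex.mul_conj, Complex.normSq_eq_norm_sq, he]; norm_num
  have he0 : e ≠ 0 := by intro h0; rw [h0, norm_zero] at he; exact zero_ne_one he
  rw [map_inv₀]
  have h4 : (starRingEnd ℂ) e = e⁻¹ := by
    field_simp
    linear_combination h3
  rw [h4, inv_inv]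

/-- translations -/
theorem Db_trans (h : ℂ → ℂ) (r : ℝ) (z₀ w : ℂ) :
    Db r (fun z => h (w + z)) z₀ = Db r h (w + z₀) := by
  rw [Db, Db, ← Sb_trans (EndBx336.cj h) r z₀ w]
  rfl

/-! ### measurability and expectations -/

variable {Ωs : Type*} [MeasurableSpace Ωs]

/-- joint measurability of the mollified quantity -/
theorem Sb_aesm (P : Measure Ωs) [SFinite P] {H : Ωs → ℂ → ℂ}
    (hm : AEStronglyMeasurable (fun p : Ωs × ℂ => H p.1 p.2) (P.prod volume)) (r : ℝ) :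
    AEStronglyMeasurable (fun p : Ωs × ℂ => Sb r (H p.1) p.2) (P.prod volume) := by
  -- the map `((ω, z), w) ↦ ((ω, z + w), w)`
  have h1 : MeasurePreserving (fun q : (Ωs × ℂ) × ℂ => ((q.1.1, q.2 + q.1.2), q.2))
      ((P.prod volume).prod volume) ((P.prod volume).prod volume) := by
    have e2 : MeasurePreserving (fun q : ℂ × (Ωs × ℂ) => (q.1, ((q.2.1, q.1 + q.2.2) : Ωs × ℂ)))
        (volume.prod (P.prod volume)) (volume.prod (P.prod volume)) := by
      refine (MeasurePreserving.id (volume : Measure ℂ)).skew_product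
        (g := fun (w : ℂ) (p : Ωs × ℂ) => (p.1, w + p.2)) ?_ ?_
      · fun_prop
      · refine Eventually.of_forall fun w => ?_
        exact ((MeasurePreserving.id P).prod (measurePreserving_add_left volume w)).map_eq
    have e3 : MeasurePreserving (Prod.swap : (Ωs × ℂ) × ℂ → ℂ × (Ωs × ℂ))
        ((P.prod volume).prod volume) (volume.prod (P.prod volume)) :=
      Measure.measurePreserving_swap
    have e4 : MeasurePreserving (Prod.swap : ℂ × (Ωs × ℂ) → (Ωs × ℂ) × ℂ)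
        (volume.prod (P.prod volume)) ((P.prod volume).prod volume) :=
      Measure.measurePreserving_swap
    exact e4.comp (e2.comp e3)
  have h2 : AEStronglyMeasurable (fun q : (Ωs × ℂ) × ℂ => H q.1.1 q.1.2)
      ((P.prod volume).prod volume) := hm.comp_fst
  have h3 : AEStronglyMeasurable (fun q : (Ωs × ℂ) × ℂ => H q.1.1 (q.2 + q.1.2))
      ((P.prod volume).prod volume) := h2.comp_measurePreserving h1
  have h4 : AEStronglyMeasurable (fun q : (Ωs × ℂ) × ℂ => kb r q.2 * H q.1.1 (q.1.2 + q.2))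
      ((P.prod volume).prod volume) := by
    have h5 : AEStronglyMeasurable (fun q : (Ωs × ℂ) × ℂ => kb r q.2)
        ((P.prod volume).prod volume) :=
      ((kb_continuous r).measurable.comp measurable_snd).aestronglyMeasurable
    exact h5.mul (h3.congr (ae_of_all _ fun q => by simp only; rw [add_comm]))
  exact h4.integral_prod_right'

theorem Db_aesm (P : Measure Ωs) [SFinite P] {H : Ωs → ℂ → ℂ}
    (hm : AEStronglyMeasurable (fun p : Ωs × ℂ => H p.1 p.2) (P.prod volume)) (r : ℝ) :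
    AEStronglyMeasurable (fun p : Ωs × ℂ => Db r (H p.1) p.2) (P.prod volume) := by
  have h1 : AEStronglyMeasurable (fun p : Ωs × ℂ => EndBx336.cj (H p.1) p.2) (P.prod volume) :=
    Complex.continuous_conj.comp_aestronglyMeasurable hm
  have h2 := Sb_aesm P (H := fun ω => EndBx336.cj (H ω)) h1 r
  exact Complex.continuous_conj.comp_aestronglyMeasurable h2

theorem Db_integral (P : Measure Ωs) [IsFiniteMeasure P] {H : Ωs → ℂ → ℂ} {M : ℝ}
    (hm : AEStronglyMeasurable (fun p : Ωs × ℂ => H p.1 p.2) (P.prod volume))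
    (hb : ∀ ω z, ‖H ω z‖ ≤ M) {r : ℝ} (hr : 0 < r) (z₀ : ℂ) :
    ∫ ω, Db r (H ω) z₀ ∂P = Db r (fun z => ∫ ω, H ω z ∂P) z₀ := by
  have h1 : AEStronglyMeasurable (fun p : Ωs × ℂ => EndBx336.cj (H p.1) p.2) (P.prod volume) :=
    Complex.continuous_conj.comp_aestronglyMeasurable hm
  have h2 := Sb_integral P (H := fun ω => EndBx336.cj (H ω)) (M := M) h1
    (fun ω z => by rw [EndBx336.cj, Complex.norm_conj]; exact hb ω z) hr z₀
  simp only [Db]
  rw [integral_conj, h2]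
  congr 2
  funext z
  simp only [EndBx336.cj]
  rw [integral_conj]

/-- `L¹` bound of the mollified expectation -/
theorem lint_Sb (P : Measure Ωs) [IsProbabilityMeasure P] {H : Ωs → ℂ → ℂ} {M : ℝ}
    (hm : AEStronglyMeasurable (fun p : Ωs × ℂ => H p.1 p.2) (P.prod volume))
    (hb : ∀ ω z, ‖H ω z‖ ≤ M) {r : ℝ} (hr : 0 < r) (K : Set ℂ) :
    ∫⁻ z in K, ‖Sb r (fun z => ∫ ω, H ω z ∂P) z‖ₑ ≤ ∫⁻ z in K, ∫⁻ ω, ‖Sb r (H ω) z‖ₑ ∂P := by
  refine lintegral_mono fun z => ?_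
  rw [← Sb_integral P hm hb hr z]
  exact enorm_integral_le_lintegral_enorm _

theorem lint_Db (P : Measure Ωs) [IsProbabilityMeasure P] {H : Ωs → ℂ → ℂ} {M : ℝ}
    (hm : AEStronglyMeasurable (fun p : Ωs × ℂ => H p.1 p.2) (P.prod volume))
    (hb : ∀ ω z, ‖H ω z‖ ≤ M) {r : ℝ} (hr : 0 < r) (K : Set ℂ) :
    ∫⁻ z in K, ‖Db r (fun z => ∫ ω, H ω z ∂P) z‖ₑ ≤ ∫⁻ z in K, ∫⁻ ω, ‖Db r (H ω) z‖ₑ ∂P := by
  refine lintegral_mono fun z => ?_
  rw [← Db_integral P hm hb hr z]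
  exact enorm_integral_le_lintegral_enorm _

/-- Tonelli -/
theorem lint_swap (P : Measure Ωs) [SFinite P] {H : Ωs → ℂ → ℂ}
    (hm : AEStronglyMeasurable (fun p : Ωs × ℂ => H p.1 p.2) (P.prod volume)) (r : ℝ) (K : Set ℂ) :
    ∫⁻ z in K, ∫⁻ ω, ‖Sb r (H ω) z‖ₑ ∂P = ∫⁻ ω, (∫⁻ z in K, ‖Sb r (H ω) z‖ₑ) ∂P := by
  have h1 : AEMeasurable (fun p : Ωs × ℂ => ‖Sb r (H p.1) p.2‖ₑ)
      (P.prod (volume.restrict K)) := by
    have h2 : P.prod ((volume : Measure ℂ).restrict K) ≤ P.prod volume := by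
      rw [← Measure.restrict_univ (μ := P), Measure.prod_restrict]
      rw [Measure.restrict_univ]
      exact Measure.restrict_le_self
    exact (Sb_aesm P hm r).enorm.mono_measure h2
  exact lintegral_lintegral_swap h1.prod_swap

/-! ### the annealed observable -/

/-- annealed observable -/
def ann (h : ℝ → Sample → ℂ → ℂ) (ε : ℝ) (z : ℂ) : ℂ := ∫ ω, h ε ω z ∂sampleLaw

/-- hypotheses on the quenched observable `h ε ω z` and its expectation -/
structure AnnM (D : Set ℂ) (φ : ℂ → ℂ) (d b : ℂ) (l : Filter ℝ) (h : ℝ → Sample → ℂ → ℂ)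
    (r c : ℝ → ℝ) : Prop where
  pos : ∀ᶠ ε in l, 0 < ε
  meas : ∀ ε, 0 < ε → AEStronglyMeasurable (fun p : Sample × ℂ => h ε p.1 p.2)
    (sampleLaw.prod volume)
  bd : ∃ M : ℝ, ∀ ε ω z, ‖h ε ω z‖ ≤ M
  rpos : ∀ ε, 0 < ε → 0 < r ε
  rlim : Tendsto r l (𝓝 0)
  equi : AEqui D l (ann h)
  mn : ∀ K, IsCompact K → K ⊆ D → ∀ η > 0, ∀ᶠ ε in l,
    (∫⁻ z in K, ∫⁻ ω, ‖Sb (r ε) (h ε ω) z‖ₑ ∂sampleLaw ≤ ENNReal.ofReal η) ∨
    (∫⁻ z in K, ∫⁻ ω, ‖Db (r ε) (h ε ω) z‖ₑ ∂sampleLaw ≤ ENNReal.ofReal η)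
  b1 : ∀ p ∈ frontier D, p ≠ d → (φ p).im = 0 → 0 < (φ p).re → (φ p).re < 1 →
    ALB D l (ann h) 1 (tau3 - 1) p
  b2 : ∀ p ∈ frontier D, p ≠ d → (φ p).im = 0 → 1 < (φ p).re →
    ALB D l (ann h) tau3 (tau3 ^ 2 - tau3) p
  b3 : ∀ p ∈ frontier D, p ≠ d → (φ p).im = 0 → (φ p).re < 0 →
    ALB D l (ann h) (tau3 ^ 2) (1 - tau3 ^ 2) p
  val : ∀ η > 0, ∃ δ > 0, ∀ᶠ ε in l, ∀ z ∈ D, dist z b < δ →
    dist (ann h ε z) (1 + (c ε : ℂ) * (tau3 - 1)) ≤ η

/-- the mollified annealed observable -/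
def gg (h : ℝ → Sample → ℂ → ℂ) (r : ℝ → ℝ) (ε : ℝ) : ℂ → ℂ :=
  if 0 < ε then moll (r ε) (ann h ε) else 0

theorem ann_BM {h : ℝ → Sample → ℂ → ℂ} {M : ℝ} {ε : ℝ}
    (hm : AEStronglyMeasurable (fun p : Sample × ℂ => h ε p.1 p.2) (sampleLaw.prod volume))
    (hb : ∀ ω z, ‖h ε ω z‖ ≤ M) : BM (ann h ε) M := BM.integral sampleLaw hm hb

theorem AnnM.endM {D : Set ℂ} (hD : IsOpen D) {φ : ℂ → ℂ} {d b : ℂ} {l : Filter ℝ}
    {h : ℝ → Sample → ℂ → ℂ} {r c : ℝ → ℝ} (A : AnnM D φ d b l h r c) :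
    EndM D φ d b l (ann h) (gg h r) c := by
  obtain ⟨M, hM⟩ := A.bd
  refine ⟨⟨M, fun ε z _ => ?_⟩, A.equi, fun ε => ?_, ?_, ?_, A.b1, A.b2, A.b3, A.val⟩
  · refine (norm_integral_le_of_norm_le (integrable_const M)
      (ae_of_all _ fun ω => hM ε ω z)).trans ?_
    simp
  · unfold gg
    split_ifs with hε
    · exact moll_contDiff (ann_BM (A.meas ε hε) (hM ε)) (A.rpos ε hε) (n := 1)
    · exact contDiff_zero_fun
  · -- closeness
    intro K hK hKD η hη
    obtain ⟨δ₀, hδ₀, hδK⟩ := hK.exists_cthickening_subset_open hD hKD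
    have hK' : IsCompact (Metric.cthickening δ₀ K) := hK.cthickening
    obtain ⟨δ, hδ, h1⟩ := A.equi _ hK' hδK η hη
    have h2 : ∀ᶠ ε in l, r ε < min δ δ₀ := A.rlim.eventually (gt_mem_nhds (lt_min hδ hδ₀))
    filter_upwards [h1, h2, A.pos] with ε e1 e2 e3 z hz
    rw [gg, if_pos e3, dist_eq_norm]
    refine moll_close (ann_BM (A.meas ε e3) (hM ε)) (A.rpos ε e3) fun w hw => ?_
    rw [← dist_eq_norm]
    refine e1 _ ?_ _ (Metric.self_subset_cthickening K hz) ?_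
    · refine Metric.mem_cthickening_of_dist_le _ z δ₀ K hz ?_
      rw [dist_eq_norm, add_sub_cancel_left]
      exact (hw.trans (e2.trans_le (min_le_right _ _))).le
    · rw [dist_eq_norm, add_sub_cancel_left]
      exact hw.trans (e2.trans_le (min_le_left _ _))
  · -- the two masses
    intro K hK hKD
    rw [Metric.tendsto_nhds]
    intro η hη
    filter_upwards [A.mn K hK hKD (η / 2) (by linarith), A.pos] with ε e1 e2
    have hBM := ann_BM (A.meas ε e2) (hM ε)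
    have hr := A.rpos ε e2
    have i1 : 0 ≤ ∫ z in K, ‖dbar (gg h r ε) z‖ := integral_nonneg fun _ => norm_nonneg _
    have i2 : 0 ≤ ∫ z in K, ‖del (gg h r ε) z‖ := integral_nonneg fun _ => norm_nonneg _
    rw [Real.dist_eq, sub_zero, abs_of_nonneg (le_min i1 i2)]
    rcases e1 with e1 | e1
    · refine (min_le_left _ _).trans_lt ?_
      have h3 : ∫ z in K, ‖dbar (gg h r ε) z‖ ≤ η / 2 := by
        have h4 : ∫ z in K, ‖dbar (gg h r ε) z‖ = ∫ z in K, ‖Sb (r ε) (ann h ε) z‖ := by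
          rw [gg, if_pos e2]
          exact setIntegral_dbar hBM hr K
        rw [h4, integral_norm_eq_lintegral_enorm
          (Sb_continuous hBM hr).aestronglyMeasurable]
        refine ENNReal.toReal_le_of_le_ofReal (by linarith) ?_
        exact (lint_Sb sampleLaw (A.meas ε e2) (hM ε) hr K).trans e1
      linarith
    · refine (min_le_right _ _).trans_lt ?_
      have h3 : ∫ z in K, ‖del (gg h r ε) z‖ ≤ η / 2 := by
        have h4 : ∫ z in K, ‖del (gg h r ε) z‖ = ∫ z in K, ‖Db (r ε) (ann h ε) z‖ := by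
          rw [gg, if_pos e2]
          refine integral_congr_ae (ae_of_all _ fun z => ?_)
          simp only
          rw [del_moll hBM hr]
        rw [h4, integral_norm_eq_lintegral_enorm
          (Db_continuous hBM hr).aestronglyMeasurable]
        refine ENNReal.toReal_le_of_le_ofReal (by linarith) ?_
        exact (lint_Db sampleLaw (A.meas ε e2) (hM ε) hr K).trans e1
      linarith

end Crest.Agent.R143.Asmx336
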