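import Crest.Agent.R143.Trans4_690
import Crest.Agent.R143.DicD_831

/-!
# Row 143 (S0194), energy transfer, part 5 (helper690): saturation gives the core leaf

* `Sat` : `wD ≤ 4 * aD`, the closed blocks saturate the frame
* `yb_small` : `Sat` gives `∑ Q e φ(cc) → 0` in probability, for all domains
* `yw_of_sat` : `Sat → YW Adm`
* `lmin_of_sat` : `Sat → LMinW Adm`
-/

set_option autoImplicit false
set_option linter.unusedSectionVars false
set_option linter.unusedVariables false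

noncomputable section

open scoped Classical

namespace Crest.Agent.R143.Trans5x690

open MeasureTheory Filter Topology
open Crest.ProbabilityR.Voronoi
open Crest.Agent.R143.B0x346 Crest.Agent.R143.B0Dx346 Crest.Agent.R143.PP1x831
open Crest.Agent.R143.SumScx302 Crest.Agent.R143.Mass1x302 Crest.Agent.R143.DelGx806
open Crest.Agent.R143.Mass2x302 (Fc)
open Crest.Agent.R143.Mass4x302 (fc_congr fc_memU)
open Crest.Agent.R143.Sidesx697 (Wall)
open Crest.Agent.R143.PP0x831 (cfg)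
open Crest.Agent.R143.Y0x831 (Good)
open Crest.Agent.R143.B1bx796 (phi phi_zero)
open Crest.Agent.R143.B6Ix903 (net)
open Crest.Agent.R143.Locx922 (Hol norm_tri Env.hol_sites)
open Crest.Agent.R143.Spinex422 (Room Linked)
open Crest.Agent.R143.DicBx831 (cc)
open Crest.Agent.R143.DicCx831 (phi_lip ev_unit rad_small rad_pos near_pt cc_inT)
open Crest.Agent.R143.DicDx831
open Crest.Agent.R143.Trans2x690 Crest.Agent.R143.Trans3x690 Crest.Agent.R143.Trans4x690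
open scoped ENNReal

/-- **the closed blocks saturate the frame** -/
def Sat : Prop := wD ≤ 4 * aD

/-! ### no walls -/

theorem no_wall {S : Finset ℂ} {D : Dom} {d R : ℝ} {z v : ℂ} (hd : 0 < d)
    (hN : HNet S (D.netS S)) (hH : Hol (S : Set ℂ) (Metric.closedBall z (R + 2 * d)) d)
    (hO : ∀ w, ‖w - z‖ < R + 3 * d → w ∉ D.out) (hv : ‖v - z‖ < R) (u : ℂ) :
    ¬ Wall (D.netS S) v u ∧ ¬ Wall (D.netS S) u v := by
  have hkl : ∀ u, (v, u) ∉ (D.netS S).kl := fun u =>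
    B1gx991.side_live hd hN hH hO (by linarith) u
  have hH' : Hol (S : Set ℂ) (Metric.closedBall z R) d :=
    hH.mono (Metric.closedBall_subset_closedBall (by linarith))
  have hh1 : ∀ u, ¬ hullE S v u := fun u h => by
    have := B1gx991.hull_far hd hH' h v (left_mem_segment ℝ _ _)
    linarith
  have hh2 : ∀ u, ¬ hullE S u v := fun u h => by
    have := B1gx991.hull_far hd hH' h v (right_mem_segment ℝ _ _)
    linarith
  have hT : ∀ a b c, (a, b, c) ∈ (D.netS S).T ↔ (a, b, c) ∈ delT S := fun a b c => by rw [hN.tri]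
  have hE : ∀ a b, (a, b) ∈ (D.netS S).E → (∃ c, (a, b, c) ∈ delT S) ∨ ∃ c, (b, a, c) ∈ delT S := by
    intro a b h
    unfold Trg.E at h
    rw [Finset.mem_union, Finset.mem_image, Finset.mem_image] at h
    rcases h with ⟨t, ht, e⟩ | ⟨t, ht, e⟩
    · left
      rw [hN.tri] at ht
      have e1 : t.1 = a := congrArg Prod.fst e
      have e2 : t.2.1 = b := congrArg Prod.snd e
      exact ⟨t.2.2, by rw [← e1, ← e2]; exact ht⟩
    · right
      rw [hN.tri] at ht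
      have e1 : t.2.1 = a := congrArg Prod.fst e
      have e2 : t.1 = b := congrArg Prod.snd e
      exact ⟨t.2.2, by rw [← e1, ← e2]; exact ht⟩
  constructor
  · rintro ⟨h1, -, -, h2 | h2 | h2⟩
    · exact hkl u h2
    · rcases hE _ _ h1 with h3 | ⟨c, hc⟩
      · exact hh1 u ⟨h3, fun c hc => h2 c ((hT _ _ _).2 hc)⟩
      · exact h2 c ((hT _ _ _).2 hc)
    · rcases hE _ _ h1 with ⟨c, hc⟩ | h3
      · exact h2 c ((hT _ _ _).2 hc)
      · exact hh2 u ⟨h3, fun c hc => h2 c ((hT _ _ _).2 hc)⟩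
  · rintro ⟨h1, -, -, h2 | h2 | h2⟩
    · exact hkl u ((D.netS S).klsym _ _ h2)
    · rcases hE _ _ h1 with h3 | ⟨c, hc⟩
      · exact hh2 u ⟨h3, fun c hc => h2 c ((hT _ _ _).2 hc)⟩
      · exact h2 c ((hT _ _ _).2 hc)
    · rcases hE _ _ h1 with ⟨c, hc⟩ | h3
      · exact h2 c ((hT _ _ _).2 hc)
      · exact hh1 u ⟨h3, fun c hc => h2 c ((hT _ _ _).2 hc)⟩

/-! ### the grid -/

/-- corner of a grid square -/
def gc (z : ℂ) (ρ : ℝ) (p : ℕ × ℕ) : ℂ := z + ((p.1 * ρ : ℝ) : ℂ) + ((p.2 * ρ : ℝ) : ℂ) * Complex.I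

theorem gc_re (z : ℂ) (ρ : ℝ) (p : ℕ × ℕ) : (gc z ρ p).re = z.re + p.1 * ρ := by simp [gc]

theorem gc_im (z : ℂ) (ρ : ℝ) (p : ℕ × ℕ) : (gc z ρ p).im = z.im + p.2 * ρ := by simp [gc]

theorem grid_disj {z : ℂ} {ρ : ℝ} (hρ : 0 < ρ) {p q : ℕ × ℕ} (h : p ≠ q) :
    Disjoint (sq (gc z ρ p) ρ) (sq (gc z ρ q) ρ) := by
  rw [Set.disjoint_left]
  rintro w ⟨a1, a2, a3, a4⟩ ⟨b1, b2, b3, b4⟩
  rw [gc_re] at a1 a2 b1 b2
  rw [gc_im] at a3 a4 b3 b4
  have key : ∀ {m n : ℕ} {t : ℝ}, m * ρ ≤ t → t < n * ρ + ρ → m ≤ n := by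
    intro m n t h1 h2
    by_contra hc
    push Not at hc
    have h3 : ((n + 1 : ℕ) : ℝ) ≤ m := by exact_mod_cast hc
    push_cast at h3
    nlinarith
  apply h
  refine Prod.ext (le_antisymm (key (t := w.re - z.re) ?_ ?_) (key (t := w.re - z.re) ?_ ?_))
    (le_antisymm (key (t := w.im - z.im) ?_ ?_) (key (t := w.im - z.im) ?_ ?_)) <;> linarith

theorem grid_sub {z : ℂ} {ρ : ℝ} (hρ : 0 < ρ) {n : ℕ} {p : ℕ × ℕ}
    (hp : p ∈ Finset.range n ×ˢ Finset.range n) : sq (gc z ρ p) ρ ⊆ sq z (n * ρ) := by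
  obtain ⟨h1, h2⟩ := Finset.mem_product.1 hp
  have h3 : (p.1 : ℝ) + 1 ≤ n := by exact_mod_cast Finset.mem_range.1 h1
  have h4 : (p.2 : ℝ) + 1 ≤ n := by exact_mod_cast Finset.mem_range.1 h2
  have h5 : (0 : ℝ) ≤ p.1 * ρ := mul_nonneg (Nat.cast_nonneg _) hρ.le
  have h6 : (0 : ℝ) ≤ p.2 * ρ := mul_nonneg (Nat.cast_nonneg _) hρ.le
  rintro w ⟨a1, a2, a3, a4⟩
  rw [gc_re] at a1 a2
  rw [gc_im] at a3 a4
  exact ⟨by linarith, by nlinarith, by linarith, by nlinarith⟩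

theorem norm_sq_le {z w : ℂ} {s : ℝ} (h : w ∈ sq z s) : ‖w - z‖ ≤ 2 * s := by
  obtain ⟨a1, a2, a3, a4⟩ := h
  have := Complex.norm_le_abs_re_add_abs_im (w - z)
  rw [Complex.sub_re, Complex.sub_im, abs_of_nonneg (by linarith : 0 ≤ w.re - z.re),
    abs_of_nonneg (by linarith : 0 ≤ w.im - z.im)] at this
  linarith

theorem cc_close {a b c z : ℂ} {s : ℝ} (ha : a ∈ sq z s) (hb : b ∈ sq z s) (hc : c ∈ sq z s) :
    ‖cc (a, b, c) - z‖ ≤ 2 * s := by
  have e : cc (a, b, c) - z = ((a - z) + (b - z) + (c - z)) / 3 := by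
    unfold DicBx831.cc
    ring
  have h4 := norm_add₃_le (a := a - z) (b := b - z) (c := c - z)
  have h5 : ‖(3 : ℂ)‖ = 3 := by simp
  have h1 := norm_sq_le ha
  have h2 := norm_sq_le hb
  have h3 := norm_sq_le hc
  rw [e, norm_div, h5, div_le_iff₀ (by norm_num)]
  linarith

/-- disjoint sets -/
theorem ph_sum_le {O ι : Type} (F : Fam O) {J : Finset ι} {q : ι → Set ℂ} {Q : Set ℂ}
    (hq : ∀ j ∈ J, q j ⊆ Q) (hd : ∀ i ∈ J, ∀ j ∈ J, i ≠ j → Disjoint (q i) (q j))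
    (X : Set (ℂ × Bool)) : ∑ j ∈ J, F.Ph (q j) X ≤ F.Ph Q X := by
  unfold Fam.Ph
  rw [← Summable.tsum_finsetSum (fun p _ => ENNReal.summable)]
  refine ENNReal.tsum_le_tsum fun o => ?_
  by_cases h : ∃ j ∈ J, o ∈ F.Ob X ∧ F.sup o ⊆ q j
  · obtain ⟨j, hj, ho, hs⟩ := h
    rw [Finset.sum_eq_single_of_mem j hj, if_pos ⟨ho, hs⟩, if_pos ⟨ho, hs.trans (hq j hj)⟩]
    intro i hi hij
    rw [if_neg]
    rintro ⟨-, hs'⟩
    obtain ⟨w, hw⟩ := F.ne X o ho
    exact Set.disjoint_left.1 (hd i hi j hj hij) (hs' hw) (hs hw)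
  · push Not at h
    rw [Finset.sum_eq_zero fun j hj => if_neg fun h' => h j hj h'.1 h'.2]
    exact zero_le

/-! ### one environment -/

section one

variable {D : Dom} {ε C K a C4 r b L : ℝ} {ω : Sample} {z : ℂ}

/-- the corner of the big square -/
def zc (z : ℂ) (r : ℝ) : ℂ := z - (((3 / 2 * r : ℝ) : ℂ) + ((3 / 2 * r : ℝ) : ℂ) * Complex.I)

theorem zc_re : (zc z r).re = z.re - 3 / 2 * r := by simp [zc]

theorem zc_im : (zc z r).im = z.im - 3 / 2 * r := by simp [zc]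

theorem mem_big {w : ℂ} (h : ‖w - z‖ < 3 / 2 * r) : w ∈ sq (zc z r) (3 * r) := by
  have h1 := (Complex.abs_re_le_norm (w - z)).trans_lt h
  have h2 := (Complex.abs_im_le_norm (w - z)).trans_lt h
  rw [Complex.sub_re, abs_lt] at h1
  rw [Complex.sub_im, abs_lt] at h2
  refine ⟨?_, ?_, ?_, ?_⟩
  · rw [zc_re]; linarith
  · rw [zc_re]; linarith
  · rw [zc_im]; linarith
  · rw [zc_im]; linarith

theorem big_near {w : ℂ} (h : w ∈ sq (zc z r) (3 * r)) : ‖w - z‖ < 3 * r := by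
  obtain ⟨a1, a2, a3, a4⟩ := h
  rw [zc_re] at a1 a2
  rw [zc_im] at a3 a4
  have hr : 0 < r := by linarith
  have h0 : ‖w - z‖ ^ 2 = (w.re - z.re) ^ 2 + (w.im - z.im) ^ 2 := by
    rw [Complex.sq_norm, Complex.normSq_apply, Complex.sub_re, Complex.sub_im]
    ring
  have h1 : (w.re - z.re) ^ 2 ≤ (3 / 2 * r) ^ 2 := sq_le_sq' (by linarith) (by linarith)
  have h2 : (w.im - z.im) ^ 2 ≤ (3 / 2 * r) ^ 2 := sq_le_sq' (by linarith) (by linarith)
  have h3 : ‖w - z‖ ^ 2 < (3 * r) ^ 2 := by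
    rw [h0]
    nlinarith
  exact lt_of_pow_lt_pow_left₀ 2 (by linarith) h3

/-- **one good environment** -/
theorem one_env (hG : Good D ε C K a C4 ω) (hN : HNet (D.sites ε ω) (net D ε ω))
    (hr : 0 < r) (hz : Room D (4 * r) z) (hL : 0 < D.L) (hd : 0 < rad C ε)
    (hdr : rad C ε ≤ r / 8) {φ : ℂ → ℝ} (hφ0 : ∀ w, r ≤ ‖w - z‖ → φ w = 0)
    (hLL : 0 ≤ L) (hφL : ∀ x y, |φ x - φ y| ≤ L * ‖x - y‖) {n : ℕ} {ρ : ℝ} (hρ : 0 < ρ)
    (hnρ : n * ρ = 3 * r) :
    ENNReal.ofReal (3 * ‖Yb D ε ω φ‖ ^ 2) + ENNReal.ofReal (128 * (2 * L * r) ^ 2) *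
      ∑ p ∈ Finset.range n ×ˢ Finset.range n, fam.Ph (sq (gc (zc z r) ρ p) ρ) (cfg ε ω) ≤
      ENNReal.ofReal (32 * ((2 * L * r) ^ 2 + (2 * L * ρ) ^ 2)) *
        Wf (points ε ω) (sq (zc z r) (3 * r)) := by
  set d := rad C ε with hdd
  have hroom := room_norm hz (by linarith)
  have hzD : 0 ≤ ‖z - D.c‖ := norm_nonneg _
  set S := D.sites ε ω with hS
  set Q := sq (zc z r) (3 * r) with hQ
  have hPS : ∀ w ∈ Q, w ∈ points ε ω ↔ w ∈ (S : Set ℂ) := by
    intro w hw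
    have h1 := big_near hw
    have h2 := norm_tri w z D.c
    rw [Finset.mem_coe, hS, DomAx722.mem_sites hG.env.fin]
    exact ⟨fun h => ⟨h, by linarith⟩, fun h => h.1⟩
  have hH : Hol (S : Set ℂ) (Metric.closedBall z (3 * r + 2 * d)) d := by
    refine (Env.hol_sites hG.env).mono (Metric.closedBall_subset_closedBall' ?_)
    rw [dist_eq_norm]
    linarith
  have hO : ∀ w, ‖w - z‖ < 3 * r + 3 * d → w ∉ D.out := by
    intro w hw hwo
    refine Set.disjoint_left.1 hz.1 ?_ hwo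
    rw [Metric.mem_closedBall, dist_eq_norm]
    linarith
  have hv : ∀ v ∈ S, v ∈ Q → ∀ u, ¬ Wall (net D ε ω) v u ∧ ¬ Wall (net D ε ω) u v :=
    fun v _ hvQ u => no_wall hd hN hH hO (big_near hvQ) u
  have hb : ∀ w, |φ w| ≤ 2 * L * r := by
    intro w
    by_cases hw : r ≤ ‖w - z‖
    · rw [hφ0 w hw, abs_zero]; positivity
    · push Not at hw
      have h1 : φ (z + r) = 0 := by
        apply hφ0
        rw [add_sub_cancel_left, Complex.norm_real, Real.norm_eq_abs, abs_of_pos hr]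
      have h2 := hφL w (z + r)
      rw [h1, sub_zero] at h2
      refine h2.trans ?_
      have h3 : ‖w - (z + r)‖ ≤ 2 * r := by
        have e : w - (z + (r : ℂ)) = (w - z) - (r : ℂ) := by ring
        rw [e]
        refine (norm_sub_le _ _).trans ?_
        rw [Complex.norm_real, Real.norm_eq_abs, abs_of_pos hr]
        linarith
      calc L * ‖w - (z + r)‖ ≤ L * (2 * r) := by gcongr
        _ = _ := by ring
  have hqQ : ∀ p ∈ Finset.range n ×ˢ Finset.range n, sq (gc (zc z r) ρ p) ρ ⊆ Q := by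
    intro p hp
    have := grid_sub (z := zc z r) hρ hp
    rwa [hnρ] at this
  refine yb_le hN hG.env.gp hPS hv (J := Finset.range n ×ˢ Finset.range n)
    (q := fun p => sq (gc (zc z r) ρ p) ρ) hqQ (fun p _ p' _ h => grid_disj hρ h)
    (φ := φ) (b := 2 * L * r) (τ := 2 * L * ρ) (by positivity) (by positivity) hb
    (c := fun p => φ (gc (zc z r) ρ p)) (fun p _ => hb _) ?_ ?_ (Mass5x302.ps_cfg ε ω)
  · intro p hp t ht
    obtain ⟨t1, t2, t3⟩ := t
    have h1 := cc_close (fc_memU ht) (fc_memU ht.rot) (fc_memU ht.rot.rot)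
    refine (hφL _ _).trans ?_
    calc L * ‖cc (t1, t2, t3) - gc (zc z r) ρ p‖ ≤ L * (2 * ρ) := by gcongr
      _ = _ := by ring
  · intro t ht hne
    have hcz : ‖cc t - z‖ < r := by
      by_contra hc
      push Not at hc
      exact hne (hφ0 _ hc)
    have hD : Del (S : Set ℂ) t.1 t.2.1 t.2.2 := DelGx806.mem_delT.1 ht
    have hw : cc t ∈ Metric.closedBall z (3 * r + 2 * d) := by
      rw [Metric.mem_closedBall, dist_eq_norm]; linarith
    have hin : DelGx806.InT (cc t) t.1 t.2.1 t.2.2 := cc_inT (B1gx991.tri_pos ht)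
    obtain ⟨o, o1, o2, o3, o4, o5, -, -, -⟩ := Locx922.del_small hd hH hw
      (Locx922.InT.inD (B1gx991.tri_pos ht) hin) hD
    have hdisc : cdisc t ⊆ Q := by
      rintro w ⟨o', p1, p2, p3⟩
      have e1 := (FinMx609.cen3_iff hD.2.2.2.1).1 ⟨o1, o2⟩
      have e2 := (FinMx609.cen3_iff hD.2.2.2.1).1 ⟨p1, p2⟩
      rw [e2, ← e1] at p3
      apply mem_big
      have h1 := norm_tri w o z
      have h2 := norm_tri o (cc t) z
      rw [norm_sub_rev o (cc t)] at h2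
      linarith
    exact fc_congr (fun w hw => (hPS w hw).symm) ⟨hD, hdisc⟩

end one

/-! ### the limit -/

theorem tst_lip {r : ℝ} (hr : 0 < r) (z : ℂ) :
    ∃ L : ℝ, 0 ≤ L ∧ ∀ x y, |tst r z x - tst r z y| ≤ L * ‖x - y‖ := by
  obtain ⟨L, hL, h⟩ := phi_lip hr z
  refine ⟨L, hL, fun x y => ?_⟩
  have h1 := h x y
  have e : phi r z x - phi r z y = ((tst r z x - tst r z y : ℝ) : ℂ) := by
    rw [Complex.ofReal_sub]
    rfl
  rwa [e, Complex.norm_real, Real.norm_eq_abs] at h1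

theorem tst_zero {r : ℝ} (hr : 0 < r) {z w : ℂ} (h : r ≤ ‖w - z‖) : tst r z w = 0 := by
  have h1 : phi r z w = 0 := phi_zero hr h
  exact Complex.ofReal_eq_zero.1 h1

/-- **saturation gives the smallness of the observable** -/
theorem yb_small (hS : Sat) {D : Dom} {δ : ℝ} (hD : D.W δ) {r : ℝ} (hr : 0 < r) {z : ℂ}
    (hz : Room D (4 * r) z) {η : ℝ} (hη : 0 < η) :
    ∀ᶠ ε : ℝ in 𝓝[>] 0, sampleLaw {ω | η < ‖Yb D ε ω (tst r z)‖} ≤ ENNReal.ofReal η := by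
  obtain ⟨C, K, a, C4, hC, hK, ha, hC4, hgood⟩ := good_ev D hD.Lpos
  obtain ⟨L, hL0, hL⟩ := tst_lip hr z
  have hw0 := wD_nonneg
  -- the number of squares
  obtain ⟨m, hm⟩ := exists_nat_gt (32 * 36 * L ^ 2 * r ^ 2 * wD * (9 * r ^ 2) / (3 * η ^ 3 / 2))
  set n : ℕ := m + 1 with hn
  have hn1 : (1 : ℝ) ≤ n := by rw [hn]; push_cast; linarith [Nat.cast_nonneg (α := ℝ) m]
  have hn0 : (0 : ℝ) < n := by linarith
  set ρ : ℝ := 3 * r / n with hρd
  have hρ : 0 < ρ := by positivity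
  have hnρ : n * ρ = 3 * r := by rw [hρd]; field_simp
  have hsmall : 32 * (2 * L * ρ) ^ 2 * wD * (9 * r ^ 2) < 3 * η ^ 3 / 2 := by
    have h1 : 32 * (2 * L * ρ) ^ 2 * wD * (9 * r ^ 2) =
        32 * 36 * L ^ 2 * r ^ 2 * wD * (9 * r ^ 2) / (n : ℝ) ^ 2 := by
      rw [hρd]; field_simp; ring
    have h2 : (0 : ℝ) < 3 * η ^ 3 / 2 := by positivity
    rw [h1, div_lt_iff₀ (by positivity)]
    rw [div_lt_iff₀ h2] at hm
    have h3 : (m : ℝ) ≤ (n : ℝ) ^ 2 := by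
      have : (m : ℝ) ≤ n := by rw [hn]; push_cast; linarith
      nlinarith
    nlinarith
  set J := Finset.range n ×ˢ Finset.range n with hJ
  set b : ℝ := 2 * L * r with hb
  set κ₁ : ℝ := 32 * (b ^ 2 + (2 * L * ρ) ^ 2) with hκ₁
  have hκ₁0 : 0 ≤ κ₁ := by positivity
  set c : ℝ≥0∞ := ENNReal.ofReal (3 * η ^ 2) with hc
  -- the two limits
  have hF : Tendsto (fun ε : ℝ => ENNReal.ofReal κ₁ * Ag famF (zc z r) (3 * r) ε) (𝓝[>] 0)
      (𝓝 (ENNReal.ofReal κ₁ * ENNReal.ofReal (wD * (3 * r) ^ 2))) :=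
    ENNReal.Tendsto.const_mul (dens_w (zc z r) (3 * r) (by positivity))
      (Or.inr ENNReal.ofReal_ne_top)
  have hG : Tendsto (fun ε : ℝ => ENNReal.ofReal (128 * b ^ 2) *
      ∑ p ∈ J, Ag fam (gc (zc z r) ρ p) ρ ε) (𝓝[>] 0)
      (𝓝 (ENNReal.ofReal (128 * b ^ 2) * ∑ p ∈ J, ENNReal.ofReal (aD * ρ ^ 2))) :=
    ENNReal.Tendsto.const_mul (tendsto_finsetSum _ fun p _ => dens_a (gc (zc z r) ρ p) ρ hρ)
      (Or.inr ENNReal.ofReal_ne_top)
  have hlt : ENNReal.ofReal κ₁ * ENNReal.ofReal (wD * (3 * r) ^ 2) <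
      ENNReal.ofReal (128 * b ^ 2) * ∑ p ∈ J, ENNReal.ofReal (aD * ρ ^ 2) +
        c * ENNReal.ofReal (η / 2) := by
    have ha0 := aD_nonneg
    have e1 : ENNReal.ofReal (128 * b ^ 2) * ∑ p ∈ J, ENNReal.ofReal (aD * ρ ^ 2) =
        ENNReal.ofReal (128 * b ^ 2 * (aD * (9 * r ^ 2))) := by
      rw [Finset.sum_const, hJ, Finset.card_product, Finset.card_range, nsmul_eq_mul,
        ← ENNReal.ofReal_natCast, ← ENNReal.ofReal_mul (Nat.cast_nonneg _),
        ← ENNReal.ofReal_mul (by positivity)]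
      congr 1
      push_cast
      have : (n : ℝ) * n * (aD * ρ ^ 2) = aD * (n * ρ) ^ 2 := by ring
      rw [this, hnρ]
      ring
    rw [e1, hc, ← ENNReal.ofReal_mul (p := 3 * η ^ 2) (by positivity),
      ← ENNReal.ofReal_mul (p := κ₁) hκ₁0, ← ENNReal.ofReal_add (by positivity) (by positivity)]
    refine (ENNReal.ofReal_lt_ofReal_iff (by positivity)).2 ?_
    have h1 : wD ≤ 4 * aD := hS
    have h2 : 32 * b ^ 2 * wD * (9 * r ^ 2) ≤ 32 * b ^ 2 * (4 * aD) * (9 * r ^ 2) := by gcongr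
    rw [hκ₁]
    nlinarith
  have hev := (hF.eventually_lt (hG.add_const _) hlt)
  filter_upwards [hev, hgood, hnet_ev hD hC, ev_unit,
    (rad_small C).eventually (ge_mem_nhds (show (0 : ℝ) < r / 8 by linarith)),
    (tendsto_id.mono_left nhdsWithin_le_nhds : Tendsto (fun ε : ℝ => ε) (𝓝[>] 0) (𝓝 0)).eventually
      (ge_mem_nhds (show (0 : ℝ) < η / 2 by linarith))] with ε h1 h2 h3 h4 h5 h6
  have hrad := rad_pos hC h4
  set A : Set Sample := {ω | η < ‖Yb D ε ω (tst r z)‖ ∧ Good D ε C K a C4 ω} with hA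
  set f : Sample → ℝ≥0∞ := fun ω => ENNReal.ofReal κ₁ * Wf (points ε ω) (sq (zc z r) (3 * r))
    with hf
  set g : Sample → ℝ≥0∞ := fun ω => ENNReal.ofReal (128 * b ^ 2) *
    ∑ p ∈ J, fam.Ph (sq (gc (zc z r) ρ p) ρ) (cfg ε ω) with hg
  have hfm : AEMeasurable f sampleLaw := (wf_meas h4.1 _ _).const_mul _
  have hgf : ∀ᵐ ω ∂sampleLaw, g ω ≤ f ω := by
    filter_upwards [four_ae h4.1 (zc z r) (3 * r)] with ω hω
    have k1 : ∑ p ∈ J, fam.Ph (sq (gc (zc z r) ρ p) ρ) (cfg ε ω) ≤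
        fam.Ph (sq (zc z r) (3 * r)) (cfg ε ω) := by
      refine ph_sum_le fam (fun p hp => ?_) (fun p _ p' _ h => grid_disj hρ h) _
      have := grid_sub (z := zc z r) hρ hp
      rwa [hnρ] at this
    calc g ω ≤ ENNReal.ofReal (128 * b ^ 2) * fam.Ph (sq (zc z r) (3 * r)) (cfg ε ω) :=
          mul_le_mul_right k1 _
      _ = ENNReal.ofReal (32 * b ^ 2) * (4 * fam.Ph (sq (zc z r) (3 * r)) (cfg ε ω)) := by
          have e : (128 : ℝ) * b ^ 2 = 32 * b ^ 2 * 4 := by ring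
          rw [e, ENNReal.ofReal_mul (by positivity)]
          have e4 : ENNReal.ofReal 4 = 4 := by norm_num
          rw [e4, mul_assoc]
      _ ≤ ENNReal.ofReal (32 * b ^ 2) * Wf (points ε ω) (sq (zc z r) (3 * r)) :=
          mul_le_mul_right hω _
      _ ≤ f ω := by
          refine mul_le_mul_left (ENNReal.ofReal_le_ofReal ?_) _
          rw [hκ₁]
          nlinarith [sq_nonneg (2 * L * ρ)]
  have hAf : ∀ᵐ ω ∂sampleLaw, ω ∈ A → c + g ω ≤ f ω := by
    refine Eventually.of_forall fun ω hω => ?_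
    obtain ⟨k1, k2⟩ := hω
    have k3 := one_env k2 (h3 K a C4 ω k2) hr hz hD.Lpos hrad h5
      (φ := tst r z) (fun w hw => tst_zero hr hw) hL0 hL hρ hnρ
    refine le_trans (add_le_add (ENNReal.ofReal_le_ofReal ?_) le_rfl) k3
    have k4 : η ^ 2 ≤ ‖Yb D ε ω (tst r z)‖ ^ 2 := pow_le_pow_left₀ hη.le k1.le 2
    linarith
  have hmk := markov sampleLaw hfm hgf A c hAf
  have e1 : ∫⁻ ω, f ω ∂sampleLaw = ENNReal.ofReal κ₁ * Ag famF (zc z r) (3 * r) ε := by
    rw [hf, lintegral_const_mul' _ _ ENNReal.ofReal_ne_top]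
    unfold Ag
    congr 1
    refine lintegral_congr fun ω => ?_
    rw [famF_Ph, Mass5x302.ps_cfg]
  have e2 : ENNReal.ofReal (128 * b ^ 2) * ∑ p ∈ J, Ag fam (gc (zc z r) ρ p) ρ ε ≤
      ∫⁻ ω, g ω ∂sampleLaw := by
    rw [hg, lintegral_const_mul' _ _ ENNReal.ofReal_ne_top]
    exact mul_le_mul_right (le_lint_sum _ _ _) _
  have hAs : sampleLaw A ≤ ENNReal.ofReal (η / 2) := by
    by_contra hcon
    push Not at hcon
    have k1 : c * ENNReal.ofReal (η / 2) ≤ c * sampleLaw A := mul_le_mul_right hcon.le _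
    have k2 : ENNReal.ofReal (128 * b ^ 2) * ∑ p ∈ J, Ag fam (gc (zc z r) ρ p) ρ ε +
        c * ENNReal.ofReal (η / 2) ≤ ENNReal.ofReal κ₁ * Ag famF (zc z r) (3 * r) ε := by
      rw [← e1]
      refine le_trans ?_ hmk
      rw [add_comm]
      exact add_le_add k1 e2
    exact absurd h1 (not_lt.2 k2)
  have hsub : {ω | η < ‖Yb D ε ω (tst r z)‖} ⊆ A ∪ {ω | ¬ Good D ε C K a C4 ω} := by
    intro ω hω
    by_cases hgd : Good D ε C K a C4 ω
    · exact Or.inl ⟨hω, hgd⟩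
    · exact Or.inr hgd
  refine (measure_mono hsub).trans ((measure_union_le _ _).trans ?_)
  calc sampleLaw A + sampleLaw {ω | ¬ Good D ε C K a C4 ω}
      ≤ ENNReal.ofReal (η / 2) + ENNReal.ofReal (η / 2) :=
        add_le_add hAs (h2.trans (ENNReal.ofReal_le_ofReal h6))
    _ = ENNReal.ofReal η := by
        rw [← ENNReal.ofReal_add (by positivity) (by positivity), add_halves]

/-- **leaf YW from the saturation** -/
theorem yw_of_sat (hS : Sat) {Adm : Dom → ℝ → Prop} (hAdm : ∀ D δ, Adm D δ → D.W δ) : YW Adm := by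
  intro D δ hD m hm r hr z hz hl r' hr' z' hz' hl' η hη
  filter_upwards [yb_small hS (hAdm D δ hD) hr hz hη] with ε h
  exact Or.inl h

/-- **the core leaf from the saturation** -/
theorem lmin_of_sat (hS : Sat) {Adm : Dom → ℝ → Prop} (hAdm : ∀ D δ, Adm D δ → D.W δ) :
    LMinW Adm :=
  lmin_of_yw hAdm (yw_of_sat hS hAdm)

end Crest.Agent.R143.Trans5x690
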