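import Crest.Agent.R143.HBud_136
import Crest.Agent.R143.Trans5_690

/-!
# Row 143 (S0194), block H, final assembly (helper414): quantifiers

* `sat_of_small` : the energy budget in expectation (`HBud_136.hbud`) + small chord energy ⟹ `Sat`
* `Inp` : the inputs of block H (note 3909 `BLOCK H MASTER TABLE v1`) at the level of the sample space
* `sat_of_inp` : `Inp` ⟹ `Sat`
-/

set_option autoImplicit false

noncomputable section

open scoped Classical

namespace Crest.Agent.R143.Asmx414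

open MeasureTheory Filter Topology
open Crest.ProbabilityR.Voronoi
open Crest.Agent.R143.B0x346 Crest.Agent.R143.SumScx302 Crest.Agent.R143.Mass1x302
  Crest.Agent.R143.Mass2x302
  Crest.Agent.R143.PP0x831 Crest.Agent.R143.Trans2x690 Crest.Agent.R143.Trans3x690
  Crest.Agent.R143.Trans5x690 Crest.Agent.R143.Bud3x432 Crest.Agent.R143.HBudx136
open scoped ENNReal

/-- the pointwise budget of the box `sq z b` with the ring of width `s`, cut off `k`, where `g ≠ 0` -/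
def PB (z : ℂ) (b s k ε : ℝ) (g E : Sample → ℝ≥0∞) : Prop :=
  ∀ᵐ ω ∂sampleLaw, g ω ≠ 0 → Wf (ps (cfg ε ω)) (sq z b) / 4 ≤ E ω +
    fam.Ph (sq z b) (cfg ε ω) +
    Wf (ps (cfg ε ω)) (Nk (Finset.univ : Finset Unit) (fun _ => sq z b) k ∩ Ub z b s)

/-- **small chord energy relative to the weight** ⟹ `Sat` -/
theorem sat_of_small (Lw : LLN famF wD) (La : LLN fam aD) (z : ℂ) {b : ℝ} (hb : 0 < b)
    (H : ∀ δ : ℝ, 0 < δ → ∃ s c : ℝ, 0 < s ∧ s ≤ δ ∧ 0 < c ∧ ∀ k0 : ℝ, 0 < k0 →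
      ∃ k : ℝ, 0 < k ∧ k ≤ k0 ∧ ∃ᶠ ε : ℝ in 𝓝[>] 0, ∃ g E : Sample → ℝ≥0∞,
        AEMeasurable g sampleLaw ∧ (∀ ω, g ω ≤ 1) ∧ ENNReal.ofReal c ≤ ∫⁻ ω, g ω ∂sampleLaw ∧
        PB z b s k ε g E ∧
        ∫⁻ ω, g ω * E ω ∂sampleLaw ≤ ENNReal.ofReal δ * ∫⁻ ω, g ω ∂sampleLaw) : Sat := by
  have hw := wD_nonneg
  have ha := aD_nonneg
  have key : ∀ δ : ℝ, 0 < δ → δ ≤ 1 → wD / 4 * b ^ 2 ≤ aD * b ^ 2 + (wD * (4 * b + 4) + 3) * δ := by
    intro δ hδ hδ1
    obtain ⟨s, c, hs, hsδ, hc, h⟩ := H δ hδ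
    obtain ⟨k0, hk0, h1⟩ := hbud Lw La z hb hs (δ := min δ (δ * c)) (by positivity)
    obtain ⟨k, hk, hkk, h2⟩ := h k0 hk0
    have h3 := h1 k hk hkk
    obtain ⟨ε, ⟨g, E, mg, g1, hcg, hPB, hE⟩, hε⟩ := (h2.and_eventually h3).exists
    have h4 := hε g E mg g1 hPB
    set I := ∫⁻ ω, g ω ∂sampleLaw with hI
    have hIt : I ≠ ∞ := by
      have : I ≤ ∫⁻ _, 1 ∂sampleLaw := lintegral_mono g1
      rw [lintegral_one, measure_univ] at this
      exact (this.trans_lt ENNReal.one_lt_top).ne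
    have hI0 : I ≠ 0 := by
      have : 0 < ENNReal.ofReal c := ENNReal.ofReal_pos.2 hc
      exact (this.trans_le hcg).ne'
    have h5 : ENNReal.ofReal (min δ (δ * c)) ≤ ENNReal.ofReal δ * I := by
      calc ENNReal.ofReal (min δ (δ * c)) ≤ ENNReal.ofReal (δ * c) :=
            ENNReal.ofReal_le_ofReal (min_le_right _ _)
        _ = ENNReal.ofReal δ * ENNReal.ofReal c := ENNReal.ofReal_mul hδ.le
        _ ≤ _ := by gcongr
    have h6 : ENNReal.ofReal (wD / 4 * b ^ 2) * I ≤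
        ENNReal.ofReal (aD * b ^ 2 + (wD * (4 * b + 4) + 3) * δ) * I := by
      refine h4.trans ?_
      calc _ ≤ ENNReal.ofReal δ * I + ENNReal.ofReal (aD * b ^ 2 + wD * (4 * s * b + 4 * s ^ 2) +
            min δ (δ * c)) * I + ENNReal.ofReal δ * I := by gcongr
        _ = ENNReal.ofReal (δ + (aD * b ^ 2 + wD * (4 * s * b + 4 * s ^ 2) + min δ (δ * c)) + δ) *
            I := by
            rw [ENNReal.ofReal_add (by positivity) hδ.le, ENNReal.ofReal_add hδ.le (by positivity)]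
            ring
        _ ≤ _ := by
            gcongr ENNReal.ofReal ?_ * _
            have e1 : min δ (δ * c) ≤ δ := min_le_left _ _
            have e2 : s ^ 2 ≤ δ := by nlinarith
            have e3 : wD * (4 * s * b + 4 * s ^ 2) ≤ wD * (4 * b + 4) * δ := by
              have e4 : s * b ≤ δ * b := mul_le_mul_of_nonneg_right hsδ hb.le
              have : 4 * s * b + 4 * s ^ 2 ≤ (4 * b + 4) * δ := by nlinarith
              calc wD * (4 * s * b + 4 * s ^ 2) ≤ wD * ((4 * b + 4) * δ) := by gcongr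
                _ = _ := by ring
            nlinarith
    have h7 := (ENNReal.mul_le_mul_iff_left hI0 hIt).1 h6
    exact (ENNReal.ofReal_le_ofReal_iff (by positivity)).1 h7
  show wD ≤ 4 * aD
  by_contra hlt
  push Not at hlt
  have hpos : 0 < wD / 4 * b ^ 2 - aD * b ^ 2 := by
    have : 0 < (wD / 4 - aD) * b ^ 2 := by
      have : 0 < wD / 4 - aD := by linarith
      positivity
    nlinarith
  set Δ := wD / 4 * b ^ 2 - aD * b ^ 2 with hΔ
  set A := wD * (4 * b + 4) + 3 with hA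
  have hA0 : 0 < A := by positivity
  have h8 := key (min 1 (Δ / (2 * A))) (by positivity) (min_le_left _ _)
  have h9 : A * min 1 (Δ / (2 * A)) ≤ Δ / 2 := by
    calc A * min 1 (Δ / (2 * A)) ≤ A * (Δ / (2 * A)) := by
          gcongr
          exact min_le_right _ _
      _ = Δ / 2 := by field_simp
  linarith

/-- the values at one mesh: `g` weight; `CH` chord energy; `CL` energy of the big closed blocks;
`L` chord energy of the layer (`Layx88.lay_chd`); `Z` everything which is small relative to `g`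
(near end points, squared error of the potential times the number of the deep chords, partial
tiles); `Y` everything which tends to `0` with the mesh (defect of the deep chords); `N` number of
the deep chords, `κ2` = constant times `|κ|²` -/
def Vals (z : ℂ) (b s k ε : ℝ) (c Cl d0 CN τ δ : ℝ) : Prop :=
  ∃ (g CH CL L Z Y N : Sample → ℝ≥0∞) (κ2 : ℝ≥0∞),
    AEMeasurable g sampleLaw ∧ (∀ ω, g ω ≤ 1) ∧ ENNReal.ofReal c ≤ ∫⁻ ω, g ω ∂sampleLaw ∧
    PB z b s k ε g (fun ω => CH ω + CL ω) ∧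
    (∀ᵐ ω ∂sampleLaw, g ω ≠ 0 → CH ω ≤ 2 * L ω + Z ω + Y ω + κ2 * N ω) ∧
    AEMeasurable (fun ω => g ω * L ω) sampleLaw ∧ AEMeasurable (fun ω => g ω * Z ω) sampleLaw ∧
    AEMeasurable (fun ω => g ω * Y ω) sampleLaw ∧ AEMeasurable (fun ω => g ω * N ω) sampleLaw ∧
    ∫⁻ ω, g ω * CL ω ∂sampleLaw ≤ ENNReal.ofReal δ ∧
    ∫⁻ ω, g ω * L ω ∂sampleLaw ≤ ENNReal.ofReal (Cl * (d0 + s) + δ) * ∫⁻ ω, g ω ∂sampleLaw +
      ENNReal.ofReal δ ∧
    ∫⁻ ω, g ω * Z ω ∂sampleLaw ≤ ENNReal.ofReal τ * ∫⁻ ω, g ω ∂sampleLaw ∧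
    ∫⁻ ω, g ω * Y ω ∂sampleLaw ≤ ENNReal.ofReal δ ∧
    ∫⁻ ω, g ω * N ω ∂sampleLaw ≤ ENNReal.ofReal CN * ∫⁻ ω, g ω ∂sampleLaw ∧
    κ2 ≤ ENNReal.ofReal (τ / (CN + 1))

/-- **the inputs of block H**: first the depth `d0`, then `τ` (radius `R` of the near pairs), then the
ring width `s`, then the cut off `k`, then the mesh -/
def Inp (z : ℂ) (b : ℝ) : Prop :=
  ∃ Cl : ℝ, 0 ≤ Cl ∧ ∀ d0 : ℝ, 0 < d0 → ∃ CN : ℝ, 0 ≤ CN ∧ ∀ τ : ℝ, 0 < τ → ∃ s c : ℝ, 0 < s ∧
    s ≤ τ ∧ 0 < c ∧ ∀ k0 : ℝ, 0 < k0 → ∃ k : ℝ, 0 < k ∧ k ≤ k0 ∧ ∀ δ : ℝ, 0 < δ →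
      ∃ᶠ ε : ℝ in 𝓝[>] 0, Vals z b s k ε c Cl d0 CN τ δ

/-- **BLOCK H, final quantifiers** -/
theorem sat_of_inp (Lw : LLN famF wD) (La : LLN fam aD) {z : ℂ} {b : ℝ} (hb : 0 < b)
    (H : Inp z b) : Sat := by
  obtain ⟨Cl, hCl, H⟩ := H
  refine sat_of_small Lw La z hb fun δ hδ => ?_
  set η : ℝ := δ / 20 with hη
  have hη0 : 0 < η := by positivity
  obtain ⟨CN, hCN, H⟩ := H (η / (Cl + 1)) (by positivity)
  obtain ⟨s, c, hs, hsτ, hc, H⟩ := H (min (η / (Cl + 1)) δ) (by positivity)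
  refine ⟨s, c, hs, hsτ.trans (min_le_right _ _), hc, fun k0 hk0 => ?_⟩
  obtain ⟨k, hk, hkk, H⟩ := H k0 hk0
  refine ⟨k, hk, hkk, ?_⟩
  have H := H (min η (η * c)) (by positivity)
  refine H.mono fun ε hε => ?_
  obtain ⟨g, CH, CL, L, Z, Y, N, κ2, mg, g1, hcg, hPB, hpt, m1, m2, m3, m4, i0, i1, i2,
    i3, i4, hκ⟩ := hε
  refine ⟨g, fun ω => CH ω + CL ω, mg, g1, hcg, hPB, ?_⟩
  set I := ∫⁻ ω, g ω ∂sampleLaw with hI
  have hδI : ENNReal.ofReal (min η (η * c)) ≤ ENNReal.ofReal η * I := by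
    calc ENNReal.ofReal (min η (η * c)) ≤ ENNReal.ofReal (η * c) :=
          ENNReal.ofReal_le_ofReal (min_le_right _ _)
      _ = ENNReal.ofReal η * ENNReal.ofReal c := ENNReal.ofReal_mul hη0.le
      _ ≤ _ := by gcongr
  have hC1 : η / (Cl + 1) ≤ η := div_le_self hη0.le (by linarith)
  have hCη : Cl * (η / (Cl + 1)) ≤ η := by
    rw [mul_div_assoc', div_le_iff₀ (by positivity)]
    nlinarith
  have hτ : ENNReal.ofReal (min (η / (Cl + 1)) δ) ≤ ENNReal.ofReal η :=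
    ENNReal.ofReal_le_ofReal ((min_le_left _ _).trans hC1)
  have j0 : ∫⁻ ω, g ω * CL ω ∂sampleLaw ≤ ENNReal.ofReal η * I := i0.trans hδI
  have j1 : ∫⁻ ω, g ω * L ω ∂sampleLaw ≤ ENNReal.ofReal (4 * η) * I := by
    refine i1.trans ?_
    have e1 : Cl * (η / (Cl + 1) + s) + min η (η * c) ≤ 3 * η := by
      have e2 : Cl * s ≤ Cl * (η / (Cl + 1)) :=
        mul_le_mul_of_nonneg_left (hsτ.trans (min_le_left _ _)) hCl
      nlinarith [min_le_left η (η * c)]
    calc _ ≤ ENNReal.ofReal (3 * η) * I + ENNReal.ofReal η * I := by gcongr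
      _ = ENNReal.ofReal (4 * η) * I := by
          rw [← add_mul, ← ENNReal.ofReal_add (by positivity) hη0.le]
          congr 2
          ring
  have j2 : ∫⁻ ω, g ω * Z ω ∂sampleLaw ≤ ENNReal.ofReal η * I := i2.trans (by gcongr)
  have j3 : ∫⁻ ω, g ω * Y ω ∂sampleLaw ≤ ENNReal.ofReal η * I := i3.trans hδI
  have j4 : κ2 * ∫⁻ ω, g ω * N ω ∂sampleLaw ≤ ENNReal.ofReal η * I := by
    calc κ2 * ∫⁻ ω, g ω * N ω ∂sampleLaw
        ≤ ENNReal.ofReal (min (η / (Cl + 1)) δ / (CN + 1)) * (ENNReal.ofReal CN * I) := by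
          gcongr
      _ = ENNReal.ofReal (min (η / (Cl + 1)) δ / (CN + 1) * CN) * I := by
          rw [← mul_assoc, ← ENNReal.ofReal_mul (by positivity)]
      _ ≤ ENNReal.ofReal η * I := by
          gcongr
          rw [div_mul_eq_mul_div, div_le_iff₀ (by positivity)]
          have h1 := (min_le_left (η / (Cl + 1)) δ).trans hC1
          have h2 : 0 ≤ min (η / (Cl + 1)) δ := by positivity
          nlinarith
  have hsum : ∫⁻ ω, g ω * (CH ω + CL ω) ∂sampleLaw ≤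
      ∫⁻ ω, (2 * (g ω * L ω) + g ω * Z ω + g ω * Y ω + κ2 * (g ω * N ω) + g ω * CL ω)
        ∂sampleLaw := by
    refine lintegral_mono_ae ?_
    filter_upwards [hpt] with ω h
    by_cases h0 : g ω = 0
    · rw [h0, zero_mul]; exact zero_le
    calc g ω * (CH ω + CL ω) ≤ g ω * (2 * L ω + Z ω + Y ω + κ2 * N ω + CL ω) := by
          gcongr; exact h h0
      _ = _ := by ring
  refine hsum.trans ?_
  rw [lintegral_add_left' (by fun_prop), lintegral_add_left' (by fun_prop),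
    lintegral_add_left' (by fun_prop), lintegral_add_left' (by fun_prop),
    lintegral_const_mul'' _ m1, lintegral_const_mul'' _ m4]
  have e4 : ENNReal.ofReal (4 * η) = 4 * ENNReal.ofReal η := by
    rw [ENNReal.ofReal_mul (by norm_num : (0 : ℝ) ≤ 4)]
    norm_num
  have e20 : ENNReal.ofReal δ = 20 * ENNReal.ofReal η := by
    rw [show δ = 20 * η by rw [hη]; ring, ENNReal.ofReal_mul (by norm_num : (0 : ℝ) ≤ 20)]
    norm_num
  calc _ ≤ 2 * (ENNReal.ofReal (4 * η) * I) + ENNReal.ofReal η * I + ENNReal.ofReal η * I +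
        ENNReal.ofReal η * I + ENNReal.ofReal η * I := by gcongr
    _ = 12 * (ENNReal.ofReal η * I) := by rw [e4]; ring
    _ ≤ 20 * (ENNReal.ofReal η * I) := by
        gcongr
        norm_num
    _ = ENNReal.ofReal δ * I := by rw [e20]; ring

end Crest.Agent.R143.Asmx414
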