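import Mathlib

/-!
# Row 143 (S0194), block H, box [E] (helper126): the facing window, fixed points

* `sum_pow_split` : a sum over the subsets of `A`, split along `V ⊆ A`
* `sm V v` : sum of `v` over the colours of `V`; `Off A V u` : `u` does not see the colours of `V`
* `sum_avg` : `∑ u (sm V v) = 2^|V| ∑ u v`
* `avg_off` : `g = g_c g_f`, `X ≤ X'`, `g_c`, `X'` do not see the colours of `V`:
  `2^|V| ∑ g_c g_f X ≤ ∑ g_c (sm V g_f) X'` (352 (i))
-/

set_option autoImplicit false

namespace Crest.Agent.R143.Avgx126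

open Finset

variable {α : Type} [DecidableEq α] {R : Type} [CommSemiring R] {A V : Finset α}

theorem sum_pow_split {S : Type} [AddCommMonoid S] (hV : V ⊆ A) (F : Finset α → S) :
    ∑ β ∈ A.powerset, F β = ∑ β ∈ (A \ V).powerset, ∑ γ ∈ V.powerset, F (β ∪ γ) := by
  rw [← sum_product']
  refine sum_bij' (fun β _ => (β \ V, β ∩ V)) (fun p _ => p.1 ∪ p.2) ?_ ?_ ?_ ?_ ?_
  · intro β hβ
    rw [mem_powerset] at hβ
    rw [mem_product, mem_powerset, mem_powerset]
    exact ⟨sdiff_subset_sdiff hβ (Subset.refl _), inter_subset_right⟩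
  · intro p hp
    rw [mem_product, mem_powerset, mem_powerset] at hp
    rw [mem_powerset]
    exact union_subset (hp.1.trans sdiff_subset) (hp.2.trans hV)
  · intro β _
    exact sdiff_union_inter β V
  · intro p hp
    rw [mem_product, mem_powerset, mem_powerset] at hp
    obtain ⟨h1, h2⟩ := hp
    have h3 : ∀ x ∈ p.1, x ∉ V := fun x hx => (mem_sdiff.1 (h1 hx)).2
    refine Prod.ext ?_ ?_
    · ext x
      have := h3 x
      have := @h2 x
      simp only [mem_sdiff, mem_union]
      tauto
    · ext x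
      have := h3 x
      have := @h2 x
      simp only [mem_inter, mem_union]
      tauto
  · intro β _
    rw [sdiff_union_inter]

/-- sum of `v` over the colours of `V` -/
def sm (V : Finset α) (v : Finset α → R) (β : Finset α) : R := ∑ γ ∈ V.powerset, v ((β \ V) ∪ γ)

/-- `u` does not see the colours of `V` -/
def Off {S : Type} (A V : Finset α) (u : Finset α → S) : Prop :=
  ∀ β ⊆ A, u β = u (β \ V)

theorem sm_off (A V : Finset α) (v : Finset α → R) : Off A V (sm V v) := by
  intro β _
  unfold sm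
  rw [Finset.sdiff_idem]

theorem Off.mul {u u' : Finset α → R} (h : Off A V u) (h' : Off A V u') :
    Off A V fun β => u β * u' β := fun β hβ => by
  simp only
  rw [h β hβ, h' β hβ]

/-- **the factor of the window may be averaged** -/
theorem sum_avg (hV : V ⊆ A) {u : Finset α → R} (hu : Off A V u) (v : Finset α → R) :
    ∑ β ∈ A.powerset, u β * sm V v β = 2 ^ V.card * ∑ β ∈ A.powerset, u β * v β := by
  rw [sum_pow_split hV, sum_pow_split hV, mul_sum]
  refine sum_congr rfl fun β hβ => ?_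
  rw [mem_powerset] at hβ
  have hd : ∀ γ ∈ V.powerset, (β ∪ γ) \ V = β := by
    intro γ hγ
    rw [mem_powerset] at hγ
    ext x
    have h1 := @hβ x
    have h2 := @hγ x
    simp only [mem_sdiff, mem_union] at h1 ⊢
    tauto
  have hA : ∀ γ ∈ V.powerset, β ∪ γ ⊆ A := fun γ hγ =>
    union_subset (hβ.trans sdiff_subset) ((mem_powerset.1 hγ).trans hV)
  have e1 : ∀ γ ∈ V.powerset, u (β ∪ γ) * sm V v (β ∪ γ) = u β * ∑ γ' ∈ V.powerset, v (β ∪ γ') := by
    intro γ hγ
    rw [hu _ (hA γ hγ)]
    unfold sm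
    rw [hd γ hγ]
  have e2 : ∀ γ ∈ V.powerset, u (β ∪ γ) * v (β ∪ γ) = u β * v (β ∪ γ) := by
    intro γ hγ
    rw [hu _ (hA γ hγ), hd γ hγ]
  rw [sum_congr rfl e1, sum_congr rfl e2, sum_const, card_powerset, nsmul_eq_mul, ← mul_sum]
  push_cast
  ring

/-- **352 (i)** -/
theorem avg_off [PartialOrder R] [IsOrderedRing R] (hV : V ⊆ A) {u v X X' : Finset α → R}
    (hu : Off A V u) (hX' : Off A V X') (hu0 : ∀ β ⊆ A, 0 ≤ u β * v β)
    (hX : ∀ β ⊆ A, X β ≤ X' β) :
    2 ^ V.card * ∑ β ∈ A.powerset, u β * v β * X β ≤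
      ∑ β ∈ A.powerset, u β * sm V v β * X' β := by
  have h1 : ∑ β ∈ A.powerset, u β * sm V v β * X' β =
      2 ^ V.card * ∑ β ∈ A.powerset, u β * v β * X' β := by
    have := sum_avg hV (hu.mul hX') v
    calc ∑ β ∈ A.powerset, u β * sm V v β * X' β = ∑ β ∈ A.powerset, u β * X' β * sm V v β :=
          sum_congr rfl fun β _ => by ring
      _ = _ := this
      _ = _ := by
          congr 1
          exact sum_congr rfl fun β _ => by ring
  rw [h1]
  have h2 : (0 : R) ≤ 2 ^ V.card := pow_nonneg zero_le_two _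
  refine mul_le_mul_of_nonneg_left ?_ h2
  refine sum_le_sum fun β hβ => ?_
  rw [mem_powerset] at hβ
  exact mul_le_mul_of_nonneg_left (hX β hβ) (hu0 β hβ)

end Crest.Agent.R143.Avgx126
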