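import Crest.Agent.R143.DelG_806
import Crest.Agent.R143.B0D_346
import Crest.Agent.R143.BC0_336

/-!
# Row 143 (S0194), block B1: discrete Stokes identity (helper991)

* `seg φ a b` : mean of `φ` over the segment `[a, b]`
* `tri_dbar` : Green's formula for a triangle
* `stokes` : `∫ hval N z * dbar φ z = (I / 2) ∑_{t oriented} Q t * (t₂ - t₁) * seg φ t₁ t₂`
-/

set_option autoImplicit false

noncomputable section

open scoped Classical

namespace Crest.Agent.R143.B1x991

open Complex Set MeasureTheory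
open Crest.Agent.R143.B0x346 Crest.Agent.R143.B0Dx346 Crest.Agent.R143.BC0x336
open Crest.Agent.R143.DelGx806

/-- mean of `φ` over the segment -/
def seg (φ : ℂ → ℂ) (a b : ℂ) : ℂ := ∫ s in (0 : ℝ)..1, φ (a + s * (b - a))

theorem seg_symm (φ : ℂ → ℂ) (a b : ℂ) : seg φ a b = seg φ b a := by
  unfold seg
  have h := intervalIntegral.integral_comp_sub_left (fun s : ℝ => φ (a + s * (b - a))) (a := 0)
    (b := 1) 1
  rw [sub_self, sub_zero] at h
  rw [← h]
  congr 1
  ext s
  congr 1
  push_cast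
  ring

/-- the open unit simplex in `ℝ × ℝ` -/
def Dl : Set (ℝ × ℝ) := {p | 0 < p.1 ∧ 0 < p.2 ∧ p.1 + p.2 < 1}

theorem Dl_open : IsOpen Dl := by
  refine (isOpen_lt continuous_const continuous_fst).inter
    ((isOpen_lt continuous_const continuous_snd).inter
      (isOpen_lt (continuous_fst.add continuous_snd) continuous_const))

theorem Dl_sub : Dl ⊆ Icc (0 : ℝ) 1 ×ˢ Icc (0 : ℝ) 1 := by
  rintro ⟨s, t⟩ ⟨h1, h2, h3⟩
  simp only at h1 h2 h3
  exact ⟨⟨h1.le, by simp only; linarith⟩, ⟨h2.le, by simp only; linarith⟩⟩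

theorem intOn_Dl {f : ℝ × ℝ → ℂ} (hf : Continuous f) : IntegrableOn f Dl volume :=
  (hf.continuousOn.integrableOn_compact (isCompact_Icc.prod isCompact_Icc)).mono_set Dl_sub

/-- integration over the simplex, outer variable first -/
theorem integral_Dl {f : ℝ × ℝ → ℂ} (hf : Continuous f) :
    ∫ p in Dl, f p = ∫ t in (0 : ℝ)..1, ∫ s in (0 : ℝ)..(1 - t), f (t, s) := by
  have hint : Integrable (Dl.indicator f) ((volume : Measure ℝ).prod volume) := by
    have := (intOn_Dl hf).integrable_indicator Dl_open.measurableSet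
    exact this
  rw [← integral_indicator Dl_open.measurableSet]
  have e1 : ∫ p, Dl.indicator f p = ∫ t : ℝ, ∫ s : ℝ, Dl.indicator f (t, s) :=
    integral_prod _ hint
  rw [e1, intervalIntegral.integral_of_le zero_le_one, integral_Ioc_eq_integral_Ioo,
    ← integral_indicator measurableSet_Ioo]
  congr 1
  ext t
  by_cases ht : t ∈ Ioo (0 : ℝ) 1
  · rw [indicator_of_mem ht, intervalIntegral.integral_of_le (by linarith [ht.2]),
      integral_Ioc_eq_integral_Ioo, ← integral_indicator measurableSet_Ioo]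
    congr 1
    ext s
    by_cases hs : s ∈ Ioo (0 : ℝ) (1 - t)
    · rw [indicator_of_mem hs, indicator_of_mem]
      exact ⟨ht.1, hs.1, by simp only; linarith [hs.2]⟩
    · rw [indicator_of_notMem hs, indicator_of_notMem]
      rintro ⟨_, h2, h3⟩
      simp only at h2 h3
      exact hs ⟨h2, by linarith⟩
  · rw [indicator_of_notMem ht]
    have : ∀ s : ℝ, Dl.indicator f (t, s) = 0 := by
      intro s
      rw [indicator_of_notMem]
      rintro ⟨h1, h2, h3⟩
      simp only at h1 h2 h3
      exact ht ⟨h1, by linarith⟩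
    simp [this]

/-- integration over the simplex, the two variables exchanged -/
theorem integral_Dl_swap (f : ℝ × ℝ → ℂ) :
    ∫ p in Dl, f p.swap = ∫ p in Dl, f p := by
  have h := (Measure.measurePreserving_swap (μ := (volume : Measure ℝ))
    (ν := (volume : Measure ℝ))).setIntegral_preimage_emb
    (MeasurableEquiv.prodComm (α := ℝ) (β := ℝ)).measurableEmbedding f Dl
  have e : (Prod.swap : ℝ × ℝ → ℝ × ℝ) ⁻¹' Dl = Dl := by
    ext ⟨s, t⟩
    constructor
    · rintro ⟨h1, h2, h3⟩
      simp only [Prod.swap_prod_mk] at h1 h2 h3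
      exact ⟨h2, h1, by simp only; linarith⟩
    · rintro ⟨h1, h2, h3⟩
      simp only at h1 h2 h3
      exact ⟨h2, h1, by simp only [Prod.swap_prod_mk]; linarith⟩
  rw [e] at h
  exact h

/-- the derivative in the direction `u` integrated over the simplex -/
theorem integral_dir {φ : ℂ → ℂ} (hφ : ContDiff ℝ 1 φ) (a u w : ℂ) :
    ∫ p in Dl, fderiv ℝ φ (a + (p.2 : ℝ) * u + (p.1 : ℝ) * w) u =
      seg φ (a + u) (a + w) - seg φ a (a + w) := by
  have hd : Continuous (fderiv ℝ φ) := hφ.continuous_fderiv (by norm_num)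
  have hf : Continuous fun p : ℝ × ℝ =>
      fderiv ℝ φ (a + (p.2 : ℝ) * u + (p.1 : ℝ) * w) u := by
    have h1 : Continuous fun p : ℝ × ℝ => a + ((p.2 : ℝ) : ℂ) * u + ((p.1 : ℝ) : ℂ) * w := by
      fun_prop
    exact (hd.comp h1).clm_apply continuous_const
  rw [integral_Dl hf]
  have hin : ∀ t : ℝ, ∫ s in (0 : ℝ)..(1 - t), fderiv ℝ φ (a + (s : ℝ) * u + (t : ℝ) * w) u =
      φ (a + u + t * (w - u)) - φ (a + t * w) := by
    intro t
    have hder : ∀ s : ℝ, HasDerivAt (fun s : ℝ => φ (a + (s : ℝ) * u + (t : ℝ) * w))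
        (fderiv ℝ φ (a + (s : ℝ) * u + (t : ℝ) * w) u) s := by
      intro s
      have h1 : HasDerivAt (fun s : ℝ => a + (s : ℂ) * u + (t : ℂ) * w) u s := by
        have h2 : HasDerivAt (fun s : ℝ => (s : ℂ)) 1 s := Complex.ofRealCLM.hasDerivAt
        have h3 := ((h2.mul_const u).const_add a).add_const ((t : ℂ) * w)
        rwa [one_mul] at h3
      exact ((hφ.differentiable (by norm_num)).differentiableAt.hasFDerivAt).comp_hasDerivAt s h1
    rw [intervalIntegral.integral_eq_sub_of_hasDerivAt (fun s _ => hder s)]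
    · congr 2
      · push_cast; ring
      · push_cast; ring
    · refine Continuous.intervalIntegrable ?_ _ _
      have h1 : Continuous fun s : ℝ => a + (s : ℂ) * u + (t : ℂ) * w := by fun_prop
      exact (hd.comp h1).clm_apply continuous_const
  simp only [hin]
  rw [intervalIntegral.integral_sub]
  · unfold seg
    congr 1
    · congr 1
      ext t
      congr 1
      ring
    · congr 1
      ext t
      congr 1
      ring
  · refine Continuous.intervalIntegrable ?_ _ _
    exact hφ.continuous.comp (by fun_prop)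
  · refine Continuous.intervalIntegrable ?_ _ _
    exact hφ.continuous.comp (by fun_prop)

/-- linear part of the parametrisation of the triangle -/
def Lm (u w : ℂ) : ℂ →ₗ[ℝ] ℂ :=
  Complex.imLm.smulRight u + Complex.reLm.smulRight w

theorem Lm_apply (u w z : ℂ) : Lm u w z = (z.im : ℂ) * u + (z.re : ℂ) * w := by
  simp [Lm]

theorem Lm_det (u w : ℂ) : LinearMap.det (Lm u w) = -cr u w := by
  rw [← LinearMap.det_toMatrix Complex.basisOneI, Matrix.det_fin_two]
  simp [LinearMap.toMatrix_apply, Lm_apply, Complex.coe_basisOneI_repr, cr]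
  ring

/-- coordinates in the triangle -/
theorem inTri_iff {a b c : ℂ} (h : 0 < cr (b - a) (c - a)) (x y : ℝ) :
    InTri (a + ((y : ℂ) * (b - a) + (x : ℂ) * (c - a))) a b c ↔ 0 < x ∧ 0 < y ∧ x + y < 1 := by
  have e1 : cr (b - a) (a + ((y : ℂ) * (b - a) + (x : ℂ) * (c - a)) - a) =
      x * cr (b - a) (c - a) := by
    simp only [cr, Complex.add_re, Complex.add_im, Complex.sub_re, Complex.sub_im, Complex.mul_re,
      Complex.mul_im, Complex.ofReal_re, Complex.ofReal_im]
    ring
  have e2 : cr (c - b) (a + ((y : ℂ) * (b - a) + (x : ℂ) * (c - a)) - b) =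
      (1 - x - y) * cr (b - a) (c - a) := by
    simp only [cr, Complex.add_re, Complex.add_im, Complex.sub_re, Complex.sub_im, Complex.mul_re,
      Complex.mul_im, Complex.ofReal_re, Complex.ofReal_im]
    ring
  have e3 : cr (a - c) (a + ((y : ℂ) * (b - a) + (x : ℂ) * (c - a)) - c) =
      y * cr (b - a) (c - a) := by
    simp only [cr, Complex.add_re, Complex.add_im, Complex.sub_re, Complex.sub_im, Complex.mul_re,
      Complex.mul_im, Complex.ofReal_re, Complex.ofReal_im]
    ring
  unfold InTri Lft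
  rw [e1, e2, e3, mul_pos_iff_of_pos_right h, mul_pos_iff_of_pos_right h,
    mul_pos_iff_of_pos_right h]
  constructor
  · rintro ⟨h1, h2, h3⟩
    exact ⟨h1, h3, by linarith⟩
  · rintro ⟨h1, h2, h3⟩
    exact ⟨h1, by linarith, h2⟩

/-- the preimage of the simplex in `ℂ` -/
def DC : Set ℂ := {z | 0 < z.re ∧ 0 < z.im ∧ z.re + z.im < 1}

theorem DC_meas : MeasurableSet DC := by
  have : IsOpen DC := (isOpen_lt continuous_const Complex.continuous_re).inter
    ((isOpen_lt continuous_const Complex.continuous_im).inter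
      (isOpen_lt (Complex.continuous_re.add Complex.continuous_im) continuous_const))
  exact this.measurableSet

theorem Lm_inj {u w : ℂ} (h : 0 < cr u w) : Function.Injective (Lm u w) := by
  rw [← LinearMap.ker_eq_bot]
  by_contra hc
  have := LinearMap.det_eq_zero_iff_ker_ne_bot.2 hc
  rw [Lm_det] at this
  linarith

/-- the triangle is the image of the simplex -/
theorem image_DC {a b c : ℂ} (h : 0 < cr (b - a) (c - a)) :
    (fun z => a + Lm (b - a) (c - a) z) '' DC = {z | InTri z a b c} := by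
  ext z
  constructor
  · rintro ⟨p, hp, rfl⟩
    show InTri (a + Lm (b - a) (c - a) p) a b c
    rw [Lm_apply]
    exact (inTri_iff h _ _).2 hp
  · intro hz
    -- surjectivity of the linear part
    have hs : Function.Surjective (Lm (b - a) (c - a)) :=
      LinearMap.injective_iff_surjective.1 (Lm_inj h)
    obtain ⟨p, hp⟩ := hs (z - a)
    have e : a + Lm (b - a) (c - a) p = z := by rw [hp]; ring
    refine ⟨p, ?_, e⟩
    have hz' : InTri (a + Lm (b - a) (c - a) p) a b c := by rw [e]; exact hz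
    rw [Lm_apply] at hz'
    exact (inTri_iff h _ _).1 hz'

/-- integrals over a triangle -/
theorem integral_tri {a b c : ℂ} (h : 0 < cr (b - a) (c - a)) (g : ℂ → ℂ) :
    ∫ z in {z | InTri z a b c}, g z = (cr (b - a) (c - a) : ℂ) *
      ∫ p in Dl, g (a + (p.2 : ℝ) * (b - a) + (p.1 : ℝ) * (c - a)) := by
  have hd : ∀ x ∈ DC, HasFDerivWithinAt (fun z => a + Lm (b - a) (c - a) z)
      (LinearMap.toContinuousLinearMap (Lm (b - a) (c - a))) DC x := by
    intro x _
    exact ((LinearMap.toContinuousLinearMap (Lm (b - a) (c - a))).hasFDerivAt.const_add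
      a).hasFDerivWithinAt
  have hi : InjOn (fun z => a + Lm (b - a) (c - a) z) DC := by
    intro x _ y _ hxy
    exact Lm_inj h (add_left_cancel hxy)
  have h1 := integral_image_eq_integral_abs_det_fderiv_smul (volume : Measure ℂ) DC_meas hd hi g
  rw [image_DC h] at h1
  rw [h1]
  have hdet : |(LinearMap.toContinuousLinearMap (Lm (b - a) (c - a))).det| =
      cr (b - a) (c - a) := by
    rw [ContinuousLinearMap.det, LinearMap.coe_toContinuousLinearMap, Lm_det, abs_neg,
      abs_of_pos h]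
  rw [hdet, integral_smul, Complex.real_smul]
  congr 1
  have h2 := Complex.volume_preserving_equiv_real_prod.setIntegral_preimage_emb
    Complex.measurableEquivRealProd.measurableEmbedding
    (fun p : ℝ × ℝ => g (a + (p.2 : ℝ) * (b - a) + (p.1 : ℝ) * (c - a))) Dl
  have e : Complex.measurableEquivRealProd ⁻¹' Dl = DC := rfl
  rw [e] at h2
  rw [← h2]
  refine setIntegral_congr_fun DC_meas fun z _ => ?_
  simp only [Lm_apply, Complex.measurableEquivRealProd_apply]
  ring_nf

theorem dbar_coord {φ : ℂ → ℂ} (u w x : ℂ) :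
    (cr u w : ℂ) * dbar φ x = (I / 2) * (u * fderiv ℝ φ x w - w * fderiv ℝ φ x u) := by
  have h1 : ((cr u w : ℝ) : ℂ) * fderiv ℝ φ x 1 =
      (w.im : ℂ) * fderiv ℝ φ x u - (u.im : ℂ) * fderiv ℝ φ x w := by
    rw [← Complex.real_smul, ← Complex.real_smul, ← Complex.real_smul, ← map_smul, ← map_smul,
      ← map_smul, ← map_sub]
    congr 1
    apply Complex.ext <;> simp [cr] <;> ring
  have h2 : ((cr u w : ℝ) : ℂ) * fderiv ℝ φ x I =
      -(w.re : ℂ) * fderiv ℝ φ x u + (u.re : ℂ) * fderiv ℝ φ x w := by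
    rw [← Complex.ofReal_neg, ← Complex.real_smul, ← Complex.real_smul, ← Complex.real_smul,
      ← map_smul, ← map_smul, ← map_smul, ← map_add]
    congr 1
    apply Complex.ext <;> simp [cr] <;> ring
  have e1 : (w : ℂ) = w.re + w.im * I := (Complex.re_add_im w).symm
  have e2 : (u : ℂ) = u.re + u.im * I := (Complex.re_add_im u).symm
  unfold dbar
  calc (cr u w : ℂ) * ((fderiv ℝ φ x 1 + I * fderiv ℝ φ x I) / 2)
      = ((cr u w : ℂ) * fderiv ℝ φ x 1 + I * ((cr u w : ℂ) * fderiv ℝ φ x I)) / 2 := by ring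
    _ = (((w.im : ℂ) * fderiv ℝ φ x u - (u.im : ℂ) * fderiv ℝ φ x w) +
          I * (-(w.re : ℂ) * fderiv ℝ φ x u + (u.re : ℂ) * fderiv ℝ φ x w)) / 2 := by rw [h1, h2]
    _ = (I / 2) * ((u.re + u.im * I) * fderiv ℝ φ x w - (w.re + w.im * I) * fderiv ℝ φ x u) := by
        linear_combination ((u.im : ℂ) * fderiv ℝ φ x w - (w.im : ℂ) * fderiv ℝ φ x u) / 2 *
          (-Complex.I_sq)
    _ = (I / 2) * (u * fderiv ℝ φ x w - w * fderiv ℝ φ x u) := by rw [← e1, ← e2]

/-- **Green's formula for a triangle** -/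
theorem tri_dbar {φ : ℂ → ℂ} (hφ : ContDiff ℝ 1 φ) {a b c : ℂ} (h : 0 < cr (b - a) (c - a)) :
    ∫ z in {z | InTri z a b c}, dbar φ z =
      -(I / 2) * ((b - a) * seg φ a b + (c - b) * seg φ b c + (a - c) * seg φ c a) := by
  have hd : Continuous (fderiv ℝ φ) := hφ.continuous_fderiv (by norm_num)
  have hcont : Continuous fun p : ℝ × ℝ =>
      a + ((p.2 : ℝ) : ℂ) * (b - a) + ((p.1 : ℝ) : ℂ) * (c - a) := by fun_prop
  rw [integral_tri h, ← integral_const_mul]
  simp only [dbar_coord (b - a) (c - a)]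
  rw [integral_const_mul, integral_sub, integral_const_mul, integral_const_mul,
    integral_dir hφ]
  · have h1 := integral_dir hφ a (c - a) (b - a)
    rw [← integral_Dl_swap] at h1
    simp only [Prod.snd_swap, Prod.fst_swap] at h1
    have h2 : ∫ p in Dl, fderiv ℝ φ (a + (p.2 : ℝ) * (b - a) + (p.1 : ℝ) * (c - a)) (c - a) =
        seg φ (a + (c - a)) (a + (b - a)) - seg φ a (a + (b - a)) := by
      rw [← h1]
      congr 1
      ext p
      congr 2
      ring
    rw [h2, add_sub_cancel, add_sub_cancel, seg_symm φ c b, seg_symm φ c a]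
    ring
  · exact (intOn_Dl (((hd.comp hcont).clm_apply continuous_const))).const_mul _
  · exact (intOn_Dl (((hd.comp hcont).clm_apply continuous_const))).const_mul _

/-! ### resummation over the triangulation -/

/-- rotation of an oriented triangle -/
def rt (t : ℂ × ℂ × ℂ) : ℂ × ℂ × ℂ := (t.2.1, t.2.2, t.1)

theorem rt3 (t : ℂ × ℂ × ℂ) : rt (rt (rt t)) = t := rfl

variable {S : Finset ℂ}

theorem rt_mem (hS : GP (S : Set ℂ)) {t : ℂ × ℂ × ℂ} (h : t ∈ delT S) : rt t ∈ delT S := by
  obtain ⟨a, b, c⟩ := t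
  exact (g1 S hS).1 a b c h

/-- sums over oriented triangles are invariant under rotation -/
theorem sum_rt (hS : GP (S : Set ℂ)) (f : ℂ × ℂ × ℂ → ℂ) :
    ∑ t ∈ delT S, f (rt t) = ∑ t ∈ delT S, f t := by
  refine Finset.sum_nbij' rt (fun t => rt (rt t)) (fun t ht => rt_mem hS ht)
    (fun t ht => rt_mem hS (rt_mem hS ht)) (fun t _ => rfl) (fun t _ => rfl) (fun t _ => rfl)

/-- mean of the observable over the sides of a triangle -/
def htri (N : Net ℂ) (t : ℂ × ℂ × ℂ) : ℂ :=
  (N.F t.1 t.2.1 + N.F t.2.1 t.2.2 + N.F t.2.2 t.1) / 3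

theorem htri_rt (N : Net ℂ) (t : ℂ × ℂ × ℂ) : htri N (rt t) = htri N t := by
  unfold htri rt; ring

theorem inTri_rt {z : ℂ} {t : ℂ × ℂ × ℂ} (h : InTri z t.1 t.2.1 t.2.2) :
    InTri z (rt t).1 (rt t).2.1 (rt t).2.2 := ⟨h.2.1, h.2.2, h.1⟩

/-- `hval` as a sum over oriented triangles -/
theorem hval_eq {N : Net ℂ} (hS : GP (S : Set ℂ)) (hT : N.T = delT S) (z : ℂ) :
    hval N z = (1 / 3) * ∑ t ∈ delT S, if InTri z t.1 t.2.1 t.2.2 then htri N t else 0 := by
  unfold hval
  split_ifs with h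
  · obtain ⟨h1, h2⟩ := h.choose_spec
    set t0 := h.choose with ht0
    have hm : t0 ∈ delT S := hT ▸ h1
    obtain ⟨⟨a, b, c⟩, hab⟩ : ∃ t : ℂ × ℂ × ℂ, t = t0 := ⟨t0, rfl⟩
    rw [← hab] at h1 h2 hm ⊢
    simp only at h2 ⊢
    obtain ⟨o, hTri⟩ := mem_delT_iff.1 hm
    have hne := hTri.ne
    have hf : (delT S).filter (fun t => InTri z t.1 t.2.1 t.2.2) =
        {(a, b, c), (b, c, a), (c, a, b)} := by
      ext ⟨a', b', c'⟩
      rw [Finset.mem_filter]
      constructor
      · rintro ⟨hm', hi'⟩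
        obtain ⟨o', hTri'⟩ := mem_delT_iff.1 hm'
        have := disj hS hTri hTri' h2 (InO.inT hi')
        simp only [rots, Set.mem_insert_iff, Set.mem_singleton_iff] at this
        simpa using this
      · intro hmem
        simp only [Finset.mem_insert, Finset.mem_singleton] at hmem
        have r1 := (g1 S hS).1 a b c hm
        have r2 := (g1 S hS).1 b c a r1
        rcases hmem with e | e | e
        · rw [e]; exact ⟨hm, h2⟩
        · rw [e]; exact ⟨r1, h2.2.1, h2.2.2, h2.1⟩
        · rw [e]; exact ⟨r2, h2.2.2, h2.1, h2.2.1⟩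
    rw [← Finset.sum_filter, hf, Finset.sum_insert, Finset.sum_insert, Finset.sum_singleton]
    · simp only [htri]
      ring
    · simp only [Finset.mem_singleton, Prod.mk.injEq, not_and]
      intro h3
      exact absurd h3 hne.2.1
    · simp only [Finset.mem_insert, Finset.mem_singleton, Prod.mk.injEq, not_or, not_and]
      exact ⟨fun h3 => absurd h3 hne.1, fun h3 => absurd h3 hne.2.2⟩
  · rw [Finset.sum_eq_zero, mul_zero]
    intro t ht
    rw [if_neg]
    intro hi
    exact h ⟨t, hT ▸ ht, hi⟩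

theorem dbar_continuous {φ : ℂ → ℂ} (hφ : ContDiff ℝ 1 φ) : Continuous (dbar φ) := by
  have hd : Continuous (fderiv ℝ φ) := hφ.continuous_fderiv (by norm_num)
  unfold dbar
  exact ((hd.clm_apply continuous_const).add
    (continuous_const.mul (hd.clm_apply continuous_const))).div_const _

theorem tri_open (a b c : ℂ) : IsOpen {z | InTri z a b c} := by
  have h : ∀ a b : ℂ, IsOpen {z | Lft z a b} := by
    intro a b
    refine isOpen_lt continuous_const ?_
    unfold cr
    fun_prop
  exact (h a b).inter ((h b c).inter (h c a))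

theorem tri_bounded {a b c : ℂ} (h : 0 < cr (b - a) (c - a)) :
    Bornology.IsBounded {z | InTri z a b c} := by
  rw [← image_DC h]
  have hb : Bornology.IsBounded DC := by
    refine (Metric.isBounded_closedBall (x := (0 : ℂ)) (r := 2)).subset ?_
    rintro z ⟨h1, h2, h3⟩
    rw [mem_closedBall_zero_iff]
    have := Complex.norm_le_abs_re_add_abs_im z
    rw [abs_of_pos h1, abs_of_pos h2] at this
    linarith
  have hc : IsCompact (closure DC) := hb.isCompact_closure
  have hcont : Continuous fun z => a + Lm (b - a) (c - a) z :=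
    continuous_const.add (LinearMap.continuous_of_finiteDimensional _)
  exact (hc.image hcont).isBounded.subset (image_mono subset_closure)

theorem dbar_intOn {φ : ℂ → ℂ} (hφ : ContDiff ℝ 1 φ) {a b c : ℂ} (h : 0 < cr (b - a) (c - a)) :
    IntegrableOn (dbar φ) {z | InTri z a b c} := by
  have h1 := (dbar_continuous hφ).continuousOn.integrableOn_compact
    (μ := volume) (tri_bounded h).isCompact_closure
  exact h1.mono_set subset_closure

/-- the integral of `hval` against `dbar φ` as a sum over oriented triangles -/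
theorem int_hval {N : Net ℂ} (hS : GP (S : Set ℂ)) (hT : N.T = delT S) {φ : ℂ → ℂ}
    (hφ : ContDiff ℝ 1 φ) :
    ∫ z, hval N z * dbar φ z =
      -(I / 2) * ∑ t ∈ delT S, htri N t * ((t.2.1 - t.1) * seg φ t.1 t.2.1) := by
  have h1 : ∀ z, hval N z * dbar φ z = ∑ t ∈ delT S,
      ({z | InTri z t.1 t.2.1 t.2.2} : Set ℂ).indicator (fun z => (htri N t / 3) * dbar φ z) z := by
    intro z
    rw [hval_eq hS hT, mul_assoc, Finset.sum_mul, Finset.mul_sum]
    refine Finset.sum_congr rfl fun t _ => ?_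
    by_cases hz : InTri z t.1 t.2.1 t.2.2
    · rw [if_pos hz, indicator_of_mem (show z ∈ {z | InTri z t.1 t.2.1 t.2.2} from hz)]
      ring
    · rw [if_neg hz, indicator_of_notMem (show z ∉ {z | InTri z t.1 t.2.1 t.2.2} from hz)]
      ring
  have hpos : ∀ t ∈ delT S, 0 < cr (t.2.1 - t.1) (t.2.2 - t.1) := by
    intro t ht
    obtain ⟨a, b, c⟩ := t
    obtain ⟨o, hTri⟩ := mem_delT_iff.1 ht
    exact hTri.pos
  simp only [h1]
  rw [integral_finsetSum]
  · have h2 : ∀ t ∈ delT S, ∫ z, ({z | InTri z t.1 t.2.1 t.2.2} : Set ℂ).indicator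
        (fun z => (htri N t / 3) * dbar φ z) z = -(I / 6) * (htri N t *
          ((t.2.1 - t.1) * seg φ t.1 t.2.1) + htri N (rt t) *
          (((rt t).2.1 - (rt t).1) * seg φ (rt t).1 (rt t).2.1) + htri N (rt (rt t)) *
          (((rt (rt t)).2.1 - (rt (rt t)).1) * seg φ (rt (rt t)).1 (rt (rt t)).2.1)) := by
      intro t ht
      rw [integral_indicator (tri_open _ _ _).measurableSet, integral_const_mul,
        tri_dbar hφ (hpos t ht), htri_rt N (rt t), htri_rt N t]
      simp only [rt]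
      ring
    rw [Finset.sum_congr rfl h2, ← Finset.mul_sum, Finset.sum_add_distrib, Finset.sum_add_distrib,
      sum_rt hS (fun t => htri N t * ((t.2.1 - t.1) * seg φ t.1 t.2.1)),
      sum_rt hS (fun t => htri N (rt t) * (((rt t).2.1 - (rt t).1) * seg φ (rt t).1 (rt t).2.1)),
      sum_rt hS (fun t => htri N t * ((t.2.1 - t.1) * seg φ t.1 t.2.1))]
    ring
  · intro t ht
    have h3 : IntegrableOn (fun z => (htri N t / 3) * dbar φ z) {z | InTri z t.1 t.2.1 t.2.2} :=
      (dbar_intOn hφ (hpos t ht)).const_mul _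
    exact h3.integrable_indicator (tri_open _ _ _).measurableSet

/-! ### cancellation along the edges -/

/-- the third vertex of the triangle to the right of `(a, b)` -/
def opp (S : Finset ℂ) (t : ℂ × ℂ × ℂ) : ℂ × ℂ × ℂ :=
  if h : ∃ e, (t.2.1, t.1, e) ∈ delT S then (t.2.1, t.1, h.choose) else t

theorem opp_eq (hS : GP (S : Set ℂ)) {a b c e : ℂ} (h : (b, a, e) ∈ delT S) :
    opp S (a, b, c) = (b, a, e) := by
  have h' : ∃ e, (b, a, e) ∈ delT S := ⟨e, h⟩
  have e1 : opp S (a, b, c) = (b, a, h'.choose) := by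
    unfold opp
    rw [dif_pos h']
  rw [e1, (g1 S hS).2.1 b a _ _ h'.choose_spec h]

theorem opp_hull {a b c : ℂ} (h : ∀ e, (b, a, e) ∉ delT S) : opp S (a, b, c) = (a, b, c) := by
  unfold opp
  rw [dif_neg]
  push Not
  exact h

theorem sum_edges (hS : GP (S : Set ℂ)) {g : ℂ → ℂ → ℂ}
    (hg : ∀ a b c e, (a, b, c) ∈ delT S → (b, a, e) ∈ delT S → g a b + g b a = 0)
    (hh : ∀ a b, hullE S a b → g a b = 0) : ∑ t ∈ delT S, g t.1 t.2.1 = 0 := by
  refine Finset.sum_involution (fun t _ => opp S t) ?_ ?_ ?_ ?_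
  · rintro ⟨a, b, c⟩ ht
    by_cases h : ∃ e, (b, a, e) ∈ delT S
    · obtain ⟨e, he⟩ := h
      rw [opp_eq hS he]
      exact hg a b c e ht he
    · push Not at h
      rw [opp_hull h, hh a b ⟨⟨c, ht⟩, h⟩, add_zero]
  · rintro ⟨a, b, c⟩ ht hne
    by_cases h : ∃ e, (b, a, e) ∈ delT S
    · obtain ⟨e, he⟩ := h
      rw [opp_eq hS he]
      intro h1
      exact (g1 S hS).2.2 _ _ _ ht (congrArg Prod.fst h1).symm
    · push Not at h
      exact absurd (hh a b ⟨⟨c, ht⟩, h⟩) hne
  · rintro ⟨a, b, c⟩ ht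
    by_cases h : ∃ e, (b, a, e) ∈ delT S
    · obtain ⟨e, he⟩ := h
      rw [opp_eq hS he]
      exact he
    · push Not at h
      rw [opp_hull h]
      exact ht
  · rintro ⟨a, b, c⟩ ht
    by_cases h : ∃ e, (b, a, e) ∈ delT S
    · obtain ⟨e, he⟩ := h
      simp only [opp_eq hS he, opp_eq hS ht]
    · push Not at h
      simp only [opp_hull h]

/-- the observable is symmetric on edges with two triangles -/
theorem F_symm {N : Net ℂ} (hN : HNet S N) {a b c e : ℂ} (h : (a, b, c) ∈ delT S)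
    (h' : (b, a, e) ∈ delT S) : N.F a b = N.F b a := by
  have h1 : ∀ a b c e : ℂ, (a, b, c) ∈ delT S → (b, a, e) ∈ delT S →
      ¬ ∃ k, N.ex k = (a, b) ∨ N.ex k = (b, a) := by
    rintro a b c e h h' ⟨k, hk | hk⟩
    · have := (hN.hex k).2 e
      rw [hk] at this
      exact this h'
    · have := (hN.hex k).2 c
      rw [hk] at this
      exact this h
  unfold Net.F
  rw [dif_neg (h1 a b c e h h'), dif_neg (h1 b a e c h' h)]
  unfold Net.Fob
  congr 1
  · refine Finset.sum_congr rfl fun k _ => ?_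
    rw [add_comm (N.cnt a b k)]
  · rw [add_comm (N.hj a b).card]

theorem om_cube : om ^ 3 = 1 := by
  unfold om
  rw [← Complex.exp_nat_mul, ← Complex.exp_two_pi_mul_I]
  congr 1
  push_cast
  ring

theorem om_sum : 1 + om + om ^ 2 = 0 := by
  have h1 : om ≠ 1 := by
    unfold om
    intro h
    rw [Complex.exp_eq_one_iff] at h
    obtain ⟨n, hn⟩ := h
    have h2 : ((2 * Real.pi / 3 : ℝ) : ℂ) * I = (((n : ℝ) * (2 * Real.pi) : ℝ) : ℂ) * I := by
      rw [hn]; push_cast; ring
    have h3 := mul_right_cancel₀ Complex.I_ne_zero h2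
    have h4 : 2 * Real.pi / 3 = (n : ℝ) * (2 * Real.pi) := by exact_mod_cast h3
    have h5 : (n : ℝ) = 1 / 3 := by
      have := Real.pi_pos
      field_simp at h4 ⊢
      nlinarith
    have h6 : (3 * n : ℤ) = 1 := by
      have : (3 : ℝ) * n = 1 := by rw [h5]; norm_num
      exact_mod_cast this
    omega
  have h2 : (om - 1) * (1 + om + om ^ 2) = 0 := by
    have := om_cube
    linear_combination this
  exact (mul_eq_zero.1 h2).resolve_left (sub_ne_zero.2 h1)

/-- local identity at an oriented triangle -/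
def LId (N : Net ℂ) (t : ℂ × ℂ × ℂ) : Prop := N.F t.1 t.2.1 = htri N t + N.Q t

theorem LId_of {N : Net ℂ} {t : ℂ × ℂ × ℂ} (h : ∃ h : ℂ, N.F t.1 t.2.1 = h + N.Q t ∧
    N.F t.2.1 t.2.2 = h + om * N.Q t ∧ N.F t.2.2 t.1 = h + om ^ 2 * N.Q t) : LId N t := by
  obtain ⟨h, h1, h2, h3⟩ := h
  unfold LId htri
  rw [h1, h2, h3]
  linear_combination -(N.Q t / 3) * om_sum

/-- the spin one amplitude of the rotated triangle, from the local identities -/
theorem Q_rt {N : Net ℂ} {t : ℂ × ℂ × ℂ} (h : ∃ h : ℂ, N.F t.1 t.2.1 = h + N.Q t ∧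
    N.F t.2.1 t.2.2 = h + om * N.Q t ∧ N.F t.2.2 t.1 = h + om ^ 2 * N.Q t)
    (h' : LId N (rt t)) : N.Q (rt t) = om * N.Q t := by
  have h1 := LId_of h
  obtain ⟨h, e1, e2, e3⟩ := h
  unfold LId at h1 h'
  rw [htri_rt] at h'
  simp only [rt] at h'
  rw [e1] at h1
  rw [e2] at h'
  have : h = htri N t := by linear_combination h1
  simp only [rt]
  linear_combination this - h'

/-- **discrete Stokes identity** (exact): sum over oriented triangles -/
theorem stokes {N : Net ℂ} (hN : HNet S N) {φ : ℂ → ℂ} (hφ : ContDiff ℝ 1 φ)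
    (hh : ∀ a b, hullE S a b → seg φ a b = 0)
    (hL : ∀ t ∈ delT S, seg φ t.1 t.2.1 ≠ 0 → LId N t) :
    ∫ z, hval N z * dbar φ z =
      (I / 2) * ∑ t ∈ delT S, N.Q t * ((t.2.1 - t.1) * seg φ t.1 t.2.1) := by
  rw [int_hval hN.gp hN.tri hφ]
  have h1 : ∑ t ∈ delT S, N.F t.1 t.2.1 * ((t.2.1 - t.1) * seg φ t.1 t.2.1) = 0 := by
    refine sum_edges hN.gp (g := fun a b => N.F a b * ((b - a) * seg φ a b)) ?_ ?_
    · intro a b c e h h'
      rw [F_symm hN h h', seg_symm φ a b]
      ring
    · intro a b h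
      rw [hh a b h]
      ring
  have h2 : ∑ t ∈ delT S, htri N t * ((t.2.1 - t.1) * seg φ t.1 t.2.1) =
      ∑ t ∈ delT S, (N.F t.1 t.2.1 * ((t.2.1 - t.1) * seg φ t.1 t.2.1) -
        N.Q t * ((t.2.1 - t.1) * seg φ t.1 t.2.1)) := by
    refine Finset.sum_congr rfl fun t ht => ?_
    by_cases h : seg φ t.1 t.2.1 = 0
    · rw [h]; ring
    · rw [hL t ht h]; ring
  rw [h2, Finset.sum_sub_distrib, h1]
  ring

end Crest.Agent.R143.B1x991
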