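import Crest.Agent.R143.B0D_346
import Crest.Agent.R143.DelG_806

/-!
# Row 143 (S0194), PART B, leaf B1: the observable as a step function on the open Delaunay triangles
(helper796)
-/

set_option autoImplicit false

noncomputable section

open scoped Classical

namespace Crest.Agent.R143.B1cx796

open Complex Set Filter Topology MeasureTheory
open Crest.Agent.R143.B0x346 Crest.Agent.R143.B0Dx346 Crest.Agent.R143.DelGx806

/-- mean of the observable over the sides of a triangle -/
def hm (N : Net ℂ) (t : ℂ × ℂ × ℂ) : ℂ := (N.F t.1 t.2.1 + N.F t.2.1 t.2.2 + N.F t.2.2 t.1) / 3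

/-- rotation -/
def rt (t : ℂ × ℂ × ℂ) : ℂ × ℂ × ℂ := (t.2.1, t.2.2, t.1)

theorem rt3 (t : ℂ × ℂ × ℂ) : rt (rt (rt t)) = t := rfl

theorem hm_rt (N : Net ℂ) (t : ℂ × ℂ × ℂ) : hm N (rt t) = hm N t := by
  simp only [hm, rt]; ring

/-- the open triangle -/
def opn (t : ℂ × ℂ × ℂ) : Set ℂ := {z | InTri z t.1 t.2.1 t.2.2}

theorem opn_rt (t : ℂ × ℂ × ℂ) : opn (rt t) = opn t := by
  ext z
  simp only [opn, InTri, rt, mem_ofPred_eq]
  tauto

theorem isOpen_lft (a b : ℂ) : IsOpen {z | Lft z a b} := by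
  simp only [Lft, cr]
  refine isOpen_lt continuous_const ?_
  fun_prop

theorem isOpen_opn (t : ℂ × ℂ × ℂ) : IsOpen (opn t) := by
  have h : opn t = {z | Lft z t.1 t.2.1} ∩ ({z | Lft z t.2.1 t.2.2} ∩ {z | Lft z t.2.2 t.1}) := rfl
  rw [h]
  exact (isOpen_lft _ _).inter ((isOpen_lft _ _).inter (isOpen_lft _ _))

theorem mem_rots {t s : ℂ × ℂ × ℂ} : s ∈ rots t ↔ s = t ∨ s = rt t ∨ s = rt (rt t) := Iff.rfl

variable {S : Finset ℂ} {N : Net ℂ}

theorem rt_mem (hS : GP (S : Set ℂ)) {t : ℂ × ℂ × ℂ} (h : t ∈ delT S) : rt t ∈ delT S :=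
  (g1 S hS).1 _ _ _ h

/-- reindexing by rotation -/
theorem sum_rt (hS : GP (S : Set ℂ)) {M : Type} [AddCommMonoid M] (f : ℂ × ℂ × ℂ → M) :
    ∑ t ∈ delT S, f (rt t) = ∑ t ∈ delT S, f t :=
  Finset.sum_bij' (fun t _ => rt t) (fun t _ => rt (rt t)) (fun _ h => rt_mem hS h)
    (fun _ h => rt_mem hS (rt_mem hS h)) (fun _ _ => rfl) (fun _ _ => rfl) fun _ _ => rfl

theorem sum_rt3 (hS : GP (S : Set ℂ)) (f : ℂ × ℂ × ℂ → ℂ) :
    ∑ t ∈ delT S, f t = (1 / 3) * ∑ t ∈ delT S, (f t + f (rt t) + f (rt (rt t))) := by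
  rw [Finset.sum_add_distrib, Finset.sum_add_distrib, sum_rt hS f, sum_rt hS fun t => f (rt t),
    sum_rt hS f]
  ring

theorem ne_of_mem {t : ℂ × ℂ × ℂ} (h : t ∈ delT S) : t.1 ≠ t.2.1 ∧ t.2.1 ≠ t.2.2 ∧ t.1 ≠ t.2.2 := by
  obtain ⟨o, h⟩ := mem_delT_iff.1 (show (t.1, t.2.1, t.2.2) ∈ delT S from h)
  exact h.ne

/-- the observable is a step function -/
theorem hval_eq (hS : GP (S : Set ℂ)) (hT : N.T = delT S) (z : ℂ) :
    hval N z = (1 / 3) * ∑ t ∈ delT S, (opn t).indicator (fun _ => hm N t) z := by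
  by_cases hz : ∃ t : ℂ × ℂ × ℂ, t ∈ N.T ∧ InTri z t.1 t.2.1 t.2.2
  · rw [hval, dif_pos hz]
    set t0 := hz.choose with ht0
    obtain ⟨h1, h2⟩ := hz.choose_spec
    rw [← ht0] at h1 h2
    have h1' : t0 ∈ delT S := hT ▸ h1
    have e1 : ∑ t ∈ delT S, (opn t).indicator (fun _ => hm N t) z =
        ∑ t ∈ ({t0, rt t0, rt (rt t0)} : Finset (ℂ × ℂ × ℂ)), hm N t0 := by
      have hsub : ({t0, rt t0, rt (rt t0)} : Finset (ℂ × ℂ × ℂ)) ⊆ delT S := by
        intro t ht
        simp only [Finset.mem_insert, Finset.mem_singleton] at ht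
        rcases ht with rfl | rfl | rfl
        · exact h1'
        · exact rt_mem hS h1'
        · exact rt_mem hS (rt_mem hS h1')
      rw [← Finset.sum_subset hsub]
      · refine Finset.sum_congr rfl fun t ht => ?_
        simp only [Finset.mem_insert, Finset.mem_singleton] at ht
        have hz0 : z ∈ opn t0 := h2
        rcases ht with rfl | rfl | rfl
        · rw [indicator_of_mem hz0]
        · rw [opn_rt, indicator_of_mem hz0, hm_rt]
        · rw [opn_rt, opn_rt, indicator_of_mem hz0, hm_rt, hm_rt]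
      · intro t ht hn
        refine indicator_of_notMem (fun hzt => hn ?_) _
        obtain ⟨o, ho⟩ := mem_delT_iff.1 (show (t0.1, t0.2.1, t0.2.2) ∈ delT S from h1')
        obtain ⟨o', ho'⟩ := mem_delT_iff.1 (show (t.1, t.2.1, t.2.2) ∈ delT S from ht)
        have hd := disj hS ho ho' (x := z) h2 (InO.inT hzt)
        have hd' : t ∈ rots t0 := hd
        rw [mem_rots] at hd'
        simpa using hd'
    rw [e1, Finset.sum_const]
    obtain ⟨n1, n2, n3⟩ := ne_of_mem h1'
    have hcard : ({t0, rt t0, rt (rt t0)} : Finset (ℂ × ℂ × ℂ)).card = 3 := by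
      rw [Finset.card_eq_three]
      refine ⟨t0, rt t0, rt (rt t0), ?_, ?_, ?_, rfl⟩
      · intro h; exact n1 (congrArg Prod.fst h)
      · intro h; exact n3 (congrArg Prod.fst h)
      · intro h; exact n2 (congrArg Prod.fst h)
    rw [hcard]
    simp only [hm, nsmul_eq_mul, Nat.cast_ofNat]
    ring
  · rw [hval, dif_neg hz, Finset.sum_eq_zero, mul_zero]
    intro t ht
    exact indicator_of_notMem (fun hzt => hz ⟨t, hT ▸ ht, hzt⟩) (fun _ => hm N t)

/-- the observable is measurable -/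
theorem hval_meas (hS : GP (S : Set ℂ)) (hT : N.T = delT S) : Measurable (hval N) := by
  have h : hval N = fun z => (1 / 3) * ∑ t ∈ delT S, (opn t).indicator (fun _ => hm N t) z :=
    funext fun z => hval_eq hS hT z
  rw [h]
  refine Measurable.const_mul ?_ _
  exact Finset.measurable_fun_sum _ fun t _ => measurable_const.indicator (isOpen_opn t).measurableSet

/-- **decomposition**: integrals against the observable -/
theorem int_hval (hS : GP (S : Set ℂ)) (hT : N.T = delT S) {f : ℂ → ℂ} (hf : Integrable f) :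
    ∫ z, hval N z * f z = (1 / 3) * ∑ t ∈ delT S, hm N t * ∫ z in opn t, f z := by
  have h : ∀ z, hval N z * f z =
      (1 / 3) * ∑ t ∈ delT S, hm N t * (opn t).indicator f z := by
    intro z
    rw [hval_eq hS hT, mul_assoc, Finset.sum_mul]
    congr 1
    refine Finset.sum_congr rfl fun t _ => ?_
    by_cases hz : z ∈ opn t
    · rw [indicator_of_mem hz, indicator_of_mem hz]
    · rw [indicator_of_notMem hz, indicator_of_notMem hz, zero_mul, mul_zero]
  simp_rw [h]
  rw [integral_const_mul, integral_finsetSum]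
  · congr 1
    refine Finset.sum_congr rfl fun t _ => ?_
    rw [integral_const_mul, integral_indicator (isOpen_opn t).measurableSet]
  · intro t _
    exact (hf.indicator (isOpen_opn t).measurableSet).const_mul _

end Crest.Agent.R143.B1cx796
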