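import Crest.Agent.R143.B1e_991
import Crest.Agent.R143.Loc_922

/-!
# Row 143 (S0194), block B1: glue with the domains (helper991)

`W = closedBall z₀ (r + 2 d)`. If every ball of radius `d` near `W` contains a site and the outside of
the domain does not meet the ball of radius `r + 3 d` :
* `touch_near`   : the vertices of the triangles of `touch z₀ r F` are at distance `< r + 2 d`
* `touch_live`   : their sides are alive
* `hull_far`     : no hull edge meets the ball of radius `r + 2 d`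
* `stk_dom`      : the two Stokes identities
* `touch_local`  : the set `touch` is local
-/

set_option autoImplicit false

noncomputable section

open scoped Classical

namespace Crest.Agent.R143.B1gx991

open Complex Set MeasureTheory
open Crest.Agent.R143.B0x346 Crest.Agent.R143.B0Dx346 Crest.Agent.R143.BC0x336
open Crest.Agent.R143.DelGx806 Crest.Agent.R143.B1x991 Crest.Agent.R143.B1ex991
open Crest.Agent.R143.B1bx796 (touch Stk)
open Crest.Agent.R143.Locx922

variable {F F' : Finset ℂ} {d r : ℝ} {z₀ : ℂ}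

/-- a point of the side is in the closed triangle -/
theorem side_inT {a b c x : ℂ} (hp : 0 < cr (b - a) (c - a)) (hx : x ∈ segment ℝ a b) :
    InT x a b c := by
  rw [segment_eq_image'] at hx
  obtain ⟨s, ⟨h0, h1⟩, rfl⟩ := hx
  have e1 : cr (b - a) (a + s • (b - a) - a) = 0 := by
    rw [Complex.real_smul]
    simp only [cr, Complex.add_re, Complex.add_im, Complex.sub_re, Complex.sub_im, Complex.mul_re,
      Complex.mul_im, Complex.ofReal_re, Complex.ofReal_im]
    ring
  have e2 : cr (c - b) (a + s • (b - a) - b) = (1 - s) * cr (b - a) (c - a) := by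
    rw [Complex.real_smul]
    simp only [cr, Complex.add_re, Complex.add_im, Complex.sub_re, Complex.sub_im, Complex.mul_re,
      Complex.mul_im, Complex.ofReal_re, Complex.ofReal_im]
    ring
  have e3 : cr (a - c) (a + s • (b - a) - c) = s * cr (b - a) (c - a) := by
    rw [Complex.real_smul]
    simp only [cr, Complex.add_re, Complex.add_im, Complex.sub_re, Complex.sub_im, Complex.mul_re,
      Complex.mul_im, Complex.ofReal_re, Complex.ofReal_im]
    ring
  refine ⟨?_, ?_, ?_⟩
  · rw [e1]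
  · rw [e2]; exact mul_nonneg (by linarith) hp.le
  · rw [e3]; exact mul_nonneg h0 hp.le

theorem tri_pos {t : ℂ × ℂ × ℂ} (ht : t ∈ delT F) : 0 < cr (t.2.1 - t.1) (t.2.2 - t.1) := by
  obtain ⟨a, b, c⟩ := t
  obtain ⟨o, hTri⟩ := mem_delT_iff.1 ht
  exact hTri.pos

/-- the vertices of the triangles which touch the ball -/
theorem touch_near (hd : 0 < d) (hH : Hol (F : Set ℂ) (Metric.closedBall z₀ r) d)
    {t : ℂ × ℂ × ℂ} (ht : t ∈ touch z₀ r F) :
    ‖t.1 - z₀‖ < r + 2 * d ∧ ‖t.2.1 - z₀‖ < r + 2 * d ∧ ‖t.2.2 - z₀‖ < r + 2 * d := by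
  rw [touch, Finset.mem_filter] at ht
  obtain ⟨ht, x, hx, hxr⟩ := ht
  have hi := side_inT (tri_pos ht) hx
  have hxW : x ∈ Metric.closedBall z₀ r := by
    rw [Metric.mem_closedBall, dist_eq_norm]; exact hxr.le
  have hD : Del (F : Set ℂ) t.1 t.2.1 t.2.2 := DelGx806.mem_delT.1 ht
  obtain ⟨o, -, -, -, -, -, ga, gb, gc⟩ :=
    del_small hd hH hxW (InT.inD (tri_pos ht) hi) hD
  have n1 := norm_tri t.1 x z₀
  have n2 := norm_tri t.2.1 x z₀
  have n3 := norm_tri t.2.2 x z₀
  exact ⟨by linarith, by linarith, by linarith⟩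

/-- the sides of the triangles which touch the ball are short -/
theorem touch_short (hd : 0 < d) (hH : Hol (F : Set ℂ) (Metric.closedBall z₀ r) d)
    {t : ℂ × ℂ × ℂ} (ht : t ∈ touch z₀ r F) : ‖t.2.1 - t.1‖ < 2 * d := by
  rw [touch, Finset.mem_filter] at ht
  obtain ⟨ht, x, hx, hxr⟩ := ht
  have hi := side_inT (tri_pos ht) hx
  have hxW : x ∈ Metric.closedBall z₀ r := by
    rw [Metric.mem_closedBall, dist_eq_norm]; exact hxr.le
  have hD : Del (F : Set ℂ) t.1 t.2.1 t.2.2 := DelGx806.mem_delT.1 ht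
  have := (del_side hd hH hxW (InT.inD (tri_pos ht) hi) hD).1
  rwa [norm_sub_rev] at this

/-- no hull edge meets the ball -/
theorem hull_far (hd : 0 < d) (hH : Hol (F : Set ℂ) (Metric.closedBall z₀ r) d) {a b : ℂ}
    (h : hullE F a b) : ∀ x ∈ segment ℝ a b, r ≤ ‖x - z₀‖ := by
  intro x hx
  by_contra hcon
  push Not at hcon
  have h1 := lft_hull hd hH (w := x) (by
    rw [Metric.mem_closedBall, dist_eq_norm]; exact hcon.le) h
  rw [segment_eq_image'] at hx
  obtain ⟨s, -, rfl⟩ := hx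
  have e1 : cr (b - a) (a + s • (b - a) - a) = 0 := by
    rw [Complex.real_smul]
    simp only [cr, Complex.add_re, Complex.add_im, Complex.sub_re, Complex.sub_im, Complex.mul_re,
      Complex.mul_im, Complex.ofReal_re, Complex.ofReal_im]
    ring
  unfold Lft at h1
  rw [e1] at h1
  exact lt_irrefl _ h1

/-- the sides at a site near `z₀` are alive -/
theorem side_live (hd : 0 < d) {D : Dom} (hN : HNet F (D.netS F))
    (hH : Hol (F : Set ℂ) (Metric.closedBall z₀ (r + 2 * d)) d)
    (hO : ∀ z, ‖z - z₀‖ < r + 3 * d → z ∉ D.out) {a : ℂ} (ha : ‖a - z₀‖ ≤ r + 2 * d) (b : ℂ) :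
    (a, b) ∉ (D.netS F).kl := by
  have haW : a ∈ Metric.closedBall z₀ (r + 2 * d) := by
    rw [Metric.mem_closedBall, dist_eq_norm]; exact ha
  rw [(netS_kl_W hd hN hH haW).1]
  rintro ⟨z, h1, h2⟩
  have h3 := (vedge_sub_ball hd hH haW h1).1
  have h4 := norm_tri z a z₀
  exact hO z (by linarith) h2

/-- the triangles which touch the ball have live sides -/
theorem touch_live (hd : 0 < d) {D : Dom} (hN : HNet F (D.netS F))
    (hH : Hol (F : Set ℂ) (Metric.closedBall z₀ (r + 2 * d)) d)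
    (hO : ∀ z, ‖z - z₀‖ < r + 3 * d → z ∉ D.out) {t : ℂ × ℂ × ℂ} (ht : t ∈ touch z₀ r F) :
    (t.1, t.2.1) ∉ (D.netS F).kl ∧ (t.2.1, t.2.2) ∉ (D.netS F).kl ∧
      (t.2.2, t.1) ∉ (D.netS F).kl := by
  obtain ⟨h1, h2, h3⟩ := touch_near hd
    (hH.mono (Metric.closedBall_subset_closedBall (by linarith))) ht
  exact ⟨side_live hd hN hH hO h1.le _, side_live hd hN hH hO h2.le _,
    side_live hd hN hH hO h3.le _⟩

/-- **B1 for domains**: the two Stokes identities for the mollifier -/
theorem stk_dom (hJ : J1) (hd : 0 < d) (hr : 0 < r) {D : Dom} (hN : HNet F (D.netS F))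
    (hH : Hol (F : Set ℂ) (Metric.closedBall z₀ (r + 2 * d)) d)
    (hO : ∀ z, ‖z - z₀‖ < r + 3 * d → z ∉ D.out) : Stk F (D.netS F) r z₀ :=
  stk_J1 hJ hN hr (fun _ _ h => hull_far hd
    (hH.mono (Metric.closedBall_subset_closedBall (by linarith))) h)
    fun _ ht => touch_live hd hN hH hO ht

/-- **locality of the set `touch`** -/
theorem touch_local (hd : 0 < d) (hH : Hol (F : Set ℂ) (Metric.closedBall z₀ r) d)
    (hA : Agr (F : Set ℂ) (F' : Set ℂ) (Metric.closedBall z₀ r) (2 * d)) :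
    touch z₀ r F = touch z₀ r F' := by
  ext ⟨a, b, c⟩
  rw [touch, touch, Finset.mem_filter, Finset.mem_filter]
  have key : ∀ G G' : Finset ℂ, Hol (G : Set ℂ) (Metric.closedBall z₀ r) d →
      Agr (G : Set ℂ) (G' : Set ℂ) (Metric.closedBall z₀ r) (2 * d) →
      (a, b, c) ∈ delT G → (∃ x ∈ segment ℝ a b, ‖x - z₀‖ < r) → (a, b, c) ∈ delT G' := by
    rintro G G' hG hGG ht ⟨x, hx, hxr⟩
    have hxW : x ∈ Metric.closedBall z₀ r := by
      rw [Metric.mem_closedBall, dist_eq_norm]; exact hxr.le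
    exact (delT_local hd hG hGG hxW (side_inT (tri_pos ht) hx)).1 ht
  constructor
  · rintro ⟨h1, h2⟩
    exact ⟨key F F' hH hA h1 h2, h2⟩
  · rintro ⟨h1, h2⟩
    exact ⟨key F' F (hH.agr hA) hA.symm h1 h2, h2⟩

/-- version for the sites of two domains in one good environment -/
theorem touch_sites {ε M M' : ℝ} {ω : Crest.ProbabilityR.Voronoi.Sample} {D D' : Dom} (hd : 0 < d)
    (hE : Env ε d M D.c D.L ω) (hE' : Env ε d M' D'.c D'.L ω)
    (hb : ‖z₀ - D.c‖ + r + 2 * d ≤ D.L) (hb' : ‖z₀ - D'.c‖ + r + 2 * d ≤ D'.L) :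
    touch z₀ r (D.sites ε ω) = touch z₀ r (D'.sites ε ω) := by
  refine touch_local hd ((Env.hol_sites hE).mono ?_) ?_
  · intro w hw
    rw [Metric.mem_closedBall, dist_eq_norm] at hw ⊢
    have := norm_tri w z₀ D.c
    linarith
  · have h := sites_agr (ω := ω) (ω' := ω) hE.fin hE'.fin (z0 := z₀) (R := r + 2 * d)
      (fun s _ => Iff.rfl) (by linarith) (by linarith) (2 * d)
    rw [add_sub_cancel_right] at h
    exact h

end Crest.Agent.R143.B1gx991
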