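import Crest.Agent.R143.B1g_991
import Crest.Agent.R143.Rel2_63

/-!
# Row 143 (S0194), block B1: unconditional form (helper991)

`stk_net`, `stkD` : the two Stokes identities for the mollifier, no hypothesis on joins (the local
identities are `Rel2x63.relAt`; the sides near `z₀` are no marks)
-/

set_option autoImplicit false

noncomputable section

open scoped Classical

namespace Crest.Agent.R143.B1hx991

open Complex Set MeasureTheory
open Crest.Agent.R143.B0x346 Crest.Agent.R143.B0Dx346 Crest.Agent.R143.BC0x336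
open Crest.Agent.R143.DelGx806 Crest.Agent.R143.B1x991 Crest.Agent.R143.B1ex991
  Crest.Agent.R143.B1gx991
open Crest.Agent.R143.B1bx796 (touch Stk)
open Crest.Agent.R143.Locx922

variable {F F' : Finset ℂ} {d r : ℝ} {z₀ : ℂ}

/-- the local identity at a triangle with live sides and vertices in `W` -/
theorem lid_of {N : Net ℂ} {W : Set ℂ} (hd : 0 < d) (hN : HNet F N) (hH : Hol (F : Set ℂ) W d)
    {t : ℂ × ℂ × ℂ} (ht : t ∈ delT F) (h1 : (t.1, t.2.1) ∉ N.kl) (h2 : (t.2.1, t.2.2) ∉ N.kl)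
    (h3 : (t.2.2, t.1) ∉ N.kl) (ha : t.1 ∈ W) (hb : t.2.1 ∈ W) : LId N t := by
  refine LId_of (J1x872.j1 Rel2x63.p1all N F hN t ht h1 h2 h3 (Or.inr ⟨?_, ?_, ?_⟩))
  · rintro ⟨k, hk⟩
    exact (mark_W (b := t.2.1) hd hN hH ha k).1 hk
  · rintro ⟨k, hk⟩
    exact (mark_W (b := t.2.2) hd hN hH hb k).1 hk
  · rintro ⟨k, hk⟩
    exact (mark_W (b := t.2.2) hd hN hH ha k).2 hk

/-- **B1**, unconditional: a network with live sides near `z₀` -/
theorem stk_net {N : Net ℂ} (hd : 0 < d) (hr : 0 < r) (hN : HNet F N)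
    (hH : Hol (F : Set ℂ) (Metric.closedBall z₀ (r + 2 * d)) d)
    (hL : ∀ t ∈ touch z₀ r F, (t.1, t.2.1) ∉ N.kl ∧ (t.2.1, t.2.2) ∉ N.kl ∧
      (t.2.2, t.1) ∉ N.kl) : Stk F N r z₀ := by
  have hH' := hH.mono (Metric.closedBall_subset_closedBall (show r ≤ r + 2 * d by linarith))
  refine stk hN hr (fun _ _ h => hull_far hd hH' h) fun t ht => ?_
  obtain ⟨h1, h2, h3⟩ := hL t ht
  obtain ⟨n1, n2, n3⟩ := touch_near hd hH' ht
  have htT : t ∈ delT F := by
    rw [touch, Finset.mem_filter] at ht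
    exact ht.1
  refine lid_of hd hN hH htT h1 h2 h3 ?_ ?_
  · rw [Metric.mem_closedBall, dist_eq_norm]; exact n1.le
  · rw [Metric.mem_closedBall, dist_eq_norm]; exact n2.le

/-- **B1** for domains, unconditional -/
theorem stkD (hd : 0 < d) (hr : 0 < r) {D : Dom} (hN : HNet F (D.netS F))
    (hH : Hol (F : Set ℂ) (Metric.closedBall z₀ (r + 2 * d)) d)
    (hO : ∀ z, ‖z - z₀‖ < r + 3 * d → z ∉ D.out) : Stk F (D.netS F) r z₀ :=
  stk_net hd hr hN hH fun _ ht => touch_live hd hN hH hO ht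

/-- **B1** for the sites of a domain in a good environment -/
theorem stk_env {ε M : ℝ} {ω : Crest.ProbabilityR.Voronoi.Sample} {D : Dom} (hd : 0 < d)
    (hr : 0 < r) (hE : Env ε d M D.c D.L ω)
    (hN : HNet (D.sites ε ω) (D.netS (D.sites ε ω)))
    (hb : ‖z₀ - D.c‖ + r + 4 * d ≤ D.L) (hO : ∀ z, ‖z - z₀‖ < r + 3 * d → z ∉ D.out) :
    Stk (D.sites ε ω) (D.netS (D.sites ε ω)) r z₀ := by
  refine stkD hd hr hN ((Env.hol_sites hE).mono ?_) hO
  intro w hw
  rw [Metric.mem_closedBall, dist_eq_norm] at hw ⊢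
  have := norm_tri w z₀ D.c
  linarith

end Crest.Agent.R143.B1hx991
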