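import Crest.Agent.R143.TwoS_927
import Crest.Agent.R143.B0_346

/-!
Row 143, block B4 (helper927): from the mixing estimate on a short real segment and (ZF) to
`Q_t(x) = lam * Q_t(y) * (1 + O(η))` for all the common faces `t`.

* `Lau X` : Laurent polynomial with nonnegative coefficients;
* `core` : abstract transport of proportionality;
* `b4` : network form; `err_tendsto` : the error tends to zero for `ρ = exp (-√(log (1/ε)))`.
-/

set_option autoImplicit false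

open Complex Set Metric Filter
open scoped Topology Real

namespace Crest.Agent.R143.B4x927

open Crest.Agent.R143.TwoSx927 Crest.Agent.R143.B0x346

/-! ### Laurent polynomials with nonnegative coefficients -/

/-- Laurent polynomial with nonnegative coefficients -/
def Lau (X : ℂ → ℂ) : Prop :=
  ∃ (F : Finset ℤ) (c : ℤ → ℝ), (∀ k, 0 ≤ c k) ∧ ∀ z : ℂ, X z = ∑ k ∈ F, (c k : ℂ) * z ^ k

theorem Lau.diff {X : ℂ → ℂ} (h : Lau X) {U : Set ℂ} (hU : ∀ z ∈ U, z ≠ 0) :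
    DifferentiableOn ℂ X U := by
  obtain ⟨F, c, -, hX⟩ := h
  have h1 : X = fun z => ∑ k ∈ F, (c k : ℂ) * z ^ k := funext hX
  rw [h1]
  apply DifferentiableOn.fun_sum
  intro k _ z hz
  exact ((differentiableAt_zpow.mpr (Or.inl (hU z hz))).const_mul _).differentiableWithinAt

theorem Lau.real {X : ℂ → ℂ} (h : Lau X) {x : ℝ} (hx : 0 < x) :
    X x = ((X x).re : ℂ) ∧ 0 ≤ (X x).re := by
  obtain ⟨F, c, hc, hX⟩ := h
  have h1 : X x = ((∑ k ∈ F, c k * x ^ k : ℝ) : ℂ) := by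
    rw [hX]; push_cast; rfl
  rw [h1, Complex.ofReal_re]
  refine ⟨rfl, Finset.sum_nonneg fun k _ => mul_nonneg (hc k) (zpow_pos hx k).le⟩

theorem Lau.im {X : ℂ → ℂ} (h : Lau X) {x : ℝ} (hx : 0 < x) : (X x).im = 0 := by
  rw [(h.real hx).1]; simp

theorem Lau.pos {X : ℂ → ℂ} (h : Lau X) (h1 : 0 < (X (1 : ℝ)).re) {x : ℝ} (hx : 0 < x) :
    0 < (X x).re := by
  obtain ⟨F, c, hc, hX⟩ := h
  have e : ∀ y : ℝ, (X y).re = ∑ k ∈ F, c k * y ^ k := by
    intro y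
    have : X y = ((∑ k ∈ F, c k * y ^ k : ℝ) : ℂ) := by
      rw [hX]; push_cast; rfl
    rw [this, Complex.ofReal_re]
  rw [e] at h1 ⊢
  obtain ⟨k, hk, hk0⟩ := Finset.exists_ne_zero_of_sum_ne_zero h1.ne'
  refine Finset.sum_pos' (fun k _ => mul_nonneg (hc k) (zpow_pos hx k).le) ⟨k, hk, ?_⟩
  have : 0 < c k := lt_of_le_of_ne (hc k) (by rintro h; rw [← h] at hk0; simp at hk0)
  exact mul_pos this (zpow_pos hx k)

theorem Lau.norm_le {X : ℂ → ℂ} (h : Lau X) (z : ℂ) : ‖X z‖ ≤ (X (‖z‖ : ℝ)).re := by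
  obtain ⟨F, c, hc, hX⟩ := h
  have : X (‖z‖ : ℝ) = ((∑ k ∈ F, c k * ‖z‖ ^ k : ℝ) : ℂ) := by
    rw [hX]; push_cast; rfl
  rw [this, Complex.ofReal_re, hX]
  refine (norm_sum_le _ _).trans (Finset.sum_le_sum fun k _ => ?_)
  rw [norm_mul, norm_zpow, Complex.norm_real, Real.norm_eq_abs, abs_of_nonneg (hc k)]

/-! ### abstract form -/

/-- the transported error -/
noncomputable def err (C c L η ρ : ℝ) : ℝ := C * (η ^ (ex c ρ) * L ^ (1 - ex c ρ))

theorem err_nonneg {C c L η ρ : ℝ} (hC : 0 ≤ C) (hL : 0 ≤ L) (hη : 0 ≤ η) :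
    0 ≤ err C c L η ρ := by
  unfold err
  positivity

/-- `|a - b| ≤ η b` and `|b - a| ≤ η a` : the logarithms differ by at most `η` -/
theorem log_close {a b η : ℝ} (ha : 0 < a) (hb : 0 < b) (h1 : |a - b| ≤ η * b)
    (h2 : |b - a| ≤ η * a) : |Real.log a - Real.log b| ≤ η := by
  have key : ∀ x y : ℝ, 0 < x → 0 < y → |x - y| ≤ η * y → Real.log x - Real.log y ≤ η := by
    intro x y hx hy h
    rw [← Real.log_div hx.ne' hy.ne']
    have h3 : x / y ≤ 1 + η := by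
      rw [div_le_iff₀ hy]
      have := le_abs_self (x - y)
      linarith
    have h4 := Real.log_le_sub_one_of_pos (div_pos hx hy)
    linarith
  rw [abs_le]
  exact ⟨by linarith [key b a hb ha h2], key a b ha hb h1⟩

theorem core {U : Set ℂ} (hUo : IsOpen U) (hUs : IsSimplyConnected U) {d : ℝ} (hd : 0 < d)
    (hseg : ∀ x ∈ Icc (1 : ℝ) (1 + d), (x : ℂ) ∈ U) {p : ℂ} (hp : p ∈ U) {ra rb : ℝ}
    (hra : 0 < ra) (hU : ∀ z ∈ U, ‖z‖ ∈ Icc ra rb) :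
    ∃ C c : ℝ, 1 ≤ C ∧ 0 < c ∧ c ≤ 1 ∧ ∀ {ι : Type} (X X' : ι → ℂ → ℂ) (L η ρ : ℝ),
      0 < η → η ≤ L → 0 < ρ → ρ ≤ d → ρ ≤ 1 →
      (∀ t, Lau (X t)) → (∀ t, Lau (X' t)) →
      (∀ t, ∀ z ∈ U, X t z ≠ 0) → (∀ t, ∀ z ∈ U, X' t z ≠ 0) →
      (∀ t, Real.exp (-L) ≤ (X t (1 : ℝ)).re) → (∀ t, Real.exp (-L) ≤ (X' t (1 : ℝ)).re) →
      (∀ t, ∀ x ∈ Icc ra rb, (X t (x : ℝ)).re ≤ Real.exp L) →
      (∀ t, ∀ x ∈ Icc ra rb, (X' t (x : ℝ)).re ≤ Real.exp L) →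
      (∀ x ∈ Icc (1 : ℝ) (1 + ρ), ∀ s t,
        |(X t (x : ℝ)).re * (X' s (x : ℝ)).re - (X s (x : ℝ)).re * (X' t (x : ℝ)).re| ≤
          η * ((X s (x : ℝ)).re * (X' t (x : ℝ)).re)) →
      err C c L η ρ ≤ 1 →
      ∃ lam : ℂ, lam ≠ 0 ∧ ∀ t, ‖X t p - lam * X' t p‖ ≤ 2 * err C c L η ρ * ‖X t p‖ := by
  obtain ⟨C, c, hC, hc0, hc1, h⟩ := transport_short_diff hUo hUs hd hseg hp
  refine ⟨C, c, hC, hc0, hc1, ?_⟩
  intro ι X X' L η ρ hη0 hηL hρ hρd hρ1 hX hX' h0 h0' hlo hlo' hup hup' hmix herr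
  rcases isEmpty_or_nonempty ι with hι | ⟨⟨s⟩⟩
  · exact ⟨1, one_ne_zero, fun t => (hι.false t).elim⟩
  have hU0 : ∀ z ∈ U, z ≠ 0 := by
    intro z hz hz0
    have := (hU z hz).1
    rw [hz0, norm_zero] at this
    linarith
  have hnn : ∀ {Y : ℂ → ℂ}, Lau Y → (∀ x ∈ Icc ra rb, (Y (x : ℝ)).re ≤ Real.exp L) →
      ∀ z ∈ U, ‖Y z‖ ≤ Real.exp L := fun hY hYb z hz => (hY.norm_le z).trans (hYb _ (hU z hz))
  have hps : ∀ {Y : ℂ → ℂ}, Lau Y → Real.exp (-L) ≤ (Y (1 : ℝ)).re → ∀ x : ℝ, 0 < x →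
      0 < (Y x).re := fun hY hYl x hx => hY.pos (lt_of_lt_of_le (Real.exp_pos _) hYl) hx
  refine ⟨X s p / X' s p, div_ne_zero (h0 s p hp) (h0' s p hp), fun t => ?_⟩
  have key := (h ![X s, X' t, X t, X' s] L η ρ hη0 hηL hρ hρd hρ1
    (by intro i; fin_cases i
        · exact (hX s).diff hU0
        · exact (hX' t).diff hU0
        · exact (hX t).diff hU0
        · exact (hX' s).diff hU0)
    (by intro i; fin_cases i
        · exact h0 s
        · exact h0' t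
        · exact h0 t
        · exact h0' s)
    (by intro i; fin_cases i
        · exact hnn (hX s) (hup s)
        · exact hnn (hX' t) (hup' t)
        · exact hnn (hX t) (hup t)
        · exact hnn (hX' s) (hup' s))
    (by
      intro i x hx
      have hx0 : 0 < x := by linarith [hx.1]
      fin_cases i
      · exact ⟨(hX s).im hx0, hps (hX s) (hlo s) x hx0⟩
      · exact ⟨(hX' t).im hx0, hps (hX' t) (hlo' t) x hx0⟩
      · exact ⟨(hX t).im hx0, hps (hX t) (hlo t) x hx0⟩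
      · exact ⟨(hX' s).im hx0, hps (hX' s) (hlo' s) x hx0⟩)
    (by intro i; fin_cases i
        · exact hlo s
        · exact hlo' t
        · exact hlo t
        · exact hlo' s)
    (by
      intro x hx
      have hx0 : 0 < x := by linarith [hx.1]
      have p1 := hps (hX s) (hlo s) x hx0
      have p2 := hps (hX' t) (hlo' t) x hx0
      have p3 := hps (hX t) (hlo t) x hx0
      have p4 := hps (hX' s) (hlo' s) x hx0
      have m1 := hmix x hx s t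
      have m2 := hmix x hx t s
      have := log_close (mul_pos p3 p4) (mul_pos p1 p2) m1 m2
      rw [Real.log_mul p3.ne' p4.ne', Real.log_mul p1.ne' p2.ne', abs_sub_comm] at this
      simp only [Matrix.cons_val_zero, Matrix.cons_val_one, Matrix.cons_val]
      convert this using 2
      ring)
    herr).2
  simp only [Matrix.cons_val_zero, Matrix.cons_val_one, Matrix.cons_val] at key
  have h4 := h0' s p hp
  have h5 : 0 < ‖X' s p‖ := norm_pos_iff.mpr h4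
  have h6 : X t p - X s p / X' s p * X' t p = -((X s p * X' t p - X t p * X' s p) / X' s p) := by
    field_simp
    ring
  rw [h6, norm_neg, norm_div, div_le_iff₀ h5]
  calc ‖X s p * X' t p - X t p * X' s p‖ ≤ 2 * (C * (η ^ ex c ρ * L ^ (1 - ex c ρ))) *
        ‖X t p * X' s p‖ := key
    _ = 2 * err C c L η ρ * ‖X t p‖ * ‖X' s p‖ := by
        rw [norm_mul]; unfold err; ring

/-- relative error with respect to the other term -/
theorem swap_rel {a b : ℂ} {e : ℝ} (h : ‖a - b‖ ≤ e * ‖a‖) (he : e ≤ 1 / 2) :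
    ‖a - b‖ ≤ 2 * e * ‖b‖ := by
  have h1 : ‖a‖ ≤ ‖a - b‖ + ‖b‖ := by
    have := norm_add_le (a - b) b
    rwa [sub_add_cancel] at this
  have h2 : ‖a‖ ≤ 2 * ‖b‖ := by nlinarith [norm_nonneg a, norm_nonneg b]
  have h0 : 0 ≤ e ∨ ‖a‖ = 0 := by
    by_cases ha : ‖a‖ = 0
    · exact Or.inr ha
    · left
      have ha' : 0 < ‖a‖ := lt_of_le_of_ne (norm_nonneg _) (Ne.symm ha)
      by_contra hcon
      rw [not_le] at hcon
      nlinarith [norm_nonneg (a - b)]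
  rcases h0 with h0 | h0
  · nlinarith [norm_nonneg a, norm_nonneg b]
  · rw [h0, mul_zero] at h
    have h3 : ‖a - b‖ = 0 := le_antisymm h (norm_nonneg _)
    have h4 : a - b = 0 := norm_eq_zero.mp h3
    have h5 : a = 0 := norm_eq_zero.mp h0
    have h6 : b = 0 := by rw [h5, zero_sub, neg_eq_zero] at h4; exact h4
    rw [h3, h6]; simp

/-! ### network form -/

/-- the position of the base point and of the lifts -/
structure Pos (N : Net ℂ) (t : ℂ × ℂ × ℂ) (x : ℂ) (lf : ℤ → ℝ) (a0 : ℝ) : Prop where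
  l0 : Lft x t.1 t.2.1
  l1 : Lft x t.2.1 t.2.2
  l2 : Lft x t.2.2 t.1
  lift : Lift N x lf
  dir : ∃ r : ℝ, 0 < r ∧ mid (t.1, t.2.1) - x = (r : ℂ) * Complex.exp (a0 * Complex.I)

/-- **leaf B4L**: the winding polynomial is a Laurent polynomial -/
def B4L : Prop := ∀ (S : Finset ℂ) (N : Net ℂ), HNet S N → ∀ t ∈ delT S, ∀ x : ℂ,
  ∀ (lf : ℤ → ℝ) (a0 : ℝ), Pos N t x lf a0 → Lau (N.X t x lf a0)

/-- **B4**: transport of the proportionality to the third root of unity -/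
theorem b4 {U : Set ℂ} (hZF : ZF U) (hXom : X_om) (hL : B4L) (hUo : IsOpen U)
    (hUs : IsSimplyConnected U) {d : ℝ} (hd : 0 < d)
    (hseg : ∀ x ∈ Icc (1 : ℝ) (1 + d), (x : ℂ) ∈ U) (hp : om ∈ U) {ra rb : ℝ}
    (hra : 0 < ra) (hU : ∀ z ∈ U, ‖z‖ ∈ Icc ra rb) :
    ∃ C c : ℝ, 1 ≤ C ∧ 0 < c ∧ c ≤ 1 ∧ ∀ (S S' : Finset ℂ) (N N' : Net ℂ), HNet S N → HNet S' N' →
      ∀ (T : Set (ℂ × ℂ × ℂ)), T ⊆ (delT S : Set (ℂ × ℂ × ℂ)) → T ⊆ (delT S' : Set (ℂ × ℂ × ℂ)) →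
      ∀ (pt : ℂ × ℂ × ℂ → ℂ) (lf lf' : ℂ × ℂ × ℂ → ℤ → ℝ) (a0 a0' : ℂ × ℂ × ℂ → ℝ) (L η ρ : ℝ),
      0 < η → η ≤ L → 0 < ρ → ρ ≤ d → ρ ≤ 1 →
      (∀ t ∈ T, Pos N t (pt t) (lf t) (a0 t)) → (∀ t ∈ T, Pos N' t (pt t) (lf' t) (a0' t)) →
      (∀ t ∈ T, Real.exp (-L) ≤ (N.X t (pt t) (lf t) (a0 t) (1 : ℝ)).re) →
      (∀ t ∈ T, Real.exp (-L) ≤ (N'.X t (pt t) (lf' t) (a0' t) (1 : ℝ)).re) →
      (∀ t ∈ T, ∀ x ∈ Icc ra rb, (N.X t (pt t) (lf t) (a0 t) (x : ℝ)).re ≤ Real.exp L) →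
      (∀ t ∈ T, ∀ x ∈ Icc ra rb, (N'.X t (pt t) (lf' t) (a0' t) (x : ℝ)).re ≤ Real.exp L) →
      (∀ x ∈ Icc (1 : ℝ) (1 + ρ), ∀ s ∈ T, ∀ t ∈ T,
        |(N.X t (pt t) (lf t) (a0 t) (x : ℝ)).re * (N'.X s (pt s) (lf' s) (a0' s) (x : ℝ)).re -
          (N.X s (pt s) (lf s) (a0 s) (x : ℝ)).re * (N'.X t (pt t) (lf' t) (a0' t) (x : ℝ)).re| ≤
          η * ((N.X s (pt s) (lf s) (a0 s) (x : ℝ)).re *
            (N'.X t (pt t) (lf' t) (a0' t) (x : ℝ)).re)) →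
      err C c L η ρ ≤ 1 →
      ∃ lam : ℂ, lam ≠ 0 ∧ ∀ t ∈ T, ‖N.Q t - lam * N'.Q t‖ ≤ 2 * err C c L η ρ * ‖N.Q t‖ := by
  obtain ⟨C, c, hC, hc0, hc1, h⟩ := core hUo hUs hd hseg hp hra hU
  refine ⟨C, c, hC, hc0, hc1, ?_⟩
  intro S S' N N' hN hN' T hT hT' pt lf lf' a0 a0' L η ρ hη0 hηL hρ hρd hρ1 hP hP' hlo hlo' hup
    hup' hmix herr
  have hne : ∀ (S : Finset ℂ) (N : Net ℂ) (t : ℂ × ℂ × ℂ) (x : ℂ) (lf : ℤ → ℝ) (a0 : ℝ),
      HNet S N → t ∈ delT S → Pos N t x lf a0 →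
      Real.exp (-L) ≤ (N.X t x lf a0 (1 : ℝ)).re → ∀ z ∈ U, N.X t x lf a0 z ≠ 0 := by
    intro S N t x lf a0 hN ht hP hlo z hz
    refine hZF S N hN t ht x hP.l0 hP.l1 hP.l2 lf hP.lift a0 hP.dir ?_ z hz
    by_contra hcon
    push Not at hcon
    have h1 : N.X t x lf a0 (1 : ℝ) = 0 := by
      unfold Net.X
      rw [finsum_eq_zero_of_forall_eq_zero, zero_div]
      intro k
      rw [hcon k]; simp
    rw [h1] at hlo
    simp only [Complex.zero_re] at hlo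
    exact absurd hlo (not_le.mpr (Real.exp_pos _))
  have hom : ∀ (S : Finset ℂ) (N : Net ℂ) (t : ℂ × ℂ × ℂ) (x : ℂ) (lf : ℤ → ℝ) (a0 : ℝ),
      HNet S N → t ∈ delT S → Pos N t x lf a0 → N.X t x lf a0 om = N.Q t := by
    intro S N t x lf a0 hN ht hP
    exact hXom S N hN t ht x hP.l0 hP.l1 hP.l2 lf hP.lift a0 hP.dir
  obtain ⟨lam, hlam, hfin⟩ := h (ι := T)
    (fun t => N.X t.1 (pt t.1) (lf t.1) (a0 t.1)) (fun t => N'.X t.1 (pt t.1) (lf' t.1) (a0' t.1))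
    L η ρ hη0 hηL hρ hρd hρ1
    (fun t => hL S N hN _ (hT t.2) _ _ _ (hP _ t.2))
    (fun t => hL S' N' hN' _ (hT' t.2) _ _ _ (hP' _ t.2))
    (fun t => hne S N _ _ _ _ hN (hT t.2) (hP _ t.2) (hlo _ t.2))
    (fun t => hne S' N' _ _ _ _ hN' (hT' t.2) (hP' _ t.2) (hlo' _ t.2))
    (fun t => hlo _ t.2) (fun t => hlo' _ t.2) (fun t => hup _ t.2) (fun t => hup' _ t.2)
    (fun x hx s t => hmix x hx _ s.2 _ t.2) herr
  refine ⟨lam, hlam, fun t ht => ?_⟩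
  have := hfin ⟨t, ht⟩
  simp only at this
  rwa [hom S N _ _ _ _ hN (hT ht) (hP _ ht), hom S' N' _ _ _ _ hN' (hT' ht) (hP' _ ht)] at this

/-! ### size of the error -/

theorem ex_exp (c u : ℝ) : ex c (Real.exp (-u)) = c / (1 + u) := by
  unfold ex
  rw [one_div, Real.log_inv, Real.log_exp, neg_neg]

/-- explicit bound of the error: `η = exp (-(c1 u))`, `ρ = exp (-√u)`, `L = C0 u` -/
theorem err_le {C c C0 c1 u : ℝ} (hC : 0 ≤ C) (hc0 : 0 < c) (hc1 : c ≤ 1) (hC0 : 0 ≤ C0)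
    (hc1' : 0 ≤ c1) (hu : 1 ≤ u) (hL : 1 ≤ C0 * u) :
    err C c (C0 * u) (Real.exp (-(c1 * u))) (Real.exp (-Real.sqrt u)) ≤
      C * (Real.exp (-(c1 * c / 2 * Real.sqrt u)) * (C0 * u)) := by
  have hs1 : 1 ≤ Real.sqrt u := by rw [Real.one_le_sqrt]; exact hu
  have hsq : Real.sqrt u * Real.sqrt u = u := Real.mul_self_sqrt (by linarith)
  unfold err
  rw [ex_exp]
  set s := Real.sqrt u with hs
  have hw0 : 0 < c / (1 + s) := by positivity
  have hw1 : c / (1 + s) ≤ 1 := by rw [div_le_one (by positivity)]; linarith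
  apply mul_le_mul_of_nonneg_left _ hC
  apply mul_le_mul
  · rw [← Real.exp_mul]
    apply Real.exp_le_exp.mpr
    have h1 : c / 2 * s ≤ u * (c / (1 + s)) := by
      rw [mul_div_assoc', le_div_iff₀ (by positivity)]
      have h2 : s ≤ s * s := by nlinarith
      have h3 : 0 ≤ c / 2 * (s * s - s) := mul_nonneg (by positivity) (by linarith)
      rw [← hsq]
      linarith
    have h4 := mul_le_mul_of_nonneg_left h1 hc1'
    linarith
  · calc (C0 * u) ^ (1 - c / (1 + s)) ≤ (C0 * u) ^ (1 : ℝ) :=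
          Real.rpow_le_rpow_of_exponent_le hL (by linarith)
      _ = C0 * u := Real.rpow_one _
  · positivity
  · positivity

/-- the error tends to zero as `u = log (1 / ε) → ∞` -/
theorem err_tendsto {C c C0 c1 : ℝ} (hC : 0 ≤ C) (hc0 : 0 < c) (hc1 : c ≤ 1) (hC0 : 0 < C0)
    (hc1' : 0 < c1) :
    Tendsto (fun u : ℝ => err C c (C0 * u) (Real.exp (-(c1 * u))) (Real.exp (-Real.sqrt u)))
      atTop (𝓝 0) := by
  have h1 : Tendsto (fun u : ℝ => C * (Real.exp (-(c1 * c / 2 * Real.sqrt u)) * (C0 * u)))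
      atTop (𝓝 0) := by
    have h2 : Tendsto (fun s : ℝ => s ^ 2 * Real.exp (-(c1 * c / 2) * s)) atTop (𝓝 0) := by
      have := tendsto_rpow_mul_exp_neg_mul_atTop_nhds_zero (2 : ℝ) (c1 * c / 2)
        (by positivity)
      refine this.congr' ?_
      filter_upwards [eventually_ge_atTop (0 : ℝ)] with s _
      norm_num
    have h3 := (h2.comp Real.tendsto_sqrt_atTop).const_mul (C * C0)
    rw [mul_zero] at h3
    refine h3.congr' ?_
    filter_upwards [eventually_ge_atTop (0 : ℝ)] with u hu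
    simp only [Function.comp]
    rw [Real.sq_sqrt hu]
    ring_nf
  refine squeeze_zero' ?_ ?_ h1
  · filter_upwards [eventually_ge_atTop (0 : ℝ)] with u hu
    exact err_nonneg hC (by positivity) (Real.exp_pos _).le
  · filter_upwards [eventually_ge_atTop (1 : ℝ), eventually_ge_atTop (1 / C0)] with u hu hu'
    refine err_le hC hc0 hc1 hC0.le hc1'.le hu ?_
    rw [div_le_iff₀ hC0] at hu'
    linarith

end Crest.Agent.R143.B4x927
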