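import Crest.Agent.R143.Planar2_54
import Crest.Agent.R143.B4_927

/-!
# Row 143, leaf B4L (helper950)

* `cntK_mem` : if `cntK k ≠ 0` then `k` is the rotation `rotK` of a join;
* `x_sum` : the winding polynomial is a finite sum over the rotations of the joins;
* `b4l : B4x927.B4L`;
* `x_re`, `x_pos`, `x_norm_le` : the winding polynomial at positive reals, and `‖X z‖ ≤ X ‖z‖`;
* `x_bound` : `‖X z‖ ≤ M ^ W * X 1` if all the rotations are in `[-W, W]` and `1/M ≤ ‖z‖ ≤ M`.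
-/

set_option autoImplicit false

noncomputable section

open scoped Classical

namespace Crest.Agent.R143.B4Lx950

open Crest.Agent.R143.B0x346 Crest.Agent.R143.Planar2x54

variable {S : Finset ℂ} {N : Net ℂ} {t : ℂ × ℂ × ℂ} {x : ℂ} {lf : ℤ → ℝ} {a0 : ℝ}

/-- the set of the rotations -/
def rotS (N : Net ℂ) (t : ℂ × ℂ × ℂ) (x : ℂ) (lf : ℤ → ℝ) (a0 : ℝ) : Finset ℤ :=
  ((N.tj t).image (rotK N t x lf a0)).filter fun k => N.cntK t x lf a0 k ≠ 0

theorem cntK_mem (hl : Lift N x lf) {k : ℤ} (h : N.cntK t x lf a0 k ≠ 0) :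
    k ∈ rotS N t x lf a0 := by
  unfold rotS
  rw [Finset.mem_filter]
  refine ⟨?_, h⟩
  unfold Net.cntK at h
  obtain ⟨J, hJ⟩ := Finset.card_pos.1 (Nat.pos_of_ne_zero h)
  rw [Finset.mem_filter] at hJ
  rw [Finset.mem_image]
  exact ⟨J, hJ.1, ((triK_iff hl ⟨k, hJ.2⟩ k).1 hJ.2).symm⟩

/-- a winding polynomial is a finite sum -/
theorem x_sum (hl : Lift N x lf) (z : ℂ) :
    N.X t x lf a0 z = (∑ k ∈ rotS N t x lf a0, (N.cntK t x lf a0 k : ℂ) * z ^ k) /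
      ((N.tj t).card : ℂ) := by
  unfold Net.X
  congr 1
  apply finsum_eq_sum_of_support_subset
  intro k hk
  rw [Function.mem_support] at hk
  refine Finset.mem_coe.2 (cntK_mem hl fun h0 => hk ?_)
  rw [h0]
  simp

/-- **leaf B4L** -/
theorem b4l : B4x927.B4L := by
  intro S N _ t _ x lf a0 h
  refine ⟨rotS N t x lf a0, fun k => (N.cntK t x lf a0 k : ℝ) / ((N.tj t).card : ℝ),
    fun k => by positivity, fun z => ?_⟩
  rw [x_sum h.lift z, Finset.sum_div]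
  refine Finset.sum_congr rfl fun k _ => ?_
  push_cast
  ring

/-- the real winding polynomial -/
def XR (N : Net ℂ) (t : ℂ × ℂ × ℂ) (x : ℂ) (lf : ℤ → ℝ) (a0 : ℝ) (r : ℝ) : ℝ :=
  (∑ k ∈ rotS N t x lf a0, (N.cntK t x lf a0 k : ℝ) * r ^ k) / ((N.tj t).card : ℝ)

theorem x_re (hl : Lift N x lf) (r : ℝ) : N.X t x lf a0 (r : ℂ) = (XR N t x lf a0 r : ℂ) := by
  rw [x_sum hl]
  unfold XR
  push_cast
  rfl

theorem xr_nonneg {r : ℝ} (hr : 0 ≤ r) : 0 ≤ XR N t x lf a0 r := by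
  unfold XR
  refine div_nonneg (Finset.sum_nonneg fun k _ => mul_nonneg (Nat.cast_nonneg _) ?_)
    (Nat.cast_nonneg _)
  exact zpow_nonneg hr _

theorem xr_pos (hl : Lift N x lf) (h : ∃ k, N.cntK t x lf a0 k ≠ 0) {r : ℝ} (hr : 0 < r) :
    0 < XR N t x lf a0 r := by
  obtain ⟨k, hk⟩ := h
  unfold XR
  have hc : 0 < (N.tj t).card := by
    have h1 := Nat.pos_of_ne_zero hk
    unfold Net.cntK at h1
    exact lt_of_lt_of_le h1 (Finset.card_filter_le _ _)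
  refine div_pos (Finset.sum_pos' (fun k _ => mul_nonneg (Nat.cast_nonneg _)
    (zpow_nonneg hr.le _)) ⟨k, cntK_mem hl hk, mul_pos ?_ (zpow_pos hr _)⟩) ?_
  · exact_mod_cast Nat.pos_of_ne_zero hk
  · exact_mod_cast hc

/-- `‖X z‖ ≤ X ‖z‖` -/
theorem x_norm_le (hl : Lift N x lf) (z : ℂ) : ‖N.X t x lf a0 z‖ ≤ XR N t x lf a0 ‖z‖ := by
  rw [x_sum hl, norm_div, Complex.norm_natCast]
  unfold XR
  apply div_le_div_of_nonneg_right _ (Nat.cast_nonneg _)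
  refine (norm_sum_le _ _).trans (Finset.sum_le_sum fun k _ => ?_)
  rw [norm_mul, norm_zpow, Complex.norm_natCast]

/-- crude bound by the value at `1` -/
theorem xr_le {W : ℕ} (hW : ∀ k : ℤ, N.cntK t x lf a0 k ≠ 0 → |k| ≤ W) {M r : ℝ} (hr : 0 < r)
    (h1 : r ≤ M) (h2 : M⁻¹ ≤ r) : XR N t x lf a0 r ≤ M ^ W * XR N t x lf a0 1 := by
  have hM0 : 0 < M := lt_of_lt_of_le hr h1
  have hM : 1 ≤ M := by
    by_contra hcon
    push Not at hcon
    have h3 : 1 < M⁻¹ := (one_lt_inv₀ hM0).2 hcon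
    linarith
  unfold XR
  rw [← mul_div_assoc, Finset.mul_sum]
  apply div_le_div_of_nonneg_right _ (Nat.cast_nonneg _)
  apply Finset.sum_le_sum
  intro k hk
  unfold rotS at hk
  rw [Finset.mem_filter] at hk
  have hk' := abs_le.1 (hW k hk.2)
  rw [one_zpow, mul_one, mul_comm (M ^ W)]
  apply mul_le_mul_of_nonneg_left _ (Nat.cast_nonneg _)
  rcases le_or_gt 0 k with h0 | h0
  · calc r ^ k ≤ M ^ k := zpow_le_zpow_left₀ h0 hr.le h1
      _ ≤ M ^ (W : ℤ) := zpow_le_zpow_right₀ hM hk'.2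
      _ = M ^ W := zpow_natCast _ _
  · have h3 : r⁻¹ ≤ M := by
      rw [inv_le_comm₀ hr hM0]; exact h2
    have h4 : r ^ k = r⁻¹ ^ (-k) := by rw [inv_zpow, zpow_neg, inv_inv]
    rw [h4]
    calc r⁻¹ ^ (-k) ≤ M ^ (-k) := zpow_le_zpow_left₀ (by omega) (inv_pos.2 hr).le h3
      _ ≤ M ^ (W : ℤ) := zpow_le_zpow_right₀ hM (by omega)
      _ = M ^ W := zpow_natCast _ _

/-- crude bound on an annulus -/
theorem x_bound (hl : Lift N x lf) {W : ℕ}
    (hW : ∀ k : ℤ, N.cntK t x lf a0 k ≠ 0 → |k| ≤ W) {M : ℝ} {z : ℂ} (hz : 0 < ‖z‖)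
    (h1 : ‖z‖ ≤ M) (h2 : M⁻¹ ≤ ‖z‖) : ‖N.X t x lf a0 z‖ ≤ M ^ W * XR N t x lf a0 1 :=
  (x_norm_le hl z).trans (xr_le hW hz h1 h2)

/-- differentiability -/
theorem x_diff (hl : Lift N x lf) : DifferentiableOn ℂ (N.X t x lf a0) {0}ᶜ := by
  have h1 : N.X t x lf a0 = fun z => (∑ k ∈ rotS N t x lf a0, (N.cntK t x lf a0 k : ℂ) * z ^ k) /
      ((N.tj t).card : ℂ) := funext fun z => x_sum hl z
  rw [h1]
  apply DifferentiableOn.div_const
  apply DifferentiableOn.fun_sum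
  intro k _ z hz
  exact ((differentiableAt_zpow.mpr (Or.inl hz)).const_mul _).differentiableWithinAt

end Crest.Agent.R143.B4Lx950
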