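import Crest.Agent.R143.B4_927
import Crest.Agent.R143.Planar2_54

/-!
Row 143, block B4 (helper927): unconditional forms (X_om and the Laurent form from `Planar2_54`).
-/

set_option autoImplicit false

open Complex Set Metric Filter
open scoped Topology Real Classical

namespace Crest.Agent.R143.B4Ux927

open Crest.Agent.R143.TwoCx640 Crest.Agent.R143.TwoSx927 Crest.Agent.R143.B0x346
open Crest.Agent.R143.B4x927 Crest.Agent.R143.Planar2x54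

/-- a sum of powers with nonnegative weights is a Laurent polynomial -/
theorem lau_of_sum {α : Type} (A : Finset α) (k : α → ℤ) (w : ℝ) (hw : 0 ≤ w) {X : ℂ → ℂ}
    (hX : ∀ z : ℂ, X z = (∑ J ∈ A, z ^ k J) * (w : ℂ)) : Lau X := by
  refine ⟨A.image k, fun m => ((A.filter fun J => k J = m).card : ℝ) * w,
    fun m => by positivity, fun z => ?_⟩
  rw [hX, ← Finset.sum_fiberwise_of_maps_to (g := k) (t := A.image k)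
    (fun J hJ => Finset.mem_image_of_mem k hJ), Finset.sum_mul]
  refine Finset.sum_congr rfl fun m _ => ?_
  have h1 : ∑ J ∈ A.filter (fun J => k J = m), z ^ k J =
      ((A.filter fun J => k J = m).card : ℂ) * z ^ m := by
    rw [Finset.sum_congr rfl (g := fun _ => z ^ m)
      (fun J hJ => by rw [(Finset.mem_filter.mp hJ).2]), Finset.sum_const, nsmul_eq_mul]
  rw [h1]
  push_cast
  ring

theorem b4L : B4L := by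
  intro S N hN t ht x lf a0 hP
  refine lau_of_sum ((N.tj t).filter (fun J => ∃ κ, N.Tri3 t κ J))
    (fun J => rotK N t x lf a0 J) (((N.tj t).card : ℝ)⁻¹) (by positivity) fun z => ?_
  rw [X_eq hN ht ⟨hP.l0, hP.l1, hP.l2⟩ hP.lift hP.dir z, div_eq_mul_inv]
  push_cast
  rfl

/-- **B4**, only (ZF) is left as a hypothesis -/
theorem b4U {U : Set ℂ} (hZF : ZF U) (hUo : IsOpen U)
    (hUs : IsSimplyConnected U) {d : ℝ} (hd : 0 < d)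
    (hseg : ∀ x ∈ Icc (1 : ℝ) (1 + d), (x : ℂ) ∈ U) (hp : om ∈ U) {ra rb : ℝ}
    (hra : 0 < ra) (hU : ∀ z ∈ U, ‖z‖ ∈ Icc ra rb) :
    ∃ C c : ℝ, 1 ≤ C ∧ 0 < c ∧ c ≤ 1 ∧ ∀ (S S' : Finset ℂ) (N N' : Net ℂ), HNet S N → HNet S' N' →
      ∀ (T : Set (ℂ × ℂ × ℂ)), T ⊆ (delT S : Set (ℂ × ℂ × ℂ)) → T ⊆ (delT S' : Set (ℂ × ℂ × ℂ)) →
      ∀ (pt : ℂ × ℂ × ℂ → ℂ) (lf lf' : ℂ × ℂ × ℂ → ℤ → ℝ) (a0 a0' : ℂ × ℂ × ℂ → ℝ) (L η ρ : ℝ),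
      0 < η → η ≤ L → 0 < ρ → ρ ≤ d → ρ ≤ 1 →
      (∀ t ∈ T, Pos N t (pt t) (lf t) (a0 t)) → (∀ t ∈ T, Pos N' t (pt t) (lf' t) (a0' t)) →
      (∀ t ∈ T, Real.exp (-L) ≤ (N.X t (pt t) (lf t) (a0 t) (1 : ℝ)).re) →
      (∀ t ∈ T, Real.exp (-L) ≤ (N'.X t (pt t) (lf' t) (a0' t) (1 : ℝ)).re) →
      (∀ t ∈ T, ∀ x ∈ Icc ra rb, (N.X t (pt t) (lf t) (a0 t) (x : ℝ)).re ≤ Real.exp L) →
      (∀ t ∈ T, ∀ x ∈ Icc ra rb, (N'.X t (pt t) (lf' t) (a0' t) (x : ℝ)).re ≤ Real.exp L) →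
      (∀ x ∈ Icc (1 : ℝ) (1 + ρ), ∀ s ∈ T, ∀ t ∈ T,
        |(N.X t (pt t) (lf t) (a0 t) (x : ℝ)).re * (N'.X s (pt s) (lf' s) (a0' s) (x : ℝ)).re -
          (N.X s (pt s) (lf s) (a0 s) (x : ℝ)).re * (N'.X t (pt t) (lf' t) (a0' t) (x : ℝ)).re| ≤
          η * ((N.X s (pt s) (lf s) (a0 s) (x : ℝ)).re *
            (N'.X t (pt t) (lf' t) (a0' t) (x : ℝ)).re)) →
      err C c L η ρ ≤ 1 →
      ∃ lam : ℂ, lam ≠ 0 ∧ ∀ t ∈ T, ‖N.Q t - lam * N'.Q t‖ ≤ 2 * err C c L η ρ * ‖N.Q t‖ :=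
  b4 hZF x_om b4L hUo hUs hd hseg hp hra hU

theorem norm_mem_U0 {z : ℂ} (hz : z ∈ U0) : ‖z‖ ∈ Icc (2 / 5 : ℝ) (11 / 10) := by
  refine ⟨?_, ?_⟩
  · have h1 : (2 / 5 : ℝ) < (z * Complex.exp (-(π / 3) * I)).re := hz.1
    have h2 := Complex.re_le_norm (z * Complex.exp (-(π / 3) * I))
    have h3 : ‖Complex.exp (-(π / 3) * I)‖ = 1 := by
      have : (-(π / 3) * I : ℂ) = ((-(π / 3) : ℝ) : ℂ) * I := by push_cast; ring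
      rw [this, Complex.norm_exp_ofReal_mul_I]
    rw [norm_mul, h3, mul_one] at h2
    linarith
  · exact (mem_ball_zero_iff.mp hz.2).le

theorem om_mem_U0 : om ∈ U0 := by
  have h := tau_mem_U0
  have : om = Complex.exp (2 * π / 3 * I) := by
    unfold om
    push_cast
    ring_nf
  rw [this]; exact h

/-- **B4 for the explicit domain `U0`** -/
theorem b4U0 (hZF : ZF U0) :
    ∃ C c : ℝ, 1 ≤ C ∧ 0 < c ∧ c ≤ 1 ∧ ∀ (S S' : Finset ℂ) (N N' : Net ℂ), HNet S N → HNet S' N' →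
      ∀ (T : Set (ℂ × ℂ × ℂ)), T ⊆ (delT S : Set (ℂ × ℂ × ℂ)) → T ⊆ (delT S' : Set (ℂ × ℂ × ℂ)) →
      ∀ (pt : ℂ × ℂ × ℂ → ℂ) (lf lf' : ℂ × ℂ × ℂ → ℤ → ℝ) (a0 a0' : ℂ × ℂ × ℂ → ℝ) (L η ρ : ℝ),
      0 < η → η ≤ L → 0 < ρ → ρ ≤ 1 / 20 →
      (∀ t ∈ T, Pos N t (pt t) (lf t) (a0 t)) → (∀ t ∈ T, Pos N' t (pt t) (lf' t) (a0' t)) →
      (∀ t ∈ T, Real.exp (-L) ≤ (N.X t (pt t) (lf t) (a0 t) (1 : ℝ)).re) →
      (∀ t ∈ T, Real.exp (-L) ≤ (N'.X t (pt t) (lf' t) (a0' t) (1 : ℝ)).re) →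
      (∀ t ∈ T, ∀ x ∈ Icc (2 / 5 : ℝ) (11 / 10),
        (N.X t (pt t) (lf t) (a0 t) (x : ℝ)).re ≤ Real.exp L) →
      (∀ t ∈ T, ∀ x ∈ Icc (2 / 5 : ℝ) (11 / 10),
        (N'.X t (pt t) (lf' t) (a0' t) (x : ℝ)).re ≤ Real.exp L) →
      (∀ x ∈ Icc (1 : ℝ) (1 + ρ), ∀ s ∈ T, ∀ t ∈ T,
        |(N.X t (pt t) (lf t) (a0 t) (x : ℝ)).re * (N'.X s (pt s) (lf' s) (a0' s) (x : ℝ)).re -
          (N.X s (pt s) (lf s) (a0 s) (x : ℝ)).re * (N'.X t (pt t) (lf' t) (a0' t) (x : ℝ)).re| ≤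
          η * ((N.X s (pt s) (lf s) (a0 s) (x : ℝ)).re *
            (N'.X t (pt t) (lf' t) (a0' t) (x : ℝ)).re)) →
      err C c L η ρ ≤ 1 →
      ∃ lam : ℂ, lam ≠ 0 ∧ ∀ t ∈ T, ‖N.Q t - lam * N'.Q t‖ ≤ 2 * err C c L η ρ * ‖N.Q t‖ := by
  obtain ⟨C, c, hC, hc0, hc1, h⟩ := b4U hZF isOpen_U0 isSimplyConnected_U0
    (show (0 : ℝ) < 1 / 20 by norm_num) seg_mem_U0 om_mem_U0
    (show (0 : ℝ) < 2 / 5 by norm_num) (fun z hz => norm_mem_U0 hz)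
  refine ⟨C, c, hC, hc0, hc1, ?_⟩
  intro S S' N N' hN hN' T hT hT' pt lf lf' a0 a0' L η ρ hη0 hηL hρ hρd
  exact h S S' N N' hN hN' T hT hT' pt lf lf' a0 a0' L η ρ hη0 hηL hρ hρd (by linarith)

end Crest.Agent.R143.B4Ux927
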