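import Crest.Agent.R143.PP1_831

/-!
# Row 143 (S0194), B6 (helper654): sum of the squared lengths of Delaunay sides, from `diamSum`
-/

set_option autoImplicit false

noncomputable section

namespace Crest.Agent.R143.B6Dx654

open Set MeasureTheory
open Crest.ProbabilityR.Voronoi Crest.Agent.R143.B0x346 Crest.Agent.R143.PP1x831
open scoped ENNReal

theorem cr_cyc (a b c : ℂ) : cr (c - b) (a - b) = cr (b - a) (c - a) := by
  simp only [cr, Complex.sub_re, Complex.sub_im]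
  ring

theorem del_rot {P : Set ℂ} {a b c : ℂ} (h : Del P a b c) : Del P b c a := by
  obtain ⟨ha, hb, hc, h1, o, h2, h3, h4⟩ := h
  refine ⟨hb, hc, ha, by rw [cr_cyc]; exact h1, o, ?_, ?_, fun s hs => ?_⟩
  · rw [h3, h2]
  · rw [h2]
  · rw [h2]; exact h4 s hs

/-- the length of a Delaunay side is at most the sum of the diameters of the two cells -/
theorem edist_le {P : Set ℂ} {a b c : ℂ} (h : Del P a b c) :
    edist a b ≤ Metric.ediam (voronoiCell P a) + Metric.ediam (voronoiCell P b) := by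
  obtain ⟨ha, hb, hc, h1, o, h2, h3, h4⟩ := h
  have ho : o ∈ voronoiCell P a := fun s hs => by
    rw [norm_sub_rev o a, norm_sub_rev o s]; exact h4 s hs
  have ho' : o ∈ voronoiCell P b := fun s hs => by
    rw [norm_sub_rev o b, norm_sub_rev o s, h2]; exact h4 s hs
  have haa : a ∈ voronoiCell P a := fun s _ => by rw [sub_self, norm_zero]; exact norm_nonneg _
  have hbb : b ∈ voronoiCell P b := fun s _ => by rw [sub_self, norm_zero]; exact norm_nonneg _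
  calc edist a b ≤ edist a o + edist o b := edist_triangle _ _ _
    _ ≤ _ := add_le_add (Metric.edist_le_ediam_of_mem haa ho) (Metric.edist_le_ediam_of_mem ho' hbb)

theorem sq_le (x y : ℝ≥0∞) : (x + y) ^ 2 ≤ 2 * x ^ 2 + 2 * y ^ 2 := by
  have h := ENNReal.rpow_add_le_mul_rpow_add_rpow x y (p := 2) (by norm_num)
  have e : ((2 : ℝ≥0∞) ^ ((2 : ℝ) - 1)) = 2 := by norm_num
  rw [e] at h
  have e2 : ∀ u : ℝ≥0∞, u ^ (2 : ℝ) = u ^ 2 := fun u => by
    rw [← ENNReal.rpow_natCast]; norm_num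
  rw [e2, e2, e2, mul_add] at h
  exact h

/-- the index set of `diamSum` -/
def Idx (P W : Set ℂ) : Set (ℂ × ℂ × ℂ) := {t | Del P t.1 t.2.1 t.2.2 ∧
    ((voronoiCell P t.1 ∪ voronoiCell P t.2.1 ∪ voronoiCell P t.2.2) ∩ W).Nonempty}

theorem sum_le_diamSum {P W : Set ℂ} (T : Finset (ℂ × ℂ × ℂ)) (g : ℂ × ℂ × ℂ → ℂ × ℂ × ℂ)
    (hg : ∀ t ∈ T, ∀ s ∈ T, g t = g s → t = s) (hT : ∀ t ∈ T, g t ∈ Idx P W) :
    ∑ t ∈ T, (Metric.ediam (voronoiCell P (g t).1)) ^ 2 ≤ diamSum P W := by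
  classical
  set f : ℂ × ℂ × ℂ → ℝ≥0∞ := fun t => (Metric.ediam (voronoiCell P t.1)) ^ 2 with hf
  have h1 : diamSum P W = ∑' t, (Idx P W).indicator f t := by
    rw [← tsum_subtype (Idx P W) f]
    rfl
  rw [h1]
  calc ∑ t ∈ T, f (g t) = ∑ s ∈ T.image g, f s := by
        rw [Finset.sum_image]
        exact fun t ht s hs h => hg t ht s hs h
    _ = ∑ s ∈ T.image g, (Idx P W).indicator f s := by
        refine Finset.sum_congr rfl fun s hs => ?_
        obtain ⟨t, ht, rfl⟩ := Finset.mem_image.1 hs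
        rw [indicator_of_mem (hT t ht)]
    _ ≤ ∑' t, (Idx P W).indicator f t := ENNReal.sum_le_tsum _

/-- **(m5)** -/
theorem sum_sq_le {P W : Set ℂ} (T : Finset (ℂ × ℂ × ℂ))
    (hT : ∀ t ∈ T, Del P t.1 t.2.1 t.2.2 ∧ t.1 ∈ W) :
    ∑ t ∈ T, ENNReal.ofReal (‖t.2.1 - t.1‖ ^ 2) ≤ 4 * diamSum P W := by
  have hmem : ∀ a : ℂ, a ∈ voronoiCell P a := fun a s _ => by
    rw [sub_self, norm_zero]; exact norm_nonneg _
  have h1 : ∑ t ∈ T, (Metric.ediam (voronoiCell P t.1)) ^ 2 ≤ diamSum P W :=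
    sum_le_diamSum T id (fun _ _ _ _ h => h) fun t ht =>
      ⟨(hT t ht).1, t.1, Or.inl (Or.inl (hmem _)), (hT t ht).2⟩
  have h2 : ∑ t ∈ T, (Metric.ediam (voronoiCell P t.2.1)) ^ 2 ≤ diamSum P W := by
    refine sum_le_diamSum T (fun t => (t.2.1, t.2.2, t.1)) ?_ fun t ht =>
      ⟨del_rot (hT t ht).1, t.1, Or.inr (hmem _), (hT t ht).2⟩
    rintro ⟨a, b, c⟩ _ ⟨a', b', c'⟩ _ h
    simp only [Prod.mk.injEq] at h ⊢
    tauto
  have h3 : ∀ t ∈ T, ENNReal.ofReal (‖t.2.1 - t.1‖ ^ 2) ≤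
      2 * (Metric.ediam (voronoiCell P t.1)) ^ 2 + 2 * (Metric.ediam (voronoiCell P t.2.1)) ^ 2 := by
    intro t ht
    have e : ENNReal.ofReal (‖t.2.1 - t.1‖ ^ 2) = (edist t.1 t.2.1) ^ 2 := by
      rw [edist_dist, dist_eq_norm, norm_sub_rev, ENNReal.ofReal_pow (norm_nonneg _)]
    rw [e]
    calc (edist t.1 t.2.1) ^ 2
        ≤ (Metric.ediam (voronoiCell P t.1) + Metric.ediam (voronoiCell P t.2.1)) ^ 2 := by
          gcongr
          exact edist_le (hT t ht).1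
      _ ≤ _ := sq_le _ _
  calc ∑ t ∈ T, ENNReal.ofReal (‖t.2.1 - t.1‖ ^ 2)
      ≤ ∑ t ∈ T, (2 * (Metric.ediam (voronoiCell P t.1)) ^ 2 +
          2 * (Metric.ediam (voronoiCell P t.2.1)) ^ 2) := Finset.sum_le_sum h3
    _ = 2 * ∑ t ∈ T, (Metric.ediam (voronoiCell P t.1)) ^ 2 +
          2 * ∑ t ∈ T, (Metric.ediam (voronoiCell P t.2.1)) ^ 2 := by
        rw [Finset.sum_add_distrib, Finset.mul_sum, Finset.mul_sum]
    _ ≤ 2 * diamSum P W + 2 * diamSum P W := by gcongr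
    _ = 4 * diamSum P W := by ring

/-- real form -/
theorem sum_sq_le' {P W : Set ℂ} {C : ℝ} (hC : 0 ≤ C) (T : Finset (ℂ × ℂ × ℂ))
    (hT : ∀ t ∈ T, Del P t.1 t.2.1 t.2.2 ∧ t.1 ∈ W) (h : diamSum P W ≤ ENNReal.ofReal C) :
    ∑ t ∈ T, ‖t.2.1 - t.1‖ ^ 2 ≤ 4 * C := by
  have h1 := (sum_sq_le T hT).trans (mul_le_mul_right h 4)
  rw [← ENNReal.ofReal_sum_of_nonneg fun t _ => by positivity] at h1
  have e : (4 : ℝ≥0∞) * ENNReal.ofReal C = ENNReal.ofReal (4 * C) := by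
    rw [ENNReal.ofReal_mul (by norm_num)]
    norm_num
  rw [e] at h1
  exact (ENNReal.ofReal_le_ofReal_iff (by positivity)).1 h1

end Crest.Agent.R143.B6Dx654
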