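import Crest.Agent.R143.B1g_991
import Crest.Agent.R143.B6D_654
import Crest.Agent.R143.Y0_831

/-!
# Row 143 (S0194), B6: the input (CA) from M4 (helper654)

* `touch_sq` : in a good environment the sides of the triangles which touch the ball are short and the
  sum of the squares of their lengths is at most `16 C4 r ^ 2`
-/

set_option autoImplicit false

noncomputable section

open scoped Classical

namespace Crest.Agent.R143.B6Cx654

open Complex Set Filter Topology MeasureTheory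
open Crest.ProbabilityR.Voronoi
open Crest.Agent.R143.B0x346 Crest.Agent.R143.B0Dx346 Crest.Agent.R143.PP1x831
open Crest.Agent.R143.Y0x831 Crest.Agent.R143.B1gx991 Crest.Agent.R143.Locx922
open Crest.Agent.R143.B1bx796 (touch)
open Crest.Agent.R143.B6Dx654

/-- the triangles which touch the ball, in an environment -/
theorem touch_env {D : Dom} {ε d M : ℝ} {ω : Sample} (hE : Env ε d M D.c D.L ω) (hd : 0 < d)
    {z₀ : ℂ} {r : ℝ} (hz : ‖z₀ - D.c‖ + r + 2 * d ≤ D.L) {t : ℂ × ℂ × ℂ}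
    (ht : t ∈ touch z₀ r (D.sites ε ω)) :
    Del (points ε ω) t.1 t.2.1 t.2.2 ∧ ‖t.1 - z₀‖ < r + 2 * d ∧ ‖t.2.1 - z₀‖ < r + 2 * d ∧
      ‖t.2.2 - z₀‖ < r + 2 * d ∧ ‖t.2.1 - t.1‖ < 2 * d := by
  have hsub : Metric.closedBall z₀ r ⊆ Metric.closedBall D.c (D.L - 2 * d) := by
    refine Metric.closedBall_subset_closedBall' ?_
    rw [dist_eq_norm]
    linarith
  have hH : Hol (D.sites ε ω : Set ℂ) (Metric.closedBall z₀ r) d := (Env.hol_sites hE).mono hsub
  obtain ⟨h1, h2, h3⟩ := touch_near hd hH ht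
  have h4 := touch_short hd hH ht
  refine ⟨?_, h1, h2, h3, h4⟩
  rw [touch, Finset.mem_filter] at ht
  obtain ⟨ht, x, hx, hxr⟩ := ht
  have hxW : x ∈ Metric.closedBall D.c (D.L - 2 * d) := hsub (by
    rw [Metric.mem_closedBall, dist_eq_norm]; exact hxr.le)
  exact (Env.mem_delT hd hE hxW (side_inT (tri_pos ht) hx)).1 ht

/-- **(CA)** -/
theorem touch_sq {D : Dom} {ε C K a C4 : ℝ} {ω : Sample} (hG : Good D ε C K a C4 ω)
    (hd : 0 < rad C ε) (hC4 : 0 ≤ C4) {z₀ : ℂ} {r : ℝ} (hrd : 2 * rad C ε ≤ r)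
    (hz : ‖z₀ - D.c‖ + r + 2 * rad C ε ≤ D.L) (h1 : ε * Real.log (1 / ε) ^ a ≤ 2 * r)
    (h2 : 2 * r ≤ 1) :
    (∀ t ∈ touch z₀ r (D.sites ε ω), ‖t.2.1 - t.1‖ ≤ r) ∧
      ∑ t ∈ touch z₀ r (D.sites ε ω), ‖t.2.1 - t.1‖ ^ 2 ≤ 16 * C4 * r ^ 2 := by
  refine ⟨fun t ht => ?_, ?_⟩
  · have := (touch_env hG.env hd hz ht).2.2.2.2
    linarith
  · have hz0 : z₀ ∈ Metric.closedBall D.c D.L := by
      rw [Metric.mem_closedBall, dist_eq_norm]
      linarith
    have h3 := hG.diam z₀ hz0 (2 * r) h1 h2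
    have h4 := sum_sq_le' (P := points ε ω) (W := Metric.ball z₀ (2 * r)) (C := C4 * (2 * r) ^ 2)
      (by positivity) (touch z₀ r (D.sites ε ω)) (fun t ht => ?_) h3
    · refine h4.trans (le_of_eq ?_)
      ring
    · obtain ⟨e1, e2, -, -, -⟩ := touch_env hG.env hd hz ht
      refine ⟨e1, ?_⟩
      rw [Metric.mem_ball, dist_eq_norm]
      linarith

/-- `Room` gives the geometric hypothesis -/
theorem room_dist {D : Dom} {z : ℂ} {ρ : ℝ} (hρ : 0 ≤ ρ)
    (h : Metric.closedBall z ρ ⊆ Metric.closedBall D.c (D.L / 2)) {r d : ℝ}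
    (hrd : r + 2 * d ≤ D.L / 2) : ‖z - D.c‖ + r + 2 * d ≤ D.L := by
  have h1 := h (Metric.mem_closedBall_self hρ)
  rw [Metric.mem_closedBall, dist_eq_norm] at h1
  linarith

end Crest.Agent.R143.B6Cx654
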