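import Crest.Agent.R143.B6I_903
import Crest.Agent.R143.B1h_991
import Crest.Agent.R143.B6D_654
import Crest.Agent.R143.DomA_722

/-!
# Row 143 (S0194), part B, B6: the deterministic inputs at one point (helper903)

`near_all` : from `TR`, `LOW`, `ENB`: for small `ε` three networks (domain, reference, turned
reference) which agree near `z` satisfy `Near`, with the bounds of the sides and the energy.
-/

set_option autoImplicit false

noncomputable section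

open scoped Classical

namespace Crest.Agent.R143.B6cx903

open Complex Set Filter Topology MeasureTheory
open Crest.ProbabilityR.Voronoi
open Crest.Agent.R143.B0x346 Crest.Agent.R143.B0Dx346 Crest.Agent.R143.PP1x831
open Crest.Agent.R143.Y0x831 (Good)
open Crest.Agent.R143.Spinex422 (Room Linked)
open Crest.Agent.R143.B1bx796 (touch Stk CK CK_pos)
open Crest.Agent.R143.Locx922 (Hol Agr)
open Crest.Agent.R143.B6Ix903
open Crest.Agent.R143.Mollx887 Crest.Agent.R143.Asmx336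
open Crest.Agent.R143.B6bx903

/-! ### small scales -/

theorem small_log (s κ c : ℝ) (hκ : κ < 1) (hc : 0 < c) :
    ∀ᶠ ε : ℝ in 𝓝[>] 0, ε * Real.log (1 / ε) ^ s ≤ c * ε ^ κ := by
  have h1 := (isLittleO_abs_log_rpow_rpow_nhdsGT_zero (s := κ - 1) s (by linarith)).def hc
  have h2 : ∀ᶠ ε : ℝ in 𝓝[>] 0, 0 < ε ∧ ε < 1 := by
    have h3 : Set.Ioo (0 : ℝ) 1 ∈ 𝓝[>] (0 : ℝ) := Ioo_mem_nhdsGT (by norm_num)
    filter_upwards [h3] with ε hε using hε
  filter_upwards [h1, h2] with ε h3 h4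
  have h5 : Real.log (1 / ε) = |Real.log ε| := by
    rw [one_div, Real.log_inv, abs_of_neg (Real.log_neg h4.1 h4.2)]
  rw [Real.norm_eq_abs, Real.norm_eq_abs, abs_of_nonneg (Real.rpow_nonneg (abs_nonneg _) _),
    abs_of_nonneg (Real.rpow_nonneg h4.1.le _)] at h3
  rw [h5]
  have h6 := h4.1.ne'
  calc ε * |Real.log ε| ^ s ≤ ε * (c * ε ^ (κ - 1)) := mul_le_mul_of_nonneg_left h3 h4.1.le
    _ = c * ε ^ κ := by
      rw [Real.rpow_sub h4.1, Real.rpow_one]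
      field_simp

theorem small_rad (C κ c : ℝ) (hC : 0 < C) (hκ : κ < 1) (hc : 0 < c) :
    ∀ᶠ ε : ℝ in 𝓝[>] 0, rad C ε ≤ c * ε ^ κ := by
  filter_upwards [small_log (1 / 2) κ (c / C) hκ (by positivity)] with ε h
  unfold rad
  rw [Real.sqrt_eq_rpow]
  calc C * ε * Real.log (1 / ε) ^ (1 / 2 : ℝ) = C * (ε * Real.log (1 / ε) ^ (1 / 2 : ℝ)) := by ring
    _ ≤ C * (c / C * ε ^ κ) := mul_le_mul_of_nonneg_left h hC.le
    _ = c * ε ^ κ := by field_simp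

theorem rad_pos {C ε : ℝ} (hC : 0 < C) (h0 : 0 < ε) (h1 : ε < 1) : 0 < rad C ε := by
  unfold rad
  have : 0 < Real.log (1 / ε) := Real.log_pos (by rw [lt_div_iff₀ h0]; linarith)
  have := Real.sqrt_pos.2 this
  positivity

theorem rpow_tendsto {κ : ℝ} (hκ : 0 < κ) : Tendsto (fun ε : ℝ => ε ^ κ) (𝓝[>] 0) (𝓝 0) := by
  have h4 := (Real.continuous_rpow_const hκ.le).tendsto 0
  rw [Real.zero_rpow hκ.ne'] at h4
  exact h4.mono_left nhdsWithin_le_nhds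

theorem ev_small {κ c : ℝ} (hκ : 0 < κ) (hc : 0 < c) : ∀ᶠ ε : ℝ in 𝓝[>] 0, ε ^ κ ≤ c :=
  (rpow_tendsto hκ).eventually (ge_mem_nhds hc)

theorem ev_unit : ∀ᶠ ε : ℝ in 𝓝[>] 0, 0 < ε ∧ ε < 1 := by
  have h3 : Set.Ioo (0 : ℝ) 1 ∈ 𝓝[>] (0 : ℝ) := Ioo_mem_nhdsGT (by norm_num)
  filter_upwards [h3] with ε hε using hε

/-! ### geometry -/

theorem room_norm {D : Dom} {R : ℝ} {z : ℂ} (h : Room D R z) (hR : 0 ≤ R) :
    ‖z - D.c‖ + R ≤ D.L / 2 := by
  have h1 := h.2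
  obtain ⟨u, hu, huz⟩ : ∃ u : ℂ, ‖u‖ = 1 ∧ z - D.c = (‖z - D.c‖ : ℂ) * u := by
    by_cases hz : z - D.c = 0
    · exact ⟨1, by simp, by rw [hz]; simp⟩
    · refine ⟨(z - D.c) / (‖z - D.c‖ : ℂ), ?_, ?_⟩
      · rw [norm_div, Complex.norm_real, norm_norm, div_self (norm_ne_zero_iff.2 hz)]
      · have : (‖z - D.c‖ : ℂ) ≠ 0 := by exact_mod_cast (norm_ne_zero_iff.2 hz)
        field_simp
  have h2 : z + (R : ℂ) * u ∈ Metric.closedBall z R := by
    rw [Metric.mem_closedBall, dist_eq_norm, add_sub_cancel_left, norm_mul, hu, mul_one,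
      Complex.norm_real, Real.norm_eq_abs, abs_of_nonneg hR]
  have h3 := h1 h2
  rw [Metric.mem_closedBall, dist_eq_norm] at h3
  have h4 : z + (R : ℂ) * u - D.c = ((‖z - D.c‖ + R : ℝ) : ℂ) * u := by
    calc z + (R : ℂ) * u - D.c = (z - D.c) + (R : ℂ) * u := by ring
      _ = (‖z - D.c‖ : ℂ) * u + (R : ℂ) * u := by rw [← huz]
      _ = _ := by push_cast; ring
  rw [h4, norm_mul, hu, mul_one, Complex.norm_real, Real.norm_eq_abs,
    abs_of_nonneg (by positivity)] at h3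
  exact h3

/-- the smallness of the mesh -/
structure Sm (π : Par) (δ κ ε : ℝ) : Prop where
  unit : 0 < ε ∧ ε < 1
  d : 0 < rad π.C ε
  rd : 6 * rad π.C ε ≤ ε ^ κ
  rR : 8 * ε ^ κ ≤ π.R
  hn : 40000 * π.L ^ 5 * rad π.C ε ≤ δ ^ 6
  lo : ε * Real.log (1 / ε) ^ π.a ≤ 2 * ε ^ κ
  hi : 2 * ε ^ κ ≤ 1

theorem ev_sm (π : Par) {δ κ : ℝ} (hδ : 0 < δ) (hκ : 0 < κ) (hκ1 : κ < 1) :
    ∀ᶠ ε : ℝ in 𝓝[>] 0, Sm π δ κ ε := by
  have hL := π.Lpos
  have hR := π.Rpos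
  filter_upwards [ev_unit, small_rad π.C κ (1 / 6) π.Cpos hκ1 (by norm_num),
    ev_small hκ (show 0 < π.R / 8 by positivity), small_rad π.C κ 1 π.Cpos hκ1 one_pos,
    ev_small hκ (show 0 < δ ^ 6 / (40000 * π.L ^ 5) by positivity),
    small_log π.a κ 2 hκ1 (by norm_num), ev_small hκ (show (0 : ℝ) < 1 / 2 by norm_num)]
    with ε h1 h2 h3 h4 h5 h6 h7
  refine ⟨h1, rad_pos π.Cpos h1.1 h1.2, by linarith, by linarith, ?_, h6, by linarith⟩
  have h8 : rad π.C ε ≤ δ ^ 6 / (40000 * π.L ^ 5) := by linarith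
  calc 40000 * π.L ^ 5 * rad π.C ε ≤ 40000 * π.L ^ 5 * (δ ^ 6 / (40000 * π.L ^ 5)) := by gcongr
    _ = δ ^ 6 := by field_simp

variable {π : Par} {δ δ' κ ε : ℝ} {D D' : Dom} {ω ω' : Sample} {z : ℂ}

theorem _root_.Crest.Agent.R143.B6Ix903.At.hnet (h : At π δ ε D ω z) (hs : Sm π δ κ ε) : HNet (D.sites ε ω) (net D ε ω) := by
  refine Adx422.d1 h.ok.w h.good.env (le_trans ?_ hs.hn)
  have h1 := h.ok.Lpos
  have h2 := h.len
  have h3 := hs.d
  gcongr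

theorem _root_.Crest.Agent.R143.B6Ix903.At.hol (h : At π δ ε D ω z) (hs : Sm π δ κ ε) {s : ℝ} (hs1 : s ≤ π.R) :
    Hol (D.sites ε ω : Set ℂ) (Metric.closedBall z s) (rad π.C ε) := by
  refine (Locx922.Env.hol_sites h.good.env).mono ?_
  have h1 := room_norm h.room π.Rpos.le
  have h2 := hs.rd
  have h3 := hs.rR
  have h4 := hs.d
  have h5 := h.ok.Lpos
  intro w hw
  rw [Metric.mem_closedBall, dist_eq_norm] at hw ⊢
  have h6 := Locx922.norm_tri w z D.c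
  have h7 : 0 ≤ ‖z - D.c‖ := norm_nonneg _
  linarith

theorem _root_.Crest.Agent.R143.B6Ix903.At.stk (h : At π δ ε D ω z) (hs : Sm π δ κ ε) :
    Stk (D.sites ε ω) (net D ε ω) (ε ^ κ) z := by
  have h1 := room_norm h.room π.Rpos.le
  have h2 := hs.rd
  have h3 := hs.rR
  have h4 := hs.d
  have h5 := h.ok.Lpos
  have h7 : 0 ≤ ‖z - D.c‖ := norm_nonneg _
  have h8 : 0 < ε ^ κ := Real.rpow_pos_of_pos hs.unit.1 _
  refine B1hx991.stk_env hs.d h8 h.good.env (h.hnet hs) (by linarith) fun w hw hwo => ?_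
  refine Set.disjoint_left.1 h.room.1 ?_ hwo
  rw [Metric.mem_closedBall, dist_eq_norm]
  linarith

theorem _root_.Crest.Agent.R143.B6Ix903.At.touch_eq (h : At π δ ε D ω z) (h' : At π δ' ε D' ω' z) (hs : Sm π δ κ ε)
    (hp : ∀ s : ℂ, ‖s - z‖ < π.R → (s ∈ points ε ω ↔ s ∈ points ε ω')) :
    touch z (ε ^ κ) (D.sites ε ω) = touch z (ε ^ κ) (D'.sites ε ω') := by
  have h2 := hs.rd
  have h3 := hs.rR
  have h4 := hs.d
  have h8 : 0 < ε ^ κ := Real.rpow_pos_of_pos hs.unit.1 _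
  have h1 := room_norm h.room π.Rpos.le
  have h1' := room_norm h'.room π.Rpos.le
  have h5 := h.ok.Lpos
  have h5' := h'.ok.Lpos
  refine B1gx991.touch_local hs.d (h.hol hs (by linarith)) ?_
  refine (Locx922.sites_agr h.good.env.fin h'.good.env.fin hp (by linarith) (by linarith)
    (2 * rad π.C ε)).mono ?_ le_rfl
  exact Metric.closedBall_subset_closedBall (by linarith)

theorem _root_.Crest.Agent.R143.B6Ix903.At.side (h : At π δ ε D ω z) (hs : Sm π δ κ ε) :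
    ∀ t ∈ touch z (ε ^ κ) (D.sites ε ω), ‖t.2.1 - t.1‖ ≤ ε ^ κ := by
  intro t ht
  have h2 := hs.rd
  have h3 := hs.rR
  have h4 := hs.d
  have h8 : 0 < ε ^ κ := Real.rpow_pos_of_pos hs.unit.1 _
  have := B1gx991.touch_short hs.d (h.hol hs (by linarith)) ht
  linarith

theorem _root_.Crest.Agent.R143.B6Ix903.At.sides (h : At π δ ε D ω z) (hs : Sm π δ κ ε) :
    ∑ t ∈ touch z (ε ^ κ) (D.sites ε ω), ‖t.2.1 - t.1‖ ^ 2 ≤ 16 * π.C4 * (ε ^ κ) ^ 2 := by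
  have h2 := hs.rd
  have h3 := hs.rR
  have h4 := hs.d
  have h8 : 0 < ε ^ κ := Real.rpow_pos_of_pos hs.unit.1 _
  have hC4 := π.C4pos
  have hroom := room_norm h.room π.Rpos.le
  have h5 := h.ok.Lpos
  have h7 : 0 ≤ ‖z - D.c‖ := norm_nonneg _
  have h9 : diamSum (points ε ω) (Metric.ball z (2 * ε ^ κ)) ≤
      ENNReal.ofReal (π.C4 * (2 * ε ^ κ) ^ 2) := by
    refine h.good.diam z ?_ _ hs.lo hs.hi
    rw [Metric.mem_closedBall, dist_eq_norm]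
    have := π.Rpos
    linarith
  have h10 := B6Dx654.sum_sq_le' (P := points ε ω) (W := Metric.ball z (2 * ε ^ κ))
    (C := π.C4 * (2 * ε ^ κ) ^ 2) (by positivity) (touch z (ε ^ κ) (D.sites ε ω)) ?_ h9
  · calc _ ≤ 4 * (π.C4 * (2 * ε ^ κ) ^ 2) := h10
      _ = _ := by ring
  · intro t ht
    have hn := (B1gx991.touch_near hs.d (h.hol hs (by linarith)) ht).1
    refine ⟨?_, ?_⟩
    · rw [B1bx796.touch, Finset.mem_filter] at ht
      obtain ⟨ht, x, hx, hxr⟩ := ht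
      refine (Locx922.Env.mem_delT hs.d h.good.env (w := x) ?_
        (B1gx991.side_inT (B1gx991.tri_pos ht) hx)).1 ht
      rw [Metric.mem_closedBall, dist_eq_norm]
      have := Locx922.norm_tri x z D.c
      linarith
    · rw [Metric.mem_ball, dist_eq_norm]
      linarith

/-! ### number of the faces -/

/-- lattice indices of a disc -/
def lat (s e : ℝ) : Finset (ℤ × ℤ) :=
  Finset.Icc ⌊-s / e⌋ ⌊s / e⌋ ×ˢ Finset.Icc ⌊-s / e⌋ ⌊s / e⌋

theorem lp_mem_lat {s e : ℝ} (he : 0 < e) {z : ℂ} (hz : ‖z‖ ≤ s) : lp e z ∈ lat s e := by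
  have h1 := (Complex.abs_re_le_norm z).trans hz
  have h2 := (Complex.abs_im_le_norm z).trans hz
  rw [abs_le] at h1 h2
  unfold lat B6bx903.lp
  rw [Finset.mem_product, Finset.mem_Icc, Finset.mem_Icc]
  refine ⟨⟨?_, ?_⟩, ?_, ?_⟩
  · exact Int.floor_le_floor (div_le_div_of_nonneg_right h1.1 he.le)
  · exact Int.floor_le_floor (div_le_div_of_nonneg_right h1.2 he.le)
  · exact Int.floor_le_floor (div_le_div_of_nonneg_right h2.1 he.le)
  · exact Int.floor_le_floor (div_le_div_of_nonneg_right h2.2 he.le)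

theorem lat_card {s e : ℝ} (hs : 0 ≤ s) (he : 0 < e) :
    ((lat s e).card : ℝ) ≤ (2 * s / e + 3) ^ 2 := by
  have h0 : 0 ≤ s / e := by positivity
  unfold lat
  rw [Finset.card_product, Int.card_Icc]
  have h1 : ((⌊s / e⌋ + 1 - ⌊-s / e⌋).toNat : ℝ) ≤ 2 * s / e + 3 := by
    have h2 : ⌊-s / e⌋ ≤ ⌊s / e⌋ := Int.floor_le_floor (by
      rw [neg_div]; linarith)
    have h3 : (0 : ℤ) ≤ ⌊s / e⌋ + 1 - ⌊-s / e⌋ := by omega
    have h4 : ((⌊s / e⌋ + 1 - ⌊-s / e⌋).toNat : ℝ) = ((⌊s / e⌋ + 1 - ⌊-s / e⌋ : ℤ) : ℝ) := by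
      have := Int.toNat_of_nonneg h3
      exact_mod_cast this
    rw [h4]
    push_cast
    have h5 := Int.floor_le (s / e)
    have h6 := Int.lt_floor_add_one (-s / e)
    have h7 : -s / e = -(s / e) := neg_div _ _
    have h8 : 2 * s / e = 2 * (s / e) := by ring
    rw [h7] at h6 ⊢
    rw [h8]
    linarith
  push_cast
  rw [sq]
  exact mul_le_mul h1 h1 (by positivity) (by positivity)

/-- number of the points in a disc -/
theorem card_pts {ε d M L s : ℝ} {c z : ℂ} {ω : Sample} (h : Env ε d M c L ω) (hd : 0 < d)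
    (hM : 0 ≤ M) (hs : 0 ≤ s) (hz : ‖z - c‖ + s + 2 * d ≤ L) {V : Finset ℂ}
    (hV : ∀ x ∈ V, x ∈ points ε ω ∧ ‖x - z‖ ≤ s) : (V.card : ℝ) ≤ (4 * s / d + 3) ^ 2 * M := by
  have he : 0 < d / 2 := by positivity
  have h1 := Finset.card_eq_sum_card_fiberwise (s := V) (t := lat s (d / 2))
    (f := fun x => lp (d / 2) (x - z)) (fun x hx => lp_mem_lat he (hV x hx).2)
  have h2 : ∀ p ∈ lat s (d / 2), ((V.filter fun x => lp (d / 2) (x - z) = p).card : ℝ) ≤ M := by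
    intro p _
    rcases Finset.eq_empty_or_nonempty (V.filter fun x => lp (d / 2) (x - z) = p) with h0 | ⟨x0, h0⟩
    · rw [h0]; simpa using hM
    set w : ℂ := z + pt (d / 2) p with hw
    have hcl : ∀ x ∈ V.filter (fun x => lp (d / 2) (x - z) = p), ‖x - w‖ ≤ d := by
      intro x hx
      rw [Finset.mem_filter] at hx
      have := pt_close he (x - z)
      rw [hx.2] at this
      have e : x - w = x - z - pt (d / 2) p := by rw [hw]; ring
      rw [e]; linarith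
    have hwc : ‖w - c‖ + d ≤ L := by
      have a1 := hcl x0 h0
      have a2 := (hV x0 (Finset.mem_filter.1 h0).1).2
      have e : w - c = -(x0 - w) + (x0 - z) + (z - c) := by ring
      have : ‖w - c‖ ≤ d + s + ‖z - c‖ := by
        rw [e]
        refine (norm_add_le _ _).trans (add_le_add ((norm_add_le _ _).trans ?_) le_rfl)
        rw [norm_neg]
        exact add_le_add a1 a2
      linarith
    have hfin : (points ε ω ∩ Metric.closedBall w d).Finite :=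
      h.fin.subset (inter_subset_inter_right _ (Metric.closedBall_subset_closedBall' (by
        rw [dist_eq_norm]; linarith)))
    refine le_trans ?_ (h.cnt w ?_)
    · have h5 : ((V.filter fun x => lp (d / 2) (x - z) = p : Finset ℂ) : Set ℂ).ncard ≤
          (points ε ω ∩ Metric.closedBall w d).ncard := by
        refine Set.ncard_le_ncard ?_ hfin
        intro x hx
        rw [Finset.mem_coe] at hx
        refine ⟨(hV x (Finset.mem_filter.1 hx).1).1, ?_⟩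
        rw [Metric.mem_closedBall, dist_eq_norm]
        exact hcl x hx
      rw [Set.ncard_coe_finset] at h5
      exact_mod_cast h5
    · rw [Metric.mem_closedBall, dist_eq_norm]; linarith
  have h3 : (V.card : ℝ) ≤ (lat s (d / 2)).card * M := by
    rw [h1]
    push_cast
    refine (Finset.sum_le_sum h2).trans (le_of_eq ?_)
    rw [Finset.sum_const, nsmul_eq_mul]
  refine h3.trans (mul_le_mul_of_nonneg_right ((lat_card hs he).trans (le_of_eq ?_)) hM)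
  congr 1
  field_simp
  ring

theorem _root_.Crest.Agent.R143.B6Ix903.At.card_touch (h : At π δ ε D ω z) (hs : Sm π δ κ ε) :
    ((touch z (ε ^ κ) (D.sites ε ω)).card : ℝ) ≤
      ((8 * ε ^ κ / rad π.C ε + 3) ^ 2 * (π.K * Real.log (1 / ε))) ^ 3 := by
  have h2 := hs.rd
  have h3 := hs.rR
  have h4 := hs.d
  have h8 : 0 < ε ^ κ := Real.rpow_pos_of_pos hs.unit.1 _
  have h1 := room_norm h.room π.Rpos.le
  have h5 := h.ok.Lpos
  have hlog : 0 ≤ Real.log (1 / ε) := Real.log_nonneg (by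
    rw [le_div_iff₀ hs.unit.1]; linarith [hs.unit.2])
  have hM : 0 ≤ π.K * Real.log (1 / ε) := mul_nonneg π.Kpos.le hlog
  set V : Finset ℂ := (D.sites ε ω).filter fun x => ‖x - z‖ ≤ 2 * ε ^ κ with hV
  have hc := card_pts (V := V) (z := z) (s := 2 * ε ^ κ) h.good.env h4 hM (by positivity)
    (by linarith) (fun x hx => by
      rw [hV, Finset.mem_filter] at hx
      exact ⟨((DomAx722.mem_sites h.good.env.fin).1 hx.1).1, hx.2⟩)
  have hsub : touch z (ε ^ κ) (D.sites ε ω) ⊆ V ×ˢ (V ×ˢ V) := by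
    intro t ht
    have hn := B1gx991.touch_near hs.d (h.hol hs (by linarith)) ht
    rw [B1bx796.touch, Finset.mem_filter] at ht
    have ht1 := (Finset.mem_filter.1 ht.1).1
    rw [Finset.mem_product, Finset.mem_product] at ht1
    rw [Finset.mem_product, Finset.mem_product, hV, Finset.mem_filter, Finset.mem_filter,
      Finset.mem_filter]
    exact ⟨⟨ht1.1, by linarith [hn.1]⟩, ⟨ht1.2.1, by linarith [hn.2.1]⟩,
      ⟨ht1.2.2, by linarith [hn.2.2]⟩⟩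
  have hcard := Finset.card_le_card hsub
  rw [Finset.card_product, Finset.card_product] at hcard
  have h9 : ((touch z (ε ^ κ) (D.sites ε ω)).card : ℝ) ≤ (V.card : ℝ) ^ 3 := by
    have : ((touch z (ε ^ κ) (D.sites ε ω)).card : ℝ) ≤
        ((V.card * (V.card * V.card) : ℕ) : ℝ) := by exact_mod_cast hcard
    refine this.trans (le_of_eq ?_)
    push_cast
    ring
  refine h9.trans (pow_le_pow_left₀ (by positivity) ?_ 3)
  have e : 4 * (2 * ε ^ κ) / rad π.C ε + 3 = 8 * ε ^ κ / rad π.C ε + 3 := by ring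
  rw [← e]
  exact hc

theorem ev_cnt (π : Par) {κ : ℝ} (hκ : 0 < κ) : ∀ᶠ ε : ℝ in 𝓝[>] 0,
    ((8 * ε ^ κ / rad π.C ε + 3) ^ 2 * (π.K * Real.log (1 / ε))) ^ 3 ≤ (ε ^ 9)⁻¹ := by
  have hC := π.Cpos
  have hK := π.Kpos
  set b : ℝ := (8 / π.C + 3) ^ 2 * π.K with hb
  have hb0 : 0 < b := by positivity
  have h3 : Set.Ioo (0 : ℝ) (Real.exp (-1)) ∈ 𝓝[>] (0 : ℝ) := Ioo_mem_nhdsGT (Real.exp_pos _)
  filter_upwards [ev_unit, small_log 1 0 b⁻¹ one_pos (by positivity), h3] with ε h1 h2 h4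
  obtain ⟨h0, h1'⟩ := h1
  have hlog : 1 ≤ Real.log (1 / ε) := by
    rw [one_div, Real.log_inv]
    have := Real.log_le_log h0 h4.2.le
    rw [Real.log_exp] at this
    linarith
  have hrad : π.C * ε ≤ rad π.C ε := by
    unfold rad
    have : 1 ≤ Real.sqrt (Real.log (1 / ε)) := by
      rw [Real.one_le_sqrt]; exact hlog
    have h5 : 0 ≤ π.C * ε := by positivity
    nlinarith
  have hle1 : ε ^ κ ≤ 1 := Real.rpow_le_one h0.le h1'.le hκ.le
  have h6 : 8 * ε ^ κ / rad π.C ε + 3 ≤ (8 / π.C + 3) / ε := by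
    have a1 : 8 * ε ^ κ / rad π.C ε ≤ 8 / (π.C * ε) := by
      have : 8 * ε ^ κ ≤ 8 := by linarith
      exact div_le_div₀ (by norm_num) this (by positivity) hrad
    have a2 : (3 : ℝ) ≤ 3 / ε := by
      rw [le_div_iff₀ h0]; linarith
    have a3 : (8 / π.C + 3) / ε = 8 / (π.C * ε) + 3 / ε := by
      field_simp
    rw [a3]; linarith
  have h7 : 0 ≤ 8 * ε ^ κ / rad π.C ε + 3 := by
    have : 0 < rad π.C ε := lt_of_lt_of_le (by positivity) hrad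
    have : 0 ≤ ε ^ κ := Real.rpow_nonneg h0.le _
    positivity
  have h8 : (8 * ε ^ κ / rad π.C ε + 3) ^ 2 * (π.K * Real.log (1 / ε)) ≤ (ε ^ 3)⁻¹ := by
    rw [Real.rpow_one, Real.rpow_zero, mul_one] at h2
    calc (8 * ε ^ κ / rad π.C ε + 3) ^ 2 * (π.K * Real.log (1 / ε))
        ≤ ((8 / π.C + 3) / ε) ^ 2 * (π.K * Real.log (1 / ε)) := by
          gcongr
      _ = b * (ε * Real.log (1 / ε)) / ε ^ 3 := by
          rw [hb]; field_simp
      _ ≤ b * b⁻¹ / ε ^ 3 := by gcongr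
      _ = (ε ^ 3)⁻¹ := by
          rw [mul_inv_cancel₀ hb0.ne', one_div]
  have h9 : ((ε ^ 3)⁻¹) ^ 3 = (ε ^ 9)⁻¹ := by
    rw [inv_pow, ← pow_mul]
  rw [← h9]
  refine pow_le_pow_left₀ ?_ h8 3
  have : 0 ≤ Real.log (1 / ε) := by linarith
  positivity

/-- numerical facts for the extra error `ε ^ (A + 12)` -/
theorem num {ε κ A n : ℝ} (h0 : 0 < ε) (h1 : ε < 1) (h40 : ε ≤ 1 / 40) (hκ : 0 < κ)
    (hκ1 : κ < 1 / 2) (hA : 0 < A) (hn0 : 0 ≤ n) (hn : n ≤ (ε ^ 9)⁻¹) :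
    40 * (n * (ε ^ (A + 12)) ^ 2) ≤ ((ε ^ κ) ^ (A / 2)) ^ 2 ∧
    10 * (n * (ε ^ (A + 12)) ^ 2) ≤ 12 / 12 ∧
    ∀ S CK : ℝ, 0 ≤ CK → S ≤ n * ε ^ κ →
      7 * (1 + 8 / (ε ^ κ) ^ (A / 2)) * (ε ^ (A + 12) * (CK / (ε ^ κ) ^ 2 * S)) ≤
        63 * CK * ε ^ 2 := by
  set P : ℝ := ε ^ A with hP
  set ρ : ℝ := (ε ^ κ) ^ (A / 2) with hρ
  have hP0 : 0 < P := Real.rpow_pos_of_pos h0 _
  have hP1 : P ≤ 1 := Real.rpow_le_one h0.le h1.le hA.le
  have hτ : ε ^ (A + 12) = P * ε ^ 12 := by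
    rw [Real.rpow_add h0, hP]
    congr 1
    rw [← Real.rpow_natCast]
    norm_num
  have hr0 : 0 < ε ^ κ := Real.rpow_pos_of_pos h0 _
  have hr1 : ε ≤ ε ^ κ := by
    calc ε = ε ^ (1 : ℝ) := (Real.rpow_one _).symm
      _ ≤ ε ^ κ := Real.rpow_le_rpow_of_exponent_ge h0 h1.le (by linarith)
  have hPρ : P ≤ ρ := by
    rw [hP, hρ, ← Real.rpow_mul h0.le]
    refine Real.rpow_le_rpow_of_exponent_ge h0 h1.le ?_
    nlinarith
  have hρ0 : 0 < ρ := lt_of_lt_of_le hP0 hPρ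
  have h9 : 0 < ε ^ 9 := by positivity
  have hn' : n * ε ^ 9 ≤ 1 := by
    calc n * ε ^ 9 ≤ (ε ^ 9)⁻¹ * ε ^ 9 := mul_le_mul_of_nonneg_right hn h9.le
      _ = 1 := inv_mul_cancel₀ h9.ne'
  have e1 : n * (ε ^ (A + 12)) ^ 2 = P ^ 2 * ε ^ 15 * (n * ε ^ 9) := by
    rw [hτ]; ring
  have e2 : n * (ε ^ (A + 12)) ^ 2 ≤ P ^ 2 * ε := by
    rw [e1]
    have a1 : ε ^ 15 ≤ ε := by
      calc ε ^ 15 = ε * ε ^ 14 := by ring
        _ ≤ ε * 1 := mul_le_mul_of_nonneg_left (pow_le_one₀ h0.le h1.le) h0.le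
        _ = ε := mul_one _
    calc P ^ 2 * ε ^ 15 * (n * ε ^ 9) ≤ P ^ 2 * ε ^ 15 * 1 := by gcongr
      _ ≤ P ^ 2 * ε := by rw [mul_one]; gcongr
  have hP2 : P ^ 2 ≤ ρ ^ 2 := pow_le_pow_left₀ hP0.le hPρ 2
  have hP3 : P ^ 2 ≤ 1 := pow_le_one₀ hP0.le hP1
  refine ⟨?_, ?_, fun S CK hCK hS => ?_⟩
  · nlinarith [sq_nonneg P]
  · nlinarith [sq_nonneg P]
  · have b1 : 1 + 8 / ρ ≤ 9 / P := by
      have c1 : 8 / ρ ≤ 8 / P := div_le_div_of_nonneg_left (by norm_num) hP0 hPρ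
      have c2 : 1 ≤ 1 / P := by rw [le_div_iff₀ hP0]; linarith
      have c3 : 9 / P = 1 / P + 8 / P := by ring
      rw [c3]; linarith
    have b2 : CK / (ε ^ κ) ^ 2 * S ≤ CK / (ε ^ 10) := by
      calc CK / (ε ^ κ) ^ 2 * S ≤ CK / (ε ^ κ) ^ 2 * (n * ε ^ κ) :=
            mul_le_mul_of_nonneg_left hS (by positivity)
        _ = CK * (n / ε ^ κ) := by field_simp
        _ ≤ CK * ((ε ^ 9)⁻¹ / ε) := by
            refine mul_le_mul_of_nonneg_left ?_ hCK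
            exact div_le_div₀ (by positivity) hn h0 hr1
        _ = CK / (ε ^ 10) := by field_simp
    have b3 : ε ^ (A + 12) * (CK / (ε ^ κ) ^ 2 * S) ≤ P * ε ^ 12 * (CK / (ε ^ 10)) := by
      rw [hτ]
      exact mul_le_mul_of_nonneg_left b2 (by positivity)
    have b4 : P * ε ^ 12 * (CK / (ε ^ 10)) = P * (CK * ε ^ 2) := by field_simp
    rw [b4] at b3
    have b5 : 0 ≤ P * (CK * ε ^ 2) := by positivity
    calc 7 * (1 + 8 / ρ) * (ε ^ (A + 12) * (CK / (ε ^ κ) ^ 2 * S))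
        ≤ 7 * (1 + 8 / ρ) * (P * (CK * ε ^ 2)) :=
          mul_le_mul_of_nonneg_left b3 (by positivity)
      _ ≤ 7 * (9 / P) * (P * (CK * ε ^ 2)) := by gcongr
      _ = 63 * CK * ε ^ 2 := by field_simp; ring

/-! ### the three networks -/

/-- **all the deterministic inputs at one point** -/
theorem near_all (hTR : TR) (hLOW : LOW) (hENB : ENB) (π : Par) {δ δ' θ ρ μ : ℝ} (hδ : 0 < δ)
    (hδ' : 0 < δ') (hθ : 0 < θ) (hρ : 0 < ρ) (hμ : 0 < μ) : ∃ A : ℝ, 0 < A ∧ ∀ κ : ℝ, 0 < κ → κ < 1 / 2 →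
      ∃ η X : ℝ → ℝ, Tendsto η (𝓝[>] 0) (𝓝 0) ∧ (∀ ε, 0 ≤ η ε) ∧ Tendsto X (𝓝[>] 0) (𝓝 0) ∧
        (∀ ε, 0 ≤ X ε) ∧ ∀ᶠ ε : ℝ in 𝓝[>] 0,
        ∀ (D D0 D1 : Dom) (ω ω0 ω1 : Sample) (z : ℂ), At π δ ε D ω z → At π δ' ε D0 ω0 z →
          At π δ' ε D1 ω1 z → D0.OK δ' → Sec3 D0 z θ ρ μ →
          (∀ s : ℂ, ‖s - z‖ < π.R → (s ∈ points ε ω ↔ s ∈ points ε ω0)) →
          (∀ s : ℂ, ‖s - z‖ < π.R → (s ∈ points ε ω ↔ s ∈ points ε ω1)) →
          (∀ s d : ℂ,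
            (‖s‖ ≤ ‖d‖ → ‖Sb (ε ^ κ) (D.h ε ω) z‖ ≤ 2 * (8 / (ε ^ κ) ^ (A / 2)) *
              flu (ε ^ κ) (D0.h ε ω0) (D1.h ε ω1) s d I z +
                10 * η ε * rhs (ε ^ κ) (D.sites ε ω) (net D ε ω) z + X ε) ∧
            (‖d‖ ≤ ‖s‖ → ‖Db (ε ^ κ) (D.h ε ω) z‖ ≤ 2 * (8 / (ε ^ κ) ^ (A / 2)) *
              flu (ε ^ κ) (D0.h ε ω0) (D1.h ε ω1) s d I z +
                10 * η ε * rhs (ε ^ κ) (D.sites ε ω) (net D ε ω) z + X ε)) ∧
          (∀ t ∈ touch z (ε ^ κ) (D.sites ε ω), ‖t.2.1 - t.1‖ ≤ ε ^ κ) ∧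
          ∑ t ∈ touch z (ε ^ κ) (D.sites ε ω), ‖t.2.1 - t.1‖ ^ 2 ≤
            16 * π.C4 * (ε ^ κ) ^ 2 ∧
          ∑ t ∈ delT (D.sites ε ω), ‖(net D ε ω).Q t‖ ^ 2 ≤ 12 := by
  obtain ⟨A, hA, hlow⟩ := hLOW π δ' θ ρ μ hδ' hθ hρ hμ
  refine ⟨A, hA, fun κ hκ hκ1 => ?_⟩
  obtain ⟨η₁, hη₁, htr⟩ := hTR π δ δ' hδ hδ' κ hκ hκ1 (A + 12) (by linarith)
  obtain ⟨η₂, hη₂, htr'⟩ := hTR π δ' δ' hδ' hδ' κ hκ hκ1 (A + 12) (by linarith)
  have hCK := CK_pos
  refine ⟨fun ε => |η₁ ε| + |η₂ ε|, fun ε => 63 * CK * ε ^ 2, ?_, fun ε => by positivity, ?_,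
    fun ε => by positivity, ?_⟩
  · have h1 := hη₁.abs.add hη₂.abs
    simpa using h1
  · have h1 : Tendsto (fun ε : ℝ => 63 * CK * ε ^ 2) (𝓝 0) (𝓝 (63 * CK * 0 ^ 2)) :=
      (Continuous.tendsto (by fun_prop) 0)
    simp only [ne_eq, OfNat.ofNat_ne_zero, not_false_eq_true, zero_pow, mul_zero] at h1
    exact h1.mono_left nhdsWithin_le_nhds
  have hsmall : ∀ᶠ ε : ℝ in 𝓝[>] 0, |η₁ ε| + |η₂ ε| ≤ 1 / 2 := by
    have h1 := hη₁.abs.add hη₂.abs
    rw [abs_zero, add_zero] at h1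
    exact h1.eventually (ge_mem_nhds (by norm_num))
  have h40 : ∀ᶠ ε : ℝ in 𝓝[>] 0, ε ≤ 1 / 40 := by
    have h3 : Set.Ioo (0 : ℝ) (1 / 40) ∈ 𝓝[>] (0 : ℝ) := Ioo_mem_nhdsGT (by norm_num)
    filter_upwards [h3] with ε hε using hε.2.le
  filter_upwards [htr, htr', hlow κ hκ hκ1, hENB π δ hδ, ev_sm π hδ hκ (by linarith),
    ev_sm π hδ' hκ (by linarith), hsmall, ev_cnt π hκ, h40] with ε e1 e2 e3 e4 s1 s2 hη hcnt h40
  intro D D0 D1 ω ω0 ω1 z a a0 a1 hok sec p0 p1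
  have t0 := a.touch_eq a0 s1 p0
  have t1 := a.touch_eq a1 s1 p1
  have hr : 0 < ε ^ κ := Real.rpow_pos_of_pos s1.unit.1 _
  have n1 : 0 ≤ |η₁ ε| := abs_nonneg _
  have n2 : 0 ≤ |η₂ ε| := abs_nonneg _
  have hen := e4 D ω z a
  have hτ : 0 ≤ ε ^ (A + 12) := Real.rpow_nonneg s1.unit.1.le _
  have hn := (a.card_touch s1).trans hcnt
  obtain ⟨m1, m2, m3⟩ := num s1.unit.1 s1.unit.2 h40 hκ hκ1 hA (Nat.cast_nonneg _) hn
  have hnear : Near (ε ^ κ) (|η₁ ε| + |η₂ ε|) (ε ^ (A + 12)) (8 / (ε ^ κ) ^ (A / 2))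
      (D.sites ε ω) (D0.sites ε ω0) (D1.sites ε ω1) (net D ε ω) (net D0 ε ω0) (net D1 ε ω1) z := by
    refine ⟨a.stk s1, a0.stk s2, a1.stk s2, t0, t1, ?_, ?_⟩
    · obtain ⟨lam, hlam⟩ := e1 D D0 ω ω0 z a a0 p0
      have hq : ∀ t ∈ touch z (ε ^ κ) (D.sites ε ω),
          ‖(net D ε ω).Q t - lam * (net D0 ε ω0).Q t‖ ≤
          (|η₁ ε| + |η₂ ε|) * ‖(net D ε ω).Q t‖ + ε ^ (A + 12) * (1 + ‖lam‖) := by
        intro t ht
        refine (hlam t ht).trans (add_le_add (mul_le_mul_of_nonneg_right ?_ (norm_nonneg _)) le_rfl)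
        linarith [le_abs_self (η₁ ε)]
      refine ⟨lam, ?_, hq⟩
      have hE : ∑ t ∈ touch z (ε ^ κ) (D.sites ε ω), ‖(net D ε ω).Q t‖ ^ 2 ≤ 12 := by
        refine le_trans (Finset.sum_le_sum_of_subset_of_nonneg ?_ fun t _ _ => by positivity) hen
        rw [B1bx796.touch]
        exact Finset.filter_subset _ _
      have hlow' := e3 D0 ω0 z hok a0 sec
      rw [← t0] at hlow'
      have hρ' : 0 < (ε ^ κ) ^ (A / 2) := Real.rpow_pos_of_pos hr _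
      have hρ2 : ((ε ^ κ) ^ (A / 2)) ^ 2 = (ε ^ κ) ^ A := by
        rw [← Real.rpow_natCast, ← Real.rpow_mul hr.le]
        congr 1
        push_cast
        ring
      have hlam' := B6bx903.lam_le (touch z (ε ^ κ) (D.sites ε ω)) (net D ε ω).Q
        (net D0 ε ω0).Q hη hq hE hρ' (by rw [hρ2]; exact hlow') m1 m2
      refine hlam'.trans ?_
      have h12 : Real.sqrt 12 ≤ 4 := by
        rw [show (4 : ℝ) = Real.sqrt 16 by
          rw [show (16 : ℝ) = 4 ^ 2 by norm_num, Real.sqrt_sq (by norm_num)]]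
        exact Real.sqrt_le_sqrt (by norm_num)
      gcongr
      linarith
    · -- the turned reference
      have p01 : ∀ s : ℂ, ‖s - z‖ < π.R → (s ∈ points ε ω1 ↔ s ∈ points ε ω0) := fun s hs =>
        (p1 s hs).symm.trans (p0 s hs)
      obtain ⟨mu, hmu⟩ := e2 D1 D0 ω1 ω0 z a1 a0 p01
      rw [← t1] at hmu
      refine ⟨mu, fun t ht => (hmu t ht).trans (add_le_add
        (mul_le_mul_of_nonneg_right ?_ (norm_nonneg _)) le_rfl)⟩
      linarith [le_abs_self (η₂ ε)]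
  have hside := a.side s1
  have hS : ∑ t ∈ touch z (ε ^ κ) (D.sites ε ω), ‖t.2.1 - t.1‖ ≤
      (touch z (ε ^ κ) (D.sites ε ω)).card * ε ^ κ := by
    refine (Finset.sum_le_sum hside).trans (le_of_eq ?_)
    rw [Finset.sum_const, nsmul_eq_mul]
  have hX := m3 _ CK hCK.le hS
  refine ⟨fun s d => ?_, hside, a.sides s1, hen⟩
  have key := hnear.alt hr (by positivity) hη hτ (s := s) (d := d) (rho := I) Complex.norm_I
  refine ⟨fun h => (key.1 h).trans ?_, fun h => (key.2 h).trans ?_⟩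
  · exact add_le_add le_rfl hX
  · exact add_le_add le_rfl hX

end Crest.Agent.R143.B6cx903
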