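import Crest.Agent.R143.B6L_654
import Crest.Agent.R143.B6C_654
import Crest.Agent.R143.B6c_903

/-!
# Row 143 (S0194), B6: from the reference system to the inputs of `LMin` (helper654)

* `flu_aem` : measurability of the fluctuations
* `inp_of` : the union bound over the lattice points, for one `ε`
* `inpP` : the family of inputs from `TR`, `LOW`, `ENB`, `MG`, `YOUT`; `lmin` : the leaf `LMin`
-/

set_option autoImplicit false

noncomputable section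

open scoped Classical

namespace Crest.Agent.R143.B6Fx654

open Complex Set Filter Topology MeasureTheory
open scoped ENNReal NNReal
open Crest.ProbabilityR.Voronoi
open Crest.Agent.R143.B0x346 Crest.Agent.R143.B0Dx346 Crest.Agent.R143.PP1x831
open Crest.Agent.R143.Y0x831 (Good)
open Crest.Agent.R143.Mollx887 Crest.Agent.R143.Asmx336
open Crest.Agent.R143.Spinex422
open Crest.Agent.R143.B1bx796 (touch Stk CK CK_pos)
open Crest.Agent.R143.B6x654 Crest.Agent.R143.B6Lx654 Crest.Agent.R143.B6bx903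
open Crest.Agent.R143.B6Ix903 Crest.Agent.R143.B6Cx654

/-- measurability of the fluctuations -/
theorem flu_aem (P : Measure Sample) [SFinite P] {H0 H1 : Sample → ℂ → ℂ}
    (h0 : AEStronglyMeasurable (fun q : Sample × ℂ => H0 q.1 q.2) (P.prod volume))
    (h1 : AEStronglyMeasurable (fun q : Sample × ℂ => H1 q.1 q.2) (P.prod volume))
    (r : ℝ) (s d rho c : ℂ) :
    AEMeasurable (fun ω => ENNReal.ofReal (flu r (H0 ω) (H1 ω) s d rho c)) P := by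
  have e1 := Sb_aesm_at P h0 r c
  have e2 := Sb_aesm_at P h1 r c
  have e3 := Db_aesm_at P h0 r c
  have e4 := Db_aesm_at P h1 r c
  unfold flu
  exact ((((e1.sub aestronglyMeasurable_const).norm.add
    (e2.sub aestronglyMeasurable_const).norm).add
    (e3.sub aestronglyMeasurable_const).norm).add
    (e4.add aestronglyMeasurable_const).norm).aemeasurable.ennreal_ofReal

/-- the lattice points of the ball -/
def lat (RK ε : ℝ) : Finset (ℤ × ℤ) :=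
  Finset.Icc ⌊-RK / ε⌋ ⌊RK / ε⌋ ×ˢ Finset.Icc ⌊-RK / ε⌋ ⌊RK / ε⌋

theorem lp_mem_lat {RK ε : ℝ} (hε : 0 < ε) {z : ℂ} (hz : ‖z‖ ≤ RK) : lp ε z ∈ lat RK ε := by
  have h1 := (Complex.abs_re_le_norm z).trans hz
  have h2 := (Complex.abs_im_le_norm z).trans hz
  rw [abs_le] at h1 h2
  unfold lat B6bx903.lp
  rw [Finset.mem_product, Finset.mem_Icc, Finset.mem_Icc]
  refine ⟨⟨?_, ?_⟩, ?_, ?_⟩
  · exact Int.floor_le_floor (div_le_div_of_nonneg_right h1.1 hε.le)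
  · exact Int.floor_le_floor (div_le_div_of_nonneg_right h1.2 hε.le)
  · exact Int.floor_le_floor (div_le_div_of_nonneg_right h2.1 hε.le)
  · exact Int.floor_le_floor (div_le_div_of_nonneg_right h2.2 hε.le)

theorem lat_card {RK ε : ℝ} (hRK : 0 ≤ RK) (hε : 0 < ε) :
    ((lat RK ε).card : ℝ) ≤ (2 * RK / ε + 3) ^ 2 := by
  have h0 : 0 ≤ RK / ε := by positivity
  unfold lat
  rw [Finset.card_product, Int.card_Icc]
  have h1 : ((⌊RK / ε⌋ + 1 - ⌊-RK / ε⌋).toNat : ℝ) ≤ 2 * RK / ε + 3 := by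
    have h2 : ⌊-RK / ε⌋ ≤ ⌊RK / ε⌋ := Int.floor_le_floor (by
      rw [neg_div]; linarith)
    have h3 : (0 : ℤ) ≤ ⌊RK / ε⌋ + 1 - ⌊-RK / ε⌋ := by omega
    have h4 : ((⌊RK / ε⌋ + 1 - ⌊-RK / ε⌋).toNat : ℝ) = ((⌊RK / ε⌋ + 1 - ⌊-RK / ε⌋ : ℤ) : ℝ) := by
      have := Int.toNat_of_nonneg h3
      exact_mod_cast this
    rw [h4]
    push_cast
    have h5 := Int.floor_le (RK / ε)
    have h6 := Int.lt_floor_add_one (-RK / ε)
    have h7 : -RK / ε = -(RK / ε) := neg_div _ _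
    have h8 : 2 * RK / ε = 2 * (RK / ε) := by ring
    rw [h7] at h6 ⊢
    rw [h8]
    linarith
  push_cast
  rw [sq]
  exact mul_le_mul h1 h1 (by positivity) (by positivity)

/-- **the inputs from the reference system**, one `ε` -/
theorem inp_of {D : Dom} {Gm : Set Sample} {K : Set ℂ} {RK : ℝ} (hRK : 0 ≤ RK)
    (hK : ∀ z ∈ K, ‖z‖ ≤ RK) {ε r η Λ C4 CE E1 β X : ℝ} (hε : 0 < ε) (hβ : 0 ≤ β)
    {Y0 Y1 : ℤ × ℤ → Dom} {g0 g1 : ℤ × ℤ → Sample → Sample} {s d : ℂ}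
    {gd : Sample → Prop} {gd0 gd1 : ℤ × ℤ → Sample → Prop}
    (h : sampleLaw {ω | ¬ gd ω} ≤ ENNReal.ofReal β)
    (h0 : ∀ p, sampleLaw {ω | ¬ gd0 p ω} ≤ ENNReal.ofReal β)
    (h1 : ∀ p, sampleLaw {ω | ¬ gd1 p ω} ≤ ENNReal.ofReal β)
    (hc : ∀ p, ∃ G : Set Sample, MeasurableSet G ∧ sampleLaw Gᶜ ≤ ENNReal.ofReal β ∧
      AEStronglyMeasurable (fun q : Sample × ℂ => (Y0 p).h ε (g0 p q.1) q.2)
        ((sampleLaw.restrict G).prod volume) ∧
      AEStronglyMeasurable (fun q : Sample × ℂ => (Y1 p).h ε (g1 p q.1) q.2)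
        ((sampleLaw.restrict G).prod volume) ∧
      ∫⁻ ω in G, ENNReal.ofReal
        (flu r ((Y0 p).h ε (g0 p ω)) ((Y1 p).h ε (g1 p ω)) s d I (pt ε p)) ∂sampleLaw ≤
          ENNReal.ofReal E1)
    (hn : ∀ ω, ∀ z ∈ K, gd ω → gd0 (lp ε z) ω → gd1 (lp ε z) ω →
      Alt r η Λ X (D.sites ε ω) (net D ε ω) (D.h ε ω) ((Y0 (lp ε z)).h ε (g0 (lp ε z) ω))
        ((Y1 (lp ε z)).h ε (g1 (lp ε z) ω)) s d I z)
    (hs : ∀ ω, gd ω → ∀ z ∈ K, (∀ t ∈ touch z r (D.sites ε ω), ‖t.2.1 - t.1‖ ≤ r) ∧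
      ∑ t ∈ touch z r (D.sites ε ω), ‖t.2.1 - t.1‖ ^ 2 ≤ C4 * r ^ 2)
    (he : ∀ ω, gd ω → ∀ z ∈ K, ∑ t ∈ delT (D.sites ε ω), ‖(net D ε ω).Q t‖ ^ 2 ≤ CE)
    (hKn : K.Nonempty) :
    Nonempty (Inp D Gm K ε r η Λ C4 CE E1 (β + (2 * RK / ε + 3) ^ 2 * (3 * β)) X) := by
  choose Gc hc1 hc2 hc3 hc4 hc5 using hc
  obtain ⟨zK, hzK⟩ := hKn
  set Gx : Set Sample := {ω | gd ω ∧ ∀ p ∈ lat RK ε, gd0 p ω ∧ gd1 p ω ∧ ω ∈ Gc p} with hGx
  obtain ⟨F, hF⟩ : ∃ F : ℤ × ℤ → Sample → ℝ≥0∞, ∀ p ω, F p ω = ENNReal.ofReal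
      (flu r ((Y0 p).h ε (g0 p ω)) ((Y1 p).h ε (g1 p ω)) s d I (pt ε p)) := ⟨_, fun _ _ => rfl⟩
  have hFm : ∀ p, AEMeasurable (F p) (sampleLaw.restrict (Gc p)) := by
    intro p
    have e := flu_aem (sampleLaw.restrict (Gc p)) (H0 := fun ω => (Y0 p).h ε (g0 p ω))
      (H1 := fun ω => (Y1 p).h ε (g1 p ω)) (hc3 p) (hc4 p) r s d I (pt ε p)
    have e2 : F p = fun ω => ENNReal.ofReal
      (flu r ((Y0 p).h ε (g0 p ω)) ((Y1 p).h ε (g1 p ω)) s d I (pt ε p)) := funext (hF p)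
    rw [e2]
    exact e
  have hFi : ∀ p, ∫⁻ ω in Gc p, F p ω ∂sampleLaw ≤ ENNReal.ofReal E1 := by
    intro p
    simp_rw [hF]
    exact hc5 p
  clear hc3 hc4 hc5
  refine ⟨⟨fun p ω => net (Y0 p) ε (g0 p ω), fun p ω => net (Y1 p) ε (g1 p ω), s, d, I, Gx,
    fun p => (Gc p).indicator (F p),
    ?_, ?_, ?_, ?_, ?_, ?_, ?_, ?_⟩⟩
  · -- probability
    have hsub : Gm \ Gx ⊆ {ω | ¬ gd ω} ∪ ⋃ p ∈ lat RK ε,
        (({ω | ¬ gd0 p ω} ∪ {ω | ¬ gd1 p ω}) ∪ (Gc p)ᶜ) := by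
      rintro ω ⟨-, hω⟩
      rw [hGx, mem_ofPred_eq, not_and_or] at hω
      rcases hω with hω | hω
      · exact Or.inl hω
      · right
        push Not at hω
        obtain ⟨p, hp, hω⟩ := hω
        rw [mem_iUnion₂]
        refine ⟨p, hp, ?_⟩
        by_cases e0 : gd0 p ω
        · by_cases e1 : gd1 p ω
          · exact Or.inr (hω e0 e1)
          · exact Or.inl (Or.inr e1)
        · exact Or.inl (Or.inl e0)
    have h3 : ∀ p, sampleLaw (({ω | ¬ gd0 p ω} ∪ {ω | ¬ gd1 p ω}) ∪ (Gc p)ᶜ) ≤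
        ENNReal.ofReal (3 * β) := by
      intro p
      refine (measure_union_le _ _).trans ((add_le_add (measure_union_le _ _) le_rfl).trans ?_)
      refine (add_le_add (add_le_add (h0 p) (h1 p)) (hc2 p)).trans (le_of_eq ?_)
      rw [← ENNReal.ofReal_add hβ hβ, ← ENNReal.ofReal_add (by positivity) hβ]
      congr 1
      ring
    calc sampleLaw (Gm \ Gx) ≤ sampleLaw ({ω | ¬ gd ω} ∪ ⋃ p ∈ lat RK ε,
        (({ω | ¬ gd0 p ω} ∪ {ω | ¬ gd1 p ω}) ∪ (Gc p)ᶜ)) := measure_mono hsub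
      _ ≤ ENNReal.ofReal β + ∑ p ∈ lat RK ε, ENNReal.ofReal (3 * β) := by
          refine (measure_union_le _ _).trans (add_le_add h ?_)
          exact (measure_biUnion_finset_le _ _).trans (Finset.sum_le_sum fun p _ => h3 p)
      _ = ENNReal.ofReal β + ENNReal.ofReal ((lat RK ε).card * (3 * β)) := by
          have e : ENNReal.ofReal ((lat RK ε).card * (3 * β)) =
              (lat RK ε).card * ENNReal.ofReal (3 * β) := by
            rw [ENNReal.ofReal_mul (Nat.cast_nonneg _), ENNReal.ofReal_natCast]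
          rw [Finset.sum_const, nsmul_eq_mul, e]
      _ ≤ ENNReal.ofReal β + ENNReal.ofReal ((2 * RK / ε + 3) ^ 2 * (3 * β)) := by
          gcongr
          exact lat_card hRK hε
      _ = _ := (ENNReal.ofReal_add hβ (by positivity)).symm
  · rintro ω ⟨-, hω, hω2⟩ z hz
    obtain ⟨e0, e1, -⟩ := hω2 _ (lp_mem_lat hε (hK z hz))
    exact hn ω z hz hω e0 e1
  · rintro ω ⟨-, hω, -⟩ z hz
    exact (hs ω hω z hz).1
  · rintro ω ⟨-, hω, -⟩ z hz
    exact (hs ω hω z hz).2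
  · rintro ω ⟨-, hω, -⟩
    exact he ω hω zK hzK
  · intro z _
    exact ((aemeasurable_indicator_iff (hc1 _)).2 (hFm _)).mono_measure Measure.restrict_le_self
  · intro z _
    calc ∫⁻ ω in Gm, (Gc (B6bx903.lp ε z)).indicator (F (B6bx903.lp ε z)) ω ∂sampleLaw
        ≤ ∫⁻ ω, (Gc (B6bx903.lp ε z)).indicator (F (B6bx903.lp ε z)) ω ∂sampleLaw :=
          lintegral_mono' Measure.restrict_le_self le_rfl
      _ = ∫⁻ ω in Gc (B6bx903.lp ε z), F (B6bx903.lp ε z) ω ∂sampleLaw :=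
          lintegral_indicator (hc1 _) _
      _ ≤ ENNReal.ofReal E1 := hFi _
  · rintro ω ⟨-, -, hω2⟩ z hz
    obtain ⟨-, -, e2⟩ := hω2 _ (lp_mem_lat hε (hK z hz))
    rw [indicator_of_mem e2, hF]
    exact le_rfl

/-! ### environments -/

theorem GoodB.mono {R R' ε C K a C4 : ℝ} {ω : Sample} (h : GoodB R ε C K a C4 ω) (hR : R' ≤ R) :
    GoodB R' ε C K a C4 ω := by
  have h1 : ∀ s : ℝ, Metric.closedBall (0 : ℂ) (R' - s) ⊆ Metric.closedBall 0 (R - s) := fun s =>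
    Metric.closedBall_subset_closedBall (by linarith)
  have h0 : Metric.closedBall (0 : ℂ) R' ⊆ Metric.closedBall 0 R :=
    Metric.closedBall_subset_closedBall hR
  exact ⟨⟨h.env.fin.subset (inter_subset_inter_right _ h0), h.env.gp,
    fun z hz => h.env.hole z (h1 _ hz), fun z hz => h.env.cnt z (h0 hz)⟩,
    fun z hz => h.diam z (h0 hz)⟩

theorem GoodB.good {D : Dom} {R ε C K a C4 : ℝ} {ω : Sample} (h : GoodB R ε C K a C4 ω)
    (hR : ‖D.c‖ + D.L ≤ R) : Good D ε C K a C4 ω := by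
  have h1 : ∀ s : ℝ, Metric.closedBall D.c (D.L - s) ⊆ Metric.closedBall (0 : ℂ) (R - s) := by
    intro s
    refine Metric.closedBall_subset_closedBall' ?_
    rw [dist_zero_right]
    linarith
  have h0 : Metric.closedBall D.c D.L ⊆ Metric.closedBall (0 : ℂ) R := by
    refine Metric.closedBall_subset_closedBall' ?_
    rw [dist_zero_right]
    linarith
  exact ⟨⟨h.env.fin.subset (inter_subset_inter_right _ h0), h.env.gp,
    fun z hz => h.env.hole z (h1 _ hz), fun z hz => h.env.cnt z (h0 hz)⟩,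
    fun z hz => h.diam z (h0 hz)⟩

theorem MP.mono {R R' A C K a C4 : ℝ} (h : MP R A C K a C4) (hR : R' ≤ R) :
    MP R' A C K a C4 := by
  unfold MP at h ⊢
  filter_upwards [h] with ε hε
  refine le_trans (measure_mono fun ω hω => ?_) hε
  exact fun h' => hω (GoodB.mono h' hR)

/-! ### the exponents -/

theorem rpow_zero {κ : ℝ} (hκ : 0 < κ) : Tendsto (fun ε : ℝ => ε ^ κ) (𝓝[>] 0) (𝓝 0) :=
  B6cx903.rpow_tendsto hκ

/-- the failure probability -/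
def bet (RK ε : ℝ) : ℝ := ε ^ (10 : ℝ) + (2 * RK / ε + 3) ^ 2 * (3 * ε ^ (10 : ℝ))

theorem bet_nonneg {RK ε : ℝ} (hε : 0 < ε) : 0 ≤ bet RK ε := by
  unfold bet
  positivity

theorem bet_le {RK ε : ℝ} (hRK : 0 ≤ RK) (hε : 0 < ε) (hε1 : ε < 1) :
    bet RK ε ≤ (1 + 3 * (2 * RK + 3) ^ 2) * ε ^ (8 : ℝ) := by
  have h1 : ε ^ (10 : ℝ) = ε ^ (8 : ℝ) * ε ^ 2 := by
    rw [← Real.rpow_natCast, ← Real.rpow_add hε]
    norm_num
  have h2 : 2 * RK / ε + 3 ≤ (2 * RK + 3) / ε := by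
    rw [add_div]
    have : (3 : ℝ) ≤ 3 / ε := by
      rw [le_div_iff₀ hε]; nlinarith
    linarith
  have h3 : (2 * RK / ε + 3) ^ 2 ≤ ((2 * RK + 3) / ε) ^ 2 := by gcongr
  have h4 : 0 ≤ ε ^ (8 : ℝ) := Real.rpow_nonneg hε.le _
  have h5 : ε ^ 2 ≤ 1 := by nlinarith
  unfold bet
  rw [h1]
  calc ε ^ (8 : ℝ) * ε ^ 2 + (2 * RK / ε + 3) ^ 2 * (3 * (ε ^ (8 : ℝ) * ε ^ 2))
      ≤ ε ^ (8 : ℝ) * 1 + ((2 * RK + 3) / ε) ^ 2 * (3 * (ε ^ (8 : ℝ) * ε ^ 2)) := by gcongr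
    _ = (1 + 3 * (2 * RK + 3) ^ 2) * ε ^ (8 : ℝ) := by
        field_simp

theorem bet_tendsto {RK κ : ℝ} (hRK : 0 ≤ RK) (hκ : κ < 8) :
    Tendsto (fun ε : ℝ => bet RK ε / ε ^ κ) (𝓝[>] 0) (𝓝 0) := by
  have h1 : Tendsto (fun ε : ℝ => (1 + 3 * (2 * RK + 3) ^ 2) * ε ^ (8 - κ)) (𝓝[>] 0) (𝓝 0) := by
    simpa using (rpow_zero (by linarith : 0 < 8 - κ)).const_mul (1 + 3 * (2 * RK + 3) ^ 2)
  refine squeeze_zero' ?_ ?_ h1
  · filter_upwards [B6cx903.ev_unit] with ε hε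
    exact div_nonneg (bet_nonneg hε.1) (Real.rpow_nonneg hε.1.le _)
  · filter_upwards [B6cx903.ev_unit] with ε hε
    rw [div_le_iff₀ (Real.rpow_pos_of_pos hε.1 _), mul_assoc, ← Real.rpow_add hε.1,
      sub_add_cancel]
    exact bet_le hRK hε.1 hε.2

/-! ### the family -/

/-- **the family of inputs** -/
theorem inpP (hTR : TR) (hLOW : LOW) (hENB : ENB) (hMG : MG) (hY : YOUT) {D : Dom} {δ : ℝ}
    (hD : D.Ad δ) (G : ℝ → Set Sample) {ρ m : ℝ} (hρ : 0 < ρ) (hm : 0 < m) : InpP D G ρ m := by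
  obtain ⟨L, R, m', δ', R₁, θ, ρ', μ, hL, hR, hRρ, hm', hδ', hR₁, hθ, hρ', hμ, hY⟩ := hY ρ hρ
  set R₂ : ℝ := max R₁ (‖D.c‖ + D.L) with hR₂
  have hR₂0 : 0 < R₂ := hR₁.trans_le (le_max_left _ _)
  obtain ⟨C, K, a, C4, hC, hK, ha, hC4, hMP⟩ := hMG R₂ 30 hR₂0 (by norm_num)
  set π : Par := ⟨max L D.L, R, min m m', C, K, a, C4, hL.trans_le (le_max_left _ _), hR,
    lt_min hm hm', hC, hK, ha, hC4⟩ with hπ
  obtain ⟨c, hc, hY⟩ := hY π (le_max_left _ _) le_rfl (min_le_right _ _)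
    (MP.mono hMP (le_max_left _ _))
  obtain ⟨A, hA, hn⟩ := B6cx903.near_all hTR hLOW hENB π hD.dpos hδ' hθ hρ' hμ
  -- the exponent
  set κ : ℝ := min c 1 / (2 * (2 + A / 2)) with hκ
  have hc1 : 0 < min c 1 := lt_min hc one_pos
  have hden : 0 < 2 * (2 + A / 2) := by positivity
  have hκ0 : 0 < κ := div_pos hc1 hden
  have hκe : κ * (2 + A / 2) = min c 1 / 2 := by
    rw [hκ]; field_simp
  have hκ4 : κ < 1 / 4 := by
    rw [hκ, div_lt_iff₀ hden]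
    have := min_le_right c 1
    linarith
  obtain ⟨η, X, hη, hη0, hX, hX0, hn⟩ := hn κ hκ0 (by linarith)
  have hY := hY κ hκ0 hκ4
  refine ⟨κ, hκ0, fun K' hK' hKn hKR => ?_⟩
  obtain ⟨RK, hRK⟩ := hK'.isBounded.exists_norm_le
  have hRK0 : 0 ≤ RK := by
    obtain ⟨z, hz⟩ := hKn
    exact (norm_nonneg z).trans (hRK z hz)
  refine ⟨η, fun ε => 8 / (ε ^ κ) ^ (A / 2), fun ε => ε ^ (c - 2 * κ), bet RK, X,
    16 * C4, 12, ?_, hη, ?_, ?_, bet_tendsto hRK0 (by linarith), hX⟩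
  · filter_upwards [hY, hn, B6cx903.ev_unit, hMP, B6cx903.ev_sm π hD.dpos hκ0 (by linarith),
      hENB π δ hD.dpos] with ε e1 e2 e3 e4 e5 e6
    refine ⟨⟨hη0 ε, by have := e3.1; positivity, Real.rpow_nonneg e3.1.le _, bet_nonneg e3.1,
      hX0 ε⟩, ?_⟩
    obtain ⟨Y0, Y1, g0, g1, s, d, hS⟩ := e1
    have h10 : 0 ≤ ε ^ (10 : ℝ) := Real.rpow_nonneg e3.1.le _
    have hat : ∀ ω, ∀ z ∈ K', Good D ε C K a C4 ω → At π δ ε D ω z := by
      intro ω z hz hg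
      obtain ⟨hr, hl⟩ := hKR z hz
      exact ⟨hD, le_max_right _ _, hg, hr.mono (by rw [dist_self]; linarith),
        hl.mono (min_le_left _ _)⟩
    have hcl : ∀ z : ℂ, ‖z - pt ε (B6bx903.lp ε z)‖ ≤ 2 * ε := fun z => pt_close e3.1 z
    refine inp_of hRK0 hRK e3.1 h10 (Y0 := Y0) (Y1 := Y1) (g0 := g0) (g1 := g1) (s := s) (d := d)
      (gd := fun ω => Good D ε C K a C4 ω) (gd0 := fun p ω => Good (Y0 p) ε C K a C4 (g0 p ω))
      (gd1 := fun p ω => Good (Y1 p) ε C K a C4 (g1 p ω)) ?_ hS.good0 hS.good1 hS.conc ?_ ?_ ?_ hKn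
    · have hsub : {ω | ¬ Good D ε C K a C4 ω} ⊆ {ω | ¬ GoodB R₂ ε C K a C4 ω} :=
        fun ω hω h' => hω (GoodB.good h' (le_max_right _ _))
      refine (measure_mono hsub).trans (e4.trans (ENNReal.ofReal_le_ofReal ?_))
      exact Real.rpow_le_rpow_of_exponent_ge e3.1 e3.2.le (by norm_num)
    · intro ω z hz hg hg0 hg1
      obtain ⟨i1, i2, i3, i4⟩ := hS.geo0 _ z (hcl z)
      obtain ⟨j1, j2, j3, j4⟩ := hS.geo1 _ z (hcl z)
      exact (e2 D (Y0 (B6bx903.lp ε z)) (Y1 (B6bx903.lp ε z)) ω (g0 (B6bx903.lp ε z) ω)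
        (g1 (B6bx903.lp ε z) ω) z (hat ω z hz hg) ⟨i1.ad, i2, hg0, i3, i4⟩
        ⟨j1.ad, j2, hg1, j3, j4⟩ i1 (hS.sec0 _ z (hcl z)) (hS.same0 _ z (hcl z) ω)
        (hS.same1 _ z (hcl z) ω)).1 s d
    · intro ω hg z hz
      exact ⟨(hat ω z hz hg).side e5, (hat ω z hz hg).sides e5⟩
    · intro ω hg z hz
      exact e6 D ω z (hat ω z hz hg)
  · -- `Λ E1 → 0`
    have h1 : Tendsto (fun ε : ℝ => 8 * ε ^ (c - min c 1 / 2)) (𝓝[>] 0) (𝓝 0) := by
      have h2 : 0 < c - min c 1 / 2 := by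
        have := min_le_left c 1
        linarith
      simpa using (rpow_zero h2).const_mul 8
    refine h1.congr' ?_
    filter_upwards [B6cx903.ev_unit] with ε hε
    rw [← Real.rpow_mul hε.1.le, div_mul_eq_mul_div, eq_div_iff
      (Real.rpow_pos_of_pos hε.1 _).ne', mul_assoc, ← Real.rpow_add hε.1]
    congr 2
    have : κ * (A / 2) = min c 1 / 2 - 2 * κ := by linarith
    rw [this]
    ring
  · have h1 : Tendsto (fun ε : ℝ => 8 * ε ^ (1 - min c 1 / 2)) (𝓝[>] 0) (𝓝 0) := by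
      have h2 : 0 < 1 - min c 1 / 2 := by
        have := min_le_right c 1
        linarith
      simpa using (rpow_zero h2).const_mul 8
    refine h1.congr' ?_
    filter_upwards [B6cx903.ev_unit] with ε hε
    rw [← Real.rpow_mul hε.1.le, ← Real.rpow_natCast, ← Real.rpow_mul hε.1.le, div_mul_div_comm,
      eq_div_iff (by have := hε.1; positivity), mul_assoc, ← Real.rpow_add hε.1,
      ← Real.rpow_add hε.1]
    have : 1 - min c 1 / 2 + (κ * (A / 2) + κ * ((2 : ℕ) : ℝ)) = 1 := by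
      push_cast
      linarith
    rw [this, Real.rpow_one]

/-- **the leaf `LMin` of the spine** from the five literal inputs; `Adm := Dom.Ad` is allowed -/
theorem lmin {Adm : Dom → ℝ → Prop} (hAdm : ∀ D δ, Adm D δ → D.Ad δ) (hTR : TR) (hLOW : LOW)
    (hENB : ENB) (hMG : MG) (hY : YOUT) : LMin Adm :=
  lmin_of fun D δ hD G _ _ hρ _ hm => inpP hTR hLOW hENB hMG hY (hAdm D δ hD) G hρ hm

end Crest.Agent.R143.B6Fx654
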