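import Crest.Agent.R143.Spine_422
import Crest.Agent.R143.Y0_831
import Crest.Agent.R143.B6b_903
import Crest.Agent.R143.Sec0_697
import Crest.Agent.R143.Ad2_422

/-!
# Row 143 (S0194), part B, B6: literal inputs of the leaf `LMin` of `Spine_422` (helper903)

* `Par` : parameters (size `L` of the domain, room `R`, margin `m`, constants of the environment)
* `At π δ ε D ω z` : `D` is admissible, the environment is good, `z` has room and is linked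
* `TR`   : transport (blocks X + B4): the amplitudes of two networks which agree near `z` are
  proportional (relative error `η → 0`)
* `LOW`  : lower bound of the local energy (polynomial in the mesoscopic scale)
* `ENB`  : total energy at most `12` (T2)
* `MG`   : good environments (M3, M4)
* `RefS`, `YOUT` : the reference system (block Y): two families of reference domains (the second
  one turned by 90 degrees) with environments frozen outside; the four mollified quantities are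
  concentrated around `s`, `I * s`, `d`, `- I * d`
-/

set_option autoImplicit false

noncomputable section

open scoped Classical

namespace Crest.Agent.R143.B6Ix903

open Complex Set Filter Topology MeasureTheory
open Crest.ProbabilityR.Voronoi
open Crest.Agent.R143.B0x346 Crest.Agent.R143.B0Dx346 Crest.Agent.R143.PP1x831
open Crest.Agent.R143.Y0x831 (Good)
open Crest.Agent.R143.Mollx887 Crest.Agent.R143.Asmx336
open Crest.Agent.R143.Spinex422 (Room Linked GoodFam HG)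
open Crest.Agent.R143.B1bx796 (touch)
open Crest.Agent.R143.B6bx903 (pt lp flu)
open Crest.Agent.R143.Sec0x697 (Sector)

/-- parameters -/
structure Par where
  L : ℝ
  R : ℝ
  m : ℝ
  C : ℝ
  K : ℝ
  a : ℝ
  C4 : ℝ
  Lpos : 0 < L
  Rpos : 0 < R
  mpos : 0 < m
  Cpos : 0 < C
  Kpos : 0 < K
  apos : 0 < a
  C4pos : 0 < C4

/-- admissible domain, good environment, the point `z` has room and is linked to the marks -/
structure At (π : Par) (δ ε : ℝ) (D : Dom) (ω : Sample) (z : ℂ) : Prop where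
  ok : D.Ad δ
  len : D.L ≤ π.L
  good : Good D ε π.C π.K π.a π.C4 ω
  room : Room D π.R z
  lnk : Linked D π.m z

/-- the network of `D` in the environment `ω` -/
abbrev net (D : Dom) (ε : ℝ) (ω : Sample) : Net ℂ := D.netS (D.sites ε ω)

/-- **transport** (blocks X and B4; from E3 and ZF); the faces with a very small amplitude may have
an error `ε ^ A` (any `A`) -/
def TR : Prop := ∀ (π : Par) (δ δ' : ℝ), 0 < δ → 0 < δ' → ∀ κ : ℝ, 0 < κ → κ < 1 / 2 →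
  ∀ A : ℝ, 0 < A →
  ∃ η : ℝ → ℝ, Tendsto η (𝓝[>] 0) (𝓝 0) ∧ ∀ᶠ ε : ℝ in 𝓝[>] 0,
    ∀ (D D' : Dom) (ω ω' : Sample) (z : ℂ), At π δ ε D ω z → At π δ' ε D' ω' z →
      (∀ s : ℂ, ‖s - z‖ < π.R → (s ∈ points ε ω ↔ s ∈ points ε ω')) →
      ∃ lam : ℂ, ∀ t ∈ touch z (ε ^ κ) (D.sites ε ω),
        ‖(net D ε ω).Q t - lam * (net D' ε ω').Q t‖ ≤
          η ε * ‖(net D ε ω).Q t‖ + ε ^ A * (1 + ‖lam‖)

/-- the three arcs are seen from `z` in sectors -/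
def Sec3 (D : Dom) (z : ℂ) (θ ρ μ : ℝ) : Prop := ∀ i : ZMod 3, ∃ φ : ℝ, Sector D z i φ θ ρ μ

/-- **lower bound of the local energy** (T3, T4, T5, M4), used for the reference domains only; the
exponent does not depend on `κ` -/
def LOW : Prop := ∀ (π : Par) (δ θ ρ μ : ℝ), 0 < δ → 0 < θ → 0 < ρ → 0 < μ →
  ∃ A : ℝ, 0 < A ∧ ∀ κ : ℝ, 0 < κ → κ < 1 / 2 →
  ∀ᶠ ε : ℝ in 𝓝[>] 0, ∀ (D : Dom) (ω : Sample) (z : ℂ), D.OK δ → At π δ ε D ω z →
    Sec3 D z θ ρ μ → (ε ^ κ) ^ A ≤ ∑ t ∈ touch z (ε ^ κ) (D.sites ε ω), ‖(net D ε ω).Q t‖ ^ 2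

/-- **total energy** (T2) -/
def ENB : Prop := ∀ (π : Par) (δ : ℝ), 0 < δ → ∀ᶠ ε : ℝ in 𝓝[>] 0,
  ∀ (D : Dom) (ω : Sample) (z : ℂ), At π δ ε D ω z →
    ∑ t ∈ delT (D.sites ε ω), ‖(net D ε ω).Q t‖ ^ 2 ≤ 12

/-- good environment in the disc of radius `R` around `0` -/
structure GoodB (R ε C K a C4 : ℝ) (ω : Sample) : Prop where
  env : Env ε (rad C ε) (K * Real.log (1 / ε)) 0 R ω
  diam : ∀ z ∈ Metric.closedBall (0 : ℂ) R, ∀ ρ : ℝ, ε * Real.log (1 / ε) ^ a ≤ ρ → ρ ≤ 1 →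
    diamSum (points ε ω) (Metric.ball z ρ) ≤ ENNReal.ofReal (C4 * ρ ^ 2)

/-- the failure probability of the environment is at most `ε ^ A` -/
def MP (R A C K a C4 : ℝ) : Prop := ∀ᶠ ε : ℝ in 𝓝[>] 0,
  sampleLaw {ω | ¬ GoodB R ε C K a C4 ω} ≤ ENNReal.ofReal (ε ^ A)

/-- **good environments** (M3, M4) -/
def MG : Prop := ∀ R A : ℝ, 0 < R → 0 < A → ∃ C K a C4 : ℝ, 0 < C ∧ 0 < K ∧ 0 < a ∧ 0 < C4 ∧
  MP R A C K a C4

/-- **the reference system** at the scale `ε` (`r` = mollification radius): reference domains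
`Y0 p`, `Y1 p` around the lattice points `pt ε p`, samples `g0 p ω`, `g1 p ω` (= `ω` near `pt ε p`,
frozen outside) -/
structure RefS (π : Par) (δ θ ρ μ ε r β E1 : ℝ) (Y0 Y1 : ℤ × ℤ → Dom)
    (g0 g1 : ℤ × ℤ → Sample → Sample) (s d : ℂ) : Prop where
  geo0 : ∀ p z, ‖z - pt ε p‖ ≤ 2 * ε →
    (Y0 p).OK δ ∧ (Y0 p).L ≤ π.L ∧ Room (Y0 p) π.R z ∧ Linked (Y0 p) π.m z
  geo1 : ∀ p z, ‖z - pt ε p‖ ≤ 2 * ε →
    (Y1 p).OK δ ∧ (Y1 p).L ≤ π.L ∧ Room (Y1 p) π.R z ∧ Linked (Y1 p) π.m z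
  sec0 : ∀ p z, ‖z - pt ε p‖ ≤ 2 * ε → Sec3 (Y0 p) z θ ρ μ
  same0 : ∀ p z, ‖z - pt ε p‖ ≤ 2 * ε → ∀ ω, ∀ s : ℂ, ‖s - z‖ < π.R →
    (s ∈ points ε ω ↔ s ∈ points ε (g0 p ω))
  same1 : ∀ p z, ‖z - pt ε p‖ ≤ 2 * ε → ∀ ω, ∀ s : ℂ, ‖s - z‖ < π.R →
    (s ∈ points ε ω ↔ s ∈ points ε (g1 p ω))
  good0 : ∀ p, sampleLaw {ω | ¬ Good (Y0 p) ε π.C π.K π.a π.C4 (g0 p ω)} ≤ ENNReal.ofReal β
  good1 : ∀ p, sampleLaw {ω | ¬ Good (Y1 p) ε π.C π.K π.a π.C4 (g1 p ω)} ≤ ENNReal.ofReal β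
  /-- measurability on a large event and concentration -/
  conc : ∀ p, ∃ G : Set Sample, MeasurableSet G ∧ sampleLaw Gᶜ ≤ ENNReal.ofReal β ∧
    AEStronglyMeasurable (fun q : Sample × ℂ => (Y0 p).h ε (g0 p q.1) q.2)
      ((sampleLaw.restrict G).prod volume) ∧
    AEStronglyMeasurable (fun q : Sample × ℂ => (Y1 p).h ε (g1 p q.1) q.2)
      ((sampleLaw.restrict G).prod volume) ∧
    ∫⁻ ω in G, ENNReal.ofReal
      (flu r ((Y0 p).h ε (g0 p ω)) ((Y1 p).h ε (g1 p ω)) s d I (pt ε p)) ∂sampleLaw ≤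
        ENNReal.ofReal E1

/-- **output of block Y**: for every room `ρ` there is a reference system; the exponent `c` does not
depend on `κ` -/
def YOUT : Prop := ∀ ρ₀ : ℝ, 0 < ρ₀ → ∃ L R m δ R₁ θ ρ μ : ℝ, 0 < L ∧ 0 < R ∧ R ≤ ρ₀ ∧ 0 < m ∧
  0 < δ ∧ 0 < R₁ ∧ 0 < θ ∧ 0 < ρ ∧ 0 < μ ∧
  ∀ π : Par, L ≤ π.L → π.R ≤ R → π.m ≤ m → MP R₁ 30 π.C π.K π.a π.C4 →
    ∃ c : ℝ, 0 < c ∧ ∀ κ : ℝ, 0 < κ → κ < 1 / 4 → ∀ᶠ ε : ℝ in 𝓝[>] 0,
      ∃ (Y0 Y1 : ℤ × ℤ → Dom) (g0 g1 : ℤ × ℤ → Sample → Sample) (s d : ℂ),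
        RefS π δ θ ρ μ ε (ε ^ κ) (ε ^ (10 : ℝ)) (ε ^ (c - 2 * κ)) Y0 Y1 g0 g1 s d

end Crest.Agent.R143.B6Ix903
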