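import Crest.Agent.R143.B6M_654
import Crest.Agent.R143.B6b_903
import Crest.Agent.R143.Spine_422

/-!
# Row 143 (S0194), B6: measure assembly of `LMin` for one `ε` (helper654)

* `MS2` : `MS` for finite measures of mass at most one
* `int_dbar_le`, `int_del_le` : the annealed bound
* `Inp` : the inputs for one `ε`; `Inp.out` : the output
* `InpP` : family of inputs; `min_tendsto` : the conclusion of `LMin`
-/

set_option autoImplicit false

noncomputable section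

open scoped Classical

namespace Crest.Agent.R143.B6Lx654

open Complex Set Filter Topology MeasureTheory
open scoped ENNReal NNReal
open Crest.ProbabilityR.Voronoi
open Crest.Agent.R143.B0x346 Crest.Agent.R143.B0Dx346 Crest.Agent.R143.BC0x336
open Crest.Agent.R143.Mollx887 Crest.Agent.R143.Asmx336 Crest.Agent.R143.EndBx336
open Crest.Agent.R143.B1bx796 (touch Stk CK CK_pos Sd Sb_cmp Sd_cmp Sd_eq)
open Crest.Agent.R143.B6x654 Crest.Agent.R143.B6Mx654 Crest.Agent.R143.B6bx903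
open Crest.Agent.R143.Spinex422

/-! ### (MS) for finite measures -/

section MS

variable {Ω ι : Type*} [MeasurableSpace Ω] [MeasurableSpace ι] [Countable ι]
  [MeasurableSingletonClass ι]

/-- **(MS)** for a measure of mass at most one -/
theorem MS2 (P : Measure Ω) [IsFiniteMeasure P] (hP1 : P univ ≤ 1) {K : Set ℂ} {F : Ω → ℂ → ℝ≥0∞}
    (hF : AEMeasurable (fun q : Ω × ℂ => F q.1 q.2) (P.prod (volume : Measure ℂ)))
    {A B β η' : ℝ≥0∞} (hK : MeasurableSet K) (hB : ∀ ω, ∀ z ∈ K, F ω z ≤ B) {G : Set Ω}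
    (hG : P Gᶜ ≤ β) {p : ℂ → ι} (hp : Measurable p) {a : ι → Ω → ℝ≥0∞}
    (ha : ∀ i, AEMeasurable (a i) P) {e : Ω → ℂ → ℝ≥0∞}
    (h : ∀ ω ∈ G, ∀ z ∈ K, F ω z ≤ a (p z) ω + e ω z)
    (he : ∀ ω ∈ G, ∫⁻ z in K, e ω z ≤ η') (hA : ∀ i, ∫⁻ ω, a i ω ∂P ≤ A) :
    ∫⁻ z in K, ∫⁻ ω, F ω z ∂P ≤ volume K * A + η' + volume K * B * β := by
  have hprod : P.prod ((volume : Measure ℂ).restrict K) ≤ P.prod volume := by
    rw [← Measure.restrict_univ (μ := P), Measure.prod_restrict, Measure.restrict_univ]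
    exact Measure.restrict_le_self
  have hF' : AEMeasurable (fun q : Ω × ℂ => F q.1 q.2) (P.prod (volume.restrict K)) :=
    hF.mono_measure hprod
  have ha' : AEMeasurable (fun q : Ω × ℂ => a (p q.2) q.1) (P.prod (volume.restrict K)) :=
    aem_cell P hp ha
  set D : Ω → ℂ → ℝ≥0∞ := fun ω z => F ω z - a (p z) ω with hD
  have hD' : AEMeasurable (fun q : Ω × ℂ => D q.1 q.2) (P.prod (volume.restrict K)) :=
    hF'.sub ha'
  have hle : ∀ ω z, F ω z ≤ a (p z) ω + D ω z := fun ω z => le_add_tsub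
  -- first step
  have h1 : ∫⁻ z in K, ∫⁻ ω, F ω z ∂P ≤ volume K * A + ∫⁻ z in K, ∫⁻ ω, D ω z ∂P := by
    calc ∫⁻ z in K, ∫⁻ ω, F ω z ∂P ≤ ∫⁻ z in K, (A + ∫⁻ ω, D ω z ∂P) := by
          refine lintegral_mono fun z => ?_
          calc ∫⁻ ω, F ω z ∂P ≤ ∫⁻ ω, (a (p z) ω + D ω z) ∂P := lintegral_mono fun ω => hle ω z
            _ = ∫⁻ ω, a (p z) ω ∂P + ∫⁻ ω, D ω z ∂P := lintegral_add_left' (ha (p z)) _
            _ ≤ A + ∫⁻ ω, D ω z ∂P := by gcongr; exact hA _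
      _ = volume K * A + ∫⁻ z in K, ∫⁻ ω, D ω z ∂P := by
          rw [lintegral_add_left measurable_const, lintegral_const, Measure.restrict_apply_univ,
            mul_comm]
  -- exchange of the integrals
  have h2 : ∫⁻ z in K, ∫⁻ ω, D ω z ∂P = ∫⁻ ω, (∫⁻ z in K, D ω z) ∂P :=
    lintegral_lintegral_swap hD'.prod_swap
  -- the inner integral
  set G' := toMeasurable P Gᶜ with hG'
  have h3 : ∀ ω, ∫⁻ z in K, D ω z ≤ η' + G'.indicator (fun _ => volume K * B) ω := by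
    intro ω
    by_cases hω : ω ∈ G
    · refine le_trans ?_ le_self_add
      refine le_trans (setLIntegral_mono' hK fun z hz => ?_) (he ω hω)
      rw [hD]
      simp only
      rw [tsub_le_iff_left]
      exact h ω hω z hz
    · have h4 : ω ∈ G' := subset_toMeasurable P Gᶜ hω
      rw [indicator_of_mem h4]
      refine le_trans ?_ le_add_self
      calc ∫⁻ z in K, D ω z ≤ ∫⁻ _z in K, B := by
            refine setLIntegral_mono' hK fun z hz => ?_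
            exact tsub_le_self.trans (hB ω z hz)
        _ = volume K * B := by rw [lintegral_const, Measure.restrict_apply_univ, mul_comm]
  have h5 : ∫⁻ ω, (∫⁻ z in K, D ω z) ∂P ≤ η' + volume K * B * β := by
    calc ∫⁻ ω, (∫⁻ z in K, D ω z) ∂P
        ≤ ∫⁻ ω, (η' + G'.indicator (fun _ => volume K * B) ω) ∂P := lintegral_mono h3
      _ = η' * P univ + volume K * B * P G' := by
          rw [lintegral_add_left measurable_const, lintegral_const,
            lintegral_indicator (measurableSet_toMeasurable _ _), setLIntegral_const]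
      _ ≤ η' * 1 + volume K * B * β := by
          rw [hG', measure_toMeasurable]
          gcongr
      _ = η' + volume K * B * β := by rw [mul_one]
  calc ∫⁻ z in K, ∫⁻ ω, F ω z ∂P ≤ volume K * A + ∫⁻ z in K, ∫⁻ ω, D ω z ∂P := h1
    _ = volume K * A + ∫⁻ ω, (∫⁻ z in K, D ω z) ∂P := by rw [h2]
    _ ≤ volume K * A + (η' + volume K * B * β) := by gcongr
    _ = _ := by rw [add_assoc]

end MS

/-! ### the annealed bound -/

theorem int_dbar_le {D : Dom} {G : ℝ → Set Sample} {ε r : ℝ} (hr : 0 < r)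
    (hm : AEStronglyMeasurable (fun p : Sample × ℂ => D.h ε p.1 p.2)
      ((sampleLaw.restrict (G ε)).prod volume)) {K : Set ℂ} {X : ℝ} (hX : 0 ≤ X)
    (h : ∫⁻ z in K, ∫⁻ ω in G ε, ‖Sb r (D.h ε ω) z‖ₑ ∂sampleLaw ≤ ENNReal.ofReal X) :
    ∫ z in K, ‖dbar (moll r (HG D G ε)) z‖ ≤ X := by
  have hBM := bm_HG hm
  rw [setIntegral_dbar hBM hr K, integral_norm_eq_lintegral_enorm
    (Sb_continuous hBM hr).aestronglyMeasurable]
  refine ENNReal.toReal_le_of_le_ofReal hX (le_trans ?_ h)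
  refine lintegral_mono fun z => ?_
  have h1 := Sb_integral (sampleLaw.restrict (G ε)) hm (fun ω z => norm_h_le D ε ω z) hr z
  have h2 : Sb r (HG D G ε) z = ∫ ω in G ε, Sb r (D.h ε ω) z ∂sampleLaw := h1.symm
  rw [h2]
  exact enorm_integral_le_lintegral_enorm _

theorem int_del_le {D : Dom} {G : ℝ → Set Sample} {ε r : ℝ} (hr : 0 < r)
    (hm : AEStronglyMeasurable (fun p : Sample × ℂ => D.h ε p.1 p.2)
      ((sampleLaw.restrict (G ε)).prod volume)) {K : Set ℂ} {X : ℝ} (hX : 0 ≤ X)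
    (h : ∫⁻ z in K, ∫⁻ ω in G ε, ‖Db r (D.h ε ω) z‖ₑ ∂sampleLaw ≤ ENNReal.ofReal X) :
    ∫ z in K, ‖del (moll r (HG D G ε)) z‖ ≤ X := by
  have hBM := bm_HG hm
  have h0 : ∫ z in K, ‖del (moll r (HG D G ε)) z‖ = ∫ z in K, ‖Db r (HG D G ε) z‖ := by
    refine integral_congr_ae (ae_of_all _ fun z => ?_)
    simp only
    rw [del_moll hBM hr]
  rw [h0, integral_norm_eq_lintegral_enorm (Db_continuous hBM hr).aestronglyMeasurable]
  refine ENNReal.toReal_le_of_le_ofReal hX (le_trans ?_ h)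
  refine lintegral_mono fun z => ?_
  have h1 := Db_integral (sampleLaw.restrict (G ε)) hm (fun ω z => norm_h_le D ε ω z) hr z
  have h2 : Db r (HG D G ε) z = ∫ ω in G ε, Db r (D.h ε ω) z ∂sampleLaw := h1.symm
  rw [h2]
  exact enorm_integral_le_lintegral_enorm _

/-! ### the inputs for one `ε` -/

/-- the alternative at one point: `h` is the observable of the network `N`, `h0`, `h1` the
observables of the two reference networks -/
def Alt (r η Λ X : ℝ) (S : Finset ℂ) (N : Net ℂ) (h h0 h1 : ℂ → ℂ) (s d rho z : ℂ) : Prop :=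
  (‖s‖ ≤ ‖d‖ → ‖Sb r h z‖ ≤ 2 * Λ * flu r h0 h1 s d rho z + 10 * η * rhs r S N z + X) ∧
  (‖d‖ ≤ ‖s‖ → ‖Db r h z‖ ≤ 2 * Λ * flu r h0 h1 s d rho z + 10 * η * rhs r S N z + X)

/-- the inputs for one `ε` -/
structure Inp (D : Dom) (Gm : Set Sample) (K : Set ℂ) (ε r η Λ C4 CE E1 β X : ℝ) where
  /-- reference networks, one for every lattice point -/
  N0 : ℤ × ℤ → Sample → Net ℂ
  N1 : ℤ × ℤ → Sample → Net ℂ
  s : ℂ
  d : ℂ
  rho : ℂ
  /-- the good event -/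
  Gx : Set Sample
  /-- bound of the fluctuations -/
  a : ℤ × ℤ → Sample → ℝ≥0∞
  prob : sampleLaw (Gm \ Gx) ≤ ENNReal.ofReal β
  alt : ∀ ω ∈ Gm ∩ Gx, ∀ z ∈ K, Alt r η Λ X (D.sites ε ω) (D.netS (D.sites ε ω)) (D.h ε ω)
    (hval (N0 (lp ε z) ω)) (hval (N1 (lp ε z) ω)) s d rho z
  short : ∀ ω ∈ Gm ∩ Gx, ∀ z ∈ K, ∀ t ∈ touch z r (D.sites ε ω), ‖t.2.1 - t.1‖ ≤ r
  sq : ∀ ω ∈ Gm ∩ Gx, ∀ z ∈ K, ∑ t ∈ touch z r (D.sites ε ω), ‖t.2.1 - t.1‖ ^ 2 ≤ C4 * r ^ 2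
  en : ∀ ω ∈ Gm ∩ Gx, ∑ t ∈ delT (D.sites ε ω), ‖(D.netS (D.sites ε ω)).Q t‖ ^ 2 ≤ CE
  am : ∀ z ∈ K, AEMeasurable (a (lp ε z)) (sampleLaw.restrict Gm)
  ai : ∀ z ∈ K, ∫⁻ ω in Gm, a (lp ε z) ω ∂sampleLaw ≤ ENNReal.ofReal E1
  fl : ∀ ω ∈ Gm ∩ Gx, ∀ z ∈ K, ENNReal.ofReal (flu r (hval (N0 (lp ε z) ω))
    (hval (N1 (lp ε z) ω)) s d rho (pt ε (lp ε z))) ≤ a (lp ε z) ω

/-- the bound of the output -/
def outB (v ε r η Λ C4 CE E1 β X : ℝ) : ℝ :=
  v * (2 * Λ * (E1 + 24 * CL * (ε / r ^ 2)) + X) + √v * (20 * CK * η * √(Real.pi * C4 * CE)) +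
    v * (3 * CS / r) * β

theorem outB_nonneg {v ε r η Λ C4 CE E1 β X : ℝ} (hv : 0 ≤ v) (hε : 0 ≤ ε) (hr : 0 < r)
    (hη : 0 ≤ η) (hΛ : 0 ≤ Λ) (hE1 : 0 ≤ E1) (hβ : 0 ≤ β) (hX : 0 ≤ X) :
    0 ≤ outB v ε r η Λ C4 CE E1 β X := by
  have h1 := CL_nonneg
  have h2 := CK_pos
  have h3 := CS_nonneg
  unfold outB
  positivity

section out

variable {D : Dom} {Gm : Set Sample} {K : Set ℂ} {ε r η Λ C4 CE E1 β X : ℝ}

theorem rhs_le_cs (hr : 0 < r) (S : Finset ℂ) (N : Net ℂ) (z : ℂ) :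
    rhs r S N z ≤ CK / r ^ 2 * (√(∑ t ∈ touch z r S, ‖N.Q t‖ ^ 2) *
      √(∑ t ∈ touch z r S, ‖t.2.1 - t.1‖ ^ 2)) := by
  have h0 := CK_pos
  unfold rhs
  refine mul_le_mul_of_nonneg_left ?_ (by positivity)
  exact Real.sum_mul_le_sqrt_mul_sqrt (touch z r S) (fun t => ‖N.Q t‖) (fun t => ‖t.2.1 - t.1‖)

/-- the assembly for one operator -/
theorem Inp.core (J : Inp D Gm K ε r η Λ C4 CE E1 β X) (hGm : MeasurableSet Gm)
    (hK : MeasurableSet K) (hKf : volume K ≠ ⊤) (hε : 0 < ε) (hr : 0 < r) (hη : 0 ≤ η)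
    (hΛ : 0 ≤ Λ) (hE1 : 0 ≤ E1) (hβ : 0 ≤ β) (hX : 0 ≤ X) {T : (ℂ → ℂ) → ℂ → ℂ}
    (hT1 : AEStronglyMeasurable (fun p : Sample × ℂ => T (D.h ε p.1) p.2)
      ((sampleLaw.restrict Gm).prod volume))
    (hT2 : ∀ ω z, ‖T (D.h ε ω) z‖ ≤ CS / r * 3)
    (hT3 : ∀ ω ∈ Gm ∩ J.Gx, ∀ z ∈ K, ‖T (D.h ε ω) z‖ ≤
      2 * Λ * flu r (hval (J.N0 (lp ε z) ω)) (hval (J.N1 (lp ε z) ω)) J.s J.d J.rho z +
        10 * η * rhs r (D.sites ε ω) (D.netS (D.sites ε ω)) z + X) :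
    ∫⁻ z in K, ∫⁻ ω in Gm, ‖T (D.h ε ω) z‖ₑ ∂sampleLaw ≤
      ENNReal.ofReal (outB (volume K).toReal ε r η Λ C4 CE E1 β X) := by
  have hCL := CL_nonneg
  have hCK := CK_pos
  have hCS := CS_nonneg
  set P := sampleLaw.restrict Gm with hP
  have hP1 : P univ ≤ 1 := by
    rw [hP, Measure.restrict_apply_univ]
    exact prob_le_one
  set a' : ℤ × ℤ → Sample → ℝ≥0∞ := fun i ω =>
    if (∃ z ∈ K, lp ε z = i) then
      ENNReal.ofReal (2 * Λ) * (J.a i ω + ENNReal.ofReal (24 * CL * (ε / r ^ 2))) +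
        ENNReal.ofReal X else 0 with ha'
  have h1 := MS2 P hP1 (K := K) (F := fun ω z => ‖T (D.h ε ω) z‖ₑ) hT1.enorm
    (A := ENNReal.ofReal (2 * Λ * (E1 + 24 * CL * (ε / r ^ 2)) + X)) (B := ENNReal.ofReal (CS / r * 3))
    (β := ENNReal.ofReal β)
    (η' := (volume K) ^ (1 / 2 : ℝ) * ENNReal.ofReal (2 * CK * (10 * η) * √(Real.pi * C4 * CE)))
    hK (G := Gm ∩ J.Gx) (p := lp ε) (a := a')
    (e := fun ω z => ENNReal.ofReal (CK / r ^ 2 * ((10 * η) *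
      (√(∑ t ∈ touch z r (D.sites ε ω), ‖(D.netS (D.sites ε ω)).Q t‖ ^ 2) *
        √(∑ t ∈ touch z r (D.sites ε ω), ‖t.2.1 - t.1‖ ^ 2)))))
    ?_ ?_ (lp_meas ε) ?_ ?_ ?_ ?_
  · refine h1.trans ?_
    have hv : (volume K : ℝ≥0∞) = ENNReal.ofReal (volume K).toReal :=
      (ENNReal.ofReal_toReal hKf).symm
    have hv0 : 0 ≤ (volume K).toReal := ENNReal.toReal_nonneg
    rw [hv]
    rw [← ofReal_sqrt_eq hv0, ENNReal.toReal_ofReal hv0, ← ENNReal.ofReal_mul hv0,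
      ← ENNReal.ofReal_mul (Real.sqrt_nonneg _), ← ENNReal.ofReal_mul hv0,
      ← ENNReal.ofReal_mul (by positivity), ← ENNReal.ofReal_add (by positivity) (by positivity),
      ← ENNReal.ofReal_add (by positivity) (by positivity)]
    refine ENNReal.ofReal_le_ofReal (le_of_eq ?_)
    unfold outB
    ring
  · intro ω z _
    rw [← ofReal_norm]
    exact ENNReal.ofReal_le_ofReal (hT2 ω z)
  · rw [hP, Measure.restrict_apply' hGm]
    refine le_trans (le_of_eq ?_) J.prob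
    congr 1
    ext ω
    simp only [mem_inter_iff, mem_compl_iff, Set.mem_sdiff]
    tauto
  · intro i
    by_cases hi : ∃ z ∈ K, lp ε z = i
    · obtain ⟨z, hz, rfl⟩ := hi
      have h2 : a' (lp ε z) = fun ω =>
          ENNReal.ofReal (2 * Λ) * (J.a (lp ε z) ω + ENNReal.ofReal (24 * CL * (ε / r ^ 2))) +
            ENNReal.ofReal X := by
        funext ω
        rw [ha']
        simp only
        rw [if_pos ⟨z, hz, rfl⟩]
      rw [h2]
      exact (((J.am z hz).add_const _).const_mul _).add_const _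
    · have h2 : a' i = fun _ => 0 := by
        funext ω
        rw [ha']
        simp only
        rw [if_neg hi]
      rw [h2]
      exact aemeasurable_const
  · intro ω hω z hz
    have h2 := hT3 ω hω z hz
    have h3 := flu_lip hr (hval_BM (J.N0 (lp ε z) ω)) (hval_BM (J.N1 (lp ε z) ω)) J.s J.d J.rho z
      (pt ε (lp ε z))
    have h4 := pt_close hε z
    have h5 : flu r (hval (J.N0 (lp ε z) ω)) (hval (J.N1 (lp ε z) ω)) J.s J.d J.rho z ≤
        flu r (hval (J.N0 (lp ε z) ω)) (hval (J.N1 (lp ε z) ω)) J.s J.d J.rho (pt ε (lp ε z)) +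
          24 * CL * (ε / r ^ 2) := by
      refine h3.trans ?_
      have h6 : 4 * (CL * 3 / r ^ 2 * ‖z - pt ε (lp ε z)‖) ≤ 4 * (CL * 3 / r ^ 2 * (2 * ε)) := by
        gcongr
      have h7 : 4 * (CL * 3 / r ^ 2 * (2 * ε)) = 24 * CL * (ε / r ^ 2) := by ring
      linarith
    have h6 := rhs_le_cs hr (D.sites ε ω) (D.netS (D.sites ε ω)) z
    have h7 : 10 * η * rhs r (D.sites ε ω) (D.netS (D.sites ε ω)) z ≤
        CK / r ^ 2 * ((10 * η) *
      (√(∑ t ∈ touch z r (D.sites ε ω), ‖(D.netS (D.sites ε ω)).Q t‖ ^ 2) *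
        √(∑ t ∈ touch z r (D.sites ε ω), ‖t.2.1 - t.1‖ ^ 2))) := by
      refine (mul_le_mul_of_nonneg_left h6 (by positivity)).trans (le_of_eq ?_)
      ring
    rw [← ofReal_norm]
    have hfl0 := flu_nonneg r (hval (J.N0 (lp ε z) ω)) (hval (J.N1 (lp ε z) ω)) J.s J.d J.rho
      (pt ε (lp ε z))
    calc ENNReal.ofReal ‖T (D.h ε ω) z‖
        ≤ ENNReal.ofReal (2 * Λ * (flu r (hval (J.N0 (lp ε z) ω)) (hval (J.N1 (lp ε z) ω))
            J.s J.d J.rho (pt ε (lp ε z)) + 24 * CL * (ε / r ^ 2)) + X +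
            CK / r ^ 2 * ((10 * η) *
      (√(∑ t ∈ touch z r (D.sites ε ω), ‖(D.netS (D.sites ε ω)).Q t‖ ^ 2) *
        √(∑ t ∈ touch z r (D.sites ε ω), ‖t.2.1 - t.1‖ ^ 2)))) := by
          refine ENNReal.ofReal_le_ofReal ?_
          have h8 := mul_le_mul_of_nonneg_left h5 (by positivity : 0 ≤ 2 * Λ)
          linarith
      _ = ENNReal.ofReal (2 * Λ) * (ENNReal.ofReal (flu r (hval (J.N0 (lp ε z) ω))
            (hval (J.N1 (lp ε z) ω)) J.s J.d J.rho (pt ε (lp ε z))) +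
            ENNReal.ofReal (24 * CL * (ε / r ^ 2))) + ENNReal.ofReal X + _ := by
          rw [ENNReal.ofReal_add (by positivity) (by positivity),
            ENNReal.ofReal_add (by positivity) hX,
            ENNReal.ofReal_mul (by positivity), ENNReal.ofReal_add hfl0 (by positivity)]
      _ ≤ a' (lp ε z) ω + _ := by
          refine add_le_add ?_ le_rfl
          rw [ha']
          simp only
          rw [if_pos ⟨z, hz, rfl⟩]
          gcongr
          exact J.fl ω hω z hz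
  · intro ω hω
    exact EN_err hr (by positivity) (D.sites ε ω) (D.netS (D.sites ε ω)).Q (J.short ω hω)
      (J.en ω hω) hK (J.sq ω hω)
  · intro i
    by_cases hi : ∃ z ∈ K, lp ε z = i
    · obtain ⟨z, hz, rfl⟩ := hi
      have h2 : a' (lp ε z) = fun ω =>
          ENNReal.ofReal (2 * Λ) * (J.a (lp ε z) ω + ENNReal.ofReal (24 * CL * (ε / r ^ 2))) +
            ENNReal.ofReal X := by
        funext ω
        rw [ha']
        simp only
        rw [if_pos ⟨z, hz, rfl⟩]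
      have h3 : ENNReal.ofReal (2 * Λ * (E1 + 24 * CL * (ε / r ^ 2)) + X) =
          ENNReal.ofReal (2 * Λ) * (ENNReal.ofReal E1 + ENNReal.ofReal (24 * CL * (ε / r ^ 2))) +
            ENNReal.ofReal X := by
        rw [ENNReal.ofReal_add (by positivity) hX, ENNReal.ofReal_mul (by positivity),
          ENNReal.ofReal_add hE1 (by positivity)]
      have hone : ∀ x : ℝ≥0∞, x * P univ ≤ x := fun x => by
        calc x * P univ ≤ x * 1 := by gcongr
          _ = x := mul_one _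
      rw [h2, lintegral_add_right _ measurable_const,
        lintegral_const_mul'' _ ((J.am z hz).add_const _), lintegral_add_right _
        measurable_const, lintegral_const, lintegral_const, h3]
      refine add_le_add ?_ (hone _)
      refine mul_le_mul_right ?_ _
      exact add_le_add (J.ai z hz) (hone _)
    · have h2 : a' i = fun _ => 0 := by
        funext ω
        rw [ha']
        simp only
        rw [if_neg hi]
      rw [h2, lintegral_const, zero_mul]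
      exact zero_le

/-- **output for one `ε`** -/
theorem Inp.out (J : Inp D Gm K ε r η Λ C4 CE E1 β X) (hGm : MeasurableSet Gm)
    (hK : MeasurableSet K) (hKf : volume K ≠ ⊤) (hε : 0 < ε) (hr : 0 < r) (hη : 0 ≤ η)
    (hΛ : 0 ≤ Λ) (hE1 : 0 ≤ E1) (hβ : 0 ≤ β) (hX : 0 ≤ X)
    (hm : AEStronglyMeasurable (fun p : Sample × ℂ => D.h ε p.1 p.2)
      ((sampleLaw.restrict Gm).prod volume)) :
    ∫⁻ z in K, ∫⁻ ω in Gm, ‖Sb r (D.h ε ω) z‖ₑ ∂sampleLaw ≤
      ENNReal.ofReal (outB (volume K).toReal ε r η Λ C4 CE E1 β X) ∨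
    ∫⁻ z in K, ∫⁻ ω in Gm, ‖Db r (D.h ε ω) z‖ₑ ∂sampleLaw ≤
      ENNReal.ofReal (outB (volume K).toReal ε r η Λ C4 CE E1 β X) := by
  rcases le_total ‖J.s‖ ‖J.d‖ with h | h
  · left
    refine J.core hGm hK hKf hε hr hη hΛ hE1 hβ hX (T := Sb r) (Sb_aesm _ hm r) (fun ω z => ?_)
      fun ω hω z hz => ?_
    · exact Sb_le (hval_BM _) hr z
    · exact (J.alt ω hω z hz).1 h
  · right
    refine J.core hGm hK hKf hε hr hη hΛ hE1 hβ hX (T := Db r) (Db_aesm _ hm r) (fun ω z => ?_)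
      fun ω hω z hz => ?_
    · exact Db_le (hval_BM _) hr z
    · exact (J.alt ω hω z hz).2 h

end out

/-! ### the family -/

/-- the family of inputs: one exponent `κ` for the domain, the room `ρ` and the margin `m` -/
def InpP (D : Dom) (G : ℝ → Set Sample) (ρ m : ℝ) : Prop := ∃ κ : ℝ, 0 < κ ∧
  ∀ K : Set ℂ, IsCompact K → K.Nonempty → (∀ z ∈ K, Room D ρ z ∧ Linked D m z) →
    ∃ (η Λ E1 β X : ℝ → ℝ) (C4 CE : ℝ),
      (∀ᶠ ε : ℝ in 𝓝[>] 0, (0 ≤ η ε ∧ 0 ≤ Λ ε ∧ 0 ≤ E1 ε ∧ 0 ≤ β ε ∧ 0 ≤ X ε) ∧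
        Nonempty (Inp D (G ε) K ε (ε ^ κ) (η ε) (Λ ε) C4 CE (E1 ε) (β ε) (X ε))) ∧
      Tendsto η (𝓝[>] 0) (𝓝 0) ∧
      Tendsto (fun ε : ℝ => Λ ε * E1 ε) (𝓝[>] 0) (𝓝 0) ∧
      Tendsto (fun ε : ℝ => Λ ε * (ε / (ε ^ κ) ^ 2)) (𝓝[>] 0) (𝓝 0) ∧
      Tendsto (fun ε : ℝ => β ε / ε ^ κ) (𝓝[>] 0) (𝓝 0) ∧
      Tendsto X (𝓝[>] 0) (𝓝 0)

theorem outB_tendsto {v κ C4 CE : ℝ} {η Λ E1 β X : ℝ → ℝ}
    (h1 : Tendsto η (𝓝[>] 0) (𝓝 0))
    (h2 : Tendsto (fun ε : ℝ => Λ ε * E1 ε) (𝓝[>] 0) (𝓝 0))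
    (h3 : Tendsto (fun ε : ℝ => Λ ε * (ε / (ε ^ κ) ^ 2)) (𝓝[>] 0) (𝓝 0))
    (h4 : Tendsto (fun ε : ℝ => β ε / ε ^ κ) (𝓝[>] 0) (𝓝 0)) (h5 : Tendsto X (𝓝[>] 0) (𝓝 0)) :
    Tendsto (fun ε : ℝ => outB v ε (ε ^ κ) (η ε) (Λ ε) C4 CE (E1 ε) (β ε) (X ε)) (𝓝[>] 0)
      (𝓝 0) := by
  have e : ∀ ε : ℝ, outB v ε (ε ^ κ) (η ε) (Λ ε) C4 CE (E1 ε) (β ε) (X ε) =
      (2 * v) * (Λ ε * E1 ε) + (48 * CL * v) * (Λ ε * (ε / (ε ^ κ) ^ 2)) +
        (√v * (20 * CK * √(Real.pi * C4 * CE))) * η ε + (3 * CS * v) * (β ε / ε ^ κ) +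
          v * X ε := by
    intro ε
    unfold outB
    ring
  simp_rw [e]
  have := ((((h2.const_mul (2 * v)).add (h3.const_mul (48 * CL * v))).add
    (h1.const_mul (√v * (20 * CK * √(Real.pi * C4 * CE))))).add (h4.const_mul (3 * CS * v))).add
    (h5.const_mul v)
  simpa using this

/-- **the conclusion of `LMin` from the family of inputs** -/
theorem min_tendsto {D : Dom} {G : ℝ → Set Sample} (hG : GoodFam D G) {ρ m : ℝ}
    (h : InpP D G ρ m) : ∃ κ : ℝ, 0 < κ ∧ ∀ K : Set ℂ, IsCompact K →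
    (∀ z ∈ K, Room D ρ z ∧ Linked D m z) →
    Tendsto (fun ε : ℝ => min (∫ z in K, ‖dbar (moll (ε ^ κ) (HG D G ε)) z‖)
      (∫ z in K, ‖del (moll (ε ^ κ) (HG D G ε)) z‖)) (𝓝[>] 0) (𝓝 0) := by
  obtain ⟨κ, hκ, h⟩ := h
  refine ⟨κ, hκ, fun K hK hKR => ?_⟩
  rcases K.eq_empty_or_nonempty with rfl | hKn
  · simp
  obtain ⟨η, Λ, E1, β, X, C4, CE, h0, h1, h2, h3, h4, h5⟩ := h K hK hKn hKR
  have hlim := outB_tendsto (v := (volume K).toReal) (κ := κ) (C4 := C4) (CE := CE) h1 h2 h3 h4 h5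
  have hpos : ∀ᶠ ε in 𝓝[>] (0 : ℝ), 0 < ε := eventually_mem_nhdsWithin
  refine squeeze_zero' ?_ ?_ hlim
  · exact Eventually.of_forall fun ε => le_min (integral_nonneg fun _ => norm_nonneg _)
      (integral_nonneg fun _ => norm_nonneg _)
  · filter_upwards [h0, hpos, hG.hm2] with ε h5 h6 h8
    obtain ⟨⟨e1, e2, e3, e4, e5⟩, ⟨J⟩⟩ := h5
    have hr : 0 < ε ^ κ := Real.rpow_pos_of_pos h6 _
    have hX := outB_nonneg (v := (volume K).toReal) (C4 := C4) (CE := CE) ENNReal.toReal_nonneg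
      h6.le hr e1 e2 e3 e4 e5
    rcases J.out (hG.meas ε) hK.measurableSet hK.measure_lt_top.ne h6 hr e1 e2 e3 e4 e5 h8 with
      h9 | h9
    · exact (min_le_left _ _).trans (int_dbar_le hr h8 hX h9)
    · exact (min_le_right _ _).trans (int_del_le hr h8 hX h9)

/-- **leaf MN from the inputs** -/
theorem lmin_of {Adm : Dom → ℝ → Prop} (h : ∀ (D : Dom) (δ : ℝ), Adm D δ →
    ∀ G : ℝ → Set Sample, GoodFam D G → ∀ ρ > 0, ∀ m > 0, InpP D G ρ m) : LMin Adm :=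
  fun D δ hD G hG ρ hρ m hm => min_tendsto hG (h D δ hD G hG ρ hρ m hm)

end Crest.Agent.R143.B6Lx654
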