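import Crest.Agent.R143.B6a_654

/-!
# Row 143 (S0194), B6, measure side (helper654)

* `MS` : the good event / bad event bookkeeping, integrated over the centre and the sample
* `EN` : integration over the centre of the local energy (double counting)
* `exists_diag`, `DG` : the diagonal choice of the mollification scale
-/

set_option autoImplicit false

noncomputable section

namespace Crest.Agent.R143.B6Mx654

open Complex Set Filter Topology MeasureTheory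
open scoped ENNReal NNReal

/-! ### (MS) -/

section MS

variable {Ω ι : Type*} [MeasurableSpace Ω] [MeasurableSpace ι] [Countable ι]
  [MeasurableSingletonClass ι]

/-- joint measurability of `(ω, z) ↦ a (p z) ω`, `p` with countable range -/
theorem aem_cell (P : Measure Ω) [SFinite P] {μ : Measure ℂ} [SFinite μ] {p : ℂ → ι}
    (hp : Measurable p) {a : ι → Ω → ℝ≥0∞} (ha : ∀ i, AEMeasurable (a i) P) :
    AEMeasurable (fun q : Ω × ℂ => a (p q.2) q.1) (P.prod μ) := by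
  have hb : Measurable (fun x : ι × Ω => (ha x.1).mk (a x.1) x.2) :=
    measurable_from_prod_countable_right fun i => (ha i).measurable_mk
  refine ⟨fun q => (ha (p q.2)).mk (a (p q.2)) q.1,
    hb.comp ((hp.comp measurable_snd).prodMk measurable_fst), ?_⟩
  have h1 : ∀ᵐ ω ∂P, ∀ i, a i ω = (ha i).mk (a i) ω := by
    rw [ae_all_iff]
    exact fun i => (ha i).ae_eq_mk
  have h2 := (Measure.quasiMeasurePreserving_fst (μ := P) (ν := μ)).ae h1
  filter_upwards [h2] with q hq using hq _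

/-- **(MS)** -/
theorem MS (P : Measure Ω) [IsProbabilityMeasure P] {K : Set ℂ} {F : Ω → ℂ → ℝ≥0∞}
    (hF : AEMeasurable (fun q : Ω × ℂ => F q.1 q.2) (P.prod (volume : Measure ℂ)))
    {A B β η' : ℝ≥0∞} (hK : MeasurableSet K) (hB : ∀ ω, ∀ z ∈ K, F ω z ≤ B) {G : Set Ω}
    (hG : P Gᶜ ≤ β) {p : ℂ → ι} (hp : Measurable p) {a : ι → Ω → ℝ≥0∞}
    (ha : ∀ i, AEMeasurable (a i) P) {e : Ω → ℂ → ℝ≥0∞}
    (h : ∀ ω ∈ G, ∀ z ∈ K, F ω z ≤ a (p z) ω + e ω z)
    (he : ∀ ω ∈ G, ∫⁻ z in K, e ω z ≤ η') (hA : ∀ i, ∫⁻ ω, a i ω ∂P ≤ A) :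
    ∫⁻ z in K, ∫⁻ ω, F ω z ∂P ≤ volume K * A + η' + volume K * B * β := by
  have hprod : P.prod ((volume : Measure ℂ).restrict K) ≤ P.prod volume := by
    rw [← Measure.restrict_univ (μ := P), Measure.prod_restrict, Measure.restrict_univ]
    exact Measure.restrict_le_self
  have hF' : AEMeasurable (fun q : Ω × ℂ => F q.1 q.2) (P.prod (volume.restrict K)) :=
    hF.mono_measure hprod
  have ha' : AEMeasurable (fun q : Ω × ℂ => a (p q.2) q.1) (P.prod (volume.restrict K)) :=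
    aem_cell P hp ha
  set D : Ω → ℂ → ℝ≥0∞ := fun ω z => F ω z - a (p z) ω with hD
  have hD' : AEMeasurable (fun q : Ω × ℂ => D q.1 q.2) (P.prod (volume.restrict K)) :=
    hF'.sub ha'
  have hle : ∀ ω z, F ω z ≤ a (p z) ω + D ω z := fun ω z => le_add_tsub
  -- first step
  have h1 : ∫⁻ z in K, ∫⁻ ω, F ω z ∂P ≤ volume K * A + ∫⁻ z in K, ∫⁻ ω, D ω z ∂P := by
    calc ∫⁻ z in K, ∫⁻ ω, F ω z ∂P ≤ ∫⁻ z in K, (A + ∫⁻ ω, D ω z ∂P) := by
          refine lintegral_mono fun z => ?_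
          calc ∫⁻ ω, F ω z ∂P ≤ ∫⁻ ω, (a (p z) ω + D ω z) ∂P := lintegral_mono fun ω => hle ω z
            _ = ∫⁻ ω, a (p z) ω ∂P + ∫⁻ ω, D ω z ∂P := lintegral_add_left' (ha (p z)) _
            _ ≤ A + ∫⁻ ω, D ω z ∂P := by gcongr; exact hA _
      _ = volume K * A + ∫⁻ z in K, ∫⁻ ω, D ω z ∂P := by
          rw [lintegral_add_left measurable_const, lintegral_const, Measure.restrict_apply_univ,
            mul_comm]
  -- exchange of the integrals
  have h2 : ∫⁻ z in K, ∫⁻ ω, D ω z ∂P = ∫⁻ ω, (∫⁻ z in K, D ω z) ∂P :=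
    lintegral_lintegral_swap hD'.prod_swap
  -- the inner integral
  set G' := toMeasurable P Gᶜ with hG'
  have h3 : ∀ ω, ∫⁻ z in K, D ω z ≤ η' + G'.indicator (fun _ => volume K * B) ω := by
    intro ω
    by_cases hω : ω ∈ G
    · refine le_trans ?_ le_self_add
      refine le_trans (setLIntegral_mono' hK fun z hz => ?_) (he ω hω)
      rw [hD]
      simp only
      rw [tsub_le_iff_left]
      exact h ω hω z hz
    · have h4 : ω ∈ G' := subset_toMeasurable P Gᶜ hω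
      rw [indicator_of_mem h4]
      refine le_trans ?_ le_add_self
      calc ∫⁻ z in K, D ω z ≤ ∫⁻ _z in K, B := by
            refine setLIntegral_mono' hK fun z hz => ?_
            exact tsub_le_self.trans (hB ω z hz)
        _ = volume K * B := by rw [lintegral_const, Measure.restrict_apply_univ, mul_comm]
  have h5 : ∫⁻ ω, (∫⁻ z in K, D ω z) ∂P ≤ η' + volume K * B * β := by
    calc ∫⁻ ω, (∫⁻ z in K, D ω z) ∂P
        ≤ ∫⁻ ω, (η' + G'.indicator (fun _ => volume K * B) ω) ∂P := lintegral_mono h3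
      _ = η' + volume K * B * P G' := by
          rw [lintegral_add_left measurable_const, lintegral_const, measure_univ, mul_one,
            lintegral_indicator (measurableSet_toMeasurable _ _), setLIntegral_const]
      _ ≤ η' + volume K * B * β := by
          rw [hG', measure_toMeasurable]
          gcongr
  calc ∫⁻ z in K, ∫⁻ ω, F ω z ∂P ≤ volume K * A + ∫⁻ z in K, ∫⁻ ω, D ω z ∂P := h1
    _ = volume K * A + ∫⁻ ω, (∫⁻ z in K, D ω z) ∂P := by rw [h2]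
    _ ≤ volume K * A + (η' + volume K * B * β) := by gcongr
    _ = _ := by rw [add_assoc]

end MS

/-! ### (EN) -/

/-- the set of centres `z` such that the segment `[a, b]` meets the ball of radius `r` at `z` -/
def tset (r : ℝ) (a b : ℂ) : Set ℂ := {z | ∃ x ∈ segment ℝ a b, ‖x - z‖ < r}

theorem tset_eq (r : ℝ) (a b : ℂ) : tset r a b = Metric.thickening r (segment ℝ a b) := by
  ext z
  rw [Metric.mem_thickening_iff]
  constructor
  · rintro ⟨x, hx, h⟩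
    exact ⟨x, hx, by rw [dist_comm, dist_eq_norm]; exact h⟩
  · rintro ⟨x, hx, h⟩
    exact ⟨x, hx, by rw [dist_comm, dist_eq_norm] at h; exact h⟩

theorem isOpen_tset (r : ℝ) (a b : ℂ) : IsOpen (tset r a b) := by
  rw [tset_eq]; exact Metric.isOpen_thickening

theorem tset_sub {r : ℝ} {a b : ℂ} (h : ‖b - a‖ ≤ r) : tset r a b ⊆ Metric.ball a (2 * r) := by
  rintro z ⟨x, hx, hz⟩
  rw [Metric.mem_ball, dist_eq_norm]
  have h1 : ‖x - a‖ ≤ ‖b - a‖ := by
    rw [segment_eq_image'] at hx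
    obtain ⟨s, hs, rfl⟩ := hx
    simp only [add_sub_cancel_left]
    rw [norm_smul, Real.norm_eq_abs, abs_of_nonneg hs.1]
    exact mul_le_of_le_one_left (norm_nonneg _) hs.2
  have e : z - a = (x - a) - (x - z) := by ring
  rw [e]
  calc ‖(x - a) - (x - z)‖ ≤ ‖x - a‖ + ‖x - z‖ := norm_sub_le _ _
    _ < 2 * r := by linarith

/-- **(EN)**, `ℝ≥0∞` form -/
theorem EN {K : Set ℂ} {r : ℝ} (T : Finset (ℂ × ℂ × ℂ)) (w : ℂ × ℂ × ℂ → ℝ≥0∞)
    (hT : ∀ t ∈ T, (∃ z ∈ K, z ∈ tset r t.1 t.2.1) → ‖t.2.1 - t.1‖ ≤ r) :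
    ∫⁻ z in K, (∑ t ∈ T, (tset r t.1 t.2.1).indicator (fun _ => w t) z) ^ (1 / 2 : ℝ) ≤
      (volume K) ^ (1 / 2 : ℝ) *
        (ENNReal.ofReal (4 * Real.pi * r ^ 2) * ∑ t ∈ T, w t) ^ (1 / 2 : ℝ) := by
  set f : ℂ → ℝ≥0∞ := fun z => ∑ t ∈ T, (tset r t.1 t.2.1).indicator (fun _ => w t) z with hf
  have hfm : Measurable f :=
    Finset.measurable_fun_sum _ fun t _ =>
      measurable_const.indicator (isOpen_tset r _ _).measurableSet
  -- Cauchy-Schwarz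
  have h1 : ∫⁻ z in K, f z ^ (1 / 2 : ℝ) ≤
      (∫⁻ z in K, f z) ^ (1 / 2 : ℝ) * (volume K) ^ (1 / 2 : ℝ) := by
    have hpq : Real.HolderConjugate 2 2 := Real.HolderConjugate.two_two
    have h2 := ENNReal.lintegral_mul_le_Lp_mul_Lq (volume.restrict K) hpq
      (f := fun z => f z ^ (1 / 2 : ℝ)) (g := fun _ => 1)
      (hfm.pow_const _).aemeasurable aemeasurable_const
    simp only [Pi.mul_apply, mul_one, ENNReal.one_rpow, lintegral_const,
      Measure.restrict_apply_univ, one_mul] at h2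
    refine h2.trans (le_of_eq ?_)
    congr 2
    refine lintegral_congr fun z => ?_
    rw [← ENNReal.rpow_mul]
    norm_num
  have h3 : ∫⁻ z in K, f z ≤ ENNReal.ofReal (4 * Real.pi * r ^ 2) * ∑ t ∈ T, w t := by
    rw [hf, lintegral_finsetSum _ fun t _ =>
      measurable_const.indicator (isOpen_tset r _ _).measurableSet, Finset.mul_sum]
    refine Finset.sum_le_sum fun t ht => ?_
    rw [lintegral_indicator (isOpen_tset r _ _).measurableSet, lintegral_const,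
      Measure.restrict_restrict (isOpen_tset r _ _).measurableSet, Measure.restrict_apply_univ,
      mul_comm]
    gcongr
    by_cases hz : ∃ z ∈ K, z ∈ tset r t.1 t.2.1
    · have h4 := tset_sub (hT t ht hz)
      refine (measure_mono (inter_subset_left.trans h4)).trans ?_
      rw [Complex.volume_ball]
      have e1 : (ENNReal.ofReal (2 * r) ^ 2 * (NNReal.pi : ℝ≥0∞)) =
          ENNReal.ofReal (4 * Real.pi * r ^ 2) := by
        have h0 : 0 ≤ r := (norm_nonneg _).trans (hT t ht hz)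
        rw [← ENNReal.ofReal_pow (by positivity)]
        have : (NNReal.pi : ℝ≥0∞) = ENNReal.ofReal Real.pi := by
          rw [← NNReal.coe_real_pi, ENNReal.ofReal_coe_nnreal]
        rw [this, ← ENNReal.ofReal_mul (by positivity)]
        congr 1
        ring
      rw [e1]
    · have h4 : tset r t.1 t.2.1 ∩ K = ∅ := by
        rw [eq_empty_iff_forall_notMem]
        rintro z ⟨h5, h6⟩
        exact hz ⟨z, h6, h5⟩
      rw [h4, measure_empty]
      exact zero_le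
  calc ∫⁻ z in K, f z ^ (1 / 2 : ℝ)
      ≤ (∫⁻ z in K, f z) ^ (1 / 2 : ℝ) * (volume K) ^ (1 / 2 : ℝ) := h1
    _ ≤ (ENNReal.ofReal (4 * Real.pi * r ^ 2) * ∑ t ∈ T, w t) ^ (1 / 2 : ℝ) *
        (volume K) ^ (1 / 2 : ℝ) := by gcongr
    _ = _ := mul_comm _ _

open Crest.Agent.R143.B0x346 Crest.Agent.R143.B1bx796

theorem ofReal_sqrt_eq {x : ℝ} (hx : 0 ≤ x) :
    ENNReal.ofReal (√x) = (ENNReal.ofReal x) ^ (1 / 2 : ℝ) := by
  rw [Real.sqrt_eq_rpow, ENNReal.ofReal_rpow_of_nonneg hx (by norm_num)]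

/-- **(EN)**, form of 796's `touch` -/
theorem EN_sqrt {K : Set ℂ} {r CE : ℝ} (hr : 0 < r) (S : Finset ℂ) (Q : ℂ × ℂ × ℂ → ℂ)
    (hT : ∀ z ∈ K, ∀ t ∈ touch z r S, ‖t.2.1 - t.1‖ ≤ r)
    (hE : ∑ t ∈ delT S, ‖Q t‖ ^ 2 ≤ CE) :
    ∫⁻ z in K, ENNReal.ofReal (√(∑ t ∈ touch z r S, ‖Q t‖ ^ 2)) ≤
      (volume K) ^ (1 / 2 : ℝ) * ENNReal.ofReal (2 * r * √(Real.pi * CE)) := by
  classical
  have hCE : 0 ≤ CE := (Finset.sum_nonneg fun t _ => by positivity).trans hE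
  have h1 := EN (K := K) (r := r) (delT S) (fun t => ENNReal.ofReal (‖Q t‖ ^ 2)) (by
    rintro t ht ⟨z, hz, h2⟩
    refine hT z hz t ?_
    rw [touch, Finset.mem_filter]
    exact ⟨ht, h2⟩)
  have e1 : ∀ z, ENNReal.ofReal (√(∑ t ∈ touch z r S, ‖Q t‖ ^ 2)) =
      (∑ t ∈ delT S, (tset r t.1 t.2.1).indicator (fun _ => ENNReal.ofReal (‖Q t‖ ^ 2)) z) ^
        (1 / 2 : ℝ) := by
    intro z
    rw [ofReal_sqrt_eq (Finset.sum_nonneg fun t _ => by positivity),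
      ENNReal.ofReal_sum_of_nonneg fun t _ => by positivity, touch, Finset.sum_filter]
    congr 1
  simp_rw [e1]
  refine h1.trans ?_
  gcongr
  rw [← ENNReal.ofReal_sum_of_nonneg fun t _ => by positivity,
    ← ENNReal.ofReal_mul (by positivity), ENNReal.ofReal_rpow_of_nonneg (by positivity)
      (by norm_num), ← Real.sqrt_eq_rpow]
  refine ENNReal.ofReal_le_ofReal ?_
  calc √(4 * Real.pi * r ^ 2 * ∑ t ∈ delT S, ‖Q t‖ ^ 2) ≤ √(4 * Real.pi * r ^ 2 * CE) := by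
        gcongr
    _ = √((2 * r) ^ 2 * (Real.pi * CE)) := by congr 1; ring
    _ = 2 * r * √(Real.pi * CE) := by
        rw [Real.sqrt_mul (by positivity), Real.sqrt_sq (by positivity)]

/-- the integrated right-hand side of 796's `Sb_out`, `Sd_out` -/
theorem EN_err {K : Set ℂ} {r η CA CE : ℝ} (hr : 0 < r) (hη : 0 ≤ η) (S : Finset ℂ)
    (Q : ℂ × ℂ × ℂ → ℂ)
    (hT : ∀ z ∈ K, ∀ t ∈ touch z r S, ‖t.2.1 - t.1‖ ≤ r)
    (hE : ∑ t ∈ delT S, ‖Q t‖ ^ 2 ≤ CE) (hK : MeasurableSet K)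
    (hA : ∀ z ∈ K, ∑ t ∈ touch z r S, ‖t.2.1 - t.1‖ ^ 2 ≤ CA * r ^ 2) :
    ∫⁻ z in K, ENNReal.ofReal (CK / r ^ 2 * (η * (√(∑ t ∈ touch z r S, ‖Q t‖ ^ 2) *
      √(∑ t ∈ touch z r S, ‖t.2.1 - t.1‖ ^ 2)))) ≤
      (volume K) ^ (1 / 2 : ℝ) * ENNReal.ofReal (2 * CK * η * √(Real.pi * CA * CE)) := by
  have hCE : 0 ≤ CE := (Finset.sum_nonneg fun t _ => by positivity).trans hE
  have hCK := CK_pos
  rcases K.eq_empty_or_nonempty with rfl | ⟨z₁, hz₁⟩
  · simp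
  have hCA : 0 ≤ CA := by
    have h1 : 0 ≤ CA * r ^ 2 := (Finset.sum_nonneg fun t _ => by positivity).trans (hA z₁ hz₁)
    exact nonneg_of_mul_nonneg_left h1 (by positivity)
  have h2 : ∀ z ∈ K, ENNReal.ofReal (CK / r ^ 2 * (η * (√(∑ t ∈ touch z r S, ‖Q t‖ ^ 2) *
      √(∑ t ∈ touch z r S, ‖t.2.1 - t.1‖ ^ 2)))) ≤
      ENNReal.ofReal (CK / r * η * √CA) *
        ENNReal.ofReal (√(∑ t ∈ touch z r S, ‖Q t‖ ^ 2)) := by
    intro z hz
    rw [← ENNReal.ofReal_mul (by positivity)]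
    refine ENNReal.ofReal_le_ofReal ?_
    have h3 : √(∑ t ∈ touch z r S, ‖t.2.1 - t.1‖ ^ 2) ≤ √CA * r := by
      calc √(∑ t ∈ touch z r S, ‖t.2.1 - t.1‖ ^ 2) ≤ √(CA * r ^ 2) :=
            Real.sqrt_le_sqrt (hA z hz)
        _ = √CA * r := by rw [Real.sqrt_mul hCA, Real.sqrt_sq hr.le]
    calc CK / r ^ 2 * (η * (√(∑ t ∈ touch z r S, ‖Q t‖ ^ 2) *
          √(∑ t ∈ touch z r S, ‖t.2.1 - t.1‖ ^ 2)))
        ≤ CK / r ^ 2 * (η * (√(∑ t ∈ touch z r S, ‖Q t‖ ^ 2) * (√CA * r))) := by gcongr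
      _ = CK / r * η * √CA * √(∑ t ∈ touch z r S, ‖Q t‖ ^ 2) := by
          field_simp
  calc ∫⁻ z in K, ENNReal.ofReal (CK / r ^ 2 * (η * (√(∑ t ∈ touch z r S, ‖Q t‖ ^ 2) *
        √(∑ t ∈ touch z r S, ‖t.2.1 - t.1‖ ^ 2))))
      ≤ ∫⁻ z in K, ENNReal.ofReal (CK / r * η * √CA) *
        ENNReal.ofReal (√(∑ t ∈ touch z r S, ‖Q t‖ ^ 2)) := setLIntegral_mono' hK h2
    _ = ENNReal.ofReal (CK / r * η * √CA) *
        ∫⁻ z in K, ENNReal.ofReal (√(∑ t ∈ touch z r S, ‖Q t‖ ^ 2)) :=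
          lintegral_const_mul' _ _ ENNReal.ofReal_ne_top
    _ ≤ ENNReal.ofReal (CK / r * η * √CA) *
        ((volume K) ^ (1 / 2 : ℝ) * ENNReal.ofReal (2 * r * √(Real.pi * CE))) := by
          gcongr
          exact EN_sqrt hr S Q hT hE
    _ = (volume K) ^ (1 / 2 : ℝ) * (ENNReal.ofReal (CK / r * η * √CA) *
        ENNReal.ofReal (2 * r * √(Real.pi * CE))) := by ring
    _ = (volume K) ^ (1 / 2 : ℝ) * ENNReal.ofReal (2 * CK * η * √(Real.pi * CA * CE)) := by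
          rw [← ENNReal.ofReal_mul (by positivity)]
          congr 2
          have e2 : √(Real.pi * CA * CE) = √CA * √(Real.pi * CE) := by
            rw [← Real.sqrt_mul hCA]
            congr 1
            ring
          rw [e2]
          field_simp

/-! ### (DG) -/

/-- diagonal choice along any filter with a function tending to infinity -/
theorem exists_diag {α : Type*} {l : Filter α} {u : α → ℝ} (hu : Tendsto u l atTop)
    {P : ℕ → α → Prop} (hP : ∀ n, ∀ᶠ i in l, P n i) :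
    ∃ N : α → ℕ, Tendsto N l atTop ∧ ∀ᶠ i in l, P (N i) i := by
  classical
  set A : ℕ → Set α := fun n => {i | (∀ m ≤ n, P m i) ∧ (n : ℝ) ≤ u i} with hA
  have hAl : ∀ n, ∀ᶠ i in l, i ∈ A n := by
    intro n
    have h1 : ∀ᶠ i in l, ∀ m ∈ Finset.range (n + 1), P m i :=
      (Finset.range (n + 1)).eventually_all.2 fun m _ => hP m
    filter_upwards [h1, hu.eventually_ge_atTop (n : ℝ)] with i h2 h3
    exact ⟨fun m hm => h2 m (Finset.mem_range.2 (by omega)), h3⟩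
  set N : α → ℕ := fun i => Nat.findGreatest (fun n => i ∈ A n) ⌊u i⌋₊ with hN
  have hmem : ∀ n i, i ∈ A n → n ≤ ⌊u i⌋₊ := by
    intro n i hi
    exact Nat.le_floor hi.2
  refine ⟨N, ?_, ?_⟩
  · rw [tendsto_atTop]
    intro n
    filter_upwards [hAl n] with i hi
    exact Nat.le_findGreatest (hmem n i hi) hi
  · filter_upwards [hAl 0] with i hi
    have h1 : i ∈ A (N i) :=
      Nat.findGreatest_spec (P := fun n => i ∈ A n) (hmem 0 i hi) hi
    exact h1.1 _ le_rfl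

/-- **(DG)** : one scale `r ε` for all compact sets -/
theorem DG {D : Set ℂ} (hD : IsOpen D) {l : Filter ℝ} (hl : l ≤ 𝓝[>] 0)
    {Φ : Set ℂ → ℝ → ℝ → ℝ → Prop}
    (mono : ∀ K K' : Set ℂ, ∀ r ε η η' : ℝ, K ⊆ K' → η ≤ η' → Φ K' r ε η → Φ K r ε η')
    (h : ∀ K, IsCompact K → K ⊆ D → ∃ κ₀ : ℝ, 0 < κ₀ ∧ ∀ κ : ℝ, 0 < κ → κ < κ₀ →
      ∀ η : ℝ, 0 < η → ∀ᶠ ε in l, Φ K (ε ^ κ) ε η) :
    ∃ r : ℝ → ℝ, (∀ ε, 0 < ε → 0 < r ε) ∧ Tendsto r l (𝓝 0) ∧
      ∀ K, IsCompact K → K ⊆ D → ∀ η : ℝ, 0 < η → ∀ᶠ ε in l, Φ K (r ε) ε η := by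
  obtain ⟨E, hE1, hE2, hE3, hE4⟩ := EndBx336.exists_exh hD
  choose κ₀ hκ₀ hκ using fun n => h (E n) (hE1 n) (hE2 n)
  have hpos : ∀ᶠ ε in l, (0 : ℝ) < ε := hl self_mem_nhdsWithin
  have hu : Tendsto (fun ε : ℝ => ε⁻¹) l atTop := tendsto_inv_nhdsGT_zero.mono_left hl
  set P : ℕ → ℝ → Prop := fun n ε =>
    Φ (E n) (ε ^ (κ₀ n / 2)) ε (1 / ((n : ℝ) + 1)) ∧ ε ^ (κ₀ n / 2) ≤ 1 / ((n : ℝ) + 1) ∧ 0 < ε
    with hPdef
  have hP : ∀ n, ∀ᶠ ε in l, P n ε := by
    intro n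
    have h1 := hκ n (κ₀ n / 2) (half_pos (hκ₀ n)) (half_lt_self (hκ₀ n)) (1 / ((n : ℝ) + 1))
      (by positivity)
    have h2 : Tendsto (fun ε : ℝ => ε ^ (κ₀ n / 2)) l (𝓝 0) := by
      have h3 : Tendsto (fun ε : ℝ => ε ^ (κ₀ n / 2)) (𝓝 0) (𝓝 0) := by
        have h4 := (Real.continuous_rpow_const (half_pos (hκ₀ n)).le).tendsto 0
        rwa [Real.zero_rpow (half_pos (hκ₀ n)).ne'] at h4
      exact h3.mono_left (hl.trans nhdsWithin_le_nhds)
    have h5 : ∀ᶠ ε in l, ε ^ (κ₀ n / 2) ≤ 1 / ((n : ℝ) + 1) :=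
      h2.eventually (ge_mem_nhds (by positivity))
    filter_upwards [h1, h5, hpos] with ε a b c using ⟨a, b, c⟩
  obtain ⟨N, hN1, hN2⟩ := exists_diag hu hP
  refine ⟨fun ε => ε ^ (κ₀ (N ε) / 2), fun ε hε => Real.rpow_pos_of_pos hε _, ?_, ?_⟩
  · have h1 : Tendsto (fun ε => 1 / ((N ε : ℝ) + 1)) l (𝓝 0) :=
      tendsto_one_div_add_atTop_nhds_zero_nat.comp hN1
    refine squeeze_zero' ?_ ?_ h1
    · filter_upwards [hpos] with ε hε using (Real.rpow_pos_of_pos hε _).le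
    · filter_upwards [hN2] with ε hε using hε.2.1
  · intro K hK hKD η hη
    obtain ⟨m, hm⟩ := hE4 K hK hKD
    obtain ⟨k, hk⟩ := exists_nat_one_div_lt hη
    filter_upwards [hN2, hN1.eventually_ge_atTop m, hN1.eventually_ge_atTop k] with ε h1 h2 h3
    refine mono K (E (N ε)) _ _ _ _ (hm.trans (hE3 h2)) ?_ h1.1
    refine le_trans ?_ hk.le
    have : (k : ℝ) ≤ N ε := by exact_mod_cast h3
    gcongr

end Crest.Agent.R143.B6Mx654
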