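import Mathlib

/-!
# Row 143 (S0194), part B, B6: the alternative holomorphic / antiholomorphic at one point
(helper903)

`alt_core` : three networks `x`, `y`, `y₁` (`y₁` = `y` turned by 90 degrees) whose spin one
amplitudes are proportional up to the relative error `η` (`q ≈ λ q₀`, `q₁ ≈ μ q₀`) near a point.
`Sx, Sy, S1` (resp. `Dx, Dy, D1`) are the mollified `∂/∂z̄` (resp. `∂/∂z`) of the observables at
this point; they are linear in the amplitudes. `s`, `d` are ANY two numbers (the expectations of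
`Sy`, `Dy`); if `|s| ≤ |d|` then `Sx` is small, if `|d| ≤ |s|` then `Dx` is small.
The error made in the transport `y₁ ↔ y` is controlled by the energy of `x`.
-/

set_option autoImplicit false

namespace Crest.Agent.R143.B6ax903

open Complex

variable {ι : Type*}

/-- `‖μ - ρ‖ + ‖μ + ρ‖ ≥ 1 + ‖μ‖` for `‖ρ‖ = 1` -/
theorem one_add_le (mu rho : ℂ) (h : ‖rho‖ = 1) : 1 + ‖mu‖ ≤ ‖mu - rho‖ + ‖mu + rho‖ := by
  have h1 : ‖(2 : ℂ) * mu‖ ≤ ‖mu - rho‖ + ‖mu + rho‖ := by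
    have : (2 : ℂ) * mu = (mu - rho) + (mu + rho) := by ring
    rw [this]; exact norm_add_le _ _
  have h2 : ‖(2 : ℂ) * rho‖ ≤ ‖mu - rho‖ + ‖mu + rho‖ := by
    have : (2 : ℂ) * rho = (mu + rho) - (mu - rho) := by ring
    rw [this]
    refine (norm_sub_le _ _).trans (le_of_eq (add_comm _ _))
  rw [norm_mul, Complex.norm_ofNat] at h1 h2
  rw [h] at h2
  linarith

/-- the deterministic minimum is bounded by the fluctuations and the transport error -/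
theorem min_bound {S0 S1 D0 D1 s d mu rho : ℂ} {A E : ℝ} (hrho : ‖rho‖ = 1)
    (hS : ‖S1 - mu * S0‖ ≤ ‖mu‖ * A + (1 + ‖mu‖) * E)
    (hD : ‖D1 - mu * D0‖ ≤ ‖mu‖ * A + (1 + ‖mu‖) * E) (hA : 0 ≤ A) :
    min ‖s‖ ‖d‖ ≤ ‖S0 - s‖ + ‖S1 - rho * s‖ + ‖D0 - d‖ + ‖D1 + rho * d‖ + 2 * A + 2 * E := by
  set m := min ‖s‖ ‖d‖ with hm
  have hm0 : 0 ≤ m := le_min (norm_nonneg _) (norm_nonneg _)
  set c := ‖S0 - s‖ + ‖S1 - rho * s‖ + ‖D0 - d‖ + ‖D1 + rho * d‖ with hc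
  have n1 := norm_nonneg (S0 - s)
  have n2 := norm_nonneg (S1 - rho * s)
  have n3 := norm_nonneg (D0 - d)
  have n4 := norm_nonneg (D1 + rho * d)
  have nm := norm_nonneg mu
  have e1 : ‖s‖ * ‖mu - rho‖ ≤ ‖mu‖ * ‖S0 - s‖ + ‖S1 - rho * s‖ + (‖mu‖ * A + (1 + ‖mu‖) * E) := by
    rw [← norm_mul]
    have : s * (mu - rho) = -(mu * (S0 - s)) + (S1 - rho * s) - (S1 - mu * S0) := by ring
    rw [this]
    refine (norm_sub_le _ _).trans (add_le_add ((norm_add_le _ _).trans ?_) hS)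
    rw [norm_neg, norm_mul]
  have e2 : ‖d‖ * ‖mu + rho‖ ≤ ‖mu‖ * ‖D0 - d‖ + ‖D1 + rho * d‖ + (‖mu‖ * A + (1 + ‖mu‖) * E) := by
    rw [← norm_mul]
    have : d * (mu + rho) = -(mu * (D0 - d)) + (D1 + rho * d) - (D1 - mu * D0) := by ring
    rw [this]
    refine (norm_sub_le _ _).trans (add_le_add ((norm_add_le _ _).trans ?_) hD)
    rw [norm_neg, norm_mul]
  have e3 : m * (1 + ‖mu‖) ≤ (c + 2 * A + 2 * E) * (1 + ‖mu‖) := by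
    have a1 : m * ‖mu - rho‖ ≤ ‖s‖ * ‖mu - rho‖ :=
      mul_le_mul_of_nonneg_right (min_le_left _ _) (norm_nonneg _)
    have a2 : m * ‖mu + rho‖ ≤ ‖d‖ * ‖mu + rho‖ :=
      mul_le_mul_of_nonneg_right (min_le_right _ _) (norm_nonneg _)
    have a3 : m * (1 + ‖mu‖) ≤ m * (‖mu - rho‖ + ‖mu + rho‖) :=
      mul_le_mul_of_nonneg_left (one_add_le mu rho hrho) hm0
    have a4 : (c + 2 * A + 2 * E) * (1 + ‖mu‖) =
      c + ‖mu‖ * c + 2 * A + 2 * (‖mu‖ * A) + 2 * ((1 + ‖mu‖) * E) := by ring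
    have a5 : ‖mu‖ * c = ‖mu‖ * ‖S0 - s‖ + ‖mu‖ * ‖S1 - rho * s‖ + ‖mu‖ * ‖D0 - d‖ +
        ‖mu‖ * ‖D1 + rho * d‖ := by rw [hc]; ring
    have a6 : 0 ≤ ‖mu‖ * ‖S1 - rho * s‖ := mul_nonneg nm n2
    have a7 : 0 ≤ ‖mu‖ * ‖D1 + rho * d‖ := mul_nonneg nm n4
    have a8 : ‖S1 - rho * s‖ + ‖D1 + rho * d‖ ≤ c := by rw [hc]; linarith
    rw [a4, a5]
    have a9 : m * (‖mu - rho‖ + ‖mu + rho‖) = m * ‖mu - rho‖ + m * ‖mu + rho‖ := by ring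
    linarith
  exact le_of_mul_le_mul_right e3 (by linarith)

/-- the bound of one of the two operators -/
theorem one_side {X0 X x lam : ℂ} {m c A Ax η Λ E : ℝ} (hη0 : 0 ≤ η) (hη1 : η ≤ 1 / 2)
    (hL : ‖lam‖ ≤ Λ) (hx : ‖x‖ ≤ m) (hm : m ≤ c + 2 * (2 * η * A) + 2 * (2 * E))
    (hc : ‖X0 - x‖ ≤ c) (hX : ‖X - lam * X0‖ ≤ η * Ax + (1 + ‖lam‖) * E)
    (hA : ‖lam‖ * A ≤ (1 + η) * Ax + (1 + ‖lam‖) * E)
    (hAx : 0 ≤ Ax) (hE : 0 ≤ E) : ‖X‖ ≤ 2 * Λ * c + 7 * η * Ax + 7 * (1 + Λ) * E := by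
  have hc0 : 0 ≤ c := (norm_nonneg _).trans hc
  have hl := norm_nonneg lam
  have hΛ : 0 ≤ Λ := hl.trans hL
  have h1 : ‖X‖ ≤ ‖lam‖ * ‖X0‖ + (η * Ax + (1 + ‖lam‖) * E) := by
    have : X = lam * X0 + (X - lam * X0) := by ring
    calc ‖X‖ = ‖lam * X0 + (X - lam * X0)‖ := by rw [← this]
      _ ≤ ‖lam * X0‖ + ‖X - lam * X0‖ := norm_add_le _ _
      _ ≤ ‖lam‖ * ‖X0‖ + (η * Ax + (1 + ‖lam‖) * E) := by rw [norm_mul]; linarith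
  have h2 : ‖X0‖ ≤ 2 * c + 4 * (η * A) + 4 * E := by
    have : X0 = (X0 - x) + x := by ring
    calc ‖X0‖ = ‖(X0 - x) + x‖ := by rw [← this]
      _ ≤ ‖X0 - x‖ + ‖x‖ := norm_add_le _ _
      _ ≤ 2 * c + 4 * (η * A) + 4 * E := by linarith
  have h3 : ‖lam‖ * ‖X0‖ ≤ ‖lam‖ * (2 * c + 4 * (η * A) + 4 * E) :=
    mul_le_mul_of_nonneg_left h2 hl
  have h4 : ‖lam‖ * (2 * c + 4 * (η * A) + 4 * E) =
    2 * (‖lam‖ * c) + 4 * (η * (‖lam‖ * A)) + 4 * (‖lam‖ * E) := by ring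
  have h5 : ‖lam‖ * c ≤ Λ * c := mul_le_mul_of_nonneg_right hL hc0
  have h6 : η * (‖lam‖ * A) ≤ η * ((1 + η) * Ax + (1 + ‖lam‖) * E) :=
    mul_le_mul_of_nonneg_left hA hη0
  have h7 : ‖lam‖ * E ≤ Λ * E := mul_le_mul_of_nonneg_right hL hE
  have h8 : (1 + ‖lam‖) * E ≤ (1 + Λ) * E := by nlinarith
  have h9 : η * ((1 + η) * Ax) ≤ 3 / 2 * (η * Ax) := by
    have : 0 ≤ η * Ax := mul_nonneg hη0 hAx
    nlinarith
  have h10 : η * ((1 + ‖lam‖) * E) ≤ 1 / 2 * ((1 + Λ) * E) := by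
    have h0 : 0 ≤ (1 + ‖lam‖) * E := by positivity
    calc η * ((1 + ‖lam‖) * E) ≤ 1 / 2 * ((1 + ‖lam‖) * E) := mul_le_mul_of_nonneg_right hη1 h0
      _ ≤ 1 / 2 * ((1 + Λ) * E) := by linarith
  have h11 : Λ * E ≤ (1 + Λ) * E := by nlinarith
  have h12 : η * ((1 + η) * Ax + (1 + ‖lam‖) * E) = η * ((1 + η) * Ax) + η * ((1 + ‖lam‖) * E) := by
    ring
  nlinarith

/-- **the alternative at one point** -/
theorem alt_core {Sx Sy S1 Dx Dy D1 s d lam mu rho : ℂ} {T : Finset ι} {q q0 q1 : ι → ℂ}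
    {l : ι → ℝ} {C η τ Λ : ℝ} (hC : 0 ≤ C) (hη0 : 0 ≤ η) (hη1 : η ≤ 1 / 2) (hτ : 0 ≤ τ)
    (hrho : ‖rho‖ = 1) (hl : ∀ t ∈ T, 0 ≤ l t) (hLam : ‖lam‖ ≤ Λ)
    (hq : ∀ t ∈ T, ‖q t - lam * q0 t‖ ≤ η * ‖q t‖ + τ * (1 + ‖lam‖))
    (hq1 : ∀ t ∈ T, ‖q1 t - mu * q0 t‖ ≤ η * ‖q1 t‖ + τ * (1 + ‖mu‖))
    (hS : ‖Sx - lam * Sy‖ ≤ C * ∑ t ∈ T, ‖q t - lam * q0 t‖ * l t)
    (hD : ‖Dx - lam * Dy‖ ≤ C * ∑ t ∈ T, ‖q t - lam * q0 t‖ * l t)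
    (hS1 : ‖S1 - mu * Sy‖ ≤ C * ∑ t ∈ T, ‖q1 t - mu * q0 t‖ * l t)
    (hD1 : ‖D1 - mu * Dy‖ ≤ C * ∑ t ∈ T, ‖q1 t - mu * q0 t‖ * l t) :
    (‖s‖ ≤ ‖d‖ → ‖Sx‖ ≤ 2 * Λ * (‖Sy - s‖ + ‖S1 - rho * s‖ + ‖Dy - d‖ + ‖D1 + rho * d‖) +
      7 * η * (C * ∑ t ∈ T, ‖q t‖ * l t) + 7 * (1 + Λ) * (τ * (C * ∑ t ∈ T, l t))) ∧
    (‖d‖ ≤ ‖s‖ → ‖Dx‖ ≤ 2 * Λ * (‖Sy - s‖ + ‖S1 - rho * s‖ + ‖Dy - d‖ + ‖D1 + rho * d‖) +
      7 * η * (C * ∑ t ∈ T, ‖q t‖ * l t) + 7 * (1 + Λ) * (τ * (C * ∑ t ∈ T, l t))) := by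
  set A := C * ∑ t ∈ T, ‖q0 t‖ * l t with hA
  set Ax := C * ∑ t ∈ T, ‖q t‖ * l t with hAx
  set E := τ * (C * ∑ t ∈ T, l t) with hE
  have hA0 : 0 ≤ A := mul_nonneg hC (Finset.sum_nonneg fun t ht =>
    mul_nonneg (norm_nonneg _) (hl t ht))
  have hAx0 : 0 ≤ Ax := mul_nonneg hC (Finset.sum_nonneg fun t ht =>
    mul_nonneg (norm_nonneg _) (hl t ht))
  have hE0 : 0 ≤ E := mul_nonneg hτ (mul_nonneg hC (Finset.sum_nonneg hl))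
  -- sums
  have sm : ∀ (f : ι → ℝ) (a b : ℝ) (g : ι → ℝ), (∀ t ∈ T, f t ≤ a * g t + b) →
      C * ∑ t ∈ T, f t * l t ≤ a * (C * ∑ t ∈ T, g t * l t) + b * (C * ∑ t ∈ T, l t) := by
    intro f a b g h
    have e : a * (C * ∑ t ∈ T, g t * l t) + b * (C * ∑ t ∈ T, l t) =
        C * ∑ t ∈ T, (a * g t + b) * l t := by
      have h1 : ∑ t ∈ T, (a * g t + b) * l t = ∑ t ∈ T, (a * (g t * l t) + b * l t) :=
        Finset.sum_congr rfl fun t _ => by ring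
      rw [h1, Finset.sum_add_distrib, ← Finset.mul_sum, ← Finset.mul_sum]
      ring
    rw [e]
    exact mul_le_mul_of_nonneg_left (Finset.sum_le_sum fun t ht =>
      mul_le_mul_of_nonneg_right (h t ht) (hl t ht)) hC
  -- transport errors
  have t1 : C * ∑ t ∈ T, ‖q1 t - mu * q0 t‖ * l t ≤
      ‖mu‖ * (2 * η * A) + (1 + ‖mu‖) * (2 * E) := by
    have h1 := sm (fun t => ‖q1 t - mu * q0 t‖) (2 * η * ‖mu‖) (2 * (τ * (1 + ‖mu‖)))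
      (fun t => ‖q0 t‖) (by
        intro t ht
        have h1 := hq1 t ht
        have h2 : ‖q1 t‖ ≤ ‖mu‖ * ‖q0 t‖ + ‖q1 t - mu * q0 t‖ := by
          have : q1 t = mu * q0 t + (q1 t - mu * q0 t) := by ring
          calc ‖q1 t‖ = ‖mu * q0 t + (q1 t - mu * q0 t)‖ := by rw [← this]
            _ ≤ _ := norm_add_le _ _
            _ = _ := by rw [norm_mul]
        have h3 : η * ‖q1 t‖ ≤ η * (‖mu‖ * ‖q0 t‖ + ‖q1 t - mu * q0 t‖) :=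
          mul_le_mul_of_nonneg_left h2 hη0
        have h4 : η * ‖q1 t - mu * q0 t‖ ≤ 1 / 2 * ‖q1 t - mu * q0 t‖ :=
          mul_le_mul_of_nonneg_right hη1 (norm_nonneg _)
        nlinarith)
    refine h1.trans (le_of_eq ?_)
    rw [hA, hE]; ring
  have t2 : C * ∑ t ∈ T, ‖q t - lam * q0 t‖ * l t ≤ η * Ax + (1 + ‖lam‖) * E := by
    refine (sm (fun t => ‖q t - lam * q0 t‖) η (τ * (1 + ‖lam‖)) (fun t => ‖q t‖) hq).trans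
      (le_of_eq ?_)
    rw [hE]; ring
  have t3 : ‖lam‖ * A ≤ (1 + η) * Ax + (1 + ‖lam‖) * E := by
    have e1 : ‖lam‖ * A = C * ∑ t ∈ T, ‖lam * q0 t‖ * l t := by
      have h1 : ∑ t ∈ T, ‖lam * q0 t‖ * l t = ∑ t ∈ T, ‖lam‖ * (‖q0 t‖ * l t) :=
        Finset.sum_congr rfl fun t _ => by rw [norm_mul]; ring
      rw [h1, ← Finset.mul_sum, hA]; ring
    rw [e1]
    refine (sm (fun t => ‖lam * q0 t‖) (1 + η) (τ * (1 + ‖lam‖)) (fun t => ‖q t‖) ?_).trans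
      (le_of_eq (by rw [hE]; ring))
    intro t ht
    have h1 : lam * q0 t = q t - (q t - lam * q0 t) := by ring
    calc ‖lam * q0 t‖ = ‖q t - (q t - lam * q0 t)‖ := by rw [← h1]
      _ ≤ ‖q t‖ + ‖q t - lam * q0 t‖ := norm_sub_le _ _
      _ ≤ (1 + η) * ‖q t‖ + τ * (1 + ‖lam‖) := by linarith [hq t ht]
  have hmin := min_bound (s := s) (d := d) hrho (hS1.trans t1) (hD1.trans t1)
    (by positivity : 0 ≤ 2 * η * A)
  have n1 := norm_nonneg (Sy - s)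
  have n2 := norm_nonneg (S1 - rho * s)
  have n3 := norm_nonneg (Dy - d)
  have n4 := norm_nonneg (D1 + rho * d)
  constructor
  · intro h
    refine one_side (X0 := Sy) (x := s) (m := min ‖s‖ ‖d‖) (A := A) hη0 hη1 hLam ?_ hmin ?_
      (hS.trans t2) t3 hAx0 hE0
    · rw [min_eq_left h]
    · linarith
  · intro h
    refine one_side (X0 := Dy) (x := d) (m := min ‖s‖ ‖d‖) (A := A) hη0 hη1 hLam ?_ hmin ?_
      (hD.trans t2) t3 hAx0 hE0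
    · rw [min_eq_right h]
    · linarith

end Crest.Agent.R143.B6ax903
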