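import Crest.Agent.R143.Har_315

/-!
# R143, block X (helper315): the van den Berg - Kesten inequality for fair colourings

* `Dis A B β` : `A` and `B` occur on disjoint subsets of `β`
* `bk` : `pr V (Dis A B) ≤ pr V A * pr V B` for increasing `A`, `B`
* `DisN s A β` : the events `A i`, `i ∈ s`, occur on pairwise disjoint subsets of `β`
* `bk_prod` : `pr V (DisN s A) ≤ ∏ i ∈ s, pr V (A i)`
* `bk_pow` : `k` disjoint occurrences
* `bk_mix` : disjoint occurrences of increasing events and, for the other colour, of increasing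
  events of the complement
-/

set_option autoImplicit false

noncomputable section

open scoped Classical

namespace Crest.Agent.R143.BKx315

open Finset
open Crest.Agent.R143.Harx315

variable {α : Type*}

/-- disjoint occurrence of two increasing events -/
def Dis (A B : Finset α → Prop) (β : Finset α) : Prop :=
  ∃ b1 b2 : Finset α, b1 ⊆ β ∧ b2 ⊆ β ∧ Disjoint b1 b2 ∧ A b1 ∧ B b2

variable {V : Finset α} {A B : Finset α → Prop}

lemma Dis.up (V : Finset α) (A B : Finset α → Prop) : Up V (Dis A B) := by
  rintro β β' h _ ⟨b1, b2, h1, h2, h3, h4, h5⟩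
  exact ⟨b1, b2, h1.trans h, h2.trans h, h3, h4, h5⟩

lemma Dis.mono {A' B' : Finset α → Prop} {β : Finset α} (hA : ∀ b, b ⊆ β → A b → A' b)
    (hB : ∀ b, b ⊆ β → B b → B' b) (h : Dis A B β) : Dis A' B' β := by
  obtain ⟨b1, b2, h1, h2, h3, h4, h5⟩ := h
  exact ⟨b1, b2, h1, h2, h3, hA b1 h1 h4, hB b2 h2 h5⟩

lemma Dis.comm {β : Finset α} (h : Dis A B β) : Dis B A β := by
  obtain ⟨b1, b2, h1, h2, h3, h4, h5⟩ := h
  exact ⟨b2, b1, h2, h1, h3.symm, h5, h4⟩

/-- split off one site -/
lemma nb_insert {i : α} (hi : i ∉ V) (A : Finset α → Prop) :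
    nb (insert i V) A = nb V A + nb V (fun β => A (insert i β)) := by
  rw [nb_sum (V := insert i V) (W := {i}) (by simp)]
  have h1 : insert i V \ {i} = V := by
    rw [insert_sdiff_of_mem _ (mem_singleton_self i), sdiff_singleton_eq_erase, erase_eq_of_notMem hi]
  rw [h1]
  have h2 : ({i} : Finset α).powerset = {∅, {i}} := by
    ext x
    rw [mem_powerset, subset_singleton_iff, mem_insert, mem_singleton]
  rw [h2, sum_pair (by simp : (∅ : Finset α) ≠ {i})]
  congr 1
  · apply nb_congr
    intro β _
    rw [union_empty]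
  · apply nb_congr
    intro β _
    rw [union_comm, singleton_union]

/-- the induction on the sites -/
theorem nb_bk (V : Finset α) : ∀ A B : Finset α → Prop, Up V A → Up V B →
    2 ^ V.card * nb V (Dis A B) ≤ nb V A * nb V B := by
  induction V using Finset.induction_on with
  | empty =>
      intro A B _ _
      have h1 : ∀ A : Finset α → Prop, nb (∅ : Finset α) A = if A ∅ then 1 else 0 := by
        intro A
        by_cases h : A ∅
        · rw [if_pos h]
          unfold nb
          rw [card_eq_one]
          refine ⟨∅, ?_⟩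
          ext β
          rw [mem_fil, mem_singleton, subset_empty]
          constructor
          · exact fun h => h.1
          · rintro rfl; exact ⟨rfl, h⟩
        · rw [if_neg h]
          unfold nb
          rw [card_eq_zero]
          ext β
          rw [mem_fil, subset_empty]
          constructor
          · rintro ⟨rfl, h2⟩; exact absurd h2 h
          · intro h2; simp at h2
      rw [h1, h1, h1]
      by_cases hA : A ∅
      · by_cases hB : B ∅
        · simp only [hA, hB, if_true, card_empty, pow_zero, one_mul, mul_one]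
          split_ifs <;> simp
        · have : ¬ Dis A B ∅ := by
            rintro ⟨b1, b2, _, h2, _, _, h5⟩
            rw [subset_empty] at h2
            exact hB (h2 ▸ h5)
          simp [this]
      · have : ¬ Dis A B ∅ := by
          rintro ⟨b1, b2, h1, _, _, h4, _⟩
          rw [subset_empty] at h1
          exact hA (h1 ▸ h4)
        simp [this]
  | insert i V hi ih =>
      intro A B hA hB
      set A1 : Finset α → Prop := fun β => A (insert i β) with hA1
      set B1 : Finset α → Prop := fun β => B (insert i β) with hB1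
      have uA : Up V A := fun β β' h h' => hA β β' h (h'.trans (subset_insert i V))
      have uB : Up V B := fun β β' h h' => hB β β' h (h'.trans (subset_insert i V))
      have uA1 : Up V A1 := fun β β' h h' =>
        hA _ _ (insert_subset_insert i h) (insert_subset_insert i h')
      have uB1 : Up V B1 := fun β β' h h' =>
        hB _ _ (insert_subset_insert i h) (insert_subset_insert i h')
      have hAA1 : ∀ b, b ⊆ V → A b → A1 b := fun b hb h =>
        hA _ _ (subset_insert i b) (insert_subset_insert i hb) h
      have hBB1 : ∀ b, b ⊆ V → B b → B1 b := fun b hb h =>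
        hB _ _ (subset_insert i b) (insert_subset_insert i hb) h
      -- the event with the site `i`
      have hD : ∀ β, β ⊆ V → (Dis A B (insert i β) ↔ Dis A1 B β ∨ Dis A B1 β) := by
        intro β hβ
        have hiβ : i ∉ β := fun h => hi (hβ h)
        constructor
        · rintro ⟨b1, b2, h1, h2, h3, h4, h5⟩
          have e1 : b1.erase i ⊆ β := by
            intro x hx
            rcases mem_insert.1 (h1 (mem_of_mem_erase hx)) with h | h
            · exact absurd h (ne_of_mem_erase hx)
            · exact h
          have e2 : b2.erase i ⊆ β := by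
            intro x hx
            rcases mem_insert.1 (h2 (mem_of_mem_erase hx)) with h | h
            · exact absurd h (ne_of_mem_erase hx)
            · exact h
          have ed : Disjoint (b1.erase i) (b2.erase i) :=
            disjoint_of_subset_left (erase_subset i b1)
              (disjoint_of_subset_right (erase_subset i b2) h3)
          by_cases hi1 : i ∈ b1
          · left
            have hi2 : i ∉ b2 := disjoint_left.1 h3 hi1
            refine ⟨b1.erase i, b2.erase i, e1, e2, ed, ?_, ?_⟩
            · change A (insert i (b1.erase i))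
              rw [insert_erase hi1]; exact h4
            · rw [erase_eq_of_notMem hi2]; exact h5
          · right
            refine ⟨b1.erase i, b2.erase i, e1, e2, ed, ?_, ?_⟩
            · rw [erase_eq_of_notMem hi1]; exact h4
            · change B (insert i (b2.erase i))
              have h6 : b2 ⊆ insert i V := h2.trans (insert_subset_insert i hβ)
              refine hB b2 _ (insert_erase_subset i b2 |>.trans' ?_) ?_ h5
              · exact subset_rfl
              · exact insert_subset (mem_insert_self i V) ((erase_subset i b2).trans h6)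
        · rintro (⟨b1, b2, h1, h2, h3, h4, h5⟩ | ⟨b1, b2, h1, h2, h3, h4, h5⟩)
          · refine ⟨insert i b1, b2, insert_subset_insert i h1, h2.trans (subset_insert i β), ?_,
              h4, h5⟩
            rw [disjoint_insert_left]
            exact ⟨fun h => hiβ (h2 h), h3⟩
          · refine ⟨b1, insert i b2, h1.trans (subset_insert i β), insert_subset_insert i h2, ?_,
              h4, h5⟩
            rw [disjoint_insert_right]
            exact ⟨fun h => hiβ (h1 h), h3⟩
      have e0 : nb (insert i V) (Dis A B) =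
          nb V (Dis A B) + nb V (fun β => Dis A1 B β ∨ Dis A B1 β) := by
        rw [nb_insert hi]
        congr 1
        exact nb_congr hD
      have e1 := nb_insert hi A
      have e2 := nb_insert hi B
      -- the four products
      have p1 := ih A B uA uB
      have p2 := ih A1 B uA1 uB
      have p3 := ih A B1 uA uB1
      have p4 := ih A1 B1 uA1 uB1
      -- inclusion and exclusion
      have c1 : nb V (fun β => Dis A1 B β ∨ Dis A B1 β) + nb V (fun β => Dis A1 B β ∧ Dis A B1 β) =
          nb V (Dis A1 B) + nb V (Dis A B1) := by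
        unfold nb
        rw [fl_or, fl_and]
        exact card_union_add_card_inter _ _
      have c2 : nb V (Dis A B) ≤ nb V (fun β => Dis A1 B β ∧ Dis A B1 β) :=
        nb_mono fun β hβ h => ⟨h.mono (fun b hb => hAA1 b (hb.trans hβ)) (fun _ _ h => h),
          h.mono (fun _ _ h => h) (fun b hb => hBB1 b (hb.trans hβ))⟩
      have c3 : nb V (fun β => Dis A1 B β ∨ Dis A B1 β) ≤ nb V (Dis A1 B1) :=
        nb_mono fun β hβ h => by
          rcases h with h | h
          · exact h.mono (fun _ _ h => h) (fun b hb => hBB1 b (hb.trans hβ))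
          · exact h.mono (fun b hb => hAA1 b (hb.trans hβ)) (fun _ _ h => h)
      have c4 : 2 * (nb V (Dis A B) + nb V (fun β => Dis A1 B β ∨ Dis A B1 β)) ≤
          nb V (Dis A B) + nb V (Dis A1 B) + nb V (Dis A B1) + nb V (Dis A1 B1) := by
        omega
      rw [e0, e1, e2, card_insert_of_notMem hi, pow_succ]
      calc 2 ^ V.card * 2 * (nb V (Dis A B) + nb V (fun β => Dis A1 B β ∨ Dis A B1 β))
          = 2 ^ V.card * (2 * (nb V (Dis A B) + nb V (fun β => Dis A1 B β ∨ Dis A B1 β))) := by
            ring
        _ ≤ 2 ^ V.card * (nb V (Dis A B) + nb V (Dis A1 B) + nb V (Dis A B1) +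
              nb V (Dis A1 B1)) := Nat.mul_le_mul_left _ c4
        _ = 2 ^ V.card * nb V (Dis A B) + 2 ^ V.card * nb V (Dis A1 B) +
              2 ^ V.card * nb V (Dis A B1) + 2 ^ V.card * nb V (Dis A1 B1) := by ring
        _ ≤ nb V A * nb V B + nb V A1 * nb V B + nb V A * nb V B1 + nb V A1 * nb V B1 := by
            gcongr
        _ = (nb V A + nb V A1) * (nb V B + nb V B1) := by ring

/-- **van den Berg - Kesten inequality** -/
theorem bk (hA : Up V A) (hB : Up V B) : pr V (Dis A B) ≤ pr V A * pr V B := by
  have h1 : (2 : ℝ) ^ V.card * nb V (Dis A B) ≤ nb V A * nb V B := by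
    exact_mod_cast nb_bk V A B hA hB
  unfold pr
  have h2 := two_pos' V
  rw [div_mul_div_comm, div_le_div_iff₀ h2 (by positivity)]
  nlinarith

/-! ### several events -/

variable {ι : Type*}

/-- disjoint occurrence of a family of events -/
def DisN (s : Finset ι) (A : ι → Finset α → Prop) (β : Finset α) : Prop :=
  ∃ w : ι → Finset α, (∀ i ∈ s, w i ⊆ β) ∧ (∀ i ∈ s, ∀ j ∈ s, i ≠ j → Disjoint (w i) (w j)) ∧
    ∀ i ∈ s, A i (w i)

lemma DisN.up (V : Finset α) (s : Finset ι) (A : ι → Finset α → Prop) : Up V (DisN s A) := by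
  rintro β β' h _ ⟨w, h1, h2, h3⟩
  exact ⟨w, fun i hi => (h1 i hi).trans h, h2, h3⟩

lemma DisN.insert {s : Finset ι} {i : ι} (hi : i ∉ s) {A : ι → Finset α → Prop} {β : Finset α}
    (h : DisN (insert i s) A β) : Dis (A i) (DisN s A) β := by
  obtain ⟨w, h1, h2, h3⟩ := h
  refine ⟨w i, s.biUnion w, h1 i (mem_insert_self i s), ?_, ?_, h3 i (mem_insert_self i s), w, ?_,
    fun j hj k hk => h2 j (mem_insert_of_mem hj) k (mem_insert_of_mem hk),
    fun j hj => h3 j (mem_insert_of_mem hj)⟩
  · intro x hx
    obtain ⟨j, hj, hx⟩ := mem_biUnion.1 hx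
    exact h1 j (mem_insert_of_mem hj) hx
  · rw [disjoint_biUnion_right]
    intro j hj
    exact h2 i (mem_insert_self i s) j (mem_insert_of_mem hj) (fun e => hi (e ▸ hj))
  · intro j hj
    exact subset_biUnion_of_mem w hj

/-- **BK for several events** -/
theorem bk_prod (s : Finset ι) {A : ι → Finset α → Prop} (h : ∀ i ∈ s, Up V (A i)) :
    pr V (DisN s A) ≤ ∏ i ∈ s, pr V (A i) := by
  induction s using Finset.induction_on with
  | empty => simpa using pr_le_one
  | insert i s hi ih =>
      rw [prod_insert hi]
      have h1 := ih fun j hj => h j (mem_insert_of_mem hj)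
      calc pr V (DisN (insert i s) A) ≤ pr V (Dis (A i) (DisN s A)) :=
            pr_mono fun β _ hβ => hβ.insert hi
        _ ≤ pr V (A i) * pr V (DisN s A) := bk (h i (mem_insert_self i s)) (DisN.up V s A)
        _ ≤ _ := mul_le_mul_of_nonneg_left h1 pr_nonneg

/-- `k` disjoint occurrences of `A` -/
def DisK (k : ℕ) (A : Finset α → Prop) (β : Finset α) : Prop :=
  ∃ w : Fin k → Finset α, (∀ i, w i ⊆ β) ∧ (∀ i j, i ≠ j → Disjoint (w i) (w j)) ∧ ∀ i, A (w i)

lemma DisK.up (V : Finset α) (k : ℕ) (A : Finset α → Prop) : Up V (DisK k A) := by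
  rintro β β' h _ ⟨w, h1, h2, h3⟩
  exact ⟨w, fun i => (h1 i).trans h, h2, h3⟩

lemma DisK.le {k l : ℕ} (hkl : k ≤ l) {A : Finset α → Prop} {β : Finset α} (h : DisK l A β) :
    DisK k A β := by
  obtain ⟨w, h1, h2, h3⟩ := h
  refine ⟨fun i => w (Fin.castLE hkl i), fun i => h1 _, fun i j hij => h2 _ _ ?_, fun i => h3 _⟩
  intro e
  exact hij (Fin.castLE_injective hkl e)

theorem bk_pow (k : ℕ) (hA : Up V A) : pr V (DisK k A) ≤ pr V A ^ k := by
  have h1 := bk_prod (V := V) (Finset.univ : Finset (Fin k)) (A := fun _ => A) (fun _ _ => hA)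
  rw [prod_const, card_univ, Fintype.card_fin] at h1
  refine le_trans (pr_mono ?_) h1
  rintro β _ ⟨w, h1, h2, h3⟩
  exact ⟨w, fun i _ => h1 i, fun i _ j _ => h2 i j, fun i _ => h3 i⟩

/-- the same with an upper bound for the probability -/
theorem bk_pow_le (k : ℕ) (hA : Up V A) {a : ℝ} (h : pr V A ≤ a) : pr V (DisK k A) ≤ a ^ k :=
  (bk_pow k hA).trans (pow_le_pow_left₀ pr_nonneg h k)

/-- **mixed colours** : `k` disjoint occurrences of `A` in `β` and `l` disjoint occurrences of `B`
in the complement of `β` -/
theorem bk_mix (k l : ℕ) (hA : Up V A) (hB : Up V B) :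
    pr V (fun β => DisK k A β ∧ DisK l B (V \ β)) ≤ pr V A ^ k * pr V B ^ l := by
  have h1 := harris_mix (DisK.up V k A) (DisK.up V l B).flip
  rw [pr_flip V (DisK l B)] at h1
  refine h1.trans (mul_le_mul (bk_pow k hA) (bk_pow l hB) pr_nonneg (pow_nonneg pr_nonneg k))

/-! ### given the colours outside -/

/-- the sites of `γ` (fixed colours) may be used by both events -/
lemma Dis.fix {β γ : Finset α} (h : Dis A B (β ∪ γ)) (hA : Up (β ∪ γ) A) (hB : Up (β ∪ γ) B) :
    Dis (fun b => A (b ∪ γ)) (fun b => B (b ∪ γ)) β := by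
  obtain ⟨b1, b2, h1, h2, h3, h4, h5⟩ := h
  have key : ∀ {b : Finset α}, b ⊆ β ∪ γ → b ⊆ b ∩ β ∪ γ := by
    intro b hb x hx
    rcases mem_union.1 (hb hx) with h | h
    · exact mem_union_left _ (mem_inter.2 ⟨hx, h⟩)
    · exact mem_union_right _ h
  exact ⟨b1 ∩ β, b2 ∩ β, inter_subset_right, inter_subset_right,
    disjoint_of_subset_left inter_subset_left (disjoint_of_subset_right inter_subset_left h3),
    hA _ _ (key h1) (union_subset_union_left inter_subset_right) h4,
    hB _ _ (key h2) (union_subset_union_left inter_subset_right) h5⟩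

/-- BK given the colours `γ` of `W` -/
theorem bk_cond {W γ : Finset α} (hγ : γ ⊆ W) (hW : W ⊆ V) (hA : Up V A) (hB : Up V B) :
    pr (V \ W) (fun β => Dis A B (β ∪ γ)) ≤
      pr (V \ W) (fun β => A (β ∪ γ)) * pr (V \ W) (fun β => B (β ∪ γ)) := by
  have hs : ∀ {β : Finset α}, β ⊆ V \ W → β ∪ γ ⊆ V := fun h =>
    union_subset (h.trans sdiff_subset) (hγ.trans hW)
  have u : ∀ {A : Finset α → Prop}, Up V A → Up (V \ W) (fun β => A (β ∪ γ)) :=
    fun {A} hA β β' h h' => hA _ _ (union_subset_union_left h) (hs h')
  refine le_trans (pr_mono ?_) (bk (u hA) (u hB))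
  intro β hβ h
  exact h.fix (fun b b' h1 h2 => hA b b' h1 (h2.trans (hs hβ)))
    (fun b b' h1 h2 => hB b b' h1 (h2.trans (hs hβ)))

/-- `k` disjoint occurrences given the colours `γ` -/
theorem bk_pow_cond {W γ : Finset α} (hγ : γ ⊆ W) (hW : W ⊆ V) (hA : Up V A) (k : ℕ) :
    pr (V \ W) (fun β => DisK k A (β ∪ γ)) ≤ pr (V \ W) (fun β => A (β ∪ γ)) ^ k := by
  have hs : ∀ {β : Finset α}, β ⊆ V \ W → β ∪ γ ⊆ V := fun h =>
    union_subset (h.trans sdiff_subset) (hγ.trans hW)
  have u : Up (V \ W) (fun β => A (β ∪ γ)) :=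
    fun β β' h h' => hA _ _ (union_subset_union_left h) (hs h')
  refine le_trans (pr_mono ?_) (bk_pow k u)
  rintro β hβ ⟨w, h1, h2, h3⟩
  refine ⟨fun i => w i ∩ β, fun i => inter_subset_right, fun i j hij =>
    disjoint_of_subset_left inter_subset_left (disjoint_of_subset_right inter_subset_left
      (h2 i j hij)), fun i => ?_⟩
  refine hA _ _ ?_ (union_subset (inter_subset_right.trans (hβ.trans sdiff_subset))
    (hγ.trans hW)) (h3 i)
  intro x hx
  rcases mem_union.1 (h1 i hx) with h | h
  · exact mem_union_left _ (mem_inter.2 ⟨hx, h⟩)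
  · exact mem_union_right _ h

end Crest.Agent.R143.BKx315
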