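import Crest.Agent.R143.WgtH_445
import Crest.Agent.R143.RingN_765

/-!
# Row 143 (S0194), block H (helper88): the error of the linear law times the number of deep chords

`WD` (445): weight `g = wt B gi go F e`; `N A β ≤ m` where `g ≠ 0`.
* `bnQ` : `b ≥ 0` local on the inner net with `E[gi b] ≤ C E gi` ⟹ majorant of `b (paint A β) * N A β`
  with integral `≤ m C 2 K E g`
* `arith` : `(288 * 16 M √M + 162 t²) C0 s² ≤ C0 (4608 N0 √N0 + 162 t²) √s` if `M s ≤ N0`, `s ≤ 1`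
* **`ring_bn`** : the same for 765's dominating function `BO` of the ring
-/

set_option autoImplicit false

noncomputable section

open scoped Classical

namespace Crest.Agent.R143.BNx88

open MeasureTheory Set Filter Topology
open Crest.ProbabilityR.Voronoi
open Crest.Agent.R143.PP0x831 Crest.Agent.R143.Poisx304 Crest.Agent.R143.Janx304
open Crest.Agent.R143.IndLocx279 Crest.Agent.R143.PWx978 Crest.Agent.R143.Tplx978
open Crest.Agent.R143.Dblx609 Crest.Agent.R143.Dbl2x609 Crest.Agent.R143.HGluex136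
  Crest.Agent.R143.Asm3x414 Crest.Agent.R143.Asm4x414 Crest.Agent.R143.JColx54
open Crest.Agent.R143.WgtHx445
open Crest.Agent.R143.TileRx228 Crest.Agent.R143.PthFx765 Crest.Agent.R143.CorNx765
open Crest.Agent.R143.TplIx204 Crest.Agent.R143.SpVx169 Crest.Agent.R143.SqPx503
  Crest.Agent.R143.RngNx765
open scoped ENNReal ComplexConjugate

section gen

variable {ε : ℝ} {B Ui Uo : Set ℂ} {gi go F e : Cf → ℝ≥0∞} {K : ℝ≥0∞}

/-- **an inner real functional times a bounded function** -/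
theorem bnQ (H : WD ε B Ui Uo gi go F e K) {b : Cf → ℝ} (hbl : LocalOn Ui b) (hbm : FinMeas b)
    {C : ℝ≥0∞} (hb : Ex ε (fun Z => gi Z * ENNReal.ofReal (b Z)) ≤ C * Ex ε gi)
    {N : Finset ℂ → Finset ℂ → ℝ≥0∞} {m : ℝ≥0∞}
    (hN : ∀ᵐ ω ∂sampleLaw, ∀ β ∈ (Ap ε B ω).powerset,
      wt B gi go F e (paint (Ap ε B ω) β) ≠ 0 → N (Ap ε B ω) β ≤ m) :
    ∃ R : Sample → ℝ≥0∞,
      MajQ ε B (wt B gi go F e) (fun A β => ENNReal.ofReal (b (paint A β)) * N A β) R ∧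
      ∫⁻ ω, R ω ∂sampleLaw ≤ m * (C * (2 * K)) * Mg ε B (wt B gi go F e) := by
  have hXl : LocalOn Ui fun Z => ENNReal.ofReal (b Z) := fun Z => by
    show ENNReal.ofReal (b Z) = _
    rw [hbl Z]
  have hXm : FM fun Z => ENNReal.ofReal (b Z) := fun n => (hbm n).ennreal_ofReal
  obtain ⟨h1, h2⟩ := H.transQ_in hXl hXm hb (Ψ := fun A β => ENNReal.ofReal (b (paint A β)))
    fun A β _ _ => le_rfl
  refine ⟨_, (h1.mul m).mono ?_, ?_⟩
  · filter_upwards [hN] with ω h β hβ h0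
    rw [mul_comm]
    exact mul_le_mul_left (h β hβ h0) _
  · rw [lintegral_const_mul'' _ h1.me, mul_assoc]
    exact mul_le_mul_right h2 _

end gen

/-- the rate of the linear law -/
theorem arith {M t : ℕ} {s N0 C0 : ℝ} (hs : 0 < s) (hs1 : s ≤ 1) (hM : M * s ≤ N0)
    (hC0 : 0 ≤ C0) : (288 * 16 * (M * √M) + 162 * (t : ℝ) ^ 2) * (C0 * s ^ 2) ≤
      C0 * (4608 * (N0 * √N0) + 162 * (t : ℝ) ^ 2) * √s := by
  have hM0 : (0 : ℝ) ≤ M := Nat.cast_nonneg _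
  have hN0 : 0 ≤ N0 := le_trans (by positivity) hM
  have q1 : √s * √s = s := Real.mul_self_sqrt hs.le
  have e1 : (M * √M) * s ^ 2 = (M * s) * √(M * s) * √s := by
    rw [Real.sqrt_mul hM0]
    calc (M * √M) * s ^ 2 = M * √M * s * s := by ring
      _ = M * √M * s * (√s * √s) := by rw [q1]
      _ = _ := by ring
  have h1 : (M * s) * √(M * s) * √s ≤ N0 * √N0 * √s := by
    have := Real.sqrt_le_sqrt hM
    have h3 : (M * s) * √(M * s) ≤ N0 * √N0 :=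
      mul_le_mul hM this (Real.sqrt_nonneg _) hN0
    exact mul_le_mul_of_nonneg_right h3 (Real.sqrt_nonneg _)
  have h2 : s ^ 2 ≤ √s := by
    have h3 : √s ≤ 1 := Real.sqrt_le_one.2 hs1
    have h4 := Real.sqrt_nonneg s
    have h5 : s ≤ √s := by nlinarith
    nlinarith
  have h6 : 0 ≤ (t : ℝ) ^ 2 := by positivity
  calc (288 * 16 * (M * √M) + 162 * (t : ℝ) ^ 2) * (C0 * s ^ 2)
      = C0 * (4608 * ((M * √M) * s ^ 2) + 162 * (t : ℝ) ^ 2 * s ^ 2) := by ring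
    _ ≤ C0 * (4608 * (N0 * √N0 * √s) + 162 * (t : ℝ) ^ 2 * √s) := by
        rw [e1]
        gcongr
    _ = _ := by ring

section ring

variable {M : ℕ} {W : ℤ → ℤ × ℤ} {ε : ℝ} {T : Tpl ε (Tn × Bool)} {B Ui Uo : Set ℂ}
  {go F e : Cf → ℝ≥0∞} {K : ℝ≥0∞}

/-- **765's dominating function of the ring times the number of the deep chords** -/
theorem ring_bn {D : DT} [Fintype (ZMod M)] (P : FPath M W)
    (Hs : Std T D.A' D.B' D.h Prod.fst) (b : Bool) (r : ℝ)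
    (hA0 : ∫⁻ ω, T.A (cfg ε ω) ∂sampleLaw ≠ 0) (o : ℤ) {t : ℕ}
    (ht : (Trn M W).card ≤ t) (htM : 3 * t < M) (hM : 10 ≤ M) {C : ℝ} (C0 : 0 ≤ C)
    (hC : ∀ k < M, ∫⁻ ω, gO P Hs b (cfg ε ω) *
      ENNReal.ofReal (‖SV D P r o k (cfg ε ω)‖ ^ 2) ∂sampleLaw ≤
      ENNReal.ofReal C * ∫⁻ ω, gO P Hs b (cfg ε ω) ∂sampleLaw)
    (H : WD ε B Ui Uo (gO P Hs b) go F e K) (hU : Rall D.A' D.B' D.h W ⊆ Ui)
    {N : Finset ℂ → Finset ℂ → ℝ≥0∞} {m : ℝ≥0∞}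
    (hN : ∀ᵐ ω ∂sampleLaw, ∀ β ∈ (Ap ε B ω).powerset,
      wt B (gO P Hs b) go F e (paint (Ap ε B ω) β) ≠ 0 → N (Ap ε B ω) β ≤ m) :
    ∃ R : Sample → ℝ≥0∞, MajQ ε B (wt B (gO P Hs b) go F e)
        (fun A β => ENNReal.ofReal (BO P Hs b r o t C (paint A β)) * N A β) R ∧
      ∫⁻ ω, R ω ∂sampleLaw ≤ m * (ENNReal.ofReal ((288 * 16 * (M * √M) + 162 * (t : ℝ) ^ 2) * C) *
        (2 * K)) * Mg ε B (wt B (gO P Hs b) go F e) := by
  obtain ⟨-, -, h3, h4, h5⟩ := ring_law P Hs b r hA0 o ht htM hM C0 hC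
  exact bnQ H (LocalOn.mono hU h5) h4 h3 hN

/-- the same with `C = C0 s²`, `M s ≤ N0`, `s ≤ 1` : the integral is `O(√s)` relative to `g` -/
theorem ring_bn' {D : DT} [Fintype (ZMod M)] (P : FPath M W)
    (Hs : Std T D.A' D.B' D.h Prod.fst) (b : Bool) (r : ℝ)
    (hA0 : ∫⁻ ω, T.A (cfg ε ω) ∂sampleLaw ≠ 0) (o : ℤ) {t : ℕ}
    (ht : (Trn M W).card ≤ t) (htM : 3 * t < M) (hM : 10 ≤ M) {C0 s N0 : ℝ} (hC0 : 0 ≤ C0)
    (hs : 0 < s) (hs1 : s ≤ 1) (hMs : M * s ≤ N0)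
    (hC : ∀ k < M, ∫⁻ ω, gO P Hs b (cfg ε ω) *
      ENNReal.ofReal (‖SV D P r o k (cfg ε ω)‖ ^ 2) ∂sampleLaw ≤
      ENNReal.ofReal (C0 * s ^ 2) * ∫⁻ ω, gO P Hs b (cfg ε ω) ∂sampleLaw)
    (H : WD ε B Ui Uo (gO P Hs b) go F e K) (hU : Rall D.A' D.B' D.h W ⊆ Ui)
    {N : Finset ℂ → Finset ℂ → ℝ≥0∞} {m : ℝ≥0∞}
    (hN : ∀ᵐ ω ∂sampleLaw, ∀ β ∈ (Ap ε B ω).powerset,
      wt B (gO P Hs b) go F e (paint (Ap ε B ω) β) ≠ 0 → N (Ap ε B ω) β ≤ m) :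
    ∃ R : Sample → ℝ≥0∞, MajQ ε B (wt B (gO P Hs b) go F e)
        (fun A β => ENNReal.ofReal (BO P Hs b r o t (C0 * s ^ 2) (paint A β)) * N A β) R ∧
      ∫⁻ ω, R ω ∂sampleLaw ≤ m * (ENNReal.ofReal (C0 * (4608 * (N0 * √N0) +
        162 * (t : ℝ) ^ 2) * √s) * (2 * K)) * Mg ε B (wt B (gO P Hs b) go F e) := by
  obtain ⟨R, h1, h2⟩ := ring_bn P Hs b r hA0 o ht htM hM (by positivity) hC H hU hN
  refine ⟨R, h1, h2.trans ?_⟩
  refine mul_le_mul_left (mul_le_mul_right (mul_le_mul_left (ENNReal.ofReal_le_ofReal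
    (arith hs hs1 hMs hC0)) _) _) _

end ring

end Crest.Agent.R143.BNx88
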