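import Crest.Agent.R143.StrC_795
import Crest.Agent.R143.O_355

/-!
# Row 143 (S0194), block H, inputs [B] and [N] for the chords of a closed map with a giant cell
(helper197, on `StrC_795`)

`M` closed map with finitely many cells, `A` the giant cell, `Dp` deep cells, `Fd M Dp` deep faces.
`Gc M id A x k n` (355) : `k` is a gap which leaves `A`, first return after `n` steps.
* `ev_of_half` : averages over the colourings with `χ A = 0` = averages over `ev M`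
* `ends_gc` : the ends of a chord
* `close_B` : `∑ x ∈ ev M, ∑ β ∈ 𝒟 x, ‖∑ β a‖ ^ 2 ≤ (∑ ‖a‖ ^ 2) * (θ / (1 - θ) * (s.card * (θ' / (1 - θ')))) * card`
* `count_N` : `∑ x ∈ ev M, (𝒟 x).card ≤ s.card * (θ' / (1 - θ')) * card`
-/

set_option autoImplicit false

noncomputable section

open scoped Classical

namespace Crest.Agent.R143.BNax197

open Crest.Agent.R143.Harx315
open Crest.Agent.R143.Frame1x395 Crest.Agent.R143.Frame2x395 Crest.Agent.R143.Frame3x395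
  Crest.Agent.R143.Frame4x395 Crest.Agent.R143.Frame8x395 Crest.Agent.R143.Frame9x395
  Crest.Agent.R143.NonXx592 Crest.Agent.R143.Coarsex166 Crest.Agent.R143.Coarse2x166
  Crest.Agent.R143.CFramex358 Crest.Agent.R143.Gntx535
  Crest.Agent.R143.Chordx795 Crest.Agent.R143.StrFx795 Crest.Agent.R143.StrDx795
  Crest.Agent.R143.StrCx795 Crest.Agent.R143.Ox355

variable {D C : Type} {M : CMap D C} {A : C} {Dp : Finset C} {x : D → ZMod 2}

/-! ### averages -/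

/-- **averages over the colourings with `χ A = 0`** -/
theorem ev_of_half [Fintype D] [Fintype C] {F : (D → ZMod 2) → ℝ} {B : ℝ}
    (h : ∑ χ : C → ZMod 2, (if χ A = 0 then F (cfg M χ) else 0) ≤
      B * ((Finset.univ.filter fun χ : C → ZMod 2 => χ A = 0).card : ℝ)) :
    ∑ x ∈ ev M, F x ≤ B * ((ev M).card : ℝ) := by
  have key : ∀ G : (D → ZMod 2) → ℝ, ∑ χ : C → ZMod 2, G (cfg M χ) =
      2 * ∑ χ : C → ZMod 2, (if χ A = 0 then G (cfg M χ) else 0) := by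
    intro G
    have e1 : ∑ χ : C → ZMod 2, (if χ A = 0 then G (cfg M χ) else 0) =
        ∑ χ : C → ZMod 2, (if χ A = 0 then 0 else G (cfg M χ)) := by
      rw [← Equiv.sum_comp (Equiv.addRight (fun _ : C => (1 : ZMod 2)))]
      refine Finset.sum_congr rfl fun χ _ => ?_
      have e2 : cfg M ((Equiv.addRight fun _ : C => (1 : ZMod 2)) χ) = cfg M χ :=
        CFramex358.cfg_flip χ
      have e3 : ((Equiv.addRight fun _ : C => (1 : ZMod 2)) χ) A = χ A + 1 := rfl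
      rw [e2, e3]
      have e4 : χ A + 1 = 0 ↔ ¬ χ A = 0 := by
        generalize χ A = u
        revert u; decide
      by_cases h0 : χ A = 0
      · rw [if_pos h0, if_neg (fun h => (e4.1 h) h0)]
      · rw [if_neg h0, if_pos (e4.2 h0)]
    have e2 : ∑ χ : C → ZMod 2, G (cfg M χ) =
        ∑ χ : C → ZMod 2, (if χ A = 0 then G (cfg M χ) else 0) +
        ∑ χ : C → ZMod 2, (if χ A = 0 then 0 else G (cfg M χ)) := by
      rw [← Finset.sum_add_distrib]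
      refine Finset.sum_congr rfl fun χ _ => ?_
      split_ifs <;> simp
    rw [e2, ← e1, two_mul]
  have h1 := key F
  have h2 := key fun _ => 1
  rw [sum_cfg] at h1
  have h2' := sum_cfg (M := M) (A := ℝ) fun _ => (1 : ℝ)
  have h3 : ∑ χ : C → ZMod 2, (if χ A = 0 then (1 : ℝ) else 0) =
      ((Finset.univ.filter fun χ : C → ZMod 2 => χ A = 0).card : ℝ) := by
    rw [Finset.sum_boole]
  rw [h2', h3, Finset.sum_const, nsmul_eq_mul, nsmul_eq_mul, mul_one] at h2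
  rw [nsmul_eq_mul] at h1
  have h4 : 0 < (nK M : ℝ) := by
    have : 0 < nK M := by
      unfold nK
      refine Finset.card_pos.2 ⟨fun _ => 0, Finset.mem_filter.2 ⟨Finset.mem_univ _, ?_⟩⟩
      funext d
      show (0 : ZMod 2) + 0 = 0
      decide
    exact_mod_cast this
  have h5 : (nK M : ℝ) * ∑ x ∈ ev M, F x ≤ (nK M : ℝ) * (B * ((ev M).card : ℝ)) := by
    rw [h1]
    calc _ ≤ 2 * (B * ((Finset.univ.filter fun χ : C → ZMod 2 => χ A = 0).card : ℝ)) := by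
          linarith
      _ = B * (2 * ((Finset.univ.filter fun χ : C → ZMod 2 => χ A = 0).card : ℝ)) := by ring
      _ = _ := by rw [← h2]; ring
  exact le_of_mul_le_mul_left h5 h4

/-! ### the ends -/

theorem gp0_rho (k : D) : gp0 M (M.rho k) = k := M.rho3 k

/-- the ends of a chord -/
theorem ends_gc [Finite D] (hx : IsC M ∅ x) {k : D} {n : ℕ} (H : Gc M (id : C → C) A x k n) :
    Ends M A x (M.rho k) (M.iota (P M x (M.rho k) n)) := by
  have hP : ∀ t, P M x (M.rho k) (t + 1) = P M x (out M k) t := by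
    intro t
    have := P_gp0 (p := M.rho k) hx (by rw [gp0_rho]; exact H.gp) t
    rwa [gp0_rho] at this
  obtain ⟨m, rfl⟩ : ∃ m, n = m + 1 := ⟨n - 1, by have := H.pos; omega⟩
  refine ⟨by rw [gp0_rho]; exact H.gp, ?_⟩
  obtain ⟨N, T, hC⟩ := exists_cho (π := (id : C → C)) (A := A) hx H.gp H.c0
  rw [gp0_rho, M.iota2, hC.tR_eq, hP]
  have h1 : T = m := by
    have hr := hC.ret
    rcases lt_trichotomy T m with h | h | h
    · exfalso
      refine H.int (T + 1) (Nat.succ_pos _) (by omega) ?_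
      rw [hP]
      exact hr
    · exact h
    · exfalso
      refine hC.off m h ?_
      have := H.c1
      rw [hP] at this
      exact this
  rw [h1]

variable [Fintype D]

/-- the block of the start gap -/
theorem blk_start {β : Finset D} (hx : x ∈ ev M) (hβ : β ∈ blks M x) {k : D} (hk : k ∈ β) :
    β = blk M x (gp0 M (M.rho k)) := by
  rw [gp0_rho]
  exact (mem_blks (mem_ev.1 hx) hβ hk).2

/-- **[B]** -/
theorem close_B [Fintype C] {w : ℂ} (w3 : w ^ 3 = 1) (w1 : w ≠ 1)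
    (wc : (starRingEnd ℂ) w = w ^ 2) {a : D → ℂ} (hs : Spin M w a)
    (ha : ∀ d, a d ≠ 0 → d ∈ Fd M Dp)
    (hD : ∀ c ∈ Dp, ∀ c' ∈ Dp, Relation.EqvGen (AdjS M Dp) c c')
    (hKA : ∀ d ∈ Kd M (Fd M Dp), M.cell d ≠ A) {Ps : Finset D}
    (hP : ∀ p ∈ Ps, M.cell p = A) {Q : D → Finset D}
    (hQ : ∀ p ∈ Ps, ∀ q ∈ Q p, M.cell (M.rho q) = A) {θ : ℝ} (t0 : 0 ≤ θ) (t1 : θ < 1)
    (hθ : ∀ p ∈ Ps, ∀ V : Finset C, A ∉ V → pr V (ArmC M (NrD M (Q p)) (FrD M Dp)) ≤ θ)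
    {I : Type} (s : Finset I) {Arm : I → Finset C → Prop}
    (hU : ∀ i ∈ s, Up Finset.univ (Arm i))
    (hcov : ∀ K : Finset C, ArmC M (NrD M Ps) (FrD M Dp) K → ∃ i ∈ s, Arm i K)
    {θ' : ℝ} (t0' : 0 ≤ θ') (t1' : θ' < 1)
    (hθ' : ∀ i ∈ s, ∀ V : Finset C, A ∉ V → pr V (Arm i) ≤ θ')
    {𝒟 : (D → ZMod 2) → Finset (Finset D)}
    (h𝒟 : ∀ x ∈ ev M, ∀ β ∈ 𝒟 x, β ∈ blks M x)
    (hst : ∀ x ∈ ev M, ∀ β ∈ 𝒟 x, (∃ g ∈ β, g ∈ Fd M Dp) → ∃ k ∈ β, ∃ n,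
      Gc M (id : C → C) A x k n ∧ M.rho k ∈ Ps ∧ M.iota (P M x (M.rho k) n) ∈ Q (M.rho k)) :
    ∑ x ∈ ev M, ∑ β ∈ 𝒟 x, ‖∑ g ∈ β, a g‖ ^ 2 ≤
      (∑ g, ‖a g‖ ^ 2) * (θ / (1 - θ) * (s.card * (θ' / (1 - θ')))) * ((ev M).card : ℝ) := by
  refine ev_of_half (A := A) ?_
  refine le_trans ?_ (close_chords w3 w1 wc hs ha hD hKA hP hQ t0 t1 hθ s hU hcov t0' t1' hθ')
  have e1 : ∑ p ∈ Ps, ∑ q ∈ Q p, ∑ χ : C → ZMod 2, (if χ A = 0 ∧ Ends M A (cfg M χ) p q then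
        ‖∑ g ∈ blk M (cfg M χ) (gp0 M p), a g‖ ^ 2 else 0) =
      ∑ χ : C → ZMod 2, ∑ p ∈ Ps, ∑ q ∈ Q p, (if χ A = 0 ∧ Ends M A (cfg M χ) p q then
        ‖∑ g ∈ blk M (cfg M χ) (gp0 M p), a g‖ ^ 2 else 0) := by
    rw [Finset.sum_comm]
    exact Finset.sum_congr rfl fun p _ => Finset.sum_comm.symm
  rw [e1]
  refine Finset.sum_le_sum fun χ _ => ?_
  by_cases hA : χ A = 0
  swap
  · rw [if_neg hA]
    refine Finset.sum_nonneg fun p _ => Finset.sum_nonneg fun q _ => ?_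
    split_ifs <;> positivity
  rw [if_pos hA]
  set x := cfg M χ with hxd
  have hx : x ∈ ev M := mem_ev.2 (cfg_isC χ)
  set f : Finset D → ℝ := fun β => ‖∑ g ∈ β, a g‖ ^ 2 with hf
  set h : D × D → ℝ := fun r => if χ A = 0 ∧ Ends M A x r.1 r.2 then
    ‖∑ g ∈ blk M x (gp0 M r.1), a g‖ ^ 2 else 0 with hh
  have h0 : ∀ r, 0 ≤ h r := fun r => by
    simp only [hh]
    split_ifs <;> positivity
  -- the chords with a deep gap
  set 𝒟' := (𝒟 x).filter fun β => ∃ g ∈ β, g ∈ Fd M Dp with h𝒟'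
  have e2 : ∑ β ∈ 𝒟 x, f β = ∑ β ∈ 𝒟', f β := by
    rw [h𝒟', Finset.sum_filter]
    refine Finset.sum_congr rfl fun β _ => ?_
    split_ifs with hd
    · rfl
    · simp only [hf]
      rw [Finset.sum_eq_zero fun g hg => ?_]
      · norm_num
      · by_contra hne
        exact hd ⟨g, hg, ha g hne⟩
  have hch : ∀ β ∈ 𝒟', ∃ r : D × D, r.1 ∈ Ps ∧ r.2 ∈ Q r.1 ∧ Ends M A x r.1 r.2 ∧
      β = blk M x (gp0 M r.1) := by
    intro β hβ
    obtain ⟨h1, h2⟩ := Finset.mem_filter.1 hβ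
    obtain ⟨k, hk, n, h3, h4, h5⟩ := hst x hx β h1 h2
    exact ⟨(M.rho k, M.iota (P M x (M.rho k) n)), h4, h5, ends_gc (mem_ev.1 hx) h3,
      blk_start hx (h𝒟 x hx β h1) hk⟩
  rcases isEmpty_or_nonempty D with hE | hN
  · have e5 : 𝒟' = ∅ := by
      refine Finset.eq_empty_of_forall_notMem fun β hβ => ?_
      obtain ⟨g, -, -⟩ := (Finset.mem_filter.1 hβ).2
      exact isEmptyElim g
    show ∑ β ∈ 𝒟 x, f β ≤ _
    rw [e2, e5, Finset.sum_empty]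
    exact Finset.sum_nonneg fun p _ => Finset.sum_nonneg fun q _ => h0 (p, q)
  choose! φ hφ1 hφ2 hφ3 hφ4 using hch
  have e3 : ∑ β ∈ 𝒟', f β = ∑ r ∈ 𝒟'.image φ, h r := by
    rw [Finset.sum_image]
    · refine Finset.sum_congr rfl fun β hβ => ?_
      simp only [hh, hf]
      rw [if_pos ⟨hA, hφ3 β hβ⟩, ← hφ4 β hβ]
    · intro β hβ β' hβ' e
      rw [hφ4 β hβ, hφ4 β' hβ', e]
  have e4 : ∑ p ∈ Ps, ∑ q ∈ Q p, (if χ A = 0 ∧ Ends M A x p q then
      ‖∑ g ∈ blk M x (gp0 M p), a g‖ ^ 2 else 0) =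
      ∑ r ∈ Ps.biUnion (fun p => (Q p).image fun q => (p, q)), h r := by
    rw [Finset.sum_biUnion]
    · refine Finset.sum_congr rfl fun p _ => ?_
      rw [Finset.sum_image]
      intro q _ q' _ e
      exact (Prod.ext_iff.1 e).2
    · intro p _ p' _ hne
      rw [Function.onFun, Finset.disjoint_left]
      intro r hr hr'
      obtain ⟨q, -, rfl⟩ := Finset.mem_image.1 hr
      obtain ⟨q', -, e⟩ := Finset.mem_image.1 hr'
      exact hne (Prod.ext_iff.1 e).1.symm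
  show ∑ β ∈ 𝒟 x, f β ≤ _
  rw [e2, e3, e4]
  refine Finset.sum_le_sum_of_subset_of_nonneg ?_ fun r _ _ => h0 r
  intro r hr
  obtain ⟨β, hβ, rfl⟩ := Finset.mem_image.1 hr
  exact Finset.mem_biUnion.2 ⟨(φ β).1, hφ1 β hβ, Finset.mem_image.2 ⟨(φ β).2, hφ2 β hβ, rfl⟩⟩

/-- **[N]** -/
theorem count_N [Fintype C]
    (hD : ∀ c ∈ Dp, ∀ c' ∈ Dp, Relation.EqvGen (AdjS M Dp) c c')
    (hKA : ∀ d ∈ Kd M (Fd M Dp), M.cell d ≠ A) {Ps : Finset D}
    (hP : ∀ p ∈ Ps, M.cell p = A) {I : Type} (s : Finset I) {Arm : I → Finset C → Prop}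
    (hU : ∀ i ∈ s, Up Finset.univ (Arm i))
    (hcov : ∀ K : Finset C, ArmC M (NrD M Ps) (FrD M Dp) K → ∃ i ∈ s, Arm i K)
    {θ' : ℝ} (t0' : 0 ≤ θ') (t1' : θ' < 1)
    (hθ' : ∀ i ∈ s, ∀ V : Finset C, A ∉ V → pr V (Arm i) ≤ θ')
    {𝒟 : (D → ZMod 2) → Finset (Finset D)}
    (h𝒟 : ∀ x ∈ ev M, ∀ β ∈ 𝒟 x, β ∈ blks M x)
    (hst : ∀ x ∈ ev M, ∀ β ∈ 𝒟 x, (∃ g ∈ β, g ∈ Fd M Dp) ∧ ∃ k ∈ β, ∃ n,
      Gc M (id : C → C) A x k n ∧ M.rho k ∈ Ps) :
    ∑ x ∈ ev M, ((𝒟 x).card : ℝ) ≤ s.card * (θ' / (1 - θ')) * ((ev M).card : ℝ) := by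
  refine ev_of_half (A := A) ?_
  refine le_trans ?_ (fwd_count hD hKA hP s hU hcov t0' t1' hθ')
  have e1 : ∑ p ∈ Ps, ((Finset.univ.filter (Fw M A (Fd M Dp) p)).card : ℝ) =
      ∑ χ : C → ZMod 2, ((Ps.filter fun p => Fw M A (Fd M Dp) p χ).card : ℝ) := by
    calc ∑ p ∈ Ps, ((Finset.univ.filter (Fw M A (Fd M Dp) p)).card : ℝ)
        = ∑ p ∈ Ps, ∑ χ : C → ZMod 2, (if Fw M A (Fd M Dp) p χ then (1 : ℝ) else 0) := by
          refine Finset.sum_congr rfl fun p _ => ?_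
          rw [Finset.sum_boole]
      _ = ∑ χ : C → ZMod 2, ∑ p ∈ Ps, (if Fw M A (Fd M Dp) p χ then (1 : ℝ) else 0) :=
          Finset.sum_comm
      _ = _ := by
          refine Finset.sum_congr rfl fun χ _ => ?_
          rw [Finset.sum_boole]
  rw [e1]
  refine Finset.sum_le_sum fun χ _ => ?_
  by_cases hA : χ A = 0
  swap
  · rw [if_neg hA]
    positivity
  rw [if_pos hA]
  set x := cfg M χ with hxd
  have hx : x ∈ ev M := mem_ev.2 (cfg_isC χ)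
  have hch : ∀ β ∈ 𝒟 x, ∃ p ∈ Ps, Fw M A (Fd M Dp) p χ ∧ β = blk M x (gp0 M p) := by
    intro β hβ
    obtain ⟨⟨g, hg, hgF⟩, k, hk, n, h3, h4⟩ := hst x hx β hβ
    have h5 := blk_start hx (h𝒟 x hx β hβ) hk
    refine ⟨M.rho k, h4, ?_, h5⟩
    have h6 := ends_gc (mem_ev.1 hx) h3
    exact (Wp_iff.1 (Wp_of fd_inv hKA (hP _ h4) hA h6 (by rw [← hxd, ← h5]; exact hg) hgF)).1
  rcases isEmpty_or_nonempty D with hE | hN
  · have e5 : 𝒟 x = ∅ := by
      refine Finset.eq_empty_of_forall_notMem fun β hβ => ?_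
      obtain ⟨p, -⟩ := hch β hβ
      exact isEmptyElim p
    rw [e5, Finset.card_empty, Nat.cast_zero]
    exact Nat.cast_nonneg _
  choose! φ hφ1 hφ2 hφ3 using hch
  have := Finset.card_le_card_of_injOn (s := 𝒟 x)
    (t := Ps.filter fun p => Fw M A (Fd M Dp) p χ) φ
    (fun β hβ => Finset.mem_coe.2 (Finset.mem_filter.2 ⟨hφ1 β hβ, hφ2 β hβ⟩))
    (fun β hβ β' hβ' e => by rw [hφ3 β hβ, hφ3 β' hβ', e])
  exact_mod_cast this

end Crest.Agent.R143.BNax197
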