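import Crest.Agent.R143.DicB_831
import Crest.Agent.R143.B1h_991
import Crest.Agent.R143.B6C_654
import Crest.Agent.R143.DomA_722

/-!
# Row 143 (S0194), dichotomy without part A, 3 (helper831): from the observable to `∑ Q e φ`

* `phi_lip` : the mollifier is Lipschitz
* `cc_inT` : the centre of gravity is in the triangle
* `approx` : `∑ Q w seg φ = ∑ Q w φ(cc) + O(d)` (frame + Cauchy-Schwarz)
* `sq_bound` : the sum of the squares of the sides near a point is bounded (M4)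
-/

set_option autoImplicit false

noncomputable section

open scoped Classical

namespace Crest.Agent.R143.DicCx831

open Complex Set Filter Topology MeasureTheory
open Crest.ProbabilityR.Voronoi
open Crest.Agent.R143.B0x346 Crest.Agent.R143.B0Dx346 Crest.Agent.R143.PP1x831
open Crest.Agent.R143.BC0x336 Crest.Agent.R143.Mollx887
open Crest.Agent.R143.DelGx806 Crest.Agent.R143.B1gx991
open Crest.Agent.R143.Y0x831 (Good)
open Crest.Agent.R143.B1bx796 (touch Stk phi phi_zero seg seg_off)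
open Crest.Agent.R143.Locx922
open Crest.Agent.R143.DicBx831

variable {F : Finset ℂ} {N : Net ℂ} {d r : ℝ} {z₀ : ℂ}

/-- the mollifier is Lipschitz -/
theorem phi_lip (hr : 0 < r) (z₀ : ℂ) :
    ∃ L : ℝ, 0 ≤ L ∧ ∀ x y, ‖phi r z₀ x - phi r z₀ y‖ ≤ L * ‖x - y‖ := by
  have h1 : ContDiff ℝ 1 (phi r z₀) := B1bx796.phi_contDiff r z₀ (n := 1)
  have h2 : HasCompactSupport (phi r z₀) := by
    refine HasCompactSupport.of_support_subset_isCompact (isCompact_closedBall z₀ r) ?_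
    intro w hw
    rw [Function.mem_support] at hw
    rw [Metric.mem_closedBall, dist_eq_norm]
    by_contra hcon
    push Not at hcon
    exact hw (phi_zero hr hcon.le)
  obtain ⟨K, hK⟩ := h1.lipschitzWith_of_hasCompactSupport h2 one_ne_zero
  refine ⟨K, K.2, fun x y => ?_⟩
  have := hK.dist_le_mul x y
  rwa [dist_eq_norm, dist_eq_norm] at this

/-- the centre of gravity is in the triangle -/
theorem cc_inT {a b c : ℂ} (hp : 0 < cr (b - a) (c - a)) : InT (cc (a, b, c)) a b c := by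
  have e1 : cr (b - a) (cc (a, b, c) - a) = cr (b - a) (c - a) / 3 := by
    simp only [cc, cr, Complex.sub_re, Complex.sub_im, Complex.div_ofNat_re, Complex.div_ofNat_im,
      Complex.add_re, Complex.add_im]
    ring
  have e2 : cr (c - b) (cc (a, b, c) - b) = cr (b - a) (c - a) / 3 := by
    simp only [cc, cr, Complex.sub_re, Complex.sub_im, Complex.div_ofNat_re, Complex.div_ofNat_im,
      Complex.add_re, Complex.add_im]
    ring
  have e3 : cr (a - c) (cc (a, b, c) - c) = cr (b - a) (c - a) / 3 := by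
    simp only [cc, cr, Complex.sub_re, Complex.sub_im, Complex.div_ofNat_re, Complex.div_ofNat_im,
      Complex.add_re, Complex.add_im]
    ring
  refine ⟨?_, ?_, ?_⟩
  · rw [e1]; positivity
  · rw [e2]; positivity
  · rw [e3]; positivity

/-- the vertices are near every point of the triangle in the ball -/
theorem near_pt {R : ℝ} (hd : 0 < d) (hH : Hol (F : Set ℂ) (Metric.closedBall z₀ R) d)
    {t : ℂ × ℂ × ℂ} (ht : t ∈ delT F) {x : ℂ} (hx : InT x t.1 t.2.1 t.2.2) (hxR : ‖x - z₀‖ ≤ R) :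
    ‖t.1 - x‖ < 2 * d ∧ ‖t.2.1 - x‖ < 2 * d ∧ ‖t.2.2 - x‖ < 2 * d := by
  have hxW : x ∈ Metric.closedBall z₀ R := by
    rw [Metric.mem_closedBall, dist_eq_norm]; exact hxR
  have hD : Del (F : Set ℂ) t.1 t.2.1 t.2.2 := DelGx806.mem_delT.1 ht
  obtain ⟨o, -, -, -, -, -, ga, gb, gc⟩ := del_small hd hH hxW (InT.inD (tri_pos ht) hx) hD
  exact ⟨ga, gb, gc⟩

theorem cc_near {x : ℂ} {t : ℂ × ℂ × ℂ} (h1 : ‖t.1 - x‖ < 2 * d) (h2 : ‖t.2.1 - x‖ < 2 * d)
    (h3 : ‖t.2.2 - x‖ < 2 * d) : ‖cc t - x‖ ≤ 2 * d := by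
  have e : cc t - x = ((t.1 - x) + (t.2.1 - x) + (t.2.2 - x)) / 3 := by
    unfold cc
    ring
  have h4 := norm_add₃_le (a := t.1 - x) (b := t.2.1 - x) (c := t.2.2 - x)
  have h5 : ‖(3 : ℂ)‖ = 3 := by simp
  rw [e, norm_div, h5, div_le_iff₀ (by norm_num)]
  linarith

/-- the two ways to evaluate the mollifier -/
theorem seg_cc {L : ℝ} (hL0 : 0 ≤ L) (hL : ∀ x y, ‖phi r z₀ x - phi r z₀ y‖ ≤ L * ‖x - y‖)
    {x : ℂ} {t : ℂ × ℂ × ℂ} (h1 : ‖t.1 - x‖ < 2 * d) (h2 : ‖t.2.1 - x‖ < 2 * d)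
    (h3 : ‖t.2.2 - x‖ < 2 * d) :
    ‖seg (phi r z₀) t.1 t.2.1 - phi r z₀ (cc t)‖ ≤ L * (4 * d) := by
  have hcc := cc_near h1 h2 h3
  have hc : Continuous (phi r z₀) := (B1bx796.phi_contDiff r z₀ (n := 0)).continuous
  have e : seg (phi r z₀) t.1 t.2.1 - phi r z₀ (cc t) =
      ∫ s in (0 : ℝ)..1, (phi r z₀ (t.1 + s * (t.2.1 - t.1)) - phi r z₀ (cc t)) := by
    rw [intervalIntegral.integral_sub]
    · unfold B1bx796.seg
      simp
    · exact (hc.comp (by fun_prop)).intervalIntegrable _ _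
    · exact continuous_const.intervalIntegrable _ _
  rw [e]
  have := intervalIntegral.norm_integral_le_of_norm_le_const (a := (0 : ℝ)) (b := 1)
    (C := L * (4 * d))
    (f := fun s : ℝ => phi r z₀ (t.1 + s * (t.2.1 - t.1)) - phi r z₀ (cc t)) ?_
  · simpa using this
  · intro s hs
    rw [uIoc_of_le zero_le_one] at hs
    refine (hL _ _).trans (mul_le_mul_of_nonneg_left ?_ hL0)
    have e1 : t.1 + s * (t.2.1 - t.1) - x = (1 - s : ℂ) * (t.1 - x) + s * (t.2.1 - x) := by ring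
    have e2 : ‖t.1 + s * (t.2.1 - t.1) - x‖ ≤ 2 * d := by
      rw [e1]
      refine (norm_add_le _ _).trans ?_
      rw [norm_mul, norm_mul]
      have n1 : ‖(1 - s : ℂ)‖ = 1 - s := by
        rw [← Complex.ofReal_one, ← Complex.ofReal_sub, Complex.norm_real,
          Real.norm_of_nonneg (by linarith [hs.2])]
      have n2 : ‖(s : ℂ)‖ = s := by
        rw [Complex.norm_real, Real.norm_of_nonneg hs.1.le]
      rw [n1, n2]
      have h01 : 0 ≤ 1 - s := by linarith [hs.2]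
      nlinarith [hs.1, hs.2]
    have e3 := norm_tri (t.1 + s * (t.2.1 - t.1)) x (cc t)
    rw [norm_sub_rev x (cc t)] at e3
    linarith

/-- **the sums of the Stokes identities**, evaluated at the centres of gravity -/
theorem approx (hN : HNet F N) (hd : 0 < d) (hr : 0 < r) (hdr : 2 * d ≤ r)
    (hH : Hol (F : Set ℂ) (Metric.closedBall z₀ (2 * r)) d) {L : ℝ} (hL0 : 0 ≤ L)
    (hL : ∀ x y, ‖phi r z₀ x - phi r z₀ y‖ ≤ L * ‖x - y‖) (w : ℂ × ℂ × ℂ → ℂ)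
    (hw : ∀ t, ‖w t‖ ≤ ‖t.2.1 - t.1‖) {V : ℝ}
    (hV : ∑ t ∈ touch z₀ (2 * r) F, ‖t.2.1 - t.1‖ ^ 2 ≤ V) :
    ‖∑ t ∈ delT F, N.Q t * w t * seg (phi r z₀) t.1 t.2.1 -
      ∑ t ∈ delT F, N.Q t * (w t * phi r z₀ (cc t))‖ ≤ L * (4 * d) * (2 * Real.sqrt V) := by
  rw [← Finset.sum_sub_distrib]
  have hsub : touch z₀ (2 * r) F ⊆ delT F := Finset.filter_subset _ _
  have hzero : ∀ t ∈ delT F, t ∉ touch z₀ (2 * r) F →
      N.Q t * w t * seg (phi r z₀) t.1 t.2.1 - N.Q t * (w t * phi r z₀ (cc t)) = 0 := by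
    intro t ht hnt
    have h1 : seg (phi r z₀) t.1 t.2.1 = 0 := by
      refine seg_off hr ?_
      rintro ⟨x, hx, hxr⟩
      exact hnt (Finset.mem_filter.2 ⟨ht, x, hx, by linarith⟩)
    have h2 : phi r z₀ (cc t) = 0 := by
      refine phi_zero hr ?_
      by_contra hcon
      push Not at hcon
      have h3 := (near_pt hd hH ht (cc_inT (tri_pos ht)) (by
        show ‖cc t - z₀‖ ≤ 2 * r
        linarith)).1
      have h4 := norm_tri t.1 (cc t) z₀
      refine hnt (Finset.mem_filter.2 ⟨ht, t.1, left_mem_segment ℝ _ _, ?_⟩)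
      have h5 : ‖t.1 - cc t‖ < 2 * d := h3
      linarith
    rw [h1, h2]
    ring
  rw [← Finset.sum_subset hsub hzero]
  have hone : ∀ t ∈ touch z₀ (2 * r) F,
      ‖N.Q t * w t * seg (phi r z₀) t.1 t.2.1 - N.Q t * (w t * phi r z₀ (cc t))‖ ≤
        L * (4 * d) * (‖N.Q t‖ * ‖t.2.1 - t.1‖) := by
    intro t ht
    obtain ⟨htT, x, hx, hxr⟩ := Finset.mem_filter.1 ht
    obtain ⟨h1, h2, h3⟩ := near_pt hd hH htT (side_inT (tri_pos htT) hx) hxr.le
    have h4 := seg_cc hL0 hL h1 h2 h3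
    have e : N.Q t * w t * seg (phi r z₀) t.1 t.2.1 - N.Q t * (w t * phi r z₀ (cc t)) =
        N.Q t * (w t * (seg (phi r z₀) t.1 t.2.1 - phi r z₀ (cc t))) := by ring
    rw [e, norm_mul, norm_mul]
    have h5 := hw t
    have h6 : ‖w t‖ * ‖seg (phi r z₀) t.1 t.2.1 - phi r z₀ (cc t)‖ ≤
        ‖t.2.1 - t.1‖ * (L * (4 * d)) := mul_le_mul h5 h4 (norm_nonneg _) (norm_nonneg _)
    calc ‖N.Q t‖ * (‖w t‖ * ‖seg (phi r z₀) t.1 t.2.1 - phi r z₀ (cc t)‖)
        ≤ ‖N.Q t‖ * (‖t.2.1 - t.1‖ * (L * (4 * d))) :=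
          mul_le_mul_of_nonneg_left h6 (norm_nonneg _)
      _ = _ := by ring
  refine (norm_sum_le _ _).trans ((Finset.sum_le_sum hone).trans ?_)
  rw [← Finset.mul_sum]
  refine mul_le_mul_of_nonneg_left ?_ (by positivity)
  have h7 := Real.sum_mul_le_sqrt_mul_sqrt (touch z₀ (2 * r) F) (fun t => ‖N.Q t‖)
    (fun t => ‖t.2.1 - t.1‖)
  refine h7.trans (mul_le_mul ?_ (Real.sqrt_le_sqrt hV) (Real.sqrt_nonneg _) (by norm_num))
  have h8 := Frame7x395.frame3 hN hsub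
  rw [Real.sqrt_le_left (by norm_num)]
  linarith

/-! ### bounded energy of the mesh -/

theorem sum_biUnion_le {ι κ : Type*} [DecidableEq κ] (T : Finset ι) (f : ι → Finset κ) (g : κ → ℝ)
    (hg : ∀ k, 0 ≤ g k) : ∑ k ∈ T.biUnion f, g k ≤ ∑ i ∈ T, ∑ k ∈ f i, g k := by
  induction T using Finset.induction_on with
  | empty => simp
  | insert a T ha ih =>
      rw [Finset.biUnion_insert, Finset.sum_insert ha]
      have h1 : ∑ k ∈ f a ∪ T.biUnion f, g k + ∑ k ∈ f a ∩ T.biUnion f, g k =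
        ∑ k ∈ f a, g k + ∑ k ∈ T.biUnion f, g k := Finset.sum_union_inter
      have h2 : 0 ≤ ∑ k ∈ f a ∩ T.biUnion f, g k := Finset.sum_nonneg fun k _ => hg k
      linarith

theorem ev_unit : ∀ᶠ ε : ℝ in 𝓝[>] 0, 0 < ε ∧ ε < 1 := by
  have h3 : Set.Ioo (0 : ℝ) 1 ∈ 𝓝[>] (0 : ℝ) := Ioo_mem_nhdsGT (by norm_num)
  filter_upwards [h3] with ε hε using hε

theorem log_small (a : ℝ) : Tendsto (fun ε : ℝ => ε * Real.log (1 / ε) ^ a) (𝓝[>] 0) (𝓝 0) := by
  have h1 := (isLittleO_abs_log_rpow_rpow_nhdsGT_zero (s := -1) a (by norm_num))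
  rw [Asymptotics.isLittleO_iff] at h1
  rw [Metric.tendsto_nhds]
  intro e he
  filter_upwards [h1 (show (0 : ℝ) < e / 2 by linarith), ev_unit] with ε h2 h4
  have h5 : Real.log (1 / ε) = |Real.log ε| := by
    rw [one_div, Real.log_inv, abs_of_neg (Real.log_neg h4.1 h4.2)]
  rw [Real.norm_eq_abs, Real.norm_eq_abs, abs_of_nonneg (Real.rpow_nonneg (abs_nonneg _) _),
    Real.rpow_neg_one, abs_of_nonneg (inv_nonneg.2 h4.1.le)] at h2
  rw [dist_zero_right, h5, Real.norm_of_nonneg (mul_nonneg h4.1.le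
    (Real.rpow_nonneg (abs_nonneg _) _))]
  have h6 := mul_le_mul_of_nonneg_left h2 h4.1.le
  have h7 : ε * (e / 2 * ε⁻¹) = e / 2 := by
    have := h4.1.ne'
    field_simp
  linarith

theorem rad_small (C : ℝ) : Tendsto (fun ε : ℝ => rad C ε) (𝓝[>] 0) (𝓝 0) := by
  have h1 := (log_small (1 / 2)).const_mul C
  rw [mul_zero] at h1
  refine h1.congr fun ε => ?_
  unfold rad
  rw [Real.sqrt_eq_rpow]
  ring

theorem rad_pos {C ε : ℝ} (hC : 0 < C) (h1 : 0 < ε ∧ ε < 1) : 0 < rad C ε := by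
  unfold rad
  have h2 : 0 < Real.log (1 / ε) := Real.log_pos (by rw [lt_div_iff₀ h1.1]; linarith)
  have h3 := Real.sqrt_pos.2 h2
  have h4 := h1.1
  positivity

/-- covering by small balls, one environment -/
theorem sq_cov {D : Dom} {C K a C4 ε : ℝ} {ω : Sample} (hG : Good D ε C K a C4 ω)
    (hrad : 0 < rad C ε) (hC4 : 0 ≤ C4) {R r0 : ℝ} {T : Finset ℂ}
    (hT : ∀ c ∈ T, ‖c - z₀‖ ≤ R) (hcov : ∀ x : ℂ, ‖x - z₀‖ ≤ R → ∃ c ∈ T, ‖x - c‖ < r0)
    (h1 : 2 * rad C ε ≤ r0) (h2 : ‖z₀ - D.c‖ + R + r0 + 2 * rad C ε ≤ D.L)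
    (h3 : ε * Real.log (1 / ε) ^ a ≤ 2 * r0) (h4 : 2 * r0 ≤ 1) :
    ∑ t ∈ touch z₀ R (D.sites ε ω), ‖t.2.1 - t.1‖ ^ 2 ≤ T.card * (16 * C4 * r0 ^ 2) := by
  have hcov2 : touch z₀ R (D.sites ε ω) ⊆ T.biUnion fun c => touch c r0 (D.sites ε ω) := by
    intro t ht
    obtain ⟨htT, x, hx, hxr⟩ := Finset.mem_filter.1 ht
    obtain ⟨c, hc, hxc⟩ := hcov x hxr.le
    rw [Finset.mem_biUnion]
    exact ⟨c, hc, Finset.mem_filter.2 ⟨htT, x, hx, hxc⟩⟩
  refine (Finset.sum_le_sum_of_subset_of_nonneg hcov2 fun _ _ _ => sq_nonneg _).trans ?_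
  refine (sum_biUnion_le T _ _ fun _ => sq_nonneg _).trans ?_
  have h5 : ∀ c ∈ T, ∑ t ∈ touch c r0 (D.sites ε ω), ‖t.2.1 - t.1‖ ^ 2 ≤ 16 * C4 * r0 ^ 2 := by
    intro c hc
    have hcB := hT c hc
    have hc2 := norm_tri c z₀ D.c
    exact (B6Cx654.touch_sq hG hrad hC4 h1 (by linarith) h3 h4).2
  refine (Finset.sum_le_sum h5).trans (le_of_eq ?_)
  rw [Finset.sum_const, nsmul_eq_mul]

/-- **the sum of the squares of the sides near a point is bounded** -/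
theorem sq_bound {D : Dom} {C K a C4 : ℝ} (hC : 0 < C) (hC4 : 0 ≤ C4) {R : ℝ}
    (hR : ‖z₀ - D.c‖ + R < D.L) : ∃ V : ℝ, 0 ≤ V ∧ ∀ᶠ ε : ℝ in 𝓝[>] 0,
      ∀ ω : Sample, Good D ε C K a C4 ω →
        ∑ t ∈ touch z₀ R (D.sites ε ω), ‖t.2.1 - t.1‖ ^ 2 ≤ V := by
  obtain ⟨r0, hr0, hr1, hr2⟩ : ∃ r0 : ℝ, 0 < r0 ∧ 2 * r0 ≤ 1 ∧
      ‖z₀ - D.c‖ + R + 2 * r0 ≤ D.L := by
    refine ⟨min (1 / 2) ((D.L - ‖z₀ - D.c‖ - R) / 2), lt_min (by norm_num) (by linarith), ?_, ?_⟩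
    · have := min_le_left (1 / 2) ((D.L - ‖z₀ - D.c‖ - R) / 2)
      linarith
    · have := min_le_right (1 / 2) ((D.L - ‖z₀ - D.c‖ - R) / 2)
      linarith
  obtain ⟨T, hT, hTf, hcov⟩ := (isCompact_closedBall z₀ R).finite_cover_balls hr0
  refine ⟨hTf.toFinset.card * (16 * C4 * r0 ^ 2), by positivity, ?_⟩
  filter_upwards [ev_unit, (log_small a).eventually (ge_mem_nhds (show (0 : ℝ) < 2 * r0 by linarith)),
    (rad_small C).eventually (ge_mem_nhds (show (0 : ℝ) < r0 / 2 by linarith))] with ε h1 h2 h3 ω hω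
  refine sq_cov hω (rad_pos hC h1) hC4 (fun c hc => ?_) (fun x hx => ?_) (by linarith)
    (by linarith) h2 hr1
  · have hcB := hT (hTf.mem_toFinset.1 hc)
    rwa [Metric.mem_closedBall, dist_eq_norm] at hcB
  · have hxc : x ∈ Metric.closedBall z₀ R := by
      rw [Metric.mem_closedBall, dist_eq_norm]; exact hx
    obtain ⟨c, hc, hxc⟩ := mem_iUnion₂.1 (hcov hxc)
    rw [Metric.mem_ball, dist_eq_norm] at hxc
    exact ⟨c, hTf.mem_toFinset.2 hc, hxc⟩

end Crest.Agent.R143.DicCx831
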