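import Crest.Agent.R143.DicA_831
import Crest.Agent.R143.Frame7_395
import Crest.Agent.R143.B1_991

/-!
# Row 143 (S0194), dichotomy without part A, 2 (helper831): the root block of a network

`cm h` = closed map of the network `N` (Frame5_395), root darts `Sum.inr k`, darts `Sum.inl (a, b)`
with the third vertex `th S (a, b)`.
* `nrm` : (middle of the two majority cells) - (minority cell); `tng` : `a - b` (clockwise edge of
  the two majority cells); `ctr` : centre of gravity; zero at the root darts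
* `P1 = - tng / 2 - (I / √3) nrm`, `P2 = - tng / 2 + (I / √3) nrm` : spin functions
* `W`, `W'` : `∑ φ P1 Q`, `∑ φ conj P2 Q` as block sums; exact relations
* `Rq`, `Bq` : quenched first moment and tail of the sum of `f` over the root block
* `key_db`, `key_dd` : **`‖(b + a √3/2) ∑ Q φ P1‖ ≤ 4 Rq`**, `f = φ ctr (a nrm - I b tng)`
-/

set_option autoImplicit false

noncomputable section

open scoped Classical

namespace Crest.Agent.R143.DicBx831

open Crest.Agent.R143.B0x346 Crest.Agent.R143.DelGx806 Crest.Agent.R143.DelRx806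
  Crest.Agent.R143.JColx54 Crest.Agent.R143.JCardx872 Crest.Agent.R143.Planarx54
  Crest.Agent.R143.Sidesx697
open Crest.Agent.R143.Frame1x395 Crest.Agent.R143.Frame2x395 Crest.Agent.R143.Frame3x395
  Crest.Agent.R143.Frame4x395 Crest.Agent.R143.Frame5x395 Crest.Agent.R143.Frame6x395
  Crest.Agent.R143.Frame7x395 Crest.Agent.R143.Frame8x395 Crest.Agent.R143.DicAx831

variable {S : Finset ℂ} {N : Net ℂ} {t : ℂ × ℂ × ℂ}

/-! ### third roots of unity -/

theorem om_im : om.im = Real.sqrt 3 / 2 := by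
  have h : Real.sin (2 * Real.pi / 3) = Real.sqrt 3 / 2 := by
    have h1 : (2 * Real.pi / 3) = Real.pi - Real.pi / 3 := by ring
    rw [h1, Real.sin_pi_sub, Real.sin_pi_div_three]
  unfold om
  rw [Complex.exp_ofReal_mul_I_im, h]

/-- `√3` as a complex number -/
def s3 : ℂ := ((Real.sqrt 3 : ℝ) : ℂ)

theorem s3_sq : s3 * s3 = 3 := by
  unfold s3
  rw [← Complex.ofReal_mul, Real.mul_self_sqrt (by norm_num)]
  norm_num

theorem s3_ne : s3 ≠ 0 := by
  intro h
  have := s3_sq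
  rw [h] at this
  norm_num at this

theorem norm_s3 : ‖s3‖ = Real.sqrt 3 := by
  unfold s3
  rw [Complex.norm_real, Real.norm_of_nonneg (Real.sqrt_nonneg _)]

theorem om_val : om = -1 / 2 + s3 / 2 * Complex.I := by
  apply Complex.ext
  · rw [Oscx63.om_re]
    unfold s3
    simp
  · rw [om_im]
    unfold s3
    simp

theorem II : Complex.I * Complex.I = -1 := Complex.I_mul_I

theorem om2_val : om ^ 2 = -1 / 2 - s3 / 2 * Complex.I := by
  have h := om_sum
  have h1 := om_val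
  linear_combination h - h1

/-! ### the local vectors -/

/-- normal vector of a dart -/
def nrm (S : Finset ℂ) : Dt S → ℂ
  | Sum.inl e => (e.1.1 + e.1.2) / 2 - th S e.1
  | Sum.inr _ => 0

/-- tangent vector of a dart -/
def tng (S : Finset ℂ) : Dt S → ℂ
  | Sum.inl e => e.1.1 - e.1.2
  | Sum.inr _ => 0

/-- centre of gravity of the triangle of a dart -/
def ctr (S : Finset ℂ) : Dt S → ℂ
  | Sum.inl e => (e.1.1 + e.1.2 + th S e.1) / 3
  | Sum.inr _ => 0

/-- first spin function -/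
def P1 (S : Finset ℂ) : Dt S → ℂ
  | Sum.inl e => ((e.1.2 - e.1.1) + om * (th S e.1 - e.1.2) + om ^ 2 * (e.1.1 - th S e.1)) / 3
  | Sum.inr _ => 0

/-- second spin function -/
def P2 (S : Finset ℂ) : Dt S → ℂ
  | Sum.inl e => ((e.1.2 - e.1.1) + om ^ 2 * (th S e.1 - e.1.2) + om * (e.1.1 - th S e.1)) / 3
  | Sum.inr _ => 0

theorem tng_eq (g : Dt S) : tng S g = -(P1 S g + P2 S g) := by
  rcases g with e | k
  · simp only [tng, P1, P2]
    linear_combination ((1 : ℂ) / 3 * (e.1.1 - e.1.2)) * om_sum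
  · simp [tng, P1, P2]

theorem nrm_eq (g : Dt S) : nrm S g = Complex.I * s3 / 2 * (P1 S g - P2 S g) := by
  rcases g with e | k
  · simp only [nrm, P1, P2]
    rw [om_val, ← om_val, om2_val, om_val]
    linear_combination ((1 : ℂ) / 6 * s3 * s3 *
      ((e.1.1 + e.1.2) - 2 * th S e.1)) * II - (1 / 6 * ((e.1.1 + e.1.2) - 2 * th S e.1)) * s3_sq
  · simp [nrm, P1, P2]

/-- the functional of the rigidity statement -/
theorem comb (a b : ℂ) (g : Dt S) : a * nrm S g - Complex.I * b * tng S g =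
    Complex.I * ((b + a * s3 / 2) * P1 S g + (b - a * s3 / 2) * P2 S g) := by
  rw [nrm_eq, tng_eq]
  ring

theorem P1_rho (h : HNet S N) : Spin (cm h) (om ^ 2) (P1 S) := by
  intro g
  rcases g with ⟨⟨a, b⟩, he⟩ | k
  · have h1 := th_spec he
    have e2 : th S (b, th S (a, b)) = a := th_eq h (rot_mem h h1)
    show P1 S (Sum.inl ⟨(b, th S (a, b)), nx_mem h ⟨(a, b), he⟩⟩) = om ^ 2 * P1 S (Sum.inl ⟨(a, b), he⟩)
    simp only [P1]
    rw [e2]
    have h3 := Oscx63.om_pow_three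
    linear_combination (-(1 : ℂ) / 3) * ((th S (a, b) - b) + om * (a - th S (a, b))) * h3
  · show P1 S (Sum.inr (k - 1)) = om ^ 2 * P1 S (Sum.inr k)
    simp [P1]

theorem P2_rho (h : HNet S N) : Spin (cm h) om (P2 S) := by
  intro g
  rcases g with ⟨⟨a, b⟩, he⟩ | k
  · have h1 := th_spec he
    have e2 : th S (b, th S (a, b)) = a := th_eq h (rot_mem h h1)
    show P2 S (Sum.inl ⟨(b, th S (a, b)), nx_mem h ⟨(a, b), he⟩⟩) = om * P2 S (Sum.inl ⟨(a, b), he⟩)
    simp only [P2]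
    rw [e2]
    have h3 := Oscx63.om_pow_three
    linear_combination (-(1 : ℂ) / 3) * (th S (a, b) - b) * h3
  · show P2 S (Sum.inr (k - 1)) = om * P2 S (Sum.inr k)
    simp [P2]

theorem ctr_rho (h : HNet S N) (g : Dt S) : ctr S ((cm h).rho g) = ctr S g := by
  rcases g with ⟨⟨a, b⟩, he⟩ | k
  · have h1 := th_spec he
    have e2 : th S (b, th S (a, b)) = a := th_eq h (rot_mem h h1)
    show ctr S (Sum.inl ⟨(b, th S (a, b)), nx_mem h ⟨(a, b), he⟩⟩) = ctr S (Sum.inl ⟨(a, b), he⟩)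
    simp only [ctr]
    rw [e2]
    ring
  · rfl

/-! ### the root face -/

theorem fa_root (h : HNet S N) (g : Dt S) : g ∈ Fa (cm h) (Sum.inr 0) ↔ ∃ k, g = Sum.inr k := by
  constructor
  · rintro (hg | hg | hg)
    · exact ⟨0, hg⟩
    · exact ⟨0 - 1, hg⟩
    · exact ⟨0 - 1 - 1, hg⟩
  · rintro ⟨k, rfl⟩
    exact fa_inr h k

/-- the root function -/
def A1 (S : Finset ℂ) : Dt S → ℂ
  | Sum.inl _ => 0
  | Sum.inr k => omz k

theorem omz_vals : omz 0 = 1 ∧ omz 1 = om ∧ omz 2 = om ^ 2 := by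
  refine ⟨?_, ?_, ?_⟩
  · unfold omz
    rw [show ZMod.val (0 : ZMod 3) = 0 from rfl, pow_zero]
  · unfold omz
    rw [show ZMod.val (1 : ZMod 3) = 1 from rfl, pow_one]
  · unfold omz
    rw [show ZMod.val (2 : ZMod 3) = 2 from rfl]

theorem A1_spin (h : HNet S N) : Spin (cm h) (om ^ 2) (A1 S) := by
  obtain ⟨o0, o1, o2⟩ := omz_vals
  have h3 := Oscx63.om_pow_three
  intro g
  rcases g with e | k
  · show A1 S (Sum.inl _) = om ^ 2 * A1 S (Sum.inl e)
    simp [A1]
  · show omz (k - 1) = om ^ 2 * omz k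
    rcases z3 k with rfl | rfl | rfl
    · rw [show (0 - 1 : ZMod 3) = 2 by decide, o2, o0, mul_one]
    · rw [show (1 - 1 : ZMod 3) = 0 by decide, o1, o0]
      linear_combination -h3
    · rw [show (2 - 1 : ZMod 3) = 1 by decide, o2, o1]
      linear_combination -om * h3

theorem A1_off (h : HNet S N) (g : Dt S) (hg : g ∉ Fa (cm h) (Sum.inr 0)) : A1 S g = 0 := by
  rcases g with e | k
  · rfl
  · exact absurd (fa_inr h k) hg

theorem norm_A1 (g : Dt S) : ‖A1 S g‖ ≤ 1 := by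
  rcases g with e | k
  · simp [A1]
  · show ‖omz k‖ ≤ 1
    rw [omz, norm_pow, Oscx63.norm_om, one_pow]

theorem A1_zero : A1 S (Sum.inr 0) = 1 := omz_vals.1

/-! ### amplitudes -/

theorem w3 : (om ^ 2) ^ 3 = 1 := by
  rw [← pow_mul, mul_comm, pow_mul, Oscx63.om_pow_three, one_pow]

theorem e4 : (om ^ 2) ^ 2 = om := by
  rw [← pow_mul, show (2 * 2 : ℕ) = 3 + 1 by norm_num, pow_add, Oscx63.om_pow_three]; ring

theorem w1 : om ^ 2 ≠ 1 := by
  intro h
  have h1 := om_sum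
  have h2 : om = 1 := by
    have := Oscx63.om_pow_three
    calc om = om ^ 3 * om := by rw [this, one_mul]
      _ = om ^ 2 * om ^ 2 := by ring
      _ = 1 := by rw [h]; ring
  rw [h2] at h1
  norm_num at h1

theorem om_ne : om ≠ 1 := by
  intro h
  exact w1 (by rw [h]; norm_num)

/-- number of even configurations which vanish at the root face -/
def nz (h : HNet S N) : ℕ := nZ (cm h) (Sum.inr 0)

theorem nz_ge (h : HNet S N) : (nE (cm h) : ℝ) / 4 ≤ nz h := nE_le (M := cm h) (Sum.inr 0)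

theorem nz_pos (h : HNet S N) : (0 : ℝ) < nz h := by
  have := nz_ge h
  have := nE_pos h
  linarith

/-- **the number of joins** is the same for all triangles -/
theorem card_tj_eq (h : HNet S N) (ht : t ∈ delT S) (hne : (N.tj t).Nonempty) :
    (N.tj t).card = nz h := by
  obtain ⟨J0, hJ0⟩ := hne
  have hJ0' := mem_joins.1 hJ0
  have hC0 := toY_isC h ht hJ0'
  have r1 : (cm h).rho (Sum.inr 0 : Dt S) = Sum.inr 2 := by
    show (Sum.inr (0 - 1) : Dt S) = Sum.inr 2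
    congr 1
  have r2 : (cm h).rho (Sum.inr 2 : Dt S) = Sum.inr 1 := by
    show (Sum.inr (2 - 1) : Dt S) = Sum.inr 1
    congr 1
  unfold nz nZ
  refine Finset.card_bij (fun J _ => fun d => toY S J d + toY S J0 d) ?_ ?_ ?_
  · intro J hJ
    have hC := toY_isC h ht (mem_joins.1 hJ)
    refine Finset.mem_filter.2 ⟨mu _, isC_add' hC hC0, ?_, ?_, ?_⟩
    · show (1 : ZMod 2) + 1 = 0
      decide
    · rw [r1]
      show (1 : ZMod 2) + 1 = 0
      decide
    · rw [r1, r2]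
      show (1 : ZMod 2) + 1 = 0
      decide
  · intro J hJ J' hJ' e
    have h1 := mem_joins.1 hJ
    have h2 := mem_joins.1 hJ'
    rw [← ofY_toY h h1, ← ofY_toY h h2]
    congr 1
    funext d
    exact add_right_cancel (congrFun e d)
  · intro x hx
    obtain ⟨-, h1, h2, h3, h4⟩ := Finset.mem_filter.1 hx
    rw [r1] at h3 h4
    rw [r2] at h4
    have hC : IsC (cm h) (Bt h ht) (fun d => x d + toY S J0 d) := by
      have := isC_add h1 hC0
      rwa [← Set.bot_eq_empty, bot_symmDiff] at this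
    have hk : ∀ k, x (Sum.inr k) + toY S J0 (Sum.inr k) = 1 := by
      intro k
      have : toY S J0 (Sum.inr k) = 1 := rfl
      rw [this]
      rcases z3 k with rfl | rfl | rfl
      · rw [h2]; decide
      · rw [h4]; decide
      · rw [h3]; decide
    refine ⟨ofY S fun d => x d + toY S J0 d, mem_joins.2 (ofY_isJoin h ht hC hk), ?_⟩
    have e1 := toY_ofY (y := fun d => x d + toY S J0 d) hk
    funext d
    have e2 := congrFun e1 d
    show toY S (ofY S fun d => x d + toY S J0 d) d + toY S J0 d = x d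
    rw [e2, add_assoc, z_self, add_zero]

/-- the amplitude in terms of thetas -/
theorem Q_amp (h : HNet S N) (ht : t ∈ delT S) :
    N.Q t * (nz h : ℂ) = amp (cm h) (om ^ 2) (Sum.inr 0) (sdt h ht 0) := by
  rcases (N.tj t).eq_empty_or_nonempty with he | hne
  · have hQ : N.Q t = 0 := by
      unfold Net.Q Net.triA
      rw [he]
      simp
    have h0 : ∀ k, nT (cm h) (Sum.inr 0) (sdt h ht (-k)) = 0 := by
      intro k
      rw [← card_tri h ht k, he]
      rfl
    have a0 := h0 0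
    have a1 := h0 1
    have a2 := h0 2
    rw [show -(0 : ZMod 3) = 0 by decide] at a0
    rw [show -(1 : ZMod 3) = 0 + 1 + 1 by decide, ← rho_sdt, ← rho_sdt] at a1
    rw [show -(2 : ZMod 3) = 0 + 1 by decide, ← rho_sdt] at a2
    unfold amp
    rw [hQ, a0, a1, a2]
    simp
  · rw [← card_tj_eq h ht hne]
    exact Q_eq h ht hne

/-- sums over the darts of the triangles -/
theorem sum_darts (h : HNet S N) {F : Dt S → ℂ} (hF : ∀ k, F (Sum.inr k) = 0) :
    ∑ g, F g = ∑ t ∈ delT S, if ht : t ∈ delT S then F (sdt h ht 0) else 0 := by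
  rw [Fintype.sum_sum_type]
  have e1 : ∑ k : ZMod 3, F (Sum.inr k) = 0 := Finset.sum_eq_zero fun k _ => hF k
  rw [e1, add_zero]
  symm
  rw [← Finset.sum_attach]
  refine Finset.sum_bij' (i := fun t _ => (⟨(t.1.1, t.1.2.1), mem_sd.2 ⟨_, t.2⟩⟩ :
      {e : ℂ × ℂ // e ∈ sd S}))
    (j := fun e _ => (⟨(e.1.1, e.1.2, th S e.1), th_spec e.2⟩ : {t // t ∈ delT S}))
    ?_ ?_ ?_ ?_ ?_
  · intro t _; exact Finset.mem_univ _
  · intro e _; exact Finset.mem_attach _ _
  · rintro ⟨⟨a, b, c⟩, ht⟩ _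
    apply Subtype.ext
    show (a, b, th S (a, b)) = (a, b, c)
    rw [th_eq h ht]
  · rintro ⟨⟨a, b⟩, he⟩ _
    rfl
  · rintro ⟨t, ht⟩ _
    rw [dif_pos ht]
    rfl

/-- rotation of the amplitude, all triangles -/
theorem Q_rt (h : HNet S N) (ht : t ∈ delT S) : N.Q (B1x991.rt t) = om * N.Q t := by
  have ht' : (t.2.1, t.2.2, t.1) ∈ delT S := rot_mem h (a := t.1) ht
  have h1 := Q_amp h ht
  have h2 := Q_amp h ht'
  have e : sdt h ht' 0 = (cm h).rho (sdt h ht 0) := by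
    rw [rho_sdt]
    rfl
  rw [e, amp_rho w3, ← h1, e4] at h2
  have h3 : (nz h : ℂ) ≠ 0 := by exact_mod_cast (nz_pos h).ne'
  exact mul_right_cancel₀ h3 (by
    show N.Q (t.2.1, t.2.2, t.1) * (nz h : ℂ) = om * N.Q t * nz h
    rw [h2]; ring)

/-- centre of gravity -/
def cc (t : ℂ × ℂ × ℂ) : ℂ := (t.1 + t.2.1 + t.2.2) / 3

def p1 (t : ℂ × ℂ × ℂ) : ℂ :=
  ((t.2.1 - t.1) + om * (t.2.2 - t.2.1) + om ^ 2 * (t.1 - t.2.2)) / 3

def p2 (t : ℂ × ℂ × ℂ) : ℂ :=
  ((t.2.1 - t.1) + om ^ 2 * (t.2.2 - t.2.1) + om * (t.1 - t.2.2)) / 3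

theorem cc_rt (t : ℂ × ℂ × ℂ) : cc (B1x991.rt t) = cc t := by
  simp only [cc, B1x991.rt]
  ring

theorem om_conj' : (starRingEnd ℂ) om = om ^ 2 := om_conj

theorem om2_conj : (starRingEnd ℂ) (om ^ 2) = om := by
  rw [map_pow, om_conj, e4]

/-- projection on the spin, general -/
theorem sum_proj (h : HNet S N) (φ : ℂ → ℂ) (e : ℂ × ℂ × ℂ → ℂ) :
    ∑ t ∈ delT S, N.Q t * (e t * φ (cc t)) = ∑ t ∈ delT S, N.Q t *
      ((e t + om * e (B1x991.rt t) + om ^ 2 * e (B1x991.rt (B1x991.rt t))) / 3 * φ (cc t)) := by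
  have key : ∀ f : ℂ × ℂ × ℂ → ℂ, ∑ t ∈ delT S, f (B1x991.rt t) = ∑ t ∈ delT S, f t :=
    fun f => B1x991.sum_rt h.gp f
  have e1 : ∑ t ∈ delT S, N.Q t * (e t * φ (cc t)) =
      ∑ t ∈ delT S, om * N.Q t * (e (B1x991.rt t) * φ (cc t)) := by
    rw [← key]
    refine Finset.sum_congr rfl fun t ht => ?_
    rw [Q_rt h ht, cc_rt]
  have e2 : ∑ t ∈ delT S, N.Q t * (e t * φ (cc t)) =
      ∑ t ∈ delT S, om ^ 2 * N.Q t * (e (B1x991.rt (B1x991.rt t)) * φ (cc t)) := by
    rw [← key, ← key (fun t => N.Q (B1x991.rt t) * (e (B1x991.rt t) * φ (cc (B1x991.rt t))))]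
    refine Finset.sum_congr rfl fun t ht => ?_
    rw [Q_rt h (B1x991.rt_mem h.gp ht), Q_rt h ht, cc_rt, cc_rt]
    ring
  have e3 : ∑ t ∈ delT S, N.Q t * (e t * φ (cc t)) =
      (∑ t ∈ delT S, N.Q t * (e t * φ (cc t)) + ∑ t ∈ delT S, N.Q t * (e t * φ (cc t)) +
        ∑ t ∈ delT S, N.Q t * (e t * φ (cc t))) / 3 := by ring
  rw [e3]
  conv_lhs => rw [add_assoc]
  nth_rewrite 2 [e1]
  nth_rewrite 2 [e2]
  rw [← Finset.sum_add_distrib, ← Finset.sum_add_distrib, Finset.sum_div]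
  refine Finset.sum_congr rfl fun t _ => ?_
  ring

theorem proj1 (h : HNet S N) (φ : ℂ → ℂ) :
    ∑ t ∈ delT S, N.Q t * ((t.2.1 - t.1) * φ (cc t)) =
      ∑ t ∈ delT S, N.Q t * (p1 t * φ (cc t)) := by
  rw [sum_proj h φ fun t => t.2.1 - t.1]
  rfl

theorem proj2 (h : HNet S N) (φ : ℂ → ℂ) :
    ∑ t ∈ delT S, N.Q t * ((starRingEnd ℂ) (t.2.1 - t.1) * φ (cc t)) =
      ∑ t ∈ delT S, N.Q t * ((starRingEnd ℂ) (p2 t) * φ (cc t)) := by
  rw [sum_proj h φ fun t => (starRingEnd ℂ) (t.2.1 - t.1)]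
  refine Finset.sum_congr rfl fun t _ => ?_
  congr 2
  unfold p2
  rw [map_div₀, map_add, map_add, map_mul, map_mul, om2_conj, om_conj]
  simp only [B1x991.rt, map_sub]
  have h3 : (starRingEnd ℂ) (3 : ℂ) = 3 := Complex.conj_ofNat 3
  rw [h3]

/-! ### block sums -/

theorem phi_spin {w : ℂ} (h : HNet S N) (φ : ℂ → ℂ) {f : Dt S → ℂ} (hf : Spin (cm h) w f) :
    Spin (cm h) w fun g => φ (ctr S g) * f g := by
  intro g
  show φ (ctr S ((cm h).rho g)) * f ((cm h).rho g) = w * (φ (ctr S g) * f g)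
  rw [ctr_rho, hf]
  ring

theorem root_zero (h : HNet S N) {f : Dt S → ℂ} (hf : ∀ k, f (Sum.inr k) = 0) (g : Dt S)
    (hg : g ∈ Fa (cm h) (Sum.inr 0)) : f g = 0 := by
  obtain ⟨k, rfl⟩ := (fa_root h g).1 hg
  exact hf k

/-- sum of products of block sums with the root function -/
def WW (h : HNet S N) (f : Dt S → ℂ) : ℂ :=
  ∑ x ∈ ev (cm h), ∑ β ∈ blks (cm h) x, (∑ g ∈ β, A1 S g) * (∑ k ∈ β, f k)

theorem WW_same (h : HNet S N) {f : Dt S → ℂ} (hf : ∀ k, f (Sum.inr k) = 0) :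
    WW h f = nz h * ∑ t ∈ delT S, N.Q t * (if ht : t ∈ delT S then f (sdt h ht 0) else 0) := by
  unfold WW
  rw [root_bil w3 (A1_off h) (A1_spin h) (root_zero h hf), A1_zero, one_mul,
    sum_darts h (F := fun g => f g * amp (cm h) (om ^ 2) (Sum.inr 0) g)
      (fun k => by rw [hf k, zero_mul]), Finset.mul_sum]
  refine Finset.sum_congr rfl fun t ht => ?_
  rw [dif_pos ht, dif_pos ht, ← Q_amp h ht]
  ring

theorem WW_off (h : HNet S N) {f : Dt S → ℂ} (hf : ∀ k, f (Sum.inr k) = 0)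
    (sf : Spin (cm h) om f) : WW h f = 0 := by
  have h1 : Spin (cm h) ((om ^ 2) ^ 2) f := by rw [e4]; exact sf
  exact root_off w3 w1 (A1_off h) (A1_spin h) h1 (root_zero h hf)

theorem WW_add (h : HNet S N) (f g : Dt S → ℂ) : WW h (fun k => f k + g k) = WW h f + WW h g := by
  unfold WW
  simp only [Finset.sum_add_distrib, mul_add]

theorem WW_mul (h : HNet S N) (c : ℂ) (f : Dt S → ℂ) : WW h (fun k => c * f k) = c * WW h f := by
  unfold WW
  simp only [← Finset.mul_sum]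
  rw [Finset.mul_sum]
  refine Finset.sum_congr rfl fun x _ => ?_
  rw [Finset.mul_sum]
  exact Finset.sum_congr rfl fun β _ => by ring

theorem spin_conj1 {h : HNet S N} {f : Dt S → ℂ} (hf : Spin (cm h) (om ^ 2) f) :
    Spin (cm h) om fun g => (starRingEnd ℂ) (f g) := by
  intro g
  show (starRingEnd ℂ) (f ((cm h).rho g)) = om * (starRingEnd ℂ) (f g)
  rw [hf, map_mul, om2_conj]

theorem spin_conj2 {h : HNet S N} {f : Dt S → ℂ} (hf : Spin (cm h) om f) :
    Spin (cm h) (om ^ 2) fun g => (starRingEnd ℂ) (f g) := by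
  intro g
  show (starRingEnd ℂ) (f ((cm h).rho g)) = om ^ 2 * (starRingEnd ℂ) (f g)
  rw [hf, map_mul, om_conj]

/-- **the test functional** of the root block: `φ (a * normal - I * b * tangent)` -/
def tf (S : Finset ℂ) (φ : ℂ → ℝ) (a b : ℂ) (g : Dt S) : ℂ :=
  (φ (ctr S g) : ℂ) * (a * nrm S g - Complex.I * b * tng S g)

/-- quenched first moment of the sum over the root block -/
def Rq (h : HNet S N) (f : Dt S → ℂ) : ℝ := Rr (cm h) (Sum.inr 0) f / nE (cm h)

/-- quenched probability that the sum over the root block is large -/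
def Bq (h : HNet S N) (f : Dt S → ℂ) (η : ℝ) : ℝ := (Br (cm h) (Sum.inr 0) f η : ℝ) / nE (cm h)

theorem Rr_nonneg {D C : Type} [Fintype D] (M : CMap D C) (o : D) (f : D → ℂ) : 0 ≤ Rr M o f := by
  unfold Rr
  exact Finset.sum_nonneg fun _ _ => Finset.sum_nonneg fun _ _ => norm_nonneg _

theorem Rq_nonneg (h : HNet S N) (f : Dt S → ℂ) : 0 ≤ Rq h f :=
  div_nonneg (Rr_nonneg _ _ _) (Nat.cast_nonneg _)

theorem norm_WW (h : HNet S N) (f : Dt S → ℂ) : ‖WW h f‖ ≤ Rr (cm h) (Sum.inr 0) f :=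
  root_norm (A1_off h) norm_A1

theorem Rr_conj {D C : Type} [Fintype D] (M : CMap D C) (o : D) (f : D → ℂ) :
    Rr M o (fun g => (starRingEnd ℂ) (f g)) = Rr M o f := by
  unfold Rr bs
  refine Finset.sum_congr rfl fun x _ => Finset.sum_congr rfl fun g _ => ?_
  rw [← map_sum, Complex.norm_conj]

theorem tf_eq (φ : ℂ → ℝ) (a b : ℂ) (g : Dt S) : tf S φ a b g =
    Complex.I * (b + a * s3 / 2) * ((φ (ctr S g) : ℂ) * P1 S g) +
      Complex.I * (b - a * s3 / 2) * ((φ (ctr S g) : ℂ) * P2 S g) := by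
  unfold tf
  rw [comb]
  ring

theorem conj_s3 : (starRingEnd ℂ) s3 = s3 := Complex.conj_ofReal _

theorem tf_conj (φ : ℂ → ℝ) (a b : ℂ) (g : Dt S) : (starRingEnd ℂ) (tf S φ a b g) =
    -Complex.I * (starRingEnd ℂ) (b - a * s3 / 2) *
        ((φ (ctr S g) : ℂ) * (starRingEnd ℂ) (P2 S g)) +
      -Complex.I * (starRingEnd ℂ) (b + a * s3 / 2) *
        ((φ (ctr S g) : ℂ) * (starRingEnd ℂ) (P1 S g)) := by
  rw [tf_eq]
  simp only [map_add, map_mul, Complex.conj_I, Complex.conj_ofReal]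
  ring

theorem four_div {X Y n z : ℝ} (hn : 0 < n) (hz : n / 4 ≤ z) (h : z * X ≤ Y) (hX : 0 ≤ X) :
    X ≤ 4 * (Y / n) := by
  rw [← mul_div_assoc, le_div_iff₀ hn]
  nlinarith

/-- **key estimate for `dbar`** -/
theorem key1 (h : HNet S N) (φ : ℂ → ℝ) (a b : ℂ) :
    ‖(b + a * s3 / 2) * ∑ t ∈ delT S, N.Q t * ((t.2.1 - t.1) * (φ (cc t) : ℂ))‖ ≤
      4 * Rq h (tf S φ a b) := by
  have hn := nE_pos h
  refine four_div hn (nz_ge h) ?_ (norm_nonneg _)
  have h1 : WW h (tf S φ a b) = Complex.I * (b + a * s3 / 2) *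
      (nz h * ∑ t ∈ delT S, N.Q t * (p1 t * (φ (cc t) : ℂ))) := by
    have e1 : tf S φ a b = fun g => Complex.I * (b + a * s3 / 2) * ((φ (ctr S g) : ℂ) * P1 S g) +
      Complex.I * (b - a * s3 / 2) * ((φ (ctr S g) : ℂ) * P2 S g) := funext (tf_eq φ a b)
    rw [e1, WW_add, WW_mul, WW_mul,
      WW_off h (f := fun g => (φ (ctr S g) : ℂ) * P2 S g) (fun k => by simp [P2])
        (phi_spin h (fun z => (φ z : ℂ)) (P2_rho h)), mul_zero, add_zero,
      WW_same h (f := fun g => (φ (ctr S g) : ℂ) * P1 S g) (fun k => by simp [P1])]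
    congr 2
    refine Finset.sum_congr rfl fun t ht => ?_
    rw [dif_pos ht]
    have e2 : ctr S (sdt h ht 0) = cc t := by
      show (t.1 + t.2.1 + th S (t.1, t.2.1)) / 3 = (t.1 + t.2.1 + t.2.2) / 3
      rw [th_eq h ht]
    have e3 : P1 S (sdt h ht 0) = p1 t := by
      show ((t.2.1 - t.1) + om * (th S (t.1, t.2.1) - t.2.1) +
        om ^ 2 * (t.1 - th S (t.1, t.2.1))) / 3 = _
      rw [th_eq h ht]
      rfl
    rw [e2, e3]
    ring
  have h2 := norm_WW h (tf S φ a b)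
  rw [h1, norm_mul, norm_mul, Complex.norm_I, one_mul, norm_mul, Complex.norm_natCast] at h2
  have h3 := proj1 h (fun z => (φ z : ℂ))
  rw [h3, norm_mul]
  linarith

/-- **key estimate for `d/dz`** -/
theorem key2 (h : HNet S N) (φ : ℂ → ℝ) (a b : ℂ) :
    ‖(starRingEnd ℂ) (b - a * s3 / 2) *
      ∑ t ∈ delT S, N.Q t * ((starRingEnd ℂ) (t.2.1 - t.1) * (φ (cc t) : ℂ))‖ ≤
      4 * Rq h (tf S φ a b) := by
  have hn := nE_pos h
  refine four_div hn (nz_ge h) ?_ (norm_nonneg _)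
  have h1 : WW h (fun g => (starRingEnd ℂ) (tf S φ a b g)) =
      -Complex.I * (starRingEnd ℂ) (b - a * s3 / 2) *
      (nz h * ∑ t ∈ delT S, N.Q t * ((starRingEnd ℂ) (p2 t) * (φ (cc t) : ℂ))) := by
    have e1 : (fun g => (starRingEnd ℂ) (tf S φ a b g)) = fun g =>
      -Complex.I * (starRingEnd ℂ) (b - a * s3 / 2) *
        ((φ (ctr S g) : ℂ) * (starRingEnd ℂ) (P2 S g)) +
      -Complex.I * (starRingEnd ℂ) (b + a * s3 / 2) *
        ((φ (ctr S g) : ℂ) * (starRingEnd ℂ) (P1 S g)) := funext (tf_conj φ a b)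
    rw [e1, WW_add, WW_mul, WW_mul,
      WW_off h (f := fun g => (φ (ctr S g) : ℂ) * (starRingEnd ℂ) (P1 S g))
        (fun k => by simp [P1]) (phi_spin h (fun z => (φ z : ℂ)) (spin_conj1 (P1_rho h))),
      mul_zero, add_zero,
      WW_same h (f := fun g => (φ (ctr S g) : ℂ) * (starRingEnd ℂ) (P2 S g))
        (fun k => by simp [P2])]
    congr 2
    refine Finset.sum_congr rfl fun t ht => ?_
    rw [dif_pos ht]
    have e2 : ctr S (sdt h ht 0) = cc t := by
      show (t.1 + t.2.1 + th S (t.1, t.2.1)) / 3 = (t.1 + t.2.1 + t.2.2) / 3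
      rw [th_eq h ht]
    have e3 : P2 S (sdt h ht 0) = p2 t := by
      show ((t.2.1 - t.1) + om ^ 2 * (th S (t.1, t.2.1) - t.2.1) +
        om * (t.1 - th S (t.1, t.2.1))) / 3 = _
      rw [th_eq h ht]
      rfl
    rw [e2, e3]
    ring
  have h2 := norm_WW h (fun g => (starRingEnd ℂ) (tf S φ a b g))
  rw [Rr_conj, h1, norm_mul, norm_mul, norm_neg, Complex.norm_I, one_mul, norm_mul,
    Complex.norm_natCast] at h2
  have h3 := proj2 h (fun z => (φ z : ℂ))
  rw [h3, norm_mul]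
  linarith

end Crest.Agent.R143.DicBx831
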