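import Crest.Agent.R143.Frame10_395

/-!
# Row 143 (S0194): three far sites in general position (helper832)

* `gp_add` : a site can be added in every non empty open set, keeping general position
* `far` : three sites can be added outside of any disc such that no old site is on the hull
-/

set_option autoImplicit false

noncomputable section

open scoped Classical

namespace Crest.Agent.R143.Farx832

open MeasureTheory Set
open Crest.Agent.R143.B0x346 Crest.Agent.R143.DelGx806 Crest.Agent.R143.Frame10x395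

/-- the line through `a` and `b` -/
def lineS (a b : ℂ) : Set ℂ := {p | cr (b - a) (p - a) = 0}

/-- points on a circle through `a, b, c` -/
def circS (a b c : ℂ) : Set ℂ :=
  {p | ∃ o : ℂ, ‖b - o‖ = ‖a - o‖ ∧ ‖c - o‖ = ‖a - o‖ ∧ ‖p - o‖ = ‖a - o‖}

/-- `v ↦ cr u v` as a linear map -/
def crL (u : ℂ) : ℂ →ₗ[ℝ] ℝ where
  toFun v := cr u v
  map_add' v w := by unfold cr; simp only [Complex.add_re, Complex.add_im]; ring
  map_smul' t v := by
    unfold cr
    simp only [Complex.real_smul, Complex.mul_re, Complex.mul_im, Complex.ofReal_re,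
      Complex.ofReal_im, RingHom.id_apply, smul_eq_mul]
    ring

theorem vol_line {a b : ℂ} (h : a ≠ b) : volume (lineS a b) = 0 := by
  have hne : LinearMap.ker (crL (b - a)) ≠ ⊤ := by
    intro hk
    have h1 : Complex.I * (b - a) ∈ LinearMap.ker (crL (b - a)) := by rw [hk]; trivial
    have h2 : cr (b - a) (Complex.I * (b - a)) = 0 := h1
    have h3 : cr (b - a) (Complex.I * (b - a)) = (b - a).re ^ 2 + (b - a).im ^ 2 := by
      unfold cr
      simp only [Complex.mul_re, Complex.mul_im, Complex.I_re, Complex.I_im]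
      ring
    rw [h3] at h2
    have h4 : (b - a).re = 0 := by nlinarith [sq_nonneg (b - a).re, sq_nonneg (b - a).im]
    have h5 : (b - a).im = 0 := by nlinarith [sq_nonneg (b - a).re, sq_nonneg (b - a).im]
    have h6 : b - a = 0 := Complex.ext h4 h5
    exact h (sub_eq_zero.1 h6).symm
  have h1 : volume ((LinearMap.ker (crL (b - a)) : Submodule ℝ ℂ) : Set ℂ) = 0 :=
    Measure.addHaar_submodule volume _ hne
  have h2 : lineS a b = (fun p => p - a) ⁻¹' ((LinearMap.ker (crL (b - a)) : Submodule ℝ ℂ) : Set ℂ) := by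
    ext p
    rfl
  rw [h2]
  rw [(measurePreserving_sub_right volume a).measure_preimage_emb
    (MeasurableEquiv.subRight a).measurableEmbedding]
  exact h1

theorem sq_norm (z : ℂ) : ‖z‖ ^ 2 = z.re ^ 2 + z.im ^ 2 := by
  rw [← Complex.normSq_eq_norm_sq, Complex.normSq_apply]
  ring

/-- uniqueness of the circumcentre -/
theorem centre_uniq {a b c o o' : ℂ} (h : cr (b - a) (c - a) ≠ 0)
    (h1 : ‖b - o‖ = ‖a - o‖) (h2 : ‖c - o‖ = ‖a - o‖)
    (h3 : ‖b - o'‖ = ‖a - o'‖) (h4 : ‖c - o'‖ = ‖a - o'‖) : o = o' := by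
  have e1 : ‖b - o‖ ^ 2 = ‖a - o‖ ^ 2 := by rw [h1]
  have e2 : ‖c - o‖ ^ 2 = ‖a - o‖ ^ 2 := by rw [h2]
  have e3 : ‖b - o'‖ ^ 2 = ‖a - o'‖ ^ 2 := by rw [h3]
  have e4 : ‖c - o'‖ ^ 2 = ‖a - o'‖ ^ 2 := by rw [h4]
  simp only [sq_norm, Complex.sub_re, Complex.sub_im] at e1 e2 e3 e4
  unfold cr at h
  simp only [Complex.sub_re, Complex.sub_im] at h
  have f1 : (b.re - a.re) * (o.re - o'.re) + (b.im - a.im) * (o.im - o'.im) = 0 := by
    linarith
  have f2 : (c.re - a.re) * (o.re - o'.re) + (c.im - a.im) * (o.im - o'.im) = 0 := by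
    linarith
  have g1 : ((b.re - a.re) * (c.im - a.im) - (b.im - a.im) * (c.re - a.re)) * (o.re - o'.re) = 0 := by
    linear_combination (c.im - a.im) * f1 - (b.im - a.im) * f2
  have g2 : ((b.re - a.re) * (c.im - a.im) - (b.im - a.im) * (c.re - a.re)) * (o.im - o'.im) = 0 := by
    linear_combination (b.re - a.re) * f2 - (c.re - a.re) * f1
  apply Complex.ext
  · rcases mul_eq_zero.1 g1 with k | k
    · exact absurd k h
    · linarith
  · rcases mul_eq_zero.1 g2 with k | k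
    · exact absurd k h
    · linarith

theorem vol_circ {a b c : ℂ} (h : cr (b - a) (c - a) ≠ 0) : volume (circS a b c) = 0 := by
  by_cases hne : (circS a b c).Nonempty
  · obtain ⟨_, o, h1, h2, _⟩ := hne
    refine measure_mono_null (t := Metric.sphere o ‖a - o‖) ?_ ?_
    · rintro p ⟨o', k1, k2, k3⟩
      have := centre_uniq h k1 k2 h1 h2
      subst this
      rw [mem_sphere_iff_norm]
      exact k3
    · exact Measure.addHaar_sphere volume o ‖a - o‖
  · rw [Set.not_nonempty_iff_eq_empty.1 hne, measure_empty]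

/-- the bad positions of a new site -/
def bad (S : Finset ℂ) : Set ℂ :=
  (⋃ q ∈ (S ×ˢ S : Finset (ℂ × ℂ)).filter (fun q => q.1 ≠ q.2), lineS q.1 q.2) ∪
    ((⋃ q ∈ (S ×ˢ (S ×ˢ S) : Finset (ℂ × ℂ × ℂ)).filter
      (fun q => cr (q.2.1 - q.1) (q.2.2 - q.1) ≠ 0), circS q.1 q.2.1 q.2.2) ∪ (S : Set ℂ))

theorem vol_bad (S : Finset ℂ) : volume (bad S) = 0 := by
  unfold bad
  refine measure_union_null ?_ (measure_union_null ?_ ?_)
  · refine (measure_biUnion_null_iff (Finset.countable_toSet _)).2 fun q hq => ?_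
    have hq' := Finset.mem_coe.1 hq
    rw [Finset.mem_filter] at hq'
    exact vol_line hq'.2
  · refine (measure_biUnion_null_iff (Finset.countable_toSet _)).2 fun q hq => ?_
    have hq' := Finset.mem_coe.1 hq
    rw [Finset.mem_filter] at hq'
    exact vol_circ hq'.2
  · exact S.countable_toSet.measure_zero volume

/-- **a site can be added in every non empty open set** -/
theorem gp_add {S : Finset ℂ} (hS : GP (S : Set ℂ)) {U : Set ℂ} (hU : IsOpen U) (hne : U.Nonempty) :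
    ∃ p ∈ U, p ∉ S ∧ GP ((insert p S : Finset ℂ) : Set ℂ) := by
  have h1 : 0 < volume U := hU.measure_pos volume hne
  have h2 : ∃ p ∈ U, p ∉ bad S := by
    by_contra hcon
    push Not at hcon
    have : volume U ≤ volume (bad S) := measure_mono fun p hp => hcon p hp
    rw [vol_bad] at this
    exact absurd h1 (not_lt.2 this)
  obtain ⟨p, hpU, hp⟩ := h2
  unfold bad at hp
  simp only [mem_union, not_or] at hp
  obtain ⟨hp1, hp2, hp3⟩ := hp
  have hpS : p ∉ S := fun h => hp3 (Finset.mem_coe.2 h)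
  have hl : ∀ a ∈ S, ∀ b ∈ S, a ≠ b → cr (b - a) (p - a) ≠ 0 := by
    intro a ha b hb hab h
    apply hp1
    refine mem_biUnion (x := (a, b)) ?_ h
    exact Finset.mem_coe.2 (Finset.mem_filter.2 ⟨Finset.mk_mem_product ha hb, hab⟩)
  have hc : ∀ a ∈ S, ∀ b ∈ S, ∀ c ∈ S, a ≠ b → b ≠ c → a ≠ c → ∀ o : ℂ,
      ¬ (‖b - o‖ = ‖a - o‖ ∧ ‖c - o‖ = ‖a - o‖ ∧ ‖p - o‖ = ‖a - o‖) := by
    intro a ha b hb c hcS hab hbc hac o h
    apply hp2
    refine mem_biUnion (x := (a, b, c)) ?_ ⟨o, h⟩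
    exact Finset.mem_coe.2 (Finset.mem_filter.2 ⟨Finset.mk_mem_product ha
      (Finset.mk_mem_product hb hcS), hS.line a ha b hb c hcS hab hbc hac⟩)
  refine ⟨p, hpU, hpS, ?_, ?_⟩
  · intro a ha b hb c hcS hab hbc hac h
    rw [Finset.coe_insert, mem_insert_iff] at ha hb hcS
    rcases ha with rfl | ha
    · rcases hb with rfl | hb
      · exact hab rfl
      · rcases hcS with rfl | hcS
        · exact hac rfl
        · apply hl b hb c hcS hbc
          unfold cr at h ⊢
          simp only [Complex.sub_re, Complex.sub_im] at h ⊢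
          linarith
    · rcases hb with rfl | hb
      · rcases hcS with rfl | hcS
        · exact hbc rfl
        · apply hl a ha c hcS hac
          unfold cr at h ⊢
          simp only [Complex.sub_re, Complex.sub_im] at h ⊢
          linarith
      · rcases hcS with rfl | hcS
        · exact hl a ha b hb hab h
        · exact hS.line a ha b hb c hcS hab hbc hac h
  · rintro a ha b hb c hcS e he hab hac hae hbc hbe hce o ⟨h1, h2, h3⟩
    rw [Finset.coe_insert, mem_insert_iff] at ha hb hcS he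
    rcases ha with rfl | ha
    · have hb := hb.resolve_left fun h => hab h.symm
      have hcS := hcS.resolve_left fun h => hac h.symm
      have he := he.resolve_left fun h => hae h.symm
      exact hc b hb c hcS e he hbc hce hbe o ⟨h2.trans h1.symm, h3.trans h1.symm, h1.symm⟩
    · rcases hb with rfl | hb
      · have hcS := hcS.resolve_left fun h => hbc h.symm
        have he := he.resolve_left fun h => hbe h.symm
        exact hc a ha c hcS e he hac hce hae o ⟨h2, h3, h1⟩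
      · rcases hcS with rfl | hcS
        · have he := he.resolve_left fun h => hce h.symm
          exact hc a ha b hb e he hab hbe hae o ⟨h1, h3, h2⟩
        · rcases he with rfl | he
          · exact hc a ha b hb c hcS hab hbc hac o ⟨h1, h2, h3⟩
          · exact hS.circ a ha b hb c hcS e he hab hac hae hbc hbe hce o ⟨h1, h2, h3⟩

theorem abs_cr_le (u v : ℂ) : |cr u v| ≤ ‖u‖ * ‖v‖ := by
  have h1 : cr u v ^ 2 ≤ (‖u‖ * ‖v‖) ^ 2 := by
    rw [mul_pow, sq_norm, sq_norm]
    unfold cr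
    nlinarith [sq_nonneg (u.re * v.re + u.im * v.im)]
  exact abs_le_of_sq_le_sq h1 (by positivity)

/-- a point well inside the triangle of three far points is not on the hull -/
theorem not_onHull {S : Finset ℂ} {v p0 p1 p2 : ℂ} {R M : ℝ} (hM : ‖v‖ ≤ M) (hM0 : 0 ≤ M)
    (hR : 3 * (1 + M) < R)
    (h0 : ‖p0 - (R : ℂ) * 1‖ < 1) (h1 : ‖p1 - (R : ℂ) * (-1 + Complex.I)‖ < 1)
    (h2 : ‖p2 - (R : ℂ) * (-1 - Complex.I)‖ < 1)
    (m0 : p0 ∈ S) (m1 : p1 ∈ S) (m2 : p2 ∈ S) : ¬ OnHull S v := by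
  rintro ⟨a, ha⟩
  have hne : a ≠ v := Crest.Agent.R143.DelRx806.hullE.ne ha
  set d : ℂ := v - a with hd
  have hd0 : 0 < ‖d‖ := norm_pos_iff.2 (sub_ne_zero.2 hne.symm)
  have key : ∀ (p e : ℂ), ‖p - (R : ℂ) * e‖ < 1 → p ∈ S → -(‖d‖ * (1 + M)) ≤ R * cr d e := by
    intro p e hp hpS
    have k1 : 0 ≤ cr (v - a) (p - a) := hull_side ha p hpS
    have k2 : cr (v - a) (p - a) = R * cr d e + cr d ((p - (R : ℂ) * e) - v) := by
      rw [hd]
      unfold cr
      simp only [Complex.sub_re, Complex.sub_im, Complex.mul_re, Complex.mul_im, Complex.ofReal_re,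
        Complex.ofReal_im]
      ring
    have k3 : |cr d ((p - (R : ℂ) * e) - v)| ≤ ‖d‖ * (1 + M) := by
      refine (abs_cr_le _ _).trans (mul_le_mul_of_nonneg_left ?_ hd0.le)
      exact (norm_sub_le _ _).trans (add_le_add hp.le hM)
    have k4 := (abs_le.1 k3).2
    linarith
  have e0 := key p0 1 h0 m0
  have e1 := key p1 (-1 + Complex.I) h1 m1
  have e2 := key p2 (-1 - Complex.I) h2 m2
  have c0 : cr d 1 = -d.im := by unfold cr; simp
  have c1 : cr d (-1 + Complex.I) = d.re + d.im := by unfold cr; simp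
  have c2 : cr d (-1 - Complex.I) = -d.re + d.im := by unfold cr; simp
  rw [c0] at e0
  rw [c1] at e1
  rw [c2] at e2
  have hR0 : 0 < R := by linarith
  set t : ℝ := ‖d‖ * (1 + M) with ht
  have f1 : R * |d.im| ≤ t := by
    rcases abs_cases d.im with ⟨h, _⟩ | ⟨h, _⟩ <;> rw [h]
    · linarith
    · nlinarith
  have f2 : R * |d.re| ≤ 2 * t := by
    rcases abs_cases d.re with ⟨h, _⟩ | ⟨h, _⟩ <;> rw [h]
    · nlinarith
    · nlinarith
  have f3 : ‖d‖ ≤ |d.re| + |d.im| := Complex.norm_le_abs_re_add_abs_im d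
  have f4 : R * ‖d‖ ≤ 3 * t := by nlinarith
  have f5 : 3 * t = ‖d‖ * (3 * (1 + M)) := by rw [ht]; ring
  rw [f5] at f4
  have f6 : ‖d‖ * (3 * (1 + M)) < ‖d‖ * R := mul_lt_mul_of_pos_left hR hd0
  linarith

/-- **three far sites** such that no old site is on the hull (with the new sites not in `S`) -/
theorem far' (S : Finset ℂ) (hS : GP (S : Set ℂ)) (r : ℝ) :
    ∃ F : Finset ℂ, F.card = 3 ∧ (∀ p ∈ F, r < ‖p‖) ∧ (∀ p ∈ F, p ∉ S) ∧
      GP ((S ∪ F : Finset ℂ) : Set ℂ) ∧ ∀ v ∈ S, ¬ OnHull (S ∪ F) v := by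
  obtain ⟨M, hM0, hM⟩ : ∃ M : ℝ, 0 ≤ M ∧ ∀ v ∈ S, ‖v‖ ≤ M := by
    refine ⟨∑ v ∈ S, ‖v‖, Finset.sum_nonneg fun _ _ => norm_nonneg _, fun v hv => ?_⟩
    exact Finset.single_le_sum (f := fun v => ‖v‖) (fun _ _ => norm_nonneg _) hv
  set R : ℝ := 3 * (1 + M) + 1 + |r| with hR
  have hr := abs_nonneg r
  have hR0 : 0 < R := by rw [hR]; positivity
  have hR3 : 3 * (1 + M) < R := by rw [hR]; linarith
  have hRr : r < R - 1 := by rw [hR]; linarith [le_abs_self r]
  obtain ⟨p0, u0, n0, g0⟩ := gp_add hS (U := Metric.ball ((R : ℂ) * 1) 1) Metric.isOpen_ball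
    ⟨_, Metric.mem_ball_self one_pos⟩
  obtain ⟨p1, u1, n1, g1⟩ := gp_add g0 (U := Metric.ball ((R : ℂ) * (-1 + Complex.I)) 1)
    Metric.isOpen_ball ⟨_, Metric.mem_ball_self one_pos⟩
  obtain ⟨p2, u2, n2, g2⟩ := gp_add g1 (U := Metric.ball ((R : ℂ) * (-1 - Complex.I)) 1)
    Metric.isOpen_ball ⟨_, Metric.mem_ball_self one_pos⟩
  rw [Metric.mem_ball, dist_eq_norm] at u0 u1 u2
  rw [Finset.mem_insert, not_or] at n1 n2
  rw [Finset.mem_insert, not_or] at n2
  have hun : S ∪ {p0, p1, p2} = insert p2 (insert p1 (insert p0 S)) := by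
    ext z
    simp only [Finset.mem_union, Finset.mem_insert, Finset.mem_singleton]
    tauto
  have big : ∀ (p e : ℂ), ‖p - (R : ℂ) * e‖ < 1 → 1 ≤ ‖e‖ → r < ‖p‖ := by
    intro p e hp he
    have k1 : ‖(R : ℂ) * e‖ ≤ ‖p‖ + ‖p - (R : ℂ) * e‖ := by
      have : (R : ℂ) * e = p - (p - (R : ℂ) * e) := by ring
      calc ‖(R : ℂ) * e‖ = ‖p - (p - (R : ℂ) * e)‖ := by rw [← this]
        _ ≤ _ := norm_sub_le _ _
    rw [norm_mul, Complex.norm_real, Real.norm_eq_abs, abs_of_pos hR0] at k1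
    nlinarith
  have ne1 : (1 : ℝ) ≤ ‖(-1 + Complex.I : ℂ)‖ := by
    have := Complex.abs_im_le_norm (-1 + Complex.I : ℂ)
    simpa using this
  have ne2 : (1 : ℝ) ≤ ‖(-1 - Complex.I : ℂ)‖ := by
    have := Complex.abs_im_le_norm (-1 - Complex.I : ℂ)
    simpa using this
  refine ⟨{p0, p1, p2}, ?_, ?_, ?_, ?_, ?_⟩
  · rw [Finset.card_eq_three]
    exact ⟨p0, p1, p2, Ne.symm n1.1, Ne.symm n2.2.1, Ne.symm n2.1, rfl⟩
  · intro p hp
    simp only [Finset.mem_insert, Finset.mem_singleton] at hp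
    rcases hp with rfl | rfl | rfl
    · exact big _ 1 u0 (by simp)
    · exact big _ _ u1 ne1
    · exact big _ _ u2 ne2
  · intro p hp
    simp only [Finset.mem_insert, Finset.mem_singleton] at hp
    rcases hp with rfl | rfl | rfl
    · exact n0
    · exact n1.2
    · exact n2.2.2
  · rw [hun]
    exact g2
  · intro v hv
    refine not_onHull (hM v hv) hM0 hR3 u0 u1 u2 ?_ ?_ ?_ <;>
      simp only [Finset.mem_union, Finset.mem_insert, Finset.mem_singleton] <;> tauto

/-- **(S1) FAR** -/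
theorem far (S : Finset ℂ) (hS : GP (S : Set ℂ)) (r : ℝ) (_hr : 0 < r) :
    ∃ F : Finset ℂ, F.card = 3 ∧ (∀ p ∈ F, r < ‖p‖) ∧
      GP ((S ∪ F : Finset ℂ) : Set ℂ) ∧ ∀ v ∈ S, ¬ OnHull (S ∪ F) v := by
  obtain ⟨F, h1, h2, _, h4, h5⟩ := far' S hS r
  exact ⟨F, h1, h2, h4, h5⟩

end Crest.Agent.R143.Farx832
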