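import Crest.Agent.R143.Frame4_395
import Crest.Agent.R143.Planar_54
import Crest.Agent.R143.Sides_697

/-!
# Row 143 (S0194), part B without E3: the tight frame, part 5 (helper395, after helper493)

* `cm h` : the closed map of a network `HNet S N` (darts = directed sides of the Delaunay triangles
  + three darts of the source face; cells = sites modulo walls)
* `toY` : the configuration of a join; walkers of `B0_346` and of `Frame1_395`
-/

set_option autoImplicit false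

noncomputable section

open scoped Classical

namespace Crest.Agent.R143.Frame5x395

open Crest.Agent.R143.B0x346 Crest.Agent.R143.DelGx806 Crest.Agent.R143.DelRx806
  Crest.Agent.R143.JColx54 Crest.Agent.R143.JCardx872 Crest.Agent.R143.Planarx54
  Crest.Agent.R143.Sidesx697
open Crest.Agent.R143.Frame1x395 Crest.Agent.R143.Frame2x395 Crest.Agent.R143.Frame3x395
  Crest.Agent.R143.Frame4x395

variable {S : Finset ℂ} {N : Net ℂ}

/-- directed sides -/
def sd (S : Finset ℂ) : Finset (ℂ × ℂ) := (delT S).image fun t => (t.1, t.2.1)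

theorem mem_sd {e : ℂ × ℂ} : e ∈ sd S ↔ ∃ c, (e.1, e.2, c) ∈ delT S := by
  unfold sd
  rw [Finset.mem_image]
  constructor
  · rintro ⟨t, ht, rfl⟩
    exact ⟨t.2.2, ht⟩
  · rintro ⟨c, hc⟩
    exact ⟨_, hc, rfl⟩

/-- the third vertex -/
def th (S : Finset ℂ) (e : ℂ × ℂ) : ℂ := if h : ∃ c, (e.1, e.2, c) ∈ delT S then h.choose else 0

theorem th_spec {e : ℂ × ℂ} (he : e ∈ sd S) : (e.1, e.2, th S e) ∈ delT S := by
  unfold th
  rw [dif_pos (mem_sd.1 he)]
  exact (mem_sd.1 he).choose_spec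

theorem th_eq (h : HNet S N) {a b c : ℂ} (ht : (a, b, c) ∈ delT S) : th S (a, b) = c := by
  have h1 := th_spec (S := S) (e := (a, b)) (mem_sd.2 ⟨c, ht⟩)
  have h2 : (a, b, th S (a, b)) ∈ N.T := by rw [h.tri]; exact h1
  have h3 : (a, b, c) ∈ N.T := by rw [h.tri]; exact ht
  exact N.uniq h2 h3

theorem rot_mem (h : HNet S N) {a b c : ℂ} (ht : (a, b, c) ∈ delT S) : (b, c, a) ∈ delT S :=
  delT_rot h.gp ht

/-- darts -/
abbrev Dt (S : Finset ℂ) := {e : ℂ × ℂ // e ∈ sd S} ⊕ ZMod 3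

theorem nx_mem (h : HNet S N) (e : {e : ℂ × ℂ // e ∈ sd S}) : (e.1.2, th S e.1) ∈ sd S :=
  mem_sd.2 ⟨e.1.1, rot_mem h (th_spec e.2)⟩

theorem ex_mem (h : HNet S N) (k : ZMod 3) : N.ex k ∈ sd S := mem_sd.2 (h.hex k).1

theorem rex_mem (h : HNet S N) (k : ZMod 3) : ((N.ex k).2, (N.ex k).1) ∉ sd S := fun hc => by
  obtain ⟨c, hc⟩ := mem_sd.1 hc
  exact (h.hex k).2 c hc

/-- next side -/
def rh (h : HNet S N) : Dt S → Dt S
  | Sum.inl e => Sum.inl ⟨(e.1.2, th S e.1), nx_mem h e⟩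
  | Sum.inr k => Sum.inr (k - 1)

/-- other side of the edge -/
def io (h : HNet S N) : Dt S → Dt S
  | Sum.inl e => if h1 : (e.1.2, e.1.1) ∈ sd S then Sum.inl ⟨(e.1.2, e.1.1), h1⟩
      else if h2 : ∃ k, N.ex k = e.1 then Sum.inr h2.choose else Sum.inl e
  | Sum.inr k => Sum.inl ⟨N.ex k, ex_mem h k⟩

/-- live darts -/
def lv (S : Finset ℂ) (N : Net ℂ) : Set (Dt S) := {d | ∀ e, d = Sum.inl e →
  e.1 ∉ N.kl ∧ ((e.1.2, e.1.1) ∈ sd S ∨ e.1 ∈ N.exS)}

/-- cells -/
def ce (S : Finset ℂ) (N : Net ℂ) : Dt S → Quot (Wall N)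
  | Sum.inl e => Quot.mk _ e.1.1
  | Sum.inr k => Quot.mk _ (N.ex k).2

theorem io_twin (h : HNet S N) {e : {e : ℂ × ℂ // e ∈ sd S}} (h1 : (e.1.2, e.1.1) ∈ sd S) :
    io h (Sum.inl e) = Sum.inl ⟨(e.1.2, e.1.1), h1⟩ := by
  simp only [io]
  rw [dif_pos h1]

theorem io_mark (h : HNet S N) {e : {e : ℂ × ℂ // e ∈ sd S}} {k : ZMod 3} (h1 : N.ex k = e.1) :
    io h (Sum.inl e) = Sum.inr k := by
  have h2 : (e.1.2, e.1.1) ∉ sd S := by rw [← h1]; exact rex_mem h k
  have h3 : ∃ k, N.ex k = e.1 := ⟨k, h1⟩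
  simp only [io]
  rw [dif_neg h2, dif_pos h3]
  exact congrArg Sum.inr (HNet.ex_inj h (h3.choose_spec.trans h1.symm))

theorem io_none (h : HNet S N) {e : {e : ℂ × ℂ // e ∈ sd S}} (h1 : (e.1.2, e.1.1) ∉ sd S)
    (h2 : e.1 ∉ N.exS) : io h (Sum.inl e) = Sum.inl e := by
  simp only [io]
  rw [dif_neg h1, dif_neg]
  rintro ⟨k, hk⟩
  exact h2 ⟨k, hk⟩

theorem io_io (h : HNet S N) (d : Dt S) : io h (io h d) = d := by
  rcases d with e | k
  · by_cases h1 : (e.1.2, e.1.1) ∈ sd S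
    · rw [io_twin h h1, io_twin h (e := ⟨(e.1.2, e.1.1), h1⟩) e.2]
    · by_cases h2 : ∃ k, N.ex k = e.1
      · obtain ⟨k, hk⟩ := h2
        rw [io_mark h hk]
        exact congrArg Sum.inl (Subtype.ext hk)
      · rw [io_none h h1 fun ⟨k, hk⟩ => h2 ⟨k, hk⟩, io_none h h1 fun ⟨k, hk⟩ => h2 ⟨k, hk⟩]
  · exact io_mark h rfl

theorem rh3 (h : HNet S N) (d : Dt S) : rh h (rh h (rh h d)) = d := by
  rcases d with ⟨⟨a, b⟩, he⟩ | k
  · have h1 := th_spec he
    have h2 := rot_mem h h1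
    have h3 := rot_mem h h2
    have e2 : th S (b, th S (a, b)) = a := th_eq h h2
    have e3 : th S (th S (a, b), a) = b := th_eq h h3
    show Sum.inl _ = _
    congr 1
    apply Subtype.ext
    show (th S (b, th S (a, b)), th S (th S (a, b), th S (b, th S (a, b)))) = (a, b)
    rw [e2, e3]
  · show Sum.inr (k - 1 - 1 - 1) = Sum.inr k
    congr 1
    revert k; decide

theorem ne_of_sd (h : HNet S N) {e : ℂ × ℂ} (he : e ∈ sd S) : e.1 ≠ e.2 := by
  have := th_spec he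
  rw [← h.tri] at this
  exact N.ne this

theorem rh_ne (h : HNet S N) (d : Dt S) : rh h d ≠ d := by
  rcases d with ⟨⟨a, b⟩, he⟩ | k
  · intro hc
    have h1 := congrArg (fun e : {e : ℂ × ℂ // e ∈ sd S} => e.1.1) (Sum.inl.inj hc)
    exact ne_of_sd h he h1.symm
  · intro hc
    have key : ∀ k : ZMod 3, k - 1 ≠ k := by decide
    exact key k (Sum.inr.inj hc)

theorem wall_of_dead (h : HNet S N) {e : {e : ℂ × ℂ // e ∈ sd S}}
    (he : ¬ (e.1 ∉ N.kl ∧ ((e.1.2, e.1.1) ∈ sd S ∨ e.1 ∈ N.exS))) : Wall N e.1.1 e.1.2 := by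
  obtain ⟨⟨a, b⟩, hs⟩ := e
  have h1 := th_spec hs
  have hT : (a, b, th S (a, b)) ∈ N.T := by rw [h.tri]; exact h1
  have hE := (mem_E_of_tri hT).1
  have hr : (b, a) ∉ N.exS := by
    rintro ⟨k, hk⟩
    have := (h.hex k).2 (th S (a, b))
    rw [hk] at this
    exact this h1
  by_cases hk : (a, b) ∈ N.kl
  · refine ⟨hE, ?_, hr, Or.inl hk⟩
    rintro ⟨k, hk'⟩
    exact h.live k (hk' ▸ hk)
  · have h2 : (b, a) ∉ sd S ∧ (a, b) ∉ N.exS := by
      constructor
      · intro hc; exact he ⟨hk, Or.inl hc⟩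
      · intro hc; exact he ⟨hk, Or.inr hc⟩
    refine ⟨hE, h2.2, hr, Or.inr (Or.inl fun c hc => h2.1 (mem_sd.2 ⟨c, ?_⟩))⟩
    rw [← h.tri]; exact hc

/-- consecutive marks -/
theorem next_cell (h : HNet S N) (k : ZMod 3) :
    (Quot.mk (Wall N) (N.ex k).1 : Quot (Wall N)) = Quot.mk (Wall N) (N.ex (k - 1)).2 := by
  obtain ⟨n, w, hw⟩ := hull_cycle h.gp (HNet.card h)
  obtain ⟨m, P⟩ := exists_pos h hw
  have h1 := (marks3 h hw P).next (k - 1)
  rw [sub_add_cancel] at h1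
  have key : ∀ v, Relation.ReflTransGen (Wall N) (N.ex (k - 1)).2 v →
      (Quot.mk (Wall N) v : Quot (Wall N)) = Quot.mk (Wall N) (N.ex (k - 1)).2 := by
    intro v hv
    induction hv with
    | refl => rfl
    | tail _ hs ih => rw [← ih]; exact (Quot.sound hs).symm
  exact key _ h1

/-- **exactness** -/
theorem cm_ex (h : HNet S N) (x : Dt S → ZMod 2) (hd : ∀ d, d ∉ lv S N → x d = 0)
    (hi : ∀ d, x (io h d) = x d) (hp : ∀ d, x d + x (rh h d) + x (rh h (rh h d)) = 0) :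
    ∃ χ : Quot (Wall N) → ZMod 2, ∀ d, x d = χ (ce S N d) + χ (ce S N (rh h d)) := by
  set f : ℂ → ℂ → ZMod 2 := fun a b => if h1 : (a, b) ∈ sd S then x (Sum.inl ⟨(a, b), h1⟩)
    else if h2 : (b, a) ∈ sd S then x (Sum.inl ⟨(b, a), h2⟩) else 0 with hf
  have f1 : ∀ {a b} (h1 : (a, b) ∈ sd S), f a b = x (Sum.inl ⟨(a, b), h1⟩) := by
    intro a b h1
    simp only [hf, dif_pos h1]
  have f2 : ∀ {a b} (h1 : (a, b) ∈ sd S), f b a = f a b := by
    intro a b h1
    rw [f1 h1]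
    by_cases h2 : (b, a) ∈ sd S
    · rw [f1 h2, ← hi (Sum.inl ⟨(b, a), h2⟩), io_twin h (e := ⟨(b, a), h2⟩) h1]
    · simp only [hf, dif_neg h2, dif_pos h1]
  have neg2 : ∀ a : ZMod 2, -a = a := by decide
  obtain ⟨σ, hσ⟩ := JColx54.exact h.gp (A := ZMod 2) (f := f)
    (fun a b hab => by
      rw [neg2]
      rcases hab with ⟨c, hc⟩ | ⟨c, hc⟩
      · exact f2 (mem_sd.2 ⟨c, hc⟩)
      · exact (f2 (mem_sd.2 ⟨c, hc⟩)).symm)
    (fun a b c ht => by
      have m1 : (a, b) ∈ sd S := mem_sd.2 ⟨c, ht⟩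
      have m2 : (b, c) ∈ sd S := mem_sd.2 ⟨a, rot_mem h ht⟩
      have m3 : (c, a) ∈ sd S := mem_sd.2 ⟨b, rot_mem h (rot_mem h ht)⟩
      have h1 := hp (Sum.inl ⟨(a, b), m1⟩)
      have e1 : rh h (Sum.inl ⟨(a, b), m1⟩) = Sum.inl ⟨(b, c), m2⟩ := by
        show Sum.inl _ = _
        congr 1
        exact Subtype.ext (Prod.ext rfl (th_eq h ht))
      have e2 : rh h (Sum.inl ⟨(b, c), m2⟩) = Sum.inl ⟨(c, a), m3⟩ := by
        show Sum.inl _ = _
        congr 1
        exact Subtype.ext (Prod.ext rfl (th_eq h (rot_mem h ht)))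
      rw [e1, e2] at h1
      rw [f1 m1, f1 m2, f1 m3]
      exact h1)
  have sub2 : ∀ a b : ZMod 2, b - a = a + b := by decide
  have key : ∀ e : {e : ℂ × ℂ // e ∈ sd S}, x (Sum.inl e) = σ e.1.1 + σ e.1.2 := by
    rintro ⟨⟨a, b⟩, he⟩
    obtain ⟨c, hc⟩ := mem_sd.1 he
    have h1 := hσ a b (Or.inl ⟨c, hc⟩)
    rw [f1 he, sub2] at h1
    exact h1
  have hw : ∀ a b, Wall N a b → σ a = σ b := by
    have aux : ∀ a b, (a, b) ∈ sd S → ((a, b) ∈ N.kl ∨ (b, a) ∉ sd S) → (a, b) ∉ N.exS →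
        σ a = σ b := by
      intro a b hs hk hex
      have h1 := hd (Sum.inl ⟨(a, b), hs⟩) (fun hl => by
        obtain ⟨h2, h3⟩ := hl _ rfl
        rcases hk with hk | hk
        · exact h2 hk
        · rcases h3 with h3 | h3
          · exact hk h3
          · exact hex h3)
      rw [key] at h1
      revert h1
      generalize σ a = u
      generalize σ b = v
      revert u v; decide
    rintro a b ⟨hE, h1, h2, h3⟩
    have hT : ∀ u v c, (u, v, c) ∈ N.T ↔ (u, v, c) ∈ delT S := fun u v c => by rw [h.tri]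
    simp only [hT] at h3
    have hs : (a, b) ∈ sd S ∨ (b, a) ∈ sd S := by
      unfold Trg.E at hE
      rw [Finset.mem_union, Finset.mem_image, Finset.mem_image] at hE
      rcases hE with ⟨t, ht, e⟩ | ⟨t, ht, e⟩
      · left
        rw [h.tri] at ht
        rw [← e]
        exact mem_sd.2 ⟨t.2.2, ht⟩
      · right
        rw [h.tri] at ht
        have : (b, a) = (t.1, t.2.1) :=
          Prod.ext (Prod.ext_iff.1 e).2.symm (Prod.ext_iff.1 e).1.symm
        rw [this]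
        exact mem_sd.2 ⟨t.2.2, ht⟩
    rcases h3 with h3 | h3 | h3
    · rcases hs with hs | hs
      · exact aux a b hs (Or.inl h3) h1
      · exact (aux b a hs (Or.inl (N.klsym _ _ h3)) h2).symm
    · rcases hs with hs | hs
      · exact aux a b hs (Or.inr fun hc => by
          obtain ⟨c, hc⟩ := mem_sd.1 hc
          exact h3 c hc) h1
      · exfalso
        obtain ⟨c, hc⟩ := mem_sd.1 hs
        exact h3 c hc
    · rcases hs with hs | hs
      · exfalso
        obtain ⟨c, hc⟩ := mem_sd.1 hs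
        exact h3 c hc
      · exact (aux b a hs (Or.inr fun hc => by
          obtain ⟨c, hc⟩ := mem_sd.1 hc
          exact h3 c hc) h2).symm
  refine ⟨Quot.lift σ hw, ?_⟩
  rintro (e | k)
  · exact key e
  · have h1 := hi (Sum.inr k)
    rw [← h1]
    show x (Sum.inl ⟨N.ex k, ex_mem h k⟩) = Quot.lift σ hw (Quot.mk _ (N.ex k).2) +
      Quot.lift σ hw (Quot.mk _ (N.ex (k - 1)).2)
    rw [key, ← next_cell h k, add_comm]

/-- **the closed map of a network** -/
def cm (h : HNet S N) : CMap (Dt S) (Quot (Wall N)) where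
  rho := rh h
  rho3 := rh3 h
  rho_ne := rh_ne h
  iota := io h
  iota2 := io_io h
  live := lv S N
  iota_live := by
    rintro (e | k) hd e' he'
    · obtain ⟨h1, h2⟩ := hd e rfl
      rcases h2 with h2 | ⟨k, hk⟩
      · rw [io_twin h h2] at he'
        rw [← Sum.inl.inj he']
        exact ⟨fun hc => h1 (N.klsym _ _ hc), Or.inl e.2⟩
      · rw [io_mark h hk] at he'
        exact absurd he' (by simp)
    · have := Sum.inl.inj (show (Sum.inl ⟨N.ex k, ex_mem h k⟩ : Dt S) = Sum.inl e' from he')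
      rw [← this]
      exact ⟨h.live k, Or.inr ⟨k, rfl⟩⟩
  iota_ne := by
    rintro (e | k) hd
    · obtain ⟨h1, h2⟩ := hd e rfl
      rcases h2 with h2 | ⟨k, hk⟩
      · rw [io_twin h h2]
        intro hc
        have h3 := congrArg (fun e : {e : ℂ × ℂ // e ∈ sd S} => e.1.1) (Sum.inl.inj hc)
        exact ne_of_sd h e.2 h3.symm
      · rw [io_mark h hk]
        simp
    · intro hc
      exact absurd (show (Sum.inl ⟨N.ex k, ex_mem h k⟩ : Dt S) = Sum.inr k from hc) (by simp)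
  cell := ce S N
  cell_iota := by
    rintro (e | k) hd
    · obtain ⟨h1, h2⟩ := hd e rfl
      rcases h2 with h2 | ⟨k, hk⟩
      · rw [io_twin h h2]
        rfl
      · rw [io_mark h hk]
        show Quot.mk _ (N.ex k).2 = Quot.mk _ e.1.2
        rw [hk]
    · exact next_cell h k
  dead := by
    rintro (e | k) hd
    · have h1 : ¬ (e.1 ∉ N.kl ∧ ((e.1.2, e.1.1) ∈ sd S ∨ e.1 ∈ N.exS)) := by
        intro hc
        apply hd
        intro e' he'
        rw [← Sum.inl.inj he']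
        exact hc
      exact Quot.sound (wall_of_dead h h1)
    · exfalso
      apply hd
      intro e' he'
      exact absurd he' (by simp)
  ex := cm_ex h

end Crest.Agent.R143.Frame5x395
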