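import Crest.Agent.R143.Frame9_395
import Crest.Agent.R143.Frame5_395

/-!
# Row 143 (S0194): the closed map of a finite Delaunay triangulation, wired hull (helper395)

* `cm0 hS` : darts = directed sides of the Delaunay triangles of `S`, hull edges dead, cells = sites
  modulo hull edges
* `gen_inner` : the sites which are not on the hull are genuine cells
* `cell_eq` : different inner sites are different cells
-/

set_option autoImplicit false

noncomputable section

open scoped Classical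

namespace Crest.Agent.R143.Frame10x395

open Crest.Agent.R143.B0x346 Crest.Agent.R143.DelGx806 Crest.Agent.R143.DelRx806
  Crest.Agent.R143.JColx54
open Crest.Agent.R143.Frame1x395 Crest.Agent.R143.Frame2x395 Crest.Agent.R143.Frame3x395
  Crest.Agent.R143.Frame4x395 Crest.Agent.R143.Frame8x395 Crest.Agent.R143.Frame9x395
open Crest.Agent.R143.Frame5x395 (sd mem_sd th th_spec)

variable {S : Finset ℂ}

theorem th0 (hS : GP (S : Set ℂ)) {a b c : ℂ} (ht : (a, b, c) ∈ delT S) : th S (a, b) = c :=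
  (g1 S hS).2.1 _ _ _ _ (th_spec (S := S) (e := (a, b)) (mem_sd.2 ⟨c, ht⟩)) ht

/-- darts -/
abbrev D0 (S : Finset ℂ) := {e : ℂ × ℂ // e ∈ sd S}

/-- next side -/
def rh0 (hS : GP (S : Set ℂ)) (e : D0 S) : D0 S :=
  ⟨(e.1.2, th S e.1), mem_sd.2 ⟨e.1.1, delT_rot hS (th_spec e.2)⟩⟩

/-- other side -/
def io0 (e : D0 S) : D0 S := if h : (e.1.2, e.1.1) ∈ sd S then ⟨(e.1.2, e.1.1), h⟩ else e

/-- live darts -/
def lv0 (S : Finset ℂ) : Set (D0 S) := {e | (e.1.2, e.1.1) ∈ sd S}

/-- cells -/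
def ce0 (S : Finset ℂ) (e : D0 S) : Quot (hullE S) := Quot.mk _ e.1.1

theorem io0_live {e : D0 S} (h : (e.1.2, e.1.1) ∈ sd S) : io0 e = ⟨(e.1.2, e.1.1), h⟩ := dif_pos h

theorem io0_dead {e : D0 S} (h : (e.1.2, e.1.1) ∉ sd S) : io0 e = e := dif_neg h

theorem ne0 (hS : GP (S : Set ℂ)) {e : ℂ × ℂ} (he : e ∈ sd S) : e.1 ≠ e.2 :=
  (g1 S hS).2.2 _ _ _ (th_spec he)

theorem hull_of_dead {e : D0 S} (h : e ∉ lv0 S) : hullE S e.1.1 e.1.2 := by
  refine ⟨mem_sd.1 e.2, fun c hc => h ?_⟩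
  exact mem_sd.2 ⟨c, hc⟩

/-- exactness -/
theorem cm0_ex (hS : GP (S : Set ℂ)) (x : D0 S → ZMod 2) (hd : ∀ d, d ∉ lv0 S → x d = 0)
    (hi : ∀ d, x (io0 d) = x d) (hp : ∀ d, x d + x (rh0 hS d) + x (rh0 hS (rh0 hS d)) = 0) :
    ∃ χ : Quot (hullE S) → ZMod 2, ∀ d, x d = χ (ce0 S d) + χ (ce0 S (rh0 hS d)) := by
  set f : ℂ → ℂ → ZMod 2 := fun a b => if h1 : (a, b) ∈ sd S then x ⟨(a, b), h1⟩
    else if h2 : (b, a) ∈ sd S then x ⟨(b, a), h2⟩ else 0 with hf
  have f1 : ∀ {a b} (h1 : (a, b) ∈ sd S), f a b = x ⟨(a, b), h1⟩ := by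
    intro a b h1
    simp only [hf, dif_pos h1]
  have f2 : ∀ {a b} (h1 : (a, b) ∈ sd S), f b a = f a b := by
    intro a b h1
    rw [f1 h1]
    by_cases h2 : (b, a) ∈ sd S
    · rw [f1 h2, ← hi ⟨(b, a), h2⟩, io0_live (e := ⟨(b, a), h2⟩) h1]
    · simp only [hf, dif_neg h2, dif_pos h1]
  have neg2 : ∀ a : ZMod 2, -a = a := by decide
  obtain ⟨σ, hσ⟩ := JColx54.exact hS (A := ZMod 2) (f := f)
    (fun a b hab => by
      rw [neg2]
      rcases hab with ⟨c, hc⟩ | ⟨c, hc⟩
      · exact f2 (mem_sd.2 ⟨c, hc⟩)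
      · exact (f2 (mem_sd.2 ⟨c, hc⟩)).symm)
    (fun a b c ht => by
      have m1 : (a, b) ∈ sd S := mem_sd.2 ⟨c, ht⟩
      have m2 : (b, c) ∈ sd S := mem_sd.2 ⟨a, delT_rot hS ht⟩
      have m3 : (c, a) ∈ sd S := mem_sd.2 ⟨b, delT_rot hS (delT_rot hS ht)⟩
      have h1 := hp ⟨(a, b), m1⟩
      have e1 : rh0 hS ⟨(a, b), m1⟩ = ⟨(b, c), m2⟩ :=
        Subtype.ext (Prod.ext rfl (th0 hS ht))
      have e2 : rh0 hS ⟨(b, c), m2⟩ = ⟨(c, a), m3⟩ :=
        Subtype.ext (Prod.ext rfl (th0 hS (delT_rot hS ht)))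
      rw [e1, e2] at h1
      rw [f1 m1, f1 m2, f1 m3]
      exact h1)
  have sub2 : ∀ a b : ZMod 2, b - a = a + b := by decide
  have key : ∀ e : D0 S, x e = σ e.1.1 + σ e.1.2 := by
    rintro ⟨⟨a, b⟩, he⟩
    obtain ⟨c, hc⟩ := mem_sd.1 he
    have h1 := hσ a b (Or.inl ⟨c, hc⟩)
    rw [f1 he, sub2] at h1
    exact h1
  have hw : ∀ a b, hullE S a b → σ a = σ b := by
    intro a b hab
    have hs : (a, b) ∈ sd S := mem_sd.2 hab.1
    have h1 := hd ⟨(a, b), hs⟩ (fun hl => by
      obtain ⟨c, hc⟩ := mem_sd.1 hl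
      exact hab.2 c hc)
    rw [key] at h1
    revert h1
    generalize σ a = u
    generalize σ b = v
    revert u v; decide
  exact ⟨Quot.lift σ hw, fun e => key e⟩

/-- **the closed map of a finite Delaunay triangulation** -/
def cm0 (hS : GP (S : Set ℂ)) : CMap (D0 S) (Quot (hullE S)) where
  rho := rh0 hS
  rho3 := by
    rintro ⟨⟨a, b⟩, he⟩
    have h1 := th_spec he
    have h2 := delT_rot hS h1
    have h3 := delT_rot hS h2
    have e2 : th S (b, th S (a, b)) = a := th0 hS h2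
    have e3 : th S (th S (a, b), a) = b := th0 hS h3
    apply Subtype.ext
    show (th S (b, th S (a, b)), th S (th S (a, b), th S (b, th S (a, b)))) = (a, b)
    rw [e2, e3]
  rho_ne := by
    rintro ⟨⟨a, b⟩, he⟩ hc
    have h1 := congrArg (fun e : D0 S => e.1.1) hc
    exact ne0 hS he h1.symm
  iota := io0
  iota2 := by
    intro e
    by_cases h : (e.1.2, e.1.1) ∈ sd S
    · rw [io0_live h, io0_live (e := ⟨(e.1.2, e.1.1), h⟩) e.2]
    · rw [io0_dead h, io0_dead h]
  live := lv0 S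
  iota_live := by
    intro e he
    rw [io0_live he]
    exact e.2
  iota_ne := by
    intro e he
    rw [io0_live he]
    intro hc
    have h1 := congrArg (fun e : D0 S => e.1.1) hc
    exact ne0 hS e.2 h1.symm
  cell := ce0 S
  cell_iota := by
    intro e he
    rw [io0_live he]
    rfl
  dead := by
    intro e he
    exact Quot.sound (hull_of_dead he)
  ex := cm0_ex hS

/-- site on the hull -/
def OnHull (S : Finset ℂ) (v : ℂ) : Prop := ∃ a, hullE S a v

theorem onHull_left (hS : GP (S : Set ℂ)) {a b : ℂ} (h : hullE S a b) : OnHull S a :=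
  hull_pred hS h

/-- a site which is not on the hull is alone in its cell -/
theorem quot_inner (hS : GP (S : Set ℂ)) {v a : ℂ} (hv : ¬ OnHull S v)
    (h : (Quot.mk (hullE S) v : Quot (hullE S)) = Quot.mk _ a) : a = v := by
  set P : Quot (hullE S) → Prop := Quot.lift (fun u => u = v) (by
    intro a b hab
    apply propext
    constructor
    · rintro rfl; exact absurd (onHull_left hS hab) hv
    · rintro rfl; exact absurd ⟨a, hab⟩ hv) with hP
  have h1 : P (Quot.mk _ v) := rfl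
  rw [h] at h1
  exact h1

/-- **the sites which are not on the hull are genuine cells** -/
theorem gen_inner (hS : GP (S : Set ℂ)) {v : ℂ} (hv : ¬ OnHull S v) :
    Gen (cm0 hS) (Quot.mk _ v) := by
  have key : ∀ a : D0 S, (cm0 hS).cell a = Quot.mk _ v → a.1.1 = v := fun a ha =>
    quot_inner hS hv (show (Quot.mk (hullE S) v : Quot (hullE S)) = Quot.mk _ a.1.1 from ha.symm)
  have lv : ∀ a : D0 S, (cm0 hS).cell a = Quot.mk _ v → (cm0 hS).rho ((cm0 hS).rho a) ∈ lv0 S := by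
    intro a ha
    by_contra hc
    have h1 := hull_of_dead hc
    have h2 : ((cm0 hS).rho ((cm0 hS).rho a)).1.2 = a.1.1 := by
      have := congrArg (fun e : D0 S => e.1.1) ((cm0 hS).rho3 a)
      exact this
    rw [h2, key a ha] at h1
    exact hv ⟨_, h1⟩
  refine ⟨lv, ?_, ?_⟩
  · rintro ⟨⟨v', a⟩, ha⟩ ⟨⟨v'', b⟩, hb⟩ h1 h2
    have e1 : v' = v := key _ h1
    have e2 : v'' = v := key _ h2
    subst e1
    subst e2
    obtain ⟨c, hc⟩ := mem_sd.1 ha
    obtain ⟨c', hc'⟩ := mem_sd.1 hb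
    have hv' : ∀ a, ¬ hullE S a v'' := fun a h => hv ⟨a, h⟩
    set G : Trg ℂ := ⟨delT S, fun {a b c} h => delT_rot hS h,
      fun {a b c d} h h' => (g1 S hS).2.1 _ _ _ _ h h', fun {a b c} h => (g1 S hS).2.2 _ _ _ h⟩
      with hG
    obtain ⟨d, u, hR, hu0, hall⟩ := ring_exists hS (v := v'') (u0 := a)
      (mem_nbs.2 ⟨c, hc⟩) hv' (G := G) rfl
    obtain ⟨i, hi, -⟩ := hall _ _ hc'
    have hd := hR.pos
    have hper : ∀ (k : ℕ) (j : ℤ), u (j + k * d) = u j := by
      intro k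
      induction k with
      | zero => intro j; simp
      | succ k ih =>
        intro j
        have : j + ((k + 1 : ℕ) : ℤ) * d = (j + k * d) + d := by push_cast; ring
        rw [this, hR.per, ih]
    obtain ⟨n, hn⟩ : ∃ n : ℕ, u n = b := by
      refine ⟨(i + i.natAbs * d).toNat, ?_⟩
      have h3 : (0 : ℤ) ≤ i + i.natAbs * d := by
        have h4 : (1 : ℤ) ≤ d := by exact_mod_cast hd
        have h5 : -(i.natAbs : ℤ) ≤ i := by omega
        nlinarith [Int.natCast_nonneg i.natAbs]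
      rw [Int.toNat_of_nonneg h3, hper]
      exact hi
    refine ⟨n, ?_⟩
    have hit : ∀ m : ℕ, ((phi (cm0 hS))^[m] ⟨(v'', a), ha⟩ : D0 S).1 = (v'', u m) := by
      intro m
      induction m with
      | zero => exact Prod.ext rfl hu0.symm
      | succ m ih =>
        rw [Function.iterate_succ_apply']
        set e := (phi (cm0 hS))^[m] ⟨(v'', a), ha⟩ with he
        have hm := hR.mem m
        have hm' : (v'', u m, u (m + 1)) ∈ delT S := hm
        have t1 : th S e.1 = u (m + 1) := by rw [ih]; exact th0 hS hm'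
        have t2 : th S (u m, u (m + 1)) = v'' := th0 hS (delT_rot hS hm')
        have r2 : ((cm0 hS).rho ((cm0 hS).rho e)).1 = (u (m + 1), v'') := by
          show (th S e.1, th S (e.1.2, th S e.1)) = _
          rw [t1, ih]
          exact Prod.ext rfl t2
        have hl : (((cm0 hS).rho ((cm0 hS).rho e)).1.2, ((cm0 hS).rho ((cm0 hS).rho e)).1.1) ∈
            sd S := by
          apply lv
          show Quot.mk _ e.1.1 = _
          rw [ih]
        have h6 : phi (cm0 hS) e = ⟨_, hl⟩ := io0_live hl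
        rw [h6]
        show (((cm0 hS).rho ((cm0 hS).rho e)).1.2, ((cm0 hS).rho ((cm0 hS).rho e)).1.1) = _
        rw [r2]
        push_cast
        rfl
    apply Subtype.ext
    rw [hit n, hn]
  · rintro ⟨⟨v', a⟩, ha⟩ h1 h2
    have e1 : v' = v := key _ h1
    have h3 := key _ h2
    have h4 : th S (v', a) = v := h3
    have h5 := th_spec ha
    rw [h4, ← e1] at h5
    have h6 := (g1 S hS).2.2 _ _ _ (delT_rot hS (delT_rot hS h5))
    exact h6 rfl

end Crest.Agent.R143.Frame10x395
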