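import Crest.Agent.R143.Mass3_302
import Crest.Agent.R143.Frame10_395
import Crest.Agent.R143.Far_832

/-!
# Row 143 (S0194): MASS, part 4 (helper302)

* `sum_swap` : mean over the even configurations of a sum over the compatible local objects
* `le_blocks`, `blocks_le` : local objects against the blocks of the closed map
* `agr0` : `cm0 hS` agrees with the Delaunay triangulation inside `U`
* `ph_le` : the total weight of the objects inside `U` is at most the sum of `‖N‖²` over the faces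
  with circumdisc in `U`
-/

set_option autoImplicit false

noncomputable section

open scoped Classical

namespace Crest.Agent.R143.Mass4x302

open Crest.Agent.R143.B0x346 Crest.Agent.R143.SumScx302 Crest.Agent.R143.Mass1x302
  Crest.Agent.R143.DelGx806 Crest.Agent.R143.DelRx806 Crest.Agent.R143.Mass2x302
  Crest.Agent.R143.Mass3x302 Crest.Agent.R143.JColx54
open Crest.Agent.R143.Frame1x395 Crest.Agent.R143.Frame2x395 Crest.Agent.R143.Frame3x395
  Crest.Agent.R143.Frame4x395 Crest.Agent.R143.Frame8x395 Crest.Agent.R143.Frame10x395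
open Crest.Agent.R143.Frame5x395 (sd mem_sd th th_spec)
open scoped ENNReal

variable {D C : Type} {M : CMap D C} {P U : Set ℂ} {δ : ℂ → ℂ → D} {κ : ℂ → C}
variable {x : D → ZMod 2} {l : Finset T3}

theorem lpU_of {o : Obj} (h : IsOb P o) (hU : spt o ⊆ U) : LpU P U o.1 :=
  ⟨h.1, fun _ ht => (Set.subset_biUnion_of_mem (u := fun t => cdisc t) ht).trans hU⟩

/-! ### the mean over the colours -/

theorem wgt_mul [Fintype D] (A : Agr P U M δ κ) (h : LpU P U l) (c : ℝ≥0∞) :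
    ((ev M).card : ℝ≥0∞) * (c * ENNReal.ofReal (pc l)) =
      ∑ x ∈ ev M, if Cpt δ x l then c else 0 := by
  rw [← Finset.sum_filter, Finset.sum_const, nsmul_eq_mul]
  have h1 := card_cpt A h
  have h2 : (((ev M).filter fun x => Cpt δ x l).card : ℝ≥0∞) =
      ((ev M).card : ℝ≥0∞) * ENNReal.ofReal (pc l) := by
    have h3 : (((ev M).filter fun x => Cpt δ x l).card : ℝ) = ((ev M).card : ℝ) * pc l := by
      unfold pc
      have h4 : (0 : ℝ) < 2 ^ (lf l ∪ rt l).card := by positivity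
      rw [mul_div_assoc', eq_div_iff h4.ne']
      have h5 : ((((ev M).filter fun x => Cpt δ x l).card * 2 ^ (lf l ∪ rt l).card : ℕ) : ℝ) =
        ((2 * (ev M).card : ℕ) : ℝ) := by rw [h1]
      push_cast at h5
      linarith
    rw [← ENNReal.ofReal_natCast, h3, ENNReal.ofReal_mul (Nat.cast_nonneg _),
      ENNReal.ofReal_natCast]
  rw [h2]
  ring

theorem sum_swap [Fintype D] (A : Agr P U M δ κ) (R : Obj → Prop) (f : Obj → ℝ≥0∞) :
    ((ev M).card : ℝ≥0∞) * ∑' o : Obj, (if IsOb P o ∧ spt o ⊆ U ∧ R o then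
      f o * ENNReal.ofReal (pc o.1) else 0) =
    ∑ x ∈ ev M, ∑' o : Obj, if (IsOb P o ∧ spt o ⊆ U ∧ R o) ∧ Cpt δ x o.1 then f o else 0 := by
  rw [← Summable.tsum_finsetSum (fun _ _ => ENNReal.summable), ← ENNReal.tsum_mul_left]
  refine tsum_congr fun o => ?_
  by_cases h : IsOb P o ∧ spt o ⊆ U ∧ R o
  · rw [if_pos h, wgt_mul A (lpU_of h.1 h.2.1)]
    refine Finset.sum_congr rfl fun x _ => ?_
    by_cases h2 : Cpt δ x o.1
    · rw [if_pos h2, if_pos ⟨h, h2⟩]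
    · rw [if_neg h2, if_neg fun h3 => h2 h3.2]
  · rw [if_neg h, mul_zero]
    symm
    refine Finset.sum_eq_zero fun x _ => ?_
    rw [if_neg fun h3 => h h3.1]

/-- block of the closed map of a compatible object -/
def im (δ : ℂ → ℂ → D) (o : Obj) : Finset D := o.2.image (gd δ)

theorem im_mem [Fintype D] (A : Agr P U M δ κ) (hx : IsC M ∅ x) {o : Obj} (ho : IsOb P o)
    (hU : spt o ⊆ U) (hc : Cpt δ x o.1) : im δ o ∈ blks M x := by
  obtain ⟨l, β⟩ := o
  obtain ⟨hl, s, hs, h1, h2⟩ := ho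
  have h := lpU_of (o := (l, β)) ⟨hl, s, hs, h1, h2⟩ hU
  change β = bl l s at h2
  change s ∈ l at hs
  change s.2.2 ∈ lf l at h1
  change Cpt δ x l at hc
  have gs := (A.gap_iff hx h hc hs).2 h1
  have e := A.blk_img hx h hc hs h1
  show β.image (gd δ) ∈ blks M x
  rw [h2, ← e]
  exact Finset.mem_image_of_mem _ (mem_gaps.2 gs)

/-- the loop is determined by one of its states -/
theorem lp_uniq (A : Agr P U M δ κ) (hx : IsC M ∅ x) {l l' : Finset T3} (h : LpU P U l)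
    (h' : LpU P U l') (hc : Cpt δ x l) (hc' : Cpt δ x l') {s s' : T3} (hs : s ∈ l)
    (hs' : s' ∈ l') (e : dd δ s = dd δ s') : l = l' := by
  have key : ∀ {l l' : Finset T3}, LpU P U l → LpU P U l' → Cpt δ x l → Cpt δ x l' →
      ∀ {s s' : T3}, s ∈ l → s' ∈ l' → dd δ s = dd δ s' → l ⊆ l' := by
    intro l l' h h' hc hc' s s' hs hs' e t ht
    have h0 : Relation.ReflTransGen (fun u v => v ∈ l ∧ St l u v ∧ True) s t :=
      rtg_map (Equiv.refl T3) (fun u v a => ⟨a.1, a.2, trivial⟩) (h.lp.orb s hs t ht)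
    obtain ⟨-, -, n, h3, -⟩ := A.rtg hx h hc (Q := fun _ => True) hs h0 trivial
    obtain ⟨u, hu, e2⟩ := A.iter hx h' hc' hs' n
    rw [← e, h3] at e2
    obtain ⟨e3, e4, e5⟩ := A.dinj (h.fc ht) (h'.fc hu) e2
    have : t = u := Prod.ext e3 (Prod.ext e4 e5)
    rw [this]; exact hu
  exact Finset.Subset.antisymm (key h h' hc hc' hs hs' e) (key h' h hc' hc hs' hs e.symm)

/-- **a compatible object is determined by its block** -/
theorem im_inj (A : Agr P U M δ κ) (hx : IsC M ∅ x) {o o' : Obj} (ho : IsOb P o)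
    (hU : spt o ⊆ U) (hc : Cpt δ x o.1) (ho' : IsOb P o') (hU' : spt o' ⊆ U)
    (hc' : Cpt δ x o'.1) (e : im δ o = im δ o') : o = o' := by
  have h := lpU_of ho hU
  have h' := lpU_of ho' hU'
  obtain ⟨l, β⟩ := o
  obtain ⟨l', β'⟩ := o'
  obtain ⟨hl, s, hs, h1, h2⟩ := ho
  obtain ⟨hl', s', hs', h1', h2'⟩ := ho'
  change β.image (gd δ) = β'.image (gd δ) at e
  change β = bl l s at h2
  change β' = bl l' s' at h2'
  change s ∈ l at hs
  change s' ∈ l' at hs'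
  change s.2.2 ∈ lf l at h1
  change LpU P U l at h
  change LpU P U l' at h'
  have bsub : ∀ t ∈ β, t ∈ l := by
    intro t ht
    rw [h2] at ht
    exact (Finset.mem_filter.1 ht).1
  have bsub' : ∀ t ∈ β', t ∈ l' := by
    intro t ht
    rw [h2'] at ht
    exact (Finset.mem_filter.1 ht).1
  have sβ : s ∈ β := by
    rw [h2]
    exact Finset.mem_filter.2 ⟨hs, h1, fun c => Or.inl rfl⟩
  have key : ∀ t ∈ l, ∀ t' ∈ l', gd δ t = gd δ t' → t = t' := by
    intro t ht t' ht' e1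
    have e2 : dd δ t = dd δ t' := by
      rw [← A.gd_rho (h.fc ht), ← A.gd_rho (h'.fc ht'), e1]
    obtain ⟨e3, e4, e5⟩ := A.dinj (h.fc ht) (h'.fc ht') e2
    exact Prod.ext e3 (Prod.ext e4 e5)
  have hb : β = β' := by
    ext t
    constructor
    · intro ht
      have h3 := Finset.mem_image_of_mem (gd δ) ht
      rw [e] at h3
      obtain ⟨t', ht', e1⟩ := Finset.mem_image.1 h3
      rw [key t (bsub t ht) t' (bsub' t' ht') e1.symm]
      exact ht'
    · intro ht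
      have h3 := Finset.mem_image_of_mem (gd δ) ht
      rw [← e] at h3
      obtain ⟨t', ht', e1⟩ := Finset.mem_image.1 h3
      rw [← key t' (bsub t' ht') t (bsub' t ht) e1]
      exact ht'
  have hl2 : l = l' :=
    lp_uniq A hx h h' hc hc' hs (bsub' s (hb ▸ sβ)) rfl
  rw [hb, hl2]

/-- **local objects ≤ blocks** -/
theorem le_blocks [Fintype D] (A : Agr P U M δ κ) (hx : IsC M ∅ x) (R : Obj → Prop)
    (f : Obj → ℝ≥0∞) (F : Finset D → ℝ≥0∞)
    (hF : ∀ o, IsOb P o → spt o ⊆ U → Cpt δ x o.1 → f o ≤ F (im δ o)) :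
    (∑' o : Obj, if (IsOb P o ∧ spt o ⊆ U ∧ R o) ∧ Cpt δ x o.1 then f o else 0) ≤
      ∑ β ∈ blks M x, F β := by
  have h1 : ∀ o : Obj, (if (IsOb P o ∧ spt o ⊆ U ∧ R o) ∧ Cpt δ x o.1 then f o else 0) ≤
      ∑ β ∈ blks M x, if ((IsOb P o ∧ spt o ⊆ U ∧ R o) ∧ Cpt δ x o.1) ∧ im δ o = β then F β
        else 0 := by
    intro o
    by_cases h : (IsOb P o ∧ spt o ⊆ U ∧ R o) ∧ Cpt δ x o.1
    · rw [if_pos h]
      have hm := im_mem A hx h.1.1 h.1.2.1 h.2
      refine (hF o h.1.1 h.1.2.1 h.2).trans ?_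
      have h2 : F (im δ o) = if ((IsOb P o ∧ spt o ⊆ U ∧ R o) ∧ Cpt δ x o.1) ∧ im δ o = im δ o
        then F (im δ o) else 0 := by rw [if_pos ⟨h, rfl⟩]
      rw [h2]
      exact Finset.single_le_sum (f := fun β => if ((IsOb P o ∧ spt o ⊆ U ∧ R o) ∧
        Cpt δ x o.1) ∧ im δ o = β then F β else 0) (fun _ _ => zero_le) hm
    · rw [if_neg h]; exact zero_le
  refine (ENNReal.tsum_le_tsum h1).trans ?_
  rw [Summable.tsum_finsetSum (fun _ _ => ENNReal.summable)]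
  refine Finset.sum_le_sum fun β _ => ?_
  by_cases h2 : ∃ o, ((IsOb P o ∧ spt o ⊆ U ∧ R o) ∧ Cpt δ x o.1) ∧ im δ o = β
  · obtain ⟨o, ho, he⟩ := h2
    rw [tsum_eq_single o]
    · rw [if_pos ⟨ho, he⟩]
    · intro o' hne
      rw [if_neg]
      rintro ⟨ho', he'⟩
      exact hne (im_inj A hx ho'.1.1 ho'.1.2.1 ho'.2 ho.1.1 ho.1.2.1 ho.2 (he'.trans he.symm))
  · have h3 : ∀ o : Obj, (if ((IsOb P o ∧ spt o ⊆ U ∧ R o) ∧ Cpt δ x o.1) ∧ im δ o = β then F β
        else 0) = 0 := by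
      intro o
      rw [if_neg fun h => h2 ⟨o, h⟩]
    simp only [h3, tsum_zero]
    exact zero_le

/-- **blocks ≤ local objects** -/
theorem blocks_le [Fintype D] (R : Obj → Prop)
    (f : Obj → ℝ≥0∞) (F : Finset D → ℝ≥0∞) (G : Finset (Finset D))
    (hG : ∀ β ∈ G, ∃ o, IsOb P o ∧ spt o ⊆ U ∧ R o ∧ Cpt δ x o.1 ∧ im δ o = β ∧ F β ≤ f o) :
    ∑ β ∈ G, F β ≤
      ∑' o : Obj, if (IsOb P o ∧ spt o ⊆ U ∧ R o) ∧ Cpt δ x o.1 then f o else 0 := by
  choose! w hw using hG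
  have hinj : ∀ β ∈ G, ∀ β' ∈ G, w β = w β' → β = β' := by
    intro β hβ β' hβ' e
    rw [← (hw β hβ).2.2.2.2.1, ← (hw β' hβ').2.2.2.2.1, e]
  calc ∑ β ∈ G, F β ≤ ∑ β ∈ G, f (w β) := Finset.sum_le_sum fun β hβ => (hw β hβ).2.2.2.2.2
    _ = ∑ β ∈ G, if (IsOb P (w β) ∧ spt (w β) ⊆ U ∧ R (w β)) ∧ Cpt δ x (w β).1 then f (w β)
        else 0 := by
        refine Finset.sum_congr rfl fun β hβ => ?_
        rw [if_pos ⟨⟨(hw β hβ).1, (hw β hβ).2.1, (hw β hβ).2.2.1⟩, (hw β hβ).2.2.2.1⟩]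
    _ = ∑ o ∈ G.image w, if (IsOb P o ∧ spt o ⊆ U ∧ R o) ∧ Cpt δ x o.1 then f o else 0 :=
        (Finset.sum_image (f := fun o => if (IsOb P o ∧ spt o ⊆ U ∧ R o) ∧ Cpt δ x o.1 then f o
          else 0) (fun β hβ β' hβ' e => hinj β hβ β' hβ' e)).symm
    _ ≤ _ := ENNReal.sum_le_tsum _

/-! ### the closed map of a finite set -/

section cm

variable {S : Finset ℂ}

theorem fc_congr {P Q U : Set ℂ} (h : ∀ z ∈ U, z ∈ P ↔ z ∈ Q) {a b c : ℂ} (hf : Fc P U a b c) :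
    Fc Q U a b c := by
  obtain ⟨⟨ha, hb, hc, h1, o, h2, h3, h4⟩, hU⟩ := hf
  have ma : a ∈ U := hU ⟨o, h2, h3, le_rfl⟩
  have mb : b ∈ U := hU ⟨o, h2, h3, h2.le⟩
  have mc : c ∈ U := hU ⟨o, h2, h3, h3.le⟩
  refine ⟨⟨(h a ma).1 ha, (h b mb).1 hb, (h c mc).1 hc, h1, o, h2, h3, fun s hs => ?_⟩, hU⟩
  by_contra hcon
  push Not at hcon
  have ms : s ∈ U := hU ⟨o, h2, h3, hcon.le⟩
  have := h4 s ((h s ms).2 hs)
  linarith

theorem fc_memU {P U : Set ℂ} {a b c : ℂ} (hf : Fc P U a b c) : a ∈ U := by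
  obtain ⟨⟨-, -, -, -, o, h2, h3, -⟩, hU⟩ := hf
  exact hU ⟨o, h2, h3, le_rfl⟩

/-- dart of a directed side -/
def dl (e0 : D0 S) (a b : ℂ) : D0 S := if h : (a, b) ∈ sd S then ⟨(a, b), h⟩ else e0

theorem dl_eq {e0 : D0 S} {a b : ℂ} (h : (a, b) ∈ sd S) : dl e0 a b = ⟨(a, b), h⟩ := dif_pos h

/-- **`cm0` agrees with the Delaunay triangulation of `P` inside `U`** -/
theorem agr0 (hP : GP P) (hS : GP (S : Set ℂ)) (hPS : ∀ z ∈ U, z ∈ P ↔ z ∈ (S : Set ℂ))
    (hin : ∀ v ∈ S, v ∈ U → ¬ OnHull S v) (e0 : D0 S) :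
    Agr P U (cm0 hS) (dl e0) (fun a => Quot.mk _ a) := by
  have key : ∀ {a b c : ℂ}, Fc P U a b c → (a, b, c) ∈ delT S := fun h =>
    mem_delT.2 (fc_congr hPS h).1
  have kd : ∀ {a b c : ℂ}, Fc P U a b c → (a, b) ∈ sd S := fun h => mem_sd.2 ⟨_, key h⟩
  refine ⟨hP, ?_, ?_, ?_, ?_⟩
  · intro a b c h
    rw [dl_eq (kd h), dl_eq (kd h.rot)]
    exact Subtype.ext (Prod.ext rfl (th0 hS (key h)))
  · intro a b c e h h'
    rw [dl_eq (kd h), dl_eq (kd h')]
    exact io0_live (e := ⟨(a, b), kd h⟩) (kd h')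
  · intro a b c h
    rw [dl_eq (kd h)]
    rfl
  · intro a b c a' b' c' h h' e
    have ha : a ∈ S := ((hPS a (fc_memU h)).1 h.1.1)
    exact (quot_inner hS (hin a ha (fc_memU h)) e).symm

/-- charge of a gap dart of `cm0` -/
def ch (P U : Set ℂ) (S : Finset ℂ) (g : D0 S) : ℂ :=
  if Fc P U g.1.1 g.1.2 (th S g.1) then Nn (g.1.2, th S g.1, g.1.1) else 0

theorem om3 : om ^ 3 = 1 := by
  have := om_rel
  linear_combination (om - 1) * this

theorem om_ne : om ≠ 1 := by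
  intro h
  have := om_rel
  rw [h] at this
  norm_num at this

theorem ch_spin (hS : GP (S : Set ℂ)) : Spin (cm0 hS) om (ch P U S) := by
  rintro ⟨⟨a, b⟩, he⟩
  set c := th S (a, b) with hc
  have ht : (a, b, c) ∈ delT S := th_spec he
  have h2 : th S (b, c) = a := th0 hS (delT_rot hS ht)
  have e1 : ch P U S ((cm0 hS).rho ⟨(a, b), he⟩) =
      if Fc P U b c a then Nn (c, a, b) else 0 := by
    show (if Fc P U b c (th S (b, c)) then Nn (c, th S (b, c), b) else 0) = _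
    rw [h2]
  have e2 : ch P U S ⟨(a, b), he⟩ = if Fc P U a b c then Nn (b, c, a) else 0 := rfl
  rw [e1, e2]
  have e3 : Fc P U b c a ↔ Fc P U a b c := ⟨fun h => h.rot.rot, fun h => h.rot⟩
  rw [if_congr e3 rfl rfl]
  split_ifs
  · unfold Nn
    show (starRingEnd ℂ) a + om * (starRingEnd ℂ) c + om ^ 2 * (starRingEnd ℂ) b =
      om * ((starRingEnd ℂ) c + om * (starRingEnd ℂ) b + om ^ 2 * (starRingEnd ℂ) a)
    linear_combination (-(starRingEnd ℂ) a) * om3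
  · rw [mul_zero]

theorem om_conj : (starRingEnd ℂ) om = om ^ 2 := by
  have hn : ‖om‖ = 1 := by
    unfold om
    exact Complex.norm_exp_ofReal_mul_I _
  have h1 : om * (starRingEnd ℂ) om = 1 := by
    rw [Complex.mul_conj, Complex.normSq_eq_norm_sq, hn]
    simp
  calc (starRingEnd ℂ) om = om ^ 3 * (starRingEnd ℂ) om := by rw [om3, one_mul]
    _ = om ^ 2 * (om * (starRingEnd ℂ) om) := by ring
    _ = om ^ 2 := by rw [h1, mul_one]

theorem zero_ev [Fintype D] : (fun _ => 0 : D → ZMod 2) ∈ ev M := by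
  rw [mem_ev]
  exact ⟨fun _ _ => rfl, fun _ => rfl, fun _ => by simp⟩

theorem nG_le_ev [Fintype D] (g : D) : nG M g ≤ (ev M).card := by
  unfold nG ev
  exact Finset.card_le_card fun x hx => by
    simp only [Finset.mem_filter, Finset.mem_univ, true_and] at hx ⊢
    exact hx.1

/-- the charge of a local block is the charge of its image -/
theorem sum_im (A : Agr P U M δ κ) {o : Obj} (ho : IsOb P o) (hU : spt o ⊆ U) (a : D → ℂ)
    (ha : ∀ t ∈ o.1, a (gd δ t) = Nn t) : ∑ g ∈ im δ o, a g = NN o.2 := by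
  have h := lpU_of ho hU
  have bsub : ∀ t ∈ o.2, t ∈ o.1 := by
    intro t ht
    obtain ⟨-, s, -, -, h2⟩ := ho
    rw [h2] at ht
    exact (Finset.mem_filter.1 ht).1
  unfold im NN
  rw [Finset.sum_image fun t ht t' ht' e => A.gd_inj h (bsub t ht) (bsub t' ht') e]
  exact Finset.sum_congr rfl fun t ht => ha t (bsub t ht)

theorem ch_gd (hS : GP (S : Set ℂ)) (hPS : ∀ z ∈ U, z ∈ P ↔ z ∈ (S : Set ℂ))
    (e0 : D0 S) {t : T3} (hf : Fc P U t.1 t.2.1 t.2.2) : ch P U S (gd (dl e0) t) = Nn t := by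
  obtain ⟨a, b, c⟩ := t
  change Fc P U a b c at hf
  have h3 := hf.rot.rot
  have ht : (c, a, b) ∈ delT S := mem_delT.2 (fc_congr hPS h3).1
  have e1 : gd (dl e0) (a, b, c) = ⟨(c, a), mem_sd.2 ⟨b, ht⟩⟩ := dl_eq (mem_sd.2 ⟨b, ht⟩)
  rw [e1]
  unfold ch
  show (if Fc P U c a (th S (c, a)) then Nn (a, th S (c, a), c) else 0) = _
  rw [th0 hS ht, if_pos h3]

/-- no condition -/
def Tru (_ : Obj) : Prop := True

/-- **total weight of the objects inside `U`** -/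
theorem ph_le (hP : GP P) (hfin : (P ∩ U).Finite) (hbd : Bornology.IsBounded U)
    {X : Set (ℂ × Bool)} (hX : ps X = P) :
    fam.Ph U X ≤ ∑' t : T3, if Fc P U t.1 t.2.1 t.2.2 then ENNReal.ofReal (‖Nn t‖ ^ 2) else 0 := by
  obtain ⟨r, hr⟩ := hbd.subset_closedBall 0
  set S0 := hfin.toFinset with hS0
  have m0 : ∀ z, z ∈ S0 ↔ z ∈ P ∧ z ∈ U := fun z => by rw [hS0, Set.Finite.mem_toFinset]; rfl
  have g0 : GP (S0 : Set ℂ) := gp_mono (fun z hz => ((m0 z).1 hz).1) hP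
  obtain ⟨F, hF3, hFr, hS, hin0⟩ := Farx832.far S0 g0 (max r 1) (by positivity)
  set S := S0 ∪ F with hSdef
  have hPS : ∀ z ∈ U, z ∈ P ↔ z ∈ (S : Set ℂ) := by
    intro z hz
    have hzr : ‖z‖ ≤ r := by simpa using hr hz
    rw [Finset.mem_coe, hSdef, Finset.mem_union, m0]
    constructor
    · exact fun h => Or.inl ⟨h, hz⟩
    · rintro (h | h)
      · exact h.1
      · have := hFr z h
        linarith [le_max_left r 1]
  have hin : ∀ v ∈ S, v ∈ U → ¬ OnHull S v := by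
    intro v hv hvU
    exact hin0 v ((m0 v).2 ⟨(hPS v hvU).2 hv, hvU⟩)
  have hc3 : 3 ≤ S.card := by
    rw [← hF3]
    exact Finset.card_le_card Finset.subset_union_right
  obtain ⟨a, b, c, o, hT⟩ := exists_tri hS hc3
  set e0 : D0 S := ⟨(a, b), mem_sd.2 ⟨c, mem_delT_iff.2 ⟨o, hT⟩⟩⟩ with he0
  have A := agr0 hP hS hPS hin e0
  set M := cm0 hS with hM
  have hE0 : (ev M).card ≠ 0 := Finset.card_ne_zero_of_mem zero_ev
  have hE : ((ev M).card : ℝ≥0∞) ≠ 0 := by exact_mod_cast hE0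
  have hE' : ((ev M).card : ℝ≥0∞) ≠ ∞ := ENNReal.natCast_ne_top _
  have s1 := sum_swap A Tru fun o => ENNReal.ofReal (‖NN o.2‖ ^ 2)
  have e1 : fam.Ph U X = ∑' o : Obj, (if IsOb P o ∧ spt o ⊆ U ∧ Tru o then
      ENNReal.ofReal (‖NN o.2‖ ^ 2) * ENNReal.ofReal (pc o.1) else 0) := by
    unfold Fam.Ph
    refine tsum_congr fun o => ?_
    show (if IsOb (ps X) o ∧ spt o ⊆ U then wgt o else 0) = _
    rw [hX]
    refine if_congr ⟨fun h => ⟨h.1, h.2, trivial⟩, fun h => ⟨h.1, h.2.1⟩⟩ ?_ rfl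
    unfold wgt
    rw [ENNReal.ofReal_mul (by positivity)]
  rw [← e1] at s1
  set R := ∑' t : T3, if Fc P U t.1 t.2.1 t.2.2 then ENNReal.ofReal (‖Nn t‖ ^ 2) else 0 with hR
  have s2 : ∑ x ∈ ev M, (∑' o : Obj, if (IsOb P o ∧ spt o ⊆ U ∧ Tru o) ∧ Cpt (dl e0) x o.1 then
      ENNReal.ofReal (‖NN o.2‖ ^ 2) else 0) ≤
      ∑ x ∈ ev M, ∑ β ∈ blks M x, ENNReal.ofReal (‖∑ g ∈ β, ch P U S g‖ ^ 2) := by
    refine Finset.sum_le_sum fun x hx => ?_
    refine le_blocks A (mem_ev.1 hx) Tru _ _ fun o ho hU hc => ?_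
    have h := lpU_of ho hU
    rw [sum_im A ho hU (ch P U S) fun t ht => ch_gd hS hPS e0 (h.fc ht)]
  have s3 : ∑ x ∈ ev M, ∑ β ∈ blks M x, ENNReal.ofReal (‖∑ g ∈ β, ch P U S g‖ ^ 2) =
      ENNReal.ofReal (∑ g, ‖ch P U S g‖ ^ 2 * (nG M g : ℝ)) := by
    rw [← i1_norm om3 om_ne om_conj (ch_spin hS),
      ENNReal.ofReal_sum_of_nonneg fun _ _ => Finset.sum_nonneg fun _ _ => by positivity]
    refine Finset.sum_congr rfl fun x _ => ?_
    rw [ENNReal.ofReal_sum_of_nonneg fun _ _ => by positivity]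
  have s4 : ENNReal.ofReal (∑ g, ‖ch P U S g‖ ^ 2 * (nG M g : ℝ)) ≤
      ((ev M).card : ℝ≥0∞) * ∑ g, ENNReal.ofReal (‖ch P U S g‖ ^ 2) := by
    rw [ENNReal.ofReal_sum_of_nonneg fun _ _ => by positivity, Finset.mul_sum]
    refine Finset.sum_le_sum fun g _ => ?_
    rw [ENNReal.ofReal_mul (by positivity), mul_comm, ENNReal.ofReal_natCast]
    gcongr
    exact nG_le_ev g
  have s5 : ∑ g, ENNReal.ofReal (‖ch P U S g‖ ^ 2) ≤ R := by
    set tt : D0 S → T3 := fun g => (g.1.2, th S g.1, g.1.1) with htt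
    have hi : ∀ g g' : D0 S, tt g = tt g' → g = g' := by
      intro g g' e
      have e1 : g.1.2 = g'.1.2 := congrArg (fun t : T3 => t.1) e
      have e2 : g.1.1 = g'.1.1 := congrArg (fun t : T3 => t.2.2) e
      exact Subtype.ext (Prod.ext e2 e1)
    calc ∑ g, ENNReal.ofReal (‖ch P U S g‖ ^ 2)
        = ∑ g, (fun t : T3 => if Fc P U t.1 t.2.1 t.2.2 then ENNReal.ofReal (‖Nn t‖ ^ 2) else 0)
          (tt g) := by
          refine Finset.sum_congr rfl fun g _ => ?_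
          simp only [htt, ch]
          have e3 : Fc P U g.1.2 (th S g.1) g.1.1 ↔ Fc P U g.1.1 g.1.2 (th S g.1) :=
            ⟨fun h => h.rot.rot, fun h => h.rot⟩
          rw [if_congr e3 rfl rfl]
          split_ifs
          · rfl
          · simp
      _ = ∑ t ∈ Finset.univ.image tt, (if Fc P U t.1 t.2.1 t.2.2 then
          ENNReal.ofReal (‖Nn t‖ ^ 2) else 0) :=
          (Finset.sum_image (f := fun t : T3 => if Fc P U t.1 t.2.1 t.2.2 then
            ENNReal.ofReal (‖Nn t‖ ^ 2) else 0) fun g _ g' _ e => hi g g' e).symm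
      _ ≤ R := ENNReal.sum_le_tsum _
  have s6 : ((ev M).card : ℝ≥0∞) * fam.Ph U X ≤ ((ev M).card : ℝ≥0∞) * R := by
    rw [s1]
    calc _ ≤ _ := s2
      _ = _ := s3
      _ ≤ _ := s4
      _ ≤ _ := by gcongr
  exact (ENNReal.mul_le_mul_iff_right hE hE').1 s6

end cm

end Crest.Agent.R143.Mass4x302
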