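import Crest.Agent.R143.Trans1_690
import Crest.Agent.R143.DicB_831
import Crest.Agent.R143.Mass4_302

/-!
# Row 143 (S0194), energy transfer, part 2 (helper690): the network against the local objects

* `agrN` : the closed map `cm h` of a network agrees with the Delaunay triangulation of `P` inside
  `U` if no site of `U` touches a wall
* `Wf P U` : total weight of the faces with circumdisc in `U` (each face three times)
* `ph_le_En` : total weight of the local objects of `U` against the blocks of `cm h` inside `FB P U`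
* `yb_le` : **`3 ‖∑ Q e φ‖² + 128 b² ∑ j, Ph (Q j) ≤ 32 (b² + τ²) Wf Q`**
-/

set_option autoImplicit false
set_option linter.unusedSectionVars false
set_option linter.unusedVariables false

noncomputable section

open scoped Classical

namespace Crest.Agent.R143.Trans2x690

open Crest.Agent.R143.B0x346 Crest.Agent.R143.DelGx806 Crest.Agent.R143.DelRx806
  Crest.Agent.R143.Sidesx697 Crest.Agent.R143.SumScx302 Crest.Agent.R143.Mass1x302
open Crest.Agent.R143.Mass2x302 (Fc del_uniq gp_mono gd dd LpU Cpt)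
open Crest.Agent.R143.Mass4x302 (fc_congr fc_memU sum_swap le_blocks im lpU_of Tru)
open Crest.Agent.R143.Frame1x395 Crest.Agent.R143.Frame2x395 Crest.Agent.R143.Frame3x395
  Crest.Agent.R143.Frame4x395 Crest.Agent.R143.Frame5x395 Crest.Agent.R143.Frame6x395
  Crest.Agent.R143.Frame7x395 Crest.Agent.R143.DicAx831 Crest.Agent.R143.DicBx831
  Crest.Agent.R143.Trans1x690
open Crest.Agent.R143.Frame8x395 (ev mem_ev blks blk mem_blks Spin i1_norm nG_eq)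
open scoped ENNReal

variable {S : Finset ℂ} {N : Net ℂ} {P U : Set ℂ}

/-- a site which touches no wall is alone in its cell -/
theorem quot_free {v a : ℂ} (hv : ∀ u, ¬ Wall N v u ∧ ¬ Wall N u v)
    (h : (Quot.mk (Wall N) v : Quot (Wall N)) = Quot.mk _ a) : a = v := by
  set P : Quot (Wall N) → Prop := Quot.lift (fun u => u = v) (by
    intro a b hab
    apply propext
    constructor
    · rintro rfl; exact absurd hab (hv _).1
    · rintro rfl; exact absurd hab (hv _).2) with hP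
  have h1 : P (Quot.mk _ v) := rfl
  rw [h] at h1
  exact h1

/-- dart of a directed side -/
def dN (S : Finset ℂ) (a b : ℂ) : Dt S := if h : (a, b) ∈ sd S then Sum.inl ⟨(a, b), h⟩ else Sum.inr 0

theorem dN_eq {a b : ℂ} (h : (a, b) ∈ sd S) : dN S a b = Sum.inl ⟨(a, b), h⟩ := dif_pos h

/-- **the closed map of a network agrees with the Delaunay triangulation inside `U`** -/
theorem agrN (h : HNet S N) (hP : GP P) (hPS : ∀ z ∈ U, z ∈ P ↔ z ∈ (S : Set ℂ))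
    (hv : ∀ v ∈ S, v ∈ U → ∀ u, ¬ Wall N v u ∧ ¬ Wall N u v) :
    Mass2x302.Agr P U (cm h) (dN S) (fun a => Quot.mk _ a) := by
  have key : ∀ {a b c : ℂ}, Fc P U a b c → (a, b, c) ∈ delT S := fun h =>
    mem_delT.2 (fc_congr hPS h).1
  have kd : ∀ {a b c : ℂ}, Fc P U a b c → (a, b) ∈ sd S := fun h => mem_sd.2 ⟨_, key h⟩
  refine ⟨hP, ?_, ?_, ?_, ?_⟩
  · intro a b c hf
    rw [dN_eq (kd hf), dN_eq (kd hf.rot)]
    show Sum.inl _ = _
    congr 1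
    exact Subtype.ext (Prod.ext rfl (th_eq h (key hf)))
  · intro a b c e hf hf'
    rw [dN_eq (kd hf), dN_eq (kd hf')]
    exact io_twin h (e := ⟨(a, b), kd hf⟩) (kd hf')
  · intro a b c hf
    rw [dN_eq (kd hf)]
    rfl
  · intro a b c a' b' c' hf hf' e
    have ha : a ∈ S := ((hPS a (fc_memU hf)).1 hf.1.1)
    exact (quot_free (hv a ha (fc_memU hf)) e).symm

/-- darts of the faces of `U` -/
def FB (P U : Set ℂ) (S : Finset ℂ) : Set (Dt S) := {g | ∃ a b c, Fc P U a b c ∧ g = dN S a b}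

theorem FB_inl (hPS : ∀ z ∈ U, z ∈ P ↔ z ∈ (S : Set ℂ)) {g : Dt S} (hg : g ∈ FB P U S) :
    ∃ e : {e : ℂ × ℂ // e ∈ sd S}, g = Sum.inl e ∧ (e.1.1, e.1.2, th S e.1) ∈ delT S := by
  obtain ⟨a, b, c, hf, rfl⟩ := hg
  have h1 : (a, b) ∈ sd S := mem_sd.2 ⟨_, mem_delT.2 (fc_congr hPS hf).1⟩
  exact ⟨⟨(a, b), h1⟩, dN_eq h1, th_spec h1⟩

theorem FB_rho (h : HNet S N) (hP : GP P) (hPS : ∀ z ∈ U, z ∈ P ↔ z ∈ (S : Set ℂ))
    (hv : ∀ v ∈ S, v ∈ U → ∀ u, ¬ Wall N v u ∧ ¬ Wall N u v) (g : Dt S) :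
    (cm h).rho g ∈ FB P U S ↔ g ∈ FB P U S := by
  have A := agrN h hP hPS hv
  have key : ∀ g : Dt S, g ∈ FB P U S → (cm h).rho g ∈ FB P U S := by
    rintro g ⟨a, b, c, hf, rfl⟩
    exact ⟨b, c, a, hf.rot, A.rho a b c hf⟩
  constructor
  · intro hg
    have := key _ (key _ hg)
    rwa [(cm h).rho3] at this
  · exact key g

theorem FB_mono {U' : Set ℂ} (hUV : U ⊆ U') : FB P U S ⊆ FB P U' S := by
  rintro g ⟨a, b, c, hf, rfl⟩
  exact ⟨a, b, c, ⟨hf.1, hf.2.trans hUV⟩, rfl⟩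

theorem FB_root (h : HNet S N) (hPS : ∀ z ∈ U, z ∈ P ↔ z ∈ (S : Set ℂ)) :
    Disjoint (FB P U S) (Fa (cm h) (Sum.inr 0)) := by
  rw [Set.disjoint_left]
  intro g hg hg'
  obtain ⟨e, rfl, -⟩ := FB_inl hPS hg
  obtain ⟨k, hk⟩ := (fa_root h _).1 hg'
  exact absurd hk (by simp)

theorem FB_disj {U' : Set ℂ} {V : Set ℂ} (h : HNet S N) (hP : GP P)
    (hPS : ∀ z ∈ V, z ∈ P ↔ z ∈ (S : Set ℂ))
    (hv : ∀ v ∈ S, v ∈ V → ∀ u, ¬ Wall N v u ∧ ¬ Wall N u v) (hU : U ⊆ V) (hU' : U' ⊆ V)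
    (hd : Disjoint U U') : Disjoint (FB P U S) (FB P U' S) := by
  have A := agrN h hP hPS hv
  rw [Set.disjoint_left]
  rintro g ⟨a, b, c, hf, rfl⟩ ⟨a', b', c', hf', e⟩
  obtain ⟨e1, -, -⟩ := A.dinj ⟨hf.1, hf.2.trans hU⟩ ⟨hf'.1, hf'.2.trans hU'⟩ e
  have m1 : a ∈ U := fc_memU hf
  have m2 : a' ∈ U' := fc_memU hf'
  rw [← e1] at m2
  exact Set.disjoint_left.1 hd m1 m2

theorem FB_nG (h : HNet S N) (hP : GP P) (hPS : ∀ z ∈ U, z ∈ P ↔ z ∈ (S : Set ℂ))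
    (hv : ∀ v ∈ S, v ∈ U → ∀ u, ¬ Wall N v u ∧ ¬ Wall N u v) {g : Dt S} (hg : g ∈ FB P U S) :
    4 * nG (cm h) g = nE (cm h) := by
  have A := agrN h hP hPS hv
  obtain ⟨a, b, c, hf, rfl⟩ := hg
  have hne := Mass2x302.del_ne hf.1
  have e0 : (cm h).cell (dN S a b) = Quot.mk _ a := A.cel _ _ _ hf
  have e1 : (cm h).rho (dN S a b) = dN S b c := A.rho _ _ _ hf
  have e2 : (cm h).rho (dN S b c) = dN S c a := A.rho _ _ _ hf.rot
  have e3 : (cm h).cell (dN S b c) = Quot.mk _ b := A.cel _ _ _ hf.rot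
  have e4 : (cm h).cell (dN S c a) = Quot.mk _ c := A.cel _ _ _ hf.rot.rot
  refine nG_eq ?_ ?_ ?_
  · rw [e1, e0, e3]
    exact fun hc => hne.1 (A.inj _ _ _ _ _ _ hf hf.rot hc)
  · rw [e1, e2, e3, e4]
    exact fun hc => hne.2.1 (A.inj _ _ _ _ _ _ hf.rot hf.rot.rot hc)
  · rw [e1, e2, e0, e4]
    exact fun hc => hne.2.2 (A.inj _ _ _ _ _ _ hf.rot.rot hf hc).symm

/-! ### the two charges -/

/-- charge of a gap dart -/
def nf (S : Finset ℂ) : Dt S → ℂ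
  | Sum.inl e => Nn (e.1.2, th S e.1, e.1.1)
  | Sum.inr _ => 0

theorem P1_nf (g : Dt S) : P1 S g = (om - om ^ 2) / 3 * (starRingEnd ℂ) (nf S g) := by
  rcases g with e | k
  · simp only [P1, nf, Nn]
    rw [map_add, map_add, map_mul, map_mul, Complex.conj_conj, Complex.conj_conj,
      Complex.conj_conj, om2_conj, om_conj']
    have h3 := Oscx63.om_pow_three
    linear_combination (-(1 : ℂ) / 3) * (e.1.2 - om * e.1.2 - e.1.1) * h3
  · simp [P1, nf]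

theorem norm_k : ‖(om - om ^ 2) / 3‖ ^ 2 = 1 / 3 := by
  rw [om2_val, om_val, norm_div]
  have e : -1 / 2 + s3 / 2 * Complex.I - (-1 / 2 - s3 / 2 * Complex.I) = s3 * Complex.I := by ring
  rw [e, norm_mul, Complex.norm_I, mul_one, norm_s3, div_pow, Real.sq_sqrt (by norm_num)]
  norm_num

theorem sum_P1 (β : Finset (Dt S)) : 3 * ‖∑ g ∈ β, P1 S g‖ ^ 2 = ‖∑ g ∈ β, nf S g‖ ^ 2 := by
  have e : ∑ g ∈ β, P1 S g = (om - om ^ 2) / 3 * (starRingEnd ℂ) (∑ g ∈ β, nf S g) := by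
    rw [map_sum, Finset.mul_sum]
    exact Finset.sum_congr rfl fun g _ => P1_nf g
  rw [e, norm_mul, mul_pow, norm_k, Complex.norm_conj]
  ring

theorem norm_P1 (g : Dt S) : 3 * ‖P1 S g‖ ^ 2 = ‖nf S g‖ ^ 2 := by
  have := sum_P1 {g}
  rwa [Finset.sum_singleton, Finset.sum_singleton] at this

/-- total weight of the faces of `U` -/
def Wf (P U : Set ℂ) : ℝ≥0∞ :=
  ∑' t : T3, if Fc P U t.1 t.2.1 t.2.2 then ENNReal.ofReal (‖Nn t‖ ^ 2) else 0

theorem nf_gd (h : HNet S N) (hPS : ∀ z ∈ U, z ∈ P ↔ z ∈ (S : Set ℂ)) {t : T3}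
    (hf : Fc P U t.1 t.2.1 t.2.2) : nf S (gd (dN S) t) = Nn t := by
  obtain ⟨a, b, c⟩ := t
  change Fc P U a b c at hf
  have h3 := hf.rot.rot
  have ht : (c, a, b) ∈ delT S := mem_delT.2 (fc_congr hPS h3).1
  have e1 : gd (dN S) (a, b, c) = Sum.inl ⟨(c, a), mem_sd.2 ⟨b, ht⟩⟩ := dN_eq (mem_sd.2 ⟨b, ht⟩)
  rw [e1]
  show Nn (a, th S (c, a), c) = _
  rw [th_eq h ht]

theorem mem_im {D : Type} {δ : ℂ → ℂ → D} {o : Obj} {g : D} (hg : g ∈ im δ o) :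
    ∃ t ∈ o.2, gd δ t = g := by
  unfold im at hg
  exact Finset.mem_image.1 hg

/-- **the local objects against the blocks inside `FB P U S`** -/
theorem ph_le_En (h : HNet S N) (hP : GP P) (hPS : ∀ z ∈ U, z ∈ P ↔ z ∈ (S : Set ℂ))
    (hv : ∀ v ∈ S, v ∈ U → ∀ u, ¬ Wall N v u ∧ ¬ Wall N u v) {X : Set (ℂ × Bool)}
    (hX : ps X = P) :
    ENNReal.ofReal (nE (cm h)) * fam.Ph U X ≤
      ENNReal.ofReal (3 * En (cm h) (FB P U S) (P1 S)) := by
  have A := agrN h hP hPS hv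
  have s1 := sum_swap A Tru fun o => ENNReal.ofReal (‖NN o.2‖ ^ 2)
  have e1 : fam.Ph U X = ∑' o : Obj, (if IsOb P o ∧ spt o ⊆ U ∧ Tru o then
      ENNReal.ofReal (‖NN o.2‖ ^ 2) * ENNReal.ofReal (pc o.1) else 0) := by
    unfold Fam.Ph
    refine tsum_congr fun o => ?_
    show (if IsOb (ps X) o ∧ spt o ⊆ U then wgt o else 0) = _
    rw [hX]
    refine if_congr ⟨fun h => ⟨h.1, h.2, trivial⟩, fun h => ⟨h.1, h.2.1⟩⟩ ?_ rfl
    unfold wgt
    rw [ENNReal.ofReal_mul (by positivity)]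
  rw [← e1, ev_card] at s1
  rw [ENNReal.ofReal_natCast, s1]
  have e3 : ENNReal.ofReal (3 * En (cm h) (FB P U S) (P1 S)) =
      ∑ x ∈ ev (cm h), ∑ β ∈ blks (cm h) x, if (β : Set (Dt S)) ⊆ FB P U S then
        ENNReal.ofReal (‖∑ g ∈ β, nf S g‖ ^ 2) else 0 := by
    unfold En inB
    rw [Finset.mul_sum, ENNReal.ofReal_sum_of_nonneg fun _ _ =>
      mul_nonneg (by norm_num) (Finset.sum_nonneg fun _ _ => sq_nonneg _)]
    refine Finset.sum_congr rfl fun x _ => ?_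
    rw [Finset.mul_sum, ENNReal.ofReal_sum_of_nonneg fun _ _ => by positivity,
      Finset.sum_filter]
    refine Finset.sum_congr rfl fun β _ => ?_
    rw [sum_P1]
  rw [e3]
  refine Finset.sum_le_sum fun x hx => ?_
  refine le_blocks A (mem_ev.1 hx) Tru _ _ fun o ho hU hc => ?_
  have hl := lpU_of ho hU
  have hsub : ((im (dN S) o : Finset (Dt S)) : Set (Dt S)) ⊆ FB P U S := by
    intro g hg
    rw [Finset.mem_coe] at hg
    obtain ⟨t, ht, rfl⟩ := mem_im hg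
    have ht' : t ∈ o.1 := by
      obtain ⟨-, s, -, -, h2⟩ := ho
      rw [h2] at ht
      exact (Finset.mem_filter.1 ht).1
    exact ⟨_, _, _, (hl.fc ht').rot.rot, rfl⟩
  rw [if_pos hsub, Mass4x302.sum_im A ho hU (nf S) fun t ht => nf_gd h hPS (hl.fc ht)]

/-- the weight of the faces -/
theorem tot_le (h : HNet S N) (hPS : ∀ z ∈ U, z ∈ P ↔ z ∈ (S : Set ℂ)) :
    ENNReal.ofReal (3 * Tot (FB P U S) (P1 S)) ≤ Wf P U := by
  set tt : Dt S → T3 := fun g => Sum.elim (fun e => (e.1.2, th S e.1, e.1.1)) (fun _ => 0) g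
    with htt
  set G : Finset (Dt S) := Finset.univ.filter fun g => g ∈ FB P U S with hG
  have hinl : ∀ g ∈ G, ∃ e, g = Sum.inl e := by
    intro g hg
    obtain ⟨e, he, -⟩ := FB_inl hPS (Finset.mem_filter.1 hg).2
    exact ⟨e, he⟩
  have hi : ∀ g ∈ G, ∀ g' ∈ G, tt g = tt g' → g = g' := by
    intro g hg g' hg' e
    obtain ⟨e1, rfl⟩ := hinl g hg
    obtain ⟨e2, rfl⟩ := hinl g' hg'
    have h1 : e1.1.2 = e2.1.2 := congrArg (fun t : T3 => t.1) e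
    have h2 : e1.1.1 = e2.1.1 := congrArg (fun t : T3 => t.2.2) e
    exact congrArg Sum.inl (Subtype.ext (Prod.ext h2 h1))
  have e0 : ENNReal.ofReal (3 * Tot (FB P U S) (P1 S)) =
      ∑ g ∈ G, ENNReal.ofReal (‖nf S g‖ ^ 2) := by
    unfold Tot
    rw [← Finset.sum_filter, Finset.mul_sum, ENNReal.ofReal_sum_of_nonneg fun _ _ => by positivity]
    refine Finset.sum_congr rfl fun g _ => ?_
    rw [norm_P1]
  rw [e0]
  calc ∑ g ∈ G, ENNReal.ofReal (‖nf S g‖ ^ 2)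
      = ∑ g ∈ G, (fun t : T3 => if Fc P U t.1 t.2.1 t.2.2 then ENNReal.ofReal (‖Nn t‖ ^ 2) else 0)
          (tt g) := by
        refine Finset.sum_congr rfl fun g hg => ?_
        obtain ⟨a, b, c, hf, rfl⟩ := (Finset.mem_filter.1 hg).2
        have ht : (a, b, c) ∈ delT S := mem_delT.2 (fc_congr hPS hf).1
        rw [dN_eq (mem_sd.2 ⟨c, ht⟩)]
        simp only [htt, Sum.elim_inl, nf]
        rw [th_eq h ht, if_pos hf.rot]
    _ = ∑ t ∈ G.image tt, (if Fc P U t.1 t.2.1 t.2.2 then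
          ENNReal.ofReal (‖Nn t‖ ^ 2) else 0) :=
        (Finset.sum_image (f := fun t : T3 => if Fc P U t.1 t.2.1 t.2.2 then
          ENNReal.ofReal (‖Nn t‖ ^ 2) else 0) fun g hg g' hg' e => hi g hg g' hg' e).symm
    _ ≤ Wf P U := ENNReal.sum_le_tsum _

/-- Cauchy-Schwarz for the root block -/
theorem Rr_sq {D C : Type} [Fintype D] {M : CMap D C} (o : D) (f : D → ℂ) :
    Rr M o f ^ 2 ≤ nE M * ∑ x ∈ ev M, ∑ g ∈ rg M x o, ‖bs M x f g‖ ^ 2 := by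
  unfold Rr
  have h1 := sq_sum_le_card_mul_sum_sq (s := ev M) (f := fun x => ∑ g ∈ rg M x o, ‖bs M x f g‖)
  rw [ev_card] at h1
  refine h1.trans (mul_le_mul_of_nonneg_left ?_ (Nat.cast_nonneg _))
  refine Finset.sum_le_sum fun x hx => ?_
  have h2 := sq_sum_le_card_mul_sum_sq (s := rg M x o) (f := fun g => ‖bs M x f g‖)
  have h3 : ((rg M x o).card : ℝ) ≤ 1 := by exact_mod_cast rg_card (mem_ev.1 hx) o
  have h4 : (0 : ℝ) ≤ ∑ g ∈ rg M x o, ‖bs M x f g‖ ^ 2 := Finset.sum_nonneg fun _ _ => sq_nonneg _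
  calc (∑ g ∈ rg M x o, ‖bs M x f g‖) ^ 2 ≤ (rg M x o).card * ∑ g ∈ rg M x o, ‖bs M x f g‖ ^ 2 := h2
    _ ≤ 1 * ∑ g ∈ rg M x o, ‖bs M x f g‖ ^ 2 := by gcongr
    _ = _ := one_mul _

theorem ctr_inl (e : {e : ℂ × ℂ // e ∈ sd S}) :
    ctr S (Sum.inl e) = cc (e.1.1, e.1.2, th S e.1) := rfl

/-- **pointwise inequality** -/
theorem yb_le (h : HNet S N) (hP : GP P) {Q : Set ℂ} (hPS : ∀ z ∈ Q, z ∈ P ↔ z ∈ (S : Set ℂ))
    (hv : ∀ v ∈ S, v ∈ Q → ∀ u, ¬ Wall N v u ∧ ¬ Wall N u v) {ι : Type} {J : Finset ι}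
    {q : ι → Set ℂ} (hq : ∀ j ∈ J, q j ⊆ Q)
    (hd : ∀ i ∈ J, ∀ j ∈ J, i ≠ j → Disjoint (q i) (q j)) {φ : ℂ → ℝ} {b τ : ℝ} (hb : 0 ≤ b)
    (hτ : 0 ≤ τ) (hφ : ∀ z, |φ z| ≤ b) {c : ι → ℝ} (hc : ∀ j ∈ J, |c j| ≤ b)
    (hφc : ∀ j ∈ J, ∀ t : T3, Fc P (q j) t.1 t.2.1 t.2.2 → |φ (cc t) - c j| ≤ τ)
    (hφ0 : ∀ t ∈ delT S, φ (cc t) ≠ 0 → Fc P Q t.1 t.2.1 t.2.2) {X : Set (ℂ × Bool)}
    (hX : ps X = P) :
    ENNReal.ofReal (3 * ‖∑ t ∈ delT S, N.Q t * ((t.2.1 - t.1) * (φ (cc t) : ℂ))‖ ^ 2) +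
      ENNReal.ofReal (128 * b ^ 2) * ∑ j ∈ J, fam.Ph (q j) X ≤
      ENNReal.ofReal (32 * (b ^ 2 + τ ^ 2)) * Wf P Q := by
  set Y : ℂ := ∑ t ∈ delT S, N.Q t * ((t.2.1 - t.1) * (φ (cc t) : ℂ)) with hY
  set f : Dt S → ℂ := fun g => ((φ (ctr S g) : ℝ) : ℂ) * P1 S g with hf
  have sf : Spin (cm h) (om ^ 2) f := phi_spin h (fun z => ((φ z : ℝ) : ℂ)) (P1_rho h)
  have wc : (starRingEnd ℂ) (om ^ 2) = (om ^ 2) ^ 2 := by rw [om2_conj, e4]
  have hPSj : ∀ j ∈ J, ∀ z ∈ q j, z ∈ P ↔ z ∈ (S : Set ℂ) := fun j hj z hz => hPS z (hq j hj hz)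
  have hvj : ∀ j ∈ J, ∀ v ∈ S, v ∈ q j → ∀ u, ¬ Wall N v u ∧ ¬ Wall N u v :=
    fun j hj v hvS hvq => hv v hvS (hq j hj hvq)
  have key := root_fin (M := cm h) (o := Sum.inr 0) (J := J) (B := fun j => FB P (q j) S) w3 w1 wc
    sf (P1_rho h)
    (fun i hi j hj hij => FB_disj h hP hPS hv (hq i hi) (hq j hj) (hd i hi j hj hij))
    (fun i hi => FB_root h (hPSj i hi))
    (fun j hj g => FB_rho h hP (hPSj j hj) (hvj j hj) g)
    (fun j hj g hg => FB_nG h hP (hPSj j hj) (hvj j hj) hg)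
    (BQ := FB P Q S) (fun j hj => FB_mono (hq j hj))
    (by
      intro g hg
      rcases g with e | k
      · by_contra hne
        apply hg
        have h1 : φ (cc (e.1.1, e.1.2, th S e.1)) ≠ 0 := by
          intro h0
          apply hne
          show ((φ (ctr S (Sum.inl e)) : ℝ) : ℂ) * _ = 0
          rw [ctr_inl, h0]
          simp
        have h2 := hφ0 _ (th_spec e.2) h1
        exact ⟨_, _, _, h2, (dN_eq e.2).symm⟩
      · show _ * P1 S (Sum.inr k) = 0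
        simp [P1])
    (b := b) (τ := τ) hb hτ
    (by
      intro g
      show ‖((φ (ctr S g) : ℝ) : ℂ) * P1 S g‖ ≤ _
      rw [norm_mul, Complex.norm_real, Real.norm_eq_abs]
      exact mul_le_mul_of_nonneg_right (hφ _) (norm_nonneg _))
    (c := fun j => ((c j : ℝ) : ℂ))
    (by
      intro j hj
      rw [Complex.norm_real, Real.norm_eq_abs]
      exact hc j hj)
    (by
      intro j hj g hg
      obtain ⟨a, b', c', hfc, rfl⟩ := hg
      have ht : (a, b', c') ∈ delT S := mem_delT.2 (fc_congr (hPSj j hj) hfc).1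
      have h1 : ctr S (dN S a b') = cc (a, b', c') := by
        rw [dN_eq (mem_sd.2 ⟨_, ht⟩), ctr_inl]
        show cc (a, b', th S (a, b')) = _
        rw [th_eq h ht]
      show ‖((φ (ctr S (dN S a b')) : ℝ) : ℂ) * P1 S (dN S a b') - _‖ ≤ _
      rw [h1, ← sub_mul, norm_mul, ← Complex.ofReal_sub, Complex.norm_real, Real.norm_eq_abs]
      exact mul_le_mul_of_nonneg_right (hφc j hj (a, b', c') hfc) (norm_nonneg _))
  -- the observable
  have hW : WW h f = nz h * Y := by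
    rw [WW_same h (f := f) (fun k => by simp [hf, P1]), hY, proj1 h fun z => ((φ z : ℝ) : ℂ)]
    congr 1
    refine Finset.sum_congr rfl fun t ht => ?_
    rw [dif_pos ht]
    have e2 : ctr S (sdt h ht 0) = cc t := by
      show (t.1 + t.2.1 + th S (t.1, t.2.1)) / 3 = (t.1 + t.2.1 + t.2.2) / 3
      rw [th_eq h ht]
    have e3 : P1 S (sdt h ht 0) = p1 t := by
      show ((t.2.1 - t.1) + om * (th S (t.1, t.2.1) - t.2.1) +
        om ^ 2 * (t.1 - th S (t.1, t.2.1))) / 3 = _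
      rw [th_eq h ht]
      rfl
    simp only [hf]
    rw [e2, e3]
    ring
  have h1 := norm_WW h f
  rw [hW, norm_mul, Complex.norm_natCast] at h1
  have h2 := Rr_sq (M := cm h) (Sum.inr 0) f
  set T : ℝ := ∑ x ∈ ev (cm h), ∑ g ∈ rg (cm h) x (Sum.inr 0), ‖bs (cm h) x f g‖ ^ 2 with hT
  have hn := nE_pos h
  set n : ℝ := (nE (cm h) : ℝ) with hnd
  have h3 : n * ‖Y‖ ^ 2 ≤ 16 * T := by
    have h4 : n / 4 * ‖Y‖ ≤ Rr (cm h) (Sum.inr 0) f :=
      (mul_le_mul_of_nonneg_right (nz_ge h) (norm_nonneg _)).trans h1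
    have h5 : (n / 4 * ‖Y‖) ^ 2 ≤ n * T :=
      (pow_le_pow_left₀ (by positivity) h4 2).trans h2
    have h6 : n * (n * ‖Y‖ ^ 2) ≤ n * (16 * T) := by nlinarith
    exact le_of_mul_le_mul_left h6 hn
  have h7 : n * (3 * ‖Y‖ ^ 2) + 128 * b ^ 2 * ∑ j ∈ J, 3 * En (cm h) (FB P (q j) S) (P1 S) ≤
      32 * (b ^ 2 + τ ^ 2) * (n * (3 * Tot (FB P Q S) (P1 S))) := by
    rw [← Finset.mul_sum]
    linarith
  -- in `ENNReal`
  have hE : ∀ j ∈ J, ENNReal.ofReal n * fam.Ph (q j) X ≤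
      ENNReal.ofReal (3 * En (cm h) (FB P (q j) S) (P1 S)) := fun j hj =>
    ph_le_En h hP (hPSj j hj) (hvj j hj) hX
  have hT2 : ENNReal.ofReal (3 * Tot (FB P Q S) (P1 S)) ≤ Wf P Q := tot_le h hPS
  have hn0 : ENNReal.ofReal n ≠ 0 := by
    rw [ENNReal.ofReal_ne_zero_iff]; exact hn
  refine (ENNReal.mul_le_mul_iff_right hn0 ENNReal.ofReal_ne_top).1 ?_
  calc ENNReal.ofReal n * (ENNReal.ofReal (3 * ‖Y‖ ^ 2) +
        ENNReal.ofReal (128 * b ^ 2) * ∑ j ∈ J, fam.Ph (q j) X)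
      = ENNReal.ofReal n * ENNReal.ofReal (3 * ‖Y‖ ^ 2) +
        ENNReal.ofReal (128 * b ^ 2) * ∑ j ∈ J, ENNReal.ofReal n * fam.Ph (q j) X := by
        rw [← Finset.mul_sum]; ring
    _ ≤ ENNReal.ofReal n * ENNReal.ofReal (3 * ‖Y‖ ^ 2) + ENNReal.ofReal (128 * b ^ 2) *
        ∑ j ∈ J, ENNReal.ofReal (3 * En (cm h) (FB P (q j) S) (P1 S)) := by
        gcongr with j hj
        exact hE j hj
    _ = ENNReal.ofReal (n * (3 * ‖Y‖ ^ 2) +
        128 * b ^ 2 * ∑ j ∈ J, 3 * En (cm h) (FB P (q j) S) (P1 S)) := by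
        have e0 : ∀ j ∈ J, 0 ≤ 3 * En (cm h) (FB P (q j) S) (P1 S) := fun j _ =>
          mul_nonneg (by norm_num) (En_nonneg _ _)
        rw [ENNReal.ofReal_add (by positivity)
          (mul_nonneg (by positivity) (Finset.sum_nonneg e0)), ENNReal.ofReal_mul hn.le,
          ENNReal.ofReal_mul (p := 128 * b ^ 2) (by positivity),
          ENNReal.ofReal_sum_of_nonneg e0]
    _ ≤ ENNReal.ofReal (32 * (b ^ 2 + τ ^ 2) * (n * (3 * Tot (FB P Q S) (P1 S)))) :=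
        ENNReal.ofReal_le_ofReal h7
    _ = ENNReal.ofReal n * (ENNReal.ofReal (32 * (b ^ 2 + τ ^ 2)) *
        ENNReal.ofReal (3 * Tot (FB P Q S) (P1 S))) := by
        rw [ENNReal.ofReal_mul (by positivity), ENNReal.ofReal_mul hn.le]
        ring
    _ ≤ _ := by gcongr

end Crest.Agent.R143.Trans2x690
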