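import Crest.Agent.R143.Bud2_432
import Crest.Agent.R143.Trans2_690

/-!
# Row 143 (S0194), block H, H4 (i) part 3: the energy budget in terms of `Wf` and `fam` (helper432)

* `FD P V δ` : the darts of the Delaunay faces with closed circumdisc in `V`; `sum_FD` : their total
  weight is `Wf P V`
* `Nk J Q k` : the union of the squares of side `k` which are in no square `Q j` of the grid
* `budget_W` : **`card / 4 * Wf B ≤ chords + card * (∑ Ph (Q j) + Wf (Nk ∩ U)) + big closed blocks`**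
* `clb_le` : the big closed blocks of the filled configuration are big blocks of the real
  configuration (`bigB` of `Mass5_302`)
* `sum_bigB` : their mean over the colours is at most `fam.Ps k U`
-/

set_option autoImplicit false

noncomputable section

open scoped Classical

namespace Crest.Agent.R143.Bud3x432

open Crest.Agent.R143.B0x346 Crest.Agent.R143.SumScx302 Crest.Agent.R143.Mass1x302
  Crest.Agent.R143.Mass2x302 Crest.Agent.R143.Mass3x302 Crest.Agent.R143.Mass4x302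
  Crest.Agent.R143.Mass5x302
open Crest.Agent.R143.Frame1x395 Crest.Agent.R143.Frame2x395 Crest.Agent.R143.Frame3x395
  Crest.Agent.R143.Frame4x395 Crest.Agent.R143.Frame8x395 Crest.Agent.R143.Frame9x395
  Crest.Agent.R143.Coarsex166 Crest.Agent.R143.Budx432 Crest.Agent.R143.Bud2x432
open Crest.Agent.R143.Trans2x690 (Wf)
open scoped ENNReal

variable {D C C' : Type} {M : CMap D C} {P U V : Set ℂ} {δ : ℂ → ℂ → D} {κ : ℂ → C}
variable {π : C → C'} {hπ : ClsCon M π} {o : C'} {x : D → ZMod 2} {a : D → ℂ}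

/-- the darts of the Delaunay faces with closed circumdisc in `V` -/
def FD (P V : Set ℂ) (δ : ℂ → ℂ → D) : Set D := {g | ∃ p q r, Fc P V p q r ∧ g = δ p q}

theorem FD_rho (A : Agr P U M δ κ) (hV : V ⊆ U) (g : D) : M.rho g ∈ FD P V δ ↔ g ∈ FD P V δ := by
  have key : ∀ g : D, g ∈ FD P V δ → M.rho g ∈ FD P V δ := by
    rintro g ⟨p, q, r, hf, rfl⟩
    exact ⟨q, r, p, hf.rot, A.rho p q r (fc_mono hV hf)⟩
  constructor
  · intro hg
    have := key _ (key _ hg)
    rwa [M.rho3] at this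
  · exact key g

theorem gd_mem {t : T3} (h : Fc P V t.1 t.2.1 t.2.2) : gd δ t ∈ FD P V δ :=
  ⟨t.2.2, t.1, t.2.1, h.rot.rot, rfl⟩

theorem gd_injOn (A : Agr P U M δ κ) (hV : V ⊆ U) {s t : T3} (hs : Fc P V s.1 s.2.1 s.2.2)
    (ht : Fc P V t.1 t.2.1 t.2.2) (e : gd δ s = gd δ t) : s = t := by
  obtain ⟨h1, h2, h3⟩ := A.dinj (fc_mono hV hs.rot.rot) (fc_mono hV ht.rot.rot) e
  exact Prod.ext h2 (Prod.ext h3 h1)

/-- total weight of the faces -/
theorem sum_FD [Fintype D] (A : Agr P U M δ κ) (hV : V ⊆ U)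
    (ha : ∀ t : T3, Fc P V t.1 t.2.1 t.2.2 → a (gd δ t) = Nn t) :
    ENNReal.ofReal (∑ g ∈ Finset.univ.filter (fun g => g ∈ FD P V δ), ‖a g‖ ^ 2) = Wf P V := by
  rw [ENNReal.ofReal_sum_of_nonneg (fun g _ => by positivity)]
  unfold Trans2x690.Wf
  have hfin : {t : T3 | Fc P V t.1 t.2.1 t.2.2}.Finite := by
    refine Set.Finite.of_finite_image (f := gd δ) (Set.toFinite _) ?_
    intro s hs t ht e
    exact gd_injOn A hV hs ht e
  rw [tsum_eq_sum (s := hfin.toFinset)]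
  swap
  · intro t ht
    rw [Set.Finite.mem_toFinset] at ht
    exact if_neg ht
  symm
  refine Finset.sum_bij (fun t _ => gd δ t) ?_ ?_ ?_ ?_
  · intro t ht
    rw [Set.Finite.mem_toFinset] at ht
    exact Finset.mem_filter.2 ⟨Finset.mem_univ _, gd_mem ht⟩
  · intro s hs t ht e
    rw [Set.Finite.mem_toFinset] at hs ht
    exact gd_injOn A hV hs ht e
  · intro g hg
    obtain ⟨p, q, r, hf, rfl⟩ := (Finset.mem_filter.1 hg).2
    refine ⟨(q, r, p), ?_, rfl⟩
    rw [Set.Finite.mem_toFinset]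
    exact hf.rot
  · intro t ht
    rw [Set.Finite.mem_toFinset] at ht
    have h1 : Fc P V t.1 t.2.1 t.2.2 := ht
    rw [if_pos h1, ha t h1]

variable {ι : Type} {J : Finset ι} {Q : ι → Set ℂ} {k : ℝ}

/-- the union of the squares of side `k` which are in no square of the grid -/
def Nk (J : Finset ι) (Q : ι → Set ℂ) (k : ℝ) : Set ℂ :=
  {w | ∃ z, (∀ j ∈ J, ¬ sq z k ⊆ Q j) ∧ w ∈ sq z k}

/-- **THE ENERGY BUDGET** -/
theorem budget_W [Fintype D] (A : Agr P U M δ κ) (T : Gt M π o) (F : FrF P U M π o δ)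
    {X : Set (ℂ × Bool)} (hX : ps X = P) (hQU : ∀ j ∈ J, Q j ⊆ U)
    (hQ : ∀ j ∈ J, ∀ p q r, Fc P (Q j) p q r → π (κ p) ≠ o)
    (ha : ∀ t : T3, Fc P U t.1 t.2.1 t.2.2 → a (gd δ t) = Nn t)
    {w : ℂ} (w3 : w ^ 3 = 1) (w1 : w ≠ 1) (wc : (starRingEnd ℂ) w = w ^ 2) (sa : Spin M w a)
    {B : Set ℂ} (hBU : B ⊆ U) (hB : ∀ p q r, Fc P B p q r → π (κ p) ≠ o) :
    ((ev (coarse M π hπ)).card : ℝ≥0∞) * (Wf P B / 4) ≤
      ∑ x ∈ ev (coarse M π hπ), ∑ β ∈ chd M π hπ o x, en a β +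
      ((ev (coarse M π hπ)).card : ℝ≥0∞) * (∑ j ∈ J, fam.Ph (Q j) X) +
      ((ev (coarse M π hπ)).card : ℝ≥0∞) * Wf P (Nk J Q k ∩ U) +
      ∑ x ∈ ev (coarse M π hπ), ∑ β ∈ clb P U M π hπ o δ k x, en a β := by
  set N : Set D := FD P (Nk J Q k ∩ U) δ with hN
  set b : D → ℂ := fun g => if g ∈ N then a g else 0 with hbdef
  set G : Finset D := Finset.univ.filter (fun g => g ∈ FD P B δ) with hGdef
  have hNU : Nk J Q k ∩ U ⊆ U := Set.inter_subset_right
  have sb : Spin M w b := by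
    intro g
    simp only [hbdef]
    rw [if_congr (FD_rho A hNU g) rfl rfl, sa g]
    split_ifs
    · rfl
    · rw [mul_zero]
  have hb : ∀ z, (∃ j ∈ J, sq z k ⊆ Q j) ∨
      ∀ t : T3, Fc P U t.1 t.2.1 t.2.2 → cdisc t ⊆ sq z k → b (gd δ t) = a (gd δ t) := by
    intro z
    by_cases h : ∃ j ∈ J, sq z k ⊆ Q j
    · exact Or.inl h
    · right
      push Not at h
      intro t ht hz
      have h1 : Fc P (Nk J Q k ∩ U) t.1 t.2.1 t.2.2 :=
        ⟨ht.1, fun w hw => ⟨⟨z, h, hz hw⟩, ht.2 hw⟩⟩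
      exact if_pos (gd_mem h1)
  have hG : ∀ g ∈ G, π (M.cell g) ≠ π (M.cell (M.rho g)) ∧
      π (M.cell (M.rho g)) ≠ π (M.cell (M.rho (M.rho g))) ∧
      π (M.cell (M.rho (M.rho g))) ≠ π (M.cell g) := by
    intro g hg
    obtain ⟨p, q, r, hf, rfl⟩ := (Finset.mem_filter.1 hg).2
    have f1 := fc_mono hBU hf
    obtain ⟨n1, n2, n3⟩ := del_ne hf.1
    rw [A.rho p q r f1, A.rho q r p f1.rot, A.cel p q r f1, A.cel q r p f1.rot,
      A.cel r p q f1.rot.rot]
    refine ⟨fun e => n1 ?_, fun e => n2 ?_, fun e => n3 ?_⟩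
    · exact A.inj p q r q r p f1 f1.rot (T.inj' (hB p q r hf) _ e)
    · exact A.inj q r p r p q f1.rot f1.rot.rot (T.inj' (hB q r p hf.rot) _ e)
    · exact (A.inj r p q p q r f1.rot.rot f1 (T.inj' (hB r p q hf.rot.rot) _ e)).symm
  have h0 := budget_one (hπ := hπ) A T F hX hQU hQ hb ha w3 w1 wc sa sb hG
  have e1 : ENNReal.ofReal ((∑ g ∈ G, ‖a g‖ ^ 2) / 4) = Wf P B / 4 := by
    rw [ENNReal.ofReal_div_of_pos (by norm_num), sum_FD A hBU fun t ht => ha t (fc_mono hBU ht)]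
    norm_num
  have e2 : ENNReal.ofReal (∑ g, ‖b g‖ ^ 2) = Wf P (Nk J Q k ∩ U) := by
    rw [← sum_FD A hNU fun t ht => ha t (fc_mono hNU ht), Finset.sum_filter]
    congr 1
    refine Finset.sum_congr rfl fun g _ => ?_
    simp only [hbdef]
    split_ifs with h
    · rfl
    · simp
  rwa [e1, e2] at h0

/-! ### the big closed blocks -/

/-- **the big closed blocks of the filled configuration are big blocks of the real configuration** -/
theorem clb_le [Fintype D] (A : Agr P U M δ κ) (T : Gt M π o) (F : FrF P U M π o δ)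
    {χ : C → ZMod 2} (H : Rim M π o χ) :
    ∑ β ∈ clb P U M π hπ o δ k (cfg M (fil π o χ)), en a β ≤
      ∑ β ∈ bigB P U M δ k (cfg M χ), en a β := by
  refine Finset.sum_le_sum_of_subset fun β hβ => ?_
  unfold clb at hβ
  obtain ⟨h1, h2, g, hg, hB⟩ := Finset.mem_filter.1 hβ
  have h0 : IsC (coarse M π hπ) ∅ (cfg M (fil π o χ)) := fil_isC T χ
  have hx := IsC.of_coarse h0
  have hgx : Gp (coarse M π hπ) (cfg M (fil π o χ)) g := (mem_blks h0 h1 hg).1
  have xg : cfg M (fil π o χ) (M.rho g) = 1 := hgx.2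
  have eit := H.same.it hx xg
  refine Finset.mem_filter.2 ⟨closed_real T H h1 h2, g, hg, fun n => ?_, fun z => ?_⟩
  · rw [eit]
    exact F.st A h0 (occ_it hx xg n)
  · obtain ⟨n, p, q, r, h3, h4, h5⟩ := hB z
    exact ⟨n, p, q, r, h3, by rw [eit]; exact h4, h5⟩

/-- **mean over the colours of the big blocks of the real configuration** -/
theorem sum_bigB [Fintype D] [Fintype C] (A : Agr P U M δ κ) {X : Set (ℂ × Bool)}
    (hX : ps X = P) (ha : ∀ t : T3, Fc P U t.1 t.2.1 t.2.2 → a (gd δ t) = Nn t) :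
    ∑ χ : C → ZMod 2, ∑ β ∈ bigB P U M δ k (cfg M χ), en a β ≤
      (Fintype.card (C → ZMod 2) : ℝ≥0∞) * fam.Ps k U X := by
  have h1 := sum_cfg (M := M) (fun x => ∑ β ∈ bigB P U M δ k x, en a β)
  have h2 := sum_cfg (M := M) (A := ℕ) (fun _ => 1)
  have h3 := blocks_mass A hX k ha
  simp only [Finset.sum_const, Finset.card_univ, smul_eq_mul, mul_one] at h2
  rw [h1, nsmul_eq_mul, h2]
  push_cast
  rw [mul_assoc]
  exact mul_le_mul_right h3 _

end Crest.Agent.R143.Bud3x432
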