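import Crest.Agent.R143.HInst1_432
import Crest.Agent.R143.Bud3_432

/-!
# Row 143 (S0194), block H (helper432): the coarse map of `cm0` with one giant

`S` a finite set which contains the points of `P` in `U`, hull outside; `E` = set of the cells on or
outside `K` (contains the hull); `pe E` merges `E`.

* `gt_cm0`, `fr_cm0`, `agr_cm0`, `rim_cm0`, `fresh_cm0` : the hypotheses `Gt`, `FrF`, `Agr`, `Rim` of
  `budget_W`
* `budget_E` : **the budget with means**: `Wf B / 4 ≤ CH + ∑ Ph (Q j) + Wf (Nk ∩ U) + CL`,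
  `CH`, `CL` = means over the even configurations of the coarse map
* `mean_of` : these means = means over uniform free colours; `cl_le` : `CL ≤` mean of the big
  blocks of the real configuration
-/

set_option autoImplicit false

noncomputable section

open scoped Classical

namespace Crest.Agent.R143.HInst2x432

open Crest.Agent.R143.B0x346 Crest.Agent.R143.SumScx302 Crest.Agent.R143.Mass1x302
  Crest.Agent.R143.Mass2x302 Crest.Agent.R143.Mass3x302 Crest.Agent.R143.Mass4x302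
  Crest.Agent.R143.Mass5x302 Crest.Agent.R143.DelGx806 Crest.Agent.R143.DelRx806
open Crest.Agent.R143.Frame1x395 Crest.Agent.R143.Frame2x395 Crest.Agent.R143.Frame3x395
  Crest.Agent.R143.Frame4x395 Crest.Agent.R143.Frame8x395 Crest.Agent.R143.Frame9x395
  Crest.Agent.R143.Frame10x395
  Crest.Agent.R143.Coarsex166 Crest.Agent.R143.Budx432 Crest.Agent.R143.Bud2x432
  Crest.Agent.R143.Bud3x432 Crest.Agent.R143.HInst1x432
open Crest.Agent.R143.Frame5x395 (sd mem_sd th th_spec)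
open Crest.Agent.R143.Trans2x690 (Wf)
open scoped ENNReal

variable {S : Finset ℂ} {P U : Set ℂ} {E : Set (Quot (hullE S))}

/-! ### the hypotheses -/

/-- all the classes off the giant are single genuine cells -/
theorem gt_cm0 (hS : GP (S : Set ℂ)) (hull : ∀ v, OnHull S v → Quot.mk _ v ∈ E) :
    Gt (cm0 hS) (pe E) none := by
  refine gt_pe fun c hc => ?_
  obtain ⟨v, rfl⟩ := Quot.exists_rep c
  exact gen_inner hS fun h => hc (hull v h)

/-- the faces of the fresh cells are Delaunay faces inside `U` -/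
theorem fr_cm0 (hS : GP (S : Set ℂ)) (hPS : ∀ z ∈ U, z ∈ P ↔ z ∈ (S : Set ℂ)) {e0 : D0 S}
    (hd : ∀ a b c, (a, b, c) ∈ delT S → (Quot.mk _ a : Quot (hullE S)) ∉ E →
      cdisc (a, b, c) ⊆ U) :
    FrF P U (cm0 hS) (pe E) none (dl e0) := by
  rintro ⟨⟨a, b⟩, he⟩ hne
  have h1 : (a, b, th S (a, b)) ∈ delT S := th_spec he
  have h2 : (Quot.mk _ a : Quot (hullE S)) ∉ E := fun h => hne (pe_none.2 h)
  have h3 : Fc (S : Set ℂ) U a b (th S (a, b)) := ⟨mem_delT.1 h1, hd _ _ _ h1 h2⟩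
  exact ⟨a, b, th S (a, b), fc_congr (fun z hz => (hPS z hz).symm) h3, (dl_eq he).symm⟩

/-- the colours next to the fresh cells -/
theorem rim_cm0 (hS : GP (S : Set ℂ)) {χ : Quot (hullE S) → ZMod 2}
    (hr : ∀ a b, (a, b) ∈ sd S → (b, a) ∈ sd S → (Quot.mk _ a : Quot (hullE S)) ∉ E →
      Quot.mk _ b ∈ E → χ (Quot.mk _ b) = 1) : Rim (cm0 hS) (pe E) none χ := by
  rintro ⟨⟨a, b⟩, he⟩ hl h1 h2
  exact hr a b he hl (fun h => h1 (pe_none.2 h)) (pe_none.1 h2)

/-- no site of `B` in the giant -/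
theorem fresh_cm0 {B : Set ℂ} (hPS : ∀ z ∈ B, z ∈ P ↔ z ∈ (S : Set ℂ))
    (hB : ∀ v ∈ S, v ∈ B → (Quot.mk _ v : Quot (hullE S)) ∉ E) {p q r : ℂ}
    (h : Fc P B p q r) : pe E (Quot.mk _ p : Quot (hullE S)) ≠ none := fun e =>
  hB p ((hPS p (fc_memU h)).1 h.1.1) (fc_memU h) (pe_none.1 e)

/-! ### means -/

variable {D C C' : Type} {M : CMap D C} {δ : ℂ → ℂ → D} {κ : ℂ → C}
variable {π : C → C'} {hπ : ClsCon M π} {o : C'} {a : D → ℂ}

/-- mean over the even configurations of the coarse map -/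
def mE [Fintype D] (M : CMap D C) (π : C → C') (hπ : ClsCon M π) (F : (D → ZMod 2) → ℝ≥0∞) :
    ℝ≥0∞ := (∑ x ∈ ev (coarse M π hπ), F x) / ((ev (coarse M π hπ)).card : ℝ≥0∞)

theorem card_ev [Fintype D] (M : CMap D C) : ((ev M).card : ℝ≥0∞) ≠ 0 := by
  have h : 0 < (ev M).card := Finset.card_pos.2 ⟨_, zero_ev⟩
  exact_mod_cast h.ne'

theorem mE_mul [Fintype D] (F : (D → ZMod 2) → ℝ≥0∞) :
    ((ev (coarse M π hπ)).card : ℝ≥0∞) * mE M π hπ F = ∑ x ∈ ev (coarse M π hπ), F x :=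
  ENNReal.mul_div_cancel (card_ev _) (ENNReal.natCast_ne_top _)

variable {ι : Type} {J : Finset ι} {Q : ι → Set ℂ} {k : ℝ}

/-- **the budget with means** -/
theorem budget_E [Fintype D] (A : Agr P U M δ κ) (T : Gt M π o) (F : FrF P U M π o δ)
    {X : Set (ℂ × Bool)} (hX : ps X = P) (hQU : ∀ j ∈ J, Q j ⊆ U)
    (hQ : ∀ j ∈ J, ∀ p q r, Fc P (Q j) p q r → π (κ p) ≠ o)
    (ha : ∀ t : T3, Fc P U t.1 t.2.1 t.2.2 → a (gd δ t) = Nn t)
    {w : ℂ} (w3 : w ^ 3 = 1) (w1 : w ≠ 1) (wc : (starRingEnd ℂ) w = w ^ 2) (sa : Spin M w a)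
    {B : Set ℂ} (hBU : B ⊆ U) (hB : ∀ p q r, Fc P B p q r → π (κ p) ≠ o) :
    Wf P B / 4 ≤ mE M π hπ (fun x => ∑ β ∈ chd M π hπ o x, en a β) +
      ∑ j ∈ J, fam.Ph (Q j) X + Wf P (Nk J Q k ∩ U) +
      mE M π hπ (fun x => ∑ β ∈ clb P U M π hπ o δ k x, en a β) := by
  have h := budget_W (hπ := hπ) (k := k) A T F hX hQU hQ ha w3 w1 wc sa hBU hB
  rw [← mE_mul (hπ := hπ) fun x => ∑ β ∈ chd M π hπ o x, en a β,
    ← mE_mul (hπ := hπ) fun x => ∑ β ∈ clb P U M π hπ o δ k x, en a β, ← mul_add, ← mul_add,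
    ← mul_add] at h
  exact (ENNReal.mul_le_mul_iff_right (card_ev _) (ENNReal.natCast_ne_top _)).1 h

variable {A : Type}

/-- **the mean over the even configurations of the coarse map is the mean over uniform free colours** -/
theorem mean_of [Fintype D] (T : Gt M π o) {K0 : Finset C}
    (hK : ∀ d, π (M.cell d) ≠ o → M.cell d ∈ K0) {s : Finset A} {χ : A → C → ZMod 2}
    (hu : Unif s χ K0) (F : (D → ZMod 2) → ℝ≥0∞) :
    (s.card : ℝ≥0∞) * mE M π hπ F = ∑ ω ∈ s, F (cfg M (fil π o (χ ω))) := by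
  have h := sum_free (hπ := hπ) T hK hu F
  rw [← mE_mul, ← mul_assoc, mul_comm (s.card : ℝ≥0∞), mul_assoc] at h
  exact ((ENNReal.mul_right_inj (card_ev _) (ENNReal.natCast_ne_top _)).1 h).symm

/-- **the big closed blocks, mean over the free colours, real configuration** -/
theorem cl_le [Fintype D] (A' : Agr P U M δ κ) (T : Gt M π o) (F : FrF P U M π o δ)
    {K0 : Finset C} (hK : ∀ d, π (M.cell d) ≠ o → M.cell d ∈ K0) {s : Finset A}
    {χ : A → C → ZMod 2} (hu : Unif s χ K0) (hr : ∀ ω ∈ s, Rim M π o (χ ω)) :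
    (s.card : ℝ≥0∞) * mE M π hπ (fun x => ∑ β ∈ clb P U M π hπ o δ k x, en a β) ≤
      ∑ ω ∈ s, ∑ β ∈ bigB P U M δ k (cfg M (χ ω)), en a β := by
  rw [mean_of T hK hu]
  exact Finset.sum_le_sum fun ω hω => clb_le A' T F (hr ω hω)

end Crest.Agent.R143.HInst2x432
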