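import Crest.Agent.R143.CntG_197
import Crest.Agent.R143.HInst2_432
import Crest.Agent.R143.EnvH_653

/-!
# Row 143 (S0194), block H, inputs [B] and [N]: the sites of the net with one giant, the environment
(helper197)

`M'` = any closed map on the darts `D0 S` with a giant cell `A`; the other cells are single sites.
* `Sng M' A` : the darts whose cell is not `A` are determined by their first site; `jS M'` : the site
  of a cell; `sites` : `CntG_197.Sites` for `restr M'`
* `sng_pe`, `sng_coarse` : `coarse (cm0 hS) (pe E) hπ`, and any coarse map of a map on `D0 S`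
* `dense_env` : 653's `EnvH` gives `Dense` (hypotheses of the arm bounds at all places of a disc)
-/

set_option autoImplicit false

noncomputable section

open scoped Classical

namespace Crest.Agent.R143.BNsx197

open Crest.Agent.R143.B0x346 Crest.Agent.R143.JColx54
open Crest.Agent.R143.Frame1x395 Crest.Agent.R143.Frame10x395
open Crest.Agent.R143.Mass3x302 (restr)
open Crest.Agent.R143.Coarsex166 (ClsCon coarse)
open Crest.Agent.R143.HInst1x432 (pe pe_none pe_eq)
open Crest.Agent.R143.RB0x838 (LDns Mesh)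
open Crest.Agent.R143.Frame5x395 (sd mem_sd)
open Crest.Agent.R143.CntGx197

variable {S : Finset ℂ} {C C' : Type} {M' : CMap (D0 S) C'} {A : C'}

/-- the cells off the giant are single sites -/
structure Sng (M' : CMap (D0 S) C') (A : C') : Prop where
  rho : ∀ d : D0 S, (M'.rho d).1.1 = d.1.2
  inj : ∀ d e : D0 S, M'.cell d = M'.cell e → M'.cell d ≠ A → d.1.1 = e.1.1
  cel : ∀ d e : D0 S, d.1.1 = e.1.1 → M'.cell d = M'.cell e

/-- the site of a cell -/
def jS (M' : CMap (D0 S) C') (c : Set.range M'.cell) : ℂ := (c.2.choose).1.1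

theorem jS_spec (c : Set.range M'.cell) : M'.cell c.2.choose = c.1 := c.2.choose_spec

/-- the site of the cell of a dart -/
theorem Sng.js (H : Sng M' A) {d : D0 S} (hd : M'.cell d ≠ A) :
    jS M' ⟨M'.cell d, d, rfl⟩ = d.1.1 := by
  have h1 := jS_spec (M' := M') ⟨M'.cell d, d, rfl⟩
  exact H.inj _ _ h1 (by rw [h1]; exact hd)

theorem Sng.js' (H : Sng M' A) {d : D0 S} (hd : M'.cell (M'.rho d) ≠ A) :
    jS M' ⟨M'.cell (M'.rho d), M'.rho d, rfl⟩ = d.1.2 := by
  rw [H.js hd, H.rho]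

/-- **the sites of a map with one giant** -/
theorem Sng.sites (H : Sng M' A) : Sites (restr M') S {c | c.1 ≠ A} (jS M') := by
  refine ⟨?_, ?_, ?_⟩
  · rintro ⟨_, d, rfl⟩ hc ⟨_, e, rfl⟩ hc' h
    rw [H.js hc, H.js hc'] at h
    exact Subtype.ext (H.cel _ _ h)
  · rintro ⟨_, d, rfl⟩ hc
    rw [H.js hc]
    obtain ⟨c, hc⟩ := mem_sd.1 d.2
    exact (Crest.Agent.R143.DelGx806.mem_delT.1 hc).1
  · intro d _ h1 h2
    have h1' : M'.cell d ≠ A := h1
    have h2' : M'.cell (M'.rho d) ≠ A := h2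
    show JColx54.Adj S (jS M' ⟨M'.cell d, d, rfl⟩) (jS M' ⟨M'.cell (M'.rho d), M'.rho d, rfl⟩)
    rw [H.js h1', H.js' h2']
    obtain ⟨c, hc⟩ := mem_sd.1 d.2
    exact Or.inl ⟨c, hc⟩

/-- a coarse map with one giant of a map on the darts of `S` -/
theorem sng_coarse {M : CMap (D0 S) C} {π : C → C'} {hπ : ClsCon M π}
    (hr : ∀ d : D0 S, (M.rho d).1.1 = d.1.2) (hc : ∀ d e : D0 S, d.1.1 = e.1.1 → M.cell d = M.cell e)
    (hi : ∀ d e : D0 S, π (M.cell d) = π (M.cell e) → π (M.cell d) ≠ A → d.1.1 = e.1.1) :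
    Sng (coarse M π hπ) A :=
  ⟨hr, hi, fun d e h => congrArg π (hc d e h)⟩

/-- **the net of block H** -/
theorem sng_pe (hS : GP (S : Set ℂ)) {E : Set (Quot (hullE S))} (hπ : ClsCon (cm0 hS) (pe E))
    (hull : ∀ v, OnHull S v → (Quot.mk _ v : Quot (hullE S)) ∈ E) :
    Sng (coarse (cm0 hS) (pe E) hπ) none := by
  refine sng_coarse (fun _ => rfl) ?_ ?_
  · intro d e h
    show (Quot.mk _ d.1.1 : Quot (hullE S)) = Quot.mk _ e.1.1
    rw [h]
  · intro d e h hd
    have h1 : (Quot.mk _ d.1.1 : Quot (hullE S)) ∉ E := fun h => hd (pe_none.2 h)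
    have h2 : (Quot.mk _ d.1.1 : Quot (hullE S)) = Quot.mk _ e.1.1 :=
      (pe_eq h).resolve_right hd
    exact (quot_inner hS (fun h => h1 (hull _ h)) h2).symm

/-! ### the environment -/

open Crest.Agent.R143.EnvHx653
open Crest.ProbabilityR.Voronoi

/-- **`Dense` from 653's environment** -/
theorem dense_env {R0 ε d K c2 R d1 Rad : ℝ} {z0 : ℂ} {ω : Sample} (hd1 : 0 < d1)
    (h2 : 2 * d1 ≤ 1) (H : EnvH R0 ε d K (c2 * R / d1) d1 ω)
    (hgp : GP (S : Set ℂ)) (hR0 : ‖z0‖ + Rad + (K + 1) * d1 + 2 * d ≤ R0)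
    (hA : ∀ s : ℂ, ‖s - z0‖ ≤ Rad + (K + 1) * d1 + 2 * d → (s ∈ points ε ω ↔ s ∈ S)) :
    Dense S z0 Rad K d c2 R d1 Cab := by
  have key : ∀ y : ℂ, ‖y - z0‖ ≤ Rad →
      RBmx838.NvA S y (K * d1) (c2 * R / d1) d1 d Cab := by
    intro y hy
    refine H S y d1 hgp le_rfl h2 ?_ fun s hs => hA s ?_
    · have := norm_add_le (y - z0) z0
      rw [sub_add_cancel] at this
      linarith
    · have e : s - z0 = (s - y) + (y - z0) := by ring
      rw [e]
      have := norm_add_le (s - y) (y - z0)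
      linarith
  refine ⟨fun y hy => (key y hy).dns, fun y hy b hb1 hb2 => (key y hy).mesh b ?_ hb2⟩
  rw [div_mul_cancel₀ _ hd1.ne']
  exact hb1

end Crest.Agent.R143.BNsx197
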