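import Crest.Agent.R143.X0C_683
import Crest.Agent.R143.JWalk_872

/-!
# Row 143 (S0194), block X: leaf INDEP (helper583)

* `bd_join`, `flip_join`, `at_join` : flips of interior sites / change of the face keep joins
* `exit_tip` : a walk which starts with both sites outside `W` and does not end so has a tip
* `Tips_congr` : `Tips` only looks at the edges with both sites outside `W`
* `dep_HO`, `dep_HI` : the outer (inner) legs look at the sites outside (inside)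
* `ex_out` : the marks are outside the disc
* `indep : INDEP`
-/

set_option autoImplicit false

noncomputable section

open scoped Classical

namespace Crest.Agent.R143.Indepx583

open Crest.Agent.R143.B0x346 Crest.Agent.R143.DelGx806 Crest.Agent.R143.DelRx806
open Crest.Agent.R143.ToolWx838 Crest.Agent.R143.Blkx838 Crest.Agent.R143.Harx315
open Crest.Agent.R143.RB0x838 Crest.Agent.R143.Planarx54
open Crest.Agent.R143.X0Bx683 Crest.Agent.R143.X0Cx683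
open Crest.Agent.R143.JCardx872 Crest.Agent.R143.JWalkx872

variable {S : Finset ℂ} {N : Net ℂ} {z0 : ℂ} {R R1 d b0 C4 r : ℝ}

/-! ### joins after a flip -/

theorem mem_bd {G : Trg ℂ} {β : Finset ℂ} {a b : ℂ} :
    (a, b) ∈ bd G β ↔ (a, b) ∈ G.E ∧ ¬ (a ∈ β ↔ b ∈ β) := by
  unfold bd
  rw [Finset.mem_filter]

theorem mem_flip {G : Trg ℂ} {J : Finset (ℂ × ℂ)} {β : Finset ℂ} {a b : ℂ} :
    (a, b) ∈ X0Bx683.flip G J β ↔ ((a, b) ∈ J ∧ (a, b) ∉ bd G β) ∨ ((a, b) ∈ bd G β ∧ (a, b) ∉ J) := by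
  unfold X0Bx683.flip
  rw [Finset.mem_symmDiff]

theorem mem_E_iff {G : Trg ℂ} {a b : ℂ} :
    (a, b) ∈ G.E ↔ (∃ c, (a, b, c) ∈ G.T) ∨ ∃ c, (b, a, c) ∈ G.T := by
  unfold Trg.E
  rw [Finset.mem_union, Finset.mem_image, Finset.mem_image]
  constructor
  · rintro (⟨⟨x, y, z⟩, h, e⟩ | ⟨⟨x, y, z⟩, h, e⟩)
    · rw [Prod.mk.injEq] at e
      obtain ⟨rfl, rfl⟩ := e
      exact Or.inl ⟨z, h⟩
    · rw [Prod.mk.injEq] at e
      obtain ⟨rfl, rfl⟩ := e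
      exact Or.inr ⟨z, h⟩
  · rintro (⟨c, h⟩ | ⟨c, h⟩)
    · exact Or.inl ⟨_, h, rfl⟩
    · exact Or.inr ⟨_, h, rfl⟩

theorem bd_symm {G : Trg ℂ} {β : Finset ℂ} {a b : ℂ} : (a, b) ∈ bd G β ↔ (b, a) ∈ bd G β := by
  rw [mem_bd, mem_bd, mem_E_iff, mem_E_iff]
  tauto

/-- the marks are outside the disc -/
theorem ex_out (hW : World S N z0 R R1 d b0 C4) (k : ZMod 3) :
    ¬ ‖(N.ex k).1 - z0‖ < R ∧ ¬ ‖(N.ex k).2 - z0‖ < R := by
  have h := hW.hnet.hex k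
  exact ⟨fun h1 => (hW.inner _ (N.ex k).2 h1).1 h, fun h1 => (hW.inner _ (N.ex k).1 h1).2 h⟩

/-- boundary of a set of interior sites -/
theorem bd_join (hW : World S N z0 R R1 d b0 C4) {β : Finset ℂ} (hβ : ∀ s ∈ β, ‖s - z0‖ < R) :
    IsJoin N.toTrg N.kl ∅ ∅ (bd N.toTrg β) := by
  have hk : ∀ a b : ℂ, (a, b) ∈ N.kl → (a, b) ∉ bd N.toTrg β := by
    intro a b h h'
    rw [mem_bd] at h'
    by_cases ha : a ∈ β
    · exact hW.live a b (hβ a ha) h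
    · by_cases hb : b ∈ β
      · exact hW.live b a (hβ b hb) (N.klsym _ _ h)
      · exact h'.2 ⟨fun h => absurd h ha, fun h => absurd h hb⟩
  have hb : ∀ a b : ℂ, (∀ c, (b, a, c) ∉ N.T) → (a, b) ∉ bd N.toTrg β := by
    intro a b h h'
    rw [mem_bd, mem_E_iff] at h'
    obtain ⟨h1, h2⟩ := h'
    rcases h1 with ⟨c, hc⟩ | ⟨c, hc⟩
    · have hh : hullE S a b := by
        rw [hW.hnet.tri] at hc h
        exact ⟨⟨c, hc⟩, h⟩
      by_cases ha : a ∈ β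
      · exact (hW.inner a b (hβ a ha)).1 hh
      · by_cases hb : b ∈ β
        · exact (hW.inner b a (hβ b hb)).2 hh
        · exact h2 ⟨fun h => absurd h ha, fun h => absurd h hb⟩
    · exact h c hc
  refine ⟨Finset.filter_subset _ _, fun a b _ _ => bd_symm, fun a b h => absurd h (by simp), ?_, ?_, ?_⟩
  · intro a b h _
    exact ⟨hb a b h, fun h' => hb a b h (bd_symm.1 h')⟩
  · intro a b h _ _
    exact ⟨hk a b h, hk b a (N.klsym _ _ h)⟩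
  · intro a b c h
    have e1 : (a, b) ∈ N.toTrg.E := mem_E_iff.2 (Or.inl ⟨c, h⟩)
    have e2 : (b, c) ∈ N.toTrg.E := mem_E_iff.2 (Or.inl ⟨a, N.rot h⟩)
    have e3 : (c, a) ∈ N.toTrg.E := mem_E_iff.2 (Or.inl ⟨b, N.rot (N.rot h)⟩)
    simp only [mem_bd, e1, e2, e3, true_and, Set.mem_empty_iff_false, if_false]
    by_cases ha : a ∈ β <;> by_cases hb : b ∈ β <;> by_cases hc : c ∈ β <;> simp [ha, hb, hc]

theorem symmDiff_empty_set {A : Type} (O : Set A) : symmDiff O (∅ : Set A) = O := by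
  have : (∅ : Set A) = ⊥ := rfl
  rw [this, symmDiff_bot]

theorem isJoin_of_tj {t : ℂ × ℂ × ℂ} {J : Finset (ℂ × ℂ)} (h : J ∈ N.tj t) :
    IsJoin N.toTrg N.kl (rots t) N.exS J := by
  unfold Net.tj at h
  exact mem_joins.1 h

/-- flips of interior sites keep joins -/
theorem flip_join (hW : World S N z0 R R1 d b0 C4) {β : Finset ℂ} (hβ : ∀ s ∈ β, ‖s - z0‖ < R)
    {t : ℂ × ℂ × ℂ} {J : Finset (ℂ × ℂ)} (hJ : J ∈ N.tj t) :
    X0Bx683.flip N.toTrg J β ∈ N.tj t := by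
  unfold Net.tj
  rw [mem_joins]
  have h := xor_isJoin (bd_join hW hβ) (D := N.exS) (O := rots t) (K := J) ?_ (isJoin_of_tj hJ)
  · rw [symmDiff_empty_set, symmDiff_comm] at h
    exact h
  · rintro x ⟨k, rfl⟩ h
    have h1 : ((N.ex k).1, (N.ex k).2) ∈ bd N.toTrg β := h
    rw [mem_bd] at h1
    have h2 := ex_out hW k
    by_cases ha : (N.ex k).1 ∈ β
    · exact h2.1 (hβ _ ha)
    · by_cases hb : (N.ex k).2 ∈ β
      · exact h2.2 (hβ _ hb)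
      · exact h1.2 ⟨fun h => absurd h ha, fun h => absurd h hb⟩

/-- change of the odd face -/
theorem at_join (hW : World S N z0 R R1 d b0 C4) (f : Fc S N z0 r) (hr : r ≤ R)
    {J : Finset (ℂ × ℂ)} (hJ : J ∈ N.tj f.s0) {t : ℂ × ℂ × ℂ} (ht : t ∈ f.T) :
    f.at' J t ∈ N.tj t := by
  unfold Net.tj
  rw [mem_joins]
  have h := xor_isJoin (f.pth t ht) (D := N.exS) (O := rots f.s0) (K := J) ?_ (isJoin_of_tj hJ)
  · rw [symmDiff_comm (f.gam t) J] at h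
    have e : symmDiff (rots f.s0) (symmDiff (rots f.s0) (rots t)) = rots t := by
      rw [← symmDiff_assoc, symmDiff_self, bot_symmDiff]
    rw [e] at h
    exact h
  · rintro x ⟨k, rfl⟩ h
    have h1 := f.pin t ht _ h
    exact (ex_out hW k).1 (lt_of_lt_of_le h1.1 hr)

/-! ### walks and sets -/

section walk

variable {G : Trg ℂ} {O O' : Set (ℂ × ℂ × ℂ)} {D : Set (ℂ × ℂ)} {J J' : Finset (ℂ × ℂ)} {W : Set ℂ}

theorem leadsO_out {p q : ℂ × ℂ} (h : LeadsO G O D J W p q) : OutP W q := by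
  obtain ⟨h0, h⟩ := h
  rcases Relation.ReflTransGen.cases_tail h with h | ⟨m, _, hm⟩
  · exact h ▸ h0
  · exact hm.2

theorem leadsO_leads {p q : ℂ × ℂ} (h : LeadsO G O D J W p q) : Leads G O D J p q := by
  obtain ⟨_, h⟩ := h
  induction h with
  | refl => exact Relation.ReflTransGen.refl
  | tail _ h2 ih => exact ih.tail h2.1

/-- first exit -/
theorem leads_exit {p q : ℂ × ℂ} (hp : OutP W p) (h : Leads G O D J p q) :
    LeadsO G O D J W p q ∨ ∃ m m', LeadsO G O D J W p m ∧ Step G O D J m m' ∧ ¬ OutP W m' ∧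
      Leads G O D J m' q := by
  induction h with
  | refl => exact Or.inl ⟨hp, Relation.ReflTransGen.refl⟩
  | @tail a b h1 h2 ih =>
    rcases ih with ih | ⟨m, m', hm, hs, hn, hl⟩
    · by_cases hb : OutP W b
      · exact Or.inl ⟨hp, ih.2.tail ⟨h2, hb⟩⟩
      · exact Or.inr ⟨a, b, ih, h2, hb, Relation.ReflTransGen.refl⟩
    · exact Or.inr ⟨m, m', hm, hs, hn, hl.tail h2⟩

/-- a step which leaves `OutP` has its apex in `W` -/
theorem step_apex {m m' : ℂ × ℂ} (hm : OutP W m) (h : Step G O D J m m') (hn : ¬ OutP W m') :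
    ∃ c ∈ W, (m.1, m.2, c) ∈ G.T := by
  obtain ⟨c, hc, _, _, h⟩ := h
  refine ⟨c, ?_, hc⟩
  by_contra hcW
  rcases h with ⟨_, rfl⟩ | ⟨_, _, rfl⟩
  · exact hn ⟨hcW, hm.2⟩
  · exact hn ⟨hm.1, hcW⟩

/-- a walk which starts with both sites outside `W` and does not end so has a tip -/
theorem exit_tip {p q : ℂ × ℂ} (hp : OutP W p) (h : Leads G O D J p q) (hq : ¬ OutP W q) :
    ∃ m, LegTip G O D J W p m := by
  rcases leads_exit hp h with h | ⟨m, m', hm, hs, hn, _⟩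
  · exact absurd (leadsO_out h) hq
  · exact ⟨m, hm, step_apex (leadsO_out hm) hs hn⟩

/-- steps outside `W` only look at the edges outside `W` -/
theorem step_congr (hJ : ∀ a b : ℂ, a ∉ W → b ∉ W → ((a, b) ∈ J ↔ (a, b) ∈ J'))
    (hO : ∀ a b c : ℂ, a ∉ W → b ∉ W → c ∉ W → ((a, b, c) ∈ O ↔ (a, b, c) ∈ O'))
    {p q : ℂ × ℂ} (hp : OutP W p) (hq : OutP W q) (h : Step G O D J p q) : Step G O' D J' p q := by
  obtain ⟨c, hc, hcO, hD, h⟩ := h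
  have hcW : c ∉ W := by
    rcases h with ⟨_, rfl⟩ | ⟨_, _, rfl⟩
    · exact hq.1
    · exact hq.2
  refine ⟨c, hc, fun h' => hcO ((hO _ _ _ hp.1 hp.2 hcW).2 h'), hD, ?_⟩
  rcases h with ⟨h1, h2⟩ | ⟨h1, h2, h3⟩
  · exact Or.inl ⟨(hJ _ _ hp.2 hcW).1 h1, h2⟩
  · exact Or.inr ⟨(hJ _ _ hcW hp.1).1 h1, fun h' => h2 ((hJ _ _ hp.2 hcW).2 h'), h3⟩

theorem leadsO_congr (hJ : ∀ a b : ℂ, a ∉ W → b ∉ W → ((a, b) ∈ J ↔ (a, b) ∈ J'))
    (hO : ∀ a b c : ℂ, a ∉ W → b ∉ W → c ∉ W → ((a, b, c) ∈ O ↔ (a, b, c) ∈ O'))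
    {p q : ℂ × ℂ} (h : LeadsO G O D J W p q) : LeadsO G O' D J' W p q := by
  obtain ⟨h0, h⟩ := h
  refine ⟨h0, ?_⟩
  induction h with
  | refl => exact Relation.ReflTransGen.refl
  | @tail a b h1 h2 ih =>
    have ha : OutP W a := leadsO_out ⟨h0, h1⟩
    exact ih.tail ⟨step_congr hJ hO ha h2.2 h2.1, h2.2⟩

theorem legTip_congr (hJ : ∀ a b : ℂ, a ∉ W → b ∉ W → ((a, b) ∈ J ↔ (a, b) ∈ J'))
    (hO : ∀ a b c : ℂ, a ∉ W → b ∉ W → c ∉ W → ((a, b, c) ∈ O ↔ (a, b, c) ∈ O'))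
    {p q : ℂ × ℂ} : LegTip G O D J W p q ↔ LegTip G O' D J' W p q :=
  ⟨fun h => ⟨leadsO_congr hJ hO h.1, h.2⟩, fun h => ⟨leadsO_congr
    (fun a b ha hb => (hJ a b ha hb).symm) (fun a b c ha hb hc => (hO a b c ha hb hc).symm) h.1,
    h.2⟩⟩

theorem Tips_congr (hJ : ∀ a b : ℂ, a ∉ W → b ∉ W → ((a, b) ∈ J ↔ (a, b) ∈ J'))
    (hO : ∀ a b c : ℂ, a ∉ W → b ∉ W → c ∉ W → ((a, b, c) ∈ O ↔ (a, b, c) ∈ O'))
    {st0 : ZMod 3 → ℂ × ℂ} : Tips G O D J W st0 ↔ Tips G O' D J' W st0 := by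
  unfold Tips
  simp only [legTip_congr hJ hO]

theorem TipsS_congr (hJ : ∀ a b : ℂ, a ∉ W → b ∉ W → ((a, b) ∈ J ↔ (a, b) ∈ J'))
    (hO : ∀ a b c : ℂ, a ∉ W → b ∉ W → c ∉ W → ((a, b, c) ∈ O ↔ (a, b, c) ∈ O'))
    {st0 : ZMod 3 → ℂ × ℂ} {η : ℝ} : TipsS G O D J W st0 η ↔ TipsS G O' D J' W st0 η := by
  unfold TipsS
  simp only [legTip_congr hJ hO]

end walk

/-! ### dependence on the colours -/

theorem flip_congr {G : Trg ℂ} {J : Finset (ℂ × ℂ)} {β β' : Finset ℂ} {a b : ℂ}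
    (ha : a ∈ β ↔ a ∈ β') (hb : b ∈ β ↔ b ∈ β') :
    (a, b) ∈ X0Bx683.flip G J β ↔ (a, b) ∈ X0Bx683.flip G J β' := by
  rw [mem_flip, mem_flip, mem_bd, mem_bd, ha, hb]

theorem mem_Fs {ρ : ℝ} {s : ℂ} : s ∈ Fs S z0 ρ ↔ s ∈ S ∧ ‖s - z0‖ < ρ := by
  unfold Fs
  rw [Finset.mem_filter]

/-- sites outside the disc: only the colours outside the disc -/
theorem col_out {R' ρ : ℝ} {β : Finset ℂ} (hβ : β ⊆ Fs S z0 R') {a : ℂ} (ha : a ∉ Dsc z0 ρ) :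
    a ∈ β ↔ a ∈ β ∩ (Fs S z0 R' \ Fs S z0 ρ) := by
  rw [Finset.mem_inter, Finset.mem_sdiff]
  constructor
  · intro h
    exact ⟨h, hβ h, fun h' => ha (mem_Fs.1 h').2⟩
  · exact fun h => h.1

theorem col_in {R' ρ : ℝ} {β : Finset ℂ} (hβ : β ⊆ Fs S z0 R') {a : ℂ} (ha : a ∈ Dsc z0 ρ) :
    a ∈ β ↔ a ∈ β ∩ Fs S z0 ρ := by
  rw [Finset.mem_inter]
  constructor
  · intro h
    exact ⟨h, mem_Fs.2 ⟨(mem_Fs.1 (hβ h)).1, ha⟩⟩
  · exact fun h => h.1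

theorem dep_HO {s0 : ℂ × ℂ × ℂ} {R' ρ : ℝ} {J : Finset (ℂ × ℂ)} :
    Dep (Fs S z0 R') (Fs S z0 R' \ Fs S z0 ρ)
      (fun β => HO N s0 z0 ρ (X0Bx683.flip N.toTrg J β)) := by
  intro β hβ
  unfold HO
  exact Tips_congr (fun a b ha hb => flip_congr (col_out hβ ha) (col_out hβ hb))
    (fun _ _ _ _ _ _ => Iff.rfl)

theorem dep_HI (f : Fc S N z0 r) {t : ℂ × ℂ × ℂ} (ht : t ∈ f.T) {R' ρ : ℝ} (hr : r ≤ ρ)
    {J : Finset (ℂ × ℂ)} :
    Dep (Fs S z0 R') (Fs S z0 ρ)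
      (fun β => HI N t z0 ρ (f.at' (X0Bx683.flip N.toTrg J β) t)) := by
  intro β hβ
  beta_reduce
  have h : ∀ a b : ℂ, a ∈ Dsc z0 ρ → b ∈ Dsc z0 ρ →
      ((a, b) ∈ f.at' (X0Bx683.flip N.toTrg J β) t ↔
        (a, b) ∈ f.at' (X0Bx683.flip N.toTrg J (β ∩ Fs S z0 ρ)) t) := by
    intro a b ha hb
    unfold Fc.at'
    rw [Finset.mem_symmDiff, Finset.mem_symmDiff, flip_congr (col_in hβ ha) (col_in hβ hb)]
  unfold HI
  have h1 : ∀ i, vt t i ∈ Dsc z0 ρ := fun i => lt_of_lt_of_le (f.near t ht i) hr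
  have h3 := Tips_congr (G := N.toTrg) (D := N.exS) (st0 := st t) (O := rots t) (O' := rots t)
    (fun a b ha hb => h a b (Set.notMem_compl_iff.1 ha) (Set.notMem_compl_iff.1 hb))
    (fun _ _ _ _ _ _ => Iff.rfl)
  have h2 : (∀ i, (vt t i, vt t (i + 1)) ∈ f.at' (X0Bx683.flip N.toTrg J β) t) ↔
      ∀ i, (vt t i, vt t (i + 1)) ∈ f.at' (X0Bx683.flip N.toTrg J (β ∩ Fs S z0 ρ)) t :=
    forall_congr' fun i => h _ _ (h1 i) (h1 (i + 1))
  exact and_congr h2 h3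

/-! ### three legs to the marks reach both radii -/

theorem Tri3.occ {t : ℂ × ℂ × ℂ} {k : ZMod 3} {J : Finset (ℂ × ℂ)} (h : N.Tri3 t k J)
    (i : ZMod 3) : (vt t i, vt t (i + 1)) ∈ J := by
  obtain ⟨h1, h2, h3, _⟩ := h
  rcases z3 i with rfl | rfl | rfl
  · exact h1
  · exact h2
  · exact h3

theorem Tri3.leg {t : ℂ × ℂ × ℂ} {k : ZMod 3} {J : Finset (ℂ × ℂ)} (h : N.Tri3 t k J)
    (i : ZMod 3) : Leads N.toTrg (rots t) N.exS J (st t i)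
      ((N.ex (i + k)).2, (N.ex (i + k)).1) := by
  obtain ⟨_, _, _, h4, h5, h6⟩ := h
  rcases z3 i with rfl | rfl | rfl
  · exact h4
  · exact h5
  · exact h6

theorem tri3_HI (hW : World S N z0 R R1 d b0 C4) {t : ℂ × ℂ × ℂ} {ρ : ℝ} (hρ : ρ ≤ R)
    (ht : ∀ i, ‖vt t i - z0‖ < ρ) {k : ZMod 3} {J : Finset (ℂ × ℂ)} (h : N.Tri3 t k J) :
    HI N t z0 ρ J := by
  refine ⟨fun i => Tri3.occ h i, fun i => ?_⟩
  refine exit_tip (W := (Dsc z0 ρ)ᶜ) ?_ (Tri3.leg h i) ?_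
  · exact ⟨fun h' => h' (ht (i + 1)), fun h' => h' (ht i)⟩
  · intro h'
    have h1 := h'.1
    rw [Set.notMem_compl_iff] at h1
    exact (ex_out hW (i + k)).2 (lt_of_lt_of_le h1 hρ)

theorem tri3_HO (hW : World S N z0 R R1 d b0 C4) {t : ℂ × ℂ × ℂ} {ρ : ℝ} (hρ : ρ ≤ R)
    (ht : ∀ i, ‖vt t i - z0‖ < ρ) {k : ZMod 3} {J : Finset (ℂ × ℂ)} (hJ : J ∈ N.tj t)
    (h : N.Tri3 t k J) : HO N t z0 ρ J := by
  intro i
  have hJ' := isJoin_of_tj hJ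
  obtain ⟨j, rfl⟩ : ∃ j, j + k = i := ⟨i - k, sub_add_cancel i k⟩
  have hm : ∀ x : ℂ × ℂ, x ∈ N.exS → ¬ ‖x.1 - z0‖ < R ∧ ¬ ‖x.2 - z0‖ < R := by
    rintro x ⟨l, rfl⟩
    exact ex_out hW l
  have hs : st t j ∈ J := by
    have h1 := Tri3.occ h j
    have h2 : ∀ i, ‖vt t i - z0‖ < R := fun i => lt_of_lt_of_le (ht i) hρ
    exact (hJ'.sym _ _ (fun h' => (hm _ h').1 (h2 _)) (fun h' => (hm _ h').1 (h2 _))).1 h1
  have hl := leads_rev hJ' (rotInv_rots t) hs (Tri3.leg h j)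
  refine exit_tip (W := Dsc z0 ρ) ?_ hl ?_
  · have h3 := ex_out hW (j + k)
    exact ⟨fun h' => h3.1 (lt_of_lt_of_le h' hρ), fun h' => h3.2 (lt_of_lt_of_le h' hρ)⟩
  · intro h'
    exact h'.1 (ht j)

/-- the outer legs do not see the inside -/
theorem HO_at (f : Fc S N z0 r) {t : ℂ × ℂ × ℂ} (ht : t ∈ f.T) {ρ : ℝ} (hr : r ≤ ρ)
    {J : Finset (ℂ × ℂ)} : HO N t z0 ρ (f.at' J t) ↔ HO N f.s0 z0 ρ J := by
  unfold HO
  have hro : ∀ s ∈ f.T, ∀ a b c : ℂ, a ∉ Dsc z0 ρ → (a, b, c) ∉ rots s := by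
    intro s hs a b c ha h
    have hv : ∀ i, vt s i ∈ Dsc z0 ρ := fun i => lt_of_lt_of_le (f.near s hs i) hr
    unfold rots at h
    simp only [Set.mem_insert_iff, Set.mem_singleton_iff] at h
    rcases h with h | h | h
    · exact ha (by have := hv 0; rw [vt_zero, ← h] at this; exact this)
    · rw [Prod.mk.injEq] at h
      exact ha (h.1 ▸ hv 1)
    · rw [Prod.mk.injEq] at h
      exact ha (h.1 ▸ hv 2)
  apply Tips_congr
  · intro a b ha _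
    unfold Fc.at'
    rw [Finset.mem_symmDiff]
    have : (a, b) ∉ f.gam t := fun h => ha (lt_of_lt_of_le (f.pin t ht _ h).1 hr)
    tauto
  · intro a b c ha _ _
    exact ⟨fun h => absurd h (hro t ht a b c ha), fun h => absurd h (hro _ f.s0m a b c ha)⟩

/-- **INDEP** -/
theorem indep : INDEP := by
  intro S N z0 R R1 d b0 C4 r hW f ρ ρ' R' hr hd h1 h2 h3 J hJ t ht
  have hd0 := hW.dns.dpos
  have hρ' : 0 < ρ' := by linarith
  have hrρ' : r ≤ ρ' := by linarith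
  have key : f.X1 R' J t ≤ pr (Fs S z0 R') (fun β =>
      HO N f.s0 z0 ρ (X0Bx683.flip N.toTrg J β) ∧
        HI N t z0 ρ' (f.at' (X0Bx683.flip N.toTrg J β) t)) := by
    unfold Fc.X1
    apply pr_mono
    rintro β hβ ⟨k, hk⟩
    have hβ' : ∀ s ∈ β, ‖s - z0‖ < R := fun s hs =>
      lt_of_lt_of_le (mem_Fs.1 (hβ hs)).2 h3
    have hfl := flip_join hW hβ' hJ
    have hat := at_join hW f (by linarith : r ≤ R) hfl ht
    have hv : ∀ i, ‖vt t i - z0‖ < ρ' := fun i => lt_of_lt_of_le (f.near t ht i) hrρ'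
    refine ⟨?_, tri3_HI hW (by linarith) hv hk⟩
    rw [← HO_at f ht (by linarith : r ≤ ρ)]
    exact tri3_HO hW (by linarith) (fun i => lt_of_lt_of_le (hv i) h1) hat hk
  refine key.trans (le_of_eq ?_)
  rw [pr_indep (W := Fs S z0 R' \ Fs S z0 ρ) (W' := Fs S z0 ρ') ?_ dep_HO
    (dep_HI f ht hrρ')]
  · rfl
  · rw [Finset.disjoint_left]
    intro s hs hs'
    rw [Finset.mem_sdiff, mem_Fs, mem_Fs] at hs
    rw [mem_Fs] at hs'
    exact hs.2 ⟨hs.1.1, lt_of_lt_of_le hs'.2 h1⟩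

end Crest.Agent.R143.Indepx583
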