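import Crest.Agent.R143.RB0_838
import Crest.Agent.R143.Planar2_54

/-!
# Row 143 (S0194), block X: DEFINITIONS (helper683)

* `bd G β` : boundary of a set of sites; `flip G J β` : the join `J` after the flip of the colours of `β`
* `Fs S z0 ρ` : sites of the disc
* `World` : network which is standard (live, inner, dense) in the disc `B(z0, R)`
* `LeadsO`, `LegTip` : a leg followed while BOTH sites of the walker are outside `W`; the tip is the
  walker in front of a triangle with apex in `W` (explored sites never lie in `W`). Outside legs: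
  `W` = disc, start = marks; inside legs: `W` = complement of the disc, start = sides of the face.
* `Tips`, `TipsS` : the three legs reach `W`; with tips at mutual distance `≥ η`
* `HO`, `GO` (outer legs), `HI`, `GI` (legs of the face)
* radii: `Rj j` (full information outside), `Rj j / 4` (outer tips), `Rj j / 16 ≤ |z| < Rj j / 8`
  (annulus `A1` of the loop with three gates), `Rj j / 64` (inner tips), `Rj (j + 1) = Rj j / 256`
* `Fc` : face data (faces, base face, reference paths, lifts); `XK` : value function at the scale `j`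
-/

set_option autoImplicit false

noncomputable section

open scoped Classical

namespace Crest.Agent.R143.X0Bx683

open Crest.Agent.R143.B0x346 Crest.Agent.R143.DelGx806 Crest.Agent.R143.DelRx806
open Crest.Agent.R143.ToolWx838 Crest.Agent.R143.Blkx838 Crest.Agent.R143.Harx315
open Crest.Agent.R143.RB0x838 Crest.Agent.R143.Planarx54

/-! ### flips -/

/-- boundary of a set of sites -/
def bd (G : Trg ℂ) (β : Finset ℂ) : Finset (ℂ × ℂ) :=
  G.E.filter fun p => ¬ (p.1 ∈ β ↔ p.2 ∈ β)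

/-- the join after the flip of the colours of the sites `β` -/
def flip (G : Trg ℂ) (J : Finset (ℂ × ℂ)) (β : Finset ℂ) : Finset (ℂ × ℂ) := symmDiff J (bd G β)

/-- sites of the disc -/
def Fs (S : Finset ℂ) (z0 : ℂ) (ρ : ℝ) : Finset ℂ := S.filter fun s => ‖s - z0‖ < ρ

/-- the disc -/
def Dsc (z0 : ℂ) (ρ : ℝ) : Set ℂ := {s | ‖s - z0‖ < ρ}

/-! ### worlds -/

/-- network which is standard in the disc `B(z0, R)`: every edge at a site of the disc is live and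
not on the hull; the sites are dense at the scale `d` in the bigger disc `B(z0, R1)` and the mesh bound
holds there at all scales between `b0` and `R1` -/
structure World (S : Finset ℂ) (N : Net ℂ) (z0 : ℂ) (R R1 d b0 C4 : ℝ) : Prop where
  hnet : HNet S N
  Rpos : 0 < R
  RR1 : R ≤ R1
  dns : LDns S z0 R1 d
  live : ∀ a b : ℂ, ‖a - z0‖ < R → (a, b) ∉ N.kl
  inner : ∀ a b : ℂ, ‖a - z0‖ < R → ¬ hullE S a b ∧ ¬ hullE S b a
  mesh : ∀ z : ℂ, ‖z - z0‖ ≤ R1 → ∀ b : ℝ, b0 ≤ b → b ≤ R1 → Mesh S z b b C4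

/-! ### legs followed up to a set `W` -/

/-- both sites of the walker are outside `W` -/
def OutP (W : Set ℂ) (p : ℂ × ℂ) : Prop := p.1 ∉ W ∧ p.2 ∉ W

/-- the walker at `p` arrives at `q`, all positions outside `W` -/
def LeadsO (G : Trg ℂ) (O : Set (ℂ × ℂ × ℂ)) (D : Set (ℂ × ℂ)) (J : Finset (ℂ × ℂ)) (W : Set ℂ)
    (p q : ℂ × ℂ) : Prop :=
  OutP W p ∧ Relation.ReflTransGen (fun p q => Step G O D J p q ∧ OutP W q) p q

/-- `q` is the tip of the leg from `p`: the triangle in front of `q` has its apex in `W` -/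
def LegTip (G : Trg ℂ) (O : Set (ℂ × ℂ × ℂ)) (D : Set (ℂ × ℂ)) (J : Finset (ℂ × ℂ)) (W : Set ℂ)
    (p q : ℂ × ℂ) : Prop :=
  LeadsO G O D J W p q ∧ ∃ c ∈ W, (q.1, q.2, c) ∈ G.T

/-- the three legs with the starting positions `st0` reach `W` -/
def Tips (G : Trg ℂ) (O : Set (ℂ × ℂ × ℂ)) (D : Set (ℂ × ℂ)) (J : Finset (ℂ × ℂ)) (W : Set ℂ)
    (st0 : ZMod 3 → ℂ × ℂ) : Prop :=
  ∀ i, ∃ q, LegTip G O D J W (st0 i) q

/-- the same with tips at mutual distance at least `η` -/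
def TipsS (G : Trg ℂ) (O : Set (ℂ × ℂ × ℂ)) (D : Set (ℂ × ℂ)) (J : Finset (ℂ × ℂ)) (W : Set ℂ)
    (st0 : ZMod 3 → ℂ × ℂ) (η : ℝ) : Prop :=
  ∃ q : ZMod 3 → ℂ × ℂ, (∀ i, LegTip G O D J W (st0 i) (q i)) ∧
    ∀ i j, i ≠ j → η ≤ ‖mid (q i) - mid (q j)‖

/-- outer legs reach the disc `B(z0, ρ)` (`s0` = odd triangle, inside the disc) -/
def HO (N : Net ℂ) (s0 : ℂ × ℂ × ℂ) (z0 : ℂ) (ρ : ℝ) (J : Finset (ℂ × ℂ)) : Prop :=
  Tips N.toTrg (rots s0) N.exS J (Dsc z0 ρ) N.ex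

/-- outer legs reach the disc `B(z0, ρ)`, tips `δ ρ`-separated -/
def GO (N : Net ℂ) (s0 : ℂ × ℂ × ℂ) (z0 : ℂ) (ρ δ : ℝ) (J : Finset (ℂ × ℂ)) : Prop :=
  TipsS N.toTrg (rots s0) N.exS J (Dsc z0 ρ) N.ex (δ * ρ)

/-- the three legs of the face `t` (odd triangle of `J`) reach the distance `ρ`; all three sides are
occupied -/
def HI (N : Net ℂ) (t : ℂ × ℂ × ℂ) (z0 : ℂ) (ρ : ℝ) (J : Finset (ℂ × ℂ)) : Prop :=
  (∀ i, (vt t i, vt t (i + 1)) ∈ J) ∧
    Tips N.toTrg (rots t) N.exS J (Dsc z0 ρ)ᶜ (st t)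

/-- the same with `δ ρ`-separated tips -/
def GI (N : Net ℂ) (t : ℂ × ℂ × ℂ) (z0 : ℂ) (ρ δ : ℝ) (J : Finset (ℂ × ℂ)) : Prop :=
  (∀ i, (vt t i, vt t (i + 1)) ∈ J) ∧
    TipsS N.toTrg (rots t) N.exS J (Dsc z0 ρ)ᶜ (st t) (δ * ρ)

/-! ### scales -/

/-- radius `R_j = R / 256 ^ j` -/
def Rj (R : ℝ) (j : ℕ) : ℝ := R / 256 ^ j

/-- region between two radii -/
def Ann (S : Finset ℂ) (z0 : ℂ) (ρ1 ρ2 : ℝ) : Finset ℂ :=
  S.filter fun s => ρ1 ≤ ‖s - z0‖ ∧ ‖s - z0‖ < ρ2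

/-- restriction of a join to the edges inside a disc which are not at a site of the smaller disc -/
def restr (z0 : ℂ) (ρ1 ρ2 : ℝ) (J : Finset (ℂ × ℂ)) : Finset (ℂ × ℂ) :=
  J.filter fun p => (ρ1 ≤ ‖p.1 - z0‖ ∧ ρ1 ≤ ‖p.2 - z0‖) ∧ (‖p.1 - z0‖ < ρ2 ∧ ‖p.2 - z0‖ < ρ2)

/-! ### faces and value functions -/

/-- face data of one world: the finite set `T` of faces, base face `s0`, reference paths `gam t` (a
join with the odd triangles `s0` and `t`, no marks, inside the disc `B(z0, r)`), base points and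
lifts -/
structure Fc (S : Finset ℂ) (N : Net ℂ) (z0 : ℂ) (r : ℝ) where
  T : Finset (ℂ × ℂ × ℂ)
  s0 : ℂ × ℂ × ℂ
  gam : ℂ × ℂ × ℂ → Finset (ℂ × ℂ)
  pt : ℂ × ℂ × ℂ → ℂ
  lf : ℂ × ℂ × ℂ → ℤ → ℝ
  a0 : ℂ × ℂ × ℂ → ℝ
  sub : ∀ t ∈ T, t ∈ delT S
  s0m : s0 ∈ T
  near : ∀ t ∈ T, ∀ i, ‖vt t i - z0‖ < r
  pth : ∀ t ∈ T, IsJoin N.toTrg N.kl (symmDiff (rots s0) (rots t)) ∅ (gam t)
  pin : ∀ t ∈ T, ∀ p ∈ gam t, ‖p.1 - z0‖ < r ∧ ‖p.2 - z0‖ < r
  lift : ∀ t ∈ T, Lift N (pt t) (lf t)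
  inn : ∀ t ∈ T, Lft (pt t) t.1 t.2.1 ∧ Lft (pt t) t.2.1 t.2.2 ∧ Lft (pt t) t.2.2 t.1
  dir : ∀ t ∈ T, ∃ ρ : ℝ, 0 < ρ ∧
    mid (t.1, t.2.1) - pt t = (ρ : ℂ) * Complex.exp (a0 t * Complex.I)
  /-- consistent lifts: all of them come from one lift at `z0` by continuity -/
  cons : ∃ lf0 : ℤ → ℝ, Lift N z0 lf0 ∧ ∀ t ∈ T, ∀ k : ℤ,
    lf t k = lf0 k + ((mid (N.ex (k : ZMod 3)) - pt t) / (mid (N.ex (k : ZMod 3)) - z0)).arg

variable {S : Finset ℂ} {N : Net ℂ} {z0 : ℂ} {r : ℝ}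

/-- the join `J` (odd triangle `s0`) read at the face `t` -/
def Fc.at' (f : Fc S N z0 r) (J : Finset (ℂ × ℂ)) (t : ℂ × ℂ × ℂ) : Finset (ℂ × ℂ) :=
  symmDiff J (f.gam t)

/-- **value function**: probability over the colours of the disc `B(z0, ρ)` that the face `t` has
three legs with winding index `k`, the outside being given by `J` -/
def Fc.XK (f : Fc S N z0 r) (ρ : ℝ) (J : Finset (ℂ × ℂ)) (t : ℂ × ℂ × ℂ) (k : ℤ) : ℝ :=
  pr (Fs S z0 ρ) fun β =>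
    N.TriK t (f.pt t) (f.lf t) (f.a0 t) k (f.at' (flip N.toTrg J β) t)

/-- probability of three legs from the face `t`, the outside being given by `J` -/
def Fc.X1 (f : Fc S N z0 r) (ρ : ℝ) (J : Finset (ℂ × ℂ)) (t : ℂ × ℂ × ℂ) : ℝ :=
  pr (Fs S z0 ρ) fun β => ∃ k, N.Tri3 t k (f.at' (flip N.toTrg J β) t)

/-- probability that the three legs of the face `t` reach the distance `ρ` (colours of `B(z0, R)`;
only the colours of `B(z0, ρ)` matter) -/
def Fc.h (f : Fc S N z0 r) (R ρ : ℝ) (J : Finset (ℂ × ℂ)) (t : ℂ × ℂ × ℂ) : ℝ :=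
  pr (Fs S z0 R) fun β => HI N t z0 ρ (f.at' (flip N.toTrg J β) t)

/-- the same with `δ ρ`-separated tips -/
def Fc.g (f : Fc S N z0 r) (R ρ δ : ℝ) (J : Finset (ℂ × ℂ)) (t : ℂ × ℂ × ℂ) : ℝ :=
  pr (Fs S z0 R) fun β => GI N t z0 ρ δ (f.at' (flip N.toTrg J β) t)

end Crest.Agent.R143.X0Bx683
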