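import Crest.Agent.R143.XG_343
import Crest.Agent.R143.X0B_683

/-!
# Row 143 (S0194), block X: explored legs and the tube exit (helper126)

Object-free, for outer legs (starts = marks) and inner legs (starts = sides of the odd triangle).

* `Starts` : occupied starting positions with nothing behind them
* `Seen` : states of the explored part of a leg (between the start and the tip)
* `back_wk` : backward determinism along a walk
* `leadsO_of` : every state between the start and the tip is in the explored part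
* `explored` : if the continuation of the leg `i` visits an edge of the explored part of the leg `j`
  then `j ≠ i` and it has visited `(q j).swap` before
* `exists_cont` : the leg can be continued to its end
* `tube_exit2` : a leg which starts inside a family of closed chains leaves the union through the gate
-/

set_option autoImplicit false

noncomputable section

open scoped Classical

namespace Crest.Agent.R143.XLegx126

open Crest.Agent.R143.B0x346 Crest.Agent.R143.DelGx806 Crest.Agent.R143.DelRx806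
open Crest.Agent.R143.ToolWx838 Crest.Agent.R143.Blkx838 Crest.Agent.R143.Planarx54
open Crest.Agent.R143.XGx343 Crest.Agent.R143.X0Bx683 Crest.Agent.R143.JCardx872
open Crest.Agent.R143.JWalkx872 Crest.Agent.R143.JCol2x54

variable {S : Finset ℂ} {G : Trg ℂ} {kl : Set (ℂ × ℂ)} {O : Set (ℂ × ℂ × ℂ)} {D : Set (ℂ × ℂ)}
  {J : Finset (ℂ × ℂ)} {W : Set ℂ} {ι : Type}

/-! ### backward determinism -/

theorem step_back (hJ : IsJoin G kl O D J) (hO : RotInv O) {p p' q : ℂ × ℂ} (hp : p ∈ J)
    (hp' : p' ∈ J) (h : Step G O D J p q) (h' : Step G O D J p' q) : p = p' := by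
  have h1 := step_det (step_rev hJ hO hp h) (step_rev hJ hO hp' h')
  rw [Prod.mk.injEq] at h1
  exact Prod.ext h1.2 h1.1

/-- nothing leads to a start -/
theorem no_pre (hJ : IsJoin G kl O D J) (hO : RotInv O) {s p : ℂ × ℂ}
    (hs : Term G O D J s.swap) (hp : p ∈ J) : ¬ Step G O D J p s := fun h =>
  term_noStep hs (step_rev hJ hO hp h)

theorem leads_start (hJ : IsJoin G kl O D J) (hO : RotInv O) {s p : ℂ × ℂ}
    (hs : Term G O D J s.swap) (hp : p ∈ J) (h : Leads G O D J p s) : p = s := by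
  rcases Relation.ReflTransGen.cases_tail h with h | ⟨r, hr, hrs⟩
  · exact h.symm
  · exact absurd hrs (no_pre hJ hO hs (leads_step_mem hJ hp hr hrs))

theorem Wk.memJ (hJ : IsJoin G kl O D J) {n : ℕ} {p : ℕ → ℂ × ℂ} (hW : Wk G O D J n p)
    (h0 : p 0 ∈ J) {k : ℕ} (hk : k < n) : p k ∈ J :=
  leads_step_mem hJ h0 (hW.leads k hk.le) (hW k hk)

/-- backward determinism along a walk -/
theorem back_wk (hJ : IsJoin G kl O D J) (hO : RotInv O) {n : ℕ} {p : ℕ → ℂ × ℂ}
    (hW : Wk G O D J n p) (h0 : p 0 ∈ J) {x e : ℂ × ℂ} (hx : x ∈ J) (h : Leads G O D J x e) :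
    ∀ k, k ≤ n → p k = e → (∃ k', k' ≤ k ∧ p k' = x) ∨ Leads G O D J x (p 0) := by
  induction h with
  | refl => intro k _ hk; exact Or.inl ⟨k, le_rfl, hk⟩
  | tail h1 h2 ih =>
    rename_i y z
    intro k hkn hk
    rcases k with _ | k
    · right
      rw [hk]
      exact Relation.ReflTransGen.tail h1 h2
    · have h3 : Step G O D J (p k) z := by
        rw [← hk]
        exact hW k (by omega)
      have h4 : p k ∈ J := Wk.memJ hJ hW h0 (by omega)
      have h5 : y ∈ J := leads_step_mem hJ hx h1 h2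
      have h6 : p k = y := step_back hJ hO h4 h5 h3 h2
      rcases ih k (by omega) h6 with ⟨k', hk', h7⟩ | h7
      · exact Or.inl ⟨k', by omega, h7⟩
      · exact Or.inr h7

theorem back_cmp (hJ : IsJoin G kl O D J) (hO : RotInv O) {s s' e : ℂ × ℂ} (hs : s ∈ J)
    (hs' : s' ∈ J) (h : Leads G O D J s e) (h' : Leads G O D J s' e) :
    Leads G O D J s s' ∨ Leads G O D J s' s := by
  obtain ⟨n, p, hW, h0, hn⟩ := exists_wk h
  rcases back_wk hJ hO hW (by rw [h0]; exact hs) hs' h' n le_rfl hn with ⟨k, hk, h1⟩ | h1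
  · left
    have := hW.leads k hk
    rw [h0, h1] at this
    exact this
  · right
    rw [h0] at h1
    exact h1

/-! ### starts -/

/-- occupied starting positions with nothing behind them -/
structure Starts (G : Trg ℂ) (O : Set (ℂ × ℂ × ℂ)) (D : Set (ℂ × ℂ)) (J : Finset (ℂ × ℂ))
    (st0 : ι → ℂ × ℂ) : Prop where
  occ : ∀ i, st0 i ∈ J
  term : ∀ i, Term G O D J (st0 i).swap
  inj : Function.Injective st0

variable {st0 q : ι → ℂ × ℂ}

theorem Starts.eq (hJ : IsJoin G kl O D J) (hO : RotInv O) (h : Starts G O D J st0) {i j : ι}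
    {e : ℂ × ℂ} (hi : Leads G O D J (st0 i) e) (hj : Leads G O D J (st0 j) e) : i = j := by
  apply h.inj
  rcases back_cmp hJ hO (h.occ i) (h.occ j) hi hj with h1 | h1
  · exact leads_start hJ hO (h.term j) (h.occ i) h1
  · exact (leads_start hJ hO (h.term i) (h.occ j) h1).symm

/-- there is no cycle on a leg -/
theorem no_cycle (hJ : IsJoin G kl O D J) (hO : RotInv O) {s x : ℂ × ℂ} (hsJ : s ∈ J)
    (hs : Term G O D J s.swap) (h : Leads G O D J s x)
    (hc : Relation.TransGen (Step G O D J) x x) : False := by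
  have key : ∀ x, Leads G O D J s x → Relation.TransGen (Step G O D J) x x →
      Relation.TransGen (Step G O D J) s s := by
    intro x h
    induction h with
    | refl => exact fun h => h
    | tail h1 h2 ih =>
      rename_i y z
      intro hc
      obtain ⟨w, hw1, hw2⟩ := Relation.TransGen.tail'_iff.1 hc
      have h3 : y ∈ J := leads_step_mem hJ hsJ h1 h2
      have h4 : Leads G O D J s w := (h1.tail h2).trans hw1
      have h5 : w ∈ J := leads_step_mem hJ hsJ h4 hw2
      have h6 : w = y := step_back hJ hO h5 h3 hw2 h2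
      rw [h6] at hw1
      exact ih (Relation.TransGen.head' h2 hw1)
  obtain ⟨w, hw1, hw2⟩ := Relation.TransGen.tail'_iff.1 (key x h hc)
  exact no_pre hJ hO hs (leads_step_mem hJ hsJ hw1 hw2) hw2

/-! ### the explored part -/

theorem LeadsO.leads {p q : ℂ × ℂ} (h : LeadsO G O D J W p q) : Leads G O D J p q := by
  obtain ⟨-, h⟩ := h
  induction h with
  | refl => exact Relation.ReflTransGen.refl
  | tail _ h2 ih => exact ih.tail h2.1

theorem LeadsO.out_right {p q : ℂ × ℂ} (h : LeadsO G O D J W p q) : OutP W q := by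
  obtain ⟨h1, h⟩ := h
  rcases Relation.ReflTransGen.cases_tail h with h | ⟨r, -, hr⟩
  · rw [h]; exact h1
  · exact hr.2

theorem LeadsO.tail_cases {p q : ℂ × ℂ} (h : LeadsO G O D J W p q) :
    q = p ∨ ∃ r, LeadsO G O D J W p r ∧ Step G O D J r q := by
  obtain ⟨h1, h⟩ := h
  rcases Relation.ReflTransGen.cases_tail h with h | ⟨r, h2, hr⟩
  · exact Or.inl h
  · exact Or.inr ⟨r, ⟨h1, h2⟩, hr.1⟩

/-- states of the explored part of a leg (from `s` to the tip `q`) -/
def Seen (G : Trg ℂ) (O : Set (ℂ × ℂ × ℂ)) (D : Set (ℂ × ℂ)) (J : Finset (ℂ × ℂ)) (W : Set ℂ)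
    (s q e : ℂ × ℂ) : Prop := LeadsO G O D J W s e ∧ LeadsO G O D J W e q

/-- every state between the start and the tip is in the explored part -/
theorem leadsO_of (hJ : IsJoin G kl O D J) (hO : RotInv O) {s q x : ℂ × ℂ} (hsJ : s ∈ J)
    (hs : Term G O D J s.swap) (h : LeadsO G O D J W s q) (h1 : Leads G O D J s x)
    (h2 : Leads G O D J x q) : Seen G O D J W s q x := by
  obtain ⟨h0, h⟩ := h
  induction h with
  | refl =>
    have hx : x = s := by
      by_contra hne
      rcases Relation.ReflTransGen.cases_head h2 with h3 | ⟨y, hy, hy'⟩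
      · exact hne h3
      · exact no_cycle hJ hO hsJ hs h1 (Relation.TransGen.trans_left
          (Relation.TransGen.head' hy hy') h1)
    rw [hx]
    exact ⟨⟨h0, Relation.ReflTransGen.refl⟩, ⟨h0, Relation.ReflTransGen.refl⟩⟩
  | tail h3 h4 ih =>
    rename_i y z
    have hsy : Leads G O D J s y := LeadsO.leads ⟨h0, h3⟩
    have hyJ : y ∈ J := leads_step_mem hJ hsJ hsy h4.1
    rcases Relation.ReflTransGen.cases_tail h2 with h5 | ⟨w, hw, hw'⟩
    · rw [← h5]
      refine ⟨⟨h0, h3.tail h4⟩, ⟨h4.2, Relation.ReflTransGen.refl⟩⟩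
    · have hwJ : w ∈ J := leads_step_mem hJ hsJ (h1.trans hw) hw'
      have h6 : w = y := step_back hJ hO hwJ hyJ hw' h4.1
      rw [h6] at hw
      obtain ⟨k1, k2⟩ := ih hw
      exact ⟨k1, ⟨k2.1, k2.2.tail h4⟩⟩

/-- the tip of a leg is not crossed backwards by the explored part of a leg -/
theorem tip_not_seen {s q x : ℂ × ℂ} (hst : ∀ c, (s.2, s.1, c) ∈ G.T → c ∉ W)
    (hq : ∃ c ∈ W, (q.1, q.2, c) ∈ G.T) (hx : x = q.swap) (h : LeadsO G O D J W s x) : False := by
  obtain ⟨c, hcW, hc⟩ := hq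
  subst hx
  rcases LeadsO.tail_cases h with h1 | ⟨r, hr, hr'⟩
  · have e1 : s.2 = q.1 := by rw [← h1]; rfl
    have e2 : s.1 = q.2 := by rw [← h1]; rfl
    exact hst c (by rw [e1, e2]; exact hc) hcW
  · have hout := LeadsO.out_right hr
    obtain ⟨c', hc', -, -, h2⟩ := hr'
    rcases h2 with ⟨-, h2⟩ | ⟨-, -, h2⟩
    · -- q.swap = (c', r.2)
      have e1 : q.2 = c' := congrArg Prod.fst h2
      have e2 : q.1 = r.2 := congrArg Prod.snd h2
      rw [← e1, ← e2] at hc'
      have h3 := G.uniq hc (G.rot hc')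
      exact hout.1 (h3 ▸ hcW)
    · have e1 : q.2 = r.1 := congrArg Prod.fst h2
      have e2 : q.1 = c' := congrArg Prod.snd h2
      rw [← e1, ← e2] at hc'
      have h3 := G.uniq hc (G.rot (G.rot hc'))
      exact hout.2 (h3 ▸ hcW)

/-- **the continuation of a leg meets an explored part only after a foreign tip** -/
theorem explored (hJ : IsJoin G kl O D J) (hO : RotInv O) (hs : Starts G O D J st0)
    (hst : ∀ i c, ((st0 i).2, (st0 i).1, c) ∈ G.T → c ∉ W)
    (hq : ∀ i, LegTip G O D J W (st0 i) (q i)) {i : ι} {n : ℕ} {p : ℕ → ℂ × ℂ}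
    (hW : Wk G O D J n p) (h0 : p 0 = q i) {k : ℕ} (hk : k ≤ n) (hk0 : 0 < k) {j : ι}
    (h : Seen G O D J W (st0 j) (q j) (p k) ∨ Seen G O D J W (st0 j) (q j) (p k).swap) :
    j ≠ i ∧ ∃ k', k' ≤ k ∧ p k' = (q j).swap := by
  have hqi : Leads G O D J (st0 i) (q i) := LeadsO.leads (hq i).1
  have h0J : p 0 ∈ J := by
    rw [h0]
    have h1 := hW 0 (by omega)
    rw [h0] at h1
    exact leads_step_mem hJ (hs.occ i) hqi h1
  have hqk : Leads G O D J (q i) (p k) := by
    have := hW.leads k hk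
    rw [h0] at this
    exact this
  have hqk' : Relation.TransGen (Step G O D J) (q i) (p k) := by
    have h1 : Wk G O D J (n - 1) (fun m => p (m + 1)) := fun m hm => hW (m + 1) (by omega)
    have h2 := h1.leads (k - 1) (by omega)
    have h3 : p (k - 1 + 1) = p k := by congr 1; omega
    rw [h3] at h2
    have h4 := hW 0 (by omega)
    rw [h0] at h4
    exact Relation.TransGen.head' h4 h2
  have hsk : Leads G O D J (st0 i) (p k) := hqi.trans hqk
  rcases h with h | h
  · exfalso
    have h1 : Leads G O D J (st0 j) (p k) := LeadsO.leads h.1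
    have h2 : j = i := (Starts.eq hJ hO hs h1 hsk)
    subst h2
    exact no_cycle hJ hO (hs.occ j) (hs.term j) hqi
      (Relation.TransGen.trans_left hqk' (LeadsO.leads h.2))
  · -- opposite orientation
    have h1 : Leads G O D J (st0 j) (p k).swap := LeadsO.leads h.1
    have h2 : Leads G O D J (p k).swap (q j) := LeadsO.leads h.2
    have h3 : Leads G O D J (p k) (st0 j).swap := by
      have := leads_rev hJ hO (hs.occ j) h1
      exact this
    have hji : j ≠ i := by
      rintro rfl
      exact not_leads_swap hJ hO (hs.occ j) (hsk.trans h3)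
    refine ⟨hji, ?_⟩
    -- from the tip backwards
    have h4 : Leads G O D J (q j).swap (p k) := by
      rcases Relation.ReflTransGen.cases_head h2 with h5 | ⟨y, hy, hy'⟩
      · rw [← h5, Prod.swap_swap]
        exact Relation.ReflTransGen.refl
      · have h6 : (p k).swap ∈ J := leads_step_mem hJ (hs.occ j) h1 hy
        have := leads_rev hJ hO h6 h2
        exact this
    rcases Relation.ReflTransGen.cases_head h4 with h5 | ⟨y, hy, -⟩
    · exact ⟨k, le_rfl, h5.symm⟩
    have hqJ : (q j).swap ∈ J := by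
      rcases Relation.ReflTransGen.cases_tail (LeadsO.leads (hq j).1) with h6 | ⟨w, -, hw⟩
      · exfalso
        rw [h6] at hy
        exact term_noStep (hs.term j) hy
      · exact step_exit hw
    rcases back_wk hJ hO hW h0J hqJ h4 k hk rfl with h6 | h6
    · exact h6
    · exfalso
      rw [h0] at h6
      rcases back_cmp hJ hO (hs.occ i) hqJ hqi h6 with h7 | h7
      · exact tip_not_seen (hst i) (hq j).2 rfl
          (leadsO_of hJ hO (hs.occ i) (hs.term i) (hq i).1 h7 h6).1
      · have h8 := leads_start hJ hO (hs.term i) hqJ h7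
        exact tip_not_seen (G := G) (O := O) (D := D) (J := J) (hst i) (hq j).2 h8.symm
          ⟨(hq i).1.1, Relation.ReflTransGen.refl⟩

/-! ### continuation -/

/-- the leg can be continued from the tip to its end -/
theorem exists_cont (hJ : IsJoin G kl O D J) (hO : RotInv O) (hs : Starts G O D J st0) {i : ι}
    {x : ℂ × ℂ} (h : Leads G O D J (st0 i) x) :
    ∃ n p, Wk G O D J n p ∧ p 0 = x ∧ Term G O D J (p n) := by
  obtain ⟨e, he, hT⟩ := exists_end hJ hO (hs.occ i) fun p hp => no_pre hJ hO (hs.term i) hp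
  have U : Relator.RightUnique (Step G O D J) := fun _ _ _ h1 h2 => step_det h1 h2
  have h1 : Leads G O D J x e := by
    rcases Relation.ReflTransGen.total_of_right_unique U h he with h1 | h1
    · exact h1
    · rw [term_leads hT h1]
      exact Relation.ReflTransGen.refl
  obtain ⟨n, p, hW, h0, hn⟩ := exists_wk h1
  exact ⟨n, p, hW, h0, by rw [hn]; exact hT⟩

/-- the middle of the state is inside the chain -/
def Ins (l : List ℂ) (e : ℂ × ℂ) : Prop := Avoid l e ∧ asum (mid e) l ≠ 0

theorem mid_sw (e : ℂ × ℂ) : mid e.swap = mid e := by unfold mid; simp [add_comm]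

theorem Ins.swap {l : List ℂ} {e : ℂ × ℂ} (h : Ins l e) : Ins l e.swap :=
  ⟨h.1.swap, by rw [mid_sw]; exact h.2⟩

/-- **tube exit**: a leg whose tip is inside the family `l` of closed chains leaves the union of
their insides through a gate -/
theorem tube_exit2 (hS : GP (S : Set ℂ)) (hG : G.T = delT S) (hJ : IsJoin G kl O D J)
    (hO : RotInv O) (hs : Starts G O D J st0)
    (hst : ∀ i c, ((st0 i).2, (st0 i).1, c) ∈ G.T → c ∉ W)
    (hq : ∀ i, LegTip G O D J W (st0 i) (q i)) {i : ι} {n : ℕ} {p : ℕ → ℂ × ℂ}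
    (hW : Wk G O D J n p) (h0 : p 0 = q i) {κ : Type} {l : κ → List ℂ} (hl : ∀ c, Loop S (l c))
    (hin : ∃ c, Ins (l c) (q i))
    (hout : ∀ j, j ≠ i → ∀ c, Avoid (l c) (q j) ∧ asum (mid (q j)) (l c) = 0)
    (hend : ∀ c, ¬ Ins (l c) (p n)) {Γ : Set (ℂ × ℂ)}
    (hocc : ∀ c e, Touch (l c) e → e.swap ∈ J → (e ∈ Γ ∨ e.swap ∈ Γ) ∨ (∃ c', Ins (l c') e) ∨
      ∃ j, Seen G O D J W (st0 j) (q j) e ∨ Seen G O D J W (st0 j) (q j) e.swap) :
    ∃ k, 0 < k ∧ k ≤ n ∧ (p k ∈ Γ ∨ (p k).swap ∈ Γ) ∧ (∀ m, m < k → ∃ c, Ins (l c) (p m)) ∧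
      ∃ c, Touch (l c) (p k) ∧ Ins (l c) (p (k - 1)) := by
  have hex : ∃ k, k ≤ n ∧ ∀ c, ¬ Ins (l c) (p k) := ⟨n, le_rfl, hend⟩
  set k := Nat.find hex with hk
  obtain ⟨hkn, hknot⟩ := Nat.find_spec hex
  rw [← hk] at hkn hknot
  have hmin : ∀ m, m < k → ∃ c, Ins (l c) (p m) := by
    intro m hm
    have := Nat.find_min hex hm
    push Not at this
    exact this (by omega)
  have hk0 : 0 < k := by
    rcases Nat.eq_zero_or_pos k with h | h
    · exfalso
      rw [h, h0] at hknot
      obtain ⟨c, hc⟩ := hin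
      exact hknot c hc
    · exact h
  obtain ⟨c, hc⟩ := hmin (k - 1) (by omega)
  have hstep : Step G O D J (p (k - 1)) (p k) := by
    have := hW (k - 1) (by omega)
    rwa [show k - 1 + 1 = k by omega] at this
  have htouch : Touch (l c) (p k) := by
    by_contra hcon
    have h1 : Avoid (l c) (p k) := avoid_iff.2 hcon
    exact hknot c ⟨h1, by
      rw [← step_asum hS hG (hl c) hc.1 h1 hstep]
      exact hc.2⟩
  have hocc' := hocc c (p k) htouch (step_exit hstep)
  refine ⟨k, hk0, hkn, ?_, hmin, c, htouch, hc⟩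
  rcases hocc' with h | ⟨c', h⟩ | ⟨j, h⟩
  · exact h
  · exact absurd h (hknot c')
  · exfalso
    obtain ⟨hji, k', hk', h1⟩ := explored hJ hO hs hst hq hW h0 hkn hk0 h
    rcases hk'.lt_or_eq with h2 | h2
    · obtain ⟨c', hc'⟩ := hmin k' h2
      apply hc'.2
      rw [h1, mid_sw]
      exact (hout j hji c').2
    · rw [h2] at h1
      rw [h1] at htouch
      have h3 := (hout j hji c).1.swap
      exact (avoid_iff.1 h3) htouch

/-! ### the two kinds of starts -/

/-- outer legs start at the marks -/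
theorem starts_mark {S : Finset ℂ} {N : Net ℂ} (H : HNet S N) {O : Set (ℂ × ℂ × ℂ)}
    {J : Finset (ℂ × ℂ)} (hJ : IsJoin N.toTrg kl O N.exS J) : Starts N.toTrg O N.exS J N.ex where
  occ i := (hJ.mark _ _ ⟨i, rfl⟩).1
  term i := Or.inl ⟨i, rfl⟩
  inj := HNet.ex_inj H

theorem mark_back {S : Finset ℂ} {N : Net ℂ} (H : HNet S N) (i : ZMod 3) (c : ℂ) :
    ((N.ex i).2, (N.ex i).1, c) ∉ N.toTrg.T := by
  rw [H.tri]
  exact (H.hex i).2 c

theorem vt_ne (hS : GP (S : Set ℂ)) {t : ℂ × ℂ × ℂ} (ht : t ∈ delT S) (i : ZMod 3) :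
    vt t i ≠ vt t (i + 1) := by
  obtain ⟨o, ho⟩ := mem_delT_iff.1 (vt_tri hS ht i)
  exact ho.ne.1

theorem st_inj (hS : GP (S : Set ℂ)) {t : ℂ × ℂ × ℂ} (ht : t ∈ delT S) :
    Function.Injective (st t) := by
  intro i j h
  have h1 : vt t i = vt t j := congrArg Prod.snd h
  by_contra hne
  have h2 : j = i + 1 ∨ i = j + 1 := by
    rcases z3 i with rfl | rfl | rfl <;> rcases z3 j with rfl | rfl | rfl <;>
      first
        | exact absurd rfl hne
        | exact Or.inl rfl
        | exact Or.inr rfl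
  rcases h2 with rfl | rfl
  · exact vt_ne hS ht i h1
  · exact vt_ne hS ht j h1.symm

/-- inner legs start at the sides of the odd triangle -/
theorem starts_side (hS : GP (S : Set ℂ)) (hG : G.T = delT S) (hD : HullM S D)
    {t : ℂ × ℂ × ℂ} (ht : t ∈ delT S) (hJ : IsJoin G kl (rots t) D J)
    (hocc : ∀ i, (vt t i, vt t (i + 1)) ∈ J) (hn : ∀ i, (vt t i, vt t (i + 1)) ∉ D) :
    Starts G (rots t) D J (st t) where
  occ i := by
    have h1 : (vt t (i + 1), vt t i) ∉ D := fun h => hD _ _ h _ (vt_tri hS ht i)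
    exact (hJ.sym _ _ h1 (hn i)).2 (hocc i)
  term i := by
    refine Or.inr ⟨hocc i, vt t (i + 2), ?_, rots_vt t i⟩
    rw [hG]
    exact vt_tri hS ht i
  inj := st_inj hS ht

theorem side_back (hS : GP (S : Set ℂ)) (hG : G.T = delT S) {t : ℂ × ℂ × ℂ} (ht : t ∈ delT S)
    {W : Set ℂ} (hW : ∀ i, vt t i ∉ W) (i : ZMod 3) (c : ℂ)
    (h : ((st t i).2, (st t i).1, c) ∈ G.T) : c ∉ W := by
  have h1 := vt_tri hS ht i
  rw [← hG] at h1
  have h2 := G.uniq h h1
  rw [h2]
  exact hW _

end Crest.Agent.R143.XLegx126
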