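import Crest.Agent.R143.XD_697
import Crest.Agent.R143.XLeg_126

/-!
# Row 143 (S0194), block X: total angle of a leg inside a family of closed chains (helper697)

* `Ch` : closed chain `l` with a region `K` (the middles of its edges and all points seen by it) on
  which the angle around `x` has the lift `f`
* `lift_wk` : if the states `p m`, `m < k`, are inside chains of the family and `p k` touches a chain
  which has `p (k - 1)` inside, then the total angle around `x` is `f (end) - f (start)`
* `ch_circ` : circuits around the centres of a tube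
-/

set_option autoImplicit false

noncomputable section

open scoped Classical

namespace Crest.Agent.R143.XLiftx697

open Crest.Agent.R143.B0x346 Crest.Agent.R143.DelGx806 Crest.Agent.R143.DelRx806
open Crest.Agent.R143.ToolWx838 Crest.Agent.R143.Blkx838 Crest.Agent.R143.Planarx54
open Crest.Agent.R143.XGx343 Crest.Agent.R143.X0Bx683 Crest.Agent.R143.CircPx838
open Crest.Agent.R143.XLegx126 Crest.Agent.R143.XDx697

variable {S : Finset ℂ} {G : Trg ℂ} {O : Set (ℂ × ℂ × ℂ)} {D : Set (ℂ × ℂ)} {J : Finset (ℂ × ℂ)}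

/-- closed chain with its region and the lift of the angle -/
structure Ch (S : Finset ℂ) (x : ℂ) (l : List ℂ) (K : Set ℂ) (f : ℂ → ℝ) : Prop where
  loop : Loop S l
  edge : ∀ e, Touch l e → mid e ∈ K
  see : ∀ z, asum z l ≠ 0 → z ∈ K
  ang : ∀ z ∈ K, ∀ w ∈ K, ToolWx838.ang x z w = f w - f z

/-- **total angle** -/
theorem lift_wk (hS : GP (S : Set ℂ)) (hG : G.T = delT S) {x : ℂ} {κ : Type} {l : κ → List ℂ}
    {K : κ → Set ℂ} {f : κ → ℂ → ℝ} (hc : ∀ c, Ch S x (l c) (K c) (f c))
    (hcons : ∀ c c' z, z ∈ K c → z ∈ K c' → f c z = f c' z) {n : ℕ} {p : ℕ → ℂ × ℂ}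
    (hW : Wk G O D J n p) {k : ℕ} (hk0 : 0 < k) (hk : k ≤ n)
    (hin : ∀ m, m < k → ∃ c, Ins (l c) (p m)) {c0 c : κ} (h0 : Ins (l c0) (p 0))
    (ht : Touch (l c) (p k)) (hl : Ins (l c) (p (k - 1))) :
    Planar2x54.Th x p k = f c (mid (p k)) - f c0 (mid (p 0)) := by
  have key : ∀ m, m < k → ∀ c', Ins (l c') (p m) →
      Planar2x54.Th x p m = f c' (mid (p m)) - f c0 (mid (p 0)) := by
    intro m
    induction m with
    | zero =>
      intro _ c' hc'
      rw [Planar2x54.Th_zero, hcons c' c0 _ ((hc c').see _ hc'.2) ((hc c0).see _ h0.2), sub_self]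
    | succ m ih =>
      intro hm c' hc'
      obtain ⟨c1, hc1⟩ := hin m (by omega)
      have h1 := ih (by omega) c1 hc1
      have hstep := hW m (by omega)
      have hmem : mid (p (m + 1)) ∈ K c1 := by
        by_cases ht' : Touch (l c1) (p (m + 1))
        · exact (hc c1).edge _ ht'
        · refine (hc c1).see _ ?_
          rw [← step_asum hS hG (hc c1).loop hc1.1 (avoid_iff.2 ht') hstep]
          exact hc1.2
      rw [Planar2x54.Th_succ, h1, hcons c' c1 _ ((hc c').see _ hc'.2) hmem]
      have h2 := (hc c1).ang _ ((hc c1).see _ hc1.2) _ hmem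
      change _ + ToolWx838.ang x (mid (p m)) (mid (p (m + 1))) = _
      rw [h2]
      ring
  obtain ⟨m, rfl⟩ : ∃ m, k = m + 1 := ⟨k - 1, by omega⟩
  rw [Nat.add_sub_cancel] at hl
  have h1 := key m (by omega) c hl
  rw [Planar2x54.Th_succ, h1]
  have h2 := (hc c).ang _ ((hc c).see _ hl.2) _ ((hc c).edge _ ht)
  change _ + ToolWx838.ang x (mid (p m)) (mid (p (m + 1))) = _
  rw [h2]
  ring

/-- angles in a half plane -/
theorem ang_half {x c z w : ℂ} (hcx : c ≠ x) (hz : 0 < ((z - x) / (c - x)).re)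
    (hw : 0 < ((w - x) / (c - x)).re) :
    ToolWx838.ang x z w = ToolWx838.ang x c w - ToolWx838.ang x c z := by
  unfold ToolWx838.ang
  rw [← arg_div_half hz hw]
  congr 1
  have h1 : c - x ≠ 0 := sub_ne_zero.2 hcx
  have h2 : z - x ≠ 0 := by
    intro h0
    rw [h0, zero_div] at hz
    simp at hz
  field_simp

theorem half_of_near {x c z : ℂ} (h : ‖z - c‖ < ‖c - x‖) : 0 < ((z - x) / (c - x)).re := by
  have h0 : c - x ≠ 0 := by
    intro h0
    rw [h0, norm_zero] at h
    exact absurd h (not_lt.2 (norm_nonneg _))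
  have h1 : (z - x) / (c - x) = 1 + (z - c) / (c - x) := by
    field_simp
    ring
  rw [h1, Complex.add_re, Complex.one_re]
  have h2 : ‖(z - c) / (c - x)‖ < 1 := by
    rw [norm_div, div_lt_one (norm_pos_iff.2 h0)]
    exact h
  have h3 := Complex.abs_re_le_norm ((z - c) / (c - x))
  have h4 := (abs_le.1 h3).1
  linarith

theorem sup_mid {c a b : ℂ} {r : ℝ} (ha : sup (a - c) ≤ r) (hb : sup (b - c) ≤ r) :
    sup (mid (a, b) - c) ≤ r := by
  unfold sup at *
  rw [max_le_iff, abs_le, abs_le] at *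
  unfold mid
  simp only [Complex.sub_re, Complex.sub_im, Complex.add_re, Complex.add_im, Complex.div_re,
    Complex.div_im] at *
  norm_num [Complex.normSq] at *
  obtain ⟨⟨h1, h2⟩, h3, h4⟩ := ha
  obtain ⟨⟨h5, h6⟩, h7, h8⟩ := hb
  refine ⟨⟨by linarith, by linarith⟩, by linarith, by linarith⟩

/-- region of a circuit -/
def Sq (c : ℂ) (h : ℝ) : Set ℂ := {z | sup (z - c) ≤ 2 * h}

/-- lift on the square around `c` -/
def lf (x : ℂ) (c : ℂ) (θ : ℝ) (z : ℂ) : ℝ := θ + ToolWx838.ang x c z

/-- the circuit around the centre of a tube -/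
theorem ch_circ {x c : ℂ} {h θ : ℝ} {β : Finset ℂ} {l : List ℂ} (hl : CircC S c h β l)
    (hx : 4 * h < ‖c - x‖) : Ch S x l (Sq c h) (lf x c θ) where
  loop := hl.loop
  edge := by
    rintro ⟨a, b⟩ he
    have h1 : a ∈ l ∧ b ∈ l := by
      rcases he with he | he
      · exact mem_of_prs he
      · exact (mem_of_prs he).symm
    exact sup_mid (hl.up a h1.1).le (hl.up b h1.2).le
  see := by
    intro z hz
    by_contra hcon
    unfold Sq at hcon
    rw [Set.mem_setOf_eq, not_le] at hcon
    exact hz (hl.out hcon.le)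
  ang := by
    intro z hz w hw
    have hh : 0 ≤ h := by
      have h1 : 0 ≤ sup (z - c) := (abs_nonneg _).trans (le_max_left _ _)
      have h2 : sup (z - c) ≤ 2 * h := hz
      linarith
    have hn : ∀ u ∈ Sq c h, ‖u - c‖ < ‖c - x‖ := by
      intro u hu
      have h1 := norm_le_sup (u - c)
      have h2 : sup (u - c) ≤ 2 * h := hu
      linarith
    have hcx : c ≠ x := by
      rintro rfl
      rw [sub_self, norm_zero] at hx
      linarith
    have := ang_half hcx (half_of_near (hn z hz)) (half_of_near (hn w hw))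
    unfold lf
    rw [this]
    ring

/-- inside the inner square -/
theorem CircC.ins {c : ℂ} {h : ℝ} {β : Finset ℂ} {l : List ℂ} (hl : CircC S c h β l)
    (hh : 0 < h) {a b : ℂ} (hab : Avoid l (a, b)) (h1 : sup (mid (a, b) - c) ≤ h) :
    Ins l (a, b) := ⟨hab, by rw [hl.wind _ h1]; positivity⟩

end Crest.Agent.R143.XLiftx697
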