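import Crest.Agent.R143.XStop_126
import Crest.Agent.R143.XLift_697
import Crest.Agent.R143.Indep_583
import Crest.Agent.R143.Loc_922

/-!
# Row 143 (S0194), block X, GLUE-I, part a: circuits, gauges and legs (helper126)

* `tri_len`, `de_len` : edges are short
* `seen_of` : every reachable state is between the start and the tip
* `circ_in`, `circ_far` : edges near the centre of a circuit / far from it
* `gauge_edge` : an occupied edge between two black sites belongs to `G0`
* `InCfg`, `LamI` : explored inner legs with tubes, gauge, circuits / the chain around the port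
* `InCfg.leg` : the leg leaves the circuits of its tube and the chain `lam` through the gate
-/

set_option autoImplicit false

noncomputable section

open scoped Classical

namespace Crest.Agent.R143.GLIx126

open Crest.Agent.R143.B0x346 Crest.Agent.R143.DelGx806 Crest.Agent.R143.DelRx806
open Crest.Agent.R143.ToolWx838 Crest.Agent.R143.Blkx838 Crest.Agent.R143.Planarx54
open Crest.Agent.R143.XGx343 Crest.Agent.R143.X0Bx683 Crest.Agent.R143.JCardx872
open Crest.Agent.R143.JWalkx872 Crest.Agent.R143.JCol2x54 Crest.Agent.R143.XLegx126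
open Crest.Agent.R143.XStopx126 Crest.Agent.R143.Harx315 Crest.Agent.R143.RB0x838
open Crest.Agent.R143.CircPx838 Crest.Agent.R143.Gatex838 Crest.Agent.R143.XDx697
open Crest.Agent.R143.Locx922

variable {S : Finset ℂ} {G : Trg ℂ} {kl : Set (ℂ × ℂ)} {O : Set (ℂ × ℂ × ℂ)} {D : Set (ℂ × ℂ)}
  {J : Finset (ℂ × ℂ)} {W : Set ℂ} {ι : Type} {st0 q : ι → ℂ × ℂ}

/-! ### short edges -/

theorem tri_len {z0 : ℂ} {R d : ℝ} (hD : LDns S z0 R d) {a b c : ℂ} (h : (a, b, c) ∈ delT S)
    (hc : ‖a - z0‖ + d ≤ R ∨ ‖b - z0‖ + d ≤ R ∨ ‖c - z0‖ + d ≤ R) :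
    ‖a - b‖ < 2 * d ∧ ‖b - c‖ < 2 * d ∧ ‖c - a‖ < 2 * d := by
  have hdel : Del (S : Set ℂ) a b c := DelGx806.mem_delT.1 h
  have hol : ∀ w : ℂ, ‖w - z0‖ + d ≤ R → Hol (S : Set ℂ) {w} d := by
    intro w hw v hv z hz
    rw [Set.mem_singleton_iff] at hv
    subst hv
    obtain ⟨s, hs, hsz⟩ := hD.hole z (by
      have e : z - z0 = (z - v) + (v - z0) := by ring
      rw [e]
      exact (norm_add_le _ _).trans (by linarith))
    exact ⟨s, hs, hsz⟩
  rcases hc with hc | hc | hc
  · exact del_side hD.dpos (hol a hc) (Set.mem_singleton a) (inD_self a b c) hdel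
  · exact del_side hD.dpos (hol b hc) (Set.mem_singleton b) (inD_snd a b c) hdel
  · exact del_side hD.dpos (hol c hc) (Set.mem_singleton c) (inD_trd a b c) hdel

theorem de_len {z0 : ℂ} {R d : ℝ} (hD : LDns S z0 R d) {a b : ℂ} (h : DE S a b)
    (hc : ‖a - z0‖ + d ≤ R ∨ ‖b - z0‖ + d ≤ R) : ‖a - b‖ < 2 * d := by
  rcases h with ⟨c, h⟩ | ⟨c, h⟩
  · exact (tri_len hD h (hc.imp_right Or.inl)).1
  · rw [norm_sub_rev]
    exact (tri_len hD h (hc.symm.imp_right Or.inl)).1

/-! ### reachable states -/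

/-- every reachable state is between the start and the tip -/
theorem seen_of (hJ : IsJoin G kl O D J) (hO : RotInv O) {s x y : ℂ × ℂ} (hsJ : s ∈ J)
    (hs : Term G O D J s.swap) (hx : LegTip G O D J W s x) (hy : LeadsO G O D J W s y) :
    Seen G O D J W s x y := by
  have U : Relator.RightUnique (Step G O D J) := fun _ _ _ h1 h2 => step_det h1 h2
  rcases Relation.ReflTransGen.total_of_right_unique U (LeadsO.leads hx.1) (LeadsO.leads hy) with
    h | h
  · rcases Relation.ReflTransGen.cases_head h with h1 | ⟨m, hm, hm'⟩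
    · rw [← h1]
      exact ⟨hx.1, ⟨LeadsO.out_right hx.1, Relation.ReflTransGen.refl⟩⟩
    · exfalso
      have h2 := (leadsO_of hJ hO hsJ hs hy ((LeadsO.leads hx.1).tail hm) hm').1
      have h3 := LeadsO.out_right h2
      obtain ⟨c, hcW, hc⟩ := hx.2
      obtain ⟨c', hc', -, -, h4⟩ := hm
      have := G.uniq hc hc'
      subst this
      rcases h4 with ⟨-, rfl⟩ | ⟨-, -, rfl⟩
      · exact h3.1 hcW
      · exact h3.2 hcW
  · exact leadsO_of hJ hO hsJ hs hx.1 (LeadsO.leads hy) h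

/-! ### circuits -/

theorem touch_mem {l : List ℂ} {e : ℂ × ℂ} (h : Touch l e) : e.1 ∈ l ∧ e.2 ∈ l := by
  rcases h with h | h
  · exact mem_of_prs h
  · exact (mem_of_prs h).symm

theorem touch_de {l : List ℂ} (hl : Loop S l) {e : ℂ × ℂ} (h : Touch l e) : DE S e.1 e.2 := by
  rcases h with h | h
  · exact hl.del e h
  · exact (hl.del _ h).symm

theorem sup_tri (a b c : ℂ) : sup (a - c) ≤ sup (a - b) + sup (b - c) := by
  unfold sup
  simp only [Complex.sub_re, Complex.sub_im]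
  apply max_le
  · calc |a.re - c.re| ≤ |a.re - b.re| + |b.re - c.re| := abs_sub_le _ _ _
      _ ≤ _ := add_le_add (le_max_left _ _) (le_max_left _ _)
  · calc |a.im - c.im| ≤ |a.im - b.im| + |b.im - c.im| := abs_sub_le _ _ _
      _ ≤ _ := add_le_add (le_max_right _ _) (le_max_right _ _)

theorem sup_comm (a b : ℂ) : sup (a - b) = sup (b - a) := by
  unfold sup
  simp only [Complex.sub_re, Complex.sub_im]
  rw [abs_sub_comm, abs_sub_comm a.im]

theorem norm_mid_left (e : ℂ × ℂ) : ‖e.1 - mid e‖ = ‖e.1 - e.2‖ / 2 := by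
  have : e.1 - mid e = (e.1 - e.2) / 2 := by unfold mid; ring
  rw [this, norm_div]
  norm_num

theorem norm_mid_right (e : ℂ × ℂ) : ‖e.2 - mid e‖ = ‖e.1 - e.2‖ / 2 := by
  have : e.2 - mid e = -((e.1 - e.2) / 2) := by unfold mid; ring
  rw [this, norm_neg, norm_div]
  norm_num

/-- an edge near the centre is inside the circuit -/
theorem circ_in {z : ℂ} {r : ℝ} {β : Finset ℂ} {l : List ℂ}
    (hl : CircC S z r β l) {e : ℂ × ℂ} (h : sup (mid e - z) + ‖e.1 - e.2‖ / 2 ≤ r) : Ins l e := by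
  have h1 : e.1 ∉ l := fun h1 => by
    have h2 := hl.lo _ h1
    have h3 := sup_tri e.1 (mid e) z
    have h4 := sup_le_norm (e.1 - mid e)
    rw [norm_mid_left] at h4
    linarith
  refine ⟨⟨fun h2 => h1 (mem_of_prs h2).1, fun h2 => h1 (mem_of_prs h2).2⟩, ?_⟩
  rw [hl.wind _ (by
    have := norm_nonneg (e.1 - e.2)
    linarith)]
  positivity

/-- an edge far from the centre is outside the circuit -/
theorem circ_far {z : ℂ} {r : ℝ} {β : Finset ℂ} {l : List ℂ}
    (hl : CircC S z r β l) {e : ℂ × ℂ} (h : 2 * r + ‖e.1 - e.2‖ / 2 ≤ sup (mid e - z)) :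
    Avoid l e ∧ asum (mid e) l = 0 := by
  have h1 : e.1 ∉ l := fun h1 => by
    have h2 := hl.up _ h1
    have h3 := sup_tri (mid e) e.1 z
    have h4 := sup_le_norm (e.1 - mid e)
    rw [norm_mid_left, sup_comm] at h4
    linarith
  refine ⟨⟨fun h2 => h1 (mem_of_prs h2).1, fun h2 => h1 (mem_of_prs h2).2⟩, ?_⟩
  have := norm_nonneg (e.1 - e.2)
  exact hl.out (by linarith)

/-- the middle of an edge of the circuit -/
theorem circ_touch {z : ℂ} {r : ℝ} {β : Finset ℂ} {l : List ℂ}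
    (hl : CircC S z r β l) {e : ℂ × ℂ} (h : Touch l e) :
    sup (mid e - z) ≤ 2 * r ∧ (e.1 ∈ β ∧ e.2 ∈ β) := by
  obtain ⟨h1, h2⟩ := touch_mem h
  refine ⟨?_, hl.col _ h1, hl.col _ h2⟩
  have h3 := XLiftx697.sup_mid (hl.up _ h1).le (hl.up _ h2).le
  exact h3

/-! ### gauge -/

theorem bd_both {β : Finset ℂ} {e : ℂ × ℂ} (h1 : e.1 ∈ β) (h2 : e.2 ∈ β) : e ∉ bd G β := by
  rw [mem_bd']
  rintro ⟨-, h⟩
  exact h ⟨fun _ => h2, fun _ => h1⟩

/-- an occupied edge between two black sites belongs to `G0` -/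
theorem gauge_edge {G0 : Finset (ℂ × ℂ)} {σ : Finset ℂ} (hJ : J = flip G G0 σ) {e : ℂ × ℂ}
    (h1 : e.1 ∈ σ) (h2 : e.2 ∈ σ) (h : e ∈ J) : e ∈ G0 := by
  rw [hJ] at h
  unfold X0Bx683.flip at h
  rw [Finset.mem_symmDiff] at h
  rcases h with h | h
  · exact h.1
  · exact absurd h.1 (bd_both h1 h2)

/-! ### coordinates of the boxes -/

theorem ed_zero : ed 0 = -Complex.I := by unfold ed; simp

theorem ed_one : ed 1 = 1 := by
  have h : ((1 : ZMod 3)).val = 1 := rfl
  unfold ed
  rw [h, pow_one]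
  simp

theorem ed_two : ed 2 = Complex.I := by
  have h : ((2 : ZMod 3)).val = 2 := rfl
  unfold ed
  rw [h, Complex.I_sq]
  simp

theorem XY0 (z0 s : ℂ) : X z0 (ed 0) s = -(s - z0).im ∧ Y z0 (ed 0) s = (s - z0).re := by
  unfold X Y
  rw [ed_zero, Circ4x838.div_negI]
  constructor <;> simp

theorem XY1 (z0 s : ℂ) : X z0 (ed 1) s = (s - z0).re ∧ Y z0 (ed 1) s = (s - z0).im := by
  unfold X Y
  rw [ed_one, div_one]
  exact ⟨rfl, rfl⟩

theorem XY2 (z0 s : ℂ) : X z0 (ed 2) s = (s - z0).im ∧ Y z0 (ed 2) s = -(s - z0).re := by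
  unfold X Y
  rw [ed_two, Circ4x838.div_I]
  constructor <;> simp

/-- coordinates and norm -/
theorem normXY (z0 : ℂ) (k : ZMod 3) (s : ℂ) :
    ‖s - z0‖ ^ 2 = X z0 (ed k) s ^ 2 + Y z0 (ed k) s ^ 2 := by
  rw [Complex.sq_norm, Complex.normSq_apply]
  rcases z3 k with rfl | rfl | rfl
  · rw [(XY0 z0 s).1, (XY0 z0 s).2]; ring
  · rw [(XY1 z0 s).1, (XY1 z0 s).2]; ring
  · rw [(XY2 z0 s).1, (XY2 z0 s).2]; ring

theorem Y_le_norm (z0 : ℂ) (k : ZMod 3) (s : ℂ) : |Y z0 (ed k) s| ≤ ‖s - z0‖ := by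
  have h := normXY z0 k s
  apply abs_le_of_sq_le_sq _ (norm_nonneg _)
  nlinarith [sq_nonneg (X z0 (ed k) s)]

theorem X_le_norm (z0 : ℂ) (k : ZMod 3) (s : ℂ) : |X z0 (ed k) s| ≤ ‖s - z0‖ := by
  have h := normXY z0 k s
  apply abs_le_of_sq_le_sq _ (norm_nonneg _)
  nlinarith [sq_nonneg (Y z0 (ed k) s)]

/-- the coordinates change by at most the sup distance -/
theorem XY_sub (z0 : ℂ) (k : ZMod 3) (s w : ℂ) :
    |X z0 (ed k) s - X z0 (ed k) w| ≤ sup (s - w) ∧ |Y z0 (ed k) s - Y z0 (ed k) w| ≤ sup (s - w) := by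
  have h1 : |s.re - w.re| ≤ sup (s - w) := by
    unfold sup; rw [Complex.sub_re]; exact le_max_left _ _
  have h2 : |s.im - w.im| ≤ sup (s - w) := by
    unfold sup; rw [Complex.sub_im]; exact le_max_right _ _
  rcases z3 k with rfl | rfl | rfl
  · rw [(XY0 z0 s).1, (XY0 z0 s).2, (XY0 z0 w).1, (XY0 z0 w).2]
    simp only [Complex.sub_re, Complex.sub_im]
    constructor
    · rw [abs_sub_comm]
      convert h2 using 2
      ring
    · convert h1 using 2
      ring
  · rw [(XY1 z0 s).1, (XY1 z0 s).2, (XY1 z0 w).1, (XY1 z0 w).2]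
    simp only [Complex.sub_re, Complex.sub_im]
    constructor
    · convert h1 using 2
      ring
    · convert h2 using 2
      ring
  · rw [(XY2 z0 s).1, (XY2 z0 s).2, (XY2 z0 w).1, (XY2 z0 w).2]
    simp only [Complex.sub_re, Complex.sub_im]
    constructor
    · convert h2 using 2
      ring
    · rw [abs_sub_comm]
      convert h1 using 2
      ring

theorem XY_mid (z0 : ℂ) (k : ZMod 3) (e : ℂ × ℂ) :
    X z0 (ed k) (mid e) = (X z0 (ed k) e.1 + X z0 (ed k) e.2) / 2 ∧
      Y z0 (ed k) (mid e) = (Y z0 (ed k) e.1 + Y z0 (ed k) e.2) / 2 := by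
  have h : (mid e - z0) / ed k = ((e.1 - z0) / ed k + (e.2 - z0) / ed k) / 2 := by
    unfold mid; ring
  unfold X Y
  rw [h]
  constructor
  · rw [Complex.div_ofNat_re, Complex.add_re]
  · rw [Complex.div_ofNat_im, Complex.add_im]

/-- the box `k` in the coordinates of another box -/
theorem other_box (z0 : ℂ) {k k' : ZMod 3} (h : k' ≠ k) :
    (∀ s, |X z0 (ed k') s| = |Y z0 (ed k) s|) ∨ ∀ s, Y z0 (ed k') s = -Y z0 (ed k) s := by
  rcases z3 k with rfl | rfl | rfl <;> rcases z3 k' with rfl | rfl | rfl <;>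
    first
      | exact absurd rfl h
      | (left; intro s; rw [(XY0 z0 s).1, (XY1 z0 s).2]; exact abs_neg _)
      | (left; intro s; rw [(XY2 z0 s).1, (XY1 z0 s).2])
      | (left; intro s; rw [(XY1 z0 s).1, (XY0 z0 s).2])
      | (left; intro s; rw [(XY1 z0 s).1, (XY2 z0 s).2]; exact (abs_neg _).symm)
      | (right; intro s; rw [(XY0 z0 s).2, (XY2 z0 s).2]; ring)
      | (right; intro s; rw [(XY2 z0 s).2, (XY0 z0 s).2])

/-- a closed chain above a point does not see it -/
theorem below {z0 : ℂ} {k : ZMod 3} {l : List ℂ} (hl : l.head? = l.getLast?) {x : ℂ}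
    (h : ∀ s ∈ l, Y z0 (ed k) x < Y z0 (ed k) s) : asum x l = 0 := by
  refine asum_half_closed (u := ed k * Complex.I) hl fun s hs => ?_
  have h1 := h s hs
  have e : ((s - x) / (ed k * Complex.I)).re = Y z0 (ed k) s - Y z0 (ed k) x := by
    unfold Y
    rw [← div_div, Circ4x838.div_I]
    have : (s - x) / ed k = (s - z0) / ed k - (x - z0) / ed k := by ring
    rw [this]
    simp
  rw [e]
  linarith

/-! ### the inner configuration -/

/-- explored inner legs with tubes, gauge and circuits -/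
structure InCfg (S : Finset ℂ) (N : Net ℂ) (t : ℂ × ℂ × ℂ) (z0 : ℂ) (q h d : ℝ)
    (J : Finset (ℂ × ℂ)) (tip : ZMod 3 → ℂ × ℂ) (c : ZMod 3 → ℂ) (M : ℕ)
    (pi : Equiv.Perm (ZMod 3)) (n : ZMod 3 → ℕ) (l : ZMod 3 → ℕ → ℂ) (th : ZMod 3 → ℕ → ℝ)
    (G0 : Finset (ℂ × ℂ)) (σ : Finset ℂ) : Prop where
  H : HNet S N
  dns : LDns S z0 (300 * q) d
  hpos : 0 < h
  hq : h ≤ q / 100
  hd : 16 * d ≤ h
  tm : t ∈ delT S
  tn : ∀ i, ‖vt t i - z0‖ ≤ q
  nmk : ∀ i, (vt t i, vt t (i + 1)) ∉ N.exS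
  Jm : IsJoin N.toTrg N.kl (rots t) N.exS J
  occ : ∀ i, (vt t i, vt t (i + 1)) ∈ J
  tips : ∀ i, LeadsO N.toTrg (rots t) N.exS J (Dsc z0 (25 * q))ᶜ (st t i) (tip i)
  apex : ∀ i, ((tip i).1, (tip i).2, c i) ∈ N.T ∧ c i ∉ Dsc z0 (25 * q)
  tub : TubesI z0 q h M c pi n l th
  gau : GaugeI N t z0 q h J n l G0 σ
  cir : ∀ i, ∀ k, k ≤ n i → ∃ C, CircC S (l i k) h σ C

/-- the closed chain of the box `k` (bottom, windows, gate), inner side -/
structure LamI (S : Finset ℂ) (z0 : ℂ) (q : ℝ) (k : ZMod 3) (J : Finset (ℂ × ℂ)) (σ : Finset ℂ)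
    (g : ℂ × ℂ) (lam : List ℂ) : Prop where
  loop : Loop S lam
  mem : ∀ s ∈ lam, s ∈ S
  box : ∀ s ∈ lam, |X z0 (ed k) s| ≤ 12 * q ∧ 78 * q ≤ Y z0 (ed k) s ∧ Y z0 (ed k) s ≤ 143 * q
  mid : ∀ s ∈ lam, Y z0 (ed k) s ≤ 94 * q ∨ 6 * q < |X z0 (ed k) s| ∨ 100 * q < Y z0 (ed k) s
  ins : ∀ z : ℂ, |X z0 (ed k) z| ≤ 6 * q → 94 * q ≤ Y z0 (ed k) z → Y z0 (ed k) z ≤ 102 * q →
    asum z lam ≠ 0
  occ : ∀ e : ℂ × ℂ, Touch lam e → (e ∈ J ∨ e.swap ∈ J) → (e = g ∨ e.swap = g) ∨
    (e.1 ∈ σ ∧ e.2 ∈ σ ∧ ((Y z0 (ed k) e.1 ≤ 94 * q ∧ Y z0 (ed k) e.2 ≤ 94 * q) ∨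
      (6 * q < |X z0 (ed k) e.1| ∧ 6 * q < |X z0 (ed k) e.2|)))

variable {N : Net ℂ} {t : ℂ × ℂ × ℂ} {z0 : ℂ} {qq h d : ℝ} {tip : ZMod 3 → ℂ × ℂ} {c : ZMod 3 → ℂ}
  {M : ℕ} {pi : Equiv.Perm (ZMod 3)} {n : ZMod 3 → ℕ} {l : ZMod 3 → ℕ → ℂ} {th : ZMod 3 → ℕ → ℝ}
  {G0 : Finset (ℂ × ℂ)} {σ : Finset ℂ} {J : Finset (ℂ × ℂ)}

theorem InCfg.qpos (C : InCfg S N t z0 qq h d J tip c M pi n l th G0 σ) : 0 < qq := by
  have := C.hpos; have := C.hq; linarith

theorem InCfg.dpos (C : InCfg S N t z0 qq h d J tip c M pi n l th G0 σ) : 0 < d := C.dns.dpos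

theorem InCfg.out (C : InCfg S N t z0 qq h d J tip c M pi n l th G0 σ) (i : ZMod 3) {k : ℕ}
    (hk : k ≤ n i) : 25 * qq ≤ ‖l i k - z0‖ := by
  have key : ∀ w : ℂ, w ∈ (Dsc z0 (25 * qq))ᶜ → 25 * qq ≤ ‖w - z0‖ := by
    intro w hw
    by_contra hcon
    exact hw (not_le.1 hcon)
  have T := C.tub.tube i
  rcases k with _ | k
  · rw [C.tub.start i]
    exact key _ (C.apex i).2
  · rcases k with _ | k
    · exact key _ (T.fst (Metric.mem_closedBall_self (norm_nonneg _)))
    · refine key _ (T.dep (k + 1) (by omega) (by omega) (Metric.mem_closedBall_self ?_))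
      have := C.hpos
      positivity

/-- starts of the inner legs -/
theorem InCfg.starts (C : InCfg S N t z0 qq h d J tip c M pi n l th G0 σ) :
    Starts N.toTrg (rots t) N.exS J (st t) :=
  starts_side C.H.gp C.H.tri (HNet.hullM C.H) C.tm C.Jm C.occ C.nmk

theorem InCfg.corner (C : InCfg S N t z0 qq h d J tip c M pi n l th G0 σ) (i : ZMod 3) :
    vt t i ∉ (Dsc z0 (25 * qq))ᶜ := by
  intro h1
  apply h1
  have := C.tn i
  have := C.qpos
  show ‖vt t i - z0‖ < 25 * qq
  linarith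

theorem InCfg.legTip (C : InCfg S N t z0 qq h d J tip c M pi n l th G0 σ) (i : ZMod 3) :
    LegTip N.toTrg (rots t) N.exS J (Dsc z0 (25 * qq))ᶜ (st t i) (tip i) :=
  ⟨C.tips i, c i, (C.apex i).2, (C.apex i).1⟩

/-- the tip is near the start of the tube -/
theorem InCfg.tip_near (C : InCfg S N t z0 qq h d J tip c M pi n l th G0 σ) (i : ZMod 3) :
    ‖(tip i).1 - (tip i).2‖ < 2 * d ∧ ‖mid (tip i) - c i‖ < 2 * d ∧ ‖c i - z0‖ ≤ 25 * qq + 2 * d := by
  have h1 := LeadsO.out_right (C.tips i)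
  have ha : ‖(tip i).1 - z0‖ < 25 * qq := by
    have := h1.1
    rw [Set.notMem_compl_iff] at this
    exact this
  have hq := C.qpos
  have hd := C.hd
  have hh := C.hq
  have hdp := C.dpos
  have ht := (C.apex i).1
  rw [C.H.tri] at ht
  obtain ⟨k1, k2, k3⟩ := tri_len C.dns ht (Or.inl (by linarith))
  refine ⟨k1, ?_, ?_⟩
  · have e : mid (tip i) - c i = ((tip i).1 - c i) / 2 + ((tip i).2 - c i) / 2 := by
      unfold B0x346.mid; ring
    rw [e]
    refine (norm_add_le _ _).trans_lt ?_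
    rw [norm_div, norm_div, norm_sub_rev (tip i).1]
    norm_num
    linarith
  · have e : c i - z0 = (c i - (tip i).1) + ((tip i).1 - z0) := by ring
    rw [e]
    exact (norm_add_le _ _).trans (by linarith)

/-- all points of the tubes are within `95 q + ` -/
theorem InCfg.in95 (C : InCfg S N t z0 qq h d J tip c M pi n l th G0 σ) (i : ZMod 3) {k : ℕ}
    (hk : k ≤ n i) : ‖l i k - z0‖ ≤ 95 * qq := by
  have hq := C.qpos
  rcases C.tub.reg i k hk with h1 | ⟨h1, h2, h3, -⟩
  · linarith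
  · have h4 := normXY z0 (pi i) (l i k)
    rw [h1] at h4
    apply le_of_sq_le_sq _ (by linarith)
    nlinarith

theorem mid_swap' (e : ℂ × ℂ) : mid e.swap = mid e := mid_sw e

theorem InCfg.seen (C : InCfg S N t z0 qq h d J tip c M pi n l th G0 σ) {e : ℂ × ℂ}
    (h : Expl N.toTrg (rots t) N.exS J (Dsc z0 (25 * qq))ᶜ (st t) e) :
    ∃ j, Seen N.toTrg (rots t) N.exS J (Dsc z0 (25 * qq))ᶜ (st t j) (tip j) e ∨
      Seen N.toTrg (rots t) N.exS J (Dsc z0 (25 * qq))ᶜ (st t j) (tip j) e.swap := by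
  obtain ⟨j, x, hx, rfl | rfl⟩ := h
  · exact ⟨j, Or.inl (seen_of C.Jm (rotInv_rots t) (C.starts.occ j) (C.starts.term j) (C.legTip j)
      hx)⟩
  · refine ⟨j, Or.inr ?_⟩
    rw [Prod.swap_swap]
    exact seen_of C.Jm (rotInv_rots t) (C.starts.occ j) (C.starts.term j) (C.legTip j) hx

/-- edges in the region are short -/
theorem InCfg.len (C : InCfg S N t z0 qq h d J tip c M pi n l th G0 σ) {e : ℂ × ℂ}
    (he : DE S e.1 e.2) (h1 : ‖e.1 - z0‖ ≤ 299 * qq) : ‖e.1 - e.2‖ < 2 * d := by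
  refine de_len C.dns he (Or.inl ?_)
  have := C.hd
  have := C.hq
  have := C.qpos
  linarith

/-- **an occupied black edge near the own tube** -/
theorem InCfg.edge_circ (C : InCfg S N t z0 qq h d J tip c M pi n l th G0 σ) {i : ZMod 3} {k : ℕ}
    (hk : k ≤ n i) {cc : (i : ZMod 3) → (k : ℕ) → List ℂ}
    (hcc : ∀ i, ∀ k, k ≤ n i → CircC S (l i k) h σ (cc i k)) {g : ℂ × ℂ} {lam : List ℂ}
    (hlam : LamI S z0 qq (pi i) J σ g lam) {e : ℂ × ℂ} (ht : Touch (cc i k) e)
    (he : e.swap ∈ J) : (∃ k', k' ≤ n i ∧ Ins (cc i k') e) ∨ Ins lam e ∨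
      ∃ j, Seen N.toTrg (rots t) N.exS J (Dsc z0 (25 * qq))ᶜ (st t j) (tip j) e ∨
        Seen N.toTrg (rots t) N.exS J (Dsc z0 (25 * qq))ᶜ (st t j) (tip j) e.swap := by
  have hh := C.hpos
  have hhq := C.hq
  have hdd := C.hd
  have hdp := C.dpos
  have hq := C.qpos
  have hC := hcc i k hk
  obtain ⟨h1, h2, h3⟩ := circ_touch hC ht
  have hG : e.swap ∈ G0 := gauge_edge C.gau.eq (e := e.swap) h3 h2 he
  have h95 := C.in95 i hk
  have hup1 := (hC.up _ (touch_mem ht).1).le
  have hn1 : ‖e.1 - z0‖ ≤ 299 * qq := by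
    have e1 : e.1 - z0 = (e.1 - l i k) + (l i k - z0) := by ring
    rw [e1]
    refine (norm_add_le _ _).trans ?_
    have := norm_le_sup (e.1 - l i k)
    linarith
  have hlen := C.len (touch_de hC.loop ht) hn1
  have s1 := (norm_mid_left e)
  rcases C.gau.edge _ hG with h4 | ⟨i', k', hk', h4⟩ | ⟨h4, h5⟩
  · right; right
    obtain ⟨j, hj⟩ := C.seen h4
    rw [Prod.swap_swap] at hj
    exact ⟨j, hj.symm⟩
  · rw [mid_swap'] at h4
    by_cases hii : i' = i
    · subst hii
      left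
      exact ⟨k', hk', circ_in (hcc i' k' hk') (by linarith)⟩
    · exfalso
      have h6 := C.tub.far i i' (Ne.symm hii) k hk k' hk'
      have h7 := sup_tri (l i k) (mid e) (l i' k')
      rw [sup_comm (l i k) (mid e)] at h7
      linarith
  · right; left
    rw [mid_swap'] at h4
    have hmz : ‖mid e - z0‖ ≤ ‖l i k - z0‖ + 4 * h := by
      have e1 : mid e - z0 = (mid e - l i k) + (l i k - z0) := by ring
      rw [e1]
      refine (norm_add_le _ _).trans ?_
      have := norm_le_sup (mid e - l i k)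
      linarith
    rcases C.tub.reg i k hk with h6 | ⟨h6, h7, h8, -⟩
    · exfalso
      linarith
    · have c1 := XY_sub z0 (pi i) (mid e) (l i k)
      rw [h6] at c1
      have c2 := normXY z0 (pi i) (mid e)
      set Xm := X z0 (ed (pi i)) (mid e) with hXm
      set Ym := Y z0 (ed (pi i)) (mid e) with hYm
      have c3 := abs_le.1 (c1.1.trans h1)
      have c4 := abs_le.1 (c1.2.trans h1)
      have hY1 : 189 / 2 * qq ≤ Ym := by
        by_contra hcon
        push Not at hcon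
        have hXsq : Xm ^ 2 ≤ (2 * h) ^ 2 := by
          apply sq_le_sq'
          · linarith [c3.1]
          · linarith [c3.2]
        have hYsq : Ym ^ 2 ≤ (189 / 2 * qq) ^ 2 := by
          apply sq_le_sq'
          · linarith [c4.1]
          · exact hcon.le
        have h9 : (95 * qq) ^ 2 < ‖mid e - z0‖ ^ 2 := by
          apply sq_lt_sq'
          · linarith [norm_nonneg (mid e - z0)]
          · exact h4
        have h10 : (2 * h) ^ 2 ≤ qq ^ 2 := by
          apply sq_le_sq'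
          · linarith
          · linarith
        nlinarith
      have hY2 : Ym ≤ 96 * qq := by linarith [c4.2]
      have c5 := XY_sub z0 (pi i) e.1 (mid e)
      have c6 : sup (e.1 - mid e) ≤ d := by
        refine (sup_le_norm _).trans ?_
        rw [s1]; linarith
      have c7 := abs_le.1 (c5.1.trans c6)
      have c8 := abs_le.1 (c5.2.trans c6)
      rw [← hXm] at c7
      rw [← hYm] at c8
      have h11 : e.1 ∉ lam := by
        intro h11
        rcases hlam.mid _ h11 with h12 | h12 | h12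
        · linarith [c8.1]
        · rcases lt_abs.1 h12 with h13 | h13
          · linarith [c7.2, c3.2]
          · linarith [c7.1, c3.1]
        · linarith [c8.2]
      refine ⟨⟨fun h12 => h11 (mem_of_prs h12).1, fun h12 => h11 (mem_of_prs h12).2⟩, ?_⟩
      refine hlam.ins _ ?_ ?_ ?_
      · rw [← hXm, abs_le]; constructor <;> linarith [c3.1, c3.2]
      · rw [← hYm]; linarith
      · rw [← hYm]; linarith

/-- **an occupied black edge of the chain `lam`** -/
theorem InCfg.edge_lam (C : InCfg S N t z0 qq h d J tip c M pi n l th G0 σ) {i : ZMod 3}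
    {cc : (i : ZMod 3) → (k : ℕ) → List ℂ}
    (hcc : ∀ i, ∀ k, k ≤ n i → CircC S (l i k) h σ (cc i k)) {g : ℂ × ℂ} {lam : List ℂ}
    (hlam : LamI S z0 qq (pi i) J σ g lam) {e : ℂ × ℂ} (ht : Touch lam e)
    (he : e.swap ∈ J) (h1 : e.1 ∈ σ) (h2 : e.2 ∈ σ)
    (h3 : (Y z0 (ed (pi i)) e.1 ≤ 94 * qq ∧ Y z0 (ed (pi i)) e.2 ≤ 94 * qq) ∨
      (6 * qq < |X z0 (ed (pi i)) e.1| ∧ 6 * qq < |X z0 (ed (pi i)) e.2|)) :
    (∃ k', k' ≤ n i ∧ Ins (cc i k') e) ∨
      ∃ j, Seen N.toTrg (rots t) N.exS J (Dsc z0 (25 * qq))ᶜ (st t j) (tip j) e ∨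
        Seen N.toTrg (rots t) N.exS J (Dsc z0 (25 * qq))ᶜ (st t j) (tip j) e.swap := by
  have hh := C.hpos
  have hhq := C.hq
  have hdd := C.hd
  have hdp := C.dpos
  have hq := C.qpos
  have hG : e.swap ∈ G0 := gauge_edge C.gau.eq (e := e.swap) h2 h1 he
  obtain ⟨m1, m2⟩ := touch_mem ht
  obtain ⟨b1, b2, b3⟩ := hlam.box _ m1
  obtain ⟨b4, b5, b6⟩ := hlam.box _ m2
  obtain ⟨x1, y1⟩ := XY_mid z0 (pi i) e
  have hXm : |X z0 (ed (pi i)) (mid e)| ≤ 12 * qq := by
    rw [x1]
    rw [abs_le] at b1 b4 ⊢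
    constructor <;> linarith [b1.1, b1.2, b4.1, b4.2]
  have hYm : 78 * qq ≤ Y z0 (ed (pi i)) (mid e) := by rw [y1]; linarith
  have hYm' : Y z0 (ed (pi i)) (mid e) ≤ 143 * qq := by rw [y1]; linarith
  have hnm := normXY z0 (pi i) (mid e)
  have hXsq : X z0 (ed (pi i)) (mid e) ^ 2 ≤ (12 * qq) ^ 2 := by
    rw [← sq_abs]; exact pow_le_pow_left₀ (abs_nonneg _) hXm 2
  have hn1 : ‖e.1 - z0‖ ≤ 299 * qq := by
    have h4 := normXY z0 (pi i) e.1
    have h5 : X z0 (ed (pi i)) e.1 ^ 2 ≤ (12 * qq) ^ 2 := by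
      rw [← sq_abs]; exact pow_le_pow_left₀ (abs_nonneg _) b1 2
    have h6 : Y z0 (ed (pi i)) e.1 ^ 2 ≤ (143 * qq) ^ 2 := pow_le_pow_left₀ (by linarith) b3 2
    apply le_of_sq_le_sq _ (by linarith)
    nlinarith
  have hlen := C.len (touch_de hlam.loop ht) hn1
  have s1 := norm_mid_left e
  rcases C.gau.edge _ hG with h4 | ⟨i', k', hk', h4⟩ | ⟨h4, h5⟩
  · right
    obtain ⟨j, hj⟩ := C.seen h4
    rw [Prod.swap_swap] at hj
    exact ⟨j, hj.symm⟩
  · rw [mid_swap'] at h4
    by_cases hii : i' = i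
    · subst hii
      left
      exact ⟨k', hk', circ_in (hcc i' k' hk') (by linarith)⟩
    · exfalso
      rcases C.tub.reg i' k' hk' with h6 | ⟨h6, h7, -, -⟩
      · have e1 : mid e - z0 = (mid e - l i' k') + (l i' k' - z0) := by ring
        have h8 : ‖mid e - z0‖ ≤ 77 * qq + 3 / 2 * h := by
          rw [e1]
          refine (norm_add_le _ _).trans ?_
          have := norm_le_sup (mid e - l i' k')
          linarith
        have h9 := (le_abs_self _).trans (Y_le_norm z0 (pi i) (mid e))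
        linarith
      · have hne : pi i' ≠ pi i := fun h => hii (pi.injective h)
        have c1 := XY_sub z0 (pi i') (mid e) (l i' k')
        rw [h6, sub_zero] at c1
        have c3 := c1.1.trans h4
        have c4 := abs_le.1 (c1.2.trans h4)
        rcases other_box z0 hne with h8 | h8
        · rw [h8] at c3
          have := le_abs_self (Y z0 (ed (pi i)) (mid e))
          linarith
        · rw [h8] at c4
          linarith [c4.1]
  · exfalso
    rw [mid_swap'] at h4 h5
    rcases h3 with ⟨h6, h7⟩ | ⟨h6, h7⟩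
    · have h8 : Y z0 (ed (pi i)) (mid e) ≤ 94 * qq := by rw [y1]; linarith
      have h9 : Y z0 (ed (pi i)) (mid e) ^ 2 ≤ (94 * qq) ^ 2 :=
        pow_le_pow_left₀ (by linarith) h8 2
      have h10 : (95 * qq) ^ 2 < ‖mid e - z0‖ ^ 2 := by
        apply sq_lt_sq'
        · linarith [norm_nonneg (mid e - z0)]
        · exact h4
      nlinarith
    · rcases h5 with ⟨k', h8, h9⟩ | h5
      · rw [mid_swap'] at h8
        simp only [Prod.fst_swap, Prod.snd_swap] at h9
        have key : ∀ a b : ℝ, 6 * qq < |a| → 6 * qq < |b| → ¬ (0 ≤ a ↔ 0 ≤ b) → 12 * qq < |a - b| := by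
          intro a b ha hb hab
          rcases lt_or_ge a 0 with h | h
          · rcases lt_or_ge b 0 with h' | h'
            · exact absurd ⟨fun h1 => absurd h1 (not_le.2 h), fun h1 => absurd h1 (not_le.2 h')⟩ hab
            · rw [abs_of_neg h] at ha
              rw [abs_of_nonneg h'] at hb
              rw [abs_of_neg (by linarith)]
              linarith
          · rcases lt_or_ge b 0 with h' | h'
            · rw [abs_of_nonneg h] at ha
              rw [abs_of_neg h'] at hb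
              rw [abs_of_nonneg (by linarith)]
              linarith
            · exact absurd ⟨fun _ => h', fun _ => h⟩ hab
        have hsup : sup (e.2 - e.1) < 2 * d := by
          rw [sup_comm]
          exact (sup_le_norm _).trans_lt hlen
        have c1 := (XY_sub z0 k' e.2 e.1).1
        by_cases hk : k' = pi i
        · subst hk
          have := key _ _ h7 h6 h9
          linarith
        · rcases other_box z0 hk with h10 | h10
          · have h11 : 6 * qq < |X z0 (ed k') e.1| := by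
              rw [h10, abs_of_nonneg (by linarith)]; linarith
            have h12 : 6 * qq < |X z0 (ed k') e.2| := by
              rw [h10, abs_of_nonneg (by linarith)]; linarith
            have := key _ _ h12 h11 h9
            linarith
          · rw [h10] at h8
            linarith
      · have h9 : Y z0 (ed (pi i)) (mid e) ^ 2 ≤ (143 * qq) ^ 2 :=
          pow_le_pow_left₀ (by linarith) hYm' 2
        have h10 : (219 * qq) ^ 2 < ‖mid e - z0‖ ^ 2 := by
          apply sq_lt_sq'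
          · linarith [norm_nonneg (mid e - z0)]
          · exact h5
        nlinarith

/-- the family of the chains of the tube `i` -/
def fam {n : ZMod 3 → ℕ} (cc : (i : ZMod 3) → (k : ℕ) → List ℂ) (lam : List ℂ) (i : ZMod 3) :
    Option {k : ℕ // k ≤ n i} → List ℂ
  | none => lam
  | some k => cc i k.1

theorem mem_of_circ (hS : GP (S : Set ℂ)) {z : ℂ} {r : ℝ} {β : Finset ℂ} {l : List ℂ}
    (hl : CircC S z r β l) {s : ℂ} (hr : 0 ≤ r) (hs : s ∈ l) : s ∈ S := by
  have h2 : 2 ≤ l.length := by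
    by_contra hcon
    push Not at hcon
    have h3 := hl.wind z (by
      unfold CircPx838.sup
      simpa using hr)
    have hpi := Real.pi_pos
    match l, hcon, h3 with
    | [], _, h3 => simp only [asum_nil] at h3; linarith
    | [a], _, h3 => simp only [asum_one] at h3; linarith
    | a :: b :: l, h, _ => simp at h
  have key : ∀ (l : List ℂ), 2 ≤ l.length → s ∈ l → ∃ p ∈ prs l, s = p.1 ∨ s = p.2 := by
    intro l
    induction l with
    | nil => intro _ h; simp at h
    | cons a l ih =>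
      intro hlen hs
      cases l with
      | nil => simp at hlen
      | cons b l =>
        rw [prs_cons]
        rcases List.mem_cons.1 hs with h | h
        · exact ⟨(a, b), List.mem_cons_self, Or.inl h⟩
        · cases l with
          | nil =>
            rw [List.mem_singleton] at h
            exact ⟨(a, b), List.mem_cons_self, Or.inr h⟩
          | cons c l =>
            obtain ⟨p, hp, h4⟩ := ih (by simp) h
            exact ⟨p, List.mem_cons_of_mem _ hp, h4⟩
  obtain ⟨p, hp, h4⟩ := key l h2 hs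
  obtain ⟨e, o, he, ma, mb, -⟩ := DE.circ hS (hl.loop.del p hp)
  rcases h4 with rfl | rfl
  · exact ma
  · exact mb

theorem rots_side {t : ℂ × ℂ × ℂ} {a b c : ℂ} (h : (a, b, c) ∈ rots t) :
    (∃ j, a = vt t j) ∧ ∃ j, b = vt t j := by
  unfold rots at h
  rcases h with h | h | h
  · obtain ⟨rfl, rfl, rfl⟩ : t.1 = a ∧ t.2.1 = b ∧ t.2.2 = c := by
      rw [← h]; exact ⟨rfl, rfl, rfl⟩
    exact ⟨⟨0, rfl⟩, ⟨1, rfl⟩⟩
  · rw [Prod.mk.injEq, Prod.mk.injEq] at h
    obtain ⟨rfl, rfl, rfl⟩ := h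
    exact ⟨⟨1, rfl⟩, ⟨2, rfl⟩⟩
  · rw [Set.mem_singleton_iff, Prod.mk.injEq, Prod.mk.injEq] at h
    obtain ⟨rfl, rfl, rfl⟩ := h
    exact ⟨⟨2, rfl⟩, ⟨0, rfl⟩⟩

/-- the leg does not end inside a circuit or inside `lam` -/
theorem InCfg.not_end (C : InCfg S N t z0 qq h d J tip c M pi n l th G0 σ) {i : ZMod 3}
    {cc : (i : ZMod 3) → (k : ℕ) → List ℂ}
    (hcc : ∀ i, ∀ k, k ≤ n i → CircC S (l i k) h σ (cc i k)) {g : ℂ × ℂ} {lam : List ℂ}
    (hlam : LamI S z0 qq (pi i) J σ g lam) {e : ℂ × ℂ} (he : Term N.toTrg (rots t) N.exS J e)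
    (x : Option {k : ℕ // k ≤ n i}) : ¬ Ins (fam cc lam i x) e := by
  have hh := C.hpos
  have hq := C.qpos
  have hhq := C.hq
  rintro ⟨h1, h2⟩
  apply h2
  rcases he with he | ⟨-, c', -, he⟩
  · obtain ⟨k, hk⟩ := he
    have hh2 := C.H.hex k
    rw [hk] at hh2
    have e1 : mid e = mid (e.2, e.1) := (mid_sw e).symm
    rw [e1]
    cases x with
    | none => exact asum_hull C.H.gp hlam.loop hlam.mem hh2 h1.swap
    | some k =>
      exact asum_hull C.H.gp (hcc i k.1 k.2).loop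
        (fun s hs => mem_of_circ C.H.gp (hcc i k.1 k.2) hh.le hs) hh2 h1.swap
  · obtain ⟨⟨j1, ha⟩, ⟨j2, hb⟩⟩ := rots_side he
    have hm : ‖mid e - z0‖ ≤ qq := by
      have e1 : mid e - z0 = (e.1 - z0) / 2 + (e.2 - z0) / 2 := by unfold B0x346.mid; ring
      rw [e1, ha, hb]
      refine (norm_add_le _ _).trans ?_
      rw [norm_div, norm_div]
      norm_num
      linarith [C.tn j1, C.tn j2]
    cases x with
    | none =>
      show asum (mid e) lam = 0
      refine below (z0 := z0) (k := pi i) hlam.loop.closed fun s hs => ?_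
      have h3 := (le_abs_self _).trans (Y_le_norm z0 (pi i) (mid e))
      have h4 := (hlam.box s hs).2.1
      linarith
    | some k =>
      refine (hcc i k.1 k.2).out ?_
      have h3 := C.out i k.2
      have h4 : l i k.1 - z0 = -(mid e - l i k.1) + (mid e - z0) := by ring
      have h5 := norm_add_le (-(mid e - l i k.1)) (mid e - z0)
      rw [← h4, norm_neg] at h5
      have h6 := norm_le_sup (mid e - l i k.1)
      linarith

/-- **the leg `i` leaves the tube through the gate** -/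
theorem InCfg.leg (C : InCfg S N t z0 qq h d J tip c M pi n l th G0 σ) (i : ZMod 3)
    {cc : (i : ZMod 3) → (k : ℕ) → List ℂ}
    (hcc : ∀ i, ∀ k, k ≤ n i → CircC S (l i k) h σ (cc i k)) {g : ℂ × ℂ} {lam : List ℂ}
    (hlam : LamI S z0 qq (pi i) J σ g lam) :
    ∃ m p k, Wk N.toTrg (rots t) N.exS J m p ∧ p 0 = tip i ∧ 0 < k ∧ k ≤ m ∧
      (p k = g ∨ (p k).swap = g) ∧
      (∀ j, j < k → ∃ x : Option {k : ℕ // k ≤ n i}, Ins (fam cc lam i x) (p j)) ∧
      ∃ x : Option {k : ℕ // k ≤ n i}, Touch (fam cc lam i x) (p k) ∧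
        Ins (fam cc lam i x) (p (k - 1)) := by
  have hh := C.hpos
  have hq := C.qpos
  have hhq := C.hq
  have hdd := C.hd
  have hdp := C.dpos
  obtain ⟨m, p, hW, hp0, hT⟩ := exists_cont C.Jm (rotInv_rots t) C.starts (LeadsO.leads (C.tips i))
  obtain ⟨k, hk0, hkm, hkg, hins, hx⟩ := tube_exit2 (W := (Dsc z0 (25 * qq))ᶜ) (q := tip)
    (l := fam cc lam i) (Γ := {g}) C.H.gp C.H.tri C.Jm
    (rotInv_rots t) C.starts (side_back C.H.gp C.H.tri C.tm C.corner) C.legTip hW hp0
    (by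
      intro x
      cases x with
      | none => exact hlam.loop
      | some k => exact (hcc i k.1 k.2).loop)
    (by
      refine ⟨some ⟨0, Nat.zero_le _⟩, ?_⟩
      obtain ⟨h1, h2, -⟩ := C.tip_near i
      refine circ_in (hcc i 0 (Nat.zero_le _)) ?_
      rw [C.tub.start i]
      have := sup_le_norm (mid (tip i) - c i)
      linarith)
    (by
      intro j hj x
      obtain ⟨h1, h2, h3⟩ := C.tip_near j
      cases x with
      | none =>
        have hY : ∀ y : ℂ, ‖y - z0‖ < 78 * qq → ∀ s ∈ lam, Y z0 (ed (pi i)) y < Y z0 (ed (pi i)) s := by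
          intro y hy s hs
          have h4 := (le_abs_self _).trans (Y_le_norm z0 (pi i) y)
          have h5 := (hlam.box s hs).2.1
          linarith
        have ho := LeadsO.out_right (C.tips j)
        have ha : ‖(tip j).1 - z0‖ < 25 * qq := by
          have := ho.1
          rw [Set.notMem_compl_iff] at this
          exact this
        have hb : ‖(tip j).2 - z0‖ < 25 * qq := by
          have := ho.2
          rw [Set.notMem_compl_iff] at this
          exact this
        have hn : (tip j).1 ∉ lam := fun h => lt_irrefl _ (hY _ (by linarith) _ h)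
        refine ⟨⟨fun h => hn (mem_of_prs h).1, fun h => hn (mem_of_prs h).2⟩, ?_⟩
        refine below (z0 := z0) (k := pi i) hlam.loop.closed (hY _ ?_)
        have e1 : mid (tip j) - z0 = (mid (tip j) - c j) + (c j - z0) := by ring
        rw [e1]
        refine (norm_add_le _ _).trans_lt ?_
        linarith
      | some k =>
        refine circ_far (hcc i k.1 k.2) ?_
        have h4 := C.tub.far j i hj 0 (Nat.zero_le _) k.1 k.2
        rw [C.tub.start j] at h4
        have h5 := sup_tri (c j) (mid (tip j)) (l i k.1)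
        have h6 := sup_le_norm (mid (tip j) - c j)
        rw [sup_comm (c j) (mid (tip j))] at h5
        linarith)
    (fun x => C.not_end hcc hlam hT x)
    (by
      intro x e hx he
      have hlift : ∀ {e : ℂ × ℂ}, (∃ k', k' ≤ n i ∧ Ins (cc i k') e) →
          ∃ x : Option {k : ℕ // k ≤ n i}, Ins (fam cc lam i x) e := by
        rintro e ⟨k', hk', h⟩
        exact ⟨some ⟨k', hk'⟩, h⟩
      cases x with
      | none =>
        rcases hlam.occ e hx (Or.inr he) with h1 | ⟨h1, h2, h3⟩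
        · left
          rcases h1 with h1 | h1
          · exact Or.inl h1
          · exact Or.inr h1
        · right
          rcases C.edge_lam hcc hlam hx he h1 h2 h3 with h4 | h4
          · exact Or.inl (hlift h4)
          · exact Or.inr h4
      | some k =>
        right
        rcases C.edge_circ k.2 hcc hlam hx he with h4 | h4 | h4
        · exact Or.inl (hlift h4)
        · exact Or.inl ⟨none, h4⟩
        · exact Or.inr h4)
  exact ⟨m, p, k, hW, hp0, hk0, hkm, hkg, hins, hx⟩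

end Crest.Agent.R143.GLIx126
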