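import Crest.Agent.R143.CorP_503
import Crest.Agent.R143.GLIa_126

/-!
# Row 143 (S0194): the environment of the corridor from local density (helper503)

* **`envr_of`** : `Hol S U d` ==> `Envr S U (2 d)`
-/

set_option autoImplicit false

noncomputable section

open scoped Classical

namespace Crest.Agent.R143.EnvUx503

open Set
open Crest.Agent.R143.B0x346 Crest.Agent.R143.DelGx806 Crest.Agent.R143.DelRx806
open Crest.Agent.R143.Frame10x395
open Crest.Agent.R143.Locx922
open Crest.Agent.R143.Blkx838 (DE)
open Crest.Agent.R143.Circx63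
open Crest.Agent.R143.RingPx503

variable {S : Finset ℂ} {U : Set ℂ} {d : ℝ}

/-- **the environment from local density** -/
theorem envr_of (hS : GP (S : Set ℂ)) (hd : 0 < d) (hH : Hol (S : Set ℂ) U d) :
    Envr S U (2 * d) where
  step := by
    intro u v h hu _
    rcases h with ⟨c, h⟩ | ⟨c, h⟩
    · exact (del_side hd hH hu (inD_self u v c) (DelGx806.mem_delT.1 h)).1.le
    · rw [norm_sub_rev]
      exact (del_side hd hH hu (inD_snd v u c) (DelGx806.mem_delT.1 h)).1.le
  inn := by
    rintro s - hsU ⟨a, ha⟩
    exact (not_hull hd hH hsU a).2 ha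
  cov := by
    intro z hz
    obtain ⟨a, b, c, h1, h2⟩ := exists_tri_W hS hd hH hz
    exact ⟨(a, b, c), h1, h2⟩

end Crest.Agent.R143.EnvUx503
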