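import Crest.Agent.R143.GateA_838

/-!
# Row 143 (S0194), CORE-C, box R1c: tile regions along a simple closed lattice path, definitions (helper228)

* `U4`, `cz` : lattice directions, complex number of a lattice vector
* `FPath M W` : simple closed lattice path `W : ℤ → ℤ × ℤ` of period `M`, without turning back
* `cen h W a` : vertex, `gz h W a`, `ge W a` : centre and direction of the gate `a` (middle of the edge
  from `W (a - 1)` to `W a`)
* `Arm A B c u` : arm of half width `A` and length `B` from `c` in the direction `u`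
* `RR A B h W a` : region of the tile at the vertex `a`: the arm to the gate `a` and the arm to the gate
  `a + 1`. Unit `η`, mesh `h = T η`, `T = 100`: `RR (9 η) (51 η) (100 η)` is 921's region in the frame
  `(gz, ge)`.
-/

set_option autoImplicit false

noncomputable section

open scoped Classical

namespace Crest.Agent.R143.TileRx228

open Crest.Agent.R143.Gatex838 (X Y)

/-- the four lattice directions -/
def U4 (u : ℤ × ℤ) : Prop := u = (1, 0) ∨ u = (0, 1) ∨ u = (-1, 0) ∨ u = (0, -1)

/-- complex number of a lattice vector -/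
def cz (u : ℤ × ℤ) : ℂ := ⟨(u.1 : ℝ), (u.2 : ℝ)⟩

/-- simple closed lattice path of period `M` -/
structure FPath (M : ℕ) (W : ℤ → ℤ × ℤ) : Prop where
  per : ∀ a, W (a + M) = W a
  step : ∀ a, U4 (W (a + 1) - W a)
  turn : ∀ a, W (a + 2) ≠ W a
  simple : ∀ a b, W a = W b → (M : ℤ) ∣ b - a

/-- vertex -/
def cen (h : ℝ) (W : ℤ → ℤ × ℤ) (a : ℤ) : ℂ := (h : ℂ) * cz (W a)

/-- centre of the gate `a`: middle of the edge from `W (a - 1)` to `W a` -/
def gz (h : ℝ) (W : ℤ → ℤ × ℤ) (a : ℤ) : ℂ := (h : ℂ) * ((cz (W (a - 1)) + cz (W a)) / 2)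

/-- direction of the gate `a` -/
def ge (W : ℤ → ℤ × ℤ) (a : ℤ) : ℂ := cz (W a - W (a - 1))

/-- arm of half width `A` and length `B` from `c` in the direction `u` -/
def Arm (A B : ℝ) (c u : ℂ) : Set ℂ := {s | (-A < X c u s ∧ X c u s < B) ∧ |Y c u s| < A}

/-- region of the tile at the vertex `a` -/
def RR (A B h : ℝ) (W : ℤ → ℤ × ℤ) (a : ℤ) : Set ℂ :=
  Arm A B (cen h W a) (cz (W (a - 1) - W a)) ∪ Arm A B (cen h W a) (cz (W (a + 1) - W a))

end Crest.Agent.R143.TileRx228
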