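import Crest.Agent.R143.Fine_422
import Crest.Agent.R143.TileR0_228

/-!
# Row 143 (S0194), RIG, box R1b: the parallel curve is an `FPath` of 228 (helper422)
-/

set_option autoImplicit false

namespace Crest.Agent.R143.Finex422

open Crest.Agent.R158.Sp896 Crest.Agent.R143.TileRx228

variable {F : Set V} {n : ℕ} {m : ℤ} {p : ℤ → V} {M : ℕ} {W : ℤ → V} {A : ℤ → ℤ}

theorem Fine.fpath (h : Fine F n m p M W A) : FPath M W where
  per := h.per
  step a := h.un a
  turn := h.turn
  simple a b e := h.inj a b e

end Crest.Agent.R143.Finex422
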