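import Crest.Agent.R143.Fine2_422
import Crest.Agent.R143.LayQ_811
import Crest.Agent.R143.Brk_478

/-!
# Row 143 (S0194), RIG, box R1b: the parallel curve gives the structure `Seg` of 811 (helper422)
-/

set_option autoImplicit false
set_option linter.all false

namespace Crest.Agent.R143.Finex422

open Crest.Agent.R158 Crest.Agent.R158.Sp896 Crest.Agent.R143.TileRx228

variable {F : Set V} {n : ℕ} {m : ℤ} {p : ℤ → V} {M : ℕ} {W : ℤ → V} {A : ℤ → ℤ}

theorem Cl.far (h : Cl F n p) (k l : ℤ) (h1 : ¬ (n : ℤ) ∣ l - k) (h2 : ¬ (n : ℤ) ∣ l - k - 1)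
    (h3 : ¬ (n : ℤ) ∣ l - k + 1) (s t : ℝ) (s0 : 0 ≤ s) (s1 : s ≤ 1) (t0 : 0 ≤ t) (t1 : t ≤ 1) :
      1 ≤ |((p k).1 + s * ((p (k + 1)).1 - (p k).1) : ℝ) -
            ((p l).1 + t * ((p (l + 1)).1 - (p l).1))| ∨
      1 ≤ |((p k).2 + s * ((p (k + 1)).2 - (p k).2) : ℝ) -
            ((p l).2 + t * ((p (l + 1)).2 - (p l).2))| := by
  by_contra hcon
  push Not at hcon
  have e : ∀ a b : V, a + (b.1 - a.1, b.2 - a.2) = b := by
    intro a b
    exact Prod.ext (by simp) (by simp)
  have h4 := Brkx478.near_seg (Brkx478.adj_U4 (h.step k)) (Brkx478.adj_U4 (h.step l)) s0 s1 t0 t1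
    (by push_cast; exact hcon.1) (by push_cast; exact hcon.2)
  rw [e, e] at h4
  rcases h4 with h4 | h4 | h4 | h4
  · apply h1
    have := h.inj _ _ h4.symm
    exact this
  · apply h3
    have := h.inj _ _ h4.symm
    have e2 : l + 1 - k = l - k + 1 := by ring
    rwa [e2] at this
  · apply h2
    have := h.inj _ _ h4.symm
    have e2 : l - (k + 1) = l - k - 1 := by ring
    rwa [e2] at this
  · apply h1
    have := h.inj _ _ h4.symm
    have e2 : l + 1 - (k + 1) = l - k := by ring
    rwa [e2] at this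

theorem Fine.seg' (h : Fine F n m p M W A) : LayQx811.Seg n M m p W A where
  n0 := by have := h.cl.n4; omega
  pper := h.cl.per
  pstep k := adj_un (h.cl.step k)
  pturn k := by
    intro e
    have h1 := h.cl.inj _ _ e
    have e2 : k + 2 - k = 2 := by ring
    rw [e2] at h1
    have := Int.le_of_dvd (by norm_num) h1
    have := h.cl.n4
    omega
  Aper := h.Aper
  Alt k := h.Alt _ _ (by omega)
  Wper := h.per
  Wst := h.step
  near := h.vert
  len k := by
    have := h.Alen k
    rw [abs_le]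
    constructor <;> linarith [this.1, this.2]
  far := h.cl.far

end Crest.Agent.R143.Finex422
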