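import Crest.Agent.R143.NetV_346
import Crest.Agent.R143.Brk_478
import Crest.Agent.R143.Ten_416

/-!
# Row 143 (S0194): FROZEN, part 3 : the index `u` of CONT and POLY (helper346)

* `Poly` : brick unit `2⁻ⁿ`, a finite connected set of bricks with connected complement, its
  boundary walk (`Cyc`, `U` on the left), three marks = MIDDLES of the edges `k 0 < k 1 < k 2 < k 0 + L`
* `Poly.P` : the region; `Poly.Arc j` : boundary from the mark `j` to the mark `j + 1`
  (counterclockwise); `Poly.Lab x` : the least `j` such that the arc `j` is nearest to `x`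
* `Poly.S u ε ω` : the points within `100 √ε` of the region; hole radius `√ε`
* **`Poly.T u ε ω`**, **`Poly.T' u ε ω`** : the frozen totals of CONT and POLY
-/

set_option autoImplicit false

noncomputable section

open scoped Classical

namespace Crest.Agent.R143.PolyUx346

open Crest.ProbabilityR.Voronoi
open Crest.Agent.R143.NetVx346
open Crest.Agent.R143.Brkx478 (Bk cells Conn)
open Crest.Agent.R143.Tenx416 (Pg)
open Crest.Agent.R158.Sp896

/-- **labelled brick polygon** -/
structure Poly where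
  /-- unit `2⁻ⁿ` -/
  n : ℕ
  /-- the bricks -/
  U : Finset Bk
  /-- length of the boundary walk -/
  L : ℕ
  /-- boundary walk, `U` on the left -/
  v : ℕ → V
  /-- the marks are the middles of the edges `k 0, k 1, k 2` -/
  k : Fin 3 → ℕ
  con : Conn (U : Set Bk)
  con' : Conn (U : Set Bk)ᶜ
  cyc : Cyc (cells (U : Set Bk)) L v
  k01 : k 0 < k 1
  k12 : k 1 < k 2
  k20 : k 2 < k 0 + L

variable (u : Poly)

/-- the unit -/
def Poly.s : ℝ := (1 / 2) ^ u.n

theorem Poly.s_pos : 0 < u.s := by unfold Poly.s; positivity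

/-- the region -/
def Poly.P : Set ℂ := Pg u.s (cells (u.U : Set Bk))

/-- last index of the arc `j` -/
def Poly.k' (j : Fin 3) : ℕ := if j = 2 then u.k 0 + u.L else u.k (j + 1)

/-- the middle of the edge `i` of the walk -/
def Poly.mid (i : ℕ) : ℂ := (pt u.s (u.v i) + pt u.s (u.v (i + 1))) / 2

/-- the arc from the mark `j` to the mark `j + 1` -/
def Poly.Arc (j : Fin 3) : Set ℂ :=
  segment ℝ (u.mid (u.k j)) (pt u.s (u.v (u.k j + 1))) ∪
    (⋃ i ∈ Set.Ioo (u.k j) (u.k' j), ed u.s (u.v i) (u.v (i + 1))) ∪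
    segment ℝ (pt u.s (u.v (u.k' j))) (u.mid (u.k' j))

/-- the arc `j` is nearest to `x` -/
def Poly.Near (x : ℂ) (j : Fin 3) : Prop :=
  ∀ i, Metric.infDist x (u.Arc j) ≤ Metric.infDist x (u.Arc i)

/-- position label: least nearest arc -/
def Poly.Lab (x : ℂ) : ZMod 3 := if u.Near x 0 then 0 else if u.Near x 1 then 1 else 2

/-- the points near the region -/
def Poly.S (ε : ℝ) (ω : Sample) : Finset ℂ :=
  if h : (points ε ω ∩ {x | Metric.infDist x u.P ≤ 100 * √ε}).Finite then h.toFinset else ∅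

/-- **the total `T`** -/
def Poly.T (ε : ℝ) (ω : Sample) : ℂ := TU (u.S ε ω) u.P √ε u.Lab id

/-- **the total `T'`** -/
def Poly.T' (ε : ℝ) (ω : Sample) : ℂ := TU (u.S ε ω) u.P √ε u.Lab (starRingEnd ℂ)

/-! ### first properties -/

variable {u}

theorem Poly.near_lab (x : ℂ) : ∃ j : Fin 3, u.Near x j ∧ u.Lab x = (j : ℕ) ∧
    ∀ i < j, ¬ u.Near x i := by
  unfold Poly.Lab
  by_cases h0 : u.Near x 0
  · exact ⟨0, h0, by rw [if_pos h0]; rfl, fun i hi => absurd hi (by omega)⟩
  by_cases h1 : u.Near x 1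
  · refine ⟨1, h1, by rw [if_neg h0, if_pos h1]; rfl, fun i hi => ?_⟩
    have : i = 0 := by omega
    rw [this]
    exact h0
  · refine ⟨2, ?_, by rw [if_neg h0, if_neg h1]; rfl, fun i hi => ?_⟩
    · obtain ⟨j, -, hj⟩ := Finset.exists_min_image (Finset.univ : Finset (Fin 3))
        (fun j => Metric.infDist x (u.Arc j)) Finset.univ_nonempty
      have hj' : u.Near x j := fun i => hj i (Finset.mem_univ i)
      have h2 : j = 2 := by
        have e0 : j ≠ 0 := fun e => h0 (e ▸ hj')
        have e1 : j ≠ 1 := fun e => h1 (e ▸ hj')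
        omega
      exact h2 ▸ hj'
    · have : i = 0 ∨ i = 1 := by omega
      rcases this with e | e
      · rw [e]; exact h0
      · rw [e]; exact h1

theorem Poly.mem_S {ε : ℝ} {ω : Sample}
    (hf : (points ε ω ∩ {x | Metric.infDist x u.P ≤ 100 * √ε}).Finite) {x : ℂ} :
    x ∈ u.S ε ω ↔ x ∈ points ε ω ∧ Metric.infDist x u.P ≤ 100 * √ε := by
  unfold Poly.S
  rw [dif_pos hf, Set.Finite.mem_toFinset]
  rfl

end Crest.Agent.R143.PolyUx346
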