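import Crest.Agent.R143.REw_838
import Crest.Agent.R143.Brk_478

/-!
# Row 143, (XC): the exterior of `U ∪ Ring` is connected (helper372)

`F` = cells of the coarse grid (polygon `U` of 478, `F = cells U`), coarse side `H = m h`, fine
side `h`, `k` : a number of fine units, `2 k + 1 ≤ m`.  Fine square `x` = `h * (x + [0, 1]²)`,
coarse cell `q` = `H * (q + [0, 1]²)` (origin `o`).
* `XX m k F` : fine squares at sup distance `≥ k` units from the cells of `F`
  (`k = 1` : squares which do not touch `U`; side `h / 2`, `k = 3` : everything at distance `3/2 h`);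
* `con_XX` : `Fᶜ` edge-connected ==> `XX m k F` edge-connected;
* `XC o h m k F` : union of these closed squares, `conn_XC`; `Fa / FaS o H F r` : points at sup
  distance `≥ r` / `> r` from the coarse squares, `FaS (k h) ⊆ XC ⊆ Fa (k h)`;
* `join_out` : sites whose cells meet a connected set `C` which contains everything far away are
  joined by sites at distance `< 2 d` from `C`;
* `xc`, `xc_brick` : every site at sup distance `> k h` is joined to every hull site by sites at sup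
  distance `≥ k h - 2 d`.
-/

set_option autoImplicit false

noncomputable section

open scoped Classical

namespace Crest.Agent.R143.Xcx372

open Crest.Agent.R158.Sp896 (V Adj Con)

/-- the fine square `x` is at sup distance `< k` from the coarse cell `q` -/
def Tou (m k : ℤ) (q x : V) : Prop :=
  m * q.1 - k ≤ x.1 ∧ x.1 ≤ m * q.1 + m + k - 1 ∧ m * q.2 - k ≤ x.2 ∧ x.2 ≤ m * q.2 + m + k - 1

/-- the fine squares at sup distance `≥ k` from the cells of `F` -/
def XX (m k : ℤ) (F : Set V) : Set V := {x | ∀ q ∈ F, ¬ Tou m k q x}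

variable {m k : ℤ} {F : Set V}

theorem le_of {a b : ℤ} (hm : 0 < m) (h : m * a < m * b + m) : a ≤ b := by
  by_contra hc
  push Not at hc
  have h1 : m * (b + 1) ≤ m * a := mul_le_mul_of_nonneg_left (by omega) hm.le
  rw [mul_add, mul_one] at h1
  omega

theorem mul_le {a b : ℤ} (hm : 0 < m) (h : a ≤ b) : m * a ≤ m * b :=
  mul_le_mul_of_nonneg_left h hm.le

/-- deep points of the cell `b` touch only the cell `b` -/
theorem eq_of {x a b : ℤ} (hk : 0 ≤ k) (hm : 2 * k + 1 ≤ m) (h1 : m * a - k ≤ x)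
    (h2 : x ≤ m * a + m + k - 1) (h3 : m * b + k ≤ x) (h4 : x ≤ m * b + m - 1 - k) : a = b :=
  le_antisymm (le_of (m := m) (by omega) (by omega)) (le_of (m := m) (by omega) (by omega))

/-- horizontal lines -/
theorem lineH {S : Set V} {y : ℤ} (n : ℕ) : ∀ a b : ℤ, (b - a).natAbs = n →
    (∀ t, min a b ≤ t → t ≤ max a b → ((t, y) : V) ∈ S) → Con S (a, y) (b, y) := by
  induction n with
  | zero =>
    intro a b h _
    have : a = b := by omega
    rw [this]
    exact Crest.Agent.R158.Sp896.Con.refl S _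
  | succ n ih =>
    intro a b h hS
    rcases lt_trichotomy a b with hab | hab | hab
    · have h1 : Con S (a, y) (a + 1, y) :=
        Crest.Agent.R158.Sp896.Con.one (Or.inl ⟨rfl, rfl⟩) (hS _ (by omega) (by omega))
      exact h1.trans (ih _ _ (by omega) fun t h1 h2 => hS t (by omega) (by omega))
    · omega
    · have h1 : Con S (a, y) (a - 1, y) :=
        Crest.Agent.R158.Sp896.Con.one (Or.inr (Or.inl ⟨rfl, rfl⟩)) (hS _ (by omega) (by omega))
      exact h1.trans (ih _ _ (by omega) fun t h1 h2 => hS t (by omega) (by omega))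

/-- vertical lines -/
theorem lineV {S : Set V} {x : ℤ} (n : ℕ) : ∀ a b : ℤ, (b - a).natAbs = n →
    (∀ t, min a b ≤ t → t ≤ max a b → ((x, t) : V) ∈ S) → Con S (x, a) (x, b) := by
  induction n with
  | zero =>
    intro a b h _
    have : a = b := by omega
    rw [this]
    exact Crest.Agent.R158.Sp896.Con.refl S _
  | succ n ih =>
    intro a b h hS
    rcases lt_trichotomy a b with hab | hab | hab
    · have h1 : Con S (x, a) (x, a + 1) :=
        Crest.Agent.R158.Sp896.Con.one (Or.inr (Or.inr (Or.inl ⟨rfl, rfl⟩)))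
          (hS _ (by omega) (by omega))
      exact h1.trans (ih _ _ (by omega) fun t h1 h2 => hS t (by omega) (by omega))
    · omega
    · have h1 : Con S (x, a) (x, a - 1) :=
        Crest.Agent.R158.Sp896.Con.one (Or.inr (Or.inr (Or.inr ⟨rfl, rfl⟩)))
          (hS _ (by omega) (by omega))
      exact h1.trans (ih _ _ (by omega) fun t h1 h2 => hS t (by omega) (by omega))

/-- the centre -/
def ce (m : ℤ) (q : V) : V := (m * q.1 + m / 2, m * q.2 + m / 2)

/-- interior squares of a coarse cell outside `F` -/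
theorem inner (hk : 0 ≤ k) (hm : 2 * k + 1 ≤ m) {q x : V} (hq : q ∉ F) (h1 : m * q.1 + k ≤ x.1)
    (h2 : x.1 ≤ m * q.1 + m - 1 - k) (h3 : m * q.2 + k ≤ x.2) (h4 : x.2 ≤ m * q.2 + m - 1 - k) :
    x ∈ XX m k F := by
  rintro q' hq' ⟨g1, g2, g3, g4⟩
  refine hq ?_
  have e1 := eq_of hk hm g1 g2 h1 h2
  have e2 := eq_of hk hm g3 g4 h3 h4
  rwa [show q = q' from Prod.ext e1.symm e2.symm]

theorem ce_mem (hk : 0 ≤ k) (hm : 2 * k + 1 ≤ m) {q : V} (hq : q ∉ F) : ce m q ∈ XX m k F :=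
  inner hk hm hq (by simp only [ce]; omega) (by simp only [ce]; omega) (by simp only [ce]; omega)
    (by simp only [ce]; omega)

/-- interior squares are joined to the centre -/
theorem inner_con (hk : 0 ≤ k) (hm : 2 * k + 1 ≤ m) {q x : V} (hq : q ∉ F)
    (h1 : m * q.1 + k ≤ x.1) (h2 : x.1 ≤ m * q.1 + m - 1 - k) (h3 : m * q.2 + k ≤ x.2)
    (h4 : x.2 ≤ m * q.2 + m - 1 - k) : Con (XX m k F) x (ce m q) := by
  obtain ⟨x1, x2⟩ := x
  simp only at h1 h2 h3 h4
  have c1 : Con (XX m k F) (x1, x2) (m * q.1 + m / 2, x2) :=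
    lineH _ _ _ rfl fun t g1 g2 =>
      inner hk hm hq (by simp only; omega) (by simp only; omega) h3 h4
  have c2 : Con (XX m k F) (m * q.1 + m / 2, x2) (m * q.1 + m / 2, m * q.2 + m / 2) :=
    lineV _ _ _ rfl fun t g1 g2 =>
      inner hk hm hq (by simp only; omega) (by simp only; omega) (by simp only; omega)
        (by simp only; omega)
  exact c1.trans c2

/-- the coarse cell of a fine square -/
def cz (m : ℤ) (x : V) : V := (x.1 / m, x.2 / m)

theorem cz_le (hm : 0 < m) (x : ℤ) : m * (x / m) ≤ x ∧ x < m * (x / m) + m := by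
  have h1 := Int.mul_ediv_add_emod x m
  have h2 := Int.emod_nonneg x hm.ne'
  have h3 := Int.emod_lt_of_pos x hm
  omega

theorem cz_notMem (hk : 0 ≤ k) (hm : 2 * k + 1 ≤ m) {x : V} (hx : x ∈ XX m k F) : cz m x ∉ F := by
  intro h
  have h1 := cz_le (by omega : 0 < m) x.1
  have h2 := cz_le (by omega : 0 < m) x.2
  exact hx _ h ⟨by simp only [cz]; omega, by simp only [cz]; omega, by simp only [cz]; omega,
    by simp only [cz]; omega⟩

/-- moving towards the inside of a coarse cell touches no new cell -/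
theorem clampT (hk : 0 ≤ k) (hm : 2 * k + 1 ≤ m) {q x t p : ℤ} (h1 : m * q ≤ x)
    (h2 : x < m * q + m) (ht1 : min x (max (m * q + k) (min x (m * q + m - 1 - k))) ≤ t)
    (ht2 : t ≤ max x (max (m * q + k) (min x (m * q + m - 1 - k)))) (g1 : m * p - k ≤ t)
    (g2 : t ≤ m * p + m + k - 1) : m * p - k ≤ x ∧ x ≤ m * p + m + k - 1 := by
  rcases lt_or_ge x (m * q + k) with h | h
  · have e : p ≤ q := le_of (m := m) (by omega) (by omega)
    have := mul_le (m := m) (by omega) e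
    omega
  · rcases lt_or_ge (m * q + m - 1 - k) x with h' | h'
    · have e : q ≤ p := le_of (m := m) (by omega) (by omega)
      have := mul_le (m := m) (by omega) e
      omega
    · omega

/-- every square of `XX` is joined to the centre of its coarse cell -/
theorem con_ce (hk : 0 ≤ k) (hm : 2 * k + 1 ≤ m) {x : V} (hx : x ∈ XX m k F) :
    Con (XX m k F) x (ce m (cz m x)) := by
  have hq := cz_notMem hk hm hx
  have hm0 : 0 < m := by omega
  obtain ⟨x1, x2⟩ := x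
  set q := cz m (x1, x2) with hqd
  have h1 : m * q.1 ≤ x1 ∧ x1 < m * q.1 + m := cz_le hm0 x1
  have h2 : m * q.2 ≤ x2 ∧ x2 < m * q.2 + m := cz_le hm0 x2
  set a1 : ℤ := max (m * q.1 + k) (min x1 (m * q.1 + m - 1 - k)) with ha1
  set a2 : ℤ := max (m * q.2 + k) (min x2 (m * q.2 + m - 1 - k)) with ha2
  have c1 : Con (XX m k F) (x1, x2) (a1, x2) := by
    refine lineH _ _ _ rfl fun t ht1 ht2 => ?_
    rintro p hp ⟨g1, g2, g3, g4⟩
    simp only at g1 g2 g3 g4
    obtain ⟨e1, e2⟩ := clampT hk hm h1.1 h1.2 ht1 ht2 g1 g2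
    exact hx p hp ⟨e1, e2, g3, g4⟩
  have hx' : ((a1, x2) : V) ∈ XX m k F := Crest.Agent.R158.Sp896.Con.mem c1 hx
  have c2 : Con (XX m k F) (a1, x2) (a1, a2) := by
    refine lineV _ _ _ rfl fun t ht1 ht2 => ?_
    rintro p hp ⟨g1, g2, g3, g4⟩
    simp only at g1 g2 g3 g4
    obtain ⟨e1, e2⟩ := clampT hk hm h2.1 h2.2 ht1 ht2 g3 g4
    exact hx' p hp ⟨g1, g2, e1, e2⟩
  exact (c1.trans c2).trans (inner_con hk hm hq (by simp only; omega) (by simp only; omega)
    (by simp only; omega) (by simp only; omega))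

/-- centres of adjacent coarse cells -/
theorem ce_adjH (hk : 0 ≤ k) (hm : 2 * k + 1 ≤ m) {q : V} (hq : q ∉ F) {q' : V} (hq' : q' ∉ F)
    (h1 : q'.1 = q.1 + 1) (h2 : q'.2 = q.2) : Con (XX m k F) (ce m q) (ce m q') := by
  have e : m * q'.1 = m * q.1 + m := by rw [h1, mul_add, mul_one]
  have e' : m * (q.1 + 1) = m * q.1 + m := by rw [mul_add, mul_one]
  unfold ce
  rw [h2]
  refine lineH _ _ _ rfl fun t g1 g2 => ?_
  rintro p hp ⟨k1, k2, k3, k4⟩
  simp only at k1 k2 k3 k4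
  have e2 : p.2 = q.2 := eq_of hk hm k3 k4 (by omega) (by omega)
  have l1 : p.1 ≤ q.1 + 1 := le_of (m := m) (by omega) (by omega)
  have l2 : q.1 ≤ p.1 := le_of (m := m) (by omega) (by omega)
  rcases (by omega : p.1 = q.1 ∨ p.1 = q.1 + 1) with h | h
  · exact hq (by rwa [show q = p from Prod.ext h.symm e2.symm])
  · exact hq' (by rwa [show q' = p from Prod.ext (h1.trans h.symm) (h2.trans e2.symm)])

theorem ce_adjV (hk : 0 ≤ k) (hm : 2 * k + 1 ≤ m) {q : V} (hq : q ∉ F) {q' : V} (hq' : q' ∉ F)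
    (h1 : q'.1 = q.1) (h2 : q'.2 = q.2 + 1) : Con (XX m k F) (ce m q) (ce m q') := by
  have e : m * q'.2 = m * q.2 + m := by rw [h2, mul_add, mul_one]
  have e' : m * (q.2 + 1) = m * q.2 + m := by rw [mul_add, mul_one]
  unfold ce
  rw [h1]
  refine lineV _ _ _ rfl fun t g1 g2 => ?_
  rintro p hp ⟨k1, k2, k3, k4⟩
  simp only at k1 k2 k3 k4
  have e2 : p.1 = q.1 := eq_of hk hm k1 k2 (by omega) (by omega)
  have l1 : p.2 ≤ q.2 + 1 := le_of (m := m) (by omega) (by omega)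
  have l2 : q.2 ≤ p.2 := le_of (m := m) (by omega) (by omega)
  rcases (by omega : p.2 = q.2 ∨ p.2 = q.2 + 1) with h | h
  · exact hq (by rwa [show q = p from Prod.ext e2.symm h.symm])
  · exact hq' (by rwa [show q' = p from Prod.ext (h1.trans e2.symm) (h2.trans h.symm)])

theorem ce_adj (hk : 0 ≤ k) (hm : 2 * k + 1 ≤ m) {q : V} (hq : q ∉ F) {q' : V} (hq' : q' ∉ F)
    (h : Adj q q') : Con (XX m k F) (ce m q) (ce m q') := by
  rcases h with ⟨h1, h2⟩ | ⟨h1, h2⟩ | ⟨h1, h2⟩ | ⟨h1, h2⟩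
  · exact ce_adjH hk hm hq hq' h1 h2
  · exact (ce_adjH hk hm hq' hq (by omega) h2.symm).symm (ce_mem hk hm hq')
  · exact ce_adjV hk hm hq hq' h1 h2
  · exact (ce_adjV hk hm hq' hq h1.symm (by omega)).symm (ce_mem hk hm hq')

theorem ce_con (hk : 0 ≤ k) (hm : 2 * k + 1 ≤ m) {q q' : V} (hq : q ∉ F) (h : Con Fᶜ q q') :
    Con (XX m k F) (ce m q) (ce m q') := by
  induction h with
  | refl => exact Crest.Agent.R158.Sp896.Con.refl _ _
  | @tail a b h1 h2 ih =>
    exact ih.trans (ce_adj hk hm (Crest.Agent.R158.Sp896.Con.mem h1 hq) h2.2 h2.1)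

/-- **the squares far from `U` are edge-connected** -/
theorem con_XX (hk : 0 ≤ k) (hm : 2 * k + 1 ≤ m) (hF : ∀ q ∉ F, ∀ q' ∉ F, Con Fᶜ q q') :
    ∀ x ∈ XX m k F, ∀ y ∈ XX m k F, Con (XX m k F) x y := by
  intro x hx y hy
  have h1 := con_ce hk hm hx
  have h2 := ce_con hk hm (cz_notMem hk hm hx)
    (hF _ (cz_notMem hk hm hx) _ (cz_notMem hk hm hy))
  have h3 := (con_ce hk hm hy).symm hy
  exact (h1.trans h2).trans h3

/-! ### the plane -/

/-- the closed square -/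
def sq (o : ℂ) (h : ℝ) (x : V) : Set ℂ :=
  {z | o.re + h * x.1 ≤ z.re ∧ z.re ≤ o.re + h * (x.1 + 1) ∧ o.im + h * x.2 ≤ z.im ∧
    z.im ≤ o.im + h * (x.2 + 1)}

/-- the exterior: union of the closed squares at sup distance `≥ k` -/
def XC (o : ℂ) (h : ℝ) (m k : ℤ) (F : Set V) : Set ℂ := ⋃ x ∈ XX m k F, sq o h x

variable {o : ℂ} {h : ℝ}

theorem mem_XC {z : ℂ} : z ∈ XC o h m k F ↔ ∃ x ∈ XX m k F, z ∈ sq o h x := by
  unfold XC
  simp only [Set.mem_iUnion, exists_prop]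

theorem convex_sq (o : ℂ) (h : ℝ) (x : V) : Convex ℝ (sq o h x) := by
  have h1 : Convex ℝ {z : ℂ | o.re + h * x.1 ≤ z.re} := convex_halfSpace_re_ge _
  have h2 : Convex ℝ {z : ℂ | z.re ≤ o.re + h * (x.1 + 1)} := convex_halfSpace_re_le _
  have h3 : Convex ℝ {z : ℂ | o.im + h * x.2 ≤ z.im} := convex_halfSpace_im_ge _
  have h4 : Convex ℝ {z : ℂ | z.im ≤ o.im + h * (x.2 + 1)} := convex_halfSpace_im_le _
  exact h1.inter (h2.inter (h3.inter h4))

theorem sq_adj (hh : 0 < h) {x y : V} (hxy : Adj x y) : (sq o h x ∩ sq o h y).Nonempty := by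
  obtain ⟨x1, x2⟩ := x
  obtain ⟨y1, y2⟩ := y
  rcases hxy with ⟨h1, h2⟩ | ⟨h1, h2⟩ | ⟨h1, h2⟩ | ⟨h1, h2⟩ <;> simp only at h1 h2
  · have c1 : (y1 : ℝ) = x1 + 1 := by exact_mod_cast h1
    have c2 : (y2 : ℝ) = x2 := by exact_mod_cast h2
    refine ⟨⟨o.re + h * (x1 + 1), o.im + h * x2⟩, ?_, ?_⟩ <;>
      simp only [sq, Set.mem_ofPred_eq, c1, c2] <;> refine ⟨?_, ?_, ?_, ?_⟩ <;> nlinarith
  · have c1 : (y1 : ℝ) = x1 - 1 := by exact_mod_cast h1
    have c2 : (y2 : ℝ) = x2 := by exact_mod_cast h2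
    refine ⟨⟨o.re + h * x1, o.im + h * x2⟩, ?_, ?_⟩ <;>
      simp only [sq, Set.mem_ofPred_eq, c1, c2] <;> refine ⟨?_, ?_, ?_, ?_⟩ <;> nlinarith
  · have c1 : (y1 : ℝ) = x1 := by exact_mod_cast h1
    have c2 : (y2 : ℝ) = x2 + 1 := by exact_mod_cast h2
    refine ⟨⟨o.re + h * x1, o.im + h * (x2 + 1)⟩, ?_, ?_⟩ <;>
      simp only [sq, Set.mem_ofPred_eq, c1, c2] <;> refine ⟨?_, ?_, ?_, ?_⟩ <;> nlinarith
  · have c1 : (y1 : ℝ) = x1 := by exact_mod_cast h1
    have c2 : (y2 : ℝ) = x2 - 1 := by exact_mod_cast h2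
    refine ⟨⟨o.re + h * x1, o.im + h * x2⟩, ?_, ?_⟩ <;>
      simp only [sq, Set.mem_ofPred_eq, c1, c2] <;> refine ⟨?_, ?_, ?_, ?_⟩ <;> nlinarith

theorem rel_of_con (hh : 0 < h) {X : Set V} {x y : V} (hx : x ∈ X) (hc : Con X x y) :
    Relation.ReflTransGen (fun i j => (sq o h i ∩ sq o h j).Nonempty ∧ i ∈ X) x y := by
  induction hc with
  | refl => exact Relation.ReflTransGen.refl
  | @tail a b h1 h2 ih =>
    exact ih.tail ⟨sq_adj hh h2.1, Crest.Agent.R158.Sp896.Con.mem h1 hx⟩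

theorem conn_sq (hh : 0 < h) {X : Set V} (hX : ∀ x ∈ X, ∀ y ∈ X, Con X x y) :
    IsPreconnected (⋃ x ∈ X, sq o h x) :=
  IsPreconnected.biUnion_of_reflTransGen (fun x _ => (convex_sq o h x).isPreconnected)
    fun x hx y hy => rel_of_con hh hx (hX x hx y hy)

/-- **the exterior is connected** -/
theorem conn_XC (hh : 0 < h) (hk : 0 ≤ k) (hm : 2 * k + 1 ≤ m)
    (hF : ∀ q ∉ F, ∀ q' ∉ F, Con Fᶜ q q') :
    IsPreconnected (XC o h m k F) := conn_sq hh (con_XX hk hm hF)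

theorem exists_sq (hh : 0 < h) (o z : ℂ) : ∃ x : V, z ∈ sq o h x := by
  refine ⟨(⌊(z.re - o.re) / h⌋, ⌊(z.im - o.im) / h⌋), ?_⟩
  have a1 := Int.floor_le ((z.re - o.re) / h)
  have a2 := Int.lt_floor_add_one ((z.re - o.re) / h)
  have a3 := Int.floor_le ((z.im - o.im) / h)
  have a4 := Int.lt_floor_add_one ((z.im - o.im) / h)
  rw [le_div_iff₀ hh] at a1 a3
  rw [div_lt_iff₀ hh] at a2 a4
  simp only [sq, Set.mem_ofPred_eq]
  refine ⟨?_, ?_, ?_, ?_⟩ <;> linarith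

/-- points at sup distance `≥ r` from the coarse squares of `F` (side `H`, origin `o`) -/
def Fa (o : ℂ) (H : ℝ) (F : Set V) (r : ℝ) : Set ℂ :=
  {z | ∀ q ∈ F, ¬ (o.re + H * q.1 - r < z.re ∧ z.re < o.re + H * (q.1 + 1) + r ∧
    o.im + H * q.2 - r < z.im ∧ z.im < o.im + H * (q.2 + 1) + r)}

/-- points at sup distance `> r` -/
def FaS (o : ℂ) (H : ℝ) (F : Set V) (r : ℝ) : Set ℂ :=
  {z | ∀ q ∈ F, ¬ (o.re + H * q.1 - r ≤ z.re ∧ z.re ≤ o.re + H * (q.1 + 1) + r ∧
    o.im + H * q.2 - r ≤ z.im ∧ z.im ≤ o.im + H * (q.2 + 1) + r)}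

/-- points of the exterior are far -/
theorem XC_sub (hh : 0 < h) : XC o h m k F ⊆ Fa o (m * h) F (k * h) := by
  rintro z hz q hq ⟨h1, h2, h3, h4⟩
  obtain ⟨x, hx, g1, g2, g3, g4⟩ := mem_XC.1 hz
  refine hx q hq ?_
  have key : ∀ a b : ℝ, h * a < h * b → a < b := fun a b hab => lt_of_mul_lt_mul_left hab hh.le
  have k1 : (m * q.1 - k : ℝ) < x.1 + 1 := key _ _ (by nlinarith)
  have k2 : (x.1 : ℝ) < m * q.1 + m + k := key _ _ (by nlinarith)
  have k3 : (m * q.2 - k : ℝ) < x.2 + 1 := key _ _ (by nlinarith)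
  have k4 : (x.2 : ℝ) < m * q.2 + m + k := key _ _ (by nlinarith)
  have l1 : m * q.1 - k < x.1 + 1 := by exact_mod_cast k1
  have l2 : x.1 < m * q.1 + m + k := by exact_mod_cast k2
  have l3 : m * q.2 - k < x.2 + 1 := by exact_mod_cast k3
  have l4 : x.2 < m * q.2 + m + k := by exact_mod_cast k4
  refine ⟨?_, ?_, ?_, ?_⟩ <;> omega

/-- points far away are in the exterior -/
theorem sub_XC (hh : 0 < h) : FaS o (m * h) F (k * h) ⊆ XC o h m k F := by
  intro z hz
  have a1 := Int.floor_le ((z.re - o.re) / h)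
  have a2 := Int.lt_floor_add_one ((z.re - o.re) / h)
  have a3 := Int.floor_le ((z.im - o.im) / h)
  have a4 := Int.lt_floor_add_one ((z.im - o.im) / h)
  rw [le_div_iff₀ hh] at a1 a3
  rw [div_lt_iff₀ hh] at a2 a4
  set x1 := ⌊(z.re - o.re) / h⌋ with hx1
  set x2 := ⌊(z.im - o.im) / h⌋ with hx2
  refine mem_XC.2 ⟨(x1, x2), ?_, ?_⟩
  · rintro q hq ⟨g1, g2, g3, g4⟩
    simp only at g1 g2 g3 g4
    have k1 : (m * q.1 - k : ℝ) ≤ x1 := by exact_mod_cast g1
    have k2 : (x1 : ℝ) ≤ m * q.1 + m + k - 1 := by exact_mod_cast g2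
    have k3 : (m * q.2 - k : ℝ) ≤ x2 := by exact_mod_cast g3
    have k4 : (x2 : ℝ) ≤ m * q.2 + m + k - 1 := by exact_mod_cast g4
    refine hz q hq ⟨?_, ?_, ?_, ?_⟩ <;> nlinarith
  · simp only [sq, Set.mem_ofPred_eq]
    refine ⟨?_, ?_, ?_, ?_⟩ <;> linarith

/-- a point near a far point is far -/
theorem Fa_near {H r e : ℝ} {x z : ℂ} (hz : z ∈ Fa o H F r) (hx : ‖x - z‖ ≤ e) :
    x ∈ Fa o H F (r - e) := by
  rintro q hq ⟨h1, h2, h3, h4⟩
  have g1 := (Complex.abs_re_le_norm (x - z)).trans hx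
  have g2 := (Complex.abs_im_le_norm (x - z)).trans hx
  rw [Complex.sub_re, abs_le] at g1
  rw [Complex.sub_im, abs_le] at g2
  exact hz q hq ⟨by linarith [g1.1], by linarith [g1.2], by linarith [g2.1], by linarith [g2.2]⟩

/-! ### sites -/

open Crest.ProbabilityR.Voronoi
open Crest.Agent.R143.B0x346 Crest.Agent.R143.DelGx806 Crest.Agent.R143.DelRx806
  Crest.Agent.R143.DomAx722 Crest.Agent.R143.JColx54 Crest.Agent.R143.RE0x723
  Crest.Agent.R143.REwx838

/-- hull sites are at distance `≥ L - 2 d` from the centre -/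
theorem hull_rad {T : Finset ℂ} {c : ℂ} {L d : ℝ} (hD : Dns T c L d) {a b : ℂ} (h : hullE T a b) :
    L - 2 * d ≤ ‖a - c‖ := by
  have h1 := edge_dist hD h
  have h2 : 0 < ‖b - a‖ := norm_pos_iff.2 (sub_ne_zero.2 (hullE.ne h).symm)
  have h3 := cr_le (b - a) (c - a)
  rw [norm_sub_rev c a] at h3
  have h4 : (L - 2 * d) * ‖b - a‖ ≤ ‖a - c‖ * ‖b - a‖ := by linarith [mul_comm ‖b - a‖ ‖a - c‖]
  exact le_of_mul_le_mul_right h4 h2

theorem hull_rad' {T : Finset ℂ} {c : ℂ} {L d : ℝ} (hD : Dns T c L d) {a b : ℂ} (h : hullE T a b) :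
    L - 2 * d ≤ ‖b - c‖ := by
  have h1 := edge_dist hD h
  have h2 : 0 < ‖b - a‖ := norm_pos_iff.2 (sub_ne_zero.2 (hullE.ne h).symm)
  have h3 := cr_le (b - a) (c - b)
  have h5 : cr (b - a) (c - a) = cr (b - a) (c - b) := by
    have : c - a = (c - b) + (b - a) := by ring
    rw [this, cr_add_right, cr_self, add_zero]
  rw [h5] at h1
  rw [norm_sub_rev c b] at h3
  have h4 : (L - 2 * d) * ‖b - a‖ ≤ ‖b - c‖ * ‖b - a‖ := by linarith [mul_comm ‖b - a‖ ‖b - c‖]
  exact le_of_mul_le_mul_right h4 h2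

/-- a site whose cell contains a point outside the disc is close to the boundary of the disc -/
theorem cell_out {T : Finset ℂ} {c : ℂ} {L d : ℝ} (hD : Dns T c L d) {z s : ℂ}
    (hz : L < ‖z - c‖) (hs : z ∈ voronoiCell (T : Set ℂ) s) : L - 2 * d ≤ ‖s - c‖ := by
  have hd := hD.dpos
  have hL := hD.dL
  have hp : 0 < ‖z - c‖ := by linarith
  set z' : ℂ := c + ((((L - d) / ‖z - c‖ : ℝ)) : ℂ) * (z - c) with hz'
  have e1 : ‖z' - c‖ = L - d := by
    rw [hz', add_sub_cancel_left, norm_mul, Complex.norm_real, Real.norm_eq_abs, abs_of_nonneg]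
    · field_simp
    · have : 0 ≤ L - d := by linarith
      positivity
  have e2 : ‖z' - z‖ = ‖z - c‖ - (L - d) := by
    have : z' - z = ((-(1 - (L - d) / ‖z - c‖) : ℝ) : ℂ) * (z - c) := by
      rw [hz']
      push_cast
      ring
    rw [this, norm_mul, Complex.norm_real, Real.norm_eq_abs, abs_neg, abs_of_nonneg]
    · field_simp
    · rw [sub_nonneg, div_le_one hp]
      linarith
  obtain ⟨t, ht, h1⟩ := hD.hole z' (by rw [e1])
  have g1 := hs t (Finset.mem_coe.2 ht)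
  have g2 := norm_add_le (t - z') (z' - z)
  rw [sub_add_sub_cancel] at g2
  rw [norm_sub_rev z t] at g1
  have g3 := norm_add_le (z - s) (s - c)
  rw [sub_add_sub_cancel] at g3
  linarith

/-- **(XC), site version**: sites whose cells meet a connected set containing everything near the
boundary of the disc are joined by sites at distance `< 2 d` from the set -/
theorem join_out' {T : Finset ℂ} {c : ℂ} {L d : ℝ} (hD : Dns T c L d) {C : Set ℂ}
    (hC : IsPreconnected C) (hout : ∀ z, L - 2 * d ≤ ‖z - c‖ → z ∈ C) {s t : ℂ} (hs : s ∈ T)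
    (ht : t ∈ T) (h1 : (C ∩ voronoiCell (T : Set ℂ) s).Nonempty)
    (h2 : (C ∩ voronoiCell (T : Set ℂ) t).Nonempty) :
    Pth T {x | x ∈ T ∧ ∃ z ∈ C, ‖x - z‖ < 2 * d} s t := by
  obtain ⟨z1, a1, b1⟩ := h1
  obtain ⟨z2, a2, b2⟩ := h2
  have hd := hD.dpos
  refine pth_of_set hD.gp hD.card hC hs ht ⟨a1, b1⟩ ⟨a2, b2⟩ ?_
  rintro x hx ⟨z, hz, hzx⟩
  by_cases h : ‖z - c‖ ≤ L
  · exact ⟨hx, z, hz, cell_near hD h hzx⟩
  · push Not at h
    exact ⟨hx, x, hout x (cell_out hD h hzx), by rw [sub_self, norm_zero]; linarith⟩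

/-- the same with `L / 2` -/
theorem join_out {T : Finset ℂ} {c : ℂ} {L d : ℝ} (hD : Dns T c L d) {C : Set ℂ}
    (hC : IsPreconnected C) (hout : ∀ z, L / 2 ≤ ‖z - c‖ → z ∈ C) {s t : ℂ} (hs : s ∈ T)
    (ht : t ∈ T) (h1 : (C ∩ voronoiCell (T : Set ℂ) s).Nonempty)
    (h2 : (C ∩ voronoiCell (T : Set ℂ) t).Nonempty) :
    Pth T {x | x ∈ T ∧ ∃ z ∈ C, ‖x - z‖ < 2 * d} s t :=
  join_out' hD hC (fun z hz => hout z (by linarith [hD.dpos, hD.dL])) hs ht h1 h2

/-- **(XC)**: every site at sup distance `> k h` from the polygon is joined to every hull site by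
sites at sup distance `≥ k h - 2 d` from the polygon -/
theorem xc {T : Finset ℂ} {c : ℂ} {L d : ℝ} (hD : Dns T c L d) (hh : 0 < h) (hk : 0 ≤ k)
    (hm : 2 * k + 1 ≤ m) (hF : ∀ q ∉ F, ∀ q' ∉ F, Con Fᶜ q q')
    (hin : ∀ z, L / 2 ≤ ‖z - c‖ → z ∈ FaS o (m * h) F (k * h)) {s a b : ℂ} (hs : s ∈ T)
    (hsC : s ∈ FaS o (m * h) F (k * h)) (hab : hullE T a b) :
    Pth T {x | x ∈ T ∧ x ∈ Fa o (m * h) F (k * h - 2 * d)} s a ∧
      Pth T {x | x ∈ T ∧ x ∈ Fa o (m * h) F (k * h - 2 * d)} s b := by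
  have hd := hD.dpos
  have hL := hD.dL
  have hout : ∀ z, L / 2 ≤ ‖z - c‖ → z ∈ XC o h m k F := fun z hz => sub_XC hh (hin z hz)
  obtain ⟨e, he⟩ := hab.1
  obtain ⟨w, hw⟩ := mem_delT_iff.1 he
  have hV : {x | x ∈ T ∧ ∃ z ∈ XC o h m k F, ‖x - z‖ < 2 * d} ⊆
      {x | x ∈ T ∧ x ∈ Fa o (m * h) F (k * h - 2 * d)} := by
    rintro x ⟨h1, z, h2, h3⟩
    exact ⟨h1, Fa_near (XC_sub hh h2) h3.le⟩
  constructor
  · refine (join_out hD (conn_XC hh hk hm hF) hout hs hw.ma ⟨s, sub_XC hh hsC, self_cell s⟩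
      ⟨a, hout a ?_, self_cell a⟩).mono hV
    have := hull_rad hD hab
    linarith
  · refine (join_out hD (conn_XC hh hk hm hF) hout hs hw.mb ⟨s, sub_XC hh hsC, self_cell s⟩
      ⟨b, hout b ?_, self_cell b⟩).mono hV
    have := hull_rad' hD hab
    linarith

/-- the same for a set of bricks (478) with connected complement, coarse side `m h` -/
theorem xc_brick {T : Finset ℂ} {c : ℂ} {L d : ℝ} (hD : Dns T c L d) (hh : 0 < h) (hk : 0 ≤ k)
    (hm : 2 * k + 1 ≤ m) {U : Set Crest.Agent.R143.Brkx478.Bk}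
    (hU : Crest.Agent.R143.Brkx478.Conn Uᶜ)
    (hin : ∀ z, L / 2 ≤ ‖z - c‖ →
      z ∈ FaS o (m * h) (Crest.Agent.R143.Brkx478.cells U) (k * h)) {s a b : ℂ} (hs : s ∈ T)
    (hsC : s ∈ FaS o (m * h) (Crest.Agent.R143.Brkx478.cells U) (k * h)) (hab : hullE T a b) :
    Pth T {x | x ∈ T ∧ x ∈ Fa o (m * h) (Crest.Agent.R143.Brkx478.cells U) (k * h - 2 * d)} s a ∧
      Pth T {x | x ∈ T ∧
        x ∈ Fa o (m * h) (Crest.Agent.R143.Brkx478.cells U) (k * h - 2 * d)} s b := by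
  refine xc hD hh hk hm ?_ hin hs hsC hab
  intro q hq q' hq'
  rw [← Crest.Agent.R143.Brkx478.cells_compl]
  exact Crest.Agent.R143.Brkx478.con_cells hU q hq q' hq'

end Crest.Agent.R143.Xcx372
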