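import Crest.Agent.R143.EnvH_653
import Crest.Agent.R143.EnvU_503
import Crest.Agent.R143.LayU_416
import Crest.Agent.R143.Xc_372
import Crest.Agent.R143.MeasQ_609

/-!
# Row 143 (S0194), RIG: the environment of one frozen polygon `u : Poly` (helper133)

* `Rp u` : `u.P ⊆ closedBall 0 (Rp u)`, `1 ≤ Rp u`; `RU u = 2 Rp u + 8` : radius of the disc of the
  sites; `UU u = closedBall 0 (Rp u + 4)` : the region `U` of the corridor; `SU u ε ω` : the sites
* **`CorEnv u ε d K1 c2 ρ0 ω`** : good environment; `gpS`, `dns`, `hol`, `envr`, `card`, `inn`,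
  `hull_far`, `nva`, `mono` (in `d`)
* `LayU` : tile regions in the disc `Rp u + 3 h`, `fat`
* `fas` : far points are far from the cells; `xcU` : sites outside are joined to the hull
* **`cor_env`**, **`cor_env_sqrt`** : the environment is good with probability `≥ 1 - ε ^ A`
-/

set_option autoImplicit false

noncomputable section

open scoped Classical ENNReal

namespace Crest.Agent.R143.CorEx133

open MeasureTheory Set Filter Topology
open Crest.ProbabilityR.Voronoi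
open Crest.Agent.R143.B0x346 Crest.Agent.R143.B0Dx346 Crest.Agent.R143.DelGx806
open Crest.Agent.R143.Locx922 Crest.Agent.R143.PP1x831 Crest.Agent.R143.B6Ix903
open Crest.Agent.R143.Circx63
open Crest.Agent.R143.RB0x838 (LDns Mesh)
open Crest.Agent.R143.RBmx838 (MeshA NvA)
open Crest.Agent.R143.EnvHx653
open Crest.Agent.R143.Dbl2x609 (Ap coe_Ap finite_points)
open Crest.Agent.R143.PolyUx346 Crest.Agent.R143.LayUx416
open Crest.Agent.R143.DomAx722 (Dns gp_mono)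
open Crest.Agent.R143.RingPx503 (Envr)
open Crest.Agent.R143.Frame10x395 (OnHull)
open Crest.Agent.R143.TileRx228 (FPath cen gz ge RR)
open Crest.Agent.R143.Brkx478 (Bk cells)
open Crest.Agent.R143.RE0x723 (Pth)

/-! ### the discs of a polygon -/

section rad

variable (u : Poly)

theorem exists_Rp : ∃ R : ℝ, 1 ≤ R ∧ u.P ⊆ Metric.closedBall 0 R := by
  obtain ⟨R, hR⟩ := (MeasPx609.isCompact_P u).isBounded.subset_closedBall 0
  exact ⟨max R 1, le_max_right _ _,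
    hR.trans (Metric.closedBall_subset_closedBall (le_max_left _ _))⟩

/-- radius of a disc which contains the polygon -/
def Rp : ℝ := (exists_Rp u).choose

theorem one_le_Rp : 1 ≤ Rp u := (exists_Rp u).choose_spec.1

theorem P_sub : u.P ⊆ Metric.closedBall 0 (Rp u) := (exists_Rp u).choose_spec.2

/-- radius of the disc of the sites -/
def RU : ℝ := 2 * Rp u + 8

/-- the region of the corridor -/
def UU : Set ℂ := Metric.closedBall 0 (Rp u + 4)

/-- the sites -/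
def SU (ε : ℝ) (ω : Sample) : Finset ℂ := Ap ε (Metric.closedBall 0 (RU u)) ω

theorem RU_ge : 10 ≤ RU u := by
  have := one_le_Rp u
  unfold RU
  linarith

theorem P_norm {z : ℂ} (hz : z ∈ u.P) : ‖z‖ ≤ Rp u := mem_closedBall_zero_iff.1 (P_sub u hz)

theorem P_sub_UU : u.P ⊆ UU u := (P_sub u).trans (Metric.closedBall_subset_closedBall (by linarith))

theorem s_le : u.s ≤ 1 := pow_le_one₀ (by norm_num) (by norm_num)

variable {u} {ε : ℝ} {ω : Sample}

theorem mem_UU {z : ℂ} : z ∈ UU u ↔ ‖z‖ ≤ Rp u + 4 := mem_closedBall_zero_iff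

theorem coe_SU (hε : 0 < ε) :
    (SU u ε ω : Set ℂ) = points ε ω ∩ Metric.closedBall 0 (RU u) :=
  coe_Ap hε Metric.isBounded_closedBall ω

theorem mem_SU (hε : 0 < ε) {s : ℂ} : s ∈ SU u ε ω ↔ s ∈ points ε ω ∧ ‖s‖ ≤ RU u := by
  rw [← Finset.mem_coe, coe_SU hε, mem_inter_iff, mem_closedBall_zero_iff]

end rad

/-! ### density in a disc -/

section dns

variable {S : Finset ℂ} {R d : ℝ}

theorem hol_of_dns (hD : Dns S 0 R d) : Hol (S : Set ℂ) (Metric.closedBall 0 (R - 2 * d)) d := by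
  intro w hw z hz
  rw [mem_closedBall_zero_iff] at hw
  obtain ⟨s, hs, h⟩ := hD.hole z (by
    rw [sub_zero]
    have := norm_add_le (z - w) w
    rw [sub_add_cancel] at this
    linarith)
  exact ⟨s, Finset.mem_coe.2 hs, h⟩

/-- a deep site has short edges and no hull edge -/
theorem deep_edge (hD : Dns S 0 R d) {v w : ℂ} (hv : ‖v‖ ≤ R - 2 * d) {c : ℂ}
    (h : (v, w, c) ∈ delT S) : ‖v - w‖ < 2 * d ∧ ‖w - c‖ < 2 * d ∧ ‖c - v‖ < 2 * d :=
  del_side hD.dpos (hol_of_dns hD) (mem_closedBall_zero_iff.2 hv) (inD_self v w c)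
    (DelGx806.mem_delT.1 h)

/-- hull sites are far -/
theorem hull_far (hD : Dns S 0 R d) {s : ℂ} (h : OnHull S s) : R - 2 * d ≤ ‖s‖ := by
  obtain ⟨a, ha⟩ := h
  have := Xcx372.hull_rad' hD ha
  rwa [sub_zero] at this

theorem not_hull (hD : Dns S 0 R d) {s : ℂ} (h : ‖s‖ < R - 2 * d) : ¬ OnHull S s := fun h1 =>
  absurd (hull_far hD h1) (not_le.2 h)

end dns

/-! ### the environment -/

/-- **good environment of the polygon `u`** : density at the scale `d`, mesh bounds at all scales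
`≥ ρ0` -/
structure CorEnv (u : Poly) (ε d K1 c2 ρ0 : ℝ) (ω : Sample) : Prop where
  e0 : 0 < ε
  d0 : 0 < d
  d1 : d ≤ 1 / 100
  gp : GP (points ε ω)
  hole : ∀ z : ℂ, ‖z‖ ≤ RU u + 2 → ∃ s ∈ points ε ω, ‖s - z‖ < d
  env : EnvH (RU u + 3) ε d K1 c2 ρ0 ω

namespace CorEnv

variable {u : Poly} {ε d K1 c2 ρ0 : ℝ} {ω : Sample}

/-- general position for every finite set of points of the sample -/
theorem gp_of (C : CorEnv u ε d K1 c2 ρ0 ω) {S : Set ℂ} (hS : S ⊆ points ε ω) : GP S :=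
  gp_mono hS C.gp

theorem gpS (C : CorEnv u ε d K1 c2 ρ0 ω) : GP (SU u ε ω : Set ℂ) :=
  C.gp_of (by rw [coe_SU C.e0]; exact inter_subset_left)

/-- density of the points of a disc -/
theorem dnsR (C : CorEnv u ε d K1 c2 ρ0 ω) {R : ℝ} (h1 : 8 * d ≤ R) (h2 : R ≤ RU u + 2) :
    Dns (Ap ε (Metric.closedBall 0 R) ω) 0 R d where
  gp := C.gp_of (by rw [coe_Ap C.e0 Metric.isBounded_closedBall]; exact inter_subset_left)
  dpos := C.d0
  dL := h1
  sub s hs := by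
    rw [← Finset.mem_coe, coe_Ap C.e0 Metric.isBounded_closedBall] at hs
    rw [sub_zero]
    exact mem_closedBall_zero_iff.1 hs.2
  hole z hz := by
    rw [sub_zero] at hz
    obtain ⟨s, hs, h⟩ := C.hole z (by linarith [C.d0])
    refine ⟨s, ?_, h⟩
    rw [← Finset.mem_coe, coe_Ap C.e0 Metric.isBounded_closedBall]
    refine ⟨hs, mem_closedBall_zero_iff.2 ?_⟩
    have := norm_add_le (s - z) z
    rw [sub_add_cancel] at this
    linarith

theorem dns (C : CorEnv u ε d K1 c2 ρ0 ω) : Dns (SU u ε ω) 0 (RU u) d :=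
  C.dnsR (by linarith [C.d1, RU_ge u]) (by linarith)

/-- holes of the full sample -/
theorem holP (C : CorEnv u ε d K1 c2 ρ0 ω) :
    Hol (points ε ω) (Metric.closedBall 0 (RU u + 1)) d := by
  intro w hw z hz
  rw [mem_closedBall_zero_iff] at hw
  refine C.hole z ?_
  have := norm_add_le (z - w) w
  rw [sub_add_cancel] at this
  linarith [C.d1]

/-- the sites are the points of the sample near the disc `RU - 1` -/
theorem agr (C : CorEnv u ε d K1 c2 ρ0 ω) {r : ℝ} (hr : r ≤ 1) :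
    Agr (points ε ω) (SU u ε ω : Set ℂ) (Metric.closedBall 0 (RU u - 1)) r := by
  intro w hw s hs
  rw [mem_closedBall_zero_iff] at hw
  rw [Finset.mem_coe, mem_SU C.e0]
  refine ⟨fun h => ⟨h, ?_⟩, fun h => h.1⟩
  have := norm_add_le (s - w) w
  rw [sub_add_cancel] at this
  linarith

theorem holD (C : CorEnv u ε d K1 c2 ρ0 ω) :
    Hol (SU u ε ω : Set ℂ) (Metric.closedBall 0 (RU u - 2 * d)) d := hol_of_dns C.dns

/-- **density in the region `UU`** -/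
theorem hol (C : CorEnv u ε d K1 c2 ρ0 ω) : Hol (SU u ε ω : Set ℂ) (UU u) d := by
  refine C.holD.mono (Metric.closedBall_subset_closedBall ?_)
  have := one_le_Rp u
  have := C.d1
  unfold RU
  linarith

/-- **503's environment** -/
theorem envr (C : CorEnv u ε d K1 c2 ρ0 ω) : Envr (SU u ε ω) (UU u) (2 * d) :=
  EnvUx503.envr_of C.gpS C.d0 C.hol

theorem envrD (C : CorEnv u ε d K1 c2 ρ0 ω) :
    Envr (SU u ε ω) (Metric.closedBall 0 (RU u - 2 * d)) (2 * d) :=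
  EnvUx503.envr_of C.gpS C.d0 C.holD

theorem zero_mem (u : Poly) : (0 : ℂ) ∈ UU u := by
  rw [mem_UU, norm_zero]
  linarith [one_le_Rp u]

theorem card (C : CorEnv u ε d K1 c2 ρ0 ω) : 3 ≤ (SU u ε ω).card :=
  three_le C.d0 C.hol (zero_mem u)

/-- hull sites have norm at least `RU u - 2 d` -/
theorem hull_far (C : CorEnv u ε d K1 c2 ρ0 ω) {s : ℂ} (h : OnHull (SU u ε ω) s) :
    RU u - 2 * d ≤ ‖s‖ := CorEx133.hull_far C.dns h

/-- no hull site in `UU` -/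
theorem inn (C : CorEnv u ε d K1 c2 ρ0 ω) {s : ℂ} (h : s ∈ UU u) : ¬ OnHull (SU u ε ω) s := by
  refine CorEx133.not_hull C.dns ?_
  rw [mem_UU] at h
  have := one_le_Rp u
  have := C.d1
  unfold RU
  linarith

/-- no hull site in the polygon -/
theorem innP (C : CorEnv u ε d K1 c2 ρ0 ω) {s : ℂ} (h : s ∈ u.P) : ¬ OnHull (SU u ε ω) s :=
  C.inn (P_sub_UU u h)

/-- **conditional estimates at all places and scales** -/
theorem nva (C : CorEnv u ε d K1 c2 ρ0 ω) {z0 : ℂ} {ρ : ℝ} (h1 : ρ0 ≤ ρ) (h2 : 2 * ρ ≤ 1)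
    (h3 : ‖z0‖ + (K1 + 1) * ρ + 2 * d ≤ RU u) :
    NvA (SU u ε ω) z0 (K1 * ρ) c2 ρ d Cab := by
  refine C.env _ z0 ρ C.gpS h1 h2 (by linarith) fun s hs => ?_
  rw [mem_SU C.e0]
  refine ⟨fun h => ⟨h, ?_⟩, fun h => h.1⟩
  have := norm_add_le (s - z0) z0
  rw [sub_add_cancel] at this
  linarith

/-- the same for every finite set which agrees with the sample near the place -/
theorem nvaS (C : CorEnv u ε d K1 c2 ρ0 ω) {S : Finset ℂ} {z0 : ℂ} {ρ : ℝ} (hS : GP (S : Set ℂ))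
    (h1 : ρ0 ≤ ρ) (h2 : 2 * ρ ≤ 1) (h3 : ‖z0‖ + (K1 + 1) * ρ + 2 * d ≤ RU u + 3)
    (hA : ∀ s : ℂ, ‖s - z0‖ ≤ (K1 + 1) * ρ + 2 * d → (s ∈ points ε ω ↔ s ∈ S)) :
    NvA S z0 (K1 * ρ) c2 ρ d Cab :=
  C.env S z0 ρ hS h1 h2 h3 hA

end CorEnv

/-! ### monotonicity in the density -/

theorem nvA_d {S : Finset ℂ} {z0 : ℂ} {R c ρ d d' C4 : ℝ} (h : NvA S z0 R c ρ d C4)
    (hd : d ≤ d') : NvA S z0 R c ρ d' C4 :=
  ⟨⟨h.dns.gp, h.dns.dpos.trans_le hd, fun z hz => by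
    obtain ⟨s, hs, h1⟩ := h.dns.hole z hz
    exact ⟨s, hs, h1.trans_le hd⟩⟩, h.mesh⟩

theorem envH_d {R0 ε d d' K1 c2 ρ0 : ℝ} {ω : Sample} (h : EnvH R0 ε d K1 c2 ρ0 ω)
    (hd : d ≤ d') : EnvH R0 ε d' K1 c2 ρ0 ω := fun S z0 ρ h1 h2 h3 h4 h5 =>
  nvA_d (h S z0 ρ h1 h2 h3 (by linarith) fun s hs => h5 s (by linarith)) hd

/-- smaller scales imply larger scales, smaller constants -/
theorem envH_mono {R0 R0' ε d K1 c2 c2' ρ0 ρ0' : ℝ} {ω : Sample} (h : EnvH R0 ε d K1 c2 ρ0 ω)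
    (hR : R0' ≤ R0) (hρ : ρ0 ≤ ρ0') (h0 : 0 ≤ ρ0) (hc : c2 ≤ c2') :
    EnvH R0' ε d K1 c2' ρ0' ω := fun S z0 ρ h1 h2 h3 h4 h5 =>
  nvA_mono (h S z0 ρ h1 (hρ.trans h2) h3 (by linarith) h5) le_rfl (h0.trans (hρ.trans h2)) hc

theorem CorEnv.mono {u : Poly} {ε d d' K1 c2 ρ0 : ℝ} {ω : Sample} (C : CorEnv u ε d K1 c2 ρ0 ω)
    (hd : d ≤ d') (h1 : d' ≤ 1 / 100) : CorEnv u ε d' K1 c2 ρ0 ω where
  e0 := C.e0
  d0 := C.d0.trans_le hd
  d1 := h1
  gp := C.gp
  hole z hz := by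
    obtain ⟨s, hs, h⟩ := C.hole z hz
    exact ⟨s, hs, h.trans_le hd⟩
  env := envH_d C.env hd

/-! ### probability -/

/-- a good sample gives a good environment -/
theorem cor_of_good {u : Poly} {ε C' K K1 c2 ρ0 : ℝ} {ω : Sample}
    (hG : GoodB (RU u + 3) ε C' K 8 Ca0 ω) (he : 0 < ε) (hd : 0 < rad C' ε)
    (hd1 : rad C' ε ≤ 1 / 100) (hK1 : 0 ≤ K1) (hc2 : 0 < c2) (hρ0 : 0 < ρ0)
    (h1 : ε * Real.log (1 / ε) ^ (8 : ℝ) ≤ 2 * (c2 * ρ0)) (h3 : 2 * rad C' ε ≤ c2 * ρ0) :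
    CorEnv u ε (rad C' ε) K1 c2 ρ0 ω where
  e0 := he
  d0 := hd
  d1 := hd1
  gp := hG.env.gp
  hole z hz := by
    obtain ⟨s, hs, h⟩ := hG.env.hole z (by
      rw [mem_closedBall_zero_iff]
      linarith)
    rw [Metric.mem_ball, dist_eq_norm] at h
    exact ⟨s, hs, h⟩
  env := by
    intro S z0 ρ g1 g2 g3 g4 g5
    have hρ : 0 < ρ := hρ0.trans_le g2
    have e1 : c2 * ρ0 ≤ c2 * ρ := mul_le_mul_of_nonneg_left g2 hc2.le
    exact nva_good hG hd g1 hK1 hc2 hρ (by linarith) g3 (by linarith) g4 g5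

/-- **the environment of a polygon is good with probability `≥ 1 - ε ^ A`** -/
theorem cor_env (u : Poly) (A : ℝ) : ∃ C : ℝ, 0 < C ∧ ∀ K1 c1 c2 ρ0 : ℝ, 0 ≤ K1 → 0 < c1 →
    0 < c2 → 0 < ρ0 → ∀ᶠ ε : ℝ in 𝓝[>] 0, (0 < rad C ε ∧ rad C ε ≤ c1 * ρ0) ∧
      sampleLaw {ω | ¬ CorEnv u ε (rad C ε) K1 c2 ρ0 ω} ≤ ENNReal.ofReal (ε ^ A) := by
  obtain ⟨C, K, hC, hK, hMP⟩ := mgA (RU u + 3) A
  refine ⟨C, hC, fun K1 c1 c2 ρ0 hK1 hc1 hc2 hρ0 => ?_⟩
  unfold MP at hMP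
  have f1 : ∀ᶠ ε : ℝ in 𝓝[>] 0, rad C ε < min (min (c1 * ρ0) (c2 * ρ0 / 2)) (1 / 100) :=
    (DicCx831.rad_small C).eventually_lt_const (by positivity)
  have f2 : ∀ᶠ ε : ℝ in 𝓝[>] 0, ε * Real.log (1 / ε) ^ (8 : ℝ) < 2 * (c2 * ρ0) :=
    log8_small.eventually_lt_const (by positivity)
  have f3 : ∀ᶠ ε : ℝ in 𝓝[>] 0, 0 < ε := eventually_mem_nhdsWithin
  have f4 := PoisM4x501.tendsto_logInv.eventually_ge_atTop 1
  filter_upwards [hMP, f1, f2, f3, f4] with ε h1 h2 h3 h4 h5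
  have hrad : 0 < rad C ε := by
    have hlog : 0 < Real.log (1 / ε) := by linarith
    unfold rad
    positivity
  have h2a := h2.trans_le ((min_le_left _ _).trans (min_le_left _ _))
  have h2b := h2.trans_le ((min_le_left _ _).trans (min_le_right _ _))
  have h2c := h2.trans_le (min_le_right _ _)
  refine ⟨⟨hrad, h2a.le⟩, (measure_mono ?_).trans h1⟩
  intro ω hω hG
  exact hω (cor_of_good hG h4 hrad h2c.le hK1 hc2 hρ0 h3.le (by linarith))

theorem sqrt_small {c : ℝ} (hc : 0 < c) : ∀ᶠ ε : ℝ in 𝓝[>] 0, √ε ≤ c := by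
  have h1 : ∀ᶠ ε : ℝ in 𝓝[>] 0, ε < c ^ 2 :=
    nhdsWithin_le_nhds (eventually_lt_nhds (by positivity))
  filter_upwards [h1] with ε h2
  rw [← Real.sqrt_sq hc.le]
  exact Real.sqrt_le_sqrt h2.le

/-- **the same with the universal scale `√ε`** -/
theorem cor_env_sqrt (u : Poly) (A K1 c1 c2 ρ0 : ℝ) (hK1 : 0 ≤ K1) (hc1 : 0 < c1) (hc2 : 0 < c2)
    (hρ0 : 0 < ρ0) : ∀ᶠ ε : ℝ in 𝓝[>] 0, (0 < √ε ∧ √ε ≤ c1) ∧
      sampleLaw {ω | ¬ CorEnv u ε √ε K1 c2 ρ0 ω} ≤ ENNReal.ofReal (ε ^ A) := by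
  obtain ⟨C, hC, h⟩ := cor_env u A
  have f3 : ∀ᶠ ε : ℝ in 𝓝[>] 0, 0 < ε := eventually_mem_nhdsWithin
  filter_upwards [h K1 1 c2 ρ0 hK1 one_pos hc2 hρ0, MeasQx609.rad_le_sqrt C, sqrt_small hc1,
    sqrt_small (c := 1 / 100) (by norm_num), f3] with ε h1 h2 h4 h5 h6
  refine ⟨⟨Real.sqrt_pos.2 h6, h4⟩, (measure_mono ?_).trans h1.2⟩
  intro ω hω hC'
  exact hω (hC'.mono h2 h5)

/-! ### layout -/

section lay

variable {u : Poly} {m M : ℕ} {p W : ℤ → ℤ × ℤ} {A e : ℤ → ℤ}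

theorem h_le (H : LayU u m M p W A e) {h : ℝ} (hh : (m : ℝ) * h = u.s) : h ≤ 1 / 10 := by
  have h1 := H.m_pos
  have h2 := H.h_pos hh
  have h3 := s_le u
  have h4 : (10 : ℝ) ≤ m := by exact_mod_cast h1
  nlinarith

/-- **tile regions are in the disc of radius `Rp + 3 h`** -/
theorem RR_norm (H : LayU u m M p W A e) {h a' b' : ℝ} (hh : (m : ℝ) * h = u.s) (ha : a' < h)
    (hab : a' ≤ b') (hb : 0 ≤ b') (hbh : b' ≤ h) {a : ℤ} {s : ℂ} (hs : s ∈ RR a' b' h W a) :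
    ‖s‖ ≤ Rp u + 3 * h := by
  obtain ⟨-, -, -, -, h1⟩ := H.RR_dist hh ha hab hb hbh hs
  obtain ⟨y, hy, he⟩ := (MeasPx609.isCompact_P u).exists_infDist_eq_dist (MeasPx609.P_nonempty u) s
  rw [he, dist_eq_norm] at h1
  have h2 := P_norm u hy
  have h3 := norm_add_le (s - y) y
  rw [sub_add_cancel] at h3
  linarith

/-- **the `h`-neighbourhood of the tile regions is in `UU`** -/
theorem fat (H : LayU u m M p W A e) {h a' b' : ℝ} (hh : (m : ℝ) * h = u.s) (ha : a' < h)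
    (hab : a' ≤ b') (hb : 0 ≤ b') (hbh : b' ≤ h) (a : ℤ) {w : ℂ} (hw : w ∈ RR a' b' h W a) {s : ℂ}
    (hs : ‖s - w‖ ≤ h) : s ∈ UU u := by
  have h1 := RR_norm H hh ha hab hb hbh hw
  have h2 := h_le H hh
  have h3 := norm_add_le (s - w) w
  rw [sub_add_cancel] at h3
  rw [mem_UU]
  linarith

/-- field `fat` of `CorH` -/
theorem fat_std (H : LayU u m M p W A e) {η : ℝ} (hh : (m : ℝ) * (100 * η) = u.s) (a : ℤ) (w : ℂ)
    (hw : w ∈ RR (9 * η) (51 * η) (100 * η) W a) (s : ℂ) (hs : ‖s - w‖ ≤ 100 * η) : s ∈ UU u := by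
  have h0 := H.h_pos hh
  exact fat H hh (by linarith) (by linarith) (by linarith) (by linarith) a hw hs

/-- tile regions are in `UU` -/
theorem RR_sub (H : LayU u m M p W A e) {h a' b' : ℝ} (hh : (m : ℝ) * h = u.s) (ha : a' < h)
    (hab : a' ≤ b') (hb : 0 ≤ b') (hbh : b' ≤ h) (a : ℤ) : RR a' b' h W a ⊆ UU u := fun s hs =>
  fat H hh ha hab hb hbh a hs (by rw [sub_self, norm_zero]; exact (H.h_pos hh).le)

/-- tile regions are off the polygon -/
theorem RR_off (H : LayU u m M p W A e) {h a' b' : ℝ} (hh : (m : ℝ) * h = u.s) (ha : a' < h)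
    (hab : a' ≤ b') (hb : 0 ≤ b') (hbh : b' ≤ h) (a : ℤ) : Disjoint (RR a' b' h W a) u.P :=
  Set.disjoint_left.2 fun _ hs => (H.RR_dist hh ha hab hb hbh hs).1

/-- **far points are far from the cells** (`hin` of 372's `xc`, `L = RU`) -/
theorem fas {r : ℝ} (hr : r ≤ 1) {z : ℂ} (hz : Rp u + 4 ≤ ‖z‖) :
    z ∈ Xcx372.FaS 0 u.s (cells (u.U : Set Bk)) r := by
  rintro q hq ⟨h1, h2, h3, h4⟩
  simp only [Complex.zero_re, Complex.zero_im, zero_add] at h1 h2 h3 h4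
  have hs := u.s_pos
  set x : ℝ := max (u.s * q.1) (min z.re (u.s * (q.1 + 1))) with hx
  set y : ℝ := max (u.s * q.2) (min z.im (u.s * (q.2 + 1))) with hy
  have hP : (⟨x, y⟩ : ℂ) ∈ u.P := by
    refine mem_biUnion hq ?_
    refine ⟨le_max_left _ _, max_le (by nlinarith) (min_le_right _ _), le_max_left _ _,
      max_le (by nlinarith) (min_le_right _ _)⟩
  have h5 := P_norm u hP
  have k1 : |z.re - x| ≤ 1 := by
    rw [abs_le, hx]
    constructor
    · rcases le_total (u.s * q.1) (min z.re (u.s * (q.1 + 1))) with h | h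
      · rw [max_eq_right h]
        have := min_le_left z.re (u.s * (q.1 + 1))
        linarith
      · rw [max_eq_left h]
        linarith
    · rcases le_total z.re (u.s * (q.1 + 1)) with h | h
      · rw [min_eq_left h]
        have := le_max_right (u.s * (q.1 : ℝ)) z.re
        linarith
      · rw [min_eq_right h]
        have := le_max_right (u.s * (q.1 : ℝ)) (u.s * (q.1 + 1))
        linarith
  have k2 : |z.im - y| ≤ 1 := by
    rw [abs_le, hy]
    constructor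
    · rcases le_total (u.s * q.2) (min z.im (u.s * (q.2 + 1))) with h | h
      · rw [max_eq_right h]
        have := min_le_left z.im (u.s * (q.2 + 1))
        linarith
      · rw [max_eq_left h]
        linarith
    · rcases le_total z.im (u.s * (q.2 + 1)) with h | h
      · rw [min_eq_left h]
        have := le_max_right (u.s * (q.2 : ℝ)) z.im
        linarith
      · rw [min_eq_right h]
        have := le_max_right (u.s * (q.2 : ℝ)) (u.s * (q.2 + 1))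
        linarith
  have h6 : ‖z - ⟨x, y⟩‖ ≤ |z.re - x| + |z.im - y| := Complex.norm_le_abs_re_add_abs_im _
  have h7 := norm_add_le (z - ⟨x, y⟩) (⟨x, y⟩ : ℂ)
  rw [sub_add_cancel] at h7
  linarith

theorem fas_half {r : ℝ} (hr : r ≤ 1) {z : ℂ} (hz : RU u / 2 ≤ ‖z - 0‖) :
    z ∈ Xcx372.FaS 0 u.s (cells (u.U : Set Bk)) r := by
  refine fas hr ?_
  rw [sub_zero] at hz
  unfold RU at hz
  linarith

/-- **every site outside is joined to both ends of every hull edge outside** (372's `xc_brick` at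
distance `3/2 h`) -/
theorem xcU {ε d K1 c2 ρ0 : ℝ} {ω : Sample} (C : CorEnv u ε d K1 c2 ρ0 ω)
    (H : LayU u m M p W A e) {h : ℝ} (hh : (m : ℝ) * h = u.s) {s a b : ℂ} (hs : s ∈ SU u ε ω)
    (hsC : s ∈ Xcx372.FaS 0 u.s (cells (u.U : Set Bk)) (3 / 2 * h))
    (hab : hullE (SU u ε ω) a b) :
    Pth (SU u ε ω) {x | x ∈ SU u ε ω ∧
      x ∈ Xcx372.Fa 0 u.s (cells (u.U : Set Bk)) (3 / 2 * h - 2 * d)} s a ∧
    Pth (SU u ε ω) {x | x ∈ SU u ε ω ∧
      x ∈ Xcx372.Fa 0 u.s (cells (u.U : Set Bk)) (3 / 2 * h - 2 * d)} s b := by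
  have h0 := H.h_pos hh
  have hm := H.m_pos
  have hle := h_le H hh
  have e1 : (((2 * m : ℕ) : ℤ) : ℝ) * (h / 2) = u.s := by
    push_cast
    linarith
  have e2 : ((3 : ℤ) : ℝ) * (h / 2) = 3 / 2 * h := by
    push_cast
    ring
  have key := Xcx372.xc_brick (m := ((2 * m : ℕ) : ℤ)) (k := 3) (h := h / 2) (o := 0) C.dns
    (by linarith) (by norm_num) (by push_cast; omega) (U := (u.U : Set Bk)) u.con'
    (fun z hz => by
      rw [e1, e2]
      exact fas_half (by linarith) hz) hs (by rw [e1, e2]; exact hsC) hab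
  rw [e1, e2] at key
  exact key

end lay

end Crest.Agent.R143.CorEx133
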