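import Crest.Agent.R143.PolyM_346
import Crest.Agent.R143.CorM_970

/-!
# Row 143 (S0194), CORE-C, box R9 (helper854): from 970's `Env` to `POLY Poly.T Poly.T'`

* `L1D t κ T D e` : `T`, `D` integrable, `E ‖t T + κ D‖ ≤ e`; `l1d_of_env` : from `Env` + `EnvF` (970)
* `poly_of_l1`, `polyP_of_l1` : `L1D` for every polygon, eventually in the width, eventually in the
  mesh, with errors `DL` ⟹ `POLY`
* `dl_tot` : the double limit of the total error `tot` of 970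
-/

set_option autoImplicit false

noncomputable section

open scoped Classical

namespace Crest.Agent.R143.PolyEx854

open Complex Set Filter Topology MeasureTheory
open scoped ENNReal
open Crest.ProbabilityR.Voronoi
open Crest.Agent.R143.B0x346 Crest.Agent.R143.PP1x831
open Crest.Agent.R143.Alg4x133 (Rl norm_omz)
open Crest.Agent.R143.AsmNx758 (POLY)
open Crest.Agent.R143.PolyUx346
open Crest.Agent.R143.CorMx970 (Env EnvF tot)
open Crest.Agent.R143.PolyQx854 Crest.Agent.R143.PolyRx854 Crest.Agent.R143.PolySx854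

/-- `L¹` bound for one net, one type -/
structure L1D (t κ : ℂ) (T D : Sample → ℂ) (e : ℝ) : Prop where
  iT : Integrable T sampleLaw
  iD : Integrable D sampleLaw
  le : ∫ ω, ‖t * T ω + κ * D ω‖ ∂sampleLaw ≤ e

theorem L1D.mono {t κ : ℂ} {T D : Sample → ℂ} {e e' : ℝ} (h : L1D t κ T D e) (he : e ≤ e') :
    L1D t κ T D e' := ⟨h.iT, h.iD, h.le.trans he⟩

/-- from 970's environment-level data -/
theorem l1d_of_env [IsProbabilityMeasure sampleLaw] {n r : ℕ} {J : Finset ℕ} {t κ : ℂ} {z : ℕ → ℂ}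
    {g0 a1 a2 K q q' c θ ρ : ℝ} {gv : ℕ → ℂ} {bad : Set Sample} {G : Sample → ℝ}
    {v : ℕ → Sample → ℂ} {w w2 o na nb : ℕ → Sample → ℝ} {Q Q' E1 E2 dd : Sample → ℝ}
    {T D : Sample → ℂ}
    (h : Env sampleLaw n r J t κ z g0 a1 a2 K q q' c θ ρ gv bad G v w w2 o na nb Q Q' E1 E2 dd T D)
    (m : MeasurableSpace Sample) {X0 : Sample → ℂ} (hX0 : Measurable[m] X0)
    (hX : (fun ω => t * T ω + κ * D ω) =ᵐ[sampleLaw] X0)
    (hf : ∀ f : Sample → ℂ, Measurable[m] f → (∀ ω, ‖f ω‖ ≤ 1) →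
      EnvF sampleLaw n g0 gv G v o T f) :
    L1D t κ T D (tot n r J a1 a2 K q q' c θ ρ ‖κ‖) :=
  ⟨h.iT, h.iD, h.l1 hX0 hX hf⟩

theorem prob_of_l1 {t κ : ℂ} {T D : Sample → ℂ} {η θ : ℝ} (h : L1D t κ T D θ) (hη : 0 < η)
    (hθ0 : 0 ≤ θ) (hθ : θ + θ / η ≤ η) :
    sampleLaw {ω | η < ‖t * T ω - -κ * D ω‖} ≤ ENNReal.ofReal η := by
  have iX : Integrable (fun ω => t * T ω - -κ * D ω) sampleLaw :=
    (h.iT.const_mul _).sub (h.iD.const_mul _)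
  refine markov (G := univ) MeasurableSet.univ iX.aestronglyMeasurable.aemeasurable.restrict hη hθ0
    (by simp) ?_ hθ
  rw [Measure.restrict_univ, ← ofReal_integral_norm_eq_lintegral_enorm iX]
  refine ENNReal.ofReal_le_ofReal (le_trans (le_of_eq ?_) h.le)
  refine integral_congr_ae (ae_of_all _ fun ω => ?_)
  simp only
  congr 1
  ring

section main

variable {U I : Type}

theorem rigp_of_l1 {𝓁 : Filter I} [𝓁.NeBot] {κ : I → ℝ → ℂ} {T : U → ℝ → Sample → ℂ}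
    {D : U → ℝ → Sample → ZMod 3 → ℂ} {e : U → I → ℝ → ℝ} (he : ∀ u, DL 𝓁 (e u))
    (h : ∀ u, ∀ᶠ N in 𝓁, ∀ᶠ ε : ℝ in 𝓝[>] 0, ∀ k : ZMod 3,
      L1D (omz k ^ 2) (κ N ε) (T u ε) (fun ω => D u ε ω k) (e u N ε)) : RIGP T D := by
  intro F η hη
  set θ : ℝ := min (η / 2) (η ^ 2 / 2) with hθ
  have hθ0 : 0 < θ := lt_min (by positivity) (by positivity)
  have hθ1 : θ + θ / η ≤ η := by
    have h1 : θ ≤ η / 2 := min_le_left _ _
    have h2 : θ / η ≤ η / 2 := by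
      rw [div_le_iff₀ hη]
      have : θ ≤ η ^ 2 / 2 := min_le_right _ _
      nlinarith
    linarith
  obtain ⟨N, hN⟩ := ((Filter.eventually_all_finset F).2 fun u _ =>
    (he u θ hθ0).and (h u)).exists
  filter_upwards [(Filter.eventually_all_finset F).2 fun u hu => (hN u hu).1,
    (Filter.eventually_all_finset F).2 fun u hu => (hN u hu).2] with ε h1 h2
  exact ⟨-κ N ε, fun u hu k => prob_of_l1 ((h2 u hu k).mono (h1 u hu)) hη hθ0.le hθ1⟩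

theorem poly_of_l1 {𝓁 : Filter I} [𝓁.NeBot] {κ : I → ℝ → ℂ} {T T' : U → ℝ → Sample → ℂ}
    {D : U → ℝ → Sample → ZMod 3 → ℂ} {e : U → I → ℝ → ℝ} (he : ∀ u, DL 𝓁 (e u))
    (h : ∀ u, ∀ᶠ N in 𝓁, ∀ᶠ ε : ℝ in 𝓝[>] 0, ∀ k : ZMod 3,
      L1D (omz k ^ 2) (κ N ε) (T u ε) (fun ω => D u ε ω k) (e u N ε)) (hR : RLP T T' D) :
    POLY T T' :=
  poly_of_p (rigp_of_l1 he h) hR

/-- **the frozen totals of 346** -/
theorem polyP_of_l1 {𝓁 : Filter I} [𝓁.NeBot] {κ : I → ℝ → ℂ} {e : Poly → I → ℝ → ℝ}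
    (he : ∀ u, DL 𝓁 (e u))
    (h : ∀ u, ∀ᶠ N in 𝓁, ∀ᶠ ε : ℝ in 𝓝[>] 0, ∀ k : ZMod 3,
      L1D (omz k ^ 2) (κ N ε) (PolyMx346.a u ε) (fun ω => PolyMx346.D u ε ω k) (e u N ε)) :
    POLY Poly.T Poly.T' := by
  refine PolyMx346.poly_of_ab (poly_of_l1 he h fun u η hη => ?_)
  refine Eventually.of_forall fun ε => ?_
  have h2 : {ω | ¬ Rl (PolyMx346.a u ε ω) (PolyMx346.b u ε ω) (PolyMx346.D u ε ω)} = ∅ := by
    rw [Set.eq_empty_iff_forall_notMem]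
    exact fun ω hω => hω (PolyMx346.rl ε ω)
  rw [h2]
  simp

end main

/-! ### the total error of 970 in the double limit -/

section dl

variable {I : Type}

theorem dl_max0 {𝓁 : Filter I} {a : I → ℝ → ℝ} (ha : DL 𝓁 a) : DL 𝓁 fun N ε => max (a N ε) 0 := by
  intro η hη
  filter_upwards [ha η hη] with N h1
  filter_upwards [h1] with ε h3
  exact max_le h3 hη.le

/-- product with a factor which is bounded first in the mesh, then in the width -/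
theorem dl_mul_bdd {𝓁 : Filter I} {a b : I → ℝ → ℝ} {C : ℝ} (ha : DL 𝓁 a)
    (ha0 : ∀ᶠ N in 𝓁, ∀ᶠ ε : ℝ in 𝓝[>] 0, 0 ≤ a N ε)
    (hb : ∀ᶠ N in 𝓁, ∀ᶠ ε : ℝ in 𝓝[>] 0, b N ε ≤ C) : DL 𝓁 fun N ε => b N ε * a N ε := by
  have h1 : DL 𝓁 fun N ε => |C| * a N ε := ha.const_mul (abs_nonneg C)
  refine h1.mono ?_
  filter_upwards [ha0, hb] with N h2 h3
  filter_upwards [h2, h3] with ε h4 h5
  exact mul_le_mul_of_nonneg_right (h5.trans (le_abs_self C)) h4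

/-- **double limit of the total error** (one polygon, one type). `n N` tiles, `r N` = number of tiles
within the precision of the touches, `J N` straight tiles, `K N = C s`. -/
theorem dl_tot {𝓁 : Filter I} {n r : I → ℕ} {J : I → Finset ℕ} {K : I → ℝ}
    {a1 a2 q q' c θ ρ κn : I → ℝ → ℝ} {C1 C2 C3 : ℝ}
    (h1 : DL 𝓁 a1) (h2 : DL 𝓁 a2) (hq : DL 𝓁 q) (hq' : DL 𝓁 q') (hc : DL 𝓁 c) (hθ : DL 𝓁 θ)
    (hρ : DL 𝓁 ρ) (hθ0 : ∀ᶠ N in 𝓁, ∀ᶠ ε : ℝ in 𝓝[>] 0, 0 ≤ θ N ε)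
    (hc0 : ∀ᶠ N in 𝓁, ∀ᶠ ε : ℝ in 𝓝[>] 0, 0 ≤ c N ε)
    (hK0 : ∀ᶠ N in 𝓁, 0 ≤ K N) (hK : Tendsto K 𝓁 (𝓝 0))
    (hKr : Tendsto (fun N => K N * r N) 𝓁 (𝓝 0)) (hnK : ∀ᶠ N in 𝓁, n N * K N ≤ C1)
    (hJ : ∀ᶠ N in 𝓁, (n N : ℝ) - (J N).card ≤ C2)
    (hκ : ∀ᶠ N in 𝓁, ∀ᶠ ε : ℝ in 𝓝[>] 0, κn N ε ≤ C3) :
    DL 𝓁 fun N ε => tot (n N) (r N) (J N) (a1 N ε) (a2 N ε) (K N) (q N ε) (q' N ε) (c N ε)
      (θ N ε) (ρ N ε) (κn N ε) := by
  have e1 : DL 𝓁 fun N _ => K N * (2 * (2 * r N + 1)) := by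
    refine dl_width ?_
    have h3 : Tendsto (fun N => 4 * (K N * r N) + 2 * K N) 𝓁 (𝓝 (4 * 0 + 2 * 0)) :=
      (hKr.const_mul 4).add (hK.const_mul 2)
    simp only [mul_zero, add_zero] at h3
    refine h3.congr fun N => ?_
    ring
  have e2 : DL 𝓁 fun N ε => (n N * K N) * (θ N ε + √(ρ N ε)) := by
    refine dl_mul_bdd (b := fun N _ => n N * K N) (C := C1) (hθ.add hρ.sqrt) ?_ ?_
    · filter_upwards [hθ0] with N h3
      filter_upwards [h3] with ε h4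
      have := Real.sqrt_nonneg (ρ N ε)
      linarith
    · filter_upwards [hnK] with N h3
      exact Eventually.of_forall fun _ => h3
  have e3 : DL 𝓁 fun N _ => |C2| * K N := by
    refine dl_width ?_
    have h3 := hK.const_mul |C2|
    rwa [mul_zero] at h3
  have e4 : DL 𝓁 fun N ε => κn N ε * c N ε := dl_mul_bdd hc hc0 hκ
  refine ((((h1.add h2).add (e1.add (e2.add (hq.add hq')))).add e3).add e4).mono ?_
  filter_upwards [hJ, hK0] with N h3 h4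
  refine Eventually.of_forall fun ε => ?_
  have h5 : ((n N : ℝ) - (J N).card) * K N ≤ |C2| * K N :=
    mul_le_mul_of_nonneg_right (h3.trans (le_abs_self C2)) h4
  unfold tot
  have e5 : (n N : ℝ) * (K N * (θ N ε + √(ρ N ε))) = n N * K N * (θ N ε + √(ρ N ε)) := by ring
  rw [e5]
  linarith

end dl

/-! ### triple limit: precision `e0` of the touches, width, mesh -/

section t3

variable {I : Type}

/-- `a e0 N ε` is small for small `e0`, then the width, then the mesh -/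
def T3 (𝓁 : Filter I) (a : ℝ → I → ℝ → ℝ) : Prop :=
  ∀ η > 0, ∀ᶠ e0 : ℝ in 𝓝[>] 0, ∀ᶠ N in 𝓁, ∀ᶠ ε : ℝ in 𝓝[>] 0, a e0 N ε ≤ η

theorem T3.mono {𝓁 : Filter I} {a b : ℝ → I → ℝ → ℝ} (h : T3 𝓁 b)
    (hab : ∀ᶠ e0 : ℝ in 𝓝[>] 0, ∀ᶠ N in 𝓁, ∀ᶠ ε : ℝ in 𝓝[>] 0, a e0 N ε ≤ b e0 N ε) :
    T3 𝓁 a := by
  intro η hη
  filter_upwards [h η hη, hab] with e0 h1 h2
  filter_upwards [h1, h2] with N h3 h4
  filter_upwards [h3, h4] with ε h5 h6
  exact h6.trans h5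

theorem T3.add {𝓁 : Filter I} {a b : ℝ → I → ℝ → ℝ} (ha : T3 𝓁 a) (hb : T3 𝓁 b) :
    T3 𝓁 fun e0 N ε => a e0 N ε + b e0 N ε := by
  intro η hη
  filter_upwards [ha (η / 2) (by linarith), hb (η / 2) (by linarith)] with e0 h1 h2
  filter_upwards [h1, h2] with N h3 h4
  filter_upwards [h3, h4] with ε h5 h6
  linarith

theorem T3.const_mul {𝓁 : Filter I} {a : ℝ → I → ℝ → ℝ} (ha : T3 𝓁 a) {c : ℝ} (hc : 0 ≤ c) :
    T3 𝓁 fun e0 N ε => c * a e0 N ε := by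
  intro η hη
  filter_upwards [ha (η / (c + 1)) (by positivity)] with e0 h1
  filter_upwards [h1] with N h2
  filter_upwards [h2] with ε h3
  have h4 : c * a e0 N ε ≤ c * (η / (c + 1)) := mul_le_mul_of_nonneg_left h3 hc
  refine h4.trans ?_
  rw [mul_div_assoc', div_le_iff₀ (by positivity)]
  nlinarith

theorem T3.sqrt {𝓁 : Filter I} {a : ℝ → I → ℝ → ℝ} (ha : T3 𝓁 a) :
    T3 𝓁 fun e0 N ε => √(a e0 N ε) := by
  intro η hη
  filter_upwards [ha (η ^ 2) (by positivity)] with e0 h1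
  filter_upwards [h1] with N h2
  filter_upwards [h2] with ε h3
  exact Real.sqrt_le_iff.2 ⟨hη.le, h3⟩

/-- error which does not depend on `e0` -/
theorem DL.t3 {𝓁 : Filter I} {a : I → ℝ → ℝ} (ha : DL 𝓁 a) : T3 𝓁 fun _ => a := fun η hη =>
  Eventually.of_forall fun _ => ha η hη

/-- error which is small for every fixed `e0` -/
theorem t3_of_dl {𝓁 : Filter I} {a : ℝ → I → ℝ → ℝ} (ha : ∀ᶠ e0 : ℝ in 𝓝[>] 0, DL 𝓁 (a e0)) :
    T3 𝓁 a := by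
  intro η hη
  filter_upwards [ha] with e0 h1
  exact h1 η hη

/-- error which depends only on `e0` -/
theorem t3_e0 {𝓁 : Filter I} {b : ℝ → ℝ} (hb : Tendsto b (𝓝[>] 0) (𝓝 0)) :
    T3 𝓁 fun e0 _ _ => b e0 := by
  intro η hη
  filter_upwards [hb.eventually (ge_mem_nhds hη)] with e0 h1
  exact Eventually.of_forall fun _ => Eventually.of_forall fun _ => h1

theorem t3_mul_bdd {𝓁 : Filter I} {a b : ℝ → I → ℝ → ℝ} {C : ℝ} (ha : T3 𝓁 a)
    (ha0 : ∀ᶠ e0 : ℝ in 𝓝[>] 0, ∀ᶠ N in 𝓁, ∀ᶠ ε : ℝ in 𝓝[>] 0, 0 ≤ a e0 N ε)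
    (hb : ∀ᶠ e0 : ℝ in 𝓝[>] 0, ∀ᶠ N in 𝓁, ∀ᶠ ε : ℝ in 𝓝[>] 0, b e0 N ε ≤ C) :
    T3 𝓁 fun e0 N ε => b e0 N ε * a e0 N ε := by
  refine (ha.const_mul (abs_nonneg C)).mono ?_
  filter_upwards [ha0, hb] with e0 h2 h3
  filter_upwards [h2, h3] with N h4 h5
  filter_upwards [h4, h5] with ε h6 h7
  exact mul_le_mul_of_nonneg_right (h7.trans (le_abs_self C)) h6

theorem t3_max0 {𝓁 : Filter I} {a : ℝ → I → ℝ → ℝ} (ha : T3 𝓁 a) :
    T3 𝓁 fun e0 N ε => max (a e0 N ε) 0 := by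
  intro η hη
  filter_upwards [ha η hη] with e0 h0
  filter_upwards [h0] with N h1
  filter_upwards [h1] with ε h3
  exact max_le h3 hη.le

theorem t3_zero {𝓁 : Filter I} : T3 𝓁 fun _ _ _ => (0 : ℝ) := fun _ hη =>
  Eventually.of_forall fun _ => Eventually.of_forall fun _ => Eventually.of_forall fun _ => hη.le

theorem T3.sum {ι : Type} {𝓁 : Filter I} {a : ι → ℝ → I → ℝ → ℝ} (s : Finset ι)
    (ha : ∀ i ∈ s, T3 𝓁 (a i)) : T3 𝓁 fun e0 N ε => ∑ i ∈ s, a i e0 N ε := by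
  induction s using Finset.induction_on with
  | empty => simpa using t3_zero
  | insert i s hi ih =>
    simp_rw [Finset.sum_insert hi]
    exact (ha i (Finset.mem_insert_self _ _)).add
      (ih fun j hj => ha j (Finset.mem_insert_of_mem hj))

/-- **parameters of RIG** (970's split (d)): `h N` = side of a tile, `K = C1 h`, `n h ≤ C2`,
`q, q' ≤ C3 √h`, `c ≤ C4 h`, at most `C5` corner tiles, `‖κ‖ ≤ C6`, `r ≤ C7 (e0 / h + 1)`;
`a2`, `θ` small in the triple limit, `a1`, `ρ` for fixed width -/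
theorem t3_tot {𝓁 : Filter I} {h : I → ℝ} (h0 : ∀ᶠ N in 𝓁, 0 < h N) (hh : Tendsto h 𝓁 (𝓝 0))
    {n : I → ℕ} {r : ℝ → I → ℕ} {J : I → Finset ℕ} {K : I → ℝ}
    {a1 q q' c κn : I → ℝ → ℝ} {a2 θ ρ : ℝ → I → ℝ → ℝ} {C1 C2 C3 C4 C5 C6 C7 : ℝ}
    (hC1 : 0 ≤ C1) (hC4 : 0 ≤ C4)
    (hK : ∀ᶠ N in 𝓁, K N = C1 * h N)
    (hn : ∀ᶠ N in 𝓁, n N * h N ≤ C2)
    (hJ : ∀ᶠ N in 𝓁, (n N : ℝ) - (J N).card ≤ C5)
    (hr : ∀ᶠ e0 : ℝ in 𝓝[>] 0, ∀ᶠ N in 𝓁, (r e0 N : ℝ) ≤ C7 * (e0 / h N + 1))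
    (hq : ∀ᶠ N in 𝓁, ∀ᶠ ε : ℝ in 𝓝[>] 0, q N ε ≤ C3 * √(h N))
    (hq' : ∀ᶠ N in 𝓁, ∀ᶠ ε : ℝ in 𝓝[>] 0, q' N ε ≤ C3 * √(h N))
    (hc : ∀ᶠ N in 𝓁, ∀ᶠ ε : ℝ in 𝓝[>] 0, c N ε ≤ C4 * h N)
    (hκ0 : ∀ᶠ N in 𝓁, ∀ᶠ ε : ℝ in 𝓝[>] 0, 0 ≤ κn N ε)
    (hκ : ∀ᶠ N in 𝓁, ∀ᶠ ε : ℝ in 𝓝[>] 0, κn N ε ≤ C6)
    (h1 : DL 𝓁 a1) (h2 : T3 𝓁 a2) (hθ : T3 𝓁 θ) (hρ : T3 𝓁 ρ)
    (hθ0 : ∀ᶠ e0 : ℝ in 𝓝[>] 0, ∀ᶠ N in 𝓁, ∀ᶠ ε : ℝ in 𝓝[>] 0, 0 ≤ θ e0 N ε) :
    T3 𝓁 fun e0 N ε => tot (n N) (r e0 N) (J N) (a1 N ε) (a2 e0 N ε) (K N) (q N ε) (q' N ε)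
      (c N ε) (θ e0 N ε) (ρ e0 N ε) (κn N ε) := by
  have tw : ∀ {b : I → ℝ}, Tendsto b 𝓁 (𝓝 0) → T3 𝓁 fun _ N _ => b N := fun hb =>
    DL.t3 (dl_width hb)
  -- tiles near the touches
  have e1 : T3 𝓁 fun e0 N _ => K N * (2 * (2 * r e0 N + 1)) := by
    have e11 : T3 𝓁 fun e0 N _ => 4 * C1 * |C7| * e0 + (4 * C1 * |C7| + 2 * C1) * h N := by
      refine (t3_e0 (𝓁 := 𝓁) ?_).add (tw ?_)
      · have : Tendsto (fun e0 : ℝ => 4 * C1 * |C7| * e0) (𝓝 0) (𝓝 (4 * C1 * |C7| * 0)) :=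
          tendsto_id.const_mul _
        rw [mul_zero] at this
        exact this.mono_left nhdsWithin_le_nhds
      · have := hh.const_mul (4 * C1 * |C7| + 2 * C1)
        rwa [mul_zero] at this
    refine e11.mono ?_
    filter_upwards [hr, self_mem_nhdsWithin] with e0 h3 he0
    filter_upwards [h3, hK, h0] with N h4 h5 h6
    refine Eventually.of_forall fun _ => ?_
    have he0' : (0 : ℝ) < e0 := he0
    have h7 : (r e0 N : ℝ) ≤ |C7| * (e0 / h N + 1) :=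
      h4.trans (mul_le_mul_of_nonneg_right (le_abs_self C7) (by positivity))
    have h8 : C1 * h N * r e0 N ≤ C1 * (|C7| * (e0 + h N)) := by
      calc C1 * h N * r e0 N ≤ C1 * h N * (|C7| * (e0 / h N + 1)) :=
            mul_le_mul_of_nonneg_left h7 (by positivity)
        _ = C1 * (|C7| * (e0 + h N)) := by field_simp
    rw [h5]
    nlinarith
  -- bad probability
  have e2 : T3 𝓁 fun e0 N ε => (n N * K N) * (θ e0 N ε + √(ρ e0 N ε)) := by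
    refine t3_mul_bdd (b := fun _ N _ => n N * K N) (C := C1 * |C2|) (hθ.add hρ.sqrt) ?_ ?_
    · filter_upwards [hθ0] with e0 h3
      filter_upwards [h3] with N h4
      filter_upwards [h4] with ε h5
      have := Real.sqrt_nonneg (ρ e0 N ε)
      linarith
    · refine Eventually.of_forall fun _ => ?_
      filter_upwards [hn, hK] with N h3 h4
      refine Eventually.of_forall fun _ => ?_
      rw [h4]
      calc (n N : ℝ) * (C1 * h N) = C1 * (n N * h N) := by ring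
        _ ≤ C1 * |C2| := mul_le_mul_of_nonneg_left (h3.trans (le_abs_self C2)) hC1
  have sq0 : Tendsto (fun N => C3 * √(h N)) 𝓁 (𝓝 0) := by
    have := (Real.continuous_sqrt.tendsto 0).comp hh
    rw [Real.sqrt_zero] at this
    have h3 := this.const_mul C3
    rwa [mul_zero] at h3
  have e3 : T3 𝓁 fun _ N ε => q N ε := (tw sq0).mono (Eventually.of_forall fun _ => hq)
  have e3' : T3 𝓁 fun _ N ε => q' N ε := (tw sq0).mono (Eventually.of_forall fun _ => hq')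
  -- corner tiles
  have e4 : T3 𝓁 fun _ N _ => |C5| * (C1 * h N) := by
    refine tw ?_
    have := (hh.const_mul C1).const_mul |C5|
    rwa [mul_zero, mul_zero] at this
  -- displacement
  have e5 : T3 𝓁 fun _ N ε => |C6| * (C4 * h N) := by
    refine tw ?_
    have := (hh.const_mul C4).const_mul |C6|
    rwa [mul_zero, mul_zero] at this
  refine (((((DL.t3 h1).add h2).add (e1.add (e2.add (e3.add e3')))).add e4).add e5).mono ?_
  refine Eventually.of_forall fun e0 => ?_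
  filter_upwards [hJ, hK, h0, hc, hκ, hκ0] with N h3 h4 h5 h6 h7 h8
  filter_upwards [h6, h7, h8] with ε h9 h10 h11
  have h12 : ((n N : ℝ) - (J N).card) * K N ≤ |C5| * (C1 * h N) := by
    rw [h4]
    exact mul_le_mul_of_nonneg_right (h3.trans (le_abs_self C5)) (by positivity)
  have h13 : κn N ε * c N ε ≤ |C6| * (C4 * h N) := by
    calc κn N ε * c N ε ≤ κn N ε * (C4 * h N) := mul_le_mul_of_nonneg_left h9 h11
      _ ≤ |C6| * (C4 * h N) :=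
        mul_le_mul_of_nonneg_right (h10.trans (le_abs_self C6)) (by positivity)
  unfold tot
  have e6 : (n N : ℝ) * (K N * (θ e0 N ε + √(ρ e0 N ε))) =
      n N * K N * (θ e0 N ε + √(ρ e0 N ε)) := by ring
  rw [e6]
  linarith

end t3

/-- the frozen totals; errors may depend on the type -/
theorem polyP_of_l1k {I : Type} {𝓁 : Filter I} [𝓁.NeBot] {κ : I → ℝ → ℂ}
    {e : Poly → ZMod 3 → I → ℝ → ℝ} (he : ∀ u k, DL 𝓁 (e u k))
    (h : ∀ u k, ∀ᶠ N in 𝓁, ∀ᶠ ε : ℝ in 𝓝[>] 0,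
      L1D (omz k ^ 2) (κ N ε) (PolyMx346.a u ε) (fun ω => PolyMx346.D u ε ω k) (e u k N ε)) :
    POLY Poly.T Poly.T' := by
  refine polyP_of_l1 (𝓁 := 𝓁) (κ := κ)
    (e := fun u N ε => ∑ k ∈ (Finset.univ : Finset (ZMod 3)), max (e u k N ε) 0)
    (fun u => DL.sum _ fun k _ => dl_max0 (he u k)) fun u => ?_
  have h1 : ∀ᶠ N in 𝓁, ∀ k : ZMod 3, ∀ᶠ ε : ℝ in 𝓝[>] 0,
      L1D (omz k ^ 2) (κ N ε) (PolyMx346.a u ε) (fun ω => PolyMx346.D u ε ω k) (e u k N ε) :=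
    Filter.eventually_all.2 fun k => h u k
  filter_upwards [h1] with N h2
  filter_upwards [Filter.eventually_all.2 h2] with ε h3 k
  refine (h3 k).mono ((le_max_left _ 0).trans ?_)
  exact Finset.single_le_sum (f := fun k => max (e u k N ε) 0)
    (fun _ _ => le_max_right _ _) (Finset.mem_univ k)

/-- **main entry**: triple limit, one polygon and one type at a time -/
theorem polyP_of_t3 {I : Type} {𝓁 : Filter I} [𝓁.NeBot] {κ : I → ℝ → ℂ}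
    {e : Poly → ZMod 3 → ℝ → I → ℝ → ℝ} (he : ∀ u k, T3 𝓁 (e u k))
    (h : ∀ u k, ∀ᶠ e0 : ℝ in 𝓝[>] 0, ∀ᶠ N in 𝓁, ∀ᶠ ε : ℝ in 𝓝[>] 0,
      L1D (omz k ^ 2) (κ N ε) (PolyMx346.a u ε) (fun ω => PolyMx346.D u ε ω k) (e u k e0 N ε)) :
    POLY Poly.T Poly.T' := by
  -- the optimal error
  refine polyP_of_l1k (𝓁 := 𝓁) (κ := κ)
    (e := fun u k N ε => ∫ ω, ‖omz k ^ 2 * PolyMx346.a u ε ω +
      κ N ε * PolyMx346.D u ε ω k‖ ∂sampleLaw) (fun u k η hη => ?_) fun u k => ?_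
  · obtain ⟨e0, h1, h2⟩ := ((he u k η hη).and (h u k)).exists
    filter_upwards [h1, h2] with N h3 h4
    filter_upwards [h3, h4] with ε h5 h6
    exact h6.le.trans h5
  · obtain ⟨e0, h1⟩ := (h u k).exists
    filter_upwards [h1] with N h3
    filter_upwards [h3] with ε h5
    exact ⟨h5.iT, h5.iD, le_rfl⟩

end Crest.Agent.R143.PolyEx854
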