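import Crest.Agent.R143.R10E_930
import Crest.Agent.R143.CorE_133
import Crest.Agent.R143.PolyE_854

/-!
# Row 143 (S0194), RIG: negligible families of bad environments (helper204)

* `Neg B` : `P(B ε) → 0` as `ε → 0`; `Neg.mono`, `Neg.union`, `Neg.iUnion`, `Neg.of_ofReal`,
  `Neg.of_rpow`; `Neg.cor` (133's `CorEnv`), `Neg.ge` (930's `GE`)
* `msb B ε` : measurable hull, same probability; `Neg.msb`, `Neg.real`
* `Neg.ratio` : `P(B ε) / g₀(ε) → 0` if `g₀ ≥ a > 0`; `ratio_le`; `t3_of_tendsto`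
-/

set_option autoImplicit false

noncomputable section

open scoped Classical ENNReal

namespace Crest.Agent.R143.BadGx204

open MeasureTheory Set Filter Topology
open Crest.ProbabilityR.Voronoi
open Crest.Agent.R143.B0x346 Crest.Agent.R143.DelGx806
open Crest.Agent.R143.CorEx133 Crest.Agent.R143.R10Ex930
open Crest.Agent.R143.PolyUx346 (Poly)
open Crest.Agent.R143.PolyEx854 (T3)

/-- **negligible family of events** -/
def Neg (B : ℝ → Set Sample) : Prop := Tendsto (fun ε => sampleLaw (B ε)) (𝓝[>] 0) (𝓝 0)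

variable {A B : ℝ → Set Sample}

theorem Neg.mono (h : Neg B) (hs : ∀ᶠ ε : ℝ in 𝓝[>] 0, A ε ⊆ B ε) : Neg A :=
  tendsto_of_tendsto_of_tendsto_of_le_of_le' tendsto_const_nhds h
    (Eventually.of_forall fun _ => zero_le) (hs.mono fun _ h1 => measure_mono h1)

/-- up to null sets -/
theorem Neg.mono_ae (h : Neg B) (hs : ∀ᶠ ε : ℝ in 𝓝[>] 0, A ε ≤ᵐ[sampleLaw] B ε) : Neg A :=
  tendsto_of_tendsto_of_tendsto_of_le_of_le' tendsto_const_nhds h
    (Eventually.of_forall fun _ => zero_le) (hs.mono fun _ h1 => measure_mono_ae h1)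

theorem Neg.empty : Neg fun _ => ∅ := by
  unfold Neg
  simp only [measure_empty]
  exact tendsto_const_nhds

theorem Neg.union (hA : Neg A) (hB : Neg B) : Neg fun ε => A ε ∪ B ε := by
  have h := hA.add hB
  rw [add_zero] at h
  exact tendsto_of_tendsto_of_tendsto_of_le_of_le' tendsto_const_nhds h
    (Eventually.of_forall fun _ => zero_le) (Eventually.of_forall fun _ => measure_union_le _ _)

theorem Neg.iUnion {ι : Type*} [Finite ι] {B : ι → ℝ → Set Sample} (h : ∀ i, Neg (B i)) :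
    Neg fun ε => ⋃ i, B i ε := by
  have := Fintype.ofFinite ι
  have h1 : Tendsto (fun ε => ∑ i, sampleLaw (B i ε)) (𝓝[>] 0) (𝓝 (∑ _i : ι, 0)) :=
    tendsto_finsetSum _ fun i _ => h i
  rw [Finset.sum_const_zero] at h1
  refine tendsto_of_tendsto_of_tendsto_of_le_of_le' tendsto_const_nhds h1
    (Eventually.of_forall fun _ => zero_le) (Eventually.of_forall fun ε => ?_)
  refine (measure_iUnion_le _).trans ?_
  rw [tsum_fintype]

/-- from a bound -/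
theorem Neg.of_ofReal {f : ℝ → ℝ} (h : ∀ᶠ ε : ℝ in 𝓝[>] 0, sampleLaw (B ε) ≤ ENNReal.ofReal (f ε))
    (hf : Tendsto f (𝓝[>] 0) (𝓝 0)) : Neg B := by
  have h1 := ENNReal.tendsto_ofReal hf
  rw [ENNReal.ofReal_zero] at h1
  exact tendsto_of_tendsto_of_tendsto_of_le_of_le' tendsto_const_nhds h1
    (Eventually.of_forall fun _ => zero_le) h

theorem tendsto_id0 : Tendsto (fun ε : ℝ => ε) (𝓝[>] 0) (𝓝 0) :=
  tendsto_id.mono_left nhdsWithin_le_nhds

theorem Neg.of_id (h : ∀ᶠ ε : ℝ in 𝓝[>] 0, sampleLaw (B ε) ≤ ENNReal.ofReal ε) : Neg B :=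
  Neg.of_ofReal h tendsto_id0

theorem Neg.of_rpow {a : ℝ} (ha : 0 < a)
    (h : ∀ᶠ ε : ℝ in 𝓝[>] 0, sampleLaw (B ε) ≤ ENNReal.ofReal (ε ^ a)) : Neg B := by
  refine Neg.of_ofReal h ?_
  have h1 := tendsto_id0.rpow_const (p := a) (Or.inr ha.le)
  rwa [Real.zero_rpow ha.ne'] at h1

/-! ### the two environments -/

/-- **133's environment** -/
theorem Neg.cor (u : Poly) {K1 c2 ρ0 : ℝ} (hK1 : 0 ≤ K1) (hc2 : 0 < c2) (hρ0 : 0 < ρ0) :
    Neg fun ε => {ω | ¬ CorEnv u ε √ε K1 c2 ρ0 ω} :=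
  Neg.of_rpow one_pos ((cor_env_sqrt u 1 K1 1 c2 ρ0 hK1 one_pos hc2 hρ0).mono fun _ h => h.2)

/-- **930's environment** -/
theorem Neg.ge {c1 c2 K R1 R2 h D : ℝ} (hc1 : 0 < c1) (hc2 : 0 < c2) (hK : 0 ≤ K) (hh : 0 < h)
    (hD : 0 < D) (hD2 : 2 * D ≤ 1) (hR : R1 + (K + 1) * D + 1 ≤ R2) :
    Neg fun ε => {ω | ¬ ∀ S : Finset ℂ, GP (S : Set ℂ) →
      (∀ s : ℂ, ‖s‖ ≤ R2 → (s ∈ points ε ω ↔ s ∈ S)) → GE S c1 c2 K R1 h D ε} :=
  Neg.of_id (ge_ev hc1 hc2 hK hh hD hD2 hR)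

/-- 930's environment of the sites of a polygon, inside 133's disc -/
theorem Neg.geU (u : Poly) {c1 c2 K R1 h D : ℝ} (hc1 : 0 < c1) (hc2 : 0 < c2) (hK : 0 ≤ K)
    (hh : 0 < h) (hD : 0 < D) (hD2 : 2 * D ≤ 1) (hR : R1 + (K + 1) * D + 1 ≤ RU u) :
    Neg fun ε => {ω | ¬ GE (SU u ε ω) c1 c2 K R1 h D ε} := by
  have h1 := (Neg.cor u (K1 := 0) (c2 := 1) (ρ0 := 1) le_rfl one_pos one_pos).union
    (Neg.ge hc1 hc2 hK hh hD hD2 hR)
  refine h1.mono ?_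
  have f3 : ∀ᶠ ε : ℝ in 𝓝[>] 0, 0 < ε := eventually_mem_nhdsWithin
  filter_upwards [f3] with ε hε ω hω
  by_contra hc
  rw [mem_union, mem_ofPred_eq, mem_ofPred_eq, not_or, not_not, not_not] at hc
  refine hω (hc.2 _ hc.1.gpS fun s hs => ?_)
  rw [mem_SU hε]
  exact ⟨fun h => ⟨h, hs⟩, fun h => h.1⟩

/-! ### measurable hull -/

/-- measurable hull -/
def msb (B : ℝ → Set Sample) (ε : ℝ) : Set Sample := toMeasurable sampleLaw (B ε)

theorem msb_meas (B : ℝ → Set Sample) (ε : ℝ) : MeasurableSet (msb B ε) :=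
  measurableSet_toMeasurable _ _

theorem sub_msb (B : ℝ → Set Sample) (ε : ℝ) : B ε ⊆ msb B ε := subset_toMeasurable _ _

theorem msb_measure (B : ℝ → Set Sample) (ε : ℝ) : sampleLaw (msb B ε) = sampleLaw (B ε) :=
  measure_toMeasurable _

theorem notMem_of_msb {ε : ℝ} {ω : Sample} (h : ω ∉ msb B ε) : ω ∉ B ε := fun h1 =>
  h (sub_msb B ε h1)

theorem Neg.msb (h : Neg B) : Neg (msb B) := by
  unfold Neg
  simp only [msb_measure]
  exact h

theorem Neg.real (h : Neg B) : Tendsto (fun ε => sampleLaw.real (B ε)) (𝓝[>] 0) (𝓝 0) := by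
  have h1 := (ENNReal.tendsto_toReal (a := 0) ENNReal.zero_ne_top).comp h
  rw [ENNReal.toReal_zero] at h1
  exact h1

/-! ### relative probability -/

/-- **the relative probability is small** -/
theorem Neg.ratio (h : Neg B) {g : ℝ → ℝ} {a : ℝ} (ha : 0 < a)
    (hg : ∀ᶠ ε : ℝ in 𝓝[>] 0, a ≤ g ε) :
    Tendsto (fun ε => sampleLaw.real (B ε) / g ε) (𝓝[>] 0) (𝓝 0) := by
  have h1 : Tendsto (fun ε => sampleLaw.real (B ε) / a) (𝓝[>] 0) (𝓝 0) := by
    have := h.real.div_const a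
    rwa [zero_div] at this
  refine tendsto_of_tendsto_of_tendsto_of_le_of_le' tendsto_const_nhds h1 ?_ ?_
  · exact hg.mono fun ε h2 => div_nonneg measureReal_nonneg (ha.le.trans h2)
  · exact hg.mono fun ε h2 => div_le_div_of_nonneg_left measureReal_nonneg ha h2

theorem ratio_le {P g : ℝ} (hg : 0 < g) : P ≤ P / g * g := (div_mul_cancel₀ P hg.ne').ge

/-- **`T3` from the limit for fixed `e0`, `N`** -/
theorem t3_of_tendsto {I : Type} {𝓁 : Filter I} {ρ : ℝ → I → ℝ → ℝ}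
    (h : ∀ᶠ e0 : ℝ in 𝓝[>] 0, ∀ᶠ N in 𝓁, Tendsto (ρ e0 N) (𝓝[>] 0) (𝓝 0)) : T3 𝓁 ρ := by
  intro η hη
  filter_upwards [h] with e0 h1
  filter_upwards [h1] with N h2
  exact h2.eventually_le_const hη

/-- `T3` of the relative probability -/
theorem t3_ratio {I : Type} {𝓁 : Filter I} {B : ℝ → I → ℝ → Set Sample} {g : I → ℝ → ℝ}
    (h : ∀ᶠ e0 : ℝ in 𝓝[>] 0, ∀ᶠ N in 𝓁, Neg (B e0 N))
    (hg : ∀ᶠ N in 𝓁, ∃ a : ℝ, 0 < a ∧ ∀ᶠ ε : ℝ in 𝓝[>] 0, a ≤ g N ε) :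
    T3 𝓁 fun e0 N ε => sampleLaw.real (B e0 N ε) / g N ε := by
  refine t3_of_tendsto ?_
  filter_upwards [h] with e0 h1
  filter_upwards [h1, hg] with N h2 ⟨a, ha, h3⟩
  exact h2.ratio ha h3

end Crest.Agent.R143.BadGx204
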