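import Crest.Agent.R143.PolyR_854

/-!
# Row 143 (S0194), CORE-C, box R9 (helper854): one polygon at a time, double limit

* `CrG t κ m G T D e` : corridor data on a bigger space, for the weights `f` (functions of the points
  inside) which vanish off the good set `G`; `CrG.l1 : ∫ ω in G, ‖t T + κ D‖ ≤ e`
* `DL 𝓁 a` : `a N ε` is small for the width `N` and then the mesh `ε → 0` (calculus of errors)
* `CORN 𝓁 κ m T D` : for ONE polygon: for every precision, eventually in the width `N` (filter `𝓁`),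
  eventually in the mesh, a good set and `CrG` with the constant `κ N ε` (independent of the polygon)
* `poly_of_n : CORN → RLP → POLY`
-/

set_option autoImplicit false

noncomputable section

open scoped Classical

namespace Crest.Agent.R143.PolySx854

open Complex Set Filter Topology MeasureTheory
open scoped ENNReal
open Crest.ProbabilityR.Voronoi
open Crest.Agent.R143.B0x346 Crest.Agent.R143.PP1x831
open Crest.Agent.R143.DefsNx346 (hi)
open Crest.Agent.R143.Alg4x133 (Rl norm_omz)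
open Crest.Agent.R143.AsmNx758 (POLY)
open Crest.Agent.R143.PolyAx970 (Cor l1_dual)
open Crest.Agent.R143.PolyQx854 Crest.Agent.R143.PolyRx854

/-! ### weights which vanish off a good set -/

/-- corridor data for the weights (functions of the points inside) which vanish off the good set -/
structure CrG (t κ : ℂ) (m : MeasurableSpace Sample) (G : Set Sample) (T D : Sample → ℂ) (e : ℝ) :
    Prop where
  mT : Measurable[m] T
  mD : Measurable[m] D
  mG : MeasurableSet[m] G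
  le : m ≤ amb
  iT : IntS T
  iD : IntS D
  ex : ∀ f : Sample → ℂ, Measurable[m] f → (∀ ω, ‖f ω‖ ≤ 1) → (∀ ω, ω ∉ G → f ω = 0) →
    ∃ (Ω : Type) (_ : MeasurableSpace Ω) (P : Measure Ω) (π : Ω → Sample),
      Prj P π ∧ Cdat P t κ (fun w => f (π w)) (fun w => T (π w)) (fun w => D (π w)) e

theorem ind_mul (G : Set Sample) (f X : Sample → ℂ) :
    (fun ω => f ω * G.indicator X ω) = fun ω => G.indicator f ω * X ω := by
  funext ω
  by_cases h : ω ∈ G
  · simp [h]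
  · simp [h]

theorem CrG.l1 {t κ : ℂ} {m : MeasurableSpace Sample} {G : Set Sample} {T D : Sample → ℂ} {e : ℝ}
    (h : CrG t κ m G T D e) :
    ∫ ω, ‖G.indicator (fun ω => t * T ω + κ * D ω) ω‖ ∂sampleLaw ≤ e := by
  refine l1_dual (m := m) (((h.mT.const_mul t).add (h.mD.const_mul κ)).indicator h.mG)
    fun f hf hf1 => ?_
  have hg : Measurable[m] (G.indicator f) := hf.indicator h.mG
  have hg1 : ∀ ω, ‖G.indicator f ω‖ ≤ 1 := fun ω => by
    by_cases hω : ω ∈ G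
    · rw [indicator_of_mem hω]; exact hf1 ω
    · rw [indicator_of_notMem hω, norm_zero]; exact zero_le_one
  have hg' : @Measurable _ _ amb _ (G.indicator f) := hg.mono h.le le_rfl
  obtain ⟨Ω, mΩ, P, π, hπ, hC⟩ := h.ex (G.indicator f) hg hg1 fun ω hω => indicator_of_notMem hω f
  have h1 := hC.le
  have iT : Integrable (fun ω => G.indicator f ω * T ω) sampleLaw :=
    PolyAx970.int_fm hg' hg1 h.iT
  have iD : Integrable (fun ω => G.indicator f ω * D ω) sampleLaw :=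
    PolyAx970.int_fm hg' hg1 h.iD
  have e1 : ∫ w, G.indicator f (π w) * T (π w) ∂P = ∫ ω, G.indicator f ω * T ω ∂sampleLaw :=
    Prj.int (F := fun ω => G.indicator f ω * T ω) hπ iT
  have e2 : ∫ w, G.indicator f (π w) * D (π w) ∂P = ∫ ω, G.indicator f ω * D ω ∂sampleLaw :=
    Prj.int (F := fun ω => G.indicator f ω * D ω) hπ iD
  rw [e1, e2] at h1
  change ‖∫ ω, f ω * G.indicator (fun ω => t * T ω + κ * D ω) ω ∂sampleLaw‖ ≤ e
  rw [ind_mul]
  have e3 : ∫ ω, G.indicator f ω * (t * T ω + κ * D ω) ∂sampleLaw =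
      t * ∫ ω, G.indicator f ω * T ω ∂sampleLaw + κ * ∫ ω, G.indicator f ω * D ω ∂sampleLaw := by
    rw [← integral_const_mul, ← integral_const_mul,
      ← integral_add (iT.const_mul t) (iD.const_mul κ)]
    refine integral_congr_ae (ae_of_all _ fun ω => ?_)
    simp only
    ring
  rw [e3]
  exact h1

/-- in the form of `RIGP` -/
theorem prob_of {t κ : ℂ} {m : MeasurableSpace Sample} {G : Set Sample} {T D : Sample → ℂ}
    {η θ : ℝ} (h : CrG t κ m G T D θ) (hη : 0 < η) (hθ0 : 0 ≤ θ)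
    (h1 : sampleLaw Gᶜ ≤ ENNReal.ofReal θ) (hθ : θ + θ / η ≤ η) :
    sampleLaw {ω | η < ‖t * T ω - -κ * D ω‖} ≤ ENNReal.ofReal η := by
  have hG : @MeasurableSet _ amb G := h.le _ h.mG
  have iX : IntS (fun ω => t * T ω - -κ * D ω) := by
    have iT : Integrable T sampleLaw := h.iT
    have iD : Integrable D sampleLaw := h.iD
    exact (iT.const_mul _).sub (iD.const_mul _)
  have h3 := h.l1
  have key : ∫⁻ ω in G, ‖t * T ω - -κ * D ω‖ₑ ∂sampleLaw ≤ ENNReal.ofReal θ := by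
    have iX' : Integrable (fun ω => t * T ω - -κ * D ω) sampleLaw := iX
    have h5 := ofReal_integral_norm_eq_lintegral_enorm (iX'.restrict (s := G))
    rw [← h5]
    refine ENNReal.ofReal_le_ofReal (le_trans (le_of_eq ?_) h3)
    rw [← integral_indicator hG]
    refine integral_congr_ae (ae_of_all _ fun ω => ?_)
    by_cases hω : ω ∈ G
    · simp only [indicator_of_mem hω]
      congr 1
      ring
    · simp [indicator_of_notMem hω]
  have iX' : Integrable (fun ω => t * T ω - -κ * D ω) sampleLaw := iX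
  exact markov hG iX'.aestronglyMeasurable.aemeasurable.restrict hη hθ0 h1 key hθ

/-! ### double limit -/

section dl

variable {I : Type}

/-- `a N ε` is small: first the width (filter `𝓁`), then the mesh `ε → 0` -/
def DL (𝓁 : Filter I) (a : I → ℝ → ℝ) : Prop :=
  ∀ η > 0, ∀ᶠ N in 𝓁, ∀ᶠ ε : ℝ in 𝓝[>] 0, a N ε ≤ η

theorem DL.mono {𝓁 : Filter I} {a b : I → ℝ → ℝ} (h : DL 𝓁 b)
    (hab : ∀ᶠ N in 𝓁, ∀ᶠ ε : ℝ in 𝓝[>] 0, a N ε ≤ b N ε) : DL 𝓁 a := by
  intro η hη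
  filter_upwards [h η hη, hab] with N h1 h2
  filter_upwards [h1, h2] with ε h3 h4
  exact h4.trans h3

theorem DL.add {𝓁 : Filter I} {a b : I → ℝ → ℝ} (ha : DL 𝓁 a) (hb : DL 𝓁 b) :
    DL 𝓁 fun N ε => a N ε + b N ε := by
  intro η hη
  filter_upwards [ha (η / 2) (by linarith), hb (η / 2) (by linarith)] with N h1 h2
  filter_upwards [h1, h2] with ε h3 h4
  linarith

theorem DL.const_mul {𝓁 : Filter I} {a : I → ℝ → ℝ} (ha : DL 𝓁 a) {c : ℝ} (hc : 0 ≤ c) :
    DL 𝓁 fun N ε => c * a N ε := by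
  intro η hη
  filter_upwards [ha (η / (c + 1)) (by positivity)] with N h1
  filter_upwards [h1] with ε h3
  have h4 : c * a N ε ≤ c * (η / (c + 1)) := mul_le_mul_of_nonneg_left h3 hc
  refine h4.trans ?_
  rw [mul_div_assoc', div_le_iff₀ (by positivity)]
  nlinarith

/-- error of the width -/
theorem dl_width {𝓁 : Filter I} {b : I → ℝ} (hb : Tendsto b 𝓁 (𝓝 0)) :
    DL 𝓁 fun N _ => b N := by
  intro η hη
  filter_upwards [hb.eventually (ge_mem_nhds hη)] with N h1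
  exact Eventually.of_forall fun _ => h1

/-- error of the mesh, for every fixed width -/
theorem dl_mesh {𝓁 : Filter I} {a : I → ℝ → ℝ}
    (ha : ∀ᶠ N in 𝓁, Tendsto (a N) (𝓝[>] 0) (𝓝 0)) : DL 𝓁 a := by
  intro η hη
  filter_upwards [ha] with N h1
  exact h1.eventually (ge_mem_nhds hη)

theorem dl_zero {𝓁 : Filter I} : DL 𝓁 fun _ _ => (0 : ℝ) := fun _ hη =>
  Eventually.of_forall fun _ => Eventually.of_forall fun _ => hη.le

theorem DL.sqrt {𝓁 : Filter I} {a : I → ℝ → ℝ} (ha : DL 𝓁 a) :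
    DL 𝓁 fun N ε => Real.sqrt (a N ε) := by
  intro η hη
  filter_upwards [ha (η ^ 2) (by positivity)] with N h1
  filter_upwards [h1] with ε h3
  exact Real.sqrt_le_iff.2 ⟨hη.le, h3⟩

theorem DL.sum {ι : Type} {𝓁 : Filter I} {a : ι → I → ℝ → ℝ} (s : Finset ι)
    (ha : ∀ i ∈ s, DL 𝓁 (a i)) : DL 𝓁 fun N ε => ∑ i ∈ s, a i N ε := by
  induction s using Finset.induction_on with
  | empty => simpa using dl_zero
  | insert i s hi ih =>
    simp_rw [Finset.sum_insert hi]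
    exact (ha i (Finset.mem_insert_self _ _)).add
      (ih fun j hj => ha j (Finset.mem_insert_of_mem hj))

/-- bad events: small probability, first the width, then the mesh -/
def DP (𝓁 : Filter I) (B : I → ℝ → Set Sample) : Prop :=
  ∀ η > 0, ∀ᶠ N in 𝓁, ∀ᶠ ε : ℝ in 𝓝[>] 0, sampleLaw (B N ε) ≤ ENNReal.ofReal η

theorem DP.mono {𝓁 : Filter I} {A B : I → ℝ → Set Sample} (h : DP 𝓁 B)
    (hab : ∀ᶠ N in 𝓁, ∀ᶠ ε : ℝ in 𝓝[>] 0, A N ε ⊆ B N ε) : DP 𝓁 A := by
  intro η hη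
  filter_upwards [h η hη, hab] with N h1 h2
  filter_upwards [h1, h2] with ε h3 h4
  exact (measure_mono h4).trans h3

theorem DP.union {𝓁 : Filter I} {A B : I → ℝ → Set Sample} (hA : DP 𝓁 A) (hB : DP 𝓁 B) :
    DP 𝓁 fun N ε => A N ε ∪ B N ε := by
  intro η hη
  filter_upwards [hA (η / 2) (by linarith), hB (η / 2) (by linarith)] with N h1 h2
  filter_upwards [h1, h2] with ε h3 h4
  calc sampleLaw (A N ε ∪ B N ε) ≤ _ := measure_union_le _ _
    _ ≤ ENNReal.ofReal (η / 2) + ENNReal.ofReal (η / 2) := add_le_add h3 h4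
    _ = ENNReal.ofReal η := by
        rw [← ENNReal.ofReal_add (by positivity) (by positivity), add_halves]

theorem dp_mesh {𝓁 : Filter I} {B : I → ℝ → Set Sample}
    (h : ∀ᶠ N in 𝓁, ∀ η > 0, ∀ᶠ ε : ℝ in 𝓝[>] 0, sampleLaw (B N ε) ≤ ENNReal.ofReal η) :
    DP 𝓁 B := by
  intro η hη
  filter_upwards [h] with N h1
  exact h1 η hη

end dl

/-! ### one polygon at a time -/

section main

variable {U I : Type}

/-- **corridor hypothesis, one polygon at a time**: `κ N ε` is the constant of the corridor of width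
`N` (the same for all polygons and the three types), the good set may depend on the polygon and on the
width -/
def CORN (𝓁 : Filter I) (κ : I → ℝ → ℂ) (m : U → I → ℝ → MeasurableSpace Sample)
    (T : U → ℝ → Sample → ℂ) (D : U → ℝ → Sample → ZMod 3 → ℂ) : Prop :=
  ∀ u : U, ∀ η > 0, ∀ᶠ N in 𝓁, ∀ᶠ ε : ℝ in 𝓝[>] 0, ∃ G : Set Sample,
    sampleLaw Gᶜ ≤ ENNReal.ofReal η ∧
      ∀ k : ZMod 3, CrG (omz k ^ 2) (κ N ε) (m u N ε) G (T u ε) (fun ω => D u ε ω k) η

theorem rigp_of_n {𝓁 : Filter I} [𝓁.NeBot] {κ : I → ℝ → ℂ}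
    {m : U → I → ℝ → MeasurableSpace Sample} {T : U → ℝ → Sample → ℂ}
    {D : U → ℝ → Sample → ZMod 3 → ℂ} (h : CORN 𝓁 κ m T D) : RIGP T D := by
  intro F η hη
  set θ : ℝ := min (η / 2) (η ^ 2 / 2) with hθ
  have hθ0 : 0 < θ := lt_min (by positivity) (by positivity)
  have hθ1 : θ + θ / η ≤ η := by
    have h1 : θ ≤ η / 2 := min_le_left _ _
    have h2 : θ / η ≤ η / 2 := by
      rw [div_le_iff₀ hη]
      have : θ ≤ η ^ 2 / 2 := min_le_right _ _
      nlinarith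
    linarith
  obtain ⟨N, hN⟩ := ((Filter.eventually_all_finset F).2 fun u _ => h u θ hθ0).exists
  filter_upwards [(Filter.eventually_all_finset F).2 hN] with ε hε
  refine ⟨-κ N ε, fun u hu k => ?_⟩
  obtain ⟨G, hG, hC⟩ := hε u hu
  exact prob_of (hC k) hη hθ0.le hG hθ1

/-- **POLY from the corridor data, one polygon at a time** -/
theorem poly_of_n {𝓁 : Filter I} [𝓁.NeBot] {κ : I → ℝ → ℂ}
    {m : U → I → ℝ → MeasurableSpace Sample} {T T' : U → ℝ → Sample → ℂ}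
    {D : U → ℝ → Sample → ZMod 3 → ℂ} (h : CORN 𝓁 κ m T D) (hR : RLP T T' D) : POLY T T' :=
  poly_of_p (rigp_of_n h) hR

/-- errors as functions of polygon, width and mesh -/
theorem corn_of {𝓁 : Filter I} {κ : I → ℝ → ℂ} {m : U → I → ℝ → MeasurableSpace Sample}
    {T : U → ℝ → Sample → ℂ} {D : U → ℝ → Sample → ZMod 3 → ℂ}
    {G : U → I → ℝ → Set Sample} {e : U → I → ℝ → ℝ}
    (hG : ∀ u, DP 𝓁 fun N ε => (G u N ε)ᶜ) (he : ∀ u, DL 𝓁 (e u))
    (h : ∀ u, ∀ᶠ N in 𝓁, ∀ᶠ ε : ℝ in 𝓝[>] 0, ∀ k : ZMod 3,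
      CrG (omz k ^ 2) (κ N ε) (m u N ε) (G u N ε) (T u ε) (fun ω => D u ε ω k) (e u N ε)) :
    CORN 𝓁 κ m T D := by
  intro u η hη
  filter_upwards [hG u η hη, he u η hη, h u] with N h1 h2 h3
  filter_upwards [h1, h2, h3] with ε h4 h5 h6
  refine ⟨G u N ε, h4, fun k => ?_⟩
  obtain ⟨a1, a2, a3, a4, a5, a6, a7⟩ := h6 k
  refine ⟨a1, a2, a3, a4, a5, a6, fun f hf hf1 hf0 => ?_⟩
  obtain ⟨Ω, mΩ, P, π, hπ, ν, ι, I, J, g, Vβ, Vγ, VK, TK, R, V, one, z, b1, b2, b3, b4, b5, b6,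
    hc, hle⟩ := a7 f hf hf1 hf0
  exact ⟨Ω, mΩ, P, π, hπ, ν, ι, I, J, g, Vβ, Vγ, VK, TK, R, V, one, z, b1, b2, b3, b4, b5, b6,
    hc, hle.trans h5⟩

/-- the exact relation on good sets -/
theorem rlp_of {𝓁 : Filter I} [𝓁.NeBot] {T T' : U → ℝ → Sample → ℂ}
    {D : U → ℝ → Sample → ZMod 3 → ℂ} {G : U → I → ℝ → Set Sample}
    (hG : ∀ u, DP 𝓁 fun N ε => (G u N ε)ᶜ)
    (h : ∀ u, ∀ᶠ N in 𝓁, ∀ᶠ ε : ℝ in 𝓝[>] 0, ∀ ω ∈ G u N ε,
      Rl (T u ε ω) (T' u ε ω) (D u ε ω)) : RLP T T' D := by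
  intro u η hη
  obtain ⟨N, h1, h2⟩ := ((hG u η hη).and (h u)).exists
  filter_upwards [h1, h2] with ε h3 h4
  refine (measure_mono fun ω hω => ?_).trans h3
  intro hG
  exact hω (h4 ω hG)

/-- **POLY**: good sets, errors and corridor data as functions of polygon, width and mesh -/
theorem poly_of_g {𝓁 : Filter I} [𝓁.NeBot] {κ : I → ℝ → ℂ}
    {m : U → I → ℝ → MeasurableSpace Sample} {T T' : U → ℝ → Sample → ℂ}
    {D : U → ℝ → Sample → ZMod 3 → ℂ} {G : U → I → ℝ → Set Sample} {e : U → I → ℝ → ℝ}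
    (hG : ∀ u, DP 𝓁 fun N ε => (G u N ε)ᶜ) (he : ∀ u, DL 𝓁 (e u))
    (h : ∀ u, ∀ᶠ N in 𝓁, ∀ᶠ ε : ℝ in 𝓝[>] 0, ∀ k : ZMod 3,
      CrG (omz k ^ 2) (κ N ε) (m u N ε) (G u N ε) (T u ε) (fun ω => D u ε ω k) (e u N ε))
    (hR : ∀ u, ∀ᶠ N in 𝓁, ∀ᶠ ε : ℝ in 𝓝[>] 0, ∀ ω ∈ G u N ε,
      Rl (T u ε ω) (T' u ε ω) (D u ε ω)) : POLY T T' :=
  poly_of_n (corn_of hG he h) (rlp_of hG hR)

end main

end Crest.Agent.R143.PolySx854
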