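import Crest.Agent.R143.PolyU_346
import Crest.Agent.R143.Alg4_133
import Crest.Agent.R143.PolyS_854

/-!
# Row 143 (S0194): the frozen totals in the algebra of 133 / 854 (helper346)

`u.m ε ω i` = mean end point on the arc `i` (truncated hit of `TV`), `u.a`, `u.b`, `u.D` :
* `T_eq : u.T = -3 a`, `T'_eq : conj u.T' = -3 b`, `rl : Rl a b D` (always, no good set),
  `D k = m (k + 2) - m (k + 1)`
* **`poly_of_ab : POLY a b → POLY Poly.T Poly.T'`**
* **`poly_of_cor`** : 854's `poly_of_g` with `T := a` and no relation to prove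
-/

set_option autoImplicit false

noncomputable section

open scoped Classical

namespace Crest.Agent.R143.PolyMx346

open Complex Set Filter Topology MeasureTheory
open scoped ENNReal
open Crest.ProbabilityR.Voronoi
open Crest.Agent.R143.B0x346 Crest.Agent.R143.NetUx346 Crest.Agent.R143.NetVx346
open Crest.Agent.R143.PolyUx346
open Crest.Agent.R143.Alg4x133 (Rl rl_of omz_cube)
open Crest.Agent.R143.AsmNx758 (POLY)
open Crest.Agent.R143.PolySx854

variable (u : Poly)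

/-- free sites of the polygon -/
def V (ε : ℝ) (ω : Sample) : Finset ℂ := Vin (u.S ε ω) u.P √ε

/-- label classes of the polygon -/
def B (ε : ℝ) (ω : Sample) : ZMod 3 → Set ℂ := Bl (u.S ε ω) (V u ε ω) u.Lab

/-- mean end point on the arc `i` -/
def m (ε : ℝ) (ω : Sample) (i : ZMod 3) : ℂ :=
  exC (V u ε ω) fun T => zV (u.S ε ω) (V u ε ω) (B u ε ω) i (T : Set ℂ) id

/-- `a = - Σ om ^ j m j` -/
def a (ε : ℝ) (ω : Sample) : ℂ := -∑ j : ZMod 3, omz j * m u ε ω j

/-- `b = - Σ om ^ (2 j) m j` -/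
def b (ε : ℝ) (ω : Sample) : ℂ := -∑ j : ZMod 3, omz j ^ 2 * m u ε ω j

/-- mean displacement of the block of type `k` -/
def D (ε : ℝ) (ω : Sample) (k : ZMod 3) : ℂ := m u ε ω (k + 2) - m u ε ω (k + 1)

variable {u}

/-- **exact relation**, no exceptional set -/
theorem rl (ε : ℝ) (ω : Sample) : Rl (a u ε ω) (b u ε ω) (D u ε ω) := rl_of fun _ => rfl

theorem T_eq (ε : ℝ) (ω : Sample) : u.T ε ω = -3 * a u ε ω := by
  unfold Poly.T TU TV a m V B
  unfold Crest.Agent.R143.PolyMx346.V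
  ring

theorem conj_omz (j : ZMod 3) : (starRingEnd ℂ) (omz j) = omz j ^ 2 := by
  have h1 := omz_cube j
  have h2 : ‖omz j‖ = 1 := Alg4x133.norm_omz j
  have h3 : omz j * (starRingEnd ℂ) (omz j) = 1 := by
    rw [Complex.mul_conj, Complex.normSq_eq_norm_sq, h2]
    norm_num
  have h0 : omz j ≠ 0 := fun e => by rw [e, norm_zero] at h2; exact one_ne_zero h2.symm
  refine mul_left_cancel₀ h0 ?_
  rw [h3]
  linear_combination -h1

theorem zV_conj {S V : Finset ℂ} {B : ZMod 3 → Set ℂ} {i : ZMod 3} {T : Set ℂ} :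
    zV S V B i T (starRingEnd ℂ) = (starRingEnd ℂ) (zV S V B i T id) := by
  unfold zV
  split_ifs
  · rw [map_sum]
    rfl
  · rw [map_zero]

theorem exC_conj (V : Finset ℂ) (f : Finset ℂ → ℂ) :
    exC V (fun T => (starRingEnd ℂ) (f T)) = (starRingEnd ℂ) (exC V f) := by
  unfold exC
  rw [map_div₀, map_sum, map_pow, Complex.conj_ofNat]

theorem T'_eq (ε : ℝ) (ω : Sample) : (starRingEnd ℂ) (u.T' ε ω) = -3 * b u ε ω := by
  unfold Poly.T' TU TV b m B
  unfold Crest.Agent.R143.PolyMx346.V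
  rw [map_mul, Complex.conj_ofNat, map_sum]
  have h : ∀ i : ZMod 3, (starRingEnd ℂ) (omz i * exC (Vin (u.S ε ω) u.P √ε) fun T =>
      zV (u.S ε ω) (Vin (u.S ε ω) u.P √ε) (Bl (u.S ε ω) (Vin (u.S ε ω) u.P √ε) u.Lab) i
        (T : Set ℂ) (starRingEnd ℂ)) =
      omz i ^ 2 * exC (Vin (u.S ε ω) u.P √ε) fun T =>
        zV (u.S ε ω) (Vin (u.S ε ω) u.P √ε) (Bl (u.S ε ω) (Vin (u.S ε ω) u.P √ε) u.Lab) i
          (T : Set ℂ) id := by
    intro i
    rw [map_mul, conj_omz]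
    congr 1
    rw [← exC_conj]
    congr 1
    funext T
    rw [zV_conj, Complex.conj_conj]
  rw [Finset.sum_congr rfl fun i _ => h i]
  ring

theorem norm_T (ε : ℝ) (ω : Sample) : ‖u.T ε ω‖ = 3 * ‖a u ε ω‖ := by
  rw [T_eq, norm_mul, norm_neg, Complex.norm_ofNat]

theorem norm_T' (ε : ℝ) (ω : Sample) : ‖u.T' ε ω‖ = 3 * ‖b u ε ω‖ := by
  rw [← RCLike.norm_conj (u.T' ε ω), T'_eq, norm_mul, norm_neg, Complex.norm_ofNat]

/-- **POLY for the frozen totals** -/
theorem poly_of_ab (h : POLY a b) : POLY Poly.T Poly.T' := by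
  intro u u' η hη
  have h1 : 0 < η / 3 := by linarith
  filter_upwards [h u u' (η / 3) h1] with ε hε
  rcases hε with h2 | h2
  · left
    refine le_trans (measure_mono ?_) (h2.trans (ENNReal.ofReal_le_ofReal (by linarith)))
    intro ω (hω : η < ‖u.T ε ω‖)
    rw [norm_T] at hω
    show η / 3 < ‖a u ε ω‖
    linarith
  · right
    refine le_trans (measure_mono ?_) (h2.trans (ENNReal.ofReal_le_ofReal (by linarith)))
    intro ω (hω : η < ‖u'.T' ε ω‖)
    rw [norm_T'] at hω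
    show η / 3 < ‖b u' ε ω‖
    linarith

/-- **POLY from the corridor data** (854), for the frozen totals -/
theorem poly_of_cor {I : Type} {𝓁 : Filter I} [𝓁.NeBot] {κ : I → ℝ → ℂ}
    {ms : Poly → I → ℝ → MeasurableSpace Sample}
    {G : Poly → I → ℝ → Set Sample} {e : Poly → I → ℝ → ℝ}
    (hG : ∀ u, DP 𝓁 fun N ε => (G u N ε)ᶜ) (he : ∀ u, DL 𝓁 (e u))
    (h : ∀ u, ∀ᶠ N in 𝓁, ∀ᶠ ε : ℝ in 𝓝[>] 0, ∀ k : ZMod 3,
      CrG (omz k ^ 2) (κ N ε) (ms u N ε) (G u N ε) (a u ε) (fun ω => D u ε ω k) (e u N ε)) :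
    POLY Poly.T Poly.T' :=
  poly_of_ab (poly_of_g hG he h fun _ => Eventually.of_forall fun _ =>
    Eventually.of_forall fun ε ω _ => rl ε ω)

end Crest.Agent.R143.PolyMx346
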