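import Crest.Agent.R143.MeasQ_609
import Crest.Agent.R143.PolyM_346

/-!
# Row 143 (S0194), RIG: the totals of 346 (`PolyM_346`) as exact functions of the points in `P`
(helper609)

* `mU S P d L i z` : mean end point of the labelled region; `mU_local`, `norm_mU`, `fme_mU`
* `mI u ε i z ω` : the same with the points in `u.P`; `sig_mI` : measurable with respect to the
  points in any `U ⊇ u.P`; `m_near` : `P (PolyMx346.m ≠ mI) → 0`
* `aI`, `bI`, `DI` : the combinations of `PolyM_346`; `rlI` (everywhere), `sig_aI`, `sig_bI`,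
  `sig_DI`, bounded
* **`poly_of_in : POLY aI bI → POLY Poly.T Poly.T'`**, **`poly_of_corI`** : 854's `poly_of_g` with
  the exact functions of the points in `P`
-/

set_option autoImplicit false
set_option linter.unusedSectionVars false

noncomputable section

open scoped Classical

namespace Crest.Agent.R143.MeasDx609

open MeasureTheory Set Filter Topology
open scoped ENNReal
open Crest.ProbabilityR.Voronoi
open Crest.Agent.R143.PP0x831 Crest.Agent.R143.Janx304 Crest.Agent.R143.Dblx609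
open Crest.Agent.R143.Dbl2x609 Crest.Agent.R143.B0x346
open Crest.Agent.R143.Prodx609 Crest.Agent.R143.FinMx609 Crest.Agent.R143.FinTx609
open Crest.Agent.R143.FinUx609 Crest.Agent.R143.MeasPx609 Crest.Agent.R143.MeasQx609
open Crest.Agent.R143.NetUx346 Crest.Agent.R143.NetVx346 Crest.Agent.R143.PolyUx346
open Crest.Agent.R143.IndLoc2x279 (sig meas_sig sig_le)
open Crest.Agent.R143.IndLoc3x279 (clr cav)
open Crest.Agent.R143.Locx922 (Hol)
open Crest.Agent.R143.LocUx700 (deep mem_Vin agr_deep bd_Vin)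
open Crest.Agent.R143.LocTx700 (SameT sameT_local)
open Crest.Agent.R143.Alg4x133 (Rl rl_of)
open Crest.Agent.R143.AsmNx758 (POLY)
open Crest.Agent.R143.PolySx854 (CrG DP DL poly_of_g)

/-! ### the mean end point of a labelled region -/

/-- mean end point on the arc `i` -/
def mU (S : Finset ℂ) (P : Set ℂ) (d : ℝ) (L : ℂ → ZMod 3) (i : ZMod 3) (z : ℂ → ℂ) : ℂ :=
  exC (Vin S P d) fun T => zV S (Vin S P d) (Bl S (Vin S P d) L) i (T : Set ℂ) z

theorem m_eq (u : Poly) (ε : ℝ) (ω : Sample) (i : ZMod 3) :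
    PolyMx346.m u ε ω i = mU (u.S ε ω) u.P √ε u.Lab i id := rfl

theorem TU_eq (S : Finset ℂ) (P : Set ℂ) (d : ℝ) (L : ℂ → ZMod 3) (z : ℂ → ℂ) :
    TU S P d L z = 3 * ∑ i : ZMod 3, omz i * mU S P d L i z := rfl

section loc

variable {S S' : Finset ℂ} {P : Set ℂ} {d : ℝ} {L L' : ℂ → ZMod 3} {i : ZMod 3}

/-- **locality** -/
theorem mU_local (hd : 0 < d) (hH : Hol (S : Set ℂ) (deep P d) d)
    (h : ∀ x ∈ P, x ∈ S ↔ x ∈ S') (hL : ∀ x ∈ P, L x = L' x) (i : ZMod 3) (z : ℂ → ℂ) :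
    mU S P d L i z = mU S' P d L' i z := by
  have hV : Vin S P d = Vin S' P d := LocUx700.Vin_eq hd h
  have hs : SameT S S' (Vin S P d) := sameT_local hd hH (agr_deep hd h)
    fun v hv => (mem_Vin.1 (Finset.mem_coe.1 hv)).2
  have hl : ∀ x ∈ LocTx700.bd S (Vin S P d), L x = L' x := fun x hx => hL x (bd_Vin hd hH hx)
  have e : ∀ T : Set ℂ, hitsV S (Vin S P d) (Bl S (Vin S P d) L) i T =
      hitsV S' (Vin S P d) (Bl S' (Vin S P d) L') i T := by
    intro T
    rw [LocUx700.hitsV_eq, LocUx700.hitsV_eq]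
    ext t
    rw [LocTx700.mem_hitsV, LocTx700.mem_hitsV]
    refine ⟨hs.hitV_imp hl, hs.symm.hitV_imp fun x hx => ?_⟩
    rw [← hs.bd] at hx
    exact (hl x hx).symm
  unfold mU
  rw [← hV]
  congr 1
  funext T
  unfold zV
  rw [e]

theorem norm_mU {z : ℂ → ℂ} {b : ℝ} (hb : 0 ≤ b) (h : ∀ v ∈ S, ‖z v‖ ≤ b) (i : ZMod 3) :
    ‖mU S P d L i z‖ ≤ b :=
  norm_exC _ _ fun _ _ => norm_zV hb fun v hv => h v hv.1

end loc

/-! ### measurability -/

section meas

variable {W P : Set ℂ} {d : ℝ} {L : ℂ → ZMod 3}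

theorem mU_cav {S : Finset ℂ} (hS : (S : Set ℂ) ⊆ W) (i : ZMod 3) (z : ℂ → ℂ) :
    mU S P d L i z = cav (fun X => zV (Sf W X) (Vin (Sf W X) P d)
      (Bl (Sf W X) (Vin (Sf W X) P d) L) i (bl X) z) S := by
  unfold mU
  have hV : Vin S P d ⊆ S := Finset.filter_subset _ _
  rw [exC_all hV (g := fun T => zV S (Vin S P d) (Bl S (Vin S P d) L) i (T : Set ℂ) z)
    fun β => by
      show zV S (Vin S P d) (Bl S (Vin S P d) L) i (β : Set ℂ) z =
        zV S (Vin S P d) (Bl S (Vin S P d) L) i ((β ∩ Vin S P d : Finset ℂ) : Set ℂ) z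
      unfold zV
      rw [hitsV_inter]]
  unfold IndLoc3x279.cav
  congr 1
  refine Finset.sum_congr rfl fun β hβ => ?_
  simp only
  rw [Sf_clr hS, bl_clr (Finset.mem_powerset.1 hβ)]

/-- **the mean end point is a measurable functional** -/
theorem fme_mU (hW : MeasurableSet W)
    (hP : MeasurableSet {x | Metric.closedBall x (2 * d) ⊆ P})
    (hL : ∀ i, MeasurableSet {x | L x = i}) (i : ZMod 3) {z : ℂ → ℂ} (hz : Measurable z) :
    FMe fun X => mU (Sf W X) P d L i z := by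
  have h1 := fme_cav (fme_yU (W := W) hW hP hL i hz) hW
  intro n
  have e : (fun w : Fin n → ℂ × Bool => (fun X => mU (Sf W X) P d L i z) (range w)) =
      fun w => cav (fun X => zV (Sf W X) (Vin (Sf W X) P d)
        (Bl (Sf W X) (Vin (Sf W X) P d) L) i (bl X) z) (Sf W (range w)) := by
    funext w
    exact mU_cav (by rw [Sf_coe (finite_range w)]; exact inter_subset_right) i z
  rw [e]
  exact h1 n

theorem Sf_local (W : Set ℂ) : LocalOn W fun X : Set (ℂ × Bool) => Sf W X :=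
  IndLoc3x279.ps_local (fun Q => IndLoc3x279.fs Q) W

theorem Sf_eq {ε : ℝ} (hε : 0 < ε) (hb : Bornology.IsBounded W) (ω : Sample) :
    Sf W (cfg ε ω) = Ap ε W ω := by
  exact (Sf_local W (cfg ε ω)).trans (Sf_cfg hε hb ω)

/-- a functional of the sites in `W` -/
theorem sig_of {ε : ℝ} (hε : 0 < ε) (hb : Bornology.IsBounded W) {U : Set ℂ} (hWU : W ⊆ U)
    {Y : Type*} [MeasurableSpace Y] {f : Finset ℂ → Y} (hf : FMe fun X => f (Sf W X)) :
    Measurable[sig ε U] fun ω => f (Ap ε W ω) := by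
  have h1 : LocalOn W fun X => f (Sf W X) := fun X => congrArg f (Sf_local W X)
  have h2 := meas_sig (ε := ε) (IndLocx279.LocalOn.mono hWU h1) hf
  simp only [Sf_eq hε hb] at h2
  exact h2

/-- the total is a function of the points in the window -/
theorem sig_TU {ε : ℝ} (hε : 0 < ε) (hb : Bornology.IsBounded W) {U : Set ℂ} (hWU : W ⊆ U)
    (hW : MeasurableSet W) (hP : MeasurableSet {x | Metric.closedBall x (2 * d) ⊆ P})
    (hL : ∀ i, MeasurableSet {x | L x = i}) {z : ℂ → ℂ} (hz : Measurable z) :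
    Measurable[sig ε U] fun ω => TU (Ap ε W ω) P d L z :=
  sig_of hε hb hWU (f := fun S => TU S P d L z) (fme_TU hW hP hL hz)

theorem sig_mU {ε : ℝ} (hε : 0 < ε) (hb : Bornology.IsBounded W) {U : Set ℂ} (hWU : W ⊆ U)
    (hW : MeasurableSet W) (hP : MeasurableSet {x | Metric.closedBall x (2 * d) ⊆ P})
    (hL : ∀ i, MeasurableSet {x | L x = i}) (i : ZMod 3) {z : ℂ → ℂ} (hz : Measurable z) :
    Measurable[sig ε U] fun ω => mU (Ap ε W ω) P d L i z :=
  sig_of hε hb hWU (f := fun S => mU S P d L i z) (fme_mU hW hP hL i hz)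

end meas

/-! ### the frozen polygons -/

variable {u : Poly} {ε : ℝ} {U : Set ℂ}

/-- the mean end point of the points in `P` -/
def mI (u : Poly) (ε : ℝ) (i : ZMod 3) (z : ℂ → ℂ) (ω : Sample) : ℂ :=
  mU (Ap ε u.P ω) u.P √ε u.Lab i z

theorem sig_mI (hε : 0 < ε) (u : Poly) (hU : u.P ⊆ U) (i : ZMod 3) {z : ℂ → ℂ}
    (hz : Measurable z) : Measurable[sig ε U] (mI u ε i z) :=
  sig_mU hε (isCompact_P u).isBounded hU (isCompact_P u).isClosed.measurableSet (meas_deep u _)
    (meas_Lab u) i hz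

theorem sig_Tin (hε : 0 < ε) (u : Poly) (hU : u.P ⊆ U) {z : ℂ → ℂ}
    (hz : Measurable z) : Measurable[sig ε U] (Tin u ε z) :=
  sig_TU hε (isCompact_P u).isBounded hU (isCompact_P u).isClosed.measurableSet (meas_deep u _)
    (meas_Lab u) hz

theorem norm_mI (hε : 0 < ε) (u : Poly) {z : ℂ → ℂ} {b : ℝ} (h0 : 0 ≤ b)
    (h : ∀ v ∈ u.P, ‖z v‖ ≤ b) (i : ZMod 3) (ω : Sample) : ‖mI u ε i z ω‖ ≤ b :=
  norm_mU h0 (fun v hv => h v (by
    have : v ∈ (Ap ε u.P ω : Set ℂ) := hv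
    rw [coe_Ap hε (isCompact_P u).isBounded] at this
    exact this.2)) i

theorem Tin_eq (z : ℂ → ℂ) (ω : Sample) :
    Tin u ε z ω = 3 * ∑ i : ZMod 3, omz i * mI u ε i z ω := rfl

/-- without holes: function of the points in `P` -/
theorem mU_eq_mI (hε : 0 < ε) (u : Poly) {ω : Sample}
    (h : Hol (points ε ω ∩ Wn u ε) (deep u.P √ε) √ε) (i : ZMod 3) (z : ℂ → ℂ) :
    mU (u.S ε ω) u.P √ε u.Lab i z = mI u ε i z ω := by
  unfold mI
  rw [S_eq]
  refine mU_local (Real.sqrt_pos.2 hε) ?_ (fun x hx => ?_) (fun _ _ => rfl) i z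
  · rw [coe_Ap hε (bdd_Wn u ε)]
    exact h
  · have h1 : x ∈ (Ap ε (Wn u ε) ω : Set ℂ) ↔ x ∈ (Ap ε u.P ω : Set ℂ) := by
      rw [coe_Ap hε (bdd_Wn u ε), coe_Ap hε (isCompact_P u).isBounded]
      exact ⟨fun h => ⟨h.1, hx⟩, fun h => ⟨h.1, P_sub_Wn u ε hx⟩⟩
    exact h1

/-- **with probability `→ 1` all the mean end points of `u` are functions of the points in `P`** -/
theorem m_near (u : Poly) : Tendsto (fun ε : ℝ => sampleLaw {ω | ¬ ∀ (i : ZMod 3) (z : ℂ → ℂ),
    mU (u.S ε ω) u.P √ε u.Lab i z = mI u ε i z ω}) (𝓝[>] 0) (𝓝 0) := by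
  obtain ⟨R, hR⟩ := (isCompact_P u).isBounded.subset_closedBall 0
  refine tendsto_of_tendsto_of_tendsto_of_le_of_le' tendsto_const_nhds (hol_event R)
    (Eventually.of_forall fun _ => zero_le) ?_
  filter_upwards [self_mem_nhdsWithin] with ε hε
  have hε : 0 < ε := hε
  refine measure_mono ?_
  intro ω hω h
  exact hω fun i z => mU_eq_mI hε u (hol_of hε hR h) i z

/-! ### `a`, `b`, `D` of `PolyM_346` -/

/-- `a` of the points in `P` -/
def aI (u : Poly) (ε : ℝ) (ω : Sample) : ℂ := -∑ j : ZMod 3, omz j * mI u ε j id ω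

/-- `b` of the points in `P` -/
def bI (u : Poly) (ε : ℝ) (ω : Sample) : ℂ := -∑ j : ZMod 3, omz j ^ 2 * mI u ε j id ω

/-- displacements of the points in `P` -/
def DI (u : Poly) (ε : ℝ) (ω : Sample) (k : ZMod 3) : ℂ :=
  mI u ε (k + 2) id ω - mI u ε (k + 1) id ω

/-- **exact relation**, everywhere -/
theorem rlI (u : Poly) (ε : ℝ) (ω : Sample) : Rl (aI u ε ω) (bI u ε ω) (DI u ε ω) :=
  rl_of fun _ => rfl

theorem sig_aI (hε : 0 < ε) (u : Poly) (hU : u.P ⊆ U) : Measurable[sig ε U] (aI u ε) := by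
  unfold aI
  exact (Finset.measurable_fun_sum _ fun j _ =>
    (sig_mI hε u hU j measurable_id).const_mul (omz j)).neg

theorem sig_bI (hε : 0 < ε) (u : Poly) (hU : u.P ⊆ U) : Measurable[sig ε U] (bI u ε) := by
  unfold bI
  exact (Finset.measurable_fun_sum _ fun j _ =>
    (sig_mI hε u hU j measurable_id).const_mul (omz j ^ 2)).neg

theorem sig_DI (hε : 0 < ε) (u : Poly) (hU : u.P ⊆ U) (k : ZMod 3) :
    Measurable[sig ε U] fun ω => DI u ε ω k :=
  (sig_mI hε u hU (k + 2) measurable_id).sub (sig_mI hε u hU (k + 1) measurable_id)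

theorem norm_omz' (j : ZMod 3) : ‖omz j‖ = 1 := Alg4x133.norm_omz j

theorem norm_aI (hε : 0 < ε) (u : Poly) {R : ℝ} (h0 : 0 ≤ R) (h : ∀ v ∈ u.P, ‖v‖ ≤ R)
    (ω : Sample) : ‖aI u ε ω‖ ≤ 3 * R := by
  unfold aI
  rw [norm_neg]
  refine (norm_sum_le _ _).trans ?_
  refine (Finset.sum_le_sum fun i _ => show _ ≤ R by
    rw [norm_mul, norm_omz', one_mul]; exact norm_mI hε u h0 h i ω).trans ?_
  rw [Finset.sum_const, Finset.card_univ, ZMod.card, nsmul_eq_mul]
  push_cast
  exact le_rfl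

theorem norm_bI (hε : 0 < ε) (u : Poly) {R : ℝ} (h0 : 0 ≤ R) (h : ∀ v ∈ u.P, ‖v‖ ≤ R)
    (ω : Sample) : ‖bI u ε ω‖ ≤ 3 * R := by
  unfold bI
  rw [norm_neg]
  refine (norm_sum_le _ _).trans ?_
  refine (Finset.sum_le_sum fun i _ => show _ ≤ R by
    rw [norm_mul, norm_pow, norm_omz', one_pow, one_mul]; exact norm_mI hε u h0 h i ω).trans ?_
  rw [Finset.sum_const, Finset.card_univ, ZMod.card, nsmul_eq_mul]
  push_cast
  exact le_rfl

theorem norm_DI (hε : 0 < ε) (u : Poly) {R : ℝ} (h0 : 0 ≤ R) (h : ∀ v ∈ u.P, ‖v‖ ≤ R)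
    (k : ZMod 3) (ω : Sample) : ‖DI u ε ω k‖ ≤ 2 * R := by
  unfold DI
  refine (norm_sub_le _ _).trans ?_
  have h1 := norm_mI hε u h0 (z := id) h (k + 2) ω
  have h2 := norm_mI hε u h0 (z := id) h (k + 1) ω
  linarith

/-- **with probability `→ 1`** `a`, `b`, `D` of `PolyM_346` are `aI`, `bI`, `DI` -/
theorem ab_near (u : Poly) : Tendsto (fun ε : ℝ => sampleLaw {ω | ¬ (PolyMx346.a u ε ω = aI u ε ω ∧
    PolyMx346.b u ε ω = bI u ε ω ∧ ∀ k, PolyMx346.D u ε ω k = DI u ε ω k)}) (𝓝[>] 0) (𝓝 0) := by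
  refine tendsto_of_tendsto_of_tendsto_of_le_of_le tendsto_const_nhds (m_near u)
    (fun _ => zero_le) fun ε => measure_mono ?_
  intro ω hω h
  apply hω
  have h1 : ∀ i, PolyMx346.m u ε ω i = mI u ε i id ω := fun i => by rw [m_eq]; exact h i id
  refine ⟨?_, ?_, fun k => ?_⟩
  · unfold PolyMx346.a aI
    simp only [h1]
  · unfold PolyMx346.b bI
    simp only [h1]
  · unfold PolyMx346.D DI
    simp only [h1]

/-! ### POLY for the exact functions of the points in `P` -/

/-- change of the observables on events of small probability -/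
theorem poly_near {a b a' b' : Poly → ℝ → Sample → ℂ}
    (h : ∀ u, Tendsto (fun ε : ℝ => sampleLaw {ω | ¬ (a u ε ω = a' u ε ω ∧ b u ε ω = b' u ε ω)})
      (𝓝[>] 0) (𝓝 0)) (hP : POLY a' b') : POLY a b := by
  intro u u' η hη
  have h2 : (0 : ℝ≥0∞) < ENNReal.ofReal (η / 2) := ENNReal.ofReal_pos.2 (by linarith)
  have key : ∀ {x : ℝ} {A B C : Set Sample}, sampleLaw C ≤ ENNReal.ofReal (η / 2) →
      sampleLaw B ≤ ENNReal.ofReal (η / 2) → A ⊆ C ∪ B → sampleLaw A ≤ ENNReal.ofReal η := by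
    intro x A B C h3 h4 h5
    refine (measure_mono h5).trans ((measure_union_le _ _).trans ?_)
    refine (add_le_add h3 h4).trans ?_
    rw [← ENNReal.ofReal_add (by linarith) (by linarith), add_halves]
  filter_upwards [hP u u' (η / 2) (by linarith), (h u).eventually (ge_mem_nhds h2),
    (h u').eventually (ge_mem_nhds h2)] with ε h3 h4 h5
  rcases h3 with h3 | h3
  · left
    refine key (x := 0) h4 h3 fun ω hω => ?_
    have hω : η < ‖a u ε ω‖ := hω
    by_cases hc : a u ε ω = a' u ε ω ∧ b u ε ω = b' u ε ω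
    · right
      show η / 2 < ‖a' u ε ω‖
      rw [← hc.1]
      linarith
    · left; exact hc
  · right
    refine key (x := 0) h5 h3 fun ω hω => ?_
    have hω : η < ‖b u' ε ω‖ := hω
    by_cases hc : a u' ε ω = a' u' ε ω ∧ b u' ε ω = b' u' ε ω
    · right
      show η / 2 < ‖b' u' ε ω‖
      rw [← hc.2]
      linarith
    · left; exact hc

/-- **POLY for the frozen totals from the exact functions of the points in `P`** -/
theorem poly_of_in (h : POLY aI bI) : POLY Poly.T Poly.T' := by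
  refine PolyMx346.poly_of_ab (poly_near (fun u => ?_) h)
  refine tendsto_of_tendsto_of_tendsto_of_le_of_le tendsto_const_nhds (ab_near u)
    (fun _ => zero_le) fun ε => measure_mono ?_
  intro ω hω h
  exact hω ⟨h.1, h.2.1⟩

/-- **POLY from the corridor data** for the exact functions of the points in `P` -/
theorem poly_of_corI {I : Type} {𝓁 : Filter I} [𝓁.NeBot] {κ : I → ℝ → ℂ}
    {ms : Poly → I → ℝ → MeasurableSpace Sample}
    {G : Poly → I → ℝ → Set Sample} {e : Poly → I → ℝ → ℝ}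
    (hG : ∀ u, DP 𝓁 fun N ε => (G u N ε)ᶜ) (he : ∀ u, DL 𝓁 (e u))
    (h : ∀ u, ∀ᶠ N in 𝓁, ∀ᶠ ε : ℝ in 𝓝[>] 0, ∀ k : ZMod 3,
      CrG (omz k ^ 2) (κ N ε) (ms u N ε) (G u N ε) (aI u ε) (fun ω => DI u ε ω k) (e u N ε)) :
    POLY Poly.T Poly.T' :=
  poly_of_in (poly_of_g hG he h fun _ => Eventually.of_forall fun _ =>
    Eventually.of_forall fun ε ω _ => rlI _ ε ω)

/-- integrability -/
theorem int_aI (hε : 0 < ε) (u : Poly) : Integrable (aI u ε) sampleLaw := by
  have : IsProbabilityMeasure sampleLaw := by unfold sampleLaw; infer_instance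
  obtain ⟨R, hR⟩ := (isCompact_P u).isBounded.subset_closedBall 0
  have h1 : ∀ v ∈ u.P, ‖v‖ ≤ |R| := fun v hv => by
    have := hR hv
    rw [Metric.mem_closedBall, dist_zero_right] at this
    exact this.trans (le_abs_self R)
  refine Integrable.of_bound ?_ (3 * |R|) (ae_of_all _ fun ω => norm_aI hε u (abs_nonneg R) h1 ω)
  exact ((sig_aI hε u subset_rfl).mono (sig_le hε (isCompact_P u).isClosed.measurableSet
    (isCompact_P u).isBounded) le_rfl).aestronglyMeasurable

theorem int_DI (hε : 0 < ε) (u : Poly) (k : ZMod 3) :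
    Integrable (fun ω => DI u ε ω k) sampleLaw := by
  have : IsProbabilityMeasure sampleLaw := by unfold sampleLaw; infer_instance
  obtain ⟨R, hR⟩ := (isCompact_P u).isBounded.subset_closedBall 0
  have h1 : ∀ v ∈ u.P, ‖v‖ ≤ |R| := fun v hv => by
    have := hR hv
    rw [Metric.mem_closedBall, dist_zero_right] at this
    exact this.trans (le_abs_self R)
  refine Integrable.of_bound ?_ (2 * |R|) (ae_of_all _ fun ω => norm_DI hε u (abs_nonneg R) h1 k ω)
  exact ((sig_DI hε u subset_rfl k).mono (sig_le hε (isCompact_P u).isClosed.measurableSet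
    (isCompact_P u).isBounded) le_rfl).aestronglyMeasurable

end Crest.Agent.R143.MeasDx609
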