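import Crest.Agent.R143.RigD_654
import Crest.Agent.R143.PolyE_854
import Crest.Agent.R143.MeasD_609
import Crest.Agent.R143.LayU_416
import Crest.Agent.R143.CorN_765

/-!
# Row 143 (S0194), CORE-C, RIG: the layout parameters and the contract of the last step (helper854)

* `hN N = 2⁻ᴺ` side of a tile, `mN u N = 2^(N - u.n)`; `mN_hN : mN u N * hN N = u.s`, `mN_10`
* `ly u N : Ly` the layout of 416 (chosen once), `ly_spec : u.n + 4 ≤ N → LayU ..`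
* `nT u i N` out tiles of the label `i`, `JT u i N` = 765's `SJ` with `2 ≤ l`, `l + 2 < nT`; `mem_JT`,
  `JT_SJ`, `nT_le`, `JT_sub`, `JT_card`
* `rT e0 c N` index distance for the precision `e0`; `rT_le`, `idx`, `ev_idx`
* `RigW κ u w` : the contract indexed by the white label, `T := aI`, `D := DI w` (609);
  **`poly_of_rigW`**
* `RigIn m κ u i` : the contract for one polygon and one type (970's total error `tot`, with the
  parameters `K = C1 h`, ...); **`poly_of_rigIn`** (346's `m`), **`poly_of_rigInI`** (609's `mI`)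
-/

set_option autoImplicit false

noncomputable section

open scoped Classical

namespace Crest.Agent.R143.RigPx854

open Complex Set Filter Topology MeasureTheory
open scoped ENNReal
open Crest.ProbabilityR.Voronoi
open Crest.Agent.R143.B0x346
open Crest.Agent.R143.AsmNx758 (POLY)
open Crest.Agent.R143.PolyUx346 (Poly)
open Crest.Agent.R143.CorMx970 (tot)
open Crest.Agent.R143.RigCx654 (tI dI sg sg' dd Lx key_norm rl poly_ends)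
open Crest.Agent.R143.PolyQx854 Crest.Agent.R143.PolySx854 Crest.Agent.R143.PolyEx854
open Crest.Agent.R143.Layx416 Crest.Agent.R143.LayUx416
open Crest.Agent.R143.CorNx765 (SJ SJ_sub SJ_card)
open Crest.Agent.R143.LayQx811 (sd2 sd2_le)

/-! ### the scales -/

/-- side of a tile -/
def hN (N : ℕ) : ℝ := (1 / 2) ^ N

/-- number of tiles on a unit edge of `u` -/
def mN (u : Poly) (N : ℕ) : ℕ := 2 ^ (N - u.n)

theorem hN_pos (N : ℕ) : 0 < hN N := by unfold hN; positivity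

theorem hN_tendsto : Tendsto hN atTop (𝓝 0) :=
  tendsto_pow_atTop_nhds_zero_of_lt_one (by norm_num) (by norm_num)

theorem mN_hN {u : Poly} {N : ℕ} (h : u.n ≤ N) : (mN u N : ℝ) * hN N = u.s := by
  unfold mN hN Poly.s
  obtain ⟨k, rfl⟩ := Nat.exists_eq_add_of_le h
  rw [Nat.add_sub_cancel_left, pow_add]
  push_cast
  have : (2 : ℝ) ^ k * (1 / 2) ^ k = 1 := by rw [← mul_pow]; norm_num
  linear_combination (1 / 2 : ℝ) ^ u.n * this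

theorem mN_10 {u : Poly} {N : ℕ} (h : u.n + 4 ≤ N) : 10 ≤ mN u N := by
  unfold mN
  calc 10 ≤ 2 ^ 4 := by norm_num
    _ ≤ 2 ^ (N - u.n) := Nat.pow_le_pow_right (by norm_num) (by omega)

theorem mN_mono {u : Poly} (k : ℕ) : ∀ᶠ N in atTop, k ≤ mN u N := by
  filter_upwards [eventually_ge_atTop (u.n + k)] with N h
  unfold mN
  exact (Nat.lt_two_pow_self (n := k)).le.trans (Nat.pow_le_pow_right (by norm_num) (by omega))

/-! ### the layout, chosen once -/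

/-- a layout -/
structure Ly where
  M : ℕ
  p : ℤ → ℤ × ℤ
  W : ℤ → ℤ × ℤ
  A : ℤ → ℤ
  e : ℤ → ℤ

/-- the layout of `u` at the scale `N` -/
def ly (u : Poly) (N : ℕ) : Ly :=
  if h : ∃ y : Ly, LayU u (mN u N) y.M y.p y.W y.A y.e then h.choose
  else ⟨0, 0, 0, 0, 0⟩

theorem ly_spec {u : Poly} {N : ℕ} (h : u.n + 4 ≤ N) :
    LayU u (mN u N) (ly u N).M (ly u N).p (ly u N).W (ly u N).A (ly u N).e := by
  have h1 : ∃ y : Ly, LayU u (mN u N) y.M y.p y.W y.A y.e := by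
    obtain ⟨M, p, W, A, e, H⟩ := exists_layU u (mN_10 h)
    exact ⟨⟨M, p, W, A, e⟩, H⟩
  unfold ly
  rw [dif_pos h1]
  exact h1.choose_spec

/-- number of the out tiles -/
def nT (u : Poly) (i : ZMod 3) (N : ℕ) : ℕ := nn (ly u N).A (ly u N).e i

/-- straight out tiles with straight neighbours; two out tiles before and after -/
def JT (u : Poly) (i : ZMod 3) (N : ℕ) : Finset ℕ :=
  (SJ (ly u N).W (ly u N).A (ly u N).e i).filter fun l => 2 ≤ l ∧ l + 2 < nT u i N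

theorem mem_JT {u : Poly} {i : ZMod 3} {N l : ℕ} : l ∈ JT u i N ↔
    l ∈ SJ (ly u N).W (ly u N).A (ly u N).e i ∧ 2 ≤ l ∧ l + 2 < nT u i N := Finset.mem_filter

theorem JT_SJ (u : Poly) (i : ZMod 3) (N : ℕ) : JT u i N ⊆ SJ (ly u N).W (ly u N).A (ly u N).e i :=
  Finset.filter_subset _ _

theorem JT_sub (u : Poly) (i : ZMod 3) (N : ℕ) : JT u i N ⊆ Finset.range (nT u i N) :=
  (JT_SJ u i N).trans (SJ_sub i)

theorem JT_card {u : Poly} (i : ZMod 3) {N : ℕ} (h : u.n + 4 ≤ N) :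
    (nT u i N : ℝ) - (JT u i N).card ≤ 3 * u.L + 4 := by
  have h2 : SJ (ly u N).W (ly u N).A (ly u N).e i ⊆ JT u i N ∪ {1, nT u i N - 2} := by
    intro l hl
    have h3 := CorNx765.mem_SJ.1 hl
    by_cases h4 : 2 ≤ l ∧ l + 2 < nT u i N
    · exact Finset.mem_union_left _ (mem_JT.2 ⟨hl, h4⟩)
    · refine Finset.mem_union_right _ ?_
      have h5 := h3.1
      have h6 : l + 1 < nT u i N := h3.2.1
      rw [Finset.mem_insert, Finset.mem_singleton]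
      omega
  have h3 := (Finset.card_le_card h2).trans (Finset.card_union_le _ _)
  have h4 : ({1, nT u i N - 2} : Finset ℕ).card ≤ 2 := Finset.card_le_two
  have h0 : nT u i N ≤ (SJ (ly u N).W (ly u N).A (ly u N).e i).card + (3 * u.L + 2) :=
    SJ_card (ly_spec h).lay i
  have h1 : (nT u i N : ℝ) ≤ ((JT u i N).card + (3 * u.L + 4) : ℕ) := by
    exact_mod_cast (by omega : nT u i N ≤ (JT u i N).card + (3 * u.L + 4))
  push_cast at h1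
  linarith

theorem nT_le {u : Poly} (i : ZMod 3) {N : ℕ} (h : u.n + 4 ≤ N) :
    (nT u i N : ℝ) * hN N ≤ 2 * u.L * u.s := by
  have H := ly_spec h
  have h1 := H.lay.nn_lt i
  have h2 := H.lay.M_le
  have h3 : ((ly u N).M : ℝ) ≤ u.L * (mN u N + 2) := by exact_mod_cast h2
  have h4 : (nT u i N : ℝ) ≤ (ly u N).M := by
    have : nT u i N ≤ (ly u N).M := by unfold nT; omega
    exact_mod_cast this
  have h5 := mN_hN (u := u) (N := N) (by omega)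
  have h6 : (10 : ℝ) ≤ mN u N := by exact_mod_cast mN_10 h
  have h7 := hN_pos N
  calc (nT u i N : ℝ) * hN N ≤ (u.L * (mN u N + 2)) * hN N :=
        mul_le_mul_of_nonneg_right (h4.trans h3) h7.le
    _ = u.L * (u.s + 2 * hN N) := by rw [← h5]; ring
    _ ≤ u.L * (u.s + u.s) := by
        refine mul_le_mul_of_nonneg_left ?_ (Nat.cast_nonneg _)
        rw [← h5]
        nlinarith
    _ = 2 * u.L * u.s := by ring

/-! ### index distance -/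

/-- index distance for the precision `e0`, with a slack of `c` tiles -/
def rT (e0 : ℝ) (c N : ℕ) : ℕ := 2 * (⌊e0 / hN N⌋₊ + c)

theorem rT_le {e0 : ℝ} (he : 0 ≤ e0) (c N : ℕ) :
    (rT e0 c N : ℝ) ≤ 2 * (c + 1) * (e0 / hN N + 1) := by
  have h1 : 0 ≤ e0 / hN N := div_nonneg he (hN_pos N).le
  have h2 := Nat.floor_le h1
  unfold rT
  push_cast
  have hc : (0 : ℝ) ≤ c := Nat.cast_nonneg c
  nlinarith

theorem int_le {e0 h : ℝ} (hh : 0 < h) {c : ℕ} {x y : ℤ}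
    (hd : |h * x - h * y| ≤ e0 + c * h) : |x - y| ≤ ((⌊e0 / h⌋₊ + c : ℕ) : ℤ) := by
  have h1 : (|x - y| : ℝ) ≤ e0 / h + c := by
    rw [← mul_sub, abs_mul, abs_of_pos hh] at hd
    have : |(x : ℝ) - y| ≤ (e0 + c * h) / h := by
      rw [le_div_iff₀ hh]; linarith
    refine this.trans (le_of_eq ?_)
    field_simp
  have h2 : ((|x - y| - c : ℤ) : ℝ) ≤ e0 / h := by push_cast; linarith
  by_cases h3 : |x - y| - c < 0
  · push_cast; omega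
  · push Not at h3
    obtain ⟨k, hk⟩ := Int.eq_ofNat_of_zero_le h3
    rw [hk] at h2
    have h4 : k ≤ ⌊e0 / h⌋₊ := Nat.le_floor (by exact_mod_cast h2)
    push_cast
    omega

/-- **index distance in the corridor of a label** -/
theorem idx {u : Poly} {N : ℕ} (h : u.n + 4 ≤ N) (i : ZMod 3) {e0 : ℝ} {c : ℕ}
    (hm : 2 * (⌊e0 / hN N⌋₊ + c) + 7 ≤ mN u N) {a b : ℤ}
    (a1 : al (ly u N).A (ly u N).e i ≤ a) (a2 : a ≤ be (ly u N).A (ly u N).e i)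
    (b1 : al (ly u N).A (ly u N).e i ≤ b) (b2 : b ≤ be (ly u N).A (ly u N).e i)
    (d1 : |hN N * ((ly u N).W a).1 - hN N * ((ly u N).W b).1| ≤ e0 + c * hN N)
    (d2 : |hN N * ((ly u N).W a).2 - hN N * ((ly u N).W b).2| ≤ e0 + c * hN N) :
    |a - b| ≤ rT e0 c N := by
  have H := (ly_spec h).lay
  have hab : sd2 ((ly u N).W a) ((ly u N).W b) ≤ ((⌊e0 / hN N⌋₊ + c : ℕ) : ℤ) :=
    sd2_le.2 ⟨int_le (hN_pos N) d1, int_le (hN_pos N) d2⟩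
  have h1 := H.quasi_cor i (r := ((⌊e0 / hN N⌋₊ + c : ℕ) : ℤ)) (by omega) (by omega) (by omega)
    hab a1 a2 b1 b2
  unfold rT
  push_cast at h1 ⊢
  exact h1

/-- the condition of `idx` holds for small `e0`, then large `N` -/
theorem ev_idx (u : Poly) (c : ℕ) : ∀ᶠ e0 : ℝ in 𝓝[>] 0, 0 < e0 ∧ ∀ᶠ N : ℕ in atTop,
    u.n + 4 ≤ N ∧ 2 * (⌊e0 / hN N⌋₊ + c) + 7 ≤ mN u N := by
  have h1 : ∀ᶠ e0 : ℝ in 𝓝[>] 0, e0 < u.s / 4 :=
    nhdsWithin_le_nhds (gt_mem_nhds (by have := u.s_pos; positivity))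
  filter_upwards [h1, self_mem_nhdsWithin] with e0 h2 (h3 : 0 < e0)
  refine ⟨h3, ?_⟩
  filter_upwards [eventually_ge_atTop (u.n + 4), mN_mono (u := u) (4 * c + 14)] with N h4 h5
  refine ⟨h4, ?_⟩
  have h6 := mN_hN (u := u) (N := N) (by omega)
  have h7 := hN_pos N
  have h8 : e0 / hN N ≤ mN u N / 4 := by
    rw [div_le_iff₀ h7]
    have : (mN u N : ℝ) / 4 * hN N = u.s / 4 := by rw [← h6]; ring
    rw [this]; exact h2.le
  have h9 : (⌊e0 / hN N⌋₊ : ℝ) ≤ mN u N / 4 := (Nat.floor_le (by positivity)).trans h8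
  have h10 : (4 * ⌊e0 / hN N⌋₊ : ℕ) ≤ mN u N := by
    have : ((4 * ⌊e0 / hN N⌋₊ : ℕ) : ℝ) ≤ mN u N := by push_cast; linarith
    exact_mod_cast this
  omega

/-! ### the total error, displacement error small in the triple limit -/

/-- 970's total error with a displacement error `c e0 N ε` which is small in the triple limit -/
theorem t3_tot' {𝓁 : Filter ℕ} {h : ℕ → ℝ} (h0 : ∀ᶠ N in 𝓁, 0 < h N) (hh : Tendsto h 𝓁 (𝓝 0))
    {n : ℕ → ℕ} {r : ℝ → ℕ → ℕ} {J : ℕ → Finset ℕ} {K : ℕ → ℝ}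
    {a1 q q' κn : ℕ → ℝ → ℝ} {a2 θ ρ c : ℝ → ℕ → ℝ → ℝ} {C1 C2 C3 C5 C6 C7 : ℝ}
    (hC1 : 0 ≤ C1)
    (hK : ∀ᶠ N in 𝓁, K N = C1 * h N)
    (hn : ∀ᶠ N in 𝓁, n N * h N ≤ C2)
    (hJ : ∀ᶠ N in 𝓁, (n N : ℝ) - (J N).card ≤ C5)
    (hr : ∀ᶠ e0 : ℝ in 𝓝[>] 0, ∀ᶠ N in 𝓁, (r e0 N : ℝ) ≤ C7 * (e0 / h N + 1))
    (hq : ∀ᶠ N in 𝓁, ∀ᶠ ε : ℝ in 𝓝[>] 0, q N ε ≤ C3 * √(h N))
    (hq' : ∀ᶠ N in 𝓁, ∀ᶠ ε : ℝ in 𝓝[>] 0, q' N ε ≤ C3 * √(h N))
    (hκ0 : ∀ᶠ N in 𝓁, ∀ᶠ ε : ℝ in 𝓝[>] 0, 0 ≤ κn N ε)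
    (hκ : ∀ᶠ N in 𝓁, ∀ᶠ ε : ℝ in 𝓝[>] 0, κn N ε ≤ C6)
    (h1 : DL 𝓁 a1) (h2 : T3 𝓁 a2) (hθ : T3 𝓁 θ) (hρ : T3 𝓁 ρ) (hc : T3 𝓁 c)
    (hθ0 : ∀ᶠ e0 : ℝ in 𝓝[>] 0, ∀ᶠ N in 𝓁, ∀ᶠ ε : ℝ in 𝓝[>] 0, 0 ≤ θ e0 N ε) :
    T3 𝓁 fun e0 N ε => tot (n N) (r e0 N) (J N) (a1 N ε) (a2 e0 N ε) (K N) (q N ε) (q' N ε)
      (c e0 N ε) (θ e0 N ε) (ρ e0 N ε) (κn N ε) := by
  have e1 := t3_tot (𝓁 := 𝓁) (c := fun _ _ => 0) (C4 := 0) h0 hh hC1 le_rfl hK hn hJ hr hq hq'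
    (Eventually.of_forall fun _ => Eventually.of_forall fun _ => by simp) hκ0 hκ h1 h2 hθ hρ hθ0
  have e2 : T3 𝓁 fun e0 N ε => κn N ε * max (c e0 N ε) 0 :=
    t3_mul_bdd (b := fun _ N ε => κn N ε) (C := C6) (t3_max0 hc)
      (Eventually.of_forall fun _ => Eventually.of_forall fun _ => Eventually.of_forall fun _ =>
        le_max_right _ _) (Eventually.of_forall fun _ => hκ)
  refine (e1.add e2).mono ?_
  refine Eventually.of_forall fun e0 => ?_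
  filter_upwards [hκ0] with N h3
  filter_upwards [h3] with ε h4
  have h5 : κn N ε * c e0 N ε ≤ κn N ε * max (c e0 N ε) 0 :=
    mul_le_mul_of_nonneg_left (le_max_left _ _) h4
  unfold tot
  linarith

/-! ### the contract -/

/-- **one polygon, one type** `i` (black giants `i`, `i + 1`, white giant `i + 2`; the corridor is the
corridor of the WHITE label `i + 2`): the corridor identity with 970's total error; `h = hN N`,
`K = C1 h`, `q, q' ≤ C3 √h`, `‖κ‖ ≤ C6`, index distance `r ≤ C7 (e0 / h + 1)`, `a1` small for fixed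
width, `a2, θ, ρ` and the displacement error `c` small in the triple limit -/
structure RigIn (m : ℝ → Sample → ZMod 3 → ℂ) (κ : ℕ → ℝ → ℂ) (u : Poly) (i : ZMod 3) where
  C1 : ℝ
  C3 : ℝ
  C6 : ℝ
  C7 : ℝ
  r : ℝ → ℕ → ℕ
  a1 : ℕ → ℝ → ℝ
  q : ℕ → ℝ → ℝ
  q' : ℕ → ℝ → ℝ
  c : ℝ → ℕ → ℝ → ℝ
  a2 : ℝ → ℕ → ℝ → ℝ
  θ : ℝ → ℕ → ℝ → ℝ
  ρ : ℝ → ℕ → ℝ → ℝ
  hC1 : 0 ≤ C1
  hr : ∀ᶠ e0 : ℝ in 𝓝[>] 0, ∀ᶠ N in atTop, (r e0 N : ℝ) ≤ C7 * (e0 / hN N + 1)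
  hq : ∀ᶠ N in atTop, ∀ᶠ ε : ℝ in 𝓝[>] 0, q N ε ≤ C3 * √(hN N)
  hq' : ∀ᶠ N in atTop, ∀ᶠ ε : ℝ in 𝓝[>] 0, q' N ε ≤ C3 * √(hN N)
  hκ : ∀ᶠ N in atTop, ∀ᶠ ε : ℝ in 𝓝[>] 0, ‖κ N ε‖ ≤ C6
  h1 : DL atTop a1
  h2 : T3 atTop a2
  hθ : T3 atTop θ
  hρ : T3 atTop ρ
  hc : T3 atTop c
  hθ0 : ∀ᶠ e0 : ℝ in 𝓝[>] 0, ∀ᶠ N in atTop, ∀ᶠ ε : ℝ in 𝓝[>] 0, 0 ≤ θ e0 N ε
  lx : ∀ᶠ e0 : ℝ in 𝓝[>] 0, ∀ᶠ N in atTop, ∀ᶠ ε : ℝ in 𝓝[>] 0,
    Lx om (κ N ε) (fun ω => tI (m ε ω) i) (fun ω => dI (m ε ω) i)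
      (tot (nT u (i + 2) N) (r e0 N) (JT u (i + 2) N) (a1 N ε) (a2 e0 N ε) (C1 * hN N) (q N ε)
        (q' N ε) (c e0 N ε) (θ e0 N ε) (ρ e0 N ε) ‖κ N ε‖)

/-- the total error of a contract -/
def RigIn.err {m : ℝ → Sample → ZMod 3 → ℂ} {κ : ℕ → ℝ → ℂ} {u : Poly} {i : ZMod 3}
    (R : RigIn m κ u i) (e0 : ℝ) (N : ℕ) (ε : ℝ) : ℝ :=
  tot (nT u (i + 2) N) (R.r e0 N) (JT u (i + 2) N) (R.a1 N ε) (R.a2 e0 N ε) (R.C1 * hN N)
    (R.q N ε) (R.q' N ε) (R.c e0 N ε) (R.θ e0 N ε) (R.ρ e0 N ε) ‖κ N ε‖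

theorem RigIn.t3 {m : ℝ → Sample → ZMod 3 → ℂ} {κ : ℕ → ℝ → ℂ} {u : Poly} {i : ZMod 3}
    (R : RigIn m κ u i) : T3 atTop R.err :=
  t3_tot' (𝓁 := atTop) (h := hN) (Eventually.of_forall hN_pos) hN_tendsto (n := nT u (i + 2))
    (J := JT u (i + 2)) (K := fun N => R.C1 * hN N) (κn := fun N ε => ‖κ N ε‖)
    (C2 := 2 * u.L * u.s) (C5 := 3 * u.L + 4) R.hC1 (Eventually.of_forall fun _ => rfl)
    ((eventually_ge_atTop (u.n + 4)).mono fun _ h => nT_le (i + 2) h)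
    ((eventually_ge_atTop (u.n + 4)).mono fun _ h => JT_card (i + 2) h)
    R.hr R.hq R.hq'
    (Eventually.of_forall fun _ => Eventually.of_forall fun _ => norm_nonneg _) R.hκ R.h1 R.h2
    R.hθ R.hρ R.hc R.hθ0

/-- the optimal error -/
def opt (m : Poly → ℝ → Sample → ZMod 3 → ℂ) (κ : ℕ → ℝ → ℂ) (u : Poly) (N : ℕ) (ε : ℝ) : ℝ :=
  ∑ i ∈ (Finset.univ : Finset (ZMod 3)),
    ∫ ω, ‖om * tI (m u ε ω) i + κ N ε * dI (m u ε ω) i‖ ∂sampleLaw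

theorem opt_dl {m : Poly → ℝ → Sample → ZMod 3 → ℂ} {κ : ℕ → ℝ → ℂ} {u : Poly}
    (h : ∀ i, Nonempty (RigIn (m u) κ u i)) : DL atTop (opt m κ u) := by
  refine DL.sum (a := fun i N ε => ∫ ω, ‖om * tI (m u ε ω) i + κ N ε * dI (m u ε ω) i‖ ∂sampleLaw)
    _ fun i _ η hη => ?_
  obtain ⟨R⟩ := h i
  obtain ⟨e0, h1, h2⟩ := ((R.t3 η hη).and R.lx).exists
  filter_upwards [h1, h2] with N h3 h4
  filter_upwards [h3, h4] with ε h5 h6
  exact h6.le.trans h5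

theorem opt_lx {m : Poly → ℝ → Sample → ZMod 3 → ℂ} {κ : ℕ → ℝ → ℂ} {u : Poly}
    (h : ∀ i, Nonempty (RigIn (m u) κ u i)) : ∀ᶠ N in atTop, ∀ᶠ ε : ℝ in 𝓝[>] 0, ∀ i : ZMod 3,
      Lx om (κ N ε) (fun ω => tI (m u ε ω) i) (fun ω => dI (m u ε ω) i) (opt m κ u N ε) := by
  have h1 : ∀ᶠ _N : ℕ in atTop, ∀ i : ZMod 3, ∀ᶠ ε : ℝ in 𝓝[>] 0,
      Integrable (fun ω => tI (m u ε ω) i) sampleLaw ∧
        Integrable (fun ω => dI (m u ε ω) i) sampleLaw := by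
    refine Filter.eventually_all.2 fun i => ?_
    obtain ⟨R⟩ := h i
    obtain ⟨e0, h2⟩ := R.lx.exists
    filter_upwards [h2] with N h3
    filter_upwards [h3] with ε h4
    exact ⟨h4.iT, h4.iD⟩
  filter_upwards [h1] with N h2
  filter_upwards [Filter.eventually_all.2 h2] with ε h3 i
  refine ⟨(h3 i).1, (h3 i).2, ?_⟩
  exact Finset.single_le_sum
    (f := fun i => ∫ ω, ‖om * tI (m u ε ω) i + κ N ε * dI (m u ε ω) i‖ ∂sampleLaw)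
    (fun _ _ => integral_nonneg fun _ => norm_nonneg _) (Finset.mem_univ i)

/-- **RIG from the contracts**, for 346's mean end points -/
theorem poly_of_rigIn {κ : ℕ → ℝ → ℂ}
    (h : ∀ (u : Poly) (i : ZMod 3), Nonempty (RigIn (PolyMx346.m u) κ u i)) :
    POLY Poly.T Poly.T' :=
  RigDx654.rig_ends (κ := κ) (fun u => opt_dl (m := fun u => PolyMx346.m u) (h u)) fun u =>
    opt_lx (m := fun u => PolyMx346.m u) (h u)

theorem rigp_of_lx {U I : Type} {𝓁 : Filter I} [𝓁.NeBot] {κ : I → ℝ → ℂ}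
    {m : U → ℝ → Sample → ZMod 3 → ℂ} {e : U → I → ℝ → ℝ} (he : ∀ u, DL 𝓁 (e u))
    (h : ∀ u, ∀ᶠ N in 𝓁, ∀ᶠ ε : ℝ in 𝓝[>] 0, ∀ i : ZMod 3,
      Lx om (κ N ε) (fun ω => tI (m u ε ω) i) (fun ω => dI (m u ε ω) i) (e u N ε)) :
    RIGP (fun u ε ω => -sg (m u ε ω)) (fun u ε ω => dd (m u ε ω)) := by
  intro F η hη
  obtain ⟨N, hN⟩ := ((Filter.eventually_all_finset F).2 fun u _ =>
    (h u).and (he u (η ^ 2) (by positivity))).exists
  filter_upwards [(Filter.eventually_all_finset F).2 fun u hu => (hN u hu).1.and (hN u hu).2]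
    with ε hε
  refine ⟨-(om * κ N ε), fun u hu k => ?_⟩
  obtain ⟨h1, h2⟩ := hε u hu
  have h3 := (h1 (k + 1)).prob hη h2
  refine (measure_mono fun ω hω => ?_).trans h3
  simp only [mem_ofPred_eq] at hω ⊢
  rwa [key_norm] at hω

/-- **RIG from the contracts**, for 609's mean end points of the points in `u.P` -/
theorem poly_of_rigInI {κ : ℕ → ℝ → ℂ}
    (h : ∀ (u : Poly) (i : ZMod 3),
      Nonempty (RigIn (fun ε ω j => MeasDx609.mI u ε j id ω) κ u i)) :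
    POLY Poly.T Poly.T' := by
  have hP := rigp_of_lx (κ := κ) (m := fun u ε ω j => MeasDx609.mI u ε j id ω)
    (e := opt (fun u ε ω j => MeasDx609.mI u ε j id ω) κ)
    (fun u => opt_dl (m := fun u ε ω j => MeasDx609.mI u ε j id ω) (h u))
    fun u => opt_lx (m := fun u ε ω j => MeasDx609.mI u ε j id ω) (h u)
  refine MeasDx609.poly_of_in (poly_of_p (D := fun u ε ω => dd fun j => MeasDx609.mI u ε j id ω)
    hP fun u η hη => ?_)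
  refine Eventually.of_forall fun ε => ?_
  have h2 : ∀ ω, Crest.Agent.R143.Alg4x133.Rl (MeasDx609.aI u ε ω) (MeasDx609.bI u ε ω)
      (dd fun j => MeasDx609.mI u ε j id ω) := fun ω => rl _
  simp only [h2, not_true_eq_false, ofPred_false, measure_empty, zero_le]

/-! ### the contract indexed by the white label -/

/-- **one polygon, one white label** `w` : the same with `T := aI`, `D := DI w`, phase `omz w ^ 2` -/
structure RigW (κ : ℕ → ℝ → ℂ) (u : Poly) (w : ZMod 3) where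
  C1 : ℝ
  C3 : ℝ
  C6 : ℝ
  C7 : ℝ
  r : ℝ → ℕ → ℕ
  a1 : ℕ → ℝ → ℝ
  q : ℕ → ℝ → ℝ
  q' : ℕ → ℝ → ℝ
  c : ℝ → ℕ → ℝ → ℝ
  a2 : ℝ → ℕ → ℝ → ℝ
  θ : ℝ → ℕ → ℝ → ℝ
  ρ : ℝ → ℕ → ℝ → ℝ
  hC1 : 0 ≤ C1
  hr : ∀ᶠ e0 : ℝ in 𝓝[>] 0, ∀ᶠ N in atTop, (r e0 N : ℝ) ≤ C7 * (e0 / hN N + 1)
  hq : ∀ᶠ N in atTop, ∀ᶠ ε : ℝ in 𝓝[>] 0, q N ε ≤ C3 * √(hN N)
  hq' : ∀ᶠ N in atTop, ∀ᶠ ε : ℝ in 𝓝[>] 0, q' N ε ≤ C3 * √(hN N)
  hκ : ∀ᶠ N in atTop, ∀ᶠ ε : ℝ in 𝓝[>] 0, ‖κ N ε‖ ≤ C6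
  h1 : DL atTop a1
  h2 : T3 atTop a2
  hθ : T3 atTop θ
  hρ : T3 atTop ρ
  hc : T3 atTop c
  hθ0 : ∀ᶠ e0 : ℝ in 𝓝[>] 0, ∀ᶠ N in atTop, ∀ᶠ ε : ℝ in 𝓝[>] 0, 0 ≤ θ e0 N ε
  lx : ∀ᶠ e0 : ℝ in 𝓝[>] 0, ∀ᶠ N in atTop, ∀ᶠ ε : ℝ in 𝓝[>] 0,
    L1D (omz w ^ 2) (κ N ε) (MeasDx609.aI u ε) (fun ω => MeasDx609.DI u ε ω w)
      (tot (nT u w N) (r e0 N) (JT u w N) (a1 N ε) (a2 e0 N ε) (C1 * hN N) (q N ε)
        (q' N ε) (c e0 N ε) (θ e0 N ε) (ρ e0 N ε) ‖κ N ε‖)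

/-- the total error of a contract -/
def RigW.err {κ : ℕ → ℝ → ℂ} {u : Poly} {w : ZMod 3} (R : RigW κ u w) (e0 : ℝ) (N : ℕ)
    (ε : ℝ) : ℝ :=
  tot (nT u w N) (R.r e0 N) (JT u w N) (R.a1 N ε) (R.a2 e0 N ε) (R.C1 * hN N)
    (R.q N ε) (R.q' N ε) (R.c e0 N ε) (R.θ e0 N ε) (R.ρ e0 N ε) ‖κ N ε‖

theorem RigW.t3 {κ : ℕ → ℝ → ℂ} {u : Poly} {w : ZMod 3} (R : RigW κ u w) : T3 atTop R.err :=
  t3_tot' (𝓁 := atTop) (h := hN) (Eventually.of_forall hN_pos) hN_tendsto (n := nT u w)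
    (J := JT u w) (K := fun N => R.C1 * hN N) (κn := fun N ε => ‖κ N ε‖)
    (C2 := 2 * u.L * u.s) (C5 := 3 * u.L + 4) R.hC1 (Eventually.of_forall fun _ => rfl)
    ((eventually_ge_atTop (u.n + 4)).mono fun _ h => nT_le w h)
    ((eventually_ge_atTop (u.n + 4)).mono fun _ h => JT_card w h)
    R.hr R.hq R.hq'
    (Eventually.of_forall fun _ => Eventually.of_forall fun _ => norm_nonneg _) R.hκ R.h1 R.h2
    R.hθ R.hρ R.hc R.hθ0

/-- **RIG from the contracts indexed by the white label** -/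
theorem poly_of_rigW {κ : ℕ → ℝ → ℂ} (h : ∀ (u : Poly) (w : ZMod 3), Nonempty (RigW κ u w)) :
    POLY Poly.T Poly.T' := by
  refine MeasDx609.poly_of_in (poly_of_p (T := MeasDx609.aI) (D := MeasDx609.DI)
    (fun F η hη => ?_) fun u η hη => ?_)
  · have h1 : ∀ u : Poly, ∀ w : ZMod 3, ∀ᶠ N in atTop, ∀ᶠ ε : ℝ in 𝓝[>] 0,
        L1D (omz w ^ 2) (κ N ε) (MeasDx609.aI u ε) (fun ω => MeasDx609.DI u ε ω w)
          (min (η / 2) (η ^ 2 / 2)) := by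
      intro u w
      obtain ⟨R⟩ := h u w
      obtain ⟨e0, h2, h3⟩ := ((R.t3 (min (η / 2) (η ^ 2 / 2))
        (lt_min (by positivity) (by positivity))).and R.lx).exists
      filter_upwards [h2, h3] with N h4 h5
      filter_upwards [h4, h5] with ε h6 h7
      exact h7.mono h6
    have hθ1 : min (η / 2) (η ^ 2 / 2) + min (η / 2) (η ^ 2 / 2) / η ≤ η := by
      have h1 : min (η / 2) (η ^ 2 / 2) ≤ η / 2 := min_le_left _ _
      have h2 : min (η / 2) (η ^ 2 / 2) / η ≤ η / 2 := by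
        rw [div_le_iff₀ hη]
        have : min (η / 2) (η ^ 2 / 2) ≤ η ^ 2 / 2 := min_le_right _ _
        nlinarith
      linarith
    obtain ⟨N, hN⟩ := ((Filter.eventually_all_finset F).2 fun u _ =>
      Filter.eventually_all.2 (h1 u)).exists
    filter_upwards [(Filter.eventually_all_finset F).2 fun u hu =>
      Filter.eventually_all.2 (hN u hu)] with ε hε
    exact ⟨-κ N ε, fun u hu k => prob_of_l1 (hε u hu k) hη
      (le_min (by positivity) (by positivity)) hθ1⟩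
  · refine Eventually.of_forall fun ε => ?_
    simp only [MeasDx609.rlI, not_true_eq_false, ofPred_false, measure_empty, zero_le]

end Crest.Agent.R143.RigPx854
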