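import Crest.Agent.R143.CorE_133
import Crest.Agent.R143.LimS_133
import Crest.Agent.R143.RigP_854

/-!
# Row 143 (S0194), RIG: the bad set of one polygon (helper133)

* `Pm` : parameters of the mesh bounds; `Gd u F ε ω` : good environment at the scale `√ε` for all the
  parameters of the list `F`; **`bad u F Z ε`** = measurable hull of `¬ Gd` and `Z`
* `bad_meas`, `gd`, `off_Z`, `Gd.base`, `Gd.holW`, `Gd.mI`
* **`bad_small`** : `P(bad) → 0`; `bad_tendsto`
* `rho_le`, **`t3_rho`** : `ρ = P(bad) / b N`, `b N` a lower bound of the mass; `dl_a1`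
* `bN`, **`bN_le`** : the lower bound `(cc c0) ^ M` of the mass of the corridor
* `badN_le` : 798's set `N`
-/

set_option autoImplicit false

noncomputable section

open scoped Classical ENNReal

namespace Crest.Agent.R143.BadIx133

open MeasureTheory Set Filter Topology
open Crest.ProbabilityR.Voronoi
open Crest.Agent.R143.PP0x831 Crest.Agent.R143.PWx978 Crest.Agent.R143.Tplx978
open Crest.Agent.R143.Locx922 (Hol)
open Crest.Agent.R143.LocUx700 (deep)
open Crest.Agent.R143.PolyUx346 Crest.Agent.R143.LayUx416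
open Crest.Agent.R143.PolySx854 (DL dl_mesh)
open Crest.Agent.R143.PolyEx854 (T3 t3_of_dl)
open Crest.Agent.R143.CorEx133 Crest.Agent.R143.LimSx133
open Crest.Agent.R143.MeasPx609 (Wn)
open Crest.Agent.R143.TileRx228 (FPath)
open Crest.Agent.R143.PthFx765 Crest.Agent.R143.CorNx765

attribute [local instance] LimSx133.prob_sample

/-! ### the bad set -/

/-- parameters of the mesh bounds -/
structure Pm where
  K1 : ℝ
  c2 : ℝ
  ρ0 : ℝ
  hK : 0 ≤ K1
  hc : 0 < c2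
  hρ : 0 < ρ0

/-- **good environment** at the scale `√ε`, for all the parameters of the list -/
def Gd (u : Poly) (F : List Pm) (ε : ℝ) (ω : Sample) : Prop :=
  CorEnv u ε √ε 1 1 1 ω ∧ ∀ p ∈ F, CorEnv u ε √ε p.K1 p.c2 p.ρ0 ω

/-- **the bad set**: measurable hull of the bad environments and of `Z` -/
def bad (u : Poly) (F : List Pm) (Z : Set Sample) (ε : ℝ) : Set Sample :=
  msb ({ω | ¬ Gd u F ε ω} ∪ Z)

variable {u : Poly} {F : List Pm} {Z : Set Sample} {ε : ℝ} {ω : Sample}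

theorem bad_meas : MeasurableSet (bad u F Z ε) := msb_meas _

theorem gd (h : ω ∉ bad u F Z ε) : Gd u F ε ω := by
  by_contra hc
  exact h (sub_msb _ (Or.inl hc))

theorem off_Z (h : ω ∉ bad u F Z ε) : ω ∉ Z := fun hc => h (sub_msb _ (Or.inr hc))

theorem Gd.base (h : Gd u F ε ω) : CorEnv u ε √ε 1 1 1 ω := h.1

theorem Gd.env (h : Gd u F ε ω) {p : Pm} (hp : p ∈ F) : CorEnv u ε √ε p.K1 p.c2 p.ρ0 ω := h.2 p hp

theorem Gd.e0 (h : Gd u F ε ω) : 0 < ε := h.1.e0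

/-- no holes of radius `√ε` -/
theorem Gd.hole (h : Gd u F ε ω) {z : ℂ} (hz : ‖z‖ ≤ RU u + 2) : ∃ s ∈ points ε ω, ‖s - z‖ < √ε :=
  h.1.hole z hz

/-- the hole condition of 609's `T_eq_Tin`, `mU_eq_mI` -/
theorem Gd.holW (h : Gd u F ε ω) : Hol (points ε ω ∩ Wn u ε) (deep u.P √ε) √ε :=
  MeasQx609.hol_of h.e0 (P_sub u) fun z hz => h.hole (by
    rw [mem_closedBall_zero_iff] at hz
    have := one_le_Rp u
    unfold RU
    linarith)

/-- the frozen mean end points are functions of the points in `P` -/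
theorem Gd.mI (h : Gd u F ε ω) (i : ZMod 3) (z : ℂ → ℂ) :
    MeasDx609.mU (u.S ε ω) u.P √ε u.Lab i z = MeasDx609.mI u ε i z ω :=
  MeasDx609.mU_eq_mI h.e0 u h.holW i z

/-! ### its probability -/

theorem gd_small (u : Poly) (F : List Pm) : ∀ η > 0, ∀ᶠ ε : ℝ in 𝓝[>] 0,
    sampleLaw {ω | ¬ Gd u F ε ω} ≤ ENNReal.ofReal η := by
  have base : ∀ p : Pm, ∀ η > 0, ∀ᶠ ε : ℝ in 𝓝[>] 0,
      sampleLaw {ω | ¬ CorEnv u ε √ε p.K1 p.c2 p.ρ0 ω} ≤ ENNReal.ofReal η := fun p =>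
    bad_rate one_pos ((cor_env_sqrt u 1 p.K1 1 p.c2 p.ρ0 p.hK one_pos p.hc p.hρ).mono
      fun _ h => h.2)
  have key : ∀ F : List Pm, ∀ η > 0, ∀ᶠ ε : ℝ in 𝓝[>] 0,
      sampleLaw {ω | ¬ ∀ p ∈ F, CorEnv u ε √ε p.K1 p.c2 p.ρ0 ω} ≤ ENNReal.ofReal η := by
    intro F
    induction F with
    | nil =>
      intro η _
      refine Eventually.of_forall fun ε => ?_
      simp
    | cons p F ih =>
      intro η hη
      filter_upwards [bad_union (base p) ih η hη] with ε h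
      refine (measure_mono ?_).trans h
      intro ω hω
      by_contra hc
      simp only [mem_union, mem_ofPred_eq, not_or, not_not] at hc
      refine hω fun q hq => ?_
      rcases List.mem_cons.1 hq with rfl | hq
      · exact hc.1
      · exact hc.2 q hq
  intro η hη
  filter_upwards [bad_union (base ⟨1, 1, 1, zero_le_one, one_pos, one_pos⟩) (key F) η hη] with ε h
  refine (measure_mono ?_).trans h
  intro ω hω
  by_contra hc
  simp only [mem_union, mem_ofPred_eq, not_or, not_not] at hc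
  exact hω hc

/-- **`P(bad) → 0`** -/
theorem bad_small (u : Poly) (F : List Pm) {Z : ℝ → Set Sample}
    (hZ : ∀ η > 0, ∀ᶠ ε : ℝ in 𝓝[>] 0, sampleLaw (Z ε) ≤ ENNReal.ofReal η) :
    ∀ η > 0, ∀ᶠ ε : ℝ in 𝓝[>] 0, sampleLaw (bad u F (Z ε) ε) ≤ ENNReal.ofReal η := by
  intro η hη
  filter_upwards [bad_union (gd_small u F) hZ η hη] with ε h
  unfold bad
  rw [msb_eq]
  exact h

theorem empty_small : ∀ η > 0, ∀ᶠ _ε : ℝ in 𝓝[>] 0,
    sampleLaw (∅ : Set Sample) ≤ ENNReal.ofReal η := fun η _ =>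
  Eventually.of_forall fun _ => by simp

theorem bad_tendsto (u : Poly) (F : List Pm) {Z : ℝ → Set Sample}
    (hZ : ∀ η > 0, ∀ᶠ ε : ℝ in 𝓝[>] 0, sampleLaw (Z ε) ≤ ENNReal.ofReal η) :
    Tendsto (fun ε => sampleLaw.real (bad u F (Z ε) ε)) (𝓝[>] 0) (𝓝 0) :=
  tendsto_real (bad_small u F hZ)

/-! ### `ρ` and `a1` -/

/-- field `hbad` of 609's `env_gen`, `ρ = P(bad) / b` -/
theorem rho_le {B : Set Sample} {b g0 : ℝ} (hb : 0 < b) (h : b ≤ g0) :
    sampleLaw.real B ≤ (sampleLaw.real B / b) * g0 := by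
  have h1 : 0 ≤ sampleLaw.real B := measureReal_nonneg
  calc sampleLaw.real B = (sampleLaw.real B / b) * b := by field_simp
    _ ≤ _ := mul_le_mul_of_nonneg_left h (div_nonneg h1 hb.le)

theorem rho_nonneg {B : Set Sample} {b : ℝ} (hb : 0 < b) : 0 ≤ sampleLaw.real B / b :=
  div_nonneg measureReal_nonneg hb.le

/-- field `e1` of 609's `env_gen`, `a1 = (∫ E1) / b` -/
theorem a1_le {x b g0 : ℝ} (hx : 0 ≤ x) (hb : 0 < b) (h : b ≤ g0) : x ≤ (x / b) * g0 := by
  calc x = (x / b) * b := by field_simp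
    _ ≤ _ := mul_le_mul_of_nonneg_left h (div_nonneg hx hb.le)

/-- an error which tends to zero for a fixed width, divided by a lower bound of the mass -/
theorem dl_a1 {x : ℕ → ℝ → ℝ} {b : ℕ → ℝ}
    (hx : ∀ᶠ N in atTop, Tendsto (x N) (𝓝[>] 0) (𝓝 0)) : DL atTop fun N ε => x N ε / b N := by
  refine dl_mesh ?_
  filter_upwards [hx] with N h
  have := h.div_const (b N)
  rwa [zero_div] at this

/-- **`ρ` is small in the triple limit** -/
theorem t3_rho (u : Poly) (F : ℝ → ℕ → List Pm) {Z : ℝ → ℕ → ℝ → Set Sample} (b : ℕ → ℝ)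
    (hZ : ∀ᶠ e0 : ℝ in 𝓝[>] 0, ∀ᶠ N in atTop, ∀ η > 0, ∀ᶠ ε : ℝ in 𝓝[>] 0,
      sampleLaw (Z e0 N ε) ≤ ENNReal.ofReal η) :
    T3 atTop fun e0 N ε => sampleLaw.real (bad u (F e0 N) (Z e0 N ε) ε) / b N := by
  refine t3_of_dl ?_
  filter_upwards [hZ] with e0 h1
  refine dl_a1 ?_
  filter_upwards [h1] with N h2
  exact bad_tendsto u (F e0 N) h2

/-- without further events -/
theorem t3_rho0 (u : Poly) (F : ℝ → ℕ → List Pm) (b : ℕ → ℝ) :
    T3 atTop fun e0 N ε => sampleLaw.real (bad u (F e0 N) ∅ ε) / b N :=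
  t3_rho u F b (Eventually.of_forall fun _ => Eventually.of_forall fun _ => empty_small)

/-- 798's set `N` of the environments without unique hit -/
theorem badN_le {B N : Set Sample} {b g0 : ℝ} (hb : 0 < b) (h : b ≤ g0)
    (hN : sampleLaw.real N * g0 ≤ 3 * sampleLaw.real B) :
    sampleLaw.real N ≤ 3 * (sampleLaw.real B / b) := by
  have h1 : sampleLaw.real N * b ≤ sampleLaw.real N * g0 :=
    mul_le_mul_of_nonneg_left h measureReal_nonneg
  rw [← mul_div_assoc, le_div_iff₀ hb]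
  linarith

/-! ### the lower bound of the mass of the corridor -/

/-- lower bound of the mass -/
def bN (u : Poly) (cc c0 : ℝ) (N : ℕ) : ℝ := (cc * c0) ^ (RigPx854.ly u N).M

theorem bN_pos (u : Poly) {cc c0 : ℝ} (h1 : 0 < cc) (h2 : 0 < c0) (N : ℕ) : 0 < bN u cc c0 N :=
  pow_pos (mul_pos h1 h2) _

/-- **the mass of the corridor is at least `(cc c0) ^ M`** -/
theorem mass_ge_pow {M : ℕ} {W : ℤ → ℤ × ℤ} {A e : ℤ → ℤ} {a b h : ℝ} {T : Tpl ε (Tn × Bool)}
    [Fintype (ZMod M)] [DecidableEq (ZMod M)] (P : FPath M W) (Hs : Std T a b h Prod.fst)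
    (i : ZMod 3) {cc c0 : ℝ} (h1 : 0 ≤ cc) (h2 : 0 ≤ c0) (hc : ENNReal.ofReal cc ≤ T.c)
    (ha : ENNReal.ofReal c0 ≤ ∫⁻ ω, T.A (cfg ε ω) ∂sampleLaw) :
    (cc * c0) ^ M ≤ ∫ ω, gR (cpth P Hs A e i).net Finset.univ Finset.univ (cfg ε ω)
      ∂sampleLaw := by
  have h3 := pth_g0_ge (cpth P Hs A e i) (I := Finset.univ) (J := Finset.univ)
    (fun _ _ => ⟨Finset.mem_univ _, Finset.mem_univ _⟩) h1 h2 hc ha
  have hcard : (Finset.univ : Finset (ZMod M)).card = M := by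
    rw [Finset.card_univ, ZMod.card]
  rw [hcard] at h3
  rw [mul_pow]
  exact h3

/-- the same for 765's weight -/
theorem mass_ge_lint {M : ℕ} {W : ℤ → ℤ × ℤ} {A e : ℤ → ℤ} {a b h : ℝ} {T : Tpl ε (Tn × Bool)}
    [Fintype (ZMod M)] [DecidableEq (ZMod M)] (P : FPath M W) (Hs : Std T a b h Prod.fst)
    (i : ZMod 3) {cc c0 : ℝ} (h1 : 0 ≤ cc) (h2 : 0 ≤ c0) (hc : ENNReal.ofReal cc ≤ T.c)
    (ha : ENNReal.ofReal c0 ≤ ∫⁻ ω, T.A (cfg ε ω) ∂sampleLaw) :
    (cc * c0) ^ M ≤ (∫⁻ ω, (cpth P Hs A e i).net.gw Finset.univ Finset.univ (cfg ε ω)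
      ∂sampleLaw).toReal := by
  have h3 := pth_mass_ge (cpth P Hs A e i) (I := Finset.univ) (J := Finset.univ)
    (fun _ _ => ⟨Finset.mem_univ _, Finset.mem_univ _⟩) h1 h2 hc ha
  have hcard : (Finset.univ : Finset (ZMod M)).card = M := by
    rw [Finset.card_univ, ZMod.card]
  rw [hcard] at h3
  rw [mul_pow]
  exact h3

end Crest.Agent.R143.BadIx133
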