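import Crest.Agent.R143.D3J_802
import Crest.Agent.R143.RBm_838

/-!
# Row 143 (S0194), block D3: the boundary estimate from RBm (helper422)

* `CBm` : crossing of an annulus by one colour, mesh at all scales (from `RBmx838.RBm`)
* `bdem` : CBm → BDE (the proof of 802's `bde` with annuli starting at the radius `r0 / c3`)
-/

set_option autoImplicit false

noncomputable section

open scoped Classical ENNReal

namespace Crest.Agent.R143.BdeMx422

open Set MeasureTheory
open Crest.ProbabilityR.Voronoi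
open Crest.Agent.R143.B0x346 Crest.Agent.R143.B0Dx346 Crest.Agent.R143.Oscx63
open Crest.Agent.R143.DelGx806 Crest.Agent.R143.Circx63 Crest.Agent.R143.Scalx63
open Crest.Agent.R143.EQ2x63 Crest.Agent.R143.Locx922 Crest.Agent.R143.Cfgx416
open Crest.Agent.R143.Ex0x922 Crest.Agent.R143.Wlkx802 Crest.Agent.R143.D3Ax802
open Crest.Agent.R143.G6Wx723 Crest.Agent.R143.PP1x831
open Crest.Agent.R143.D3Bx802 Crest.Agent.R143.D3Gx802 Crest.Agent.R143.D3Jx802
open Crest.Agent.R143.Harx315 (pr pr_nonneg)
open Crest.Agent.R143.RB0x838 (LDns Mesh)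
open Crest.Agent.R143.CBx838 (Arm)
open Crest.Agent.R143.Sidesx697 (Side Wall)

/-- **crossing of an annulus by one colour**, mesh at all scales -/
def CBm : Prop := ∀ C4 : ℝ, 0 ≤ C4 → ∃ p c1 c2 K : ℝ, 0 < p ∧ 0 < c1 ∧ 0 < c2 ∧ c2 ≤ 1 ∧ 0 < K ∧
  ∀ (S : Finset ℂ) (z0 : ℂ) (r d : ℝ), 0 < r → LDns S z0 (K * r) d →
  RBmx838.MeshA S z0 (K * r) c2 r C4 → d ≤ c1 * r → ∀ V : Finset ℂ, V ⊆ S →
  pr V (fun β => ∃ l, Arm S z0 r (3 * r) β l) ≤ 1 - p

theorem cbm_of (h : RBmx838.RBm) : CBm := RBmx838.cbm h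

/-- **the boundary estimate from the quenched RSW with mesh at all scales** -/
theorem bdem (hCB : CBm) : BDE := by
  intro η hη
  obtain ⟨q0, c1, c3, K1, hq0, hc1, hc3, hc31, hK1, hone⟩ := hCB (16 * EQ5x63.CM) (by
    have := EQ5x63.CM_nonneg; positivity)
  set q : ℝ := 1 - min q0 1 with hq
  have hq1 : q < 1 := by
    have : 0 < min q0 1 := lt_min hq0 one_pos
    linarith
  have hqn : 0 ≤ q := by
    have := min_le_right q0 1
    linarith
  obtain ⟨m, hm⟩ := exists_pow_lt_of_lt_one (half_pos hη) hq1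
  obtain ⟨N, hN⟩ := pow_unbounded_of_one_lt (4 * (K1 + 1) * 8 ^ m / c3) (one_lt_two (α := ℝ))
  rw [div_lt_iff₀ hc3] at hN
  have hNpos : 0 < N := by
    rcases Nat.eq_zero_or_pos N with h | h
    · exfalso
      rw [h, pow_zero, one_mul] at hN
      have : (1 : ℝ) ≤ 8 ^ m := one_le_pow₀ (by norm_num)
      nlinarith
    · exact h
  refine ⟨N, c1, hNpos, hc1, ?_⟩
  intro n C ε δ d M ω i p R0 s K G T k0 H h hR hs hdc hk1 hM hRi
  set S := C.dom.sites ε ω with hS
  set r0 : ℝ := (2 : ℝ) ^ (k0 - N) with hr0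
  set R1 : ℝ := (2 : ℝ) ^ k0 with hR1
  have hd := H.dpos
  have hs0 := H.s0
  have hL := H.dL
  have hr0p : 0 < r0 := by positivity
  have hR1p : 0 < R1 := by positivity
  have e1 : R1 = r0 * 2 ^ N := by
    rw [hR1, hr0, ← zpow_natCast (2 : ℝ) N, ← zpow_add₀ (by norm_num)]
    congr 1; ring
  have h8 : (1 : ℝ) ≤ 8 ^ m := one_le_pow₀ (by norm_num)
  set ra : ℝ := r0 / c3 with hra
  have hrap : 0 < ra := div_pos hr0p hc3
  have hra0 : c3 * ra = r0 := by rw [hra]; field_simp
  have hra1 : r0 ≤ ra := by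
    rw [hra, le_div_iff₀ hc3]
    nlinarith
  have e2a : 4 * (K1 + 1) * 8 ^ m * ra ≤ R1 := by
    rw [e1]
    have h1 := mul_le_mul_of_nonneg_right hN.le hrap.le
    have h2 : (2 : ℝ) ^ N * c3 * ra = r0 * 2 ^ N := by
      rw [mul_assoc, hra0, mul_comm]
    linarith
  have e2 : 4 * (K1 + 1) * 8 ^ m * r0 ≤ R1 :=
    (mul_le_mul_of_nonneg_left hra1 (by positivity)).trans e2a
  have e3a : 4 * 8 ^ m * ra ≤ R1 := by
    have g1 : 0 ≤ 4 * K1 * 8 ^ m * ra := by positivity
    have g2 : 4 * (K1 + 1) * 8 ^ m * ra = 4 * K1 * 8 ^ m * ra + 4 * 8 ^ m * ra := by ring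
    linarith
  have e3 : 4 * 8 ^ m * r0 ≤ R1 :=
    (mul_le_mul_of_nonneg_left hra1 (by positivity)).trans e3a
  have e4 : 4 * r0 ≤ R1 := by nlinarith
  have hHG := hg_of H (r0 := r0) (R1 := R1) hs hR (by linarith)
  set V := VV S p r0 (2 * d) R1 (Yt C S T) (TT C S G) (C.inn S : Set ℂ) with hV
  have hVS : V ⊆ S := fun v hv => (mem_WW.1 (mem_VV.1 hv).1).1
  have hRb : ∀ z : ℂ, ‖z - p‖ ≤ R0 → z ∈ Metric.closedBall C.dom.c (C.dom.L / 2) := by
    intro z hz
    have := near_W H (o := z) (by rw [dist_eq_norm]; exact hz)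
    exact Metric.mem_closedBall.2 this
  -- the probability of a crossing by one colour
  have hpr : pr V (fun β => D3Fx802.CArm S β p (r0 + 2 * (2 * d)) (R1 - 2 * d)) ≤ q ^ m := by
    refine D3Fx802.carm_pow hVS (r := 2 * ra) (q := q) (by linarith) m ?_ ?_ (by linarith)
      (by linarith)
    · intro j hj W hW
      have hjm : (8 : ℝ) ^ j ≤ 8 ^ m := pow_le_pow_right₀ (by norm_num) hj.le
      have hj1 : (1 : ℝ) ≤ 8 ^ j := one_le_pow₀ (by norm_num)
      set b : ℝ := 8 ^ j * (2 * ra) with hb
      have hb0 : 0 < b := by positivity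
      have hb1 : b ≤ 8 ^ m * (2 * ra) := mul_le_mul_of_nonneg_right hjm (by linarith)
      have hb2 : 2 * ra ≤ b := by
        have := mul_le_mul_of_nonneg_right hj1 (show (0 : ℝ) ≤ 2 * ra by linarith)
        rw [one_mul] at this
        exact this
      have hKb : 0 < K1 * b := by positivity
      have hb3 : 2 * (K1 * b) + 2 * b ≤ R1 := by
        have g1 := mul_le_mul_of_nonneg_left hb1 (show (0 : ℝ) ≤ 2 * (K1 + 1) by linarith)
        have g2 : 2 * (K1 + 1) * b = 2 * (K1 * b) + 2 * b := by ring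
        have g3 : 2 * (K1 + 1) * (8 ^ m * (2 * ra)) = 4 * (K1 + 1) * 8 ^ m * ra := by ring
        linarith
      have hb4 : K1 * b + b ≤ R0 := by linarith
      refine (hone S p b d hb0 ?_ ?_ ?_ W hW).trans ?_
      · exact ⟨H.out.gp, hd, fun z hz => H.hol z (by
          apply Metric.mem_closedBall.2
          have := Metric.mem_closedBall.1 (hRb z (by linarith))
          have hcc : C.dom.c = C.c := rfl
          have hLL : C.dom.L = C.L := rfl
          rw [hcc, hLL] at this
          linarith) z (by simp; exact hd.le)⟩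
      · intro b' hb5 hb6 z hz
        have hb7 : 2 * r0 ≤ b' := by
          have g1 := mul_le_mul_of_nonneg_left hb2 hc3.le
          have g2 : c3 * (2 * ra) = 2 * (c3 * ra) := by ring
          rw [g2, hra0] at g1
          linarith
        apply mesh_ball hd h EQ5x63.CM_nonneg (by linarith)
        · intro y hy
          rw [mem_closedBall_iff_norm] at hy
          have g1 := norm_tri y z p
          have g2 := Metric.mem_closedBall.1 (hRb y (by linarith))
          apply Metric.mem_closedBall.2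
          have hLL : C.dom.L = C.L := rfl
          rw [hLL] at g2 ⊢
          linarith
        · apply hM
          · have g2 := Metric.mem_closedBall.1 (hRb z (by linarith))
            rw [mem_closedBall_zero_iff]
            rw [dist_eq_norm] at g2
            have g3 := norm_add_le (z - C.dom.c) C.dom.c
            rw [sub_add_cancel] at g3
            have hLL : C.dom.L = C.L := rfl
            rw [hLL] at g2 ⊢
            linarith
          · linarith
          · have g4 : (2 : ℝ) ^ (k0 + 1) = 2 * R1 := by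
              rw [zpow_add₀ (by norm_num), zpow_one, mul_comm]
            rw [g4] at hk1
            linarith
      · exact hdc.trans (mul_le_mul_of_nonneg_left (by linarith) hc1.le)
      · have := min_le_left q0 1
        linarith
    · intro u v huv hu
      have g0 : (8 : ℝ) ^ m * (2 * ra) = 4 * 8 ^ m * ra / 2 := by ring
      have g1 := hHG.step u v huv (by linarith)
      linarith
  -- the law of free chains
  have hfree := free_VV hHG
  refine D3Hx802.est hHG (η := η) ?_
  intro v hv a b hab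
  have hgd : D3Ex802.Gd S V (v, a, b) := by
    have hex := H.out.hnet.hex i
    refine D3Ex802.gdS_conn H.out.gp hex ?_ (conn_hull H hs hR (by linarith) hRi hv) a b hab
    intro hw
    exact (full_not_hull H.out.hnet (W1_full hHG (mem_VV.1 hw).1) _).2 hex
  have hlaw := D3Fx802.law H.out.hnet hfree hgd p (r0 + 2 * (2 * d)) (R1 - 2 * d)
  refine hlaw.trans ?_
  apply mul_le_mul_of_nonneg_right _ (Nat.cast_nonneg _)
  linarith

theorem bde_of_rbm (h : RBmx838.RBm) : BDE := bdem (cbm_of h)

end Crest.Agent.R143.BdeMx422
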