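import Crest.Agent.R143.RingW_389
import Crest.Agent.R143.Win2_355

/-!
# Row 143 (S0194), hedge block H, [A] (helper389): transfer along the full exploration

* `Le G G'` : same outside, larger domain of the white cluster; `Le.ra` : `Ra G ⊆ Ra G'`
* `hist_ra` : the whole ring loop is seen by the full exploration `Ra Gf`
* `Tf` : two configurations with the same full exploration: same loop (`Tf.st`), same colours of its
  cells, same `Xs`, `Fs`, `Cw`, `p0`, `q0`; **`Tf.rx`** : ring data are transferred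
* `ow_dec` : `Ow` is decided by `R1`
* `Ow.ext`, `Ow.loop_off` : the loop of the outer arc stays off the outside
-/

set_option autoImplicit false
set_option linter.unusedSectionVars false

noncomputable section

open scoped Classical

namespace Crest.Agent.R143.RevEx389

open Finset Crest.Agent.R143.Harx315 Crest.Agent.R143.Frame1x395 Crest.Agent.R143.Frame2x395
  Crest.Agent.R143.Frame3x395 Crest.Agent.R143.Frame8x395 Crest.Agent.R143.Frame9x395
  Crest.Agent.R143.Frame11x395 Crest.Agent.R143.NonXx592 Crest.Agent.R143.Chordx355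
  Crest.Agent.R143.Histx389 Crest.Agent.R143.RevAx389 Crest.Agent.R143.Tubex389
  Crest.Agent.R143.Chord2x355 Crest.Agent.R143.H2x355 Crest.Agent.R143.RevCx389
  Crest.Agent.R143.RingWx389

open Crest.Agent.R143.Exitx707 (Nb nb_symm gap_cases)

variable {α D C : Type} {M : CMap D C} {G G' Gf : Rg D C} {ψ ψ' : C → ZMod 2}

/-! ### larger domains -/

/-- same outside, larger domain -/
structure Le (G G' : Rg D C) : Prop where
  h0 : G'.h0 = G.h0
  far : G'.Far = G.Far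
  ann : G'.Ann = G.Ann
  dw : G.Dw ⊆ G'.Dw

theorem Le.xs (L : Le G G') : Xs M G' ψ = Xs M G ψ := by
  unfold Xs
  rw [L.h0, L.far, L.ann]

theorem Le.fs (L : Le G G') : Fs M G' ψ = Fs M G ψ := by
  unfold Fs
  rw [L.xs, L.ann]

theorem Le.cw (L : Le G G') : Cw M G ψ ⊆ Cw M G' ψ := by
  unfold Cw
  rw [L.fs]
  exact cl_mono L.dw subset_rfl

variable {V : Finset α} {χ : Finset α → C → ZMod 2} {K : C → Finset α} {b b' : Finset α}

theorem Le.r0 (L : Le G G') : R0 M G' V χ K b = R0 M G V χ K b := by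
  unfold R0
  rw [L.xs, L.ann]

theorem coins_mono {X Y : Set C} (h : X ⊆ Y) : coins V K X ⊆ coins V K Y := by
  intro y hy
  obtain ⟨h1, c, h2, h3⟩ := mem_filter.1 hy
  exact mem_filter.2 ⟨h1, c, h h2, h3⟩

theorem Le.ra (L : Le G G') : Ra M G V χ K b ⊆ Ra M G' V χ K b := by
  unfold Ra
  rw [L.r0]
  refine union_subset_union subset_rfl (coins_mono ?_)
  rintro c ⟨h1, a, h2, h3⟩
  exact ⟨L.dw h1, a, L.cw h2, h3⟩

/-- the coins of the white cluster are seen -/
theorem cw_ra (hK : ∀ c, K c ⊆ V) {c : C} (hc : c ∈ Cw M G (χ b)) : K c ⊆ Ra M G V χ K b := by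
  intro y hy
  rcases cl_lk hc with h1 | h1
  · obtain ⟨g1, g2, a, g3, g4⟩ := h1
    exact mem_union_left _ (mem_filter.2 ⟨hK c hy, c, ⟨g1, a, g3, g4⟩, hy⟩)
  · exact mem_union_right _ (mem_filter.2 ⟨hK c hy, c, h1, hy⟩)

theorem lk_ra (hK : ∀ c, K c ⊆ V) {c : C} (hc : c ∈ Lk (Nb M) G.Dw (Cw M G (χ b))) :
    K c ⊆ Ra M G V χ K b := fun _ hy => mem_union_right _ (mem_filter.2 ⟨hK c hy, c, hc, hy⟩)

/-! ### the whole loop is seen -/

variable [Fintype D] {r : D}

/-- **the whole ring loop is seen by the full exploration** -/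
theorem hist_ra (hK : ∀ c, K c ⊆ V) (hocc : cfg M (χ b) r = 1)
    (hl : ∀ t, M.cell (P M (cfg M (χ b)) r t) ∈ Gf.Dw)
    (hr : ∀ t, M.cell (M.rho (P M (cfg M (χ b)) r t)) ∈ Cw M Gf (χ b)) :
    hist M K (cfg M (χ b)) ∅ r ⊆ Ra M Gf V χ K b := by
  intro y hy
  obtain ⟨p, ⟨a, rfl, -⟩, hy'⟩ := mem_hist.1 hy
  have left : ∀ t, K (M.cell (P M (cfg M (χ b)) r t)) ⊆ Ra M Gf V χ K b := fun t =>
    lk_ra hK ⟨hl t, _, hr t, nb_symm (nb_rho _)⟩
  have right : ∀ t, K (M.cell (M.rho (P M (cfg M (χ b)) r t))) ⊆ Ra M Gf V χ K b := fun t =>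
    cw_ra hK (hr t)
  rcases hy' with h | h | ⟨-, h⟩
  · exact left a h
  · exact right a h
  · have hx : IsC M ∅ (cfg M (χ b)) := cfg_isC _
    rcases stp_cases hx (P_occ hx hocc a) (Set.notMem_empty _) with ⟨g4, g5, e⟩ | ⟨g4, g5, e⟩
    · have h2 := left (a + 1)
      rw [P_succ, e, M.cell_iota _ (hx.lv g4)] at h2
      exact h2 h
    · have h2 := right (a + 1)
      rw [P_succ, e, cell_rho_iota M (hx.lv g5)] at h2
      exact h2 h

/-- two configurations with the same full exploration -/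
structure Tf (M : CMap D C) (Gf : Rg D C) (V : Finset α) (χ : Finset α → C → ZMod 2)
    (K : C → Finset α) (b b' : Finset α) (r : D) : Prop where
  coins : Coins V χ K
  sub : ∀ c, K c ⊆ V
  hb : b ⊆ V
  hb' : b' ⊆ V
  ag : b ∩ Ra M Gf V χ K b = b' ∩ Ra M Gf V χ K b
  occ : cfg M (χ b) r = 1
  lw : ∀ t, M.cell (P M (cfg M (χ b)) r t) ∈ Gf.Dw
  rw' : ∀ t, M.cell (M.rho (P M (cfg M (χ b)) r t)) ∈ Cw M Gf (χ b)

namespace Tf

variable (H : Tf M Gf V χ K b b' r)
include H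

theorem hs : b ∩ hist M K (cfg M (χ b)) ∅ r = b' ∩ hist M K (cfg M (χ b)) ∅ r :=
  inter_sub H.ag (hist_ra H.sub H.occ H.lw H.rw')

/-- **same loop** -/
theorem st (t : ℕ) : P M (cfg M (χ b')) r t = P M (cfg M (χ b)) r t :=
  it_hist H.coins H.hb H.hb' H.hs t fun _ _ => Set.notMem_empty _

theorem cl (t : ℕ) : χ b' (M.cell (P M (cfg M (χ b)) r t)) = χ b (M.cell (P M (cfg M (χ b)) r t)) :=
  (cell_hist H.coins H.hb H.hb' H.hs ⟨t, rfl, fun _ _ => Set.notMem_empty _⟩).1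

theorem cr (t : ℕ) : χ b' (M.cell (M.rho (P M (cfg M (χ b)) r t))) =
    χ b (M.cell (M.rho (P M (cfg M (χ b)) r t))) :=
  (cell_hist H.coins H.hb H.hb' H.hs ⟨t, rfl, fun _ _ => Set.notMem_empty _⟩).2

theorem occ' : cfg M (χ b') r = 1 := by
  have h1 := H.cl 0
  have h2 := H.cr 0
  have h3 := H.occ
  unfold cfg at h3 ⊢
  have h1' : χ b' (M.cell r) = χ b (M.cell r) := h1
  have h2' : χ b' (M.cell (M.rho r)) = χ b (M.cell (M.rho r)) := h2
  rw [h1', h2']
  exact h3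

variable (L : Le G Gf)
include L

theorem agA : b ∩ Ra M G V χ K b = b' ∩ Ra M G V χ K b := inter_sub H.ag L.ra

theorem ag0 : b ∩ R0 M G V χ K b = b' ∩ R0 M G V χ K b :=
  inter_sub (H.agA L) subset_union_left

theorem xs : Xs M G (χ b') = Xs M G (χ b) := (xs_dec H.coins H.sub b b' H.hb H.hb' (H.ag0 L)).symm

theorem fs : Fs M G (χ b') = Fs M G (χ b) := (fs_dec H.coins H.sub b b' H.hb H.hb' (H.ag0 L)).symm

theorem cw : Cw M G (χ b') = Cw M G (χ b) := (cw_dec H.coins H.sub b b' H.hb H.hb' (H.agA L)).symm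

theorem p0 : p0 M G (χ b') = p0 M G (χ b) := by
  unfold RevCx389.p0
  rw [H.cw L]

theorem q0 : q0 M G (χ b') = q0 M G (χ b) := by
  unfold RevCx389.q0
  rw [H.cw L]

/-- **the ring data are transferred** -/
theorem rx {T : ℕ → ℕ} {m n : ℕ} {B : ℕ → Set C} {B' : Set C} {s : ℕ}
    (R : RX M G (χ b) (P M (cfg M (χ b)) r s) T m n B B')
    (hB : ∀ c ∈ B', ∃ t, c = M.cell (P M (cfg M (χ b)) r t)) :
    RX M G (χ b') (P M (cfg M (χ b')) r s) T m n B B' := by
  have e : ∀ t, P M (cfg M (χ b')) (P M (cfg M (χ b')) r s) t =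
      P M (cfg M (χ b)) (P M (cfg M (χ b)) r s) t := by
    intro t
    rw [← P_add, ← P_add, H.st]
  have hx' : IsC M ∅ (cfg M (χ b')) := cfg_isC _
  refine { toRY := ⟨?_, ?_, R.t0, R.mono, ?_, ?_, ?_, R.m7, R.mn, R.off, R.out, R.h0, R.far, ?_, ?_,
    R.bx, R.ra, R.rb⟩, ac := ?_ }
  · rw [H.st, H.cl]; exact R.bl
  · rw [H.st, H.cr]; exact R.wh
  · rw [e, R.per, H.st]
  · intro a c h1 h2
    rw [e, e]
    exact R.inj a c h1 h2
  · intro k hk t h1 h2
    rw [e]
    exact R.tile k hk t h1 h2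
  · rw [H.xs L]; exact R.x1
  · intro c hc
    obtain ⟨g1, g2, g3, g4, -⟩ := R.b1 c hc
    obtain ⟨t, rfl⟩ := hB c hc
    refine ⟨g1, g2, g3, (H.cl t).trans g4, ?_⟩
    have h1 := con_left hx' H.occ' s
    have h2 := con_left hx' H.occ' t
    rw [← H.st t]
    exact h1.symm.trans _ _ _ h2
  · obtain ⟨t, h1, h2⟩ := R.ac
    refine ⟨t, h1, ?_⟩
    rw [e, H.cw L]
    exact h2

end Tf

/-! ### `Ow` is decided -/

theorem ow_aux (hχ : Coins V χ K) (hK : ∀ c, K c ⊆ V) (hb : b ⊆ V) (hb' : b' ⊆ V)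
    (h : b ∩ R1 M G V χ K b = b' ∩ R1 M G V χ K b) (H : Ow M G V χ K b) : Ow M G V χ K b' := by
  have ha : b ∩ Ra M G V χ K b = b' ∩ Ra M G V χ K b := inter_sub h subset_union_left
  have h0 : b ∩ R0 M G V χ K b = b' ∩ R0 M G V χ K b := inter_sub ha subset_union_left
  have h3 : b ∩ hist M K (cfg M (χ b)) {q0 M G (χ b)} (p0 M G (χ b)) =
    b' ∩ hist M K (cfg M (χ b)) {q0 M G (χ b)} (p0 M G (χ b)) := inter_sub h subset_union_right
  have eX := xs_dec hχ hK b b' hb hb' h0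
  have eC := cw_dec hχ hK b b' hb hb' ha
  have ep := p0_dec (M := M) (G := G) hχ hK b b' hb hb' ha
  have eq : q0 M G (χ b) = q0 M G (χ b') := by
    unfold q0
    have := eC
    dsimp only at this
    rw [this]
  have eA := (ra_stop (M := M) (G := G) hχ hK).stop b b' hb hb' ha
  have el := ln_dec hχ hK b b' hb hb' h
  dsimp only at eX eC ep el
  have st : ∀ a, a < ln M G (χ b) →
      P M (cfg M (χ b')) (p0 M G (χ b)) a = P M (cfg M (χ b)) (p0 M G (χ b)) a := fun a ha' =>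
    r1_states hχ hb hb' h ha'
  obtain ⟨n, hn⟩ := H.hit
  -- the first hit
  have hne : {n | P M (cfg M (χ b)) (p0 M G (χ b)) n = q0 M G (χ b)}.Nonempty := ⟨n, hn⟩
  have hs := Nat.sInf_mem hne
  have hh := hist_hist hχ hb hb' h3
  refine ⟨?_, ?_, ?_, ?_, ?_, ?_, ?_, ?_⟩
  · rw [← eX]; exact H.x1
  · rw [← ep]
    have h4 := (cell_hist hχ hb hb' h3 ⟨0, rfl, fun k hk => absurd hk (Nat.not_lt_zero k)⟩).1
    exact h4.trans H.bl
  · refine ⟨sInf {n | P M (cfg M (χ b)) (p0 M G (χ b)) n = q0 M G (χ b)}, ?_⟩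
    rw [← ep, ← eq, st _ (Nat.lt_succ_self _)]
    exact hs
  · intro a ha'
    rw [← el] at ha'
    rw [← ep, st a ha', ← eX]
    exact H.lx a ha'
  · intro a ha'
    rw [← el] at ha'
    rw [← ep, st a ha']
    exact H.lt a ha'
  · intro a ha'
    rw [← el] at ha'
    rw [← ep, st a ha', ← eC]
    exact H.rt a ha'
  · rw [eA, ← ep, ← eq, hh]
    exact H.sn
  · rw [← eC]; exact H.dp

/-- **the ring event off the window is decided** -/
theorem ow_dec (hχ : Coins V χ K) (hK : ∀ c, K c ⊆ V) :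
    DecF V (R1 M G V χ K) fun b => Ow M G V χ K b := by
  intro b b' hb hb' h
  refine propext ⟨fun H => ow_aux hχ hK hb hb' h H, fun H => ow_aux hχ hK hb' hb ?_ H⟩
  rw [(r1_stop (M := M) (G := G) hχ hK).stop b b' hb hb' h, h]

/-! ### the loop of the outer arc stays off the outside -/

theorem _root_.Crest.Agent.R143.RevCx389.Ow.ext (H : Ow M G V χ K b) :
    Ext M (χ b) (Xs M G (χ b)) (Fs M G (χ b)) where
  nb a c ha h := by
    rcases H.x1 a ha c h with h1 | h1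
    · exact Or.inl (xs_far ha h h1)
    · rcases z_cases (χ b c) with h2 | h2
      · exact Or.inr ⟨h1, h2, a, ha, h⟩
      · exact Or.inl (xs_ann ha h h1 h2)
  wh c hc := hc.2.1

theorem _root_.Crest.Agent.R143.RevCx389.Ow.bl0 (H : Ow M G V χ K b) :
    Bl M (χ b) (Xs M G (χ b)) (p0 M G (χ b)) :=
  ⟨H.occ, H.bl, H.lx 0 ln_pos⟩

/-- **the loop of the outer arc stays off the outside** -/
theorem _root_.Crest.Agent.R143.RevCx389.Ow.loop_off (H : Ow M G V χ K b) (t : ℕ) :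
    χ b (M.cell (P M (cfg M (χ b)) (p0 M G (χ b)) t)) = 1 ∧
      M.cell (P M (cfg M (χ b)) (p0 M G (χ b)) t) ∉ Xs M G (χ b) :=
  ⟨(H.bl0.it H.ext t).bl, (H.bl0.it H.ext t).off⟩

end Crest.Agent.R143.RevEx389
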