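import Crest.Agent.R143.BigF_357
import Crest.Agent.R143.RevE_389

/-!
# Row 143 (S0194), block H, field `bg` of 389's `DatA` (helper357)

* `bg_site` : on the ring event `Ow` a joined chord which reaches the core square of the window
  (`gd` with `core S σ z1 r1`) has its plane block in `bigB` with `2 k ≤ r1`
* `bg_cel` : the same with any core set contained in `core`
-/

set_option autoImplicit false

noncomputable section

open scoped Classical

namespace Crest.Agent.R143.BgIx357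

open Crest.Agent.R143.Frame1x395 Crest.Agent.R143.Frame2x395 Crest.Agent.R143.Frame3x395
  Crest.Agent.R143.Frame8x395 Crest.Agent.R143.Frame9x395 Crest.Agent.R143.Frame10x395
  Crest.Agent.R143.NonXx592 Crest.Agent.R143.Harx315 Crest.Agent.R143.Histx389
  Crest.Agent.R143.Chordx355 Crest.Agent.R143.ChordCx357 Crest.Agent.R143.Chord2x355
  Crest.Agent.R143.H2x355 Crest.Agent.R143.Tubex389
  Crest.Agent.R143.RevCx389 Crest.Agent.R143.RevEx389 Crest.Agent.R143.Meetx707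
  Crest.Agent.R143.DelGx806 Crest.Agent.R143.DelRx806
  Crest.Agent.R143.Mass4x302 Crest.Agent.R143.Mass5x302 Crest.Agent.R143.B0x346
  Crest.Agent.R143.BigFx357 Crest.Agent.R143.CircPx838
open Crest.Agent.R143.TubeWx707 (ls ls_mem)

variable {Q U : Set ℂ} {S : Finset ℂ} {hS : GP (S : Set ℂ)} {C : Type} {M : CMap (D0 S) C}
  {σ : ℂ → C} {α : Type} {V : Finset α} {χ : Finset α → C → ZMod 2} {K : C → Finset α}
  {b : Finset α} {G : Rg (D0 S) C} {z1 z2 : ℂ} {r1 r2 : ℝ}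

theorem sup_sub_le (a c z : ℂ) : sup (a - z) ≤ sup (a - c) + sup (c - z) := by
  unfold sup
  have h1 : |(a - z).re| ≤ |(a - c).re| + |(c - z).re| := by
    have : (a - z).re = (a - c).re + (c - z).re := by simp
    rw [this]; exact abs_add_le _ _
  have h2 : |(a - z).im| ≤ |(a - c).im| + |(c - z).im| := by
    have : (a - z).im = (a - c).im + (c - z).im := by simp
    rw [this]; exact abs_add_le _ _
  refine max_le ?_ ?_
  · exact h1.trans (add_le_add (le_max_left _ _) (le_max_left _ _))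
  · exact h2.trans (add_le_add (le_max_right _ _) (le_max_right _ _))

/-- a left cell of the outer arc is far from the core -/
theorem arc_far (H : Pl hS M σ) (h0 : ∀ s, OnHull S s → σ s = G.h0)
    (hDp : cel S σ (fun s => sup (s - z1) < 2 * r1) ⊆ G.Dp) {d : D0 S}
    (h1 : M.cell d ∉ G.Dp) (h2 : M.cell d ∉ Xs M G (χ b)) : 2 * r1 ≤ sup (ls d - z1) := by
  by_contra hlt
  push Not at hlt
  have h5 : ¬ OnHull S (ls d) := fun h => h2 (by
    rw [H.cell]
    rw [show σ d.1.1 = G.h0 from h0 _ h]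
    exact h0_xs)
  exact h1 (hDp ⟨ls d, ls_mem _, h5, hlt, by rw [H.cell]; rfl⟩)

/-- **the field `bg`** -/
theorem bg_cel (H : Pl hS M σ) (h3 : 3 ≤ S.card) (h0 : ∀ s, OnHull S s → σ s = G.h0)
    (hO : Ow M G V χ K b) (hF : cel S σ (fun s => r2 ≤ sup (s - z2)) ⊆ G.Far)
    (hDp : cel S σ (fun s => sup (s - z1) < 2 * r1) ⊆ G.Dp)
    (hQS : ∀ z ∈ U, z ∈ Q ↔ z ∈ (S : Set ℂ)) (hd : Dn S {s | sup (s - z2) < r2} U) (e0 : D0 S)
    {k : ℝ} (hk : 2 * k ≤ r1) {Co : Set C} (hCo : Co ⊆ core S σ z1 r1) {s : D0 S} {n : ℕ}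
    (J : Jc M (cfg M (χ b)) (p0 M G (χ b)) (ln M G (χ b)) (Cw M G (χ b)) s n)
    (hg : gd M G Co (χ b) s n) :
    blk M (cfg M (χ b)) s ∈ bigB Q U M (dl e0) k (cfg M (χ b)) := by
  have O : Oa M (cfg M (χ b)) (p0 M G (χ b)) (ln M G (χ b)) (Cw M G (χ b)) :=
    ⟨cfg_isC _, hO.occ, hO.rt⟩
  obtain ⟨N, L⟩ := exists_lp O.ev O.occ
  obtain ⟨t, ht, -⟩ := J.ch O L
  obtain ⟨-, -, u, -, hu⟩ := hg
  refine jc_bigB' H hQS hd e0 hO.ext (X := Xs M G (χ b)) ?_ O hO.bl (hO.lx 0 ln_pos) J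
    (n1 := 0) (n2 := u + t) ?_
  · intro v hv hvW
    exact far_xs H h3 h0 hF hv (not_lt.1 hvW)
  · have h1 : 2 * r1 ≤ sup (ls (P M (cfg M (χ b)) (p0 M G (χ b)) 0) - z1) :=
      arc_far H h0 hDp (hO.lt 0 ln_pos).2 (hO.lx 0 ln_pos)
    have h2 : sup (ls (P M (cfg M (χ b)) (p0 M G (χ b)) (u + t)) - z1) ≤ r1 := by
      rw [P_add, ← ht]
      exact cel_dart (A := fun s => sup (s - z1) ≤ r1) H (hCo hu)
    set x := ls (P M (cfg M (χ b)) (p0 M G (χ b)) 0)
    set y := ls (P M (cfg M (χ b)) (p0 M G (χ b)) (u + t))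
    have h4 := sup_sub_le x y z1
    have h5 := sup_le_norm (x - y)
    linarith

/-- the field `bg` for 707's core -/
theorem bg_site (H : Pl hS M σ) (h3 : 3 ≤ S.card) (h0 : ∀ s, OnHull S s → σ s = G.h0)
    (hO : Ow M G V χ K b) (hF : cel S σ (fun s => r2 ≤ sup (s - z2)) ⊆ G.Far)
    (hDp : cel S σ (fun s => sup (s - z1) < 2 * r1) ⊆ G.Dp)
    (hQS : ∀ z ∈ U, z ∈ Q ↔ z ∈ (S : Set ℂ)) (hd : Dn S {s | sup (s - z2) < r2} U) (e0 : D0 S)
    {k : ℝ} (hk : 2 * k ≤ r1) {s : D0 S} {n : ℕ}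
    (J : Jc M (cfg M (χ b)) (p0 M G (χ b)) (ln M G (χ b)) (Cw M G (χ b)) s n)
    (hg : gd M G (core S σ z1 r1) (χ b) s n) :
    blk M (cfg M (χ b)) s ∈ bigB Q U M (dl e0) k (cfg M (χ b)) :=
  bg_cel H h3 h0 hO hF hDp hQS hd e0 hk subset_rfl J hg

end Crest.Agent.R143.BgIx357
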