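import Crest.Agent.R143.Chord2_355
import Crest.Agent.R143.Hist_389

/-!
# Row 143 (S0194), block H, H2 (helper355): the chords of the explored outer arc

`V` free coins, `χ b` the colouring of the cells for the coins `b ⊆ V` (389's `Coins V χ K`).
* `Cd M x p₀ m Rv k n` : chord with respect to the outer arc `P p₀ 0, .., P p₀ (m - 1)`: start gap `k`
  (`cell (rho k)` on the arc), `n` steps, first return to the cells of the arc, right cells not in
  `Rv`; `Jc = Cd` and joined (`Con` between the right cells)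
* `Ex` : the outer arc is revealed by the exploration `R1`; `w` a decided weight `0 ≤ w ≤ 1`
* `R2 k b = R1 b ∪` coins seen by the walker from `out k` up to the first return : stopping set
* `h2` : **the chords are paid by the closed blocks of the plane net**:
  `c * Σ_b w b Σ_{chords (k, n), G} ‖chord sum + pot start - pot end‖² ≤ Σ_b Σ_{β ∈ Big b} ‖Σ_β φ‖²`
  if given the history a chord is joined with conditional probability `≥ c` in the form of 389's /
  707's gluing: for every `b'` with the tube event `T`, the chord is joined in the configuration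
  (`b` on the revealed set, `b'` off it)
-/

set_option autoImplicit false

noncomputable section

open scoped Classical

namespace Crest.Agent.R143.H2x355

open Crest.Agent.R143.Frame1x395 Crest.Agent.R143.Frame2x395 Crest.Agent.R143.Frame3x395
  Crest.Agent.R143.Frame8x395 Crest.Agent.R143.Frame9x395 Crest.Agent.R143.Frame11x395
  Crest.Agent.R143.NonXx592 Crest.Agent.R143.Harx315 Crest.Agent.R143.Histx389
  Crest.Agent.R143.Chordx355 Crest.Agent.R143.ChordCx357 Crest.Agent.R143.Chord2x355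

variable {α D C : Type} {M : CMap D C}

/-! ### candidates -/

/-- the cells of the outer arc -/
def Kc (M : CMap D C) (x : D → ZMod 2) (p₀ : D) (m : ℕ) : Set C := {c | ∃ a, a < m ∧ lc M x p₀ a = c}

/-- a chord (not necessarily joined) -/
structure Cd (M : CMap D C) (x : D → ZMod 2) (p₀ : D) (m : ℕ) (Rv : Set C) (k : D) (n : ℕ) :
    Prop where
  gp : Gp M x k
  pos : 0 < n
  c0 : M.cell (M.rho k) ∈ Kc M x p₀ m
  c1 : lc M x (M.rho k) n ∈ Kc M x p₀ m
  int : ∀ u, 0 < u → u < n → lc M x (M.rho k) u ∉ Kc M x p₀ m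
  new : ∀ u, u ≤ n → M.cell (M.rho (P M x (M.rho k) u)) ∉ Rv

theorem Cd.jc {x : D → ZMod 2} {p₀ : D} {m : ℕ} {Rv : Set C} {k : D} {n : ℕ}
    (h : Cd M x p₀ m Rv k n) (hj : Con M x (M.cell (M.rho p₀)) (M.cell (M.rho (M.rho k)))) :
    Jc M x p₀ m Rv k n :=
  ⟨h.gp, h.pos, h.c0, h.c1, fun u h1 h2 a h3 e => h.int u h1 h2 ⟨a, h3, e.symm⟩, h.new, hj⟩

theorem Cd.uniq {x : D → ZMod 2} {p₀ : D} {m : ℕ} {Rv : Set C} {k : D} {n n' : ℕ}
    (h : Cd M x p₀ m Rv k n) (h' : Cd M x p₀ m Rv k n') : n = n' := by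
  rcases lt_trichotomy n n' with h1 | h1 | h1
  · exact absurd h.c1 (h'.int n h.pos h1)
  · exact h1
  · exact absurd h'.c1 (h.int n' h'.pos h1)

/-! ### agreement of two configurations -/

/-- the potential depends on the states of the outer arc only -/
theorem fo_congr {A : Type*} [AddCommMonoid A] (φ : D → A) {x x' : D → ZMod 2} (hx : IsC M ∅ x)
    (hx' : IsC M ∅ x') {p₀ : D} (h0 : x p₀ = 1) (h0' : x' p₀ = 1) {m : ℕ}
    (e : ∀ a, a < m → P M x' p₀ a = P M x p₀ a) {k : ℕ} (hk : k < m) :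
    Fo M x' p₀ m φ k = Fo M x p₀ m φ k := by
  unfold Fo
  refine Finset.sum_congr rfl fun a ha => ?_
  have ha' := Finset.mem_range.1 ha
  have e1 : gt M x' p₀ a = gt M x p₀ a := by
    unfold gt
    rw [e a (by omega)]
  have e2 : Gp M x' (gt M x p₀ a) ↔ Gp M x (gt M x p₀ a) := by
    constructor
    · intro h
      have h1 := out_eq hx' h (p := p₀) (a := a) (by rw [← e1]; exact rho_gt p₀ a)
      refine gp_of_out hx (P_occ hx h0 a) (rho_gt p₀ a) ?_
      rw [h1, e (a + 1) (by omega), P_succ]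
    · intro h
      have h1 := out_eq hx h (p := p₀) (a := a) (rho_gt p₀ a)
      rw [← e1]
      refine gp_of_out hx' (P_occ hx' h0' a) (rho_gt p₀ a) ?_
      rw [e1, h1, ← e (a + 1) (by omega), P_succ]
  have e3 : NO (lc M x' p₀) m a ↔ NO (lc M x p₀) m a := by
    have key : ∀ u, u < m → lc M x' p₀ u = lc M x p₀ u := by
      intro u hu
      unfold lc
      rw [e u hu]
    constructor
    · intro h u h1 h2 v h3
      rw [← key u h2, ← key v (by omega)]
      exact h u h1 h2 v h3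
    · intro h u h1 h2 v h3
      rw [key u h2, key v (by omega)]
      exact h u h1 h2 v h3
  have e4 : vl M x' p₀ φ a = vl M x p₀ φ a := by
    unfold vl
    rw [e1]
    by_cases h : Gp M x (gt M x p₀ a)
    · rw [if_pos h, if_pos (e2.2 h)]
    · rw [if_neg h, if_neg fun h' => h (e2.1 h')]
  rw [e4]
  by_cases h : NO (lc M x p₀) m a
  · rw [if_pos h, if_pos (e3.2 h)]
  · rw [if_neg h, if_neg fun h' => h (e3.1 h')]

theorem kc_congr {x x' : D → ZMod 2} {p₀ : D} {m : ℕ}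
    (e : ∀ a, a < m → P M x' p₀ a = P M x p₀ a) : Kc M x' p₀ m = Kc M x p₀ m := by
  ext c
  constructor
  · rintro ⟨a, ha, h⟩
    exact ⟨a, ha, by rw [← h]; unfold lc; rw [e a ha]⟩
  · rintro ⟨a, ha, h⟩
    exact ⟨a, ha, by rw [← h]; unfold lc; rw [e a ha]⟩

theorem pot_congr {A : Type*} [AddCommMonoid A] (φ : D → A) {x x' : D → ZMod 2} (hx : IsC M ∅ x)
    (hx' : IsC M ∅ x') {p₀ : D} (h0 : x p₀ = 1) (h0' : x' p₀ = 1) {m : ℕ}
    (e : ∀ a, a < m → P M x' p₀ a = P M x p₀ a) (c : C) :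
    pot M x' p₀ m φ c = pot M x p₀ m φ c := by
  by_cases h : ∃ a, a < m ∧ lc M x p₀ a = c
  · obtain ⟨a, ha, hc⟩ := h
    have hc' : lc M x' p₀ a = c := by
      rw [← hc]; unfold lc; rw [e a ha]
    rw [pot_eq φ ha hc, pot_eq φ ha hc', fo_congr φ hx hx' h0 h0' e ha]
  · have h' : ¬ ∃ a, a < m ∧ lc M x' p₀ a = c := by
      rintro ⟨a, ha, hc⟩
      exact h ⟨a, ha, by rw [← hc]; unfold lc; rw [e a ha]⟩
    unfold pot
    rw [dif_neg h, dif_neg h']

/-- the value of a chord depends on the states only -/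
theorem cv_congr [Fintype D] (φ : D → ℂ) {x x' : D → ZMod 2} (hx : IsC M ∅ x)
    (hx' : IsC M ∅ x') {p₀ : D} (h0 : x p₀ = 1) (h0' : x' p₀ = 1) {m : ℕ}
    (e : ∀ a, a < m → P M x' p₀ a = P M x p₀ a) {k : D} {n : ℕ}
    (ek : ∀ u, u ≤ n → P M x' (M.rho k) u = P M x (M.rho k) u) :
    cv M x' p₀ m φ k n = cv M x p₀ m φ k n := by
  unfold cv
  rw [cset_congr (Q := P M x' (M.rho k)) (Q' := P M x (M.rho k)) fun s _ h2 => ek s h2,
    pot_congr φ hx hx' h0 h0' e, pot_congr φ hx hx' h0 h0' e]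
  unfold lc
  rw [ek n le_rfl]

/-! ### the exploration -/

/-- the outer arc `p₀ b, len b` with the revealed cells `Rv b` is decided by `R1`; weight `w` -/
structure Ex (M : CMap D C) (V : Finset α) (χ : Finset α → C → ZMod 2) (K : C → Finset α)
    (R1 : Finset α → Finset α) (p₀ : Finset α → D) (len : Finset α → ℕ) (Rv : Finset α → Set C)
    (w : Finset α → ℝ) : Prop where
  coins : Coins V χ K
  sub : ∀ c, K c ⊆ V
  stop : IsStop V R1
  dp : DecF V R1 p₀
  dl : DecF V R1 len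
  dr : DecF V R1 Rv
  dw : DecF V R1 w
  w0 : ∀ b, b ⊆ V → 0 ≤ w b
  w1 : ∀ b, b ⊆ V → w b ≤ 1
  st : ∀ b b', b ⊆ V → b' ⊆ V → b ∩ R1 b = b' ∩ R1 b → ∀ a, a < len b →
    P M (cfg M (χ b')) (p₀ b) a = P M (cfg M (χ b)) (p₀ b) a
  co : ∀ b b', b ⊆ V → b' ⊆ V → b ∩ R1 b = b' ∩ R1 b → ∀ a, a < len b →
    χ b' (M.cell (P M (cfg M (χ b)) (p₀ b) a)) = χ b (M.cell (P M (cfg M (χ b)) (p₀ b) a))
  oa : ∀ b, b ⊆ V → w b ≠ 0 → Oa M (cfg M (χ b)) (p₀ b) (len b) (Rv b)

variable {V : Finset α} {χ : Finset α → C → ZMod 2} {K : C → Finset α}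
  {R1 : Finset α → Finset α} {p₀ : Finset α → D} {len : Finset α → ℕ} {Rv : Finset α → Set C}
  {w : Finset α → ℝ}

/-- the stop set of the second walk: the states with left cell on the outer arc -/
def Bs (M : CMap D C) (χ : Finset α → C → ZMod 2) (p₀ : Finset α → D) (len : Finset α → ℕ)
    (b : Finset α) : Set D := {d | M.cell d ∈ Kc M (cfg M (χ b)) (p₀ b) (len b)}

/-- the revealed set of the chord with the start gap `k` -/
def R2 [Fintype D] (M : CMap D C) (χ : Finset α → C → ZMod 2) (K : C → Finset α)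
    (R1 : Finset α → Finset α) (p₀ : Finset α → D) (len : Finset α → ℕ) (k : D) (b : Finset α) :
    Finset α := R1 b ∪ hist M K (cfg M (χ b)) (Bs M χ p₀ len b) (out M k)

theorem Ex.bs (E : Ex M V χ K R1 p₀ len Rv w) : DecF V R1 (Bs M χ p₀ len) := by
  intro b b' hb hb' h
  unfold Bs
  rw [← E.dp b b' hb hb' h, ← E.dl b b' hb hb' h, kc_congr (E.st b b' hb hb' h)]

theorem Ex.stop2 [Fintype D] (E : Ex M V χ K R1 p₀ len Rv w) (k : D) :
    IsStop V (R2 M χ K R1 p₀ len k) :=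
  hist_stop E.coins E.sub E.stop E.bs (p0 := fun _ => out M k) fun _ _ _ _ _ => rfl

/-- **a chord is decided by the second exploration** -/
theorem Ex.cd [Fintype D] (E : Ex M V χ K R1 p₀ len Rv w) {k : D} {n : ℕ} {b b' : Finset α}
    (hb : b ⊆ V) (hb' : b' ⊆ V)
    (h : b ∩ R2 M χ K R1 p₀ len k b = b' ∩ R2 M χ K R1 p₀ len k b)
    (hc : Cd M (cfg M (χ b)) (p₀ b) (len b) (Rv b) k n) :
    Cd M (cfg M (χ b')) (p₀ b') (len b') (Rv b') k n ∧
      ∀ u, u ≤ n → P M (cfg M (χ b')) (M.rho k) u = P M (cfg M (χ b)) (M.rho k) u := by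
  have h2 : b ∩ R1 b = b' ∩ R1 b := inter_sub h Finset.subset_union_left
  have h3 : b ∩ hist M K (cfg M (χ b)) (Bs M χ p₀ len b) (out M k) =
      b' ∩ hist M K (cfg M (χ b)) (Bs M χ p₀ len b) (out M k) :=
    inter_sub h Finset.subset_union_right
  have hx := cfg_isC (M := M) (χ b)
  have hx' := cfg_isC (M := M) (χ b')
  obtain ⟨c1, c2⟩ := cell_hist E.coins hb hb' h3 (p := out M k) tr_start
  have hlive : M.rho (M.rho k) ∈ M.live := hx.lv (hc.gp.two hx)
  have e1 : M.cell (out M k) = M.cell k := by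
    unfold out
    rw [M.cell_iota _ hlive, M.rho3]
  have e2 : M.cell (M.rho (out M k)) = M.cell (M.rho (M.rho k)) := cell_rho_iota M hlive
  rw [e1] at c1
  rw [e2] at c2
  have c3 : χ b' (M.cell (M.rho k)) = χ b (M.cell (M.rho k)) := by
    obtain ⟨a, ha, e⟩ := hc.c0
    rw [← e]
    exact E.co b b' hb hb' h2 a ha
  have g' : Gp M (cfg M (χ b')) k := by
    obtain ⟨g1, g2⟩ := hc.gp
    constructor
    · show χ b' (M.cell k) + χ b' (M.cell (M.rho k)) = 0
      rw [c1, c3]; exact g1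
    · show χ b' (M.cell (M.rho k)) + χ b' (M.cell (M.rho (M.rho k))) = 1
      rw [c2, c3]; exact g2
  have sh : ∀ (x : D → ZMod 2), IsC M ∅ x → Gp M x k → ∀ u,
      P M x (M.rho k) (u + 1) = P M x (out M k) u := by
    intro x hx hg u
    rw [P_add]
    congr 1
    show stp M x (M.rho k) = _
    exact hg.stp hx
  have st : ∀ u, u ≤ n → P M (cfg M (χ b')) (M.rho k) u = P M (cfg M (χ b)) (M.rho k) u := by
    intro u hu
    rcases Nat.eq_zero_or_pos u with rfl | hu0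
    · rfl
    · obtain ⟨v, rfl⟩ := Nat.exists_eq_add_of_lt hu0
      rw [show 0 + v + 1 = v + 1 by omega, sh _ hx' g' v, sh _ hx hc.gp v]
      refine it_hist E.coins hb hb' h3 v ?_
      intro i hi hm
      have h4 := hc.int (i + 1) (by omega) (by omega)
      apply h4
      show M.cell (P M (cfg M (χ b)) (M.rho k) (i + 1)) ∈ _
      rw [sh _ hx hc.gp i]
      exact hm
  have ek : Kc M (cfg M (χ b')) (p₀ b') (len b') = Kc M (cfg M (χ b)) (p₀ b) (len b) := by
    rw [← E.dp b b' hb hb' h2, ← E.dl b b' hb hb' h2, kc_congr (E.st b b' hb hb' h2)]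
  refine ⟨⟨g', hc.pos, ?_, ?_, ?_, ?_⟩, st⟩
  · rw [ek]; exact hc.c0
  · rw [ek]
    show M.cell (P M (cfg M (χ b')) (M.rho k) n) ∈ _
    rw [st n le_rfl]
    exact hc.c1
  · intro u h5 h6
    rw [ek]
    show M.cell (P M (cfg M (χ b')) (M.rho k) u) ∉ _
    rw [st u h6.le]
    exact hc.int u h5 h6
  · intro u h5
    rw [st u h5, ← E.dr b b' hb hb' h2]
    exact hc.new u h5

/-- the predicate `G` on the chords is decided -/
def GDec [Fintype D] (M : CMap D C) (V : Finset α) (χ : Finset α → C → ZMod 2) (K : C → Finset α)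
    (R1 : Finset α → Finset α) (p₀ : Finset α → D) (len : Finset α → ℕ) (Rv : Finset α → Set C)
    (G : Finset α → D → ℕ → Prop) : Prop :=
  ∀ b b' k n, b ⊆ V → b' ⊆ V → b ∩ R2 M χ K R1 p₀ len k b = b' ∩ R2 M χ K R1 p₀ len k b →
    Cd M (cfg M (χ b)) (p₀ b) (len b) (Rv b) k n → G b k n → G b' k n

/-- the weighted square of the value of a chord -/
def Fk [Fintype D] (M : CMap D C) (χ : Finset α → C → ZMod 2) (p₀ : Finset α → D)
    (len : Finset α → ℕ) (Rv : Finset α → Set C) (w : Finset α → ℝ)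
    (G : Finset α → D → ℕ → Prop) (φ : D → ℂ) (i : D × ℕ) (b : Finset α) : ℝ :=
  if w b ≠ 0 ∧ Cd M (cfg M (χ b)) (p₀ b) (len b) (Rv b) i.1 i.2 ∧ G b i.1 i.2 then
    w b * ‖cv M (cfg M (χ b)) (p₀ b) (len b) φ i.1 i.2‖ ^ 2 else 0

theorem fk_dec [Fintype D] (E : Ex M V χ K R1 p₀ len Rv w) {G : Finset α → D → ℕ → Prop}
    (hG : GDec M V χ K R1 p₀ len Rv G) (φ : D → ℂ) (i : D × ℕ) :
    DecF V (R2 M χ K R1 p₀ len i.1) (Fk M χ p₀ len Rv w G φ i) := by
  have key : ∀ b b', b ⊆ V → b' ⊆ V →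
      b ∩ R2 M χ K R1 p₀ len i.1 b = b' ∩ R2 M χ K R1 p₀ len i.1 b →
      (w b ≠ 0 ∧ Cd M (cfg M (χ b)) (p₀ b) (len b) (Rv b) i.1 i.2 ∧ G b i.1 i.2) →
      (w b' ≠ 0 ∧ Cd M (cfg M (χ b')) (p₀ b') (len b') (Rv b') i.1 i.2 ∧ G b' i.1 i.2) := by
    rintro b b' hb hb' h ⟨h1, h2, h3⟩
    have h4 : b ∩ R1 b = b' ∩ R1 b := inter_sub h Finset.subset_union_left
    exact ⟨by rw [← E.dw b b' hb hb' h4]; exact h1, (E.cd hb hb' h h2).1,
      hG b b' i.1 i.2 hb hb' h h2 h3⟩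
  intro b b' hb hb' h
  have hs := (E.stop2 i.1).stop b b' hb hb' h
  have h' : b' ∩ R2 M χ K R1 p₀ len i.1 b' = b ∩ R2 M χ K R1 p₀ len i.1 b' := by
    rw [hs]; exact h.symm
  unfold Fk
  by_cases hc : w b ≠ 0 ∧ Cd M (cfg M (χ b)) (p₀ b) (len b) (Rv b) i.1 i.2 ∧ G b i.1 i.2
  · rw [if_pos hc, if_pos (key b b' hb hb' h hc)]
    have h4 : b ∩ R1 b = b' ∩ R1 b := inter_sub h Finset.subset_union_left
    have hw := E.dw b b' hb hb' h4
    have ep := E.dp b b' hb hb' h4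
    have el := E.dl b b' hb hb' h4
    have o := E.oa b hb hc.1
    have o' := E.oa b' hb' (by rw [← hw]; exact hc.1)
    have h5 := (E.cd hb hb' h hc.2.1).2
    rw [← ep, ← el] at o'
    rw [← hw, ← ep, ← el, cv_congr φ o.ev o'.ev o.occ o'.occ (E.st b b' hb hb' h4) h5]
  · rw [if_neg hc, if_neg fun hc' => hc (key b' b hb' hb h' hc')]

/-- **the joined chords are paid by different closed blocks** (with the number of steps) -/
theorem sum_joined' [Fintype D] {x : D → ZMod 2} {p₀ : D} {m : ℕ} {Rv : Set C}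
    (O : Oa M x p₀ m Rv) (Γ : Finset (D × ℕ)) (hΓ : ∀ i ∈ Γ, Jc M x p₀ m Rv i.1 i.2) (φ : D → ℂ)
    (Big : Finset (Finset D)) (hBig : ∀ i ∈ Γ, blk M x i.1 ∈ Big) :
    ∑ i ∈ Γ, ‖cv M x p₀ m φ i.1 i.2‖ ^ 2 ≤ ∑ β ∈ Big, ‖∑ h ∈ β, φ h‖ ^ 2 := by
  have h1 : ∀ i ∈ Γ, ‖cv M x p₀ m φ i.1 i.2‖ ^ 2 = ‖∑ h ∈ blk M x i.1, φ h‖ ^ 2 := by
    intro i hi
    rw [(hΓ i hi).sum O φ]
    rfl
  have hinj : Set.InjOn (fun i : D × ℕ => blk M x i.1) (Γ : Set (D × ℕ)) := by
    intro i hi j hj e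
    have h2 : j.1 ∈ blk M x i.1 := by
      have : j.1 ∈ blk M x j.1 := self_mem (hΓ j hj).gp
      rw [show blk M x i.1 = blk M x j.1 from e]
      exact this
    exact Prod.ext ((hΓ i hi).inj O (hΓ j hj) (mem_blk.1 h2).2).1
      ((hΓ i hi).inj O (hΓ j hj) (mem_blk.1 h2).2).2
  rw [Finset.sum_congr rfl h1, ← Finset.sum_image (f := fun β => ‖∑ h ∈ β, φ h‖ ^ 2)
    (fun a ha c hc e => hinj ha hc e)]
  refine Finset.sum_le_sum_of_subset_of_nonneg ?_ (fun _ _ _ => by positivity)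
  intro β hβ
  obtain ⟨k, hk, rfl⟩ := Finset.mem_image.1 hβ
  exact hBig k hk

/-- **H2**: the chords are paid by the closed blocks of the plane net -/
theorem h2 [Fintype D] (E : Ex M V χ K R1 p₀ len Rv w) {G : Finset α → D → ℕ → Prop}
    (hG : GDec M V χ K R1 p₀ len Rv G) (φ : D → ℂ) (I : Finset (D × ℕ)) {c : ℝ}
    {T : D × ℕ → Finset α → Prop} (hc : ∀ i ∈ I, c ≤ pr V (T i))
    (hT : ∀ i ∈ I, ∀ b b', b ⊆ V → b' ⊆ V → w b ≠ 0 →
      Cd M (cfg M (χ b)) (p₀ b) (len b) (Rv b) i.1 i.2 → G b i.1 i.2 → T i b' →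
      Con M (cfg M (χ (b' \ R2 M χ K R1 p₀ len i.1 b ∪ b ∩ R2 M χ K R1 p₀ len i.1 b)))
        (M.cell (M.rho (p₀ b))) (M.cell (M.rho (M.rho i.1))))
    (Big : Finset α → Finset (Finset D))
    (hBig : ∀ b, b ⊆ V → w b ≠ 0 → ∀ i ∈ I, Jc M (cfg M (χ b)) (p₀ b) (len b) (Rv b) i.1 i.2 →
      G b i.1 i.2 → blk M (cfg M (χ b)) i.1 ∈ Big b) :
    c * ∑ b ∈ V.powerset, ∑ i ∈ I, Fk M χ p₀ len Rv w G φ i b ≤
      ∑ b ∈ V.powerset, w b * ∑ β ∈ Big b, ‖∑ h ∈ β, φ h‖ ^ 2 := by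
  have hF0 : ∀ i ∈ I, ∀ b, b ⊆ V → 0 ≤ Fk M χ p₀ len Rv w G φ i b := by
    intro i _ b hb
    unfold Fk
    split_ifs
    · exact mul_nonneg (E.w0 b hb) (by positivity)
    · exact le_rfl
  have h1 := fam_glue I (R := fun i => R2 M χ K R1 p₀ len i.1) (fun i _ => E.stop2 i.1)
    (F := Fk M χ p₀ len Rv w G φ) (fun i _ => fk_dec E hG φ i) hF0 (T := T)
    (B := fun i b => Con M (cfg M (χ b)) (M.cell (M.rho (p₀ b))) (M.cell (M.rho (M.rho i.1))))
    hc ?_
  · refine h1.trans (Finset.sum_le_sum fun b hb => ?_)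
    have hb' := Finset.mem_powerset.1 hb
    by_cases hw : w b = 0
    · rw [hw, zero_mul]
      apply le_of_eq
      refine Finset.sum_eq_zero fun i _ => ?_
      split_ifs with h2
      · unfold Fk
        rw [if_neg]
        rintro ⟨h3, -⟩
        exact h3 hw
      · rfl
    · have O := E.oa b hb' hw
      set Γ := I.filter fun i => Jc M (cfg M (χ b)) (p₀ b) (len b) (Rv b) i.1 i.2 ∧ G b i.1 i.2
        with hΓ
      have h3 := sum_joined' O Γ (fun i hi => (Finset.mem_filter.1 hi).2.1) φ (Big b)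
        (fun i hi => hBig b hb' hw i (Finset.mem_filter.1 hi).1 (Finset.mem_filter.1 hi).2.1
          (Finset.mem_filter.1 hi).2.2)
      refine le_trans ?_ (mul_le_mul_of_nonneg_left h3 (E.w0 b hb'))
      rw [Finset.mul_sum, hΓ, Finset.sum_filter]
      refine Finset.sum_le_sum fun i _ => ?_
      by_cases h4 : Con M (cfg M (χ b)) (M.cell (M.rho (p₀ b))) (M.cell (M.rho (M.rho i.1)))
      · rw [if_pos h4]
        unfold Fk
        split_ifs with h5 h6 h6
        · exact le_rfl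
        · exact absurd ⟨h5.2.1.jc h4, h5.2.2⟩ h6
        · exact mul_nonneg (E.w0 b hb') (by positivity)
        · exact le_rfl
      · rw [if_neg h4]
        split_ifs
        · exact mul_nonneg (E.w0 b hb') (by positivity)
        · exact le_rfl
  · intro i hi b b' hb hb' hF hTb
    have h5 : w b ≠ 0 ∧ Cd M (cfg M (χ b)) (p₀ b) (len b) (Rv b) i.1 i.2 ∧ G b i.1 i.2 := by
      by_contra hc
      apply hF
      unfold Fk
      rw [if_neg hc]
    have h6 := hT i hi b b' hb hb' h5.1 h5.2.1 h5.2.2 hTb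
    have h7 : (b' \ R2 M χ K R1 p₀ len i.1 b) ∪ (b ∩ R2 M χ K R1 p₀ len i.1 b) ⊆ V :=
      Finset.union_subset (Finset.sdiff_subset.trans hb') (Finset.inter_subset_left.trans hb)
    have h8 : b ∩ R1 b = ((b' \ R2 M χ K R1 p₀ len i.1 b) ∪ (b ∩ R2 M χ K R1 p₀ len i.1 b)) ∩
        R1 b := by
      have hs : R1 b ⊆ R2 M χ K R1 p₀ len i.1 b := Finset.subset_union_left
      ext y
      simp only [Finset.mem_inter, Finset.mem_union, Finset.mem_sdiff]
      constructor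
      · rintro ⟨h9, h10⟩
        exact ⟨Or.inr ⟨h9, hs h10⟩, h10⟩
      · rintro ⟨⟨-, h9⟩ | ⟨h9, -⟩, h10⟩
        · exact absurd (hs h10) h9
        · exact ⟨h9, h10⟩
    rw [← E.dp b _ hb h7 h8]
    exact h6

end Crest.Agent.R143.H2x355
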