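import Crest.Agent.R143.Exit_707
import Crest.Agent.R143.Coarse_166

/-!
# Row 143 (S0194), hedge block H: the tube joins the chord to the outside (helper389)

`M : CMap D C`, colouring `ψ` (white = 0). `X` : explored outside (any colours), `F` : white cells
next to it, every neighbour of `X` is in `X ∪ F` (311's EXT form).

* `ext_same` : the walker with a black left cell off `X` does not see the colours of `X`
* `pw`, `pw_con` : the map with the giant `X ∪ F`
* `tube_join` : a chain of white cells from the right of the outer arc to `F`, and a chain from `F`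
  to the chord which consists of white cells (or cells of `X ∪ F`, or left cells of the chord) and
  avoids the left cells of the outer arc: then chord and outer arc are on one loop (707's `join`)
-/

set_option autoImplicit false

noncomputable section

open scoped Classical

namespace Crest.Agent.R143.Tubex389

open Crest.Agent.R143.Frame1x395 Crest.Agent.R143.Frame2x395 Crest.Agent.R143.Frame3x395
  Crest.Agent.R143.Frame8x395 Crest.Agent.R143.Frame9x395 Crest.Agent.R143.NonXx592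
  Crest.Agent.R143.Coarsex166 Crest.Agent.R143.Exitx707

variable {D C : Type} {M : CMap D C} {ψ : C → ZMod 2} {X F W : Set C} {h0 : C}

theorem z_cases : ∀ a : ZMod 2, a = 0 ∨ a = 1 := by decide

/-- neighbours of a dart -/
theorem nb_rho (d : D) : Nb M (M.cell d) (M.cell (M.rho d)) := ⟨d, rfl, rfl⟩

theorem nb_rho2 (d : D) : Nb M (M.cell d) (M.cell (M.rho (M.rho d))) :=
  nb_symm ⟨M.rho (M.rho d), rfl, by rw [M.rho3]⟩

/-- the outside: every neighbour of `X` is in `X` or a white cell of `F` -/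
structure Ext (M : CMap D C) (ψ : C → ZMod 2) (X F : Set C) : Prop where
  nb : ∀ a c, a ∈ X → Nb M a c → c ∈ X ∨ c ∈ F
  wh : ∀ c ∈ F, ψ c = 0

/-- `X` recoloured white -/
def rc (ψ : C → ZMod 2) (X : Set C) (c : C) : ZMod 2 := if c ∈ X then 0 else ψ c

theorem rc_off {c : C} (h : c ∉ X) : rc ψ X c = ψ c := if_neg h

theorem rc_on {c : C} (h : c ∈ X) : rc ψ X c = 0 := if_pos h

theorem Ext.off (E : Ext M ψ X F) {a c : C} (ha : ψ a = 1) (hX : a ∉ X) (h : Nb M a c) : c ∉ X := by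
  intro hc
  rcases E.nb c a hc (nb_symm h) with h1 | h1
  · exact hX h1
  · rw [E.wh a h1] at ha
    exact absurd ha (by decide)

/-- state with a black left cell off `X` -/
structure Bl (M : CMap D C) (ψ : C → ZMod 2) (X : Set C) (p : D) : Prop where
  occ : cfg M ψ p = 1
  bl : ψ (M.cell p) = 1
  off : M.cell p ∉ X

theorem Bl.cfg_eq (E : Ext M ψ X F) {p : D} (h : Bl M ψ X p) {d : D} (hd : d ∈ Fa M p) :
    cfg M (rc ψ X) d = cfg M ψ d := by
  have e0 : rc ψ X (M.cell p) = ψ (M.cell p) := rc_off h.off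
  have e1 : rc ψ X (M.cell (M.rho p)) = ψ (M.cell (M.rho p)) :=
    rc_off (E.off h.bl h.off (nb_rho p))
  have e2 : rc ψ X (M.cell (M.rho (M.rho p))) = ψ (M.cell (M.rho (M.rho p))) :=
    rc_off (E.off h.bl h.off (nb_rho2 p))
  unfold cfg
  rcases hd with rfl | rfl | rfl
  · rw [e0, e1]
  · rw [e1, e2]
  · rw [e2, M.rho3, e0]

theorem Bl.stp_eq (E : Ext M ψ X F) {p : D} (h : Bl M ψ X p) :
    stp M (cfg M (rc ψ X)) p = stp M (cfg M ψ) p := by
  unfold stp
  rw [h.cfg_eq E (fa1 M p)]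

variable [Fintype D]

theorem Bl.next (E : Ext M ψ X F) {p : D} (h : Bl M ψ X p) : Bl M ψ X (stp M (cfg M ψ) p) := by
  have hx : IsC M ∅ (cfg M ψ) := cfg_isC ψ
  have h1 := stp_occ hx h.occ (Set.notMem_empty p)
  rcases gap_cases hx h.occ with h2 | ⟨h2, h3, -, -⟩
  · exact ⟨h1, by rw [h2]; exact h.bl, by rw [h2]; exact h.off⟩
  · refine ⟨h1, ?_, ?_⟩
    · rw [← h3]
      unfold cfg at h2
      rw [M.rho3, h.bl] at h2
      revert h2
      generalize ψ (M.cell (M.rho (M.rho p))) = a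
      revert a; decide
    · rw [← h3]
      exact E.off h.bl h.off (nb_rho2 p)

theorem Bl.it (E : Ext M ψ X F) {p : D} (h : Bl M ψ X p) (n : ℕ) :
    Bl M ψ X (P M (cfg M ψ) p n) := by
  induction n with
  | zero => exact h
  | succ n ih => rw [P_succ]; exact ih.next E

/-- **the walker does not see the colours of `X`** -/
theorem ext_same (E : Ext M ψ X F) {p : D} (h : Bl M ψ X p) (n : ℕ) :
    P M (cfg M (rc ψ X)) p n = P M (cfg M ψ) p n := by
  induction n with
  | zero => rfl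
  | succ n ih => rw [P_succ, P_succ, ih, (h.it E n).stp_eq E]

/-! ### the giant -/

omit [Fintype D]

/-- the cells of `W` are merged into one cell -/
def pw (W : Set C) (h0 : C) (c : C) : C := if c ∈ W then h0 else c

theorem pw_off {c : C} (h : c ∉ W) : pw W h0 c = c := if_neg h

theorem pw_on {c : C} (h : c ∈ W) : pw W h0 c = h0 := if_pos h

theorem pw_eq (h0W : h0 ∈ W) {c c' : C} (hc : c' ∉ W) : pw W h0 c = c' ↔ c = c' := by
  by_cases h : c ∈ W
  · rw [pw_on h]
    exact ⟨fun e => absurd (e ▸ h0W) hc, fun e => absurd (e ▸ h) hc⟩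
  · rw [pw_off h]

theorem adj_of_nb {c c' : C} (hc : c ∈ W) (hc' : c' ∈ W) (h : Nb M c c') :
    Relation.EqvGen (Adj M (pw W h0)) c c' := by
  obtain ⟨d, rfl, rfl⟩ := h
  by_cases hd : d ∈ M.live
  · exact Relation.EqvGen.rel _ _ ⟨by rw [pw_on hc, pw_on hc'], d, hd, rfl, rfl⟩
  · rw [← M.dead d hd]; exact Relation.EqvGen.refl _

/-- classes are connected if `W` is connected -/
theorem pw_con (h0W : h0 ∈ W)
    (hW : ∀ c ∈ W, Relation.ReflTransGen (fun a a' => a ∈ W ∧ a' ∈ W ∧ Nb M a a') h0 c) :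
    ClsCon M (pw W h0) := by
  have key : ∀ c ∈ W, Relation.EqvGen (Adj M (pw W h0)) h0 c := by
    intro c hc
    have h := hW c hc
    clear hc
    induction h with
    | refl => exact Relation.EqvGen.refl _
    | @tail a c _ h1 ih => exact ih.trans _ _ _ (adj_of_nb h1.1 h1.2.1 h1.2.2)
  intro a b e
  by_cases ha : M.cell a ∈ W
  · have hb : M.cell b ∈ W := by
      by_contra hb
      rw [pw_on ha, pw_off hb] at e
      exact hb (e ▸ h0W)
    exact (key _ ha).symm.trans _ _ _ (key _ hb)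
  · rw [pw_off ha] at e
    have hb : M.cell b = M.cell a := (pw_eq h0W ha).1 e.symm
    rw [hb]
    exact Relation.EqvGen.refl _

theorem gen_pw (h0W : h0 ∈ W) (hπ : ClsCon M (pw W h0)) {c : C} (hc : c ∉ W) (G : Gen M c) :
    Gen (coarse M (pw W h0) hπ) c where
  lv a ha := by
    have h1 : M.cell a = c := (pw_eq h0W hc).1 ha
    refine ⟨G.lv a h1, ?_⟩
    show pw W h0 (M.cell (M.rho (M.rho a))) ≠ pw W h0 (M.cell (M.rho (M.rho (M.rho a))))
    rw [M.rho3, h1, pw_off hc]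
    exact fun e => G.ne a h1 ((pw_eq h0W hc).1 e)
  orb a b ha hb := G.orb a b ((pw_eq h0W hc).1 ha) ((pw_eq h0W hc).1 hb)
  ne a ha := by
    have h1 : M.cell a = c := (pw_eq h0W hc).1 ha
    exact fun e => G.ne a h1 ((pw_eq h0W hc).1 e)

/-- chord and outer arc: the data of 707's `Ch` with black left cells off the outside -/
structure Dat (M : CMap D C) (ψ : C → ZMod 2) (X F : Set C) (p0 r0 : D) (m b : ℕ) : Prop where
  ext : Ext M ψ X F
  bp : Bl M ψ X p0
  br : Bl M ψ X r0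
  inj : ∀ i j, i < j → j ≤ b → P M (cfg M ψ) r0 i ≠ P M (cfg M ψ) r0 j
  mid : ∀ k, 0 < k → k < m → ∀ j, j ≤ b →
    M.cell (P M (cfg M ψ) p0 k) ≠ M.cell (P M (cfg M ψ) r0 j)
  hq : ∃ j, j ≤ b ∧ M.cell (P M (cfg M ψ) r0 j) = M.cell (P M (cfg M ψ) p0 m)
  hp : ∀ j, j ≤ b → M.cell (P M (cfg M ψ) r0 j) = M.cell (P M (cfg M ψ) p0 m) →
    ∃ j', j ≤ j' ∧ j' ≤ b ∧ M.cell (P M (cfg M ψ) r0 j') = M.cell p0
  ne : M.cell p0 ≠ M.cell (P M (cfg M ψ) p0 m)
  gp : Gen M (M.cell p0)
  gq : Gen M (M.cell (P M (cfg M ψ) p0 m))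

variable {p0 r0 : D} {m b : ℕ}

/-- **the tube joins the chord to the outside** -/
theorem tube_join [Fintype D] (H : Dat M ψ X F p0 r0 m b) (hh : h0 ∈ X ∪ F)
    (hW : ∀ c ∈ X ∪ F,
      Relation.ReflTransGen (fun a a' => a ∈ X ∪ F ∧ a' ∈ X ∪ F ∧ Nb M a a') h0 c)
    -- white chain from the right of the outer arc to the outside
    {u : ℕ → C} {k : ℕ} (u0 : ∃ j, j ≤ b ∧ u 0 = M.cell (M.rho (P M (cfg M ψ) r0 j)))
    (uadj : ∀ i, i < k → Nb M (u i) (u (i + 1))) (ucol : ∀ i, i ≤ k → u i ∈ X ∪ F ∨ ψ (u i) = 0)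
    (uk : u k ∈ X ∪ F)
    -- the tube
    {w : ℕ → C} {n : ℕ} (w0 : w 0 ∈ X ∪ F) (wadj : ∀ i, i < n → Nb M (w i) (w (i + 1)))
    (wcol : ∀ i, i ≤ n → w i ∈ X ∪ F ∨ ψ (w i) = 0 ∨
      ∃ j, j ≤ m ∧ w i = M.cell (P M (cfg M ψ) p0 j))
    (wK : ∀ i, i ≤ n → ∀ j, j ≤ b → w i ≠ M.cell (P M (cfg M ψ) r0 j))
    (wn : ∃ j, j ≤ m ∧ (w n = M.cell (P M (cfg M ψ) p0 j) ∨
      w n = M.cell (M.rho (P M (cfg M ψ) p0 j)))) :
    ∃ t, P M (cfg M ψ) r0 t = p0 := by
  set W : Set C := X ∪ F with hWdef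
  have hπ : ClsCon M (pw W h0) := pw_con hh hW
  set M' := coarse M (pw W h0) hπ with hM'
  set ψ' : C → ZMod 2 := rc ψ X with hψ'
  have blW : ∀ p, Bl M ψ X p → M.cell p ∉ W := by
    intro p hp hc
    rcases hc with hc | hc
    · exact hp.off hc
    · have := H.ext.wh _ hc
      rw [hp.bl] at this
      exact absurd this (by decide)
  have wW : ∀ c ∈ W, ψ' c = 0 := by
    intro c hc
    by_cases h : c ∈ X
    · exact rc_on h
    · rw [hψ', rc_off h]
      rcases hc with hc | hc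
      · exact absurd hc h
      · exact H.ext.wh c hc
  have hπψ : ∀ c, ψ' (pw W h0 c) = ψ' c := by
    intro c
    by_cases h : c ∈ W
    · rw [pw_on h, wW h0 hh, wW c h]
    · rw [pw_off h]
  have hcf : cfg M' ψ' = cfg M (rc ψ X) := by
    funext d
    show ψ' (pw W h0 (M.cell d)) + ψ' (pw W h0 (M.cell (M.rho d))) = _
    rw [hπψ, hπψ]
    rfl
  have hP : ∀ p, Bl M ψ X p → ∀ n, P M' (cfg M' ψ') p n = P M (cfg M ψ) p n := by
    intro p hp n
    rw [hcf]
    exact ext_same H.ext hp n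
  have cellP : ∀ p, Bl M ψ X p → ∀ n,
      M'.cell (P M' (cfg M' ψ') p n) = M.cell (P M (cfg M ψ) p n) := by
    intro p hp n
    rw [hP p hp n]
    exact pw_off (blW _ (hp.it H.ext n))
  have occ' : ∀ p, Bl M ψ X p → cfg M' ψ' p = 1 := by
    intro p hp
    rw [hcf, hp.cfg_eq H.ext (fa0 M p), hp.occ]
  have CH : Crest.Agent.R143.Exitx707.Ch M' (cfg M' ψ') p0 r0 m b := by
    refine ⟨cfg_isC ψ', occ' _ H.bp, occ' _ H.br, ?_, ?_, ?_, ?_, ?_, ?_, ?_⟩
    · intro i j hij hj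
      rw [hP _ H.br, hP _ H.br]
      exact H.inj i j hij hj
    · intro k h1 h2 j hj
      rw [cellP _ H.bp, cellP _ H.br]
      exact H.mid k h1 h2 j hj
    · obtain ⟨j, hj, e⟩ := H.hq
      exact ⟨j, hj, by rw [cellP _ H.bp, cellP _ H.br]; exact e⟩
    · intro j hj e
      rw [cellP _ H.bp, cellP _ H.br] at e
      obtain ⟨j', h1, h2, h3⟩ := H.hp j hj e
      refine ⟨j', h1, h2, ?_⟩
      rw [cellP _ H.br, h3]
      exact (pw_off (blW _ H.bp)).symm
    · rw [cellP _ H.bp]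
      show pw W h0 (M.cell p0) ≠ _
      rw [pw_off (blW _ H.bp)]
      exact H.ne
    · show Gen M' (pw W h0 (M.cell p0))
      rw [pw_off (blW _ H.bp)]
      exact gen_pw hh hπ (blW _ H.bp) H.gp
    · rw [cellP _ H.bp]
      exact gen_pw hh hπ (blW _ (H.bp.it H.ext m)) H.gq
  have nb' : ∀ a c, Nb M a c → Nb M' (pw W h0 a) (pw W h0 c) := by
    rintro a c ⟨d, rfl, rfl⟩
    exact ⟨d, rfl, rfl⟩
  have e0 : pw W h0 (u k) = pw W h0 (w 0) := by rw [pw_on uk, pw_on w0]
  set z : ℕ → C := fun i => if i ≤ k then pw W h0 (u i) else pw W h0 (w (i - k)) with hz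
  have z1 : ∀ i, i ≤ k → z i = pw W h0 (u i) := fun i hi => if_pos hi
  have z2 : ∀ i, z (k + i) = pw W h0 (w i) := by
    intro i
    rcases Nat.eq_zero_or_pos i with rfl | hi
    · rw [add_zero, z1 k le_rfl, e0]
    · have : ¬ k + i ≤ k := by omega
      rw [hz]
      show (if k + i ≤ k then _ else _) = _
      rw [if_neg this, Nat.add_sub_cancel_left]
  have zcase : ∀ i, i ≤ k + n → (i ≤ k ∧ z i = pw W h0 (u i)) ∨
      ∃ i', i' ≤ n ∧ z i = pw W h0 (w i') := by
    intro i hi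
    rcases Nat.lt_or_ge k i with h | h
    · right
      refine ⟨i - k, by omega, ?_⟩
      rw [← z2 (i - k)]
      congr 1
      omega
    · exact Or.inl ⟨h, z1 i h⟩
  have blK : ∀ j, ψ (M.cell (P M (cfg M ψ) r0 j)) = 1 := fun j => (H.br.it H.ext j).bl
  have p1 : ψ' (M'.cell p0) = 1 := by
    show ψ' (pw W h0 (M.cell p0)) = 1
    rw [pw_off (blW _ H.bp), hψ', rc_off H.bp.off, H.bp.bl]
  have J := join (M := M') (x := cfg M' ψ') CH (ψ := ψ') (fun d => rfl) (w := z) (n := k + n)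
    ?_ ?_ ?_ ?_ ?_
  · obtain ⟨t, ht⟩ := J
    exact ⟨t, by rw [← hP _ H.br]; exact ht⟩
  · obtain ⟨j, hj, e⟩ := u0
    refine ⟨j, hj, ?_⟩
    rw [z1 0 (Nat.zero_le _), e]
    show _ = pw W h0 (M.cell (M.rho (P M' (cfg M' ψ') r0 j)))
    rw [hP _ H.br]
  · intro i hi
    rcases Nat.lt_or_ge i k with h | h
    · rw [z1 i h.le, z1 (i + 1) h]
      exact nb' _ _ (uadj i h)
    · obtain ⟨i', rfl⟩ := Nat.exists_eq_add_of_le h
      rw [z2, add_assoc, z2]
      exact nb' _ _ (wadj i' (by omega))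
  · intro i hi j hj e
    rw [cellP _ H.br] at e
    have hoff := blW _ (H.br.it H.ext j)
    rcases zcase i hi with ⟨h1, h2⟩ | ⟨i', h1, h2⟩
    · rw [h2] at e
      have e2 := (pw_eq hh hoff).1 e
      rcases ucol i h1 with h3 | h3
      · exact hoff (e2 ▸ h3)
      · rw [e2, blK j] at h3
        exact absurd h3 (by decide)
    · rw [h2] at e
      exact wK i' h1 j hj ((pw_eq hh hoff).1 e)
  · intro i hi
    rw [p1]
    have white : ∀ c, (c ∈ W ∨ ψ c = 0) → ψ' (pw W h0 c) ≠ 1 := by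
      intro c hc
      rw [hπψ]
      have : ψ' c = 0 := by
        by_cases h : c ∈ W
        · exact wW c h
        · rcases hc with hc | hc
          · exact absurd hc h
          · rw [hψ', rc_off (fun h' => h (Or.inl h')), hc]
      rw [this]; decide
    rcases zcase i hi with ⟨h1, h2⟩ | ⟨i', h1, h2⟩
    · left; rw [h2]; exact white _ (ucol i h1)
    · rcases wcol i' h1 with h3 | h3 | ⟨j, hj, h3⟩
      · left; rw [h2]; exact white _ (Or.inl h3)
      · left; rw [h2]; exact white _ (Or.inr h3)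
      · right
        refine ⟨j, hj, ?_⟩
        rw [h2, h3, cellP _ H.bp]
        exact pw_off (blW _ (H.bp.it H.ext j))
  · obtain ⟨j, hj, h⟩ := wn
    refine ⟨j, hj, ?_⟩
    rw [z2, cellP _ H.bp]
    rcases h with h | h
    · left
      rw [h]
      exact pw_off (blW _ (H.bp.it H.ext j))
    · right
      rw [h]
      show _ = pw W h0 (M.cell (M.rho (P M' (cfg M' ψ') p0 j)))
      rw [hP _ H.bp]

end Crest.Agent.R143.Tubex389
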