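import Crest.Agent.R143.RevA_389
import Crest.Agent.R143.Tube_389
import Crest.Agent.R143.H2_355

/-!
# Row 143 (S0194), hedge block H, leaf H2d, concrete exploration (helper389)

Regions `Rg` (sets of cells): `Far`, `Ann` (annulus outside the ring), `Dw` (where the white cluster
may grow: the complement of the window strip `Th` and of `Far`), `Dp` deep; radial chains of darts
`La`, `Lb` on the two sides of the window; hull cell `h0`.
* `Xs`, `Fs` : explored outside (311's EXT) and its white frontier; `Cw` : white cluster of `Fs` in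
  `Dw`; `Ra` : looked cells; `p0`, `q0` : canonical states; `R1 = Ra ∪` history of the walk
* `Ow` : the ring event off the window; `ex` : 355's `Ex`
* `gd`, `gd_dec` : the good chords (`p ≠ q`, order, reaches the core)
* `con_glue` : 355's `hT` from one location statement `Meet`; `h2w` : H2 for the window
-/

set_option autoImplicit false

noncomputable section

open scoped Classical

namespace Crest.Agent.R143.RevCx389

open Finset Crest.Agent.R143.Harx315 Crest.Agent.R143.Frame1x395 Crest.Agent.R143.Frame2x395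
  Crest.Agent.R143.Frame3x395 Crest.Agent.R143.Frame8x395 Crest.Agent.R143.Frame9x395
  Crest.Agent.R143.Frame11x395 Crest.Agent.R143.NonXx592 Crest.Agent.R143.Chordx355
  Crest.Agent.R143.Histx389 Crest.Agent.R143.RevAx389 Crest.Agent.R143.Tubex389
  Crest.Agent.R143.Chord2x355 Crest.Agent.R143.H2x355

open Crest.Agent.R143.Exitx707 (Nb nb_symm)

variable {α D C : Type}

/-- regions -/
structure Rg (D C : Type) where
  h0 : C
  Far : Set C
  Ann : Set C
  Dw : Set C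
  Th : Set C
  Dp : Set C
  La : ℕ → D
  Lb : ℕ → D

variable {M : CMap D C} {G : Rg D C} {ψ ψ' : C → ZMod 2}

/-! ### the explored outside -/

/-- the explored outside: joined to the hull by cells of `Far` or black cells of `Ann` -/
def Xs (M : CMap D C) (G : Rg D C) (ψ : C → ZMod 2) : Set C :=
  {c | Relation.ReflTransGen (fun a a' => Nb M a a' ∧ (a' ∈ G.Far ∨ (a' ∈ G.Ann ∧ ψ a' = 1)))
    G.h0 c}

/-- its white frontier -/
def Fs (M : CMap D C) (G : Rg D C) (ψ : C → ZMod 2) : Set C :=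
  {c | c ∈ G.Ann ∧ ψ c = 0 ∧ ∃ a ∈ Xs M G ψ, Nb M a c}

/-- the white cluster of the frontier in `Dw` -/
def Cw (M : CMap D C) (G : Rg D C) (ψ : C → ZMod 2) : Set C := Cl (Nb M) G.Dw ψ 0 (Fs M G ψ)

theorem h0_xs : G.h0 ∈ Xs M G ψ := Relation.ReflTransGen.refl

theorem xs_far {a c : C} (ha : a ∈ Xs M G ψ) (h : Nb M a c) (hc : c ∈ G.Far) : c ∈ Xs M G ψ :=
  Relation.ReflTransGen.tail ha ⟨h, Or.inl hc⟩

theorem xs_ann {a c : C} (ha : a ∈ Xs M G ψ) (h : Nb M a c) (hc : c ∈ G.Ann) (h1 : ψ c = 1) :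
    c ∈ Xs M G ψ := Relation.ReflTransGen.tail ha ⟨h, Or.inr ⟨hc, h1⟩⟩

theorem xs_ind {Q : C → Prop} (h0 : Q G.h0)
    (hs : ∀ a c, a ∈ Xs M G ψ → Q a → Nb M a c → (c ∈ G.Far ∨ (c ∈ G.Ann ∧ ψ c = 1)) → Q c) :
    ∀ c ∈ Xs M G ψ, Q c := by
  intro c hc
  have hc' : Relation.ReflTransGen
    (fun a a' => Nb M a a' ∧ (a' ∈ G.Far ∨ (a' ∈ G.Ann ∧ ψ a' = 1))) G.h0 c := hc
  clear hc
  induction hc' with
  | refl => exact h0
  | @tail a c h1 h2 ih => exact hs a c h1 ih h2.1 h2.2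

theorem xs_congr (h : ∀ c ∈ Lk (Nb M) G.Ann (Xs M G ψ), ψ' c = ψ c) : Xs M G ψ' = Xs M G ψ := by
  apply Set.Subset.antisymm
  · refine xs_ind h0_xs fun a c _ ih h1 h2 => ?_
    rcases h2 with h2 | ⟨h2, h3⟩
    · exact xs_far ih h1 h2
    · exact xs_ann ih h1 h2 ((h c ⟨h2, a, ih, h1⟩).symm.trans h3)
  · intro c hc
    refine xs_ind (Q := fun c => c ∈ Xs M G ψ') h0_xs (fun a c h0 ih h1 h2 => ?_) c hc
    rcases h2 with h2 | ⟨h2, h3⟩
    · exact xs_far ih h1 h2
    · exact xs_ann ih h1 h2 ((h c ⟨h2, a, h0, h1⟩).trans h3)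

theorem fs_congr (h : ∀ c ∈ Lk (Nb M) G.Ann (Xs M G ψ), ψ' c = ψ c) : Fs M G ψ' = Fs M G ψ := by
  have e := xs_congr h
  ext c
  constructor
  · rintro ⟨h1, h2, a, h3, h4⟩
    rw [e] at h3
    exact ⟨h1, (h c ⟨h1, a, h3, h4⟩).symm.trans h2, a, h3, h4⟩
  · rintro ⟨h1, h2, a, h3, h4⟩
    refine ⟨h1, (h c ⟨h1, a, h3, h4⟩).trans h2, a, ?_, h4⟩
    rw [e]; exact h3

/-- a cell which was looked at is in the outside or in its frontier -/
theorem lk_xs {c : C} (hc : c ∈ Lk (Nb M) G.Ann (Xs M G ψ)) : c ∈ Xs M G ψ ∨ c ∈ Fs M G ψ := by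
  obtain ⟨h1, a, h2, h3⟩ := hc
  rcases z_cases (ψ c) with h | h
  · exact Or.inr ⟨h1, h, a, h2, h3⟩
  · exact Or.inl (xs_ann h2 h3 h1 h)

theorem cw_white {c : C} (hc : c ∈ Cw M G ψ) : ψ c = 0 := by
  rcases cl_col hc with h | h
  · exact h.2.1
  · exact h.2

/-! ### the explorations -/

variable {V : Finset α} {χ : Finset α → C → ZMod 2} {K : C → Finset α} {b b' : Finset α}

/-- first exploration -/
def R0 (M : CMap D C) (G : Rg D C) (V : Finset α) (χ : Finset α → C → ZMod 2) (K : C → Finset α)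
    (b : Finset α) : Finset α := coins V K (Lk (Nb M) G.Ann (Xs M G (χ b)))

/-- second exploration -/
def Ra (M : CMap D C) (G : Rg D C) (V : Finset α) (χ : Finset α → C → ZMod 2) (K : C → Finset α)
    (b : Finset α) : Finset α :=
  R0 M G V χ K b ∪ coins V K (Lk (Nb M) G.Dw (Cl (Nb M) G.Dw (χ b) 0 (Fs M G (χ b))))

theorem r0_stop (hχ : Coins V χ K) (hK : ∀ c, K c ⊆ V) : IsStop V (R0 M G V χ K) where
  sub b _ := filter_subset _ _
  stop b b' hb hb' h := by
    unfold R0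
    rw [xs_congr (agree hχ hK hb hb' h)]

theorem xs_dec (hχ : Coins V χ K) (hK : ∀ c, K c ⊆ V) :
    DecF V (R0 M G V χ K) fun b => Xs M G (χ b) := fun _ _ hb hb' h =>
  (xs_congr (agree hχ hK hb hb' h)).symm

theorem fs_dec (hχ : Coins V χ K) (hK : ∀ c, K c ⊆ V) :
    DecF V (R0 M G V χ K) fun b => Fs M G (χ b) := fun _ _ hb hb' h =>
  (fs_congr (agree hχ hK hb hb' h)).symm

theorem ra_stop (hχ : Coins V χ K) (hK : ∀ c, K c ⊆ V) : IsStop V (Ra M G V χ K) :=
  clus_stop hχ hK (r0_stop hχ hK) (fs_dec hχ hK)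

theorem cw_dec (hχ : Coins V χ K) (hK : ∀ c, K c ⊆ V) :
    DecF V (Ra M G V χ K) fun b => Cw M G (χ b) :=
  dec_cl hχ hK (fs_dec hχ hK)

/-- first dart of the chain `L` whose outer cell is in `S` -/
def fst' (M : CMap D C) (L : ℕ → D) (S : Set C) : D := L (sInf {i | M.cell (M.rho (L i)) ∈ S})

/-- first state of the outer arc -/
def p0 (M : CMap D C) (G : Rg D C) (ψ : C → ZMod 2) : D := fst' M G.La (Cw M G ψ)

/-- last state of the outer arc -/
def q0 (M : CMap D C) (G : Rg D C) (ψ : C → ZMod 2) : D := fst' M G.Lb (Cw M G ψ)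

theorem p0_dec (hχ : Coins V χ K) (hK : ∀ c, K c ⊆ V) :
    DecF V (Ra M G V χ K) fun b => p0 M G (χ b) := (cw_dec hχ hK).comp (fst' M G.La)

theorem q0_dec (hχ : Coins V χ K) (hK : ∀ c, K c ⊆ V) :
    DecF V (Ra M G V χ K) fun b => ({q0 M G (χ b)} : Set D) :=
  (cw_dec hχ hK).comp fun S => ({fst' M G.Lb S} : Set D)

/-- number of states of the outer arc -/
def ln (M : CMap D C) (G : Rg D C) (ψ : C → ZMod 2) : ℕ :=
  sInf {n | P M (cfg M ψ) (p0 M G ψ) n = q0 M G ψ} + 1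

theorem ln_pos : 0 < ln M G ψ := Nat.succ_pos _

theorem ln_not {k : ℕ} (hk : k + 1 < ln M G ψ) :
    P M (cfg M ψ) (p0 M G ψ) k ∉ ({q0 M G ψ} : Set D) := by
  intro h
  unfold ln at hk
  have : sInf {n | P M (cfg M ψ) (p0 M G ψ) n = q0 M G ψ} ≤ k := Nat.sInf_le h
  omega

variable [Fintype D]

/-- third exploration -/
def R1 (M : CMap D C) (G : Rg D C) (V : Finset α) (χ : Finset α → C → ZMod 2) (K : C → Finset α)
    (b : Finset α) : Finset α :=
  Ra M G V χ K b ∪ hist M K (cfg M (χ b)) {q0 M G (χ b)} (p0 M G (χ b))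

theorem r1_stop (hχ : Coins V χ K) (hK : ∀ c, K c ⊆ V) : IsStop V (R1 M G V χ K) :=
  hist_stop hχ hK (ra_stop hχ hK) (B := fun b => {q0 M G (χ b)}) (q0_dec hχ hK)
    (p0_dec hχ hK)

theorem ra_r1 {β : Type*} {F : Finset α → β} (h : DecF V (Ra M G V χ K) F) :
    DecF V (R1 M G V χ K) F := h.mono fun _ _ => subset_union_left

theorem r1_states (hχ : Coins V χ K) (hb : b ⊆ V) (hb' : b' ⊆ V)
    (h : b ∩ R1 M G V χ K b = b' ∩ R1 M G V χ K b) {a : ℕ} (ha : a < ln M G (χ b)) :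
    P M (cfg M (χ b')) (p0 M G (χ b)) a = P M (cfg M (χ b)) (p0 M G (χ b)) a := by
  have h3 : b ∩ hist M K (cfg M (χ b)) {q0 M G (χ b)} (p0 M G (χ b)) =
    b' ∩ hist M K (cfg M (χ b)) {q0 M G (χ b)} (p0 M G (χ b)) := inter_sub h subset_union_right
  exact it_hist hχ hb hb' h3 a fun k hk => ln_not (by omega)

theorem ln_dec (hχ : Coins V χ K) (hK : ∀ c, K c ⊆ V) :
    DecF V (R1 M G V χ K) fun b => ln M G (χ b) := by
  intro b b' hb hb' h
  have h2 : b ∩ Ra M G V χ K b = b' ∩ Ra M G V χ K b := inter_sub h subset_union_left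
  have h3 : b ∩ hist M K (cfg M (χ b)) {q0 M G (χ b)} (p0 M G (χ b)) =
    b' ∩ hist M K (cfg M (χ b)) {q0 M G (χ b)} (p0 M G (χ b)) := inter_sub h subset_union_right
  have ec := cw_dec hχ hK b b' hb hb' h2
  dsimp only at ec
  have ep : p0 M G (χ b') = p0 M G (χ b) := by unfold p0; rw [ec]
  have eq : q0 M G (χ b') = q0 M G (χ b) := by unfold q0; rw [ec]
  dsimp only
  unfold ln
  rw [ep, eq]
  congr 1
  set S : Set ℕ := {n | P M (cfg M (χ b)) (p0 M G (χ b)) n = q0 M G (χ b)} with hS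
  set S' : Set ℕ := {n | P M (cfg M (χ b')) (p0 M G (χ b)) n = q0 M G (χ b)} with hS'
  have key : ∀ n, (∀ k < n, k ∉ S) → P M (cfg M (χ b')) (p0 M G (χ b)) n =
      P M (cfg M (χ b)) (p0 M G (χ b)) n := fun n hn =>
    it_hist hχ hb hb' h3 n fun k hk => hn k hk
  rcases S.eq_empty_or_nonempty with he | hne
  · have he' : S' = ∅ := by
      rw [Set.eq_empty_iff_forall_notMem] at he ⊢
      intro n hn
      apply he n
      show P M (cfg M (χ b)) (p0 M G (χ b)) n = q0 M G (χ b)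
      rw [← key n fun k _ => he k]
      exact hn
    rw [he, he']
  · have h4 := Nat.sInf_mem hne
    have h5 : ∀ k < sInf S, k ∉ S := fun k hk hm => absurd (Nat.sInf_le hm) (by omega)
    have h6 : sInf S ∈ S' := by
      show P M (cfg M (χ b')) (p0 M G (χ b)) (sInf S) = q0 M G (χ b)
      rw [key _ h5]
      exact h4
    apply le_antisymm
    · by_contra hc
      push Not at hc
      have h7 := Nat.sInf_mem (s := S') ⟨_, h6⟩
      apply h5 _ hc
      show P M (cfg M (χ b)) (p0 M G (χ b)) (sInf S') = q0 M G (χ b)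
      rw [← key _ fun k hk => h5 k (by omega)]
      exact h7
    · exact Nat.sInf_le h6

/-! ### the event -/

/-- the ring event off the window -/
structure Ow (M : CMap D C) (G : Rg D C) (V : Finset α) (χ : Finset α → C → ZMod 2)
    (K : C → Finset α) (b : Finset α) : Prop where
  x1 : ∀ a ∈ Xs M G (χ b), ∀ c, Nb M a c → c ∈ G.Far ∨ c ∈ G.Ann
  bl : χ b (M.cell (p0 M G (χ b))) = 1
  hit : ∃ n, P M (cfg M (χ b)) (p0 M G (χ b)) n = q0 M G (χ b)
  lx : ∀ a, a < ln M G (χ b) → M.cell (P M (cfg M (χ b)) (p0 M G (χ b)) a) ∉ Xs M G (χ b)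
  lt : ∀ a, a < ln M G (χ b) → M.cell (P M (cfg M (χ b)) (p0 M G (χ b)) a) ∉ G.Th ∧
    M.cell (P M (cfg M (χ b)) (p0 M G (χ b)) a) ∉ G.Dp
  rt : ∀ a, a < ln M G (χ b) → M.cell (M.rho (P M (cfg M (χ b)) (p0 M G (χ b)) a)) ∈ Cw M G (χ b)
  sn : hist M K (cfg M (χ b)) {q0 M G (χ b)} (p0 M G (χ b)) ⊆ Ra M G V χ K b
  dp : ∀ c ∈ Lk (Nb M) G.Dw (Cw M G (χ b)), c ∉ G.Dp

theorem Ow.occ (H : Ow M G V χ K b) : cfg M (χ b) (p0 M G (χ b)) = 1 := by
  have h1 : χ b (M.cell (M.rho (p0 M G (χ b)))) = 0 := cw_white (H.rt 0 ln_pos)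
  unfold cfg
  rw [H.bl, h1]
  decide

variable {w : Finset α → ℝ}

/-- **355's `Ex`** -/
theorem ex (hχ : Coins V χ K) (hK : ∀ c, K c ⊆ V) (hw : DecF V (R1 M G V χ K) w)
    (w0 : ∀ b, b ⊆ V → 0 ≤ w b) (w1 : ∀ b, b ⊆ V → w b ≤ 1)
    (ho : ∀ b, b ⊆ V → w b ≠ 0 → Ow M G V χ K b) :
    Ex M V χ K (R1 M G V χ K) (fun b => p0 M G (χ b)) (fun b => ln M G (χ b))
      (fun b => Cw M G (χ b)) w where
  coins := hχ
  sub := hK
  stop := r1_stop hχ hK
  dp := ra_r1 (p0_dec hχ hK)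
  dl := ln_dec hχ hK
  dr := ra_r1 (cw_dec hχ hK)
  dw := hw
  w0 := w0
  w1 := w1
  st b b' hb hb' h a ha := r1_states hχ hb hb' h ha
  co b b' hb hb' h a ha := by
    have h3 : b ∩ hist M K (cfg M (χ b)) {q0 M G (χ b)} (p0 M G (χ b)) =
      b' ∩ hist M K (cfg M (χ b)) {q0 M G (χ b)} (p0 M G (χ b)) := inter_sub h subset_union_right
    exact (cell_hist hχ hb hb' h3 ⟨a, rfl, fun k hk => ln_not (by omega)⟩).1
  oa b hb hw := ⟨cfg_isC _, (ho b hb hw).occ, (ho b hb hw).rt⟩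

/-! ### good chords -/

/-- good chords: different end cells, the facing side contains the window (order), reaches `Co` -/
def gd (M : CMap D C) (G : Rg D C) (Co : Set C) (ψ : C → ZMod 2) (k : D) (n : ℕ) : Prop :=
  M.cell (M.rho k) ≠ lc M (cfg M ψ) (M.rho k) n ∧
  (∀ j, j < ln M G ψ → lc M (cfg M ψ) (p0 M G ψ) j = lc M (cfg M ψ) (M.rho k) n →
    ∃ j', j ≤ j' ∧ j' < ln M G ψ ∧ lc M (cfg M ψ) (p0 M G ψ) j' = M.cell (M.rho k)) ∧
  ∃ u, u ≤ n ∧ lc M (cfg M ψ) (M.rho k) u ∈ Co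

variable {Co : Set C}

theorem gd_dec (hχ : Coins V χ K) (hK : ∀ c, K c ⊆ V)
    (E : Ex M V χ K (R1 M G V χ K) (fun b => p0 M G (χ b)) (fun b => ln M G (χ b))
      (fun b => Cw M G (χ b)) w) :
    GDec M V χ K (R1 M G V χ K) (fun b => p0 M G (χ b)) (fun b => ln M G (χ b))
      (fun b => Cw M G (χ b)) (fun b k n => gd M G Co (χ b) k n) := by
  intro b b' k n hb hb' h hc hg
  have hst := (E.cd hb hb' h hc).2
  have h2 : b ∩ R1 M G V χ K b = b' ∩ R1 M G V χ K b := inter_sub h subset_union_left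
  have el := ln_dec hχ hK b b' hb hb' h2
  have ep := ra_r1 (p0_dec (M := M) (G := G) hχ hK) b b' hb hb' h2
  dsimp only at el ep
  have hst2 : ∀ a, a < ln M G (χ b) →
      lc M (cfg M (χ b')) (p0 M G (χ b')) a = lc M (cfg M (χ b)) (p0 M G (χ b)) a := by
    intro a ha
    unfold lc
    rw [← ep, r1_states hχ hb hb' h2 ha]
  have hst1 : ∀ u, u ≤ n → lc M (cfg M (χ b')) (M.rho k) u = lc M (cfg M (χ b)) (M.rho k) u := by
    intro u hu
    unfold lc
    rw [hst u hu]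
  obtain ⟨g1, g2, u, g3, g4⟩ := hg
  refine ⟨by rw [hst1 n le_rfl]; exact g1, ?_, u, g3, by rw [hst1 u g3]; exact g4⟩
  intro j hj e
  rw [← el] at hj
  rw [hst2 j hj, hst1 n le_rfl] at e
  obtain ⟨j', h3, h4, h5⟩ := g2 j hj e
  exact ⟨j', h3, by rw [← el]; exact h4, by rw [hst2 j' h4]; exact h5⟩

/-! ### the location statement and the gluing -/

/-- **location**: the white tube of `b'` from the outside through the window meets the chord of `b` -/
def Meet (M : CMap D C) (G : Rg D C) (χ : Finset α → C → ZMod 2) (b b' : Finset α) (k : D)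
    (n : ℕ) : Prop :=
  ∃ (w : ℕ → C) (m : ℕ), w 0 ∈ Xs M G (χ b) ∪ Fs M G (χ b) ∧ (∀ i, i < m → Nb M (w i) (w (i + 1))) ∧
    (∀ i, i ≤ m → w i ∈ Xs M G (χ b) ∪ Fs M G (χ b) ∨
      ((w i ∈ G.Th ∨ w i ∈ G.Dp) ∧ χ b' (w i) = 0)) ∧
    ∃ j, j ≤ n ∧ (w m = M.cell (P M (cfg M (χ b)) (M.rho k) j) ∨
      w m = M.cell (M.rho (P M (cfg M (χ b)) (M.rho k) j)))

theorem rtg_chain {r : C → C → Prop} {z c : C} (h : Relation.ReflTransGen r z c) :
    ∃ (u : ℕ → C) (k : ℕ), u 0 = c ∧ u k = z ∧ ∀ i, i < k → r (u (i + 1)) (u i) := by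
  induction h with
  | refl => exact ⟨fun _ => z, 0, rfl, rfl, fun i hi => absurd hi (Nat.not_lt_zero i)⟩
  | @tail a c _ h1 ih =>
    obtain ⟨u, k, h2, h3, h4⟩ := ih
    refine ⟨fun i => Nat.casesOn i c u, k + 1, rfl, h3, ?_⟩
    intro i hi
    cases i with
    | zero =>
      show r (u 0) c
      rw [h2]; exact h1
    | succ i => exact h4 i (by omega)

/-- **the good chords are joined in the glued configuration** -/
theorem con_glue (hχ : Coins V χ K) (hK : ∀ c, K c ⊆ V)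
    (hdis : ∀ c c' y, y ∈ K c → y ∈ K c' → c = c')
    (hTh : ∀ c, c ∈ G.Dw → c ∉ G.Th)
    (hgen : ∀ d, M.cell d ≠ G.h0 → Gen M (M.cell d))
    (E : Ex M V χ K (R1 M G V χ K) (fun b => p0 M G (χ b)) (fun b => ln M G (χ b))
      (fun b => Cw M G (χ b)) w)
    (hb : b ⊆ V) (hb' : b' ⊆ V) (H : Ow M G V χ K b) {k : D} {n : ℕ}
    (hc : Cd M (cfg M (χ b)) (p0 M G (χ b)) (ln M G (χ b)) (Cw M G (χ b)) k n)
    (hg : gd M G Co (χ b) k n) (hm : Meet M G χ b b' k n) {R : Finset α}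
    (hR : R = R2 M χ K (R1 M G V χ K) (fun b => p0 M G (χ b)) (fun b => ln M G (χ b)) k b) :
    Con M (cfg M (χ (b' \ R ∪ b ∩ R))) (M.cell (M.rho (p0 M G (χ b))))
      (M.cell (M.rho (M.rho k))) := by
  set g := b' \ R ∪ b ∩ R with hgdef
  have hgV : g ⊆ V := union_subset (sdiff_subset.trans hb') (inter_subset_left.trans hb)
  have hgR : b ∩ R = g ∩ R := by
    ext y
    simp only [hgdef, mem_inter, mem_union, mem_sdiff]
    constructor
    · rintro ⟨h1, h2⟩; exact ⟨Or.inr ⟨h1, h2⟩, h2⟩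
    · rintro ⟨⟨-, h1⟩ | h1, h2⟩
      · exact absurd h2 h1
      · exact h1
  have hgR' := hgR
  rw [hR] at hgR'
  obtain ⟨hcg, hst⟩ := E.cd hb hgV hgR' hc
  have h1 : b ∩ R1 M G V χ K b = g ∩ R1 M G V χ K b := inter_sub hgR' subset_union_left
  have ha : b ∩ Ra M G V χ K b = g ∩ Ra M G V χ K b := inter_sub h1 subset_union_left
  have h00 : b ∩ R0 M G V χ K b = g ∩ R0 M G V χ K b := inter_sub ha subset_union_left
  have eX := xs_dec hχ hK b g hb hgV h00
  have eF := fs_dec hχ hK b g hb hgV h00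
  have eC := cw_dec hχ hK b g hb hgV ha
  have ep := ra_r1 (p0_dec (M := M) (G := G) hχ hK) b g hb hgV h1
  have el := ln_dec hχ hK b g hb hgV h1
  dsimp only at eX eF eC ep el
  set ψ := χ g with hψ
  set x := cfg M ψ with hx
  have hxc : IsC M ∅ x := cfg_isC ψ
  set r0 := p0 M G (χ b) with hr0
  set L := ln M G (χ b) with hL
  have hLpos : 0 < L := ln_pos
  -- states of the outer arc
  have hsa : ∀ a, a < L → P M x r0 a = P M (cfg M (χ b)) r0 a := fun a ha =>
    r1_states hχ hb hgV h1 ha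
  have hrc : ∀ a, a < L → M.cell (M.rho (P M x r0 a)) ∈ Cw M G ψ := by
    intro a ha
    rw [hsa a ha, ← eC]
    exact H.rt a ha
  have hlX : ∀ a, a < L → M.cell (P M x r0 a) ∉ Xs M G ψ := by
    intro a ha
    rw [hsa a ha, ← eX]
    exact H.lx a ha
  -- black left cells
  have hbl0 : ψ (M.cell r0) = 1 := by
    have h2 := (E.co b g hb hgV h1 0 hLpos)
    exact h2.trans H.bl
  have hocc : x r0 = 1 := by
    have h2 := cw_white (hrc 0 hLpos)
    show ψ (M.cell r0) + ψ (M.cell (M.rho r0)) = 1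
    rw [hbl0]
    have h3 : ψ (M.cell (M.rho r0)) = 0 := h2
    rw [h3]; decide
  have hsame : ∀ d, x d = 0 → ψ (M.cell d) = ψ (M.cell (M.rho d)) := by
    intro d hd
    have : ψ (M.cell d) + ψ (M.cell (M.rho d)) = 0 := hd
    revert this
    generalize ψ (M.cell d) = a
    generalize ψ (M.cell (M.rho d)) = c
    revert a c; decide
  have hbla : ∀ a, ψ (M.cell (P M x r0 a)) = 1 := fun a =>
    (it_col hxc hocc hsame a).trans hbl0
  -- the outside
  have hext : Ext M ψ (Xs M G ψ) (Fs M G ψ) := by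
    refine ⟨fun a c ha hn => ?_, fun c hc => hc.2.1⟩
    rw [← eX] at ha
    rcases H.x1 a ha c hn with h2 | h2
    · left; rw [← eX]; exact xs_far ha hn h2
    · have h3 : c ∈ Lk (Nb M) G.Ann (Xs M G ψ) := ⟨h2, a, by rw [← eX]; exact ha, hn⟩
      exact lk_xs h3
  have hkc : ∀ c, c ∈ Kc M x r0 L → ψ c = 1 ∧ c ∉ Xs M G ψ ∧ Gen M c := by
    rintro c ⟨a, ha, rfl⟩
    have h2 : M.cell (P M x r0 a) ∉ Xs M G ψ := hlX a ha
    exact ⟨hbla a, h2, hgen _ fun e => h2 (e ▸ h0_xs)⟩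
  have ecd : Cd M x r0 L (Cw M G ψ) k n := by
    have := hcg
    rw [← ep, ← el] at this
    exact this
  have bp : Bl M ψ (Xs M G ψ) (M.rho k) := ⟨ecd.gp.2, (hkc _ ecd.c0).1, (hkc _ ecd.c0).2.1⟩
  have br : Bl M ψ (Xs M G ψ) r0 := ⟨hocc, hbl0, hlX 0 hLpos⟩
  have elc : ∀ u, u ≤ n → lc M x (M.rho k) u = lc M (cfg M (χ b)) (M.rho k) u := by
    intro u hu
    unfold lc
    rw [hst u hu]
  have ela : ∀ u, u < L → lc M x r0 u = lc M (cfg M (χ b)) r0 u := by
    intro u hu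
    unfold lc
    rw [hsa u hu]
  have hdat : Dat M ψ (Xs M G ψ) (Fs M G ψ) (M.rho k) r0 n (L - 1) := by
    refine ⟨hext, bp, br, ?_, ?_, ?_, ?_, ?_, (hkc _ ecd.c0).2.2, (hkc _ ecd.c1).2.2⟩
    · -- the states are distinct
      intro i j hij hj e
      obtain ⟨N, hN⟩ := H.hit
      have hne : ({m | P M (cfg M (χ b)) r0 m = q0 M G (χ b)} : Set ℕ).Nonempty := ⟨N, hN⟩
      have h2 := Nat.sInf_mem hne
      have h3 : L - 1 = sInf {m | P M (cfg M (χ b)) r0 m = q0 M G (χ b)} := by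
        rw [hL]; unfold ln; rw [Nat.add_sub_cancel]
      rw [← h3] at h2
      have h2 : P M (cfg M (χ b)) r0 (L - 1) = q0 M G (χ b) := h2
      have e2 : P M (cfg M (χ b)) r0 i = P M (cfg M (χ b)) r0 j := by
        rw [← hsa i (by omega), ← hsa j (by omega)]; exact e
      have e3 : P M (cfg M (χ b)) r0 (L - 1 - (j - i)) = P M (cfg M (χ b)) r0 (L - 1) := by
        rw [show L - 1 - (j - i) = (L - 1 - j) + i by omega,
          show P M (cfg M (χ b)) r0 (L - 1) = P M (cfg M (χ b)) r0 ((L - 1 - j) + j) by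
            congr 1; omega, P_add, P_add, e2]
      have h4 : L - 1 - (j - i) ∈ {m | P M (cfg M (χ b)) r0 m = q0 M G (χ b)} := e3.trans h2
      have h5 := Nat.sInf_le h4
      omega
    · intro u h2 h3 j hj e
      apply ecd.int u h2 h3
      exact ⟨j, by omega, e.symm⟩
    · obtain ⟨a, ha, e⟩ := ecd.c1
      exact ⟨a, by omega, e⟩
    · intro j hj e
      obtain ⟨j', h2, h3, h4⟩ := hg.2.1 j (by omega) (by
        rw [← ela j (by omega), ← elc n le_rfl]; exact e)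
      refine ⟨j', h2, by omega, ?_⟩
      have h5 := ela j' (by omega)
      rw [h4] at h5
      exact h5
    · have := hg.1
      rw [← elc n le_rfl] at this
      exact this
  -- connectivity of the outside
  have hconn : ∀ c ∈ Xs M G ψ ∪ Fs M G ψ, Relation.ReflTransGen
      (fun a a' => a ∈ Xs M G ψ ∪ Fs M G ψ ∧ a' ∈ Xs M G ψ ∪ Fs M G ψ ∧ Nb M a a') G.h0 c := by
    have key : ∀ c ∈ Xs M G ψ, Relation.ReflTransGen
      (fun a a' => a ∈ Xs M G ψ ∪ Fs M G ψ ∧ a' ∈ Xs M G ψ ∪ Fs M G ψ ∧ Nb M a a') G.h0 c := by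
      refine xs_ind Relation.ReflTransGen.refl fun a c h2 ih h3 h4 => ?_
      have h5 : c ∈ Xs M G ψ := Relation.ReflTransGen.tail h2 ⟨h3, h4⟩
      exact ih.tail ⟨Or.inl h2, Or.inl h5, h3⟩
    intro c hc
    rcases hc with hc | hc
    · exact key c hc
    · obtain ⟨h2, h3, a, h4, h5⟩ := hc
      exact (key a h4).tail ⟨Or.inl h4, Or.inr ⟨h2, h3, a, h4, h5⟩, h5⟩
  -- the chain from the right of the outer arc to the outside
  obtain ⟨z, hz, hpath⟩ : M.cell (M.rho r0) ∈ Cw M G ψ := hrc 0 hLpos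
  obtain ⟨u, ku, hu0, huk, hur⟩ := rtg_chain hpath
  obtain ⟨v, m, hv0, hvadj, hvcol, jn, hjn, hvm⟩ := hm
  rw [eX, eF] at hv0
  -- colours along the tube
  have hvcol' : ∀ i, i ≤ m → v i ∈ Xs M G ψ ∪ Fs M G ψ ∨
      ((v i ∈ G.Th ∨ v i ∈ G.Dp) ∧ χ b' (v i) = 0) := by
    intro i hi
    have := hvcol i hi
    rw [eX, eF] at this
    exact this
  have hrw : ∀ j, ψ (M.cell (M.rho (P M x (M.rho k) j))) = 0 := by
    intro j
    have h2 := (bp.it hext j)
    have h3 : ψ (M.cell (P M x (M.rho k) j)) + ψ (M.cell (M.rho (P M x (M.rho k) j))) = 1 := h2.occ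
    rw [h2.bl] at h3
    revert h3
    generalize ψ (M.cell (M.rho (P M x (M.rho k) j))) = a
    revert a; decide
  have hcol : ∀ i, i ≤ m → v i ∈ Xs M G ψ ∪ Fs M G ψ ∨ ψ (v i) = 0 ∨
      ∃ j, j ≤ n ∧ v i = M.cell (P M x (M.rho k) j) := by
    intro i hi
    rcases hvcol' i hi with h2 | ⟨h2, h3⟩
    · exact Or.inl h2
    by_cases hXF : v i ∈ Xs M G ψ ∪ Fs M G ψ
    · exact Or.inl hXF
    right
    by_cases hex : ∃ y, y ∈ K (v i) ∧ y ∈ R
    · obtain ⟨y, hy1, hy2⟩ := hex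
      rw [hR] at hy2
      have hRa : y ∉ Ra M G V χ K b := by
        intro hy
        rcases mem_union.1 hy with hy | hy
        · obtain ⟨c, hc1, hc2⟩ := (mem_filter.1 hy).2
          obtain rfl := hdis _ _ _ hy1 hc2
          apply hXF
          rw [eX] at hc1
          exact lk_xs hc1
        · obtain ⟨c, hc1, hc2⟩ := (mem_filter.1 hy).2
          obtain rfl := hdis _ _ _ hy1 hc2
          rcases h2 with h2 | h2
          · exact hTh _ hc1.1 h2
          · exact H.dp _ hc1 h2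
      rcases mem_union.1 hy2 with hy | hy
      · rcases mem_union.1 hy with hy | hy
        · exact absurd hy hRa
        · exact absurd (H.sn hy) hRa
      · obtain ⟨p, ⟨j, rfl, hjB⟩, hp2⟩ := mem_hist.1 hy
        -- the state `out k` after `j` steps is the state `j + 1` of the chord
        have hgpb : Gp M (cfg M (χ b)) k := hc.gp
        have hsh : ∀ j, P M (cfg M (χ b)) (out M k) j = P M (cfg M (χ b)) (M.rho k) (j + 1) := by
          intro j
          rw [P_add]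
          congr 1
          exact (hgpb.stp (cfg_isC _)).symm
        have hjn : j + 1 ≤ n := by
          by_contra hlt
          apply hjB (n - 1) (by have := hc.pos; omega)
          show M.cell ((stp M (cfg M (χ b)))^[n - 1] (out M k)) ∈
            Kc M (cfg M (χ b)) (p0 M G (χ b)) (ln M G (χ b))
          have h4 := hsh (n - 1)
          rw [Nat.sub_add_cancel hc.pos] at h4
          rw [show (stp M (cfg M (χ b)))^[n - 1] (out M k) = P M (cfg M (χ b)) (M.rho k) n from h4]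
          exact hc.c1
        have h5 : (stp M (cfg M (χ b)))^[j] (out M k) = P M x (M.rho k) (j + 1) := by
          rw [hst (j + 1) hjn]; exact hsh j
        rw [h5] at hp2
        rcases hp2 with h6 | h6 | ⟨h7, h6⟩
        · exact Or.inr ⟨j + 1, hjn, hdis _ _ _ hy1 h6⟩
        · left
          rw [hdis _ _ _ hy1 h6]
          exact hrw (j + 1)
        · -- third cell
          have hjn2 : j + 1 < n := by
            rcases Nat.lt_or_ge (j + 1) n with h8 | h8
            · exact h8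
            · exfalso
              apply h7
              have : n = j + 1 := by omega
              show M.cell (P M x (M.rho k) (j + 1)) ∈
                Kc M (cfg M (χ b)) (p0 M G (χ b)) (ln M G (χ b))
              rw [← this, hst n le_rfl]
              exact hc.c1
          have e6 := hdis _ _ _ hy1 h6
          rcases stp_cases hxc (P_occ hxc bp.occ (j + 1)) (Set.notMem_empty _) with
            ⟨h8, -, h9⟩ | ⟨-, h8, h9⟩
          · right
            refine ⟨j + 2, by omega, ?_⟩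
            rw [P_succ, h9, M.cell_iota _ (hxc.lv h8)]
            exact e6
          · left
            have h10 := hrw (j + 2)
            rw [P_succ, h9, cell_rho_iota M (hxc.lv h8)] at h10
            rw [e6]; exact h10
    · left
      push Not at hex
      have h4 : b' ∩ K (v i) = g ∩ K (v i) := by
        ext y
        simp only [hgdef, mem_inter, mem_union, mem_sdiff]
        constructor
        · rintro ⟨h5, h6⟩; exact ⟨Or.inl ⟨h5, hex y h6⟩, h6⟩
        · rintro ⟨⟨h5, -⟩ | ⟨-, h5⟩, h6⟩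
          · exact ⟨h5, h6⟩
          · exact absurd h5 (hex y h6)
      rw [hψ, ← hχ (v i) b' g hb' hgV h4]
      exact h3
  have hwK : ∀ i, i ≤ m → ∀ j, j ≤ L - 1 → v i ≠ M.cell (P M x r0 j) := by
    intro i hi j hj e
    have hlt := H.lt j (by omega)
    rw [← hsa j (by omega)] at hlt
    rcases hvcol' i hi with h2 | ⟨h2 | h2, -⟩
    · rcases h2 with h2 | h2
      · exact hlX j (by omega) (e ▸ h2)
      · have h3 := h2.2.1
        rw [e, hbla j] at h3
        exact absurd h3 (by decide)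
    · exact hlt.1 (e ▸ h2)
    · exact hlt.2 (e ▸ h2)
  have hwn : ∃ j, j ≤ n ∧ (v m = M.cell (P M x (M.rho k) j) ∨
      v m = M.cell (M.rho (P M x (M.rho k) j))) := by
    refine ⟨jn, hjn, ?_⟩
    rw [hst jn hjn]
    exact hvm
  have hucol : ∀ i, i ≤ ku → u i ∈ Xs M G ψ ∪ Fs M G ψ ∨ ψ (u i) = 0 := by
    intro i hi
    right
    rcases Nat.lt_or_ge i ku with h2 | h2
    · exact (hur i h2).2.2
    · have : i = ku := by omega
      rw [this, huk]; exact hz.2.1
  obtain ⟨t, ht⟩ : ∃ t, P M x r0 t = M.rho k :=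
    tube_join (M := M) (ψ := ψ) hdat (h0 := G.h0) (Or.inl h0_xs) hconn
      (u := u) (k := ku) ⟨0, Nat.zero_le _, hu0⟩ (fun i hi => nb_symm (hur i hi).1)
      hucol (by rw [huk]; exact Or.inr hz) (w := v) (n := m) hv0 hvadj hcol hwK hwn
  have h2 := con_right hxc hocc t
  rw [ht] at h2
  exact h2

/-- **H2 for the window**: the good chords (arc off the window) are paid by the closed blocks -/
theorem h2w (hχ : Coins V χ K) (hK : ∀ c, K c ⊆ V)
    (hdis : ∀ c c' y, y ∈ K c → y ∈ K c' → c = c')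
    (hTh : ∀ c, c ∈ G.Dw → c ∉ G.Th)
    (hgen : ∀ d, M.cell d ≠ G.h0 → Gen M (M.cell d))
    (hw : DecF V (R1 M G V χ K) w) (w0 : ∀ b, b ⊆ V → 0 ≤ w b) (w1 : ∀ b, b ⊆ V → w b ≤ 1)
    (ho : ∀ b, b ⊆ V → w b ≠ 0 → Ow M G V χ K b) (φ : D → ℂ) (I : Finset (D × ℕ)) {c : ℝ}
    {T : Finset α → Prop} (hc : c ≤ pr V T)
    (hm : ∀ b b', b ⊆ V → b' ⊆ V → w b ≠ 0 → T b' → ∀ k n,
      Cd M (cfg M (χ b)) (p0 M G (χ b)) (ln M G (χ b)) (Cw M G (χ b)) k n →
      gd M G Co (χ b) k n → Meet M G χ b b' k n)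
    (Big : Finset α → Finset (Finset D))
    (hBig : ∀ b, b ⊆ V → w b ≠ 0 → ∀ i ∈ I,
      Jc M (cfg M (χ b)) (p0 M G (χ b)) (ln M G (χ b)) (Cw M G (χ b)) i.1 i.2 →
      gd M G Co (χ b) i.1 i.2 → blk M (cfg M (χ b)) i.1 ∈ Big b) :
    c * ∑ b ∈ V.powerset, ∑ i ∈ I, Fk M χ (fun b => p0 M G (χ b)) (fun b => ln M G (χ b))
        (fun b => Cw M G (χ b)) w (fun b k n => gd M G Co (χ b) k n) φ i b ≤
      ∑ b ∈ V.powerset, w b * ∑ β ∈ Big b, ‖∑ h ∈ β, φ h‖ ^ 2 := by
  have E := ex hχ hK hw w0 w1 ho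
  refine h2 E (gd_dec hχ hK E) φ I (T := fun _ => T) (fun _ _ => hc) ?_ Big hBig
  intro i _ b b' hb hb' hwb hcd hg hT
  exact con_glue hχ hK hdis hTh hgen E hb hb' (ho b hb hwb) hcd hg
    (hm b b' hb hb' hwb hT i.1 i.2 hcd hg) rfl

end Crest.Agent.R143.RevCx389
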