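import Crest.Agent.R143.TubeW_707
import Crest.Agent.R143.RevC_389
import Crest.Agent.R143.FinC_811

/-!
# Row 143 (S0194), block H: the location statement and H2 for one window (helper707)

* `Pl hS M σ` : map with the darts of the Delaunay triangulation of `S`, cells `σ site`
  (`pl_cm0`, `pl_rc0`)
* `hull_one` : all hull sites are in one cell
* `cel` : cells of the inner sites with a property; `chi`, `cns` : colouring by free coins
* `far_xs` : the sites outside the big square are in `Xs`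
* `meet_tw` : the tube event `TW` of `b'` gives 389's `Meet` for every chord which enters the inner
  square of the circuit
* `h2_tube` : H2 for the window and the core square, probability of the tube included
-/

set_option autoImplicit false

noncomputable section

open scoped Classical

namespace Crest.Agent.R143.Meetx707

open Crest.Agent.R143.B0x346 Crest.Agent.R143.DelGx806 Crest.Agent.R143.DelRx806
open Crest.Agent.R143.ToolWx838 Crest.Agent.R143.Blkx838 Crest.Agent.R143.ToolW2x838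
open Crest.Agent.R143.ToolW3x838 Crest.Agent.R143.Circ4x838 Crest.Agent.R143.Harx315
open Crest.Agent.R143.RB0x838 Crest.Agent.R143.CircPx838 Crest.Agent.R143.Gatex838
open Crest.Agent.R143.CBx838 Crest.Agent.R143.Multix838 Crest.Agent.R143.RBmx838
open Crest.Agent.R143.JColx54
open Crest.Agent.R143.RE0x723 (Pth)
open Crest.Agent.R143.Visx313 (HullS)
open Crest.Agent.R143.Frame1x395 Crest.Agent.R143.Frame2x395 Crest.Agent.R143.Frame3x395
  Crest.Agent.R143.Frame8x395 Crest.Agent.R143.Frame9x395 Crest.Agent.R143.Frame10x395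
  Crest.Agent.R143.NonXx592
open Crest.Agent.R143.Frame5x395 (sd mem_sd th th_spec)
open Crest.Agent.R143.Tubex707 Crest.Agent.R143.Exitx707 Crest.Agent.R143.TubeWx707
open Crest.Agent.R143.Histx389 Crest.Agent.R143.RevCx389 Crest.Agent.R143.Chordx355
  Crest.Agent.R143.Chord2x355
  Crest.Agent.R143.H2x355

variable {S : Finset ℂ} {C : Type} {M : CMap (D0 S) C} {σ : ℂ → C}

/-! ### maps with the darts of the triangulation -/

/-- a map with the darts of the Delaunay triangulation, its cells are images of the sites -/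
structure Pl (hS : GP (S : Set ℂ)) (M : CMap (D0 S) C) (σ : ℂ → C) : Prop where
  rho : M.rho = (cm0 hS).rho
  iota : M.iota = (cm0 hS).iota
  live : M.live = (cm0 hS).live
  cell : ∀ d : D0 S, M.cell d = σ d.1.1
  hull : ∀ a b, hullE S a b → σ a = σ b
  inj : ∀ a v, a ∈ S → v ∈ S → ¬ OnHull S v → σ v = σ a → a = v

theorem pl_cm0 (hS : GP (S : Set ℂ)) : Pl hS (cm0 hS) (Quot.mk (hullE S)) where
  rho := rfl
  iota := rfl
  live := rfl
  cell _ := rfl
  hull _ _ h := Quot.sound h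
  inj _ _ _ _ hv h := quot_inner hS hv h

open Crest.Agent.R143.FinCx811 (Cs rc0 cs cs_inj cs_hull cell_mem) in
/-- the cell of a site in `rc0` -/
def sr (hS : GP (S : Set ℂ)) (h3 : 3 ≤ S.card) (v : ℂ) : Cs hS :=
  if h : v ∈ S then cs hS h3 ⟨v, h⟩ else
    cs hS h3 (Classical.choice (Finset.card_pos.1 (by omega : 0 < S.card)).to_subtype)

open Crest.Agent.R143.FinCx811 (Cs rc0 cs cs_inj cs_hull cell_mem) in
theorem pl_rc0 (hS : GP (S : Set ℂ)) (h3 : 3 ≤ S.card) : Pl hS (rc0 hS) (sr hS h3) where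
  rho := rfl
  iota := rfl
  live := rfl
  cell d := by
    have h : d.1.1 ∈ S := ls_mem d
    unfold sr
    rw [dif_pos h]
    exact Subtype.ext rfl
  hull a b h := by
    unfold sr
    rw [dif_pos (hullE.mem h).1, dif_pos (hullE.mem h).2]
    exact cs_hull hS h3 h
  inj a v ha hv hn h := by
    unfold sr at h
    rw [dif_pos ha, dif_pos hv] at h
    exact congrArg Subtype.val (cs_inj hS h3 (v := ⟨v, hv⟩) (w := ⟨a, ha⟩) hn h)

variable {hS : GP (S : Set ℂ)}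

theorem Pl.stp_eq (H : Pl hS M σ) (x : D0 S → ZMod 2) : stp M x = stp (cm0 hS) x := by
  funext p
  unfold stp
  rw [H.rho, H.iota]

theorem Pl.P_eq (H : Pl hS M σ) (x : D0 S → ZMod 2) (p : D0 S) (n : ℕ) :
    P M x p n = P (cm0 hS) x p n := by
  unfold P
  rw [H.stp_eq]

/-- the configurations are configurations of `cm0` -/
theorem Pl.isC (H : Pl hS M σ) (χ : C → ZMod 2) : IsC (cm0 hS) ∅ (cfg M χ) := by
  have : cfg M χ = cfg (cm0 hS) (Quot.lift (fun s => χ (σ s)) fun a b h => by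
      show χ (σ a) = χ (σ b)
      rw [H.hull a b h]) := by
    funext d
    unfold cfg
    rw [H.cell, H.cell, H.rho]
    rfl
  rw [this]
  exact cfg_isC _

/-- neighbouring cells -/
theorem Pl.nb (H : Pl hS M σ) {a b : ℂ} (h : DE S a b) : Nb M (σ a) (σ b) := by
  have key : ∀ {a b : ℂ}, (∃ c, (a, b, c) ∈ delT S) → Nb M (σ a) (σ b) := fun {a b} h =>
    ⟨⟨(a, b), mem_sd.2 h⟩, by rw [H.cell], by rw [H.cell, H.rho]; rfl⟩
  rcases h with h | h
  · exact key h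
  · exact nb_symm (key h)

theorem hullS_iff (hS : GP (S : Set ℂ)) {s : ℂ} : HullS S s ↔ OnHull S s := by
  constructor
  · rintro ⟨c, h | h⟩
    · exact onHull_left hS h
    · exact ⟨c, h⟩
  · rintro ⟨c, h⟩
    exact ⟨c, Or.inr h⟩

/-- **all hull sites are in one cell** -/
theorem hull_one (H : Pl hS M σ) (h3 : 3 ≤ S.card) : ∃ h0 : C, ∀ s, OnHull S s → σ s = h0 := by
  obtain ⟨n, w, hw⟩ := hull_cycle hS h3
  have h1 : ∀ i : ℤ, σ (w i) = σ (w (i + 1)) := fun i => H.hull _ _ (hw.edge i)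
  have h2 : ∀ i : ℤ, σ (w i) = σ (w 0) := by
    intro i
    induction i using Int.induction_on with
    | zero => rfl
    | succ i ih => rw [← h1]; exact ih
    | pred i ih => rw [h1 (-(i : ℤ) - 1), sub_add_cancel]; exact ih
  refine ⟨σ (w 0), fun s hs => ?_⟩
  obtain ⟨b, hb⟩ := (hullS_iff hS).2 hs
  rcases hb with hb | hb
  · obtain ⟨i, -, -, rfl, -⟩ := hw.all _ _ hb
    exact h2 i
  · obtain ⟨i, -, -, -, rfl⟩ := hw.all _ _ hb
    exact h2 (i + 1)

/-! ### cells, coins and colours -/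

/-- cells of the inner sites with a property -/
def cel (S : Finset ℂ) (σ : ℂ → C) (A : ℂ → Prop) : Set C :=
  {c | ∃ s, s ∈ S ∧ ¬ OnHull S s ∧ A s ∧ σ s = c}

theorem mem_cel (H : Pl hS M σ) {A : ℂ → Prop} {s : ℂ} (hs : s ∈ S) (hi : ¬ OnHull S s) :
    σ s ∈ cel S σ A ↔ A s := by
  constructor
  · rintro ⟨t, ht, ht', hA, e⟩
    rw [H.inj s t hs ht ht' e]
    exact hA
  · intro h
    exact ⟨s, hs, hi, h, rfl⟩

theorem cel_mono {A B : ℂ → Prop} (h : ∀ s ∈ S, ¬ OnHull S s → A s → B s) :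
    cel S σ A ⊆ cel S σ B := by
  rintro c ⟨s, h1, h2, h3, rfl⟩
  exact ⟨s, h1, h2, h s h1 h2 h3, rfl⟩

/-- the site of a dart whose cell is in `cel` -/
theorem cel_dart (H : Pl hS M σ) {A : ℂ → Prop} {d : D0 S} (h : M.cell d ∈ cel S σ A) :
    A (ls d) := by
  obtain ⟨s, h1, h2, h3, h4⟩ := h
  rw [H.cell] at h4
  rw [show ls d = s from H.inj _ s (ls_mem d) h1 h2 h4]
  exact h3

/-- the free coin of a cell -/
def cns (V : Finset ℂ) (σ : ℂ → C) (c : C) : Finset ℂ := V.filter fun s => σ s = c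

/-- colouring: a free site is black if it is in `b`, the other cells have the colours `χ0` -/
def chi (V : Finset ℂ) (σ : ℂ → C) (χ0 : C → ZMod 2) (b : Finset ℂ) (c : C) : ZMod 2 :=
  if (cns V σ c).Nonempty then (if (b ∩ cns V σ c).Nonempty then 1 else 0) else χ0 c

theorem cns_sub {V : Finset ℂ} (c : C) : cns V σ c ⊆ V := Finset.filter_subset _ _

theorem coins_chi {V : Finset ℂ} {χ0 : C → ZMod 2} : Coins V (chi V σ χ0) (cns V σ) := by
  intro c b b' _ _ h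
  unfold chi
  rw [h]

theorem cns_dis {V : Finset ℂ} (c c' : C) (y : ℂ) (h : y ∈ cns V σ c) (h' : y ∈ cns V σ c') :
    c = c' := (Finset.mem_filter.1 h).2.symm.trans (Finset.mem_filter.1 h').2

/-- colour of a free site -/
theorem chi_free (H : Pl hS M σ) {V : Finset ℂ} (hV : V ⊆ S) (hVi : ∀ s ∈ V, ¬ OnHull S s)
    {χ0 : C → ZMod 2} {b : Finset ℂ} {s : ℂ} (hs : s ∈ V) :
    chi V σ χ0 b (σ s) = if s ∈ b then 1 else 0 := by
  have h1 : cns V σ (σ s) = {s} := by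
    ext t
    unfold cns
    rw [Finset.mem_filter, Finset.mem_singleton]
    constructor
    · rintro ⟨ht, e⟩
      exact H.inj t s (hV ht) (hV hs) (hVi s hs) e.symm
    · rintro rfl
      exact ⟨hs, rfl⟩
  unfold chi
  rw [h1, if_pos (Finset.singleton_nonempty s)]
  by_cases hb : s ∈ b
  · rw [if_pos hb, if_pos ⟨s, Finset.mem_inter.2 ⟨hb, Finset.mem_singleton_self s⟩⟩]
  · rw [if_neg hb, if_neg]
    rintro ⟨t, ht⟩
    obtain ⟨h2, h3⟩ := Finset.mem_inter.1 ht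
    rw [Finset.mem_singleton.1 h3] at h2
    exact hb h2

/-! ### the outside -/

/-- **the sites outside the big square are in the explored outside** -/
theorem far_xs (H : Pl hS M σ) (h3 : 3 ≤ S.card) {G : Rg (D0 S) C} {ψ : C → ZMod 2}
    (h0 : ∀ s, OnHull S s → σ s = G.h0) {z2 : ℂ} {r2 : ℝ}
    (hF : cel S σ (fun s => r2 ≤ sup (s - z2)) ⊆ G.Far) {s : ℂ} (hs : s ∈ S)
    (ho : r2 ≤ sup (s - z2)) : σ s ∈ Xs M G ψ := by
  obtain ⟨a, ha, hp⟩ := far_conn hS h3 hs ho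
  have key : ∀ x y : ℂ, Relation.ReflTransGen
      (fun a b => Adj S a b ∧ b ∈ {s | s ∈ S ∧ r2 ≤ sup (s - z2)}) x y →
      x ∈ {s | s ∈ S ∧ r2 ≤ sup (s - z2)} → σ y = G.h0 → σ x ∈ Xs M G ψ := by
    intro x y h
    induction h using Relation.ReflTransGen.head_induction_on with
    | refl => intro _ e; rw [e]; exact h0_xs
    | @head x c h1 _ ih =>
      intro hx e
      have h2 := ih h1.2 e
      by_cases hh : OnHull S x
      · rw [h0 x hh]; exact h0_xs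
      · exact xs_far h2 (nb_symm (H.nb h1.1)) (hF ⟨x, hx.1, hh, hx.2, rfl⟩)
  exact key s a hp.2 ⟨hs, ho⟩ (h0 a ((hullS_iff hS).1 ha))

/-! ### the location statement -/

/-- **the location statement of one window** -/
theorem meet_tw (H : Pl hS M σ) (h3 : 3 ≤ S.card) {G : Rg (D0 S) C}
    (h0 : ∀ s, OnHull S s → σ s = G.h0) {V : Finset ℂ} (hV : V ⊆ S) (hVi : ∀ s ∈ V, ¬ OnHull S s)
    {χ0 : C → ZMod 2} {b b' : Finset ℂ} {z1 z2 : ℂ} {r1 r2 : ℝ} {q : Rect}
    (hF : cel S σ (fun s => r2 ≤ sup (s - z2)) ⊆ G.Far)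
    (hTD : ∀ s ∈ V, q.Reg s → σ s ∈ G.Th ∨ σ s ∈ G.Dp)
    (hDp : ∀ s ∈ V, r1 < sup (s - z1) → sup (s - z1) < 2 * r1 → σ s ∈ G.Dp)
    (ho : ∀ s ∈ V, q.Reg s → Rect.Out q s → 2 * r1 ≤ sup (s - z1) ∧ r2 ≤ sup (s - z2))
    (hi : ∀ s ∈ V, q.Reg s → Rect.Inn q s → sup (s - z1) ≤ r1)
    (hT : TW S V z1 r1 q b') {k : D0 S} {n : ℕ}
    (hk : cfg M (chi V σ χ0 b) (M.rho k) = 1) (hst : 2 * r1 ≤ sup (ls (M.rho k) - z1))
    (hd : ∃ u, u ≤ n ∧ lc M (cfg M (chi V σ χ0 b)) (M.rho k) u ∈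
      cel S σ fun s => sup (s - z1) ≤ r1) :
    Meet M G (chi V σ χ0) b b' k n := by
  set x := cfg M (chi V σ χ0 b) with hx
  have hC : IsC (cm0 hS) ∅ x := H.isC _
  obtain ⟨u, hu, hu'⟩ := hd
  have hu2 : sup (ls (P (cm0 hS) x (M.rho k) u) - z1) ≤ r1 := by
    have h4 := cel_dart (A := fun s => sup (s - z1) ≤ r1) H hu'
    rw [H.P_eq] at h4
    exact h4
  obtain ⟨w, m, hw0, hw1, hw2, hw3, j, hj, hwj⟩ := tube_meet hS hT
    (fun s h1 h2 h3 => (ho s h1 h2 h3).1) hi hC hk hst ⟨u, hu, hu2⟩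
  have hwV := hw2 0 (Nat.zero_le _)
  have hfar : σ (w 0) ∈ Xs M G (chi V σ χ0 b) :=
    far_xs H h3 h0 hF (hV (Finset.mem_sdiff.1 hwV.1).1)
      (ho _ (Finset.mem_sdiff.1 hwV.1).1 hw1 hw0).2
  refine ⟨fun i => σ (w i), m, Or.inl hfar, fun i hi => H.nb (hw3 i hi), ?_, j, hj, Or.inl ?_⟩
  · intro i hi
    right
    obtain ⟨h1, h2⟩ := hw2 i hi
    obtain ⟨h4, h5⟩ := Finset.mem_sdiff.1 h1
    refine ⟨?_, ?_⟩
    · rcases h2 with h2 | ⟨h2, h6⟩
      · exact hTD _ h4 h2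
      · exact Or.inr (hDp _ h4 h2 h6)
    · show chi V σ χ0 b' (σ (w i)) = 0
      rw [chi_free H hV hVi h4, if_neg h5]
  · show σ (w m) = M.cell (P M x (M.rho k) j)
    rw [hwj, H.cell, H.P_eq]
    rfl

/-- every cell of a dart which is not the hull cell is genuine -/
theorem Pl.gen (H : Pl hS M σ) {h0 : C} (h0' : ∀ s, OnHull S s → σ s = h0) {d : D0 S}
    (hd : M.cell d ≠ h0) : Gen M (M.cell d) := by
  rw [H.cell] at hd ⊢
  have hi : ¬ OnHull S d.1.1 := fun h => hd (h0' _ h)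
  have h1 := gen_inner hS hi
  have hdS : d.1.1 ∈ S := ls_mem d
  have hce : ∀ a : D0 S, M.cell a = σ d.1.1 ↔
      (cm0 hS).cell a = (Quot.mk (hullE S) d.1.1 : Quot (hullE S)) := by
    intro a
    rw [H.cell]
    constructor
    · intro e
      have : a.1.1 = d.1.1 := H.inj _ _ (ls_mem a) hdS hi e.symm
      show Quot.mk _ a.1.1 = _
      rw [this]
    · intro e
      have : a.1.1 = d.1.1 := quot_inner hS hi (show (Quot.mk (hullE S) d.1.1 : Quot (hullE S)) =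
        Quot.mk _ a.1.1 from e.symm)
      rw [this]
  have hphi : phi M = phi (cm0 hS) := by
    funext a
    unfold phi
    rw [H.rho, H.iota]
  refine ⟨fun a ha => ?_, fun a b ha hb => ?_, fun a ha => ?_⟩
  · rw [H.rho, H.live]
    exact h1.lv a ((hce a).1 ha)
  · rw [hphi]
    exact h1.orb a b ((hce a).1 ha) ((hce b).1 hb)
  · intro e
    rw [H.rho] at e
    exact h1.ne a ((hce a).1 ha) ((hce _).1 e)

/-- geometric hypotheses: circuit square `z1 r1`, big square `z2 r2`, strip `q`, regions `G` -/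
structure Geo (S V : Finset ℂ) (σ : ℂ → C) (G : Rg (D0 S) C) (z1 z2 : ℂ) (r1 r2 : ℝ)
    (q : Rect) : Prop where
  far : cel S σ (fun s => r2 ≤ sup (s - z2)) ⊆ G.Far
  td : ∀ s ∈ V, q.Reg s → σ s ∈ G.Th ∨ σ s ∈ G.Dp
  dp : cel S σ (fun s => sup (s - z1) < 2 * r1) ⊆ G.Dp
  out : ∀ s ∈ V, q.Reg s → Rect.Out q s → 2 * r1 ≤ sup (s - z1) ∧ r2 ≤ sup (s - z2)
  inn : ∀ s ∈ V, q.Reg s → Rect.Inn q s → sup (s - z1) ≤ r1

/-- the core of the window : cells of the sites inside the circuit square -/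
def core (S : Finset ℂ) (σ : ℂ → C) (z1 : ℂ) (r1 : ℝ) : Set C := cel S σ fun s => sup (s - z1) ≤ r1

/-- **389's location statement** for the chords of the arc which reach the core -/
theorem meet_cd (H : Pl hS M σ) (h3 : 3 ≤ S.card) {G : Rg (D0 S) C}
    (h0 : ∀ s, OnHull S s → σ s = G.h0) {V : Finset ℂ} (hV : V ⊆ S) (hVi : ∀ s ∈ V, ¬ OnHull S s)
    {χ0 : C → ZMod 2} {b b' : Finset ℂ} {z1 z2 : ℂ} {r1 r2 : ℝ} {q : Rect}
    (hG : Geo S V σ G z1 z2 r1 r2 q) (hO : Ow M G V (chi V σ χ0) (cns V σ) b)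
    (hT : TW S V z1 r1 q b') {k : D0 S} {n : ℕ}
    (hc : Cd M (cfg M (chi V σ χ0 b)) (p0 M G (chi V σ χ0 b)) (ln M G (chi V σ χ0 b))
      (Cw M G (chi V σ χ0 b)) k n)
    (hg : gd M G (core S σ z1 r1) (chi V σ χ0 b) k n) :
    Meet M G (chi V σ χ0) b b' k n := by
  refine meet_tw H h3 h0 hV hVi hG.far hG.td ?_ hG.out hG.inn hT hc.gp.2 ?_ hg.2.2
  · intro s hs _ h2
    exact hG.dp ⟨s, hV hs, hVi s hs, h2, rfl⟩
  · by_contra hlt
    push Not at hlt
    obtain ⟨a, ha, e⟩ := hc.c0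
    have h1 : M.cell (M.rho k) ∉ G.Dp := by
      have h2 := (hO.lt a ha).2
      have e' : M.cell (P M (cfg M (chi V σ χ0 b)) (p0 M G (chi V σ χ0 b)) a) =
        M.cell (M.rho k) := e
      rw [e'] at h2
      exact h2
    have h2 : M.cell (M.rho k) ∉ Xs M G (chi V σ χ0 b) := by
      have h2 := hO.lx a ha
      have e' : M.cell (P M (cfg M (chi V σ χ0 b)) (p0 M G (chi V σ χ0 b)) a) =
        M.cell (M.rho k) := e
      rw [e'] at h2
      exact h2
    have h5 : ¬ OnHull S (ls (M.rho k)) := fun h => h2 (by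
      rw [H.cell]
      rw [show σ (M.rho k).1.1 = G.h0 from h0 _ h]
      exact h0_xs)
    exact h1 (hG.dp ⟨ls (M.rho k), ls_mem _, h5, hlt, by rw [H.cell]; rfl⟩)

/-- **H2 for one window and one core square** -/
theorem h2_tube (H : Pl hS M σ) (h3 : 3 ≤ S.card) {G : Rg (D0 S) C}
    (h0 : ∀ s, OnHull S s → σ s = G.h0) {V : Finset ℂ} (hV : V ⊆ S) (hVi : ∀ s ∈ V, ¬ OnHull S s)
    {χ0 : C → ZMod 2} {z1 z2 : ℂ} {r1 r2 : ℝ} {q : Rect} (hG : Geo S V σ G z1 z2 r1 r2 q)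
    (hTh : ∀ c, c ∈ G.Dw → c ∉ G.Th) {w : Finset ℂ → ℝ}
    (hw : DecF V (R1 M G V (chi V σ χ0) (cns V σ)) w) (w0 : ∀ b, b ⊆ V → 0 ≤ w b)
    (w1 : ∀ b, b ⊆ V → w b ≤ 1)
    (ho : ∀ b, b ⊆ V → w b ≠ 0 → Ow M G V (chi V σ χ0) (cns V σ) b) (φ : D0 S → ℂ)
    (I : Finset (D0 S × ℕ)) {c : ℝ} (hc : c ≤ pr V (TW S V z1 r1 q))
    (Big : Finset ℂ → Finset (Finset (D0 S)))
    (hBig : ∀ b, b ⊆ V → w b ≠ 0 → ∀ i ∈ I,
      Jc M (cfg M (chi V σ χ0 b)) (p0 M G (chi V σ χ0 b)) (ln M G (chi V σ χ0 b))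
        (Cw M G (chi V σ χ0 b)) i.1 i.2 →
      gd M G (core S σ z1 r1) (chi V σ χ0 b) i.1 i.2 →
      blk M (cfg M (chi V σ χ0 b)) i.1 ∈ Big b) :
    c * ∑ b ∈ V.powerset, ∑ i ∈ I, Fk M (chi V σ χ0) (fun b => p0 M G (chi V σ χ0 b))
        (fun b => ln M G (chi V σ χ0 b)) (fun b => Cw M G (chi V σ χ0 b)) w
        (fun b k n => gd M G (core S σ z1 r1) (chi V σ χ0 b) k n) φ i b ≤
      ∑ b ∈ V.powerset, w b * ∑ β ∈ Big b, ‖∑ h ∈ β, φ h‖ ^ 2 := by
  refine h2w coins_chi cns_sub cns_dis hTh (fun d hd => H.gen h0 hd) hw w0 w1 ho φ I hc ?_ Big hBig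
  intro b b' hb _ hwb hT k n hcd hg
  exact meet_cd H h3 h0 hV hVi hG (ho b hb hwb) hT hcd hg

end Crest.Agent.R143.Meetx707
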