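import Crest.Agent.R143.FlipM_357
import Crest.Agent.R143.Meet_707
import Crest.Agent.R143.SmallA_304
import Crest.Agent.R143.Loc_922

/-!
# Row 143 (S0194), block H: the loop of a joined chord is inside `U` and macroscopic (helper357)

`hS : GP S`, `H : Pl hS M σ` (707: `M = cm0 hS` or `rc0 hS`); `Q` = points of the sample, `Q = S`
inside `U`; `W` a region of the plane with `Dn S W U` : every Delaunay triangle of `S` with a vertex
in `W` has its circumdisc in `U` (dense environment, `U` a neighbourhood of `W`).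
* `Sm` : two maps with the same darts and the same cells: same blocks, `bigB`, `ev`, `Eqd`
* `inU_of` : left sites of the loop in `W` ==> `InU`; `big_of` : two left sites at distance `≥ 2 k`
  ==> `Big`
* `left_mem` : `Bl` (389/707): the left cells of the loop never enter the explored outside `X`, and
  `X` contains the sites off `W` (`Meetx707.far_xs`)
* `jc_bigB` : the plane block of a joined chord (355's `Oa`, `Jc`) is in 304's `bigB`, whatever the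
  rest of the configuration: hypothesis `hBig` of 355's `h2` and of `FlipMx357.jc_L2`
* `fair_chi` : 707's coins `cns V σ`, colours `chi V σ χ0`, `V` = inner sites of `S`, are `Fair`
* `Err`, `R7b` : 304's error `E ε ω`; `sum_bigB` : `Σ_{b ⊆ V} Σ_{β ∈ bigB} ‖Σ_β a‖² ≤ 2^|V| * E`
* `h2_big` : 355's `h2` with this bound; `flip_L2`, `flip_L1` : the flipped configuration
-/

set_option autoImplicit false

noncomputable section

open scoped Classical ENNReal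

namespace Crest.Agent.R143.BigFx357

open MeasureTheory Filter Topology
open Crest.ProbabilityR.Voronoi
open Crest.Agent.R143.Frame1x395 Crest.Agent.R143.Frame2x395 Crest.Agent.R143.Frame3x395
  Crest.Agent.R143.Frame4x395
  Crest.Agent.R143.Frame8x395 Crest.Agent.R143.Frame9x395 Crest.Agent.R143.Frame10x395
  Crest.Agent.R143.Frame11x395
  Crest.Agent.R143.NonXx592 Crest.Agent.R143.Harx315 Crest.Agent.R143.Histx389
  Crest.Agent.R143.Chordx355 Crest.Agent.R143.ChordCx357 Crest.Agent.R143.Chord2x355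
  Crest.Agent.R143.H2x355 Crest.Agent.R143.MassQx304 Crest.Agent.R143.MassPx304
  Crest.Agent.R143.EqdMx811 Crest.Agent.R143.FlipMx357 Crest.Agent.R143.Tubex389
  Crest.Agent.R143.RevCx389 Crest.Agent.R143.Meetx707
  Crest.Agent.R143.SumScx302 Crest.Agent.R143.DelGx806 Crest.Agent.R143.DelRx806
  Crest.Agent.R143.Mass2x302 Crest.Agent.R143.Mass3x302 Crest.Agent.R143.Mass4x302
  Crest.Agent.R143.Mass5x302 Crest.Agent.R143.B0x346
open Crest.Agent.R143.TubeWx707 (ls ls_mem)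
open Crest.Agent.R143.FinCx811 (Cs rc0 cs cs_surj cs_inj cs_hull)
open Crest.Agent.R143.SmallAx304 (chiS rp cs_rp rp_inj)
open Crest.Agent.R143.Mass1x302 (T3 cdisc mem_cdisc)
open Crest.Agent.R143.Frame5x395 (sd mem_sd th th_spec)

/-! ### two maps with the same darts and cells -/

section same

variable {D C C' : Type} {M : CMap D C} {M' : CMap D C'} {x : D → ZMod 2}

/-- the same darts, the same partition into cells -/
structure Sm (M : CMap D C) (M' : CMap D C') : Prop where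
  rho : M.rho = M'.rho
  iota : M.iota = M'.iota
  live : M.live = M'.live
  cell : ∀ d e, M.cell d = M.cell e ↔ M'.cell d = M'.cell e

theorem Sm.symm (H : Sm M M') : Sm M' M :=
  ⟨H.rho.symm, H.iota.symm, H.live.symm, fun d e => (H.cell d e).symm⟩

theorem Sm.stp (H : Sm M M') : stp M x = stp M' x := by
  funext p
  unfold Frame1x395.stp
  rw [H.rho, H.iota]

theorem Sm.out (H : Sm M M') : out M = out M' := by
  funext p
  unfold Frame3x395.out
  rw [H.rho, H.iota]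

theorem Sm.gp (H : Sm M M') {g : D} : Gp M x g ↔ Gp M' x g := by
  unfold Gp
  rw [H.rho]

theorem Sm.isC {O : Set D} (H : Sm M M') : IsC M O x ↔ IsC M' O x := by
  constructor
  · rintro ⟨h1, h2, h3⟩
    exact ⟨by rw [← H.live]; exact h1, by rw [← H.iota]; exact h2, by rw [← H.rho]; exact h3⟩
  · rintro ⟨h1, h2, h3⟩
    exact ⟨by rw [H.live]; exact h1, by rw [H.iota]; exact h2, by rw [H.rho]; exact h3⟩

theorem Sm.av (H : Sm M M') {d : D} {p q : D} (h : Av M x (M.cell d) p q) :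
    Av M' x (M'.cell d) p q := by
  obtain ⟨n, h1, h2⟩ := h
  refine ⟨n, by rw [← H.stp]; exact h1, fun k hk e => h2 k hk ?_⟩
  rw [H.cell, H.stp]
  exact e

theorem Sm.rel' (H : Sm M M') {g h : D} (h1 : Rel M x g h) : Rel M' x g h := by
  intro c
  by_cases hc : ∃ d, M'.cell d = c
  · obtain ⟨d, rfl⟩ := hc
    rcases h1 (M.cell d) with h2 | h2 | h2
    · exact Or.inl h2
    · right; left
      have := H.av h2
      rw [H.out, H.rho] at this
      exact this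
    · right; right
      have := H.av h2
      rw [H.out, H.rho] at this
      exact this
  · rcases h1 (M.cell g) with h2 | h2 | h2
    · exact Or.inl h2
    · right; left
      obtain ⟨n, h3, -⟩ := H.av h2
      rw [H.out, H.rho] at h3
      exact ⟨n, h3, fun k _ e => hc ⟨_, e⟩⟩
    · right; right
      obtain ⟨n, h3, -⟩ := H.av h2
      rw [H.out, H.rho] at h3
      exact ⟨n, h3, fun k _ e => hc ⟨_, e⟩⟩

theorem Sm.rel (H : Sm M M') {g h : D} : Rel M x g h ↔ Rel M' x g h :=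
  ⟨H.rel', H.symm.rel'⟩

variable [Fintype D]

theorem Sm.blk (H : Sm M M') {g : D} : blk M x g = blk M' x g := by
  ext h
  rw [mem_blk, mem_blk, H.gp, H.rel]

theorem Sm.gaps (H : Sm M M') : gaps M x = gaps M' x := by
  ext h
  rw [mem_gaps, mem_gaps, H.gp]

theorem Sm.blks (H : Sm M M') : blks M x = blks M' x := by
  unfold Frame8x395.blks
  rw [H.gaps]
  exact Finset.image_congr fun g _ => H.blk

theorem Sm.ev (H : Sm M M') : ev M = ev M' := by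
  ext x
  rw [mem_ev, mem_ev, H.isC]

theorem Sm.bigB (H : Sm M M') (P U : Set ℂ) (δ : ℂ → ℂ → D) (k : ℝ) :
    bigB P U M δ k x = bigB P U M' δ k x := by
  unfold Mass5x302.bigB
  rw [H.blks]
  unfold InU Big
  rw [H.stp, H.rho]

theorem Sm.eqd (H : Sm M M') {I : Type} [Fintype I] {y : I → D → ZMod 2} (h : Eqd M y) :
    Eqd M' y := by
  refine ⟨fun i => ?_, fun z hz => ?_⟩
  · rw [← H.ev]; exact h.ev i
  · rw [← H.ev] at hz ⊢; exact h.fib z hz

end same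

/-! ### sites -/

variable {Q U W : Set ℂ} {S : Finset ℂ} {hS : GP (S : Set ℂ)} {C : Type} {M : CMap (D0 S) C}
  {σ : ℂ → C} {x : D0 S → ZMod 2}

theorem pl_sm (H : Pl hS M σ) (h3 : 3 ≤ S.card) : Sm M (cm0 hS) := by
  obtain ⟨h0, hh0⟩ := hull_one H h3
  obtain ⟨k0, hk0⟩ := hull_one (pl_cm0 hS) h3
  refine ⟨H.rho, H.iota, H.live, fun d e => ?_⟩
  rw [H.cell, H.cell]
  show σ d.1.1 = σ e.1.1 ↔ (Quot.mk (hullE S) d.1.1 : Quot (hullE S)) = Quot.mk _ e.1.1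
  by_cases hd : OnHull S d.1.1
  · by_cases he : OnHull S e.1.1
    · rw [hh0 _ hd, hh0 _ he, hk0 _ hd, hk0 _ he]
      exact ⟨fun _ => rfl, fun _ => rfl⟩
    · constructor
      · intro h
        have : d.1.1 = e.1.1 := H.inj _ _ (ls_mem d) (ls_mem e) he h.symm
        exact absurd (this ▸ hd) he
      · intro h
        have := quot_inner hS he h.symm
        exact absurd (this ▸ hd) he
  · constructor
    · intro h
      have : e.1.1 = d.1.1 := H.inj _ _ (ls_mem e) (ls_mem d) hd h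
      rw [this]
    · intro h
      rw [quot_inner hS hd h]

/-- the triangles with a vertex in `W` have their circumdiscs in `U` -/
def Dn (S : Finset ℂ) (W U : Set ℂ) : Prop :=
  ∀ a b c, (a, b, c) ∈ delT S → a ∈ W → cdisc (a, b, c) ⊆ U

/-- **dense environment** (922's `Hol`) -/
theorem dn_of_hol {d : ℝ} (h0 : 0 < d) (hH : Locx922.Hol (S : Set ℂ) W d)
    (hU : ∀ a ∈ W, ∀ z, ‖z - a‖ < 2 * d → z ∈ U) : Dn S W U := by
  intro a b c ht ha z hz
  have hD := mem_delT.1 ht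
  obtain ⟨-, -, -, hc, o, h1, h2, h3⟩ := hD
  obtain ⟨o', h4, h5, h6⟩ := hz
  have h4 : ‖b - o'‖ = ‖a - o'‖ := h4
  have h5 : ‖c - o'‖ = ‖a - o'‖ := h5
  have h6 : ‖z - o'‖ ≤ ‖a - o'‖ := h6
  have e1 := (FinMx609.cen3_iff hc).1 ⟨h1, h2⟩
  have e2 := (FinMx609.cen3_iff hc).1 ⟨h4, h5⟩
  have e3 : o' = o := e2.trans e1.symm
  subst e3
  have h7 := Locx922.disc_small h0 hH ha h3 le_rfl
  refine hU a ha z ?_
  calc ‖z - a‖ = ‖(z - o') + (o' - a)‖ := by ring_nf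
    _ ≤ ‖z - o'‖ + ‖o' - a‖ := norm_add_le _ _
    _ < 2 * d := by rw [norm_sub_rev o' a]; linarith

theorem fc_of (hQS : ∀ z ∈ U, z ∈ Q ↔ z ∈ (S : Set ℂ)) (hd : Dn S W U) {a b c : ℂ}
    (h : (a, b, c) ∈ delT S) (ha : a ∈ W) : Fc Q U a b c :=
  fc_congr (fun z hz => (hQS z hz).symm) ⟨mem_delT.1 h, hd a b c h ha⟩

/-- **the loop is inside `U`** -/
theorem inU_of (hQS : ∀ z ∈ U, z ∈ Q ↔ z ∈ (S : Set ℂ)) (hd : Dn S W U) (e0 : D0 S) {g : D0 S}
    (hW : ∀ n, ls (P M x (M.rho g) n) ∈ W) : InU Q U M (dl e0) x g := by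
  intro n
  obtain ⟨c, hc⟩ := mem_sd.1 (P M x (M.rho g) n).2
  exact ⟨_, _, c, fc_of hQS hd hc (hW n), (dl_eq (P M x (M.rho g) n).2).symm⟩

theorem sq_dist {z v w : ℂ} {k : ℝ} (hv : v ∈ sq z k) (hw : w ∈ sq z k) : ‖v - w‖ < 2 * k := by
  obtain ⟨a1, a2, a3, a4⟩ := hv
  obtain ⟨b1, b2, b3, b4⟩ := hw
  have h1 : |(v - w).re| < k := by
    rw [Complex.sub_re, abs_lt]; constructor <;> linarith
  have h2 : |(v - w).im| < k := by
    rw [Complex.sub_im, abs_lt]; constructor <;> linarith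
  have h3 := Complex.norm_le_abs_re_add_abs_im (v - w)
  linarith

/-- **the loop is macroscopic** -/
theorem big_of (hQS : ∀ z ∈ U, z ∈ Q ↔ z ∈ (S : Set ℂ)) (hd : Dn S W U) (e0 : D0 S) {g : D0 S}
    (hW : ∀ n, ls (P M x (M.rho g) n) ∈ W) {k : ℝ} {n1 n2 : ℕ}
    (h : 2 * k ≤ ‖ls (P M x (M.rho g) n1) - ls (P M x (M.rho g) n2)‖) :
    Big Q U M (dl e0) x k g := by
  intro z
  by_contra hc
  push Not at hc
  have key : ∀ n, ls (P M x (M.rho g) n) ∈ sq z k := by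
    intro n
    obtain ⟨c, hc'⟩ := mem_sd.1 (P M x (M.rho g) n).2
    have h1 := fc_of hQS hd hc' (hW n)
    have h2 := hc n _ _ c h1 (dl_eq (P M x (M.rho g) n).2).symm
    exact h2 (mem_cdisc (t := (_, _, c)) h1.1)
  have := sq_dist (key n1) (key n2)
  linarith

/-- **the left sites of the loop are in `W`** -/
theorem left_mem (H : Pl hS M σ) {ψ : C → ZMod 2} {X F : Set C} (E : Ext M ψ X F)
    (hX : ∀ v ∈ S, v ∉ W → σ v ∈ X) {p : D0 S} (B : Bl M ψ X p) (n : ℕ) :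
    ls (P M (cfg M ψ) p n) ∈ W := by
  have h1 := (B.it E n).off
  rw [H.cell] at h1
  by_contra hc
  exact h1 (hX _ (ls_mem _) hc)

variable {p₀ : D0 S} {m : ℕ} {Rv : Set C}

/-- **the block of a joined chord is macroscopic and inside `U`**, if this is so for the loop of
the outer arc -/
theorem jc_bigB (hQS : ∀ z ∈ U, z ∈ Q ↔ z ∈ (S : Set ℂ)) (hd : Dn S W U) (e0 : D0 S)
    (O : Oa M x p₀ m Rv) {s : D0 S} {n : ℕ} (J : Jc M x p₀ m Rv s n)
    (hW : ∀ n, ls (P M x p₀ n) ∈ W) {k : ℝ} {n1 n2 : ℕ}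
    (h : 2 * k ≤ ‖ls (P M x p₀ n1) - ls (P M x p₀ n2)‖) :
    blk M x s ∈ bigB Q U M (dl e0) k x := by
  obtain ⟨N, L⟩ := exists_lp O.ev O.occ
  obtain ⟨t, ht, H⟩ := J.ch O L
  have sh : ∀ n, P M x (M.rho s) n = P M x p₀ (n + t) := by
    intro n
    rw [ht, ← P_add]
  have htN : t < N := by have := H.tn; omega
  have back : ∀ a, P M x (M.rho s) (a + (N - t)) = P M x p₀ a := by
    intro a
    rw [sh, show a + (N - t) + t = a + N by omega]
    exact P_per L.per a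
  have hW' : ∀ n, ls (P M x (M.rho s) n) ∈ W := by
    intro n
    rw [sh]; exact hW _
  refine mem_bigB J.gp (inU_of hQS hd e0 hW') ?_
  refine big_of hQS hd e0 hW' (n1 := n1 + (N - t)) (n2 := n2 + (N - t)) ?_
  rw [back, back]
  exact h

/-- the same for the explored outside of 389 -/
theorem jc_bigB' (H : Pl hS M σ) (hQS : ∀ z ∈ U, z ∈ Q ↔ z ∈ (S : Set ℂ)) (hd : Dn S W U)
    (e0 : D0 S) {ψ : C → ZMod 2} {X F : Set C} (E : Ext M ψ X F)
    (hX : ∀ v ∈ S, v ∉ W → σ v ∈ X) (O : Oa M (cfg M ψ) p₀ m Rv) (hb : ψ (M.cell p₀) = 1)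
    (ho : M.cell p₀ ∉ X) {s : D0 S} {n : ℕ} (J : Jc M (cfg M ψ) p₀ m Rv s n) {k : ℝ} {n1 n2 : ℕ}
    (h : 2 * k ≤ ‖ls (P M (cfg M ψ) p₀ n1) - ls (P M (cfg M ψ) p₀ n2)‖) :
    blk M (cfg M ψ) s ∈ bigB Q U M (dl e0) k (cfg M ψ) :=
  jc_bigB hQS hd e0 O J (left_mem H E hX ⟨O.occ, hb, ho⟩) h

/-! ### fair coins -/

/-- **707's coins are fair**, `V` = inner sites -/
theorem fair_chi (H : Pl hS M σ) (h3 : 3 ≤ S.card) {V : Finset ℂ} {χ0 : C → ZMod 2}
    (hV : ∀ s, s ∈ V ↔ s ∈ S ∧ ¬ OnHull S s) {h0 : C} (h0' : ∀ s, OnHull S s → σ s = h0) :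
    Fair M V (chi V σ χ0) (cns V σ) h0 := by
  have hVS : V ⊆ S := fun s hs => ((hV s).1 hs).1
  have hVi : ∀ s ∈ V, ¬ OnHull S s := fun s hs => ((hV s).1 hs).2
  refine ⟨coins_chi, fun d hd => ?_, fun c a b ha _ => ?_, cns_dis, ?_⟩
  · rw [H.cell] at hd ⊢
    have hi : ¬ OnHull S d.1.1 := fun h => hd (h0' _ h)
    have hdV : d.1.1 ∈ V := (hV _).2 ⟨ls_mem d, hi⟩
    refine ⟨d.1.1, hdV, ?_⟩
    ext t
    unfold cns
    rw [Finset.mem_filter, Finset.mem_singleton]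
    constructor
    · rintro ⟨ht, e⟩
      exact H.inj t d.1.1 (hVS ht) (hVS hdV) hi e.symm
    · rintro rfl
      exact ⟨hdV, rfl⟩
  · obtain ⟨h1, rfl⟩ := Finset.mem_filter.1 ha
    rw [chi_free H hVS hVi h1]
  · obtain ⟨n, w, hw⟩ := hull_cycle hS h3
    have hhull : OnHull S (w 1) := ⟨w 0, hw.edge 0⟩
    rw [Finset.eq_empty_iff_forall_notMem]
    intro v hv
    obtain ⟨h1, h2⟩ := Finset.mem_filter.1 hv
    have h4 : σ v = σ (w 1) := by rw [h2, h0' _ hhull]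
    have hwS : w 1 ∈ S := (hullE.mem (hw.edge 0)).2
    have := H.inj (w 1) v hwS (hVS h1) (hVi v h1) h4
    exact hVi v h1 (this ▸ hhull)

/-- one fair coin for every cell -/
structure FairA {α D C : Type} (M : CMap D C) (V : Finset α) (χ : Finset α → C → ZMod 2)
    (K : C → Finset α) : Prop where
  coins : Coins V χ K
  coin : ∀ d, ∃ a ∈ V, K (M.cell d) = {a}
  bit : ∀ c a b, a ∈ K c → b ⊆ V → χ b c = if a ∈ b then 1 else 0
  inj : ∀ c c' a, a ∈ K c → a ∈ K c' → c = c'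

/-- the new cell `none` without darts -/
def addC {D C : Type} (M : CMap D C) : CMap D (Option C) where
  rho := M.rho
  rho3 := M.rho3
  rho_ne := M.rho_ne
  iota := M.iota
  iota2 := M.iota2
  live := M.live
  iota_live := M.iota_live
  iota_ne := M.iota_ne
  cell d := some (M.cell d)
  cell_iota d hd := congrArg some (M.cell_iota d hd)
  dead d hd := congrArg some (M.dead d hd)
  ex x h1 h2 h3 := by
    obtain ⟨χ, h⟩ := M.ex x h1 h2 h3
    exact ⟨fun c => c.elim 0 χ, h⟩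

theorem FairA.fair {α D C : Type} {M : CMap D C} {V : Finset α} {χ : Finset α → C → ZMod 2}
    {K : C → Finset α} (H : FairA M V χ K) :
    Fair (addC M) V (fun b c => c.elim 0 (χ b)) (fun c => c.elim ∅ K) none := by
  refine ⟨?_, fun d _ => H.coin d, ?_, ?_, rfl⟩
  · intro c b b' hb hb' h
    cases c with
    | none => rfl
    | some c => exact H.coins c b b' hb hb' h
  · intro c a b ha hb
    cases c with
    | none => exact absurd ha (Finset.notMem_empty a)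
    | some c => exact H.bit c a b ha hb
  · intro c c' a ha ha'
    cases c with
    | none => exact absurd ha (Finset.notMem_empty a)
    | some c =>
      cases c' with
      | none => exact absurd ha' (Finset.notMem_empty a)
      | some c' => exact congrArg some (H.inj c c' a ha ha')

theorem sm_addC {D C : Type} (M : CMap D C) : Sm (addC M) M :=
  ⟨rfl, rfl, rfl, fun d e => ⟨fun h => Option.some.inj h, fun h => congrArg some h⟩⟩

/-- **fair coins for all cells** : the configuration is equidistributed -/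
theorem FairA.eqd {α D C : Type} [Fintype D] {M : CMap D C} {V : Finset α}
    {χ : Finset α → C → ZMod 2} {K : C → Finset α} (H : FairA M V χ K) :
    Eqd M fun b : V.powerset => cfg M (χ b.1) :=
  (sm_addC M).eqd (eqd_pow H.fair)

/-- **389's / 136's instance** : `rc0 hS`, `chiS hS h3`, coins = all sites -/
theorem fair_chiS (hS : GP (S : Set ℂ)) (h3 : 3 ≤ S.card) :
    FairA (rc0 hS) S (chiS hS h3) fun c => {(rp hS h3 c).1} := by
  refine ⟨?_, fun d => ⟨_, (rp hS h3 _).2, rfl⟩, ?_, ?_⟩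
  · intro c b b' _ _ h
    unfold chiS
    have : (rp hS h3 c).1 ∈ b ↔ (rp hS h3 c).1 ∈ b' := by
      have h1 : (rp hS h3 c).1 ∈ b ∩ {(rp hS h3 c).1} ↔ (rp hS h3 c).1 ∈ b' ∩ {(rp hS h3 c).1} := by
        rw [h]
      simpa using h1
    by_cases h1 : (rp hS h3 c).1 ∈ b
    · rw [if_pos h1, if_pos (this.1 h1)]
    · rw [if_neg h1, if_neg fun h2 => h1 (this.2 h2)]
  · intro c a b ha _
    rw [Finset.mem_singleton.1 ha]
    rfl
  · intro c c' a ha ha'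
    have h1 := (Finset.mem_singleton.1 ha).symm.trans (Finset.mem_singleton.1 ha')
    exact rp_inj hS h3 (Subtype.ext h1)

/-! ### the energy of the macroscopic blocks -/

/-- **box R7 for all blocks** -/
theorem R7b {k : ℝ} (hk : 0 < k) {U : Set ℂ} (hU : Bornology.IsBounded U) :
    ∃ E : ℝ → Sample → ℝ≥0∞, (∀ ε, 0 < ε → Measurable (E ε)) ∧
      Tendsto (fun ε : ℝ => ∫⁻ ω, E ε ω ∂sampleLaw) (𝓝[>] 0) (𝓝 0) ∧
      Tendsto (fun ε : ℝ => ∫⁻ ω, E ε ω ^ (1 / 2 : ℝ) ∂sampleLaw) (𝓝[>] 0) (𝓝 0) ∧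
      (∀ t : ℝ≥0∞, t ≠ 0 → t ≠ ∞ →
        Tendsto (fun ε : ℝ => sampleLaw {ω | t ≤ E ε ω}) (𝓝[>] 0) (𝓝 0)) ∧
      ∀ (ε : ℝ) (ω : Sample) (S : Finset ℂ) (hS : GP (S : Set ℂ)), GP (points ε ω) →
        (∀ z ∈ U, z ∈ points ε ω ↔ z ∈ (S : Set ℂ)) → (∀ v ∈ S, v ∈ U → ¬ OnHull S v) →
        ∀ (e0 : D0 S) (a : D0 S → ℂ), Fld (points ε ω) U (dl e0) a →
        ∀ (C : Type) (M : CMap (D0 S) C), Sm M (cm0 hS) →
        ∑ y ∈ ev M, ∑ β ∈ bigB (points ε ω) U M (dl e0) k y,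
          ENNReal.ofReal (‖∑ t ∈ β, a t‖ ^ 2) ≤ ((ev M).card : ℝ≥0∞) * E ε ω := by
  obtain ⟨E, h1, h2, h3, h4⟩ := sum_rule_meas hk hU
  refine ⟨E, h1, h2, sqrt_tendsto h1 h2, h3, ?_⟩
  intro ε ω S hS hP hPS hin e0 a ha C M H
  have A := agr0 hP hS hPS hin e0
  rw [H.ev]
  have e1 : ∀ y, bigB (points ε ω) U M (dl e0) k y = bigB (points ε ω) U (cm0 hS) (dl e0) k y :=
    fun y => H.bigB _ _ _ _
  simp only [e1]
  refine le_trans (le_of_eq (Finset.sum_congr rfl fun y hy => ?_))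
    (h4 ε ω _ _ (cm0 hS) _ _ A (ch (points ε ω) U S) fun t ht => ch_gd hS hPS e0 ht)
  exact bigB_fld hP hS hPS hin e0 ha (mem_ev.1 hy)

section energy

variable {α D C : Type} [Fintype D] {M : CMap D C} {V : Finset α} {χ : Finset α → C → ZMod 2}
  {K : C → Finset α} {δ : ℂ → ℂ → D} {k : ℝ} {a : D → ℂ} {E : ℝ≥0∞}

/-- **the energy of the macroscopic blocks for fair coins** -/
theorem sum_bigB (H : Eqd M fun b : V.powerset => cfg M (χ b.1))
    (hE : ∑ y ∈ ev M, ∑ β ∈ bigB Q U M δ k y, ENNReal.ofReal (‖∑ t ∈ β, a t‖ ^ 2) ≤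
      ((ev M).card : ℝ≥0∞) * E) :
    ∑ b ∈ V.powerset, ∑ β ∈ bigB Q U M δ k (cfg M (χ b)), ENNReal.ofReal (‖∑ t ∈ β, a t‖ ^ 2) ≤
      2 ^ V.card * E := by
  have h1 := H.sum_le fun y => ∑ β ∈ bigB Q U M δ k y, ENNReal.ofReal (‖∑ t ∈ β, a t‖ ^ 2)
  have h2 : ((ev M).card : ℝ≥0∞) ≠ 0 := by
    have : (ev M).Nonempty := ⟨cfg M (χ ∅), mem_ev.2 (cfg_isC _)⟩
    exact_mod_cast (Finset.card_pos.2 this).ne'
  have h3 : ((ev M).card : ℝ≥0∞) ≠ ∞ := ENNReal.natCast_ne_top _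
  have h4 : ∑ b : V.powerset, ∑ β ∈ bigB Q U M δ k (cfg M (χ b.1)),
      ENNReal.ofReal (‖∑ t ∈ β, a t‖ ^ 2) =
      ∑ b ∈ V.powerset, ∑ β ∈ bigB Q U M δ k (cfg M (χ b)),
        ENNReal.ofReal (‖∑ t ∈ β, a t‖ ^ 2) :=
    Finset.sum_coe_sort V.powerset fun b => ∑ β ∈ bigB Q U M δ k (cfg M (χ b)),
      ENNReal.ofReal (‖∑ t ∈ β, a t‖ ^ 2)
  rw [h4, Fintype.card_coe, Finset.card_powerset] at h1
  have h5 : ((ev M).card : ℝ≥0∞) * ∑ b ∈ V.powerset, ∑ β ∈ bigB Q U M δ k (cfg M (χ b)),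
      ENNReal.ofReal (‖∑ t ∈ β, a t‖ ^ 2) ≤ ((ev M).card : ℝ≥0∞) * (2 ^ V.card * E) := by
    refine h1.trans ?_
    rw [mul_left_comm]
    push_cast
    exact mul_le_mul_right hE _
  exact (ENNReal.mul_le_mul_iff_right h2 h3).1 h5

/-- real form -/
theorem sum_bigB_real (H : Eqd M fun b : V.powerset => cfg M (χ b.1))
    (hE : ∑ y ∈ ev M, ∑ β ∈ bigB Q U M δ k y, ENNReal.ofReal (‖∑ t ∈ β, a t‖ ^ 2) ≤
      ((ev M).card : ℝ≥0∞) * E) :
    ENNReal.ofReal (∑ b ∈ V.powerset, ∑ β ∈ bigB Q U M δ k (cfg M (χ b)), ‖∑ t ∈ β, a t‖ ^ 2) ≤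
      2 ^ V.card * E := by
  refine le_trans (le_of_eq ?_) (sum_bigB H hE)
  rw [ENNReal.ofReal_sum_of_nonneg fun b _ => Finset.sum_nonneg fun β _ => by positivity]
  refine Finset.sum_congr rfl fun b _ => ?_
  rw [ENNReal.ofReal_sum_of_nonneg fun β _ => by positivity]

variable {R1 : Finset α → Finset α} {p₀ : Finset α → D} {len : Finset α → ℕ}
  {Rv : Finset α → Set C} {w : Finset α → ℝ}

/-- **355's `h2` against the macroscopic blocks** -/
theorem h2_big (Hq : Eqd M fun b : V.powerset => cfg M (χ b.1))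
    (E1 : Ex M V χ K R1 p₀ len Rv w) {G : Finset α → D → ℕ → Prop}
    (hG : GDec M V χ K R1 p₀ len Rv G) (I : Finset (D × ℕ)) {c : ℝ}
    {T : D × ℕ → Finset α → Prop} (hc : ∀ i ∈ I, c ≤ pr V (T i))
    (hT : ∀ i ∈ I, ∀ b b', b ⊆ V → b' ⊆ V → w b ≠ 0 →
      Cd M (cfg M (χ b)) (p₀ b) (len b) (Rv b) i.1 i.2 → G b i.1 i.2 → T i b' →
      Con M (cfg M (χ (b' \ R2 M χ K R1 p₀ len i.1 b ∪ b ∩ R2 M χ K R1 p₀ len i.1 b)))
        (M.cell (M.rho (p₀ b))) (M.cell (M.rho (M.rho i.1))))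
    (hBig : ∀ b, b ⊆ V → w b ≠ 0 → ∀ i ∈ I, Jc M (cfg M (χ b)) (p₀ b) (len b) (Rv b) i.1 i.2 →
      G b i.1 i.2 → blk M (cfg M (χ b)) i.1 ∈ bigB Q U M δ k (cfg M (χ b)))
    (hE : ∑ y ∈ ev M, ∑ β ∈ bigB Q U M δ k y, ENNReal.ofReal (‖∑ t ∈ β, a t‖ ^ 2) ≤
      ((ev M).card : ℝ≥0∞) * E) :
    ENNReal.ofReal (c * ∑ b ∈ V.powerset, ∑ i ∈ I, Fk M χ p₀ len Rv w G a i b) ≤
      2 ^ V.card * E := by
  have h1 := h2 E1 hG a I hc hT (fun b => bigB Q U M δ k (cfg M (χ b))) hBig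
  refine (ENNReal.ofReal_le_ofReal (h1.trans ?_)).trans (sum_bigB_real Hq hE)
  refine Finset.sum_le_sum fun b hb => ?_
  have h3 : 0 ≤ ∑ β ∈ bigB Q U M δ k (cfg M (χ b)), ‖∑ h ∈ β, a h‖ ^ 2 :=
    Finset.sum_nonneg fun β _ => by positivity
  calc _ ≤ 1 * ∑ β ∈ bigB Q U M δ k (cfg M (χ b)), ‖∑ h ∈ β, a h‖ ^ 2 :=
        mul_le_mul_of_nonneg_right (E1.w1 b (Finset.mem_powerset.1 hb)) h3
    _ = _ := one_mul _

variable {R R' : Finset α → Finset α}

/-- **one joined chord of the flipped configuration, L2** : `Σ_b g b ‖cv(Φ b)‖² ≤ 2^|V| E` -/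
theorem flip_L2 (Hq : Eqd M fun b : V.powerset => cfg M (χ b.1)) (hR : IsStop V R)
    (hR' : IsStop V R') {g : Finset α → ℝ} (g1 : ∀ b, b ⊆ V → g b ≤ 1)
    {m : Finset α → ℕ} {s : Finset α → D} {n : Finset α → ℕ}
    (hO : ∀ b, b ⊆ V → 0 < g b → Oa M (cfg M (χ (Fp R R' b))) (p₀ b) (m b) (Rv b))
    (hJ : ∀ b, b ⊆ V → 0 < g b → Jc M (cfg M (χ (Fp R R' b))) (p₀ b) (m b) (Rv b) (s b) (n b))
    (hs : ∀ b, b ⊆ V → 0 < g b →
      blk M (cfg M (χ (Fp R R' b))) (s b) ∈ bigB Q U M δ k (cfg M (χ (Fp R R' b))))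
    (hE : ∑ y ∈ ev M, ∑ β ∈ bigB Q U M δ k y, ENNReal.ofReal (‖∑ t ∈ β, a t‖ ^ 2) ≤
      ((ev M).card : ℝ≥0∞) * E) :
    ∑ b ∈ V.powerset, ENNReal.ofReal
      (g b * ‖cv M (cfg M (χ (Fp R R' b))) (p₀ b) (m b) a (s b) (n b)‖ ^ 2) ≤
      2 ^ V.card * E := by
  have hq' : Eqd M fun b : V.powerset => cfg M (χ (Fp R R' b.1)) :=
    Eqd.comp Hq (fpF_bij hR hR')
  have hm : ∀ b : V.powerset, b.1 ⊆ V := fun b => Finset.mem_powerset.1 b.2
  have h := jc_L2 hq' (g := fun b => g b.1) (fun b => g1 _ (hm b)) (p₀ := fun b => p₀ b.1)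
    (m := fun b => m b.1) (Rv := fun b => Rv b.1) (s := fun b => s b.1) (n := fun b => n b.1)
    (fun b h => hO _ (hm b) h) (fun b h => hJ _ (hm b) h) (fun b h => hs _ (hm b) h) hE
  rw [Finset.sum_coe_sort V.powerset fun b => ENNReal.ofReal
    (g b * ‖cv M (cfg M (χ (Fp R R' b))) (p₀ b) (m b) a (s b) (n b)‖ ^ 2), Fintype.card_coe,
    Finset.card_powerset] at h
  push_cast at h
  exact h

/-- **L1** -/
theorem flip_L1 (Hq : Eqd M fun b : V.powerset => cfg M (χ b.1)) (hR : IsStop V R)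
    (hR' : IsStop V R') {g : Finset α → ℝ} (g0 : ∀ b, b ⊆ V → 0 ≤ g b)
    (g1 : ∀ b, b ⊆ V → g b ≤ 1)
    {m : Finset α → ℕ} {s : Finset α → D} {n : Finset α → ℕ}
    (hO : ∀ b, b ⊆ V → 0 < g b → Oa M (cfg M (χ (Fp R R' b))) (p₀ b) (m b) (Rv b))
    (hJ : ∀ b, b ⊆ V → 0 < g b → Jc M (cfg M (χ (Fp R R' b))) (p₀ b) (m b) (Rv b) (s b) (n b))
    (hs : ∀ b, b ⊆ V → 0 < g b →
      blk M (cfg M (χ (Fp R R' b))) (s b) ∈ bigB Q U M δ k (cfg M (χ (Fp R R' b))))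
    (hE : ∑ y ∈ ev M, ∑ β ∈ bigB Q U M δ k y, ENNReal.ofReal (‖∑ t ∈ β, a t‖ ^ 2) ≤
      ((ev M).card : ℝ≥0∞) * E) :
    ∑ b ∈ V.powerset, ENNReal.ofReal
      (g b * ‖cv M (cfg M (χ (Fp R R' b))) (p₀ b) (m b) a (s b) (n b)‖) ≤
      2 ^ V.card * E ^ (1 / 2 : ℝ) := by
  have hq' : Eqd M fun b : V.powerset => cfg M (χ (Fp R R' b.1)) :=
    Eqd.comp Hq (fpF_bij hR hR')
  have hm : ∀ b : V.powerset, b.1 ⊆ V := fun b => Finset.mem_powerset.1 b.2
  have h := jc_L1 hq' (g := fun b => g b.1) (fun b => g0 _ (hm b)) (fun b => g1 _ (hm b))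
    (p₀ := fun b => p₀ b.1)
    (m := fun b => m b.1) (Rv := fun b => Rv b.1) (s := fun b => s b.1) (n := fun b => n b.1)
    (fun b h => hO _ (hm b) h) (fun b h => hJ _ (hm b) h) (fun b h => hs _ (hm b) h) hE
  rw [Finset.sum_coe_sort V.powerset fun b => ENNReal.ofReal
    (g b * ‖cv M (cfg M (χ (Fp R R' b))) (p₀ b) (m b) a (s b) (n b)‖), Fintype.card_coe,
    Finset.card_powerset] at h
  push_cast at h
  exact h

/-! ### any injection of the configurations -/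

theorem phi_bij {Φ : Finset α → Finset α} (h1 : ∀ b, b ⊆ V → Φ b ⊆ V)
    (h2 : ∀ b b', b ⊆ V → b' ⊆ V → Φ b = Φ b' → b = b') :
    Function.Bijective fun b : V.powerset =>
      (⟨Φ b.1, Finset.mem_powerset.2 (h1 b.1 (Finset.mem_powerset.1 b.2))⟩ : V.powerset) := by
  refine Finite.injective_iff_bijective.1 fun b b' e => Subtype.ext ?_
  exact h2 _ _ (Finset.mem_powerset.1 b.2) (Finset.mem_powerset.1 b'.2) (congrArg Subtype.val e)

/-- `flip_L2` for any injection `Φ` of the configurations -/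
theorem inj_L2 (Hq : Eqd M fun b : V.powerset => cfg M (χ b.1)) {Φ : Finset α → Finset α}
    (h1 : ∀ b, b ⊆ V → Φ b ⊆ V) (h2 : ∀ b b', b ⊆ V → b' ⊆ V → Φ b = Φ b' → b = b')
    {g : Finset α → ℝ} (g1 : ∀ b, b ⊆ V → g b ≤ 1)
    {m : Finset α → ℕ} {s : Finset α → D} {n : Finset α → ℕ}
    (hO : ∀ b, b ⊆ V → 0 < g b → Oa M (cfg M (χ (Φ b))) (p₀ b) (m b) (Rv b))
    (hJ : ∀ b, b ⊆ V → 0 < g b → Jc M (cfg M (χ (Φ b))) (p₀ b) (m b) (Rv b) (s b) (n b))
    (hs : ∀ b, b ⊆ V → 0 < g b → blk M (cfg M (χ (Φ b))) (s b) ∈ bigB Q U M δ k (cfg M (χ (Φ b))))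
    (hE : ∑ y ∈ ev M, ∑ β ∈ bigB Q U M δ k y, ENNReal.ofReal (‖∑ t ∈ β, a t‖ ^ 2) ≤
      ((ev M).card : ℝ≥0∞) * E) :
    ∑ b ∈ V.powerset, ENNReal.ofReal
      (g b * ‖cv M (cfg M (χ (Φ b))) (p₀ b) (m b) a (s b) (n b)‖ ^ 2) ≤ 2 ^ V.card * E := by
  have hq' : Eqd M fun b : V.powerset => cfg M (χ (Φ b.1)) := Eqd.comp Hq (phi_bij h1 h2)
  have hm : ∀ b : V.powerset, b.1 ⊆ V := fun b => Finset.mem_powerset.1 b.2
  have h := jc_L2 hq' (g := fun b => g b.1) (fun b => g1 _ (hm b)) (p₀ := fun b => p₀ b.1)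
    (m := fun b => m b.1) (Rv := fun b => Rv b.1) (s := fun b => s b.1) (n := fun b => n b.1)
    (fun b h => hO _ (hm b) h) (fun b h => hJ _ (hm b) h) (fun b h => hs _ (hm b) h) hE
  rw [Finset.sum_coe_sort V.powerset fun b => ENNReal.ofReal
    (g b * ‖cv M (cfg M (χ (Φ b))) (p₀ b) (m b) a (s b) (n b)‖ ^ 2), Fintype.card_coe,
    Finset.card_powerset] at h
  push_cast at h
  exact h

/-- `flip_L1` for any injection `Φ` of the configurations -/
theorem inj_L1 (Hq : Eqd M fun b : V.powerset => cfg M (χ b.1)) {Φ : Finset α → Finset α}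
    (h1 : ∀ b, b ⊆ V → Φ b ⊆ V) (h2 : ∀ b b', b ⊆ V → b' ⊆ V → Φ b = Φ b' → b = b')
    {g : Finset α → ℝ} (g0 : ∀ b, b ⊆ V → 0 ≤ g b) (g1 : ∀ b, b ⊆ V → g b ≤ 1)
    {m : Finset α → ℕ} {s : Finset α → D} {n : Finset α → ℕ}
    (hO : ∀ b, b ⊆ V → 0 < g b → Oa M (cfg M (χ (Φ b))) (p₀ b) (m b) (Rv b))
    (hJ : ∀ b, b ⊆ V → 0 < g b → Jc M (cfg M (χ (Φ b))) (p₀ b) (m b) (Rv b) (s b) (n b))
    (hs : ∀ b, b ⊆ V → 0 < g b → blk M (cfg M (χ (Φ b))) (s b) ∈ bigB Q U M δ k (cfg M (χ (Φ b))))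
    (hE : ∑ y ∈ ev M, ∑ β ∈ bigB Q U M δ k y, ENNReal.ofReal (‖∑ t ∈ β, a t‖ ^ 2) ≤
      ((ev M).card : ℝ≥0∞) * E) :
    ∑ b ∈ V.powerset, ENNReal.ofReal
      (g b * ‖cv M (cfg M (χ (Φ b))) (p₀ b) (m b) a (s b) (n b)‖) ≤
      2 ^ V.card * E ^ (1 / 2 : ℝ) := by
  have hq' : Eqd M fun b : V.powerset => cfg M (χ (Φ b.1)) := Eqd.comp Hq (phi_bij h1 h2)
  have hm : ∀ b : V.powerset, b.1 ⊆ V := fun b => Finset.mem_powerset.1 b.2
  have h := jc_L1 hq' (g := fun b => g b.1) (fun b => g0 _ (hm b)) (fun b => g1 _ (hm b))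
    (p₀ := fun b => p₀ b.1)
    (m := fun b => m b.1) (Rv := fun b => Rv b.1) (s := fun b => s b.1) (n := fun b => n b.1)
    (fun b h => hO _ (hm b) h) (fun b h => hJ _ (hm b) h) (fun b h => hs _ (hm b) h) hE
  rw [Finset.sum_coe_sort V.powerset fun b => ENNReal.ofReal
    (g b * ‖cv M (cfg M (χ (Φ b))) (p₀ b) (m b) a (s b) (n b)‖), Fintype.card_coe,
    Finset.card_powerset] at h
  push_cast at h
  exact h

end energy

end Crest.Agent.R143.BigFx357
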