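import Crest.Agent.R143.RcT2_422
import Crest.Agent.R143.TileR1_228
import Crest.Agent.R143.CorH_713

/-!
# Row 143 (S0194), block RIG, field `small`: the out strand is macroscopic (helper749)

The two far arc states of 304's `InBx304.small_ex` : the first state (next to the zone `Z.E`, tile
`o + n - 1`) and the last state (next to the zone `Z.W`, tile `o`).

* `first_near`, `last_near` : the left sites of the first and of the last state are neighbours of a
  site of `Z.E`, `Z.W`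
* **`far_arc`** : zones inside two sets of distance `≥ g`, short edges there ⟹ two arc states with
  sites at distance `≥ k` in `re` or `im`, `2 k + 4 d ≤ g`
* **`far_corH`** : the same on `CorH`, for any zones inside the fattened tiles `o`, `o + n - 1`
  (`k = 18 η`)
-/

set_option autoImplicit false
set_option linter.unusedSectionVars false

noncomputable section

open scoped Classical

namespace Crest.Agent.R143.BigUx749

open Crest.Agent.R143.B0x346 Crest.Agent.R143.DelGx806 Crest.Agent.R143.DelRx806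
open Crest.Agent.R143.Frame1x395 Crest.Agent.R143.Frame2x395 Crest.Agent.R143.Frame3x395
  Crest.Agent.R143.Frame4x395 Crest.Agent.R143.Frame8x395 Crest.Agent.R143.Frame9x395
  Crest.Agent.R143.Frame10x395 Crest.Agent.R143.Frame11x395
open Crest.Agent.R143.Frame5x395 (sd mem_sd th th_spec)
open Crest.Agent.R143.NonXx592 (P Rc)
open Crest.Agent.R143.FinCx811 (Cs rc0 cs rcol cell_mem cs_inj cs_surj)
open Crest.Agent.R143.WLocx713 (HullC nx lift xc it_eq sX)
open Crest.Agent.R143.Blkx838 (DE)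
open Crest.Agent.R143.Sepx686 (LS RS dart_mem)
open Crest.Agent.R143.RcTx422 Crest.Agent.R143.Uniqx323
open Crest.Agent.R143.TileRx228 Crest.Agent.R143.PP0x831
open Crest.Agent.R143.CorHx713 (CorH)

variable {S : Finset ℂ} {hS : GP (S : Set ℂ)} {σ : Cs hS → ZMod 2} {Z : Zn (rc0 hS)} {b : ZMod 2}
  {q : D0 S} {n : ℕ} {F G : Set ℂ}

/-- the cells of the sites of `F` (903's `clR`) -/
def ClR (hS : GP (S : Set ℂ)) (F : Set ℂ) : Set (Cs hS) :=
  {c | ∃ s ∈ S, s ∈ F ∧ c.1 = Quot.mk (hullE S) s}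

/-- the site of a cell of `ClR` is in the set, if the sites of the set are inner -/
theorem site_of (hin : ∀ s ∈ S, s ∈ F → ¬ OnHull S s) {c : Cs hS} {v : ℂ} (hc : c ∈ ClR hS F)
    (e : c.1 = Quot.mk (hullE S) v) : v ∈ F := by
  obtain ⟨s, hs, hF, e'⟩ := hc
  rw [e] at e'
  have : v = s := quot_inner hS (hin s hs hF) e'.symm
  exact this ▸ hF

/-- **the first state is next to `Z.E`** -/
theorem first_near (h : Strd (rc0 hS) Z b σ q n) (hE : Z.E ⊆ ClR hS F)
    (hin : ∀ s ∈ S, s ∈ F → ¬ OnHull S s) : ∃ f ∈ F, DE S f q.1.1 := by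
  have hq : cfg (rc0 hS) σ q = 1 := h.occ
  have hl : (q.1.2, q.1.1) ∈ sd S := (cfg_isC (M := rc0 hS) σ).lv hq
  have e1 : ((rc0 hS).cell ((rc0 hS).rho ((rc0 hS).rho ((rc0 hS).iota q)))).1 =
      Quot.mk (hullE S) (th S (q.1.2, q.1.1)) := by
    rw [cell_rho2_val]
    show Quot.mk (hullE S) (th S (io0 q).1) = _
    rw [io0_live hl]
  have h1 : th S (q.1.2, q.1.1) ∈ F := site_of hin (hE h.ent) e1
  have h2 : (q.1.2, q.1.1, th S (q.1.2, q.1.1)) ∈ delT S := th_spec hl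
  exact ⟨_, h1, Or.inr ⟨_, JColx54.delT_rot hS h2⟩⟩

/-- **the last state is next to `Z.W`** -/
theorem last_near (h : Strd (rc0 hS) Z b σ q n) (hW : Z.W ⊆ ClR hS G)
    (hin : ∀ s ∈ S, s ∈ G → ¬ OnHull S s) :
    ∃ g ∈ G, DE S g (P (rc0 hS) (cfg (rc0 hS) σ) q n).1.1 := by
  have h1 : th S (P (rc0 hS) (cfg (rc0 hS) σ) q n).1 ∈ G :=
    site_of hin (hW h.ext) (cell_rho2_val _)
  have h2 := th_spec (P (rc0 hS) (cfg (rc0 hS) σ) q n).2
  exact ⟨_, h1, Or.inl ⟨_, JColx54.delT_rot hS (JColx54.delT_rot hS h2)⟩⟩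

/-- **the two far states of the arc** -/
theorem far_arc {g d k : ℝ} (h : Strd (rc0 hS) Z b σ q n) (hE : Z.E ⊆ ClR hS F)
    (hW : Z.W ⊆ ClR hS G) (hF : ∀ s ∈ S, s ∈ F → ¬ OnHull S s)
    (hG : ∀ s ∈ S, s ∈ G → ¬ OnHull S s)
    (hde : ∀ u v, u ∈ F ∨ u ∈ G → DE S u v → ‖v - u‖ < 2 * d)
    (hfg : ∀ f ∈ F, ∀ g' ∈ G, g ≤ ‖f - g'‖) (hk : 2 * k + 4 * d ≤ g) :
    ∃ u v, u ≤ n ∧ v ≤ n ∧
      (k ≤ |(((stp (rc0 hS) (cfg (rc0 hS) σ))^[u] q).1.1 -
          ((stp (rc0 hS) (cfg (rc0 hS) σ))^[v] q).1.1).re| ∨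
        k ≤ |(((stp (rc0 hS) (cfg (rc0 hS) σ))^[u] q).1.1 -
          ((stp (rc0 hS) (cfg (rc0 hS) σ))^[v] q).1.1).im|) := by
  obtain ⟨f, hf, h1⟩ := first_near h hE hF
  obtain ⟨f', hf', h2⟩ := last_near h hW hG
  refine ⟨0, n, Nat.zero_le _, le_rfl, ?_⟩
  show k ≤ |(q.1.1 - (P (rc0 hS) (cfg (rc0 hS) σ) q n).1.1).re| ∨
    k ≤ |(q.1.1 - (P (rc0 hS) (cfg (rc0 hS) σ) q n).1.1).im|
  set a := q.1.1
  set c := (P (rc0 hS) (cfg (rc0 hS) σ) q n).1.1
  have h3 := hde _ _ (Or.inl hf) h1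
  have h4 := hde _ _ (Or.inr hf') h2
  have h5 := hfg f hf f' hf'
  have h6 : ‖f - f'‖ ≤ ‖a - f‖ + ‖a - c‖ + ‖c - f'‖ := by
    have e : f - f' = -(a - f) + (a - c) + (c - f') := by ring
    calc ‖f - f'‖ = ‖-(a - f) + (a - c) + (c - f')‖ := by rw [← e]
      _ ≤ ‖-(a - f) + (a - c)‖ + ‖c - f'‖ := norm_add_le _ _
      _ ≤ ‖a - f‖ + ‖a - c‖ + ‖c - f'‖ := by
        have := norm_add_le (-(a - f)) (a - c)
        rw [norm_neg] at this
        linarith
  have h7 := Complex.norm_le_abs_re_add_abs_im (a - c)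
  by_contra hcon
  push Not at hcon
  obtain ⟨h8, h9⟩ := hcon
  linarith

/-! ### on the corridor hypothesis -/

section cor

variable {X : Set (ℂ × Bool)} {U : Set ℂ} {M : ℕ} {W : ℤ → ℤ × ℤ} {η d : ℝ} {o : ℤ} {N : ℕ}

/-- the tiles `o + N - 1` and `o` are far -/
theorem tiles_far (H : CorH X U M W η d o N) (h3 : 3 ≤ N) {s t : ℂ}
    (hs : s ∈ RR (10 * η) (52 * η) (100 * η) W (o + N - 1))
    (ht : t ∈ RR (10 * η) (52 * η) (100 * η) W o) : 38 * η ≤ ‖s - t‖ := by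
  have h1 := H.e0
  have h2 := H.nM
  have key : ∀ j : ℤ, j ≠ 0 → -(M : ℤ) < j → j < M → ¬ (M : ℤ) ∣ j := by
    rintro _ h0 h1 h2 ⟨k, rfl⟩
    have hM : (0 : ℤ) < M := by omega
    have hk1 : k < 1 := by
      by_contra hc
      push Not at hc
      nlinarith
    have hk2 : -1 < k := by
      by_contra hc
      push Not at hc
      nlinarith
    have : k = 0 := by omega
    rw [this, mul_zero] at h0
    exact h0 rfl
  refine gap H.path (by linarith) (by linarith) (by linarith) (by linarith) ?_ ?_ ?_ hs ht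
  · exact key _ (by omega) (by omega) (by omega)
  · exact key _ (by omega) (by omega) (by omega)
  · exact key _ (by omega) (by omega) (by omega)

/-- **the two far states on the corridor** (`k ≤ 18 η`): zones inside the fattened end tiles -/
theorem far_corH (H : CorH X U M W η d o N) (h3 : 3 ≤ N) {σ : Cs H.gp → ZMod 2}
    {Z : Zn (rc0 H.gp)} {b : ZMod 2} {q : D0 (sX X)} {n : ℕ} (h : Strd (rc0 H.gp) Z b σ q n)
    (hE : Z.E ⊆ ClR H.gp (RR (10 * η) (52 * η) (100 * η) W (o + N - 1)))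
    (hW : Z.W ⊆ ClR H.gp (RR (10 * η) (52 * η) (100 * η) W o)) {k : ℝ} (hk : k ≤ 18 * η) :
    ∃ u v, u ≤ n ∧ v ≤ n ∧
      (k ≤ |(((stp (rc0 H.gp) (cfg (rc0 H.gp) σ))^[u] q).1.1 -
          ((stp (rc0 H.gp) (cfg (rc0 H.gp) σ))^[v] q).1.1).re| ∨
        k ≤ |(((stp (rc0 H.gp) (cfg (rc0 H.gp) σ))^[u] q).1.1 -
          ((stp (rc0 H.gp) (cfg (rc0 H.gp) σ))^[v] q).1.1).im|) := by
  have h1 := H.e0
  have h4 := H.d0
  have h5 := H.de
  have hU : ∀ a : ℤ, RR (10 * η) (52 * η) (100 * η) W a ⊆ U := fun a =>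
    H.sub_U (by linarith) (by linarith) a
  refine far_arc h hE hW (fun s _ hs => H.inn (hU _ hs)) (fun s _ hs => H.inn (hU _ hs))
    (g := 38 * η) (d := d) (fun u v hu huv => H.step (hu.elim (fun h => hU _ h) fun h => hU _ h)
      huv) (fun f hf g' hg' => tiles_far H h3 hf hg') (by linarith)

end cor

end Crest.Agent.R143.BigUx749
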