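import Crest.Agent.R143.Frame9_395

/-!
# Row 143 (S0194): circuits which are blocks (helper395)

* `chi_arc` : the colouring of the arc between a gap and its first return
* `same_loop` : the edges between two clusters are on one loop
* `circuit_nx`, `circuit_block` : a cyclic sequence of gaps of one loop, whose cells follow each
  other and are different genuine cells, is one block
-/

set_option autoImplicit false

noncomputable section

open scoped Classical

namespace Crest.Agent.R143.Frame11x395

open Crest.Agent.R143.Frame1x395 Crest.Agent.R143.Frame2x395 Crest.Agent.R143.Frame3x395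
  Crest.Agent.R143.Frame4x395 Crest.Agent.R143.Frame8x395 Crest.Agent.R143.Frame9x395

variable {D C : Type} {M : CMap D C} {x : D → ZMod 2}

/-- **the colouring of an arc from the gap `k` (leaving `c`) to a later gap `g` (entering `c`)** -/
theorem chi_arc (h : IsC M ∅ x) {k g : D} (hk : Gp M x k) (hg : Gp M x g) (hne : k ≠ g)
    {c : C} (hc : M.cell (M.rho k) = c) (hc' : M.cell g = c) (G : Gen M c)
    (ha : M.rho g ∈ Tr M x (BB M k g) (out M k)) :
    ∃ (χ : C → ZMod 2) (ν : ZMod 2),
      (∀ d, x d = 0 → M.cell d ≠ c → M.cell (M.rho d) ≠ c →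
        χ (M.cell d) = χ (M.cell (M.rho d))) ∧
      (∀ n, M.cell ((stp M x)^[n] (out M k)) ≠ c →
        (stp M x)^[n] (out M k) ∈ Tr M x (BB M k g) (out M k) →
        χ (M.cell ((stp M x)^[n] (out M k))) = ν + 1) ∧
      (∀ n, M.cell ((stp M x)^[n] (out M k)) ≠ c →
        (stp M x)^[n] (out M k) ∉ Tr M x (BB M k g) (out M k) →
        χ (M.cell ((stp M x)^[n] (out M k))) = ν) := by
  have hgk : g ∉ Fa M k := gp_fa h hk hg hne
  have hinv := bb_inv M k g
  have hob : (∅ : Set D) ⊆ BB M k g := Set.empty_subset _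
  have hxk : x (out M k) = 1 := hk.out h
  have hio : M.iota (out M k) = M.rho (M.rho k) := M.iota2 _
  have hip : M.iota (out M k) ∈ BB M k g := by rw [hio]; exact memg2 M k g
  set B := BB M k g with hB
  obtain ⟨ψ, hψ⟩ := M.ex x h.dead h.iot (fun d => by rw [h.par d, if_neg (Set.notMem_empty d)])
  have hψ0 : ∀ d, x d = 0 → ψ (M.cell d) = ψ (M.cell (M.rho d)) := by
    intro d hd
    rw [hψ d] at hd
    revert hd
    generalize ψ (M.cell d) = a
    generalize ψ (M.cell (M.rho d)) = b
    revert a b; decide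
  have lc : ∀ n, ψ (M.cell ((stp M x)^[n] (out M k))) = ψ c := by
    intro n
    rw [it_col h hxk hψ0 n, cell_out h hk, ← hc]
    exact hψ0 _ hk.1
  have rc : ∀ n, ψ (M.cell (M.rho ((stp M x)^[n] (out M k)))) ≠ ψ c := by
    intro n e
    have h1 := occ_it h hxk n
    rw [hψ, lc n, e, z_self] at h1
    exact absurd h1 (by decide)
  have rne : ∀ n, M.cell (M.rho ((stp M x)^[n] (out M k))) ≠ c := fun n e => rc n (by rw [e])
  obtain ⟨m, hm⟩ := G.orb (M.rho k) g hc hc'
  set z : D → ZMod 2 := fun d => arc M x B (out M k) d + bp M (M.rho k) m d with hz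
  have arck : arc M x B (out M k) k = 0 := arc_le h hob hxk hk.1
  have arcg : arc M x B (out M k) g = 0 := arc_le h hob hxk hg.1
  have s1 : ∀ d, d ∈ B → arc M x B (out M k) d = if d = M.rho g ∨ d = M.rho (M.rho k) then 1
      else 0 := by
    intro d hd
    have := arc_stop h hob hinv hxk ha (memh1 M k g) hd
    rwa [hio] at this
  have n3 : M.rho (M.rho k) ≠ M.rho k := M.rho_ne (M.rho k)
  have m3 : M.rho (M.rho g) ≠ M.rho g := M.rho_ne (M.rho g)
  have k1g1 := ne_of_fa hgk (fa1 M k) (fa1 M g)
  have k2g1 := ne_of_fa hgk (fa2 M k) (fa1 M g)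
  have k2g2 := ne_of_fa hgk (fa2 M k) (fa2 M g)
  have arck1 : arc M x B (out M k) (M.rho k) = 0 := by
    rw [s1 _ (memg1 M k g), if_neg]; tauto
  have arck2 : arc M x B (out M k) (M.rho (M.rho k)) = 1 := by
    rw [s1 _ (memg2 M k g), if_pos]; tauto
  have arcg1 : arc M x B (out M k) (M.rho g) = 1 := by
    rw [s1 _ (memh1 M k g), if_pos]; tauto
  have arcg2 : arc M x B (out M k) (M.rho (M.rho g)) = 0 := by
    rw [s1 _ (memh2 M k g), if_neg]; tauto
  obtain ⟨χ, hχ⟩ := M.ex z
    (fun d hd => by
      show arc M x B (out M k) d + bp M (M.rho k) m d = 0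
      rw [arc_le h hob hxk (h.dead d hd), G.bp_dead hc m hd]; decide)
    (fun d => by
      show arc M x B (out M k) (M.iota d) + bp M (M.rho k) m (M.iota d) = _
      rw [arc_iot, bp_iota])
    (fun d => by
      have h1 := bp_par (M := M) (M.rho k) m d
      rw [hm] at h1
      have h2 : (if M.rho k ∈ Fa M d then (1 : ZMod 2) else 0) = if k ∈ Fa M d then 1 else 0 :=
        if_congr (fa_inv M d k) rfl rfl
      rw [h2] at h1
      have h3 : arc M x B (out M k) d + arc M x B (out M k) (M.rho d) +
          arc M x B (out M k) (M.rho (M.rho d)) =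
          (if g ∈ Fa M d then 1 else 0) + (if k ∈ Fa M d then 1 else 0) := by
        by_cases hd : d ∈ B
        · rcases hd with hd | hd
          · have c1 : k ∈ Fa M d := fa_symm'.1 hd
            have c2 : g ∉ Fa M d := fun hc => ne_of_fa hgk hd (fa_symm'.1 hc) rfl
            rw [if_pos c1, if_neg c2]
            rcases hd with rfl | rfl | rfl
            · rw [arck, arck1, arck2]; decide
            · rw [sum_rot, arck, arck1, arck2]; decide
            · rw [sum_rot, sum_rot, arck, arck1, arck2]; decide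
          · have c1 : g ∈ Fa M d := fa_symm'.1 hd
            have c2 : k ∉ Fa M d := fun hc => ne_of_fa hgk (fa_symm'.1 hc) hd rfl
            rw [if_pos c1, if_neg c2]
            rcases hd with rfl | rfl | rfl
            · rw [arcg, arcg1, arcg2]; decide
            · rw [sum_rot, arcg, arcg1, arcg2]; decide
            · rw [sum_rot, sum_rot, arcg, arcg1, arcg2]; decide
        · rw [arc_off h hob hinv hxk hip hd]
          have c1 : k ∉ Fa M d := fun hc => hd (Or.inl (fa_symm'.1 hc))
          have c2 : g ∉ Fa M d := fun hc => hd (Or.inr (fa_symm'.1 hc))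
          rw [if_neg c1, if_neg c2]; decide
      show arc M x B (out M k) d + bp M (M.rho k) m d +
        (arc M x B (out M k) (M.rho d) + bp M (M.rho k) m (M.rho d)) +
        (arc M x B (out M k) (M.rho (M.rho d)) + bp M (M.rho k) m (M.rho (M.rho d))) = 0
      linear_combination h1 + h3 + z_self (if g ∈ Fa M d then (1 : ZMod 2) else 0) +
        z_self (if k ∈ Fa M d then (1 : ZMod 2) else 0))
  have hun : ∀ d, x d = 0 → M.cell d ≠ c → M.cell (M.rho d) ≠ c →
      χ (M.cell d) = χ (M.cell (M.rho d)) := by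
    intro d hd h1 h2
    have h3 := hχ d
    have h4 : z d = 0 := by
      show arc M x B (out M k) d + bp M (M.rho k) m d = 0
      rw [arc_le h hob hxk hd, G.bp_off hc m h1 h2]; decide
    rw [h4] at h3
    revert h3
    generalize χ (M.cell d) = a
    generalize χ (M.cell (M.rho d)) = b
    revert a b; decide
  have hright : ∀ n, χ (M.cell (M.rho ((stp M x)^[n] (out M k)))) =
      χ (M.cell (M.rho (out M k))) := by
    intro n
    induction n with
    | zero => rfl
    | succ n ih =>
      rw [← ih]
      have r1 := rne n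
      have r2 := rne (n + 1)
      rw [Function.iterate_succ_apply'] at r2 ⊢
      set p := (stp M x)^[n] (out M k) with hp
      have xp : x p = 1 := occ_it h hxk n
      rcases stp_cases h xp (Set.notMem_empty _) with ⟨a1, a2, a3⟩ | ⟨a1, a2, a3⟩
      · rw [a3, cell_rho_iota M (h.lv a1)]
      · rw [a3, cell_rho_iota M (h.lv a2)] at r2 ⊢
        exact (hun _ a1 r1 r2).symm
  have hleft : ∀ n, M.cell ((stp M x)^[n] (out M k)) ≠ c →
      χ (M.cell ((stp M x)^[n] (out M k))) = χ (M.cell (M.rho (out M k))) +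
        arc M x B (out M k) ((stp M x)^[n] (out M k)) := by
    intro n hn
    have h1 := hχ ((stp M x)^[n] (out M k))
    have h2 : z ((stp M x)^[n] (out M k)) = arc M x B (out M k) ((stp M x)^[n] (out M k)) := by
      show arc M x B (out M k) _ + bp M (M.rho k) m _ = _
      rw [G.bp_off hc m hn (rne n), add_zero]
    rw [h2, hright n] at h1
    rw [h1]
    generalize χ (M.cell ((stp M x)^[n] (out M k))) = a
    generalize χ (M.cell (M.rho (out M k))) = b
    revert a b; decide
  refine ⟨χ, χ (M.cell (M.rho (out M k))), hun, ?_, ?_⟩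
  · intro n hn hT
    rw [hleft n hn]
    congr 1
    exact if_pos (Or.inl hT)
  · intro n hn hT
    rw [hleft n hn]
    have aq : arc M x B (out M k) ((stp M x)^[n] (out M k)) = 0 := by
      unfold arc
      rw [if_neg]
      rintro (hc1 | hc1)
      · exact hT hc1
      · obtain ⟨i, hi, -⟩ := hc1
        have h1 := lc i
        rw [hi, M.cell_iota _ (h.lv (occ_it h hxk n))] at h1
        exact rc n h1
    rw [aq, add_zero]

/-! ### edges between two clusters -/

/-- connected by unoccupied edges -/
def Con (M : CMap D C) (x : D → ZMod 2) : C → C → Prop :=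
  Relation.EqvGen fun a b => ∃ d, x d = 0 ∧ M.cell d = a ∧ M.cell (M.rho d) = b

theorem con_eq {z : D → ZMod 2} {χ : C → ZMod 2}
    (hχ : ∀ d, z d = χ (M.cell d) + χ (M.cell (M.rho d))) (hz : ∀ d, x d = 0 → z d = 0)
    {a b : C} (H : Con M x a b) : χ a = χ b := by
  induction H with
  | rel a b hab =>
    obtain ⟨d, h1, rfl, rfl⟩ := hab
    have h2 := hχ d
    rw [hz d h1] at h2
    revert h2
    generalize χ (M.cell d) = a
    generalize χ (M.cell (M.rho d)) = b
    revert a b; decide
  | refl => rfl
  | symm _ _ _ ih => exact ih.symm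
  | trans _ _ _ _ _ ih1 ih2 => exact ih1.trans ih2

/-- the darts of a loop -/
def lp (M : CMap D C) (x : D → ZMod 2) (p d : D) : ZMod 2 :=
  if (∃ n, (stp M x)^[n] p = d) ∨ ∃ n, (stp M x)^[n] p = M.iota d then 1 else 0

theorem lp_iot (p d : D) : lp M x p (M.iota d) = lp M x p d := by
  unfold lp
  rw [M.iota2]
  by_cases h : (∃ n, (stp M x)^[n] p = d) ∨ ∃ n, (stp M x)^[n] p = M.iota d
  · rw [if_pos h, if_pos h.symm]
  · rw [if_neg h, if_neg fun h' => h h'.symm]

theorem lp_le (h : IsC M ∅ x) {p : D} (hp : x p = 1) {d : D} (hd : x d = 0) :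
    lp M x p d = 0 := by
  unfold lp
  rw [if_neg]
  rintro (⟨n, h1⟩ | ⟨n, h1⟩)
  · have := occ_it h hp n
    rw [h1, hd] at this
    exact absurd this (by decide)
  · have := occ_it h hp n
    rw [h1, h.iot, hd] at this
    exact absurd this (by decide)

theorem lp_par [Finite D] (h : IsC M ∅ x) {p : D} (hp : x p = 1) (d : D) :
    lp M x p d + lp M x p (M.rho d) + lp M x p (M.rho (M.rho d)) = 0 := by
  have key : ∀ n, lp M x p ((stp M x)^[n] p) + lp M x p (M.rho ((stp M x)^[n] p)) +
      lp M x p (M.rho (M.rho ((stp M x)^[n] p))) = 0 := by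
    intro n
    set q := (stp M x)^[n] p with hq
    have hx : x q = 1 := occ_it h hp n
    have h1 : lp M x p q = 1 := if_pos (Or.inl ⟨n, rfl⟩)
    have h2 : (stp M x)^[n + 1] p = stp M x q := Function.iterate_succ_apply' _ _ _
    rcases stp_cases h hx (Set.notMem_empty _) with ⟨h3, h4, e⟩ | ⟨h3, h4, e⟩
    · have h5 : lp M x p (M.rho q) = 1 := if_pos (Or.inr ⟨n + 1, by rw [h2, e]⟩)
      rw [h1, h5, lp_le h hp h4]; decide
    · have h5 : lp M x p (M.rho (M.rho q)) = 1 := if_pos (Or.inr ⟨n + 1, by rw [h2, e]⟩)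
      rw [h1, h5, lp_le h hp h3]; decide
  have key2 : ∀ q, lp M x p q ≠ 0 →
      lp M x p q + lp M x p (M.rho q) + lp M x p (M.rho (M.rho q)) = 0 := by
    intro q hq
    have hq' : (∃ n, (stp M x)^[n] p = q) ∨ ∃ n, (stp M x)^[n] p = M.iota q := by
      by_contra hc
      exact hq (if_neg hc)
    rcases hq' with ⟨n, rfl⟩ | ⟨n, h1⟩
    · exact key n
    · -- a positive time
      obtain ⟨m, hm⟩ : ∃ m, (stp M x)^[m + 1] p = M.iota q := by
        cases n with
        | zero =>
          obtain ⟨N, hN, eN⟩ := periodic h hp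
          refine ⟨N - 1, ?_⟩
          rw [show N - 1 + 1 = N by omega, eN]
          exact h1
        | succ n => exact ⟨n, h1⟩
      rw [Function.iterate_succ_apply'] at hm
      have hq2 := key m
      rcases stp_cases h (occ_it h hp m) (Set.notMem_empty _) with ⟨-, -, e⟩ | ⟨-, -, e⟩
      · rw [e] at hm
        have h5 := iota_inj M hm
        rw [← h5, sum_rot]
        exact hq2
      · rw [e] at hm
        have h5 := iota_inj M hm
        rw [← h5, sum_rot, sum_rot]
        exact hq2
  by_cases c1 : lp M x p d = 0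
  · by_cases c2 : lp M x p (M.rho d) = 0
    · by_cases c3 : lp M x p (M.rho (M.rho d)) = 0
      · rw [c1, c2, c3]; decide
      · have := key2 _ c3
        rwa [sum_rot, sum_rot] at this
    · have := key2 _ c2
      rwa [sum_rot] at this
  · exact key2 d c1

/-- **the edges between two clusters are on one loop** -/
theorem same_loop [Finite D] (h : IsC M ∅ x) {p q : D} (hp : x p = 1) (hq : x q = 1)
    (hl : Con M x (M.cell p) (M.cell q)) (hr : Con M x (M.cell (M.rho p)) (M.cell (M.rho q))) :
    ∃ n, (stp M x)^[n] p = q := by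
  obtain ⟨χ, hχ⟩ := M.ex (lp M x p) (fun d hd => lp_le h hp (h.dead d hd)) (lp_iot p)
    (lp_par h hp)
  obtain ⟨ψ, hψ⟩ := M.ex x h.dead h.iot (fun d => by rw [h.par d, if_neg (Set.notMem_empty d)])
  have e1 := con_eq hχ (fun d hd => lp_le h hp hd) hl
  have e2 := con_eq hχ (fun d hd => lp_le h hp hd) hr
  have e3 := con_eq hψ (fun d hd => hd) hl
  have h1 : lp M x p p = 1 := if_pos (Or.inl ⟨0, rfl⟩)
  have h2 : lp M x p q = 1 := by
    rw [hχ q, ← e1, ← e2, ← hχ p, h1]
  have h3 : (∃ n, (stp M x)^[n] p = q) ∨ ∃ n, (stp M x)^[n] p = M.iota q := by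
    by_contra hc
    unfold lp at h2
    rw [if_neg hc] at h2
    exact absurd h2 (by decide)
  rcases h3 with h3 | ⟨n, h3⟩
  · exact h3
  · exfalso
    have hψ0 : ∀ d, x d = 0 → ψ (M.cell d) = ψ (M.cell (M.rho d)) := by
      intro d hd
      rw [hψ d] at hd
      revert hd
      generalize ψ (M.cell d) = a
      generalize ψ (M.cell (M.rho d)) = b
      revert a b; decide
    have h4 := it_col h hp hψ0 n
    rw [h3, M.cell_iota _ (h.lv hq), e3] at h4
    have h5 := hψ q
    rw [hq, h4, z_self] at h5
    exact absurd h5 (by decide)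

/-! ### circuits -/

/-- cyclic sequence of gaps of one loop, whose cells follow each other -/
structure Circ (M : CMap D C) (x : D → ZMod 2) (n : ℕ) (t : ℕ → D) : Prop where
  two : 2 ≤ n
  per : ∀ i, t (i + n) = t i
  gp : ∀ i, Gp M x (t i)
  nx : ∀ i, M.cell (t i) = M.cell (M.rho (t (i + 1)))
  inj : ∀ i j, M.cell (M.rho (t i)) = M.cell (M.rho (t j)) → i % n = j % n
  gen : ∀ i, Gen M (M.cell (M.rho (t i)))
  loop : ∀ i j, ∃ m, (stp M x)^[m] (out M (t i)) = M.rho (t j)

/-- the previous gap is the first return -/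
theorem Circ.first [Finite D] (h : IsC M ∅ x) {n : ℕ} {t : ℕ → D} (T : Circ M x n t) (i : ℕ) :
    Nx M x (t (i + 1)) (t i) := by
  have hn := T.two
  set k := t (i + 1) with hkdef
  have hk : Gp M x k := T.gp _
  set c := M.cell (M.rho k) with hc
  have hcc : M.cell (t i) = c := T.nx i
  have hne : M.cell k ≠ M.cell (M.rho k) := by
    intro e
    have := (T.gen (i + 1)).ne (M.rho k) rfl
    rw [M.rho3] at this
    exact this e
  obtain ⟨g, hg, Hg⟩ := nx_exists h hk hne
  by_cases hgi : g = t i
  · rw [← hgi]; exact Hg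
  exfalso
  have hkg : k ≠ g := by
    rintro rfl
    exact hne Hg.1
  obtain ⟨m, hm, hav⟩ := Hg.2
  -- the arc
  obtain ⟨ψ, hψ⟩ := M.ex x h.dead h.iot (fun d => by rw [h.par d, if_neg (Set.notMem_empty d)])
  have hψ0 : ∀ d, x d = 0 → ψ (M.cell d) = ψ (M.cell (M.rho d)) := by
    intro d hd
    rw [hψ d] at hd
    revert hd
    generalize ψ (M.cell d) = a
    generalize ψ (M.cell (M.rho d)) = b
    revert a b; decide
  have hψ1 : ∀ d, x d = 1 → ψ (M.cell d) ≠ ψ (M.cell (M.rho d)) := by
    intro d hd
    rw [hψ d] at hd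
    revert hd
    generalize ψ (M.cell d) = a
    generalize ψ (M.cell (M.rho d)) = b
    revert a b; decide
  have hxk : x (out M k) = 1 := hk.out h
  have lc : ∀ n, ψ (M.cell ((stp M x)^[n] (out M k))) = ψ c := by
    intro n
    rw [it_col h hxk hψ0 n, cell_out h hk]
    exact hψ0 _ hk.1
  have nb : ∀ j < m, (stp M x)^[j] (out M k) ∉ BB M k g := by
    intro j hj hB
    have xo := occ_it h hxk j
    rcases hB with (hB | hB | hB) | (hB | hB | hB)
    · rw [hB, hk.1] at xo; exact absurd xo (by decide)
    · exact hav j hj.le (by rw [hB])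
    · have h2 := lc j
      rw [hB] at h2
      exact hψ1 _ hk.2 h2.symm
    · rw [hB, hg.1] at xo; exact absurd xo (by decide)
    · refine hav (j + 1) (by omega) ?_
      rw [Function.iterate_succ_apply', hB, hg.stp h, cell_out h hg, Hg.1]
    · have h2 := lc j
      rw [hB] at h2
      have h3 := lc m
      rw [hm] at h3
      exact hψ1 _ hg.2 (h3.trans h2.symm)
  have hTr : M.rho g ∈ Tr M x (BB M k g) (out M k) := ⟨m, hm, nb⟩
  obtain ⟨χ, ν, X1, X2, X3⟩ := chi_arc h hk hg hkg hc.symm Hg.1 (T.gen (i + 1)) hTr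
  -- the cell after `k`
  have a1 : χ (M.cell k) = ν + 1 := by
    have := X2 0 (by
      show M.cell (out M k) ≠ c
      rw [cell_out h hk]; exact hne) tr_start
    change χ (M.cell (out M k)) = ν + 1 at this
    rwa [cell_out h hk] at this
  -- the cell before `t i`
  have ci : M.cell (M.rho (t i)) ≠ c := by
    intro e
    have h1 := T.inj i (i + 1) e
    have h2 : i % n < n := Nat.mod_lt _ (by omega)
    have h3 : (i + 1) % n = (i % n + 1) % n := by rw [Nat.mod_add_mod]
    rw [h3] at h1
    rcases Nat.lt_or_ge (i % n + 1) n with h4 | h4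
    · rw [Nat.mod_eq_of_lt h4] at h1
      omega
    · have h5 : i % n + 1 = n := by omega
      rw [h5, Nat.mod_self] at h1
      omega
  have a2 : χ (M.cell (M.rho (t i))) = ν := by
    obtain ⟨s, hs⟩ := T.loop (i + 1) i
    have := X3 s (by rw [hs]; exact ci) (by
      rw [hs]
      rintro ⟨j, hj, hjB⟩
      have hjm : j ≤ m := by
        by_contra hcon
        push Not at hcon
        apply hjB m hcon
        show (stp M x)^[m] (out M k) ∈ BB M k g
        rw [hm]; exact memh1 M k g
      rcases hjm.lt_or_eq with hl | rfl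
      · refine hav (j + 1) (by omega) ?_
        rw [Function.iterate_succ_apply', hj, (T.gp i).stp h, cell_out h (T.gp i), hcc]
      · rw [hm] at hj
        exact hgi (rho_inj M hj))
    rwa [hs] at this
  -- the way around
  have a3 : ∀ s, 2 + s ≤ n → χ (M.cell (M.rho (t (i + (2 + s))))) = ν + 1 := by
    intro s
    induction s with
    | zero =>
      intro _
      rw [← a1]
      have := T.nx (i + 1)
      rw [← hkdef] at this
      rw [this]
    | succ s ih =>
      intro hs
      rw [← ih (by omega)]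
      have e1 := T.nx (i + (2 + s))
      have mods : ∀ r, 2 ≤ r → r ≤ n → M.cell (M.rho (t (i + r))) ≠ c := by
        intro r hr1 hr2 e
        have h1 := T.inj (i + r) (i + 1) e
        have h2 : (n : ℤ) ∣ ((i + r : ℕ) : ℤ) - ((i + 1 : ℕ) : ℤ) := by
          have := (Nat.modEq_iff_dvd).1 (show (i + 1) ≡ (i + r) [MOD n] from h1.symm)
          exact this
        have h3 : (n : ℤ) ≤ (r : ℤ) - 1 := by
          apply Int.le_of_dvd
          · omega
          · have : ((i + r : ℕ) : ℤ) - ((i + 1 : ℕ) : ℤ) = (r : ℤ) - 1 := by push_cast; ring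
            rwa [this] at h2
        omega
      have e2 := X1 (t (i + (2 + s))) (T.gp _).1
        (by
          rw [e1, show i + (2 + s) + 1 = i + (2 + (s + 1)) by ring]
          exact mods (2 + (s + 1)) (by omega) hs)
        (mods (2 + s) (by omega) (by omega))
      rw [e1, show i + (2 + s) + 1 = i + (2 + (s + 1)) by ring] at e2
      exact e2
  have a4 := a3 (n - 2) (by omega)
  rw [show i + (2 + (n - 2)) = i + n by omega, T.per, a2] at a4
  revert a4
  generalize ν = b
  revert b; decide

/-- **a circuit of one loop is one block** -/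
theorem Circ.block [Fintype D] (h : IsC M ∅ x) {n : ℕ} {t : ℕ → D} (T : Circ M x n t) :
    blk M x (t 0) = (Finset.range n).image t := by
  have hn := T.two
  have tne : ∀ i, t (i + 1) ≠ t i := by
    intro i e
    have h1 := T.inj (i + 1) i (by rw [e])
    have h2 : i % n < n := Nat.mod_lt _ (by omega)
    have h3 : (i + 1) % n = (i % n + 1) % n := by rw [Nat.mod_add_mod]
    rw [h3] at h1
    rcases Nat.lt_or_ge (i % n + 1) n with h4 | h4
    · rw [Nat.mod_eq_of_lt h4] at h1
      omega
    · have h5 : i % n + 1 = n := by omega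
      rw [h5, Nat.mod_self] at h1
      omega
  have r1 : ∀ i, Rel M x (t (i + 1)) (t i) := fun i =>
    nx_rel h (T.gp _) (T.gp _) (tne i) (T.gen _) (T.first h i)
  have r0 : ∀ i, Rel M x (t 0) (t i) := by
    intro i
    induction i with
    | zero => exact rel_refl _
    | succ i ih => exact rel_trans h (T.gp _) (T.gp _) (T.gp _) ih (rel_symm (r1 i))
  have tmod : ∀ i, t (i % n) = t i := by
    intro i
    induction i using Nat.strong_induction_on with
    | _ i ih =>
      rcases Nat.lt_or_ge i n with h1 | h1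
      · rw [Nat.mod_eq_of_lt h1]
      · rw [Nat.mod_eq_sub_mod h1, ih (i - n) (by omega)]
        conv_rhs => rw [show i = (i - n) + n by omega, T.per]
  ext g
  constructor
  · intro hg
    obtain ⟨hgg, hgr⟩ := mem_blk.1 hg
    rw [Finset.mem_image]
    by_cases hg0 : g = t 0
    · exact ⟨0, Finset.mem_range.2 (by omega), hg0.symm⟩
    -- hitting times
    have hit : ∀ j, ∃ m, (stp M x)^[m] (out M g) = M.rho (t j) := by
      have base : ∃ m, (stp M x)^[m] (out M g) = M.rho (t 0) := by
        rcases hgr (M.cell g) with h1 | ⟨m, h1, -⟩ | ⟨m, h1, -⟩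
        · exact absurd h1.symm hg0
        · exact come_back h (T.gp 0) hgg h1
        · exact ⟨m, h1⟩
      intro j
      obtain ⟨m, hm⟩ := base
      obtain ⟨m', hm'⟩ := T.loop 0 j
      refine ⟨m' + (m + 1), ?_⟩
      rw [Function.iterate_add_apply, Function.iterate_succ_apply', hm, (T.gp 0).stp h, hm']
    obtain ⟨j, hj, hmin⟩ := Finset.exists_min_image (Finset.range n) (fun j => Nat.find (hit j))
      ⟨0, Finset.mem_range.2 (by omega)⟩
    have hjn := Finset.mem_range.1 hj
    set i := j + (n - 1) with hi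
    have hi1 : t (i + 1) = t j := by
      rw [show i + 1 = j + n by omega, T.per]
    have hcell : M.cell (t i) = M.cell (M.rho (t j)) := by rw [T.nx i, hi1]
    have hle : Nat.find (hit j) ≤ Nat.find (hit i) := by
      have h1 := hmin (i % n) (Finset.mem_range.2 (Nat.mod_lt _ (by omega)))
      simp only [tmod] at h1
      exact h1
    have hrel : Rel M x g (t i) := rel_trans h hgg (T.gp 0) (T.gp i) (rel_symm hgr) (r0 i)
    refine ⟨i % n, Finset.mem_range.2 (Nat.mod_lt _ (by omega)), ?_⟩
    rw [tmod]
    rcases hrel (M.cell (M.rho (t j))) with h1 | ⟨m, h1, h2⟩ | ⟨m, h1, h2⟩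
    · exact h1.symm
    · exfalso
      have h3 : Nat.find (hit i) ≤ m := Nat.find_min' (hit i) h1
      apply h2 (Nat.find (hit j)) (hle.trans h3)
      rw [Nat.find_spec (hit j)]
    · exfalso
      refine h2 0 (Nat.zero_le _) ?_
      show M.cell (out M (t i)) = _
      rw [cell_out h (T.gp i), hcell]
  · intro hg
    obtain ⟨i, -, rfl⟩ := Finset.mem_image.1 hg
    exact mem_blk.2 ⟨T.gp i, r0 i⟩

end Crest.Agent.R143.Frame11x395
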