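import Crest.Agent.R143.Coarse_166
import Crest.Agent.R143.Frame11_395

/-!
# Row 143 (S0194): nonplanarity of `K₃₃` for closed maps (helper137)

* `Lk`, `Cn` : cells joined inside a set of cells, connected sets of cells
* `Tri M α β γ d` : the three cells of the face of `d` are in `α`, `β`, `γ`
* `k33` : for three disjoint connected sets there is at most one dart `d` with `Tri M α β γ d`
* `ab` : two trichromatic faces joined by a run of `α|β` edges: every `α|β` edge is on this run
-/

set_option autoImplicit false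

noncomputable section

open scoped Classical

namespace Crest.Agent.R143.K33x137

open Crest.Agent.R143.Frame1x395 Crest.Agent.R143.Frame2x395 Crest.Agent.R143.Frame3x395
  Crest.Agent.R143.Frame8x395 Crest.Agent.R143.Frame11x395 Crest.Agent.R143.NonXx592
  Crest.Agent.R143.Coarsex166

variable {D C : Type} {M : CMap D C} {x : D → ZMod 2}

/-! ### the period of a loop -/

theorem period [Finite D] (hx : IsC M ∅ x) {p : D} (hp : x p = 1) :
    ∃ N, 0 < N ∧ P M x p N = p ∧ ∀ a b, a < b → b < N → P M x p a ≠ P M x p b := by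
  have hex : ∃ N, 0 < N ∧ P M x p N = p := periodic hx hp
  refine ⟨Nat.find hex, (Nat.find_spec hex).1, (Nat.find_spec hex).2, ?_⟩
  intro a b hab hb e
  have h1 : P M x p (b - a) = p := by
    have h2 : (stp M x)^[a] (P M x p (b - a)) = (stp M x)^[a] p := by
      show _ = P M x p a
      rw [e]
      show P M x (P M x p (b - a)) a = _
      rw [← P_add]
      congr 1
      omega
    exact it_inj hx (occ_it hx hp _) hp a h2
  exact absurd (Nat.find_min' hex ⟨by omega, h1⟩) (by omega)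

theorem P_mod {p : D} {N : ℕ} (hN : P M x p N = p) (n : ℕ) : P M x p (n % N) = P M x p n := by
  induction n using Nat.strong_induction_on with
  | _ n ih =>
    rcases Nat.lt_or_ge n N with h | h
    · rw [Nat.mod_eq_of_lt h]
    · rcases Nat.eq_zero_or_pos N with h0 | h0
      · subst h0
        rw [Nat.mod_zero]
      · rw [Nat.mod_eq_sub_mod h, ih (n - N) (by omega)]
        conv_rhs => rw [show n = (n - N) + N by omega, P_per hN]

/-- a state of the loop is reached before the period -/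
theorem reach_lt {p q : D} {N : ℕ} (h0 : 0 < N) (hN : P M x p N = p) {n : ℕ}
    (h : P M x p n = q) : ∃ m, m < N ∧ P M x p m = q :=
  ⟨n % N, Nat.mod_lt _ h0, by rw [P_mod hN, h]⟩

/-! ### the boundary of a cell -/

/-- the boundary of the cell `a` -/
def bd (M : CMap D C) (a : C) : D → ZMod 2 := cfg M fun c => if c = a then 1 else 0

theorem bd_isC [Finite D] (M : CMap D C) (a : C) : IsC M ∅ (bd M a) := by
  have := Fintype.ofFinite D
  exact cfg_isC _

theorem bd_left {a : C} {d : D} (h1 : M.cell d = a) (h2 : M.cell (M.rho d) ≠ a) :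
    bd M a d = 1 := by
  show (if M.cell d = a then (1 : ZMod 2) else 0) + (if M.cell (M.rho d) = a then 1 else 0) = 1
  rw [if_pos h1, if_neg h2]; decide

theorem bd_right {a : C} {d : D} (h1 : M.cell d ≠ a) (h2 : M.cell (M.rho d) = a) :
    bd M a d = 1 := by
  show (if M.cell d = a then (1 : ZMod 2) else 0) + (if M.cell (M.rho d) = a then 1 else 0) = 1
  rw [if_neg h1, if_pos h2]; decide

theorem bd_zero {a : C} {d : D} (h1 : M.cell d ≠ a) (h2 : M.cell (M.rho d) ≠ a) :
    bd M a d = 0 := by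
  show (if M.cell d = a then (1 : ZMod 2) else 0) + (if M.cell (M.rho d) = a then 1 else 0) = 0
  rw [if_neg h1, if_neg h2]; decide

theorem live_of_ne {d : D} (h : M.cell d ≠ M.cell (M.rho d)) : d ∈ M.live := by
  by_contra hd
  exact h (M.dead d hd)

/-! ### `K₃₃` for single cells -/

/-- states around `a` at a face `(a, b, c)` -/
theorem face_step {a b c : C} (hab : a ≠ b) (hac : a ≠ c) {d : D} (h1 : M.cell d = a)
    (h2 : M.cell (M.rho d) = b) (h3 : M.cell (M.rho (M.rho d)) = c) :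
    bd M a (M.rho (M.rho d)) = 1 ∧ stp M (bd M a) (M.rho (M.rho d)) = M.iota d ∧
      M.cell (M.iota d) = b := by
  have hl : d ∈ M.live := live_of_ne (by rw [h1, h2]; exact hab)
  have e3 : M.rho (M.rho (M.rho d)) = d := M.rho3 d
  refine ⟨bd_right (by rw [h3]; exact hac.symm) (by rw [e3, h1]), ?_, ?_⟩
  · unfold stp
    rw [e3, if_pos (bd_left h1 (by rw [h2]; exact hab.symm))]
  · rw [M.cell_iota d hl, h2]

theorem k33_cell [Finite D] {a b c : C} (hab : a ≠ b) (hac : a ≠ c) (hbc : b ≠ c) {d d' : D}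
    (h1 : M.cell d = a) (h2 : M.cell (M.rho d) = b) (h3 : M.cell (M.rho (M.rho d)) = c)
    (h1' : M.cell d' = a) (h2' : M.cell (M.rho d') = b) (h3' : M.cell (M.rho (M.rho d')) = c) :
    d = d' := by
  by_contra hne
  set x := bd M a with hx
  have hC : IsC M ∅ x := bd_isC M a
  set p := M.rho (M.rho d) with hp
  set q := M.rho (M.rho d') with hq
  obtain ⟨p1, p2, p3⟩ := face_step hab hac h1 h2 h3
  obtain ⟨q1, q2, q3⟩ := face_step hab hac h1' h2' h3'
  have hrp : M.rho p = d := M.rho3 d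
  have hrq : M.rho q = d' := M.rho3 d'
  obtain ⟨n, hn⟩ := same_loop hC p1 q1
    (by rw [h3, h3']; exact Relation.EqvGen.refl _)
    (by rw [hrp, hrq, h1, h1']; exact Relation.EqvGen.refl _)
  obtain ⟨N, hN0, hN, hinj⟩ := period hC p1
  obtain ⟨m, hm, hmq⟩ := reach_lt hN0 hN hn
  have hpq : p ≠ q := by
    intro e
    apply hne
    rw [← hrp, ← hrq, e]
  have hm0 : m ≠ 0 := by
    rintro rfl
    exact hpq hmq
  have P1 : P M x p 1 = M.iota d := p2
  have hm1 : m ≠ 1 := by
    rintro rfl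
    have e := congrArg M.cell (P1.symm.trans hmq)
    rw [p3, h3'] at e
    exact hbc e
  have Pm1 : P M x p (m + 1) = M.iota d' := by
    rw [P_succ, hmq]; exact q2
  have hmN : m + 1 < N := by
    rcases Nat.lt_or_ge (m + 1) N with h | h
    · exact h
    · exfalso
      have e : m + 1 = N := by omega
      rw [e, hN] at Pm1
      have e' := congrArg M.cell Pm1
      rw [h3, q3] at e'
      exact hbc e'.symm
  have := noncross hC p1 (k := 1) (j := m) (l := m + 1) (by omega) (by omega) (by omega)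
    (fun u v huv hv => hinj u v huv (by omega))
    (by rw [hmq, h3, h3']) (by rw [P1, Pm1, p3, q3])
  rw [P1, p3, h3] at this
  exact hbc this

/-! ### connected sets of cells -/

/-- adjacent cells -/
def Ed (M : CMap D C) (c c' : C) : Prop := ∃ d, M.cell d = c ∧ M.cell (M.rho d) = c'

theorem Ed.symm {c c' : C} (h : Ed M c c') : Ed M c' c := by
  obtain ⟨d, rfl, rfl⟩ := h
  by_cases hd : d ∈ M.live
  · exact ⟨M.iota d, M.cell_iota d hd, cell_rho_iota M hd⟩
  · exact ⟨d, M.dead d hd, (M.dead d hd).symm⟩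

/-- joined inside the set `A` -/
def Lk (M : CMap D C) (A : Set C) : C → C → Prop :=
  Relation.EqvGen fun u v => u ∈ A ∧ v ∈ A ∧ Ed M u v

/-- connected set of cells -/
def Cn (M : CMap D C) (A : Set C) : Prop := ∀ c ∈ A, ∀ c' ∈ A, Lk M A c c'

theorem Lk.mono {A A' : Set C} (hA : A ⊆ A') {c c' : C} (h : Lk M A c c') : Lk M A' c c' := by
  induction h with
  | rel u v h => exact Relation.EqvGen.rel _ _ ⟨hA h.1, hA h.2.1, h.2.2⟩
  | refl u => exact Relation.EqvGen.refl _
  | symm u v _ ih => exact ih.symm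
  | trans u v w _ _ ih1 ih2 => exact ih1.trans _ _ _ ih2

theorem Lk.edge {A : Set C} {c c' : C} (h1 : c ∈ A) (h2 : c' ∈ A) (h : Ed M c c') :
    Lk M A c c' := Relation.EqvGen.rel _ _ ⟨h1, h2, h⟩

theorem Lk.trans' {A : Set C} {c c' c'' : C} (h : Lk M A c c') (h' : Lk M A c' c'') :
    Lk M A c c'' := Relation.EqvGen.trans _ _ _ h h'

/-- union of two connected sets with a common cell or an edge between them -/
theorem Cn.union {A B : Set C} (hA : Cn M A) (hB : Cn M B) {a b : C} (ha : a ∈ A) (hb : b ∈ B)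
    (hab : a = b ∨ Ed M a b) : Cn M (A ∪ B) := by
  have h0 : Lk M (A ∪ B) a b := by
    rcases hab with rfl | h
    · exact Relation.EqvGen.refl _
    · exact Lk.edge (Or.inl ha) (Or.inr hb) h
  have key : ∀ c ∈ A ∪ B, Lk M (A ∪ B) a c := by
    rintro c (hc | hc)
    · exact (hA a ha c hc).mono Set.subset_union_left
    · exact h0.trans' ((hB b hb c hc).mono Set.subset_union_right)
  intro c hc c' hc'
  exact Relation.EqvGen.trans _ _ _ (Relation.EqvGen.symm _ _ (key c hc)) (key c' hc')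

/-! ### merging connected sets -/

/-- merging the sets `A i` -/
def mg {I : Type} (A : I → Set C) (c : C) : I ⊕ C :=
  if h : ∃ i, c ∈ A i then Sum.inl h.choose else Sum.inr c

variable {I : Type} {A : I → Set C}

theorem mg_in (hd : ∀ i j c, c ∈ A i → c ∈ A j → i = j) {i : I} {c : C} (hc : c ∈ A i) :
    mg A c = Sum.inl i := by
  have h : ∃ i, c ∈ A i := ⟨i, hc⟩
  unfold mg
  rw [dif_pos h, hd _ _ c h.choose_spec hc]

theorem mg_inl {i : I} {c : C} (h : mg A c = Sum.inl i) : c ∈ A i := by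
  unfold mg at h
  by_cases hc : ∃ i, c ∈ A i
  · rw [dif_pos hc] at h
    have := Sum.inl.inj h
    rw [← this]
    exact hc.choose_spec
  · rw [dif_neg hc] at h
    exact absurd h (by simp)

theorem mg_inr {c c' : C} (h : mg A c = Sum.inr c') : c = c' := by
  unfold mg at h
  by_cases hc : ∃ i, c ∈ A i
  · rw [dif_pos hc] at h
    exact absurd h (by simp)
  · rw [dif_neg hc] at h
    exact Sum.inr.inj h

theorem mg_cls (hd : ∀ i j c, c ∈ A i → c ∈ A j → i = j) (hcn : ∀ i, Cn M (A i)) :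
    ClsCon M (mg A) := by
  have key : ∀ i c c', Lk M (A i) c c' → Relation.EqvGen (Adj M (mg A)) c c' := by
    intro i c c' h
    induction h with
    | rel u v h =>
      obtain ⟨hu, hv, d, rfl, rfl⟩ := h
      by_cases e : M.cell d = M.cell (M.rho d)
      · rw [← e]; exact Relation.EqvGen.refl _
      · refine Relation.EqvGen.rel _ _ ⟨?_, d, live_of_ne e, rfl, rfl⟩
        rw [mg_in hd hu, mg_in hd hv]
    | refl u => exact Relation.EqvGen.refl _
    | symm u v _ ih => exact ih.symm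
    | trans u v w _ _ ih1 ih2 => exact ih1.trans _ _ _ ih2
  intro a b hab
  rcases h : mg A (M.cell a) with i | c
  · rw [h] at hab
    exact key i _ _ (hcn i _ (mg_inl h) _ (mg_inl hab.symm))
  · rw [h] at hab
    rw [mg_inr h, mg_inr hab.symm]
    exact Relation.EqvGen.refl _

/-- the three cells of the face of `d` are in `α`, `β`, `γ` -/
def Tri (M : CMap D C) (α β γ : Set C) (d : D) : Prop :=
  M.cell d ∈ α ∧ M.cell (M.rho d) ∈ β ∧ M.cell (M.rho (M.rho d)) ∈ γ

theorem Tri.rot {α β γ : Set C} {d : D} (h : Tri M α β γ d) : Tri M β γ α (M.rho d) := by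
  refine ⟨h.2.1, h.2.2, ?_⟩
  rw [M.rho3]; exact h.1

theorem Tri.mono {α β γ α' β' γ' : Set C} {d : D} (h : Tri M α β γ d) (h1 : α ⊆ α')
    (h2 : β ⊆ β') (h3 : γ ⊆ γ') : Tri M α' β' γ' d := ⟨h1 h.1, h2 h.2.1, h3 h.2.2⟩

/-- three disjoint connected sets -/
structure T3 (M : CMap D C) (α β γ : Set C) : Prop where
  ca : Cn M α
  cb : Cn M β
  cc : Cn M γ
  ab : Disjoint α β
  ac : Disjoint α γ
  bc : Disjoint β γ

/-- the three sets as a family -/
def fam (α β γ : Set C) : Fin 3 → Set C := ![α, β, γ]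

theorem T3.disj {α β γ : Set C} (h : T3 M α β γ) :
    ∀ i j c, c ∈ fam α β γ i → c ∈ fam α β γ j → i = j := by
  have hab := Set.disjoint_left.1 h.ab
  have hac := Set.disjoint_left.1 h.ac
  have hbc := Set.disjoint_left.1 h.bc
  intro i j c hi hj
  fin_cases i <;> fin_cases j <;> simp only [fam] at hi hj <;>
    first
    | rfl
    | exact absurd hj (hab hi)
    | exact absurd hj (hac hi)
    | exact absurd hj (hbc hi)
    | exact absurd hi (hab hj)
    | exact absurd hi (hac hj)
    | exact absurd hi (hbc hj)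

theorem T3.cn {α β γ : Set C} (h : T3 M α β γ) : ∀ i, Cn M (fam α β γ i) := by
  intro i
  fin_cases i
  · exact h.ca
  · exact h.cb
  · exact h.cc

/-- **`K₃₃` is not planar** -/
theorem k33 [Finite D] {α β γ : Set C} (h : T3 M α β γ) {d d' : D} (hd : Tri M α β γ d)
    (hd' : Tri M α β γ d') : d = d' := by
  have e0 : ∀ {c}, c ∈ α → mg (fam α β γ) c = Sum.inl 0 := fun hc => mg_in h.disj (i := 0) hc
  have e1 : ∀ {c}, c ∈ β → mg (fam α β γ) c = Sum.inl 1 := fun hc => mg_in h.disj (i := 1) hc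
  have e2 : ∀ {c}, c ∈ γ → mg (fam α β γ) c = Sum.inl 2 := fun hc => mg_in h.disj (i := 2) hc
  exact k33_cell (M := coarse M (mg (fam α β γ)) (mg_cls h.disj h.cn)) (a := Sum.inl 0)
    (b := Sum.inl 1) (c := Sum.inl 2) (by simp) (by simp) (by simp) (e0 hd.1) (e1 hd.2.1)
    (e2 hd.2.2) (e0 hd'.1) (e1 hd'.2.1) (e2 hd'.2.2)

/-! ### runs of `α|β` edges -/

/-- a run: `r (n + 1)` is the next `α|β` edge -/
def Run (M : CMap D C) (α β : Set C) (T : ℕ) (r : ℕ → D) : Prop :=
  ∀ n < T, (M.cell (M.rho (M.rho (r n))) ∈ α ∧ r (n + 1) = M.iota (M.rho (r n))) ∨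
    (M.cell (M.rho (M.rho (r n))) ∈ β ∧ r (n + 1) = M.iota (M.rho (M.rho (r n))))

theorem Run.sides {α β : Set C} {T : ℕ} {r : ℕ → D} (hr : Run M α β T r) (hab : Disjoint α β)
    (h0 : M.cell (r 0) ∈ α) (h0' : M.cell (M.rho (r 0)) ∈ β) :
    ∀ n ≤ T, M.cell (r n) ∈ α ∧ M.cell (M.rho (r n)) ∈ β := by
  have hd := Set.disjoint_left.1 hab
  intro n
  induction n with
  | zero => exact fun _ => ⟨h0, h0'⟩
  | succ n ih =>
    intro hn
    obtain ⟨i1, i2⟩ := ih (by omega)
    rcases hr n (by omega) with ⟨h1, h2⟩ | ⟨h1, h2⟩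
    · have hl : M.rho (r n) ∈ M.live := live_of_ne fun e => hd h1 (e ▸ i2)
      rw [h2, M.cell_iota _ hl, cell_rho_iota M hl]
      exact ⟨h1, i2⟩
    · have e3 : M.rho (M.rho (M.rho (r n))) = r n := M.rho3 _
      have hl : M.rho (M.rho (r n)) ∈ M.live := live_of_ne fun e => by
        rw [e3] at e
        exact hd i1 (e ▸ h1)
      rw [h2, M.cell_iota _ hl, cell_rho_iota M hl, e3]
      exact ⟨i1, h1⟩

theorem ab_cell [Finite D] {a b c : C} (hab : a ≠ b) (hac : a ≠ c) (hbc : b ≠ c) {r : ℕ → D}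
    {T : ℕ} (hr : ∀ n < T, (M.cell (M.rho (M.rho (r n))) = a ∧ r (n + 1) = M.iota (M.rho (r n))) ∨
      (M.cell (M.rho (M.rho (r n))) = b ∧ r (n + 1) = M.iota (M.rho (M.rho (r n)))))
    (hs : ∀ n ≤ T, M.cell (r n) = a ∧ M.cell (M.rho (r n)) = b)
    (h0 : M.cell (M.rho (M.rho (M.iota (r 0)))) = c)
    (hT : M.cell (M.rho (M.rho (r T))) = c) {e : D} (he : M.cell e = a)
    (he' : M.cell (M.rho e) = b) : ∃ n ≤ T, r n = e := by
  set x := bd M a with hx
  have hC : IsC M ∅ x := bd_isC M a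
  have live : ∀ n ≤ T, r n ∈ M.live := fun n hn =>
    live_of_ne (by rw [(hs n hn).1, (hs n hn).2]; exact hab)
  have xr : ∀ n ≤ T, x (r n) = 1 := fun n hn =>
    bd_left (hs n hn).1 (by rw [(hs n hn).2]; exact hab.symm)
  have hst : ∀ n < T, stp M x (r n) = r (n + 1) := by
    intro n hn
    obtain ⟨i1, i2⟩ := hs n hn.le
    rcases hr n hn with ⟨h1, h2⟩ | ⟨h1, h2⟩
    · rw [h2]
      unfold stp
      rw [if_pos (bd_right (by rw [i2]; exact hab.symm) h1)]
    · rw [h2]
      unfold stp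
      rw [if_neg]
      rw [hx, bd_zero (by rw [i2]; exact hab.symm) (by rw [h1]; exact hab.symm)]
      decide
  have hrev : ∀ n < T, stp M x (M.iota (r (n + 1))) = M.iota (r n) := by
    intro n hn
    rw [← hst n hn]
    exact stp_rev hC (xr n hn.le) (Set.notMem_empty _)
  set p := M.rho (M.rho (r T)) with hp
  obtain ⟨p1, p2, p3⟩ := face_step hab hac (hs T le_rfl).1 (hs T le_rfl).2 hT
  have Pk : ∀ k ≤ T, P M x p (k + 1) = M.iota (r (T - k)) := by
    intro k
    induction k with
    | zero => intro _; exact p2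
    | succ k ih =>
      intro hk
      rw [P_succ, ih (by omega)]
      have := hrev (T - (k + 1)) (by omega)
      rwa [show T - (k + 1) + 1 = T - k by omega] at this
  have cellk : ∀ k ≤ T, M.cell (P M x p (k + 1)) = b := by
    intro k hk
    rw [Pk k hk, M.cell_iota _ (live _ (by omega))]
    exact (hs _ (by omega)).2
  have PT2 : M.cell (P M x p (T + 2)) = c := by
    rw [show T + 2 = (T + 1) + 1 by ring, P_succ, Pk T le_rfl, Nat.sub_self]
    have hl := live 0 (Nat.zero_le _)
    have c1 : M.cell (M.rho (M.iota (r 0))) = a := by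
      rw [cell_rho_iota M hl]; exact (hs 0 (Nat.zero_le _)).1
    have x1 : x (M.rho (M.iota (r 0))) = 1 := bd_left c1 (by rw [h0]; exact hac.symm)
    unfold stp
    rw [if_pos x1, M.cell_iota _ (hC.lv x1)]
    exact h0
  have hle : e ∈ M.live := live_of_ne (by rw [he, he']; exact hab)
  have x2 : x (M.iota e) = 1 := by
    rw [hC.iot]
    exact bd_left he (by rw [he']; exact hab.symm)
  have P1 : P M x p 1 = M.iota (r T) := Pk 0 (Nat.zero_le _)
  have x3 : x (P M x p 1) = 1 := P_occ hC p1 1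
  obtain ⟨n, hn⟩ := same_loop hC x3 x2
    (by
      rw [cellk 0 (Nat.zero_le _), M.cell_iota _ hle, he']
      exact Relation.EqvGen.refl _)
    (by
      rw [P1, cell_rho_iota M (live _ le_rfl), cell_rho_iota M hle, he, (hs T le_rfl).1]
      exact Relation.EqvGen.refl _)
  obtain ⟨N, hN0, hN, hinj⟩ := period hC p1
  have hn' : P M x p (n + 1) = M.iota e := by
    rw [P_add]
    exact hn
  obtain ⟨m, hm, hmq⟩ := reach_lt hN0 hN hn'
  have cm : M.cell (P M x p m) = b := by
    rw [hmq, M.cell_iota _ hle, he']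
  have hm0 : m ≠ 0 := by
    rintro rfl
    rw [show P M x p 0 = p from rfl, hT] at cm
    exact hbc cm.symm
  rcases Nat.lt_or_ge (T + 2) m with h1 | h1
  · exfalso
    have := noncross hC p1 (k := 1) (j := T + 2) (l := m) (by omega) (by omega) h1
      (fun u v huv hv => hinj u v huv (by omega)) (by rw [PT2, hT])
      (by rw [cellk 0 (Nat.zero_le _), cm])
    rw [cellk 0 (Nat.zero_le _), hT] at this
    exact hbc this
  · have h2 : m ≠ T + 2 := by
      rintro rfl
      rw [PT2] at cm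
      exact hbc cm.symm
    refine ⟨T - (m - 1), by omega, ?_⟩
    have h3 := Pk (m - 1) (by omega)
    rw [show m - 1 + 1 = m by omega, hmq] at h3
    exact (iota_inj M h3).symm

/-- **every `α|β` edge is on the run between the two trichromatic faces** -/
theorem ab [Finite D] {α β γ : Set C} (h : T3 M α β γ) {r : ℕ → D} {T : ℕ}
    (hr : Run M α β T r) (h1 : M.cell (r 0) ∈ α) (h2 : M.cell (M.rho (r 0)) ∈ β)
    (h0 : M.cell (M.rho (M.rho (M.iota (r 0)))) ∈ γ)
    (hT : M.cell (M.rho (M.rho (r T))) ∈ γ) {e : D} (he : M.cell e ∈ α)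
    (he' : M.cell (M.rho e) ∈ β) : ∃ n ≤ T, r n = e := by
  have e0 : ∀ {c}, c ∈ α → mg (fam α β γ) c = Sum.inl 0 := fun hc => mg_in h.disj (i := 0) hc
  have e1 : ∀ {c}, c ∈ β → mg (fam α β γ) c = Sum.inl 1 := fun hc => mg_in h.disj (i := 1) hc
  have e2 : ∀ {c}, c ∈ γ → mg (fam α β γ) c = Sum.inl 2 := fun hc => mg_in h.disj (i := 2) hc
  have hs := hr.sides h.ab h1 h2
  refine ab_cell (M := coarse M (mg (fam α β γ)) (mg_cls h.disj h.cn)) (a := Sum.inl 0)
    (b := Sum.inl 1) (c := Sum.inl 2) (by simp) (by simp) (by simp) (r := r) (T := T) ?_ ?_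
    (e2 h0) (e2 hT) (e0 he) (e1 he')
  · intro n hn
    rcases hr n hn with ⟨h3, h4⟩ | ⟨h3, h4⟩
    · exact Or.inl ⟨e0 h3, h4⟩
    · exact Or.inr ⟨e1 h3, h4⟩
  · intro n hn
    exact ⟨e0 (hs n hn).1, e1 (hs n hn).2⟩

end Crest.Agent.R143.K33x137
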