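import Crest.Agent.R143.Gnt_535
import Crest.Agent.R143.K33_137

/-!
# Row 143 (S0194), RIG: the out strand is unique (helper323)

`M : CMap D C` closed map, `χ` colouring of the cells, `x = cfg M χ`.  Four fixed disjoint sets of
cells: `Z.R` (the region of the strand) and three connected zones `Z.E`, `Z.W`, `Z.T`.

* `Strd M Z b χ p n` : the states `P 0 = p, .., P n` have both cells in `Z.R`, the left cells have
  the colour `b`; the face before `p` has its third cell in `Z.E`, the face after `P n` in `Z.W`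
  (their colours are free); some right cell is joined to `Z.T` by cells of `Z.K ⊆ Z.R` of the colour `b + 1`
* **`uniq`** : there is at most one such pair `(p, n)` (nonplanarity of `K₃₃`, no geometry)
* `Strd.third` : the third cells before the time `n` are in `Z.R`: `n` is the first time at which
  the third cell is not in `Z.R`
* `Ab`, **`Strd.stable`** : the event is decided by the cells of the strand and by the cells of `Z.K`
  which are joined to `Z.T` off the strand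
-/

set_option autoImplicit false

noncomputable section

open scoped Classical

namespace Crest.Agent.R143.Uniqx323

open Crest.Agent.R143.Frame1x395 Crest.Agent.R143.Frame2x395 Crest.Agent.R143.Frame3x395
  Crest.Agent.R143.Frame8x395 Crest.Agent.R143.NonXx592
  Crest.Agent.R143.Coarsex166 Crest.Agent.R143.Runx535 Crest.Agent.R143.Gntx535
  Crest.Agent.R143.K33x137

variable {D C : Type} {M : CMap D C}

/-! ### cells joined to a zone -/

/-- the zone `E` with the cells of `A` which are joined to `E` inside `A ∪ E` -/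
def jn (M : CMap D C) (A E : Set C) : Set C :=
  E ∪ {c | c ∈ A ∧ ∃ e ∈ E, Lk M (A ∪ E) c e}

theorem jn_sub {A E : Set C} : jn M A E ⊆ E ∪ A := by
  rintro c (h | h)
  · exact Or.inl h
  · exact Or.inr h.1

theorem jn_lk {A E : Set C} {c c' : C} (h : Lk M (A ∪ E) c c') :
    (c ∈ jn M A E ↔ c' ∈ jn M A E) ∧ (c ∈ jn M A E → Lk M (jn M A E) c c') := by
  have step : ∀ u v, u ∈ A ∪ E → v ∈ A ∪ E → Ed M u v → u ∈ jn M A E → v ∈ jn M A E := by
    intro u v hu hv huv h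
    by_cases hE : v ∈ E
    · exact Or.inl hE
    · have hA : v ∈ A := by
        rcases hv with hv | hv
        · exact hv
        · exact absurd hv hE
      refine Or.inr ⟨hA, ?_⟩
      rcases h with h | ⟨-, e, he, hl⟩
      · exact ⟨u, h, Lk.edge (Or.inl hA) (Or.inr h) huv.symm⟩
      · have hE : Lk M (A ∪ E) v u := Lk.edge hv hu huv.symm
        exact ⟨e, he, hE.trans' hl⟩
  induction h with
  | rel u v h =>
    refine ⟨⟨step u v h.1 h.2.1 h.2.2, step v u h.2.1 h.1 h.2.2.symm⟩, fun hu => ?_⟩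
    exact Lk.edge hu (step u v h.1 h.2.1 h.2.2 hu) h.2.2
  | refl u => exact ⟨Iff.rfl, fun _ => Relation.EqvGen.refl _⟩
  | symm u v _ ih => exact ⟨ih.1.symm, fun hv => (ih.2 (ih.1.2 hv)).symm⟩
  | trans u v w _ _ ih1 ih2 =>
    exact ⟨ih1.1.trans ih2.1, fun hu => (ih1.2 hu).trans' (ih2.2 (ih1.1.1 hu))⟩

theorem jn_con {A E : Set C} (hE : Cn M E) : Cn M (jn M A E) := by
  have key : ∀ c ∈ jn M A E, ∃ e ∈ E, Lk M (jn M A E) c e := by
    intro c hc
    rcases hc with h | ⟨hA, e, he, hl⟩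
    · exact ⟨c, h, Relation.EqvGen.refl _⟩
    · exact ⟨e, he, (jn_lk hl).2 (Or.inr ⟨hA, e, he, hl⟩)⟩
  intro c hc c' hc'
  obtain ⟨e, he, hl⟩ := key c hc
  obtain ⟨e', he', hl'⟩ := key c' hc'
  exact (hl.trans' ((hE e he e' he').mono Set.subset_union_left)).trans'
    (Relation.EqvGen.symm _ _ hl')

theorem zne (b : ZMod 2) : b ≠ b + 1 := by
  revert b; decide

/-! ### the zones -/

/-- the fixed region `R` of the strand, the part `K ⊆ R` in which the column runs (the window of an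
inner gate) and three disjoint connected zones -/
structure Zn (M : CMap D C) where
  R : Set C
  K : Set C
  E : Set C
  W : Set C
  T : Set C
  KR : K ⊆ R
  cE : Cn M E
  cW : Cn M W
  cT : Cn M T
  RE : Disjoint R E
  RW : Disjoint R W
  RT : Disjoint R T
  EW : Disjoint E W
  ET : Disjoint E T
  WT : Disjoint W T

/-- **the out strand** -/
structure Strd (M : CMap D C) (Z : Zn M) (b : ZMod 2) (χ : C → ZMod 2) (p : D) (n : ℕ) : Prop where
  bl : χ (M.cell p) = b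
  occ : cfg M χ p = 1
  ent : M.cell (M.rho (M.rho (M.iota p))) ∈ Z.E
  inl : ∀ j ≤ n, M.cell (P M (cfg M χ) p j) ∈ Z.R
  inr : ∀ j ≤ n, Rc M (P M (cfg M χ) p j) ∈ Z.R
  ext : M.cell (M.rho (M.rho (P M (cfg M χ) p n))) ∈ Z.W
  col : ∃ j ≤ n, ∃ t ∈ Z.T, Lk M ({c | c ∈ Z.K ∧ χ c = b + 1} ∪ Z.T) (Rc M (P M (cfg M χ) p j)) t

variable {Z : Zn M} {b : ZMod 2} {χ χ' : C → ZMod 2} {p p' : D} {n n' : ℕ}

section fin

variable [Fintype D]

theorem Strd.lcol (h : Strd M Z b χ p n) {c : C} (hc : c ∈ wl M (cfg M χ) p n) : χ c = b :=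
  (wl_col h.occ hc).trans h.bl

theorem Strd.rcol (h : Strd M Z b χ p n) {c : C} (hc : c ∈ wr M (cfg M χ) p n) :
    χ c = b + 1 := by
  rw [wr_col h.occ hc, h.bl]

omit [Fintype D] in
theorem Strd.lR (h : Strd M Z b χ p n) {c : C} (hc : c ∈ wl M (cfg M χ) p n) : c ∈ Z.R := by
  obtain ⟨j, hj, rfl⟩ := mem_wl.1 hc
  exact h.inl j hj

omit [Fintype D] in
theorem Strd.rR (h : Strd M Z b χ p n) {c : C} (hc : c ∈ wr M (cfg M χ) p n) : c ∈ Z.R := by
  obtain ⟨j, hj, rfl⟩ := mem_wr.1 hc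
  exact h.inr j hj

omit [Fintype D] in
theorem adjS_lk {S : Finset C} {A : Set C} (hS : ∀ c ∈ S, c ∈ A) {c c' : C}
    (h : Relation.EqvGen (AdjS M S) c c') : Lk M A c c' := by
  induction h with
  | rel u v h =>
    obtain ⟨h1, h2, d, -, h3, h4⟩ := h
    exact Lk.edge (hS _ h1) (hS _ h2) ⟨d, h3, h4⟩
  | refl u => exact Relation.EqvGen.refl _
  | symm u v _ ih => exact ih.symm
  | trans u v w _ _ ih1 ih2 => exact ih1.trans' ih2

/-- the left cell of the exit state is joined to the entrance zone -/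
theorem Strd.left (h : Strd M Z b χ p n) {j : ℕ} (hj : j ≤ n) :
    M.cell (P M (cfg M χ) p j) ∈ jn M {c | c ∈ Z.R ∧ χ c = b} Z.E := by
  have hA : ∀ c ∈ wl M (cfg M χ) p n, c ∈ {c | c ∈ Z.R ∧ χ c = b} :=
    fun c hc => ⟨h.lR hc, h.lcol hc⟩
  have h0 : M.cell p ∈ wl M (cfg M χ) p n := mem_wl.2 ⟨0, Nat.zero_le _, rfl⟩
  have hjm : M.cell (P M (cfg M χ) p j) ∈ wl M (cfg M χ) p n := mem_wl.2 ⟨j, hj, rfl⟩
  have hl := (cfg_isC χ : IsC M ∅ (cfg M χ)).lv h.occ
  refine Or.inr ⟨hA _ hjm, _, h.ent, ?_⟩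
  have h1 : Lk M ({c | c ∈ Z.R ∧ χ c = b} ∪ Z.E) (M.cell (P M (cfg M χ) p j)) (M.cell p) :=
    adjS_lk (fun c hc => Or.inl (hA c hc)) (wl_con (cfg_isC χ) h.occ hjm h0)
  refine h1.trans' (Lk.edge (Or.inl (hA _ h0)) (Or.inr h.ent) ⟨M.rho (M.iota p), ?_, rfl⟩)
  exact cell_rho_iota M hl

/-- the right cells are joined to the top zone -/
theorem Strd.right (h : Strd M Z b χ p n) {j : ℕ} (hj : j ≤ n) :
    Rc M (P M (cfg M χ) p j) ∈ jn M {c | c ∈ Z.R ∧ χ c = b + 1} Z.T := by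
  have hA : ∀ c ∈ wr M (cfg M χ) p n, c ∈ {c | c ∈ Z.R ∧ χ c = b + 1} :=
    fun c hc => ⟨h.rR hc, h.rcol hc⟩
  obtain ⟨i, hi, t, ht, hl⟩ := h.col
  have him : Rc M (P M (cfg M χ) p i) ∈ wr M (cfg M χ) p n := mem_wr.2 ⟨i, hi, rfl⟩
  have hjm : Rc M (P M (cfg M χ) p j) ∈ wr M (cfg M χ) p n := mem_wr.2 ⟨j, hj, rfl⟩
  refine Or.inr ⟨hA _ hjm, t, ht, ?_⟩
  have h1 : Lk M ({c | c ∈ Z.R ∧ χ c = b + 1} ∪ Z.T) (Rc M (P M (cfg M χ) p j))
      (Rc M (P M (cfg M χ) p i)) :=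
    adjS_lk (fun c hc => Or.inl (hA c hc)) (wr_con (cfg_isC χ) h.occ hjm him)
  refine h1.trans' (hl.mono ?_)
  rintro c (hc | hc)
  · exact Or.inl ⟨Z.KR hc.1, hc.2⟩
  · exact Or.inr hc

omit [Fintype D] in
theorem t3 (Z : Zn M) (b : ZMod 2) (χ : C → ZMod 2) :
    T3 M (jn M {c | c ∈ Z.R ∧ χ c = b} Z.E) (jn M {c | c ∈ Z.R ∧ χ c = b + 1} Z.T) Z.W where
  ca := jn_con Z.cE
  cb := jn_con Z.cT
  cc := Z.cW
  ab := by
    rw [Set.disjoint_left]
    intro c h1 h2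
    rcases jn_sub h1 with h1 | ⟨h1, h1'⟩ <;> rcases jn_sub h2 with h2 | ⟨h2, h2'⟩
    · exact Set.disjoint_left.1 Z.ET h1 h2
    · exact Set.disjoint_left.1 Z.RE h2 h1
    · exact Set.disjoint_left.1 Z.RT h1 h2
    · exact zne b (h1'.symm.trans h2')
  ac := by
    rw [Set.disjoint_left]
    intro c h1 h2
    rcases jn_sub h1 with h1 | ⟨h1, -⟩
    · exact Set.disjoint_left.1 Z.EW h1 h2
    · exact Set.disjoint_left.1 Z.RW h1 h2
  bc := by
    rw [Set.disjoint_left]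
    intro c h1 h2
    rcases jn_sub h1 with h1 | ⟨h1, -⟩
    · exact Set.disjoint_left.1 Z.WT h2 h1
    · exact Set.disjoint_left.1 Z.RW h1 h2

theorem Strd.tri (h : Strd M Z b χ p n) :
    Tri M (jn M {c | c ∈ Z.R ∧ χ c = b} Z.E) (jn M {c | c ∈ Z.R ∧ χ c = b + 1} Z.T) Z.W
      (P M (cfg M χ) p n) := ⟨h.left le_rfl, h.right le_rfl, h.ext⟩

/-- a state whose successor starts a strand has a cell off the region -/
theorem not_succ {q : D} (hq : cfg M χ q = 1) (h1 : M.cell q ∈ Z.R) (h2 : Rc M q ∈ Z.R)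
    (h3 : M.cell (M.rho (M.rho (M.iota (stp M (cfg M χ) q)))) ∈ Z.E) : False := by
  rcases stp_cases (cfg_isC χ : IsC M ∅ (cfg M χ)) hq (Set.notMem_empty _) with
    ⟨-, -, e⟩ | ⟨-, -, e⟩
  · rw [e, M.iota2, M.rho3] at h3
    exact Set.disjoint_left.1 Z.RE h1 h3
  · rw [e, M.iota2, M.rho3] at h3
    exact Set.disjoint_left.1 Z.RE h2 h3

theorem uniq_aux (h : Strd M Z b χ p n) (h' : Strd M Z b χ p' n') (hn : n ≤ n') :
    p = p' ∧ n = n' := by
  have hC : IsC M ∅ (cfg M χ) := cfg_isC χ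
  have h1 : P M (cfg M χ) p n = P M (cfg M χ) p' n' := k33 (t3 Z b χ) h.tri h'.tri
  have h2 : p = P M (cfg M χ) p' (n' - n) := by
    refine it_inj hC h.occ (P_occ hC h'.occ _) n ?_
    show P M (cfg M χ) p n = P M (cfg M χ) (P M (cfg M χ) p' (n' - n)) n
    rw [h1, ← P_add]
    congr 1
    omega
  rcases Nat.eq_zero_or_pos (n' - n) with h0 | h0
  · rw [h0] at h2
    exact ⟨h2, by omega⟩
  · exfalso
    obtain ⟨m, hm⟩ : ∃ m, n' - n = m + 1 := ⟨n' - n - 1, by omega⟩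
    have h3 := h.ent
    rw [h2, hm, P_succ] at h3
    exact not_succ (P_occ hC h'.occ m) (h'.inl m (by omega)) (h'.inr m (by omega)) h3

/-- **the out strand is unique** -/
theorem uniq (h : Strd M Z b χ p n) (h' : Strd M Z b χ p' n') : p = p' ∧ n = n' := by
  rcases le_total n n' with hn | hn
  · exact uniq_aux h h' hn
  · obtain ⟨e1, e2⟩ := uniq_aux h' h hn
    exact ⟨e1.symm, e2.symm⟩

/-- the third cells before the last state are in the region -/
theorem Strd.third (h : Strd M Z b χ p n) {j : ℕ} (hj : j < n) :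
    M.cell (M.rho (M.rho (P M (cfg M χ) p j))) ∈ Z.R := by
  have h1 := third_mem (cfg_isC χ : IsC M ∅ (cfg M χ)) h.occ j
  rw [Finset.mem_union] at h1
  rcases h1 with h1 | h1
  · obtain ⟨i, hi, e⟩ := mem_wl.1 h1
    rw [← e]; exact h.inl i (by omega)
  · obtain ⟨i, hi, e⟩ := mem_wr.1 h1
    rw [← e]; exact h.inr i (by omega)

/-! ### the event is decided by the cells seen from the top -/

/-- the cells of `K` joined to `T` off the set `S` -/
def Ab (M : CMap D C) (Z : Zn M) (S : Set C) : Set C :=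
  {c | c ∈ Z.K ∧ c ∉ S ∧ ∃ t ∈ Z.T, Lk M ({c | c ∈ Z.K ∧ c ∉ S} ∪ Z.T) c t}

/-- the cells of the strand -/
def Sc (M : CMap D C) (χ : C → ZMod 2) (p : D) (n : ℕ) : Finset C :=
  wl M (cfg M χ) p n ∪ wr M (cfg M χ) p n

/-- **the event is decided by the strand and by the cells seen from the top** -/
theorem Strd.stable (h : Strd M Z b χ p n) {O : Set C} (hO : ∀ c ∈ Sc M χ p n, c ∈ O)
    (hA : Ab M Z (Sc M χ p n : Set C) ⊆ O) (ha : ∀ c ∈ O, χ' c = χ c) :
    Strd M Z b χ' p n ∧ ∀ j ≤ n, P M (cfg M χ') p j = P M (cfg M χ) p j := by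
  obtain ⟨h1, h2⟩ := walk_agree (χ' := χ') h.occ fun c hc => ha c (hO c hc)
  refine ⟨⟨?_, h1, h.ent, ?_, ?_, ?_, ?_⟩, h2⟩
  · rw [ha (M.cell p) (hO _ (Finset.mem_union.2 (Or.inl (mem_wl.2 ⟨0, Nat.zero_le _, rfl⟩))))]
    exact h.bl
  · intro j hj
    rw [h2 j hj]; exact h.inl j hj
  · intro j hj
    rw [h2 j hj]; exact h.inr j hj
  · rw [h2 n le_rfl]; exact h.ext
  · by_contra hcon
    push Not at hcon
    obtain ⟨j, hj, t, ht, hl⟩ := h.col
    set S : Set C := (Sc M χ p n : Set C) with hS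
    set A' : Set C := {c | c ∈ Z.K ∧ χ' c = b + 1} ∪ Z.T with hA'
    -- the cells joined to the top off the strand
    have hG : ∀ c, (c ∈ Z.T ∨ (c ∈ Ab M Z S ∧ χ c = b + 1 ∧ ∃ t ∈ Z.T, Lk M A' c t)) →
        c ∈ A' ∧ ∃ t ∈ Z.T, Lk M A' c t := by
      rintro c (hc | ⟨hc, hc', hc''⟩)
      · exact ⟨Or.inr hc, c, hc, Relation.EqvGen.refl _⟩
      · exact ⟨Or.inl ⟨hc.1, by rw [ha c (hA hc)]; exact hc'⟩, hc''⟩
    have step : ∀ u v, v ∈ ({c | c ∈ Z.K ∧ χ c = b + 1} ∪ Z.T : Set C) → Ed M u v →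
        (u ∈ Z.T ∨ (u ∈ Ab M Z S ∧ χ u = b + 1 ∧ ∃ t ∈ Z.T, Lk M A' u t)) →
        (v ∈ Z.T ∨ (v ∈ Ab M Z S ∧ χ v = b + 1 ∧ ∃ t ∈ Z.T, Lk M A' v t)) := by
      intro u v hv huv hu
      obtain ⟨g1, s, hs, g2⟩ := hG u hu
      rcases hv with ⟨hvR, hvc⟩ | hv
      · by_cases hvS : v ∈ S
        · exfalso
          have hvS' : v ∈ wl M (cfg M χ) p n ∪ wr M (cfg M χ) p n := hvS
          rcases Finset.mem_union.1 hvS' with g | g
          · exact zne b ((h.lcol g).symm.trans hvc)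
          · obtain ⟨i, hi, e⟩ := mem_wr.1 g
            have hv' : v ∈ A' := Or.inl ⟨hvR, by rw [ha v (hO v hvS')]; exact hvc⟩
            have hE : Lk M A' v u := Lk.edge hv' g1 huv.symm
            refine hcon i hi s hs ?_
            rw [h2 i hi, e]
            exact hE.trans' g2
        · right
          have hvB : v ∈ ({c | c ∈ Z.K ∧ c ∉ S} ∪ Z.T : Set C) := Or.inl ⟨hvR, hvS⟩
          have hAb : v ∈ Ab M Z S := by
            refine ⟨hvR, hvS, ?_⟩
            rcases hu with hu | ⟨hu, -, -⟩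
            · have hE : Lk M ({c | c ∈ Z.K ∧ c ∉ S} ∪ Z.T) v u := Lk.edge hvB (Or.inr hu) huv.symm
              exact ⟨u, hu, hE⟩
            · obtain ⟨u1, u2, t', ht', u3⟩ := hu
              have huB : u ∈ ({c | c ∈ Z.K ∧ c ∉ S} ∪ Z.T : Set C) := Or.inl ⟨u1, u2⟩
              have hE : Lk M ({c | c ∈ Z.K ∧ c ∉ S} ∪ Z.T) v u := Lk.edge hvB huB huv.symm
              exact ⟨t', ht', hE.trans' u3⟩
          have hv' : v ∈ A' := Or.inl ⟨hvR, by rw [ha v (hA hAb)]; exact hvc⟩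
          have hE : Lk M A' v u := Lk.edge hv' g1 huv.symm
          exact ⟨hAb, hvc, s, hs, hE.trans' g2⟩
      · exact Or.inl hv
    have key : ∀ u v, Lk M ({c | c ∈ Z.K ∧ χ c = b + 1} ∪ Z.T) u v →
        ((u ∈ Z.T ∨ (u ∈ Ab M Z S ∧ χ u = b + 1 ∧ ∃ t ∈ Z.T, Lk M A' u t)) ↔
        (v ∈ Z.T ∨ (v ∈ Ab M Z S ∧ χ v = b + 1 ∧ ∃ t ∈ Z.T, Lk M A' v t))) := by
      intro u v huv
      induction huv with
      | rel u v huv => exact ⟨step u v huv.2.1 huv.2.2, step v u huv.1 huv.2.2.symm⟩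
      | refl u => exact Iff.rfl
      | symm u v _ ih => exact ih.symm
      | trans u v w _ _ ih1 ih2 => exact ih1.trans ih2
    have hj' : Rc M (P M (cfg M χ) p j) ∈ S := by
      show _ ∈ wl M (cfg M χ) p n ∪ wr M (cfg M χ) p n
      exact Finset.mem_union.2 (Or.inr (mem_wr.2 ⟨j, hj, rfl⟩))
    rcases (key _ _ hl).2 (Or.inl ht) with g | ⟨g, -, -⟩
    · exact Set.disjoint_left.1 Z.RT (h.inr j hj) g
    · exact g.2.1 hj'

end fin

end Crest.Agent.R143.Uniqx323
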