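import Crest.Agent.R143.SysS_358
import Crest.Agent.R143.Uniq_323

/-!
# Row 143 (S0194), RIG, CorrI box (e1): the system of ALL out strands (helper168)

The family of arcs is indexed by `D × ℕ` (first state `q`, length `n`).  Event of `(q, n)`:
323's `Strd M Z 1 σ q n` (zones `Z`) and 358's `Good M H R Q q n σ`.

* `EvA` : the event;  `ext_of_lk` : a cell joined to the top zone `Z.T` by cells of
  `(Z.K ∖ strand) ∪ Z.T` is in the exterior;  `ab_sub` : `Ab ⊆ oc1` (the cells seen from the top are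
  revealed)
* `EvA.dec` : the event is decided by the revealed colours
* **`sysA`** : `Sys M H R Q (fun i _ => i.1) (fun i _ => i.2) (EvA ..)`, hence `Sys.main`, `Sys.stop`,
  `Sys.fam`, ... of `OutS_358`; `evA_uniq` : at most one pair
-/

set_option autoImplicit false
set_option linter.unusedSectionVars false

noncomputable section

open scoped Classical

namespace Crest.Agent.R143.SysAx168

open Crest.Agent.R143.Frame1x395 Crest.Agent.R143.Frame2x395 Crest.Agent.R143.Frame3x395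
  Crest.Agent.R143.Frame4x395 Crest.Agent.R143.Frame8x395 Crest.Agent.R143.Frame9x395
  Crest.Agent.R143.NonXx592 Crest.Agent.R143.CFramex358 Crest.Agent.R143.Gntx535
  Crest.Agent.R143.R5bx166 Crest.Agent.R143.R5qx166 Crest.Agent.R143.Extx358
  Crest.Agent.R143.OutSx358 Crest.Agent.R143.SysSx358 Crest.Agent.R143.K33x137
  Crest.Agent.R143.Uniqx323

variable {D C : Type} [Fintype D] [Fintype C] {M : CMap D C} {H R : Set C} {Q : Set D}
  {Z : Zn M} {σ τ : C → ZMod 2} {q : D} {n : ℕ}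

/-- an edge of the map joins equal cells (dead dart) or adjacent cells (live dart) -/
theorem ed_ad {u v : C} (h : Ed M u v) : u = v ∨ Ad M u v := by
  obtain ⟨d, h1, h2⟩ := h
  by_cases hd : d ∈ M.live
  · exact Or.inr ⟨d, hd, h1, h2⟩
  · exact Or.inl (by rw [← h1, ← h2]; exact M.dead d hd)

/-- the blocking set of a strand is in `Z.R ∪ R` -/
theorem zc_sub (h : Strd M Z 1 σ q n) : zc M R q n σ ⊆ Z.R ∪ R := by
  rintro c ((hc | hc) | ⟨hc, -⟩)
  · exact Or.inl (h.lR (Finset.mem_coe.1 hc))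
  · exact Or.inl (h.rR (Finset.mem_coe.1 hc))
  · exact Or.inr hc

/-- the top zone is in the exterior -/
theorem ext_top (hT : ∀ t ∈ Z.T, Ext M H (Z.R ∪ R) t) (h : Strd M Z 1 σ q n) {t : C}
    (ht : t ∈ Z.T) : Ext M H (zc M R q n σ) t :=
  (hT t ht).mono fun _ hc hc' => hc.off (zc_sub h hc')

/-- the cells joined to the top zone off the strand are in the exterior -/
theorem ext_of_lk (hK : ∀ c ∈ Z.K, c ∉ R) (hT : ∀ t ∈ Z.T, Ext M H (Z.R ∪ R) t)
    (h : Strd M Z 1 σ q n) {u v : C}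
    (huv : Lk M ({c | c ∈ Z.K ∧ c ∉ (Sc M σ q n : Set C)} ∪ Z.T) u v) :
    Ext M H (zc M R q n σ) u ↔ Ext M H (zc M R q n σ) v := by
  have step : ∀ u v, v ∈ ({c | c ∈ Z.K ∧ c ∉ (Sc M σ q n : Set C)} ∪ Z.T : Set C) → Ed M u v →
      Ext M H (zc M R q n σ) u → Ext M H (zc M R q n σ) v := by
    intro u v hv huv hu
    rcases ed_ad huv with rfl | had
    · exact hu
    · rcases hv with ⟨h1, h2⟩ | hv
      · refine Ext.step hu had ?_
        rintro ((hc | hc) | ⟨hc, -⟩)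
        · exact h2 (Finset.mem_coe.2 (Finset.mem_union.2 (Or.inl (Finset.mem_coe.1 hc))))
        · exact h2 (Finset.mem_coe.2 (Finset.mem_union.2 (Or.inr (Finset.mem_coe.1 hc))))
        · exact hK v h1 hc
      · exact ext_top hT h hv
  induction huv with
  | rel u v huv => exact ⟨step u v huv.2.1 huv.2.2, step v u huv.1 huv.2.2.symm⟩
  | refl u => exact Iff.rfl
  | symm u v _ ih => exact ih.symm
  | trans u v w _ _ ih1 ih2 => exact ih1.trans ih2

/-- **the cells seen from the top are revealed** -/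
theorem ab_sub (hK : ∀ c ∈ Z.K, c ∉ R) (hT : ∀ t ∈ Z.T, Ext M H (Z.R ∪ R) t)
    (h : Strd M Z 1 σ q n) : Ab M Z (Sc M σ q n : Set C) ⊆ (oc1 M H R q n σ : Set C) := by
  rintro _ ⟨-, -, t, ht, hl⟩
  have h1 := (ext_of_lk hK hT h hl).2 (ext_top hT h ht)
  rw [coe_oc1]
  exact Or.inr (ext_mem h1)

/-- the event of the pair `(q, n)` -/
def EvA (M : CMap D C) (H R : Set C) (Q : Set D) (Z : Zn M) (i : D × ℕ) (σ : C → ZMod 2) : Prop :=
  Strd M Z 1 σ i.1 i.2 ∧ Good M H R Q i.1 i.2 σ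

/-- **the event is decided by the revealed colours** -/
theorem EvA.dec (hR : ∀ c ∈ H, c ∉ R) (hK : ∀ c ∈ Z.K, c ∉ R)
    (hT : ∀ t ∈ Z.T, Ext M H (Z.R ∪ R) t) {i : D × ℕ} (h : EvA M H R Q Z i σ)
    (ha : ∀ c ∈ oc1 M H R i.1 i.2 σ, τ c = σ c) : EvA M H R Q Z i τ :=
  ⟨(h.1.stable (O := (oc1 M H R i.1 i.2 σ : Set C))
      (fun _ hc => Finset.mem_coe.2 (ac_sub1 (H := H) (R := R) hc)) (ab_sub hK hT h.1)
      (fun c hc => ha c (Finset.mem_coe.1 hc))).1,
    h.2.dec hR ha⟩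

/-- at most one pair -/
theorem evA_uniq {i j : D × ℕ} (h : EvA M H R Q Z i σ) (h' : EvA M H R Q Z j σ) : i = j := by
  obtain ⟨e1, e2⟩ := Uniqx323.uniq h.1 h'.1
  exact Prod.ext e1 e2

/-- **the system of all out strands** -/
theorem sysA (hR : ∀ c ∈ H, c ∉ R) (hK : ∀ c ∈ Z.K, c ∉ R)
    (hT : ∀ t ∈ Z.T, Ext M H (Z.R ∪ R) t) :
    Sys M H R Q (fun (i : D × ℕ) _ => i.1) (fun i _ => i.2) (EvA M H R Q Z) where
  hR := hR
  st _ _ _ _ _ := ⟨rfl, rfl⟩
  ev _ _ _ h ha := h.dec hR hK hT ha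
  uni _ _ _ h h' := Uniqx323.uniq h.1 h'.1
  occ _ _ h := h.2.occ
  col _ _ h := h.2.col
  lt _ _ h := h.2.lt
  ink _ _ h := h.2.ink
  con _ _ h := h.2.con
  sep _ _ h := h.2.sep
  lnk _ _ h := h.2.lnk

end Crest.Agent.R143.SysAx168
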