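import Crest.Agent.R143.BigU_749
import Crest.Agent.R143.ZnL_903

/-!
# Row 143 (S0194), block RIG, field `small`: the far states with the zones of 903 (helper749)

* `zE_sub`, `zW_sub` : 903's zones are inside the fattened end tiles
* `far_fix` : `BigUx749.far_corH` on a fixed environment `S` (`sX X = S`, any `hS : GP S`)
* **`far_eva`** : the far conjunct of 304's `small_ex` for 168's event `EvA`
* `far_zn` : with 903's `zn`
-/

set_option autoImplicit false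
set_option linter.unusedSectionVars false

noncomputable section

open scoped Classical

namespace Crest.Agent.R143.BigWx749

open Crest.Agent.R143.B0x346 Crest.Agent.R143.DelGx806 Crest.Agent.R143.DelRx806
open Crest.Agent.R143.Frame1x395 Crest.Agent.R143.Frame2x395 Crest.Agent.R143.Frame3x395
  Crest.Agent.R143.Frame4x395 Crest.Agent.R143.Frame8x395 Crest.Agent.R143.Frame9x395
  Crest.Agent.R143.Frame10x395 Crest.Agent.R143.Frame11x395
open Crest.Agent.R143.FinCx811 (Cs rc0)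
open Crest.Agent.R143.WLocx713 (sX)
open Crest.Agent.R143.Uniqx323 Crest.Agent.R143.TileRx228
open Crest.Agent.R143.CorHx713 (CorH)
open Crest.Agent.R143.ZnLx903 Crest.Agent.R143.SysAx168 Crest.Agent.R143.BigUx749

variable {X : Set (ℂ × Bool)} {U : Set ℂ} {M : ℕ} {W : ℤ → ℤ × ℤ} {η d : ℝ} {o : ℤ} {N : ℕ}

theorem FB_sub (H : CorH X U M W η d o N) (a : ℤ) :
    FB η d W a ⊆ RR (10 * η) (52 * η) (100 * η) W a := by
  have h1 := H.e0
  have h2 := H.de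
  exact RR_mono (by linarith) (by linarith) _ _ _

theorem zE_sub (H : CorH X U M W η d o N) :
    zE H ⊆ ClR H.gp (RR (10 * η) (52 * η) (100 * η) W (o + N - 1)) :=
  comp_sub.trans (clR_mono (hS := H.gp) fun _ hq => FB_sub H _ hq.1)

theorem zW_sub (H : CorH X U M W η d o N) :
    zW H ⊆ ClR H.gp (RR (10 * η) (52 * η) (100 * η) W o) :=
  comp_sub.trans (clR_mono (hS := H.gp) fun _ hq => FB_sub H _ hq.1)

/-- the far states on a fixed environment -/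
theorem far_fix {S : Finset ℂ} {hS : GP (S : Set ℂ)} (H : CorH X U M W η d o N) (e : sX X = S)
    (h3 : 3 ≤ N) {σ : Cs hS → ZMod 2} {Z : Zn (rc0 hS)} {b : ZMod 2} {q : D0 S} {n : ℕ}
    (h : Strd (rc0 hS) Z b σ q n)
    (hE : Z.E ⊆ ClR hS (RR (10 * η) (52 * η) (100 * η) W (o + N - 1)))
    (hW : Z.W ⊆ ClR hS (RR (10 * η) (52 * η) (100 * η) W o)) {k : ℝ} (hk : k ≤ 18 * η) :
    ∃ u v, u ≤ n ∧ v ≤ n ∧
      (k ≤ |(((stp (rc0 hS) (cfg (rc0 hS) σ))^[u] q).1.1 -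
          ((stp (rc0 hS) (cfg (rc0 hS) σ))^[v] q).1.1).re| ∨
        k ≤ |(((stp (rc0 hS) (cfg (rc0 hS) σ))^[u] q).1.1 -
          ((stp (rc0 hS) (cfg (rc0 hS) σ))^[v] q).1.1).im|) := by
  subst e
  exact far_corH H h3 h hE hW hk

/-- **the far conjunct for 168's event** -/
theorem far_eva {S : Finset ℂ} {hS : GP (S : Set ℂ)} (H : CorH X U M W η d o N) (e : sX X = S)
    (h3 : 3 ≤ N) {σ : Cs hS → ZMod 2} {Z : Zn (rc0 hS)} {Hh R : Set (Cs hS)} {Q : Set (D0 S)}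
    {i : D0 S × ℕ} (h : EvA (rc0 hS) Hh R Q Z i σ)
    (hE : Z.E ⊆ ClR hS (RR (10 * η) (52 * η) (100 * η) W (o + N - 1)))
    (hW : Z.W ⊆ ClR hS (RR (10 * η) (52 * η) (100 * η) W o)) {k : ℝ} (hk : k ≤ 18 * η) :
    ∃ u v, u ≤ i.2 ∧ v ≤ i.2 ∧
      (k ≤ |(((stp (rc0 hS) (cfg (rc0 hS) σ))^[u] i.1).1.1 -
          ((stp (rc0 hS) (cfg (rc0 hS) σ))^[v] i.1).1.1).re| ∨
        k ≤ |(((stp (rc0 hS) (cfg (rc0 hS) σ))^[u] i.1).1.1 -
          ((stp (rc0 hS) (cfg (rc0 hS) σ))^[v] i.1).1.1).im|) :=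
  far_fix H e h3 h.1 hE hW hk

/-- **the far conjunct with 903's zones** -/
theorem far_zn (H : CorH X U M W η d o N) (hn : 3 ≤ N) {r : ℕ} {J : Set ℤ} (h0 : 0 < r)
    (h1 : r + 1 < N) (hJ : o ∈ J) (hJ' : o + N - 1 ∈ J) {c0 : Cs H.gp} {σ : Cs H.gp → ZMod 2}
    {Hh R : Set (Cs H.gp)} {Q : Set (D0 (sX X))} {i : D0 (sX X) × ℕ}
    (h : EvA (rc0 H.gp) Hh R Q (zn H hn h0 h1 hJ hJ' c0) i σ) {k : ℝ} (hk : k ≤ 18 * η) :
    ∃ u v, u ≤ i.2 ∧ v ≤ i.2 ∧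
      (k ≤ |(((stp (rc0 H.gp) (cfg (rc0 H.gp) σ))^[u] i.1).1.1 -
          ((stp (rc0 H.gp) (cfg (rc0 H.gp) σ))^[v] i.1).1.1).re| ∨
        k ≤ |(((stp (rc0 H.gp) (cfg (rc0 H.gp) σ))^[u] i.1).1.1 -
          ((stp (rc0 H.gp) (cfg (rc0 H.gp) σ))^[v] i.1).1.1).im|) :=
  far_eva H rfl hn h (zE_sub H) (zW_sub H) hk

end Crest.Agent.R143.BigWx749
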