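import Crest.Agent.R143.ClsC_697
import Crest.Agent.R143.DomE_722
import Crest.Agent.R143.Ad2_422

/-!
# Row 143 (S0194), block D: classes and sides for admissible domains (helper697)

`ClsC_697` with the output of D2 (722) for every admissible domain `D.Ad δ`.
-/

set_option autoImplicit false

noncomputable section

open scoped Classical

namespace Crest.Agent.R143.ClsAx697

open Set
open Crest.Agent.R143.B0x346 Crest.Agent.R143.B0Dx346 Crest.Agent.R143.Cfgx416
open Crest.Agent.R143.Sidesx697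

variable {D : Dom} {δ d : ℝ} {S : Finset ℂ}

/-- sites whose cell meets the region `i` are on the side `i` -/
theorem clsA (hD : D.Ad δ) (hS : DomAx722.Dns S D.c D.L d) (hd : 40000 * D.L ^ 5 * d ≤ δ ^ 6) :
    T6Dx697.Cls D S := by
  obtain ⟨n, C, hn, hC, rfl⟩ := hD
  exact ClsCx697.cls_of_out hn (DomEx722.out_S hn hC hS hd)

/-- `ClsQ` of `LowE_991` -/
theorem clsQ (D : Dom) (δ d : ℝ) (S : Finset ℂ) (hD : D.OK δ) (hS : DomAx722.Dns S D.c D.L d)
    (hd : 40000 * D.L ^ 5 * d ≤ δ ^ 6) : T6Dx697.Cls D S := clsA hD.ad hS hd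

/-- the sides are disjoint -/
theorem side_unique (hD : D.Ad δ) (hS : DomAx722.Dns S D.c D.L d)
    (hd : 40000 * D.L ^ 5 * d ≤ δ ^ 6) (v : ℂ) (i j : ZMod 3) (h : Side (D.netS S) i v)
    (h' : Side (D.netS S) j v) : i = j := by
  obtain ⟨n, C, hn, hC, rfl⟩ := hD
  exact ClsCx697.side_unique hn (DomEx722.out_S hn hC hS hd) v i j h h'

/-- a killed edge is on a side -/
theorem kill_side (hD : D.Ad δ) (hS : DomAx722.Dns S D.c D.L d)
    (hd : 40000 * D.L ^ 5 * d ≤ δ ^ 6) (a b c : ℂ) (ht : (a, b, c) ∈ (D.netS S).T)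
    (hk : (a, b) ∈ (D.netS S).kl) : ∃ i, Side (D.netS S) i a := by
  obtain ⟨n, C, hn, hC, rfl⟩ := hD
  exact ClsCx697.kill_side hn (DomEx722.out_S hn hC hS hd) a b c ht hk

/-- **the description of the boundary** (T1, T2) -/
theorem sides2 (hD : D.Ad δ) (hS : DomAx722.Dns S D.c D.L d)
    (hd : 40000 * D.L ^ 5 * d ≤ δ ^ 6) : Tiling2x395.Sides2 (D.netS S)
    (Tiling2x395.innS S (D.netS S)) (Tiling2x395.arcS (D.netS S)) := by
  obtain ⟨n, C, hn, hC, rfl⟩ := hD
  exact ClsCx697.sides2 hn (DomEx722.out_S hn hC hS hd)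

end Crest.Agent.R143.ClsAx697
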