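import Crest.Agent.R143.WKnet_377
import Crest.Agent.R143.Mab3_377
import Crest.Agent.R143.AsmO_758
import Crest.Agent.R143.ClsA_697

/-!
# Row 143, STEP 4: leaf BND (bounded totals of the explored networks)

* `Y_diff` : `Y S N (fun t => z t.2.1 - z t.1) x = (1 - om) / 3 * Y S N (rr z) x`
* `hkl_dom` : the killed edges of a domain network are attached to the sides
* `bnd_we`, `bnd_wd` : `BND we Adm`, `BND wd Adm`
-/

set_option autoImplicit false

noncomputable section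

open scoped Classical

namespace Crest.Agent.R143.Mabx377

open Complex Set Filter Topology MeasureTheory
open Crest.ProbabilityR.Voronoi
open Crest.Agent.R143.B0x346 Crest.Agent.R143.B0Dx346 Crest.Agent.R143.JCardx872
  Crest.Agent.R143.JWalkx872
  Crest.Agent.R143.J1x872 Crest.Agent.R143.J4x872 Crest.Agent.R143.Oscx63
open Crest.Agent.R143.Sidesx697 (Wall Side)
open Crest.Agent.R143.Bsumx848 (rr TT rot3 sum_rot3)
open Crest.Agent.R143.B6Ix903 (net)
open Crest.Agent.R143.Locx922 Crest.Agent.R143.PP1x831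
open Crest.Agent.R143.DicCx831 (rad_small rad_pos ev_unit)
open Crest.Agent.R143.DicDx831 (hnet_ev good_ev)
open Crest.Agent.R143.AsmNx758 (Bad BND we wd)

/-! ### weights -/

theorem q_rot3 (N : Net ℂ) (L : Pt ℂ) (t : ℂ × ℂ × ℂ) : Qx N L (rot3 t) = om * Qx N L t := by
  obtain ⟨a, b, c⟩ := t
  unfold Qx rot3
  split_ifs with h
  · rw [mul_zero]
  · exact q_rot (N := knet N L) a b c

/-- the weight `z b - z a` -/
theorem Y_diff {S : Finset ℂ} {N : Net ℂ} (h : HNet S N) (z : ℂ → ℂ) (x : St ℂ) :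
    Y S N (fun t => z t.2.1 - z t.1) x = (1 - om) / 3 * Y S N (rr z) x := by
  have h3 := om_cube
  have key : ∀ f : ℂ × ℂ × ℂ → ℂ, 3 * ∑ t ∈ N.T, f t =
      ∑ t ∈ N.T, (f t + f (rot3 t) + f (rot3 (rot3 t))) := by
    intro f
    rw [Finset.sum_add_distrib, Finset.sum_add_distrib, sum_rot3 (N := N) f,
      sum_rot3 (N := N) (fun t => f (rot3 t)), sum_rot3 (N := N) f]
    ring
  unfold Y
  rw [← h.tri]
  have e1 := key (fun t => (z t.2.1 - z t.1) * Qx N x.1 t)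
  have e2 : ∑ t ∈ N.T, ((z t.2.1 - z t.1) * Qx N x.1 t +
      (z (rot3 t).2.1 - z (rot3 t).1) * Qx N x.1 (rot3 t) +
      (z (rot3 (rot3 t)).2.1 - z (rot3 (rot3 t)).1) * Qx N x.1 (rot3 (rot3 t))) =
      (1 - om) * ∑ t ∈ N.T, rr z t * Qx N x.1 t := by
    rw [Finset.mul_sum]
    refine Finset.sum_congr rfl fun t _ => ?_
    have a1 := q_rot3 N x.1 t
    have a2 := q_rot3 N x.1 (rot3 t)
    rw [a1] at a2
    rw [a2, a1]
    unfold rr rot3
    simp only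
    linear_combination (z t.1 * Qx N x.1 t) * h3
  rw [e2] at e1
  linear_combination e1 / 3

theorem norm_one_sub_om : ‖(1 : ℂ) - om‖ ≤ 2 := by
  refine (norm_sub_le _ _).trans ?_
  have : ‖om‖ = 1 := by
    unfold om
    rw [Complex.norm_exp_ofReal_mul_I]
  rw [this, norm_one]
  norm_num

/-- bound of the totals with the weight `z b - z a` -/
theorem Y_diff_le {S : Finset ℂ} {N : Net ℂ} (h : HNet S N)
    (hkl : ∀ a b : ℂ, (a, b) ∈ N.kl → (a, b) ∈ N.E → ∃ i, Side N i a)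
    {x : St ℂ} (hok : Ok N x.1 x.2) {z : ℂ → ℂ} {z0 : ℂ} {B : ℝ} (hB0 : 0 ≤ B)
    (hB : ∀ t ∈ N.T, ‖z t.1 - z0‖ ≤ B) : ‖Y S N (fun t => z t.2.1 - z t.1) x‖ ≤ 6 * B := by
  rw [Y_diff h z x, norm_mul, norm_div]
  have h1 := Y_le h hkl hok hB0 hB
  have h2 := norm_one_sub_om
  have h3 : ‖(3 : ℂ)‖ = 3 := by norm_num
  rw [h3]
  have h4 : ‖(1 : ℂ) - om‖ / 3 ≤ 2 / 3 := by linarith
  calc ‖(1 : ℂ) - om‖ / 3 * ‖Y S N (rr z) x‖ ≤ 2 / 3 * (9 * B) :=
        mul_le_mul h4 h1 (norm_nonneg _) (by norm_num)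
    _ = 6 * B := by ring

/-! ### domains -/

/-- the killed edges of a domain network are attached to the sides -/
theorem hkl_dom {D : Dom} {δ d : ℝ} {S : Finset ℂ} (hD : D.Ad δ) (hS : DomAx722.Dns S D.c D.L d)
    (hd : 40000 * D.L ^ 5 * d ≤ δ ^ 6) (hN : HNet S (D.netS S)) :
    ∀ a b : ℂ, (a, b) ∈ (D.netS S).kl → (a, b) ∈ (D.netS S).E →
      ∃ i, Side (D.netS S) i a := by
  intro a b hk hE
  unfold Trg.E at hE
  rw [Finset.mem_union, Finset.mem_image, Finset.mem_image] at hE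
  rcases hE with ⟨t, ht, e⟩ | ⟨t, ht, e⟩
  · rw [Prod.mk.injEq] at e
    obtain ⟨rfl, rfl⟩ := e
    exact ClsAx697.kill_side hD hS hd _ _ _ ht hk
  · rw [Prod.mk.injEq] at e
    obtain ⟨rfl, rfl⟩ := e
    have hk' := (D.netS S).klsym _ _ hk
    obtain ⟨i, hi⟩ := ClsAx697.kill_side hD hS hd _ _ _ ht hk'
    have hw := Massx848.wall_of_kl hN ht hk'
    exact ⟨i, Relation.ReflTransGen.tail hi hw⟩

/-- the totals of the explored networks of a good environment are bounded -/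
theorem tot_ev {D : Dom} {δ C : ℝ} (hD' : D.Ad δ) (hC : 0 < C) :
    ∀ᶠ ε : ℝ in 𝓝[>] 0, ∀ (K a C4 : ℝ) (ω : Sample), Y0x831.Good D ε C K a C4 ω →
      ∀ (x : St ℂ), Ok (net D ε ω) x.1 x.2 →
        ‖Y (D.sites ε ω) (net D ε ω) we x‖ ≤ 6 * D.L ∧
        ‖Y (D.sites ε ω) (net D ε ω) wd x‖ ≤ 6 * D.L := by
  have hD := hD'.w
  have hδ := hD.dpos
  have hL := hD.Lpos
  filter_upwards [hnet_ev hD hC, (rad_small C).eventually
    (ge_mem_nhds (show (0 : ℝ) < δ ^ 6 / (40000 * D.L ^ 5) by positivity))]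
    with ε h1 h K a C4 ω hω x hx
  rw [le_div_iff₀ (by positivity)] at h
  have hd : 40000 * D.L ^ 5 * rad C ε ≤ δ ^ 6 := by linarith
  have hN := h1 K a C4 ω hω
  have hS := DomAx722.dns_of_env hL
    (DomAx722.small_d hL hδ hD.lt.le hd) hω.env
  have hkl := hkl_dom hD' hS hd hN
  have hB : ∀ t ∈ (net D ε ω).T, ‖t.1 - D.c‖ ≤ D.L := by
    intro t ht
    rw [hN.tri] at ht
    unfold delT at ht
    rw [Finset.mem_filter, Finset.mem_product] at ht
    exact hS.sub _ ht.1.1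
  constructor
  · exact Y_diff_le hN hkl hx (z := fun v => v) (z0 := D.c) hL.le hB
  · have hw : (wd : ℂ × ℂ × ℂ → ℂ) =
        fun t => (starRingEnd ℂ) t.2.1 - (starRingEnd ℂ) t.1 := by
      funext t
      unfold wd
      rw [map_sub]
    rw [hw]
    refine Y_diff_le hN hkl hx (z := fun v => (starRingEnd ℂ) v) (z0 := (starRingEnd ℂ) D.c)
      hL.le ?_
    intro t ht
    rw [← map_sub, Complex.norm_conj]
    exact hB t ht

theorem bnd_of {Adm : Dom → ℝ → Prop} (hAdm : ∀ D δ, Adm D δ → D.Ad δ)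
    {w : ℂ × ℂ × ℂ → ℂ} (hw : ∀ (D : Dom) (δ C : ℝ), D.Ad δ → 0 < C →
      ∀ᶠ ε : ℝ in 𝓝[>] 0, ∀ (K a C4 : ℝ) (ω : Sample), Y0x831.Good D ε C K a C4 ω →
        ∀ (x : St ℂ), Ok (net D ε ω) x.1 x.2 →
          ‖Y (D.sites ε ω) (net D ε ω) w x‖ ≤ 6 * D.L) : BND w Adm := by
  intro D δ hD m hm r hr z hz hli
  have hOK := hAdm D δ hD
  have hL := hOK.w.Lpos
  refine ⟨6 * D.L, by positivity, ?_⟩
  intro l hl hlr η hη
  obtain ⟨C, K, a, C4, hC, hK, ha, hC4, hgood⟩ := good_ev D hL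
  filter_upwards [hgood, hw D δ C hOK hC, hnet_ev hOK.w hC,
    (tendsto_id.mono_left nhdsWithin_le_nhds : Tendsto (fun ε : ℝ => ε) (𝓝[>] 0) (𝓝 0)).eventually
      (ge_mem_nhds hη)] with ε g0 g1 g2 g3
  refine (measure_mono ?_).trans (g0.trans (ENNReal.ofReal_le_ofReal g3))
  rintro ω ⟨J, hJ, j, _, _, _, hj⟩ hω
  have hN := g2 K a C4 ω hω
  have h1 := g1 K a C4 ω hω _ (xs_ok (good_of_hnet hN) (l := l) hJ j)
  linarith

/-- **leaf BND**, weight `we` -/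
theorem bnd_we {Adm : Dom → ℝ → Prop} (hAdm : ∀ D δ, Adm D δ → D.Ad δ) : BND we Adm :=
  bnd_of hAdm fun D δ C hD hC => by
    filter_upwards [tot_ev hD hC] with ε h K a C4 ω hω x hx
    exact (h K a C4 ω hω x hx).1

/-- **leaf BND**, weight `wd` -/
theorem bnd_wd {Adm : Dom → ℝ → Prop} (hAdm : ∀ D δ, Adm D δ → D.Ad δ) : BND wd Adm :=
  bnd_of hAdm fun D δ C hD hC => by
    filter_upwards [tot_ev hD hC] with ε h K a C4 ω hω x hx
    exact (h K a C4 ω hω x hx).2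

end Crest.Agent.R143.Mabx377
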