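import Crest.Agent.R143.EvG_117
import Crest.Agent.R143.SysA_168
import Crest.Agent.R143.FinC_811

/-!
# Row 143 (S0194), RIG, CorrI box (e3): an open corridor has an out strand (helper168)

`rc0 hS` (811: `cm0 hS` with its finitely many cells), colouring of the cells `rcol hS χ hχ`.

* `str_rc0` : 117's strand `StrBx117.Str` on `cm0 hS` is one on `rc0 hS`; `ink_rc0`
* `str_per`, `str_lt` : the period is `N`, the length is less than the period
* `SD` : the statement "`(q, N, T)` is the strand of the corridor on `rc0 hS`"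
* `col_lc` : the left cells of the strand have the colour of the gates `y k`
* **`evA_of`** : a corridor `DCorr` with all arcs backward has a pair `(q, T n)` with the event
  `SysAx168.EvA` of the system `sysA`, from: zones, one column, `Sep`, link (as hypotheses on the
  strand); `Q = RD S (B k₀)`, root gap at the gate `k₀ + 1`
-/

set_option autoImplicit false
set_option linter.unusedSectionVars false

noncomputable section

open scoped Classical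

namespace Crest.Agent.R143.EvGx168

open Crest.Agent.R143.B0x346 Crest.Agent.R143.DelGx806 Crest.Agent.R143.DelRx806
  Crest.Agent.R143.JColx54
open Crest.Agent.R143.Frame1x395 Crest.Agent.R143.Frame2x395 Crest.Agent.R143.Frame3x395
  Crest.Agent.R143.Frame4x395 Crest.Agent.R143.Frame8x395 Crest.Agent.R143.Frame9x395
  Crest.Agent.R143.Frame10x395 Crest.Agent.R143.Frame11x395
open Crest.Agent.R143.NonXx592 Crest.Agent.R143.Gntx535 Crest.Agent.R143.R5qx166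
  Crest.Agent.R143.Extx358 Crest.Agent.R143.OutSx358 Crest.Agent.R143.SysSx358
  Crest.Agent.R143.SysAx168 Crest.Agent.R143.K33x137 Crest.Agent.R143.Uniqx323
  Crest.Agent.R143.EvGx117 Crest.Agent.R143.FinCx811
open Crest.Agent.R143.Splx117 Crest.Agent.R143.WLocx713 Crest.Agent.R143.RingDx117
  Crest.Agent.R143.CorrDx117 Crest.Agent.R143.StrBx117

variable {S : Finset ℂ} {χ : ℂ → ZMod 2} {hS : GP (S : Set ℂ)} {hχ : HullC S χ} {n N : ℕ}
  {y z : ℕ → ℂ} {A B : ℕ → Set ℂ} {p : ℕ → D0 S} {Rs : Set (D0 S)} {q : D0 S} {T : ℕ → ℕ}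

/-! ### `cm0 hS` and `rc0 hS` -/

theorem cfg_rc0 : cfg (rc0 hS) (rcol hS χ hχ) = xc hS hχ := rfl

theorem lc_rc0 {x : D0 S → ZMod 2} {i j : ℕ} :
    lc (rc0 hS) x q i = lc (rc0 hS) x q j ↔ lc (cm0 hS) x q i = lc (cm0 hS) x q j :=
  ⟨fun e => congrArg Subtype.val e, fun e => Subtype.ext e⟩

theorem ink_rc0 {x : D0 S → ZMod 2} {a b i : ℕ} :
    InK (rc0 hS) x q a b i ↔ InK (cm0 hS) x q a b i :=
  ⟨fun h => ⟨h.lo, h.hi, h.gap, fun j l h1 h2 h3 h4 e => h.sep j l h1 h2 h3 h4 (lc_rc0.2 e)⟩,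
    fun h => ⟨h.lo, h.hi, h.gap, fun j l h1 h2 h3 h4 e => h.sep j l h1 h2 h3 h4 (lc_rc0.1 e)⟩⟩

/-- the strand of the corridor on `rc0 hS` -/
abbrev SD (hS : GP (S : Set ℂ)) (hχ : HullC S χ) (n : ℕ) (Rs : Set (D0 S)) (p : ℕ → D0 S)
    (B : ℕ → Set ℂ) (q : D0 S) (N : ℕ) (T : ℕ → ℕ) : Prop :=
  Str (rc0 hS) (cfg (rc0 hS) (rcol hS χ hχ)) n Rs (fun k => p (n - k))
    (fun k => RD S (B (n - 1 - k))) q N T

/-- 117's strand on the finite cells -/
theorem str_rc0 {R : ℕ → Set (D0 S)} {p' : ℕ → D0 S} (H : Str (cm0 hS) (xc hS hχ) n Rs p' R q N T) :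
    Str (rc0 hS) (cfg (rc0 hS) (rcol hS χ hχ)) n Rs p' R q N T where
  n3 := H.n3
  lp := ⟨cfg_isC _, H.lp.occ, H.lp.pos, H.lp.per, H.lp.inj⟩
  T0 := H.T0
  TN := H.TN
  mono := H.mono
  lt := H.lt
  at_ := H.at_
  arc := H.arc
  mem := H.mem
  bef := H.bef
  aft := H.aft
  befR := H.befR
  aftR := H.aftR
  cut := fun k k' h1 h2 h3 u v a1 a2 a3 a4 e => by
    obtain ⟨b1, b2⟩ := H.cut k k' h1 h2 h3 u v a1 a2 a3 a4 (lc_rc0.1 e)
    exact ⟨b1, lc_rc0.2 b2⟩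

section cm

variable {D C : Type} [Fintype D] [Fintype C] {M : CMap D C} {x : D → ZMod 2} {d : D}

/-- the period of a loop -/
theorem lp_le_per (L : Lp M x d N) : N ≤ per M x d := by
  have h := lp_per (M := M) L.even L.occ
  by_contra hc
  exact L.inj 0 (per M x d) h.pos (by omega) h.per.symm

theorem lp_eq_per (L : Lp M x d N) : per M x d = N := by
  have h := lp_per (M := M) L.even L.occ
  refine le_antisymm ?_ (lp_le_per L)
  by_contra hc
  exact h.inj 0 N L.pos (by omega) L.per.symm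

end cm

/-! ### the out strand -/

/-- the states of a strand have left cells of one colour -/
theorem col_lc (H : SD hS hχ n Rs p B q N T) {i : ℕ} :
    rcol hS χ hχ ((rc0 hS).cell ((stp (rc0 hS) (cfg (rc0 hS) (rcol hS χ hχ)))^[i] q)) =
      rcol hS χ hχ ((rc0 hS).cell q) :=
  it_col (cfg_isC _) H.lp.occ (fun _ hd => cfg_zero.1 hd) i

/-- **an open corridor has an out strand** in the system `sysA`; `(k₀, k₀ + 1)` the tile with the
root gap -/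
theorem evA_of (R : DCorr hS hχ n y z A B p) (n3 : 3 ≤ n)
    (hf : ∀ k, k < n → FA (cm0 hS) (xc hS hχ) (RD S (B k)) (p (k + 1)) (p k))
    {Z : Zn (rc0 hS)} {k₀ : ℕ} (k1 : 1 ≤ k₀) (k2 : k₀ + 1 < n) {Rw : Set (Cs hS)} {h₀ : Cs hS}
    (hy : χ (y 1) = 1)
    (hR : ∀ k, 0 < k → k + 1 < n → RD S (B k) ⊆ Rd (rc0 hS) Z.R)
    (h0 : p 0 ∉ Rd (rc0 hS) Z.R) (hn : p n ∉ Rd (rc0 hS) Z.R)
    (hE : ∀ d ∈ RD S (B (n - 1)), ∀ c, (c = (rc0 hS).cell d ∨ c = Rc (rc0 hS) d) → c ∉ Z.R →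
      c ∈ Z.E)
    (hW : ∀ d ∈ RD S (B 0), ∀ c, (c = (rc0 hS).cell d ∨ c = Rc (rc0 hS) d) → c ∉ Z.R → c ∈ Z.W)
    (hcol : ∃ k, 0 < k ∧ k < n ∧ ∃ t ∈ Z.T,
      Lk (rc0 hS) ({c | c ∈ Z.K ∧ rcol hS χ hχ c = 0} ∪ Z.T) (Rc (rc0 hS) (p k)) t)
    (hsep : ∀ q N T, SD hS hχ n (Rd (rc0 hS) Z.R) p B q N T →
      Sep (rc0 hS) {h₀} (zc (rc0 hS) Rw q (T n) (rcol hS χ hχ))
        (wl (rc0 hS) (cfg (rc0 hS) (rcol hS χ hχ)) q (T n)))
    (hlnk : ∀ q N T, SD hS hχ n (Rd (rc0 hS) Z.R) p B q N T →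
      ∃ c₀ ∈ (wr (rc0 hS) (cfg (rc0 hS) (rcol hS χ hχ)) q (T n) : Set (Cs hS)), ∃ e₀,
        Ext (rc0 hS) {h₀} (zc (rc0 hS) Rw q (T n) (rcol hS χ hχ)) e₀ ∧ Ad (rc0 hS) e₀ c₀) :
    ∃ (q : D0 S) (N : ℕ) (T : ℕ → ℕ), SD hS hχ n (Rd (rc0 hS) Z.R) p B q N T ∧
      EvA (rc0 hS) {h₀} Rw (RD S (B k₀)) Z (q, T n) (rcol hS χ hχ) ∧
      N = per (rc0 hS) (cfg (rc0 hS) (rcol hS χ hχ)) q ∧
      (∃ i, (stp (rc0 hS) (cfg (rc0 hS) (rcol hS χ hχ)))^[i] (p n) = q) ∧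
      (∃ r, T (n - 1 - k₀) ≤ r ∧ r < T (n - k₀) ∧
        InK (rc0 hS) (cfg (rc0 hS) (rcol hS χ hχ)) q 0 (T n) r ∧
        (lc (rc0 hS) (cfg (rc0 hS) (rcol hS χ hχ)) q r).1 = Quot.mk _ (y (k₀ + 1))) ∧
      ∀ {E : Type} [AddCommMonoid E] (w : D0 S → E) (k : ℕ), 0 < k → k + 1 < n →
        KS (cm0 hS) (xc hS hχ) q w (T k) (T (k + 1)) =
          ZZ (cm0 hS) (xc hS hχ) w (RD S (B (n - 1 - k))) (p (n - k)) (p (n - 1 - k)) := by
  obtain ⟨q, N, T, H, hq, hks⟩ := DCorr.strand R n3 hf (Rs := Rd (rc0 hS) Z.R) hR h0 hn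
  have H' : SD hS hχ n (Rd (rc0 hS) Z.R) p B q N T := str_rc0 H
  obtain ⟨r, r1, r2, r3, r4, r5, -⟩ := root_cm0 (Rs := Rd (rc0 hS) Z.R) R H (j := n - (k₀ + 1))
    (by omega) (by omega)
  rw [show n - (n - (k₀ + 1)) = k₀ + 1 by omega] at r4
  rw [show n - 1 - (n - (k₀ + 1)) = k₀ by omega] at r5
  rw [show n - (k₀ + 1) = n - 1 - k₀ by omega] at r1
  rw [show n - (k₀ + 1) + 1 = n - k₀ by omega] at r2
  -- the colour of the left cells
  have hc : rcol hS χ hχ ((rc0 hS).cell q) = 1 := by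
    have e1 := H.at_ (n - 1) (by omega) (by omega)
    have e2 := col_lc H' (i := T (n - 1))
    have e3 : (stp (rc0 hS) (cfg (rc0 hS) (rcol hS χ hχ)))^[T (n - 1)] q = p 1 := by
      show (stp (cm0 hS) (xc hS hχ))^[T (n - 1)] q = p 1
      rw [e1, show n - (n - 1) = 1 by omega]
    rw [e3] at e2
    rw [← e2]
    show χ (p 1).1.1 = 1
    rw [R.st 1 (by omega)]
    exact hy
  -- the column starts at a state of the strand
  have hcol' : ∃ j ≤ T n, ∃ t ∈ Z.T, Lk (rc0 hS) ({c | c ∈ Z.K ∧ rcol hS χ hχ c = 1 + 1} ∪ Z.T)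
      (Rc (rc0 hS) (P (rc0 hS) (cfg (rc0 hS) (rcol hS χ hχ)) q j)) t := by
    obtain ⟨k, c1, c2, t, c3, c4⟩ := hcol
    refine ⟨T (n - k), ?_, t, c3, ?_⟩
    · exact mono_of (a := 0) (b := n) (fun k _ h => H.mono k h) (Nat.zero_le _) (by omega) le_rfl
    · have e3 : P (rc0 hS) (cfg (rc0 hS) (rcol hS χ hχ)) q (T (n - k)) = p k := by
        show (stp (cm0 hS) (xc hS hχ))^[T (n - k)] q = p k
        rw [H.at_ (n - k) (by omega) (by omega), show n - (n - k) = k by omega]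
      rw [e3, show (1 : ZMod 2) + 1 = 0 by decide]
      exact c4
  have hst : Strd (rc0 hS) Z 1 (rcol hS χ hχ) q (T n) := by
    refine strd_of H' hc ?_ ?_ hcol'
    · show ∀ d ∈ RD S (B (n - 1 - 0)), _
      rw [Nat.sub_zero]
      exact hE
    · show ∀ d ∈ RD S (B (n - 1 - (n - 1))), _
      rw [Nat.sub_self]
      exact hW
  refine ⟨q, N, T, H', ⟨hst, ?_⟩, (lp_eq_per H'.lp).symm, hq, ⟨r, r1, r2, ink_rc0.2 r3, r4⟩, hks⟩
  exact
    { occ := H'.lp.occ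
      col := hc
      lt := by
        have h1 := H'.TN
        have h2 := lp_le_per H'.lp
        show T n < per (rc0 hS) (cfg (rc0 hS) (rcol hS χ hχ)) q
        omega
      ink := ⟨r, r5, ink_rc0.2 r3⟩
      con := ext_con_one
      sep := hsep q N T H'
      lnk := hlnk q N T H' }

end Crest.Agent.R143.EvGx168
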