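import Crest.Agent.R143.LnkL_927
import Crest.Agent.R143.EvG_168

/-!
# Row 143 (S0194), R4 (3d): the link in 168's form (helper927)

* `col_off'` : the column of the gate `g`, `o + 1 < g < o + n - 1`, is off the closing strips AND off
  the two end strips `o + n - 1`, `o + M`
* `Clo2` : these strips (697's `BR`)
* `lnk_gen` : link for any region `B` off the column
* **`lnk_sd`** : hypothesis `hlnk` of `EvGx168.evA_of`, literally
-/

set_option autoImplicit false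
set_option linter.unusedVariables false

noncomputable section

open scoped Classical

namespace Crest.Agent.R143.LnkLx927

open Set
open Crest.Agent.R158.Sp896 (V Con)
open Crest.Agent.R143.B0x346 Crest.Agent.R143.DelGx806 Crest.Agent.R143.DelRx806
open Crest.Agent.R143.Frame1x395 Crest.Agent.R143.Frame2x395 Crest.Agent.R143.Frame3x395
  Crest.Agent.R143.Frame8x395 Crest.Agent.R143.Frame9x395
  Crest.Agent.R143.Frame10x395 Crest.Agent.R143.Frame11x395
open Crest.Agent.R143.NonXx592 (P Rc)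
open Crest.Agent.R143.Blkx838 (DE)
open Crest.Agent.R143.FinMx609 Crest.Agent.R143.WLocx713
open Crest.Agent.R143.TileRx228
open Crest.Agent.R143.Finex422 (Fine)
open Crest.Agent.R143.OutCx571 (Far)
open Crest.Agent.R143.CorHx713 Crest.Agent.R143.RingPx503
open Crest.Agent.R143.FinCx811 (Cs rc0 cs rcol)
open Crest.Agent.R143.RcTx422
open Crest.Agent.R143.Gntx535 (wl wr mem_wl mem_wr)
open Crest.Agent.R143.Extx358 (Ad Ext Zc)
open Crest.Agent.R143.Sepx686 (dart_mem)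
open Crest.Agent.R143.DCorGx713 (bX_iff)
open Crest.Agent.R143.OutSx358 (zc)
open Crest.Agent.R143.EvGx168 (SD col_lc)
open Crest.Agent.R143.EvGx117 (Rd)

variable {X : Set (ℂ × Bool)} {U : Set ℂ} {M : ℕ} {W : ℤ → ℤ × ℤ} {η d : ℝ} {o : ℤ} {n : ℕ}
  {F : Set V} {nn m : ℕ} {p : ℤ → V} {A : ℤ → ℤ} {A' B' : ℝ} {k g : ℤ} {h₀ : ℂ}

/-- **the column of an inner gate is off the closing strips and the two end strips** -/
theorem col_off' (H : CorH X U M W η d o n) (hg : o + 1 < g) (hg' : g < o + n - 1) {c : ℤ}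
    (hc : o + n - 1 ≤ c) (hc' : c ≤ o + M) (hA : A' ≤ 12 * η) (hB : B' ≤ 52 * η) {s : ℂ}
    (hs : s ∈ Col η W X g) : s ∉ RR A' B' (100 * η) W c := by
  intro hsc
  have e0 := H.e0
  have hM := H.nM
  have hn := H.n1
  have hsc' := ConfTx503.rr_sub hA hB c hsc
  have hD : Dsj (12 * η) (52 * η) (100 * η) M W :=
    DCorFx713.dsj_of H.path (by linarith) (by linarith) (by linarith)
  have hX : |Gatex838.X (gz (100 * η) W g) (ge W g) s| < 52 * η - 100 * η / 2 := by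
    have := hs.2.1
    linarith
  have hY : |Gatex838.Y (gz (100 * η) W g) (ge W g) s| < 12 * η := by
    rw [abs_lt]
    exact ⟨by linarith [hs.2.2.1], by linarith [hs.2.2.2]⟩
  have r1 : s ∈ RR (12 * η) (52 * η) (100 * η) W g :=
    win_right H.path (by linarith) (by linarith) hX hY
  have r2 : s ∈ RR (12 * η) (52 * η) (100 * η) W (g - 1) :=
    win_left H.path (by linarith) (by linarith) (by rw [sub_add_cancel]; exact hX)
      (by rw [sub_add_cancel]; exact hY)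
  have nd : ∀ t : ℤ, 0 < t → t < M → ¬ (M : ℤ) ∣ t := fun t h1 h2 h3 => by
    have := Int.le_of_dvd h1 h3
    omega
  by_cases h1 : c = g + 1
  · refine disjoint_left.1 (hD (g - 1) c ?_ ?_ ?_) r2 hsc' <;> exact nd _ (by omega) (by omega)
  · refine disjoint_left.1 (hD g c ?_ ?_ ?_) r1 hsc' <;> exact nd _ (by omega) (by omega)

/-- the closing strips and the two end strips (enlarged) -/
def Clo2 (η : ℝ) (W : ℤ → ℤ × ℤ) (M : ℕ) (o : ℤ) (n : ℕ) : Set ℂ :=
  {s | ∃ a : ℤ, (o + n - 1 ≤ a ∧ a ≤ o + M) ∧ s ∈ RR (19 / 2 * η) (103 / 2 * η) (100 * η) W a}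

theorem col_clo2 (H : CorH X U M W η d o n) (hg : o + 1 < g) (hg' : g < o + n - 1) {s : ℂ}
    (hs : s ∈ Col η W X g) : s ∉ Clo2 η W M o n := by
  rintro ⟨a, ⟨h1, h2⟩, h3⟩
  have e0 := H.e0
  exact col_off' H hg hg' h1 h2 (by linarith) (by linarith) hs h3

/-- the strips are inside `U` -/
theorem all_U (H : CorH X U M W η d o n) : All η W ⊆ U := by
  rintro s ⟨a, ha⟩
  have e0 := H.e0
  exact H.sub_U (by linarith) (by linarith) a ha

/-- cells of sites of the strips are cells of inner sites -/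
theorem rc_of (H : CorH X U M W η d o n) {B : Set ℂ} (hB : B ⊆ All η W) {c : Cs H.gp} {s : ℂ}
    (hs : s ∈ sX X) (hsB : s ∈ B) (e : c.1 = Quot.mk _ s) : c ∈ RC H.gp B :=
  ⟨s, hs, hsB, H.inn (all_U H (hB hsB)), e⟩

/-- **the link**, for any region `B` of strips off the column -/
theorem lnk_gen (H : CorH X U M W η d o n) (hF : Fine F nn (m : ℤ) p M W A)
    (hFc : ∀ q ∉ F, ∀ q' ∉ F, Con Fᶜ q q') (m3 : 3 ≤ m) (g1 : A k + 4 ≤ g)
    (g2 : g + 3 ≤ A (k + 1)) (hh : OnHull (sX X) h₀)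
    (hf : h₀ ∈ Far (m * (100 * η)) (100 * η + 19 / 2 * η + d) F) {q : D0 (sX X)} {N : ℕ}
    (hq : xc H.gp H.hull q = 1) (hb : cX X q.1.1 = 1)
    (hL : (wl (rc0 H.gp) (xc H.gp H.hull) q N : Set (Cs H.gp)) ⊆ RC H.gp (All η W))
    (hRr : (wr (rc0 H.gp) (xc H.gp H.hull) q N : Set (Cs H.gp)) ⊆ RC H.gp (All η W))
    {B : Set ℂ} (hB : B ⊆ All η W) (hcB : ∀ s ∈ Col η W X g, s ∉ B)
    {R : Set (Cs H.gp)} (hR : R ⊆ RC H.gp B)
    (hx : cs H.gp (card3' H) ⟨xx η W X g, (dart_mem (H.st g)).2⟩ ∈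
      wr (rc0 H.gp) (xc H.gp H.hull) q N) :
    ∃ c₀ ∈ (wr (rc0 H.gp) (xc H.gp H.hull) q N : Set (Cs H.gp)), ∃ e₀,
      Ext (rc0 H.gp) (Hc H.gp) (Zc (wl (rc0 H.gp) (xc H.gp H.hull) q N : Set (Cs H.gp))
        (wr (rc0 H.gp) (xc H.gp H.hull) q N) R (rcol H.gp (cX X) H.hull)) e₀ ∧
      Ad (rc0 H.gp) e₀ c₀ := by
  have e0 := H.e0
  have d0 := H.d0
  have de := H.de
  have h3 := card3' H
  have hhS : h₀ ∈ sX X := hull_mem hh
  have hp := lnk_path H hF hFc m3 (A' := 19 / 2 * η) (B' := 103 / 2 * η) (by linarith)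
    (by linarith) (by linarith) (by linarith) g1 g2 hhS hf
  have hull : ∀ B : Set ℂ, cs H.gp h3 ⟨h₀, hhS⟩ ∉ RC H.gp B := fun B => Hc_RC (cs_Hc h3 hh)
  refine Extx358.lnk_of_path (c := cs H.gp h3 ⟨xx η W X g, (dart_mem (H.st g)).2⟩)
    (h₀ := cs H.gp h3 ⟨h₀, hhS⟩) (Finset.mem_coe.2 hx) (cs_Hc h3 hh) ?_ ?_
  · rintro ((hc | hc) | ⟨hc, -⟩)
    · exact hull _ (hL hc)
    · exact hull _ (hRr hc)
    · exact hull _ (hR hc)
  · refine rtg_rc (hS := H.gp) h3 (u := ⟨xx η W X g, (dart_mem (H.st g)).2⟩) (w := ⟨h₀, hhS⟩)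
      (Q' := fun b => b ∉ (wl (rc0 H.gp) (xc H.gp H.hull) q N : Set (Cs H.gp)) ∧
        ¬ (b ∈ R ∧ rcol H.gp (cX X) H.hull b = 0)) ?_ hp
    rintro ⟨v, hvS⟩ hv
    refine ⟨fun hc => ?_, fun hc => ?_⟩
    · obtain ⟨s, -, ⟨a, ha⟩, hs, e⟩ := hL hc
      have e1 : (Quot.mk (hullE (sX X)) s : Quot (hullE (sX X))) = Quot.mk _ v := e.symm
      have e2 : v = s := quot_inner H.gp hs e1
      subst e2
      rcases hv with hv | hv
      · apply hv.1.2
        rw [← bX_iff v hvS]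
        have h4 := Gntx535.wl_col (M := rc0 H.gp) (χ := rcol H.gp (cX X) H.hull) hq
          (Finset.mem_coe.1 hc)
        rw [rcol_cs] at h4
        rw [h4]
        exact hb
      · exact hv a ha
    · obtain ⟨s, -, hsB, hs, e⟩ := hR hc.1
      have e1 : (Quot.mk (hullE (sX X)) s : Quot (hullE (sX X))) = Quot.mk _ v := e.symm
      have e2 : v = s := quot_inner H.gp hs e1
      subst e2
      rcases hv with hv | hv
      · exact hcB _ hv hsB
      · obtain ⟨a, ha⟩ := hB hsB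
        exact hv a ha

/-- **hypothesis `hlnk` of `EvGx168.evA_of`** under `CorH`: `ZR` = cells of the strand region, `Rw` =
cells of the closing strips and the two end strips, gate `o + r` of a straight run -/
theorem lnk_sd (H : CorH X U M W η d o n) (hF : Fine F nn (m : ℤ) p M W A)
    (hFc : ∀ q ∉ F, ∀ q' ∉ F, Con Fᶜ q q') (m3 : 3 ≤ m) {r : ℕ} (r1 : 2 ≤ r) (r2 : r + 1 < n)
    (g1 : A k + 4 ≤ o + r) (g2 : o + r + 3 ≤ A (k + 1)) (hh : OnHull (sX X) h₀)
    (hf : h₀ ∈ Far (m * (100 * η)) (100 * η + 19 / 2 * η + d) F) {ZR : Set (Cs H.gp)}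
    (hZR : ∀ c ∈ ZR, ∃ s ∈ sX X, s ∈ All η W ∧ c.1 = Quot.mk _ s) {Rw : Set (Cs H.gp)}
    (hRw : ∀ c ∈ Rw, ∃ s ∈ sX X, s ∈ Clo2 η W M o n ∧ c.1 = Quot.mk _ s) {hc : Cs H.gp}
    (hhc : hc ∈ Hc H.gp) (q : D0 (sX X)) (N : ℕ) (T : ℕ → ℕ)
    (St : SD H.gp H.hull n (Rd (rc0 H.gp) ZR) H.p
      (fun k : ℕ => RR (19 / 2 * η) (103 / 2 * η) (100 * η) W (o + k)) q N T) :
    ∃ c₀ ∈ (wr (rc0 H.gp) (cfg (rc0 H.gp) (rcol H.gp (cX X) H.hull)) q (T n) : Set (Cs H.gp)),
      ∃ e₀, Ext (rc0 H.gp) {hc} (zc (rc0 H.gp) Rw q (T n) (rcol H.gp (cX X) H.hull)) e₀ ∧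
        Ad (rc0 H.gp) e₀ c₀ := by
  have hZR' : ZR ⊆ RC H.gp (All η W) := fun c h => by
    obtain ⟨s, h1, h2, h3⟩ := hZR c h
    exact rc_of H subset_rfl h1 h2 h3
  have hBA : Clo2 η W M o n ⊆ All η W := by
    rintro s ⟨a, -, h⟩
    exact ⟨a, h⟩
  have hRw' : Rw ⊆ RC H.gp (Clo2 η W M o n) := fun c h => by
    obtain ⟨s, h1, h2, h3⟩ := hRw c h
    exact rc_of H hBA h1 h2 h3
  -- the state at the gate `o + r`
  have hst : P (rc0 H.gp) (xc H.gp H.hull) q (T (n - r)) = H.st (o + r) := by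
    have h1 := St.at_ (n - r) (by omega) (by omega)
    have e : n - (n - r) = r := by omega
    simp only [e] at h1
    exact h1
  have hmono : T (n - r) ≤ T n := by
    have key : ∀ a b : ℕ, a ≤ b → b ≤ n → T a ≤ T b := by
      intro a b hab
      induction b with
      | zero => intro _; rw [show a = 0 by omega]
      | succ b ih =>
        intro hb
        rcases Nat.lt_or_ge b a with h1 | h1
        · rw [show a = b + 1 by omega]
        · exact (ih h1 (by omega)).trans (St.mono b (by omega))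
    exact key _ _ (by omega) le_rfl
  have hb : cX X q.1.1 = 1 := by
    have e2 := col_lc St (i := T (n - r))
    have e3 : (stp (rc0 H.gp) (cfg (rc0 H.gp) (rcol H.gp (cX X) H.hull)))^[T (n - r)] q =
        H.st (o + r) := hst
    rw [e3] at e2
    have e4 : cX X (yy η W X (o + r)) = cX X q.1.1 := e2
    rw [← e4]
    exact H.coly _
  have h := lnk_gen H hF hFc m3 g1 g2 hh hf (q := q) (N := T n) St.lp.occ hb
    (fun c hc => by
      obtain ⟨j, hj, rfl⟩ := mem_wl.1 (Finset.mem_coe.1 hc)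
      exact hZR' (St.mem j hj).1)
    (fun c hc => by
      obtain ⟨j, hj, rfl⟩ := mem_wr.1 (Finset.mem_coe.1 hc)
      exact hZR' (St.mem j hj).2)
    hBA (fun s hs => col_clo2 H (by omega) (by omega) hs) hRw' (by
      rw [mem_wr]
      refine ⟨T (n - r), hmono, ?_⟩
      rw [hst]
      exact cell_rho_cs (card3' H) (H.st (o + r)))
  rw [Hc_eq hhc] at h
  exact h

end Crest.Agent.R143.LnkLx927
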