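import Crest.Agent.R143.UKLowG_568
import Crest.Agent.R143.ZnL_903
import Crest.Agent.R143.LnkM_927

/-!
# Row 143 (S0194), RIG, box (7): `low` and `nk` with `Rw = clR hS (Clo2 η W M o n)` (helper568)
-/

set_option autoImplicit false

noncomputable section

open scoped Classical

namespace Crest.Agent.R143.UKLowx568

open Crest.Agent.R143.B0x346 Crest.Agent.R143.DelGx806 Crest.Agent.R143.DelRx806
open Crest.Agent.R143.Frame1x395 Crest.Agent.R143.Frame2x395 Crest.Agent.R143.Frame3x395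
  Crest.Agent.R143.Frame4x395 Crest.Agent.R143.Frame8x395 Crest.Agent.R143.Frame9x395
  Crest.Agent.R143.Frame10x395 Crest.Agent.R143.Frame11x395
open Crest.Agent.R143.WLocx713 Crest.Agent.R143.RingDx117
open Crest.Agent.R143.TileRx228
open Crest.Agent.R143.FinCx811 (Cs rc0 rcol)
open Crest.Agent.R143.RcTx422 (Hc)
open Crest.Agent.R143.CorHx713
open Crest.Agent.R143.SepHx697 (BR)
open Crest.Agent.R143.Layx416 (Lay g al mi be nn rr jj)
open Crest.Agent.R143.LayUx416 (LayU)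
open Crest.Agent.R143.PolyUx346 (Poly)
open Crest.Agent.R143.R10Px923 (Use)
open Crest.Agent.R143.CorrIx831 (SDS Bk Col)
open Crest.Agent.R143.SysAx168 (EvA)
open Crest.Agent.R143.Uniqx323 (Zn)
open Crest.Agent.R143.UKinCx571 (Ag)

theorem clo2_eq (η : ℝ) (W : ℤ → ℤ × ℤ) (M : ℕ) (o : ℤ) (n : ℕ) :
    LnkLx927.Clo2 η W M o n = BR η W M o n := by
  ext s
  constructor
  · rintro ⟨a, ⟨h1, h2⟩, h3⟩
    exact ⟨a, h1, h2, h3⟩
  · rintro ⟨a, h1, h2, h3⟩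
    exact ⟨a, ⟨h1, h2⟩, h3⟩

variable {S : Finset ℂ} {hS : GP (S : Set ℂ)} {η : ℝ} {W : ℤ → ℤ × ℤ} {M n : ℕ} {o : ℤ}

theorem clo_R1 : ∀ c ∈ ZnLx903.clR hS (LnkLx927.Clo2 η W M o n), ∃ v ∈ S, v ∈ BR η W M o n ∧
    c.1 = Quot.mk _ v := by
  rintro c ⟨v, h1, h2, h3⟩
  exact ⟨v, h1, by rw [← clo2_eq]; exact h2, h3⟩

theorem clo_R2 (q : D0 S) : ∀ v ∈ S, v ∈ BR η W M o n →
    ∃ c ∈ ZnLx903.clR hS (LnkLx927.Clo2 η W M o n), c.1 = Quot.mk _ v := by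
  intro v h1 h2
  refine ⟨⟨_, FinCx811.cell_mem hS (RcTx422.dart3 hS q) h1⟩, ⟨v, h1, ?_, rfl⟩, rfl⟩
  rw [clo2_eq]
  exact h2

end Crest.Agent.R143.UKLowx568
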