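import Crest.Agent.R143.SxZ_832
import Crest.Agent.R143.UKLowH_568

/-!
# Row 143 (S0194), RIG: one name for the regions of the concrete environment (helper609)

The same sets under the names of 168 / 832 (`RwS`, `RtS`, `clR`), 831 / 117 / 228 (`Rws`, `Rts`, `RC`),
927 / 568 (`Clo2`), 697 (`BR`), for the environment of 832's `SxZ`.
-/

set_option autoImplicit false

noncomputable section

open scoped Classical

namespace Crest.Agent.R143.BrZx609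

open Crest.ProbabilityR.Voronoi
open Crest.Agent.R143.PP0x831
open Crest.Agent.R143.B0x346 Crest.Agent.R143.DelGx806 Crest.Agent.R143.DelRx806
  Crest.Agent.R143.FinCx811
open Crest.Agent.R143.Frame1x395 Crest.Agent.R143.Frame2x395 Crest.Agent.R143.Frame3x395
  Crest.Agent.R143.Frame4x395 Crest.Agent.R143.Frame9x395 Crest.Agent.R143.Frame10x395
open Crest.Agent.R143.Frame8x395 hiding cfg
open Crest.Agent.R143.Janx304 Crest.Agent.R143.Dbl2x609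
open Crest.Agent.R143.SysAx168 (EvA)
open Crest.Agent.R143.Uniqx323 (Zn)
open Crest.Agent.R143.RcTx422 (Hc RC)
open Crest.Agent.R143.RingDx117 (RD)
open Crest.Agent.R143.PolyUx346 (Poly)
open Crest.Agent.R143.CorEx133
open Crest.Agent.R143.RigPx854 (ly ly_spec hN hN_pos nT)
open Crest.Agent.R143.RigZdx609 Crest.Agent.R143.Layx416
open Crest.Agent.R143.TileRx228
open Crest.Agent.R143.CorrIx831 (Ft tlt Bk Rts Rws)
open Crest.Agent.R143.ZnLx903 (clR RtS)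
open Crest.Agent.R143.ZEnvx168 (RwS)
open Crest.Agent.R143.LnkLx927 (Clo2)
open Crest.Agent.R143.SepHx697 (BR)
open Crest.Agent.R143.SxZx832 (Rc Zq envZ)
open Crest.Agent.R143.QuenIx597

section sets

variable {η : ℝ} {W : ℤ → ℤ × ℤ} {o : ℤ} {n M : ℕ}

theorem rws_eq : RwS η W o n M = Rws η W o n M := rfl

theorem rws_BR : RwS η W o n M = BR η W M o n := rfl

theorem rws_clo : RwS η W o n M = Clo2 η W M o n := (UKLowx568.clo2_eq η W M o n).symm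

theorem rts_eq : RtS η W o n = Rts η W o n := rfl

end sets

section cells

variable {S : Finset ℂ} {hS : GP (S : Set ℂ)} {F : Set ℂ}

theorem ClR_eq : BigUx749.ClR hS F = clR hS F := rfl

theorem RC_sub : RC hS F ⊆ clR hS F := fun _ ⟨v, h1, h2, _, h3⟩ => ⟨v, h1, h2, h3⟩

/-- no hull site in the region -/
theorem clR_RC (h : ∀ v ∈ S, v ∈ F → ¬ OnHull S v) : clR hS F = RC hS F :=
  Set.Subset.antisymm (fun _ ⟨v, h1, h2, h3⟩ => ⟨v, h1, h2, h v h1 h2, h3⟩) RC_sub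

end cells

section env

variable {N : ℕ} {ε : ℝ} {u : Poly} {w : ZMod 3} {ω : Sample} {K1 c2 ρ0 : ℝ}
  {hS : GP (SU u ε ω : Set ℂ)}

theorem inn_b (hN : u.n + 4 ≤ N) (C : CorEnv u ε √ε K1 c2 ρ0 ω) {a : ℤ} {v : ℂ}
    (h : v ∈ RR (19 / 2 * et N) (103 / 2 * et N) (100 * et N) (ly u N).W a) :
    ¬ OnHull (SU u ε ω) v := by
  have e0 := et_pos N
  exact C.inn (SxZx832.RR_UU hN (by linarith) (by linarith) (by linarith) (by linarith) a h)

/-- the white strips are inner -/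
theorem inn_Rws (hN : u.n + 4 ≤ N) (C : CorEnv u ε √ε K1 c2 ρ0 ω) : ∀ v ∈ SU u ε ω,
    v ∈ Rws (et N) (ly u N).W (oT u w N) (nT u w N) (ly u N).M → ¬ OnHull (SU u ε ω) v :=
  fun _ _ ⟨_, _, _, h⟩ => inn_b hN C h

/-- the out strips are inner -/
theorem inn_Rts (hN : u.n + 4 ≤ N) (C : CorEnv u ε √ε K1 c2 ρ0 ω) : ∀ v ∈ SU u ε ω,
    v ∈ Rts (et N) (ly u N).W (oT u w N) (nT u w N) → ¬ OnHull (SU u ε ω) v :=
  fun _ _ ⟨_, _, _, h⟩ => inn_b hN C h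

/-- **`R` of 832's system in 831's / 117's / 228's form** -/
theorem Rc_RC (hN : u.n + 4 ≤ N) (C : CorEnv u ε √ε K1 c2 ρ0 ω) :
    Rc hS w N = RC hS (Rws (et N) (ly u N).W (oT u w N) (nT u w N) (ly u N).M) :=
  clR_RC (inn_Rws hN C)

/-- in 831's `CorrZ` form (`RwD`) -/
theorem Rc_RwD (hN : u.n + 4 ≤ N) (C : CorEnv u ε √ε K1 c2 ρ0 ω) :
    Rc hS w N = RC hS (Clo2 (et N) (ly u N).W (ly u N).M (oT u w N) (nT u w N)) := by
  rw [← rws_clo]
  exact Rc_RC hN C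

/-- in 568's form -/
theorem Rc_clo : Rc hS w N =
    clR hS (Clo2 (et N) (ly u N).W (ly u N).M (oT u w N) (nT u w N)) := by
  rw [← rws_clo]

/-- **`Zz.R` of 832's system** -/
theorem Zq_RC (hN : u.n + 4 ≤ N) (C : CorEnv u ε √ε K1 c2 ρ0 ω) (hd : 100 * √ε ≤ et N)
    {J : Set ℤ} (hJ : oT u w N ∈ J) (hJ' : oT u w N + nT u w N - 1 ∈ J) {h₀ : Cs hS} :
    (Zq hS hN C hd w hJ hJ' h₀).R =
      RC hS (Rts (et N) (ly u N).W (oT u w N) (nT u w N)) :=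
  clR_RC (inn_Rts hN C)

/-- `hR1` of 568's `low_gA`, `nk_gA` -/
theorem hR1 : ∀ c ∈ Rc hS w N, ∃ v ∈ SU u ε ω,
    v ∈ BR (et N) (ly u N).W (ly u N).M (oT u w N) (nT u w N) ∧ c.1 = Quot.mk _ v :=
  fun _ ⟨v, h1, h2, h3⟩ => ⟨v, h1, h2, h3⟩

/-- `hR2` of 568's `low_gA`, `nk_gA` -/
theorem hR2 (h3 : 3 ≤ (SU u ε ω).card) : ∀ v ∈ SU u ε ω,
    v ∈ BR (et N) (ly u N).W (ly u N).M (oT u w N) (nT u w N) →
      ∃ c ∈ Rc hS w N, c.1 = Quot.mk _ v :=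
  fun v h1 h2 => ⟨cs hS h3 ⟨v, h1⟩, ⟨v, h1, h2, rfl⟩, rfl⟩

/-- 597's giants are 571's -/
theorem GI_Ag {h3 : 3 ≤ (SU u ε ω).card} {h₀ : Cs hS} {R : Set (Cs hS)} {Zz : Zn (rc0 hS)}
    {σ : Finset ℂ} : GI hS h3 w N h₀ R Zz σ =
      UKinCx571.Ag hS h₀ R Zz (et N) (ly u N).W (ly u N).A (ly u N).e w
        (SmallAx304.chiS hS h3 σ) := rfl

end env

end Crest.Agent.R143.BrZx609
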