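import Crest.Agent.R143.MajA_389
import Crest.Agent.R143.Eng_490
import Crest.Agent.R143.Avg_126
import Crest.Agent.R143.Resa_778

/-!
# Row 143 (S0194), block H, box [E2] (helper126): black sets of sites and pairs of colourings

`S` sites, `chiS hS h3 b` the colouring of the cells given by the black sites `b`, `av` the mean over
the fresh coins (136), `mix O σ τ` (778).
* `chiS_bk`, `eqi_chi` : 490's `bk` is a section of `chiS`
* `img`, `coins_img` : the coins of a set of cells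
* **`av_mix`** : `av S (coins of O (χ b)) (H ∘ χ) b = 2 ^ (-#C) Σ_τ H (mix O (χ b) τ)`
* **`bri`** : an inequality for pairs of colourings of the cells gives the inequality for `av`
-/

set_option autoImplicit false
set_option linter.unusedSectionVars false

noncomputable section

open scoped Classical

namespace Crest.Agent.R143.BriAx126

open Crest.Agent.R143.B0x346 Crest.Agent.R143.JColx54 Crest.Agent.R143.DelGx806
  Crest.Agent.R143.FinCx811 Crest.Agent.R143.Histx389 Crest.Agent.R143.HGluex136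
  Crest.Agent.R143.SmallAx304 Crest.Agent.R143.Resax778 Crest.Agent.R143.Engx490
  Crest.Agent.R143.MajAx389 Crest.Agent.R143.Avgx126
open scoped ENNReal

variable {S : Finset ℂ} {hS : GP (S : Set ℂ)} {h3 : 3 ≤ S.card}

theorem z01' (a : ZMod 2) : a = 1 ∨ a = 0 := by revert a; decide

/-- `bk` is a section of `chiS` -/
theorem chiS_bk (σ : Cs hS → ZMod 2) : chiS hS h3 (bk hS h3 σ) = σ := by
  funext c
  have h : (rp hS h3 c).1 ∈ bk hS h3 σ ↔ σ c = 1 := by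
    rw [mem_bk (rp hS h3 c).2]
    have : cs hS h3 ⟨(rp hS h3 c).1, (rp hS h3 c).2⟩ = c := cs_rp hS h3 c
    rw [this]
  unfold chiS
  rcases z01' (σ c) with h1 | h1
  · rw [if_pos (h.2 h1), h1]
  · rw [if_neg fun h2 => ?_, h1]
    have h3' := h.1 h2
    rw [h1] at h3'
    exact absurd h3' (by decide)

/-- the same inner colours -/
theorem eqi_chi (b : Finset ℂ) : Eqi S b (bk hS h3 (chiS hS h3 b)) := by
  intro v hv hn
  rw [mem_bk hv, chiS_inner hS h3 b (v := ⟨v, hv⟩) hn]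
  constructor
  · intro h
    exact if_pos h
  · intro h
    by_contra hc
    rw [if_neg hc] at h
    exact absurd h (by decide)

/-- the coins of a set of cells -/
def img (hS : GP (S : Set ℂ)) (h3 : 3 ≤ S.card) (X : Finset (Cs hS)) : Finset ℂ :=
  X.image fun c => (rp hS h3 c).1

theorem mem_img {X : Finset (Cs hS)} {c : Cs hS} : (rp hS h3 c).1 ∈ img hS h3 X ↔ c ∈ X := by
  unfold img
  rw [Finset.mem_image]
  constructor
  · rintro ⟨c', h1, h2⟩
    have : c' = c := rp_inj hS h3 (Subtype.ext h2)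
    rwa [this] at h1
  · intro h
    exact ⟨c, h, rfl⟩

theorem img_sub {X : Finset (Cs hS)} : img hS h3 X ⊆ S := by
  intro y hy
  obtain ⟨c, -, rfl⟩ := Finset.mem_image.1 hy
  exact (rp hS h3 c).2

/-- 389's coins -/
theorem coins_img (X : Set (Cs hS)) {Y : Finset (Cs hS)} (h : ∀ c, c ∈ Y ↔ c ∈ X) :
    RevAx389.coins S (cK hS h3) X = img hS h3 Y := by
  ext y
  have e : y ∈ RevAx389.coins S (cK hS h3) X ↔ y ∈ S ∧ ∃ c ∈ X, y ∈ cK hS h3 c := by
    unfold RevAx389.coins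
    simp only [Finset.mem_filter]
  rw [e]
  unfold img
  rw [Finset.mem_image]
  constructor
  · rintro ⟨-, c, hc, hy⟩
    exact ⟨c, (h c).2 hc, (Finset.mem_singleton.1 hy).symm⟩
  · rintro ⟨c, hc, rfl⟩
    exact ⟨(rp hS h3 c).2, c, (h c).1 hc, Finset.mem_singleton_self _⟩

/-- **the mean over the fresh coins is the mean over the second colouring** -/
theorem av_mix (O : (Cs hS → ZMod 2) → Finset (Cs hS)) (H : (Cs hS → ZMod 2) → ℝ≥0∞)
    (b : Finset ℂ) :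
    av S (img hS h3 (O (chiS hS h3 b))) (fun b => H (chiS hS h3 b)) b =
      ((2 : ℝ≥0∞) ^ Fintype.card (Cs hS))⁻¹ * ∑ τ, H (mix O (chiS hS h3 b) τ) := by
  set X := O (chiS hS h3 b) with hX
  set R := img hS h3 X with hR
  set σ := chiS hS h3 b with hσ
  have hRS : R ⊆ S := img_sub
  -- the glued colouring
  have e1 : ∀ b' ∈ (S \ R).powerset, chiS hS h3 (b' ∪ (b ∩ R)) = glue X σ (chiS hS h3 b') := by
    intro b' hb'
    have hb := Finset.mem_powerset.1 hb'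
    funext c
    by_cases hc : c ∈ X
    · rw [glue_on hc, hσ]
      have h1 : (rp hS h3 c).1 ∈ R := mem_img.2 hc
      have h2 : (rp hS h3 c).1 ∉ b' := fun h => (Finset.mem_sdiff.1 (hb h)).2 h1
      have h4 : (rp hS h3 c).1 ∈ b' ∪ (b ∩ R) ↔ (rp hS h3 c).1 ∈ b := by
        rw [Finset.mem_union, Finset.mem_inter]
        tauto
      unfold chiS
      rw [if_congr h4 rfl rfl]
    · rw [glue_off hc]
      have h1 : (rp hS h3 c).1 ∉ R := fun h => hc (mem_img.1 h)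
      have h4 : (rp hS h3 c).1 ∈ b' ∪ (b ∩ R) ↔ (rp hS h3 c).1 ∈ b' := by
        rw [Finset.mem_union, Finset.mem_inter]
        tauto
      unfold chiS
      rw [if_congr h4 rfl rfl]
  have e2 : ∑ b' ∈ S.powerset, H (glue X σ (chiS hS h3 b')) =
      (2 : ℝ≥0∞) ^ R.card * ∑ b' ∈ (S \ R).powerset, H (glue X σ (chiS hS h3 b')) := by
    rw [sum_pow_split hRS, Finset.mul_sum]
    refine Finset.sum_congr rfl fun β hβ => ?_
    have h5 : ∀ γ ∈ R.powerset, H (glue X σ (chiS hS h3 (β ∪ γ))) =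
        H (glue X σ (chiS hS h3 β)) := by
      intro γ hγ
      congr 1
      funext c
      by_cases hc : c ∈ X
      · rw [glue_on hc, glue_on hc]
      · rw [glue_off hc, glue_off hc]
        have h1 : (rp hS h3 c).1 ∉ R := fun h => hc (mem_img.1 h)
        have h6 : (rp hS h3 c).1 ∉ γ := fun h => h1 (Finset.mem_powerset.1 hγ h)
        have h4 : (rp hS h3 c).1 ∈ β ∪ γ ↔ (rp hS h3 c).1 ∈ β := by
          rw [Finset.mem_union]
          tauto
        unfold chiS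
        rw [if_congr h4 rfl rfl]
    rw [Finset.sum_congr rfl h5, Finset.sum_const, Finset.card_powerset, nsmul_eq_mul]
    push_cast
    rfl
  have e3 := avg_one hS h3 fun τ => H (glue X σ τ)
  rw [e2] at e3
  have hcard : (S \ R).card + R.card = S.card := Finset.card_sdiff_add_card_eq_card hRS
  have t1 : ∀ m : ℕ, (2 : ℝ≥0∞) ^ m ≠ 0 := fun m => by positivity
  have t2 : ∀ m : ℕ, (2 : ℝ≥0∞) ^ m ≠ ∞ := fun m => ENNReal.pow_ne_top (by norm_num)
  have e4 : ((2 : ℝ≥0∞) ^ S.card)⁻¹ * ((2 : ℝ≥0∞) ^ R.card *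
      ∑ b' ∈ (S \ R).powerset, H (glue X σ (chiS hS h3 b'))) =
      ((2 : ℝ≥0∞) ^ (S \ R).card)⁻¹ * ∑ b' ∈ (S \ R).powerset, H (glue X σ (chiS hS h3 b')) := by
    rw [← hcard, pow_add, ENNReal.mul_inv (Or.inl (t1 _)) (Or.inl (t2 _)), mul_assoc,
      ← mul_assoc ((2 : ℝ≥0∞) ^ R.card)⁻¹, ENNReal.inv_mul_cancel (t1 _) (t2 _), one_mul]
  rw [e4] at e3
  unfold av
  rw [Finset.sum_congr rfl fun b' hb' => congrArg H (e1 b' hb')]
  exact e3

/-- **THE BRIDGE** : an inequality for pairs of colourings of the cells -/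
theorem bri {γ γo : Finset ℂ → ℝ≥0∞} (hγ : ∀ b c, b ⊆ S → c ⊆ S → Eqi S b c → γ b = γ c)
    (hγo : ∀ b c, b ⊆ S → c ⊆ S → Eqi S b c → γo b = γo c) (hγt : ∀ b, b ⊆ S → γ b ≠ ∞)
    (hγot : ∀ b, b ⊆ S → γo b ≠ ∞)
    {H : (Cs hS → ZMod 2) → (Cs hS → ZMod 2) → ℝ} (hH : ∀ σ τ, 0 ≤ H σ τ) {K : ℝ} (hK : 0 ≤ K)
    {Ψ : Finset ℂ → ℝ≥0∞}
    (hΨ : ∀ b, b ⊆ S → γ b ≠ 0 → Ψ b ≤
      ((2 : ℝ≥0∞) ^ Fintype.card (Cs hS))⁻¹ * ∑ τ, ENNReal.ofReal (H (chiS hS h3 b) τ))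
    (h : ∑ σ, ∑ τ, (γ (bk hS h3 σ)).toReal * H σ τ ≤
      (2 : ℝ) ^ Fintype.card (Cs hS) * (K * ∑ σ, (γo (bk hS h3 σ)).toReal)) :
    ∑ b ∈ S.powerset, γ b * Ψ b ≤ ENNReal.ofReal K * ∑ b ∈ S.powerset, γo b := by
  have hbk : ∀ σ, bk hS h3 σ ⊆ S := bk_sub hS h3
  have t1 : ∀ m : ℕ, (2 : ℝ≥0∞) ^ m ≠ 0 := fun m => by positivity
  have t2 : ∀ m : ℕ, (2 : ℝ≥0∞) ^ m ≠ ∞ := fun m => ENNReal.pow_ne_top (by norm_num)
  set F : (Cs hS → ZMod 2) → ℝ≥0∞ := fun σ => γ (bk hS h3 σ) *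
    (((2 : ℝ≥0∞) ^ Fintype.card (Cs hS))⁻¹ * ∑ τ, ENNReal.ofReal (H σ τ)) with hF
  set Fo : (Cs hS → ZMod 2) → ℝ≥0∞ := fun σ => γo (bk hS h3 σ) with hFo
  -- the sums over the black sets
  have e1 : ∑ b ∈ S.powerset, γ b * Ψ b ≤ ∑ b ∈ S.powerset, F (chiS hS h3 b) := by
    refine Finset.sum_le_sum fun b hb => ?_
    have hb' := Finset.mem_powerset.1 hb
    have e : γ b = γ (bk hS h3 (chiS hS h3 b)) := hγ _ _ hb' (hbk _) (eqi_chi b)
    by_cases h0 : γ b = 0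
    · rw [h0, zero_mul]
      exact zero_le
    · show _ ≤ γ (bk hS h3 (chiS hS h3 b)) * _
      rw [← e]
      gcongr
      exact hΨ b hb' h0
  have e2 : ∑ b ∈ S.powerset, Fo (chiS hS h3 b) = ∑ b ∈ S.powerset, γo b := by
    refine Finset.sum_congr rfl fun b hb => ?_
    exact (hγo _ _ (Finset.mem_powerset.1 hb) (hbk _) (eqi_chi b)).symm
  refine e1.trans ?_
  rw [← e2]
  set n := S.card - Fintype.card (Cs hS) with hn
  rw [sum_chiS hS h3 F, sum_chiS hS h3 Fo, nsmul_eq_mul, nsmul_eq_mul, mul_left_comm]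
  gcongr
  -- the inequality for the cells
  have e3 : ∑ σ, F σ = ((2 : ℝ≥0∞) ^ Fintype.card (Cs hS))⁻¹ *
      ENNReal.ofReal (∑ σ, ∑ τ, (γ (bk hS h3 σ)).toReal * H σ τ) := by
    rw [ENNReal.ofReal_sum_of_nonneg fun σ _ => Finset.sum_nonneg fun τ _ =>
      mul_nonneg ENNReal.toReal_nonneg (hH σ τ), Finset.mul_sum]
    refine Finset.sum_congr rfl fun σ _ => ?_
    rw [ENNReal.ofReal_sum_of_nonneg fun τ _ => mul_nonneg ENNReal.toReal_nonneg (hH σ τ)]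
    show γ (bk hS h3 σ) * _ = _
    rw [mul_left_comm, Finset.mul_sum]
    congr 1
    refine Finset.sum_congr rfl fun τ _ => ?_
    rw [ENNReal.ofReal_mul ENNReal.toReal_nonneg, ENNReal.ofReal_toReal (hγt _ (hbk σ))]
  have e4 : ∑ σ, Fo σ = ENNReal.ofReal (∑ σ, (γo (bk hS h3 σ)).toReal) := by
    rw [ENNReal.ofReal_sum_of_nonneg fun σ _ => ENNReal.toReal_nonneg]
    refine Finset.sum_congr rfl fun σ _ => ?_
    rw [ENNReal.ofReal_toReal (hγot _ (hbk σ))]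
  rw [e3, e4]
  calc ((2 : ℝ≥0∞) ^ Fintype.card (Cs hS))⁻¹ *
        ENNReal.ofReal (∑ σ, ∑ τ, (γ (bk hS h3 σ)).toReal * H σ τ)
      ≤ ((2 : ℝ≥0∞) ^ Fintype.card (Cs hS))⁻¹ *
        ENNReal.ofReal ((2 : ℝ) ^ Fintype.card (Cs hS) *
          (K * ∑ σ, (γo (bk hS h3 σ)).toReal)) := by
        gcongr
    _ = ENNReal.ofReal K * ENNReal.ofReal (∑ σ, (γo (bk hS h3 σ)).toReal) := by
        rw [ENNReal.ofReal_mul (by positivity), ENNReal.ofReal_mul hK, ← mul_assoc,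
          show ENNReal.ofReal ((2 : ℝ) ^ Fintype.card (Cs hS)) =
            (2 : ℝ≥0∞) ^ Fintype.card (Cs hS) by
              rw [ENNReal.ofReal_pow (by norm_num)]; norm_num,
          ENNReal.inv_mul_cancel (t1 _) (t2 _), one_mul]

/-- the bridge for `av` and a mixed colouring -/
theorem bri_av {γ γo : Finset ℂ → ℝ≥0∞} (hγ : ∀ b c, b ⊆ S → c ⊆ S → Eqi S b c → γ b = γ c)
    (hγo : ∀ b c, b ⊆ S → c ⊆ S → Eqi S b c → γo b = γo c) (hγt : ∀ b, b ⊆ S → γ b ≠ ∞)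
    (hγot : ∀ b, b ⊆ S → γo b ≠ ∞)
    {O : (Cs hS → ZMod 2) → Finset (Cs hS)} {R : Finset ℂ → Finset ℂ}
    (hR : ∀ b, b ⊆ S → γ b ≠ 0 → R b = img hS h3 (O (chiS hS h3 b)))
    {H : (Cs hS → ZMod 2) → ℝ} (hH : ∀ μ, 0 ≤ H μ) {K : ℝ} (hK : 0 ≤ K)
    (h : ∑ σ, ∑ τ, (γ (bk hS h3 σ)).toReal * H (mix O σ τ) ≤
      (2 : ℝ) ^ Fintype.card (Cs hS) * (K * ∑ σ, (γo (bk hS h3 σ)).toReal)) :
    ∑ b ∈ S.powerset, γ b * av S (R b) (fun b => ENNReal.ofReal (H (chiS hS h3 b))) b ≤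
      ENNReal.ofReal K * ∑ b ∈ S.powerset, γo b := by
  refine bri hγ hγo hγt hγot (H := fun σ τ => H (mix O σ τ)) (fun _ _ => hH _) hK ?_ h
  intro b hb h0
  rw [hR b hb h0]
  exact (av_mix O (fun μ => ENNReal.ofReal (H μ)) b).le

end Crest.Agent.R143.BriAx126
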