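import Crest.Agent.R143.Rel2_63
import Crest.Agent.R143.Sides_697

/-!
# Row 143 (S0194): the total `∑ r_t Q_t` is a boundary sum (helper848, note 3080)

* `rr z t = z b + om z c + om² z a` for `t = (a, b, c)`; `TT N z = ∑ t ∈ N.T, rr z t * N.Q t`
  (every triangle is counted three times, with its rotations; the product does not depend on the
  rotation)
* `vertex_form` : `(1 - om) * TT N z = 3 * ∑ v, z v * MM N v`
* `MM_free'` : `MM N v = 0` if no side at `v` is killed or on the boundary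
* `tri_side` : three legs from a triangle with a vertex on the side `i` : only one rotation
* `TT_eq` : **`TT N z = 3 * ∑ i, om ^ i * ∑ v on the side i, z v * mu N i v`**, `mu N i v ≥ 0`
-/

set_option autoImplicit false

noncomputable section

open scoped Classical

namespace Crest.Agent.R143.Bsumx848

open Crest.Agent.R143.B0x346 Crest.Agent.R143.Oscx63 Crest.Agent.R143.Sidesx697
open Crest.Agent.R143.J1x872 (cases_z3 Good omz_add_one om_cube)

variable {V : Type} {N : Net V} {z : V → ℂ}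

/-- the field `b + om c + om² a` of the triangle `(a, b, c)` -/
def rr (z : V → ℂ) (t : V × V × V) : ℂ := z t.2.1 + om * z t.2.2 + om ^ 2 * z t.1

/-- the total (three times the sum over the triangles) -/
def TT (N : Net V) (z : V → ℂ) : ℂ := ∑ t ∈ N.T, rr z t * N.Q t

/-- the two sides of `(a, b, c)` at `a` are live -/
def LL (N : Net V) (t : V × V × V) : Prop := (t.1, t.2.1) ∉ N.kl ∧ (t.2.2, t.1) ∉ N.kl

/-- the weight of the vertex `v` -/
def MM (N : Net V) (v : V) : ℂ :=
  ∑ t ∈ N.T.filter (fun t => t.1 = v ∧ LL N t), (N.F v t.2.2 - N.F v t.2.1)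

theorem om_sum : 1 + om + om ^ 2 = 0 := by
  have h1 := om_cube
  have h2 : om ≠ 1 := by
    intro h
    have := norm_one_sub_om
    rw [h, sub_self, norm_zero] at this
    have h3 : (0 : ℝ) < Real.sqrt 3 := Real.sqrt_pos.2 (by norm_num)
    linarith
  have h3 : (om - 1) * (1 + om + om ^ 2) = 0 := by linear_combination h1
  rcases mul_eq_zero.1 h3 with h | h
  · exact absurd (sub_eq_zero.1 h) h2
  · exact h

/-- rotation -/
def rot3 (t : V × V × V) : V × V × V := (t.2.1, t.2.2, t.1)

theorem rot3_mem {t : V × V × V} (h : t ∈ N.T) : rot3 t ∈ N.T := N.rot h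

theorem sum_rot3 {A : Type} [AddCommMonoid A] (f : V × V × V → A) :
    ∑ t ∈ N.T, f (rot3 t) = ∑ t ∈ N.T, f t := by
  refine Finset.sum_nbij' rot3 (fun t => rot3 (rot3 t)) (fun t ht => rot3_mem ht)
    (fun t ht => rot3_mem (rot3_mem ht)) ?_ ?_ ?_
  · intro t _; rfl
  · intro t _; rfl
  · intro t _; rfl

/-- term of one corner -/
def gg (N : Net V) (z : V → ℂ) (t : V × V × V) : ℂ :=
  if LL N t then z t.1 * (N.F t.1 t.2.2 - N.F t.1 t.2.1) else 0

theorem tri_form {t : V × V × V} (hR : RelAt N t)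
    (hQ : ∀ a b c : V, (a, b, c) ∈ rots t → (a, b) ∈ N.kl → N.Q (a, b, c) = 0) :
    (1 - om) * (rr z t * N.Q t) = gg N z t + gg N z (rot3 t) + gg N z (rot3 (rot3 t)) := by
  obtain ⟨a, b, c⟩ := t
  have q1 : N.Q (b, c, a) = om * N.Q (a, b, c) := Q_rot N a b c
  have q2 : N.Q (c, a, b) = om ^ 2 * N.Q (a, b, c) := by rw [Q_rot, q1]; ring
  have om0 : om ≠ 0 := by
    intro h; have := om_cube; rw [h] at this; norm_num at this
  have hQ1 : (a, b) ∈ N.kl → N.Q (a, b, c) = 0 := hQ a b c (by simp [rots])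
  have hQ2 : (b, c) ∈ N.kl → N.Q (a, b, c) = 0 := fun h => by
    have := hQ b c a (by simp [rots]) h
    rw [q1] at this
    exact (mul_eq_zero.1 this).resolve_left om0
  have hQ3 : (c, a) ∈ N.kl → N.Q (a, b, c) = 0 := fun h => by
    have := hQ c a b (by simp [rots]) h
    rw [q2] at this
    exact (mul_eq_zero.1 this).resolve_left (pow_ne_zero _ om0)
  unfold gg rr rot3 LL
  simp only
  by_cases h1 : (a, b) ∈ N.kl
  · rw [hQ1 h1]
    by_cases h2 : (b, c) ∈ N.kl
    · simp [h1, h2]
    · by_cases h3 : (c, a) ∈ N.kl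
      · simp [h1, h3]
      · have e := hR.j2 a b c (by simp [rots]) h1 h2 h3
        simp only [h1, h2, h3, not_true_eq_false, not_false_eq_true, false_and, and_false,
          and_self, if_false, if_true]
        rw [F_comm N c b, e, F_comm N c a]
        ring
  · by_cases h2 : (b, c) ∈ N.kl
    · rw [hQ2 h2]
      by_cases h3 : (c, a) ∈ N.kl
      · simp [h2, h3]
      · have e := hR.j2 b c a (by simp [rots]) h2 h3 h1
        simp only [h1, h2, h3, not_true_eq_false, not_false_eq_true, false_and, and_false,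
          and_self, if_false, if_true]
        rw [F_comm N a c, e]
        ring
    · by_cases h3 : (c, a) ∈ N.kl
      · rw [hQ3 h3]
        have e := hR.j2 c a b (by simp [rots]) h3 h1 h2
        simp only [h1, h2, h3, not_true_eq_false, not_false_eq_true, false_and, and_false,
          and_self, if_false, if_true]
        rw [F_comm N b a, e]
        ring
      · obtain ⟨h, e1, e2, e3⟩ := hR.j1 h1 h2 h3
        simp only at e1 e2 e3
        simp only [h1, h2, h3, not_false_eq_true, and_self, if_true]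
        rw [F_comm N a c, F_comm N b a, F_comm N c b, e1, e2, e3]
        have o := om_cube
        linear_combination (z b * N.Q (a, b, c) * 0) * o +
          (-(N.Q (a, b, c)) * z a) * o

/-- **vertex form** -/
theorem vertex_form (hR : ∀ t ∈ N.T, RelAt N t)
    (hQ : ∀ a b c : V, (a, b, c) ∈ N.T → (a, b) ∈ N.kl → N.Q (a, b, c) = 0) :
    (1 - om) * TT N z = 3 * ∑ v ∈ N.T.image (fun t => t.1), z v * MM N v := by
  have hrots : ∀ {t : V × V × V}, t ∈ N.T → ∀ a b c : V, (a, b, c) ∈ rots t → (a, b, c) ∈ N.T := by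
    rintro ⟨x, y, w⟩ ht a b c h
    simp only [rots, Set.mem_insert_iff, Set.mem_singleton_iff, Prod.mk.injEq] at h
    rcases h with ⟨rfl, rfl, rfl⟩ | ⟨rfl, rfl, rfl⟩ | ⟨rfl, rfl, rfl⟩
    · exact ht
    · exact N.rot ht
    · exact N.rot (N.rot ht)
  have h1 : (1 - om) * TT N z = 3 * ∑ t ∈ N.T, gg N z t := by
    unfold TT
    rw [Finset.mul_sum, Finset.sum_congr rfl fun t ht => tri_form (z := z) (hR t ht)
      (fun a b c h => hQ a b c (hrots ht a b c h)), Finset.sum_add_distrib,
      Finset.sum_add_distrib, sum_rot3 (gg N z), sum_rot3 (fun t => gg N z (rot3 t)),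
      sum_rot3 (gg N z)]
    ring
  rw [h1]
  congr 1
  rw [← Finset.sum_fiberwise_of_maps_to (s := N.T) (t := N.T.image (fun t => t.1))
    (g := fun t => t.1) (fun t ht => Finset.mem_image_of_mem _ ht)]
  refine Finset.sum_congr rfl fun v _ => ?_
  unfold MM gg
  rw [Finset.mul_sum, Finset.sum_filter, Finset.sum_filter]
  refine Finset.sum_congr rfl fun t _ => ?_
  by_cases h : t.1 = v
  · subst h
    by_cases h2 : LL N t
    · simp [h2]
    · simp [h2]
  · simp [h]

/-- **free vertices have weight zero** -/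
theorem MM_free' {v : V} (hb : ∀ u c : V, (u, v, c) ∈ N.T ∨ (v, u, c) ∈ N.T → (v, u) ∉ N.kl)
    (hl : ∀ u c : V, (u, v, c) ∈ N.T → ∃ c', (v, u, c') ∈ N.T)
    (hr : ∀ u c : V, (v, u, c) ∈ N.T → ∃ c', (u, v, c') ∈ N.T) : MM N v = 0 := by
  have hk : ∀ u c : V, (u, v, c) ∈ N.T ∨ (v, u, c) ∈ N.T → (u, v) ∉ N.kl :=
    fun u c h1 h => hb u c h1 (N.klsym _ _ h)
  unfold MM
  have e : N.T.filter (fun t => t.1 = v ∧ LL N t) = N.T.filter (fun t => t.1 = v) := by
    refine Finset.filter_congr fun t ht => ?_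
    unfold LL
    constructor
    · exact fun h => h.1
    · rintro rfl
      exact ⟨rfl, hb _ _ (Or.inr ht), hk _ _ (Or.inl (N.rot (N.rot ht)))⟩
  rw [e, Finset.sum_sub_distrib, sub_eq_zero]
  -- both sides are the sum over the neighbours
  choose! nx hnx using hr
  choose! pv hpv using hl
  refine Finset.sum_nbij' (fun t => (v, t.2.2, (if h : ∃ c', (v, t.2.2, c') ∈ N.T then h.choose else v)))
    (fun t => (v, (if h : ∃ c', (t.2.1, v, c') ∈ N.T then h.choose else v), t.2.1)) ?_ ?_ ?_ ?_ ?_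
  · rintro ⟨a, b, c⟩ ht
    rw [Finset.mem_filter] at ht
    obtain ⟨ht, rfl⟩ := ht
    simp only at ht ⊢
    have h1 : ∃ c', (a, c, c') ∈ N.T := ⟨_, hpv c b (N.rot (N.rot ht))⟩
    rw [Finset.mem_filter, dif_pos h1]
    exact ⟨h1.choose_spec, rfl⟩
  · rintro ⟨a, b, c⟩ ht
    rw [Finset.mem_filter] at ht
    obtain ⟨ht, rfl⟩ := ht
    simp only at ht ⊢
    have h1 : ∃ c', (b, a, c') ∈ N.T := ⟨_, hnx b c ht⟩
    rw [Finset.mem_filter, dif_pos h1]
    exact ⟨N.rot h1.choose_spec, rfl⟩
  · rintro ⟨a, b, c⟩ ht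
    rw [Finset.mem_filter] at ht
    obtain ⟨ht, rfl⟩ := ht
    simp only at ht ⊢
    have h1 : ∃ c', (c, a, c') ∈ N.T := ⟨b, N.rot (N.rot ht)⟩
    rw [dif_pos h1, N.uniq h1.choose_spec (N.rot (N.rot ht))]
  · rintro ⟨a, b, c⟩ ht
    rw [Finset.mem_filter] at ht
    obtain ⟨ht, rfl⟩ := ht
    simp only at ht ⊢
    have h1 : ∃ c', (a, b, c') ∈ N.T := ⟨c, ht⟩
    rw [dif_pos h1, N.uniq h1.choose_spec ht]
  · rintro ⟨a, b, c⟩ ht
    obtain ⟨ht, rfl⟩ := Finset.mem_filter.1 ht
    rfl

/-! ### three legs from a triangle with a vertex on a side -/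

section side

theorem z3a : ∀ k m : ZMod 3, m = k ∨ m = k + 1 ∨ m = k + 1 + 1 := by decide

theorem z3b : ∀ m : ZMod 3, m + 1 ≠ m ∧ m + 2 ≠ m := by decide

theorem z3c : ∀ i j : ZMod 3, i ≠ j → j = i + 1 ∨ i = j + 1 := by decide

theorem z3d : ∀ i k : ZMod 3, k ≠ i + 2 → k + 2 ≠ i + 2 → k = i + 1 := by decide

open Crest.Agent.R143.JCardx872 Crest.Agent.R143.J1x872

variable {G : Trg V} {kl : Set (V × V)} {D : Set (V × V)} {a b c : V} {J : Finset (V × V)}

/-- a join with the odd triangle `(a, b, c)` whose side `(a, b)` is a mark, without this mark -/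
theorem erase_mark (ht : (a, b, c) ∈ G.T) (hm : (a, b) ∈ D)
    (hJ : IsJoin G kl (rots (a, b, c)) D J) : IsJoin G kl ∅ (D \ {(a, b)}) (J.erase (a, b)) := by
  have hab : a ≠ b := G.ne ht
  have hmk := hJ.mark a b hm
  have hD : ∀ {x y : V}, (x, y) ∉ D \ {(a, b)} → (x, y) ≠ (a, b) → (x, y) ∉ D := by
    intro x y h1 h2 h3
    exact h1 ⟨h3, h2⟩
  refine ⟨?_, ?_, ?_, ?_, ?_, ?_⟩
  · exact (Finset.erase_subset _ _).trans hJ.sub
  · intro x y h1 h2
    rw [Finset.mem_erase, Finset.mem_erase]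
    by_cases e1 : (x, y) = (a, b)
    · rw [Prod.mk.injEq] at e1
      obtain ⟨rfl, rfl⟩ := e1
      simp [hmk.2]
    · by_cases e2 : (y, x) = (a, b)
      · rw [Prod.mk.injEq] at e2
        obtain ⟨rfl, rfl⟩ := e2
        simp [hmk.2]
      · have := hJ.sym x y (hD h1 e1) (hD h2 e2)
        tauto
  · rintro x y ⟨h1, h2⟩
    have h3 := hJ.mark x y h1
    exact ⟨Finset.mem_erase.2 ⟨h2, h3.1⟩, fun h => h3.2 (Finset.mem_erase.1 h).2⟩
  · intro x y h1 h2
    rw [Finset.mem_erase, Finset.mem_erase]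
    by_cases e1 : (x, y) = (a, b)
    · rw [Prod.mk.injEq] at e1
      obtain ⟨rfl, rfl⟩ := e1
      exact ⟨by simp, fun h => hmk.2 h.2⟩
    · have := hJ.bdr x y h1 (hD h2 e1)
      exact ⟨fun h => this.1 h.2, fun h => this.2 h.2⟩
  · intro x y h1 h2 h3
    rw [Finset.mem_erase, Finset.mem_erase]
    by_cases e1 : (x, y) = (a, b)
    · rw [Prod.mk.injEq] at e1
      obtain ⟨rfl, rfl⟩ := e1
      exact ⟨by simp, fun h => hmk.2 h.2⟩
    · by_cases e2 : (y, x) = (a, b)
      · rw [Prod.mk.injEq] at e2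
        obtain ⟨rfl, rfl⟩ := e2
        exact ⟨fun h => hmk.2 h.2, by simp⟩
      · have := hJ.kill x y h1 (hD h2 e1) (hD h3 e2)
        exact ⟨fun h => this.1 h.2, fun h => this.2 h.2⟩
  · intro x y z h
    have hp := hJ.par x y z h
    rw [if_neg (Set.notMem_empty _)]
    obtain ⟨n1, n2, n3⟩ := sides_ne h
    by_cases hs : (x, y, z) ∈ rots (a, b, c)
    · rw [if_pos hs] at hp
      rcases side_of_mem_rots hs with e | e | e
      · have e2 : (y, z) ≠ (a, b) := by rw [← e]; exact n1.symm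
        have e3 : (z, x) ≠ (a, b) := by rw [← e]; exact n3.symm
        simp only [Finset.mem_erase, ne_eq, e2, e3, not_false_eq_true, true_and]
        simp only [e, hmk.1, not_true_eq_false, false_and, if_true, if_false] at hp ⊢
        omega
      · have e2 : (x, y) ≠ (a, b) := by rw [← e]; exact n1
        have e3 : (z, x) ≠ (a, b) := by rw [← e]; exact n2.symm
        simp only [Finset.mem_erase, ne_eq, e2, e3, not_false_eq_true, true_and]
        simp only [e, hmk.1, not_true_eq_false, false_and, if_true, if_false] at hp ⊢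
        omega
      · have e2 : (x, y) ≠ (a, b) := by rw [← e]; exact n3
        have e3 : (y, z) ≠ (a, b) := by rw [← e]; exact n2
        simp only [Finset.mem_erase, ne_eq, e2, e3, not_false_eq_true, true_and]
        simp only [e, hmk.1, not_true_eq_false, false_and, if_true, if_false] at hp ⊢
        omega
    · rw [if_neg hs] at hp
      have e1 : (x, y) ≠ (a, b) := fun e => hs (mem_rots_of_side ht h (Or.inl e))
      have e2 : (y, z) ≠ (a, b) := fun e => hs (mem_rots_of_side ht h (Or.inr (Or.inl e)))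
      have e3 : (z, x) ≠ (a, b) := fun e => hs (mem_rots_of_side ht h (Or.inr (Or.inr e)))
      simp only [Finset.mem_erase, ne_eq, e1, e2, e3, not_false_eq_true, true_and]
      exact hp

/-- three legs: the leg of the middle of the side `0`, walking away from `t` -/
theorem out_leg (hg : Good N) (ht : (a, b, c) ∈ N.T) (hP : P1 N (a, b, c))
    (hJ : J ∈ N.tj (a, b, c)) {k : ZMod 3} (hT : N.Tri3 (a, b, c) k J) (hm : (a, b) ∉ N.exS) :
    IsJoin N.toTrg N.kl ∅ (N.exS ∪ {(b, a)}) (J.erase (a, b)) ∧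
      Leads N.toTrg ∅ (N.exS ∪ {(b, a)}) (J.erase (a, b)) (b, a) (rev (N.ex k)) := by
  have hJ' := tj_join hJ
  have hm' : (b, a) ∉ N.exS := by
    have := sw_sd_notMark hg ht 0
    rw [sd0] at this
    exact this
  refine ⟨erase_isJoin' ht hm hm' hJ' hT.1, ?_⟩
  have h1 := (right_half hg ht hJ' hP (by rw [sd0]; exact hT.1) (by rw [sd0]; exact hm) k).1
    (Or.inl hT)
  rw [sd0] at h1
  exact h1

/-- if the side `0` is a mark then it is the mark `k` -/
theorem out_mark (hg : Good N) {k : ZMod 3} (hT : N.Tri3 (a, b, c) k J) (hm : (a, b) ∈ N.exS) :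
    N.ex k = (a, b) := by
  obtain ⟨k', hk'⟩ := hm
  have h1 : Ends N.toTrg (rots (a, b, c)) N.exS J (b, a) (N.ex (0 + k)) := hT.2.2.2.1
  rw [zero_add] at h1
  have h2 : Ends N.toTrg (rots (a, b, c)) N.exS J (b, a) (N.ex k') := by
    unfold Ends
    rw [hk']
    exact Relation.ReflTransGen.refl
  have := J1x872.ends_unique hg (le_refl _) h1 h2
  rw [this, hk']

theorem pair_join0 (hg : Good N) (ht : (a, b, c) ∈ N.T) (hP : P1 N (a, b, c))
    (hJ : J ∈ N.tj (a, b, c)) {k : ZMod 3} (hT : N.Tri3 (a, b, c) k J) :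
    ∃ J', IsJoin N.toTrg N.kl ∅ (N.exS \ {N.ex k}) J' := by
  by_cases hm : (a, b) ∈ N.exS
  · rw [out_mark hg hT hm]
    exact ⟨_, erase_mark ht hm (tj_join hJ)⟩
  · obtain ⟨h1, h2⟩ := out_leg hg ht hP hJ hT hm
    have h3 := leg_removed h1 (Or.inr rfl) (Or.inl ⟨k, rfl⟩) h2
    have hm' : (b, a) ∉ N.exS := by
      have := sw_sd_notMark hg ht 0
      rw [sd0] at this
      exact this
    have e : (N.exS ∪ {(b, a)}) \ {(b, a), N.ex k} = N.exS \ {N.ex k} := by
      ext p
      simp only [Set.mem_sdiff, Set.mem_union, Set.mem_singleton_iff, Set.mem_insert_iff, not_or]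
      constructor
      · rintro ⟨h4 | h4, h5, h6⟩
        · exact ⟨h4, h6⟩
        · exact absurd h4 h5
      · rintro ⟨h4, h5⟩
        exact ⟨Or.inl h4, fun h6 => hm' (h6 ▸ h4), h5⟩
    rw [e] at h3
    exact ⟨_, h3⟩

theorem pair_join (hg : Good N) (ht : (a, b, c) ∈ N.T) (hP : P1 N (a, b, c))
    (hJ : J ∈ N.tj (a, b, c)) {k : ZMod 3} (hT : N.Tri3 (a, b, c) k J) (m : ZMod 3) :
    ∃ J', IsJoin N.toTrg N.kl ∅ (N.exS \ {N.ex m}) J' := by
  have h1 : ∃ J', IsJoin N.toTrg N.kl ∅ (N.exS \ {N.ex k}) J' := pair_join0 hg ht hP hJ hT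
  have h2 : ∃ J', IsJoin N.toTrg N.kl ∅ (N.exS \ {N.ex (k + 1)}) J' :=
    pair_join0 hg (N.rot ht) (p1_rot _ _ _ hP) (by rw [J1x872.tj_rot]; exact hJ)
      ((tri3_rot a b c k J).2 hT)
  have h3 : ∃ J', IsJoin N.toTrg N.kl ∅ (N.exS \ {N.ex (k + 1 + 1)}) J' :=
    pair_join0 hg (N.rot (N.rot ht)) (p1_rot _ _ _ (p1_rot _ _ _ hP))
      (by rw [J1x872.tj_rot, J1x872.tj_rot]; exact hJ) ((tri3_rot b c a (k + 1) J).2 ((tri3_rot a b c k J).2 hT))
  have : m = k ∨ m = k + 1 ∨ m = k + 1 + 1 := z3a k m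
  rcases this with rfl | rfl | rfl
  · exact h1
  · exact h2
  · exact h3

/-- **the sides are disjoint** as soon as the pairs of marks can be joined -/
theorem side_disj (hM : Marks3 N) (hC : HasCol N)
    (h : ∀ m : ZMod 3, ∃ J', IsJoin N.toTrg N.kl ∅ (N.exS \ {N.ex m}) J') {i j : ZMod 3} {v : V}
    (hi : Side N i v) (hj : Side N j v) : i = j := by
  -- the side `m + 1` has not the colour of the sides `m` and `m + 2`
  have key : ∀ m : ZMod 3, Side N (m + 1) v → (Side N m v ∨ Side N (m + 2) v) → False := by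
    intro m h1 h2
    obtain ⟨J', hJ'⟩ := h m
    have hD' : N.exS \ {N.ex m} ⊆ N.exS := Set.sdiff_subset
    obtain ⟨σ, hσ⟩ := hC _ hD' _ hJ'
    have s1 : ∀ j, σ (N.ex (j + 1)).1 = σ (N.ex j).2 := fun j => col_side hJ' hD' hσ (hM.next j)
    have s2 : ∀ j, j ≠ m → σ (N.ex j).1 ≠ σ (N.ex j).2 := by
      intro j hj
      have h3 : ((N.ex j).1, (N.ex j).2) ∈ N.exS \ {N.ex m} :=
        ⟨⟨j, rfl⟩, fun h4 => hM.ne j m hj h4⟩
      have h4 := (hJ'.mark _ _ h3).1
      exact (hσ _ _ (hJ'.sub h4)).2 (Or.inl h4)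
    have c1 : σ v = σ (N.ex (m + 1)).2 := col_side hJ' hD' hσ h1
    have d1 := s2 (m + 1) (z3b m).1
    rw [s1 m] at d1
    have d2 := s2 (m + 2) (z3b m).2
    have e2 : σ (N.ex (m + 2)).1 = σ (N.ex (m + 1)).2 := by
      have := s1 (m + 1)
      have e3 : m + 1 + 1 = m + 2 := by ring
      rwa [e3] at this
    rw [e2] at d2
    rcases h2 with h2 | h2
    · have c2 : σ v = σ (N.ex m).2 := col_side hJ' hD' hσ h2
      exact d1 (by rw [← c2, c1])
    · have c2 : σ v = σ (N.ex (m + 2)).2 := col_side hJ' hD' hσ h2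
      exact d2 (by rw [← c1, c2])
  by_contra hij
  have h3 : j = i + 1 ∨ i = j + 1 := z3c i j hij
  rcases h3 with rfl | rfl
  · exact key i hj (Or.inl hi)
  · exact key j hi (Or.inl hj)

/-- **three legs from a triangle with a vertex on the side `i`: only the rotation `i + 1`** -/
theorem tri_side (hg : Good N) (hM : Marks3 N) (hC : HasCol N) (ht : (a, b, c) ∈ N.T)
    (hP : P1 N (a, b, c)) (hJ : J ∈ N.tj (a, b, c)) {i k : ZMod 3} (hi : Side N i a)
    (hT : N.Tri3 (a, b, c) k J) : k = i + 1 := by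
  have hdis : ∀ {i j : ZMod 3} {v : V}, Side N i v → Side N j v → i = j := fun h1 h2 =>
    side_disj hM hC (pair_join hg ht hP hJ hT) h1 h2
  -- the side `(a, b)`
  have k1 : k ≠ i + 2 := by
    by_cases hm : (a, b) ∈ N.exS
    · have h1 := out_mark hg hT hm
      have h2 : Side N (k - 1) a := by
        have := hM.next (k - 1)
        rw [sub_add_cancel, h1] at this
        exact this
      have h3 := hdis hi h2
      rw [h3]
      generalize k = x
      revert x; decide
    · obtain ⟨h1, h2⟩ := out_leg hg ht hP hJ hT hm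
      have hm' : (b, a) ∉ N.exS := by
        have := sw_sd_notMark hg ht 0
        rw [sd0] at this
        exact this
      exact end_side hM hC hm' h1 (Or.inr hi) h2
  -- the side `(c, a)`
  have k2 : k + 2 ≠ i + 2 := by
    have ht2 := N.rot (N.rot ht)
    have hP2 := p1_rot _ _ _ (p1_rot _ _ _ hP)
    have hJ2 : J ∈ N.tj (c, a, b) := by rw [J1x872.tj_rot, J1x872.tj_rot]; exact hJ
    have hT2 : N.Tri3 (c, a, b) (k + 1 + 1) J :=
      (tri3_rot b c a (k + 1) J).2 ((tri3_rot a b c k J).2 hT)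
    have e : k + 2 = k + 1 + 1 := by ring
    rw [e]
    by_cases hm : (c, a) ∈ N.exS
    · have h1 := out_mark hg hT2 hm
      have h2 : Side N (k + 1 + 1) a := by
        have : Side N (k + 1 + 1) (N.ex (k + 1 + 1)).2 := Relation.ReflTransGen.refl
        rw [h1] at this
        exact this
      have h3 := hdis hi h2
      rw [h3]
      generalize k = x
      revert x; decide
    · obtain ⟨h1, h2⟩ := out_leg hg ht2 hP2 hJ2 hT2 hm
      have hm' : (a, c) ∉ N.exS := by
        have := sw_sd_notMark hg ht2 0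
        rw [sd0] at this
        exact this
      exact end_side hM hC hm' h1 (Or.inl hi) h2
  exact z3d i k k1 k2

/-- the amplitude of a triangle with a vertex on the side `i` -/
theorem Q_side (hg : Good N) (hM : Marks3 N) (hC : HasCol N) (ht : (a, b, c) ∈ N.T)
    (hP : P1 N (a, b, c)) {i : ZMod 3} (hi : Side N i a) :
    N.Q (a, b, c) = (N.triA (a, b, c) (i + 1) : ℂ) * omz (i + 1) := by
  unfold Net.Q
  refine Finset.sum_eq_single (i + 1) ?_ (fun h => absurd (Finset.mem_univ _) h)
  intro k _ hk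
  have : N.triA (a, b, c) k = 0 := by
    unfold Net.triA
    rw [Finset.filter_false_of_mem]
    · simp
    · intro J hJ hT
      exact hk (tri_side hg hM hC ht hP hJ hi hT)
  rw [this]
  simp

/-- a triangle with a vertex on the side `j` has no other amplitude than `j + 1` -/
theorem triA_side (hg : Good N) (hM : Marks3 N) (hC : HasCol N) (ht : (a, b, c) ∈ N.T)
    (hP : P1 N (a, b, c)) {i k : ZMod 3} (hi : Side N i a) (hk : k ≠ i + 1) :
    N.triA (a, b, c) k = 0 := by
  unfold Net.triA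
  rw [Finset.filter_false_of_mem]
  · simp
  · intro J hJ hT
    exact hk (tri_side hg hM hC ht hP hJ hi hT)

/-- the weight of the vertex `v` on the side `i` -/
def mu (N : Net V) (i : ZMod 3) (v : V) : ℝ :=
  ∑ t ∈ N.T.filter (fun t => t.1 = v), N.triA t (i + 1)

theorem triA_nonneg (N : Net V) (t : V × V × V) (k : ZMod 3) : 0 ≤ N.triA t k := by
  unfold Net.triA
  positivity

theorem mu_nonneg (N : Net V) (i : ZMod 3) (v : V) : 0 ≤ mu N i v :=
  Finset.sum_nonneg fun _ _ => triA_nonneg _ _ _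

theorem omz_two (i : ZMod 3) : om ^ 2 * omz (i + 1) = omz i := by
  rw [J1x872.omz_add_one, ← mul_assoc, ← pow_succ, om_cube, one_mul]

/-- one corner of a triangle with the vertex `a` on the side `i` -/
theorem corner (hg : Good N) (hM : Marks3 N) (hC : HasCol N) (ht : (a, b, c) ∈ N.T)
    (hP : P1 N (a, b, c)) (hR : RelAt N (a, b, c)) {i : ZMod 3} (hi : Side N i a)
    (hL : LL N (a, b, c)) :
    N.F a c - N.F a b = (1 - om) * (omz i * (N.triA (a, b, c) (i + 1) : ℂ)) := by
  have hQ := Q_side hg hM hC ht hP hi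
  by_cases h2 : (b, c) ∈ N.kl
  · have e := hR.j2 b c a (by simp [rots]) h2 hL.2 hL.1
    have h3 : N.Q (a, b, c) = 0 := by
      have h4 := J1x872.q_killed hg (N.rot ht) h2
      rw [J1x872.q_rot] at h4
      exact (mul_eq_zero.1 h4).resolve_left (fun h => by
        have := om_cube; rw [h] at this; norm_num at this)
    rw [h3] at hQ
    have h5 : omz (i + 1) ≠ 0 := by
      intro h; have := omz_two i
      unfold omz at h this
      have h6 : om ≠ 0 := fun h => by have := om_cube; rw [h] at this; norm_num at this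
      exact pow_ne_zero _ h6 h
    have h6 : (N.triA (a, b, c) (i + 1) : ℂ) = 0 := (mul_eq_zero.1 hQ.symm).resolve_right h5
    rw [F_comm N a c, e, h6]
    ring
  · obtain ⟨h, e1, e2, e3⟩ := hR.j1 hL.1 h2 hL.2
    simp only at e1 e2 e3
    rw [F_comm N a c, e3, e1, hQ]
    have e4 := omz_two i
    have e5 : omz (i + 1) = om * omz i := J1x872.omz_add_one i
    linear_combination (N.triA (a, b, c) (i + 1) : ℂ) * e4 - (N.triA (a, b, c) (i + 1) : ℂ) * e5

/-- **the weight of a vertex on the side `i`** -/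
theorem MM_side (hg : Good N) (hM : Marks3 N) (hC : HasCol N) (hP : ∀ t ∈ N.T, P1 N t)
    (hR : ∀ t ∈ N.T, RelAt N t) {i : ZMod 3} {v : V} (hi : Side N i v) :
    MM N v = (1 - om) * (omz i * (mu N i v : ℂ)) := by
  unfold MM mu
  push_cast
  rw [Finset.mul_sum, Finset.mul_sum, Finset.sum_filter, Finset.sum_filter]
  refine Finset.sum_congr rfl fun t ht => ?_
  obtain ⟨a, b, c⟩ := t
  by_cases h : a = v
  · subst h
    by_cases hL : LL N (a, b, c)
    · simp only [hL, and_self, if_true]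
      exact corner hg hM hC ht (hP _ ht) (hR _ ht) hi hL
    · simp only [hL, and_false, if_false, if_true]
      have h3 : N.Q (a, b, c) = 0 := by
        have hom : om ≠ 0 := fun h => by have := om_cube; rw [h] at this; norm_num at this
        unfold LL at hL
        simp only [not_and_or, not_not] at hL
        rcases hL with hL | hL
        · exact J1x872.q_killed hg ht hL
        · have h4 := J1x872.q_killed hg (N.rot (N.rot ht)) hL
          rw [J1x872.q_rot, J1x872.q_rot] at h4
          exact (mul_eq_zero.1 ((mul_eq_zero.1 h4).resolve_left hom)).resolve_left hom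
      rw [Q_side hg hM hC ht (hP _ ht) hi] at h3
      have h5 : omz (i + 1) ≠ 0 := by
        intro h
        unfold omz at h
        have h6 : om ≠ 0 := fun h => by have := om_cube; rw [h] at this; norm_num at this
        exact pow_ne_zero _ h6 h
      rw [(mul_eq_zero.1 h3).resolve_right h5]
      simp
  · simp [h]

/-- **end point formula**, general network -/
theorem TT_gen (hg : Good N) (hM : Marks3 N) (hC : HasCol N) (hP : ∀ t ∈ N.T, P1 N t)
    (hR : ∀ t ∈ N.T, RelAt N t) (hF : ∀ v, (∀ i, ¬ Side N i v) → MM N v = 0) (z : V → ℂ) :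
    TT N z = 3 * ∑ i : ZMod 3, omz i *
      ∑ v ∈ (N.T.image fun t => t.1).filter (Side N i), z v * (mu N i v : ℂ) := by
  have hQ : ∀ a b c : V, (a, b, c) ∈ N.T → (a, b) ∈ N.kl → N.Q (a, b, c) = 0 :=
    fun a b c ht hk => J1x872.q_killed hg ht hk
  have h1 := vertex_form (z := z) hR hQ
  have h2 : ∀ v, MM N v = (1 - om) * ∑ i : ZMod 3, (if Side N i v then omz i * (mu N i v : ℂ) else 0) := by
    intro v
    by_cases h : ∃ i, Side N i v
    · obtain ⟨i, hi⟩ := h
      rw [MM_side hg hM hC hP hR hi, Finset.sum_eq_single i, if_pos hi]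
      · intro j _ hj
        split_ifs with hjs
        · have : mu N j v = 0 := by
            unfold mu
            refine Finset.sum_eq_zero fun t ht => ?_
            rw [Finset.mem_filter] at ht
            obtain ⟨a, b, c⟩ := t
            obtain ⟨ht, rfl⟩ := ht
            exact triA_side hg hM hC ht (hP _ ht) hi (fun h => hj (add_right_cancel h))
          rw [this]
          simp
        · rfl
      · exact fun h => absurd (Finset.mem_univ _) h
    · push Not at h
      rw [hF v h, Finset.sum_eq_zero, mul_zero]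
      intro i _
      rw [if_neg (h i)]
  have hne : (1 - om : ℂ) ≠ 0 := by
    rw [← norm_pos_iff, norm_one_sub_om]
    exact Real.sqrt_pos.2 (by norm_num)
  apply mul_left_cancel₀ hne
  rw [h1]
  simp_rw [h2, Finset.mul_sum, Finset.sum_filter]
  rw [Finset.sum_comm]
  refine Finset.sum_congr rfl fun i _ => ?_
  refine Finset.sum_congr rfl fun v _ => ?_
  split_ifs <;> ring

end side

/-! ### networks on Delaunay triangulations -/

section hnet

open Crest.Agent.R143.DelRx806

variable {S : Finset ℂ} {N : Net ℂ} {n : ℕ} {w : ℤ → ℂ}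

theorem wall_hull (h : HNet S N) {a b : ℂ} (hE : hullE S a b) (hm : (a, b) ∉ N.exS) :
    Wall N a b := by
  refine ⟨mem_E_of_hull h hE, hm, ?_, Or.inr (Or.inl fun c hc => ?_)⟩
  · rintro ⟨k, hk⟩
    have h5 := h.hex k
    rw [hk] at h5
    exact hullE_asymm hE h5
  · rw [h.tri] at hc
    exact hE.2 c hc

theorem pos_per {m : ℤ → ℤ} (P : Pos N n w m) (q i : ℤ) : m (i + 3 * q) = m i + n * q := by
  have h5 : ∀ (q : ℕ) (i : ℤ), m (i + 3 * q) = m i + n * q := by
    intro q
    induction q with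
    | zero => intro i; simp
    | succ q ihq =>
      intro i
      have e5 : i + 3 * ((q + 1 : ℕ) : ℤ) = (i + 3 * q) + 3 := by push_cast; ring
      rw [e5, P.per, ihq]
      push_cast
      ring
  rcases le_total 0 q with h7 | h7
  · obtain ⟨q', rfl⟩ := Int.eq_ofNat_of_zero_le h7
    exact h5 q' i
  · obtain ⟨q', hq'⟩ := Int.eq_ofNat_of_zero_le (show 0 ≤ -q by omega)
    have h8 := h5 q' (i + 3 * q)
    have h9 : i + 3 * q + 3 * (q' : ℤ) = i := by rw [← hq']; ring
    rw [h9, ← hq'] at h8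
    linarith

/-- between two marks the hull vertices are on the side -/
theorem side_hull (h : HNet S N) (H : HullCyc S n w) {m : ℤ → ℤ} (P : Pos N n w m) (j : ℤ) :
    ∀ d : ℕ, m j + 1 + d ≤ m (j + 1) → Side N (j : ZMod 3) (w (m j + 1 + d)) := by
  intro d
  induction d with
  | zero =>
    intro _
    simp only [Nat.cast_zero, add_zero]
    unfold Side
    rw [P.ex j]
  | succ d ih =>
    intro hd
    push_cast at hd
    have ih' := ih (by omega)
    set l : ℤ := m j + 1 + d with hl
    have hl' : m j + 1 + ((d + 1 : ℕ) : ℤ) = l + 1 := by push_cast; rw [hl]; ring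
    rw [hl']
    refine Relation.ReflTransGen.tail ih' (wall_hull h (H.edge l) ?_)
    rintro ⟨k, hk⟩
    obtain ⟨k', rfl⟩ := ZMod.intCast_surjective k
    rw [P.ex k'] at hk
    obtain ⟨q, hq⟩ := hull_inj H (congrArg Prod.fst hk)
    have h7 : m (k' + 3 * (-q)) = l := by
      rw [pos_per P, hq]; ring
    have h8 : j < k' + 3 * (-q) := P.mono.lt_iff_lt.1 (by rw [h7]; omega)
    have h9 : k' + 3 * (-q) < j + 1 := P.mono.lt_iff_lt.1 (by rw [h7]; omega)
    omega

/-- every hull vertex is on a side -/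
theorem exists_side (h : HNet S N) {a b : ℂ} (hE : hullE S a b) : ∃ i, Side N i a := by
  obtain ⟨n, w, H⟩ : ∃ n w, HullCyc S n w := hull_cycle h.gp (card3 h)
  obtain ⟨m, P⟩ := exists_pos h H
  obtain ⟨l, h1, h2, h3, -⟩ := hull_window H (m 0 + 1) hE
  have hm3 : m 3 = m 0 + n := by have := P.per 0; simpa using this
  have m01 := P.mono (show (0 : ℤ) < 1 by norm_num)
  have m12 := P.mono (show (1 : ℤ) < 2 by norm_num)
  have m23 := P.mono (show (2 : ℤ) < 3 by norm_num)
  have key : ∀ j : ℤ, m j + 1 ≤ l → l ≤ m (j + 1) → ∃ i, Side N i a := by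
    intro j h5 h6
    have h7 := side_hull h H P j (l - (m j + 1)).toNat (by omega)
    rw [show m j + 1 + ((l - (m j + 1)).toNat : ℤ) = l by omega, h3] at h7
    exact ⟨_, h7⟩
  by_cases c1 : l ≤ m 1
  · exact key 0 (by omega) (by simpa using c1)
  · by_cases c2 : l ≤ m 2
    · exact key 1 (by omega) (by simpa using c2)
    · exact key 2 (by omega) (by norm_num; omega)

theorem hull_succ (h : HNet S N) {a b : ℂ} (hE : hullE S a b) : ∃ c, hullE S b c := by
  obtain ⟨n, w, H⟩ : ∃ n w, HullCyc S n w := hull_cycle h.gp (card3 h)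
  obtain ⟨i, -, -, -, h4⟩ := H.all a b hE
  have := H.edge (i + 1)
  rw [h4] at this
  exact ⟨_, this⟩

/-- **END POINT FORMULA** (note 3080). `hkl` : every killed edge is joined to a side by walls (the
domain is simply connected). `mu N i v ≥ 0` is the probability that the leg of the mark `i + 2` first
touches the side `i` at `v`. -/
theorem TT_eq (h : HNet S N) (hR : ∀ t ∈ N.T, RelAt N t)
    (hkl : ∀ a b : ℂ, (a, b) ∈ N.kl → (a, b) ∈ N.E → ∃ i, Side N i a) (z : ℂ → ℂ) :
    TT N z = 3 * ∑ i : ZMod 3, omz i *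
      ∑ v ∈ (N.T.image fun t => t.1).filter (Side N i), z v * (mu N i v : ℂ) := by
  have hg := J1x872.good_of_hnet h
  have hP : ∀ t ∈ N.T, J1x872.P1 N t := fun t ht =>
    Rel2x63.p1all N S h t (by rw [← h.tri]; exact ht)
  refine TT_gen hg (marks3_of h) (hasCol h) hP hR ?_ z
  intro v hv
  have hE : ∀ {u c : ℂ}, (u, v, c) ∈ N.T → (v, u) ∈ N.E := fun {u c} ht =>
    (JCardx872.mem_E_of_tri ht).2
  have nk : ∀ u c : ℂ, (u, v, c) ∈ N.T ∨ (v, u, c) ∈ N.T → (v, u) ∉ N.kl := by
    intro u c ht hk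
    rcases ht with ht | ht
    · obtain ⟨i, hi⟩ := hkl v u hk (JCardx872.mem_E_of_tri ht).2
      exact hv i hi
    · obtain ⟨i, hi⟩ := hkl v u hk (JCardx872.mem_E_of_tri ht).1
      exact hv i hi
  refine MM_free' nk ?_ ?_
  · intro u c ht
    by_contra h1
    push Not at h1
    rw [h.tri] at ht h1
    obtain ⟨c', hc'⟩ := hull_succ h ⟨⟨c, ht⟩, h1⟩
    obtain ⟨i, hi⟩ := exists_side h hc'
    exact hv i hi
  · intro u c ht
    by_contra h1
    push Not at h1
    rw [h.tri] at ht h1
    obtain ⟨i, hi⟩ := exists_side h ⟨⟨c, ht⟩, h1⟩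
    exact hv i hi

end hnet

end Crest.Agent.R143.Bsumx848
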