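import Crest.Agent.R143.Coarse_166
import Crest.Agent.R143.Frame9_395

/-!
# Row 143 (S0194), block H, H4 (i) part 1: closed blocks of a coarse map with one giant (helper432)

`M' = coarse M π hπ`, `o : C'` the giant, all the other classes of `π` are single genuine cells
(`Gt M π o`).

* `nx_surj` : in a block whose old cells are genuine every gap is the first return of a gap of the
  block
* `gen_coarse` : genuine cells of `M` outside the giant are genuine cells of `M'`
* `Cls` : the block of `M'` does not leave the giant; `closed_eq` : **a closed block of `M'` is a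
  block of `M`**
* `SameF x y` : `y` agrees with `x` on the faces visited by the loops of `x`; `SameF.blk` : the
  blocks of the gaps of `x` are the same for `y`
* `fil π o χ` : the colours `χ` with the giant filled with `1`; `Rim` : the cells of the giant next to
  the other cells have the colour `1`; `closed_real` : **a closed block of the coarse map is a block
  of the real configuration**
-/

set_option autoImplicit false

noncomputable section

open scoped Classical

namespace Crest.Agent.R143.Budx432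

open Crest.Agent.R143.Frame1x395 Crest.Agent.R143.Frame2x395 Crest.Agent.R143.Frame3x395
  Crest.Agent.R143.Frame4x395 Crest.Agent.R143.Frame8x395 Crest.Agent.R143.Frame9x395
  Crest.Agent.R143.Coarsex166

variable {D C C' : Type} {M : CMap D C} {x y : D → ZMod 2}

/-- every gap of a block with genuine old cells is the first return of a gap of the block -/
theorem nx_surj [Fintype D] (h : IsC M ∅ x) {g0 : D} (hg0 : Gp M x g0)
    (G : ∀ k ∈ blk M x g0, Gen M (M.cell (M.rho k))) {g : D} (hg : g ∈ blk M x g0) :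
    ∃ k ∈ blk M x g0, Nx M x k g := by
  have ne : ∀ k ∈ blk M x g0, M.cell k ≠ M.cell (M.rho k) := by
    intro k hk e
    have := (G k hk).ne (M.rho k) rfl
    rw [M.rho3] at this
    exact this e
  have ex : ∀ k, ∃ g, k ∈ blk M x g0 → Gp M x g ∧ Nx M x k g := by
    intro k
    by_cases hk : k ∈ blk M x g0
    · obtain ⟨g, hg⟩ := nx_exists h (mem_blk.1 hk).1 (ne k hk)
      exact ⟨g, fun _ => hg⟩
    · exact ⟨k, fun h => absurd h hk⟩
  choose nxt hn using ex
  have hmap : ∀ k ∈ blk M x g0, nxt k ∈ blk M x g0 := by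
    intro k hk
    obtain ⟨h1, h2⟩ := hn k hk
    obtain ⟨h3, h4⟩ := mem_blk.1 hk
    refine mem_blk.2 ⟨h1, ?_⟩
    by_cases hkg : k = nxt k
    · rw [← hkg]; exact h4
    · exact rel_trans h hg0 h3 h1 h4 (nx_rel h h3 h1 hkg (G k hk) h2)
  have hinj : ∀ k ∈ blk M x g0, ∀ k' ∈ blk M x g0, nxt k = nxt k' → k = k' := by
    intro k hk k' hk' e
    have h1 := (hn k hk).2
    have h2 := (hn k' hk').2
    rw [← e] at h2
    exact nx_inj h (mem_blk.1 hk).1 (mem_blk.1 hk').1 h1 h2
  have himg : (blk M x g0).image nxt = blk M x g0 := by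
    apply Finset.eq_of_subset_of_card_le
    · intro g hg
      obtain ⟨k, hk, rfl⟩ := Finset.mem_image.1 hg
      exact hmap k hk
    · rw [Finset.card_image_of_injOn fun k hk k' hk' e => hinj k hk k' hk' e]
  rw [← himg] at hg
  obtain ⟨k, hk, rfl⟩ := Finset.mem_image.1 hg
  exact ⟨k, hk, (hn k hk).2⟩

variable {π : C → C'} {hπ : ClsCon M π} {o : C'}

/-- genuine cells of the coarse map -/
theorem gen_coarse {c : C} (G : Gen M c) (hinj : ∀ c', π c = π c' → c = c') :
    Gen (coarse M π hπ) (π c) := by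
  have key : ∀ {a : D}, (coarse M π hπ).cell a = π c → M.cell a = c := fun {a} ha =>
    (hinj _ (show π c = π (M.cell a) from ha.symm)).symm
  refine ⟨?_, ?_, ?_⟩
  · intro a ha
    refine ⟨G.lv a (key ha), ?_⟩
    show π (M.cell (M.rho (M.rho a))) ≠ π (M.cell (M.rho (M.rho (M.rho a))))
    rw [M.rho3, key ha]
    intro e
    exact G.ne a (key ha) (hinj _ e.symm).symm
  · intro a b ha hb
    exact G.orb a b (key ha) (key hb)
  · intro a ha e
    exact G.ne a (key ha) (key e)

/-- the giant `o`; all the other classes are single genuine cells -/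
structure Gt (M : CMap D C) (π : C → C') (o : C') : Prop where
  inj : ∀ c c', π c = π c' → c = c' ∨ π c = o
  gen : ∀ c, π c ≠ o → Gen M c

theorem Gt.inj' (T : Gt M π o) {c : C} (hc : π c ≠ o) : ∀ c', π c = π c' → c = c' := fun c' e =>
  (T.inj c c' e).resolve_right hc

theorem Gt.gen' (T : Gt M π o) {c : C} (hc : π c ≠ o) : Gen (coarse M π hπ) (π c) :=
  gen_coarse (T.gen c hc) (T.inj' hc)

/-- the set of gaps does not leave the giant -/
def Cls (M : CMap D C) (π : C → C') (o : C') (β : Finset D) : Prop :=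
  ∀ k ∈ β, π (M.cell (M.rho k)) ≠ o

/-- a closed block does not enter the giant either -/
theorem Cls.new [Fintype D] (T : Gt M π o) (h : IsC (coarse M π hπ) ∅ x) {g : D}
    (hg : Gp M x g) (hc : Cls M π o (blk (coarse M π hπ) x g)) {k : D}
    (hk : k ∈ blk (coarse M π hπ) x g) : π (M.cell k) ≠ o := by
  obtain ⟨k', hk', hn⟩ := nx_surj h hg (fun k hk => T.gen' (hc k hk)) hk
  have e : π (M.cell k) = π (M.cell (M.rho k')) := hn.1
  rw [e]
  exact hc k' hk'

/-- **a closed block of the coarse map is a block of the map** -/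
theorem closed_eq [Fintype D] (T : Gt M π o) (h : IsC (coarse M π hπ) ∅ x) {g : D}
    (hg : Gp M x g) (hc : Cls M π o (blk (coarse M π hπ) x g)) :
    blk M x g = blk (coarse M π hπ) x g := by
  have hx : IsC M ∅ x := IsC.of_coarse h
  apply Finset.Subset.antisymm _ blk_coarse_sub
  intro u hu
  set β := blk (coarse M π hπ) x g with hβ
  by_contra hn
  obtain ⟨gu, ru⟩ := mem_blk.1 hu
  have mβ : ∀ k ∈ β, Gp M x k ∧ Rel M x k u := by
    intro k hk
    obtain ⟨h1, h2⟩ := mem_blk.1 hk
    refine ⟨h1, ?_⟩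
    exact rel_trans hx h1 hg gu (rel_symm (rel_of_coarse h2)) ru
  -- the number of steps from `k` to `u`
  have reach : ∀ k ∈ β, ∃ n, (stp M x)^[n] (out M k) = M.rho u := by
    intro k hk
    obtain ⟨h1, h2⟩ := mβ k hk
    have hne : k ≠ u := fun e => hn (e ▸ hk)
    rcases h2 (M.cell (M.rho u)) with h3 | ⟨n, h3, -⟩ | ⟨n, h3, -⟩
    · exact absurd h3 hne
    · exact ⟨n, h3⟩
    · exact come_back hx gu h1 h3
  choose! nn hnn using reach
  obtain ⟨k, hk, hmin⟩ := Finset.exists_min_image β (fun k => if hk : ∃ n,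
    (stp M x)^[n] (out M k) = M.rho u then Nat.find hk else 0) ⟨g, self_mem hg⟩
  have ek : ∃ n, (stp M x)^[n] (out M k) = M.rho u := ⟨nn k, hnn k hk⟩
  obtain ⟨gk, rk⟩ := mβ k hk
  have hku : k ≠ u := fun e => hn (e ▸ hk)
  set m := Nat.find ek with hm
  have em : (stp M x)^[m] (out M k) = M.rho u := Nat.find_spec ek
  have eu : (stp M x)^[m + 1] (out M k) = out M u := by
    rw [Function.iterate_succ_apply', em, gu.stp hx]
  -- the gap `k'` of the block which leaves the new cell of `k`
  obtain ⟨k', hk', hnx⟩ := nx_surj h hg (fun k hk => T.gen' (hc k hk)) hk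
  have ec : M.cell (M.rho k') = M.cell k :=
    T.inj' (hc k' hk') _ (show π (M.cell (M.rho k')) = π (M.cell k) from hnx.1.symm)
  obtain ⟨gk', rk'⟩ := mβ k' hk'
  rcases rk (M.cell k) with h1 | ⟨n, -, h2⟩ | ⟨n, h1, h2⟩
  · exact hku h1
  · exact h2 0 (Nat.zero_le _) (cell_out hx gk)
  -- the arc from `u` to `k` avoids the new cell of `k`
  by_cases hkk : k' = k
  · refine h2 n le_rfl ?_
    rw [h1, ← hkk, ec, hkk]
  -- position of `rho k'` on the loop
  have r1 : Rel M x k k' := rel_trans hx gk gu gk' rk (rel_symm rk')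
  have hpos : ∃ i, (stp M x)^[i] (out M k) = M.rho k' := by
    rcases r1 (M.cell (M.rho k')) with h3 | ⟨i, h3, -⟩ | ⟨i, h3, -⟩
    · exact absurd h3.symm hkk
    · exact ⟨i, h3⟩
    · exact come_back hx gk' gk h3
  set i := Nat.find hpos with hi
  have ei : (stp M x)^[i] (out M k) = M.rho k' := Nat.find_spec hpos
  -- period
  have eper : (stp M x)^[n + 1 + (m + 1)] (out M k) = out M k := by
    rw [Function.iterate_add_apply, eu, Function.iterate_succ_apply', h1, gk.stp hx]
  have hiN : i < n + 1 + (m + 1) := by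
    by_contra hcon
    push Not at hcon
    have e2 : (stp M x)^[i - (n + 1 + (m + 1))] (out M k) = M.rho k' := by
      rw [← ei]
      conv_rhs => rw [show i = i - (n + 1 + (m + 1)) + (n + 1 + (m + 1)) by omega]
      rw [Function.iterate_add_apply, eper]
    have := Nat.find_min' hpos e2
    omega
  rcases lt_trichotomy i m with hlt | heq | hgt
  · -- `k'` is closer to `u`
    have e3 : (stp M x)^[m - (i + 1)] (out M k') = M.rho u := by
      have e4 : out M k' = (stp M x)^[i + 1] (out M k) := by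
        rw [Function.iterate_succ_apply', ei, gk'.stp hx]
      rw [e4, ← Function.iterate_add_apply, show m - (i + 1) + (i + 1) = m by omega, em]
    have e5 := hmin k' hk'
    rw [dif_pos ek, dif_pos ⟨_, e3⟩] at e5
    have e6 := Nat.find_min' (⟨_, e3⟩ : ∃ n, (stp M x)^[n] (out M k') = M.rho u) e3
    omega
  · rw [heq, em] at ei
    exact hn (rho_inj M ei ▸ hk')
  · -- `rho k'` is on the arc from `u` to `k`
    refine h2 (i - (m + 1)) (by omega) ?_
    have e3 : (stp M x)^[i - (m + 1)] (out M u) = M.rho k' := by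
      rw [← eu, ← Function.iterate_add_apply, show i - (m + 1) + (m + 1) = i by omega, ei]
    rw [e3, ec]

/-! ### the real configuration and the configuration with a filled giant -/

/-- `y` agrees with `x` on the faces of the loops of `x` -/
def SameF (M : CMap D C) (x y : D → ZMod 2) : Prop :=
  ∀ d, x d = 1 → y d = 1 ∧ x (M.rho d) = y (M.rho d)

theorem SameF.stp (S : SameF M x y) {p : D} (hp : x p = 1) : stp M y p = stp M x p := by
  unfold Frame1x395.stp
  rw [(S p hp).2]

theorem SameF.it (S : SameF M x y) (hx : IsC M ∅ x) {p : D} (hp : x p = 1) (n : ℕ) :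
    (Frame1x395.stp M y)^[n] p = (Frame1x395.stp M x)^[n] p := by
  induction n with
  | zero => rfl
  | succ n ih =>
    rw [Function.iterate_succ_apply', Function.iterate_succ_apply', ih, S.stp (occ_it hx hp n)]

theorem SameF.gp (S : SameF M x y) (hx : IsC M ∅ x) (hy : IsC M ∅ y) {g : D}
    (h1 : x (M.rho g) = 1) : Gp M y g ↔ Gp M x g := by
  obtain ⟨h2, h3⟩ := S _ h1
  have e1 := hx.par g
  have e2 := hy.par g
  rw [if_neg (Set.notMem_empty g), h1, h3] at e1
  rw [if_neg (Set.notMem_empty g), h2] at e2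
  have e3 : x g = y g := by
    have e4 : x g + 1 + y (M.rho (M.rho g)) = y g + 1 + y (M.rho (M.rho g)) := e1.trans e2.symm
    exact add_right_cancel (add_right_cancel e4)
  unfold Gp
  rw [h1, h2, e3]

theorem SameF.av (S : SameF M x y) (hx : IsC M ∅ x) {c : C} {p q : D} (hp : x p = 1) :
    Av M y c p q ↔ Av M x c p q := by
  unfold Av
  simp only [S.it hx hp]

theorem SameF.rel (S : SameF M x y) (hx : IsC M ∅ x) {g h : D} (hg : Gp M x g)
    (hh : Gp M x h) : Rel M y g h ↔ Rel M x g h := by
  unfold Frame3x395.Rel Sc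
  simp only [S.av hx (hg.out hx), S.av hx (hh.out hx)]

/-- **the blocks of `x` are blocks of `y`** -/
theorem SameF.blk [Fintype D] (S : SameF M x y) (hx : IsC M ∅ x) (hy : IsC M ∅ y) {g : D}
    (hg : Gp M x g) : Frame8x395.blk M y g = Frame8x395.blk M x g := by
  have hgy : Gp M y g := (S.gp hx hy hg.2).2 hg
  ext h
  rw [mem_blk, mem_blk]
  constructor
  · rintro ⟨h1, h2⟩
    have key : g = h ∨ ∃ n, (Frame1x395.stp M y)^[n] (out M g) = M.rho h := by
      rcases h2 (M.cell g) with h3 | ⟨n, h3, -⟩ | ⟨n, h3, -⟩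
      · exact Or.inl h3
      · exact Or.inr ⟨n, h3⟩
      · exact Or.inr (come_back hy h1 hgy h3)
    have h4 : x (M.rho h) = 1 := by
      rcases key with rfl | ⟨n, h3⟩
      · exact hg.2
      · rw [S.it hx (hg.out hx)] at h3
        rw [← h3]
        exact occ_it hx (hg.out hx) n
    have h5 := (S.gp hx hy h4).1 h1
    exact ⟨h5, (S.rel hx hg h5).1 h2⟩
  · rintro ⟨h1, h2⟩
    exact ⟨(S.gp hx hy h1.2).2 h1, (S.rel hx hg h1).2 h2⟩

/-- the colours with the giant filled with the colour `1` -/
def fil (π : C → C') (o : C') (χ : C → ZMod 2) (c : C) : ZMod 2 := if π c = o then 1 else χ c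

theorem fil_isC (T : Gt M π o) (χ : C → ZMod 2) : IsC (coarse M π hπ) ∅ (cfg M (fil π o χ)) := by
  rw [isC_coarse]
  have h0 : IsC M ∅ (cfg M (fil π o χ)) := by
    refine ⟨fun d hd => ?_, fun d => ?_, fun d => ?_⟩
    · unfold cfg
      rw [M.dead d hd, z_self]
    · by_cases hd : d ∈ M.live
      · unfold cfg
        rw [M.cell_iota d hd, cell_rho_iota M hd, add_comm]
      · have hd' : M.iota d ∉ M.live := fun h => hd (by
          have := M.iota_live _ h
          rwa [M.iota2] at this)
        unfold cfg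
        rw [M.dead d hd, M.dead _ hd', z_self, z_self]
    · rw [if_neg (Set.notMem_empty d)]
      unfold cfg
      rw [M.rho3]
      have key : ∀ a b c : ZMod 2, a + b + (b + c) + (c + a) = 0 := by decide
      exact key _ _ _
  refine ⟨h0, fun d _ e => ?_⟩
  unfold cfg fil
  rcases T.inj _ _ e with h1 | h1
  · rw [← h1, z_self]
  · rw [if_pos h1, if_pos (e ▸ h1)]
    decide

/-- the giant cells next to the other cells have the colour `1` -/
def Rim (M : CMap D C) (π : C → C') (o : C') (χ : C → ZMod 2) : Prop :=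
  ∀ d ∈ M.live, π (M.cell d) ≠ o → π (M.cell (M.rho d)) = o → χ (M.cell (M.rho d)) = 1

theorem Rim.k1 {χ : C → ZMod 2} (H : Rim M π o χ) {d : D} (hd : π (M.cell d) ≠ o) :
    fil π o χ (M.cell (M.rho d)) = χ (M.cell (M.rho d)) := by
  unfold fil
  by_cases hl : d ∈ M.live
  · by_cases h1 : π (M.cell (M.rho d)) = o
    · rw [if_pos h1, H d hl hd h1]
    · rw [if_neg h1]
  · rw [← M.dead d hl, if_neg hd]

theorem Rim.k2 {χ : C → ZMod 2} (H : Rim M π o χ) {d : D} (hd : π (M.cell d) ≠ o) :
    fil π o χ (M.cell (M.rho (M.rho d))) = χ (M.cell (M.rho (M.rho d))) := by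
  by_cases hl : M.rho (M.rho d) ∈ M.live
  · have e1 : M.cell (M.iota (M.rho (M.rho d))) = M.cell d := by
      rw [M.cell_iota _ hl, M.rho3]
    have h1 := H.k1 (d := M.iota (M.rho (M.rho d))) (by rw [e1]; exact hd)
    rwa [cell_rho_iota M hl] at h1
  · have e1 := M.dead _ hl
    rw [M.rho3] at e1
    unfold fil
    rw [e1, if_neg hd]

theorem Rim.same {χ : C → ZMod 2} (H : Rim M π o χ) :
    SameF M (cfg M (fil π o χ)) (cfg M χ) := by
  intro d hd
  have key : π (M.cell d) ≠ o ∨ π (M.cell (M.rho d)) ≠ o := by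
    by_contra hcon
    push Not at hcon
    unfold cfg fil at hd
    rw [if_pos hcon.1, if_pos hcon.2] at hd
    exact absurd hd (by decide)
  have e0 : ∀ {c : C}, π c ≠ o → fil π o χ c = χ c := fun h => if_neg h
  have key2 : fil π o χ (M.cell d) = χ (M.cell d) ∧
      fil π o χ (M.cell (M.rho d)) = χ (M.cell (M.rho d)) ∧
      fil π o χ (M.cell (M.rho (M.rho d))) = χ (M.cell (M.rho (M.rho d))) := by
    rcases key with h1 | h1
    · exact ⟨e0 h1, H.k1 h1, H.k2 h1⟩
    · have h2 := H.k2 h1
      rw [M.rho3] at h2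
      exact ⟨h2, e0 h1, H.k1 h1⟩
  obtain ⟨a1, a2, a3⟩ := key2
  unfold cfg at hd ⊢
  rw [a1, a2] at hd
  rw [a2, a3]
  exact ⟨hd, rfl⟩

/-- **the closed blocks of the filled configuration are blocks of the real configuration** -/
theorem closed_real [Fintype D] (T : Gt M π o) {χ : C → ZMod 2} (H : Rim M π o χ)
    {β : Finset D} (hβ : β ∈ blks (coarse M π hπ) (cfg M (fil π o χ))) (hc : Cls M π o β) :
    β ∈ blks M (cfg M χ) := by
  have h0 : IsC (coarse M π hπ) ∅ (cfg M (fil π o χ)) := fil_isC T χ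
  obtain ⟨g, hg, rfl⟩ := Finset.mem_image.1 hβ
  rw [mem_gaps] at hg
  have hg' : Gp M (cfg M (fil π o χ)) g := hg
  have hx := IsC.of_coarse h0
  have hy : IsC M ∅ (cfg M χ) := cfg_isC χ
  have e1 := closed_eq T h0 hg' hc
  have e2 := H.same.blk hx hy hg'
  rw [← e1, ← e2]
  exact Finset.mem_image_of_mem _ (mem_gaps.2 ((H.same.gp hx hy hg'.2).2 hg'))

end Crest.Agent.R143.Budx432
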