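import Crest.Agent.R143.C2S_395
import Crest.Agent.R143.K33_137

/-!
# Row 143 (S0194), CORE-C: mean of the coarse block sum = static `T` of three giants (helper395)

`M : CMap D C`, three disjoint connected sets of cells `A 0, A 1, A 2` (giants), `T` = black cells.

* `Hit M A i T k` : static hit: `cell k ∈ A i`, `cell (rho k)` joined to `A (i+1)` by free black
  cells, `cell (rho² k)` joined to `A (i+2)` by free white cells; `Hit.uniq`, `Hit.congr`
* `yv M A i T z` : `z` at the hit; `Ez M A i z` : its mean over all the colourings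
* `kB_hit`, `kA_hit` : the end gaps of the root block of the coarse map are the hits
* `ends_static` : **`Σ_{blk \ o} (z new − z old) = yv (m) Tᶜ − yv (m+2) T`**
* `mean_static` : **mean over the free colours of `Σ_{blk \ o} zs w z`
  `= w * (Ez m + w Ez (m+1) + w² Ez (m+2))`**, `m` = giant at `cell o`
* `mean_ends` : mean of `Σ_{blk \ o} (z new − z old)` `= Ez m − Ez (m+2)`
-/

set_option autoImplicit false

noncomputable section

open scoped Classical

namespace Crest.Agent.R143.C2SBx395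

open Crest.Agent.R143.Frame1x395 Crest.Agent.R143.Frame2x395 Crest.Agent.R143.Frame3x395
  Crest.Agent.R143.Frame4x395 Crest.Agent.R143.Frame8x395 Crest.Agent.R143.Frame9x395
  Crest.Agent.R143.NonXx592 Crest.Agent.R143.Coarsex166 Crest.Agent.R143.Coarse2x166
  Crest.Agent.R143.C2Sx395 Crest.Agent.R143.K33x137

variable {D C C' : Type} {M : CMap D C} {A : ZMod 3 → Set C} {i : ZMod 3} {T T' : Set C} {k k' : D}

/-- free cells -/
def Free (A : ZMod 3 → Set C) (c : C) : Prop := ∀ i, c ∉ A i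

/-- in `A i`, or joined to it by free cells of `T` -/
def Jn (M : CMap D C) (A : ZMod 3 → Set C) (i : ZMod 3) (T : Set C) (c : C) : Prop :=
  ∃ b ∈ A i, Relation.ReflTransGen (fun c c' => Ed M c c' ∧ Free A c' ∧ c' ∈ T) b c

/-- **static hit** of the giant `A i` -/
structure Hit (M : CMap D C) (A : ZMod 3 → Set C) (i : ZMod 3) (T : Set C) (k : D) : Prop where
  tgt : M.cell k ∈ A i
  blk : Jn M A (i + 1) T (M.cell (M.rho k))
  wht : Jn M A (i + 2) Tᶜ (M.cell (M.rho (M.rho k)))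

/-- three disjoint connected sets -/
structure Gi (M : CMap D C) (A : ZMod 3 → Set C) : Prop where
  disj : ∀ i j c, c ∈ A i → c ∈ A j → i = j
  con : ∀ i, Cn M (A i)

theorem Jn.cases {c : C} (h : Jn M A i T c) : c ∈ A i ∨ (Free A c ∧ c ∈ T) := by
  obtain ⟨b, hb, h⟩ := h
  rcases Relation.ReflTransGen.cases_tail h with e | ⟨d, -, h1⟩
  · exact Or.inl (e ▸ hb)
  · exact Or.inr h1.2

theorem Jn.cn (hc : Cn M (A i)) : Cn M {c | Jn M A i T c} := by
  have key : ∀ b ∈ A i, ∀ c, Relation.ReflTransGen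
      (fun c c' => Ed M c c' ∧ Free A c' ∧ c' ∈ T) b c → Lk M {c | Jn M A i T c} b c := by
    intro b hb c h
    induction h with
    | refl => exact Relation.EqvGen.refl _
    | @tail u v h1 h2 ih =>
      exact ih.trans' (Lk.edge (show Jn M A i T u from ⟨b, hb, h1⟩)
        (show Jn M A i T v from ⟨b, hb, h1.tail h2⟩) h2.1)
  have hsub : A i ⊆ {c | Jn M A i T c} := fun c hc => ⟨c, hc, .refl⟩
  rintro c ⟨b, hb, h⟩ c' ⟨b', hb', h'⟩
  exact Relation.EqvGen.trans _ _ _ (Relation.EqvGen.symm _ _ (key b hb c h))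
    (((hc b hb b' hb').mono hsub).trans' (key b' hb' c' h'))

theorem z3a : ∀ i : ZMod 3, i ≠ i + 1 ∧ i ≠ i + 2 ∧ i + 1 ≠ i + 2 := by decide

/-- **uniqueness of the hit** -/
theorem Hit.uniq [Finite D] (G : Gi M A) (h : Hit M A i T k) (h' : Hit M A i T k') : k = k' := by
  refine k33 (M := M) (α := A i) (β := {c | Jn M A (i + 1) T c})
    (γ := {c | Jn M A (i + 2) Tᶜ c}) ⟨G.con i, Jn.cn (G.con _), Jn.cn (G.con _), ?_, ?_, ?_⟩
    ⟨h.tgt, h.blk, h.wht⟩ ⟨h'.tgt, h'.blk, h'.wht⟩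
  · refine Set.disjoint_left.2 fun c h1 h2 => ?_
    rcases Jn.cases h2 with h3 | h3
    · exact (z3a i).1 (G.disj _ _ c h1 h3)
    · exact h3.1 i h1
  · refine Set.disjoint_left.2 fun c h1 h2 => ?_
    rcases Jn.cases h2 with h3 | h3
    · exact (z3a i).2.1 (G.disj _ _ c h1 h3)
    · exact h3.1 i h1
  · refine Set.disjoint_left.2 fun c h1 h2 => ?_
    rcases Jn.cases h1 with h3 | h3
    · rcases Jn.cases h2 with h4 | h4
      · exact (z3a i).2.2 (G.disj _ _ c h3 h4)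
      · exact h4.1 _ h3
    · rcases Jn.cases h2 with h4 | h4
      · exact h3.1 _ h4
      · exact h4.2 h3.2

theorem Jn.congr {c : C} (hT : ∀ c, Free A c → c ∈ T → c ∈ T') (h : Jn M A i T c) :
    Jn M A i T' c := by
  obtain ⟨b, hb, h⟩ := h
  exact ⟨b, hb, rtg_mono (fun _ _ h1 => ⟨h1.1, h1.2.1, hT _ h1.2.1 h1.2.2⟩) h⟩

/-- the hit depends on the colours of the free cells only -/
theorem Hit.congr (hT : ∀ c, Free A c → (c ∈ T ↔ c ∈ T')) (h : Hit M A i T k) :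
    Hit M A i T' k :=
  ⟨h.tgt, h.blk.congr fun c hc h => (hT c hc).1 h,
    h.wht.congr fun c hc (h : c ∉ T) => fun h' => h ((hT c hc).2 h')⟩

/-- `z` at the hit -/
def yv {R : Type} [Zero R] (M : CMap D C) (A : ZMod 3 → Set C) (i : ZMod 3) (T : Set C)
    (z : C → R) : R := if h : ∃ k, Hit M A i T k then z (M.cell h.choose) else 0

theorem yv_eq {R : Type} [Zero R] [Finite D] (G : Gi M A) (h : Hit M A i T k) (z : C → R) :
    yv M A i T z = z (M.cell k) := by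
  have h' : ∃ k, Hit M A i T k := ⟨k, h⟩
  unfold yv
  rw [dif_pos h', h'.choose_spec.uniq G h]

theorem yv_congr {R : Type} [Zero R] [Finite D] (G : Gi M A)
    (hT : ∀ c, Free A c → (c ∈ T ↔ c ∈ T')) (z : C → R) : yv M A i T z = yv M A i T' z := by
  by_cases h : ∃ k, Hit M A i T k
  · obtain ⟨k, hk⟩ := h
    rw [yv_eq G hk, yv_eq G (hk.congr hT)]
  · have h' : ¬ ∃ k, Hit M A i T' k := by
      rintro ⟨k, hk⟩
      exact h ⟨k, hk.congr fun c hc => (hT c hc).symm⟩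
    unfold yv
    rw [dif_neg h, dif_neg h']

/-! ### the end gaps of the root block -/

/-- `π` = contraction of the giants -/
structure Cq (π : C → C') (A : ZMod 3 → Set C) : Prop where
  surj : Function.Surjective π
  ker : ∀ c c', π c = π c' ↔ c = c' ∨ ∃ i, c ∈ A i ∧ c' ∈ A i

variable {π : C → C'} {hπ : ClsCon M π}

theorem Cq.mem (Q : Cq π A) (G : Gi M A) {c c' : C} (h : c ∈ A i) (e : π c' = π c) : c' ∈ A i := by
  rcases (Q.ker _ _).1 e with rfl | ⟨j, h1, h2⟩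
  · exact h
  · rwa [G.disj _ _ c h h2]

theorem Cq.eq (Q : Cq π A) {c c' : C} (h : c ∈ A i) (h' : c' ∈ A i) : π c = π c' :=
  (Q.ker _ _).2 (Or.inr ⟨i, h, h'⟩)

theorem Cq.ne (Q : Cq π A) (G : Gi M A) {j : ZMod 3} {c c' : C} (h : c ∈ A i) (h' : c' ∈ A j)
    (hij : i ≠ j) : π c ≠ π c' := fun e => hij (G.disj _ _ c h (Q.mem G h' e))

/-- root gap: `cell g ∈ A (i+1)`, `cell (rho g) ∈ A i`, `cell (rho² g) ∈ A (i+2)` -/
structure Root (M : CMap D C) (A : ZMod 3 → Set C) (i : ZMod 3) (g : D) : Prop where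
  r0 : M.cell g ∈ A (i + 1)
  r1 : M.cell (M.rho g) ∈ A i
  r2 : M.cell (M.rho (M.rho g)) ∈ A (i + 2)

theorem z3b : ∀ i : ZMod 3, i + 2 + 1 = i ∧ i + 2 + 2 = i + 1 ∧ i + 1 + 1 = i + 2 ∧
    i + 1 + 2 = i := by decide

theorem z3c : ∀ i j : ZMod 3, j = i ∨ j = i + 1 ∨ j = i + 2 := by decide

theorem Root.rot {g : D} (h : Root M A i g) : Root M A (i + 2) (M.rho g) := by
  refine ⟨?_, h.r2, ?_⟩
  · rw [(z3b i).1]; exact h.r1
  · rw [M.rho3, (z3b i).2.1]; exact h.r0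

theorem Root.free {g : D} (R : Root M A i g) (Q : Cq π A) {c : C}
    (h0 : π c ≠ π (M.cell g)) (h1 : π c ≠ π (M.cell (M.rho g)))
    (h2 : π c ≠ π (M.cell (M.rho (M.rho g)))) : Free A c := by
  intro j hj
  rcases z3c i j with rfl | rfl | rfl
  · exact h1 (Q.eq hj R.r1)
  · exact h0 (Q.eq hj R.r0)
  · exact h2 (Q.eq hj R.r2)

theorem JT.jn {g : D} (R : Root M A i g) (Q : Cq π A) (G : Gi M A) {χ : C' → ZMod 2}
    {s : ZMod 2} {T : Set C} (hT : ∀ c, χ (π c) = s → c ∈ T) {j : ZMod 3} {c₀ c : C}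
    (h0 : c₀ ∈ A j) (h : JT M π (Fr χ (π (M.cell g)) (π (M.cell (M.rho g)))
      (π (M.cell (M.rho (M.rho g)))) s) (π c₀) c) : Jn M A j T c := by
  obtain ⟨u, hu, h⟩ := h
  refine ⟨u, Q.mem G h0 hu, rtg_mono ?_ h⟩
  rintro a b ⟨⟨d, hd, h1⟩, h2, h3, h4, h5⟩
  refine ⟨?_, R.free Q h2 h3 h4, hT _ h5⟩
  rcases h1 with ⟨e1, e2⟩ | ⟨e1, e2⟩
  · exact ⟨d, e1, e2⟩
  · exact Ed.symm ⟨d, e1, e2⟩

section fin

variable [Fintype D] {χ : C' → ZMod 2} {g : D}

omit [Fintype D] in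
theorem gp_of (h0 : χ (π (M.cell g)) = 1) (h1 : χ (π (M.cell (M.rho g))) = 1)
    (h2 : χ (π (M.cell (M.rho (M.rho g)))) = 0) : Gp M (cfg (coarse M π hπ) χ) g := by
  constructor
  · show χ (π (M.cell g)) + χ (π (M.cell (M.rho g))) = 0
    rw [h0, h1]; decide
  · show χ (π (M.cell (M.rho g))) + χ (π (M.cell (M.rho (M.rho g)))) = 1
    rw [h1, h2]; decide

omit [Fintype D] in
theorem Root.single (R : Root M A i g) (Q : Cq π A) : ∀ c c' : C, π c = π c' →
    π c ≠ π (M.cell g) → π c ≠ π (M.cell (M.rho g)) → π c ≠ π (M.cell (M.rho (M.rho g))) →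
    c = c' := by
  intro c c' e h0 h1 h2
  rcases (Q.ker _ _).1 e with rfl | ⟨j, h3, -⟩
  · rfl
  · exact absurd h3 (R.free Q h0 h1 h2 j)

/-- **the gap at the giant `A i` is the hit of `A i`** -/
theorem kB_hit (R : Root M A i g) (Q : Cq π A) (G : Gi M A) (h0 : χ (π (M.cell g)) = 1)
    (h1 : χ (π (M.cell (M.rho g))) = 1) (h2 : χ (π (M.cell (M.rho (M.rho g)))) = 0) :
    Hit M A i {c | χ (π c) = 1} (kB (coarse M π hπ) (cfg (coarse M π hπ) χ) g) := by
  have hx : IsC (coarse M π hπ) ∅ (cfg (coarse M π hπ) χ) := cfg_isC _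
  obtain ⟨-, a1, a2, a3⟩ := kB_rain (hπ := hπ) hx rfl (gp_of (hπ := hπ) h0 h1 h2)
    (Q.ne G R.r0 R.r1 (z3a i).1.symm) (R.single Q)
  rw [h0] at a2
  rw [h2] at a3
  refine ⟨Q.mem G R.r1 a1, JT.jn R Q G (fun c hc => hc) R.r0 a2,
    JT.jn R Q G (fun c hc => ?_) R.r2 a3⟩
  show ¬ χ (π c) = 1
  rw [hc]; decide

/-- **the gap at the giant `A (i+1)` is the hit of `A (i+1)`, colours flipped** -/
theorem kA_hit (R : Root M A i g) (Q : Cq π A) (G : Gi M A) (h0 : χ (π (M.cell g)) = 1)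
    (h1 : χ (π (M.cell (M.rho g))) = 1) (h2 : χ (π (M.cell (M.rho (M.rho g)))) = 0) :
    Hit M A (i + 1) {c | χ (π c) = 1}ᶜ
      (M.rho (kA (coarse M π hπ) (cfg (coarse M π hπ) χ) g)) := by
  have hx : IsC (coarse M π hπ) ∅ (cfg (coarse M π hπ) χ) := cfg_isC _
  obtain ⟨-, a1, a2, a3⟩ := kA_rain (hπ := hπ) hx rfl (gp_of (hπ := hπ) h0 h1 h2)
    (Q.ne G R.r0 R.r1 (z3a i).1.symm) (R.single Q)
  rw [h0] at a2
  rw [h2] at a3
  refine ⟨Q.mem G R.r0 a1, ?_, ?_⟩
  · rw [(z3b i).2.2.1]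
    refine JT.jn R Q G (fun c hc => ?_) R.r2 a3
    show ¬ χ (π c) = 1
    rw [hc]; decide
  · rw [M.rho3, (z3b i).2.2.2, compl_compl]
    exact JT.jn R Q G (fun c hc => hc) R.r1 a2

/-- **pointwise end points** -/
theorem ends_static (R : Root M A i g) (Q : Cq π A) (G : Gi M A) (h0 : χ (π (M.cell g)) = 1)
    (h1 : χ (π (M.cell (M.rho g))) = 1) (h2 : χ (π (M.cell (M.rho (M.rho g)))) = 0)
    (z : C → ℂ) :
    z (M.cell (M.rho (kA (coarse M π hπ) (cfg (coarse M π hπ) χ) g))) -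
        z (M.cell (kB (coarse M π hπ) (cfg (coarse M π hπ) χ) g)) =
      yv M A (i + 1) {c | χ (π c) = 1}ᶜ z - yv M A i {c | χ (π c) = 1} z := by
  rw [yv_eq G (kB_hit (hπ := hπ) R Q G h0 h1 h2), yv_eq G (kA_hit (hπ := hπ) R Q G h0 h1 h2)]

theorem ends_sum (R : Root M A i g) (Q : Cq π A) (G : Gi M A) (h0 : χ (π (M.cell g)) = 1)
    (h1 : χ (π (M.cell (M.rho g))) = 1) (h2 : χ (π (M.cell (M.rho (M.rho g)))) = 0)
    (z : C → ℂ) :
    ∑ h ∈ (blk (coarse M π hπ) (cfg (coarse M π hπ) χ) g).erase g,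
        (z (M.cell (M.rho h)) - z (M.cell h)) =
      yv M A (i + 1) {c | χ (π c) = 1}ᶜ z - yv M A i {c | χ (π c) = 1} z := by
  rw [← ends_static (hπ := hπ) R Q G h0 h1 h2]
  refine ends (hπ := hπ) (cfg_isC _) (gp_of (hπ := hπ) h0 h1 h2)
    (Q.ne G R.r0 R.r1 (z3a i).1.symm) z ?_
  intro c c' e a1 a2 a3 _
  rw [R.single Q c c' e a1 a2 ?_]
  intro a4
  obtain ⟨k, hk, rfl⟩ := a3
  have h5 := (blk_col (M := coarse M π hπ) (cfg_isC _) (gp_of (hπ := hπ) h0 h1 h2) hk χ rfl).1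
  have h6 : χ (π (M.cell k)) = χ (π (M.cell g)) := h5
  have a4' : π (M.cell k) = π (M.cell (M.rho (M.rho g))) := a4
  rw [a4', h2, h0] at h6
  exact absurd h6 (by decide)

end fin

/-! ### means -/

section mean

variable [Fintype D] [Fintype C] {z : C → ℂ} {g : D}

set_option linter.unusedSectionVars false

/-- colourings with the prescribed colours on the giants -/
def Pin (A : ZMod 3 → Set C) (χ₀ χ : C → ZMod 2) : Prop := ∀ c, ¬ Free A c → χ c = χ₀ c

omit [Fintype C] in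
theorem zz (a b : ZMod 2) : a + (b + a) = b := by revert a b; decide

theorem sum_pin {X : Type} [AddCommMonoid X] (χ₀ χ₁ : C → ZMod 2) (F : (C → ZMod 2) → X)
    (hF : ∀ χ χ', (∀ c, Free A c → χ c = χ' c) → F χ = F χ') :
    (∑ χ, if Pin A χ₀ χ then F χ else 0) = ∑ χ, if Pin A χ₁ χ then F χ else 0 := by
  have hinv : Function.Involutive (fun (χ : C → ZMod 2) (c : C) =>
      χ c + if Free A c then (0 : ZMod 2) else χ₀ c + χ₁ c) := by
    intro χ
    funext c
    show χ c + (if Free A c then (0 : ZMod 2) else χ₀ c + χ₁ c) +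
      (if Free A c then (0 : ZMod 2) else χ₀ c + χ₁ c) = χ c
    generalize (if Free A c then (0 : ZMod 2) else χ₀ c + χ₁ c) = p
    generalize χ c = q
    revert p q; decide
  refine Fintype.sum_equiv (Function.Involutive.toPerm _ hinv) _ _ fun χ => ?_
  have e : F χ = F (fun c => χ c + if Free A c then (0 : ZMod 2) else χ₀ c + χ₁ c) := by
    refine hF _ _ fun c hc => ?_
    show χ c = χ c + if Free A c then (0 : ZMod 2) else χ₀ c + χ₁ c
    rw [if_pos hc, add_zero]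
  show (if Pin A χ₀ χ then F χ else 0) =
    if Pin A χ₁ (fun c => χ c + if Free A c then (0 : ZMod 2) else χ₀ c + χ₁ c) then
      F (fun c => χ c + if Free A c then (0 : ZMod 2) else χ₀ c + χ₁ c) else 0
  rw [← e]
  congr 1
  refine propext ⟨fun h c hc => ?_, fun h c hc => ?_⟩
  · show χ c + (if Free A c then (0 : ZMod 2) else χ₀ c + χ₁ c) = χ₁ c
    rw [if_neg hc, h c hc]
    generalize χ₀ c = p
    generalize χ₁ c = q
    revert p q; decide
  · have h1 : χ c + (if Free A c then (0 : ZMod 2) else χ₀ c + χ₁ c) = χ₁ c := h c hc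
    rw [if_neg hc] at h1
    revert h1
    generalize χ₀ c = p
    generalize χ₁ c = q
    generalize χ c = r
    revert p q r; decide

/-- number of the colourings of the free cells -/
def N0 (A : ZMod 3 → Set C) : ℕ := (Finset.univ.filter fun χ : C → ZMod 2 => Pin A 0 χ).card

theorem n0_eq (χ₀ : C → ZMod 2) :
    (Finset.univ.filter fun χ : C → ZMod 2 => Pin A χ₀ χ).card = N0 A := by
  have h := sum_pin (A := A) (X := ℕ) χ₀ 0 (fun _ => 1) (fun _ _ _ => rfl)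
  unfold N0
  rw [Finset.card_filter, Finset.card_filter]
  exact h

/-- exchange of the colours of the free cells -/
def swp (A : ZMod 3 → Set C) (p : (C → ZMod 2) × (C → ZMod 2)) : (C → ZMod 2) × (C → ZMod 2) :=
  (fun c => if Free A c then p.2 c else p.1 c, fun c => if Free A c then p.1 c else p.2 c)

omit [Fintype C] in
theorem swp_swp (p : (C → ZMod 2) × (C → ZMod 2)) : swp A (swp A p) = p := by
  refine Prod.ext ?_ ?_
  · funext c
    show (if Free A c then (if Free A c then p.1 c else p.2 c) else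
      (if Free A c then p.2 c else p.1 c)) = p.1 c
    by_cases h : Free A c
    · rw [if_pos h, if_pos h]
    · rw [if_neg h, if_neg h]
  · funext c
    show (if Free A c then (if Free A c then p.2 c else p.1 c) else
      (if Free A c then p.1 c else p.2 c)) = p.2 c
    by_cases h : Free A c
    · rw [if_pos h, if_pos h]
    · rw [if_neg h, if_neg h]

/-- **mean over the free colours = mean over all colours** -/
theorem sum_all (χ₀ : C → ZMod 2) (F : (C → ZMod 2) → ℂ)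
    (hF : ∀ χ χ', (∀ c, Free A c → χ c = χ' c) → F χ = F χ') :
    (N0 A : ℂ) * ∑ χ, F χ = (Fintype.card (C → ZMod 2) : ℂ) *
      ∑ χ, if Pin A χ₀ χ then F χ else 0 := by
  have e1 : (N0 A : ℂ) * ∑ χ, F χ = ∑ p : (C → ZMod 2) × (C → ZMod 2),
      if Pin A χ₀ p.2 then F p.1 else 0 := by
    rw [Fintype.sum_prod_type, ← n0_eq χ₀, Finset.mul_sum]
    refine Finset.sum_congr rfl fun χ _ => ?_
    show _ = ∑ y, if Pin A χ₀ y then F χ else 0
    rw [← Finset.sum_filter, Finset.sum_const, nsmul_eq_mul]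
  have e2 : (Fintype.card (C → ZMod 2) : ℂ) * (∑ χ, if Pin A χ₀ χ then F χ else 0) =
      ∑ p : (C → ZMod 2) × (C → ZMod 2), if Pin A χ₀ p.2 then F p.2 else 0 := by
    rw [Fintype.sum_prod_type]
    show _ = ∑ _x : C → ZMod 2, ∑ y, if Pin A χ₀ y then F y else 0
    rw [Finset.sum_const, nsmul_eq_mul, Finset.card_univ]
  rw [e1, e2]
  refine Fintype.sum_equiv (Function.Involutive.toPerm (swp A) swp_swp) _ _ fun p => ?_
  show (if Pin A χ₀ p.2 then F p.1 else 0) = if Pin A χ₀ (swp A p).2 then F (swp A p).2 else 0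
  have h1 : F p.1 = F (swp A p).2 := hF _ _ fun c hc => by
    show p.1 c = if Free A c then p.1 c else p.2 c
    rw [if_pos hc]
  rw [← h1]
  congr 1
  refine propext ⟨fun h c hc => ?_, fun h c hc => ?_⟩
  · show (if Free A c then p.1 c else p.2 c) = χ₀ c
    rw [if_neg hc]; exact h c hc
  · have h2 : (if Free A c then p.1 c else p.2 c) = χ₀ c := h c hc
    rwa [if_neg hc] at h2

/-- **mean of `z` at the static hit** -/
def Ez (M : CMap D C) (A : ZMod 3 → Set C) (i : ZMod 3) (z : C → ℂ) : ℂ :=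
  (∑ χ : C → ZMod 2, yv M A i {c | χ c = 1} z) / (Fintype.card (C → ZMod 2) : ℂ)

theorem card_ne : (Fintype.card (C → ZMod 2) : ℂ) ≠ 0 := by
  have : Fintype.card (C → ZMod 2) ≠ 0 := Fintype.card_ne_zero
  exact_mod_cast this

omit [Fintype C] in
theorem dep (G : Gi M A) (χ χ' : C → ZMod 2) (h : ∀ c, Free A c → χ c = χ' c) :
    yv M A i {c | χ c = 1} z = yv M A i {c | χ' c = 1} z :=
  yv_congr G (fun c hc => by
    show χ c = 1 ↔ χ' c = 1
    rw [h c hc]) z

theorem pin_mean (G : Gi M A) (χ₀ : C → ZMod 2) :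
    (∑ χ, if Pin A χ₀ χ then yv M A i {c | χ c = 1} z else 0) = (N0 A : ℂ) * Ez M A i z := by
  have h := sum_all (A := A) χ₀ (fun χ => yv M A i {c | χ c = 1} z) (dep G)
  unfold Ez
  rw [← mul_div_assoc, eq_div_iff card_ne, h]
  ring

theorem pin_mean' (G : Gi M A) (χ₀ : C → ZMod 2) :
    (∑ χ, if Pin A χ₀ χ then yv M A i {c | χ c = 1}ᶜ z else 0) = (N0 A : ℂ) * Ez M A i z := by
  rw [← pin_mean (M := M) G (fun c => χ₀ c + 1)]
  refine Fintype.sum_equiv (Equiv.addRight (fun _ : C => (1 : ZMod 2))) _ _ fun χ => ?_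
  show (if Pin A χ₀ χ then yv M A i {c | χ c = 1}ᶜ z else 0) =
    if Pin A (fun c => χ₀ c + 1) (fun c => χ c + 1) then yv M A i {c | χ c + 1 = 1} z else 0
  have e1 : ({c | χ c = 1} : Set C)ᶜ = {c | χ c + 1 = 1} := by
    ext c
    show ¬ χ c = 1 ↔ χ c + 1 = 1
    generalize χ c = p
    revert p; decide
  have e2 : Pin A (fun c => χ₀ c + 1) (fun c => χ c + 1) ↔ Pin A χ₀ χ := by
    refine forall_congr' fun c => imp_congr_right fun _ => ?_
    show χ c + 1 = χ₀ c + 1 ↔ χ c = χ₀ c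
    exact add_left_inj 1
  rw [e1]
  simp only [e2]

/-- the colours of the giants at the root `g` -/
structure Rc (A : ZMod 3 → Set C) (i : ZMod 3) (χ₀ : C → ZMod 2) : Prop where
  c0 : ∀ c ∈ A (i + 1), χ₀ c = 1
  c1 : ∀ c ∈ A i, χ₀ c = 1
  c2 : ∀ c ∈ A (i + 2), χ₀ c = 0

omit [Fintype C] in
theorem rc_exists (G : Gi M A) (i : ZMod 3) :
    Rc A i (fun c => if c ∈ A (i + 2) then 0 else 1) := by
  refine ⟨fun c hc => ?_, fun c hc => ?_, fun c hc => if_pos hc⟩
  · exact if_neg fun h => (z3a i).2.2 (G.disj _ _ c hc h)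
  · exact if_neg fun h => (z3a i).2.1 (G.disj _ _ c hc h)

variable {χ₀ : C → ZMod 2}

omit [Fintype C] in
theorem expl (R : Root M A i g) (Q : Cq π A) (G : Gi M A) (hc : Rc A i χ₀) :
    Expl π {c | ¬ Free A c} χ₀ (π (M.cell g)) (π (M.cell (M.rho g)))
      (π (M.cell (M.rho (M.rho g)))) where
  surj := Q.surj
  inj := by
    intro c c' h e
    have h' : Free A c := not_not.1 h
    rcases (Q.ker _ _).1 e with h1 | ⟨j, h1, -⟩
    · exact h1
    · exact absurd h1 (h' j)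
  gi := by
    intro c h
    have h' : ¬ ∀ i, c ∉ A i := h
    push Not at h'
    obtain ⟨j, hj⟩ := h'
    rcases z3c i j with rfl | rfl | rfl
    · exact Or.inr (Or.inl (Q.eq hj R.r1))
    · exact Or.inl (Q.eq hj R.r0)
    · exact Or.inr (Or.inr (Q.eq hj R.r2))
  A1 := ⟨_, fun h : Free A _ => h _ R.r0, rfl⟩
  B1 := ⟨_, fun h : Free A _ => h _ R.r1, rfl⟩
  W1 := ⟨_, fun h : Free A _ => h _ R.r2, rfl⟩
  cA := fun c _ e => hc.c0 c (Q.mem G R.r0 e)
  cB := fun c _ e => hc.c1 c (Q.mem G R.r1 e)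
  cW := fun c _ e => hc.c2 c (Q.mem G R.r2 e)

theorem sum_conv {X : Type} [AddCommMonoid X] {E : Set C} (hE : ∀ c, c ∈ E ↔ ¬ Free A c)
    (F : (C → ZMod 2) → X) :
    (∑ χ : C → ZMod 2, if ∀ c ∈ E, χ c = χ₀ c then F χ else 0) =
      ∑ χ : C → ZMod 2, if Pin A χ₀ χ then F χ else 0 := by
  refine Finset.sum_congr rfl fun χ _ => ?_
  by_cases hp : Pin A χ₀ χ
  · have hp' : ∀ c ∈ E, χ c = χ₀ c := fun c hc => hp c ((hE c).1 hc)
    rw [if_pos hp, if_pos hp']
  · have hp' : ¬ ∀ c ∈ E, χ c = χ₀ c := fun h => hp fun c hc => h c ((hE c).2 hc)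
    rw [if_neg hp, if_neg hp']

variable [Fintype C']

/-- **`Dis` = difference of two mean end points** -/
theorem dis_static (R : Root M A i g) (Q : Cq π A) (G : Gi M A) (z : C → ℂ) :
    (nK (coarse M π hπ) : ℂ) * Dis M π hπ z g =
      2 * ((N0 A : ℂ) * (Ez M A (i + 1) z - Ez M A i z)) := by
  obtain ⟨χ₀, hc⟩ : ∃ χ₀, Rc A i χ₀ := ⟨_, rc_exists G i⟩
  have H := expl R Q G hc
  have h1 := sum_fix (coarse M π hπ) g (fun x =>
    z (M.cell (M.rho (kA (coarse M π hπ) x g))) - z (M.cell (kB (coarse M π hπ) x g)))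
  rw [nsmul_eq_mul, nsmul_eq_mul] at h1
  have e0 : Dis M π hπ z g = ∑ x ∈ ev (coarse M π hπ), if Gp (coarse M π hπ) x g then
    z (M.cell (M.rho (kA (coarse M π hπ) x g))) - z (M.cell (kB (coarse M π hπ) x g)) else 0 :=
    rfl
  rw [e0, ← h1]
  have h2 := H.sum (fun χ => yv M A (i + 1) {c | χ c = 1}ᶜ z - yv M A i {c | χ c = 1} z)
  have h3 : (∑ χ : C → ZMod 2, if Pin A χ₀ χ then
      yv M A (i + 1) {c | χ c = 1}ᶜ z - yv M A i {c | χ c = 1} z else 0) =
      (N0 A : ℂ) * (Ez M A (i + 1) z - Ez M A i z) := by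
    rw [mul_sub, ← pin_mean' G χ₀, ← pin_mean G χ₀, ← Finset.sum_sub_distrib]
    refine Finset.sum_congr rfl fun χ _ => ?_
    by_cases hp : Pin A χ₀ χ
    · rw [if_pos hp, if_pos hp, if_pos hp]
    · rw [if_neg hp, if_neg hp, if_neg hp, sub_zero]
  rw [sum_conv (A := A) (χ₀ := χ₀) (E := {c | ¬ Free A c}) fun _ => Iff.rfl] at h2
  rw [← h3, h2]
  push_cast
  congr 1
  refine Finset.sum_congr rfl fun χ _ => ?_
  by_cases h : χ (π (M.cell g)) = 1 ∧ χ (π (M.cell (M.rho g))) = 1 ∧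
      χ (π (M.cell (M.rho (M.rho g)))) = 0
  · have h' : χ ((coarse M π hπ).cell g) = 1 ∧
        χ ((coarse M π hπ).cell ((coarse M π hπ).rho g)) = 1 ∧
        χ ((coarse M π hπ).cell ((coarse M π hπ).rho ((coarse M π hπ).rho g))) = 0 := h
    rw [if_pos h, if_pos h']
    exact ends_static (hπ := hπ) R Q G h.1 h.2.1 h.2.2 z
  · have h' : ¬ (χ ((coarse M π hπ).cell g) = 1 ∧
        χ ((coarse M π hπ).cell ((coarse M π hπ).rho g)) = 1 ∧
        χ ((coarse M π hπ).cell ((coarse M π hπ).rho ((coarse M π hπ).rho g))) = 0) := h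
    rw [if_neg h, if_neg h']

theorem w_ne {w : ℂ} (w3 : w ^ 3 = 1) (w1 : 1 + w + w ^ 2 = 0) : w ^ 2 - 1 ≠ 0 := by
  intro h
  have h1 : w = 1 := by
    have : w ^ 3 = w := by linear_combination w * h
    rw [← this, w3]
  rw [h1] at w1
  norm_num at w1

/-- **(R5) mean over the free colours of the coarse block sum** `= w * (static T) / 3` -/
theorem mean_static {w : ℂ} (w3 : w ^ 3 = 1) (w1 : 1 + w + w ^ 2 = 0) (R : Root M A i g)
    (Q : Cq π A) (G : Gi M A) (hc : Rc A i χ₀) (z : C → ℂ) :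
    (∑ χ : C → ZMod 2, if Pin A χ₀ χ then
      ∑ h ∈ (blk (coarse M π hπ) (cfg M χ) g).erase g, zs M w z h else 0) =
      (N0 A : ℂ) * (w * (Ez M A (i + 1) z + w * Ez M A (i + 2) z + w ^ 2 * Ez M A i z)) := by
  have H := expl R Q G hc
  have h1 := H.mean (hπ := hπ) (zs M w z)
  obtain ⟨h2, -, -⟩ := wt_dis (hπ := hπ) w3 w1 (Q.ne G R.r0 R.r1 (z3a i).1.symm)
    (Q.ne G R.r1 R.r2 (z3a i).2.1) (Q.ne G R.r2 R.r0 (z3a i).2.2.symm) z
    (fun c c' e a1 a2 a3 => by rw [R.single Q c c' e a1 a2 a3])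
  have d0 := dis_static (hπ := hπ) R Q G z
  have d1 := dis_static (hπ := hπ) R.rot Q G z
  have d2 := dis_static (hπ := hπ) R.rot.rot Q G z
  rw [(z3b i).1] at d1
  rw [(z3b (i + 2)).1, (z3b i).2.1] at d2
  rw [sum_conv (A := A) (χ₀ := χ₀) (E := {c | ¬ Free A c}) fun _ => Iff.rfl] at h1
  generalize (∑ χ : C → ZMod 2, if Pin A χ₀ χ then
        ∑ h ∈ (blk (coarse M π hπ) (cfg M χ) g).erase g, zs M w z h else 0) = X at *
  refine mul_left_cancel₀ (w_ne w3 w1) ?_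
  refine mul_left_cancel₀ (two_ne_zero (α := ℂ)) ?_
  generalize Wt (coarse M π hπ) g (zs M w z) = Y at *
  generalize (nK (coarse M π hπ) : ℂ) = K at *
  linear_combination (w ^ 2 - 1) * h1 + K * h2 + d0 + w ^ 2 * d1 + w * d2 -
    2 * (N0 A : ℂ) * (Ez M A (i + 1) z + w * Ez M A (i + 2) z + w ^ 2 * Ez M A i z) * w3 +
    2 * (N0 A : ℂ) * Ez M A i z * w3

/-- mean displacement -/
theorem mean_ends (R : Root M A i g) (Q : Cq π A) (G : Gi M A) (hc : Rc A i χ₀) (z : C → ℂ) :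
    (∑ χ : C → ZMod 2, if Pin A χ₀ χ then
      ∑ h ∈ (blk (coarse M π hπ) (cfg M χ) g).erase g, (z (M.cell (M.rho h)) - z (M.cell h))
      else 0) = (N0 A : ℂ) * (Ez M A (i + 1) z - Ez M A i z) := by
  have H := expl R Q G hc
  rw [mul_sub, ← pin_mean' G χ₀, ← pin_mean G χ₀, ← Finset.sum_sub_distrib]
  have h2 := H.sum (fun χ => ∑ h ∈ (blk (coarse M π hπ) (cfg M χ) g).erase g,
    (z (M.cell (M.rho h)) - z (M.cell h)))
  have h4 := H.sum (fun χ => yv M A (i + 1) {c | χ c = 1}ᶜ z - yv M A i {c | χ c = 1} z)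
  have e2 : (∑ χ : C → ZMod 2, ((if Pin A χ₀ χ then yv M A (i + 1) {c | χ c = 1}ᶜ z else 0) -
      if Pin A χ₀ χ then yv M A i {c | χ c = 1} z else 0)) =
      ∑ χ : C → ZMod 2, if Pin A χ₀ χ then
        yv M A (i + 1) {c | χ c = 1}ᶜ z - yv M A i {c | χ c = 1} z else 0 := by
    refine Finset.sum_congr rfl fun χ _ => ?_
    by_cases hp : Pin A χ₀ χ
    · rw [if_pos hp, if_pos hp, if_pos hp]
    · rw [if_neg hp, if_neg hp, if_neg hp, sub_zero]
  rw [sum_conv (A := A) (χ₀ := χ₀) (E := {c | ¬ Free A c}) fun _ => Iff.rfl] at h2 h4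
  rw [e2, h2, h4]
  refine Finset.sum_congr rfl fun χ _ => ?_
  by_cases h : χ (π (M.cell g)) = 1 ∧ χ (π (M.cell (M.rho g))) = 1 ∧
      χ (π (M.cell (M.rho (M.rho g)))) = 0
  · rw [if_pos h, if_pos h]
    exact ends_sum (hπ := hπ) R Q G h.1 h.2.1 h.2.2 z
  · rw [if_neg h, if_neg h]

end mean

end Crest.Agent.R143.C2SBx395
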