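import Crest.Agent.R143.C2SB_395
import Crest.Agent.R143.NetU_346
import Crest.Agent.R143.FinC_811

/-!
# Row 143 (S0194), CORE-C, R5: oriented hits of `NetU_346` = hits of the closed map (helper395)

`M = rc0 hS` (cells = `Cs hS`), giants `A : ZMod 3 → Set (Cs hS)`, the hull cell in one giant (`Hl`).

* `hit_ex` : existence of the hit, every closed map with a root face
* `st A i` = sites of the giant `A i`; `hitO_hit` : `HitO` of `NetU_346` = `Hit` of `C2SB_395`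
* `hex` : **existence and uniqueness of the oriented hit**: `Hex S (st A)`
* `g3` : `G3 S (st A)`
-/

set_option autoImplicit false

noncomputable section

open scoped Classical

namespace Crest.Agent.R143.C2SCx395

open Crest.Agent.R143.B0x346 Crest.Agent.R143.DelGx806 Crest.Agent.R143.DelRx806
  Crest.Agent.R143.JColx54 Crest.Agent.R143.RE0x723
open Crest.Agent.R143.K33x877 (Clu fr)
open Crest.Agent.R143.NetUx346 (ff HitO hits exC Ey TS G3 Hex mem_ff mem_hits)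
open Crest.Agent.R143.Frame1x395 Crest.Agent.R143.Frame2x395 Crest.Agent.R143.Frame3x395
  Crest.Agent.R143.Frame4x395 Crest.Agent.R143.Frame8x395 Crest.Agent.R143.Frame9x395
  Crest.Agent.R143.Frame10x395
  Crest.Agent.R143.NonXx592 Crest.Agent.R143.Coarsex166 Crest.Agent.R143.Coarse2x166
  Crest.Agent.R143.C2Sx395 Crest.Agent.R143.C2SBx395 Crest.Agent.R143.K33x137

open Crest.Agent.R143.FinCx811 (Cs rc0)
open Crest.Agent.R143.Frame5x395 (sd mem_sd th th_spec)

/-! ### existence of the hit, every closed map -/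

section gen

variable {D C : Type} {M : CMap D C} {A : ZMod 3 → Set C} {i : ZMod 3} {g : D}

/-- contraction of the giants with the range as type of the cells -/
def pr (A : ZMod 3 → Set C) (c : C) : Set.range (mg A) := ⟨mg A c, c, rfl⟩

theorem pr_con (G : Gi M A) : ClsCon M (pr A) := by
  intro a b hab
  have h := mg_cls G.disj G.con a b (congrArg Subtype.val hab)
  have key : ∀ c c', Relation.EqvGen (Coarsex166.Adj M (mg A)) c c' →
      Relation.EqvGen (Coarsex166.Adj M (pr A)) c c' := by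
    intro c c' h
    induction h with
    | rel c c' h => exact Relation.EqvGen.rel _ _ ⟨Subtype.ext h.1, h.2⟩
    | refl c => exact Relation.EqvGen.refl _
    | symm c c' _ ih => exact Relation.EqvGen.symm _ _ ih
    | trans c c' c'' _ _ ih1 ih2 => exact Relation.EqvGen.trans _ _ _ ih1 ih2
  exact key _ _ h

theorem pr_cq (G : Gi M A) : Cq (pr A) A where
  surj := by
    rintro ⟨_, c, rfl⟩
    exact ⟨c, rfl⟩
  ker := by
    intro c c'
    constructor
    · intro h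
      have h' : mg A c = mg A c' := congrArg Subtype.val h
      rcases e : mg A c with j | d
      · exact Or.inr ⟨j, mg_inl e, mg_inl (h' ▸ e)⟩
      · left
        have e' : mg A c' = Sum.inr d := h' ▸ e
        rw [mg_inr e, mg_inr e']
    · rintro (rfl | ⟨j, h1, h2⟩)
      · rfl
      · apply Subtype.ext
        show mg A c = mg A c'
        rw [mg_in G.disj h1, mg_in G.disj h2]

theorem hit_ex1 [Fintype D] (G : Gi M A) (R : Root M A i g) (T : Set C) :
    ∃ k, Hit M A i T k := by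
  set f : C → ZMod 2 := fun c => if c ∈ A (i + 2) then 0 else
    if c ∈ A i ∨ c ∈ A (i + 1) then 1 else if c ∈ T then 1 else 0 with hf
  set Q := pr_cq G
  set χ : Set.range (mg A) → ZMod 2 := fun c => f (Function.surjInv Q.surj c) with hχ
  have hfc : ∀ c c', pr A c = pr A c' → f c = f c' := by
    intro c c' e
    rcases (Q.ker _ _).1 e with rfl | ⟨j, h1, h2⟩
    · rfl
    · rcases z3c i j with rfl | rfl | rfl
      · simp only [hf]
        rw [if_neg fun h => (z3a _).2.1 (G.disj _ _ c h1 h),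
          if_neg fun h => (z3a _).2.1 (G.disj _ _ c' h2 h), if_pos (Or.inl h1), if_pos (Or.inl h2)]
      · simp only [hf]
        rw [if_neg fun h => (z3a i).2.2 (G.disj _ _ c h1 h),
          if_neg fun h => (z3a i).2.2 (G.disj _ _ c' h2 h), if_pos (Or.inr h1), if_pos (Or.inr h2)]
      · simp only [hf]
        rw [if_pos h1, if_pos h2]
  have hχc : ∀ c, χ (pr A c) = f c := fun c => hfc _ _ (Function.surjInv_eq Q.surj (pr A c))
  have h := kB_hit (hπ := pr_con G) (χ := χ) R Q G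
    (by
      rw [hχc]; simp only [hf]
      rw [if_neg fun h => (z3a i).2.2 (G.disj _ _ _ R.r0 h), if_pos (Or.inr R.r0)])
    (by
      rw [hχc]; simp only [hf]
      rw [if_neg fun h => (z3a i).2.1 (G.disj _ _ _ R.r1 h), if_pos (Or.inl R.r1)])
    (by rw [hχc]; simp only [hf]; rw [if_pos R.r2])
  refine ⟨_, h.congr fun c hc => ?_⟩
  show χ (pr A c) = 1 ↔ c ∈ T
  rw [hχc]
  simp only [hf]
  rw [if_neg (hc _), if_neg fun h => h.elim (hc _) (hc _)]
  by_cases hT : c ∈ T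
  · rw [if_pos hT]; exact ⟨fun _ => hT, fun _ => rfl⟩
  · rw [if_neg hT]; exact ⟨fun h => absurd h (by decide), fun h => absurd h hT⟩

theorem z3d : ∀ i j : ZMod 3, j = i ∨ j = i + 2 ∨ j = i + 2 + 2 := by decide

/-- **existence of the hit** from a root face -/
theorem hit_ex [Fintype D] (G : Gi M A) (R : Root M A i g) (j : ZMod 3) (T : Set C) :
    ∃ k, Hit M A j T k := by
  rcases z3d i j with rfl | rfl | rfl
  · exact hit_ex1 G R T
  · exact hit_ex1 G R.rot T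
  · exact hit_ex1 G R.rot.rot T

end gen

/-! ### sites and cells -/

variable {S : Finset ℂ} {hS : GP (S : Set ℂ)} {A : ZMod 3 → Set (Cs hS)} {i j : ZMod 3}
  {T : Set ℂ} {T' : Set (Cs hS)}

/-- sites of the giant `A i` -/
def st (A : ZMod 3 → Set (Cs hS)) (i : ZMod 3) : Set ℂ :=
  {v | v ∈ S ∧ ∃ c ∈ A i, c.1 = Quot.mk (hullE S) v}

/-- the hull cell is in the giant `A j` -/
def Hl (A : ZMod 3 → Set (Cs hS)) (j : ZMod 3) : Prop :=
  ∀ c : Cs hS, ∀ v, OnHull S v → c.1 = Quot.mk (hullE S) v → c ∈ A j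

/-- all the triangles with a hull vertex are inside the giant `A j` -/
def Far (A : ZMod 3 → Set (Cs hS)) (j : ZMod 3) : Prop :=
  ∀ d : D0 S, OnHull S d.1.1 → (rc0 hS).cell d ∈ A j ∧
    (rc0 hS).cell ((rc0 hS).rho d) ∈ A j ∧
    (rc0 hS).cell ((rc0 hS).rho ((rc0 hS).rho d)) ∈ A j

theorem st_mem {c : Cs hS} {v : ℂ} (hv : v ∈ S) (e : c.1 = Quot.mk (hullE S) v) :
    v ∈ st A i ↔ c ∈ A i := by
  constructor
  · rintro ⟨-, c', hc', e'⟩
    have : c = c' := Subtype.ext (e.trans e'.symm)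
    rw [this]; exact hc'
  · exact fun h => ⟨hv, c, h, e⟩

/-- cell of a site with a neighbour -/
theorem cell_of_adj {a b : ℂ} (h : Adj S a b) :
    ∃ d : D0 S, ((rc0 hS).cell d).1 = Quot.mk (hullE S) a ∧
      (((rc0 hS).cell ((rc0 hS).rho d)).1 = Quot.mk (hullE S) b ∨
        ((rc0 hS).cell ((rc0 hS).rho ((rc0 hS).rho d))).1 =
          Quot.mk (hullE S) b) := by
  rcases h with ⟨c, hc⟩ | ⟨c, hc⟩
  · exact ⟨⟨(a, b), mem_sd.2 ⟨c, hc⟩⟩, rfl, Or.inl rfl⟩
  · have h1 := delT_rot hS hc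
    refine ⟨⟨(a, c), mem_sd.2 ⟨b, h1⟩⟩, rfl, Or.inr ?_⟩
    show Quot.mk (hullE S) (th S (a, c)) = Quot.mk (hullE S) b
    rw [th0 hS h1]

theorem ed_of_adj {a b : ℂ} (h : Adj S a b) {c c' : Cs hS} (e : c.1 = Quot.mk (hullE S) a)
    (e' : c'.1 = Quot.mk (hullE S) b) : Ed (rc0 hS) c c' := by
  rcases h with ⟨d, hd⟩ | ⟨d, hd⟩
  · refine ⟨⟨(a, b), mem_sd.2 ⟨d, hd⟩⟩, Subtype.ext e.symm, Subtype.ext e'.symm⟩
  · exact Ed.symm ⟨⟨(b, a), mem_sd.2 ⟨d, hd⟩⟩, Subtype.ext e'.symm, Subtype.ext e.symm⟩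

theorem adj_of_ed {c c' : Cs hS} (h : Ed (rc0 hS) c c') :
    ∃ a b, Adj S a b ∧ c.1 = Quot.mk (hullE S) a ∧ c'.1 = Quot.mk (hullE S) b := by
  obtain ⟨d, rfl, rfl⟩ := h
  exact ⟨d.1.1, d.1.2, Or.inl (mem_sd.1 d.2), rfl, rfl⟩

theorem cell_ex {v w : ℂ} (h : Adj S v w) : ∃ c : Cs hS, c.1 = Quot.mk (hullE S) v := by
  obtain ⟨d, h1, -⟩ := cell_of_adj (hS := hS) h
  exact ⟨_, h1⟩

/-- a free cell is one inner site -/
theorem free_uniq (H : Hl A j) {c : Cs hS} (hc : Free A c) {v w : ℂ}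
    (e : c.1 = Quot.mk (hullE S) v) (e' : c.1 = Quot.mk (hullE S) w) : w = v := by
  refine quot_inner hS (fun hv => hc j (H c v hv e)) (e.symm.trans e')

theorem fr_of_free {c : Cs hS} (hc : Free A c) {v : ℂ} (hv : v ∈ S)
    (e : c.1 = Quot.mk (hullE S) v) : v ∈ fr S (st A) :=
  ⟨hv, fun i h => hc i ((st_mem hv e).1 h)⟩

theorem free_of_fr {c : Cs hS} {v : ℂ} (hv : v ∈ fr S (st A)) (e : c.1 = Quot.mk (hullE S) v) :
    Free A c := fun i h => hv.2 i ((st_mem hv.1 e).2 h)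

/-- the two sets of black sites -/
def Cmp (A : ZMod 3 → Set (Cs hS)) (T : Set ℂ) (T' : Set (Cs hS)) : Prop :=
  ∀ v ∈ fr S (st A), ∀ c : Cs hS, c.1 = Quot.mk (hullE S) v → (c ∈ T' ↔ v ∈ T)

theorem Cmp.compl (h : Cmp A T T') : Cmp A Tᶜ T'ᶜ := fun v hv c hc => not_congr (h v hv c hc)

theorem clu_of_jn (H : Hl A j) (hT : Cmp A T T') {c : Cs hS}
    (h : Jn (rc0 hS) A i T' c) : ∀ v ∈ S, c.1 = Quot.mk (hullE S) v →
      v ∈ Clu S (fr S (st A) ∩ T) (st A i) := by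
  obtain ⟨b, hb, h⟩ := h
  induction h with
  | refl =>
    intro v hv e
    have h1 : v ∈ st A i := (st_mem hv e).2 hb
    exact ⟨v, h1, Pth.refl (Or.inr h1)⟩
  | @tail u w _ hs ih =>
    intro v hv e
    obtain ⟨h1, h2, h3⟩ := hs
    obtain ⟨a, a', haa, e1, e2⟩ := adj_of_ed h1
    have e3 : a' = v := free_uniq H h2 e e2
    subst e3
    obtain ⟨x, hx, hp⟩ := ih a haa.mem.1 e1
    have h4 := fr_of_free h2 hv e
    exact ⟨x, hx, hp.tail haa (Or.inl ⟨h4, (hT _ h4 _ e).1 h3⟩)⟩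

theorem jn_of_clu (hT : Cmp A T T') {v : ℂ} (h : v ∈ Clu S (fr S (st A) ∩ T) (st A i)) :
    ∀ c : Cs hS, c.1 = Quot.mk (hullE S) v → Jn (rc0 hS) A i T' c := by
  obtain ⟨x, hx, hp⟩ := h
  refine (hp.ind (P := fun v => ∀ c : Cs hS, c.1 = Quot.mk (hullE S) v →
    Jn (rc0 hS) A i T' c) ?_ ?_)
  · intro c hc
    exact ⟨c, (st_mem hx.1 hc).1 hx, .refl⟩
  · intro a b ha hb hab ih c hc
    rcases hb with hb | hb
    · obtain ⟨ca, hca⟩ := cell_ex (hS := hS) hab
      obtain ⟨y, hy, hr⟩ := ih ca hca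
      exact ⟨y, hy, hr.tail ⟨ed_of_adj hab hca hc, free_of_fr hb.1 hc, (hT _ hb.1 _ hc).2 hb.2⟩⟩
    · exact ⟨c, (st_mem hb.1 hc).1 hb, .refl⟩

theorem mem3 (hS : GP (S : Set ℂ)) {u b v : ℂ} (ht : (u, b, v) ∈ delT S) : u ∈ S ∧ b ∈ S ∧ v ∈ S := by
  have h1 : Adj S u b := Or.inl ⟨v, ht⟩
  have h2 : Adj S b v := Or.inl ⟨u, delT_rot hS ht⟩
  exact ⟨h1.mem.1, h1.mem.2, h2.mem.2⟩

/-- **the oriented hit of `NetU_346` = the hit of the closed map** -/
theorem hitO_hit (H : Hl A j) (hT : Cmp A T T') {u b v : ℂ} (ht : (u, b, v) ∈ delT S) :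
    HitO S (st A) i T (u, b, v) ↔
      Hit (rc0 hS) A i T' ⟨(u, b), mem_sd.2 ⟨v, ht⟩⟩ := by
  obtain ⟨m1, m2, m3⟩ := mem3 hS ht
  have ev : ((rc0 hS).cell ((rc0 hS).rho ((rc0 hS).rho
      ⟨(u, b), mem_sd.2 ⟨v, ht⟩⟩))).1 = Quot.mk (hullE S) v := by
    show Quot.mk (hullE S) (th S (u, b)) = Quot.mk (hullE S) v
    rw [th0 hS ht]
  have hd : fr S (st A) \ T = fr S (st A) ∩ Tᶜ := rfl
  constructor
  · rintro ⟨-, h1, h2, h3⟩
    rw [hd] at h3
    exact ⟨(st_mem m1 rfl).1 h1, jn_of_clu hT h2 _ rfl, jn_of_clu hT.compl h3 _ ev⟩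
  · rintro ⟨h1, h2, h3⟩
    refine ⟨ht, (st_mem m1 rfl).2 h1, clu_of_jn H hT h2 b m2 rfl, ?_⟩
    rw [hd]
    exact clu_of_jn H hT.compl h3 v m3 ev

/-- black cells of a set of black free sites -/
def Tc (hS : GP (S : Set ℂ)) (T : Set ℂ) : Set (Cs hS) := {c | ∃ v ∈ T, c.1 = Quot.mk (hullE S) v}

theorem cmp_tc (H : Hl A j) : Cmp A T (Tc hS T) := by
  intro v hv c hc
  constructor
  · rintro ⟨w, hw, e⟩
    rw [← free_uniq H (free_of_fr hv hc) hc e]
    exact hw
  · exact fun h => ⟨v, h, hc⟩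

/-- **existence and uniqueness of the oriented hit** -/
theorem hex (G : Gi (rc0 hS) A) (H : Hl A j) {g : D0 S} (R : Root (rc0 hS) A i g) :
    Hex S (st A) := by
  intro k T hT
  obtain ⟨d, hd⟩ := hit_ex G R k (Tc hS (T : Set ℂ))
  have ht : (d.1.1, d.1.2, th S d.1) ∈ delT S := th_spec d.2
  refine ⟨(d.1.1, d.1.2, th S d.1), (hitO_hit H (cmp_tc H) ht).2 hd, ?_⟩
  rintro ⟨u, b, v⟩ h
  have h1 := (hitO_hit H (cmp_tc H) h.1).1 h
  have e := h1.uniq G hd
  have e1 : (u, b) = d.1 := congrArg Subtype.val e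
  have e2 : th S (u, b) = v := th0 hS h.1
  rw [← e1, e2]

/-- sites of the same cell are joined -/
theorem pth_cell {c : Cs hS} (hc : c ∈ A i) {v w : ℂ} (hv : v ∈ S)
    (e : c.1 = Quot.mk (hullE S) v) (e' : c.1 = Quot.mk (hullE S) w) :
    Pth S (st A i) v w := by
  have key : ∀ a b, Relation.EqvGen (hullE S) a b → (a ∈ S ↔ b ∈ S) ∧
      (a ∈ st A i → Pth S (st A i) a b) := by
    intro a b h
    induction h with
    | rel a b h =>
      have hab : Adj S a b := Or.inl h.1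
      refine ⟨⟨fun _ => hab.mem.2, fun _ => hab.mem.1⟩, fun ha => ?_⟩
      refine Pth.single ha hab ?_
      obtain ⟨-, c', hc', e1⟩ := ha
      exact ⟨hab.mem.2, c', hc', e1.trans (Quot.sound h)⟩
    | refl a => exact ⟨Iff.rfl, Pth.refl⟩
    | symm a b h ih =>
      refine ⟨ih.1.symm, fun hb => (ih.2 ?_).symm⟩
      obtain ⟨hb, c', hc', e1⟩ := hb
      exact ⟨ih.1.2 hb, c', hc', e1.trans (Quot.eqvGen_sound h).symm⟩
    | trans a b c _ _ ih1 ih2 =>
      refine ⟨ih1.1.trans ih2.1, fun ha => ?_⟩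
      have h1 := ih1.2 ha
      exact h1.trans (ih2.2 h1.snd)
  exact (key v w (Quot.eqvGen_exact (e.symm.trans e'))).2 ((st_mem hv e).2 hc)

theorem lk_mem {c c' : Cs hS} (h : Lk (rc0 hS) (A i) c c') :
    c = c' ∨ (c ∈ A i ∧ c' ∈ A i) := by
  induction h with
  | rel c c' h => exact Or.inr ⟨h.1, h.2.1⟩
  | refl c => exact Or.inl rfl
  | symm c c' _ ih => exact ih.imp Eq.symm And.symm
  | trans c c' c'' _ _ i1 i2 =>
    rcases i1 with rfl | i1
    · exact i2
    · rcases i2 with rfl | i2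
      · exact Or.inr i1
      · exact Or.inr ⟨i1.1, i2.2⟩

/-- the giants of the sites -/
theorem g3 (G : Gi (rc0 hS) A) : G3 S (st A) where
  gp := hS
  sub := fun i v hv => hv.1
  disj := by
    intro i j hij
    refine Set.disjoint_left.2 fun v h1 h2 => ?_
    obtain ⟨hv, c, hc, e⟩ := h1
    exact hij (G.disj _ _ c hc ((st_mem hv e).1 h2))
  con := by
    intro i v hv w hw
    obtain ⟨hvS, c, hcA, e⟩ := hv
    obtain ⟨hwS, c', hcA', e'⟩ := hw
    have key : ∀ c c', Lk (rc0 hS) (A i) c c' → c ∈ A i → c' ∈ A i →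
        ∀ v w, v ∈ S → w ∈ S → c.1 = Quot.mk (hullE S) v → c'.1 = Quot.mk (hullE S) w →
        Pth S (st A i) v w := by
      intro c c' h
      induction h with
      | rel c c' h =>
        intro h1 h2 v w hv hw e1 e2
        obtain ⟨a, b, hab, e3, e4⟩ := adj_of_ed h.2.2
        have p1 := pth_cell h1 hv e1 e3
        have p2 := pth_cell h2 hab.mem.2 e4 e2
        exact (p1.tail hab ((st_mem hab.mem.2 e4).2 h2)).trans p2
      | refl c =>
        intro h1 _ v w hv hw e1 e2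
        exact pth_cell h1 hv e1 e2
      | symm c c' _ ih =>
        intro h1 h2 v w hv hw e1 e2
        exact (ih h2 h1 w v hw hv e2 e1).symm
      | trans c c' c'' h1 _ ih1 ih2 =>
        intro m1 m3 v w hv hw e1 e2
        rcases lk_mem h1 with rfl | m2
        · exact ih2 m1 m3 v w hv hw e1 e2
        obtain ⟨d, hd⟩ := c'.2
        have hdS : d.1.1 ∈ S := (mem3 hS (th_spec d.2)).1
        exact (ih1 m1 m2.2 v d.1.1 hv hdS e1 hd.symm).trans
          (ih2 m2.2 m3 d.1.1 w hdS hw hd.symm e2)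
    exact key c c' (G.con i c hcA c' hcA') hcA hcA' v w hvS hwS e e'

end Crest.Agent.R143.C2SCx395
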