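import Crest.Agent.R143.C2SC_395

/-!
# Row 143 (S0194), CORE-C, R5: mean of the root block of the coarse map = static `TS` (helper395)

`M = rc0 hS`, giants `A : ZMod 3 → Set (Cs hS)`, `Gi M A`, hull cell in the giant `A j` (`Hl A j`),
`Far A j` : every triangle with a hull vertex is inside the giant `A j`, `Root M A i g`.

* `sum_pin_sites` : sum over the colourings pinned on the giants = sum over the sets of black free
  sites; `n0_ff` : `N0 A = 2 ^ (ff S (st A)).card`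
* **`ez_ey`** : `Ez M A k (zc z) = Ey S (st A) z k`
* **`c2s`** : sum over the colourings with the prescribed colours on the giants of
  `Σ_{h ∈ blk g \ g} (z a + ω z b + ω² z c)` = `2 ^ #ff * (omz (-i) * TS S (st A) z / 3)`
* **`c2s_ends`** : the same for `z new − z old`: `2 ^ #ff * (Ey (i+1) − Ey i)`
-/

set_option autoImplicit false

noncomputable section

open scoped Classical

namespace Crest.Agent.R143.C2SDx395

open Crest.Agent.R143.B0x346 Crest.Agent.R143.DelGx806 Crest.Agent.R143.DelRx806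
  Crest.Agent.R143.JColx54 Crest.Agent.R143.RE0x723
open Crest.Agent.R143.K33x877 (Clu fr)
open Crest.Agent.R143.NetUx346 (ff HitO hits exC Ey TS G3 Hex mem_ff mem_hits hv_eq sum_hits)
open Crest.Agent.R143.Frame1x395 Crest.Agent.R143.Frame2x395 Crest.Agent.R143.Frame3x395
  Crest.Agent.R143.Frame4x395 Crest.Agent.R143.Frame8x395 Crest.Agent.R143.Frame9x395
  Crest.Agent.R143.Frame10x395
  Crest.Agent.R143.NonXx592 Crest.Agent.R143.Coarsex166 Crest.Agent.R143.Coarse2x166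
  Crest.Agent.R143.C2Sx395 Crest.Agent.R143.C2SBx395 Crest.Agent.R143.C2SCx395
  Crest.Agent.R143.K33x137
open Crest.Agent.R143.FinCx811 (Cs rc0 cell_mem)
open Crest.Agent.R143.Frame5x395 (sd mem_sd th th_spec)

/-- sum over the block of the gap `g`, without `g` -/
def rsum {D C X : Type} [Fintype D] [AddCommMonoid X] (M : CMap D C) (x : D → ZMod 2) (g : D)
    (f : D → X) : X := ∑ h ∈ (blk M x g).erase g, f h

theorem rsum_congr {D C X : Type} [Fintype D] [AddCommMonoid X] {M : CMap D C} {x : D → ZMod 2}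
    {g : D} {f f' : D → X} (h : ∀ d, Gp M x d → f d = f' d) : rsum M x g f = rsum M x g f' :=
  Finset.sum_congr rfl fun d hd => h d (mem_blk.1 (Finset.mem_of_mem_erase hd)).1

variable {S : Finset ℂ} {hS : GP (S : Set ℂ)} {A : ZMod 3 → Set (Cs hS)} {i j k : ZMod 3}
  {g : D0 S}

/-! ### colourings of the free cells = sets of black free sites -/

/-- black free sites of a colouring -/
def toT (A : ZMod 3 → Set (Cs hS)) (χ : Cs hS → ZMod 2) : Finset ℂ :=
  (ff S (st A)).filter fun v => ∃ c : Cs hS, c.1 = Quot.mk (hullE S) v ∧ χ c = 1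

/-- the colouring with the black sites `T` -/
def toX (hS : GP (S : Set ℂ)) (T : Set ℂ) (c : Cs hS) : ZMod 2 := if c ∈ Tc hS T then 1 else 0

theorem site_of (c : Cs hS) : ∃ v ∈ S, c.1 = Quot.mk (hullE S) v := by
  obtain ⟨d, hd⟩ := c.2
  exact ⟨d.1.1, (mem3 hS (th_spec d.2)).1, hd.symm⟩

theorem tc_free {T : Finset ℂ} (hT : T ⊆ ff S (st A)) {c : Cs hS} (h : c ∈ Tc hS (T : Set ℂ)) :
    Free A c := by
  obtain ⟨v, hv, e⟩ := h
  exact free_of_fr (mem_ff.1 (hT (Finset.mem_coe.1 hv))) e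

theorem toX_pin {T : Finset ℂ} (hT : T ⊆ ff S (st A)) : Pin A 0 (toX hS (T : Set ℂ)) := by
  intro c hc
  unfold toX
  rw [if_neg fun h => hc (tc_free hT h)]
  rfl

theorem toX_toT {χ : Cs hS → ZMod 2} (hχ : Pin A 0 χ) :
    toX hS (toT A χ : Set ℂ) = χ := by
  have dec : ∀ a : ZMod 2, a ≠ 1 → (0 : ZMod 2) = a := by decide
  funext c
  unfold toX
  by_cases hc : Free A c
  · obtain ⟨v, hv, e⟩ := site_of c
    have hf := fr_of_free hc hv e
    by_cases h1 : χ c = 1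
    · rw [if_pos, h1]
      exact ⟨v, Finset.mem_coe.2 (Finset.mem_filter.2 ⟨mem_ff.2 hf, c, e, h1⟩), e⟩
    · rw [if_neg]
      · exact dec _ h1
      · rintro ⟨w, hw, e'⟩
        obtain ⟨-, c', e1, h2⟩ := Finset.mem_filter.1 (Finset.mem_coe.1 hw)
        have : c' = c := Subtype.ext (e1.trans e'.symm)
        rw [this] at h2
        exact h1 h2
  · rw [if_neg, hχ c hc]
    · rfl
    · rintro ⟨w, hw, e'⟩
      obtain ⟨h3, -⟩ := Finset.mem_filter.1 (Finset.mem_coe.1 hw)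
      exact hc (free_of_fr (mem_ff.1 h3) e')

theorem toT_toX (H : Hl A j) (h3 : 3 ≤ S.card) {T : Finset ℂ} (hT : T ⊆ ff S (st A)) :
    toT A (toX hS (T : Set ℂ)) = T := by
  ext v
  unfold toT
  rw [Finset.mem_filter]
  constructor
  · rintro ⟨h1, c, e, h2⟩
    unfold toX at h2
    by_cases hc : c ∈ Tc hS (T : Set ℂ)
    · obtain ⟨w, hw, e'⟩ := hc
      rw [← free_uniq H (free_of_fr (mem_ff.1 h1) e) e e']
      exact Finset.mem_coe.1 hw
    · rw [if_neg hc] at h2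
      exact absurd h2 (by decide)
  · intro hv
    refine ⟨hT hv, ⟨Quot.mk _ v, cell_mem hS h3 (mem_ff.1 (hT hv)).1⟩, rfl, ?_⟩
    unfold toX
    rw [if_pos]
    exact ⟨v, Finset.mem_coe.2 hv, rfl⟩

/-- **sum over the pinned colourings = sum over the sets of black free sites** -/
theorem sum_pin_sites (H : Hl A j) (h3 : 3 ≤ S.card) {X : Type} [AddCommMonoid X]
    (F : (Cs hS → ZMod 2) → X) :
    (∑ χ : Cs hS → ZMod 2, if Pin A 0 χ then F χ else 0) =
      ∑ T ∈ (ff S (st A)).powerset, F (toX hS (T : Set ℂ)) := by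
  rw [← Finset.sum_filter]
  refine Finset.sum_nbij' (toT A) (fun T => toX hS (T : Set ℂ)) ?_ ?_ ?_ ?_ ?_
  · intro χ _
    exact Finset.mem_powerset.2 (Finset.filter_subset _ _)
  · intro T hT
    exact Finset.mem_filter.2 ⟨Finset.mem_univ _, toX_pin (Finset.mem_powerset.1 hT)⟩
  · intro χ hχ
    exact toX_toT (Finset.mem_filter.1 hχ).2
  · intro T hT
    exact toT_toX H h3 (Finset.mem_powerset.1 hT)
  · intro χ hχ
    show F χ = F (toX hS (toT A χ : Set ℂ))
    rw [toX_toT (Finset.mem_filter.1 hχ).2]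

/-- number of the colourings of the free cells -/
theorem n0_ff (H : Hl A j) (h3 : 3 ≤ S.card) : N0 A = 2 ^ (ff S (st A)).card := by
  have h := sum_pin_sites (X := ℕ) H h3 (fun _ => 1)
  rw [Finset.sum_const, Finset.card_powerset, smul_eq_mul, mul_one] at h
  rw [← h]
  unfold N0
  rw [Finset.card_filter]

theorem card3 (hS : GP (S : Set ℂ)) (g : D0 S) : 3 ≤ S.card := by
  have ht := th_spec g.2
  obtain ⟨m1, m2, m3⟩ := mem3 hS ht
  have n1 : g.1.1 ≠ g.1.2 := (g1 S hS).2.2 _ _ _ ht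
  have n2 : g.1.2 ≠ th S g.1 := (g1 S hS).2.2 _ _ _ (delT_rot hS ht)
  have n3 : th S g.1 ≠ g.1.1 := (g1 S hS).2.2 _ _ _ (delT_rot hS (delT_rot hS ht))
  exact Finset.two_lt_card_iff.2 ⟨g.1.1, g.1.2, th S g.1, m1, m2, m3, n1, n3.symm, n2⟩

/-! ### values at the sites -/

/-- a function of the sites as a function of the cells (correct off the hull) -/
def zc (hS : GP (S : Set ℂ)) (z : ℂ → ℂ) (c : Cs hS) : ℂ := z (Quot.out c.1)

theorem zc_eq {z : ℂ → ℂ} {v : ℂ} (hv : ¬ OnHull S v) {c : Cs hS}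
    (e : c.1 = Quot.mk (hullE S) v) : zc hS z c = z v := by
  unfold zc
  rw [quot_inner hS hv (e.symm.trans (Quot.out_eq c.1).symm)]

/-- a hit is not at the hull -/
theorem hit_off (G : Gi (rc0 hS) A) (F : Far A j) {T : Set (Cs hS)} {d : D0 S}
    (h : Hit (rc0 hS) A k T d) : ¬ OnHull S d.1.1 := by
  intro hd
  obtain ⟨f1, f2, -⟩ := F d hd
  have e : k = j := G.disj _ _ _ h.tgt f1
  subst e
  rcases Jn.cases h.blk with h1 | h1
  · exact (z3a k).1 (G.disj _ _ _ f2 h1)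
  · exact h1.1 _ f2

/-- **means** -/
theorem ez_ey (G : Gi (rc0 hS) A) (H : Hl A j) (F : Far A j) (R : Root (rc0 hS) A i g)
    (z : ℂ → ℂ) (k : ZMod 3) : Ez (rc0 hS) A k (zc hS z) = Ey S (st A) z k := by
  have h3 := card3 hS g
  have hX := hex G H R
  have h1 := pin_mean (M := rc0 hS) (z := zc hS z) (i := k) G 0
  rw [sum_pin_sites H h3 (fun χ => yv (rc0 hS) A k {c | χ c = 1} (zc hS z)), n0_ff H h3] at h1
  have h2 : ∑ T ∈ (ff S (st A)).powerset,
      yv (rc0 hS) A k {c | toX hS (T : Set ℂ) c = 1} (zc hS z) =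
      ∑ T ∈ (ff S (st A)).powerset, ∑ t ∈ hits S (st A) k (T : Set ℂ), z t.1 := by
    refine Finset.sum_congr rfl fun T hT => ?_
    have hT' := Finset.mem_powerset.1 hT
    have e1 : {c | toX hS (T : Set ℂ) c = 1} = Tc hS (T : Set ℂ) := by
      ext c
      show toX hS (T : Set ℂ) c = 1 ↔ c ∈ Tc hS (T : Set ℂ)
      unfold toX
      by_cases hc : c ∈ Tc hS (T : Set ℂ)
      · rw [if_pos hc]; exact ⟨fun _ => hc, fun _ => rfl⟩
      · rw [if_neg hc]; exact ⟨fun h => absurd h (by decide), fun h => absurd h hc⟩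
    obtain ⟨d, hd⟩ := hit_ex G R k (Tc hS (T : Set ℂ))
    rw [e1, yv_eq G hd, sum_hits hX z hT',
      hv_eq hX hT' ((hitO_hit H (cmp_tc H) (th_spec d.2)).2 hd)]
    exact zc_eq (hit_off G F hd) rfl
  rw [h2] at h1
  unfold Ey exC
  rw [h1]
  push_cast
  have h4 : (2 : ℂ) ^ (ff S (st A)).card ≠ 0 := pow_ne_zero _ two_ne_zero
  rw [mul_div_cancel_left₀ _ h4]

/-! ### phases -/

theorem om_c : om ^ 3 = 1 := Oscx63.om_pow_three

theorem om_s : 1 + om + om ^ 2 = 0 := Frame7x395.om_sum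

theorem omz0 : omz 0 = 1 := by
  unfold omz
  simp

theorem omz1 : omz 1 = om := by
  have : (1 : ZMod 3).val = 1 := rfl
  unfold omz
  rw [this, pow_one]

theorem omz2 : omz 2 = om ^ 2 := by
  have : (2 : ZMod 3).val = 2 := rfl
  unfold omz
  rw [this]

/-- **`T` in terms of the means, from any root** -/
theorem phase (E : ZMod 3 → ℂ) (i : ZMod 3) :
    om * (E (i + 1) + om * E (i + 2) + om ^ 2 * E i) =
      omz (-i) * (3 * ∑ k : ZMod 3, omz k * E k) / 3 := by
  have hs : ∑ k : ZMod 3, omz k * E k = omz 0 * E 0 + omz 1 * E 1 + omz 2 * E 2 :=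
    Fin.sum_univ_three _
  rw [hs, omz0, omz1, omz2]
  have h4 : om ^ 4 = om := by linear_combination om * om_c
  rcases J1x872.cases_z3 i with rfl | rfl | rfl
  · rw [neg_zero, zero_add, zero_add, omz0]
    linear_combination E 0 * om_c
  · rw [show -(1 : ZMod 3) = 2 by decide, show (1 : ZMod 3) + 1 = 2 by decide,
      show (1 : ZMod 3) + 2 = 0 by decide, omz2]
    linear_combination -om * E 2 * om_c
  · rw [show -(2 : ZMod 3) = 1 by decide, show (2 : ZMod 3) + 1 = 0 by decide,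
      show (2 : ZMod 3) + 2 = 1 by decide, omz1]
    ring

/-! ### the mean of the root block -/

/-- the field of the values `z` at the corners -/
def zf (S : Finset ℂ) (z : ℂ → ℂ) (h : D0 S) : ℂ :=
  z h.1.1 + om * z h.1.2 + om ^ 2 * z (th S h.1)

/-- the giants are monochromatic -/
theorem mono_giant {χ₀ : Cs hS → ZMod 2} (hc : Rc A i χ₀) (j : ZMod 3) :
    ∃ s, ∀ c ∈ A j, χ₀ c = s := by
  rcases z3c i j with rfl | rfl | rfl
  · exact ⟨1, hc.c1⟩
  · exact ⟨1, hc.c0⟩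
  · exact ⟨0, hc.c2⟩

/-- a gap is not at the hull -/
theorem gap_off (F : Far A j) {χ₀ χ : Cs hS → ZMod 2} (hc : Rc A i χ₀) (hp : Pin A χ₀ χ)
    {h : D0 S} (hg : Gp (rc0 hS) (cfg (rc0 hS) χ) h) :
    ¬ OnHull S h.1.1 ∧ ¬ OnHull S h.1.2 ∧ ¬ OnHull S (th S h.1) := by
  obtain ⟨s, hs⟩ := mono_giant hc j
  have key : ¬ ((rc0 hS).cell h ∈ A j ∧ (rc0 hS).cell ((rc0 hS).rho h) ∈ A j ∧
      (rc0 hS).cell ((rc0 hS).rho ((rc0 hS).rho h)) ∈ A j) := by
    rintro ⟨-, m2, m3⟩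
    have h2 := hg.2
    unfold cfg at h2
    rw [hp _ fun f => f j m2, hp _ fun f => f j m3, hs _ m2, hs _ m3] at h2
    have dec : ∀ s : ZMod 2, s + s ≠ 1 := by decide
    exact dec _ h2
  refine ⟨fun h1 => key (F h h1), fun h1 => ?_, fun h1 => ?_⟩
  · have := F ((rc0 hS).rho h) h1
    rw [(rc0 hS).rho3] at this
    exact key ⟨this.2.2, this.1, this.2.1⟩
  · have := F ((rc0 hS).rho ((rc0 hS).rho h)) h1
    rw [(rc0 hS).rho3] at this
    exact key ⟨this.2.1, this.2.2, this.1⟩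

theorem zf_eq {z : ℂ → ℂ} {h : D0 S} (h1 : ¬ OnHull S h.1.1 ∧ ¬ OnHull S h.1.2 ∧
    ¬ OnHull S (th S h.1)) : zs (rc0 hS) om (zc hS z) h = zf S z h := by
  unfold zs zf
  rw [zc_eq h1.1 (c := (rc0 hS).cell h) rfl, zc_eq h1.2.1 (c := (rc0 hS).cell ((rc0 hS).rho h)) rfl,
    zc_eq h1.2.2 (c := (rc0 hS).cell ((rc0 hS).rho ((rc0 hS).rho h))) rfl]

variable {C' : Type} [Fintype C'] {π : Cs hS → C'} {hπ : ClsCon (rc0 hS) π}
  {χ₀ : Cs hS → ZMod 2}

/-- **(R5) the mean of the root block of the coarse map is the static `TS` of the three giants** -/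
theorem c2s (G : Gi (rc0 hS) A) (H : Hl A j) (F : Far A j) (R : Root (rc0 hS) A i g)
    (Q : Cq π A) (hc : Rc A i χ₀) (z : ℂ → ℂ) :
    (∑ χ : Cs hS → ZMod 2, if Pin A χ₀ χ then
      rsum (coarse (rc0 hS) π hπ) (cfg (rc0 hS) χ) g (zf S z) else 0) =
      2 ^ (ff S (st A)).card * (omz (-i) * TS S (st A) z / 3) := by
  have h1 := mean_static (hπ := hπ) om_c om_s R Q G hc (zc hS z)
  rw [n0_ff H (card3 hS g), ez_ey G H F R, ez_ey G H F R, ez_ey G H F R,
    phase (Ey S (st A) z) i] at h1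
  push_cast at h1
  unfold TS
  rw [← h1]
  refine Finset.sum_congr rfl fun χ _ => ?_
  by_cases hp : Pin A χ₀ χ
  · rw [if_pos hp, if_pos hp]
    exact rsum_congr fun h hg => (zf_eq (gap_off F hc hp hg)).symm
  · rw [if_neg hp, if_neg hp]

/-- **mean displacement of the root block** -/
theorem c2s_ends (G : Gi (rc0 hS) A) (H : Hl A j) (F : Far A j) (R : Root (rc0 hS) A i g)
    (Q : Cq π A) (hc : Rc A i χ₀) (z : ℂ → ℂ) :
    (∑ χ : Cs hS → ZMod 2, if Pin A χ₀ χ then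
      rsum (coarse (rc0 hS) π hπ) (cfg (rc0 hS) χ) g (fun h => z h.1.2 - z h.1.1) else 0) =
      2 ^ (ff S (st A)).card * (Ey S (st A) z (i + 1) - Ey S (st A) z i) := by
  have h1 := mean_ends (hπ := hπ) R Q G hc (zc hS z)
  rw [n0_ff H (card3 hS g), ez_ey G H F R, ez_ey G H F R] at h1
  push_cast at h1
  rw [← h1]
  refine Finset.sum_congr rfl fun χ _ => ?_
  by_cases hp : Pin A χ₀ χ
  · rw [if_pos hp, if_pos hp]
    refine rsum_congr fun h hg => ?_
    obtain ⟨o1, o2, -⟩ := gap_off F hc hp hg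
    rw [zc_eq o1 (c := (rc0 hS).cell h) rfl, zc_eq o2 (c := (rc0 hS).cell ((rc0 hS).rho h)) rfl]
  · rw [if_neg hp, if_neg hp]

end Crest.Agent.R143.C2SDx395
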