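import Crest.Agent.R143.C2SB_395
import Crest.Agent.R143.FinC_811
import Crest.Agent.R143.NetU_346

/-!
# Row 143 (S0194), CORE-C, leaf C2S: the coarse map of three giants on `cm0 hS` and the static `TS`
(helper58)

Bridge between 395's `C2SBx395` (static hits of a closed map with finitely many cells) and 346's
frozen object `NetUx346.TS`.  `M = rc0 hS` (811), cells `Cs hS`.

* `gc hS A j` : the cells of the sites of `A j`
* `Hu S A j₀` : the hull sites and their neighbours are in the giant `A j₀`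
* `gi_gc` : the giants of sites give giants of cells
* `jn_iff`, `hit_iff` : joined cells = joined sites, hits = oriented hit triples
* `Ez_eq` : `Ez M (gc hS A) i ẑ = Ey S A z i`
-/

set_option autoImplicit false

noncomputable section

open scoped Classical

namespace Crest.Agent.R143.C2SUx58

open Crest.Agent.R143.B0x346 Crest.Agent.R143.DelGx806 Crest.Agent.R143.DelRx806
open Crest.Agent.R143.Frame1x395 Crest.Agent.R143.Frame2x395 Crest.Agent.R143.Frame3x395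
  Crest.Agent.R143.Frame4x395 Crest.Agent.R143.Frame8x395 Crest.Agent.R143.Frame9x395
  Crest.Agent.R143.Frame10x395
open Crest.Agent.R143.Frame5x395 (sd mem_sd th th_spec)
open Crest.Agent.R143.Mass3x302 (restr)
open Crest.Agent.R143.FinCx811 (Cs rc0)
open Crest.Agent.R143.Coarsex166 Crest.Agent.R143.Coarse2x166
open Crest.Agent.R143.C2SBx395
open Crest.Agent.R143.NetUx346 (ff HitO hits exC Ey TS G3 Hex mem_ff mem_hits)
open Crest.Agent.R143.K33x877 (Clu fr)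
open Crest.Agent.R143.RE0x723 (Pth)
open Crest.Agent.R143.K33x137 (Ed Lk Cn)

variable {S : Finset ℂ} {A : ZMod 3 → Set ℂ} {i j j₀ : ZMod 3} {hS : GP (S : Set ℂ)}

/-! ### cells of sites -/

/-- the cell of a site -/
abbrev mk (S : Finset ℂ) (v : ℂ) : Quot (hullE S) := Quot.mk (hullE S) v

/-- the cells of the sites of the giant `A j` -/
def gc (hS : GP (S : Set ℂ)) (A : ZMod 3 → Set ℂ) (j : ZMod 3) : Set (Cs hS) :=
  {c | ∃ v ∈ A j, mk S v = c.1}

/-- the hull sites and their neighbours are in the giant `A j₀` -/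
structure Hu (S : Finset ℂ) (A : ZMod 3 → Set ℂ) (j₀ : ZMod 3) : Prop where
  hull : ∀ v, OnHull S v → v ∈ A j₀
  nb : ∀ v u, OnHull S v → JColx54.Adj S v u → u ∈ A j₀

theorem g3_eq (G : G3 S A) {v : ℂ} (h : v ∈ A i) (h' : v ∈ A j) : i = j := by
  by_contra hne
  exact Set.disjoint_left.1 (G.disj i j hne) h h'

theorem mk_mem (G : G3 S A) (H : ∀ v, OnHull S v → v ∈ A j₀) {v u : ℂ} (hv : v ∈ A i)
    (e : mk S v = mk S u) : u ∈ A i := by
  by_cases h1 : OnHull S v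
  · obtain rfl := g3_eq G hv (H v h1)
    by_cases h2 : OnHull S u
    · exact H u h2
    · obtain rfl := quot_inner G.gp h2 e.symm
      exact hv
  · obtain rfl := quot_inner G.gp h1 e
    exact hv

theorem mem_gc (G : G3 S A) (H : ∀ v, OnHull S v → v ∈ A j₀) {c : Cs hS} {v : ℂ}
    (e : mk S v = c.1) : c ∈ gc hS A i ↔ v ∈ A i :=
  ⟨fun ⟨_, hu, e'⟩ => mk_mem G H hu (e'.trans e.symm), fun h => ⟨v, h, e⟩⟩

theorem free_iff (G : G3 S A) (H : ∀ v, OnHull S v → v ∈ A j₀) {c : Cs hS} {v : ℂ}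
    (e : mk S v = c.1) : Free (gc hS A) c ↔ ∀ i, v ∉ A i :=
  forall_congr' fun _ => not_congr (mem_gc G H e)

/-- the site of a free cell is unique -/
theorem free_site (G : G3 S A) (H : ∀ v, OnHull S v → v ∈ A j₀) {c : Cs hS} {v u : ℂ}
    (hc : Free (gc hS A) c) (e : mk S v = c.1) (e' : mk S u = c.1) : u = v := by
  have h1 : ¬ OnHull S v := fun h => (free_iff G H e).1 hc j₀ (H v h)
  exact quot_inner G.gp h1 (e.trans e'.symm)

/-- the cells of the two ends of a dart -/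
theorem cell_eq (d : D0 S) : mk S d.1.1 = ((rc0 hS).cell d).1 := rfl

theorem cell_rho_eq (d : D0 S) : mk S d.1.2 = ((rc0 hS).cell ((rc0 hS).rho d)).1 :=
  rfl

theorem cell_rho2_eq (d : D0 S) : mk S (th S d.1) =
    ((rc0 hS).cell ((rc0 hS).rho ((rc0 hS).rho d))).1 := rfl

theorem adj_dart (d : D0 S) : JColx54.Adj S d.1.1 d.1.2 := Or.inl (mem_sd.1 d.2)

/-- neighbouring sites have neighbouring cells -/
theorem ed_of_adj (hS : GP (S : Set ℂ)) {a b : ℂ} (h : JColx54.Adj S a b) :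
    ∃ c c' : Cs hS, mk S a = c.1 ∧ mk S b = c'.1 ∧ Ed (rc0 hS) c c' := by
  rcases h with h | h
  · exact ⟨_, _, cell_eq (hS := hS) ⟨(a, b), mem_sd.2 h⟩,
      cell_rho_eq (hS := hS) ⟨(a, b), mem_sd.2 h⟩, ⟨_, rfl, rfl⟩⟩
  · exact ⟨_, _, cell_rho_eq (hS := hS) ⟨(b, a), mem_sd.2 h⟩,
      cell_eq (hS := hS) ⟨(b, a), mem_sd.2 h⟩, Ed.symm ⟨_, rfl, rfl⟩⟩

theorem ed_adj (hS : GP (S : Set ℂ)) {a b : ℂ} (h : JColx54.Adj S a b) {c c' : Cs hS}
    (e : mk S a = c.1) (e' : mk S b = c'.1) : Ed (rc0 hS) c c' := by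
  obtain ⟨u, u', h1, h2, h3⟩ := ed_of_adj hS h
  rwa [← Subtype.ext (h1.symm.trans e), ← Subtype.ext (h2.symm.trans e')]

/-- **the giants of cells** -/
theorem gi_gc (G : G3 S A) (H : ∀ v, OnHull S v → v ∈ A j₀) :
    Gi (rc0 hS) (gc hS A) where
  disj := by
    rintro i j c ⟨v, hv, e⟩ hj
    exact g3_eq G hv ((mem_gc G H e).1 hj)
  con := by
    rintro i c ⟨v, hv, e⟩ c' ⟨u, hu, e'⟩
    refine (G.con i v hv u hu).ind (P := fun u => ∀ c' : Cs hS, mk S u = c'.1 →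
      Lk (rc0 hS) (gc hS A i) c c') ?_ ?_ c' e'
    · intro c' e'
      rw [Subtype.ext (e.symm.trans e')]
      exact Relation.EqvGen.refl _
    · intro a b ha hb hab ih c' e'
      obtain ⟨w, w', h1, h2, h3⟩ := ed_of_adj hS hab
      have h4 : w' = c' := Subtype.ext (h2.symm.trans e')
      subst h4
      exact (ih w h1).trans' (Lk.edge ⟨a, ha, h1⟩ ⟨b, hb, h2⟩ h3)

/-! ### joined cells and joined sites -/

/-- the colourings `T'` (cells) and `T` (sites) agree on the free sites -/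
def Mt (hS : GP (S : Set ℂ)) (A : ZMod 3 → Set ℂ) (T' : Set (Cs hS)) (T : Set ℂ) : Prop :=
  ∀ v ∈ fr S A, ∀ c : Cs hS, mk S v = c.1 → (c ∈ T' ↔ v ∈ T)

theorem Mt.compl {T' : Set (Cs hS)} {T : Set ℂ} (h : Mt hS A T' T) : Mt hS A T'ᶜ Tᶜ :=
  fun v hv c e => not_congr (h v hv c e)

/-- a cell has a site -/
theorem site_of (c : Cs hS) : ∃ v ∈ S, mk S v = c.1 := by
  obtain ⟨_, d, rfl⟩ := c
  exact ⟨d.1.1, (mem_delT.1 (th_spec d.2)).1, rfl⟩

theorem jn_clu (G : G3 S A) (H : ∀ v, OnHull S v → v ∈ A j₀) {T' : Set (Cs hS)} {T : Set ℂ}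
    (hT : Mt hS A T' T) {c : Cs hS} (h : Jn (rc0 hS) (gc hS A) i T' c) {v : ℂ}
    (e : mk S v = c.1) (hv : v ∈ S) : v ∈ Clu S (fr S A ∩ T) (A i) := by
  obtain ⟨b, hb, h⟩ := h
  suffices key : ∀ c, Relation.ReflTransGen (fun c c' => Ed (rc0 hS) c c' ∧
      Free (gc hS A) c' ∧ c' ∈ T') b c → ∀ v ∈ S, mk S v = c.1 →
      v ∈ Clu S (fr S A ∩ T) (A i) from key c h v hv e
  clear h e hv v
  intro c h
  induction h with
  | refl =>
    intro v _ e
    exact ⟨v, (mem_gc G H e).1 hb, Pth.refl (Or.inr ((mem_gc G H e).1 hb))⟩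
  | @tail c1 c2 _ hs ih =>
    intro v hv e
    obtain ⟨⟨d, h1, h2⟩, h3, h4⟩ := hs
    have e2 : mk S d.1.2 = c2.1 := by rw [← h2]; exact cell_rho_eq d
    have e1 : mk S d.1.1 = c1.1 := by rw [← h1]; exact cell_eq d
    obtain rfl := free_site G H h3 e2 e
    have hm := (adj_dart d).mem
    obtain ⟨x, hx, hp⟩ := ih d.1.1 hm.1 e1
    have hfr : d.1.2 ∈ fr S A := ⟨hm.2, (free_iff G H e2).1 h3⟩
    exact ⟨x, hx, hp.tail (adj_dart d) (Or.inl ⟨hfr, (hT _ hfr _ e2).1 h4⟩)⟩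

theorem clu_jn (G : G3 S A) (H : ∀ v, OnHull S v → v ∈ A j₀) {T' : Set (Cs hS)} {T : Set ℂ}
    (hT : Mt hS A T' T) {c : Cs hS} {v : ℂ} (e : mk S v = c.1)
    (h : v ∈ Clu S (fr S A ∩ T) (A i)) : Jn (rc0 hS) (gc hS A) i T' c := by
  obtain ⟨x, hx, hp⟩ := h
  refine hp.ind (P := fun v => ∀ c : Cs hS, mk S v = c.1 →
    Jn (rc0 hS) (gc hS A) i T' c) ?_ ?_ c e
  · intro c e
    exact ⟨c, (mem_gc G H e).2 hx, .refl⟩
  · intro a b _ hb hab ih c e
    rcases hb with ⟨h1, h2⟩ | h1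
    · obtain ⟨w, w', h3, h4, h5⟩ := ed_of_adj hS hab
      have h6 : w' = c := Subtype.ext (h4.symm.trans e)
      subst h6
      obtain ⟨y, hy, hr⟩ := ih w h3
      exact ⟨y, hy, hr.tail ⟨h5, (free_iff G H h4).2 h1.2, (hT b h1 _ h4).2 h2⟩⟩
    · exact ⟨c, (mem_gc G H e).2 h1, .refl⟩

theorem jn_iff (G : G3 S A) (H : ∀ v, OnHull S v → v ∈ A j₀) {T' : Set (Cs hS)} {T : Set ℂ}
    (hT : Mt hS A T' T) {c : Cs hS} {v : ℂ} (e : mk S v = c.1) (hv : v ∈ S) :
    Jn (rc0 hS) (gc hS A) i T' c ↔ v ∈ Clu S (fr S A ∩ T) (A i) :=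
  ⟨fun h => jn_clu G H hT h e hv, clu_jn G H hT e⟩

/-- **hits = oriented hit triples** -/
theorem hit_iff (G : G3 S A) (H : ∀ v, OnHull S v → v ∈ A j₀) {T' : Set (Cs hS)} {T : Set ℂ}
    (hT : Mt hS A T' T) (k : D0 S) :
    Hit (rc0 hS) (gc hS A) i T' k ↔ HitO S A i T (k.1.1, k.1.2, th S k.1) := by
  have hm := th_spec k.2
  have hmem := mem_delT.1 hm
  have e0 := cell_eq (hS := hS) k
  have e1 := cell_rho_eq (hS := hS) k
  have e2 := cell_rho2_eq (hS := hS) k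
  have a0 := mem_gc (i := i) G H e0
  have a1 := jn_iff (i := i + 1) G H hT e1 hmem.2.1
  have a2 := jn_iff (i := i + 2) G H hT.compl e2 hmem.2.2.1
  constructor
  · rintro ⟨h0, h1, h2⟩
    exact ⟨hm, a0.1 h0, a1.1 h1, a2.1 h2⟩
  · rintro ⟨_, h0, h1, h2⟩
    exact ⟨a0.2 h0, a1.2 h1, a2.2 h2⟩

theorem clu_cases {T B : Set ℂ} {v : ℂ} (h : v ∈ Clu S T B) : v ∈ T ∨ v ∈ B := by
  obtain ⟨x, -, hp⟩ := h
  exact hp.snd

/-- the hit vertex is not on the hull -/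
theorem hit_inner (G : G3 S A) (H : Hu S A j₀) {T : Set ℂ} {t : ℂ × ℂ × ℂ}
    (h : HitO S A i T t) : ¬ OnHull S t.1 := by
  intro hh
  obtain ⟨h1, h2, h3, -⟩ := h
  have e := g3_eq G h2 (H.hull _ hh)
  have h4 := H.nb t.1 t.2.1 hh (Or.inl ⟨t.2.2, h1⟩)
  rcases clu_cases h3 with h5 | h5
  · exact h5.1.2 _ h4
  · exact (z3a i).1 (e.trans (g3_eq G h5 h4).symm)

theorem hito_dart (hS : GP (S : Set ℂ)) {T : Set ℂ} {t : ℂ × ℂ × ℂ} (h : HitO S A i T t) :
    ∃ k : D0 S, t = (k.1.1, k.1.2, th S k.1) := by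
  obtain ⟨a, b, c⟩ := t
  refine ⟨⟨(a, b), mem_sd.2 ⟨c, h.1⟩⟩, ?_⟩
  show (a, b, c) = (a, b, th S (a, b))
  rw [th0 hS h.1]

/-- **`z` at the static hit** -/
theorem yv_hits (G : G3 S A) (H : Hu S A j₀) {T' : Set (Cs hS)} {T : Set ℂ}
    (hT : Mt hS A T' T) {z : ℂ → ℂ} {zc : Cs hS → ℂ}
    (hz : ∀ v ∈ S, ¬ OnHull S v → ∀ c : Cs hS, mk S v = c.1 → zc c = z v) :
    yv (rc0 hS) (gc hS A) i T' zc = ∑ t ∈ hits S A i T, z t.1 := by
  by_cases h : ∃ k, Hit (rc0 hS) (gc hS A) i T' k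
  · obtain ⟨k, hk⟩ := h
    have hk' := (hit_iff G H.hull hT k).1 hk
    have e : hits S A i T = {(k.1.1, k.1.2, th S k.1)} := by
      ext t
      rw [mem_hits, Finset.mem_singleton]
      constructor
      · intro ht
        obtain ⟨k', rfl⟩ := hito_dart hS ht
        rw [((hit_iff G H.hull hT k').2 ht).uniq (gi_gc G H.hull) hk]
      · rintro rfl
        exact hk'
    rw [e, Finset.sum_singleton, yv_eq (gi_gc G H.hull) hk]
    exact hz _ (mem_delT.1 hk'.1).1 (hit_inner G H hk') _ (cell_eq k)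
  · unfold yv
    rw [dif_neg h]
    refine (Finset.sum_eq_zero fun t ht => ?_).symm
    obtain ⟨k, rfl⟩ := hito_dart hS (mem_hits.1 ht)
    exact absurd ⟨k, (hit_iff G H.hull hT k).2 (mem_hits.1 ht)⟩ h

/-! ### means -/

/-- colourings of `V` = subsets of `V` -/
theorem sum_pow {X : Type*} [AddCommMonoid X] (V : Finset ℂ) (f : Finset ℂ → X) :
    ∑ ψ : {v // v ∈ V} → ZMod 2, f (V.filter fun v => ∃ h : v ∈ V, ψ ⟨v, h⟩ = 1) =
      ∑ T ∈ V.powerset, f T := by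
  refine Finset.sum_bij' (fun ψ _ => V.filter fun v => ∃ h : v ∈ V, ψ ⟨v, h⟩ = 1)
    (fun T _ v => if v.1 ∈ T then 1 else 0) ?_ ?_ ?_ ?_ ?_
  · intro ψ _
    exact Finset.mem_powerset.2 (Finset.filter_subset _ _)
  · intro T _
    exact Finset.mem_univ _
  · intro ψ _
    funext v
    simp only [Finset.mem_filter]
    by_cases h : ψ v = 1
    · rw [if_pos ⟨v.2, v.2, h⟩, h]
    · rw [if_neg fun h' => h h'.2.2]
      revert h
      generalize ψ v = p
      revert p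
      decide
  · intro T hT
    rw [Finset.mem_powerset] at hT
    ext v
    simp only [Finset.mem_filter]
    constructor
    · rintro ⟨_, _, h⟩
      by_contra hv
      have h' : (if v ∈ T then (1 : ZMod 2) else 0) = 1 := h
      rw [if_neg hv] at h'
      exact absurd h' (by decide)
    · intro h
      exact ⟨hT h, hT h, if_pos h⟩
  · intro ψ _
    rfl

theorem three_le (hS : GP (S : Set ℂ)) (g : D0 S) : 3 ≤ S.card := by
  have h := th_spec g.2
  have hm := mem_delT.1 h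
  have n1 : g.1.1 ≠ g.1.2 := ne0 hS g.2
  have n2 : g.1.2 ≠ th S g.1 := ne0 hS (e := (g.1.2, th S g.1))
    (mem_sd.2 ⟨_, JColx54.delT_rot hS h⟩)
  have n3 : th S g.1 ≠ g.1.1 := ne0 hS (e := (th S g.1, g.1.1))
    (mem_sd.2 ⟨_, JColx54.delT_rot hS (JColx54.delT_rot hS h)⟩)
  have h3 : ({g.1.1, g.1.2, th S g.1} : Finset ℂ) ⊆ S := by
    intro v hv
    simp only [Finset.mem_insert, Finset.mem_singleton] at hv
    rcases hv with rfl | rfl | rfl
    · exact hm.1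
    · exact hm.2.1
    · exact hm.2.2.1
  have h4 : ({g.1.1, g.1.2, th S g.1} : Finset ℂ).card = 3 :=
    Finset.card_eq_three.2 ⟨_, _, _, n1, n3.symm, n2, rfl⟩
  rw [← h4]
  exact Finset.card_le_card h3

theorem card_fun2 {K : Type*} [Fintype K] (inst : Fintype (K → ZMod 2)) :
    @Fintype.card (K → ZMod 2) inst = 2 ^ Fintype.card K := by
  rw [← Nat.card_eq_fintype_card, Nat.card_fun, Nat.card_zmod, Nat.card_eq_fintype_card]

/-- **`Ez = Ey`** -/
theorem Ez_eq (h3 : 3 ≤ S.card) (G : G3 S A) (H : Hu S A j₀) {z : ℂ → ℂ} {zc : Cs hS → ℂ}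
    (hz : ∀ v ∈ S, ¬ OnHull S v → ∀ c : Cs hS, mk S v = c.1 → zc c = z v) :
    Ez (rc0 hS) (gc hS A) i zc = Ey S A z i := by
  set V := ff S A with hV
  have inn : ∀ v ∈ V, ¬ OnHull S v := by
    intro v hv hh
    exact (mem_ff.1 hv).2 _ (H.hull v hh)
  set jj : {v // v ∈ V} → Cs hS := fun v => FinCx811.cs hS h3 ⟨v.1, (mem_ff.1 v.2).1⟩ with hjj
  have hinj : Function.Injective jj := by
    intro v w h
    have := FinCx811.cs_inj hS h3 (inn v.1 v.2) h
    exact Subtype.ext (congrArg Subtype.val this).symm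
  have h1 := FinCx811.sum_comp_inj (B := ZMod 2) hinj (fun ψ : {v // v ∈ V} → ZMod 2 =>
    ∑ t ∈ hits S A i (((V.filter fun v => ∃ h : v ∈ V, ψ ⟨v, h⟩ = 1) : Finset ℂ) : Set ℂ), z t.1)
  have h2 : ∀ χ : Cs hS → ZMod 2, yv (rc0 hS) (gc hS A) i {c | χ c = 1} zc =
      ∑ t ∈ hits S A i (((V.filter fun v => ∃ h : v ∈ V, χ (jj ⟨v, h⟩) = 1) : Finset ℂ) : Set ℂ),
        z t.1 := by
    intro χ
    refine yv_hits G H ?_ hz
    intro v hv c e
    have hv' : v ∈ V := mem_ff.2 hv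
    have hc : c = jj ⟨v, hv'⟩ := Subtype.ext e.symm
    rw [hc]
    constructor
    · intro h
      exact Finset.mem_coe.2 (Finset.mem_filter.2 ⟨hv', hv', h⟩)
    · intro h
      obtain ⟨_, _, h'⟩ := Finset.mem_filter.1 (Finset.mem_coe.1 h)
      exact h'
  have hcard : Fintype.card {v // v ∈ V} = V.card := Fintype.card_coe V
  have hle : V.card ≤ Fintype.card (Cs hS) := hcard ▸ Fintype.card_le_of_injective jj hinj
  have h4 : (∑ χ : Cs hS → ZMod 2, yv (rc0 hS) (gc hS A) i {c | χ c = 1} zc) =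
      (2 : ℂ) ^ (Fintype.card (Cs hS) - V.card) *
        ∑ T ∈ V.powerset, ∑ t ∈ hits S A i (T : Set ℂ), z t.1 := by
    rw [Finset.sum_congr rfl fun χ _ => h2 χ]
    rw [← sum_pow V fun T => ∑ t ∈ hits S A i (T : Set ℂ), z t.1]
    have h5 := h1
    rw [ZMod.card, hcard, nsmul_eq_mul] at h5
    rw [Nat.cast_pow, Nat.cast_two] at h5
    convert h5
  unfold Ez Ey exC
  refine (congrArg₂ (fun a b : ℂ => a / b) (?_ : _ = (2 : ℂ) ^ (Fintype.card (Cs hS) - V.card) *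
        ∑ T ∈ V.powerset, ∑ t ∈ hits S A i (T : Set ℂ), z t.1)
      (?_ : _ = (2 : ℂ) ^ Fintype.card (Cs hS))).trans ?_
  · convert h4
  · rw [card_fun2]
    push_cast
    rfl
  have h5 : (2 : ℂ) ^ Fintype.card (Cs hS) =
      2 ^ (Fintype.card (Cs hS) - V.card) * 2 ^ V.card := by
    rw [← pow_add, Nat.sub_add_cancel hle]
  rw [h5, mul_div_mul_left]
  exact pow_ne_zero _ two_ne_zero

end Crest.Agent.R143.C2SUx58
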