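import Crest.Agent.R143.Coarse2_166

/-!
# Row 143 (S0194), CORE-C: the end gaps of the root block are rainbow triangles (helper395)

`K : CMap D C'`, `x` even, `g₀` a gap, `A = cell g₀`, `B = cell (rho g₀)`, `W = cell (rho² g₀)`.

* `rain_black` : the old cell of `kB` is joined to `A` by cells of the block, all different from
  `A`, `B`
* `rain_white` : the minority cell of every gap of the block is joined to `W` by cells of the other
  colour
* `kA_rain`, `kB_rain` : fine form in `coarse M π`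
-/

set_option autoImplicit false

noncomputable section

open scoped Classical

namespace Crest.Agent.R143.C2Sx395

open Crest.Agent.R143.Frame1x395 Crest.Agent.R143.Frame2x395 Crest.Agent.R143.Frame3x395
  Crest.Agent.R143.Frame4x395 Crest.Agent.R143.Frame8x395 Crest.Agent.R143.Frame9x395
  Crest.Agent.R143.NonXx592 Crest.Agent.R143.Coarsex166 Crest.Agent.R143.Coarse2x166

variable {D C C' : Type} {K : CMap D C'} {x : D → ZMod 2}

/-- neighbours through a dart which is not occupied -/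
def Nb (K : CMap D C') (x : D → ZMod 2) (a b : C') : Prop :=
  ∃ d, x d = 0 ∧ ((K.cell d = a ∧ K.cell (K.rho d) = b) ∨ (K.cell d = b ∧ K.cell (K.rho d) = a))

theorem Nb.symm {a b : C'} (h : Nb K x a b) : Nb K x b a := by
  obtain ⟨d, h1, h2 | h2⟩ := h
  · exact ⟨d, h1, Or.inr h2⟩
  · exact ⟨d, h1, Or.inl h2⟩

theorem Nb.col {a b : C'} (h : Nb K x a b) {χ : C' → ZMod 2} (hχ : cfg K χ = x) : χ a = χ b := by
  obtain ⟨d, h1, h2⟩ := h
  rw [← hχ] at h1
  unfold cfg at h1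
  rcases h2 with ⟨e1, e2⟩ | ⟨e1, e2⟩
  · rw [e1, e2] at h1
    revert h1
    generalize χ a = p
    generalize χ b = q
    revert p q; decide
  · rw [e1, e2] at h1
    revert h1
    generalize χ a = p
    generalize χ b = q
    revert p q; decide

/-- **last visit** -/
theorem rtg_last {X : Type} {R : X → X → Prop} {a b : X} (h : Relation.ReflTransGen R a b) :
    Relation.ReflTransGen (fun u v => R u v ∧ v ≠ a) a b := by
  induction h with
  | refl => exact .refl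
  | @tail b c _ hs ih =>
    by_cases e : c = a
    · rw [e]
    · exact ih.tail ⟨hs, e⟩

theorem rtg_symm {a b : C'} (h : Relation.ReflTransGen (Nb K x) a b) :
    Relation.ReflTransGen (Nb K x) b a := by
  induction h with
  | refl => exact .refl
  | @tail b c _ hs ih => exact .head hs.symm ih

section block

variable [Fintype D]

theorem kA_ne (hx : IsC K ∅ x) {g₀ : D} (hg₀ : Gp K x g₀) (hne : K.cell g₀ ≠ K.cell (K.rho g₀)) :
    kA K x g₀ ≠ g₀ := by
  obtain ⟨a1, a2⟩ := kA_spec hx hg₀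
  intro e
  rw [e] at a2
  exact hne a2.symm

theorem kB_ne (hx : IsC K ∅ x) {g₀ : D} (hg₀ : Gp K x g₀) (hne : K.cell g₀ ≠ K.cell (K.rho g₀)) :
    kB K x g₀ ≠ g₀ := by
  obtain ⟨b1, b2⟩ := kB_spec hx hg₀
  intro e
  rw [e] at b2
  exact hne b2

/-- **the block path from `A` to the old cell of `kB`** -/
theorem rain_black (hx : IsC K ∅ x) {g₀ : D} (hg₀ : Gp K x g₀)
    (hne : K.cell g₀ ≠ K.cell (K.rho g₀)) :
    Relation.ReflTransGen (fun a b => Nb K x a b ∧ b ≠ K.cell g₀ ∧ b ≠ K.cell (K.rho g₀))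
      (K.cell g₀) (K.cell (K.rho (kB K x g₀))) := by
  obtain ⟨a1, a2⟩ := kA_spec hx hg₀
  obtain ⟨b1, b2⟩ := kB_spec hx hg₀
  have hA0 := kA_ne hx hg₀ hne
  have hB0 := kB_ne hx hg₀ hne
  have hself := self_mem (M := K) hg₀
  set T := Relation.ReflTransGen (fun a b => Nb K x a b ∧ b ≠ K.cell g₀ ∧ b ≠ K.cell (K.rho g₀))
    (K.cell g₀) with hT
  set R : Finset D := ((blk K x g₀).erase g₀).filter fun k => T (K.cell (K.rho k)) with hR
  have hmem : ∀ k, k ∈ R ↔ (k ≠ g₀ ∧ k ∈ blk K x g₀) ∧ T (K.cell (K.rho k)) := by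
    intro k
    rw [hR, Finset.mem_filter, Finset.mem_erase]
  have hAR : kA K x g₀ ∈ R := by
    rw [hmem]
    exact ⟨⟨hA0, a1⟩, a2 ▸ .refl⟩
  suffices hBR : kB K x g₀ ∈ R from ((hmem _).1 hBR).2
  by_contra hBR
  have ex : ∀ k, ∃ k', k ∈ blk K x g₀ → k' ∈ blk K x g₀ ∧ K.cell (K.rho k') = K.cell k := by
    intro k
    by_cases hk : k ∈ blk K x g₀
    · obtain ⟨k', h1, h2⟩ := exists_prev hx hg₀ hk
      exact ⟨k', fun _ => ⟨h1, h2⟩⟩
    · exact ⟨k, fun h => absurd h hk⟩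
  choose f hf using ex
  have hmap : ∀ k ∈ R, f k ∈ R := by
    intro k hk
    obtain ⟨⟨h1, h2⟩, h3⟩ := (hmem k).1 hk
    obtain ⟨h4, h5⟩ := hf k h2
    have hkB : k ≠ kB K x g₀ := by
      rintro rfl
      exact hBR hk
    have n1 : K.cell k ≠ K.cell (K.rho g₀) := by
      intro e
      exact hkB (blk_new_inj hx hg₀ h2 b1 (by rw [b2, e]))
    have n2 : K.cell k ≠ K.cell g₀ := by
      intro e
      exact h1 (blk_new_inj hx hg₀ h2 hself e)
    rw [hmem]
    refine ⟨⟨?_, h4⟩, ?_⟩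
    · intro e
      rw [e] at h5
      exact n1 h5.symm
    · rw [h5]
      exact h3.tail ⟨⟨k, (mem_blk.1 h2).1.1, Or.inr ⟨rfl, rfl⟩⟩, n2, n1⟩
  have hinj : Set.InjOn f R := by
    intro k hk l hl e
    have hk' := ((hmem k).1 hk).1.2
    have hl' := ((hmem l).1 hl).1.2
    refine blk_new_inj hx hg₀ hk' hl' ?_
    rw [← (hf k hk').2, ← (hf l hl').2, e]
  have hsurj : Set.SurjOn f R R :=
    Finset.surjOn_of_injOn_of_card_le f hmap hinj le_rfl
  obtain ⟨k, hk, e⟩ := hsurj hAR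
  have hk' := (hmem k).1 hk
  have h6 := (hf k hk'.1.2).2
  rw [e, a2] at h6
  exact hk'.1.1 (blk_new_inj hx hg₀ hk'.1.2 hself h6.symm)

/-- **the block path from `B` to the new cell of `kA`** -/
theorem rain_black' (hx : IsC K ∅ x) {g₀ : D} (hg₀ : Gp K x g₀)
    (hne : K.cell g₀ ≠ K.cell (K.rho g₀)) :
    Relation.ReflTransGen (fun a b => Nb K x a b ∧ b ≠ K.cell g₀ ∧ b ≠ K.cell (K.rho g₀))
      (K.cell (K.rho g₀)) (K.cell (kA K x g₀)) := by
  obtain ⟨a1, a2⟩ := kA_spec hx hg₀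
  obtain ⟨b1, b2⟩ := kB_spec hx hg₀
  have hA0 := kA_ne hx hg₀ hne
  have hB0 := kB_ne hx hg₀ hne
  have hself := self_mem (M := K) hg₀
  set T := Relation.ReflTransGen (fun a b => Nb K x a b ∧ b ≠ K.cell g₀ ∧ b ≠ K.cell (K.rho g₀))
    (K.cell (K.rho g₀)) with hT
  set R : Finset D := ((blk K x g₀).erase g₀).filter fun k => T (K.cell k) with hR
  have hmem : ∀ k, k ∈ R ↔ (k ≠ g₀ ∧ k ∈ blk K x g₀) ∧ T (K.cell k) := by
    intro k
    rw [hR, Finset.mem_filter, Finset.mem_erase]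
  have hBR : kB K x g₀ ∈ R := by
    rw [hmem]
    exact ⟨⟨hB0, b1⟩, b2 ▸ .refl⟩
  suffices hAR : kA K x g₀ ∈ R from ((hmem _).1 hAR).2
  by_contra hAR
  have ex : ∀ k, ∃ k', k ∈ blk K x g₀ → k' ∈ blk K x g₀ ∧ K.cell k' = K.cell (K.rho k) := by
    intro k
    by_cases hk : k ∈ blk K x g₀
    · obtain ⟨k', h1, h2⟩ := exists_next hx hg₀ hk
      exact ⟨k', fun _ => ⟨h1, h2⟩⟩
    · exact ⟨k, fun h => absurd h hk⟩
  choose f hf using ex
  have hmap : ∀ k ∈ R, f k ∈ R := by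
    intro k hk
    obtain ⟨⟨h1, h2⟩, h3⟩ := (hmem k).1 hk
    obtain ⟨h4, h5⟩ := hf k h2
    have hkA : k ≠ kA K x g₀ := by
      rintro rfl
      exact hAR hk
    have n1 : K.cell (K.rho k) ≠ K.cell g₀ := by
      intro e
      exact hkA (blk_old_inj hx hg₀ h2 a1 (by rw [a2, e]))
    have n2 : K.cell (K.rho k) ≠ K.cell (K.rho g₀) := by
      intro e
      exact h1 (blk_old_inj hx hg₀ h2 hself e)
    rw [hmem]
    refine ⟨⟨?_, h4⟩, ?_⟩
    · intro e
      rw [e] at h5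
      exact n1 h5.symm
    · rw [h5]
      exact h3.tail ⟨⟨k, (mem_blk.1 h2).1.1, Or.inl ⟨rfl, rfl⟩⟩, n1, n2⟩
  have hinj : Set.InjOn f R := by
    intro k hk l hl e
    have hk' := ((hmem k).1 hk).1.2
    have hl' := ((hmem l).1 hl).1.2
    refine blk_old_inj hx hg₀ hk' hl' ?_
    rw [← (hf k hk').2, ← (hf l hl').2, e]
  have hsurj : Set.SurjOn f R R :=
    Finset.surjOn_of_injOn_of_card_le f hmap hinj le_rfl
  obtain ⟨k, hk, e⟩ := hsurj hBR
  have hk' := (hmem k).1 hk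
  have h6 := (hf k hk'.1.2).2
  rw [e, b2] at h6
  exact hk'.1.1 (blk_old_inj hx hg₀ hk'.1.2 hself h6.symm)

end block

/-- right cells of consecutive states -/
theorem right_step (hx : IsC K ∅ x) {p : D} (hp : x p = 1) :
    Relation.ReflTransGen (Nb K x) (K.cell (K.rho p)) (K.cell (K.rho (stp K x p))) := by
  rcases stp_cases hx hp (Set.notMem_empty _) with ⟨h1, h2, e⟩ | ⟨h1, h2, e⟩
  · rw [e, cell_rho_iota K (hx.lv h1)]
  · rw [e, cell_rho_iota K (hx.lv h2)]
    exact .single ⟨K.rho p, h1, Or.inl ⟨rfl, rfl⟩⟩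

theorem right_it (hx : IsC K ∅ x) {p : D} (hp : x p = 1) (n : ℕ) :
    Relation.ReflTransGen (Nb K x) (K.cell (K.rho p)) (K.cell (K.rho ((stp K x)^[n] p))) := by
  induction n with
  | zero => exact .refl
  | succ n ih =>
    rw [Function.iterate_succ_apply']
    exact ih.trans (right_step hx (occ_it hx hp n))

theorem right_out (hx : IsC K ∅ x) {g : D} (hg : Gp K x g) :
    K.cell (K.rho (out K g)) = K.cell (K.rho (K.rho g)) := by
  unfold out
  rw [cell_rho_iota K (hx.lv (hg.two hx))]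

/-- **the minority cells of a block are joined** -/
theorem rain_white (hx : IsC K ∅ x) {g₀ k : D} (hg₀ : Gp K x g₀) (hk : Gp K x k)
    (H : Rel K x g₀ k) :
    Relation.ReflTransGen (Nb K x) (K.cell (K.rho (K.rho g₀))) (K.cell (K.rho (K.rho k))) := by
  rcases H (K.cell g₀) with rfl | ⟨n, e, -⟩ | ⟨n, e, -⟩
  · exact .refl
  · have := right_it hx (hg₀.out hx) n
    rw [e, right_out hx hg₀] at this
    exact this
  · have := right_it hx (hk.out hx) n
    rw [e, right_out hx hk] at this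
    exact rtg_symm this

/-! ### fine form in a coarse map -/

variable {M : CMap D C} {π : C → C'} {hπ : ClsCon M π}

/-- neighbours through a live dart -/
def AdjL (M : CMap D C) (a b : C) : Prop :=
  ∃ d ∈ M.live, (M.cell d = a ∧ M.cell (M.rho d) = b) ∨ (M.cell d = b ∧ M.cell (M.rho d) = a)

/-- `c` is in the class `G`, or joined to it by cells `q` with `F (π q)` -/
def JT (M : CMap D C) (π : C → C') (F : C' → Prop) (G : C') (c : C) : Prop :=
  ∃ u, π u = G ∧ Relation.ReflTransGen (fun a b => AdjL M a b ∧ F (π b)) u c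

theorem fine_path {F : C' → Prop} (hF : ∀ c c' : C, π c = π c' → F (π c) → c = c') {G b : C'}
    (h : Relation.ReflTransGen (fun a b => Nb (coarse M π hπ) x a b ∧ F b) G b) :
    ∀ c, π c = b → JT M π F G c := by
  induction h with
  | refl => exact fun c hc => ⟨c, hc, .refl⟩
  | @tail a b hab hs ih =>
    intro c hc
    obtain ⟨⟨d, -, h1⟩, hFb⟩ := hs
    have key : ∃ e, π e = a ∧ (e = c ∨ AdjL M e c) := by
      rcases h1 with ⟨h1, h2⟩ | ⟨h1, h2⟩
      · have h3 : c = M.cell (M.rho d) := hF _ _ (hc.trans h2.symm) (by rw [hc]; exact hFb)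
        refine ⟨M.cell d, h1, ?_⟩
        by_cases hd : d ∈ M.live
        · exact Or.inr ⟨d, hd, Or.inl ⟨rfl, h3.symm⟩⟩
        · exact Or.inl (by rw [h3, M.dead d hd])
      · have h3 : c = M.cell d := hF _ _ (hc.trans h1.symm) (by rw [hc]; exact hFb)
        refine ⟨M.cell (M.rho d), h2, ?_⟩
        by_cases hd : d ∈ M.live
        · exact Or.inr ⟨d, hd, Or.inr ⟨h3.symm, rfl⟩⟩
        · exact Or.inl (by rw [h3, M.dead d hd])
    obtain ⟨e, he, h4⟩ := key
    obtain ⟨u, hu, hue⟩ := ih e he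
    rcases h4 with rfl | h4
    · exact ⟨u, hu, hue⟩
    · exact ⟨u, hu, hue.tail ⟨h4, by rw [hc]; exact hFb⟩⟩

section rain

variable [Fintype D]

/-- free cells with the colour `s` -/
def Fr (χ : C' → ZMod 2) (A B W : C') (s : ZMod 2) (c : C') : Prop :=
  c ≠ A ∧ c ≠ B ∧ c ≠ W ∧ χ c = s

theorem gap_col {K : CMap D C'} {χ : C' → ZMod 2} (hχ : cfg K χ = x) {g₀ : D} (hg₀ : Gp K x g₀) :
    χ (K.cell g₀) = χ (K.cell (K.rho g₀)) ∧
      χ (K.cell (K.rho (K.rho g₀))) ≠ χ (K.cell g₀) := by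
  have h1 := hg₀.1
  have h2 := hg₀.2
  rw [← hχ] at h1 h2
  unfold cfg at h1 h2
  revert h1 h2
  generalize χ (K.cell g₀) = p
  generalize χ (K.cell (K.rho g₀)) = q
  generalize χ (K.cell (K.rho (K.rho g₀))) = r
  revert p q r; decide

theorem rtg_col {K : CMap D C'} {χ : C' → ZMod 2} (hχ : cfg K χ = x) {F : C' → Prop} {a b : C'}
    (h : Relation.ReflTransGen (fun a b => Nb K x a b ∧ F b) a b) :
    Relation.ReflTransGen (fun a' b => Nb K x a' b ∧ F b ∧ χ b = χ a) a b ∧ χ b = χ a := by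
  induction h with
  | refl => exact ⟨.refl, rfl⟩
  | @tail b c _ hs ih =>
    have h1 : χ c = χ a := (hs.1.col hχ).symm.trans ih.2
    exact ⟨ih.1.tail ⟨hs.1, hs.2, h1⟩, h1⟩

theorem rtg_mono {α : Type*} {R S : α → α → Prop} {a b : α} (h : ∀ a b, R a b → S a b)
    (hab : Relation.ReflTransGen R a b) : Relation.ReflTransGen S a b := by
  induction hab with
  | refl => exact .refl
  | tail _ hs ih => exact ih.tail (h _ _ hs)

/-- black part, in the coarse map -/
theorem jt_black {K : CMap D C'} {χ : C' → ZMod 2} (hχ : cfg K χ = x) {g₀ : D}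
    (hg₀ : Gp K x g₀) {G b : C'} (hG : G = K.cell g₀ ∨ G = K.cell (K.rho g₀))
    (h : Relation.ReflTransGen
      (fun a b => Nb K x a b ∧ b ≠ K.cell g₀ ∧ b ≠ K.cell (K.rho g₀)) G b) :
    Relation.ReflTransGen (fun a b => Nb K x a b ∧
      Fr χ (K.cell g₀) (K.cell (K.rho g₀)) (K.cell (K.rho (K.rho g₀))) (χ (K.cell g₀)) b) G b := by
  obtain ⟨c1, c2⟩ := gap_col hχ hg₀
  have hG' : χ G = χ (K.cell g₀) := by
    rcases hG with rfl | rfl
    · rfl
    · exact c1.symm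
  refine rtg_mono ?_ (rtg_col hχ h).1
  rintro a b ⟨h1, ⟨h2, h3⟩, h4⟩
  refine ⟨h1, h2, h3, ?_, h4.trans hG'⟩
  rintro rfl
  exact c2 (h4.trans hG')

/-- white part, in the coarse map -/
theorem jt_white {K : CMap D C'} {χ : C' → ZMod 2} (hχ : cfg K χ = x) {g₀ : D}
    (hg₀ : Gp K x g₀) {b : C'}
    (h : Relation.ReflTransGen (Nb K x) (K.cell (K.rho (K.rho g₀))) b) :
    Relation.ReflTransGen (fun a b => Nb K x a b ∧
      Fr χ (K.cell g₀) (K.cell (K.rho g₀)) (K.cell (K.rho (K.rho g₀)))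
        (χ (K.cell (K.rho (K.rho g₀)))) b) (K.cell (K.rho (K.rho g₀))) b := by
  obtain ⟨c1, c2⟩ := gap_col hχ hg₀
  refine rtg_mono ?_ (rtg_col hχ (rtg_last h)).1
  rintro a b ⟨h1, h2, h4⟩
  refine ⟨h1, ?_, ?_, h2, h4⟩
  · rintro rfl
    exact c2 h4.symm
  · rintro rfl
    exact c2 (h4.symm.trans c1.symm)

variable {χ : C' → ZMod 2}

/-- **the gap `kB` is a rainbow face at the fine cell `cell kB` of the giant `B`** -/
theorem kB_rain (hx : IsC (coarse M π hπ) ∅ x) (hχ : cfg (coarse M π hπ) χ = x) {g₀ : D}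
    (hg₀ : Gp M x g₀) (hne : π (M.cell g₀) ≠ π (M.cell (M.rho g₀)))
    (hfree : ∀ c c' : C, π c = π c' → π c ≠ π (M.cell g₀) → π c ≠ π (M.cell (M.rho g₀)) →
      π c ≠ π (M.cell (M.rho (M.rho g₀))) → c = c') :
    let k := kB (coarse M π hπ) x g₀
    let F := Fr χ (π (M.cell g₀)) (π (M.cell (M.rho g₀))) (π (M.cell (M.rho (M.rho g₀))))
    k ∉ Fa M g₀ ∧ π (M.cell k) = π (M.cell (M.rho g₀)) ∧
      JT M π (F (χ (π (M.cell g₀)))) (π (M.cell g₀)) (M.cell (M.rho k)) ∧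
      JT M π (F (χ (π (M.cell (M.rho (M.rho g₀)))))) (π (M.cell (M.rho (M.rho g₀))))
        (M.cell (M.rho (M.rho k))) := by
  intro k F
  have hg : Gp (coarse M π hπ) x g₀ := hg₀
  obtain ⟨b1, b2⟩ := kB_spec hx hg
  have hk := mem_blk.1 b1
  refine ⟨?_, b2, ?_, ?_⟩
  · have := gp_fa hx hg hk.1 (kB_ne hx hg hne).symm
    exact this
  · refine fine_path (hπ := hπ) (x := x) (fun c c' e h1 => hfree c c' e h1.1 h1.2.1 h1.2.2.1)
      (jt_black hχ hg (Or.inl rfl) (rain_black hx hg hne)) _ rfl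
  · refine fine_path (hπ := hπ) (x := x) (fun c c' e h1 => hfree c c' e h1.1 h1.2.1 h1.2.2.1)
      (jt_white hχ hg (rain_white hx hg hk.1 hk.2)) _ rfl

/-- **the gap `kA` is a rainbow face at the fine cell `cell (rho kA)` of the giant `A`** -/
theorem kA_rain (hx : IsC (coarse M π hπ) ∅ x) (hχ : cfg (coarse M π hπ) χ = x) {g₀ : D}
    (hg₀ : Gp M x g₀) (hne : π (M.cell g₀) ≠ π (M.cell (M.rho g₀)))
    (hfree : ∀ c c' : C, π c = π c' → π c ≠ π (M.cell g₀) → π c ≠ π (M.cell (M.rho g₀)) →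
      π c ≠ π (M.cell (M.rho (M.rho g₀))) → c = c') :
    let k := kA (coarse M π hπ) x g₀
    let F := Fr χ (π (M.cell g₀)) (π (M.cell (M.rho g₀))) (π (M.cell (M.rho (M.rho g₀))))
    k ∉ Fa M g₀ ∧ π (M.cell (M.rho k)) = π (M.cell g₀) ∧
      JT M π (F (χ (π (M.cell g₀)))) (π (M.cell (M.rho g₀))) (M.cell k) ∧
      JT M π (F (χ (π (M.cell (M.rho (M.rho g₀)))))) (π (M.cell (M.rho (M.rho g₀))))
        (M.cell (M.rho (M.rho k))) := by
  intro k F
  have hg : Gp (coarse M π hπ) x g₀ := hg₀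
  obtain ⟨b1, b2⟩ := kA_spec hx hg
  have hk := mem_blk.1 b1
  refine ⟨?_, b2, ?_, ?_⟩
  · have := gp_fa hx hg hk.1 (kA_ne hx hg hne).symm
    exact this
  · refine fine_path (hπ := hπ) (x := x) (fun c c' e h1 => hfree c c' e h1.1 h1.2.1 h1.2.2.1)
      (jt_black hχ hg (Or.inr rfl) (rain_black' hx hg hne)) _ rfl
  · refine fine_path (hπ := hπ) (x := x) (fun c c' e h1 => hfree c c' e h1.1 h1.2.1 h1.2.2.1)
      (jt_white hχ hg (rain_white hx hg hk.1 hk.2)) _ rfl

end rain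

end Crest.Agent.R143.C2Sx395
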