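import Crest.Agent.R143.GateA_838

/-!
# Row 143, block X (helper838): no monochromatic crossing

* `cb` : with probability `≥ exp (- C (1 + C4))` no chain of sites of `β` crosses the annulus
  `r, 3 r` around `z0`, for every colouring set `V`
* `tb` : the same for the long crossing of a rectangle
-/

set_option autoImplicit false

noncomputable section

open scoped Classical

namespace Crest.Agent.R143.CBx838

open Crest.Agent.R143.B0x346 Crest.Agent.R143.DelGx806 Crest.Agent.R143.DelRx806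
open Crest.Agent.R143.ToolWx838 Crest.Agent.R143.Blkx838 Crest.Agent.R143.ToolW2x838
open Crest.Agent.R143.ToolW3x838 Crest.Agent.R143.Circ4x838 Crest.Agent.R143.Harx315
open Crest.Agent.R143.RB0x838 Crest.Agent.R143.CircPx838 Crest.Agent.R143.Gatex838

variable {S V : Finset ℂ} {z0 e : ℂ} {r : ℝ}

/-- a chain of sites of `β` from the disc of radius `r1` to the complement of the disc of radius `r2` -/
structure Arm (S : Finset ℂ) (z0 : ℂ) (r1 r2 : ℝ) (β : Finset ℂ) (l : List ℂ) : Prop where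
  ne : l ≠ []
  adj : ∀ p ∈ prs l, DE S p.1 p.2
  col : ∀ s ∈ l, s ∈ β
  left : ‖l.head ne - z0‖ ≤ r1
  right : r2 ≤ ‖l.getLast ne - z0‖

/-- a circuit of the other colour blocks -/
theorem arm_blocked (hS : GP (S : Set ℂ)) (hr : 0 < r) {β γ : Finset ℂ} (hd : Disjoint β γ)
    {l c : List ℂ} (hl : Arm S z0 r (3 * r) β l) (hc : CircC S z0 r γ c) : False := by
  have h1 : asum (l.head hl.ne) c = 2 * Real.pi := hc.wind _ ((sup_le_norm _).trans hl.left)
  have h2 : asum (l.getLast hl.ne) c = 0 := by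
    refine hc.out ?_
    have h3 := hl.right
    set w : ℂ := l.getLast hl.ne - z0
    have h4 : ‖w‖ ^ 2 ≤ 2 * sup w ^ 2 := by
      rw [Complex.sq_norm, Complex.normSq_apply]
      have a1 : |w.re| ≤ sup w := le_max_left _ _
      have a2 : |w.im| ≤ sup w := le_max_right _ _
      have b1 := sq_le_sq' (by linarith [neg_abs_le w.re, abs_nonneg w.re, le_abs_self w.re])
        ((le_abs_self w.re).trans a1) (a := w.re) (b := sup w)
      have b2 := sq_le_sq' (by linarith [neg_abs_le w.im, abs_nonneg w.im, le_abs_self w.im])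
        ((le_abs_self w.im).trans a2) (a := w.im) (b := sup w)
      nlinarith
    have h5 : 0 ≤ sup w := (abs_nonneg w.re).trans (le_max_left _ _)
    by_contra hcon
    push Not at hcon
    nlinarith
  obtain ⟨s, hs1, hs2⟩ := site_of_ne hS hc.loop hl.adj hl.ne (by
    rw [h1, h2]
    have := Real.pi_pos
    intro h
    linarith)
  exact Finset.disjoint_left.1 hd (hl.col s hs2) (hc.col s hs1)

/-- monotone transfer, upper bound -/
theorem pr_le_of_sub {A : Finset ℂ → Prop} (hV : V ⊆ S) (hA : ∀ β β', β ⊆ β' → A β → A β') :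
    pr V A ≤ pr S A := by
  have hd : Dep S V (fun β => A (β ∩ V)) := by
    intro β _
    simp only [Finset.inter_assoc, Finset.inter_self]
  have h2 := pr_dep hV hd
  have h3 : pr V (fun β => A (β ∩ V)) = pr V A := by
    apply pr_congr
    intro β hβ
    rw [Finset.inter_eq_left.2 hβ]
  rw [← h3, ← h2]
  exact pr_mono fun β _ hh => hA _ _ Finset.inter_subset_left hh

/-- **CB**: crossing of an annulus by one colour -/
theorem cb (hRB : RB) : ∃ C c1 K : ℝ, 0 < C ∧ 0 < c1 ∧ 0 < K ∧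
    ∀ (S : Finset ℂ) (z0 : ℂ) (r d C4 : ℝ), 0 < r → LDns S z0 (K * r) d → 0 ≤ C4 →
    Mesh S z0 (K * r) r C4 → d ≤ c1 * r → ∀ V : Finset ℂ, V ⊆ S →
    pr V (fun β => ∃ l, Arm S z0 r (3 * r) β l) ≤ 1 - Real.exp (-C * (1 + C4)) := by
  obtain ⟨C, c1, K, hC, hc1, hK, h⟩ := circ_pr hRB
  refine ⟨C, c1, K, hC, hc1, hK, fun S z0 r d C4 hr hD hC4 hM hd V hV => ?_⟩
  refine (pr_le_of_sub hV fun β β' h1 ⟨l, hl⟩ => ⟨l, hl.ne, hl.adj, fun s hs => h1 (hl.col s hs),
    hl.left, hl.right⟩).trans ?_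
  have h1 := h S z0 r d C4 hr hD hC4 hM hd S subset_rfl (fun s hs _ _ => hs)
  rw [← pr_white] at h1
  have h2 : pr S (fun β => ∃ l, Arm S z0 r (3 * r) β l) ≤
      pr S (fun β => ¬ ∃ c, CircC S z0 r (S \ β) c) := by
    refine pr_mono fun β _ ⟨l, hl⟩ ⟨c, hc⟩ => arm_blocked hD.gp hr ?_ hl hc
    exact Finset.disjoint_sdiff
  rw [pr_not] at h2
  linarith

/-- a chain of sites of `β` crossing the rectangle `|X| ≤ a`, `|Y| < b` in the direction `e` -/
structure Lng (S : Finset ℂ) (z0 e : ℂ) (a b : ℝ) (β : Finset ℂ) (l : List ℂ) : Prop where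
  ne : l ≠ []
  adj : ∀ p ∈ prs l, DE S p.1 p.2
  col : ∀ s ∈ l, s ∈ β
  strip : ∀ s ∈ l, |Y z0 e s| < b
  left : X z0 e (l.head ne) ≤ -a
  right : a ≤ X z0 e (l.getLast ne)

/-- a transversal crossing of the other colour blocks -/
theorem lng_blocked (hS : GP (S : Set ℂ)) (he : e ≠ 0) {a b : ℝ} {β γ : Finset ℂ} (hd : Disjoint β γ)
    {l c : List ℂ} (hl : Lng S z0 e a b β l) (hc : Cross S z0 (e * Complex.I) b a γ c) : False := by
  have hst : ∀ s ∈ c, -a < X z0 e s ∧ X z0 e s < a := by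
    intro s hs
    have h1 := hc.strip s hs
    change |Y z0 (e * Complex.I) s| < a at h1
    rw [Y_turn, abs_neg, abs_lt] at h1
    exact h1
  have h1 := hc.left
  have h2 := hc.right
  change X z0 (e * Complex.I) _ ≤ -b at h1
  change b ≤ X z0 (e * Complex.I) _ at h2
  rw [X_turn] at h1 h2
  obtain ⟨s, hs1, hs2⟩ := cross_e hS he hl.ne hc.ne hl.adj hc.adj (x0 := -a) (x1 := a) (y0 := -b)
    (y1 := b) (fun s hs => abs_lt.1 (hl.strip s hs)) hst hl.left hl.right h1 h2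
  exact Finset.disjoint_left.1 hd (hl.col s hs1) (hc.col s hs2)

/-- **TB**: long crossing of a rectangle by one colour -/
theorem tb (hRB : RB) : ∀ k : ℝ, 1 ≤ k → ∃ C c1 K : ℝ, 0 < C ∧ 0 < c1 ∧ 0 < K ∧
    ∀ (S : Finset ℂ) (z0 e : ℂ) (a b d C4 : ℝ), ‖e‖ = 1 → 0 < a → 0 < b → a ≤ k * b → b ≤ k * a →
    LDns S z0 (K * (a + b)) d → 0 ≤ C4 → Mesh S z0 (K * (a + b)) a C4 → d ≤ c1 * a →
    ∀ V : Finset ℂ, V ⊆ S →
    pr V (fun β => ∃ l, Lng S z0 e a b β l) ≤ 1 - Real.exp (-C * (1 + C4)) := by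
  intro k hk
  obtain ⟨C, c1, K, hC, hc1, hK, h⟩ := hRB k hk
  refine ⟨C, c1, K, hC, hc1, hK, fun S z0 e a b d C4 he ha hb hab hba hD hC4 hM hd V hV => ?_⟩
  have he0 : e ≠ 0 := by rintro rfl; simp at he
  refine (pr_le_of_sub hV fun β β' h1 ⟨l, hl⟩ => ⟨l, hl.ne, hl.adj, fun s hs => h1 (hl.col s hs),
    hl.strip, hl.left, hl.right⟩).trans ?_
  obtain ⟨V0, hV0, h0⟩ := h S z0 (e * Complex.I) b a d C4 (by simp [he]) hb ha hba hab
    (by rwa [add_comm]) hC4 (by rwa [add_comm b a]) hd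
  have h1 : Real.exp (-C * (1 + C4)) ≤ pr S (fun β => ∃ l, Cross S z0 (e * Complex.I) b a β l) :=
    h0.trans (pr_le_of_sub hV0 fun β β' h1 ⟨l, hl⟩ => ⟨l, cross_mono hl h1⟩)
  rw [← pr_flip S (fun β => ∃ l, Cross S z0 (e * Complex.I) b a β l)] at h1
  have h2 : pr S (fun β => ∃ l, Lng S z0 e a b β l) ≤
      pr S (fun β => ¬ ∃ l, Cross S z0 (e * Complex.I) b a (S \ β) l) := by
    refine pr_mono fun β _ ⟨l, hl⟩ ⟨c, hc⟩ => lng_blocked hD.gp he0 ?_ hl hc
    exact Finset.disjoint_sdiff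
  rw [pr_not] at h2
  linarith

end Crest.Agent.R143.CBx838
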