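import Crest.Agent.R143.CFrame_358
import Crest.Agent.R143.Coarse_166

/-!
# Row 143 (S0194): the conditional frame of explored nets (helper358)

* `Gnt π R c` : `π` glues only revealed cells (`∈ R`) of the same colour `c`
* `Gnt.sum` : colourings with prescribed colours on `R` = colourings of the coarse map with prescribed
  colours of the giants
* `Gnt.frame` : **conditional frame of the coarse map**: the average over the colourings which are
  equal to `c` on `R` of the energy of the blocks of the coarse map is at most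
  `2 ^ (k - 1) * (1 / 4) * ∑ g, ‖a g‖²`, `k` = number of the giants; `Gnt.root` : one block
* `Clu M R c`, `qc` : the monochromatic clusters of the revealed cells; `clsCon`, `gnt`
* `Loc nx`, `rev` : exploration by a local rule `nx` (next cell to be revealed); `stp_rev`
* `seen`, `walk_congr`, `Rw`, `stp_Rw` : exploration along the loop from the dart `p` up to an adapted
  time; `cls_left`, `cls_right`, `card_walk` : there are at most `|R0| + 2` giants
-/

set_option autoImplicit false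

noncomputable section

open scoped Classical

namespace Crest.Agent.R143.CFrame2x358

open Crest.Agent.R143.Frame1x395 Crest.Agent.R143.Frame2x395 Crest.Agent.R143.Frame3x395
  Crest.Agent.R143.Frame4x395 Crest.Agent.R143.Frame8x395 Crest.Agent.R143.NonXx592
  Crest.Agent.R143.Coarsex166 Crest.Agent.R143.CFramex358

variable {D C C' : Type} {M : CMap D C} {π : C → C'} {hπ : ClsCon M π}
  {R : Finset C} {c : C → ZMod 2}

/-- `π` glues only revealed cells of the same colour -/
structure Gnt (π : C → C') (R : Finset C) (c : C → ZMod 2) : Prop where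
  surj : Function.Surjective π
  sep : ∀ v w, π v = π w → v = w ∨ (v ∈ R ∧ w ∈ R ∧ c v = c w)

/-- colours of the giants -/
def Gnt.col (H : Gnt π R c) (u : C') : ZMod 2 := c (Function.surjInv H.surj u)

theorem Gnt.col_pi (H : Gnt π R c) (v : C) : H.col (π v) = c v := by
  unfold Gnt.col
  rcases H.sep _ _ (Function.surjInv_eq H.surj (π v)) with h | h
  · rw [h]
  · exact h.2.2

theorem Gnt.sum [Fintype C] [Fintype C'] (H : Gnt π R c) {A : Type} [AddCommMonoid A]
    (F : (C → ZMod 2) → A) :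
    ∑ χ ∈ Prs R c, F χ = ∑ ψ ∈ Prs (R.image π) H.col, F (fun v => ψ (π v)) := by
  symm
  refine Finset.sum_bij (fun ψ _ => fun v => ψ (π v)) ?_ ?_ ?_ ?_
  · intro ψ hψ
    rw [mem_Prs] at hψ ⊢
    intro v hv
    show ψ (π v) = c v
    rw [hψ _ (Finset.mem_image_of_mem _ hv), H.col_pi]
  · intro ψ _ ψ' _ e
    funext u
    obtain ⟨v, rfl⟩ := H.surj u
    exact congrFun e v
  · intro χ hχ
    rw [mem_Prs] at hχ
    have key : ∀ v w, π v = π w → χ v = χ w := by
      intro v w e
      rcases H.sep v w e with h | ⟨h1, h2, h3⟩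
      · rw [h]
      · rw [hχ v h1, hχ w h2, h3]
    have h5 : ∀ v, χ (Function.surjInv H.surj (π v)) = χ v := fun v =>
      key _ _ (Function.surjInv_eq H.surj (π v))
    refine ⟨fun u => χ (Function.surjInv H.surj u), ?_, funext h5⟩
    rw [mem_Prs]
    intro u hu
    obtain ⟨v, hv, rfl⟩ := Finset.mem_image.1 hu
    rw [h5, hχ v hv, H.col_pi]
  · intro ψ _
    rfl

theorem Gnt.card [Fintype C] [Fintype C'] (H : Gnt π R c) :
    (Prs R c).card = (Prs (R.image π) H.col).card := by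
  have h1 := H.sum (A := ℕ) (fun _ => 1)
  simpa using h1

/-- **the conditional frame of the coarse map** -/
theorem Gnt.frame [Fintype D] [Fintype C] [Fintype C'] (H : Gnt π R c) {w : ℂ} (w3 : w ^ 3 = 1)
    (w1 : w ≠ 1) (wc : (starRingEnd ℂ) w = w ^ 2) {a : D → ℂ} (ha : Spin M w a)
    (hR : R.Nonempty) :
    ∑ χ ∈ Prs R c, En (coarse M π hπ) a (cfg M χ) ≤
      (Prs R c).card * (2 ^ (R.image π).card / 8 * ∑ g, ‖a g‖ ^ 2) := by
  rw [H.sum (fun χ => En (coarse M π hπ) a (cfg M χ)), H.card]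
  have ha' : Spin (coarse M π hπ) w a := ha
  exact cond_frame w3 w1 wc ha' (hR.image π) H.col

/-- **the conditional frame**, one block -/
theorem Gnt.root [Fintype D] [Fintype C] [Fintype C'] (H : Gnt π R c) {w : ℂ} (w3 : w ^ 3 = 1)
    (w1 : w ≠ 1) (wc : (starRingEnd ℂ) w = w ^ 2) {a : D → ℂ} (ha : Spin M w a)
    (hR : R.Nonempty) (o : (C → ZMod 2) → D) :
    ∑ χ ∈ Prs R c, (if Gp M (cfg M χ) (o χ) then
        ‖∑ g ∈ blk (coarse M π hπ) (cfg M χ) (o χ), a g‖ ^ 2 else 0) ≤
      (Prs R c).card * (2 ^ (R.image π).card / 8 * ∑ g, ‖a g‖ ^ 2) := by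
  refine le_trans (Finset.sum_le_sum fun χ _ => ?_) (H.frame (hπ := hπ) w3 w1 wc ha hR)
  split_ifs with h
  · exact blk_le_En (M := coarse M π hπ) a h
  · exact En_nonneg a _

/-! ### clusters of the revealed cells -/

/-- adjacent revealed cells of the same colour -/
def Cl1 (M : CMap D C) (R : Finset C) (c : C → ZMod 2) (v w : C) : Prop :=
  v ∈ R ∧ w ∈ R ∧ c v = c w ∧ ∃ d ∈ M.live, M.cell d = v ∧ M.cell (M.rho d) = w

/-- the clusters of the revealed cells; the other cells are single -/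
abbrev Clu (M : CMap D C) (R : Finset C) (c : C → ZMod 2) : Type := Quot (Cl1 M R c)

/-- the projection -/
def qc (M : CMap D C) (R : Finset C) (c : C → ZMod 2) : C → Clu M R c := Quot.mk _

instance [Fintype C] : Fintype (Clu M R c) := by
  haveI : Finite (Clu M R c) := Finite.of_surjective (qc M R c) Quot.mk_surjective
  exact Fintype.ofFinite _

theorem eqv_sep {v w : C} (h : Relation.EqvGen (Cl1 M R c) v w) :
    v = w ∨ (v ∈ R ∧ w ∈ R ∧ c v = c w) := by
  induction h with
  | rel v w h => exact Or.inr ⟨h.1, h.2.1, h.2.2.1⟩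
  | refl v => exact Or.inl rfl
  | symm v w _ ih =>
    rcases ih with h | ⟨h1, h2, h3⟩
    · exact Or.inl h.symm
    · exact Or.inr ⟨h2, h1, h3.symm⟩
  | trans v u w _ _ ih1 ih2 =>
    rcases ih1 with rfl | ⟨h1, h2, h3⟩
    · exact ih2
    · rcases ih2 with rfl | ⟨k1, k2, k3⟩
      · exact Or.inr ⟨h1, h2, h3⟩
      · exact Or.inr ⟨h1, k2, h3.trans k3⟩

theorem qc_eq {v w : C} : qc M R c v = qc M R c w ↔ Relation.EqvGen (Cl1 M R c) v w :=
  Quot.eq

theorem gnt (M : CMap D C) (R : Finset C) (c : C → ZMod 2) : Gnt (qc M R c) R c where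
  surj := Quot.mk_surjective
  sep := fun _ _ h => eqv_sep (qc_eq.1 h)

theorem clsCon (M : CMap D C) (R : Finset C) (c : C → ZMod 2) : ClsCon M (qc M R c) := by
  intro a b h
  have h1 := qc_eq.1 h
  generalize M.cell a = v at h1
  generalize M.cell b = w at h1
  induction h1 with
  | rel v w h => exact Relation.EqvGen.rel _ _ ⟨Quot.sound h, h.2.2.2⟩
  | refl v => exact Relation.EqvGen.refl _
  | symm v w _ ih => exact Relation.EqvGen.symm _ _ ih
  | trans v u w _ _ ih1 ih2 => exact Relation.EqvGen.trans _ _ _ ih1 ih2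

/-- the explored net -/
def expl (M : CMap D C) (R : Finset C) (c : C → ZMod 2) : CMap D (Clu M R c) :=
  coarse M (qc M R c) (clsCon M R c)

/-- the clusters depend only on the colours on `R` -/
theorem cl1_congr {c' : C → ZMod 2} (h : ∀ v ∈ R, c' v = c v) : Cl1 M R c' = Cl1 M R c := by
  funext v w
  apply propext
  constructor
  · rintro ⟨h1, h2, h3, h4⟩
    exact ⟨h1, h2, by rw [← h v h1, ← h w h2, h3], h4⟩
  · rintro ⟨h1, h2, h3, h4⟩
    exact ⟨h1, h2, by rw [h v h1, h w h2, h3], h4⟩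

theorem expl_frame [Fintype D] [Fintype C] {w : ℂ} (w3 : w ^ 3 = 1)
    (w1 : w ≠ 1) (wc : (starRingEnd ℂ) w = w ^ 2) {a : D → ℂ} (ha : Spin M w a)
    (hR : R.Nonempty) :
    ∑ χ ∈ Prs R c, En (expl M R c) a (cfg M χ) ≤
      (Prs R c).card * (2 ^ (R.image (qc M R c)).card / 8 * ∑ g, ‖a g‖ ^ 2) :=
  (gnt M R c).frame (hπ := clsCon M R c) w3 w1 wc ha hR

/-- **the frame at a stopping rule**: `a χ` = a spin field which depends only on the revealed colours -/
theorem stop_frame [Fintype D] [Fintype C] {w : ℂ} (w3 : w ^ 3 = 1)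
    (w1 : w ≠ 1) (wc : (starRingEnd ℂ) w = w ^ 2) {Rv : (C → ZMod 2) → Finset C} (hS : Stp Rv)
    (hne : ∀ χ, (Rv χ).Nonempty) {a : (C → ZMod 2) → D → ℂ} (ha : ∀ χ, Spin M w (a χ))
    (had : ∀ χ, ∀ χ' ∈ Prs (Rv χ) χ, a χ' = a χ) :
    ∑ χ, En (expl M (Rv χ) χ) (a χ) (cfg M χ) ≤
      ∑ χ : C → ZMod 2, 2 ^ ((Rv χ).image (qc M (Rv χ) χ)).card / 8 * ∑ g, ‖a χ g‖ ^ 2 := by
  have cg : ∀ {R R' : Finset C} {c c' : C → ZMod 2}, R' = R → (∀ v ∈ R, c' v = c v) →
      ∀ (b : D → ℂ) (x : D → ZMod 2), En (expl M R' c') b x = En (expl M R c) b x ∧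
        (R'.image (qc M R' c')).card = (R.image (qc M R c)).card := by
    rintro R R' c c' rfl h b x
    have e := cl1_congr (M := M) h
    have e2 : ∀ (r r' : C → C → Prop), r' = r → ∀ (h1 : ClsCon M (Quot.mk r'))
        (h2 : ClsCon M (Quot.mk r)),
        En (coarse M (Quot.mk r') h1) b x = En (coarse M (Quot.mk r) h2) b x ∧
        (R'.image (Quot.mk r')).card = (R'.image (Quot.mk r)).card := by
      rintro r r' rfl h1 h2
      exact ⟨rfl, rfl⟩
    exact e2 _ _ e (clsCon M R' c') (clsCon M R' c)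
  refine hS.tower_le fun χ => ?_
  have h1 : ∀ χ' ∈ Prs (Rv χ) χ, En (expl M (Rv χ') χ') (a χ') (cfg M χ') =
      En (expl M (Rv χ) χ) (a χ) (cfg M χ') := by
    intro χ' hχ'
    rw [had χ χ' hχ']
    exact (cg (hS.atom hχ').1 (mem_Prs.1 hχ') _ _).1
  have h2 : ∀ χ' ∈ Prs (Rv χ) χ,
      (2 : ℝ) ^ ((Rv χ').image (qc M (Rv χ') χ')).card / 8 * ∑ g, ‖a χ' g‖ ^ 2 =
        2 ^ ((Rv χ).image (qc M (Rv χ) χ)).card / 8 * ∑ g, ‖a χ g‖ ^ 2 := by
    intro χ' hχ'
    rw [had χ χ' hχ', (cg (hS.atom hχ').1 (mem_Prs.1 hχ') (a χ) (cfg M χ)).2]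
  rw [Finset.sum_congr rfl h1, Finset.sum_congr rfl h2, Finset.sum_const, nsmul_eq_mul]
  exact expl_frame w3 w1 wc (ha χ) (hne χ)

/-! ### explorations -/

/-- local rule: the next cell to be revealed depends only on the revealed colours -/
def Loc (nx : Finset C → (C → ZMod 2) → Option C) : Prop :=
  ∀ R χ χ', (∀ v ∈ R, χ' v = χ v) → nx R χ' = nx R χ

/-- the revealed cells after `n` steps -/
def rev (nx : Finset C → (C → ZMod 2) → Option C) (R0 : Finset C) :
    ℕ → (C → ZMod 2) → Finset C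
  | 0, _ => R0
  | n + 1, χ => match nx (rev nx R0 n χ) χ with
    | none => rev nx R0 n χ
    | some v => insert v (rev nx R0 n χ)

theorem rev_mono {nx : Finset C → (C → ZMod 2) → Option C} {R0 : Finset C} (n : ℕ)
    (χ : C → ZMod 2) : rev nx R0 n χ ⊆ rev nx R0 (n + 1) χ := by
  simp only [rev]
  split
  · exact subset_rfl
  · exact Finset.subset_insert _ _

theorem stp_rev {nx : Finset C → (C → ZMod 2) → Option C} (h : Loc nx) (R0 : Finset C) (n : ℕ) :
    Stp (rev nx R0 n) := by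
  induction n with
  | zero => intro _ _ _; rfl
  | succ n ih =>
    intro χ χ' he
    have h1 : rev nx R0 n χ' = rev nx R0 n χ := ih χ χ' fun v hv => he v (rev_mono n χ hv)
    have h2 : nx (rev nx R0 n χ) χ' = nx (rev nx R0 n χ) χ :=
      h _ _ _ fun v hv => he v (rev_mono n χ hv)
    simp only [rev]
    rw [h1, h2]

/-- the cells seen by the walk from `p` up to the time `n` -/
def seen (M : CMap D C) (x : D → ZMod 2) (p : D) (n : ℕ) : Set C :=
  {v | ∃ k ≤ n, v = M.cell (P M x p k) ∨ v = M.cell (M.rho (P M x p k))}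

theorem seen_mono {x : D → ZMod 2} {p : D} {m n : ℕ} (h : m ≤ n) :
    seen M x p m ⊆ seen M x p n := by
  rintro v ⟨k, hk, hv⟩
  exact ⟨k, hk.trans h, hv⟩

/-- the third cell of the face is seen at the next step -/
theorem third_seen {x : D → ZMod 2} (hx : IsC M ∅ x) {p : D} (hp : x p = 1) (k : ℕ) :
    M.cell (M.rho (M.rho (P M x p k))) ∈ seen M x p (k + 1) := by
  have h1 := P_occ hx hp k
  refine ⟨k + 1, le_rfl, ?_⟩
  rw [P_succ]
  rcases stp_cases hx h1 (Set.notMem_empty _) with ⟨h2, -, e⟩ | ⟨-, h2, e⟩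
  · left
    rw [e, M.cell_iota _ (hx.lv h2)]
  · right
    rw [e, cell_rho_iota M (hx.lv h2)]

/-- **the walk depends only on the cells seen by it** -/
theorem walk_congr [Fintype D] {χ χ' : C → ZMod 2} {p : D} {n : ℕ}
    (hp : n = 0 ∨ cfg M χ p = 1)
    (h : ∀ v ∈ seen M (cfg M χ) p n, χ' v = χ v) :
    ∀ k ≤ n, P M (cfg M χ') p k = P M (cfg M χ) p k := by
  intro k
  induction k with
  | zero => intro _; rfl
  | succ k ih =>
    intro hk
    have h1 := ih (by omega)
    rcases hp with hp | hp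
    · omega
    have hx := cfg_isC (M := M) χ
    rw [P_succ, P_succ, h1]
    have a1 : χ' (M.cell (M.rho (P M (cfg M χ) p k))) = χ (M.cell (M.rho (P M (cfg M χ) p k))) :=
      h _ ⟨k, by omega, Or.inr rfl⟩
    have a2 : χ' (M.cell (M.rho (M.rho (P M (cfg M χ) p k)))) =
        χ (M.cell (M.rho (M.rho (P M (cfg M χ) p k)))) :=
      h _ (seen_mono hk (third_seen hx hp k))
    have a3 : cfg M χ' (M.rho (P M (cfg M χ) p k)) = cfg M χ (M.rho (P M (cfg M χ) p k)) := by
      unfold cfg at a1 a2 ⊢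
      rw [a1, a2]
    show stp M (cfg M χ') (P M (cfg M χ) p k) = stp M (cfg M χ) (P M (cfg M χ) p k)
    unfold stp
    rw [a3]

section walk

variable [Fintype C]

/-- exploration along the walk from `p` up to the time `T` -/
def Rw (M : CMap D C) (p : D) (R0 : Finset C) (T : (C → ZMod 2) → ℕ) (χ : C → ZMod 2) :
    Finset C := R0 ∪ Finset.univ.filter (· ∈ seen M (cfg M χ) p (T χ))

theorem mem_Rw {p : D} {R0 : Finset C} {T : (C → ZMod 2) → ℕ} {χ : C → ZMod 2} {v : C} :
    v ∈ Rw M p R0 T χ ↔ v ∈ R0 ∨ v ∈ seen M (cfg M χ) p (T χ) := by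
  unfold Rw
  simp

/-- adapted times -/
def Adp (M : CMap D C) (p : D) (R0 : Finset C) (T : (C → ZMod 2) → ℕ) : Prop :=
  (∀ χ, cfg M χ p = 0 → T χ = 0) ∧
  ∀ χ χ' : C → ZMod 2, (∀ v ∈ Rw M p R0 T χ, χ' v = χ v) → T χ' = T χ

/-- **the exploration along the walk is a stopping rule** -/
theorem stp_Rw [Fintype D] {p : D} {R0 : Finset C} {T : (C → ZMod 2) → ℕ} (hT : Adp M p R0 T) :
    Stp (Rw M p R0 T) := by
  intro χ χ' h
  have h1 := hT.2 χ χ' h
  have h2 : T χ = 0 ∨ cfg M χ p = 1 := by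
    rcases z01 (cfg M χ p) with h2 | h2
    · exact Or.inl (hT.1 χ h2)
    · exact Or.inr h2
  have h3 := walk_congr (n := T χ) h2 fun v hv => h v (mem_Rw.2 (Or.inr hv))
  ext v
  rw [mem_Rw, mem_Rw, h1]
  have h4 : seen M (cfg M χ') p (T χ) = seen M (cfg M χ) p (T χ) := by
    ext v
    constructor
    · rintro ⟨k, hk, hv⟩
      exact ⟨k, hk, by rwa [h3 k hk] at hv⟩
    · rintro ⟨k, hk, hv⟩
      exact ⟨k, hk, by rwa [h3 k hk]⟩
  rw [h4]

/-- a constant time, `0` if the dart `p` is not occupied -/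
def cT (M : CMap D C) (p : D) (n : ℕ) (χ : C → ZMod 2) : ℕ := if cfg M χ p = 0 then 0 else n

omit [Fintype C] in
/-- the left cells of the walk are in one cluster -/
theorem cls_left [Fintype D] {R : Finset C} {χ : C → ZMod 2} {p : D} {n : ℕ} (hp : n = 0 ∨ cfg M χ p = 1)
    (hR : ∀ v ∈ seen M (cfg M χ) p n, v ∈ R) :
    ∀ k ≤ n, qc M R χ (M.cell (P M (cfg M χ) p k)) = qc M R χ (M.cell p) := by
  intro k
  induction k with
  | zero => intro _; rfl
  | succ k ih =>
    intro hk
    rw [← ih (by omega)]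
    rcases hp with hp | hp
    · omega
    have hx := cfg_isC (M := M) χ
    have h1 := P_occ hx hp k
    set q := P M (cfg M χ) p k with hq
    have e : P M (cfg M χ) p (k + 1) = stp M (cfg M χ) q := P_succ ..
    have m1 : M.cell q ∈ R := hR _ ⟨k, by omega, Or.inl rfl⟩
    have m2 : M.cell (stp M (cfg M χ) q) ∈ R := hR _ ⟨k + 1, hk, Or.inl (by rw [e])⟩
    rw [e]
    rcases stp_cases hx h1 (Set.notMem_empty _) with ⟨h2, h3, e'⟩ | ⟨h2, h3, e'⟩
    · have e2 : M.cell (stp M (cfg M χ) q) = M.cell (M.rho (M.rho q)) := by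
        rw [e', M.cell_iota _ (hx.lv h2)]
      rw [e2] at m2 ⊢
      have e3 : M.cell (M.rho (M.rho (M.rho q))) = M.cell q := by rw [M.rho3]
      have hc : χ (M.cell (M.rho (M.rho q))) = χ (M.cell q) := by
        unfold cfg at h3
        rw [e3] at h3
        revert h3
        generalize χ (M.cell (M.rho (M.rho q))) = a
        generalize χ (M.cell q) = b
        revert a b; decide
      by_cases hl : M.rho (M.rho q) ∈ M.live
      · exact Quot.sound ⟨m2, m1, hc, _, hl, rfl, e3⟩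
      · rw [M.dead _ hl, e3]
    · have e2 : M.cell (stp M (cfg M χ) q) = M.cell q := by
        rw [e', M.cell_iota _ (hx.lv h3), M.rho3]
      rw [e2]

omit [Fintype C] in
/-- the right cells of the walk are in one cluster -/
theorem cls_right [Fintype D] {R : Finset C} {χ : C → ZMod 2} {p : D} {n : ℕ} (hp : n = 0 ∨ cfg M χ p = 1)
    (hR : ∀ v ∈ seen M (cfg M χ) p n, v ∈ R) :
    ∀ k ≤ n, qc M R χ (M.cell (M.rho (P M (cfg M χ) p k))) = qc M R χ (M.cell (M.rho p)) := by
  intro k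
  induction k with
  | zero => intro _; rfl
  | succ k ih =>
    intro hk
    rw [← ih (by omega)]
    rcases hp with hp | hp
    · omega
    have hx := cfg_isC (M := M) χ
    have h1 := P_occ hx hp k
    set q := P M (cfg M χ) p k with hq
    have e : P M (cfg M χ) p (k + 1) = stp M (cfg M χ) q := P_succ ..
    have m1 : M.cell (M.rho q) ∈ R := hR _ ⟨k, by omega, Or.inr rfl⟩
    have m2 : M.cell (M.rho (stp M (cfg M χ) q)) ∈ R := hR _ ⟨k + 1, hk, Or.inr (by rw [e])⟩
    rw [e]
    rcases stp_cases hx h1 (Set.notMem_empty _) with ⟨h2, h3, e'⟩ | ⟨h2, h3, e'⟩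
    · have e2 : M.cell (M.rho (stp M (cfg M χ) q)) = M.cell (M.rho q) := by
        rw [e', cell_rho_iota M (hx.lv h2)]
      rw [e2]
    · have e2 : M.cell (M.rho (stp M (cfg M χ) q)) = M.cell (M.rho (M.rho q)) := by
        rw [e', cell_rho_iota M (hx.lv h3)]
      rw [e2] at m2 ⊢
      have hc : χ (M.cell (M.rho q)) = χ (M.cell (M.rho (M.rho q))) := by
        unfold cfg at h2
        revert h2
        generalize χ (M.cell (M.rho (M.rho q))) = a
        generalize χ (M.cell (M.rho q)) = b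
        revert a b; decide
      by_cases hl : M.rho q ∈ M.live
      · exact (Quot.sound ⟨m1, m2, hc, _, hl, rfl, rfl⟩).symm
      · rw [M.dead _ hl]

/-- **number of the giants** of the exploration along a walk -/
theorem card_walk [Fintype D] {p : D} {R0 : Finset C} {T : (C → ZMod 2) → ℕ} (hT : Adp M p R0 T)
    (χ : C → ZMod 2) :
    ((Rw M p R0 T χ).image (qc M (Rw M p R0 T χ) χ)).card ≤
      (R0 ∪ {M.cell p, M.cell (M.rho p)}).card := by
  have h2 : T χ = 0 ∨ cfg M χ p = 1 := by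
    rcases z01 (cfg M χ p) with h2 | h2
    · exact Or.inl (hT.1 χ h2)
    · exact Or.inr h2
  have hR : ∀ v ∈ seen M (cfg M χ) p (T χ), v ∈ Rw M p R0 T χ := fun v hv => mem_Rw.2 (Or.inr hv)
  have h3 := cls_left h2 hR
  have h4 := cls_right h2 hR
  refine (Finset.card_le_card ?_).trans
    (Finset.card_image_le (s := R0 ∪ {M.cell p, M.cell (M.rho p)})
      (f := qc M (Rw M p R0 T χ) χ))
  intro u hu
  obtain ⟨v, hv, rfl⟩ := Finset.mem_image.1 hu
  rcases mem_Rw.1 hv with h | ⟨k, hk, rfl | rfl⟩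
  · exact Finset.mem_image_of_mem _ (Finset.mem_union_left _ h)
  · rw [h3 k hk]
    exact Finset.mem_image_of_mem _ (Finset.mem_union_right _ (by simp))
  · rw [h4 k hk]
    exact Finset.mem_image_of_mem _ (Finset.mem_union_right _ (by simp))

end walk

end Crest.Agent.R143.CFrame2x358
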