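import Crest.Agent.R143.Frame8_395

/-!
# Row 143 (S0194): the conditional frame (helper358)

`M : CMap D C` any closed map (any net with kills, explored net, coarsened net), `a` a spin field.

* `En M a x = ∑ β ∈ blks M x, ‖∑ g ∈ β, a g‖²`
* `sum_ev_le : ∑ x ∈ ev M, En M a x ≤ nE M / 4 * ∑ g, ‖a g‖²` (no assumption on the faces)
* `sum_col_le : ∑ χ, En M a (cfg M χ) ≤ 2 ^ |C| / 4 * ∑ g, ‖a g‖²` (sum over all colourings)
* `Prs G c` : colourings with prescribed colours `c` on `G` (giants); `card_Prs`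
* `cond_frame` : the average of `En` over `Prs G c` is at most `2 ^ (|G| - 1) * (1 / 4) * ∑ g, ‖a g‖²`
* `Stp R` : stopping rule (`R χ` = set of the revealed cells); `tower`, `tower_le` : averages over the
  colourings = averages of the conditional averages
-/

set_option autoImplicit false

noncomputable section

open scoped Classical

namespace Crest.Agent.R143.CFramex358

open Crest.Agent.R143.Frame1x395 Crest.Agent.R143.Frame2x395 Crest.Agent.R143.Frame3x395
  Crest.Agent.R143.Frame4x395 Crest.Agent.R143.Frame8x395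

variable {D C : Type} [Fintype D] {M : CMap D C}

/-- energy of the blocks of a configuration -/
def En (M : CMap D C) (a : D → ℂ) (x : D → ZMod 2) : ℝ := ∑ β ∈ blks M x, ‖∑ g ∈ β, a g‖ ^ 2

theorem En_nonneg (a : D → ℂ) (x : D → ZMod 2) : 0 ≤ En M a x :=
  Finset.sum_nonneg fun _ _ => by positivity

/-- the energy of one block -/
theorem blk_le_En (a : D → ℂ) {x : D → ZMod 2} {o : D} (ho : Gp M x o) :
    ‖∑ g ∈ blk M x o, a g‖ ^ 2 ≤ En M a x :=
  Finset.single_le_sum (f := fun β => ‖∑ g ∈ β, a g‖ ^ 2) (fun β _ => by positivity)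
    (Finset.mem_image_of_mem _ (mem_gaps.2 ho))

omit [Fintype D] in
theorem spin_norm {w : ℂ} (w3 : w ^ 3 = 1) {a : D → ℂ} (ha : Spin M w a) (d : D) :
    ‖a (M.rho d)‖ = ‖a d‖ := by
  have h1 : ‖w‖ = 1 := by
    have h2 : ‖w‖ ^ 3 = 1 := by rw [← norm_pow, w3, norm_one]
    exact (pow_eq_one_iff_of_nonneg (norm_nonneg w) (by norm_num)).1 h2
  rw [ha d, norm_mul, h1, one_mul]

/-- **frame**, without assumption on the faces -/
theorem sum_ev_le {w : ℂ} (w3 : w ^ 3 = 1) (w1 : w ≠ 1) (wc : (starRingEnd ℂ) w = w ^ 2)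
    {a : D → ℂ} (ha : Spin M w a) :
    ∑ x ∈ ev M, En M a x ≤ (nE M : ℝ) / 4 * ∑ g, ‖a g‖ ^ 2 := by
  unfold En
  rw [i1_norm w3 w1 wc ha]
  set f : D → ℝ := fun g => ‖a g‖ ^ 2 * (nG M g : ℝ) with hf
  have e1 : ∑ g, f (M.rho g) = ∑ g, f g := Fintype.sum_equiv (rhoE M) _ _ fun _ => rfl
  have e2 : ∑ g, f (M.rho (M.rho g)) = ∑ g, f g := by
    rw [← e1]
    exact Fintype.sum_equiv (rhoE M) (fun g => f (M.rho (M.rho g))) (fun g => f (M.rho g))
      fun _ => rfl
  have e3 : 3 * ∑ g, f g ≤ 3 * ((nE M : ℝ) / 4 * ∑ g, ‖a g‖ ^ 2) := by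
    calc 3 * ∑ g, f g = ∑ g, (f g + f (M.rho g) + f (M.rho (M.rho g))) := by
          rw [Finset.sum_add_distrib, Finset.sum_add_distrib, e1, e2]; ring
      _ ≤ ∑ g, ‖a g‖ ^ 2 * (3 / 4 * nE M) := by
          refine Finset.sum_le_sum fun g _ => ?_
          have h1 := nG_sum (M := M) g
          push_cast at h1
          have h2 : f g + f (M.rho g) + f (M.rho (M.rho g)) =
              ‖a g‖ ^ 2 * ((nG M g : ℝ) + nG M (M.rho g) + nG M (M.rho (M.rho g))) := by
            simp only [hf]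
            rw [spin_norm w3 ha (M.rho g), spin_norm w3 ha g]
            ring
          rw [h2]
          exact mul_le_mul_of_nonneg_left h1 (by positivity)
      _ = 3 * ((nE M : ℝ) / 4 * ∑ g, ‖a g‖ ^ 2) := by
          rw [← Finset.sum_mul]; ring
  linarith

variable [Fintype C]

theorem nK_mul_nE : nK M * nE M = 2 ^ Fintype.card C := by
  have h1 := sum_cfg (M := M) (A := ℕ) (fun _ => 1)
  rw [Finset.sum_const, Finset.sum_const, Finset.card_univ, Fintype.card_fun] at h1
  simp only [smul_eq_mul, mul_one] at h1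
  have h2 : Fintype.card (ZMod 2) = 2 := ZMod.card 2
  rw [h2] at h1
  have h3 : (ev M).card = nE M := by
    unfold ev nE
    congr 1
  rw [h3] at h1
  rw [h1]

/-- **frame** for the sum over all colourings of the cells -/
theorem sum_col_le {w : ℂ} (w3 : w ^ 3 = 1) (w1 : w ≠ 1) (wc : (starRingEnd ℂ) w = w ^ 2)
    {a : D → ℂ} (ha : Spin M w a) :
    ∑ χ : C → ZMod 2, En M a (cfg M χ) ≤ 2 ^ Fintype.card C / 4 * ∑ g, ‖a g‖ ^ 2 := by
  rw [sum_cfg (M := M) (fun x => En M a x), nsmul_eq_mul]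
  have h1 := sum_ev_le w3 w1 wc ha
  have h2 : (nK M : ℝ) * nE M = 2 ^ Fintype.card C := by exact_mod_cast nK_mul_nE (M := M)
  calc (nK M : ℝ) * ∑ x ∈ ev M, En M a x ≤ nK M * ((nE M : ℝ) / 4 * ∑ g, ‖a g‖ ^ 2) :=
        mul_le_mul_of_nonneg_left h1 (Nat.cast_nonneg _)
    _ = (nK M : ℝ) * nE M / 4 * ∑ g, ‖a g‖ ^ 2 := by ring
    _ = _ := by rw [h2]

/-! ### prescribed colours -/

/-- colourings with prescribed colours on `G` -/
def Prs (G : Finset C) (c : C → ZMod 2) : Finset (C → ZMod 2) :=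
  Finset.univ.filter fun χ => ∀ v ∈ G, χ v = c v

theorem mem_Prs {G : Finset C} {c χ : C → ZMod 2} : χ ∈ Prs G c ↔ ∀ v ∈ G, χ v = c v := by
  unfold Prs
  simp

theorem self_Prs (G : Finset C) (c : C → ZMod 2) : c ∈ Prs G c := mem_Prs.2 fun _ _ => rfl

/-- the number of colourings with prescribed colours -/
theorem card_Prs (G : Finset C) (c : C → ZMod 2) :
    (Prs G c).card * 2 ^ G.card = 2 ^ Fintype.card C := by
  have h2 : Fintype.card (ZMod 2) = 2 := ZMod.card 2
  -- the fibres of the restriction to `G` have the same size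
  have h0 : ∀ c' : C → ZMod 2, (Prs G c').card = (Prs G c).card := by
    intro c'
    refine Finset.card_bij' (fun χ _ => fun v => χ v + c' v + c v)
      (fun χ _ => fun v => χ v + c' v + c v) ?_ ?_ ?_ ?_
    · intro χ hχ
      rw [mem_Prs] at hχ ⊢
      intro v hv
      show χ v + c' v + c v = c v
      rw [hχ v hv, z_self, zero_add]
    · intro χ hχ
      rw [mem_Prs] at hχ ⊢
      intro v hv
      show χ v + c' v + c v = c' v
      rw [hχ v hv, add_right_comm, z_self, zero_add]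
    · intro χ _
      funext v
      show χ v + c' v + c v + c' v + c v = χ v
      linear_combination z_self (c' v) + z_self (c v)
    · intro χ _
      funext v
      show χ v + c' v + c v + c' v + c v = χ v
      linear_combination z_self (c' v) + z_self (c v)
  have h1 : (Finset.univ : Finset (C → ZMod 2)).card =
      ∑ r : (G → ZMod 2), ((Finset.univ : Finset (C → ZMod 2)).filter
        fun χ => (fun v : G => χ v) = r).card :=
    Finset.card_eq_sum_card_fiberwise (f := fun (χ : C → ZMod 2) (v : G) => χ v)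
      (fun _ _ => Finset.mem_coe.2 (Finset.mem_univ _))
  have h3 : ∀ r : (G → ZMod 2), ((Finset.univ : Finset (C → ZMod 2)).filter
        fun χ => (fun v : G => χ v) = r).card = (Prs G c).card := by
    intro r
    rw [← h0 fun v => if hv : v ∈ G then r ⟨v, hv⟩ else 0]
    congr 1
    unfold Prs
    refine Finset.filter_congr fun χ _ => ?_
    constructor
    · intro e v hv
      have := congrFun e ⟨v, hv⟩
      show χ v = dite _ _ _
      rw [dif_pos hv]
      exact this
    · intro e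
      funext v
      have h5 : χ v.1 = dite _ _ _ := e v.1 v.2
      rw [dif_pos v.2] at h5
      exact h5
  rw [Finset.sum_congr rfl fun r _ => h3 r, Finset.sum_const, Finset.card_univ,
    Finset.card_univ, Fintype.card_fun, Fintype.card_fun, h2, Fintype.card_coe, smul_eq_mul] at h1
  rw [h1, mul_comm]

omit [Fintype D] [Fintype C] in
/-- the flip of all the colours -/
theorem cfg_flip (χ : C → ZMod 2) : cfg M (fun v => χ v + 1) = cfg M χ := by
  funext d
  unfold cfg
  linear_combination z_self (1 : ZMod 2)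

/-- **the conditional frame**, sum form: prescribed colours on a nonempty set `G` -/
theorem cond_sum_le {w : ℂ} (w3 : w ^ 3 = 1) (w1 : w ≠ 1) (wc : (starRingEnd ℂ) w = w ^ 2)
    {a : D → ℂ} (ha : Spin M w a) {G : Finset C} (hG : G.Nonempty) (c : C → ZMod 2) :
    ∑ χ ∈ Prs G c, En M a (cfg M χ) ≤ 2 ^ Fintype.card C / 8 * ∑ g, ‖a g‖ ^ 2 := by
  have h1 := sum_col_le w3 w1 wc ha
  have h2 : ∑ χ ∈ Prs G (fun v => c v + 1), En M a (cfg M χ) =
      ∑ χ ∈ Prs G c, En M a (cfg M χ) := by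
    refine Finset.sum_bij' (fun χ _ => fun v => χ v + 1) (fun χ _ => fun v => χ v + 1)
      ?_ ?_ ?_ ?_ ?_
    · intro χ hχ
      rw [mem_Prs] at hχ ⊢
      intro v hv
      show χ v + 1 = c v
      rw [hχ v hv, add_assoc, z_self, add_zero]
    · intro χ hχ
      rw [mem_Prs] at hχ ⊢
      intro v hv
      show χ v + 1 = c v + 1
      rw [hχ v hv]
    · intro χ _
      funext v
      show χ v + 1 + 1 = χ v
      rw [add_assoc, z_self, add_zero]
    · intro χ _
      funext v
      show χ v + 1 + 1 = χ v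
      rw [add_assoc, z_self, add_zero]
    · intro χ _
      rw [cfg_flip]
  have h3 : Disjoint (Prs G c) (Prs G (fun v => c v + 1)) := by
    rw [Finset.disjoint_left]
    intro χ h4 h5
    obtain ⟨v, hv⟩ := hG
    have h6 := mem_Prs.1 h4 v hv
    have h7 := mem_Prs.1 h5 v hv
    rw [h6] at h7
    have h8 : (1 : ZMod 2) = 0 := by linear_combination -h7
    exact absurd h8 (by decide)
  have h4 : ∑ χ ∈ Prs G c, En M a (cfg M χ) + ∑ χ ∈ Prs G (fun v => c v + 1),
      En M a (cfg M χ) ≤ ∑ χ : C → ZMod 2, En M a (cfg M χ) := by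
    rw [← Finset.sum_union h3]
    exact Finset.sum_le_sum_of_subset_of_nonneg (Finset.subset_univ _)
      fun χ _ _ => En_nonneg a _
  rw [h2] at h4
  linarith

/-- **the conditional frame**: the average over the colourings with prescribed colours on `G` is at
most `2 ^ (|G| - 1) * (1 / 4) * ∑ g, ‖a g‖²` -/
theorem cond_frame {w : ℂ} (w3 : w ^ 3 = 1) (w1 : w ≠ 1) (wc : (starRingEnd ℂ) w = w ^ 2)
    {a : D → ℂ} (ha : Spin M w a) {G : Finset C} (hG : G.Nonempty) (c : C → ZMod 2) :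
    ∑ χ ∈ Prs G c, En M a (cfg M χ) ≤
      (Prs G c).card * (2 ^ G.card / 8 * ∑ g, ‖a g‖ ^ 2) := by
  have h1 := cond_sum_le w3 w1 wc ha hG c
  have h2 : ((Prs G c).card : ℝ) * 2 ^ G.card = 2 ^ Fintype.card C := by
    exact_mod_cast card_Prs G c
  rw [← h2] at h1
  calc _ ≤ _ := h1
    _ = _ := by ring

/-! ### stopping rules -/

/-- stopping rule: `R χ` = the set of the revealed cells -/
def Stp (R : (C → ZMod 2) → Finset C) : Prop :=
  ∀ χ χ' : C → ZMod 2, (∀ v ∈ R χ, χ' v = χ v) → R χ' = R χ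

omit [Fintype D] in
/-- the atoms of a stopping rule -/
theorem Stp.atom {R : (C → ZMod 2) → Finset C} (hR : Stp R) {χ χ' : C → ZMod 2}
    (h : χ' ∈ Prs (R χ) χ) : R χ' = R χ ∧ Prs (R χ') χ' = Prs (R χ) χ := by
  have h1 := mem_Prs.1 h
  have h2 := hR χ χ' h1
  refine ⟨h2, ?_⟩
  rw [h2]
  ext ψ
  rw [mem_Prs, mem_Prs]
  constructor
  · intro h3 v hv
    rw [h3 v hv, h1 v hv]
  · intro h3 v hv
    rw [h3 v hv, h1 v hv]

/-- **tower**: sum over the colourings = sum of the conditional averages -/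
theorem Stp.tower {R : (C → ZMod 2) → Finset C} (hR : Stp R) {A : Type} [AddCommGroup A]
    [Module ℝ A] (F : (C → ZMod 2) → A) :
    ∑ χ, ((Prs (R χ) χ).card : ℝ)⁻¹ • ∑ χ' ∈ Prs (R χ) χ, F χ' = ∑ χ, F χ := by
  have h1 : ∀ χ : C → ZMod 2, ((Prs (R χ) χ).card : ℝ)⁻¹ • ∑ χ' ∈ Prs (R χ) χ, F χ' =
      ∑ χ', if χ' ∈ Prs (R χ) χ then ((Prs (R χ') χ').card : ℝ)⁻¹ • F χ' else 0 := by
    intro χ
    rw [Finset.smul_sum, ← Finset.sum_filter]
    have e : (Finset.univ : Finset (C → ZMod 2)).filter (fun χ' => χ' ∈ Prs (R χ) χ) =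
        Prs (R χ) χ := by ext χ'; simp
    rw [e]
    refine Finset.sum_congr rfl fun χ' hχ' => ?_
    rw [(hR.atom hχ').2]
  rw [Finset.sum_congr rfl fun χ _ => h1 χ, Finset.sum_comm]
  refine Finset.sum_congr rfl fun χ' _ => ?_
  have h2 : ∀ χ : C → ZMod 2, χ' ∈ Prs (R χ) χ ↔ χ ∈ Prs (R χ') χ' := by
    have key : ∀ χ χ' : C → ZMod 2, χ' ∈ Prs (R χ) χ → χ ∈ Prs (R χ') χ' := by
      intro χ χ' h
      rw [(hR.atom h).2]
      exact self_Prs _ _
    exact fun χ => ⟨key χ χ', key χ' χ⟩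
  rw [← Finset.sum_filter]
  have e : (Finset.univ : Finset (C → ZMod 2)).filter (fun χ => χ' ∈ Prs (R χ) χ) =
      Prs (R χ') χ' := by
    ext χ
    rw [Finset.mem_filter, h2]
    simp
  rw [e, Finset.sum_const, ← Nat.cast_smul_eq_nsmul ℝ, smul_smul, mul_inv_cancel₀, one_smul]
  have : 0 < (Prs (R χ') χ').card := Finset.card_pos.2 ⟨χ', self_Prs _ _⟩
  exact_mod_cast this.ne'

/-- **tower, inequality**: if the conditional sums of `F` are at most those of `H` then so are the
total sums -/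
theorem Stp.tower_le {R : (C → ZMod 2) → Finset C} (hR : Stp R) {F H : (C → ZMod 2) → ℝ}
    (h : ∀ χ, ∑ χ' ∈ Prs (R χ) χ, F χ' ≤ ∑ χ' ∈ Prs (R χ) χ, H χ') : ∑ χ, F χ ≤ ∑ χ, H χ := by
  rw [← hR.tower F, ← hR.tower H]
  refine Finset.sum_le_sum fun χ _ => ?_
  exact mul_le_mul_of_nonneg_left (h χ) (by positivity)

end Crest.Agent.R143.CFramex358
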