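import Crest.Agent.R143.Cara2_723
import Crest.Agent.R143.Spine_422

/-!
# Row 143 (S0194), block D, leaf CARA, part (iv) for the data of S0194 (helper723)

* `fD S` : `(φ - i) / (φ + i)`, value `1` at `d`; `cd S : CD S.D (fD S)`
* `jordan S`, `trace S` : the curve of the data
* `ang4` : the piecewise linear angle function with given values at `0, 1/4, 1/2, 3/4, 1`
* `cara_of` : the boundary curve `g` with the four arcs (from `‖f‖ = 1` on the frontier and
  injectivity on the closure)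
-/

set_option autoImplicit false

noncomputable section

open Set Topology Filter Metric Complex
open Crest.ProbabilityR.Percolation

namespace Crest.Agent.R143.Cara3x723

open Crest.Agent.R158.Jt785 Crest.Agent.R143.Spinex422 Crest.Agent.R143.Cara2x723

/-! ### the angle function -/

/-- clamp to the unit interval -/
def cl (u : ℝ) : ℝ := max 0 (min 1 u)

theorem cl_cont : Continuous cl := by unfold cl; fun_prop

theorem cl_mono : Monotone cl := fun _ _ h => max_le_max le_rfl (min_le_min le_rfl h)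

theorem cl_zero {u : ℝ} (h : u ≤ 0) : cl u = 0 := by
  unfold cl
  rw [max_eq_left]
  exact (min_le_right _ _).trans h

theorem cl_one {u : ℝ} (h : 1 ≤ u) : cl u = 1 := by
  unfold cl
  rw [min_eq_left h, max_eq_right zero_le_one]

theorem cl_mid {u : ℝ} (h0 : 0 ≤ u) (h1 : u ≤ 1) : cl u = u := by
  unfold cl
  rw [min_eq_right h1, max_eq_right h0]

theorem cl_sum {t : ℝ} (h0 : 0 ≤ t) (h1 : t ≤ 1) :
    cl (4 * t) + cl (4 * t - 1) + cl (4 * t - 2) + cl (4 * t - 3) = 4 * t := by
  rcases le_total (4 * t) 1 with h | h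
  · rw [cl_mid (by linarith) h, cl_zero (by linarith), cl_zero (by linarith),
      cl_zero (by linarith)]
    ring
  rcases le_total (4 * t) 2 with h2 | h2
  · rw [cl_one h, cl_mid (by linarith) (by linarith), cl_zero (by linarith),
      cl_zero (by linarith)]
    ring
  rcases le_total (4 * t) 3 with h3 | h3
  · rw [cl_one h, cl_one (by linarith), cl_mid (by linarith) (by linarith),
      cl_zero (by linarith)]
    ring
  · rw [cl_one h, cl_one (by linarith), cl_one (by linarith),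
      cl_mid (by linarith) (by linarith)]
    ring

/-- piecewise linear with slopes `4 c j` -/
def ang4 (a c0 c1 c2 c3 : ℝ) (t : ℝ) : ℝ :=
  a + c0 * cl (4 * t) + c1 * cl (4 * t - 1) + c2 * cl (4 * t - 2) + c3 * cl (4 * t - 3)

theorem ang4_ang {a c0 c1 c2 c3 : ℝ} (h0 : 0 < c0) (h1 : 0 < c1) (h2 : 0 < c2) (h3 : 0 < c3)
    (hs : c0 + c1 + c2 + c3 = 2 * Real.pi) : Ang (ang4 a c0 c1 c2 c3) where
  cont := by
    unfold ang4
    have := cl_cont
    fun_prop
  mono := by
    intro s hs1 t ht1 hst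
    have e1 := cl_sum hs1.1 hs1.2
    have e2 := cl_sum ht1.1 ht1.2
    have m0 := cl_mono (show 4 * s ≤ 4 * t by linarith)
    have m1 := cl_mono (show 4 * s - 1 ≤ 4 * t - 1 by linarith)
    have m2 := cl_mono (show 4 * s - 2 ≤ 4 * t - 2 by linarith)
    have m3 := cl_mono (show 4 * s - 3 ≤ 4 * t - 3 by linarith)
    unfold ang4
    set m := min (min c0 c1) (min c2 c3) with hm
    have hm0 : 0 < m := lt_min (lt_min h0 h1) (lt_min h2 h3)
    have l0 : m ≤ c0 := (min_le_left _ _).trans (min_le_left _ _)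
    have l1 : m ≤ c1 := (min_le_left _ _).trans (min_le_right _ _)
    have l2 : m ≤ c2 := (min_le_right _ _).trans (min_le_left _ _)
    have l3 : m ≤ c3 := (min_le_right _ _).trans (min_le_right _ _)
    have k0 := mul_le_mul_of_nonneg_right l0 (sub_nonneg.2 m0)
    have k1 := mul_le_mul_of_nonneg_right l1 (sub_nonneg.2 m1)
    have k2 := mul_le_mul_of_nonneg_right l2 (sub_nonneg.2 m2)
    have k3 := mul_le_mul_of_nonneg_right l3 (sub_nonneg.2 m3)
    have k4 : 0 < m * (4 * t - 4 * s) := mul_pos hm0 (by linarith)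
    have k5 : m * (4 * t - 4 * s) = m * (cl (4 * t) - cl (4 * s)) +
        m * (cl (4 * t - 1) - cl (4 * s - 1)) + m * (cl (4 * t - 2) - cl (4 * s - 2)) +
        m * (cl (4 * t - 3) - cl (4 * s - 3)) := by
      linear_combination m * e1 - m * e2
    nlinarith
  per := by
    unfold ang4
    rw [cl_one (by norm_num), cl_one (by norm_num), cl_one (by norm_num), cl_one (by norm_num),
      cl_zero (by norm_num), cl_zero (by norm_num), cl_zero (by norm_num), cl_zero (by norm_num)]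
    linarith

theorem ang4_v {a c0 c1 c2 c3 : ℝ} : ang4 a c0 c1 c2 c3 0 = a ∧
    ang4 a c0 c1 c2 c3 (1 / 4) = a + c0 ∧ ang4 a c0 c1 c2 c3 (1 / 2) = a + c0 + c1 ∧
    ang4 a c0 c1 c2 c3 (3 / 4) = a + c0 + c1 + c2 ∧
    ang4 a c0 c1 c2 c3 1 = a + c0 + c1 + c2 + c3 := by
  unfold ang4
  refine ⟨?_, ?_, ?_, ?_, ?_⟩
  · rw [cl_zero (by norm_num), cl_zero (by norm_num), cl_zero (by norm_num),
      cl_zero (by norm_num)]; ring
  · rw [cl_one (by norm_num), cl_zero (by norm_num), cl_zero (by norm_num),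
      cl_zero (by norm_num)]; ring
  · rw [cl_one (by norm_num), cl_one (by norm_num), cl_zero (by norm_num),
      cl_zero (by norm_num)]; ring
  · rw [cl_one (by norm_num), cl_one (by norm_num), cl_one (by norm_num),
      cl_zero (by norm_num)]; ring
  · rw [cl_one (by norm_num), cl_one (by norm_num), cl_one (by norm_num),
      cl_one (by norm_num)]; ring

/-- the angle of a real number -/
def T (y : ℝ) : ℝ := Real.pi + 2 * Real.arctan y

theorem T_mono : StrictMono T := fun a b h => by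
  unfold T
  have := Real.arctan_strictMono h
  linarith

theorem T_zero : T 0 = Real.pi := by unfold T; rw [Real.arctan_zero]; ring

theorem T_one : T 1 = 3 * Real.pi / 2 := by unfold T; rw [Real.arctan_one]; ring

theorem T_pos (y : ℝ) : 0 < T y := by
  unfold T
  have := Real.neg_pi_div_two_lt_arctan y
  linarith

theorem T_lt (y : ℝ) : T y < 2 * Real.pi := by
  unfold T
  have := Real.arctan_lt_pi_div_two y
  linarith

theorem cayley_T (y : ℝ) : ((y : ℂ) - I) / ((y : ℂ) + I) = E (T y) := by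
  set a := Real.arctan y with ha
  have hc : Real.cos a ≠ 0 := (Real.cos_arctan_pos y).ne'
  have hy : y * Real.cos a = Real.sin a := by
    rw [← Real.tan_mul_cos hc, ha, Real.tan_arctan]
  have hne : (y : ℂ) + I ≠ 0 := by
    intro h
    have := congrArg Complex.im h
    simp at this
  have hE : E (T y) = -(Real.cos a + Real.sin a * I) ^ 2 := by
    unfold E T
    rw [← ha]
    push_cast
    rw [add_mul, Complex.exp_add, Complex.exp_pi_mul_I]
    have e : (2 * (a : ℂ)) * I = a * I + a * I := by ring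
    rw [e, Complex.exp_add, Complex.exp_mul_I]
    ring
  rw [hE, div_eq_iff hne]
  have hcC : (Real.cos a : ℂ) ≠ 0 := by exact_mod_cast hc
  have hyC : (y : ℂ) * Real.cos a = Real.sin a := by exact_mod_cast hy
  have h1 : (Real.sin a : ℂ) ^ 2 + (Real.cos a : ℂ) ^ 2 = 1 := by
    exact_mod_cast Real.sin_sq_add_cos_sq a
  refine mul_right_cancel₀ hcC ?_
  have hI : I ^ 2 = -1 := Complex.I_sq
  have e1 : ((y : ℂ) - I) * Real.cos a = Real.sin a - I * Real.cos a := by rw [sub_mul, hyC]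
  have e2 : ((y : ℂ) + I) * Real.cos a = Real.sin a + I * Real.cos a := by rw [add_mul, hyC]
  rw [e1, mul_assoc, e2]
  generalize (Real.sin a : ℂ) = s at *
  generalize (Real.cos a : ℂ) = c at *
  linear_combination (-s + I * c) * h1 + (2 * s * c ^ 2 + s ^ 2 * I * c + s ^ 3) * hI

/-! ### the map to the disc -/

variable (S : Dat)

/-- the map to the disc -/
def fD (z : ℂ) : ℂ := if z = S.d then 1 else (S.φ z - I) / (S.φ z + I)

theorem d_notMem : S.d ∉ S.D := fun h => by
  have := S.hd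
  rw [S.hD.frontier_eq] at this
  exact this.2 h

theorem sub_diff : S.D ⊆ closure S.D \ {S.d} := fun _ hz =>
  ⟨subset_closure hz, fun h => d_notMem S (h ▸ hz)⟩

theorem im_pos {z : ℂ} (hz : z ∈ S.D) : 0 < (S.φ z).im := by
  have : S.φ z ∈ S.φ '' S.D := mem_image_of_mem _ hz
  rw [S.hφD] at this
  exact this

theorem im_nonneg {z : ℂ} (hz : z ∈ closure S.D) (hzd : z ≠ S.d) : 0 ≤ (S.φ z).im := by
  have h1 : ContinuousWithinAt S.φ S.D z := (S.hφc z ⟨hz, hzd⟩).mono (sub_diff S)
  have h2 := h1.mem_closure_image hz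
  have h3 : closure (S.φ '' S.D) ⊆ {w : ℂ | 0 ≤ w.im} := by
    refine closure_minimal ?_ (isClosed_le continuous_const Complex.continuous_im)
    rw [S.hφD]
    exact fun w (hw : 0 < w.im) => hw.le
  exact h3 h2

theorem den_ne {w : ℂ} (h : 0 ≤ w.im) : w + I ≠ 0 := by
  intro h1
  have := congrArg Complex.im h1
  simp at this
  linarith

theorem cayley_lt {w : ℂ} (h : 0 < w.im) : ‖(w - I) / (w + I)‖ < 1 := by
  have hne := den_ne h.le
  rw [norm_div, div_lt_one (norm_pos_iff.2 hne), ← sq_lt_sq₀ (norm_nonneg _) (norm_nonneg _),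
    ← Complex.normSq_eq_norm_sq, ← Complex.normSq_eq_norm_sq, Complex.normSq_apply,
    Complex.normSq_apply]
  simp
  nlinarith

/-- `φ → ∞` at `d`, also along the frontier -/
theorem tendsto_norm : Tendsto (fun z => ‖S.φ z‖) (𝓝[closure S.D \ {S.d}] S.d) atTop := by
  rw [Filter.tendsto_atTop]
  intro M
  have h1 := (Filter.tendsto_atTop.1 S.hφd) M
  rw [eventually_nhdsWithin_iff, Metric.eventually_nhds_iff] at h1 ⊢
  obtain ⟨δ, hδ, h1⟩ := h1
  refine ⟨δ, hδ, fun z hz hz2 => ?_⟩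
  have h2 : z ∈ closure (S.D ∩ ball S.d δ) := by
    have h3 : ball S.d δ ∈ 𝓝 z := isOpen_ball.mem_nhds hz
    rw [mem_closure_iff_nhds]
    intro t ht
    obtain ⟨y, hy1, hy2⟩ := mem_closure_iff_nhds.1 hz2.1 _ (inter_mem ht h3)
    exact ⟨y, hy1.1, hy2, hy1.2⟩
  have h4 : ContinuousWithinAt S.φ (S.D ∩ ball S.d δ) z :=
    (S.hφc z hz2).mono (inter_subset_left.trans (sub_diff S))
  have h5 := h4.mem_closure_image h2
  have h6 : closure (S.φ '' (S.D ∩ ball S.d δ)) ⊆ {w : ℂ | M ≤ ‖w‖} := by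
    refine closure_minimal ?_ (isClosed_le continuous_const continuous_norm)
    rintro _ ⟨y, hy, rfl⟩
    exact h1 hy.2 hy.1
  exact h6 h5

theorem fD_ne {z : ℂ} (h : z ≠ S.d) : fD S z = (S.φ z - I) / (S.φ z + I) := if_neg h

theorem fD_d : fD S S.d = 1 := if_pos rfl

theorem fD_cont : ContinuousOn (fD S) (closure S.D) := by
  intro z hz
  by_cases hzd : z = S.d
  · rw [hzd, ← continuousWithinAt_sdiff_self]
    show Tendsto (fD S) (𝓝[closure S.D \ {S.d}] S.d) (𝓝 (fD S S.d))
    rw [fD_d, ← tendsto_sub_nhds_zero_iff]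
    refine squeeze_zero_norm' (a := fun z => 2 / (‖S.φ z‖ - 1)) ?_ ?_
    · have h1 := (Filter.tendsto_atTop.1 (tendsto_norm S)) 2
      filter_upwards [h1, self_mem_nhdsWithin] with w hw hw2
      rw [fD_ne S hw2.2]
      have hne := den_ne (im_nonneg S hw2.1 hw2.2)
      have e : (S.φ w - I) / (S.φ w + I) - 1 = -(2 * I) / (S.φ w + I) := by
        field_simp
        ring
      rw [e, norm_div, norm_neg, norm_mul, Complex.norm_I, mul_one, Complex.norm_two]
      have h2 : ‖S.φ w‖ - 1 ≤ ‖S.φ w + I‖ := by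
        have := norm_sub_le (S.φ w + I) I
        rw [add_sub_cancel_right, Complex.norm_I] at this
        linarith
      exact div_le_div_of_nonneg_left (by norm_num) (by linarith) h2
    · have h1 : Tendsto (fun z => ‖S.φ z‖ - 1) (𝓝[closure S.D \ {S.d}] S.d) atTop :=
        tendsto_atTop_add_const_right _ _ (tendsto_norm S)
      exact h1.const_div_atTop 2
  · have h1 : closure S.D \ {S.d} ∈ 𝓝[closure S.D] z := by
      rw [sdiff_eq]
      exact inter_mem self_mem_nhdsWithin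
        (mem_nhdsWithin_of_mem_nhds (isOpen_compl_singleton.mem_nhds hzd))
    have h2 := S.hφc z ⟨hz, hzd⟩
    have h3 : ContinuousWithinAt (fun z => (S.φ z - I) / (S.φ z + I)) (closure S.D \ {S.d}) z :=
      (h2.sub continuousWithinAt_const).div (h2.add continuousWithinAt_const)
        (den_ne (im_nonneg S hz hzd))
    refine (h3.mono_of_mem_nhdsWithin h1).congr_of_eventuallyEq ?_ (fD_ne S hzd)
    filter_upwards [h1] with w hw
    exact fD_ne S hw.2

/-- **the disc map of the data** -/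
theorem cd : CD S.D (fD S) where
  op := S.hD
  bd := S.hDb
  co := S.hDc
  cont := fD_cont S
  dif := by
    have h1 : DifferentiableOn ℂ (fun z => (S.φ z - I) / (S.φ z + I)) S.D :=
      (S.hφ.sub_const I).div (S.hφ.add_const I) fun z hz => den_ne (im_pos S hz).le
    exact h1.congr fun z hz => fD_ne S (sub_diff S hz).2
  inj := by
    intro z hz w hw h
    rw [fD_ne S (sub_diff S hz).2, fD_ne S (sub_diff S hw).2,
      div_eq_div_iff (den_ne (im_pos S hz).le) (den_ne (im_pos S hw).le)] at h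
    refine S.hφi hz hw ?_
    have hI : (2 * I : ℂ) ≠ 0 := by simp
    refine mul_left_cancel₀ hI ?_
    linear_combination h
  img := by
    apply subset_antisymm
    · rintro _ ⟨z, hz, rfl⟩
      rw [fD_ne S (sub_diff S hz).2, mem_ball_zero_iff]
      exact cayley_lt (im_pos S hz)
    · intro w hw
      rw [mem_ball_zero_iff] at hw
      have h1 : (1 : ℂ) - w ≠ 0 := by
        intro h
        have : w = 1 := (sub_eq_zero.1 h).symm
        rw [this, norm_one] at hw
        exact lt_irrefl _ hw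
      have h2 : I * (1 + w) / (1 - w) ∈ S.φ '' S.D := by
        rw [S.hφD]
        show 0 < (I * (1 + w) / (1 - w)).im
        have hn : 0 < Complex.normSq (1 - w) := Complex.normSq_pos.2 h1
        have hw2 : w.re * w.re + w.im * w.im < 1 := by
          have h3 : ‖w‖ ^ 2 < 1 := by nlinarith [norm_nonneg w]
          rwa [← Complex.normSq_eq_norm_sq, Complex.normSq_apply] at h3
        rw [Complex.div_im]
        have e : (I * (1 + w)).im * (1 - w).re / Complex.normSq (1 - w) -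
            (I * (1 + w)).re * (1 - w).im / Complex.normSq (1 - w) =
            (1 - (w.re * w.re + w.im * w.im)) / Complex.normSq (1 - w) := by
          rw [← sub_div]
          congr 1
          simp
          ring
        rw [e]
        exact div_pos (by linarith) hn
      obtain ⟨z, hz, hz2⟩ := h2
      refine ⟨z, hz, ?_⟩
      rw [fD_ne S (sub_diff S hz).2, hz2]
      have h4 : I * (1 + w) / (1 - w) + I ≠ 0 := by
        rw [← hz2]; exact den_ne (im_pos S hz).le
      rw [div_eq_iff h4]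
      field_simp
      ring

/-! ### the curve of the data -/

theorem jordan : IsJordanCurve S.γ :=
  ⟨S.hγ.continuousOn, S.hγi, by have := S.hγp 0; rw [zero_add] at this; exact this.symm⟩

theorem trace : curveTrace S.γ = frontier S.D := by
  rw [← S.hγD]
  show S.γ '' Icc 0 1 = range S.γ
  apply subset_antisymm
  · exact image_subset_range _ _
  · rintro _ ⟨t, rfl⟩
    refine ⟨Int.fract t, ⟨Int.fract_nonneg t, (Int.fract_lt_one t).le⟩, ?_⟩
    have h := Function.Periodic.sub_int_mul_eq (f := S.γ) (c := 1) S.hγp ⌊t⌋ (x := t)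
    rw [mul_one] at h
    exact h

/-! ### the four arcs -/

section arcs

variable (hn : ∀ z ∈ frontier S.D, ‖fD S z‖ = 1)

include hn

theorem fD_real {z : ℂ} (hz : z ∈ frontier S.D) (hzd : z ≠ S.d) :
    (S.φ z).im = 0 ∧ fD S z = E (T (S.φ z).re) := by
  have h1 := hn z hz
  have hne := den_ne (im_nonneg S (frontier_subset_closure hz) hzd)
  rw [fD_ne S hzd, norm_div, div_eq_one_iff_eq (norm_ne_zero_iff.2 hne)] at h1
  have h2 : (S.φ z).im = 0 := by
    have h3 : ‖S.φ z - I‖ ^ 2 = ‖S.φ z + I‖ ^ 2 := by rw [h1]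
    rw [← Complex.normSq_eq_norm_sq, ← Complex.normSq_eq_norm_sq, Complex.normSq_apply,
      Complex.normSq_apply] at h3
    simp at h3
    linarith
  refine ⟨h2, ?_⟩
  have h3 : S.φ z = ((S.φ z).re : ℂ) := by
    apply Complex.ext
    · simp
    · simp [h2]
  rw [fD_ne S hzd, ← cayley_T, ← h3]

theorem mem_arc {A B : ℝ} (hA : 0 ≤ A) (hB : B ≤ 2 * Real.pi) {z : ℂ} (hz : z ∈ frontier S.D) :
    (∃ θ ∈ Icc A B, fD S z = E θ) ↔
      (z ≠ S.d ∧ (S.φ z).im = 0 ∧ A ≤ T (S.φ z).re ∧ T (S.φ z).re ≤ B) ∨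
      (z = S.d ∧ ((A = 0 ∧ 0 ≤ B) ∨ (B = 2 * Real.pi ∧ A ≤ B))) := by
  have hp := Real.pi_pos
  by_cases hzd : z = S.d
  · constructor
    · rintro ⟨θ, hθ, h⟩
      refine Or.inr ⟨hzd, ?_⟩
      rw [hzd, fD_d] at h
      by_cases h0 : θ = 2 * Real.pi
      · have : B = 2 * Real.pi := le_antisymm hB (h0 ▸ hθ.2)
        exact Or.inr ⟨this, hθ.1.trans hθ.2⟩
      · have h1 : θ = 0 := by
          refine E_inj (by rw [← h, E_zero]) ?_
          have h2 : θ < 2 * Real.pi := lt_of_le_of_ne (hθ.2.trans hB) h0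
          rw [abs_lt]
          constructor <;> linarith [hθ.1]
        rw [h1] at hθ
        exact Or.inl ⟨le_antisymm hθ.1 hA, hθ.2⟩
    · rintro (h | ⟨-, h | h⟩)
      · exact absurd hzd h.1
      · exact ⟨0, ⟨h.1.le, h.2⟩, by rw [hzd, fD_d, E_zero]⟩
      · refine ⟨2 * Real.pi, ⟨h.1 ▸ h.2, h.1.ge⟩, ?_⟩
        rw [hzd, fD_d]
        have := E_per 0
        rw [zero_add, E_zero] at this
        exact this.symm
  · obtain ⟨h1, h2⟩ := fD_real S hn hz hzd
    have t0 := T_pos (S.φ z).re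
    have t1 := T_lt (S.φ z).re
    constructor
    · rintro ⟨θ, hθ, h⟩
      have h3 : T (S.φ z).re = θ := by
        refine E_inj (by rw [← h2, h]) ?_
        rw [abs_lt]
        constructor <;> linarith [hθ.1, hθ.2]
      rw [← h3] at hθ
      exact Or.inl ⟨hzd, h1, hθ.1, hθ.2⟩
    · rintro (h | h)
      · exact ⟨_, ⟨h.2.2.1, h.2.2.2⟩, h2⟩
      · exact absurd h.1 hzd

/-- **CARA, part (iv)** -/
theorem cara_of (hi : InjOn (fD S) (closure S.D)) : ∃ g : ℝ → ℂ, Unif g (fD S) ∧
    jordanInterior g = S.D ∧ curveTrace g = frontier S.D ∧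
    g '' Icc 0 (1 / 4) = S.A1 ∧
    g '' Icc (1 / 4) (1 / 2) = {z | z ∈ frontier S.D ∧ z ≠ S.d ∧ (S.φ z).im = 0 ∧
      S.x ≤ (S.φ z).re ∧ (S.φ z).re ≤ 1} ∧
    g '' Icc (1 / 2) (3 / 4) = S.A2 ∧
    g '' Icc (3 / 4) 1 = {z | z ∈ frontier S.D ∧ z ≠ S.d ∧ (S.φ z).im = 0 ∧
      (S.φ z).re ≤ 0} ∪ {S.d} ∧
    (g 0 ≠ S.d ∧ S.φ (g 0) = 0) ∧ (g (1 / 4) ≠ S.d ∧ S.φ (g (1 / 4)) = S.x) ∧
    (g (1 / 2) ≠ S.d ∧ S.φ (g (1 / 2)) = 1) ∧ g (3 / 4) = S.d := by
  have hp := Real.pi_pos
  have x0 : Real.pi < T S.x := by rw [← T_zero]; exact T_mono S.hx0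
  have x1 : T S.x < 3 * Real.pi / 2 := by rw [← T_one]; exact T_mono S.hx1
  have hA : Ang (ang4 Real.pi (T S.x - Real.pi) (3 * Real.pi / 2 - T S.x) (Real.pi / 2) Real.pi) :=
    ang4_ang (by linarith) (by linarith) (by linarith) hp (by ring)
  obtain ⟨v0, v1, v2, v3, v4⟩ := ang4_v (a := Real.pi) (c0 := T S.x - Real.pi)
    (c1 := 3 * Real.pi / 2 - T S.x) (c2 := Real.pi / 2) (c3 := Real.pi)
  have v1' := v1.trans (by ring : _ = T S.x)
  have v2' := v2.trans (by ring : _ = 3 * Real.pi / 2)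
  have v3' := v3.trans (by ring : _ = 2 * Real.pi)
  have v4' := v4.trans (by ring : _ = 3 * Real.pi)
  generalize ang4 Real.pi (T S.x - Real.pi) (3 * Real.pi / 2 - T S.x) (Real.pi / 2) Real.pi = Θ at *
  obtain ⟨g, h1, h2, h3, h4, h5⟩ := (cd S).unif hi hn hA
  have hfr : ∀ t ∈ Icc (0:ℝ) 1, g t ∈ frontier S.D := fun t ht => by
    rw [← h3]; exact mem_image_of_mem _ ht
  refine ⟨g, h1, h2, h3, ?_, ?_, ?_, ?_, ?_, ?_, ?_, ?_⟩
  · rw [h5 0 (1/4) le_rfl (by norm_num) (by norm_num), v0, v1']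
    ext z
    constructor
    · rintro ⟨hz, h⟩
      rw [mem_arc S hn hp.le (by linarith) hz] at h
      rcases h with h | ⟨-, h | h⟩
      · refine ⟨hz, h.1, h.2.1, ?_, T_mono.le_iff_le.1 h.2.2.2⟩
        rw [← T_mono.le_iff_le, T_zero]; exact h.2.2.1
      · linarith [h.1]
      · linarith [h.1]
    · rintro ⟨hz, a1, a2, a3, a4⟩
      refine ⟨hz, (mem_arc S hn hp.le (by linarith) hz).2 (Or.inl ⟨a1, a2, ?_, T_mono.monotone a4⟩)⟩
      rw [← T_zero]; exact T_mono.monotone a3
  · rw [h5 (1/4) (1/2) (by norm_num) (by norm_num) (by norm_num), v1', v2']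
    ext z
    constructor
    · rintro ⟨hz, h⟩
      rw [mem_arc S hn (by linarith) (by linarith) hz] at h
      rcases h with h | ⟨-, h | h⟩
      · refine ⟨hz, h.1, h.2.1, T_mono.le_iff_le.1 h.2.2.1, ?_⟩
        rw [← T_mono.le_iff_le, T_one]; exact h.2.2.2
      · linarith [h.1]
      · linarith [h.1]
    · rintro ⟨hz, a1, a2, a3, a4⟩
      refine ⟨hz, (mem_arc S hn (by linarith) (by linarith) hz).2
        (Or.inl ⟨a1, a2, T_mono.monotone a3, ?_⟩)⟩
      rw [← T_one]; exact T_mono.monotone a4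
  · rw [h5 (1/2) (3/4) (by norm_num) (by norm_num) (by norm_num), v2', v3']
    ext z
    constructor
    · rintro ⟨hz, h⟩
      rw [mem_arc S hn (by linarith) le_rfl hz] at h
      rcases h with h | ⟨h, -⟩
      · refine Or.inl ⟨hz, h.1, h.2.1, ?_⟩
        rw [← T_mono.le_iff_le, T_one]; exact h.2.2.1
      · exact Or.inr h
    · rintro (⟨hz, a1, a2, a3⟩ | hz)
      · refine ⟨hz, (mem_arc S hn (by linarith) le_rfl hz).2 (Or.inl ⟨a1, a2, ?_, (T_lt _).le⟩)⟩
        rw [← T_one]; exact T_mono.monotone a3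
      · rw [mem_singleton_iff] at hz
        have hz' : z ∈ frontier S.D := hz ▸ S.hd
        exact ⟨hz', (mem_arc S hn (by linarith) le_rfl hz').2
          (Or.inr ⟨hz, Or.inr ⟨rfl, by linarith⟩⟩)⟩
  · rw [h5 (3/4) 1 (by norm_num) (by norm_num) le_rfl, v3', v4']
    have hshift : ∀ z, (∃ θ ∈ Icc (2 * Real.pi) (3 * Real.pi), fD S z = E θ) ↔
        ∃ θ ∈ Icc 0 Real.pi, fD S z = E θ := by
      intro z
      constructor
      · rintro ⟨θ, hθ, h⟩
        exact ⟨θ - 2 * Real.pi, ⟨by linarith [hθ.1], by linarith [hθ.2]⟩, by rw [E_sub, h]⟩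
      · rintro ⟨θ, hθ, h⟩
        exact ⟨θ + 2 * Real.pi, ⟨by linarith [hθ.1], by linarith [hθ.2]⟩, by rw [E_per, h]⟩
    ext z
    constructor
    · rintro ⟨hz, h⟩
      rw [hshift, mem_arc S hn le_rfl (by linarith) hz] at h
      rcases h with h | ⟨h, -⟩
      · refine Or.inl ⟨hz, h.1, h.2.1, ?_⟩
        rw [← T_mono.le_iff_le, T_zero]; exact h.2.2.2
      · exact Or.inr h
    · rintro (⟨hz, a1, a2, a3⟩ | hz)
      · refine ⟨hz, (hshift z).2 ((mem_arc S hn le_rfl (by linarith) hz).2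
          (Or.inl ⟨a1, a2, (T_pos _).le, ?_⟩))⟩
        rw [← T_zero]; exact T_mono.monotone a3
      · rw [mem_singleton_iff] at hz
        have hz' : z ∈ frontier S.D := hz ▸ S.hd
        exact ⟨hz', (hshift z).2 ((mem_arc S hn le_rfl (by linarith) hz').2
          (Or.inr ⟨hz, Or.inl ⟨rfl, hp.le⟩⟩))⟩
  · have hz := hfr 0 ⟨le_rfl, zero_le_one⟩
    have h := (mem_arc S hn (z := g 0) hp.le (B := Real.pi) (by linarith) hz).1
      ⟨Real.pi, ⟨le_rfl, le_rfl⟩, by rw [h4 0 ⟨le_rfl, zero_le_one⟩, v0]⟩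
    rcases h with h | ⟨-, h | h⟩
    · refine ⟨h.1, ?_⟩
      have h6 : (S.φ (g 0)).re = 0 := T_mono.injective (by
        rw [T_zero]; exact le_antisymm h.2.2.2 h.2.2.1)
      exact Complex.ext h6 h.2.1
    · linarith [h.1]
    · linarith [h.1]
  · have h0 : (1/4:ℝ) ∈ Icc (0:ℝ) 1 := ⟨by norm_num, by norm_num⟩
    have hz := hfr _ h0
    have h := (mem_arc S hn (z := g (1/4)) (A := T S.x) (B := T S.x) (by linarith) (by linarith)
      hz).1 ⟨T S.x, ⟨le_rfl, le_rfl⟩, by rw [h4 _ h0, v1']⟩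
    rcases h with h | ⟨-, h | h⟩
    · refine ⟨h.1, ?_⟩
      have h6 : (S.φ (g (1/4))).re = S.x := T_mono.injective (le_antisymm h.2.2.2 h.2.2.1)
      exact Complex.ext (by rw [h6, Complex.ofReal_re]) (by rw [h.2.1, Complex.ofReal_im])
    · linarith [h.1]
    · linarith [h.1]
  · have h0 : (1/2:ℝ) ∈ Icc (0:ℝ) 1 := ⟨by norm_num, by norm_num⟩
    have hz := hfr _ h0
    have h := (mem_arc S hn (z := g (1/2)) (A := 3 * Real.pi / 2) (B := 3 * Real.pi / 2)
      (by linarith) (by linarith) hz).1 ⟨3 * Real.pi / 2, ⟨le_rfl, le_rfl⟩, by rw [h4 _ h0, v2']⟩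
    rcases h with h | ⟨-, h | h⟩
    · refine ⟨h.1, ?_⟩
      have h6 : (S.φ (g (1/2))).re = 1 := T_mono.injective (by
        rw [T_one]; exact le_antisymm h.2.2.2 h.2.2.1)
      exact Complex.ext (by rw [h6, Complex.one_re]) (by rw [h.2.1, Complex.one_im])
    · linarith [h.1]
    · linarith [h.1]
  · have h0 : (3/4:ℝ) ∈ Icc (0:ℝ) 1 := ⟨by norm_num, by norm_num⟩
    have hz := hfr _ h0
    have h := (mem_arc S hn (z := g (3/4)) (A := 2 * Real.pi) (B := 2 * Real.pi)
      (by linarith) le_rfl hz).1 ⟨2 * Real.pi, ⟨le_rfl, le_rfl⟩, by rw [h4 _ h0, v3']⟩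
    rcases h with h | h
    · have := T_lt (S.φ (g (3/4))).re
      linarith [h.2.2.1]
    · exact h.1

end arcs

end Crest.Agent.R143.Cara3x723
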