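import Crest.Agent.R143.Cara_877
import Crest.Agent.R143.Cara2_723

/-! # Row 143, leaf CARA: (A), (B) for the structure `CD` of `Cara2_723` (helper877) -/

set_option autoImplicit false

noncomputable section

namespace Crest.Agent.R143.CaraBx877

open Set Metric
open Crest.ProbabilityR.Percolation

variable {D : Set ℂ} {f : ℂ → ℂ}

theorem cd (h : Cara2x723.CD D f) : Carax877.CD D f :=
  ⟨h.op, h.bd, h.co, h.cont, h.dif, h.inj, h.img⟩

/-- **(A)** -/
theorem norm_eq (h : Cara2x723.CD D f) : ∀ z ∈ frontier D, ‖f z‖ = 1 :=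
  fun _ hz => (cd h).norm_eq hz

/-- **(B)** -/
theorem injOn (h : Cara2x723.CD D f) {γ : ℝ → ℂ} (hγ : IsJordanCurve γ)
    (hγD : curveTrace γ = frontier D) : InjOn f (closure D) := (cd h).injOn hγ hγD

end Crest.Agent.R143.CaraBx877
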