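import Crest.Agent.R143.Cara3_723
import Crest.Agent.R143.CaraB_877
import Crest.Agent.R143.Cfg_416

/-!
# Row 143 (S0194), block D: leaf CARA of `Cfg_416` (helper723, with helper877)
-/

set_option autoImplicit false

noncomputable section

open Set Topology Filter Metric Complex

namespace Crest.Agent.R143.Cara4x723

open Crest.Agent.R158.Jt785 Crest.Agent.R143.Spinex422 Crest.Agent.R143.Cara2x723
  Crest.Agent.R143.Cara3x723

/-- **CARA** -/
theorem cara : Cfgx416.CARA := by
  intro S b hb hbd hφb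
  have hn : ∀ z ∈ frontier S.D, ‖fD S z‖ = 1 := CaraBx877.norm_eq (cd S)
  have hi : InjOn (fD S) (closure S.D) := CaraBx877.injOn (cd S) (jordan S) (trace S)
  obtain ⟨g, h1, h2, h3, a1, a2, a3, a4, -, g1, -, g3⟩ := cara_of S hn hi
  refine ⟨g, fD S, h1, h2, ?_, g3, a1, a2, a3, a4⟩
  have hg : g (1 / 4) ∈ frontier S.D := by
    rw [← h3]
    exact ⟨1 / 4, ⟨by norm_num, by norm_num⟩, rfl⟩
  refine hi (frontier_subset_closure hg) (frontier_subset_closure hb) ?_
  rw [fD_ne S g1.1, fD_ne S hbd, g1.2, hφb]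

end Crest.Agent.R143.Cara4x723
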