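import Mathlib
import Crest.Agent.R158.Jt2_785

/-!
# Row 143, leaf CARA (i), (ii): boundary behaviour of a conformal map of a Jordan domain (helper877)

`D` a bounded domain whose frontier is the trace of a Jordan curve, `f : closure D → closed disc`
continuous, conformal from `D` onto the open disc.  Then `‖f z‖ = 1` on the frontier and `f` is
injective on the closure.
-/

set_option autoImplicit false

noncomputable section

open scoped Classical

namespace Crest.Agent.R143.Carax877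

open Set Topology Filter Metric
open Crest.ProbabilityR.Percolation
open Crest.Agent.R158.Jt785

/-- a bounded domain with a conformal map onto the disc, continuous up to the boundary -/
structure CD (D : Set ℂ) (f : ℂ → ℂ) : Prop where
  op : IsOpen D
  bd : Bornology.IsBounded D
  co : IsConnected D
  cont : ContinuousOn f (closure D)
  dif : DifferentiableOn ℂ f D
  inj : InjOn f D
  img : f '' D = ball 0 1

variable {D : Set ℂ} {f : ℂ → ℂ}

namespace CD

theorem mem_ball (h : CD D f) {z : ℂ} (hz : z ∈ D) : ‖f z‖ < 1 := by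
  have : f z ∈ ball (0 : ℂ) 1 := by
    rw [← h.img]
    exact mem_image_of_mem _ hz
  simpa using this

theorem open_map (h : CD D f) {s : Set ℂ} (hs : s ⊆ D) (ho : IsOpen s) : IsOpen (f '' s) := by
  have ha : AnalyticOnNhd ℂ f D := h.dif.analyticOnNhd h.op
  rcases ha.is_constant_or_isOpen h.co.isPreconnected with ⟨w, hw⟩ | h1
  · exfalso
    have h0 : (0 : ℂ) ∈ f '' D := by rw [h.img]; simp
    have h2 : (1 / 2 : ℂ) ∈ f '' D := by
      rw [h.img, mem_ball_zero_iff]
      norm_num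
    obtain ⟨x, hx, hx'⟩ := h0
    obtain ⟨y, hy, hy'⟩ := h2
    rw [hw x hx] at hx'
    rw [hw y hy, hx'] at hy'
    norm_num at hy'
  · exact h1 s hs ho

/-- the norm is at most one on the closure -/
theorem norm_le (h : CD D f) {z : ℂ} (hz : z ∈ closure D) : ‖f z‖ ≤ 1 := by
  have h1 : f z ∈ closure (f '' D) := h.cont.image_closure (mem_image_of_mem _ hz)
  rw [h.img] at h1
  have := closure_ball_subset_closedBall h1
  simpa using this

/-- **(A)** -/
theorem norm_eq (h : CD D f) {z : ℂ} (hz : z ∈ frontier D) : ‖f z‖ = 1 := by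
  have hzc : z ∈ closure D := frontier_subset_closure hz
  have hzD : z ∉ D := by
    rw [h.op.frontier_eq] at hz
    exact hz.2
  refine le_antisymm (h.norm_le hzc) ?_
  by_contra hlt
  rw [not_le] at hlt
  have h1 : f z ∈ f '' D := by
    rw [h.img, mem_ball_zero_iff]
    exact hlt
  obtain ⟨z0, hz0, hz0'⟩ := h1
  obtain ⟨r, hr, hball⟩ := Metric.isOpen_iff.1 h.op z0 hz0
  have hs : ball z0 (r / 2) ⊆ D := (ball_subset_ball (by linarith)).trans hball
  have ho : IsOpen (f '' ball z0 (r / 2)) := h.open_map hs isOpen_ball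
  have hmem : f z ∈ f '' ball z0 (r / 2) := by
    rw [← hz0']
    exact mem_image_of_mem _ (mem_ball_self (by linarith))
  -- `f` is continuous within `closure D` at `z`
  have hc : Tendsto f (𝓝[D] z) (𝓝 (f z)) :=
    (h.cont z hzc).mono_left (nhdsWithin_mono _ subset_closure)
  have h2 : ∀ᶠ y in 𝓝[D] z, y ∈ closedBall z0 (r / 2) := by
    filter_upwards [hc (ho.mem_nhds hmem), self_mem_nhdsWithin] with y hy hyD
    obtain ⟨x, hx, hxy⟩ := hy
    have : x = y := h.inj (hs hx) hyD hxy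
    rw [← this]
    exact ball_subset_closedBall hx
  have hne : (𝓝[D] z).NeBot := mem_closure_iff_nhdsWithin_neBot.1 hzc
  have h3 : z ∈ closedBall z0 (r / 2) := by
    have h4 : Tendsto (fun y : ℂ => y) (𝓝[D] z) (𝓝 z) := tendsto_id.mono_left nhdsWithin_le_nhds
    exact isClosed_closedBall.mem_of_tendsto h4 h2
  exact hzD (hball (closedBall_subset_ball (by linarith) h3))

/-- preimages of connected sets are connected -/
theorem pre (h : CD D f) {T : Set ℂ} (hT : IsPreconnected T) (hTb : T ⊆ ball 0 1) :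
    IsPreconnected (D ∩ f ⁻¹' T) := by
  let ψ : ℂ → ℂ := Function.invFunOn f D
  have hψ1 : ∀ w ∈ ball (0 : ℂ) 1, ψ w ∈ D ∧ f (ψ w) = w := by
    intro w hw
    rw [← h.img] at hw
    exact ⟨Function.invFunOn_mem hw, Function.invFunOn_eq hw⟩
  have hψ2 : ∀ z ∈ D, ψ (f z) = z := fun z hz => h.inj.leftInvOn_invFunOn hz
  have hc : ContinuousOn ψ (ball 0 1) := by
    rw [_root_.continuousOn_iff']
    intro V hV
    refine ⟨f '' (D ∩ V), h.open_map inter_subset_left (h.op.inter hV), ?_⟩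
    ext w
    constructor
    · rintro ⟨hw1, hw2⟩
      exact ⟨⟨ψ w, ⟨(hψ1 w hw2).1, hw1⟩, (hψ1 w hw2).2⟩, hw2⟩
    · rintro ⟨⟨z, ⟨hz1, hz2⟩, rfl⟩, hw⟩
      refine ⟨?_, hw⟩
      rw [mem_preimage, hψ2 z hz1]
      exact hz2
  have he : D ∩ f ⁻¹' T = ψ '' T := by
    ext z
    constructor
    · rintro ⟨h1, h2⟩
      exact ⟨f z, h2, hψ2 z h1⟩
    · rintro ⟨w, hw, rfl⟩
      refine ⟨(hψ1 w (hTb hw)).1, ?_⟩
      rw [mem_preimage, (hψ1 w (hTb hw)).2]
      exact hw
  rw [he]
  exact hT.image ψ (hc.mono hTb)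

/-- the fibres on the frontier are connected -/
theorem fibre (h : CD D f) {ζ : ℂ} (hζ : ‖ζ‖ = 1) {K1 K2 : Set ℂ} (h1 : IsCompact K1)
    (h2 : IsCompact K2) (hd : Disjoint K1 K2)
    (hF : ∀ z ∈ frontier D, f z = ζ → z ∈ K1 ∪ K2)
    {p1 p2 : ℂ} (hp1 : p1 ∈ frontier D) (hp2 : p2 ∈ frontier D) (hf1 : f p1 = ζ)
    (hf2 : f p2 = ζ) (hk1 : p1 ∈ K1) (hk2 : p2 ∈ K2) : False := by
  obtain ⟨U1, U2, hU1, hU2, hK1, hK2, hU⟩ := SeparatedNhds.of_isCompact_isCompact h1 h2 hd
  -- small values of `|f - ζ|` only in `U1 ∪ U2`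
  obtain ⟨r, hr, hsub⟩ : ∃ r > 0, ∀ z ∈ closure D, ‖f z - ζ‖ < r → z ∈ U1 ∪ U2 := by
    have hC : IsCompact (closure D \ (U1 ∪ U2)) :=
      IsCompact.diff h.bd.isCompact_closure (hU1.union hU2)
    rcases (closure D \ (U1 ∪ U2)).eq_empty_or_nonempty with he | hne
    · refine ⟨1, one_pos, fun z hz _ => ?_⟩
      by_contra hn
      have : z ∈ closure D \ (U1 ∪ U2) := ⟨hz, hn⟩
      rw [he] at this
      exact this
    · have hc : ContinuousOn (fun z => ‖f z - ζ‖) (closure D \ (U1 ∪ U2)) :=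
        ((h.cont.mono sdiff_subset).sub continuousOn_const).norm
      obtain ⟨z0, hz0, hmin⟩ := hC.exists_isMinOn hne hc
      have hpos : 0 < ‖f z0 - ζ‖ := by
        rw [norm_pos_iff, sub_ne_zero]
        intro he
        by_cases hz0D : z0 ∈ D
        · have := h.mem_ball hz0D
          rw [he, hζ] at this
          exact lt_irrefl _ this
        · have hfr : z0 ∈ frontier D := by
            rw [h.op.frontier_eq]
            exact ⟨hz0.1, hz0D⟩
          rcases hF z0 hfr he with hk | hk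
          · exact hz0.2 (Or.inl (hK1 hk))
          · exact hz0.2 (Or.inr (hK2 hk))
      refine ⟨‖f z0 - ζ‖, hpos, fun z hz hlt => ?_⟩
      by_contra hn
      have := hmin (⟨hz, hn⟩ : z ∈ closure D \ (U1 ∪ U2))
      exact absurd hlt (not_lt.2 this)
  have hpre : IsPreconnected (D ∩ f ⁻¹' (ball 0 1 ∩ ball ζ r)) :=
    h.pre ((convex_ball (0 : ℂ) 1).inter (convex_ball ζ r)).isPreconnected inter_subset_left
  have hmeet : ∀ (U : Set ℂ) (p : ℂ), IsOpen U → p ∈ U → p ∈ frontier D → f p = ζ →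
      ((D ∩ f ⁻¹' (ball 0 1 ∩ ball ζ r)) ∩ U).Nonempty := by
    intro U p hUo hpU hp hfp
    have hpc : p ∈ closure D := frontier_subset_closure hp
    have hc : Tendsto f (𝓝[D] p) (𝓝 (f p)) :=
      (h.cont p hpc).mono_left (nhdsWithin_mono _ subset_closure)
    have hne : (𝓝[D] p).NeBot := mem_closure_iff_nhdsWithin_neBot.1 hpc
    have e1 : ∀ᶠ y in 𝓝[D] p, f y ∈ ball ζ r := by
      apply hc
      rw [hfp]
      exact ball_mem_nhds _ hr
    have e2 : ∀ᶠ y in 𝓝[D] p, y ∈ U := nhdsWithin_le_nhds (hUo.mem_nhds hpU)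
    have e3 : ∀ᶠ y in 𝓝[D] p, y ∈ D := self_mem_nhdsWithin
    obtain ⟨y, hy1, hy2, hy3⟩ := (e1.and (e2.and e3)).exists
    refine ⟨y, ⟨hy3, ?_, hy1⟩, hy2⟩
    rw [mem_ball_zero_iff]
    exact h.mem_ball hy3
  obtain ⟨x, _, hx1, hx2⟩ := hpre U1 U2 hU1 hU2
    (fun z hz => hsub z (subset_closure hz.1) (by
      have := hz.2.2
      rwa [mem_ball_iff_norm] at this))
    (hmeet U1 p1 hU1 (hK1 hk1) hp1 hf1) (hmeet U2 p2 hU2 (hK2 hk2) hp2 hf2)
  exact disjoint_left.1 hU hx1 hx2

/-- the domain is contained in the interior of the curve -/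
theorem sub_ji (h : CD D f) {γ : ℝ → ℂ} (hγD : curveTrace γ = frontier D) :
    D ⊆ jordanInterior γ := by
  intro z hz
  have hdis : ∀ y ∈ D, y ∉ curveTrace γ := by
    intro y hy h1
    rw [hγD, h.op.frontier_eq] at h1
    exact h1.2 hy
  refine ⟨hdis z hz, h.bd.subset ?_⟩
  have hz' : z ∈ (curveTrace γ)ᶜ := hdis z hz
  have hpc : IsPreconnected (connectedComponentIn (curveTrace γ)ᶜ z) :=
    isPreconnected_connectedComponentIn
  intro y hy
  by_contra hyD
  obtain ⟨x, hx, hx1, hx2⟩ := hpc D (closure D)ᶜ h.op isClosed_closure.isOpen_compl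
    (fun w hw => by
      by_cases hwD : w ∈ closure D
      · left
        by_contra hn
        apply connectedComponentIn_subset _ _ hw
        rw [hγD, h.op.frontier_eq]
        exact ⟨hwD, hn⟩
      · exact Or.inr hwD)
    ⟨z, mem_connectedComponentIn hz', hz⟩
    ⟨y, hy, fun hyc => by
      apply connectedComponentIn_subset _ _ hy
      rw [hγD, h.op.frontier_eq]
      exact ⟨hyc, hyD⟩⟩
  exact hx2 (subset_closure hx1)

/-- near every boundary point there are points outside the closure -/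
theorem exists_out (h : CD D f) {γ : ℝ → ℂ} (hγ : IsJordanCurve γ)
    (hγD : curveTrace γ = frontier D) {p : ℂ} (hp : p ∈ frontier D) {r : ℝ} (hr : 0 < r) :
    ∃ e ∈ ball p r, e ∉ closure D := by
  have hsub := h.sub_ji hγD
  have hne : (jordanInterior γ).Nonempty := h.co.nonempty.mono hsub
  have hfr := frontier_ext hγ hne
  have hpe : p ∈ closure (ext γ) := by
    have : p ∈ frontier (ext γ) := by rw [hfr, hγD]; exact hp
    exact frontier_subset_closure this
  obtain ⟨e, he1, he2⟩ := Metric.mem_closure_iff.1 hpe r hr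
  refine ⟨e, ?_, fun hec => ?_⟩
  · rw [Metric.mem_ball, dist_comm]
    exact he2
  · obtain ⟨y, hy1, hy2⟩ := mem_closure_iff.1 hec _ (isOpen_ext hγ) he1
    exact disjoint_left.1 (disj_ji_ext hγ) (hsub hy2) hy1

/-- **no arc of the frontier is mapped to a point** -/
theorem no_arc (h : CD D f) {γ : ℝ → ℂ} (hγ : IsJordanCurve γ)
    (hγD : curveTrace γ = frontier D) {p : ℂ} (hp : p ∈ frontier D) {r : ℝ} (hr : 0 < r) {ζ : ℂ}
    (hζ : ‖ζ‖ = 1) (hf : ∀ z ∈ frontier D, z ∈ ball p r → f z = ζ) : False := by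
  obtain ⟨q, hq1, hq2⟩ : ∃ q ∈ D, dist p q < r / 4 :=
    Metric.mem_closure_iff.1 (frontier_subset_closure hp) (r / 4) (by linarith)
  obtain ⟨e, he1, he2⟩ := h.exists_out hγ hγD hp (show 0 < r / 4 by linarith)
  rw [Metric.mem_ball] at he1
  obtain ⟨δ, hδ, hball⟩ := Metric.isOpen_iff.1 isClosed_closure.isOpen_compl e he2
  have heq : e ≠ q := fun h1 => he2 (h1 ▸ subset_closure hq1)
  set s : ℝ := ‖e - q‖ with hs
  have hs0 : 0 < s := norm_pos_iff.2 (sub_ne_zero.2 heq)
  have hsr : s < r / 2 := by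
    have h1 : dist e q ≤ dist e p + dist p q := dist_triangle _ _ _
    rw [dist_eq_norm] at h1
    linarith
  have hsub : closedBall q s ⊆ ball p r := by
    intro z hz
    rw [Metric.mem_closedBall] at hz
    rw [Metric.mem_ball]
    have h1 : dist z p ≤ dist z q + dist q p := dist_triangle _ _ _
    rw [dist_comm q p] at h1
    linarith
  -- finitely many rotations
  obtain ⟨t, hts, htf, htc⟩ := finite_cover_balls_of_compact (isCompact_sphere (0 : ℂ) 1)
    (show 0 < δ / s by positivity)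
  set T : Finset ℂ := htf.toFinset with hT
  have hTu : ∀ u ∈ T, ‖u‖ = 1 := by
    intro u hu
    have := hts (htf.mem_toFinset.1 hu)
    simpa using this
  set U : Set ℂ := {z | z ∈ ball q s ∧ ∀ u ∈ T, q + u * (z - q) ∈ D} with hU
  have hUo : IsOpen U := by
    have : U = ball q s ∩ ⋂ u ∈ T, (fun z : ℂ => q + u * (z - q)) ⁻¹' D := by
      ext z
      simp [hU]
    rw [this]
    refine isOpen_ball.inter (isOpen_biInter_finset fun u _ => ?_)
    exact h.op.preimage (by fun_prop)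
  have hUcl : ∀ z ∈ closure U, z ∈ closedBall q s ∧ ∀ u ∈ T, q + u * (z - q) ∈ closure D := by
    intro z hz
    refine ⟨closure_ball_subset_closedBall (closure_mono (fun y hy => hy.1) hz), ?_⟩
    intro u hu
    have hc : Continuous fun z : ℂ => q + u * (z - q) := by fun_prop
    have h1 : (fun z : ℂ => q + u * (z - q)) z ∈ closure ((fun z : ℂ => q + u * (z - q)) '' U) :=
      image_closure_subset_closure_image hc (mem_image_of_mem _ hz)
    refine closure_mono ?_ h1
    rintro _ ⟨y, hy, rfl⟩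
    exact hy.2 u hu
  let P : ℂ → ℂ := fun z => ∏ u ∈ T, (f (q + u * (z - q)) - ζ)
  have hcont : ContinuousOn P (closure U) := by
    refine continuousOn_finsetProd T fun u hu => ContinuousOn.sub ?_ continuousOn_const
    refine h.cont.comp (by fun_prop) fun z hz => (hUcl z hz).2 u hu
  have hdiff : DifferentiableOn ℂ P U := by
    refine DifferentiableOn.fun_finsetProd fun u hu => ?_
    refine DifferentiableOn.sub ?_ (differentiableOn_const _)
    refine h.dif.comp (by fun_prop) fun z hz => hz.2 u hu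
  have hfront : ∀ z ∈ frontier U, ‖P z‖ ≤ 0 := by
    intro z hz
    rw [hUo.frontier_eq] at hz
    obtain ⟨h1, h2⟩ := hUcl z hz.1
    have hnu : ∀ u ∈ T, dist (q + u * (z - q)) q ≤ s := by
      intro u hu
      rw [dist_eq_norm, add_sub_cancel_left, norm_mul, hTu u hu, one_mul, ← dist_eq_norm]
      exact h1
    by_cases hzs : z ∈ ball q s
    · have h3 : ¬ ∀ u ∈ T, q + u * (z - q) ∈ D := fun h3 => hz.2 ⟨hzs, h3⟩
      push Not at h3
      obtain ⟨u, hu, hu'⟩ := h3
      have h4 : q + u * (z - q) ∈ frontier D := by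
        rw [h.op.frontier_eq]
        exact ⟨h2 u hu, hu'⟩
      have h5 : f (q + u * (z - q)) = ζ := hf _ h4 (hsub (hnu u hu))
      have h6 : P z = 0 := Finset.prod_eq_zero hu (by rw [h5, sub_self])
      rw [h6, norm_zero]
    · exfalso
      have hzn : ‖z - q‖ = s := by
        rw [Metric.mem_closedBall, dist_eq_norm] at h1
        rw [Metric.mem_ball, dist_eq_norm, not_lt] at hzs
        exact le_antisymm h1 hzs
      have hz0 : z - q ≠ 0 := by
        rw [← norm_pos_iff, hzn]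
        exact hs0
      have hw : (e - q) / (z - q) ∈ sphere (0 : ℂ) 1 := by
        rw [mem_sphere_zero_iff_norm, norm_div, hzn]
        exact div_self hs0.ne'
      obtain ⟨u, hu, hu'⟩ := mem_iUnion₂.1 (htc hw)
      rw [mem_ball_iff_norm] at hu'
      have h3 : q + u * (z - q) ∈ ball e δ := by
        rw [mem_ball_iff_norm]
        have e1 : q + u * (z - q) - e = -(((e - q) / (z - q) - u) * (z - q)) := by
          field_simp
          ring
        rw [e1, norm_neg, norm_mul, hzn]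
        rw [lt_div_iff₀ hs0] at hu'
        exact hu'
      exact hball h3 (h2 u (htf.mem_toFinset.2 hu))
  have hb : Bornology.IsBounded U := isBounded_ball.subset fun y hy => hy.1
  have hqU : q ∈ U := by
    refine ⟨mem_ball_self hs0, fun u _ => ?_⟩
    rw [sub_self, mul_zero, add_zero]
    exact hq1
  have h7 := Complex.norm_le_of_forall_mem_frontier_norm_le hb ⟨hdiff, hcont⟩ hfront
    (subset_closure hqU)
  have h8 : P q = 0 := norm_le_zero_iff.1 h7
  obtain ⟨u, _, hu⟩ := Finset.prod_eq_zero_iff.1 h8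
  rw [sub_self, mul_zero, add_zero, sub_eq_zero] at hu
  have := h.mem_ball hq1
  rw [hu, hζ] at this
  exact lt_irrefl _ this

/-- an open piece of the trace with constant boundary value -/
theorem no_interval (h : CD D f) {γ : ℝ → ℂ} (hγ : IsJordanCurve γ)
    (hγD : curveTrace γ = frontier D) {ζ : ℂ} (hζ : ‖ζ‖ = 1) {u v : ℝ} (hu : 0 ≤ u) (huv : u < v)
    (hv : v ≤ 1) (hf : ∀ t, u < t → t < v → f (γ t) = ζ) : False := by
  set m : ℝ := (u + v) / 2 with hm
  have hum : u < m := by rw [hm]; linarith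
  have hmv : m < v := by rw [hm]; linarith
  have hmI : m ∈ Icc (0 : ℝ) 1 := ⟨by linarith, by linarith⟩
  have hp : γ m ∈ frontier D := by
    rw [← hγD]
    exact mem_image_of_mem _ hmI
  have hK : IsCompact (γ '' (Icc 0 u ∪ Icc v 1)) := by
    refine (isCompact_Icc.union isCompact_Icc).image_of_continuousOn (hγ.1.mono ?_)
    apply union_subset
    · exact Icc_subset_Icc_right (by linarith)
    · exact Icc_subset_Icc_left (by linarith)
  have hnot : γ m ∉ γ '' (Icc 0 u ∪ Icc v 1) := by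
    rintro ⟨t, ht, he⟩
    have htI : t ∈ Icc (0 : ℝ) 1 := by
      rcases ht with ht | ht
      · exact ⟨ht.1, by linarith [ht.2]⟩
      · exact ⟨by linarith [ht.1], ht.2⟩
    rcases inj_of hγ htI hmI he with h1 | ⟨_, h1⟩ | ⟨_, h1⟩
    · rcases ht with ht | ht
      · linarith [ht.2]
      · linarith [ht.1]
    · linarith
    · linarith
  obtain ⟨r, hr, hball⟩ := Metric.isOpen_iff.1 hK.isClosed.isOpen_compl (γ m) hnot
  refine h.no_arc hγ hγD hp hr hζ ?_
  intro z hz hzr
  rw [← hγD] at hz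
  obtain ⟨t, ht, rfl⟩ := hz
  have h1 : t ∉ Icc 0 u ∪ Icc v 1 := fun h2 => hball hzr (mem_image_of_mem _ h2)
  apply hf
  · by_contra h2
    exact h1 (Or.inl ⟨ht.1, not_lt.1 h2⟩)
  · by_contra h2
    exact h1 (Or.inr ⟨not_lt.1 h2, ht.2⟩)

/-- a fibre of two points of the frontier -/
theorem no_pair (h : CD D f) {γ : ℝ → ℂ} (hγ : IsJordanCurve γ)
    (hγD : curveTrace γ = frontier D) {t1 t2 : ℝ} (h0 : 0 ≤ t1) (h12 : t1 < t2) (h1 : t2 < 1)
    (he : f (γ t1) = f (γ t2)) : False := by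
  set ζ : ℂ := f (γ t1) with hζd
  have ht1 : t1 ∈ Icc (0 : ℝ) 1 := ⟨h0, by linarith⟩
  have ht2 : t2 ∈ Icc (0 : ℝ) 1 := ⟨by linarith, h1.le⟩
  have hp1 : γ t1 ∈ frontier D := by rw [← hγD]; exact mem_image_of_mem _ ht1
  have hp2 : γ t2 ∈ frontier D := by rw [← hγD]; exact mem_image_of_mem _ ht2
  have hζ : ‖ζ‖ = 1 := h.norm_eq hp1
  by_cases hA : ∀ t, t1 < t → t < t2 → f (γ t) = ζ
  · exact h.no_interval hγ hγD hζ h0 h12 h1.le hA
  by_cases hB : ∀ t, t2 < t → t < 1 → f (γ t) = ζ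
  · exact h.no_interval hγ hγD hζ ht2.1 h1 le_rfl hB
  push Not at hA hB
  obtain ⟨a, ha1, ha2, ha3⟩ := hA
  obtain ⟨b, hb1, hb2, hb3⟩ := hB
  -- the two arcs
  have hfr : IsClosed (frontier D) := isClosed_frontier
  have hFc : IsClosed {z | z ∈ frontier D ∧ f z = ζ} := by
    have h2 : ContinuousOn f (frontier D) := h.cont.mono frontier_subset_closure
    have := h2.preimage_isClosed_of_isClosed hfr (isClosed_singleton (x := ζ))
    exact this
  have hsubI : ∀ x y : ℝ, 0 ≤ x → y ≤ 1 → Icc x y ⊆ Icc (0 : ℝ) 1 := fun x y hx hy =>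
    Icc_subset_Icc hx hy
  have c1 : IsCompact (γ '' (Icc 0 a ∪ Icc b 1)) := by
    refine (isCompact_Icc.union isCompact_Icc).image_of_continuousOn (hγ.1.mono ?_)
    exact union_subset (hsubI _ _ le_rfl (by linarith)) (hsubI _ _ (by linarith) le_rfl)
  have c2 : IsCompact (γ '' Icc a b) := by
    refine isCompact_Icc.image_of_continuousOn (hγ.1.mono ?_)
    exact hsubI _ _ (by linarith) (by linarith)
  refine h.fibre hζ (c1.inter_right hFc) (c2.inter_right hFc) ?_ ?_ hp1 hp2 rfl he.symm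
    ⟨mem_image_of_mem _ (Or.inl ⟨h0, ha1.le⟩), hp1, rfl⟩
    ⟨mem_image_of_mem _ ⟨ha2.le, hb1.le⟩, hp2, he.symm⟩
  · rw [disjoint_left]
    rintro z ⟨⟨s, hs, rfl⟩, _, hz⟩ ⟨⟨t, ht, hst⟩, _⟩
    have hsI : s ∈ Icc (0 : ℝ) 1 := by
      rcases hs with hs | hs
      · exact ⟨hs.1, by linarith [hs.2]⟩
      · exact ⟨by linarith [hs.1], hs.2⟩
    have htI : t ∈ Icc (0 : ℝ) 1 := ⟨by linarith [ht.1], by linarith [ht.2]⟩
    rcases inj_of hγ hsI htI hst.symm with h3 | ⟨_, h3⟩ | ⟨_, h3⟩
    · rcases hs with hs | hs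
      · have : s = a := le_antisymm hs.2 (by rw [h3]; exact ht.1)
        exact ha3 (by rw [← this]; exact hz)
      · have : s = b := le_antisymm (by rw [h3]; exact ht.2) hs.1
        exact hb3 (by rw [← this]; exact hz)
    · linarith [ht.2]
    · linarith [ht.1]
  · intro z hz hfz
    have hz' := hz
    rw [← hγD] at hz'
    obtain ⟨t, ht, rfl⟩ := hz'
    by_cases h3 : t < a
    · exact Or.inl ⟨mem_image_of_mem _ (Or.inl ⟨ht.1, h3.le⟩), hz, hfz⟩
    · by_cases h4 : t < b
      · exact Or.inr ⟨mem_image_of_mem _ ⟨not_lt.1 h3, h4.le⟩, hz, hfz⟩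
      · exact Or.inl ⟨mem_image_of_mem _ (Or.inr ⟨not_lt.1 h4, ht.2⟩), hz, hfz⟩

/-- **(B)** -/
theorem injOn (h : CD D f) {γ : ℝ → ℂ} (hγ : IsJordanCurve γ)
    (hγD : curveTrace γ = frontier D) : InjOn f (closure D) := by
  have hcl : ∀ z ∈ closure D, z ∈ D ∨ z ∈ frontier D := by
    intro z hz
    by_cases hzD : z ∈ D
    · exact Or.inl hzD
    · right
      rw [h.op.frontier_eq]
      exact ⟨hz, hzD⟩
  have hpar : ∀ z ∈ frontier D, ∃ t ∈ Ico (0 : ℝ) 1, γ t = z := by
    intro z hz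
    rw [← hγD] at hz
    obtain ⟨t, ht, rfl⟩ := hz
    rcases eq_or_lt_of_le ht.2 with h1 | h1
    · exact ⟨0, ⟨le_rfl, one_pos⟩, by rw [h1]; exact hγ.2.2⟩
    · exact ⟨t, ⟨ht.1, h1⟩, rfl⟩
  intro z hz w hw he
  rcases hcl z hz with hz | hz <;> rcases hcl w hw with hw | hw
  · exact h.inj hz hw he
  · have h1 := h.mem_ball hz
    rw [he, h.norm_eq hw] at h1
    exact absurd h1 (lt_irrefl _)
  · have h1 := h.mem_ball hw
    rw [← he, h.norm_eq hz] at h1
    exact absurd h1 (lt_irrefl _)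
  · obtain ⟨s, hs, rfl⟩ := hpar z hz
    obtain ⟨t, ht, rfl⟩ := hpar w hw
    rcases lt_trichotomy s t with h1 | h1 | h1
    · exact (h.no_pair hγ hγD hs.1 h1 ht.2 he).elim
    · rw [h1]
    · exact (h.no_pair hγ hγD ht.1 h1 hs.2 he.symm).elim

end CD

end Crest.Agent.R143.Carax877
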