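import Crest.Agent.R143.DelR_806

/-!
# Row 143, block G: the cavity lemma (helper780)

`S` finite in general position, `u ∈ S` a site which is not on the hull (`Inn S u`),
`S' = S.erase u`.
* `gp_erase`, `persist`  : the triangles which are not at `u` persist
* `New S u t`  : `t` is a triangle of `S'` which is not a triangle of `S`; `new_iff` : `u` is in the
  circumcircle
* `left_site`  : there is a site on the left of every line through `u`
* `hull_iff_erase` : the hull edges of `S` and of `S'` are the same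
* `New.nb1` ... : the three vertices of a new triangle are neighbours of `u`
* `link` : every link edge `(a, b)` (`(a, b, u)` a triangle of `S`) is a side of exactly one new triangle
* `not_edge` : an edge between two new triangles is not an edge of `S`
* `conn` : the new triangles are connected through these edges
-/

set_option autoImplicit false

noncomputable section

open scoped Classical

namespace Crest.Agent.R143.Cavx780

open Crest.Agent.R143.B0x346 Crest.Agent.R143.DelGx806 Crest.Agent.R143.DelRx806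

variable {S : Finset ℂ} {u : ℂ}

/-- `u` is a site which is not on the hull -/
structure Inn (S : Finset ℂ) (u : ℂ) : Prop where
  gp : GP (S : Set ℂ)
  mem : u ∈ S
  hull : ∀ x y : ℂ, hullE S x y → x ≠ u ∧ y ≠ u

theorem gp_erase (h : GP (S : Set ℂ)) : GP ((S.erase u : Finset ℂ) : Set ℂ) where
  line a ha b hb c hc := h.line a (Finset.mem_of_mem_erase ha) b (Finset.mem_of_mem_erase hb) c
    (Finset.mem_of_mem_erase hc)
  circ a ha b hb c hc e he := h.circ a (Finset.mem_of_mem_erase ha) b (Finset.mem_of_mem_erase hb) c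
    (Finset.mem_of_mem_erase hc) e (Finset.mem_of_mem_erase he)

theorem Tri.erase {a b c o : ℂ} (h : Tri S a b c o) (ha : a ≠ u) (hb : b ≠ u) (hc : c ≠ u) :
    Tri (S.erase u) a b c o where
  ma := Finset.mem_erase.2 ⟨ha, h.ma⟩
  mb := Finset.mem_erase.2 ⟨hb, h.mb⟩
  mc := Finset.mem_erase.2 ⟨hc, h.mc⟩
  pos := h.pos
  pb := h.pb
  pc := h.pc
  emp := fun s hs => h.emp s (Finset.mem_of_mem_erase hs)

/-- **the triangles which are not at `u` persist** -/
theorem persist {a b c : ℂ} (h : (a, b, c) ∈ delT S) (ha : a ≠ u) (hb : b ≠ u) (hc : c ≠ u) :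
    (a, b, c) ∈ delT (S.erase u) := by
  obtain ⟨o, h⟩ := mem_delT_iff.1 h
  exact mem_delT_iff.2 ⟨o, Tri.erase h ha hb hc⟩

/-- new triangles -/
def New (S : Finset ℂ) (u : ℂ) (t : ℂ × ℂ × ℂ) : Prop := t ∈ delT (S.erase u) ∧ t ∉ delT S

theorem new_iff {a b c o : ℂ} (hu : u ∈ S) (h : Tri (S.erase u) a b c o) :
    New S u (a, b, c) ↔ pw o a u < 0 := by
  constructor
  · rintro ⟨-, h2⟩
    by_contra hcon
    push Not at hcon
    refine h2 (mem_delT_iff.2 ⟨o, Finset.mem_of_mem_erase h.ma, Finset.mem_of_mem_erase h.mb,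
      Finset.mem_of_mem_erase h.mc, h.pos, h.pb, h.pc, fun s hs => ?_⟩)
    by_cases e : s = u
    · rw [e]; exact hcon
    · exact h.emp s (Finset.mem_erase.2 ⟨e, hs⟩)
  · intro hp
    refine ⟨mem_delT_iff.2 ⟨o, h⟩, fun h2 => ?_⟩
    obtain ⟨o', h'⟩ := mem_delT_iff.1 h2
    have := h'.centre h.pb h.pc
    rw [← this] at hp
    have := h'.emp u hu
    linarith

theorem New.rot {a b c : ℂ} (hS : GP (S : Set ℂ)) (h : New S u (a, b, c)) : New S u (b, c, a) := by
  refine ⟨(g1 _ (gp_erase hS)).1 _ _ _ h.1, fun h' => h.2 ?_⟩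
  exact (g1 S hS).1 _ _ _ ((g1 S hS).1 _ _ _ h')

theorem New.mem {a b c : ℂ} (h : New S u (a, b, c)) : a ≠ u ∧ b ≠ u ∧ c ≠ u := by
  obtain ⟨o, h⟩ := mem_delT_iff.1 h.1
  exact ⟨(Finset.mem_erase.1 h.ma).1, (Finset.mem_erase.1 h.mb).1, (Finset.mem_erase.1 h.mc).1⟩

/-! ### sites around `u` -/

/-- there is a site on the left of every line through `u` -/
theorem left_site (hu : Inn S u) (h3 : 3 ≤ S.card) {e : ℂ} (he : e ≠ 0) :
    ∃ s ∈ S.erase u, 0 < cr e (s - u) := by
  obtain ⟨v0, hv0⟩ := exists_tri_at hu.gp h3 hu.mem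
  have hv : ∀ a, ¬ hullE S a u := fun a h => (hu.hull a u h).2 rfl
  obtain ⟨v, hv1, -, hv2⟩ := sector (O := nbs S u) ⟨v0, hv0⟩ (f := fun s => s - u)
    (nx := nxt S u) (fun x hx => nxt_mem hu.gp hv hx)
    (fun x hx => by
      obtain ⟨o, h⟩ := mem_delT_iff.1 (nxt_spec hx)
      exact h.pos) he
  have h1 := nxt_spec hv1
  obtain ⟨o, h⟩ := mem_delT_iff.1 h1
  exact ⟨nxt S u v, Finset.mem_erase.2 ⟨h.ne.2.2.symm, h.mc⟩, hv2⟩

theorem cr_add_left {a b s : ℂ} (x : ℂ) :
    cr (b - a) (s - a) = cr (b - a) (s - x) + cr (b - a) (x - a) := by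
  unfold cr; simp only [Complex.sub_re, Complex.sub_im]; ring

theorem left_site' (hu : Inn S u) (h3 : 3 ≤ S.card) {a b : ℂ} (hab : a ≠ b)
    (h : 0 ≤ cr (b - a) (u - a)) : ∃ s ∈ S.erase u, 0 < cr (b - a) (s - a) := by
  obtain ⟨s, hs, h1⟩ := left_site hu h3 (e := b - a) (sub_ne_zero.2 hab.symm)
  exact ⟨s, hs, by rw [cr_add_left u]; linarith⟩

theorem right_site (hu : Inn S u) (h3 : 3 ≤ S.card) {a b : ℂ} (hab : a ≠ b)
    (h : cr (b - a) (u - a) ≤ 0) : ∃ s ∈ S.erase u, cr (b - a) (s - a) < 0 := by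
  obtain ⟨s, hs, h1⟩ := left_site hu h3 (e := -(b - a)) (neg_ne_zero.2 (sub_ne_zero.2 hab.symm))
  refine ⟨s, hs, ?_⟩
  have e : cr (-(b - a)) (s - u) = - cr (b - a) (s - u) := by
    unfold cr; simp only [Complex.neg_re, Complex.neg_im]; ring
  rw [e] at h1
  rw [cr_add_left u]
  linarith

theorem three_le_of_inn (hu : Inn S u) (h3 : 3 ≤ S.card) : 3 ≤ (S.erase u).card := by
  by_contra hcon
  obtain ⟨s1, hs1, -⟩ := left_site hu h3 (e := 1) one_ne_zero
  have hc : (S.erase u).card = S.card - 1 := Finset.card_erase_of_mem hu.mem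
  have h2 : (S.erase u).card = 2 := by omega
  obtain ⟨a, b, hab, hE⟩ := Finset.card_eq_two.1 h2
  have key : ∀ s ∈ S.erase u, cr (b - a) (s - a) = 0 := by
    intro s hs
    rw [hE, Finset.mem_insert, Finset.mem_singleton] at hs
    rcases hs with rfl | rfl
    · exact cr_left _ _
    · exact cr_right _ _
  rcases le_total 0 (cr (b - a) (u - a)) with h | h
  · obtain ⟨s, hs, h'⟩ := left_site' hu h3 hab h
    rw [key s hs] at h'; exact lt_irrefl _ h'
  · obtain ⟨s, hs, h'⟩ := right_site hu h3 hab h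
    rw [key s hs] at h'; exact lt_irrefl _ h'

/-- **the hull does not change** -/
theorem hull_iff_erase (hu : Inn S u) (h3 : 3 ≤ S.card) {x y : ℂ} :
    hullE (S.erase u) x y ↔ hullE S x y := by
  constructor
  · intro h
    have hx := (Finset.mem_erase.1 (hullE.mem h).1)
    have hy := (Finset.mem_erase.1 (hullE.mem h).2)
    have hside := hull_side h
    have hu0 : 0 ≤ cr (y - x) (u - x) := by
      by_contra hcon
      push Not at hcon
      obtain ⟨s, hs, h'⟩ := right_site hu h3 (hullE.ne h) hcon.le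
      have := hside s hs
      linarith
    refine (hull_iff hu.gp hx.2 hy.2 (hullE.ne h) ⟨u, hu.mem, hx.1.symm, hy.1.symm⟩).2 ?_
    intro s hs
    by_cases e : s = u
    · rw [e]; exact hu0
    · exact hside s (Finset.mem_erase.2 ⟨e, hs⟩)
  · intro h
    obtain ⟨hx, hy⟩ := hu.hull x y h
    have hm := hullE.mem h
    have hside := hull_side h
    obtain ⟨s, hs, h'⟩ := left_site' hu h3 (hullE.ne h) (hside u hu.mem)
    have hsne := ne_of_cr_pos h'.ne'
    exact (hull_iff (gp_erase hu.gp) (Finset.mem_erase.2 ⟨hx, hm.1⟩) (Finset.mem_erase.2 ⟨hy, hm.2⟩)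
      (hullE.ne h) ⟨s, hs, hsne.2.2.symm, hsne.2.1.symm⟩).2
      (fun s hs => hside s (Finset.mem_of_mem_erase hs))

/-! ### new triangles -/

/-- **link edges**: every side opposite to `u` is a side of a new triangle -/
theorem link (hu : Inn S u) (h3 : 3 ≤ S.card) {a b : ℂ} (h : (a, b, u) ∈ delT S) :
    ∃ c, New S u (a, b, c) := by
  obtain ⟨o, h⟩ := mem_delT_iff.1 h
  have hne := h.ne
  obtain ⟨c, o', t, -, -, h'⟩ := exists_left (S := S.erase u) (a := a) (b := b) (o' := o)
    (Finset.mem_erase.2 ⟨hne.2.2, h.ma⟩) (Finset.mem_erase.2 ⟨hne.2.1, h.mb⟩) h.pb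
    (fun s hs => h.emp s (Finset.mem_of_mem_erase hs)) (left_site' hu h3 hne.1 h.pos.le)
  refine ⟨c, mem_delT_iff.2 ⟨o', h'⟩, fun h2 => ?_⟩
  obtain ⟨o2, h2⟩ := mem_delT_iff.1 h2
  have := Tri.uniq hu.gp h h2
  exact (Finset.mem_erase.1 h'.mc).1 this.symm

theorem link_unique (hS : GP (S : Set ℂ)) {a b c c' : ℂ} (h : New S u (a, b, c))
    (h' : New S u (a, b, c')) : c = c' :=
  (g1 _ (gp_erase hS)).2.1 _ _ _ _ h.1 h'.1

/-- the vertices of a new triangle are neighbours of `u` -/
theorem New.nb1 (hu : Inn S u) {a b c : ℂ} (h : New S u (a, b, c)) :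
    (∃ d, (a, u, d) ∈ delT S) ∨ ∃ d, (u, a, d) ∈ delT S := by
  obtain ⟨hau, hbu, hcu⟩ := h.mem
  obtain ⟨o, hT⟩ := mem_delT_iff.1 h.1
  have hneg := (new_iff hu.mem hT).1 h
  have hN := nsq_pos hau
  set N := (u.re - a.re) ^ 2 + (u.im - a.im) ^ 2 with hNdef
  set τ : ℝ := N / (N - pw o a u) with hτ
  have hD : 0 < N - pw o a u := by linarith
  have hτ0 : 0 < τ := div_pos hN hD
  have hτ1 : τ < 1 := by rw [hτ, div_lt_one hD]; linarith
  have hτD : τ * (N - pw o a u) = N := div_mul_cancel₀ _ hD.ne'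
  have key : ∀ x : ℂ, pw (a + (τ : ℂ) * (o - a)) a x =
      (1 - τ) * ((x.re - a.re) ^ 2 + (x.im - a.im) ^ 2) + τ * pw o a x := by
    intro x
    unfold pw
    simp only [Complex.add_re, Complex.add_im, Complex.mul_re, Complex.mul_im, Complex.ofReal_re,
      Complex.ofReal_im, Complex.sub_re, Complex.sub_im]
    ring
  have h0 : pw (a + (τ : ℂ) * (o - a)) a u = 0 := by
    rw [key, ← hNdef]; linarith
  have hemp : ∀ s ∈ S, 0 ≤ pw (a + (τ : ℂ) * (o - a)) a s := by
    intro s hs
    by_cases e : s = u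
    · rw [e, h0]
    · rw [key]
      have h1 := hT.emp s (Finset.mem_erase.2 ⟨e, hs⟩)
      have h2 := sq_nonneg (s.re - a.re)
      have h3 := sq_nonneg (s.im - a.im)
      have h4 : 0 ≤ 1 - τ := by linarith
      positivity
  have haS := Finset.mem_of_mem_erase hT.ma
  have hbS := Finset.mem_of_mem_erase hT.mb
  have hline := hu.gp.line a haS u hu.mem b hbS hau hbu.symm hT.ne.1
  rcases lt_or_gt_of_ne hline with hl | hl
  · right
    obtain ⟨d, o', t, -, -, h'⟩ := exists_left (S := S) (a := u) (b := a)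
      (o' := a + (τ : ℂ) * (o - a)) hu.mem haS (by rw [pw_base h0]; exact pw_self _ _)
      (fun s hs => by rw [pw_base h0]; exact hemp s hs)
      ⟨b, hbS, by rw [cr_swap]; linarith⟩
    exact ⟨d, mem_delT_iff.2 ⟨o', h'⟩⟩
  · left
    obtain ⟨d, o', t, -, -, h'⟩ := exists_left (S := S) (a := a) (b := u)
      (o' := a + (τ : ℂ) * (o - a)) haS hu.mem h0 hemp ⟨b, hbS, hl⟩
    exact ⟨d, mem_delT_iff.2 ⟨o', h'⟩⟩

theorem New.nb2 (hu : Inn S u) {a b c : ℂ} (h : New S u (a, b, c)) :
    (∃ d, (b, u, d) ∈ delT S) ∨ ∃ d, (u, b, d) ∈ delT S := (h.rot hu.gp).nb1 hu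

theorem New.nb3 (hu : Inn S u) {a b c : ℂ} (h : New S u (a, b, c)) :
    (∃ d, (c, u, d) ∈ delT S) ∨ ∃ d, (u, c, d) ∈ delT S := ((h.rot hu.gp).rot hu.gp).nb1 hu

/-- the vertices of a new triangle are neighbours of `u` (form with `nbs`) -/
theorem New.nbs1 (hu : Inn S u) {a b c : ℂ} (h : New S u (a, b, c)) : a ∈ nbs S u := by
  rcases h.nb1 hu with ⟨d, hd⟩ | ⟨d, hd⟩
  · rw [mem_nbs]
    by_contra hcon
    push Not at hcon
    exact (hu.hull a u ⟨⟨d, hd⟩, hcon⟩).2 rfl
  · exact mem_nbs.2 ⟨d, hd⟩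

theorem New.nbs (hu : Inn S u) {a b c : ℂ} (h : New S u (a, b, c)) :
    a ∈ nbs S u ∧ b ∈ nbs S u ∧ c ∈ nbs S u :=
  ⟨h.nbs1 hu, (h.rot hu.gp).nbs1 hu, ((h.rot hu.gp).rot hu.gp).nbs1 hu⟩

/-- a triangle of `S` at `u` seen from outside -/
theorem link' (hu : Inn S u) (h3 : 3 ≤ S.card) {a b : ℂ} (h : (u, a, b) ∈ delT S) :
    ∃ c, New S u (a, b, c) := link hu h3 ((g1 S hu.gp).1 _ _ _ h)

theorem three_le' {a b c : ℂ} (h : (a, b, c) ∈ delT S) : 3 ≤ S.card := by
  obtain ⟨o, h⟩ := mem_delT_iff.1 h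
  have h1 : ({a, b, c} : Finset ℂ).card = 3 := Finset.card_eq_three.2
    ⟨a, b, c, h.ne.1, h.ne.2.2, h.ne.2.1, rfl⟩
  rw [← h1]
  refine Finset.card_le_card fun s hs => ?_
  simp only [Finset.mem_insert, Finset.mem_singleton] at hs
  rcases hs with rfl | rfl | rfl
  · exact h.ma
  · exact h.mb
  · exact h.mc

/-- an edge between two new triangles is not an edge of `S` -/
theorem not_edge (hu : Inn S u) (h3 : 3 ≤ S.card) {a b c e : ℂ} (h : New S u (a, b, c))
    (h' : New S u (b, a, e)) : (∀ d, (a, b, d) ∉ delT S) ∧ ∀ d, (b, a, d) ∉ delT S := by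
  have key : ∀ {a b c e : ℂ}, New S u (a, b, c) → New S u (b, a, e) → ∀ d, (a, b, d) ∉ delT S := by
    intro a b c e h h' d hd
    obtain ⟨hau, hbu, hcu⟩ := h.mem
    by_cases hdu : d = u
    · subst hdu
      by_cases hh : ∃ f, (b, a, f) ∈ delT S
      · obtain ⟨f, hf⟩ := hh
        have hfu : f ≠ d := by
          rintro rfl
          obtain ⟨o1, k1⟩ := mem_delT_iff.1 hd
          obtain ⟨o2, k2⟩ := mem_delT_iff.1 hf
          have p1 := k1.pos
          have p2 := k2.pos
          rw [cr_swap] at p2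
          linarith
        have h1 := persist hf hbu hau hfu
        have h2 := (g1 _ (gp_erase hu.gp)).2.1 _ _ _ _ h1 h'.1
        rw [h2] at hf
        exact h'.2 hf
      · push Not at hh
        have h1 : hullE S a b := ⟨⟨d, hd⟩, hh⟩
        exact ((hull_iff_erase hu h3).2 h1).2 e h'.1
    · have h1 := persist hd hau hbu hdu
      have h2 := (g1 _ (gp_erase hu.gp)).2.1 _ _ _ _ h1 h.1
      rw [h2] at hd
      exact h.2 hd
  exact ⟨key h h', key h' h⟩

/-! ### connectivity of the cavity -/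

/-- one step between new triangles: rotate or cross the side `(t.1, t.2.1)` -/
def NStep (S : Finset ℂ) (u : ℂ) (s s' : ℂ × ℂ × ℂ) : Prop :=
  New S u s ∧ New S u s' ∧ (s' = (s.2.1, s.2.2, s.1) ∨ (s'.1 = s.2.1 ∧ s'.2.1 = s.1))

theorem NStep.rot {a b c : ℂ} (hS : GP (S : Set ℂ)) (h : New S u (a, b, c)) :
    NStep S u (a, b, c) (b, c, a) := ⟨h, h.rot hS, Or.inl rfl⟩

/-- steps can be reversed -/
theorem NStep.symm (hS : GP (S : Set ℂ)) {s s' : ℂ × ℂ × ℂ} (h : NStep S u s s') :
    Relation.ReflTransGen (NStep S u) s' s := by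
  obtain ⟨a, b, c⟩ := s
  obtain ⟨a', b', c'⟩ := s'
  obtain ⟨h1, h2, h3 | ⟨h3, h4⟩⟩ := h
  · obtain ⟨rfl, rfl, rfl⟩ : a' = b ∧ b' = c ∧ c' = a := by
      simpa [Prod.ext_iff] using h3
    exact Relation.ReflTransGen.head (NStep.rot hS h2) (Relation.ReflTransGen.single
      (NStep.rot hS (h2.rot hS)))
  · dsimp only at h3 h4
    exact Relation.ReflTransGen.single ⟨h2, h1, Or.inr ⟨h4.symm, h3.symm⟩⟩

theorem rtg_symm (hS : GP (S : Set ℂ)) {s s' : ℂ × ℂ × ℂ}
    (h : Relation.ReflTransGen (NStep S u) s s') : Relation.ReflTransGen (NStep S u) s' s := by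
  induction h with
  | refl => exact Relation.ReflTransGen.refl
  | tail _ h2 ih => exact (NStep.symm hS h2).trans ih

/-- the triangle containing `u` -/
theorem exists_centre (hu : Inn S u) (h3 : 3 ≤ S.card) :
    ∃ a b c, New S u (a, b, c) ∧ InO u a b c := by
  obtain ⟨a, b, c, o, hT, hin, -⟩ := cover (gp_erase (u := u) hu.gp) (three_le_of_inn hu h3) (x := u)
    (fun x y hxy => hull_side ((hull_iff_erase hu h3).1 hxy) u hu.mem)
  have ma := Finset.mem_erase.1 hT.ma
  have mb := Finset.mem_erase.1 hT.mb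
  have mc := Finset.mem_erase.1 hT.mc
  have h1 := pw_nonpos hT hin
  have h2 : pw o a u ≠ 0 := GP.pw_ne hu.gp ma.2 mb.2 mc.2 hu.mem hT.ne.1 hT.ne.2.2 ma.1 hT.ne.2.1
    mb.1 mc.1 hT.pb hT.pc
  refine ⟨a, b, c, (new_iff hu.mem hT).2 (lt_of_le_of_ne h1 h2), ?_, ?_, ?_⟩
  · exact lt_of_le_of_ne hin.1 (hu.gp.line a ma.2 b mb.2 u hu.mem hT.ne.1 mb.1 ma.1).symm
  · exact lt_of_le_of_ne hin.2.1 (hu.gp.line b mb.2 c mc.2 u hu.mem hT.ne.2.1 mc.1 mb.1).symm
  · exact lt_of_le_of_ne hin.2.2 (hu.gp.line c mc.2 a ma.2 u hu.mem hT.ne.2.2.symm ma.1 mc.1).symm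

/-- one step towards `u` -/
theorem step_down (hu : Inn S u) (h3 : 3 ≤ S.card) {a b c o : ℂ} (hT : Tri (S.erase u) a b c o)
    (hn : New S u (a, b, c)) (hs : cr (b - a) (u - a) < 0) :
    ∃ e o', Tri (S.erase u) b a e o' ∧ New S u (b, a, e) ∧ pw o' b u < pw o a u := by
  obtain ⟨e, o', h'⟩ := hT.across (right_site hu h3 hT.ne.1 hs.le)
  have hlt : pw o' b u < pw o a u := by
    refine h'.pow_lt (gp_erase hu.gp) hT ?_
    unfold Lft
    rw [cr_swap]; linarith
  have h1 := (new_iff hu.mem hT).1 hn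
  exact ⟨e, o', h', (new_iff hu.mem h').2 (hlt.trans h1), hlt⟩

/-- **the new triangles are connected** -/
theorem conn (hu : Inn S u) (h3 : 3 ≤ S.card) {t t' : ℂ × ℂ × ℂ} (h : New S u t)
    (h' : New S u t') : Relation.ReflTransGen (NStep S u) t t' := by
  obtain ⟨a0, b0, c0, hn0, hin0⟩ := exists_centre hu h3
  obtain ⟨o0, hT0⟩ := mem_delT_iff.1 hn0.1
  have hch : ∀ t ∈ delT (S.erase u), ∃ o, Tri (S.erase u) t.1 t.2.1 t.2.2 o :=
    fun t ht => mem_delT_iff.1 ht
  choose! ctr hctr using hch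
  -- the power of `u`
  set P : ℂ × ℂ × ℂ → ℝ := fun t => pw (ctr t) t.1 u with hP
  have hPeq : ∀ a b c o, Tri (S.erase u) a b c o → P (a, b, c) = pw o a u := by
    intro a b c o hT
    have h1 := hctr (a, b, c) (mem_delT_iff.2 ⟨o, hT⟩)
    have := hT.centre h1.pb h1.pc
    show pw (ctr (a, b, c)) a u = pw o a u
    rw [← this]
  have main : ∀ n : ℕ, ∀ t, New S u t → ((delT (S.erase u)).filter fun s => P s < P t).card ≤ n →
      Relation.ReflTransGen (NStep S u) t (a0, b0, c0) := by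
    intro n
    induction n with
    | zero =>
      intro t ht hcard
      by_cases hin : InT u t.1 t.2.1 t.2.2
      · obtain ⟨a, b, c⟩ := t
        obtain ⟨o, hT⟩ := mem_delT_iff.1 ht.1
        have h1 := disj (gp_erase hu.gp) hT0 hT hin0 hin
        unfold rots at h1
        rcases h1 with h1 | h1 | h1
        · rw [h1]
        · rw [h1]
          exact Relation.ReflTransGen.head (NStep.rot hu.gp (hn0.rot hu.gp))
            (Relation.ReflTransGen.single (NStep.rot hu.gp ((hn0.rot hu.gp).rot hu.gp)))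
        · rw [Set.mem_singleton_iff] at h1
          rw [h1]
          exact Relation.ReflTransGen.single (NStep.rot hu.gp ((hn0.rot hu.gp).rot hu.gp))
      · exfalso
        obtain ⟨a, b, c⟩ := t
        obtain ⟨o, hT⟩ := mem_delT_iff.1 ht.1
        have aux : ∀ a b c o, Tri (S.erase u) a b c o → New S u (a, b, c) →
            cr (b - a) (u - a) < 0 →
            ((delT (S.erase u)).filter fun s => P s < P (a, b, c)).card ≤ 0 → False := by
          intro a b c o hT hn hs hc
          obtain ⟨e, o', h1, h2, h3'⟩ := step_down hu h3 hT hn hs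
          rw [Nat.le_zero, Finset.card_eq_zero] at hc
          have : (b, a, e) ∈ (delT (S.erase u)).filter fun s => P s < P (a, b, c) := by
            rw [Finset.mem_filter]
            refine ⟨h2.1, ?_⟩
            rw [hPeq _ _ _ _ h1, hPeq _ _ _ _ hT]
            exact h3'
          rw [hc] at this
          exact absurd this (Finset.notMem_empty _)
        have hr1 : P (b, c, a) = P (a, b, c) := by
          rw [hPeq _ _ _ _ hT.rot, hPeq _ _ _ _ hT, pw_base hT.pb]
        have hr2 : P (c, a, b) = P (a, b, c) := by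
          rw [hPeq _ _ _ _ hT.rot.rot, hPeq _ _ _ _ hT, pw_base hT.pc]
        by_cases s1 : cr (b - a) (u - a) < 0
        · exact aux a b c o hT ht s1 hcard
        by_cases s2 : cr (c - b) (u - b) < 0
        · exact aux b c a o hT.rot (ht.rot hu.gp) s2 (by rw [hr1]; exact hcard)
        by_cases s3 : cr (a - c) (u - c) < 0
        · exact aux c a b o hT.rot.rot ((ht.rot hu.gp).rot hu.gp) s3 (by rw [hr2]; exact hcard)
        exact hin ⟨not_lt.1 s1, not_lt.1 s2, not_lt.1 s3⟩
    | succ n ih =>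
      intro t ht hcard
      by_cases hin : InT u t.1 t.2.1 t.2.2
      · obtain ⟨a, b, c⟩ := t
        obtain ⟨o, hT⟩ := mem_delT_iff.1 ht.1
        have h1 := disj (gp_erase hu.gp) hT0 hT hin0 hin
        unfold rots at h1
        rcases h1 with h1 | h1 | h1
        · rw [h1]
        · rw [h1]
          exact Relation.ReflTransGen.head (NStep.rot hu.gp (hn0.rot hu.gp))
            (Relation.ReflTransGen.single (NStep.rot hu.gp ((hn0.rot hu.gp).rot hu.gp)))
        · rw [Set.mem_singleton_iff] at h1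
          rw [h1]
          exact Relation.ReflTransGen.single (NStep.rot hu.gp ((hn0.rot hu.gp).rot hu.gp))
      · obtain ⟨a, b, c⟩ := t
        obtain ⟨o, hT⟩ := mem_delT_iff.1 ht.1
        have aux : ∀ a b c o, Tri (S.erase u) a b c o → New S u (a, b, c) →
            cr (b - a) (u - a) < 0 →
            ((delT (S.erase u)).filter fun s => P s < P (a, b, c)).card ≤ n + 1 →
            Relation.ReflTransGen (NStep S u) (a, b, c) (a0, b0, c0) := by
          intro a b c o hT hn hs hc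
          obtain ⟨e, o', h1, h2, h3'⟩ := step_down hu h3 hT hn hs
          refine Relation.ReflTransGen.head (b := (b, a, e)) ⟨hn, h2, Or.inr ⟨rfl, rfl⟩⟩
            (ih _ h2 ?_)
          have hlt : P (b, a, e) < P (a, b, c) := by
            rw [hPeq _ _ _ _ h1, hPeq _ _ _ _ hT]; exact h3'
          have hss : ((delT (S.erase u)).filter fun s => P s < P (b, a, e)) ⊂
              (delT (S.erase u)).filter fun s => P s < P (a, b, c) := by
            rw [Finset.ssubset_iff_of_subset]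
            · exact ⟨(b, a, e), Finset.mem_filter.2 ⟨h2.1, hlt⟩, fun h => by
                have := (Finset.mem_filter.1 h).2
                exact lt_irrefl _ this⟩
            · intro s hs
              rw [Finset.mem_filter] at hs ⊢
              exact ⟨hs.1, hs.2.trans hlt⟩
          have := Finset.card_lt_card hss
          omega
        have hr1 : P (b, c, a) = P (a, b, c) := by
          rw [hPeq _ _ _ _ hT.rot, hPeq _ _ _ _ hT, pw_base hT.pb]
        have hr2 : P (c, a, b) = P (a, b, c) := by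
          rw [hPeq _ _ _ _ hT.rot.rot, hPeq _ _ _ _ hT, pw_base hT.pc]
        by_cases s1 : cr (b - a) (u - a) < 0
        · exact aux a b c o hT ht s1 hcard
        by_cases s2 : cr (c - b) (u - b) < 0
        · exact Relation.ReflTransGen.head (NStep.rot hu.gp ht)
            (aux b c a o hT.rot (ht.rot hu.gp) s2 (by rw [hr1]; exact hcard))
        by_cases s3 : cr (a - c) (u - c) < 0
        · exact Relation.ReflTransGen.head (NStep.rot hu.gp ht)
            (Relation.ReflTransGen.head (NStep.rot hu.gp (ht.rot hu.gp))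
            (aux c a b o hT.rot.rot ((ht.rot hu.gp).rot hu.gp) s3 (by rw [hr2]; exact hcard)))
        exact absurd ⟨not_lt.1 s1, not_lt.1 s2, not_lt.1 s3⟩ hin
  exact (main _ t h le_rfl).trans (rtg_symm hu.gp (main _ t' h' le_rfl))

end Crest.Agent.R143.Cavx780
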