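import Crest.Agent.R143.Tent7_359
import Crest.Agent.R143.Ten_416

/-!
# Row 143 (S0194), block D, TENT : interface TentB / TentC (helper806)

All objects at the finest level (`F`, `v`, `m`, `c`, `M`, `U` already refined).

* `N8 a b` : equal or 8-adjacent cells
* `cl F v m U i` : class `i` : free cells connected to the outer cell of the edge `m i + 1`
* `CellDom F L v m c M U` : TentB (951) : `CELLS`
-/

set_option autoImplicit false

namespace Crest.Agent.R143.Cdx806

open Crest.Agent.R158.Sp896 Crest.Agent.R143.Tentx359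

/-- equal or 8-adjacent -/
def N8 (a b : V) : Prop := |a.1 - b.1| ≤ 1 ∧ |a.2 - b.2| ≤ 1

/-- class `i` -/
def cl (F : Set V) (v : ℕ → V) (m : ℕ → ℕ) (U : ℕ → ℕ → V) (i : ZMod 4) : Set V :=
  {q | q ∉ body F U 4 ∧ Con (body F U 4)ᶜ (rcv v (m i.val + 1)) q}

/-- discrete domain with four thin tentacles (finest level) -/
structure CellDom (F : Set V) (L : ℕ) (v : ℕ → V) (m : ℕ → ℕ) (c : V) (M : ℤ)
    (U : ℕ → ℕ → V) : Prop where
  cfg : Cfg F L v m c M 4 U
  /-- different tentacles are not 8-adjacent (`Clean`, 359) -/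
  tt : ∀ i < 4, ∀ i' < 4, ∀ j j', N8 (U i (j + 1)) (U i' (j' + 1)) → i = i'
  /-- a tentacle comes near `F` only with its first cell, and `F` is straight there (`clean_F`, 359) -/
  tF : ∀ i < 4, ∀ j, ∀ f ∈ F, N8 (U i (j + 1)) f → j = 0 ∧
    (f.1 - (U i 1).1) * ((U i 0).1 - (U i 1).1) + (f.2 - (U i 1).2) * ((U i 0).2 - (U i 1).2) = 1
  /-- the classes cover the free cells -/
  cov : ∀ q, q ∉ body F U 4 → ∃ i, q ∈ cl F v m U i
  /-- cells of different classes are not equal and not 8-adjacent -/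
  sep : ∀ i j, ∀ q ∈ cl F v m U i, ∀ q' ∈ cl F v m U j, N8 q q' → i = j
  /-- the collar of `F` -/
  arc : ∀ i : ZMod 4, ∀ x, m i.val < x → x < Tenx416.nx L m i → rcv v x ∈ cl F v m U i
  /-- outside the box `M` the class `i` contains the open quadrant between the rays `i`, `i + 1` -/
  quad : ∀ i : ZMod 4, ∀ a b : ℤ, 0 < a → 0 < b → M < max a b → fp c i.val a b ∈ cl F v m U i
  /-- free cells next to the tentacle `k` -/
  tside : ∀ k : ZMod 4, ∀ j q, Adj (U k.val (j + 1)) q → q ∉ body F U 4 →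
    q ∈ cl F v m U k ∨ q ∈ cl F v m U (k - 1)

/-- **TentB** (951) -/
def CELLS : Prop := ∀ (h : ℕ), 1 ≤ h → ∀ (F : Set V) (L : ℕ) (v : ℕ → V) (m : ℕ → ℕ) (c : V)
  (M : ℤ) (U : ℕ → ℕ → V), Cfg F L v m c M 4 U →
  CellDom (ref h F) ((2 * h + 1) * L) (vref h v) (mref h m) (cenc h c) ((2 * h + 1) * M) (Uref h U)

end Crest.Agent.R143.Cdx806
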