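import Crest.Agent.R143.Cd0_806

/-!
# Row 143 (S0194), block D, TentC, file 1 (helper806): frames

* `fa p k z` : coordinate of `z - p` along the direction `k` (east, north, west, south)
* `ga c k q` : the same for cells
* `sq_iff` : cells in frames
* `cone_iff` : cones in frames
-/

set_option autoImplicit false

noncomputable section

namespace Crest.Agent.R143.Cdx806

open Set Metric
open Crest.Agent.R158.Sp896 Crest.Agent.R143.Tentx359 Crest.Agent.R158.Tj656

theorem z4 (k : ZMod 4) : k = 0 ∨ k = 1 ∨ k = 2 ∨ k = 3 := by revert k; decide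

/-- directions of the rays -/
def qd (k : ZMod 4) : ℂ := if k = 0 then 1 else if k = 1 then Complex.I else if k = 2 then -1
  else -Complex.I

/-- coordinate along the direction `k` -/
def fa (p : ℂ) (k : ZMod 4) (z : ℂ) : ℝ :=
  if k = 0 then (z - p).re else if k = 1 then (z - p).im else if k = 2 then -(z - p).re
  else -(z - p).im

/-- discrete coordinate along the direction `k` -/
def ga (c : V) (k : ZMod 4) (q : V) : ℤ :=
  if k = 0 then q.1 - c.1 else if k = 1 then q.2 - c.2 else if k = 2 then -(q.1 - c.1)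
  else -(q.2 - c.2)

theorem fa0 (p z : ℂ) : fa p 0 z = (z - p).re := rfl
theorem fa1 (p z : ℂ) : fa p 1 z = (z - p).im := rfl
theorem fa2 (p z : ℂ) : fa p 2 z = -(z - p).re := rfl
theorem fa3 (p z : ℂ) : fa p 3 z = -(z - p).im := rfl
theorem ga0 (c q : V) : ga c 0 q = q.1 - c.1 := rfl
theorem ga1 (c q : V) : ga c 1 q = q.2 - c.2 := rfl
theorem ga2 (c q : V) : ga c 2 q = -(q.1 - c.1) := rfl
theorem ga3 (c q : V) : ga c 3 q = -(q.2 - c.2) := rfl
theorem qd0 : qd 0 = 1 := rfl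
theorem qd1 : qd 1 = Complex.I := rfl
theorem qd2 : qd 2 = -1 := rfl
theorem qd3 : qd 3 = -Complex.I := rfl

theorem fa_two (p : ℂ) (k : ZMod 4) (z : ℂ) : fa p (k + 2) z = -fa p k z := by
  rcases z4 k with rfl | rfl | rfl | rfl
  · rw [show (0 : ZMod 4) + 2 = 2 from rfl, fa0, fa2]
  · rw [show (1 : ZMod 4) + 2 = 3 from rfl, fa1, fa3]
  · rw [show (2 : ZMod 4) + 2 = 0 from rfl, fa0, fa2, neg_neg]
  · rw [show (3 : ZMod 4) + 2 = 1 from rfl, fa1, fa3, neg_neg]

theorem fa_three (p : ℂ) (k : ZMod 4) (z : ℂ) : fa p (k + 3) z = -fa p (k + 1) z := by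
  have := fa_two p (k + 1) z
  rwa [show k + 1 + 2 = k + 3 by rw [add_assoc]; rfl] at this

theorem fa_pred (p : ℂ) (k : ZMod 4) (z : ℂ) : fa p (k - 1) z = -fa p (k + 1) z := by
  rw [← fa_three, show k - 1 = k + 3 by rw [sub_eq_add_neg]; rfl]

theorem ga_two (c : V) (k : ZMod 4) (q : V) : ga c (k + 2) q = -ga c k q := by
  rcases z4 k with rfl | rfl | rfl | rfl
  · rw [show (0 : ZMod 4) + 2 = 2 from rfl, ga0, ga2]
  · rw [show (1 : ZMod 4) + 2 = 3 from rfl, ga1, ga3]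
  · rw [show (2 : ZMod 4) + 2 = 0 from rfl, ga0, ga2, neg_neg]
  · rw [show (3 : ZMod 4) + 2 = 1 from rfl, ga1, ga3, neg_neg]

theorem ga_three (c : V) (k : ZMod 4) (q : V) : ga c (k + 3) q = -ga c (k + 1) q := by
  have := ga_two c (k + 1) q
  rwa [show k + 1 + 2 = k + 3 by rw [add_assoc]; rfl] at this

theorem norm_sq (p : ℂ) (k : ZMod 4) (z : ℂ) :
    ‖z - p‖ ^ 2 = fa p k z ^ 2 + fa p (k + 1) z ^ 2 := by
  rw [← Complex.normSq_eq_norm_sq, Complex.normSq_apply]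
  rcases z4 k with rfl | rfl | rfl | rfl
  · rw [show (0 : ZMod 4) + 1 = 1 from rfl, fa0, fa1]; ring
  · rw [show (1 : ZMod 4) + 1 = 2 from rfl, fa1, fa2]; ring
  · rw [show (2 : ZMod 4) + 1 = 3 from rfl, fa2, fa3]; ring
  · rw [show (3 : ZMod 4) + 1 = 0 from rfl, fa3, fa0]; ring

theorem fa_le_norm (p : ℂ) (k : ZMod 4) (z : ℂ) : |fa p k z| ≤ ‖z - p‖ := by
  have h := norm_sq p k z
  have h0 := norm_nonneg (z - p)
  rw [abs_le]
  constructor <;> nlinarith [sq_nonneg (fa p (k + 1) z)]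

theorem norm_le_fa (p : ℂ) (k : ZMod 4) (z : ℂ) : ‖z - p‖ ≤ |fa p k z| + |fa p (k + 1) z| := by
  have h := norm_sq p k z
  have h0 := norm_nonneg (z - p)
  have h1 := abs_nonneg (fa p k z)
  have h2 := abs_nonneg (fa p (k + 1) z)
  have h3 := sq_abs (fa p k z)
  have h4 := sq_abs (fa p (k + 1) z)
  nlinarith [mul_nonneg h1 h2]

theorem fa_sub (p : ℂ) (k : ZMod 4) (z w : ℂ) : |fa p k z - fa p k w| ≤ dist z w := by
  rw [dist_eq_norm]
  have h1 := Complex.abs_re_le_norm (z - w)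
  have h2 := Complex.abs_im_le_norm (z - w)
  rcases z4 k with rfl | rfl | rfl | rfl
  · rw [fa0, fa0]; simpa using h1
  · rw [fa1, fa1]; simpa using h2
  · rw [fa2, fa2, ← abs_neg]
    have e : -(-(z - p).re - -(w - p).re) = (z - w).re := by simp
    rw [e]; exact h1
  · rw [fa3, fa3, ← abs_neg]
    have e : -(-(z - p).im - -(w - p).im) = (z - w).im := by simp
    rw [e]; exact h2

theorem fa_cont (p : ℂ) (k : ZMod 4) : Continuous (fa p k) := by
  rcases z4 k with rfl | rfl | rfl | rfl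
  · have : fa p 0 = fun z => (z - p).re := rfl
    rw [this]; fun_prop
  · have : fa p 1 = fun z => (z - p).im := rfl
    rw [this]; fun_prop
  · have : fa p 2 = fun z => -(z - p).re := rfl
    rw [this]; fun_prop
  · have : fa p 3 = fun z => -(z - p).im := rfl
    rw [this]; fun_prop

/-- affine -/
theorem fa_comb (p : ℂ) (k : ZMod 4) (z w : ℂ) {a b : ℝ} (hab : a + b = 1) :
    fa p k (a • z + b • w) = a * fa p k z + b * fa p k w := by
  have hb : b = 1 - a := by linarith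
  subst hb
  rcases z4 k with rfl | rfl | rfl | rfl
  · simp only [fa0, Complex.sub_re, Complex.add_re, Complex.real_smul, Complex.mul_re,
      Complex.ofReal_re, Complex.ofReal_im, zero_mul, sub_zero]; ring
  · simp only [fa1, Complex.sub_im, Complex.add_im, Complex.real_smul, Complex.mul_im,
      Complex.ofReal_re, Complex.ofReal_im, zero_mul, add_zero]; ring
  · simp only [fa2, Complex.sub_re, Complex.add_re, Complex.real_smul, Complex.mul_re,
      Complex.ofReal_re, Complex.ofReal_im, zero_mul, sub_zero]; ring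
  · simp only [fa3, Complex.sub_im, Complex.add_im, Complex.real_smul, Complex.mul_im,
      Complex.ofReal_re, Complex.ofReal_im, zero_mul, add_zero]; ring

theorem qd_norm (k : ZMod 4) : ‖qd k‖ = 1 := by
  rcases z4 k with rfl | rfl | rfl | rfl
  · rw [qd0]; simp
  · rw [qd1]; simp
  · rw [qd2]; simp
  · rw [qd3]; simp

/-- coordinates of points in polar form -/
theorem fa_add (p : ℂ) (k : ZMod 4) (u : ℂ) :
    fa p k (p + u * qd k) = u.re ∧ fa p (k + 1) (p + u * qd k) = u.im := by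
  rcases z4 k with rfl | rfl | rfl | rfl
  · rw [show (0 : ZMod 4) + 1 = 1 from rfl, fa0, fa1, qd0]; simp
  · rw [show (1 : ZMod 4) + 1 = 2 from rfl, fa1, fa2, qd1]; simp
  · rw [show (2 : ZMod 4) + 1 = 3 from rfl, fa2, fa3, qd2]; simp
  · rw [show (3 : ZMod 4) + 1 = 0 from rfl, fa3, fa0, qd3]; simp

/-- every point in the frame -/
theorem eq_fa (p : ℂ) (k : ZMod 4) (z : ℂ) : z = p + (⟨fa p k z, fa p (k + 1) z⟩ : ℂ) * qd k := by
  rcases z4 k with rfl | rfl | rfl | rfl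
  · rw [show (0 : ZMod 4) + 1 = 1 from rfl, fa0, fa1, qd0]
    apply Complex.ext <;> simp
  · rw [show (1 : ZMod 4) + 1 = 2 from rfl, fa1, fa2, qd1]
    apply Complex.ext <;> simp
  · rw [show (2 : ZMod 4) + 1 = 3 from rfl, fa2, fa3, qd2]
    apply Complex.ext <;> simp
  · rw [show (3 : ZMod 4) + 1 = 0 from rfl, fa3, fa0, qd3]
    apply Complex.ext <;> simp

/-! ### cells -/

theorem fp_ga (c : V) (k : ZMod 4) (q : V) : fp c k.val (ga c k q) (ga c (k + 1) q) = q := by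
  rcases z4 k with rfl | rfl | rfl | rfl
  · rw [show (0 : ZMod 4) + 1 = 1 from rfl, ga0, ga1, show (0 : ZMod 4).val = 0 from rfl]
    simp [fp, dir]
  · rw [show (1 : ZMod 4) + 1 = 2 from rfl, ga1, ga2, show (1 : ZMod 4).val = 1 from rfl]
    simp [fp, dir]
  · rw [show (2 : ZMod 4) + 1 = 3 from rfl, ga2, ga3, show (2 : ZMod 4).val = 2 from rfl]
    simp [fp, dir]
  · rw [show (3 : ZMod 4) + 1 = 0 from rfl, ga3, ga0, show (3 : ZMod 4).val = 3 from rfl]
    simp [fp, dir]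

theorem ga_fp (c : V) (k : ZMod 4) (a b : ℤ) :
    ga c k (fp c k.val a b) = a ∧ ga c (k + 1) (fp c k.val a b) = b := by
  rcases z4 k with rfl | rfl | rfl | rfl
  · rw [show (0 : ZMod 4) + 1 = 1 from rfl, ga0, ga1, show (0 : ZMod 4).val = 0 from rfl]
    simp [fp, dir]
  · rw [show (1 : ZMod 4) + 1 = 2 from rfl, ga1, ga2, show (1 : ZMod 4).val = 1 from rfl]
    simp [fp, dir]
  · rw [show (2 : ZMod 4) + 1 = 3 from rfl, ga2, ga3, show (2 : ZMod 4).val = 2 from rfl]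
    simp [fp, dir]
  · rw [show (3 : ZMod 4) + 1 = 0 from rfl, ga3, ga0, show (3 : ZMod 4).val = 3 from rfl]
    simp [fp, dir]

theorem sq_iff0 (s : ℝ) (c q : V) (z : ℂ) : z ∈ sq s q ↔
    |fa (cen s c) 0 z - s * ga c 0 q| ≤ s / 2 ∧ |fa (cen s c) 1 z - s * ga c 1 q| ≤ s / 2 := by
  rw [fa0, fa1, ga0, ga1, abs_le, abs_le]
  unfold Crest.Agent.R158.Sp896.sq
  simp only [mem_ofPred_eq, cen, Complex.sub_re, Complex.sub_im]
  push_cast
  constructor
  · rintro ⟨h1, h2, h3, h4⟩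
    refine ⟨⟨?_, ?_⟩, ?_, ?_⟩ <;> linarith
  · rintro ⟨⟨h1, h2⟩, h3, h4⟩
    refine ⟨?_, ?_, ?_, ?_⟩ <;> linarith

theorem sq_iff {s : ℝ} {c : V} (k : ZMod 4) {q : V} {z : ℂ} : z ∈ sq s q ↔
    |fa (cen s c) k z - s * ga c k q| ≤ s / 2 ∧
    |fa (cen s c) (k + 1) z - s * ga c (k + 1) q| ≤ s / 2 := by
  rw [sq_iff0 s c q z]
  rcases z4 k with rfl | rfl | rfl | rfl
  · rw [show (0 : ZMod 4) + 1 = 1 from rfl]
  · rw [show (1 : ZMod 4) + 1 = 2 from rfl, show (2 : ZMod 4) = 0 + 2 from rfl, fa_two, ga_two]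
    push_cast
    rw [show -fa (cen s c) 0 z - s * -(ga c 0 q : ℝ) = -(fa (cen s c) 0 z - s * ga c 0 q) by ring,
      abs_neg, and_comm]
  · rw [show (2 : ZMod 4) + 1 = 1 + 2 from rfl, fa_two, ga_two,
      show (2 : ZMod 4) = 0 + 2 from rfl, fa_two, ga_two]
    push_cast
    rw [show -fa (cen s c) 0 z - s * -(ga c 0 q : ℝ) = -(fa (cen s c) 0 z - s * ga c 0 q) by ring,
      show -fa (cen s c) 1 z - s * -(ga c 1 q : ℝ) = -(fa (cen s c) 1 z - s * ga c 1 q) by ring,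
      abs_neg, abs_neg]
  · rw [show (3 : ZMod 4) + 1 = 0 from rfl, show (3 : ZMod 4) = 1 + 2 from rfl, fa_two, ga_two]
    push_cast
    rw [show -fa (cen s c) 1 z - s * -(ga c 1 q : ℝ) = -(fa (cen s c) 1 z - s * ga c 1 q) by ring,
      abs_neg, and_comm]

/-- one coordinate -/
theorem sq_fa {s : ℝ} {c : V} (k : ZMod 4) {q : V} {z : ℂ} (h : z ∈ sq s q) :
    s * ga c k q - s / 2 ≤ fa (cen s c) k z ∧ fa (cen s c) k z ≤ s * ga c k q + s / 2 := by
  have := ((sq_iff (c := c) k).1 h).1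
  rw [abs_le] at this
  constructor <;> linarith [this.1, this.2]

/-! ### cones -/

theorem cone_iff {p : ℂ} (k : ZMod 4) {e : ℝ} (he : 0 ≤ e) (he1 : e < 1) {z : ℂ}
    (hz : 0 < ‖z - p‖) :
    (∃ t : ℝ, 0 ≤ t ∧ ‖z - (p + t * qd k)‖ ≤ e * ‖z - p‖) ↔
      0 ≤ fa p k z ∧ |fa p (k + 1) z| ≤ e * ‖z - p‖ := by
  have key : ∀ t : ℝ, ‖z - (p + t * qd k)‖ ^ 2 = (fa p k z - t) ^ 2 + fa p (k + 1) z ^ 2 := by
    intro t
    have h1 : z - (p + t * qd k) = (⟨fa p k z - t, fa p (k + 1) z⟩ : ℂ) * qd k := by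
      conv_lhs => rw [eq_fa p k z]
      have : (⟨fa p k z - t, fa p (k + 1) z⟩ : ℂ) = ⟨fa p k z, fa p (k + 1) z⟩ - (t : ℂ) := by
        apply Complex.ext <;> simp
      rw [this]
      ring
    rw [h1, norm_mul, qd_norm, mul_one, ← Complex.normSq_eq_norm_sq, Complex.normSq_apply]
    ring
  constructor
  · rintro ⟨t, ht, h⟩
    have h1 := key t
    have h2 := norm_sq p k z
    have h0 := norm_nonneg (z - (p + t * qd k))
    have h3 : ‖z - (p + t * qd k)‖ ^ 2 ≤ (e * ‖z - p‖) ^ 2 := pow_le_pow_left₀ h0 h 2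
    refine ⟨?_, ?_⟩
    · by_contra hneg
      push Not at hneg
      have h4 : ‖z - p‖ ^ 2 ≤ (e * ‖z - p‖) ^ 2 := by nlinarith
      have h5 : ‖z - p‖ ≤ e * ‖z - p‖ := by
        have := abs_le_of_sq_le_sq h4 (by positivity)
        rwa [abs_of_pos hz] at this
      nlinarith
    · rw [h1] at h3
      have : fa p (k + 1) z ^ 2 ≤ (e * ‖z - p‖) ^ 2 := by nlinarith [sq_nonneg (fa p k z - t)]
      exact abs_le_of_sq_le_sq this (by positivity)
  · rintro ⟨h1, h2⟩
    refine ⟨fa p k z, h1, ?_⟩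
    have h3 := key (fa p k z)
    rw [sub_self, zero_pow two_ne_zero, zero_add] at h3
    have h4 : ‖z - (p + fa p k z * qd k)‖ ^ 2 ≤ |fa p (k + 1) z| ^ 2 := by
      rw [h3, sq_abs]
    have h5 := abs_le_of_sq_le_sq h4 (abs_nonneg _)
    rw [abs_of_nonneg (norm_nonneg _)] at h5
    exact h5.trans h2

end Crest.Agent.R143.Cdx806
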