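import Crest.Agent.R143.Cd1_806

/-!
# Row 143 (S0194), block D, TentC, file 2 (helper806): discrete consequences of `CellDom`

* `CellDom.mark_lt`, `CellDom.cl_box_con` : the classes are connected in boxes
* `CellDom.ray_body`, `CellDom.far_cl` : the far region
* `CellDom.near_tent` : free cells 8-adjacent to a tentacle
-/

set_option autoImplicit false

noncomputable section

namespace Crest.Agent.R143.Cdx806

open Set Metric
open Crest.Agent.R158.Sp896 Crest.Agent.R143.Tentx359 Crest.Agent.R158.Tj656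
open Crest.Agent.R143.Tenx416 (nx)

theorem N8.symm {a b : V} (h : N8 a b) : N8 b a := by
  unfold N8 at *
  rw [abs_sub_comm b.1, abs_sub_comm b.2]
  exact h

theorem N8.refl (a : V) : N8 a a := by
  unfold N8; simp

theorem N8.of_adj {a b : V} (h : Adj a b) : N8 a b := by
  unfold N8 Adj at *
  rw [abs_le, abs_le]
  omega

theorem rcv_N8 {F : Set V} {L : ℕ} {v : ℕ → V} (h : Cyc F L v) (x : ℕ) :
    N8 (rcv v x) (rcv v (x + 1)) := by
  have h1 := h.step x
  have h2 := h.step (x + 1)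
  unfold N8 rcv rc Adj at *
  rw [abs_le, abs_le]
  simp only
  omega

section disc

variable {F : Set V} {L : ℕ} {v : ℕ → V} {m : ℕ → ℕ} {c : V} {M : ℤ} {U : ℕ → ℕ → V}

theorem zlt (i : ZMod 4) : i.val < 4 := ZMod.val_lt i

theorem CellDom.mark_le (D : CellDom F L v m c M U) (i : ZMod 4) : m i.val < nx L m i := by
  have h1 := D.cfg.m01
  have h2 := D.cfg.m12
  have h3 := D.cfg.m23
  have h4 := D.cfg.m3L
  rcases z4 i with rfl | rfl | rfl | rfl
  · exact h1
  · exact h2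
  · exact h3
  · show m 3 < m 0 + L
    omega

theorem CellDom.rcv_nx (D : CellDom F L v m c M U) (i : ZMod 4) :
    rcv v (nx L m i) = U (i + 1).val 1 := by
  rcases z4 i with rfl | rfl | rfl | rfl
  · exact (D.cfg.start1 1 (by norm_num)).symm
  · exact (D.cfg.start1 2 (by norm_num)).symm
  · exact (D.cfg.start1 3 (by norm_num)).symm
  · have h1 := D.cfg.start1 0 (by norm_num)
    have h2 : rcv v (m 0 + L) = rcv v (m 0) := by
      unfold rcv
      rw [D.cfg.cyc.per, show m 0 + L + 1 = m 0 + 1 + L by ring, D.cfg.cyc.per]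
    exact h2.trans h1.symm

theorem CellDom.mark_lt (D : CellDom F L v m c M U) (i : ZMod 4) : m i.val + 1 < nx L m i := by
  rcases (Nat.succ_le_of_lt (D.mark_le i)).lt_or_eq with h | h
  · exact h
  · exfalso
    have h1 := rcv_N8 D.cfg.cyc (m i.val)
    rw [show m i.val + 1 = nx L m i from h, D.rcv_nx, ← D.cfg.start1 i.val (zlt i)] at h1
    have h2 := D.tt _ (zlt i) _ (zlt (i + 1)) 0 0 h1
    revert h2
    rcases z4 i with rfl | rfl | rfl | rfl <;> decide

theorem CellDom.base_mem (D : CellDom F L v m c M U) (i : ZMod 4) :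
    rcv v (m i.val + 1) ∈ cl F v m U i :=
  D.arc i _ (Nat.lt_succ_self _) (D.mark_lt i)

theorem CellDom.disj (D : CellDom F L v m c M U) {i j : ZMod 4} {q : V} (h : q ∈ cl F v m U i)
    (h' : q ∈ cl F v m U j) : i = j := D.sep i j q h q h' (N8.refl q)

theorem CellDom.cl_near (D : CellDom F L v m c M U) {i : ZMod 4} {q q' : V}
    (h : q ∈ cl F v m U i) (h' : q' ∉ body F U 4) (hn : N8 q q') : q' ∈ cl F v m U i := by
  obtain ⟨j, hj⟩ := D.cov q' h'
  rw [D.sep i j q h q' hj hn]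
  exact hj

/-- the classes are connected in boxes -/
theorem CellDom.cl_box_con (D : CellDom F L v m c M U) (i : ZMod 4) {R : ℤ} (hR : M < R) :
    ∀ q ∈ cl F v m U i ∩ Box c R, ∀ q' ∈ cl F v m U i ∩ Box c R,
      Con (cl F v m U i ∩ Box c R) q q' := by
  intro q hq q' hq'
  have h1 : Con (body F U 4)ᶜ q q' :=
    (Crest.Agent.R158.Sp896.Con.symm hq.1.2 (D.base_mem i).1).trans hq'.1.2
  have h2 := D.cfg.clamp_con hR hq.2 hq'.2 h1
  have key : ∀ p, Con ((body F U 4)ᶜ ∩ Box c R) q p →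
      Con (cl F v m U i ∩ Box c R) q p ∧ p ∈ cl F v m U i ∩ Box c R := by
    intro p hp
    induction hp with
    | refl => exact ⟨cRefl _ _, hq⟩
    | tail _ h4 ih =>
      have h5 := D.cl_near ih.2.1 h4.2.1 (N8.of_adj h4.1)
      exact ⟨ih.1.trans (cOne h4.1 ⟨h5, h4.2.2⟩), h5, h4.2.2⟩
  exact (key q' h2).1

/-! ### the far region -/

theorem CellDom.ray_body (D : CellDom F L v m c M U) (k : ZMod 4) {q : V} (h : M ≤ ga c k q)
    (h0 : ga c (k + 1) q = 0) : q ∈ body F U 4 := by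
  have h1 := D.cfg.ray_mem (zlt k) h
  have h2 := fp_ga c k q
  rw [h0] at h2
  rw [← h2]
  convert h1 using 1
  unfold fp
  simp

theorem far_ga {c q : V} {R : ℤ} (h : q ∉ Box c R) : R < |ga c 0 q| ∨ R < |ga c 1 q| := by
  unfold Box at h
  rw [mem_ofPred_eq, not_and_or, not_le, not_le] at h
  exact h

theorem CellDom.far_quad (D : CellDom F L v m c M U) {q : V} (hq : q ∉ body F U 4)
    (hfar : q ∉ Box c M) : ∃ i : ZMod 4, 0 < ga c i q ∧ 0 < ga c (i + 1) q := by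
  have hf := far_ga hfar
  rw [lt_abs, lt_abs] at hf
  have r0 : ¬ (M ≤ ga c 0 q ∧ ga c 1 q = 0) := fun h => hq (D.ray_body 0 h.1 h.2)
  have r1 : ¬ (M ≤ ga c 1 q ∧ ga c 2 q = 0) := fun h => hq (D.ray_body 1 h.1 h.2)
  have r2 : ¬ (M ≤ ga c 2 q ∧ ga c 3 q = 0) := fun h => hq (D.ray_body 2 h.1 h.2)
  have r3 : ¬ (M ≤ ga c 3 q ∧ ga c 0 q = 0) := fun h => hq (D.ray_body 3 h.1 h.2)
  have e2 : ga c 2 q = -ga c 0 q := ga_two c 0 q
  have e3 : ga c 3 q = -ga c 1 q := ga_two c 1 q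
  have hM := D.cfg.M_pos
  rw [e2] at r1 r2
  rw [e3] at r2 r3
  have hc : (0 < ga c 0 q ∧ 0 < ga c 1 q) ∨ (0 < ga c 1 q ∧ ga c 0 q < 0) ∨
      (ga c 0 q < 0 ∧ ga c 1 q < 0) ∨ (ga c 1 q < 0 ∧ 0 < ga c 0 q) := by omega
  rcases hc with h | h | h | h
  · exact ⟨0, h⟩
  · exact ⟨1, h.1, by rw [show (1 : ZMod 4) + 1 = 2 from rfl, e2]; omega⟩
  · exact ⟨2, by rw [e2]; omega, by rw [show (2 : ZMod 4) + 1 = 3 from rfl, e3]; omega⟩
  · exact ⟨3, by rw [e3]; omega, h.2⟩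

/-- far cells in frames -/
theorem far_ga' {c q : V} {R : ℤ} (h : q ∉ Box c R) (i : ZMod 4) :
    R < |ga c i q| ∨ R < |ga c (i + 1) q| := by
  have hf := far_ga h
  have e2 : ga c 2 q = -ga c 0 q := ga_two c 0 q
  have e3 : ga c 3 q = -ga c 1 q := ga_two c 1 q
  rcases z4 i with rfl | rfl | rfl | rfl
  · exact hf
  · rw [show (1 : ZMod 4) + 1 = 2 from rfl, e2, abs_neg]; exact hf.symm
  · rw [show (2 : ZMod 4) + 1 = 3 from rfl, e2, e3, abs_neg, abs_neg]; exact hf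
  · rw [show (3 : ZMod 4) + 1 = 0 from rfl, e3, abs_neg]; exact hf.symm

theorem box_ga {c q : V} {R : ℤ} (h : q ∈ Box c R) (i : ZMod 4) : |ga c i q| ≤ R := by
  have e2 : ga c 2 q = -ga c 0 q := ga_two c 0 q
  have e3 : ga c 3 q = -ga c 1 q := ga_two c 1 q
  rcases z4 i with rfl | rfl | rfl | rfl
  · exact h.1
  · exact h.2
  · rw [e2, abs_neg]; exact h.1
  · rw [e3, abs_neg]; exact h.2

theorem CellDom.far_cl (D : CellDom F L v m c M U) {i : ZMod 4} {q : V} (hq : q ∈ cl F v m U i)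
    (hfar : q ∉ Box c M) : 0 < ga c i q ∧ 0 < ga c (i + 1) q := by
  obtain ⟨j, h1, h2⟩ := D.far_quad hq.1 hfar
  have h3 := far_ga' hfar j
  rw [abs_of_pos h1, abs_of_pos h2] at h3
  have h4 := D.quad j _ _ h1 h2 (lt_max_iff.2 h3)
  rw [fp_ga] at h4
  rw [D.disj hq h4]
  exact ⟨h1, h2⟩

/-! ### cells near the tentacles -/

/-- common neighbours of two diagonal cells -/
theorem N8_cases {a b : V} (h : N8 a b) : a = b ∨ Adj a b ∨
    (Adj a (b.1, a.2) ∧ Adj (b.1, a.2) b ∧ Adj a (a.1, b.2) ∧ Adj (a.1, b.2) b) := by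
  obtain ⟨a1, a2⟩ := a
  obtain ⟨b1, b2⟩ := b
  unfold N8 at h
  rw [abs_le, abs_le] at h
  unfold Adj
  rw [Prod.mk.injEq]
  have e1 : b1 = a1 ∨ b1 = a1 + 1 ∨ b1 = a1 - 1 := by simp only at h; omega
  have e2 : b2 = a2 ∨ b2 = a2 + 1 ∨ b2 = a2 - 1 := by simp only at h; omega
  rcases e1 with rfl | rfl | rfl <;> rcases e2 with rfl | rfl | rfl <;> simp

theorem corner_int {w u q : V} (h7 : Adj w u) (h1 : Adj u (q.1, u.2)) (h3 : Adj u (u.1, q.2))
    (b1 : (q.1 - u.1) * (w.1 - u.1) + (u.2 - u.2) * (w.2 - u.2) = 1)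
    (b2 : (u.1 - u.1) * (w.1 - u.1) + (q.2 - u.2) * (w.2 - u.2) = 1) : False := by
  obtain ⟨w1, w2⟩ := w
  obtain ⟨u1, u2⟩ := u
  obtain ⟨q1, q2⟩ := q
  unfold Adj at h1 h3 h7
  simp only at b1 b2 h1 h3 h7
  rw [sub_self, zero_mul] at b1 b2
  rcases h7 with ⟨e1, e2⟩ | ⟨e1, e2⟩ | ⟨e1, e2⟩ | ⟨e1, e2⟩ <;> subst e1 <;> subst e2 <;>
    simp at b1 b2

/-- free cells 8-adjacent to the tentacle `k` -/
theorem CellDom.near_tent (D : CellDom F L v m c M U) (k : ZMod 4) {j : ℕ} {q : V}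
    (hn : N8 (U k.val (j + 1)) q) (hq : q ∉ body F U 4) :
    q ∈ cl F v m U k ∨ q ∈ cl F v m U (k - 1) := by
  have key : ∀ g : V, Adj (U k.val (j + 1)) g → Adj g q →
      (q ∈ cl F v m U k ∨ q ∈ cl F v m U (k - 1)) ∨ g ∈ F := by
    intro g h1 h2
    by_cases hg : g ∈ body F U 4
    · rcases hg with hg | ⟨k', hk', j', hj'⟩
      · exact Or.inr hg
      · left
        have h3 : N8 (U k.val (j + 1)) (U k' (j' + 1)) := hj' ▸ N8.of_adj h1
        have h4 := D.tt _ (zlt k) _ hk' _ _ h3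
        rw [hj', ← h4] at h2
        exact D.tside k j' q h2 hq
    · left
      rcases D.tside k j g h1 hg with h3 | h3
      · exact Or.inl (D.cl_near h3 hq (N8.of_adj h2))
      · exact Or.inr (D.cl_near h3 hq (N8.of_adj h2))
  rcases N8_cases hn with h | h | ⟨h1, h2, h3, h4⟩
  · exact absurd (h ▸ Or.inr ⟨k.val, zlt k, j, rfl⟩) hq
  · exact D.tside k j q h hq
  · rcases key _ h1 h2 with h5 | h5
    · exact h5
    · rcases key _ h3 h4 with h6 | h6
      · exact h6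
      · exfalso
        have a1 := D.tF _ (zlt k) j _ h5 (N8.of_adj h1)
        have a2 := D.tF _ (zlt k) j _ h6 (N8.of_adj h3)
        obtain ⟨hj, b1⟩ := a1
        obtain ⟨-, b2⟩ := a2
        subst hj
        have h7 := D.cfg.step _ (zlt k) 0
        exact corner_int h7 h1 h3 b1 b2

end disc

end Crest.Agent.R143.Cdx806
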