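import Crest.Agent.R143.Cd2_806

/-!
# Row 143 (S0194), block D, TentC, file 3 (helper806): the regions, `Cfg.OK`

* `Lr s M` : radius, `Cn s c M k` : closed cones, `Rg ... i` : regions, `cfgC` : the configuration
* `CellDom.ok : (cfgC ..).OK s`
-/

set_option autoImplicit false

noncomputable section

namespace Crest.Agent.R143.Cdx806

open Set Metric
open Crest.Agent.R158.Sp896 Crest.Agent.R143.Tentx359 Crest.Agent.R158.Tj656
open Crest.Agent.R143.Tenx416 (nx)

/-- radius of the big disc -/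
def Lr (s : ℝ) (M : ℤ) : ℝ := 16 * s * (M + 2)

/-- closed cones -/
def Cn (s : ℝ) (c : V) (M : ℤ) (k : ZMod 4) : Set ℂ :=
  {z | Lr s M / 2 ≤ ‖z - cen s c‖ ∧ 0 ≤ fa (cen s c) k z ∧
    |fa (cen s c) (k + 1) z| ≤ s / Lr s M * ‖z - cen s c‖}

/-- regions -/
def Rg (s : ℝ) (F : Set V) (v : ℕ → V) (m : ℕ → ℕ) (c : V) (M : ℤ) (U : ℕ → ℕ → V)
    (i : ZMod 4) : Set ℂ := Om s (cl F v m U i) \ ⋃ k, Cn s c M k

/-- far part of the regions -/
def Qd (s : ℝ) (c : V) (M : ℤ) (i : ZMod 4) : Set ℂ :=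
  {z | s / 2 < fa (cen s c) i z ∧ s / 2 < fa (cen s c) (i + 1) z ∧
    s / Lr s M * ‖z - cen s c‖ < fa (cen s c) i z ∧
    s / Lr s M * ‖z - cen s c‖ < fa (cen s c) (i + 1) z ∧
    (s * (M + 1 / 2) < fa (cen s c) i z ∨ s * (M + 1 / 2) < fa (cen s c) (i + 1) z)}

/-- the configuration -/
def cfgC (s : ℝ) (F : Set V) (v : ℕ → V) (m : ℕ → ℕ) (c : V) (M : ℤ) (U : ℕ → ℕ → V) :
    Cfgx416.Cfg 4 := ⟨cen s c, Lr s M, Rg s F v m c M U, qd⟩

theorem Lr_pos {s : ℝ} {M : ℤ} (hs : 0 < s) (hM : 0 < M) : 0 < Lr s M := by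
  have : (0 : ℝ) < M := by exact_mod_cast hM
  unfold Lr; positivity

theorem e_pos {s : ℝ} {M : ℤ} (hs : 0 < s) (hM : 0 < M) : 0 < s / Lr s M :=
  div_pos hs (Lr_pos hs hM)

theorem e_mul {s : ℝ} {M : ℤ} (hs : 0 < s) (hM : 0 < M) : s / Lr s M * (16 * (M + 2)) = 1 := by
  have h1 := (Lr_pos hs hM).ne'
  have : (0 : ℝ) < M := by exact_mod_cast hM
  unfold Lr at *
  field_simp

theorem e_le {s : ℝ} {M : ℤ} (hs : 0 < s) (hM : 0 < M) : s / Lr s M ≤ 1 / 48 := by
  have h1 := e_mul hs hM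
  have h2 := e_pos hs hM
  have : (1 : ℝ) ≤ M := by exact_mod_cast hM
  nlinarith

theorem norm_box {s : ℝ} (hs : 0 < s) {q c : V} {R : ℤ} {z : ℂ} (hq : q ∈ Box c R)
    (hz : z ∈ sq s q) : ‖z - cen s c‖ ≤ 2 * s * R + s := by
  have h1 := norm_le_fa (cen s c) 0 z
  have h2 := sq_fa (c := c) 0 hz
  have h3 := sq_fa (c := c) 1 hz
  have b0 := abs_le.1 (box_ga hq 0)
  have b1 := abs_le.1 (box_ga hq 1)
  have c0 : (-(R : ℝ)) ≤ ga c 0 q ∧ (ga c 0 q : ℝ) ≤ R := ⟨by exact_mod_cast b0.1, by exact_mod_cast b0.2⟩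
  have c1 : (-(R : ℝ)) ≤ ga c 1 q ∧ (ga c 1 q : ℝ) ≤ R := ⟨by exact_mod_cast b1.1, by exact_mod_cast b1.2⟩
  have k0 : |fa (cen s c) 0 z| ≤ s * R + s / 2 := by
    rw [abs_le]; constructor <;> nlinarith [c0.1, c0.2]
  have k1 : |fa (cen s c) 1 z| ≤ s * R + s / 2 := by
    rw [abs_le]; constructor <;> nlinarith [c1.1, c1.2]
  rw [show (0 : ZMod 4) + 1 = 1 from rfl] at h1
  linarith

theorem Cn_closed (s : ℝ) (c : V) (M : ℤ) (k : ZMod 4) : IsClosed (Cn s c M k) := by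
  have h1 := fa_cont (cen s c) k
  have h2 := fa_cont (cen s c) (k + 1)
  have h3 : Continuous fun z : ℂ => ‖z - cen s c‖ := by fun_prop
  exact (isClosed_le continuous_const h3).inter
    ((isClosed_le continuous_const h1).inter (isClosed_le h2.abs (continuous_const.mul h3)))

theorem Rg_open (s : ℝ) (F : Set V) (v : ℕ → V) (m : ℕ → ℕ) (c : V) (M : ℤ) (U : ℕ → ℕ → V)
    (i : ZMod 4) : IsOpen (Rg s F v m c M U i) :=
  (om_open s _).sdiff (isClosed_iUnion_of_finite fun k => Cn_closed s c M k)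

section

variable {F : Set V} {L : ℕ} {v : ℕ → V} {m : ℕ → ℕ} {c : V} {M : ℤ} {U : ℕ → ℕ → V} {s : ℝ}

/-- integer part of the coordinates -/
theorem ga_gt {hs : 0 < s} {k : ZMod 4} {q : V} {z : ℂ} (hz : z ∈ sq s q) {r : ℤ}
    (h : s * (r + 1 / 2) < fa (cen s c) k z) : r < ga c k q := by
  have h1 := (sq_fa (c := c) k hz).2
  have h2 : s * (r : ℝ) < s * ga c k q := by linarith
  exact_mod_cast lt_of_mul_lt_mul_left h2 hs.le

theorem CellDom.Qd_sub_Om (D : CellDom F L v m c M U) (hs : 0 < s) (i : ZMod 4) :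
    Qd s c M i ⊆ Om s (cl F v m U i) := by
  rintro z ⟨h1, h2, -, -, h3⟩
  rw [mem_om hs]
  intro q hq
  have e1 : 0 < ga c i q := ga_gt (hs := hs) hq (by push_cast; linarith)
  have e2 : 0 < ga c (i + 1) q := ga_gt (hs := hs) hq (by push_cast; linarith)
  have e3 : M < max (ga c i q) (ga c (i + 1) q) := by
    rw [lt_max_iff]
    rcases h3 with h3 | h3
    · exact Or.inl (ga_gt (hs := hs) hq h3)
    · exact Or.inr (ga_gt (hs := hs) hq h3)
  have := D.quad i _ _ e1 e2 e3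
  rwa [fp_ga] at this

theorem Qd_not_Cn (i : ZMod 4) (hs : 0 < s) (k : ZMod 4) {z : ℂ}
    (hz : z ∈ Qd s c M i) : z ∉ Cn s c M k := by
  obtain ⟨h1, h2, h3, h4, -⟩ := hz
  rintro ⟨-, k1, k2⟩
  rw [abs_le] at k2
  obtain ⟨j, rfl⟩ : ∃ j, k = i + j := ⟨k - i, by ring⟩
  rcases z4 j with rfl | rfl | rfl | rfl
  · rw [add_zero] at k2; linarith [k2.2]
  · rw [show i + 1 + 1 = i + 2 by rw [add_assoc]; rfl, fa_two] at k2; linarith [k2.1]
  · rw [fa_two] at k1; linarith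
  · rw [fa_three] at k1; linarith

theorem CellDom.Qd_sub (D : CellDom F L v m c M U) (hs : 0 < s) (i : ZMod 4) :
    Qd s c M i ⊆ Rg s F v m c M U i := by
  intro z hz
  refine ⟨D.Qd_sub_Om hs i hz, ?_⟩
  rw [mem_iUnion, not_exists]
  exact fun k => Qd_not_Cn i hs k hz

/-- far points of `Om s (cl i)` -/
theorem CellDom.far_Om (D : CellDom F L v m c M U) (hs : 0 < s) {i : ZMod 4} {z : ℂ}
    (hz : z ∈ Om s (cl F v m U i)) {q : V} (hq : z ∈ sq s q) (hfar : q ∉ Box c (M + 1)) :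
    s / 2 < fa (cen s c) i z ∧ s / 2 < fa (cen s c) (i + 1) z ∧
    (s * (M + 1 / 2) < fa (cen s c) i z ∨ s * (M + 1 / 2) < fa (cen s c) (i + 1) z) := by
  have hM := D.cfg.M_pos
  have hMr : (1 : ℝ) ≤ M := by exact_mod_cast hM
  have hcl := (mem_om hs).1 hz
  have hqi := hcl q hq
  have hf := D.far_cl hqi (fun h => hfar ⟨h.1.trans (by omega), h.2.trans (by omega)⟩)
  have hf2 := far_ga' hfar i
  rw [abs_of_pos hf.1, abs_of_pos hf.2] at hf2
  obtain ⟨a1, a2⟩ := sq_fa (c := c) i hq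
  obtain ⟨b1, b2⟩ := sq_fa (c := c) (i + 1) hq
  have f1 : (1 : ℝ) ≤ ga c i q := by exact_mod_cast hf.1
  have f2 : (1 : ℝ) ≤ ga c (i + 1) q := by exact_mod_cast hf.2
  rcases hf2 with h | h
  · have h' : (M : ℝ) + 2 ≤ ga c i q := by
      have : M + 2 ≤ ga c i q := by omega
      exact_mod_cast this
    have c1 : s * (M + 1 / 2) < fa (cen s c) i z := by nlinarith
    refine ⟨by nlinarith, ?_, Or.inl c1⟩
    by_contra hcon
    push Not at hcon
    obtain ⟨g1, g2⟩ := ga_fp c i (ga c i q) 0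
    have hmem : z ∈ sq s (fp c i.val (ga c i q) 0) := by
      rw [sq_iff (c := c) i, g1, g2, abs_le, abs_le]
      push_cast
      refine ⟨⟨by linarith, by linarith⟩, by nlinarith, by linarith⟩
    exact (hcl _ hmem).1 (D.ray_body i (by rw [g1]; omega) g2)
  · have h' : (M : ℝ) + 2 ≤ ga c (i + 1) q := by
      have : M + 2 ≤ ga c (i + 1) q := by omega
      exact_mod_cast this
    have c1 : s * (M + 1 / 2) < fa (cen s c) (i + 1) z := by nlinarith
    refine ⟨?_, by nlinarith, Or.inr c1⟩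
    by_contra hcon
    push Not at hcon
    obtain ⟨g1, g2⟩ := ga_fp c i 0 (ga c (i + 1) q)
    have hmem : z ∈ sq s (fp c i.val 0 (ga c (i + 1) q)) := by
      rw [sq_iff (c := c) i, g1, g2, abs_le, abs_le]
      push_cast
      refine ⟨⟨by nlinarith, by linarith⟩, by linarith, by linarith⟩
    refine (hcl _ hmem).1 (D.ray_body (i + 1) (by rw [g2]; omega) ?_)
    rw [show i + 1 + 1 = i + 2 by rw [add_assoc]; rfl, ga_two, g1, neg_zero]

theorem norm_Om_box (hs : 0 < s) (hM : 0 < M) {S : Set V} {z : ℂ}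
    (hz : z ∈ Om s (S ∩ Box c (M + 1))) : ‖z - cen s c‖ < Lr s M / 2 := by
  have h1 := norm_box hs ((mem_om hs).1 hz _ (mem_cellOf hs z)).2 (mem_cellOf hs z)
  have hMr : (1 : ℝ) ≤ M := by exact_mod_cast hM
  push_cast at h1
  unfold Lr
  nlinarith

theorem CellDom.Rg_eq (D : CellDom F L v m c M U) (hs : 0 < s) (i : ZMod 4) :
    Rg s F v m c M U i = Om s (cl F v m U i ∩ Box c (M + 1)) ∪ Qd s c M i := by
  have hM := D.cfg.M_pos
  apply Subset.antisymm
  · rintro z ⟨h1, h2⟩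
    by_cases hb : ∀ q, z ∈ sq s q → q ∈ Box c (M + 1)
    · left
      rw [mem_om hs] at h1 ⊢
      exact fun q hq => ⟨h1 q hq, hb q hq⟩
    · right
      push Not at hb
      obtain ⟨q, hq, hq'⟩ := hb
      obtain ⟨k1, k2, k3⟩ := D.far_Om hs h1 hq hq'
      rw [mem_iUnion, not_exists] at h2
      have a1 := h2 i
      have a2 := h2 (i + 1)
      have ew := e_pos hs hM
      have key : s / Lr s M * ‖z - cen s c‖ < fa (cen s c) i z ∧
          s / Lr s M * ‖z - cen s c‖ < fa (cen s c) (i + 1) z := by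
        rcases lt_or_ge ‖z - cen s c‖ (Lr s M / 2) with h3 | h3
        · have h4 : s / Lr s M * ‖z - cen s c‖ < s / 2 := by
            calc s / Lr s M * ‖z - cen s c‖ < s / Lr s M * (Lr s M / 2) :=
                  mul_lt_mul_of_pos_left h3 ew
              _ = s / 2 := by have := (Lr_pos hs hM).ne'; field_simp
          exact ⟨h4.trans k1, h4.trans k2⟩
        · constructor
          · by_contra hcon
            push Not at hcon
            refine a2 ⟨h3, by linarith, ?_⟩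
            rw [show i + 1 + 1 = i + 2 by rw [add_assoc]; rfl, fa_two, abs_neg, abs_of_pos (by linarith)]
            exact hcon
          · by_contra hcon
            push Not at hcon
            refine a1 ⟨h3, by linarith, ?_⟩
            rw [abs_of_pos (by linarith)]
            exact hcon
      exact ⟨k1, k2, key.1, key.2, k3⟩
  · rintro z (hz | hz)
    · refine ⟨?_, ?_⟩
      · rw [mem_om hs] at hz ⊢
        exact fun q hq => (hz q hq).1
      · rw [mem_iUnion, not_exists]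
        intro k hk
        exact absurd hk.1 (not_le.2 (norm_Om_box hs hM hz))
    · exact D.Qd_sub hs i hz

/-! ### connectedness -/

theorem comb_lt {x1 x2 y1 y2 a b : ℝ} (h1 : x1 < y1) (h2 : x2 < y2) (ha : 0 ≤ a) (hb : 0 ≤ b)
    (hab : a + b = 1) : a * x1 + b * x2 < a * y1 + b * y2 := by
  rcases ha.eq_or_lt with h | h
  · subst h
    have : b = 1 := by linarith
    subst this
    linarith
  · nlinarith [mul_le_mul_of_nonneg_left h2.le hb]

/-- convex half -/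
def Kh (s : ℝ) (c : V) (M : ℤ) (i j : ZMod 4) : Set ℂ :=
  {z | s / 2 < fa (cen s c) i z ∧ s / 2 < fa (cen s c) (i + 1) z ∧
    s / Lr s M * ‖z - cen s c‖ < fa (cen s c) i z ∧
    s / Lr s M * ‖z - cen s c‖ < fa (cen s c) (i + 1) z ∧
    s * (M + 1 / 2) < fa (cen s c) j z}

theorem Kh_convex (hs : 0 < s) (hM : 0 < M) (i j : ZMod 4) : Convex ℝ (Kh s c M i j) := by
  rintro z ⟨h1, h2, h3, h4, h5⟩ w ⟨k1, k2, k3, k4, k5⟩ a b ha hb hab
  have hn : ‖a • z + b • w - cen s c‖ ≤ a * ‖z - cen s c‖ + b * ‖w - cen s c‖ := by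
    have e : a • z + b • w - cen s c = a • (z - cen s c) + b • (w - cen s c) := by
      have : b = 1 - a := by linarith
      subst this
      simp only [Complex.real_smul]
      push_cast
      ring
    rw [e]
    refine (norm_add_le _ _).trans ?_
    rw [norm_smul, norm_smul, Real.norm_of_nonneg ha, Real.norm_of_nonneg hb]
  have hn' := mul_le_mul_of_nonneg_left hn (e_pos hs hM).le
  have t1 := comb_lt h1 k1 ha hb hab
  have t2 := comb_lt h2 k2 ha hb hab
  have t3 := comb_lt h3 k3 ha hb hab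
  have t4 := comb_lt h4 k4 ha hb hab
  have t5 := comb_lt h5 k5 ha hb hab
  rw [← add_mul, hab, one_mul] at t1 t2 t5
  refine ⟨?_, ?_, ?_, ?_, ?_⟩
  · rw [fa_comb _ _ _ _ hab]; exact t1
  · rw [fa_comb _ _ _ _ hab]; exact t2
  · rw [fa_comb _ _ _ _ hab]; refine hn'.trans_lt ?_; linarith
  · rw [fa_comb _ _ _ _ hab]; refine hn'.trans_lt ?_; linarith
  · rw [fa_comb _ _ _ _ hab]; exact t5

/-- points of the quadrants -/
theorem mem_Kh (hs : 0 < s) (hM : 0 < M) (i : ZMod 4) {x y : ℝ} (hx : s ≤ x) (hy : s ≤ y)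
    (hx' : x ≤ 2 * s * (M + 2)) (hy' : y ≤ 2 * s * (M + 2)) {j : ZMod 4}
    (hj : s * (M + 1 / 2) < fa (cen s c) j (cen s c + (⟨x, y⟩ : ℂ) * qd i)) :
    cen s c + (⟨x, y⟩ : ℂ) * qd i ∈ Kh s c M i j := by
  obtain ⟨h1, h2⟩ := fa_add (cen s c) i ⟨x, y⟩
  have hn := norm_le_fa (cen s c) i (cen s c + (⟨x, y⟩ : ℂ) * qd i)
  rw [h1, h2] at hn
  simp only at h1 h2 hn
  rw [abs_of_pos (hs.trans_le hx), abs_of_pos (hs.trans_le hy)] at hn
  have e1 := e_mul hs hM
  have e2 := e_pos hs hM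
  have hMr : (1 : ℝ) ≤ M := by exact_mod_cast hM
  have hn2 : s / Lr s M * ‖cen s c + (⟨x, y⟩ : ℂ) * qd i - cen s c‖ < s := by
    calc s / Lr s M * ‖cen s c + (⟨x, y⟩ : ℂ) * qd i - cen s c‖
        ≤ s / Lr s M * (4 * s * (M + 2)) := mul_le_mul_of_nonneg_left (by linarith) e2.le
      _ = s / 4 := by
        have : s / Lr s M * (4 * s * (M + 2)) = (s / Lr s M * (16 * (M + 2))) * (s / 4) := by ring
        rw [this, e1, one_mul]
      _ < s := by linarith
  refine ⟨by rw [h1]; linarith, by rw [h2]; linarith, by rw [h1]; linarith,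
    by rw [h2]; linarith, hj⟩

theorem Qd_eq (i : ZMod 4) : Qd s c M i = Kh s c M i i ∪ Kh s c M i (i + 1) := by
  ext z
  constructor
  · rintro ⟨h1, h2, h3, h4, h5 | h5⟩
    · exact Or.inl ⟨h1, h2, h3, h4, h5⟩
    · exact Or.inr ⟨h1, h2, h3, h4, h5⟩
  · rintro (⟨h1, h2, h3, h4, h5⟩ | ⟨h1, h2, h3, h4, h5⟩)
    · exact ⟨h1, h2, h3, h4, Or.inl h5⟩
    · exact ⟨h1, h2, h3, h4, Or.inr h5⟩

theorem Qd_preconn (hs : 0 < s) (hM : 0 < M) (i : ZMod 4) : IsPreconnected (Qd s c M i) := by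
  have hMr : (1 : ℝ) ≤ M := by exact_mod_cast hM
  rw [Qd_eq]
  obtain ⟨h1, h2⟩ := fa_add (cen s c) i ⟨s * (M + 2), s * (M + 2)⟩
  simp only at h1 h2
  refine IsPreconnected.union (cen s c + (⟨s * (M + 2), s * (M + 2)⟩ : ℂ) * qd i) ?_ ?_
    (Kh_convex hs hM i i).isPreconnected (Kh_convex hs hM i (i + 1)).isPreconnected
  · exact mem_Kh hs hM i (by nlinarith) (by nlinarith) (by nlinarith) (by nlinarith)
      (by rw [h1]; nlinarith)
  · exact mem_Kh hs hM i (by nlinarith) (by nlinarith) (by nlinarith) (by nlinarith)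
      (by rw [h2]; nlinarith)

theorem CellDom.Rg_conn (D : CellDom F L v m c M U) (hs : 0 < s) (i : ZMod 4) :
    IsConnected (Rg s F v m c M U i) := by
  have hM := D.cfg.M_pos
  have hMr : (1 : ℝ) ≤ M := by exact_mod_cast hM
  -- common point: centre of the cell `(M + 1, 1)`
  obtain ⟨h1, h2⟩ := fa_add (cen s c) i ⟨s * (M + 1), s⟩
  simp only at h1 h2
  have hK : cen s c + (⟨s * (M + 1), s⟩ : ℂ) * qd i ∈ Qd s c M i := by
    rw [Qd_eq]
    left
    exact mem_Kh hs hM i (by nlinarith) le_rfl (by nlinarith) (by nlinarith)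
      (by rw [h1]; nlinarith)
  have hO : cen s c + (⟨s * (M + 1), s⟩ : ℂ) * qd i ∈ Om s (cl F v m U i ∩ Box c (M + 1)) := by
    have hcl := D.Qd_sub_Om hs i hK
    rw [mem_om hs] at hcl ⊢
    intro q hq
    refine ⟨hcl q hq, ?_⟩
    by_contra hfar
    have hf := far_ga' hfar i
    obtain ⟨a1, a2⟩ := sq_fa (c := c) i hq
    obtain ⟨b1, b2⟩ := sq_fa (c := c) (i + 1) hq
    rw [h1] at a1 a2
    rw [h2] at b1 b2
    have c1 : ga c i q < M + 2 := by
      have : s * (ga c i q : ℝ) < s * (M + 2) := by nlinarith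
      exact_mod_cast lt_of_mul_lt_mul_left this hs.le
    have c2 : M < ga c i q := by
      have : s * (M : ℝ) < s * ga c i q := by nlinarith
      exact_mod_cast lt_of_mul_lt_mul_left this hs.le
    have c3 : ga c (i + 1) q < 2 := by
      have : s * (ga c (i + 1) q : ℝ) < s * 2 := by nlinarith
      exact_mod_cast lt_of_mul_lt_mul_left this hs.le
    have c4 : 0 < ga c (i + 1) q := by
      have : s * (0 : ℝ) < s * ga c (i + 1) q := by nlinarith
      exact_mod_cast lt_of_mul_lt_mul_left this hs.le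
    rw [abs_of_pos (by omega), abs_of_pos c4] at hf
    omega
  rw [D.Rg_eq hs i]
  refine ⟨⟨_, Or.inr hK⟩, IsPreconnected.union _ hO hK ?_ (Qd_preconn hs hM i)⟩
  exact Crest.Agent.R158.Tg331.conn_Om hs (D.cl_box_con i (by omega))

end

end Crest.Agent.R143.Cdx806
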