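import Crest.Agent.R143.Cd3_806

/-!
# Row 143 (S0194), block D, TentC, file 4 (helper806): `Cfg.OK`

* `near_N8` : close points lie in 8-adjacent cells
* `CellDom.ok : (cfgC s F v m c M U).OK s`
-/

set_option autoImplicit false

noncomputable section

namespace Crest.Agent.R143.Cdx806

open Set Metric
open Crest.Agent.R158.Sp896 Crest.Agent.R143.Tentx359 Crest.Agent.R158.Tj656
open Crest.Agent.R143.Tenx416 (nx)

theorem near_N8 {s : ℝ} (hs : 0 < s) {q q' : V} {z w : ℂ} (hz : z ∈ sq s q) (hw : w ∈ sq s q')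
    (h : dist z w < s) : N8 q q' := by
  obtain ⟨h1, h2, h3, h4⟩ := hz
  obtain ⟨k1, k2, k3, k4⟩ := hw
  rw [dist_eq_norm] at h
  have a1 := abs_lt.1 ((Complex.abs_re_le_norm (z - w)).trans_lt h)
  have a2 := abs_lt.1 ((Complex.abs_im_le_norm (z - w)).trans_lt h)
  rw [Complex.sub_re] at a1
  rw [Complex.sub_im] at a2
  have key : ∀ a b : ℤ, s * a < s * (b + 2) → a ≤ b + 1 := by
    intro a b hab
    have h5 : (a : ℝ) < b + 2 := lt_of_mul_lt_mul_left hab hs.le
    have h6 : a < b + 2 := by exact_mod_cast h5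
    omega
  have b1 := key q.1 q'.1 (by linarith [a1.2])
  have b2 := key q'.1 q.1 (by linarith [a1.1])
  have b3 := key q.2 q'.2 (by linarith [a2.2])
  have b4 := key q'.2 q.2 (by linarith [a2.1])
  unfold N8
  rw [abs_le, abs_le]
  omega

theorem nat_z4 {i : ℕ} (hi : i < 4) : ∃ k : ZMod 4, k.val = i :=
  ⟨(i : ZMod 4), ZMod.val_cast_of_lt hi⟩

theorem qd_succ (k : ZMod 4) : qd (k + 1) = qd k * Complex.I := by
  rcases z4 k with rfl | rfl | rfl | rfl
  · rw [show (0 : ZMod 4) + 1 = 1 from rfl, qd0, qd1, one_mul]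
  · rw [show (1 : ZMod 4) + 1 = 2 from rfl, qd1, qd2, Complex.I_mul_I]
  · rw [show (2 : ZMod 4) + 1 = 3 from rfl, qd2, qd3]; ring
  · rw [show (3 : ZMod 4) + 1 = 0 from rfl, qd3, qd0, neg_mul, Complex.I_mul_I, neg_neg]

theorem qd_exp (k : ℤ) : qd (k : ZMod 4) = Complex.exp (((k * (Real.pi / 2) : ℝ) : ℂ) * Complex.I) := by
  have hI : Complex.exp ((((1 : ℝ) * (Real.pi / 2) : ℝ) : ℂ) * Complex.I) = Complex.I := by
    rw [one_mul, Complex.exp_mul_I]
    rw [← Complex.ofReal_cos, ← Complex.ofReal_sin, Real.cos_pi_div_two, Real.sin_pi_div_two]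
    simp
  have hstep : ∀ x : ℝ, Complex.exp ((((x + 1) * (Real.pi / 2) : ℝ) : ℂ) * Complex.I) =
      Complex.exp (((x * (Real.pi / 2) : ℝ) : ℂ) * Complex.I) * Complex.I := by
    intro x
    have e : (((x + 1) * (Real.pi / 2) : ℝ) : ℂ) * Complex.I =
        ((x * (Real.pi / 2) : ℝ) : ℂ) * Complex.I +
          (((1 : ℝ) * (Real.pi / 2) : ℝ) : ℂ) * Complex.I := by push_cast; ring
    rw [e, Complex.exp_add, hI]
  induction k using Int.induction_on with
  | zero => simp [qd0]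
  | succ i ih =>
    push_cast at ih ⊢
    rw [qd_succ, ih]
    have := hstep i
    push_cast at this
    rw [this]
  | pred i ih =>
    have h1 := hstep ((-(i : ℝ) - 1))
    have h2 := qd_succ (((-(i : ℤ) - 1 : ℤ)) : ZMod 4)
    have e1 : (((-(i : ℤ) - 1 : ℤ)) : ZMod 4) + 1 = ((-(i : ℤ) : ℤ) : ZMod 4) := by push_cast; ring
    rw [e1, ih] at h2
    have e2 : (-(i : ℝ) - 1 + 1) = ((-(i : ℤ) : ℤ) : ℝ) := by push_cast; ring
    rw [e2] at h1
    rw [h1] at h2
    have h3 := mul_right_cancel₀ Complex.I_ne_zero h2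
    rw [← h3]
    push_cast
    rfl

section

variable {F : Set V} {L : ℕ} {v : ℕ → V} {m : ℕ → ℕ} {c : V} {M : ℤ} {U : ℕ → ℕ → V} {s : ℝ}

theorem not_box {hs : 0 < s} (hM : 0 < M) {z : ℂ} {q : V} (hq : z ∈ sq s q)
    (h : Lr s M / 4 < ‖z - cen s c‖) : q ∉ Box c (M + 1) := by
  intro hb
  have h1 := norm_box hs hb hq
  have hMr : (1 : ℝ) ≤ M := by exact_mod_cast hM
  push_cast at h1
  unfold Lr at h
  nlinarith

/-- the body in the far region, in frames -/
theorem CellDom.far_body (D : CellDom F L v m c M U) {q : V} (hq : q ∈ body F U 4)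
    (hfar : q ∉ Box c M) : ∃ k : ZMod 4, M < ga c k q ∧ ga c (k + 1) q = 0 := by
  obtain ⟨i, hi, r, hr, he⟩ := D.cfg.far hq (by
    unfold Box at hfar
    rw [mem_ofPred_eq, not_and_or, not_le, not_le] at hfar
    exact hfar)
  obtain ⟨k, rfl⟩ := nat_z4 hi
  have h1 : q = fp c k.val r 0 := by
    rw [he]; unfold fp; simp
  obtain ⟨g1, g2⟩ := ga_fp c k r 0
  rw [← h1] at g1 g2
  exact ⟨k, by rw [g1]; exact hr, g2⟩

/-- a point all of whose cells are free is in one of the open sets -/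
theorem CellDom.mem_some_Om (D : CellDom F L v m c M U) (hs : 0 < s) {z : ℂ}
    (h : ∀ q, z ∈ sq s q → q ∉ body F U 4) : ∃ i, z ∈ Om s (cl F v m U i) := by
  obtain ⟨i, hi⟩ := D.cov _ (h _ (mem_cellOf hs z))
  refine ⟨i, (mem_om hs).2 fun q hq => D.cl_near hi (h q hq) ?_⟩
  exact near_N8 hs (mem_cellOf hs z) hq (by rw [dist_self]; exact hs)

theorem Cn_iff (hs : 0 < s) (hM : 0 < M) {z : ℂ} (hz : Lr s M / 2 < ‖z - cen s c‖) (k : ZMod 4) :
    (∃ t : ℝ, 0 ≤ t ∧ ‖z - (cen s c + t * qd k)‖ ≤ s / Lr s M * ‖z - cen s c‖) ↔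
      z ∈ Cn s c M k := by
  have hL := Lr_pos hs hM
  rw [cone_iff k (e_pos hs hM).le ((e_le hs hM).trans_lt (by norm_num)) (by linarith)]
  exact ⟨fun h => ⟨hz.le, h.1, h.2⟩, fun h => ⟨h.2.1, h.2.2⟩⟩

/-- far points not in the regions -/
theorem CellDom.far_cone (D : CellDom F L v m c M U) (hs : 0 < s) {z : ℂ}
    (hz : Lr s M / 2 < ‖z - cen s c‖) (h : ∀ i, z ∉ Rg s F v m c M U i) :
    ∃ k, z ∈ Cn s c M k := by
  have hM := D.cfg.M_pos
  have hL := Lr_pos hs hM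
  by_contra hcon
  have h1 : ∀ i, z ∉ Om s (cl F v m U i) := by
    intro i hi
    exact h i ⟨hi, by rw [mem_iUnion]; exact hcon⟩
  have h2 : ∃ q, z ∈ sq s q ∧ q ∈ body F U 4 := by
    by_contra h3
    push Not at h3
    obtain ⟨i, hi⟩ := D.mem_some_Om hs h3
    exact h1 i hi
  obtain ⟨q, hq, hqb⟩ := h2
  have h4 : q ∉ Box c (M + 1) := not_box (hs := hs) hM hq (by linarith)
  obtain ⟨k, hk1, hk2⟩ := D.far_body hqb (fun h => h4 ⟨h.1.trans (by omega), h.2.trans (by omega)⟩)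
  refine hcon ⟨k, hz.le, ?_, ?_⟩
  · have := (sq_fa (c := c) k hq).1
    have hk : (M : ℝ) < ga c k q := by exact_mod_cast hk1
    have hMr : (1 : ℝ) ≤ M := by exact_mod_cast hM
    nlinarith
  · have h5 := sq_fa (c := c) (k + 1) hq
    rw [hk2] at h5
    have h6 : s / 2 ≤ s / Lr s M * ‖z - cen s c‖ := by
      calc s / 2 = s / Lr s M * (Lr s M / 2) := by have := hL.ne'; field_simp
        _ ≤ _ := mul_le_mul_of_nonneg_left hz.le (e_pos hs hM).le
    rw [abs_le]
    push_cast at h5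
    constructor <;> linarith [h5.1, h5.2]

theorem mk_polar (r x y : ℝ) : (⟨r * x, r * y⟩ : ℂ) = r * ((x : ℂ) + (y : ℂ) * Complex.I) := by
  apply Complex.ext <;> simp

/-- points beside the cones -/
theorem mem_Qd_polar (hs : 0 < s) (hM : 0 < M) {r x y : ℝ} (hr : Lr s M / 2 < r)
    (hx : s / Lr s M < x) (hy : s / Lr s M < y) (hxy : 1 / 2 < x ∨ 1 / 2 < y) {k : ZMod 4} {z : ℂ}
    (h1 : fa (cen s c) k z = r * x) (h2 : fa (cen s c) (k + 1) z = r * y)
    (hn : ‖z - cen s c‖ = r) : z ∈ Qd s c M k := by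
  have hL := Lr_pos hs hM
  have he := e_pos hs hM
  have h0 : s / Lr s M * (Lr s M / 2) = s / 2 := by have := hL.ne'; field_simp
  have hr0 : 0 < r := by linarith
  have hMr : (1 : ℝ) ≤ M := by exact_mod_cast hM
  have hLd : Lr s M / 2 = 8 * s * (M + 2) := by unfold Lr; ring
  have a1 : s / 2 < s / Lr s M * r := by nlinarith
  have a2 : s / Lr s M * r < r * x := by nlinarith
  have a3 : s / Lr s M * r < r * y := by nlinarith
  refine ⟨by rw [h1]; linarith, by rw [h2]; linarith, by rw [h1, hn]; exact a2,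
    by rw [h2, hn]; exact a3, ?_⟩
  rcases hxy with h | h
  · left; rw [h1]; nlinarith
  · right; rw [h2]; nlinarith

theorem CellDom.sect (D : CellDom F L v m c M U) (hs : 0 < s) (k : ZMod 4) (r : ℝ)
    (hr : Lr s M / 2 < r) : ∃ e > 0, ∀ ψ : ℝ, Real.arcsin (s / Lr s M) < ψ →
    ψ < Real.arcsin (s / Lr s M) + e →
    cen s c + r * qd k * Complex.exp (ψ * Complex.I) ∈ Rg s F v m c M U k ∧
    cen s c + r * qd k * Complex.exp (-(ψ * Complex.I)) ∈ Rg s F v m c M U (k - 1) := by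
  have hM := D.cfg.M_pos
  have hL := Lr_pos hs hM
  have he := e_pos hs hM
  have he' := e_le hs hM
  have hpi := Real.pi_pos
  have hr0 : 0 < r := by linarith
  have hsq : (1 : ℝ) / 2 < Real.sqrt 2 / 2 := by
    have : (1 : ℝ) < Real.sqrt 2 := by
      rw [show (1 : ℝ) = Real.sqrt 1 by simp]
      exact Real.sqrt_lt_sqrt (by norm_num) (by norm_num)
    linarith
  have ha : Real.arcsin (s / Lr s M) < Real.pi / 4 := by
    rw [Real.arcsin_lt_iff_lt_sin ⟨by linarith, by linarith⟩ ⟨by linarith, by linarith⟩,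
      Real.sin_pi_div_four]
    linarith
  have ha0 : 0 < Real.arcsin (s / Lr s M) := Real.arcsin_pos.2 he
  refine ⟨Real.pi / 4 - Real.arcsin (s / Lr s M), by linarith, fun ψ h1 h2 => ?_⟩
  have h3 : ψ < Real.pi / 4 := by linarith
  have h4 : s / Lr s M < Real.sin ψ := by
    rwa [← Real.arcsin_lt_iff_lt_sin ⟨by linarith, by linarith⟩ ⟨by linarith, by linarith⟩]
  have h5 : 1 / 2 < Real.cos ψ := by
    have := Real.cos_lt_cos_of_nonneg_of_le_pi (x := ψ) (y := Real.pi / 4) (by linarith)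
      (by linarith) h3
    rw [Real.cos_pi_div_four] at this
    linarith
  have e1 : cen s c + r * qd k * Complex.exp (ψ * Complex.I) =
      cen s c + (⟨r * Real.cos ψ, r * Real.sin ψ⟩ : ℂ) * qd k := by
    rw [Complex.exp_mul_I, ← Complex.ofReal_cos, ← Complex.ofReal_sin]
    rw [mk_polar]
    ring
  have e2 : cen s c + r * qd k * Complex.exp (-(ψ * Complex.I)) =
      cen s c + (⟨r * Real.cos ψ, -(r * Real.sin ψ)⟩ : ℂ) * qd k := by
    have e3 : -((ψ : ℂ) * Complex.I) = ((-ψ : ℝ) : ℂ) * Complex.I := by push_cast; ring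
    rw [e3, Complex.exp_mul_I, ← Complex.ofReal_cos, ← Complex.ofReal_sin, Real.cos_neg,
      Real.sin_neg]
    rw [show -(r * Real.sin ψ) = r * (-Real.sin ψ) by ring, mk_polar]
    ring
  have hcs : Real.cos ψ ^ 2 + Real.sin ψ ^ 2 = 1 := by rw [add_comm]; exact Real.sin_sq_add_cos_sq ψ
  have hnorm : ∀ y : ℝ, y ^ 2 = (r * Real.sin ψ) ^ 2 →
      ‖cen s c + (⟨r * Real.cos ψ, y⟩ : ℂ) * qd k - cen s c‖ = r := by
    intro y hy
    obtain ⟨f1, f2⟩ := fa_add (cen s c) k ⟨r * Real.cos ψ, y⟩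
    have := norm_sq (cen s c) k (cen s c + (⟨r * Real.cos ψ, y⟩ : ℂ) * qd k)
    rw [f1, f2] at this
    simp only at this
    rw [hy] at this
    have h6 : ‖cen s c + (⟨r * Real.cos ψ, y⟩ : ℂ) * qd k - cen s c‖ ^ 2 = r ^ 2 := by
      rw [this]; linear_combination r ^ 2 * hcs
    exact (pow_left_inj₀ (norm_nonneg _) hr0.le two_ne_zero).1 h6
  constructor
  · rw [e1]
    obtain ⟨f1, f2⟩ := fa_add (cen s c) k ⟨r * Real.cos ψ, r * Real.sin ψ⟩
    exact D.Qd_sub hs k (mem_Qd_polar hs hM hr (by linarith) h4 (Or.inl h5) f1 f2 (hnorm _ rfl))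
  · rw [e2]
    obtain ⟨f1, f2⟩ := fa_add (cen s c) k ⟨r * Real.cos ψ, -(r * Real.sin ψ)⟩
    refine D.Qd_sub hs (k - 1) (mem_Qd_polar hs hM hr h4 (by linarith : s / Lr s M < Real.cos ψ)
      (Or.inr h5) ?_ ?_ (hnorm _ (by ring)))
    · rw [fa_pred, f2]; simp
    · rw [sub_add_cancel, f1]

theorem CellDom.ok (D : CellDom F L v m c M U) (hs : 0 < s) : (cfgC s F v m c M U).OK s where
  Lpos := Lr_pos hs D.cfg.M_pos
  dpos := hs
  opn := fun i => Rg_open s F v m c M U i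
  con := fun i => D.Rg_conn hs i
  qn := qd_norm
  ang := by
    refine ⟨fun k => k * (Real.pi / 2), ?_, ?_, ?_⟩
    · intro a b hab
      have : (a : ℝ) < b := by exact_mod_cast hab
      have hpi := Real.pi_pos
      show (a : ℝ) * (Real.pi / 2) < b * (Real.pi / 2)
      nlinarith
    · intro k
      push_cast
      ring
    · intro k
      exact qd_exp k
  far := by
    rintro i j hij z ⟨hz, -⟩ w ⟨hw, -⟩
    by_contra hcon
    push Not at hcon
    exact hij (D.sep i j _ ((mem_om hs).1 hz _ (mem_cellOf hs z)) _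
      ((mem_om hs).1 hw _ (mem_cellOf hs w))
      (near_N8 hs (mem_cellOf hs z) (mem_cellOf hs w) (by rw [dist_eq_norm]; exact hcon)))
  tent := by
    intro z hz
    constructor
    · intro h
      obtain ⟨k, hk⟩ := D.far_cone hs hz h
      exact ⟨k, (Cn_iff hs D.cfg.M_pos hz k).2 hk⟩
    · rintro ⟨k, hk⟩ i hi
      exact hi.2 (mem_iUnion.2 ⟨k, (Cn_iff hs D.cfg.M_pos hz k).1 hk⟩)
  sect := fun k r hr => D.sect hs k r hr

end

end Crest.Agent.R143.Cdx806
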