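import Crest.Agent.R143.Cd5_806

/-!
# Row 143 (S0194), block D, TentC, file 6 (helper806): the polygon

* `CellDom.norm_idx` : boundary indices modulo the period
* `CellDom.nb`, `CellDom.side_fine`, `CellDom.cen_mem`, `CellDom.mth`
-/

set_option autoImplicit false

noncomputable section

namespace Crest.Agent.R143.Cdx806

open Set Metric
open Crest.Agent.R158.Sp896 Crest.Agent.R143.Tentx359 Crest.Agent.R158.Tj656
open Crest.Agent.R143.Tenx416 (nx Pg OnS)

theorem Pg_diff_Om {s : ℝ} (hs : 0 < s) {F : Set V} {L : ℕ} {v : ℕ → V} (hc : Cyc F L v) {z : ℂ}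
    (hz : z ∈ Pg s F) (hz' : z ∉ Om s F) : ∃ x, z ∈ ed s (v x) (v (x + 1)) := by
  obtain ⟨q, hq, hzq⟩ := mem_Pg.1 hz
  rw [mem_om hs] at hz'
  push Not at hz'
  obtain ⟨q', hzq', hq'⟩ := hz'
  obtain ⟨p, p', h1, h2, h3, h4, h5⟩ := Crest.Agent.R158.Tg331.exists_adj hs hzq hzq' hq hq'
  obtain ⟨a, b, hab, rfl, rfl⟩ := exists_dart h1
  obtain ⟨i, -, hi1, hi2⟩ := hc.all a b hab h2 h3
  refine ⟨i, ?_⟩
  rw [hi1, hi2, Crest.Agent.R158.Tg331.mem_ed_iff hs hab]
  exact ⟨h4, h5⟩

/-- a frontier point on a short segment -/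
theorem seg_front {s : ℝ} (hs : 0 < s) {F : Set V} {x w : ℂ} (hx : x ∈ Pg s F) (hw : w ∉ Pg s F) :
    ∃ z, z ∈ Pg s F ∧ z ∉ Om s F ∧ dist z x ≤ dist w x ∧ dist z w ≤ dist w x := by
  have hpre : IsPreconnected (segment ℝ x w) := (convex_segment x w).isPreconnected
  have h1 : ∃ z ∈ segment ℝ x w, z ∈ Pg s F ∧ z ∉ Om s F := by
    by_contra hcon
    push Not at hcon
    obtain ⟨z, -, hz1, hz2⟩ := hpre (Om s F) (Pg s F)ᶜ (om_open s F)
      (Pg_closed hs F).isOpen_compl (fun z hz => by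
        by_cases h : z ∈ Pg s F
        · exact Or.inl (hcon z hz h)
        · exact Or.inr h) ⟨x, left_mem_segment ℝ x w, hcon x (left_mem_segment ℝ x w) hx⟩
      ⟨w, right_mem_segment ℝ x w, hw⟩
    exact hz2 (mem_Pg.2 ⟨_, (mem_om hs).1 hz1 _ (mem_cellOf hs z), mem_cellOf hs z⟩)
  obtain ⟨z, hz, hzP, hzO⟩ := h1
  refine ⟨z, hzP, hzO, ?_, ?_⟩
  · have : segment ℝ x w ⊆ closedBall x (dist w x) :=
      (convex_closedBall x _).segment_subset (mem_closedBall_self dist_nonneg) (mem_closedBall.2 le_rfl)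
    exact this hz
  · have : segment ℝ x w ⊆ closedBall w (dist w x) :=
      (convex_closedBall w _).segment_subset (mem_closedBall.2 (by rw [dist_comm]))
        (mem_closedBall_self dist_nonneg)
    exact this hz

section

variable {F : Set V} {L : ℕ} {v : ℕ → V} {m : ℕ → ℕ} {c : V} {M : ℤ} {U : ℕ → ℕ → V} {s : ℝ}

theorem CellDom.norm_idx (D : CellDom F L v m c M U) (x : ℕ) : ∃ (i : ZMod 4) (y : ℕ),
    m i.val ≤ y ∧ y < nx L m i ∧ v y = v x ∧ v (y + 1) = v (x + 1) := by
  have h1 := D.cfg.m01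
  have h2 := D.cfg.m12
  have h3 := D.cfg.m23
  have h4 := D.cfg.m3L
  have hL := D.cfg.cyc.four_le
  have hp : Function.Periodic v L := D.cfg.cyc.per
  have e1 : v (x % L) = v x := hp.map_mod_nat x
  have e2 : v (x % L + 1) = v (x + 1) := by
    rw [← hp.map_mod_nat (x + 1), ← hp.map_mod_nat (x % L + 1), Nat.mod_add_mod]
  have e3 : x % L < L := Nat.mod_lt _ (by omega)
  rcases Nat.lt_or_ge (x % L) (m 0) with g0 | g0
  · refine ⟨3, x % L + L, ?_, ?_, ?_, ?_⟩
    · show m 3 ≤ x % L + L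
      omega
    · show x % L + L < m 0 + L
      omega
    · rw [hp]; exact e1
    · rw [show x % L + L + 1 = x % L + 1 + L by ring, hp]; exact e2
  rcases Nat.lt_or_ge (x % L) (m 1) with g1 | g1
  · exact ⟨0, x % L, g0, g1, e1, e2⟩
  rcases Nat.lt_or_ge (x % L) (m 2) with g2 | g2
  · exact ⟨1, x % L, g1, g2, e1, e2⟩
  rcases Nat.lt_or_ge (x % L) (m 3) with g3 | g3
  · exact ⟨2, x % L, g2, g3, e1, e2⟩
  · refine ⟨3, x % L, g3, ?_, e1, e2⟩
    show x % L < m 0 + L
    omega

theorem CellDom.edge_lr (D : CellDom F L v m c M U) (hs : 0 < s) {y : ℕ} {z : ℂ}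
    (hz : z ∈ ed s (v y) (v (y + 1))) : z ∈ sq s (lcv v y) ∧ z ∈ sq s (rcv v y) :=
  (Crest.Agent.R158.Tg331.mem_ed_iff hs (D.cfg.cyc.step y)).1 hz

theorem Rg_not_Pg (hs : 0 < s) {i : ZMod 4} {w : ℂ} (h : w ∈ Rg s F v m c M U i) :
    w ∉ Pg s F := by
  intro hw
  obtain ⟨q, hq, hwq⟩ := mem_Pg.1 hw
  exact body_not_Om hs (Or.inl hq) hwq i h.1

/-- the mark `j` as a last mark -/
theorem CellDom.last_mark (D : CellDom F L v m c M U) (j : ZMod 4) :
    v (nx L m (j - 1)) = v (m j.val) ∧ v (nx L m (j - 1) + 1) = v (m j.val + 1) := by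
  have hp : Function.Periodic v L := D.cfg.cyc.per
  rcases z4 j with rfl | rfl | rfl | rfl
  · have e : nx L m (0 - 1) = m 0 + L := rfl
    rw [e, show m 0 + L + 1 = m 0 + 1 + L by ring, hp, hp]
    exact ⟨rfl, rfl⟩
  · exact ⟨rfl, rfl⟩
  · exact ⟨rfl, rfl⟩
  · exact ⟨rfl, rfl⟩

/-- the region `i` only comes near the polygon at the side `i` -/
theorem CellDom.nb (D : CellDom F L v m c M U) (hs : 0 < s) {x : ℂ} (hx : x ∈ Pg s F)
    (i : ZMod 4) {w : ℂ} (hw : w ∈ Rg s F v m c M U i) (h : dist w x < s / 4) :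
    ∃ y, OnS L m i y ∧ ∃ z ∈ ed s (v y) (v (y + 1)), dist z x < s / 4 := by
  obtain ⟨z, hz, hz', hd1, hd2⟩ := seg_front hs hx (Rg_not_Pg hs hw)
  obtain ⟨x0, hx0⟩ := Pg_diff_Om hs D.cfg.cyc hz hz'
  obtain ⟨j, y, hy1, hy2, hy3, hy4⟩ := D.norm_idx x0
  rw [← hy3, ← hy4] at hx0
  have hzr := (D.edge_lr hs hx0).2
  have hq := (mem_om hs).1 hw.1 _ (mem_cellOf hs w)
  have hN := near_N8 hs hzr (mem_cellOf hs w) (by linarith)
  have hdz : dist z x < s / 4 := by linarith
  rcases hy1.eq_or_lt with he | hlt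
  · have e1 : rcv v y = U j.val (0 + 1) := by
      rw [← he]; exact (D.cfg.start1 _ (zlt j)).symm
    rw [e1] at hN
    rcases D.near_tent j hN hq.1 with h2 | h2
    · have := D.disj hq h2
      subst this
      exact ⟨y, ⟨hy1, hy2.le⟩, z, hx0, hdz⟩
    · have := D.disj hq h2
      subst this
      obtain ⟨f1, f2⟩ := D.last_mark j
      refine ⟨nx L m (j - 1), ⟨(D.mark_le _).le, le_rfl⟩, z, ?_, hdz⟩
      rw [f1, f2, he]
      exact hx0
  · have h2 := D.arc j y hlt hy2
    have h3 := D.sep _ _ _ h2 _ hq hN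
    subst h3
    exact ⟨y, ⟨hy1, hy2.le⟩, z, hx0, hdz⟩

/-- near the open side `i` -/
theorem CellDom.side_fine (D : CellDom F L v m c M U) (hs : 0 < s) {i : ZMod 4} {y : ℕ}
    (hy1 : m i.val < y) (hy2 : y < nx L m i) {z : ℂ} (hz : z ∈ ed s (v y) (v (y + 1)))
    (hfar : ∀ k : ZMod 4, ∀ w, dist w z < s / 4 → w ∉ sq s (U k.val 1)) :
    ball z (s / 4) ⊆ Pg s F ∪ Rg s F v m c M U i := by
  intro w hw
  rw [mem_ball] at hw
  by_cases hP : w ∈ Pg s F
  · exact Or.inl hP
  right
  obtain ⟨hl, hr⟩ := D.edge_lr hs hz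
  have harc := D.arc i y hy1 hy2
  refine ⟨(mem_om hs).2 fun q hq => ?_, ?_⟩
  · have hqF : q ∉ F := fun h => hP (mem_Pg.2 ⟨q, h, hq⟩)
    have hqT : q ∉ body F U 4 := by
      rintro (h | ⟨k, hk, n, hn⟩)
      · exact hqF h
      · have h1 : N8 (U k (n + 1)) (lcv v y) := by
          rw [← hn]; exact near_N8 hs hq hl (by linarith)
        obtain ⟨h2, -⟩ := D.tF k hk n _ (D.cfg.cyc.left y) h1
        subst h2
        obtain ⟨k', rfl⟩ := nat_z4 hk
        exact hfar k' w hw (hn ▸ hq)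
    exact D.cl_near harc hqT (near_N8 hs hr hq (by rw [dist_comm]; linarith))
  · rw [mem_iUnion, not_exists]
    intro k hk
    have h1 := hk.1
    have h2 := D.F_norm hs (mem_Pg.2 ⟨_, D.cfg.cyc.left y, hl⟩)
    have h3 := Lr_ge hs D.cfg.M_pos
    have h4 : ‖w - cen s c‖ ≤ dist w z + ‖z - cen s c‖ := by
      have := norm_sub_le_norm_sub_add_norm_sub w z (cen s c)
      rwa [← dist_eq_norm w z] at this
    linarith

/-- centres of the collar cells -/
theorem CellDom.cen_mem (D : CellDom F L v m c M U) (hs : 0 < s) {i : ZMod 4} {y : ℕ}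
    (hy1 : m i.val < y) (hy2 : y < nx L m i) : cen s (rcv v y) ∈ Rg s F v m c M U i := by
  have harc := D.arc i y hy1 hy2
  refine ⟨Crest.Agent.R158.Tg331.so_sub_Om hs harc (Crest.Agent.R158.Tg331.ce_so hs _), ?_⟩
  rw [mem_iUnion, not_exists]
  intro k hk
  have hz : pt s (v y) ∈ ed s (v y) (v (y + 1)) := left_mem_segment ℝ _ _
  obtain ⟨hl, hr⟩ := D.edge_lr hs hz
  have h1 := hk.1
  have h2 := D.F_norm hs (mem_Pg.2 ⟨_, D.cfg.cyc.left y, hl⟩)
  have h3 := Lr_ge hs D.cfg.M_pos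
  have h5 := sq_dist (Crest.Agent.R158.Tg331.so_sub s _ (Crest.Agent.R158.Tg331.ce_so hs (rcv v y))) hr
  have h4 := norm_sub_le_norm_sub_add_norm_sub (cen s (rcv v y)) (pt s (v y)) (cen s c)
  linarith

/-! ### the mouth -/

/-- the direction from `w` to `u` in frames -/
theorem dir_exists {w u : V} (h : Adj w u) : ∃ k : ZMod 4, ga w k u = 1 ∧ ga w (k + 1) u = 0 := by
  rcases h with ⟨h1, h2⟩ | ⟨h1, h2⟩ | ⟨h1, h2⟩ | ⟨h1, h2⟩
  · refine ⟨0, ?_, ?_⟩
    · rw [ga0]; omega
    · rw [show (0 : ZMod 4) + 1 = 1 from rfl, ga1]; omega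
  · refine ⟨2, ?_, ?_⟩
    · rw [ga2]; omega
    · rw [show (2 : ZMod 4) + 1 = 3 from rfl, ga3]; omega
  · refine ⟨1, ?_, ?_⟩
    · rw [ga1]; omega
    · rw [show (1 : ZMod 4) + 1 = 2 from rfl, ga2]; omega
  · refine ⟨3, ?_, ?_⟩
    · rw [ga3]; omega
    · rw [show (3 : ZMod 4) + 1 = 0 from rfl, ga0]; omega

/-- the dot product in frames -/
theorem dot_ga {u w f : V} {k : ZMod 4} (h1 : ga u k w = 1) (h2 : ga u (k + 1) w = 0) :
    (f.1 - u.1) * (w.1 - u.1) + (f.2 - u.2) * (w.2 - u.2) = ga u k f := by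
  rcases z4 k with rfl | rfl | rfl | rfl
  · rw [show (0 : ZMod 4) + 1 = 1 from rfl, ga1] at h2
    rw [ga0] at h1 ⊢
    rw [h1, h2]; ring
  · rw [show (1 : ZMod 4) + 1 = 2 from rfl, ga2] at h2
    rw [ga1] at h1 ⊢
    have h3 : w.1 - u.1 = 0 := by omega
    rw [h1, h3]; ring
  · rw [show (2 : ZMod 4) + 1 = 3 from rfl, ga3] at h2
    rw [ga2] at h1 ⊢
    have h3 : w.1 - u.1 = -1 := by omega
    have h4 : w.2 - u.2 = 0 := by omega
    rw [h3, h4]; ring
  · rw [show (3 : ZMod 4) + 1 = 0 from rfl, ga0] at h2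
    rw [ga3] at h1 ⊢
    have h4 : w.2 - u.2 = -1 := by omega
    rw [h2, h4]; ring

/-- middle of the edge `x` -/
def mid (s : ℝ) (v : ℕ → V) (x : ℕ) : ℂ := (pt s (v x) + pt s (v (x + 1))) / 2

/-- points of the line of an edge -/
theorem line_pt {s : ℝ} (hs : 0 < s) {a b : V} (hab : Adj a b) {k : ZMod 4}
    (h1 : ga (rc a b) k (lc a b) = 1) (h2 : ga (rc a b) (k + 1) (lc a b) = 0) {z : ℂ}
    (hz : fa (cen s (rc a b)) k z = s / 2) (hz' : |fa (cen s (rc a b)) (k + 1) z| ≤ 3 / 4 * s) :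
    ∃ t : ℝ, |t| ≤ 3 / 4 ∧ z = (pt s a + pt s b) / 2 + (t : ℂ) * (pt s b - pt s a) := by
  have key : ∀ y : ℝ, |y| ≤ 3 / 4 * s → |y / s| ≤ 3 / 4 := by
    intro y hy
    rw [abs_div, abs_of_pos hs, div_le_iff₀ hs]
    exact hy
  have hsne := hs.ne'
  rcases hab with ⟨e1, e2⟩ | ⟨e1, e2⟩ | ⟨e1, e2⟩ | ⟨e1, e2⟩
  · have f1 : lc a b = (a.1, a.2) := by unfold lc; ext <;> simp only <;> omega
    have f2 : rc a b = (a.1, a.2 - 1) := by unfold rc; ext <;> simp only <;> omega
    rw [f1, f2] at h1 h2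
    rw [f2] at hz hz'
    have hk : k = 1 := by
      rcases z4 k with rfl | rfl | rfl | rfl
      · rw [ga0] at h1; simp only at h1; omega
      · rfl
      · rw [ga2] at h1; simp only at h1; omega
      · rw [ga3] at h1; simp only at h1; omega
    subst hk
    rw [show (1 : ZMod 4) + 1 = 2 from rfl, fa2, abs_neg] at hz'
    rw [fa1] at hz
    simp only [cen, Complex.sub_re, Complex.sub_im] at hz hz'
    push_cast at hz
    refine ⟨(z.re - s * (a.1 + 1 / 2)) / s, key _ hz', ?_⟩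
    apply Complex.ext
    · rw [Complex.add_re, Complex.re_ofReal_mul, Complex.sub_re,
        show (2 : ℂ) = ((2 : ℝ) : ℂ) by norm_num, Complex.div_ofReal_re, Complex.add_re]
      simp only [pt, e1]
      push_cast
      field_simp
      ring
    · rw [Complex.add_im, Complex.im_ofReal_mul, Complex.sub_im,
        show (2 : ℂ) = ((2 : ℝ) : ℂ) by norm_num, Complex.div_ofReal_im, Complex.add_im]
      simp only [pt, e2]
      linarith
  · have f1 : lc a b = (a.1 - 1, a.2 - 1) := by unfold lc; ext <;> simp only <;> omega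
    have f2 : rc a b = (a.1 - 1, a.2) := by unfold rc; ext <;> simp only <;> omega
    rw [f1, f2] at h1 h2
    rw [f2] at hz hz'
    have hk : k = 3 := by
      rcases z4 k with rfl | rfl | rfl | rfl
      · rw [ga0] at h1; simp only at h1; omega
      · rw [ga1] at h1; simp only at h1; omega
      · rw [ga2] at h1; simp only at h1; omega
      · rfl
    subst hk
    rw [show (3 : ZMod 4) + 1 = 0 from rfl, fa0] at hz'
    rw [fa3] at hz
    simp only [cen, Complex.sub_re, Complex.sub_im] at hz hz'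
    push_cast at hz hz'
    refine ⟨(s * (a.1 - 1 / 2) - z.re) / s, key _ (by
      rw [← abs_neg]; convert hz' using 2; ring), ?_⟩
    apply Complex.ext
    · rw [Complex.add_re, Complex.re_ofReal_mul, Complex.sub_re,
        show (2 : ℂ) = ((2 : ℝ) : ℂ) by norm_num, Complex.div_ofReal_re, Complex.add_re]
      simp only [pt, e1]
      push_cast
      field_simp
      ring
    · rw [Complex.add_im, Complex.im_ofReal_mul, Complex.sub_im,
        show (2 : ℂ) = ((2 : ℝ) : ℂ) by norm_num, Complex.div_ofReal_im, Complex.add_im]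
      simp only [pt, e2]
      linarith
  · have f1 : lc a b = (a.1 - 1, a.2) := by unfold lc; ext <;> simp only <;> omega
    have f2 : rc a b = (a.1, a.2) := by unfold rc; ext <;> simp only <;> omega
    rw [f1, f2] at h1 h2
    rw [f2] at hz hz'
    have hk : k = 2 := by
      rcases z4 k with rfl | rfl | rfl | rfl
      · rw [ga0] at h1; simp only at h1; omega
      · rw [ga1] at h1; simp only at h1; omega
      · rfl
      · rw [ga3] at h1; simp only at h1; omega
    subst hk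
    rw [show (2 : ZMod 4) + 1 = 3 from rfl, fa3, abs_neg] at hz'
    rw [fa2] at hz
    simp only [cen, Complex.sub_re, Complex.sub_im] at hz hz'
    refine ⟨(z.im - s * (a.2 + 1 / 2)) / s, key _ hz', ?_⟩
    apply Complex.ext
    · rw [Complex.add_re, Complex.re_ofReal_mul, Complex.sub_re,
        show (2 : ℂ) = ((2 : ℝ) : ℂ) by norm_num, Complex.div_ofReal_re, Complex.add_re]
      simp only [pt, e1]
      linarith
    · rw [Complex.add_im, Complex.im_ofReal_mul, Complex.sub_im,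
        show (2 : ℂ) = ((2 : ℝ) : ℂ) by norm_num, Complex.div_ofReal_im, Complex.add_im]
      simp only [pt, e2]
      push_cast
      field_simp
      ring
  · have f1 : lc a b = (a.1, a.2 - 1) := by unfold lc; ext <;> simp only <;> omega
    have f2 : rc a b = (a.1 - 1, a.2 - 1) := by unfold rc; ext <;> simp only <;> omega
    rw [f1, f2] at h1 h2
    rw [f2] at hz hz'
    have hk : k = 0 := by
      rcases z4 k with rfl | rfl | rfl | rfl
      · rfl
      · rw [ga1] at h1; simp only at h1; omega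
      · rw [ga2] at h1; simp only at h1; omega
      · rw [ga3] at h1; simp only at h1; omega
    subst hk
    rw [show (0 : ZMod 4) + 1 = 1 from rfl, fa1] at hz'
    rw [fa0] at hz
    simp only [cen, Complex.sub_re, Complex.sub_im] at hz hz'
    push_cast at hz hz'
    refine ⟨(s * (a.2 - 1 / 2) - z.im) / s, key _ (by
      rw [← abs_neg]; convert hz' using 2; ring), ?_⟩
    apply Complex.ext
    · rw [Complex.add_re, Complex.re_ofReal_mul, Complex.sub_re,
        show (2 : ℂ) = ((2 : ℝ) : ℂ) by norm_num, Complex.div_ofReal_re, Complex.add_re]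
      simp only [pt, e1]
      linarith
    · rw [Complex.add_im, Complex.im_ofReal_mul, Complex.sub_im,
        show (2 : ℂ) = ((2 : ℝ) : ℂ) by norm_num, Complex.div_ofReal_im, Complex.add_im]
      simp only [pt, e2]
      push_cast
      field_simp
      ring

/-- the tentacle `k` only comes near the polygon at its mouth -/
theorem CellDom.mth (D : CellDom F L v m c M U) (hs : 0 < s) (k : ZMod 4) {w x : ℂ}
    (hw : w ∈ Bt s c M U k) (hx : x ∈ Pg s F) (h : dist w x < s / 4) :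
    ∃ t : ℝ, |t| ≤ 3 / 4 ∧
      dist (mid s v (m k.val) + (t : ℂ) * (pt s (v (m k.val + 1)) - pt s (v (m k.val)))) w < s / 4 ∧
      dist (mid s v (m k.val) + (t : ℂ) * (pt s (v (m k.val + 1)) - pt s (v (m k.val)))) x < s / 4 := by
  rcases hw with hw | hw
  · obtain ⟨q, ⟨n, rfl⟩, hq⟩ := mem_Pg.1 hw
    obtain ⟨f, hf, hxf⟩ := mem_Pg.1 hx
    obtain ⟨hn, hdot⟩ := D.tF _ (zlt k) n f hf (near_N8 hs hq hxf (by linarith))
    subst hn
    have hstep := D.cfg.step _ (zlt k) 0
    have e0 := D.cfg.start0 _ (zlt k)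
    have e1 := D.cfg.start1 _ (zlt k)
    rw [Nat.zero_add] at hq hstep
    obtain ⟨i, hi1, hi2⟩ := dir_exists hstep.symm
    rw [dot_ga hi1 hi2] at hdot
    -- intermediate point
    have a1 := sq_fa (c := U k.val 1) i hq
    have a2 := sq_fa (c := U k.val 1) (i + 1) hq
    have a3 := sq_fa (c := U k.val 1) i hxf
    have g0 : ∀ j : ZMod 4, ga (U k.val 1) j (U k.val 1) = 0 := by
      intro j
      rcases z4 j with rfl | rfl | rfl | rfl
      · rw [ga0]; omega
      · rw [ga1]; omega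
      · rw [ga2]; omega
      · rw [ga3]; omega
    rw [g0] at a1 a2
    rw [hdot] at a3
    push_cast at a1 a2 a3
    have hpre : IsPreconnected (segment ℝ w x) := (convex_segment w x).isPreconnected
    have hiv := hpre.intermediate_value (left_mem_segment ℝ w x) (right_mem_segment ℝ w x)
      (fa_cont (cen s (U k.val 1)) i).continuousOn
    obtain ⟨z, hz, hzv⟩ := hiv (show s / 2 ∈ Icc _ _ from ⟨by linarith [a1.2], by linarith [a3.1]⟩)
    have d1 : dist z w ≤ dist w x := by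
      have : segment ℝ w x ⊆ closedBall w (dist w x) :=
        (convex_closedBall w _).segment_subset (mem_closedBall_self dist_nonneg)
          (mem_closedBall.2 (by rw [dist_comm]))
      exact this hz
    have d2 : dist z x ≤ dist w x := by
      have : segment ℝ w x ⊆ closedBall x (dist w x) :=
        (convex_closedBall x _).segment_subset (mem_closedBall.2 le_rfl)
          (mem_closedBall_self dist_nonneg)
      exact this hz
    have d3 := abs_le.1 ((fa_sub (cen s (U k.val 1)) (i + 1) z w).trans d1)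
    rw [e0, e1] at hi1 hi2
    rw [e1] at hzv d3 a2
    obtain ⟨t, ht, hzt⟩ := line_pt hs (D.cfg.cyc.step (m k.val)) hi1 hi2 hzv (by
      rw [abs_le]
      unfold rcv at d3 a2
      constructor <;> linarith [d3.1, d3.2, a2.1, a2.2])
    refine ⟨t, ht, ?_, ?_⟩
    · have : mid s v (m k.val) + (t : ℂ) * (pt s (v (m k.val + 1)) - pt s (v (m k.val))) = z :=
        hzt.symm
      rw [this]; linarith
    · have : mid s v (m k.val) + (t : ℂ) * (pt s (v (m k.val + 1)) - pt s (v (m k.val))) = z :=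
        hzt.symm
      rw [this]; linarith
  · exfalso
    have h1 := hw.1
    have h2 := D.F_norm hs hx
    have h3 := Lr_ge hs D.cfg.M_pos
    have h4 : ‖w - cen s c‖ ≤ dist w x + ‖x - cen s c‖ := by
      have := norm_sub_le_norm_sub_add_norm_sub w x (cen s c)
      rwa [← dist_eq_norm w x] at this
    linarith

end

end Crest.Agent.R143.Cdx806
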