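import Crest.Agent.R143.Cd6_806

/-!
# Row 143 (S0194), block D, TentC, file 7 (helper806): the path in the tentacle

* `CellDom.path`
-/

set_option autoImplicit false

noncomputable section

namespace Crest.Agent.R143.Cdx806

open Set Metric
open Crest.Agent.R158.Sp896 Crest.Agent.R143.Tentx359 Crest.Agent.R158.Tj656
open Crest.Agent.R143.Tenx416 (nx Pg OnS)

theorem fa_cen (s : ℝ) (c : V) (k : ZMod 4) (q : V) : fa (cen s c) k (cen s q) = s * ga c k q := by
  rcases z4 k with rfl | rfl | rfl | rfl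
  · rw [fa0, ga0]; simp only [cen, Complex.sub_re]; push_cast; ring
  · rw [fa1, ga1]; simp only [cen, Complex.sub_im]; push_cast; ring
  · rw [fa2, ga2]; simp only [cen, Complex.sub_re]; push_cast; ring
  · rw [fa3, ga3]; simp only [cen, Complex.sub_im]; push_cast; ring

theorem eq_of_ga {c p q : V} (k : ZMod 4) (h1 : ga c k p = ga c k q)
    (h2 : ga c (k + 1) p = ga c (k + 1) q) : p = q := by
  rw [← fp_ga c k p, ← fp_ga c k q, h1, h2]

theorem ga_self (c : V) (k : ZMod 4) : ga c k c = 0 := by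
  rcases z4 k with rfl | rfl | rfl | rfl
  · rw [ga0]; omega
  · rw [ga1]; omega
  · rw [ga2]; omega
  · rw [ga3]; omega

/-- coordinates on the segment of the centres of two adjacent cells -/
theorem seg_coord {s : ℝ} (hs : 0 < s) {q q' : V} {i : ZMod 4} (h1 : ga q i q' = 1)
    (h2 : ga q (i + 1) q' = 0) {y : ℂ} (hy : y ∈ segment ℝ (cen s q) (cen s q')) :
    0 ≤ fa (cen s q) i y ∧ fa (cen s q) i y ≤ s ∧ fa (cen s q) (i + 1) y = 0 := by
  obtain ⟨a, b, ha, hb, hab, rfl⟩ := hy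
  rw [fa_comb _ _ _ _ hab, fa_comb _ _ _ _ hab, fa_cen, fa_cen, fa_cen, fa_cen, ga_self, ga_self,
    h1, h2]
  push_cast
  refine ⟨?_, ?_, ?_⟩
  · nlinarith
  · nlinarith
  · ring

theorem seg_cells {s : ℝ} (hs : 0 < s) {q q' : V} (h : Adj q q') {y : ℂ}
    (hy : y ∈ segment ℝ (cen s q) (cen s q')) {p : V} (hp : y ∈ sq s p) : p = q ∨ p = q' := by
  obtain ⟨i, h1, h2⟩ := dir_exists h
  obtain ⟨a1, a2, a3⟩ := seg_coord hs h1 h2 hy
  have b1 := sq_fa (c := q) i hp
  have b2 := sq_fa (c := q) (i + 1) hp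
  rw [a3] at b2
  have key : ∀ a b : ℤ, s * a - s / 2 ≤ s * b → a ≤ b := by
    intro a b hab
    have h3 : s * (a : ℝ) < s * (b + 1) := by linarith
    have h4 : (a : ℝ) < b + 1 := lt_of_mul_lt_mul_left h3 hs.le
    have h5 : a < b + 1 := by exact_mod_cast h4
    omega
  have c1 : ga q (i + 1) p ≤ 0 := key _ 0 (by push_cast; linarith [b2.1])
  have c2 : 0 ≤ ga q (i + 1) p := key 0 _ (by push_cast; linarith [b2.2])
  have c3 : ga q i p ≤ 1 := key _ 1 (by push_cast; linarith [b1.1])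
  have c4 : 0 ≤ ga q i p := key 0 _ (by push_cast; linarith [b1.2])
  have c5 : ga q i p = 0 ∨ ga q i p = 1 := by omega
  rcases c5 with c5 | c5
  · left
    exact eq_of_ga (c := q) i (by rw [c5, ga_self]) (by rw [ga_self]; omega)
  · right
    exact eq_of_ga (c := q) i (by rw [c5, h1]) (by rw [h2]; omega)

theorem seg_ball {s : ℝ} (hs : 0 < s) {q q' : V} (h : Adj q q') {y w : ℂ}
    (hy : y ∈ segment ℝ (cen s q) (cen s q')) (hw : dist w y ≤ s / 2) : w ∈ sq s q ∨ w ∈ sq s q' := by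
  obtain ⟨i, h1, h2⟩ := dir_exists h
  obtain ⟨a1, a2, a3⟩ := seg_coord hs h1 h2 hy
  have b1 := abs_le.1 ((fa_sub (cen s q) i w y).trans hw)
  have b2 := abs_le.1 ((fa_sub (cen s q) (i + 1) w y).trans hw)
  rw [a3] at b2
  rcases le_total (fa (cen s q) i w) (s / 2) with h3 | h3
  · left
    rw [sq_iff (c := q) i, ga_self, ga_self, abs_le, abs_le]
    push_cast
    refine ⟨⟨?_, ?_⟩, ?_, ?_⟩ <;> linarith [b1.1, b1.2, b2.1, b2.2]
  · right
    rw [sq_iff (c := q) i, h1, h2, abs_le, abs_le]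
    push_cast
    refine ⟨⟨?_, ?_⟩, ?_, ?_⟩ <;> linarith [b1.1, b1.2, b2.1, b2.2]

theorem chain_exists (W : ℕ → ℂ) (n : ℕ) : ∃ P : Set ℂ, IsPreconnected P ∧ W 0 ∈ P ∧ W n ∈ P ∧
    ∀ y ∈ P, y = W 0 ∨ ∃ j < n, y ∈ segment ℝ (W j) (W (j + 1)) := by
  induction n with
  | zero => exact ⟨{W 0}, isPreconnected_singleton, rfl, rfl, fun y hy => Or.inl hy⟩
  | succ n ih =>
    obtain ⟨P, h1, h2, h3, h4⟩ := ih
    refine ⟨P ∪ segment ℝ (W n) (W (n + 1)), ?_, Or.inl h2, Or.inr (right_mem_segment ℝ _ _), ?_⟩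
    · exact IsPreconnected.union (W n) h3 (left_mem_segment ℝ _ _) h1
        (convex_segment _ _).isPreconnected
    · rintro y (hy | hy)
      · rcases h4 y hy with h5 | ⟨j, hj, h5⟩
        · exact Or.inl h5
        · exact Or.inr ⟨j, by omega, h5⟩
      · exact Or.inr ⟨n, by omega, hy⟩

section

variable {F : Set V} {L : ℕ} {v : ℕ → V} {m : ℕ → ℕ} {c : V} {M : ℤ} {U : ℕ → ℕ → V} {s : ℝ}

/-- points near the axis of the ray are in cells of the tentacle -/
theorem CellDom.near_axis (D : CellDom F L v m c M U) (hs : 0 < s) (k : ZMod 4) {w : ℂ}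
    (h1 : s * M - s / 4 ≤ fa (cen s c) k w) (h2 : |fa (cen s c) (k + 1) w| ≤ s / 2) :
    ∃ q ∈ Tc U k, w ∈ sq s q := by
  obtain ⟨j0, h0, -, h3⟩ := D.cfg.ray k.val (zlt k)
  set r : ℤ := ⌊fa (cen s c) k w / s + 1 / 2⌋ with hr
  have e1 : (r : ℝ) ≤ fa (cen s c) k w / s + 1 / 2 := Int.floor_le _
  have e2 : fa (cen s c) k w / s + 1 / 2 < r + 1 := Int.lt_floor_add_one _
  have e3 : fa (cen s c) k w = s * (fa (cen s c) k w / s) := by field_simp
  have f1 : s * r ≤ fa (cen s c) k w + s / 2 := by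
    have := mul_le_mul_of_nonneg_left e1 hs.le
    rw [mul_add, ← e3] at this
    linarith
  have f2 : fa (cen s c) k w + s / 2 < s * r + s := by
    have := mul_lt_mul_of_pos_left e2 hs
    rw [mul_add, ← e3] at this
    linarith
  have hM : M ≤ r := by
    have h4 : s * (M : ℝ) < s * (r + 1) := by linarith
    have h5 : (M : ℝ) < r + 1 := lt_of_mul_lt_mul_left h4 hs.le
    have h6 : M < r + 1 := by exact_mod_cast h5
    omega
  obtain ⟨g1, g2⟩ := ga_fp c k r 0
  refine ⟨fp c k.val r 0, ⟨j0 + (r - M).toNat - 1, ?_⟩, ?_⟩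
  · rw [show j0 + (r - M).toNat - 1 + 1 = j0 + (r - M).toNat by omega, h3]
    have : (((r - M).toNat : ℕ) : ℤ) = r - M := Int.toNat_of_nonneg (by omega)
    rw [this]
    unfold fp
    ext <;> simp
  · rw [sq_iff (c := c) k, g1, g2, abs_le]
    push_cast
    refine ⟨⟨by linarith, by linarith⟩, by rw [mul_zero, sub_zero]; exact h2⟩

theorem Tc_body {k : ZMod 4} {q : V} (h : q ∈ Tc U k) : q ∈ body F U 4 := by
  obtain ⟨j, hj⟩ := h
  exact Or.inr ⟨k.val, zlt k, j, hj⟩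

theorem CellDom.path (D : CellDom F L v m c M U) (hs : 0 < s) (k : ZMod 4) :
    ∃ P : Set ℂ, IsPreconnected P ∧ P ⊆ Bt s c M U k ∪ Pg s F ∧
    P ⊆ closedBall (cen s c) (3 / 4 * Lr s M) ∧
    cen s c + ((3 / 4 * Lr s M : ℝ) : ℂ) * qd k ∈ P ∧
    P ∩ Pg s F ⊆ sq s (lcv v (m k.val)) ∧
    cen s (lcv v (m k.val)) ∈ P ∧
    ∀ y ∈ P, Disjoint (ball y (s / 4)) (cfgC s F v m c M U).out := by
  have hM := D.cfg.M_pos
  have hMr : (1 : ℝ) ≤ M := by exact_mod_cast hM
  have hLd : Lr s M = 16 * s * (M + 2) := rfl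
  obtain ⟨j0, h0, hbox, hray⟩ := D.cfg.ray k.val (zlt k)
  have e0 := D.cfg.start0 _ (zlt k)
  obtain ⟨P, hP1, hP2, hP3, hP4⟩ := chain_exists (fun j => cen s (U k.val j)) j0
  have hP4' : ∀ y ∈ P, ∃ j < j0, y ∈ segment ℝ (cen s (U k.val j)) (cen s (U k.val (j + 1))) := by
    intro y hy
    rcases hP4 y hy with h | h
    · exact ⟨0, h0, by rw [h]; exact left_mem_segment ℝ _ _⟩
    · exact h
  -- the cells of the chain
  have hcell : ∀ j, U k.val j ∈ body F U 4 := by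
    intro j
    rcases Nat.eq_zero_or_pos j with h | h
    · left; rw [h, e0]; exact D.cfg.cyc.left _
    · exact Or.inr ⟨k.val, zlt k, j - 1, by rw [Nat.sub_add_cancel h]⟩
  have hin : ∀ j, Pg s {U k.val j} ⊆ Bt s c M U k ∪ Pg s F := by
    intro j z hz
    obtain ⟨q, hq, hzq⟩ := mem_Pg.1 hz
    rw [mem_singleton_iff] at hq
    subst hq
    rcases Nat.eq_zero_or_pos j with h | h
    · right
      refine mem_Pg.2 ⟨_, ?_, hzq⟩
      rw [h, e0]; exact D.cfg.cyc.left _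
    · left; left
      exact mem_Pg.2 ⟨_, ⟨j - 1, by rw [Nat.sub_add_cancel h]⟩, hzq⟩
  -- the ray part
  set A : ℂ := cen s c + ((s * M : ℝ) : ℂ) * qd k with hA
  set B : ℂ := cen s c + ((3 / 4 * Lr s M : ℝ) : ℂ) * qd k with hB
  have hA' : cen s (U k.val j0) = A := by
    have e1 := hray 0
    rw [add_zero] at e1
    have e2 : U k.val j0 = fp c k.val M 0 := by
      rw [e1]; unfold fp; ext <;> simp
    obtain ⟨g1, g2⟩ := ga_fp c k M 0
    rw [eq_fa (cen s c) k (cen s (U k.val j0)), fa_cen, fa_cen, e2, g1, g2, hA]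
    congr 2
    apply Complex.ext <;> simp
  obtain ⟨fA1, fA2⟩ := fa_add (cen s c) k ((s * M : ℝ) : ℂ)
  obtain ⟨fB1, fB2⟩ := fa_add (cen s c) k ((3 / 4 * Lr s M : ℝ) : ℂ)
  rw [Complex.ofReal_re] at fA1 fB1
  rw [Complex.ofReal_im] at fA2 fB2
  have hAB : s * M ≤ 3 / 4 * Lr s M := by rw [hLd]; nlinarith
  have hseg : ∀ y ∈ segment ℝ A B, s * M ≤ fa (cen s c) k y ∧ fa (cen s c) k y ≤ 3 / 4 * Lr s M ∧
      fa (cen s c) (k + 1) y = 0 := by
    rintro y ⟨a, b, ha, hb, hab, rfl⟩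
    rw [fa_comb _ _ _ _ hab, fa_comb _ _ _ _ hab, fA1, fA2, fB1, fB2]
    have : a = 1 - b := by linarith
    subst this
    refine ⟨?_, ?_, ?_⟩
    · nlinarith
    · nlinarith
    · ring
  refine ⟨P ∪ segment ℝ A B, ?_, ?_, ?_, Or.inr (right_mem_segment ℝ _ _), ?_, Or.inl ?_, ?_⟩
  · exact IsPreconnected.union A (hA' ▸ hP3) (left_mem_segment ℝ _ _) hP1
      (convex_segment _ _).isPreconnected
  · rintro y (hy | hy)
    · obtain ⟨j, hj, hyj⟩ := hP4' y hy
      rcases seg_ball hs (D.cfg.step _ (zlt k) j) hyj (w := y) (by rw [dist_self]; linarith) with h | h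
      · exact hin j (mem_Pg.2 ⟨_, rfl, h⟩)
      · exact hin (j + 1) (mem_Pg.2 ⟨_, rfl, h⟩)
    · obtain ⟨a1, a2, a3⟩ := hseg y hy
      obtain ⟨q, hq, hyq⟩ := D.near_axis hs k (w := y) (by linarith)
        (by rw [a3, abs_zero]; linarith)
      exact Or.inl (Or.inl (mem_Pg.2 ⟨q, hq, hyq⟩))
  · rintro y (hy | hy)
    · obtain ⟨j, hj, hyj⟩ := hP4' y hy
      have hb : ∀ j ≤ j0, y ∈ sq s (U k.val j) → y ∈ closedBall (cen s c) (3 / 4 * Lr s M) := by
        intro j hj h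
        have h1 := norm_box hs (c := c) (R := M) (hbox j hj) h
        rw [mem_closedBall, dist_eq_norm, hLd]
        nlinarith
      rcases seg_ball hs (D.cfg.step _ (zlt k) j) hyj (w := y) (by rw [dist_self]; linarith) with h | h
      · exact hb j hj.le h
      · exact hb (j + 1) hj h
    · obtain ⟨a1, a2, a3⟩ := hseg y hy
      rw [mem_closedBall, dist_eq_norm]
      have h1 := norm_le_fa (cen s c) k y
      rw [a3, abs_zero, add_zero, abs_of_nonneg (by nlinarith)] at h1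
      linarith
  · rintro y ⟨hy | hy, hyF⟩
    · obtain ⟨f, hf, hyf⟩ := mem_Pg.1 hyF
      obtain ⟨j, hj, hyj⟩ := hP4' y hy
      rw [← e0]
      rcases seg_cells hs (D.cfg.step _ (zlt k) j) hyj hyf with h | h
      · rcases Nat.eq_zero_or_pos j with hj0 | hj0
        · rw [h, hj0] at hyf; exact hyf
        · exfalso
          have := D.cfg.out _ (zlt k) (j - 1)
          rw [Nat.sub_add_cancel hj0, ← h] at this
          exact this hf
      · exfalso
        have := D.cfg.out _ (zlt k) j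
        rw [← h] at this
        exact this hf
    · exfalso
      obtain ⟨a1, a2, a3⟩ := hseg y hy
      obtain ⟨f, hf, hyf⟩ := mem_Pg.1 hyF
      have h1 := D.cfg.box f hf
      have h2 : f ∈ Box c (M - 1) := ⟨by omega, by omega⟩
      have h3 := (abs_le.1 (box_ga h2 k)).2
      have h4 := (sq_fa (c := c) k hyf).2
      have h5 : (ga c k f : ℝ) ≤ M - 1 := by exact_mod_cast h3
      nlinarith
  · rw [← e0]; exact hP2
  · intro y hy
    rw [disjoint_left]
    intro w hw hwo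
    rw [mem_ball] at hw
    obtain ⟨i, hi⟩ := mem_out.1 hwo
    have key : ∃ q ∈ body F U 4, w ∈ sq s q := by
      rcases hy with hy | hy
      · obtain ⟨j, hj, hyj⟩ := hP4' y hy
        rcases seg_ball hs (D.cfg.step _ (zlt k) j) hyj (w := w) (by linarith) with h | h
        · exact ⟨_, hcell j, h⟩
        · exact ⟨_, hcell (j + 1), h⟩
      · obtain ⟨a1, a2, a3⟩ := hseg y hy
        have b1 := abs_le.1 (fa_sub (cen s c) k w y)
        have b2 := fa_sub (cen s c) (k + 1) w y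
        rw [a3, sub_zero] at b2
        obtain ⟨q, hq, hwq⟩ := D.near_axis hs k (w := w) (by linarith [b1.1]) (by linarith)
        exact ⟨q, Tc_body hq, hwq⟩
    obtain ⟨q, hq, hwq⟩ := key
    exact body_not_Om hs hq hwq i hi.1

end

end Crest.Agent.R143.Cdx806
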