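import Crest.Agent.R143.Cd7_806

/-!
# Row 143 (S0194), block D, TentC, file 8 (helper806): refinement and the real polygon

* `RefD K S s F F' N N' v v' m m'` : `F'` = refinement of `F` by `K`, meshes `S = K s`
* `refD_one` : one refinement, `RefD.comp` : composition
-/

set_option autoImplicit false

noncomputable section

namespace Crest.Agent.R143.Cdx806

open Set Metric
open Crest.Agent.R158.Sp896 Crest.Agent.R143.Tentx359 Crest.Agent.R158.Tj656
open Crest.Agent.R143.Tenx416 (nx Pg OnS)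

/-- refinement at the level of points -/
structure RefD (K : ℕ) (S s : ℝ) (F F' : Set V) (N N' : ℕ) (v v' : ℕ → V) (m m' : ℕ → ℕ) :
    Prop where
  Kpos : 0 < K
  spos : 0 < s
  mesh : S = K * s
  pg : Pg S F = Pg s F'
  edg : ∀ x, ed s (v' x) (v' (x + 1)) ⊆ ed S (v (x / K)) (v (x / K + 1))
  edg' : ∀ k, ∀ z ∈ ed S (v k) (v (k + 1)), ∃ x, x / K = k ∧ z ∈ ed s (v' x) (v' (x + 1))
  lcell : ∀ x, sq s (lcv v' x) ⊆ sq S (lcv v (x / K))
  mrk : ∃ r, 2 * r + 1 = K ∧ ∀ i, m' i = K * m i + r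
  per : N' = K * N
  dir : ∀ x, pt S (v (x / K + 1)) - pt S (v (x / K)) = K * (pt s (v' (x + 1)) - pt s (v' x))
  mid : ∀ i, mid s v' (m' i) = mid S v (m i)

theorem RefD.comp {K1 K2 : ℕ} {S s t : ℝ} {F F' F'' : Set V} {N N' N'' : ℕ} {v v' v'' : ℕ → V}
    {m m' m'' : ℕ → ℕ} (R1 : RefD K1 S s F F' N N' v v' m m')
    (R2 : RefD K2 s t F' F'' N' N'' v' v'' m' m'') :
    RefD (K1 * K2) S t F F'' N N'' v v'' m m'' where
  Kpos := Nat.mul_pos R1.Kpos R2.Kpos
  spos := R2.spos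
  mesh := by rw [R1.mesh, R2.mesh]; push_cast; ring
  pg := R1.pg.trans R2.pg
  edg := by
    intro x
    have h := R1.edg (x / K2)
    rw [Nat.div_div_eq_div_mul, Nat.mul_comm K2 K1] at h
    exact (R2.edg x).trans h
  edg' := by
    intro k z hz
    obtain ⟨x, hx, hzx⟩ := R1.edg' k z hz
    obtain ⟨y, hy, hzy⟩ := R2.edg' x z hzx
    refine ⟨y, ?_, hzy⟩
    rw [Nat.mul_comm K1 K2, ← Nat.div_div_eq_div_mul, hy, hx]
  lcell := by
    intro x
    have h := R1.lcell (x / K2)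
    rw [Nat.div_div_eq_div_mul, Nat.mul_comm K2 K1] at h
    exact (R2.lcell x).trans h
  mrk := by
    obtain ⟨r1, h1, g1⟩ := R1.mrk
    obtain ⟨r2, h2, g2⟩ := R2.mrk
    refine ⟨K2 * r1 + r2, ?_, fun i => ?_⟩
    · rw [← h1, ← h2]; ring
    · rw [g2, g1]; ring
  per := by rw [R2.per, R1.per]; ring
  dir := by
    intro x
    have h := R1.dir (x / K2)
    rw [Nat.div_div_eq_div_mul, Nat.mul_comm K2 K1] at h
    rw [h, R2.dir x]
    push_cast
    ring
  mid := fun i => (R2.mid i).trans (R1.mid i)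

/-! ### one refinement -/

/-- one dimension -/
theorem one_dim {K : ℕ} (hK : 0 < K) {s : ℝ} (hs : 0 < s) {x : ℝ} {a : ℤ} (h1 : K * s * a ≤ x)
    (h2 : x ≤ K * s * (a + 1)) : ∃ b : ℤ, K * a ≤ b ∧ b ≤ K * a + (K - 1) ∧
      s * b ≤ x ∧ x ≤ s * (b + 1) := by
  have hf1 := Int.floor_le (x / s)
  have hf2 := (Int.lt_floor_add_one (x / s)).le
  rw [le_div_iff₀ hs] at hf1
  rw [div_le_iff₀ hs] at hf2
  have hlow : (K : ℤ) * a ≤ ⌊x / s⌋ := by
    rw [Int.le_floor, le_div_iff₀ hs]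
    push_cast
    linarith
  rcases le_total ⌊x / s⌋ (K * a + (K - 1)) with h | h
  · exact ⟨⌊x / s⌋, hlow, h, by linarith, by linarith⟩
  · refine ⟨K * a + (K - 1), by have : (0 : ℤ) < K := by exact_mod_cast hK
                                omega, le_rfl, ?_, ?_⟩
    · have h3 : ((K * a + (K - 1) : ℤ) : ℝ) ≤ ⌊x / s⌋ := by exact_mod_cast h
      nlinarith
    · push_cast
      linarith

theorem sq_blk {h : ℕ} {s : ℝ} (hs : 0 < s) {q f : V} (hb : Blk h q f) :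
    sq s f ⊆ sq (((2 * h + 1 : ℕ) : ℝ) * s) q := by
  rintro z ⟨h1, h2, h3, h4⟩
  obtain ⟨b1, b2, b3, b4⟩ := hb
  have c1 : ((2 * h + 1 : ℝ)) * q.1 ≤ f.1 := by exact_mod_cast b1
  have c2 : (f.1 : ℝ) ≤ (2 * h + 1) * q.1 + 2 * h := by exact_mod_cast b2
  have c3 : ((2 * h + 1 : ℝ)) * q.2 ≤ f.2 := by exact_mod_cast b3
  have c4 : (f.2 : ℝ) ≤ (2 * h + 1) * q.2 + 2 * h := by exact_mod_cast b4
  refine ⟨?_, ?_, ?_, ?_⟩ <;> push_cast <;> nlinarith

theorem pg_ref {h : ℕ} {s : ℝ} (hs : 0 < s) (F : Set V) :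
    Pg (((2 * h + 1 : ℕ) : ℝ) * s) F = Pg s (ref h F) := by
  ext z
  rw [mem_Pg, mem_Pg]
  constructor
  · rintro ⟨q, hq, h1, h2, h3, h4⟩
    obtain ⟨b, b1, b2, b3, b4⟩ := one_dim (K := 2 * h + 1) (by omega) hs h1 h2
    obtain ⟨b', b1', b2', b3', b4'⟩ := one_dim (K := 2 * h + 1) (by omega) hs h3 h4
    refine ⟨(b, b'), mem_ref.2 ⟨q, hq, ?_⟩, b3, b4, b3', b4'⟩
    push_cast at b1 b2 b1' b2'
    exact ⟨b1, by linarith, b1', by linarith⟩
  · rintro ⟨f, hf, hz⟩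
    obtain ⟨q, hq, hb⟩ := mem_ref.1 hf
    exact ⟨q, hq, sq_blk hs hb hz⟩

theorem pt_vref {h : ℕ} (s : ℝ) (v : ℕ → V) (a r : ℕ) (hr : r ≤ 2 * h + 1) :
    pt s (vref h v ((2 * h + 1) * a + r)) = pt (((2 * h + 1 : ℕ) : ℝ) * s) (v a) +
      ((r / ((2 * h + 1 : ℕ) : ℝ) : ℝ) : ℂ) * (pt (((2 * h + 1 : ℕ) : ℝ) * s) (v (a + 1)) -
        pt (((2 * h + 1 : ℕ) : ℝ) * s) (v a)) := by
  have hK : ((2 * h + 1 : ℕ) : ℝ) ≠ 0 := by positivity
  rw [vref_at v a r hr]
  apply Complex.ext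
  · rw [Complex.add_re, Complex.re_ofReal_mul, Complex.sub_re]
    simp only [pt]
    push_cast at hK ⊢
    field_simp
  · rw [Complex.add_im, Complex.im_ofReal_mul, Complex.sub_im]
    simp only [pt]
    push_cast at hK ⊢
    field_simp

theorem lcv_blk {h : ℕ} {v : ℕ → V} (a r : ℕ) (hr : r ≤ 2 * h) (hA : Adj (v a) (v (a + 1))) :
    Blk h (lcv v a) (lcv (vref h v) ((2 * h + 1) * a + r)) := by
  rw [(cells_vref a r hr hA).1]
  have hr' : (r : ℤ) ≤ 2 * h := by exact_mod_cast hr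
  have hr0 : (0 : ℤ) ≤ r := by positivity
  have hh0 : (0 : ℤ) ≤ h := by positivity
  unfold lcv rcv
  generalize v a = p at *
  generalize v (a + 1) = p' at *
  obtain ⟨x, y⟩ := p
  obtain ⟨x', y'⟩ := p'
  rcases hA with ⟨e1, e2⟩ | ⟨e1, e2⟩ | ⟨e1, e2⟩ | ⟨e1, e2⟩ <;> simp only at e1 e2 <;> rw [e1, e2]
  · have f1 : lc ((x, y) : V) (x + 1, y) = (x, y) := by unfold lc; ext <;> simp only <;> omega
    have f2 : rc ((x, y) : V) (x + 1, y) = (x, y - 1) := by unfold rc; ext <;> simp only <;> omega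
    rw [f1, f2]
    unfold Blk cenc
    simp only
    refine ⟨?_, ?_, ?_, ?_⟩ <;> nlinarith
  · have f1 : lc ((x, y) : V) (x - 1, y) = (x - 1, y - 1) := by
      unfold lc; ext <;> simp only <;> omega
    have f2 : rc ((x, y) : V) (x - 1, y) = (x - 1, y) := by unfold rc; ext <;> simp only <;> omega
    rw [f1, f2]
    unfold Blk cenc
    simp only
    refine ⟨?_, ?_, ?_, ?_⟩ <;> nlinarith
  · have f1 : lc ((x, y) : V) (x, y + 1) = (x - 1, y) := by unfold lc; ext <;> simp only <;> omega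
    have f2 : rc ((x, y) : V) (x, y + 1) = (x, y) := by unfold rc; ext <;> simp only <;> omega
    rw [f1, f2]
    unfold Blk cenc
    simp only
    refine ⟨?_, ?_, ?_, ?_⟩ <;> nlinarith
  · have f1 : lc ((x, y) : V) (x, y - 1) = (x, y - 1) := by unfold lc; ext <;> simp only <;> omega
    have f2 : rc ((x, y) : V) (x, y - 1) = (x - 1, y - 1) := by
      unfold rc; ext <;> simp only <;> omega
    rw [f1, f2]
    unfold Blk cenc
    simp only
    refine ⟨?_, ?_, ?_, ?_⟩ <;> nlinarith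

theorem refD_one {h : ℕ} {s : ℝ} (hs : 0 < s) {F : Set V} {N : ℕ} {v : ℕ → V} (m : ℕ → ℕ)
    (hc : Cyc F N v) : RefD (2 * h + 1) (((2 * h + 1 : ℕ) : ℝ) * s) s F (ref h F) N
      ((2 * h + 1) * N) v (vref h v) m (mref h m) := by
  have hK : (0 : ℝ) < ((2 * h + 1 : ℕ) : ℝ) := by positivity
  have hp : ∀ x : ℕ, pt s (vref h v x) ∈ ed (((2 * h + 1 : ℕ) : ℝ) * s) (v (x / (2 * h + 1)))
        (v (x / (2 * h + 1) + 1)) ∧
      pt s (vref h v (x + 1)) ∈ ed (((2 * h + 1 : ℕ) : ℝ) * s) (v (x / (2 * h + 1)))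
        (v (x / (2 * h + 1) + 1)) ∧
      pt (((2 * h + 1 : ℕ) : ℝ) * s) (v (x / (2 * h + 1) + 1)) -
        pt (((2 * h + 1 : ℕ) : ℝ) * s) (v (x / (2 * h + 1))) =
        ((2 * h + 1 : ℕ) : ℂ) * (pt s (vref h v (x + 1)) - pt s (vref h v x)) := by
    intro x
    have hr : x % (2 * h + 1) < 2 * h + 1 := Nat.mod_lt _ (by omega)
    have hx : (2 * h + 1) * (x / (2 * h + 1)) + x % (2 * h + 1) = x := Nat.div_add_mod x _
    have hx' : (2 * h + 1) * (x / (2 * h + 1)) + (x % (2 * h + 1) + 1) = x + 1 := by omega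
    have e1 := pt_vref (h := h) s v (x / (2 * h + 1)) (x % (2 * h + 1)) hr.le
    have e2 := pt_vref (h := h) s v (x / (2 * h + 1)) (x % (2 * h + 1) + 1) hr
    rw [hx] at e1
    rw [hx'] at e2
    have hrr : ((x % (2 * h + 1) : ℕ) : ℝ) + 1 ≤ ((2 * h + 1 : ℕ) : ℝ) := by exact_mod_cast hr
    have hr0 : (0 : ℝ) ≤ ((x % (2 * h + 1) : ℕ) : ℝ) := by positivity
    refine ⟨?_, ?_, ?_⟩
    · rw [e1]
      unfold ed
      rw [segment_eq_image']
      refine ⟨((x % (2 * h + 1) : ℕ) : ℝ) / ((2 * h + 1 : ℕ) : ℝ), ⟨div_nonneg hr0 hK.le, ?_⟩, ?_⟩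
      · rw [div_le_one hK]; linarith
      · simp only [Complex.real_smul]
    · rw [e2]
      unfold ed
      rw [segment_eq_image']
      refine ⟨((x % (2 * h + 1) + 1 : ℕ) : ℝ) / ((2 * h + 1 : ℕ) : ℝ),
        ⟨div_nonneg (by positivity) hK.le, ?_⟩, ?_⟩
      · rw [div_le_one hK]
        rw [Nat.cast_add, Nat.cast_one]
        exact hrr
      · simp only [Complex.real_smul]
    · rw [e1, e2]
      have hKc : ((2 * h + 1 : ℕ) : ℂ) ≠ 0 := by exact_mod_cast hK.ne'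
      push_cast at hKc ⊢
      field_simp
      ring
  refine ⟨by omega, hs, rfl, pg_ref hs F, ?_, ?_, ?_, ⟨h, rfl, fun i => rfl⟩, rfl,
    fun x => (hp x).2.2, ?_⟩
  · intro x
    exact (convex_segment _ _).segment_subset (hp x).1 (hp x).2.1
  · intro k z hz
    unfold ed at hz
    rw [segment_eq_image'] at hz
    obtain ⟨t, ht, rfl⟩ := hz
    obtain ⟨b, b1, b2, b3, b4⟩ := one_dim (K := 2 * h + 1) (s := 1 / ((2 * h + 1 : ℕ) : ℝ))
      (by omega) (by positivity) (x := t) (a := 0) (by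
        push_cast; rw [mul_zero]; exact ht.1) (by
        push_cast; rw [zero_add, mul_one, mul_one_div_cancel (by positivity)]; exact ht.2)
    obtain ⟨r, rfl⟩ := Int.eq_ofNat_of_zero_le (by linarith : 0 ≤ b)
    have hr : r ≤ 2 * h := by push_cast at b2; omega
    have hx : ((2 * h + 1) * k + r) / (2 * h + 1) = k := by
      rw [Nat.mul_add_div (by omega), Nat.div_eq_of_lt (by omega), Nat.add_zero]
    refine ⟨(2 * h + 1) * k + r, hx, ?_⟩
    rw [show (2 * h + 1) * k + r + 1 = (2 * h + 1) * k + (r + 1) by ring]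
    have e1 := pt_vref (h := h) s v k r (by omega)
    have e2 := pt_vref (h := h) s v k (r + 1) (by omega)
    unfold ed
    rw [e1, e2, segment_eq_image']
    refine ⟨((2 * h + 1 : ℕ) : ℝ) * t - r, ⟨?_, ?_⟩, ?_⟩
    · rw [Int.cast_natCast, one_div, inv_mul_le_iff₀ hK] at b3
      linarith
    · rw [Int.cast_natCast, one_div, le_inv_mul_iff₀ hK] at b4
      linarith
    · have hKc : ((2 * h + 1 : ℕ) : ℂ) ≠ 0 := by exact_mod_cast hK.ne'
      simp only [Complex.real_smul]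
      push_cast at hKc ⊢
      field_simp
      ring
  · intro x
    have hr : x % (2 * h + 1) < 2 * h + 1 := Nat.mod_lt _ (by omega)
    have hx : (2 * h + 1) * (x / (2 * h + 1)) + x % (2 * h + 1) = x := Nat.div_add_mod x _
    have := lcv_blk (h := h) (v := v) (x / (2 * h + 1)) (x % (2 * h + 1)) (by omega)
      (hc.step (x / (2 * h + 1)))
    rw [hx] at this
    exact sq_blk hs this
  · intro i
    unfold mid mref
    have e1 := pt_vref (h := h) s v (m i) h (by omega)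
    have e2 := pt_vref (h := h) s v (m i) (h + 1) (by omega)
    rw [show (2 * h + 1) * m i + h + 1 = (2 * h + 1) * m i + (h + 1) by ring, e1, e2]
    have hk : (((h : ℝ) / ((2 * h + 1 : ℕ) : ℝ) : ℝ) : ℂ) +
        ((((h + 1 : ℕ) : ℝ) / ((2 * h + 1 : ℕ) : ℝ) : ℝ) : ℂ) = 1 := by
      rw [← Complex.ofReal_add, ← add_div]
      have : (h : ℝ) + ((h + 1 : ℕ) : ℝ) = ((2 * h + 1 : ℕ) : ℝ) := by push_cast; ring
      rw [this, div_self hK.ne', Complex.ofReal_one]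
    linear_combination ((pt (((2 * h + 1 : ℕ) : ℝ) * s) (v (m i + 1)) -
      pt (((2 * h + 1 : ℕ) : ℝ) * s) (v (m i))) / 2) * hk

end Crest.Agent.R143.Cdx806
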