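import Crest.Agent.R143.Cd8_806

/-!
# Row 143 (S0194), block D, TentC, file 9 (helper806): `TENT`

* `ten_of` : `Ten` from `CellDom` and a refinement
* `tent : ExCfg → CELLS → Tenx416.TENT`
-/

set_option autoImplicit false

noncomputable section

namespace Crest.Agent.R143.Cdx806

open Set Metric
open Crest.Agent.R158.Sp896 Crest.Agent.R143.Tentx359 Crest.Agent.R158.Tj656
open Crest.Agent.R143.Tenx416 (nx Pg OnS Ten TENT)

theorem dart_eq {a b a' b' : V} (h : Adj a b) (h' : Adj a' b') (hl : lc a b = lc a' b')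
    (hr : rc a b = rc a' b') : a = a' ∧ b = b' := by
  obtain ⟨a1, a2⟩ := a
  obtain ⟨b1, b2⟩ := b
  obtain ⟨c1, c2⟩ := a'
  obtain ⟨d1, d2⟩ := b'
  unfold Adj at h h'
  unfold lc at hl
  unfold rc at hr
  rw [Prod.mk.injEq] at hl hr
  rw [Prod.mk.injEq, Prod.mk.injEq]
  simp only at h h' hl hr
  rcases h with ⟨e1, e2⟩ | ⟨e1, e2⟩ | ⟨e1, e2⟩ | ⟨e1, e2⟩ <;>
    rcases h' with ⟨f1, f2⟩ | ⟨f1, f2⟩ | ⟨f1, f2⟩ | ⟨f1, f2⟩ <;> omega

theorem mid_cen {S : ℝ} {a b : V} (h : Adj a b) : (pt S a + pt S b) / 2 =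
    (1 / 2 : ℝ) • cen S (rc a b) + (1 / 2 : ℝ) • cen S (lc a b) := by
  have e : (pt S a + pt S b) / 2 = (1 / 2 : ℝ) • (pt S a + pt S b) := by
    rw [Complex.real_smul]; push_cast; ring
  rw [e, ← smul_add]
  congr 1
  rcases h with ⟨e1, e2⟩ | ⟨e1, e2⟩ | ⟨e1, e2⟩ | ⟨e1, e2⟩
  · have f1 : lc a b = (a.1, a.2) := by unfold lc; ext <;> simp only <;> omega
    have f2 : rc a b = (a.1, a.2 - 1) := by unfold rc; ext <;> simp only <;> omega
    rw [f1, f2]
    apply Complex.ext
    · simp only [pt, cen, Complex.add_re, e1]; push_cast; ring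
    · simp only [pt, cen, Complex.add_im, e2]; push_cast; ring
  · have f1 : lc a b = (a.1 - 1, a.2 - 1) := by unfold lc; ext <;> simp only <;> omega
    have f2 : rc a b = (a.1 - 1, a.2) := by unfold rc; ext <;> simp only <;> omega
    rw [f1, f2]
    apply Complex.ext
    · simp only [pt, cen, Complex.add_re, e1]; push_cast; ring
    · simp only [pt, cen, Complex.add_im, e2]; push_cast; ring
  · have f1 : lc a b = (a.1 - 1, a.2) := by unfold lc; ext <;> simp only <;> omega
    have f2 : rc a b = (a.1, a.2) := by unfold rc; ext <;> simp only <;> omega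
    rw [f1, f2]
    apply Complex.ext
    · simp only [pt, cen, Complex.add_re, e1]; push_cast; ring
    · simp only [pt, cen, Complex.add_im, e2]; push_cast; ring
  · have f1 : lc a b = (a.1, a.2 - 1) := by unfold lc; ext <;> simp only <;> omega
    have f2 : rc a b = (a.1 - 1, a.2 - 1) := by unfold rc; ext <;> simp only <;> omega
    rw [f1, f2]
    apply Complex.ext
    · simp only [pt, cen, Complex.add_re, e1]; push_cast; ring
    · simp only [pt, cen, Complex.add_im, e2]; push_cast; ring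

/-- cells near the middle of an edge -/
theorem near_mid {S : ℝ} (hS : 0 < S) {a b : V} (h : Adj a b) {z : ℂ}
    (hz : dist z ((pt S a + pt S b) / 2) < S / 2) {p : V} (hp : z ∈ sq S p) :
    p = rc a b ∨ p = lc a b := by
  obtain ⟨i, h1, h2⟩ := dir_exists (adj_lc_rc h).symm
  have hm := mid_cen (S := S) h
  have hab : (1 / 2 : ℝ) + 1 / 2 = 1 := by norm_num
  have k1 : fa (cen S (rc a b)) i ((pt S a + pt S b) / 2) = S / 2 := by
    rw [hm, fa_comb _ _ _ _ hab, fa_cen, fa_cen, ga_self, h1]; push_cast; ring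
  have k2 : fa (cen S (rc a b)) (i + 1) ((pt S a + pt S b) / 2) = 0 := by
    rw [hm, fa_comb _ _ _ _ hab, fa_cen, fa_cen, ga_self, h2]; push_cast; ring
  have c1 := abs_lt.1 ((fa_sub (cen S (rc a b)) i z _).trans_lt hz)
  have c2 := abs_lt.1 ((fa_sub (cen S (rc a b)) (i + 1) z _).trans_lt hz)
  rw [k1] at c1
  rw [k2] at c2
  have b1 := sq_fa (c := rc a b) i hp
  have b2 := sq_fa (c := rc a b) (i + 1) hp
  have key : ∀ a b : ℤ, S * a < S * (b + 1) → a ≤ b := by
    intro a b hab
    have h4 : (a : ℝ) < b + 1 := lt_of_mul_lt_mul_left hab hS.le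
    have h5 : a < b + 1 := by exact_mod_cast h4
    omega
  have d1 : ga (rc a b) (i + 1) p ≤ 0 := key _ 0 (by push_cast; linarith [b2.1, c2.2])
  have d2 : 0 ≤ ga (rc a b) (i + 1) p := key 0 _ (by push_cast; linarith [b2.2, c2.1])
  have d3 : ga (rc a b) i p ≤ 1 := key _ 1 (by push_cast; linarith [b1.1, c1.2])
  have d4 : 0 ≤ ga (rc a b) i p := key 0 _ (by push_cast; linarith [b1.2, c1.1])
  have d5 : ga (rc a b) i p = 0 ∨ ga (rc a b) i p = 1 := by omega
  rcases d5 with d5 | d5
  · left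
    exact eq_of_ga (c := rc a b) i (by rw [d5, ga_self]) (by rw [ga_self]; omega)
  · right
    exact eq_of_ga (c := rc a b) i (by rw [d5, h1]) (by rw [h2]; omega)

/-- a boundary edge near the middle of the boundary edge `x` is the boundary edge `x` -/
theorem near_mid_idx {S : ℝ} (hS : 0 < S) {F : Set V} {N : ℕ} {v : ℕ → V} (hc : Cyc F N v)
    {x y : ℕ} {z : ℂ} (hz : z ∈ ed S (v y) (v (y + 1))) (h : dist z (mid S v x) < S / 2) :
    y % N = x % N := by
  obtain ⟨h1, h2⟩ := (Crest.Agent.R158.Tg331.mem_ed_iff hS (hc.step y)).1 hz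
  have k1 := near_mid hS (hc.step x) h h1
  have k2 := near_mid hS (hc.step x) h h2
  have e1 : lc (v y) (v (y + 1)) = lc (v x) (v (x + 1)) := by
    rcases k1 with k1 | k1
    · exact absurd (hc.left y) (k1 ▸ hc.right x)
    · exact k1
  have e2 : rc (v y) (v (y + 1)) = rc (v x) (v (x + 1)) := by
    rcases k2 with k2 | k2
    · exact k2
    · exact absurd (k2 ▸ hc.left x) (hc.right y)
  exact Cyc.idx hc (dart_eq (hc.step y) (hc.step x) e1 e2).1

section

variable {F F' : Set V} {N N' : ℕ} {v v' : ℕ → V} {m m' : ℕ → ℕ} {c : V} {M : ℤ}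
  {U : ℕ → ℕ → V} {S s : ℝ} {K : ℕ}

theorem mark_mod (h01 : m 0 < m 1) (h12 : m 1 < m 2) (h23 : m 2 < m 3) (h3 : m 3 < N)
    {i k' : ZMod 4} {k : ℕ} (h1 : m i.val < k) (h2 : k < nx N m i) : k % N ≠ m k'.val % N := by
  have hk : m k'.val < N := by
    rcases z4 k' with rfl | rfl | rfl | rfl
    · show m 0 < N
      omega
    · show m 1 < N
      omega
    · show m 2 < N
      omega
    · exact h3
  rw [Nat.mod_eq_of_lt hk]
  have hk' : m k'.val = m 0 ∨ m k'.val = m 1 ∨ m k'.val = m 2 ∨ m k'.val = m 3 := by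
    rcases z4 k' with rfl | rfl | rfl | rfl
    · exact Or.inl rfl
    · exact Or.inr (Or.inl rfl)
    · exact Or.inr (Or.inr (Or.inl rfl))
    · exact Or.inr (Or.inr (Or.inr rfl))
  rcases z4 i with rfl | rfl | rfl | rfl
  · have a1 : m 0 < k := h1
    have a2 : k < m 1 := h2
    rw [Nat.mod_eq_of_lt (by omega)]
    omega
  · have a1 : m 1 < k := h1
    have a2 : k < m 2 := h2
    rw [Nat.mod_eq_of_lt (by omega)]
    omega
  · have a1 : m 2 < k := h1
    have a2 : k < m 3 := h2
    rw [Nat.mod_eq_of_lt (by omega)]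
    omega
  · have a1 : m 3 < k := h1
    have a2 : k < m 0 + N := h2
    rcases Nat.lt_or_ge k N with h | h
    · rw [Nat.mod_eq_of_lt h]
      omega
    · rw [Nat.mod_eq_sub_mod h, Nat.mod_eq_of_lt (by omega)]
      omega

theorem mark_le' (h01 : m 0 < m 1) (h12 : m 1 < m 2) (h23 : m 2 < m 3) (h3 : m 3 < N)
    (i : ZMod 4) : m i.val < nx N m i := by
  rcases z4 i with rfl | rfl | rfl | rfl
  · exact h01
  · exact h12
  · exact h23
  · show m 3 < m 0 + N
    omega

theorem nx_ref {r : ℕ} (hm : ∀ i, m' i = K * m i + r) (hN : N' = K * N) (i : ZMod 4) :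
    nx N' m' i = K * nx N m i + r := by
  unfold nx
  split_ifs
  · rw [hm, hN]; ring
  · rw [hm]

theorem ten_of (R : RefD K S s F F' N N' v v' m m') (hK : 9 ≤ K) (D : CellDom F' N' v' m' c M U)
    (hc : Cyc F N v) (h01 : m 0 < m 1) (h12 : m 1 < m 2) (h23 : m 2 < m 3) (h3 : m 3 < N) :
    Ten S F N v m (cfgC s F' v' m' c M U) s (s / 4) (Bt s c M U) := by
  have hs := R.spos
  have hKr : (9 : ℝ) ≤ K := by exact_mod_cast hK
  have hS9 : 9 * s ≤ S := by rw [R.mesh]; nlinarith
  have hS : 0 < S := by linarith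
  obtain ⟨r, hr, hm⟩ := R.mrk
  have hnx := nx_ref (m := m) hm R.per
  -- the middle of the edge
  have hmidr : ∀ k : ZMod 4, mid S v (m k.val) ∈ sq s (U k.val 1) := by
    intro k
    rw [← R.mid, D.cfg.start1 _ (zlt k)]
    refine (D.edge_lr hs (y := m' k.val) ?_).2
    unfold ed
    rw [segment_eq_image']
    refine ⟨1 / 2, ⟨by norm_num, by norm_num⟩, ?_⟩
    unfold mid
    simp only [Complex.real_smul]
    push_cast
    ring
  refine
    { ok := D.ok hs
      kpos := by positivity
      ks := by linarith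
      bd := by rw [R.pg]; exact D.bd hs
      Bc := Bt_closed hs c M U
      body := by rw [R.pg]; exact D.body_eq hs
      mth := ?_
      nb := ?_
      side := ?_
      near := ?_
      tt := fun j k hjk y hy w hw => D.tt_dist hs hjk hy hw
      tr := fun k y hy w h => by rw [R.pg]; exact D.tr hs k hy h
      tc := fun k => D.tc hs k
      mouth := ?_ }
  · intro k w hw x hx h
    rw [R.pg] at hx
    obtain ⟨t, ht, h1, h2⟩ := D.mth hs k hw hx h
    refine ⟨_, ?_, h1, h2⟩
    have e1 := R.dir (m' k.val)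
    have e2 : m' k.val / K = m k.val := by
      rw [hm, Nat.mul_add_div (by omega), Nat.div_eq_of_lt (by omega), Nat.add_zero]
    rw [e2] at e1
    rw [R.mid]
    unfold ed
    rw [segment_eq_image']
    rw [abs_le] at ht
    have hK0 : (0 : ℝ) < K := by linarith
    refine ⟨1 / 2 + t / K, ⟨?_, ?_⟩, ?_⟩
    · have : -(1 / 2 : ℝ) ≤ t / K := by rw [le_div_iff₀ hK0]; linarith [ht.1]
      linarith
    · have : t / K ≤ (1 / 2 : ℝ) := by rw [div_le_iff₀ hK0]; linarith [ht.2]
      linarith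
    · have hKc : (K : ℂ) ≠ 0 := by exact_mod_cast hK0.ne'
      have e3 : pt s (v' (m' k.val + 1)) - pt s (v' (m' k.val)) =
          (pt S (v (m k.val + 1)) - pt S (v (m k.val))) / K := by
        rw [e1]; field_simp
      rw [e3]
      unfold mid
      simp only [Complex.real_smul]
      push_cast
      ring
  · intro x hx i w hw h
    rw [R.pg] at hx
    obtain ⟨y, ⟨hy1, hy2⟩, z, hz, hzx⟩ := D.nb hs hx i hw h
    rw [hnx] at hy2
    rw [hm] at hy1
    refine ⟨y / K, ⟨?_, ?_⟩, z, R.edg y hz, hzx⟩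
    · rw [Nat.le_div_iff_mul_le R.Kpos, Nat.mul_comm]
      omega
    · have : y / K < nx N m i + 1 := by
        rw [Nat.div_lt_iff_lt_mul R.Kpos, Nat.add_mul, Nat.mul_comm _ K]
        omega
      omega
  · intro i k hk1 hk2 z hz
    obtain ⟨x, hx, hzx⟩ := R.edg' k z hz
    have hx1 : K * k ≤ x := by rw [← hx]; exact Nat.mul_div_le x K
    have hx2 : x < K * (k + 1) := by
      rw [← hx]; exact Nat.lt_mul_div_succ x R.Kpos
    have a1 : m' i.val < x := by
      rw [hm]
      have : K * (m i.val + 1) ≤ K * k := Nat.mul_le_mul_left K hk1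
      rw [Nat.mul_add] at this
      omega
    have a2 : x < nx N' m' i := by
      rw [hnx]
      have : K * (k + 1) ≤ K * nx N m i := Nat.mul_le_mul_left K hk2
      omega
    rw [R.pg]
    refine D.side_fine hs a1 a2 hzx fun k' w hw hwq => ?_
    have h1 := sq_dist hwq (hmidr k')
    have h2 : dist z (mid S v (m k'.val)) < S / 2 := by
      have := dist_triangle z w (mid S v (m k'.val))
      rw [dist_comm z w, dist_eq_norm w (mid S v (m k'.val))] at this
      linarith
    exact mark_mod h01 h12 h23 h3 hk1 hk2 (near_mid_idx hS hc hz h2)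
  · rintro i k ⟨hk1, hk2⟩ z hz
    obtain ⟨x, hx, a1, a2⟩ : ∃ x, x / K = k ∧ m' i.val < x ∧ x < nx N' m' i := by
      rcases hk1.eq_or_lt with he | hlt
      · refine ⟨K * k + (r + 1), ?_, ?_, ?_⟩
        · rw [Nat.mul_add_div R.Kpos, Nat.div_eq_of_lt (by omega), Nat.add_zero]
        · rw [hm, he]; omega
        · rw [hnx]
          have h4 := mark_le' h01 h12 h23 h3 i
          have : K * (k + 1) ≤ K * nx N m i := Nat.mul_le_mul_left K (by omega)
          rw [Nat.mul_add] at this
          omega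
      · refine ⟨K * k, ?_, ?_, ?_⟩
        · rw [Nat.mul_div_cancel_left _ R.Kpos]
        · rw [hm]
          have : K * (m i.val + 1) ≤ K * k := Nat.mul_le_mul_left K hlt
          rw [Nat.mul_add] at this
          omega
        · rw [hnx]
          have : K * k ≤ K * nx N m i := Nat.mul_le_mul_left K hk2
          omega
    refine ⟨cen s (rcv v' x), D.cen_mem hs a1 a2, ?_⟩
    have hp : pt s (v' x) ∈ ed s (v' x) (v' (x + 1)) := left_mem_segment ℝ _ _
    have hp1 := (D.edge_lr hs hp).2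
    have hp2 := R.edg x hp
    rw [hx] at hp2
    have g1 := ((Crest.Agent.R158.Tg331.mem_ed_iff hS (hc.step k)).1 hp2).1
    have g2 := ((Crest.Agent.R158.Tg331.mem_ed_iff hS (hc.step k)).1 hz).1
    have g3 := sq_dist g1 g2
    have g4 := sq_dist (Crest.Agent.R158.Tg331.so_sub s _
      (Crest.Agent.R158.Tg331.ce_so hs (rcv v' x))) hp1
    have g5 := dist_triangle (cen s (rcv v' x)) (pt s (v' x)) z
    rw [dist_eq_norm _ (pt s (v' x)), dist_eq_norm (pt s (v' x)) z] at g5
    linarith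
  · intro k
    obtain ⟨P, h1, h2, h3', h4, h5, h6, h7⟩ := D.path hs k
    have e2 : m' k.val / K = m k.val := by
      rw [hm, Nat.mul_add_div (by omega), Nat.div_eq_of_lt (by omega), Nat.add_zero]
    have hsub : sq s (lcv v' (m' k.val)) ⊆ sq S (lc (v (m k.val)) (v (m k.val + 1))) := by
      have := R.lcell (m' k.val)
      rwa [e2] at this
    refine ⟨P, h1, ?_, h3', h4, ?_, ⟨_, h6, ?_⟩, h7⟩
    · rw [R.pg]; exact h2
    · rw [R.pg]; exact h5.trans hsub
    · rw [mem_interior]
      refine ⟨Crest.Agent.R158.Tg331.so s (lcv v' (m' k.val)),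
        (Crest.Agent.R158.Tg331.so_sub s _).trans hsub, ?_, Crest.Agent.R158.Tg331.ce_so hs _⟩
      unfold Crest.Agent.R158.Tg331.so
      exact (isOpen_lt continuous_const Complex.continuous_re).inter
        ((isOpen_lt Complex.continuous_re continuous_const).inter
          ((isOpen_lt continuous_const Complex.continuous_im).inter
            (isOpen_lt Complex.continuous_im continuous_const)))

end

theorem refD_three {S : ℝ} (hS : 0 < S) {F : Set V} {N : ℕ} {v : ℕ → V} (m : ℕ → ℕ)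
    (hc : Cyc F N v) : RefD 3 S (S / 3) F (ref 1 F) N (3 * N) v (vref 1 v) m (mref 1 m) := by
  have h := refD_one (h := 1) (s := S / 3) (by positivity) m hc
  have e : ((2 * 1 + 1 : ℕ) : ℝ) * (S / 3) = S := by push_cast; ring
  rw [e] at h
  exact h

/-- **TENT** from `ExCfg` (359) and `CELLS` (951) -/
theorem tent (hE : ExCfg) (hC : CELLS) : TENT := by
  intro S F N v m hS hfin hcon hcon' hcyc h01 h12 h23 h3
  obtain ⟨c, M, U, hcfg⟩ := hE F N v m hfin hcon hcon' hcyc h01 h12 h23 h3
  have c1 : Cyc (ref 1 F) (3 * N) (vref 1 v) := TentAx951.refCyc 1 F N v hcyc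
  have c2 : Cyc (ref 1 (ref 1 F)) (3 * (3 * N)) (vref 1 (vref 1 v)) :=
    TentAx951.refCyc 1 _ _ _ c1
  have R1 := refD_three hS m hcyc
  have R2 := refD_three R1.spos (mref 1 m) c1
  have R3 := refD_three R2.spos (mref 1 (mref 1 m)) c2
  have R4 := refD_three R3.spos (mref 1 (mref 1 (mref 1 m))) hcfg.cyc
  have R := ((R1.comp R2).comp R3).comp R4
  have D := hC 1 le_rfl _ _ _ _ c M U hcfg
  exact ⟨_, _, _, _, ten_of R (by norm_num) D hcyc h01 h12 h23 h3⟩

end Crest.Agent.R143.Cdx806
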