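import Crest.Agent.R143.TentB4_951
import Crest.Agent.R143.Cd0_806

/-!
# Row 143 (S0194), block D, TENT B, part 5 (helper951): the Prop `CELLS` of Cd0_806
-/

set_option autoImplicit false

namespace Crest.Agent.R143.TentBx951

open Crest.Agent.R158 Crest.Agent.R158.Sp896 Crest.Agent.R143.Tentx359 Crest.Agent.R143.TentAx951
open Crest.Agent.R143

theorem val_prv (k : ZMod 4) : (k - 1).val = prv k.val := by
  fin_cases k <;> rfl

theorem val_eq_three {i : ZMod 4} : i.val = 3 ↔ i = 3 := by
  constructor
  · intro h
    exact ZMod.val_injective 4 h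
  · rintro rfl
    rfl

theorem cellDom {F : Set V} {L : ℕ} {v : ℕ → V} {m : ℕ → ℕ} {c : V} {M : ℤ} {U : ℕ → ℕ → V}
    (H : Fine F L v m c M U) : Cdx806.CellDom F L v m c M U :=
    { cfg := H.C
      tt := fun i hi i' hi' j j' hn => (H.cl i hi j i' hi' j' hn.1 hn.2).1
      tF := fun i hi j f hf hn => H.clF i hi j f hf hn.1 hn.2
      cov := fun q hq => by
        obtain ⟨i, hi, h1⟩ := cover H hq
        refine ⟨((i : ℕ) : ZMod 4), ?_⟩
        have e : ((i : ℕ) : ZMod 4).val = i := ZMod.val_cast_of_lt hi
        show q ∉ _ ∧ _
        rw [e]
        exact h1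
      sep := fun i j q hq q' hq' hn => by
        by_contra hij
        have hne : i.val ≠ j.val := fun e => hij (ZMod.val_injective 4 e)
        have := not_adj8 H (ZMod.val_lt i) (ZMod.val_lt j) hne hq hq'
        obtain ⟨h1, h2⟩ := hn
        omega
      arc := fun i x h1 h2 => by
        refine arc_cls H (ZMod.val_lt i) h1 ?_
        unfold Tenx416.nx at h2
        by_cases hi : i = 3
        · rw [if_pos hi] at h2
          rw [if_pos (val_eq_three.2 hi)]
          omega
        · rw [if_neg hi] at h2
          rw [if_neg (fun h => hi (val_eq_three.1 h))]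
          exact h2
      quad := fun i a b ha hb hab => by
        have h1 := quad H (ZMod.val_lt i) ha hb (lt_max_iff.1 hab)
        have e : ab c i.val a b = fp c i.val a b := by
          unfold ab fp rot
          ext
          · simp only; ring
          · simp only
        rw [e] at h1
        exact h1
      tside := fun k j q hq hqB => by
        rcases side_cls H (ZMod.val_lt k) j hq hqB with h1 | h1
        · exact Or.inl h1
        · refine Or.inr ?_
          show q ∉ _ ∧ _
          rw [val_prv]
          exact h1 }

/-- **CELLS** -/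
theorem cells : Cdx806.CELLS := by
  intro h hh F L v m c M U C
  exact cellDom (fine_of C hh)

end Crest.Agent.R143.TentBx951
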