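import Crest.Agent.R143.Tent7_359

/-!
# Row 143 (S0194), block D, TENT, file 8 (helper359): adding a tentacle, existence

* `Cfg.add` : adding a tentacle
* `rcv_side`, `Cfg.rcv_body` : fine outer cells, those in the body are the marked ones
* `exCfg : ExCfg`
-/

set_option autoImplicit false

namespace Crest.Agent.R143.Tentx359

open Crest.Agent.R158.Sp896

/-- the new tentacle -/
def newU (v : ℕ → V) (m : ℕ → ℕ) (c : V) (M : ℤ) (n : ℕ) (U : ℕ → ℕ → V) (N : ℕ) (f : ℕ → V)
    (i j : ℕ) : V :=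
  if i = n then
    (if j = 0 then lcv v (m n) else if j ≤ N + 1 then f (j - 1) else
      (c.1 + (M + (j - (N + 1) : ℕ)) * (dir n).1, c.2 + (M + (j - (N + 1) : ℕ)) * (dir n).2))
  else U i j

section cfg

variable {F : Set V} {L : ℕ} {v : ℕ → V} {m : ℕ → ℕ} {c : V} {M : ℤ} {n : ℕ} {U : ℕ → ℕ → V}

theorem body_newU (N : ℕ) (f : ℕ → V) :
    body F (newU v m c M n U N f) n = body F U n := by
  ext q
  unfold body
  simp only [Set.mem_union, Set.mem_ofPred_eq]
  refine or_congr Iff.rfl ?_
  constructor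
  · rintro ⟨i, hi, j, hj⟩
    refine ⟨i, hi, j, ?_⟩
    rw [hj]
    unfold newU
    rw [if_neg (by omega)]
  · rintro ⟨i, hi, j, hj⟩
    refine ⟨i, hi, j, ?_⟩
    rw [hj]
    unfold newU
    rw [if_neg (by omega)]

/-- **adding a tentacle** -/
theorem Cfg.add (C : Cfg F L v m c M n U) (hn : n < 4) (hm : rcv v (m n) ∉ body F U n)
    (hcon : Con (body F U n)ᶜ (rcv v (m n))
      (c.1 + (M + 1) * (dir n).1, c.2 + (M + 1) * (dir n).2)) :
    ∃ U', Cfg F L v m c (M + 1) (n + 1) U' := by
  have hM := C.M_pos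
  -- the path
  have hq0 : rcv v (m n) ∈ Box c (M + 1) := by
    have h1 := C.box _ (C.cyc.left (m n))
    have h2 := adj_lc_rc (C.cyc.step (m n))
    have h3 : Adj (lcv v (m n)) (rcv v (m n)) := h2
    have h4 : |(lcv v (m n)).1 - c.1| < M ∧ |(lcv v (m n)).2 - c.2| < M := h1
    unfold Box
    rw [Set.mem_ofPred_eq, abs_le, abs_le]
    rw [abs_lt, abs_lt] at h4
    unfold Adj at h3
    omega
  have hT : ((c.1 + (M + 1) * (dir n).1, c.2 + (M + 1) * (dir n).2) : V) ∈ Box c (M + 1) := by
    unfold Box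
    rw [Set.mem_ofPred_eq, abs_le, abs_le]
    rcases dir_cases hn with ⟨-, e⟩ | ⟨-, e⟩ | ⟨-, e⟩ | ⟨-, e⟩ <;> rw [e] <;> simp only <;> omega
  have hcon' := C.clamp_con (R := M + 1) (by omega) hq0 hT hcon
  obtain ⟨N, f, ⟨f0, fN, fa, fS⟩, finj⟩ := exists_simple
    (S := (body F U n)ᶜ ∩ Box c (M + 1)) ⟨hm, hq0⟩ hcon'
  refine ⟨newU v m c (M + 1) n U N f, ?_⟩
  set W := newU v m c (M + 1) n U N f with hW
  have hold : ∀ i < n, ∀ j, W i j = U i j := by
    intro i hi j
    rw [hW]; unfold newU; rw [if_neg (by omega)]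
  have hn0 : W n 0 = lcv v (m n) := by
    rw [hW]; unfold newU; rw [if_pos rfl, if_pos rfl]
  have hnf : ∀ j ≤ N, W n (j + 1) = f j := by
    intro j hj
    rw [hW]; unfold newU
    rw [if_pos rfl, if_neg (by omega), if_pos (by omega), Nat.add_sub_cancel]
  have hnr : ∀ j : ℕ, W n (N + 1 + j) =
      (c.1 + (M + 1 + j) * (dir n).1, c.2 + (M + 1 + j) * (dir n).2) := by
    intro j
    rcases Nat.eq_zero_or_pos j with h0 | h0
    · subst h0
      rw [Nat.add_zero, hnf N le_rfl, fN]
      ext <;> simp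
    · rw [hW]; unfold newU
      rw [if_pos rfl, if_neg (by omega), if_neg (by omega)]
      have : N + 1 + j - (N + 1) = j := by omega
      rw [this]
  have hnr' : ∀ j, N < j → ∃ r : ℤ, M + 1 < r ∧ r = M + 1 + (j - N : ℕ) ∧
      W n (j + 1) = (c.1 + r * (dir n).1, c.2 + r * (dir n).2) := by
    intro j hj
    refine ⟨M + 1 + (j - N : ℕ), by omega, rfl, ?_⟩
    have e : j + 1 = N + 1 + (j - N) := by omega
    rw [e, hnr (j - N)]
  have hrayfar : ∀ r : ℤ, M + 1 < r → ∀ P : V, P = (c.1 + r * (dir n).1, c.2 + r * (dir n).2) →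
      M + 1 < |P.1 - c.1| ∨ M + 1 < |P.2 - c.2| := by
    intro r hr P hP
    rw [hP]
    rcases dir_cases hn with ⟨-, e⟩ | ⟨-, e⟩ | ⟨-, e⟩ | ⟨-, e⟩ <;> rw [e] <;> simp only [lt_abs] <;>
      omega
  have hnB : ∀ j, W n (j + 1) ∉ body F U n := by
    intro j
    rcases Nat.lt_or_ge N j with h1 | h1
    · obtain ⟨r, hr, -, he⟩ := hnr' j h1
      intro hb
      have hf := hrayfar r hr _ he
      obtain ⟨i, hi, r', hr', he'⟩ := C.far hb (by omega)
      rw [he] at he'
      rw [Prod.ext_iff] at he'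
      simp only at he'
      rcases dir_cases hn with ⟨a1, e⟩ | ⟨a1, e⟩ | ⟨a1, e⟩ | ⟨a1, e⟩ <;>
        rcases dir_cases (show i < 4 by omega) with ⟨b1, e'⟩ | ⟨b1, e'⟩ | ⟨b1, e'⟩ | ⟨b1, e'⟩ <;>
        rw [e, e'] at he' <;> simp only at he' <;> omega
    · rw [hnf j h1]
      exact (fS j h1).1
  refine ⟨C.fin, C.con, C.con', C.cyc, C.m01, C.m12, C.m23, C.m3L, ?_, hn, ?_, ?_, ?_, ?_, ?_, ?_⟩
  · intro q hq
    have := C.box q hq
    omega
  · intro i hi
    rcases Nat.lt_or_ge i n with h1 | h1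
    · rw [hold i h1]; exact C.start0 i h1
    · have : i = n := by omega
      subst this
      exact hn0
  · intro i hi
    rcases Nat.lt_or_ge i n with h1 | h1
    · rw [hold i h1]; exact C.start1 i h1
    · have : i = n := by omega
      subst this
      rw [show (1 : ℕ) = 0 + 1 from rfl, hnf 0 (by omega), f0]
  · intro i hi j
    rcases Nat.lt_or_ge i n with h1 | h1
    · rw [hold i h1]; exact C.out i h1 j
    · have : i = n := by omega
      subst this
      exact fun hh => hnB j (Or.inl hh)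
  · intro i hi j
    rcases Nat.lt_or_ge i n with h1 | h1
    · rw [hold i h1, hold i h1]; exact C.step i h1 j
    · have : i = n := by omega
      subst this
      rcases Nat.eq_zero_or_pos j with h2 | h2
      · subst h2
        rw [hn0, hnf 0 (by omega), f0]
        exact adj_lc_rc (C.cyc.step (m i))
      · obtain ⟨j', rfl⟩ : ∃ j', j = j' + 1 := ⟨j - 1, by omega⟩
        rcases Nat.lt_or_ge j' N with h3 | h3
        · rw [hnf j' (by omega), hnf (j' + 1) (by omega)]
          exact fa j' h3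
        · have e1 : j' + 1 = N + 1 + (j' - N) := by omega
          have e2 : j' + 1 + 1 = N + 1 + (j' - N + 1) := by omega
          rw [e2, e1, hnr, hnr]
          unfold Adj
          push_cast
          rcases dir_cases hn with ⟨-, e⟩ | ⟨-, e⟩ | ⟨-, e⟩ | ⟨-, e⟩ <;> rw [e] <;> simp only <;>
            omega
  · have key : ∀ i < n + 1, ∀ i' < n + 1, ∀ j j', W i (j + 1) = W i' (j' + 1) →
        i = n → i' < n → False := by
      intro i hi i' hi' j j' he h1 h2
      subst h1
      refine hnB j ?_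
      rw [he, hold i' h2]
      exact Or.inr ⟨i', h2, j', rfl⟩
    intro i hi i' hi' j j' he
    rcases Nat.lt_or_ge i n with h1 | h1
    · rcases Nat.lt_or_ge i' n with h2 | h2
      · rw [hold i h1, hold i' h2] at he
        exact C.inj i h1 i' h2 j j' he
      · exact absurd (key i' hi' i hi j' j he.symm (by omega) h1) id
    · rcases Nat.lt_or_ge i' n with h2 | h2
      · exact absurd (key i hi i' hi' j j' he (by omega) h2) id
      · have e1 : i = n := by omega
        have e2 : i' = n := by omega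
        subst e1
        subst e2
        refine ⟨rfl, ?_⟩
        rcases Nat.lt_or_ge N j with h3 | h3
        · obtain ⟨r, hr, hr2, hre⟩ := hnr' j h3
          rcases Nat.lt_or_ge N j' with h4 | h4
          · obtain ⟨r', hr', hr2', hre'⟩ := hnr' j' h4
            rw [hre, hre', Prod.ext_iff] at he
            simp only at he
            have : r = r' := by
              rcases dir_cases hn with ⟨-, e⟩ | ⟨-, e⟩ | ⟨-, e⟩ | ⟨-, e⟩ <;> rw [e] at he <;>
                simp only at he <;> omega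
            omega
          · exfalso
            have h5 := hrayfar r hr _ hre
            rw [he, hnf j' h4] at h5
            have h6 := (fS j' h4).2
            unfold Box at h6
            rw [Set.mem_ofPred_eq] at h6
            omega
        · rcases Nat.lt_or_ge N j' with h4 | h4
          · exfalso
            obtain ⟨r', hr', hr2', hre'⟩ := hnr' j' h4
            have h5 := hrayfar r' hr' _ hre'
            rw [← he, hnf j h3] at h5
            have h6 := (fS j h3).2
            unfold Box at h6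
            rw [Set.mem_ofPred_eq] at h6
            omega
          · rw [hnf j h3, hnf j' h4] at he
            exact finj j h3 j' h4 he
  · intro i hi
    rcases Nat.lt_or_ge i n with h1 | h1
    · obtain ⟨j0, k0, k1, k2⟩ := C.ray i h1
      refine ⟨j0 + 1, by omega, ?_, ?_⟩
      · intro j hj
        rw [hold i h1]
        rcases Nat.lt_or_ge j0 j with h2 | h2
        · have e : j = j0 + 1 := by omega
          rw [e, k2 1]
          rcases dir_cases (show i < 4 by omega) with ⟨-, e⟩ | ⟨-, e⟩ | ⟨-, e⟩ | ⟨-, e⟩ <;> rw [e] <;>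
            simp only [abs_le] <;> push_cast <;> omega
        · have := k1 j h2
          omega
      · intro j
        rw [hold i h1, show j0 + 1 + j = j0 + (1 + j) by omega, k2 (1 + j)]
        push_cast
        ext <;> simp only <;> ring
    · have e1 : i = n := by omega
      subst e1
      refine ⟨N + 1, by omega, ?_, ?_⟩
      · intro j hj
        rcases Nat.eq_zero_or_pos j with h2 | h2
        · subst h2
          rw [hn0]
          have := C.box _ (C.cyc.left (m i))
          have h4 : |(lcv v (m i)).1 - c.1| < M ∧ |(lcv v (m i)).2 - c.2| < M := this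
          omega
        · obtain ⟨j', rfl⟩ : ∃ j', j = j' + 1 := ⟨j - 1, by omega⟩
          rw [hnf j' (by omega)]
          exact (fS j' (by omega)).2
      · intro j
        exact hnr j

/-! ### fine outer cells -/

theorem rcv_side {h : ℕ} (v : ℕ → V) (a s : ℕ) (hs : s ≤ 2 * h) (hA : Adj (v a) (v (a + 1))) :
    rcv (vref h v) ((2 * h + 1) * a + s) = side h (rcv v a) (lcv v a) (h - s) := by
  rw [(cells_vref a s hs hA).2]
  unfold side
  unfold lcv rcv lc rc
  generalize v a = p at *
  generalize v (a + 1) = p' at *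
  obtain ⟨x, y⟩ := p
  obtain ⟨x', y'⟩ := p'
  unfold Adj at hA
  rcases hA with ⟨e1, e2⟩ | ⟨e1, e2⟩ | ⟨e1, e2⟩ | ⟨e1, e2⟩ <;> simp only at e1 e2 <;>
    simp only [e1, e2]
  · have a1 : (x + (x + 1) - (y - y) - 1) / 2 = x := by omega
    have a2 : (y + y + (x + 1 - x) - 1) / 2 = y := by omega
    have a3 : (x + (x + 1) + (y - y) - 1) / 2 = x := by omega
    have a4 : (y + y - (x + 1 - x) - 1) / 2 = y - 1 := by omega
    rw [a1, a2, a3, a4]
    refine Prod.ext ?_ ?_ <;> simp only <;> ring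
  · have a1 : (x + (x - 1) - (y - y) - 1) / 2 = x - 1 := by omega
    have a2 : (y + y + (x - 1 - x) - 1) / 2 = y - 1 := by omega
    have a3 : (x + (x - 1) + (y - y) - 1) / 2 = x - 1 := by omega
    have a4 : (y + y - (x - 1 - x) - 1) / 2 = y := by omega
    rw [a1, a2, a3, a4]
    refine Prod.ext ?_ ?_ <;> simp only <;> ring
  · have a1 : (x + x - (y + 1 - y) - 1) / 2 = x - 1 := by omega
    have a2 : (y + (y + 1) + (x - x) - 1) / 2 = y := by omega
    have a3 : (x + x + (y + 1 - y) - 1) / 2 = x := by omega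
    have a4 : (y + (y + 1) - (x - x) - 1) / 2 = y := by omega
    rw [a1, a2, a3, a4]
    refine Prod.ext ?_ ?_ <;> simp only <;> ring
  · have a1 : (x + x - (y - 1 - y) - 1) / 2 = x := by omega
    have a2 : (y + (y - 1) + (x - x) - 1) / 2 = y - 1 := by omega
    have a3 : (x + x + (y - 1 - y) - 1) / 2 = x - 1 := by omega
    have a4 : (y + (y - 1) - (x - x) - 1) / 2 = y - 1 := by omega
    rw [a1, a2, a3, a4]
    refine Prod.ext ?_ ?_ <;> simp only <;> ring

set_option linter.unusedVariables false in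
/-- a unit step is determined by its left and right cells -/
theorem dart_unique {a b a' b' : V} (h : Adj a b) (h' : Adj a' b') (hl : lc a b = lc a' b')
    (hr : rc a b = rc a' b') : a = a' := by
  unfold Adj at h h'
  unfold lc at hl
  unfold rc at hr
  rw [Prod.ext_iff] at hl hr ⊢
  simp only at hl hr
  omega

/-- the fine outer cells in the body are those of the marks -/
theorem Cfg.rcv_body (C : Cfg F L v m c M n U) {h : ℕ} (hh : 1 ≤ h) {x : ℕ}
    (hx : rcv (vref h v) x ∈ body (ref h F) (Uref h U) n) :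
    ∃ i < n, x % ((2 * h + 1) * L) = mref h m i := by
  have hd := Nat.div_add_mod x (2 * h + 1)
  have hm := Nat.mod_lt x (show 0 < 2 * h + 1 by omega)
  set a := x / (2 * h + 1) with ha
  set s := x % (2 * h + 1) with hs
  have hA := C.cyc.step a
  rw [← hd, rcv_side v a s (by omega) hA] at hx
  have hadj : Adj (rcv v a) (lcv v a) := (adj_lc_rc hA).symm
  have hq : rcv v a ∉ F := C.cyc.right a
  have hlF : lcv v a ∈ F := C.cyc.left a
  by_cases hs0 : (h : ℤ) - s = 0
  · by_contra hcon
    push Not at hcon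
    refine C.side_free hh hq hadj ?_ (t := (h : ℤ) - s) (by rw [hs0]; simp) hx
    intro i hi b he
    refine ⟨fun hw => C.out i hi (b + 1) (hw ▸ hlF), fun hw => ?_⟩
    rcases Nat.eq_zero_or_pos b with h0 | h0
    · subst h0
      refine hcon i hi ?_
      rw [C.start0 i hi] at hw
      rw [C.start1 i hi] at he
      have h1 := dart_unique hA (C.cyc.step (m i)) hw he
      have h2 := Cyc.idx C.cyc h1
      have hmi : m i < L := by
        have := C.m01; have := C.m12; have := C.m23; have := C.m3L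
        have := C.n4
        have h4 : i = 0 ∨ i = 1 ∨ i = 2 ∨ i = 3 := by omega
        rcases h4 with rfl | rfl | rfl | rfl <;> omega
      rw [Nat.mod_eq_of_lt hmi] at h2
      have hs1 : s = h := by omega
      rw [← hd, hs1]
      have hd2 := Nat.div_add_mod a L
      rw [h2] at hd2
      rw [← hd2]
      unfold mref
      have e : (2 * h + 1) * (L * (a / L) + m i) + h =
          ((2 * h + 1) * m i + h) + (2 * h + 1) * L * (a / L) := by ring
      rw [e, Nat.add_mul_mod_self_left, Nat.mod_eq_of_lt]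
      have h3 : (2 * h + 1) * (m i + 1) ≤ (2 * h + 1) * L := Nat.mul_le_mul_left _ hmi
      rw [Nat.mul_add] at h3
      omega
    · obtain ⟨b', rfl⟩ : ∃ b', b = b' + 1 := ⟨b - 1, by omega⟩
      exact C.out i hi b' (hw ▸ hlF)
  · exact absurd hx (C.side_free' hq hadj (by rw [abs_le]; omega) hs0)

theorem Cfg.m_lt (C : Cfg F L v m c M n U) {i j : ℕ} (hij : i < j) (hj : j < 4) : m i < m j := by
  have := C.m01; have := C.m12; have := C.m23
  have h4 : j = 1 ∨ j = 2 ∨ j = 3 := by omega
  rcases h4 with rfl | rfl | rfl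
  · have : i = 0 := by omega
    subst this; omega
  · have : i = 0 ∨ i = 1 := by omega
    rcases this with rfl | rfl <;> omega
  · have : i = 0 ∨ i = 1 ∨ i = 2 := by omega
    rcases this with rfl | rfl | rfl <;> omega

theorem Cfg.m_ltL (C : Cfg F L v m c M n U) {i : ℕ} (hi : i < 4) : m i < L := by
  have := C.m01; have := C.m12; have := C.m23; have := C.m3L
  have h4 : i = 0 ∨ i = 1 ∨ i = 2 ∨ i = 3 := by omega
  rcases h4 with rfl | rfl | rfl | rfl <;> omega

/-- **the next tentacle after refinement** -/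
theorem Cfg.next (C : Cfg F L v m c M n U) (hn : 1 ≤ n) (hn4 : n < 4) :
    ∃ M' U', Cfg (ref 1 F) (3 * L) (vref 1 v) (mref 1 m) (cenc 1 c) M' (n + 1) U' := by
  have C' : Cfg (ref 1 F) ((2 * 1 + 1) * L) (vref 1 v) (mref 1 m) (cenc 1 c)
      ((2 * (1 : ℕ) + 1) * M) n (Uref 1 U) := refCfg' 1 F L v m c M n U C
  obtain ⟨p, rfl⟩ : ∃ p, n = p + 1 := ⟨n - 1, by omega⟩
  have hM' := C'.M_pos
  have hlt : mref 1 m p < mref 1 m (p + 1) := C'.m_lt (by omega) hn4
  have hltL : mref 1 m (p + 1) < (2 * 1 + 1) * L := C'.m_ltL hn4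
  -- the fine outer cells between the marks are free
  have hfree : ∀ x, mref 1 m p + 1 ≤ x → x ≤ mref 1 m (p + 1) →
      rcv (vref 1 v) x ∉ body (ref 1 F) (Uref 1 U) (p + 1) := by
    intro x h1 h2 hx
    obtain ⟨i, hi, he⟩ := C.rcv_body (h := 1) le_rfl hx
    rw [Nat.mod_eq_of_lt (by omega)] at he
    rcases Nat.lt_or_ge i p with h3 | h3
    · have := C'.m_lt h3 (by omega)
      omega
    · have : i = p := by omega
      subst this
      omega
  have h1 := collarArc' 1 le_rfl F L v m c M (p + 1) U C (mref 1 m p + 1) (mref 1 m (p + 1))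
    (by omega) hfree
  have h2 := (collarTent 1 le_rfl F L v m c M (p + 1) U C p (by omega)).1
    ((2 * (1 : ℕ) + 1) * M + 1) (by omega)
  set B := body (ref 1 F) (Uref 1 U) (p + 1) with hB
  set R : ℤ := (2 * (1 : ℕ) + 1) * M + 1 with hR
  have e1 : (((cenc 1 c).1 + R * (dir p).1 + (rot (dir p)).1,
      (cenc 1 c).2 + R * (dir p).2 + (rot (dir p)).2) : V) = fp (cenc 1 c) p R 1 := by
    unfold fp rot; ext <;> simp only <;> ring
  rw [e1] at h2
  have h3 : Con Bᶜ (fp (cenc 1 c) p R 1) (fp (cenc 1 c) p R R) :=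
    C'.far_t (by omega) (by omega) (by omega)
  have e2 : fp (cenc 1 c) p R R = fp (cenc 1 c) (p + 1) R (-R) := by
    unfold fp
    have h4 : p = 0 ∨ p = 1 ∨ p = 2 := by omega
    rcases h4 with rfl | rfl | rfl <;> simp [dir] <;> ring
  have h4 : Con Bᶜ (fp (cenc 1 c) (p + 1) R (-R)) (fp (cenc 1 c) (p + 1) R (-1)) :=
    C'.far_t (by omega) (by omega) (by omega)
  have hT : fp (cenc 1 c) (p + 1) R 0 ∉ B := by
    intro hb
    have hfar : (2 * (1 : ℕ) + 1) * M < |(fp (cenc 1 c) (p + 1) R 0).1 - (cenc 1 c).1| ∨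
        (2 * (1 : ℕ) + 1) * M < |(fp (cenc 1 c) (p + 1) R 0).2 - (cenc 1 c).2| := by
      unfold fp
      rcases dir_cases hn4 with ⟨-, e⟩ | ⟨-, e⟩ | ⟨-, e⟩ | ⟨-, e⟩ <;> rw [e] <;>
        simp only [lt_abs] <;> omega
    obtain ⟨i, hi, r, hr, he⟩ := C'.far hb hfar
    unfold fp at he
    rw [Prod.ext_iff] at he
    simp only at he
    rcases dir_cases hn4 with ⟨a1, e⟩ | ⟨a1, e⟩ | ⟨a1, e⟩ | ⟨a1, e⟩ <;>
      rcases dir_cases (show i < 4 by omega) with ⟨b1, e'⟩ | ⟨b1, e'⟩ | ⟨b1, e'⟩ | ⟨b1, e'⟩ <;>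
      rw [e, e'] at he <;> simp only at he <;> omega
  have h5 : Con Bᶜ (fp (cenc 1 c) (p + 1) R (-1)) (fp (cenc 1 c) (p + 1) R 0) := by
    refine cOne ?_ hT
    unfold fp Adj
    rcases dir_cases hn4 with ⟨-, e⟩ | ⟨-, e⟩ | ⟨-, e⟩ | ⟨-, e⟩ <;> rw [e] <;> simp only <;> omega
  rw [e2] at h3
  have hm : rcv (vref 1 v) (mref 1 m (p + 1)) ∉ B := hfree _ (by omega) le_rfl
  have h1' := Crest.Agent.R158.Sp896.Con.symm h1 (hfree _ le_rfl (by omega))
  have hall := (((h1'.trans h2).trans h3).trans h4).trans h5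
  have e3 : fp (cenc 1 c) (p + 1) R 0 =
      ((cenc 1 c).1 + ((2 * (1 : ℕ) + 1) * M + 1) * (dir (p + 1)).1,
        (cenc 1 c).2 + ((2 * (1 : ℕ) + 1) * M + 1) * (dir (p + 1)).2) := by
    unfold fp; ext <;> simp only <;> ring
  rw [e3] at hall
  obtain ⟨U', hU'⟩ := C'.add hn4 hm hall
  exact ⟨_, U', hU'⟩

end cfg

/-- **(B5)** existence of the four tentacles -/
theorem exCfg : ExCfg := by
  intro F L v m hfin hcon hcon' hcyc h01 h12 h23 h3L
  obtain ⟨M0, hM0⟩ := Crest.Agent.R158.Sp896.exists_box hfin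
  have C0 : Cfg F L v m (0, 0) (M0 + 1) 0 (fun _ _ => (0, 0)) := by
    refine ⟨hfin, hcon, hcon', hcyc, h01, h12, h23, h3L, ?_, by omega, ?_, ?_, ?_, ?_, ?_, ?_⟩
    · intro q hq
      have := hM0 q hq
      simp only [sub_zero]
      omega
    all_goals (intro i hi; exact absurd hi (by omega))
  have hb0 : body F (fun _ _ => ((0, 0) : V)) 0 = F := by
    ext q
    unfold body
    simp
  have hr0 : rcv v (m 0) ∉ F := hcyc.right (m 0)
  have hT : (((0 : ℤ) + (M0 + 1 + 1) * (dir 0).1, (0 : ℤ) + (M0 + 1 + 1) * (dir 0).2) : V) ∉ F := by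
    intro hb
    have h1 := (hM0 _ hb).1
    simp only [dir, if_true] at h1
    have h2 := abs_le.1 h1
    omega
  obtain ⟨U1, C1⟩ := C0.add (by omega) (by rw [hb0]; exact hr0)
    (by rw [hb0]; exact hcon' _ hr0 _ hT)
  obtain ⟨M2, U2, C2⟩ := C1.next (by omega) (by omega)
  obtain ⟨M3, U3, C3⟩ := C2.next (by omega) (by omega)
  obtain ⟨M4, U4, C4⟩ := C3.next (by omega) (by omega)
  exact ⟨_, _, _, C4⟩

end Crest.Agent.R143.Tentx359
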