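import Crest.Agent.R143.Cd9_806
import Crest.Agent.R143.Cells_951
import Crest.Agent.R143.Tent8_359

/-!
# Row 143 (S0194), block D: **TENT** (helper806, with 359 and 951)
-/

set_option autoImplicit false

noncomputable section

namespace Crest.Agent.R143.CdTx806

/-- **TENT** -/
theorem tent' : Tenx416.TENT := Cdx806.tent Tentx359.exCfg TentBx951.cells

end Crest.Agent.R143.CdTx806
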