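import Crest.Agent.R143.K33D_877

/-!
# Row 143 (S0194), CONT, part (G): the deterministic gate (helper421; notes 3434 (G), 3461 (a)(b))

* `Tr.absorb` : free sites may be added to the classes
* `Sh S A i k ρ κ` : short connecting set: connected set of free sites of diameter `≤ ρ`, adjacent
  to `A i` and to `A k`
* `gate` : one deterministic set `κ0` is met by every chain from `A j` to a short connecting set
  (uses `KXX`)
* `gate_white` : a short connecting set which contains `x`, `x ~ k1`, `k1 ~ q`, `q` in the white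
  cluster of `A' j` : `x` is close to the gate or there is a white arm
-/

set_option autoImplicit false

noncomputable section

open scoped Classical

namespace Crest.Agent.R143.GateKx421

open Set
open Crest.Agent.R143.B0x346 Crest.Agent.R143.DelGx806 Crest.Agent.R143.DelRx806
  Crest.Agent.R143.JColx54 Crest.Agent.R143.RE0x723 Crest.Agent.R143.K33x877

variable {S : Finset ℂ} {A A' : ZMod 3 → Set ℂ} {i j k : ZMod 3}

theorem hull_mem (hA : Tr S A) {a b : ℂ} (h : hullE S a b ∨ hullE S b a) :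
    (∃ i, a ∈ A i) ∧ ∃ i, b ∈ A i := by
  rcases h with h | h
  · obtain ⟨c, hc, -⟩ := hull_succ hA.gp h
    exact ⟨hA.hull _ _ h, hA.hull _ _ hc⟩
  · obtain ⟨c, hc, -⟩ := hull_succ hA.gp h
    exact ⟨hA.hull _ _ hc, hA.hull _ _ h⟩

/-- **free sites may be added to the classes** -/
theorem absorb (hA : Tr S A) (h1 : ∀ i, A i ⊆ A' i) (h2 : ∀ i, A' i ⊆ (S : Set ℂ))
    (h3 : ∀ i j, i ≠ j → Disjoint (A' i) (A' j))
    (h4 : ∀ i, ∀ x ∈ A' i, ∀ y ∈ A' i, Pth S (A' i) x y) : Tr S A' where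
  gp := hA.gp
  sub := h2
  disj := h3
  con := h4
  hull a b h := by
    obtain ⟨i, hi⟩ := hA.hull a b h
    exact ⟨i, h1 i hi⟩
  one i j hij := by
    obtain ⟨a, b, h, ha, hb, H⟩ := hA.one i j hij
    refine ⟨a, b, h, h1 i ha, h1 j hb, fun a' b' h' ha' hb' => ?_⟩
    obtain ⟨⟨i', hi'⟩, j', hj'⟩ := hull_mem hA h'
    have e1 : i' = i := by
      by_contra hc
      exact Set.disjoint_left.1 (h3 i' i hc) (h1 i' hi') ha'
    have e2 : j' = j := by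
      by_contra hc
      exact Set.disjoint_left.1 (h3 j' j hc) (h1 j' hj') hb'
    subst e1 e2
    exact H a' b' h' hi' hj'

/-- families of three disjoint connected classes, closed under enlargements, with **K33** for two
connected centres (385's `Fam`, only what is used here) -/
structure FamG (S : Finset ℂ) (P : (ZMod 3 → Set ℂ) → Prop) : Prop where
  sub : ∀ A, P A → ∀ i, A i ⊆ (S : Set ℂ)
  disj : ∀ A, P A → ∀ i j, i ≠ j → Disjoint (A i) (A j)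
  con : ∀ A, P A → ∀ i, ∀ x ∈ A i, ∀ y ∈ A i, Pth S (A i) x y
  up : ∀ A C : ZMod 3 → Set ℂ, P A → (∀ i, A i ⊆ C i) → (∀ i, C i ⊆ (S : Set ℂ)) →
    (∀ i j, i ≠ j → Disjoint (C i) (C j)) → (∀ i, ∀ x ∈ C i, ∀ y ∈ C i, Pth S (C i) x y) → P C
  kxx : ∀ A, P A → ∀ X Y, CtrX S A X → CtrX S A Y → ¬ Disjoint X Y

/-- the hull instance -/
theorem famG_tr (H : KXX) : FamG S (Tr S) where
  sub _ h := h.sub
  disj _ h := h.disj
  con _ h := h.con
  up _ _ h h1 h2 h3 h4 := absorb h h1 h2 h3 h4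
  kxx A h := H S A h

variable {P : (ZMod 3 → Set ℂ) → Prop}

/-- short connecting sets -/
structure Sh (S : Finset ℂ) (A : ZMod 3 → Set ℂ) (i k : ZMod 3) (ρ : ℝ) (κ : Set ℂ) : Prop where
  fr : κ ⊆ fr S A
  con : ∀ x ∈ κ, ∀ y ∈ κ, Pth S κ x y
  ai : ∃ x ∈ κ, ∃ y ∈ A i, Adj S x y
  ak : ∃ x ∈ κ, ∃ y ∈ A k, Adj S x y
  dm : ∀ x ∈ κ, ∀ y ∈ κ, ‖x - y‖ ≤ ρ

/-- free sites off `κ` joined to `A j` off `κ` -/
def MM (S : Finset ℂ) (A : ZMod 3 → Set ℂ) (j : ZMod 3) (κ : Set ℂ) : Set ℂ :=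
  {x | x ∈ fr S A ∧ x ∉ κ ∧ ∃ a ∈ A j, Pth S ((fr S A \ κ) ∪ A j) a x}

theorem MM_fin (κ : Set ℂ) : (MM S A j κ).Finite :=
  S.finite_toSet.subset fun _ h => h.1.1

/-- the class `A j` with its component in the free sites off `κ` -/
def CC (S : Finset ℂ) (A : ZMod 3 → Set ℂ) (j : ZMod 3) (κ : Set ℂ) : Set ℂ :=
  A j ∪ MM S A j κ

theorem CC_step {κ : Set ℂ} {b c : ℂ} (hb : b ∈ CC S A j κ) (h : Adj S b c)
    (hc : c ∈ fr S A) (hc' : c ∉ κ) : c ∈ CC S A j κ := by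
  right
  refine ⟨hc, hc', ?_⟩
  rcases hb with hb | ⟨-, -, a, ha, hp⟩
  · exact ⟨b, hb, Pth.single (Or.inr hb) h (Or.inl ⟨hc, hc'⟩)⟩
  · exact ⟨a, ha, hp.tail h (Or.inl ⟨hc, hc'⟩)⟩

theorem CC_pth {κ : Set ℂ} {a x : ℂ} (ha : a ∈ A j)
    (h : Pth S ((fr S A \ κ) ∪ A j) a x) : Pth S (CC S A j κ) a x := by
  obtain ⟨-, h⟩ := h
  have h0 : a ∈ CC S A j κ := Or.inl ha
  suffices H : ∀ y, Relation.ReflTransGen (fun a b => Adj S a b ∧ b ∈ (fr S A \ κ) ∪ A j) a y →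
      Pth S (CC S A j κ) a y from H x h
  intro y hy
  induction hy with
  | refl => exact Pth.refl h0
  | @tail b c h1 h2 ih =>
    refine ih.tail h2.1 ?_
    rcases h2.2 with h3 | h3
    · exact CC_step ih.snd h2.1 h3.1 h3.2
    · exact Or.inl h3

theorem CC_con (hA : ∀ i, ∀ x ∈ A i, ∀ y ∈ A i, Pth S (A i) x y) {κ : Set ℂ} : ∀ x ∈ CC S A j κ, ∀ y ∈ CC S A j κ,
    Pth S (CC S A j κ) x y := by
  have key : ∀ x ∈ CC S A j κ, ∃ a ∈ A j, Pth S (CC S A j κ) a x := by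
    rintro x (hx | ⟨h1, h2, a, ha, hp⟩)
    · exact ⟨x, hx, Pth.refl (Or.inl hx)⟩
    · exact ⟨a, ha, CC_pth ha hp⟩
  intro x hx y hy
  obtain ⟨a, ha, h1⟩ := key x hx
  obtain ⟨b, hb, h2⟩ := key y hy
  exact h1.symm.trans (((hA j a ha b hb).mono subset_union_left).trans h2)

/-- the classes with `A j` replaced by its component -/
def AC (S : Finset ℂ) (A : ZMod 3 → Set ℂ) (j : ZMod 3) (κ : Set ℂ) (l : ZMod 3) : Set ℂ :=
  if l = j then CC S A j κ else A l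

theorem AC_self {κ : Set ℂ} : AC S A j κ j = CC S A j κ := if_pos rfl

theorem AC_ne {κ : Set ℂ} {l : ZMod 3} (h : l ≠ j) : AC S A j κ l = A l := if_neg h

theorem AC_tr (F : FamG S P) (hA : P A) {κ : Set ℂ} : P (AC S A j κ) := by
  refine F.up A _ hA (fun l => ?_) (fun l => ?_) (fun l m hlm => ?_) (fun l => ?_)
  · by_cases h : l = j
    · subst h
      rw [AC_self]
      exact subset_union_left
    · rw [AC_ne h]
  · by_cases h : l = j
    · subst h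
      rw [AC_self]
      rintro x (hx | hx)
      · exact F.sub A hA _ hx
      · exact hx.1.1
    · rw [AC_ne h]
      exact F.sub A hA l
  · by_cases h : l = j
    · subst h
      rw [AC_self, AC_ne (Ne.symm hlm)]
      refine Set.disjoint_left.2 ?_
      rintro x (hx | hx) hm
      · exact Set.disjoint_left.1 (F.disj A hA _ _ hlm) hx hm
      · exact hx.1.2 m hm
    · by_cases h' : m = j
      · subst h'
        rw [AC_self, AC_ne h]
        refine Set.disjoint_left.2 ?_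
        rintro x hm (hx | hx)
        · exact Set.disjoint_left.1 (F.disj A hA _ _ hlm) hm hx
        · exact hx.1.2 l hm
      · rw [AC_ne h, AC_ne h']
        exact F.disj A hA _ _ hlm
  · by_cases h : l = j
    · subst h
      rw [AC_self]
      exact CC_con (F.con A hA)
    · rw [AC_ne h]
      exact F.con A hA l

theorem cov : ∀ {i j k : ZMod 3}, i ≠ j → j ≠ k → i ≠ k → ∀ l : ZMod 3, l = i ∨ l = j ∨ l = k := by
  decide

/-- two disjoint short sets are not both seen from `A j` off the other one -/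
theorem not_both (F : FamG S P) (hA : P A) (hij : i ≠ j) (hjk : j ≠ k) (hik : i ≠ k) {ρ : ℝ}
    {κ κ' : Set ℂ} (h : Sh S A i k ρ κ) (h' : Sh S A i k ρ κ') (hd : Disjoint κ κ')
    (h1 : ∃ x ∈ κ, ∃ y ∈ CC S A j (κ ∪ κ'), Adj S x y)
    (h2 : ∃ x ∈ κ', ∃ y ∈ CC S A j (κ ∪ κ'), Adj S x y) : False := by
  have hl : ∀ l : ZMod 3, l = i ∨ l = j ∨ l = k := cov hij hjk hik
  have key : ∀ κ1 : Set ℂ, Sh S A i k ρ κ1 → κ1 ⊆ κ ∪ κ' →
      (∃ x ∈ κ1, ∃ y ∈ CC S A j (κ ∪ κ'), Adj S x y) → CtrX S (AC S A j (κ ∪ κ')) κ1 := by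
    intro κ1 g1 g2 g3
    refine ⟨fun l => ?_, g1.con, fun l => ?_⟩
    · by_cases h : l = j
      · subst h
        rw [AC_self]
        refine Set.disjoint_left.2 ?_
        rintro x hx (hy | hy)
        · exact (g1.fr hx).2 _ hy
        · exact hy.2.1 (g2 hx)
      · rw [AC_ne h]
        exact Set.disjoint_left.2 fun x hx hy => (g1.fr hx).2 _ hy
    · rcases hl l with rfl | rfl | rfl
      · rw [AC_ne hij]
        exact g1.ai
      · rw [AC_self]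
        exact g3
      · rw [AC_ne (Ne.symm hjk)]
        exact g1.ak
  exact F.kxx _ (AC_tr F hA) κ κ' (key κ h subset_union_left h1)
    (key κ' h' subset_union_right h2) hd

/-- **the gate**: a deterministic set `κ0` is met by every chain from `A j` to a short connecting
set -/
theorem gate (F : FamG S P) (hA : P A) (hij : i ≠ j) (hjk : j ≠ k) (hik : i ≠ k) (ρ : ℝ)
    (hne : ∃ κ, Sh S A i k ρ κ) : ∃ κ0, Sh S A i k ρ κ0 ∧ ∀ κ, Sh S A i k ρ κ →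
      Disjoint κ κ0 → ∀ a ∈ A j, ∀ x ∈ κ, ∀ V : Set ℂ, V ⊆ fr S A ∪ A j → Pth S V a x →
        ∃ z ∈ V, z ∈ κ0 := by
  obtain ⟨κ0, h0, hmin⟩ := WellFounded.has_min
    (measure fun κ : Set ℂ => (MM S A j κ).ncard).wf {κ | Sh S A i k ρ κ} hne
  have h0 : Sh S A i k ρ κ0 := h0
  refine ⟨κ0, h0, fun κ hκ hd a ha x hx V hV hp => ?_⟩
  by_contra hc
  push Not at hc
  -- first entrance in `κ`
  obtain ⟨u, v, h1, h2, h3, h4⟩ := hp.exit (Q := fun w => w ∉ κ)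
    (fun h => (hκ.fr h).2 _ ha) (not_not.2 hx)
  have h4 : v ∈ κ := not_not.1 h4
  have hu : u ∈ CC S A j (κ ∪ κ0) := by
    have h5 := h1.snd
    rcases hV h5.1 with h6 | h6
    · right
      refine ⟨h6, fun h => h.elim h5.2 (hc u h5.1), a, ha, h1.mono ?_⟩
      rintro w ⟨w1, w2⟩
      rcases hV w1 with w3 | w3
      · exact Or.inl ⟨w3, fun h => h.elim w2 (hc w w1)⟩
      · exact Or.inr w3
    · exact Or.inl h6
  -- not adjacent to `κ0`
  have hn : ∀ y ∈ CC S A j (κ ∪ κ0), ∀ z ∈ κ0, ¬ Adj S z y := by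
    intro y hy z hz hzy
    exact not_both F hA hij hjk hik hκ h0 hd ⟨v, h4, u, hu, h2.symm⟩ ⟨z, hz, y, hy, hzy⟩
  have s1 : MM S A j κ ⊆ CC S A j (κ ∪ κ0) := by
    rintro y ⟨y1, y2, b, hb, hpy⟩
    refine hpy.ind (P := fun y => y ∈ CC S A j (κ ∪ κ0)) (Or.inl hb) ?_
    intro p q _ hq hpq hpC
    rcases hq with hq | hq
    · refine CC_step hpC hpq hq.1 fun h => h.elim hq.2 fun h5 => ?_
      exact hn p hpC q h5 hpq.symm
    · exact Or.inl hq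
  have s2 : MM S A j κ ⊆ MM S A j κ0 := by
    rintro y hy
    have hy1 := hy.1
    rcases s1 hy with h5 | ⟨h5, h6, b, hb, hpb⟩
    · exact absurd h5 (hy1.2 _)
    · refine ⟨h5, fun h => h6 (Or.inr h), b, hb, hpb.mono ?_⟩
      exact union_subset_union_left _ fun w hw => ⟨hw.1, fun h => hw.2 (Or.inr h)⟩
  have s3 : v ∈ MM S A j κ0 := by
    have hv0 : v ∉ κ0 := fun h => Set.disjoint_left.1 hd h4 h
    refine ⟨hκ.fr h4, hv0, ?_⟩
    rcases hu with hu | ⟨-, -, b, hb, hpb⟩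
    · exact ⟨u, hu, Pth.single (Or.inr hu) h2 (Or.inl ⟨hκ.fr h4, hv0⟩)⟩
    · refine ⟨b, hb, (hpb.mono ?_).tail h2 (Or.inl ⟨hκ.fr h4, hv0⟩)⟩
      exact union_subset_union_left _ fun w hw => ⟨hw.1, fun h => hw.2 (Or.inr h)⟩
  have s4 : v ∉ MM S A j κ := fun h => h.2.1 h4
  have s5 : (MM S A j κ).ncard < (MM S A j κ0).ncard :=
    Set.ncard_lt_ncard ⟨s2, fun h => s4 (h s3)⟩ (MM_fin κ0)
  exact hmin κ hκ s5

/-! ### arms -/

/-- chain of sites of `V` across the annulus `A(p; r, R)` -/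
def Arm (S : Finset ℂ) (V : Set ℂ) (p : ℂ) (r R : ℝ) : Prop :=
  ∃ a b, Pth S V a b ∧ ‖a - p‖ ≤ r ∧ R ≤ ‖b - p‖

/-- every site of `A' j` next to a free site of `A'` is joined to `A j` inside `A' j` within the
distance `d` -/
def Thin (S : Finset ℂ) (A A' : ZMod 3 → Set ℂ) (j : ZMod 3) (d : ℝ) : Prop :=
  ∀ x ∈ A' j, (∃ w ∈ fr S A', Adj S x w) → ∃ a ∈ A j, Pth S {y | y ∈ A' j ∧ ‖y - x‖ ≤ d} x a

theorem fr_mono (hs : ∀ i, A i ⊆ A' i) : fr S A' ⊆ fr S A :=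
  fun _ h => ⟨h.1, fun l hl => h.2 l (hs l hl)⟩

theorem cls_sub (F : FamG S P) (hA' : P A') (hs : ∀ i, A i ⊆ A' i) : A' j ⊆ fr S A ∪ A j := by
  intro x hx
  by_cases h : x ∈ A j
  · exact Or.inr h
  · refine Or.inl ⟨F.sub A' hA' _ hx, fun l hl => ?_⟩
    by_cases e : l = j
    · subst e
      exact h hl
    · exact Set.disjoint_left.1 (F.disj A' hA' l j e) (hs l hl) hx

/-- last visit of `B` -/
theorem last_visit {W B : Set ℂ} {s q : ℂ} (hs : s ∈ B) (h : Pth S (W ∪ B) s q) :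
    ∃ s' ∈ B, q = s' ∨ ∃ w1 ∈ W, Adj S s' w1 ∧ Pth S W w1 q := by
  refine h.ind (P := fun q => ∃ s' ∈ B, q = s' ∨ ∃ w1 ∈ W, Adj S s' w1 ∧ Pth S W w1 q)
    ⟨s, hs, Or.inl rfl⟩ ?_
  rintro a b - hb hab ⟨s', h1, h2⟩
  by_cases hB : b ∈ B
  · exact ⟨b, hB, Or.inl rfl⟩
  · have hW : b ∈ W := hb.resolve_right hB
    rcases h2 with rfl | ⟨w1, h3, h4, h5⟩
    · exact ⟨a, h1, Or.inr ⟨b, hW, hab, Pth.refl hW⟩⟩
    · exact ⟨s', h1, Or.inr ⟨w1, h3, h4, h5.tail hab hW⟩⟩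

/-- **close to the gate, or a white arm at the gate** -/
theorem gate_white (F : FamG S P) (hA : P A) (hA' : P A') (hs : ∀ i, A i ⊆ A' i) (hij : i ≠ j)
    (hjk : j ≠ k) (hik : i ≠ k) {ρ d m : ℝ} (hd : 0 ≤ d) (hρ : 0 ≤ ρ)
    (hm : ∀ a ∈ fr S A, ∀ b, Adj S a b → ‖a - b‖ ≤ m) (hthin : Thin S A A' j d) (z0 : ℂ) :
    ∃ p0 : ℂ, (p0 = z0 ∨ p0 ∈ fr S A) ∧ ∀ (W κ : Set ℂ) (x k1 q : ℂ), W ⊆ fr S A' → Sh S A i k ρ κ → x ∈ κ →
      k1 ∈ fr S A' → Adj S x k1 → Adj S k1 q → q ∈ Clu S W (A' j) →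
      ‖x - p0‖ ≤ 2 * ρ + d + 2 * m ∨ ∃ a b, Pth S W a b ∧ ‖a - p0‖ ≤ ρ + d + m ∧
        ‖x - p0‖ - 2 * m ≤ ‖b - p0‖ := by
  by_cases hne : ∃ κ, Sh S A i k ρ κ
  swap
  · exact ⟨z0, Or.inl rfl, fun W κ x k1 q _ hκ => absurd ⟨κ, hκ⟩ hne⟩
  obtain ⟨κ0, h0, hg⟩ := gate F hA hij hjk hik ρ hne
  obtain ⟨p0, hp0, -⟩ := h0.ai
  have m0 : 0 ≤ m := by
    obtain ⟨x, hx, y, -, hxy⟩ := h0.ai
    exact (norm_nonneg _).trans (hm x (h0.fr hx) y hxy)
  refine ⟨p0, Or.inr (h0.fr hp0), fun W κ x k1 q hW hκ hx hk1 h1 h2 hq => ?_⟩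
  have tri : ∀ a b : ℂ, ‖a - p0‖ ≤ ‖a - b‖ + ‖b - p0‖ := fun a b => norm_sub_le_norm_sub_add_norm_sub _ _ _
  by_cases hd0 : Disjoint κ κ0
  swap
  · left
    obtain ⟨z, hz, hz0⟩ := Set.not_disjoint_iff.1 hd0
    have e1 := tri x z
    have e2 := hκ.dm x hx z hz
    have e3 := h0.dm z hz0 p0 hp0
    linarith
  obtain ⟨s, hsB, hsp⟩ := hq
  obtain ⟨s', hs', hlast⟩ := last_visit hsB hsp
  obtain ⟨a0, ha0, hth⟩ := hthin s' hs' (by
    rcases hlast with h3 | ⟨w1, h3, h4, -⟩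
    · exact ⟨k1, hk1, h3 ▸ h2.symm⟩
    · exact ⟨w1, hW h3, h4⟩)
  have hxf := hκ.fr hx
  have hkf := fr_mono hs hk1
  have exk : ‖x - k1‖ ≤ m := hm x hxf k1 h1
  have ekq : ‖k1 - q‖ ≤ m := hm k1 hkf q h2
  -- the chain
  set V : Set ℂ := ({y | y ∈ A' j ∧ ‖y - s'‖ ≤ d} ∪ {w | w ∈ W ∧ Pth S W w q}) ∪ {k1, x} with hV
  have hVs : V ⊆ fr S A ∪ A j := by
    rintro z ((hz | hz) | hz)
    · exact cls_sub F hA' hs hz.1
    · exact Or.inl (fr_mono hs (hW hz.1))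
    · rcases hz with rfl | hz
      · exact Or.inl hkf
      · rw [Set.mem_singleton_iff] at hz
        subst hz
        exact Or.inl hxf
  have p1 : Pth S V a0 s' := hth.symm.mono fun z hz => Or.inl (Or.inl hz)
  have p2 : Pth S V s' q := by
    rcases hlast with h3 | ⟨w1, h3, h4, h5⟩
    · rw [h3]
      exact Pth.refl p1.snd
    · have h6 := h5.self
      exact (Pth.single p1.snd h4 (Or.inl (Or.inr ⟨h3, h5⟩))).trans
        (h6.mono fun z hz => Or.inl (Or.inr hz))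
  have p3 : Pth S V a0 x :=
    ((p1.trans p2).tail h2.symm (Or.inr (Or.inl rfl))).tail h1.symm (Or.inr (Or.inr rfl))
  obtain ⟨z, hz, hz0⟩ := hg κ hκ hd0 a0 ha0 x hx V hVs p3
  have e0 : ‖z - p0‖ ≤ ρ := h0.dm z hz0 p0 hp0
  have e1 := tri x k1
  have e2 := tri k1 q
  rcases hz with (hz | hz) | hz
  · have e3 : ‖s' - p0‖ ≤ ρ + d := by
      have := tri s' z
      rw [norm_sub_rev s' z] at this
      linarith [hz.2]
    rcases hlast with h3 | ⟨w1, h3, h4, h5⟩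
    · left
      rw [h3] at e2 ekq
      linarith
    · right
      refine ⟨w1, q, h5, ?_, by linarith⟩
      have := tri w1 s'
      have := hm w1 (fr_mono hs (hW h3)) s' h4.symm
      linarith
  · right
    exact ⟨z, q, hz.2, by linarith, by linarith⟩
  · left
    rcases hz with rfl | hz
    · linarith
    · rw [Set.mem_singleton_iff] at hz
      subst hz
      linarith

/-- **(G), two unconditional arms at a deterministic point** -/
theorem gate_arms (F : FamG S P) (hA : P A) (hA' : P A') (hs : ∀ i, A i ⊆ A' i) (hij : i ≠ j)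
    (hjk : j ≠ k) (hik : i ≠ k) {ρ d m r2 : ℝ} (hd : 0 ≤ d) (hρ : 0 ≤ ρ)
    (hr2 : 2 * ρ + d + 2 * m < r2)
    (hm : ∀ a ∈ fr S A, ∀ b, Adj S a b → ‖a - b‖ ≤ m) (hthin : Thin S A A' j d) (z0 : ℂ) :
    ∃ p0 : ℂ, (p0 = z0 ∨ p0 ∈ fr S A) ∧ ∀ (W B κ : Set ℂ) (x k1 q kk u : ℂ), W ⊆ fr S A' → B ⊆ fr S A' →
      Sh S A i k ρ κ → x ∈ κ → Adj S x k1 → Adj S k1 q → q ∈ Clu S W (A' j) →
      Pth S B k1 kk → Adj S kk u →
      Arm S W p0 (ρ + d + m) (r2 - 2 * m) ∨ Arm S B p0 (r2 + m) (‖u - x‖ - r2 - m) := by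
  obtain ⟨p0, hp0, hp⟩ := gate_white F hA hA' hs hij hjk hik hd hρ hm hthin z0
  refine ⟨p0, hp0, fun W B κ x k1 q kk u hW hB hκ hx h1 h2 hq hK hu => ?_⟩
  have tri : ∀ a b : ℂ, ‖a - p0‖ ≤ ‖a - b‖ + ‖b - p0‖ := fun a b => norm_sub_le_norm_sub_add_norm_sub _ _ _
  have hk1 := hB hK.1
  have exk : ‖x - k1‖ ≤ m := hm x (hκ.fr hx) k1 h1
  have eku : ‖kk - u‖ ≤ m := hm kk (fr_mono hs (hB hK.snd)) u hu
  rcases le_or_gt r2 ‖x - p0‖ with hr | hr
  · left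
    rcases hp W κ x k1 q hW hκ hx hk1 h1 h2 hq with h3 | ⟨a, b, h3, h4, h5⟩
    · linarith
    · exact ⟨a, b, h3, h4, by linarith⟩
  · right
    refine ⟨k1, kk, hK, ?_, ?_⟩
    · have := tri k1 x
      rw [norm_sub_rev k1 x] at this
      linarith
    · have e1 := tri u kk
      rw [norm_sub_rev u kk] at e1
      have e2 : ‖u - x‖ ≤ ‖u - p0‖ + ‖x - p0‖ := by
        have := norm_sub_le_norm_sub_add_norm_sub u p0 x
        rw [norm_sub_rev p0 x] at this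
        exact this
      linarith

/-! ### the short connecting set -/

/-- a chain of `E` from `z` leaves the ball `B(x, r)` or stays in it -/
theorem tail_dich {E : Set ℂ} {x z v1 : ℂ} {r : ℝ} (h : Pth S E z v1) (hz : ‖z - x‖ ≤ r) :
    (∃ v, Pth S E z v ∧ r < ‖v - x‖) ∨ Pth S {v | v ∈ E ∧ ‖v - x‖ ≤ r} z v1 := by
  by_cases hc : ∃ v, Pth S E z v ∧ r < ‖v - x‖
  · exact Or.inl hc
  · push Not at hc
    right
    obtain ⟨hzE, h⟩ := h
    suffices H : ∀ y, Relation.ReflTransGen (fun a b => Adj S a b ∧ b ∈ E) z y →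
        Pth S {v | v ∈ E ∧ ‖v - x‖ ≤ r} z y from H v1 h
    intro y hy
    induction hy with
    | refl => exact Pth.refl ⟨hzE, hz⟩
    | @tail b c h1 h2 ih =>
      exact ih.tail h2.1 ⟨h2.2, hc c ⟨hzE, h1.tail h2⟩⟩

/-- a barrier `σ` (from `x` to `A i`) and a chain from `σ` to `A k` form a short set -/
theorem sh_of {E σ : Set ℂ} {x z v1 y : ℂ} {r : ℝ} (hE : E ⊆ fr S A) (hσ : σ ⊆ fr S A)
    (hc : ∀ a ∈ σ, ∀ b ∈ σ, Pth S σ a b) (hr : ∀ a ∈ σ, ‖a - x‖ ≤ r)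
    (hi : ∃ a ∈ σ, ∃ b ∈ A i, Adj S a b) (hz : z ∈ σ)
    (ht : Pth S {v | v ∈ E ∧ ‖v - x‖ ≤ r} z v1) (hy : y ∈ A k) (h1 : Adj S v1 y) :
    Sh S A i k (2 * r) (σ ∪ {v | Pth S {v | v ∈ E ∧ ‖v - x‖ ≤ r} z v}) := by
  set τ : Set ℂ := {v | Pth S {v | v ∈ E ∧ ‖v - x‖ ≤ r} z v} with hτ
  have zτ : z ∈ τ := Pth.refl ht.1
  have hb : ∀ a ∈ σ ∪ τ, ‖a - x‖ ≤ r := by
    rintro a (ha | ha)
    · exact hr a ha
    · exact (Pth.snd ha).2
  have key : ∀ a ∈ σ ∪ τ, Pth S (σ ∪ τ) z a := by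
    rintro a (ha | ha)
    · exact (hc z hz a ha).mono subset_union_left
    · have h2 : Pth S τ z a := by
        have h3 := (Pth.symm ha).self
        have h4 := h3.symm
        refine h4.mono ?_
        rintro v ⟨-, hv⟩
        exact hv.symm
      exact h2.mono subset_union_right
  refine ⟨?_, fun a ha b hb' => (key a ha).symm.trans (key b hb'), ?_, ?_, ?_⟩
  · rintro a (ha | ha)
    · exact hσ ha
    · exact hE (Pth.snd ha).1
  · obtain ⟨a, ha, b, hb', hab⟩ := hi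
    exact ⟨a, Or.inl ha, b, hb', hab⟩
  · exact ⟨v1, Or.inr ht, y, hy, h1⟩
  · intro a ha b hb'
    have e1 := hb a ha
    have e2 := hb b hb'
    have e3 := norm_sub_le_norm_sub_add_norm_sub a x b
    rw [norm_sub_rev x b] at e3
    linarith

/-- a barrier for every site of a thin class -/
theorem barrier (F : FamG S P) (hA' : P A') (hs : ∀ i, A i ⊆ A' i) {d : ℝ} (hthin : Thin S A A' i d) {x : ℂ}
    (hx : x ∈ A' i) (hx' : x ∉ A i) (hw : ∃ w ∈ fr S A', Adj S x w) :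
    ∃ σ : Set ℂ, σ ⊆ A' i ∧ σ ⊆ fr S A ∧ x ∈ σ ∧ (∀ a ∈ σ, ∀ b ∈ σ, Pth S σ a b) ∧
      (∀ a ∈ σ, ‖a - x‖ ≤ d) ∧ ∃ a ∈ σ, ∃ b ∈ A i, Adj S a b := by
  obtain ⟨a0, ha0, hp⟩ := hthin x hx hw
  obtain ⟨u, v, h1, h2, h3, h4⟩ := hp.exit (Q := fun w => w ∉ A i) hx' (not_not.2 ha0)
  set Z : Set ℂ := {w | w ∈ {y | y ∈ A' i ∧ ‖y - x‖ ≤ d} ∧ w ∉ A i} with hZ
  have hcon : ∀ a, Pth S Z x a → Pth S {a | Pth S Z x a} x a := by
    intro a ha
    have h3 := (Pth.symm ha).self.symm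
    refine h3.mono ?_
    rintro v ⟨-, hv⟩
    exact hv.symm
  refine ⟨{a | Pth S Z x a}, fun a ha => (Pth.snd ha).1.1, ?_, Pth.refl h1.1, ?_,
    fun a ha => (Pth.snd ha).1.2, u, h1, v, not_not.1 h4, h2⟩
  · intro a ha
    rcases cls_sub F hA' hs (Pth.snd ha).1.1 with h5 | h5
    · exact h5
    · exact absurd h5 (Pth.snd ha).2
  · intro a ha b hb
    exact (hcon a ha).symm.trans (hcon b hb)

/-- **(G), complete**: `x` in the barrier `σ`; the chain of `E` from `z ∈ σ` to `v1 ~ y ∈ A k`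
leaves `B(x, r1)`, or there is a white arm or a black arm at the deterministic point `p0` -/
theorem gate_main (F : FamG S P) (hA : P A) (hA' : P A') (hs : ∀ i, A i ⊆ A' i) (hij : i ≠ j)
    (hjk : j ≠ k) (hik : i ≠ k) {d m r1 r2 : ℝ} (hd : 0 ≤ d) (hd1 : d ≤ r1)
    (hr2 : 4 * r1 + d + 2 * m < r2)
    (hm : ∀ a ∈ fr S A, ∀ b, Adj S a b → ‖a - b‖ ≤ m) (hthin : Thin S A A' j d) (z0 : ℂ) :
    ∃ p0 : ℂ, (p0 = z0 ∨ p0 ∈ fr S A) ∧ ∀ (W B E σ : Set ℂ) (x k1 q kk u z v1 y : ℂ), W ⊆ fr S A' → B ⊆ fr S A' →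
      E ⊆ fr S A → σ ⊆ fr S A → (∀ a ∈ σ, ∀ b ∈ σ, Pth S σ a b) → (∀ a ∈ σ, ‖a - x‖ ≤ d) →
      (∃ a ∈ σ, ∃ b ∈ A i, Adj S a b) → x ∈ σ → z ∈ σ → Pth S E z v1 → Adj S v1 y → y ∈ A k →
      Adj S x k1 → Adj S k1 q → q ∈ Clu S W (A' j) → Pth S B k1 kk → Adj S kk u →
      (∃ v, Pth S E z v ∧ r1 < ‖v - x‖) ∨
        Arm S W p0 (2 * r1 + d + m) (r2 - 2 * m) ∨ Arm S B p0 (r2 + m) (‖u - x‖ - r2 - m) := by
  obtain ⟨p0, hp0, hp⟩ := gate_arms F hA hA' hs hij hjk hik (ρ := 2 * r1) (r2 := r2) hd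
    (by linarith) (by linarith) hm hthin z0
  refine ⟨p0, hp0, ?_⟩
  intro W B E σ x k1 q kk u z v1 y hW hB hE hσ hc hr hi hx hz ht h1 hy g1 g2 hq hK hu
  rcases tail_dich ht ((hr z hz).trans hd1) with h | h
  · exact Or.inl h
  · right
    exact hp W B _ x k1 q kk u hW hB
      (sh_of hE hσ hc (fun a ha => (hr a ha).trans hd1) hi hz h hy h1) (Or.inl hx) g1 g2 hq hK hu

end Crest.Agent.R143.GateKx421
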