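import Crest.Agent.R143.K33_877
import Crest.Agent.R143.GateK_421
import Crest.Agent.R143.ContT_571

/-!
# Row 143 (S0194), CONT: (C) a centre catches the hit (helper802, uses K33 of helper877)

* `cen_x` : `X` = connected centre (free sites adjacent to the three classes). For every colouring
  `T`, the hit `(b, v, u)` is joined to `X` by black free sites (from `b`) or by white free sites
  (from `v`)
* `cen_t` : if there is a triangle with a vertex in every class, it is the hit
-/

set_option autoImplicit false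

noncomputable section

open scoped Classical

namespace Crest.Agent.R143.Cenx802

open Set
open Crest.Agent.R143.B0x346 Crest.Agent.R143.DelGx806 Crest.Agent.R143.DelRx806
  Crest.Agent.R143.JColx54 Crest.Agent.R143.RE0x723 Crest.Agent.R143.K33x877
  Crest.Agent.R143.ContTx571 Crest.Agent.R143.GateKx421
open Crest.Agent.R143.RB2x54 (Vt)

variable {S : Finset ℂ} {A C : ZMod 3 → Set ℂ} {i j k : ZMod 3} {T U V X P P' : Set ℂ}
  {b v u x y : ℂ}

theorem dec3 : ∀ i j k : ZMod 3, i ≠ j → i ≠ k → j ≠ k → ∀ l, l = i ∨ l = j ∨ l = k := by decide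

/-- a class with the component of a site in its cluster is connected -/
theorem join_con {A0 : Set ℂ} (hc : ∀ x ∈ A0, ∀ y ∈ A0, Pth S A0 x y) (hb : b ∈ Clu S V A0) :
    ∀ x ∈ A0 ∪ (cp S (V \ A0) b), ∀ y ∈ A0 ∪ (cp S (V \ A0) b),
      Pth S (A0 ∪ (cp S (V \ A0) b)) x y := by
  -- every site of the component is joined to the class
  have key : ∀ x ∈ A0 ∪ (cp S (V \ A0) b), ∃ a ∈ A0, Pth S (A0 ∪ (cp S (V \ A0) b)) x a := by
    rintro x (hx | hx)
    · exact ⟨x, hx, Pth.refl (Or.inl hx)⟩
    · obtain ⟨a, ha, p⟩ := hb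
      have hb0 : b ∉ A0 := by
        have : b ∈ V \ A0 := hx.1
        exact this.2
      obtain ⟨s, r, e1, e2, e3, e4⟩ := p.symm.exit (Q := fun z => z ∉ A0) hb0 (fun h => h ha)
      have e1' : Pth S (V \ A0) b s := by
        refine e1.mono ?_
        rintro w ⟨h1 | h1, h2⟩
        · exact ⟨h1, h2⟩
        · exact absurd h1 h2
      have hs : s ∈ cp S (V \ A0) b := e1'
      have h1 := cp_con x hx s hs
      have hr : r ∈ A0 := not_not.1 e4
      exact ⟨r, hr, (h1.mono subset_union_right).tail e2 (Or.inl hr)⟩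
  intro x hx y hy
  obtain ⟨a, ha, h1⟩ := key x hx
  obtain ⟨a', ha', h2⟩ := key y hy
  exact h1.trans (((hc a ha a' ha').mono subset_union_left).trans h2.symm)

/-- the classes with the black component of `b` and the white component of `v` -/
def en (S : Finset ℂ) (A : ZMod 3 → Set ℂ) (i j : ZMod 3) (T : Set ℂ) (b v : ℂ) (l : ZMod 3) :
    Set ℂ :=
  if l = i then A i ∪ cp S ((fr S A ∩ T) \ A i) b else
    if l = j then A j ∪ cp S ((fr S A \ T) \ A j) v else A l

theorem en_i : en S A i j T b v i = A i ∪ cp S ((fr S A ∩ T) \ A i) b := if_pos rfl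

theorem en_j (h : i ≠ j) : en S A i j T b v j = A j ∪ cp S ((fr S A \ T) \ A j) v := by
  unfold en
  rw [if_neg h.symm, if_pos rfl]

theorem en_k (h : i ≠ k) (h' : j ≠ k) : en S A i j T b v k = A k := by
  unfold en
  rw [if_neg h.symm, if_neg h'.symm]

theorem en_sup (l : ZMod 3) : A l ⊆ en S A i j T b v l := by
  unfold en
  split_ifs with h1 h2
  · subst h1; exact subset_union_left
  · subst h2; exact subset_union_left
  · exact le_rfl

theorem en_tr (hA : Tr S A) (hij : i ≠ j) (hb : b ∈ Clu S (fr S A ∩ T) (A i))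
    (hv : v ∈ Clu S (fr S A \ T) (A j)) : Tr S (en S A i j T b v) := by
  have c1 : cp S ((fr S A ∩ T) \ A i) b ⊆ fr S A ∩ T := cp_sub.trans sdiff_subset
  have c2 : cp S ((fr S A \ T) \ A j) v ⊆ fr S A \ T := cp_sub.trans sdiff_subset
  refine absorb hA en_sup ?_ ?_ ?_
  · intro l
    unfold en
    split_ifs with h1 h2
    · exact union_subset (hA.sub i) (c1.trans fun x hx => hx.1.1)
    · exact union_subset (hA.sub j) (c2.trans fun x hx => hx.1.1)
    · exact hA.sub l
  · have hd := hA.disj
    have f1 : ∀ {l w}, w ∈ cp S ((fr S A ∩ T) \ A i) b → w ∉ A l := fun hw => (c1 hw).1.2 _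
    have f2 : ∀ {l w}, w ∈ cp S ((fr S A \ T) \ A j) v → w ∉ A l := fun hw => (c2 hw).1.2 _
    have f3 : ∀ {w}, w ∈ cp S ((fr S A ∩ T) \ A i) b → w ∉ cp S ((fr S A \ T) \ A j) v :=
      fun hw hw' => (c2 hw').2 (c1 hw).2
    intro l m hlm
    refine Set.disjoint_left.2 fun w hw hw' => ?_
    have g : w ∈ A l → w ∈ A m → False := fun h h' => Set.disjoint_left.1 (hd l m hlm) h h'
    unfold en at hw hw'
    split_ifs at hw with h1 h2
    · split_ifs at hw' with h3 h4
      · exact hlm (h1.trans h3.symm)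
      · subst h1; subst h4
        rcases hw with hw | hw <;> rcases hw' with hw' | hw'
        · exact g hw hw'
        · exact f2 hw' hw
        · exact f1 hw hw'
        · exact f3 hw hw'
      · subst h1
        rcases hw with hw | hw
        · exact g hw hw'
        · exact f1 hw hw'
    · split_ifs at hw' with h3 h4
      · subst h2; subst h3
        rcases hw with hw | hw <;> rcases hw' with hw' | hw'
        · exact g hw hw'
        · exact f1 hw' hw
        · exact f2 hw hw'
        · exact f3 hw' hw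
      · exact hlm (h2.trans h4.symm)
      · subst h2
        rcases hw with hw | hw
        · exact g hw hw'
        · exact f2 hw hw'
    · split_ifs at hw' with h3 h4
      · subst h3
        rcases hw' with hw' | hw'
        · exact g hw hw'
        · exact f1 hw' hw
      · subst h4
        rcases hw' with hw' | hw'
        · exact g hw hw'
        · exact f2 hw' hw
      · exact g hw hw'
  · intro l
    unfold en
    split_ifs with h1 h2
    · exact join_con (hA.con i) hb
    · exact join_con (hA.con j) hv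
    · exact hA.con l

theorem hit_fr (_hA : Tr S A) {V A0 : Set ℂ} (h : b ∈ Clu S V A0) (h0 : b ∉ A0) :
    b ∈ cp S (V \ A0) b := by
  rcases clu_sub h with h1 | h1
  · exact cp_self ⟨h1, h0⟩
  · exact absurd h1 h0

/-- the hit is a centre of the enlarged classes -/
theorem hit_ctr (hA : Tr S A) (hij : i ≠ j) (hik : i ≠ k) (hjk : j ≠ k)
    (H : Hit S A i j k T b v u) : ∃ t, CtrT S (en S A i j T b v) t ∧ (t = (b, v, u) ∨ t = (v, b, u)) := by
  have eb : b ∈ en S A i j T b v i := by
    rw [en_i]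
    by_cases h : b ∈ A i
    · exact Or.inl h
    · exact Or.inr (hit_fr hA H.hb h)
  have ev : v ∈ en S A i j T b v j := by
    rw [en_j hij]
    by_cases h : v ∈ A j
    · exact Or.inl h
    · exact Or.inr (hit_fr hA H.hv h)
  have eu : u ∈ en S A i j T b v k := en_sup k H.hu
  rcases H.tri with ht | ht
  · refine ⟨_, ⟨ht, fun l => ?_⟩, Or.inl rfl⟩
    rcases dec3 i j k hij hik hjk l with rfl | rfl | rfl
    · exact ⟨b, Or.inl rfl, eb⟩
    · exact ⟨v, Or.inr (Or.inl rfl), ev⟩
    · exact ⟨u, Or.inr (Or.inr rfl), eu⟩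
  · refine ⟨_, ⟨ht, fun l => ?_⟩, Or.inr rfl⟩
    rcases dec3 i j k hij hik hjk l with rfl | rfl | rfl
    · exact ⟨b, Or.inr (Or.inl rfl), eb⟩
    · exact ⟨v, Or.inl rfl, ev⟩
    · exact ⟨u, Or.inr (Or.inr rfl), eu⟩

/-- **(C), connected centre**: the hit is joined to every connected centre by free sites of one
colour -/
theorem cen_x (hA : Tr S A) (hij : i ≠ j) (hik : i ≠ k) (hjk : j ≠ k)
    (H : Hit S A i j k T b v u) (hX : CtrX S A X) :
    (∃ x ∈ X, Pth S (fr S A ∩ T) x b) ∨ ∃ x ∈ X, Pth S (fr S A \ T) x v := by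
  by_contra hcon
  push Not at hcon
  obtain ⟨t, ht, -⟩ := hit_ctr hA hij hik hjk H
  refine ktx S _ (en_tr hA hij H.hb H.hv) t X ht ⟨fun l => ?_, hX.2.1, fun l => ?_⟩
  · refine Set.disjoint_left.2 fun x hx hx' => ?_
    have h0 := fun m => Set.disjoint_left.1 (hX.1 m) hx
    unfold en at hx'
    split_ifs at hx' with h1 h2
    · rcases hx' with h | h
      · exact h0 _ h
      · exact hcon.1 x hx ((show Pth S _ b x from h).symm.mono sdiff_subset)
    · rcases hx' with h | h
      · exact h0 _ h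
      · exact hcon.2 x hx ((show Pth S _ v x from h).symm.mono sdiff_subset)
    · exact h0 _ hx'
  · obtain ⟨x, hx, y, hy, h⟩ := hX.2.2 l
    exact ⟨x, hx, y, en_sup l hy, h⟩

/-- **(C), triangle centre**: the hit is the triangle -/
theorem cen_t (hA : Tr S A) (hij : i ≠ j) (hik : i ≠ k) (hjk : j ≠ k)
    (H : Hit S A i j k T b v u) {t : ℂ × ℂ × ℂ} (ht : CtrT S A t) : Vt t b ∧ Vt t v ∧ Vt t u := by
  obtain ⟨t', ht', he⟩ := hit_ctr hA hij hik hjk H
  have h1 : CtrT S (en S A i j T b v) t := ⟨ht.1, fun l => by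
    obtain ⟨w, hw, hw'⟩ := ht.2 l
    exact ⟨w, hw, en_sup l hw'⟩⟩
  have h2 := ktt S _ (en_tr hA hij H.hb H.hv) t' t ht' h1
  have h3 : ∀ w, Vt t' w → Vt t w := by
    intro w hw
    obtain ⟨a, b, c⟩ := t'
    simp only [rots, Set.mem_insert_iff, Set.mem_singleton_iff] at h2
    unfold Vt at hw ⊢
    rcases h2 with rfl | rfl | rfl <;> simp only at hw ⊢ <;> tauto
  rcases he with rfl | rfl
  · exact ⟨h3 _ (Or.inl rfl), h3 _ (Or.inr (Or.inl rfl)), h3 _ (Or.inr (Or.inr rfl))⟩
  · exact ⟨h3 _ (Or.inr (Or.inl rfl)), h3 _ (Or.inl rfl), h3 _ (Or.inr (Or.inr rfl))⟩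

end Crest.Agent.R143.Cenx802
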