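import Crest.Agent.R143.B0_346

/-!
# Row 143, block J: XOR of joins, cardinalities (leaves J5, J6)

* `xor_isJoin` : the symmetric difference of a join with odd set `O'`, no marks, avoiding `D`, and a
  join `(O, D)` is a join `(O ∆ O', D)`.
* `xor_same` : the symmetric difference of two joins `(O, D)` is a join `(∅, ∅)` avoiding `D`.
* `card_joins` : `card (joins O D) = card {J ∈ joins ∅ ∅ | J avoids D}` as soon as it is nonempty;
  `card_joins_bdry` : `= card (joins ∅ ∅)` if `D` consists of boundary edges.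
* `card_half` : for a live side `(a, b)` of the triangle `t = (a, b, c)`, not a mark,
  `card (joins ∅ (D ∪ {(a,b)})) + card (joins ∅ (D ∪ {(b,a)})) = card (joins (rots t) D)`, with the
  explicit maps `J ↦ J.erase (a,b)` and `J ↦ insert (a,b) J`.
* `flip_isJoin` (J6): flipping the star of an inner vertex.
-/

set_option autoImplicit false

noncomputable section

open scoped Classical

namespace Crest.Agent.R143.JCardx872

open Crest.Agent.R143.B0x346

variable {V : Type}

/-- indicator -/
def ind (J : Finset (V × V)) (x : V × V) : ℕ := if x ∈ J then 1 else 0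

theorem ind_symmDiff (J K : Finset (V × V)) (x : V × V) :
    (ind (symmDiff J K) x) % 2 = (ind J x + ind K x) % 2 := by
  unfold ind
  by_cases h1 : x ∈ J <;> by_cases h2 : x ∈ K <;> simp [Finset.mem_symmDiff, h1, h2]

theorem par_symmDiff (J K : Finset (V × V)) (x y z : V × V) :
    ((if x ∈ symmDiff J K then 1 else 0) + (if y ∈ symmDiff J K then 1 else 0) +
      (if z ∈ symmDiff J K then 1 else 0) : ℕ) % 2 =
    (((if x ∈ J then 1 else 0) + (if y ∈ J then 1 else 0) + (if z ∈ J then 1 else 0) : ℕ) % 2 +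
      ((if x ∈ K then 1 else 0) + (if y ∈ K then 1 else 0) + (if z ∈ K then 1 else 0) : ℕ) % 2)
      % 2 := by
  have h1 := ind_symmDiff J K x
  have h2 := ind_symmDiff J K y
  have h3 := ind_symmDiff J K z
  unfold ind at h1 h2 h3
  omega

theorem mem_joins {G : Trg V} {kl : Set (V × V)} {O : Set (V × V × V)} {D : Set (V × V)}
    {J : Finset (V × V)} : J ∈ joins G kl O D ↔ IsJoin G kl O D J := by
  unfold joins
  rw [Finset.mem_filter, Finset.mem_powerset]
  exact ⟨fun h => h.2, fun h => ⟨h.sub, h⟩⟩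

/-- XOR of a mark free join avoiding `D` and a join with marks `D` -/
theorem xor_isJoin {G : Trg V} {kl : Set (V × V)} {O O' : Set (V × V × V)} {D : Set (V × V)}
    {J K : Finset (V × V)} (hJ : IsJoin G kl O' ∅ J) (hD : ∀ x ∈ D, x ∉ J)
    (hK : IsJoin G kl O D K) : IsJoin G kl (symmDiff O O') D (symmDiff J K) := by
  have sJ : ∀ a b : V, ((a, b) ∈ J ↔ (b, a) ∈ J) := fun a b => hJ.sym a b (by simp) (by simp)
  refine ⟨?_, ?_, ?_, ?_, ?_, ?_⟩
  · intro x hx
    rw [Finset.mem_symmDiff] at hx
    rcases hx with h | h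
    · exact hJ.sub h.1
    · exact hK.sub h.1
  · intro a b h1 h2
    have := hK.sym a b h1 h2
    have := sJ a b
    rw [Finset.mem_symmDiff, Finset.mem_symmDiff]
    tauto
  · intro a b h
    have h1 := hK.mark a b h
    have h2 := hD _ h
    have := sJ a b
    rw [Finset.mem_symmDiff, Finset.mem_symmDiff]
    tauto
  · intro a b h1 h2
    have := hK.bdr a b h1 h2
    have := hJ.bdr a b h1 (by simp)
    rw [Finset.mem_symmDiff, Finset.mem_symmDiff]
    tauto
  · intro a b h1 h2 h3
    have := hK.kill a b h1 h2 h3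
    have := hJ.kill a b h1 (by simp) (by simp)
    rw [Finset.mem_symmDiff, Finset.mem_symmDiff]
    tauto
  · intro a b c h
    have h1 := hJ.par a b c h
    have h2 := hK.par a b c h
    rw [par_symmDiff, h1, h2]
    by_cases g1 : (a, b, c) ∈ O <;> by_cases g2 : (a, b, c) ∈ O' <;>
      simp [Set.mem_symmDiff, g1, g2]

/-- XOR of two joins with the same marks -/
theorem xor_same {G : Trg V} {kl : Set (V × V)} {O O' : Set (V × V × V)} {D : Set (V × V)}
    {J K : Finset (V × V)} (hJ : IsJoin G kl O D J)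
    (hK : IsJoin G kl O' D K) :
    IsJoin G kl (symmDiff O O') ∅ (symmDiff J K) ∧ ∀ x ∈ D, x ∉ symmDiff J K := by
  have key : ∀ a b : V, (a, b) ∈ D → (a, b) ∉ symmDiff J K ∧ (b, a) ∉ symmDiff J K := by
    intro a b h
    have h1 := hJ.mark a b h
    have h2 := hK.mark a b h
    rw [Finset.mem_symmDiff, Finset.mem_symmDiff]
    tauto
  refine ⟨⟨?_, ?_, ?_, ?_, ?_, ?_⟩, fun x hx => (key x.1 x.2 hx).1⟩
  · intro x hx
    rw [Finset.mem_symmDiff] at hx
    rcases hx with h | h
    · exact hJ.sub h.1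
    · exact hK.sub h.1
  · intro a b _ _
    by_cases h1 : (a, b) ∈ D
    · have := key a b h1
      tauto
    · by_cases h2 : (b, a) ∈ D
      · have := key b a h2
        tauto
      · have := hK.sym a b h1 h2
        have := hJ.sym a b h1 h2
        rw [Finset.mem_symmDiff, Finset.mem_symmDiff]
        tauto
  · intro a b h
    simp at h
  · intro a b h1 _
    by_cases h3 : (a, b) ∈ D
    · exact key a b h3
    · have := hK.bdr a b h1 h3
      have := hJ.bdr a b h1 h3
      rw [Finset.mem_symmDiff, Finset.mem_symmDiff]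
      tauto
  · intro a b h1 _ _
    by_cases h2 : (a, b) ∈ D
    · exact key a b h2
    · by_cases h3 : (b, a) ∈ D
      · exact (key b a h3).symm
      · have := hK.kill a b h1 h2 h3
        have := hJ.kill a b h1 h2 h3
        rw [Finset.mem_symmDiff, Finset.mem_symmDiff]
        tauto
  · intro a b c h
    have h1 := hJ.par a b c h
    have h2 := hK.par a b c h
    rw [par_symmDiff, h1, h2]
    by_cases g1 : (a, b, c) ∈ O <;> by_cases g2 : (a, b, c) ∈ O' <;>
      simp [Set.mem_symmDiff, g1, g2]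

theorem symmDiff_symmDiff_cancel (J K : Finset (V × V)) :
    symmDiff (symmDiff J K) K = J := by
  rw [symmDiff_assoc, symmDiff_self, symmDiff_bot]

/-- **J5** -/
theorem card_joins {G : Trg V} {kl : Set (V × V)} {O : Set (V × V × V)} {D : Set (V × V)}
    (hne : (joins G kl O D).Nonempty) :
    (joins G kl O D).card = ((joins G kl ∅ ∅).filter (fun J => ∀ x ∈ D, x ∉ J)).card := by
  obtain ⟨K, hK⟩ := hne
  rw [mem_joins] at hK
  refine Finset.card_bij' (fun J _ => symmDiff J K) (fun J _ => symmDiff J K) ?_ ?_ ?_ ?_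
  · intro J hJ
    rw [mem_joins] at hJ
    have h := xor_same hJ hK
    rw [Finset.mem_filter, mem_joins]
    rw [symmDiff_self] at h
    exact h
  · intro J hJ
    rw [Finset.mem_filter, mem_joins] at hJ
    have h := xor_isJoin hJ.1 hJ.2 hK
    rw [mem_joins]
    have e : symmDiff O (∅ : Set (V × V × V)) = O := by
      have : (∅ : Set (V × V × V)) = ⊥ := rfl
      rw [this, symmDiff_bot]
    rw [e] at h
    exact h
  · intro J _
    exact symmDiff_symmDiff_cancel J K
  · intro J _
    exact symmDiff_symmDiff_cancel J K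

/-- joins without marks avoid boundary edges -/
theorem avoid_bdry {G : Trg V} {kl : Set (V × V)} {O : Set (V × V × V)} {J : Finset (V × V)}
    (hJ : IsJoin G kl O ∅ J) (a b : V) (h : ∀ c, (b, a, c) ∉ G.T) : (a, b) ∉ J :=
  (hJ.bdr a b h (by simp)).1

/-- **J5** for boundary marks -/
theorem card_joins_bdry {G : Trg V} {kl : Set (V × V)} {O : Set (V × V × V)} {D : Set (V × V)}
    (hD : ∀ a b : V, (a, b) ∈ D → ∀ c, (b, a, c) ∉ G.T)
    (hne : (joins G kl O D).Nonempty) :
    (joins G kl O D).card = (joins G kl ∅ ∅).card := by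
  rw [card_joins hne]
  congr 1
  apply Finset.filter_true_of_mem
  intro J hJ x hx
  rw [mem_joins] at hJ
  exact avoid_bdry hJ x.1 x.2 (hD x.1 x.2 hx)

/-- two sets of joins with the same marks have the same cardinality -/
theorem card_joins_eq {G : Trg V} {kl : Set (V × V)} {O O' : Set (V × V × V)} {D : Set (V × V)}
    (h1 : (joins G kl O D).Nonempty) (h2 : (joins G kl O' D).Nonempty) :
    (joins G kl O D).card = (joins G kl O' D).card := by
  rw [card_joins h1, card_joins h2]

/-! ### half edges -/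

theorem mem_rots_of_side {G : Trg V} {a b c x y z : V} (ht : (a, b, c) ∈ G.T)
    (h : (x, y, z) ∈ G.T) (hs : (x, y) = (a, b) ∨ (y, z) = (a, b) ∨ (z, x) = (a, b)) :
    (x, y, z) ∈ rots (a, b, c) := by
  unfold rots
  rcases hs with hs | hs | hs
  · rw [Prod.mk.injEq] at hs
    obtain ⟨rfl, rfl⟩ := hs
    have := G.uniq ht h
    subst this
    simp
  · rw [Prod.mk.injEq] at hs
    obtain ⟨rfl, rfl⟩ := hs
    have h' := G.rot h
    have := G.uniq ht h'
    subst this
    simp
  · rw [Prod.mk.injEq] at hs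
    obtain ⟨rfl, rfl⟩ := hs
    have h' := G.rot (G.rot h)
    have := G.uniq ht h'
    subst this
    simp

theorem side_of_mem_rots {a b c x y z : V} (h : (x, y, z) ∈ rots (a, b, c)) :
    (x, y) = (a, b) ∨ (y, z) = (a, b) ∨ (z, x) = (a, b) := by
  unfold rots at h
  simp only [Set.mem_insert_iff, Set.mem_singleton_iff, Prod.mk.injEq] at h
  rcases h with ⟨rfl, rfl, rfl⟩ | ⟨rfl, rfl, rfl⟩ | ⟨rfl, rfl, rfl⟩ <;> simp

theorem rots_mem {G : Trg V} {a b c x y z : V} (ht : (a, b, c) ∈ G.T)
    (h : (x, y, z) ∈ rots (a, b, c)) : (x, y, z) ∈ G.T := by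
  unfold rots at h
  simp only [Set.mem_insert_iff, Set.mem_singleton_iff, Prod.mk.injEq] at h
  rcases h with ⟨rfl, rfl, rfl⟩ | ⟨rfl, rfl, rfl⟩ | ⟨rfl, rfl, rfl⟩
  · exact ht
  · exact G.rot ht
  · exact G.rot (G.rot ht)

/-- the directed sides of a triangle are pairwise different -/
theorem sides_ne {G : Trg V} {x y z : V} (h : (x, y, z) ∈ G.T) :
    (x, y) ≠ (y, z) ∧ (y, z) ≠ (z, x) ∧ (x, y) ≠ (z, x) := by
  have h1 := G.ne h
  have h2 := G.ne (G.rot h)
  have h3 := G.ne (G.rot (G.rot h))
  refine ⟨?_, ?_, ?_⟩ <;> intro e <;> rw [Prod.mk.injEq] at e <;> obtain ⟨e1, e2⟩ := e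
  · exact h1 e1
  · exact h2 e1
  · exact h3 e1.symm

theorem mem_E_of_tri {G : Trg V} {a b c : V} (ht : (a, b, c) ∈ G.T) :
    (a, b) ∈ G.E ∧ (b, a) ∈ G.E := by
  unfold Trg.E
  constructor
  · exact Finset.mem_union_left _ (Finset.mem_image.2 ⟨_, ht, rfl⟩)
  · exact Finset.mem_union_right _ (Finset.mem_image.2 ⟨_, ht, rfl⟩)

section half

variable {G : Trg V} {kl : Set (V × V)} {O : Set (V × V × V)} {D : Set (V × V)} {a b c : V}

/-- joins with a half leg on the left of `(a, b)` are the joins with `t` odd and `(a, b)` empty -/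
theorem erase_isJoin (ht : (a, b, c) ∈ G.T) (hk : (a, b) ∉ kl) (hk' : (b, a) ∉ kl)
    (hD : (a, b) ∉ D) (hD' : (b, a) ∉ D) {J : Finset (V × V)}
    (hJ : IsJoin G kl ∅ (D ∪ {(a, b)}) J) :
    IsJoin G kl (rots (a, b, c)) D (J.erase (a, b)) ∧ (a, b) ∉ J.erase (a, b) := by
  have hab : a ≠ b := G.ne ht
  have hm := hJ.mark a b (by simp)
  refine ⟨⟨?_, ?_, ?_, ?_, ?_, ?_⟩, by simp⟩
  · exact (Finset.erase_subset _ _).trans hJ.sub
  · intro x y h1 h2
    by_cases e1 : (x, y) = (a, b)
    · rw [Prod.mk.injEq] at e1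
      obtain ⟨rfl, rfl⟩ := e1
      have : (y, x) ≠ (x, y) := by
        intro e; rw [Prod.mk.injEq] at e; exact hab e.2
      simp [Finset.mem_erase, this, hm.2]
    · by_cases e2 : (y, x) = (a, b)
      · rw [Prod.mk.injEq] at e2
        obtain ⟨rfl, rfl⟩ := e2
        have : (x, y) ≠ (y, x) := by
          intro e; rw [Prod.mk.injEq] at e; exact hab e.2
        simp [Finset.mem_erase, this, hm.2]
      · have := hJ.sym x y (by simp only [Set.mem_union, Set.mem_singleton_iff]; tauto)
          (by simp only [Set.mem_union, Set.mem_singleton_iff]; tauto)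
        rw [Finset.mem_erase, Finset.mem_erase]
        tauto
  · intro x y h
    have h1 := hJ.mark x y (Set.mem_union_left _ h)
    rw [Finset.mem_erase, Finset.mem_erase]
    refine ⟨⟨?_, h1.1⟩, fun h' => h1.2 h'.2⟩
    rintro e
    exact hD (e ▸ h)
  · intro x y h1 h2
    by_cases e1 : (x, y) = (a, b)
    · rw [Prod.mk.injEq] at e1
      obtain ⟨rfl, rfl⟩ := e1
      exact ⟨by simp, fun h => hm.2 (Finset.mem_of_mem_erase h)⟩
    · have := hJ.bdr x y h1 (by simp only [Set.mem_union, Set.mem_singleton_iff]; tauto)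
      exact ⟨fun h => this.1 (Finset.mem_of_mem_erase h),
        fun h => this.2 (Finset.mem_of_mem_erase h)⟩
  · intro x y h1 h2 h3
    have e1 : (x, y) ≠ (a, b) := fun e => hk (e ▸ h1)
    have e2 : (y, x) ≠ (a, b) := by
      intro e
      rw [Prod.mk.injEq] at e
      obtain ⟨rfl, rfl⟩ := e
      exact hk' h1
    have := hJ.kill x y h1 (by simp only [Set.mem_union, Set.mem_singleton_iff]; tauto)
      (by simp only [Set.mem_union, Set.mem_singleton_iff]; tauto)
    exact ⟨fun h => this.1 (Finset.mem_of_mem_erase h),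
      fun h => this.2 (Finset.mem_of_mem_erase h)⟩
  · intro x y z h
    have hp := hJ.par x y z h
    rw [if_neg (Set.notMem_empty _)] at hp
    obtain ⟨n1, n2, n3⟩ := sides_ne h
    by_cases hs : (x, y, z) ∈ rots (a, b, c)
    · rw [if_pos hs]
      rcases side_of_mem_rots hs with e | e | e
      · have e2 : (y, z) ≠ (a, b) := by rw [← e]; exact n1.symm
        have e3 : (z, x) ≠ (a, b) := by rw [← e]; exact n3.symm
        simp only [Finset.mem_erase, ne_eq, e2, e3, not_false_eq_true, true_and]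
        simp only [e, hm.1, not_true_eq_false, false_and, if_true, if_false] at hp ⊢
        omega
      · have e2 : (x, y) ≠ (a, b) := by rw [← e]; exact n1
        have e3 : (z, x) ≠ (a, b) := by rw [← e]; exact n2.symm
        simp only [Finset.mem_erase, ne_eq, e2, e3, not_false_eq_true, true_and]
        simp only [e, hm.1, not_true_eq_false, false_and, if_true, if_false] at hp ⊢
        omega
      · have e2 : (x, y) ≠ (a, b) := by rw [← e]; exact n3
        have e3 : (y, z) ≠ (a, b) := by rw [← e]; exact n2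
        simp only [Finset.mem_erase, ne_eq, e2, e3, not_false_eq_true, true_and]
        simp only [e, hm.1, not_true_eq_false, false_and, if_true, if_false] at hp ⊢
        omega
    · rw [if_neg hs]
      have e1 : (x, y) ≠ (a, b) := fun e => hs (mem_rots_of_side ht h (Or.inl e))
      have e2 : (y, z) ≠ (a, b) := fun e => hs (mem_rots_of_side ht h (Or.inr (Or.inl e)))
      have e3 : (z, x) ≠ (a, b) := fun e => hs (mem_rots_of_side ht h (Or.inr (Or.inr e)))
      simp only [Finset.mem_erase, ne_eq, e1, e2, e3, not_false_eq_true, true_and]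
      exact hp

/-- conversely -/
theorem insert_isJoin (ht : (a, b, c) ∈ G.T)
    (hD : (a, b) ∉ D) (hD' : (b, a) ∉ D) {J : Finset (V × V)}
    (hJ : IsJoin G kl (rots (a, b, c)) D J) (hab' : (a, b) ∉ J) :
    IsJoin G kl ∅ (D ∪ {(a, b)}) (insert (a, b) J) := by
  have hab : a ≠ b := G.ne ht
  have hba : (b, a) ∉ J := fun h => hab' ((hJ.sym a b hD hD').2 h)
  have hne : (b, a) ≠ (a, b) := by
    intro e; rw [Prod.mk.injEq] at e; exact hab e.2
  refine ⟨?_, ?_, ?_, ?_, ?_, ?_⟩
  · intro x hx
    rcases Finset.mem_insert.1 hx with rfl | h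
    · exact (mem_E_of_tri ht).1
    · exact hJ.sub h
  · intro x y h1 h2
    simp only [Set.mem_union, Set.mem_singleton_iff, not_or] at h1 h2
    have := hJ.sym x y h1.1 h2.1
    rw [Finset.mem_insert, Finset.mem_insert]
    tauto
  · intro x y h
    rcases h with h | h
    · have h1 := hJ.mark x y h
      refine ⟨Finset.mem_insert_of_mem h1.1, ?_⟩
      rw [Finset.mem_insert]
      rintro (e | e)
      · rw [Prod.mk.injEq] at e
        obtain ⟨rfl, rfl⟩ := e
        exact hD' h
      · exact h1.2 e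
    · rw [Set.mem_singleton_iff, Prod.mk.injEq] at h
      obtain ⟨rfl, rfl⟩ := h
      refine ⟨Finset.mem_insert_self _ _, ?_⟩
      rw [Finset.mem_insert]
      rintro (e | e)
      · exact hne e
      · exact hba e
  · intro x y h1 h2
    simp only [Set.mem_union, Set.mem_singleton_iff, not_or] at h2
    have := hJ.bdr x y h1 h2.1
    rw [Finset.mem_insert, Finset.mem_insert]
    refine ⟨fun h => h.elim h2.2 this.1, fun h => h.elim ?_ this.2⟩
    intro e
    rw [Prod.mk.injEq] at e
    obtain ⟨rfl, rfl⟩ := e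
    exact h1 _ ht
  · intro x y h1 h2 h3
    simp only [Set.mem_union, Set.mem_singleton_iff, not_or] at h2 h3
    have := hJ.kill x y h1 h2.1 h3.1
    rw [Finset.mem_insert, Finset.mem_insert]
    tauto
  · intro x y z h
    have hp := hJ.par x y z h
    rw [if_neg (Set.notMem_empty _)]
    obtain ⟨n1, n2, n3⟩ := sides_ne h
    by_cases hs : (x, y, z) ∈ rots (a, b, c)
    · rw [if_pos hs] at hp
      rcases side_of_mem_rots hs with e | e | e
      · have e2 : (y, z) ≠ (a, b) := by rw [← e]; exact n1.symm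
        have e3 : (z, x) ≠ (a, b) := by rw [← e]; exact n3.symm
        simp only [Finset.mem_insert, e2, e3, false_or]
        simp only [e, hab', true_or, if_true, if_false] at hp ⊢
        omega
      · have e2 : (x, y) ≠ (a, b) := by rw [← e]; exact n1
        have e3 : (z, x) ≠ (a, b) := by rw [← e]; exact n2.symm
        simp only [Finset.mem_insert, e2, e3, false_or]
        simp only [e, hab', true_or, if_true, if_false] at hp ⊢
        omega
      · have e2 : (x, y) ≠ (a, b) := by rw [← e]; exact n3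
        have e3 : (y, z) ≠ (a, b) := by rw [← e]; exact n2
        simp only [Finset.mem_insert, e2, e3, false_or]
        simp only [e, hab', true_or, if_true, if_false] at hp ⊢
        omega
    · rw [if_neg hs] at hp
      have e1 : (x, y) ≠ (a, b) := fun e => hs (mem_rots_of_side ht h (Or.inl e))
      have e2 : (y, z) ≠ (a, b) := fun e => hs (mem_rots_of_side ht h (Or.inr (Or.inl e)))
      have e3 : (z, x) ≠ (a, b) := fun e => hs (mem_rots_of_side ht h (Or.inr (Or.inr e)))
      simp only [Finset.mem_insert, e1, e2, e3, false_or]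
      exact hp

theorem notMem_of_isJoin (hD : (a, b) ∉ D) (hD' : (b, a) ∉ D) {J : Finset (V × V)}
    {O' : Set (V × V × V)} (hJ : IsJoin G kl O' D J) : (a, b) ∈ J ↔ (b, a) ∈ J :=
  hJ.sym a b hD hD'

/-- joins with a half leg on the left of `(b, a)` (the other side of `{a, b}`) are the joins with
`t` odd and `(a, b)` occupied -/
theorem insert_isJoin' (ht : (a, b, c) ∈ G.T) (hk : (a, b) ∉ kl) (hk' : (b, a) ∉ kl)
    (hD : (a, b) ∉ D) (hD' : (b, a) ∉ D) {J : Finset (V × V)}
    (hJ : IsJoin G kl ∅ (D ∪ {(b, a)}) J) :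
    IsJoin G kl (rots (a, b, c)) D (insert (a, b) J) ∧ (a, b) ∉ J := by
  have hab : a ≠ b := G.ne ht
  have hm := hJ.mark b a (by simp)
  refine ⟨⟨?_, ?_, ?_, ?_, ?_, ?_⟩, hm.2⟩
  · intro x hx
    rcases Finset.mem_insert.1 hx with rfl | h
    · exact (mem_E_of_tri ht).1
    · exact hJ.sub h
  · intro x y h1 h2
    by_cases e1 : (x, y) = (a, b)
    · rw [Prod.mk.injEq] at e1
      obtain ⟨rfl, rfl⟩ := e1
      simp [hm.1]
    · by_cases e2 : (y, x) = (a, b)
      · rw [Prod.mk.injEq] at e2
        obtain ⟨rfl, rfl⟩ := e2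
        simp [hm.1]
      · have e3 : (x, y) ≠ (b, a) := by
          intro e; rw [Prod.mk.injEq] at e; exact e2 (by rw [e.1, e.2])
        have e4 : (y, x) ≠ (b, a) := by
          intro e; rw [Prod.mk.injEq] at e; exact e1 (by rw [e.1, e.2])
        have := hJ.sym x y (by simp only [Set.mem_union, Set.mem_singleton_iff]; tauto)
          (by simp only [Set.mem_union, Set.mem_singleton_iff]; tauto)
        rw [Finset.mem_insert, Finset.mem_insert]
        tauto
  · intro x y h
    have h1 := hJ.mark x y (Set.mem_union_left _ h)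
    refine ⟨Finset.mem_insert_of_mem h1.1, ?_⟩
    rw [Finset.mem_insert]
    rintro (e | e)
    · rw [Prod.mk.injEq] at e
      obtain ⟨rfl, rfl⟩ := e
      exact hD' h
    · exact h1.2 e
  · intro x y h1 h2
    -- `{a, b}` is not a boundary edge
    have e1 : (x, y) ≠ (b, a) := by
      intro e
      rw [Prod.mk.injEq] at e
      obtain ⟨rfl, rfl⟩ := e
      exact h1 _ ht
    have e2 : (x, y) ≠ (a, b) := by
      intro e
      rw [Prod.mk.injEq] at e
      obtain ⟨rfl, rfl⟩ := e
      have := hJ.bdr x y h1 (by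
        simp only [Set.mem_union, Set.mem_singleton_iff, not_or]
        refine ⟨h2, ?_⟩
        intro e; rw [Prod.mk.injEq] at e; exact hab e.1)
      exact this.2 hm.1
    have := hJ.bdr x y h1 (by simp only [Set.mem_union, Set.mem_singleton_iff]; tauto)
    have e3 : (y, x) ≠ (a, b) := by
      intro e; rw [Prod.mk.injEq] at e; exact e1 (by rw [e.1, e.2])
    rw [Finset.mem_insert, Finset.mem_insert]
    tauto
  · intro x y h1 h2 h3
    have e1 : (x, y) ≠ (a, b) := fun e => hk (e ▸ h1)
    have e1' : (x, y) ≠ (b, a) := fun e => hk' (e ▸ h1)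
    have e2 : (y, x) ≠ (a, b) := by
      intro e
      rw [Prod.mk.injEq] at e
      exact e1' (by rw [e.1, e.2])
    have e2' : (y, x) ≠ (b, a) := by
      intro e
      rw [Prod.mk.injEq] at e
      exact e1 (by rw [e.1, e.2])
    have := hJ.kill x y h1 (by simp only [Set.mem_union, Set.mem_singleton_iff]; tauto)
      (by simp only [Set.mem_union, Set.mem_singleton_iff]; tauto)
    rw [Finset.mem_insert, Finset.mem_insert]
    tauto
  · intro x y z h
    have hp := hJ.par x y z h
    rw [if_neg (Set.notMem_empty _)] at hp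
    obtain ⟨n1, n2, n3⟩ := sides_ne h
    by_cases hs : (x, y, z) ∈ rots (a, b, c)
    · rw [if_pos hs]
      rcases side_of_mem_rots hs with e | e | e
      · have e2 : (y, z) ≠ (a, b) := by rw [← e]; exact n1.symm
        have e3 : (z, x) ≠ (a, b) := by rw [← e]; exact n3.symm
        simp only [Finset.mem_insert, e2, e3, false_or]
        simp only [e, hm.2, true_or, if_true, if_false] at hp ⊢
        omega
      · have e2 : (x, y) ≠ (a, b) := by rw [← e]; exact n1
        have e3 : (z, x) ≠ (a, b) := by rw [← e]; exact n2.symm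
        simp only [Finset.mem_insert, e2, e3, false_or]
        simp only [e, hm.2, true_or, if_true, if_false] at hp ⊢
        omega
      · have e2 : (x, y) ≠ (a, b) := by rw [← e]; exact n3
        have e3 : (y, z) ≠ (a, b) := by rw [← e]; exact n2
        simp only [Finset.mem_insert, e2, e3, false_or]
        simp only [e, hm.2, true_or, if_true, if_false] at hp ⊢
        omega
    · rw [if_neg hs]
      have e1 : (x, y) ≠ (a, b) := fun e => hs (mem_rots_of_side ht h (Or.inl e))
      have e2 : (y, z) ≠ (a, b) := fun e => hs (mem_rots_of_side ht h (Or.inr (Or.inl e)))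
      have e3 : (z, x) ≠ (a, b) := fun e => hs (mem_rots_of_side ht h (Or.inr (Or.inr e)))
      simp only [Finset.mem_insert, e1, e2, e3, false_or]
      exact hp

/-- conversely -/
theorem erase_isJoin' (ht : (a, b, c) ∈ G.T)
    (hD : (a, b) ∉ D) (hD' : (b, a) ∉ D) {J : Finset (V × V)}
    (hJ : IsJoin G kl (rots (a, b, c)) D J) (hab' : (a, b) ∈ J) :
    IsJoin G kl ∅ (D ∪ {(b, a)}) (J.erase (a, b)) := by
  have hab : a ≠ b := G.ne ht
  have hba : (b, a) ∈ J := (hJ.sym a b hD hD').1 hab'
  have hne : (b, a) ≠ (a, b) := by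
    intro e; rw [Prod.mk.injEq] at e; exact hab e.2
  refine ⟨?_, ?_, ?_, ?_, ?_, ?_⟩
  · exact (Finset.erase_subset _ _).trans hJ.sub
  · intro x y h1 h2
    simp only [Set.mem_union, Set.mem_singleton_iff, not_or] at h1 h2
    have := hJ.sym x y h1.1 h2.1
    have e1 : (x, y) ≠ (a, b) := by
      intro e; rw [Prod.mk.injEq] at e; exact h2.2 (by rw [e.1, e.2])
    have e2 : (y, x) ≠ (a, b) := by
      intro e; rw [Prod.mk.injEq] at e; exact h1.2 (by rw [e.1, e.2])
    rw [Finset.mem_erase, Finset.mem_erase]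
    tauto
  · intro x y h
    rcases h with h | h
    · have h1 := hJ.mark x y h
      rw [Finset.mem_erase, Finset.mem_erase]
      refine ⟨⟨fun e => hD (e ▸ h), h1.1⟩, fun h' => h1.2 h'.2⟩
    · rw [Set.mem_singleton_iff, Prod.mk.injEq] at h
      obtain ⟨rfl, rfl⟩ := h
      exact ⟨Finset.mem_erase.2 ⟨hne, hba⟩, by simp⟩
  · intro x y h1 h2
    simp only [Set.mem_union, Set.mem_singleton_iff, not_or] at h2
    have := hJ.bdr x y h1 h2.1
    exact ⟨fun h => this.1 (Finset.mem_of_mem_erase h),
      fun h => this.2 (Finset.mem_of_mem_erase h)⟩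
  · intro x y h1 h2 h3
    simp only [Set.mem_union, Set.mem_singleton_iff, not_or] at h2 h3
    have := hJ.kill x y h1 h2.1 h3.1
    exact ⟨fun h => this.1 (Finset.mem_of_mem_erase h),
      fun h => this.2 (Finset.mem_of_mem_erase h)⟩
  · intro x y z h
    have hp := hJ.par x y z h
    rw [if_neg (Set.notMem_empty _)]
    obtain ⟨n1, n2, n3⟩ := sides_ne h
    by_cases hs : (x, y, z) ∈ rots (a, b, c)
    · rw [if_pos hs] at hp
      rcases side_of_mem_rots hs with e | e | e
      · have e2 : (y, z) ≠ (a, b) := by rw [← e]; exact n1.symm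
        have e3 : (z, x) ≠ (a, b) := by rw [← e]; exact n3.symm
        simp only [Finset.mem_erase, ne_eq, e2, e3, not_false_eq_true, true_and]
        simp only [e, hab', not_true_eq_false, false_and, if_true, if_false] at hp ⊢
        omega
      · have e2 : (x, y) ≠ (a, b) := by rw [← e]; exact n1
        have e3 : (z, x) ≠ (a, b) := by rw [← e]; exact n2.symm
        simp only [Finset.mem_erase, ne_eq, e2, e3, not_false_eq_true, true_and]
        simp only [e, hab', not_true_eq_false, false_and, if_true, if_false] at hp ⊢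
        omega
      · have e2 : (x, y) ≠ (a, b) := by rw [← e]; exact n3
        have e3 : (y, z) ≠ (a, b) := by rw [← e]; exact n2
        simp only [Finset.mem_erase, ne_eq, e2, e3, not_false_eq_true, true_and]
        simp only [e, hab', not_true_eq_false, false_and, if_true, if_false] at hp ⊢
        omega
    · rw [if_neg hs] at hp
      have e1 : (x, y) ≠ (a, b) := fun e => hs (mem_rots_of_side ht h (Or.inl e))
      have e2 : (y, z) ≠ (a, b) := fun e => hs (mem_rots_of_side ht h (Or.inr (Or.inl e)))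
      have e3 : (z, x) ≠ (a, b) := fun e => hs (mem_rots_of_side ht h (Or.inr (Or.inr e)))
      simp only [Finset.mem_erase, ne_eq, e1, e2, e3, not_false_eq_true, true_and]
      exact hp

/-- `J ↦ J.erase (a, b)` : bijection between the joins with a half leg on the left of `(a, b)` and
the joins with `t` odd and `(a, b)` empty; compatible with any predicate -/
theorem card_half_left (ht : (a, b, c) ∈ G.T) (hk : (a, b) ∉ kl) (hk' : (b, a) ∉ kl)
    (hD : (a, b) ∉ D) (hD' : (b, a) ∉ D) (P Q : Finset (V × V) → Prop)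
    (hPQ : ∀ J, IsJoin G kl (rots (a, b, c)) D J → (a, b) ∉ J → (Q J ↔ P (insert (a, b) J))) :
    ((joins G kl ∅ (D ∪ {(a, b)})).filter P).card =
      ((joins G kl (rots (a, b, c)) D).filter (fun J => (a, b) ∉ J ∧ Q J)).card := by
  refine Finset.card_bij' (fun J _ => J.erase (a, b)) (fun J _ => insert (a, b) J) ?_ ?_ ?_ ?_
  · intro J hJ
    rw [Finset.mem_filter, mem_joins] at hJ
    have h := erase_isJoin ht hk hk' hD hD' hJ.1
    have hm := hJ.1.mark a b (by simp)
    rw [Finset.mem_filter, mem_joins]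
    refine ⟨h.1, h.2, (hPQ _ h.1 h.2).2 ?_⟩
    rw [Finset.insert_erase hm.1]
    exact hJ.2
  · intro J hJ
    rw [Finset.mem_filter, mem_joins] at hJ
    rw [Finset.mem_filter, mem_joins]
    exact ⟨insert_isJoin ht hD hD' hJ.1 hJ.2.1, (hPQ _ hJ.1 hJ.2.1).1 hJ.2.2⟩
  · intro J hJ
    rw [Finset.mem_filter, mem_joins] at hJ
    exact Finset.insert_erase (hJ.1.mark a b (by simp)).1
  · intro J hJ
    rw [Finset.mem_filter] at hJ
    exact Finset.erase_insert hJ.2.1

/-- `J ↦ insert (a, b) J` : bijection between the joins with a half leg on the left of `(b, a)` and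
the joins with `t` odd and `(a, b)` occupied; compatible with any predicate -/
theorem card_half_right (ht : (a, b, c) ∈ G.T) (hk : (a, b) ∉ kl) (hk' : (b, a) ∉ kl)
    (hD : (a, b) ∉ D) (hD' : (b, a) ∉ D) (P Q : Finset (V × V) → Prop)
    (hPQ : ∀ J, IsJoin G kl (rots (a, b, c)) D J → (a, b) ∈ J → (Q J ↔ P (J.erase (a, b)))) :
    ((joins G kl ∅ (D ∪ {(b, a)})).filter P).card =
      ((joins G kl (rots (a, b, c)) D).filter (fun J => (a, b) ∈ J ∧ Q J)).card := by
  refine Finset.card_bij' (fun J _ => insert (a, b) J) (fun J _ => J.erase (a, b)) ?_ ?_ ?_ ?_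
  · intro J hJ
    rw [Finset.mem_filter, mem_joins] at hJ
    have h := insert_isJoin' ht hk hk' hD hD' hJ.1
    rw [Finset.mem_filter, mem_joins]
    refine ⟨h.1, Finset.mem_insert_self _ _, (hPQ _ h.1 (Finset.mem_insert_self _ _)).2 ?_⟩
    rw [Finset.erase_insert h.2]
    exact hJ.2
  · intro J hJ
    rw [Finset.mem_filter, mem_joins] at hJ
    rw [Finset.mem_filter, mem_joins]
    exact ⟨erase_isJoin' ht hD hD' hJ.1 hJ.2.1, (hPQ _ hJ.1 hJ.2.1).1 hJ.2.2⟩
  · intro J hJ
    rw [Finset.mem_filter, mem_joins] at hJ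
    exact Finset.erase_insert (insert_isJoin' ht hk hk' hD hD' hJ.1).2
  · intro J hJ
    rw [Finset.mem_filter] at hJ
    exact Finset.insert_erase hJ.2.1

/-- the normalisation of the observable at a live side which is not a mark -/
theorem card_half (ht : (a, b, c) ∈ G.T) (hk : (a, b) ∉ kl) (hk' : (b, a) ∉ kl)
    (hD : (a, b) ∉ D) (hD' : (b, a) ∉ D) :
    (joins G kl ∅ (D ∪ {(a, b)})).card + (joins G kl ∅ (D ∪ {(b, a)})).card =
      (joins G kl (rots (a, b, c)) D).card := by
  have h1 := card_half_left (G := G) (kl := kl) (D := D) ht hk hk' hD hD' (fun _ => True)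
    (fun _ => True) (fun _ _ _ => Iff.rfl)
  have h2 := card_half_right (G := G) (kl := kl) (D := D) ht hk hk' hD hD' (fun _ => True)
    (fun _ => True) (fun _ _ _ => Iff.rfl)
  simp only [Finset.filter_true, and_true] at h1 h2
  rw [h1, h2, add_comm]
  exact Finset.card_filter_add_card_filter_not _

end half

/-! ### J6: flip of the star of an inner vertex -/

/-- the two directed versions of the edges `{v, u i}` of a ring -/
def star (v : V) (d : ℕ) (u : ℤ → V) : Finset (V × V) :=
  (Finset.range d).image (fun i : ℕ => (v, u (i : ℤ))) ∪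
    (Finset.range d).image (fun i : ℕ => (u (i : ℤ), v))

theorem mem_star {v : V} {d : ℕ} {u : ℤ → V} {G : Trg V} (hR : Ring G v d u) (x y : V) :
    (x, y) ∈ star v d u ↔ ((x = v ∧ ∃ i, y = u i) ∨ (y = v ∧ ∃ i, x = u i)) := by
  have key : ∀ i : ℤ, ∃ j : ℕ, j < d ∧ u i = u j := by
    intro i
    have hd : (0 : ℤ) < d := by exact_mod_cast hR.pos
    refine ⟨(i % d).toNat, ?_, ?_⟩
    · have h1 := Int.emod_lt_of_pos i hd
      have h2 := Int.emod_nonneg i hd.ne'
      omega
    · have h2 := Int.emod_nonneg i hd.ne'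
      have h3 : ((i % d).toNat : ℤ) = i % d := Int.toNat_of_nonneg h2
      rw [h3]
      have hper : ∀ (k : ℕ) (m : ℤ), u (m + k * d) = u m := by
        intro k
        induction k with
        | zero => intro m; simp
        | succ k ih =>
          intro m
          have : m + ((k + 1 : ℕ) : ℤ) * d = (m + k * d) + d := by push_cast; ring
          rw [this, hR.per, ih]
      have hper' : ∀ (k : ℤ) (m : ℤ), u (m + k * d) = u m := by
        intro k m
        rcases le_total 0 k with hk | hk
        · obtain ⟨n, rfl⟩ := Int.eq_ofNat_of_zero_le hk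
          exact hper n m
        · obtain ⟨n, hn⟩ := Int.eq_ofNat_of_zero_le (show 0 ≤ -k by omega)
          have h := hper n (m + k * d)
          have e : m + k * d + (n : ℤ) * d = m := by
            have : k = -(n : ℤ) := by omega
            rw [this]; ring
          rw [e] at h
          exact h.symm
      have h4 := hper' (i / d) (i % d)
      have h5 : i % d + i / d * d = i := Int.emod_add_ediv_mul i d
      rw [h5] at h4
      exact h4
  unfold star
  simp only [Finset.mem_union, Finset.mem_image, Finset.mem_range, Prod.mk.injEq]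
  constructor
  · rintro (⟨i, _, h1, h2⟩ | ⟨i, _, h1, h2⟩)
    · exact Or.inl ⟨h1.symm, i, h2.symm⟩
    · exact Or.inr ⟨h2.symm, i, h1.symm⟩
  · rintro (⟨h1, i, h2⟩ | ⟨h1, i, h2⟩)
    · obtain ⟨j, hj, e⟩ := key i
      exact Or.inl ⟨j, hj, h1.symm, by rw [h2, e]⟩
    · obtain ⟨j, hj, e⟩ := key i
      exact Or.inr ⟨j, hj, by rw [h2, e], h1.symm⟩

/-- every triangle at `v` belongs to the ring -/
theorem ring_tri {G : Trg V} {v : V} {d : ℕ} {u : ℤ → V} (hR : Ring G v d u) {i : ℤ} {y : V}
    (h : (v, u i, y) ∈ G.T) : y = u (i + 1) := G.uniq h (hR.mem i)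

theorem ring_tri' {G : Trg V} {v : V} {d : ℕ} {u : ℤ → V} (hR : Ring G v d u) {i : ℤ} {y : V}
    (h : (u i, v, y) ∈ G.T) : y = u (i - 1) := by
  have h1 := hR.mem (i - 1)
  rw [show i - 1 + 1 = i by ring] at h1
  exact G.uniq h (G.rot (G.rot h1))

/-- the star of an inner vertex is a join without marks and odd triangles -/
theorem star_isJoin {G : Trg V} {kl : Set (V × V)} {v : V} {d : ℕ} {u : ℤ → V}
    (hR : Ring G v d u) (hk : ∀ i, (v, u i) ∉ kl ∧ (u i, v) ∉ kl) :
    IsJoin G kl ∅ ∅ (star v d u) := by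
  have hvu : ∀ i, v ≠ u i := fun i => G.ne (hR.mem i)
  refine ⟨?_, ?_, ?_, ?_, ?_, ?_⟩
  · rintro ⟨x, y⟩ h
    rw [mem_star hR] at h
    rcases h with ⟨rfl, i, rfl⟩ | ⟨rfl, i, rfl⟩
    · exact (mem_E_of_tri (hR.mem i)).1
    · exact (mem_E_of_tri (hR.mem i)).2
  · intro x y _ _
    rw [mem_star hR, mem_star hR]
    tauto
  · intro x y h
    simp at h
  · intro x y h1 _
    rw [mem_star hR, mem_star hR]
    have h2 : ∀ i, ¬ (x = v ∧ y = u i) := by
      rintro i ⟨rfl, rfl⟩
      have h := hR.mem (i - 1)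
      rw [show i - 1 + 1 = i by ring] at h
      exact h1 _ (G.rot (G.rot h))
    have h3 : ∀ i, ¬ (y = v ∧ x = u i) := by
      rintro i ⟨rfl, rfl⟩
      exact h1 _ (hR.mem i)
    constructor
    · rintro (⟨h, i, h'⟩ | ⟨h, i, h'⟩)
      · exact h2 i ⟨h, h'⟩
      · exact h3 i ⟨h, h'⟩
    · rintro (⟨h, i, h'⟩ | ⟨h, i, h'⟩)
      · exact h3 i ⟨h, h'⟩
      · exact h2 i ⟨h, h'⟩
  · intro x y h1 _ _
    rw [mem_star hR, mem_star hR]
    constructor
    · rintro (⟨rfl, i, rfl⟩ | ⟨rfl, i, rfl⟩)
      · exact (hk i).1 h1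
      · exact (hk i).2 h1
    · rintro (⟨rfl, i, rfl⟩ | ⟨rfl, i, rfl⟩)
      · exact (hk i).2 h1
      · exact (hk i).1 h1
  · intro x y z h
    rw [if_neg (Set.notMem_empty _)]
    simp only [mem_star hR]
    have n1 := G.ne h
    have n2 := G.ne (G.rot h)
    have n3 := G.ne (G.rot (G.rot h))
    by_cases hx : x = v
    · subst hx
      by_cases hy : ∃ i, y = u i
      · obtain ⟨i, rfl⟩ := hy
        have hz := ring_tri hR h
        subst hz
        have e1 : ((x = x ∧ ∃ j, u i = u j) ∨ (u i = x ∧ ∃ j, x = u j)) := Or.inl ⟨rfl, i, rfl⟩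
        have e2 : ¬ ((u i = x ∧ ∃ j, u (i + 1) = u j) ∨ (u (i + 1) = x ∧ ∃ j, u i = u j)) := by
          rintro (⟨e, _⟩ | ⟨e, _⟩)
          · exact hvu i e.symm
          · exact hvu (i + 1) e.symm
        have e3 : ((u (i + 1) = x ∧ ∃ j, x = u j) ∨ (x = x ∧ ∃ j, u (i + 1) = u j)) :=
          Or.inr ⟨rfl, i + 1, rfl⟩
        rw [if_pos e1, if_neg e2, if_pos e3]
      · have hz : ¬ ∃ i, z = u i := by
          rintro ⟨i, rfl⟩
          have h' := G.rot (G.rot h)
          exact hy ⟨_, ring_tri' hR h'⟩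
        have e1 : ¬ ((x = x ∧ ∃ j, y = u j) ∨ (y = x ∧ ∃ j, x = u j)) := by
          rintro (⟨_, e⟩ | ⟨e, _⟩)
          · exact hy e
          · exact n1 e.symm
        have e2 : ¬ ((y = x ∧ ∃ j, z = u j) ∨ (z = x ∧ ∃ j, y = u j)) := by
          rintro (⟨e, _⟩ | ⟨e, _⟩)
          · exact n1 e.symm
          · exact n3 e
        have e3 : ¬ ((z = x ∧ ∃ j, x = u j) ∨ (x = x ∧ ∃ j, z = u j)) := by
          rintro (⟨e, _⟩ | ⟨_, e⟩)
          · exact n3 e
          · exact hz e
        rw [if_neg e1, if_neg e2, if_neg e3]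
    · by_cases hy : y = v
      · subst hy
        by_cases hz : ∃ i, z = u i
        · obtain ⟨i, rfl⟩ := hz
          have hx' := ring_tri hR (G.rot h)
          subst hx'
          have e1 : ((u (i + 1) = y ∧ ∃ j, y = u j) ∨ (y = y ∧ ∃ j, u (i + 1) = u j)) :=
            Or.inr ⟨rfl, i + 1, rfl⟩
          have e2 : ((y = y ∧ ∃ j, u i = u j) ∨ (u i = y ∧ ∃ j, y = u j)) := Or.inl ⟨rfl, i, rfl⟩
          have e3 : ¬ ((u i = y ∧ ∃ j, u (i + 1) = u j) ∨ (u (i + 1) = y ∧ ∃ j, u i = u j)) := by
            rintro (⟨e, _⟩ | ⟨e, _⟩)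
            · exact hvu i e.symm
            · exact hvu (i + 1) e.symm
          rw [if_pos e1, if_pos e2, if_neg e3]
        · have hx' : ¬ ∃ i, x = u i := by
            rintro ⟨i, rfl⟩
            exact hz ⟨_, ring_tri' hR h⟩
          have e1 : ¬ ((x = y ∧ ∃ j, y = u j) ∨ (y = y ∧ ∃ j, x = u j)) := by
            rintro (⟨e, _⟩ | ⟨_, e⟩)
            · exact hx e
            · exact hx' e
          have e2 : ¬ ((y = y ∧ ∃ j, z = u j) ∨ (z = y ∧ ∃ j, y = u j)) := by
            rintro (⟨_, e⟩ | ⟨e, _⟩)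
            · exact hz e
            · exact n2 e.symm
          have e3 : ¬ ((z = y ∧ ∃ j, x = u j) ∨ (x = y ∧ ∃ j, z = u j)) := by
            rintro (⟨e, _⟩ | ⟨e, _⟩)
            · exact n2 e.symm
            · exact hx e
          rw [if_neg e1, if_neg e2, if_neg e3]
      · by_cases hz : z = v
        · subst hz
          by_cases hx' : ∃ i, x = u i
          · obtain ⟨i, rfl⟩ := hx'
            have hy' := ring_tri hR (G.rot (G.rot h))
            subst hy'
            have e1 : ¬ ((u i = z ∧ ∃ j, u (i + 1) = u j) ∨ (u (i + 1) = z ∧ ∃ j, u i = u j)) := by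
              rintro (⟨e, _⟩ | ⟨e, _⟩)
              · exact hvu i e.symm
              · exact hvu (i + 1) e.symm
            have e2 : ((u (i + 1) = z ∧ ∃ j, z = u j) ∨ (z = z ∧ ∃ j, u (i + 1) = u j)) :=
              Or.inr ⟨rfl, i + 1, rfl⟩
            have e3 : ((z = z ∧ ∃ j, u i = u j) ∨ (u i = z ∧ ∃ j, z = u j)) :=
              Or.inl ⟨rfl, i, rfl⟩
            rw [if_neg e1, if_pos e2, if_pos e3]
          · have hy' : ¬ ∃ i, y = u i := by
              rintro ⟨i, rfl⟩
              exact hx' ⟨_, ring_tri' hR (G.rot h)⟩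
            have e1 : ¬ ((x = z ∧ ∃ j, y = u j) ∨ (y = z ∧ ∃ j, x = u j)) := by
              rintro (⟨e, _⟩ | ⟨e, _⟩)
              · exact hx e
              · exact hy e
            have e2 : ¬ ((y = z ∧ ∃ j, z = u j) ∨ (z = z ∧ ∃ j, y = u j)) := by
              rintro (⟨e, _⟩ | ⟨_, e⟩)
              · exact hy e
              · exact hy' e
            have e3 : ¬ ((z = z ∧ ∃ j, x = u j) ∨ (x = z ∧ ∃ j, z = u j)) := by
              rintro (⟨_, e⟩ | ⟨e, _⟩)
              · exact hx' e
              · exact hx e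
            rw [if_neg e1, if_neg e2, if_neg e3]
        · have e1 : ¬ ((x = v ∧ ∃ j, y = u j) ∨ (y = v ∧ ∃ j, x = u j)) := by tauto
          have e2 : ¬ ((y = v ∧ ∃ j, z = u j) ∨ (z = v ∧ ∃ j, y = u j)) := by tauto
          have e3 : ¬ ((z = v ∧ ∃ j, x = u j) ∨ (x = v ∧ ∃ j, z = u j)) := by tauto
          rw [if_neg e1, if_neg e2, if_neg e3]

/-- **J6** : flip of an inner vertex all of whose edges are live and not marks -/
theorem flip_isJoin {G : Trg V} {kl : Set (V × V)} {O : Set (V × V × V)} {D : Set (V × V)}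
    {v : V} {d : ℕ} {u : ℤ → V} (hR : Ring G v d u) (hk : ∀ i, (v, u i) ∉ kl ∧ (u i, v) ∉ kl)
    (hD : ∀ i, (v, u i) ∉ D ∧ (u i, v) ∉ D) {J : Finset (V × V)} (hJ : IsJoin G kl O D J) :
    IsJoin G kl O D (symmDiff (star v d u) J) := by
  have h := xor_isJoin (star_isJoin hR hk) (D := D) ?_ hJ
  · have e : symmDiff O (∅ : Set (V × V × V)) = O := by
      have : (∅ : Set (V × V × V)) = ⊥ := rfl
      rw [this, symmDiff_bot]
    rw [e] at h
    exact h
  · rintro ⟨x, y⟩ hx h
    rw [mem_star hR] at h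
    rcases h with ⟨rfl, i, rfl⟩ | ⟨rfl, i, rfl⟩
    · exact (hD i).1 hx
    · exact (hD i).2 hx

/-- the flip is a bijection of the joins -/
theorem card_flip {G : Trg V} {kl : Set (V × V)} {O : Set (V × V × V)} {D : Set (V × V)}
    {v : V} {d : ℕ} {u : ℤ → V} (hR : Ring G v d u) (hk : ∀ i, (v, u i) ∉ kl ∧ (u i, v) ∉ kl)
    (hD : ∀ i, (v, u i) ∉ D ∧ (u i, v) ∉ D) (P : Finset (V × V) → Prop) :
    ((joins G kl O D).filter P).card =
      ((joins G kl O D).filter (fun J => P (symmDiff (star v d u) J))).card := by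
  have hinv : ∀ J : Finset (V × V), symmDiff (star v d u) (symmDiff (star v d u) J) = J := by
    intro J
    rw [← symmDiff_assoc, symmDiff_self, bot_symmDiff]
  refine Finset.card_bij' (fun J _ => symmDiff (star v d u) J)
    (fun J _ => symmDiff (star v d u) J) ?_ ?_ ?_ ?_
  · intro J hJ
    rw [Finset.mem_filter, mem_joins] at hJ
    rw [Finset.mem_filter, mem_joins, hinv]
    exact ⟨flip_isJoin hR hk hD hJ.1, hJ.2⟩
  · intro J hJ
    rw [Finset.mem_filter, mem_joins] at hJ
    rw [Finset.mem_filter, mem_joins]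
    exact ⟨flip_isJoin hR hk hD hJ.1, hJ.2⟩
  · intro J _
    exact hinv J
  · intro J _
    exact hinv J

end Crest.Agent.R143.JCardx872
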