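import Crest.Agent.R143.X0B_683

/-!
# Row 143 (S0194), block X: ABSTRACT MIXING with winding labels (`MixAbs2`) and the concrete LEAVES
`GAPO`, `GAPI`, `INDEP`, `EXT`, `REG` (helper683)

Plan (messages 19965, 20182, 20330, 20367, 20386, 20455 of row 143):
* outer / inner gap `GAPO`, `GAPI`: a second leg comes `δ ρ`-close to the tip of an explored leg with
  probability `≤ K δ ^ c` (smooth annuli around the tip, explored sites blackened)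
* `EXT`: extension between separated outer tips (radius `R_i / 4`) and separated inner tips (radius
  `R_j / 64`): cost `c(δ) * c0 ^ (j - i)`, `c0` absolute
* `REG`: regeneration at the scale `j`
-/

set_option autoImplicit false

noncomputable section

open scoped Classical

namespace Crest.Agent.R143.X0Cx683

open Crest.Agent.R143.B0x346 Crest.Agent.R143.DelGx806 Crest.Agent.R143.DelRx806
open Crest.Agent.R143.ToolWx838 Crest.Agent.R143.Blkx838 Crest.Agent.R143.Harx315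
open Crest.Agent.R143.RB0x838 Crest.Agent.R143.Planarx54 Crest.Agent.R143.X0Bx683

/-! ### abstract mixing with labels -/

/-- common regeneration data of two systems: weights `reg j b`, values `Y j b s k`, inner-good scales
`inn j s` -/
structure RegD (F B : Type) where
  reg : ℕ → B → ℝ
  Y : ℕ → B → F → ℤ → ℝ
  inn : ℕ → F → Prop
  reg_nonneg : ∀ j b, 0 ≤ reg j b
  reg_fin : ∀ j, (Function.support (reg j)).Finite
  Y_nonneg : ∀ j b s k, 0 ≤ Y j b s k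
  Y_fin : ∀ j b s, (Function.support (Y j b s)).Finite

/-- one system with `m` steps; `X j a s k` = value of the state `a` at the scale `j` for the face `s`
and the winding label `k`; next states `nx j a i`, `i ∈ I j`, with the weights `p j i`; regenerated
next states: `att j a i`, with the type `lb j a i` and the label `ln j a i` -/
structure Sys2 (A F B ι : Type) (D : RegD F B) (m : ℕ) (c C : ℝ) where
  I : ℕ → Finset ι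
  p : ℕ → ι → ℝ
  nx : ℕ → A → ι → A
  st : ℕ → A → Prop
  good : ℕ → A → Prop
  X : ℕ → A → F → ℤ → ℝ
  att : ℕ → A → ι → Prop
  lb : ℕ → A → ι → B
  ln : ℕ → A → ι → ℤ
  w : ℕ → A → ℤ → ℝ
  p_nonneg : ∀ j i, 0 ≤ p j i
  X_nonneg : ∀ j a s k, 0 ≤ X j a s k
  X_fin : ∀ j a s, (Function.support (X j a s)).Finite
  w_nonneg : ∀ j a n, 0 ≤ w j a n
  w_fin : ∀ j a, (Function.support (w j a)).Finite
  st_nx : ∀ j < m, ∀ a, st j a → ∀ i ∈ I j, st (j + 1) (nx j a i)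
  step : ∀ j < m, ∀ a, st j a → ∀ s k, X j a s k = ∑ i ∈ I j, p j i * X (j + 1) (nx j a i) s k
  att_val : ∀ j < m, ∀ a, st j a → ∀ i ∈ I j, att j a i → ∀ s k,
    X (j + 1) (nx j a i) s k = D.Y j (lb j a i) s (k - ln j a i)
  lo : ∀ j < m, ∀ a, st j a → good j a → ∀ b n,
    c * w j a n * D.reg j b ≤
      ∑ i ∈ (I j).filter (fun i => att j a i ∧ lb j a i = b ∧ ln j a i = n), p j i
  up : ∀ j < m, ∀ a, st j a → good j a → ∀ s, D.inn j s →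
    ∑ᶠ k, X j a s k ≤ C * (∑ᶠ n, w j a n) * ∑ᶠ b, D.reg j b * ∑ᶠ k, D.Y j b s k

variable {A F B ι : Type} {D : RegD F B} {m : ℕ} {c C : ℝ}

/-- total value -/
def Sys2.V (Z : Sys2 A F B ι D m c C) (j : ℕ) (a : A) (s : F) : ℝ := ∑ᶠ k, Z.X j a s k

/-- weight of the paths of length `n` from `a` (at the scale `j`) with at least `k` bad states -/
def Sys2.Bd (Z : Sys2 A F B ι D m c C) : ℕ → ℕ → ℕ → A → F → ℝ
  | 0, j, k, a, s => if k = 0 ∨ (k = 1 ∧ ¬ Z.good j a) then Z.V j a s else 0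
  | n + 1, j, k, a, s => ∑ i ∈ Z.I j,
      Z.p j i * Z.Bd n (j + 1) (k - if Z.good j a then 0 else 1) (Z.nx j a i) s

/-- **MixAbs2**: two systems with common regeneration data; `f` = any bounded function of the sum of
the two labels -/
def MixAbs2 : Prop := ∀ c C : ℝ, 0 < c → c ≤ 1 → 1 ≤ C → ∃ C1 th : ℝ, 1 ≤ C1 ∧ 0 < th ∧ th < 1 ∧
  ∀ (A A' F B ι : Type) (D : RegD F B) (m : ℕ) (Z : Sys2 A F B ι D m c C)
    (Z' : Sys2 A' F B ι D m c C) (x : A) (y : A') (s t : F) (q : ℝ) (f : ℤ → ℝ),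
    (∀ n, |f n| ≤ 1) → Z.st 0 x → Z'.st 0 y → 0 ≤ q →
    ((Finset.range m).filter fun j => ¬ D.inn j s).card ≤ m / 8 →
    ((Finset.range m).filter fun j => ¬ D.inn j t).card ≤ m / 8 →
    Z.Bd m 0 (m / 8 + 1) x s ≤ q * Z.V 0 x s → Z.Bd m 0 (m / 8 + 1) x t ≤ q * Z.V 0 x t →
    Z'.Bd m 0 (m / 8 + 1) y s ≤ q * Z'.V 0 y s → Z'.Bd m 0 (m / 8 + 1) y t ≤ q * Z'.V 0 y t →
    |∑ᶠ k, ∑ᶠ l, f (k + l) * (Z.X 0 x t k * Z'.X 0 y s l - Z.X 0 x s k * Z'.X 0 y t l)| ≤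
      C1 * (th ^ m + q) * (Z.V 0 x t * Z'.V 0 y s + Z.V 0 x s * Z'.V 0 y t)

/-! ### concrete leaves -/

/-- **GAPO** (outer gap): the three outer legs reach `B(z0, ρ)` but two tips are `δ ρ`-close;
everything outside `B(z0, 4 ρ)` is given by `J` -/
def GAPO : Prop := ∀ C4 : ℝ, 0 < C4 → ∃ c K : ℝ, 0 < c ∧ 0 < K ∧
  ∀ (S : Finset ℂ) (N : Net ℂ) (z0 : ℂ) (R R1 d b0 : ℝ), World S N z0 R R1 d b0 C4 →
    K * R ≤ R1 →
  ∀ (s0 : ℂ × ℂ × ℂ), s0 ∈ delT S → ∀ ρ δ : ℝ, 4 * ρ ≤ R → (∀ i, ‖vt s0 i - z0‖ < ρ / 4) →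
    0 < δ → δ ≤ 1 → K * b0 ≤ δ * ρ → K * d ≤ δ * ρ →
  ∀ J ∈ N.tj s0,
    pr (Fs S z0 (4 * ρ)) (fun β => HO N s0 z0 ρ (flip N.toTrg J β) ∧
      ¬ GO N s0 z0 ρ δ (flip N.toTrg J β)) ≤ K * δ ^ c

/-- **GAPI** (inner gap): the three legs of the face `t` reach the distance `ρ` but two tips are
`δ ρ`-close; everything inside `B(z0, ρ / 4)` is given by `J` -/
def GAPI : Prop := ∀ C4 : ℝ, 0 < C4 → ∃ c K : ℝ, 0 < c ∧ 0 < K ∧
  ∀ (S : Finset ℂ) (N : Net ℂ) (z0 : ℂ) (R R1 d b0 : ℝ), World S N z0 R R1 d b0 C4 →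
    K * R ≤ R1 →
  ∀ (t : ℂ × ℂ × ℂ), t ∈ delT S → ∀ ρ δ : ℝ, 2 * ρ ≤ R → (∀ i, ‖vt t i - z0‖ < ρ / 8) →
    0 < δ → δ ≤ 1 → K * b0 ≤ δ * ρ → K * d ≤ δ * ρ →
  ∀ J ∈ N.tj t,
    pr (Ann S z0 (ρ / 4) ρ) (fun β => HI N t z0 ρ (flip N.toTrg J β) ∧
      ¬ GI N t z0 ρ δ (flip N.toTrg J β)) ≤ K * δ ^ c

/-- **INDEP**: three legs of `t` reach the marks => outer legs reach `B(z0, ρ)`, inner legs reach the
distance `ρ'`; the two events look at disjoint sets of sites (outside `ρ`, inside `ρ'`) -/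
def INDEP : Prop := ∀ (S : Finset ℂ) (N : Net ℂ) (z0 : ℂ) (R R1 d b0 C4 r : ℝ),
  World S N z0 R R1 d b0 C4 → ∀ (f : Fc S N z0 r) (ρ ρ' R' : ℝ), r ≤ ρ' / 4 → 4 * d ≤ ρ' →
    ρ' ≤ ρ → ρ ≤ R' → R' ≤ R →
  ∀ J ∈ N.tj f.s0, ∀ t ∈ f.T,
    f.X1 R' J t ≤ pr (Fs S z0 R') (fun β => HO N f.s0 z0 ρ (flip N.toTrg J β)) * f.h R' ρ' J t

/-- **EXT** (extension): outer tips at the radius `ρ1` around `z0`, inner tips of the face `t` at the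
radius `ρ2` around `z1` (near `t`), both `δ`-separated: they are connected with probability at least
`c(δ) (ρ2 / ρ1) ^ C0`; `C0` does not depend on `δ` -/
def EXT : Prop := ∀ C4 : ℝ, 0 < C4 → ∃ C0 : ℝ, 0 < C0 ∧ ∀ δ : ℝ, 0 < δ → δ ≤ 1 →
  ∃ c K : ℝ, 0 < c ∧ 0 < K ∧
  ∀ (S : Finset ℂ) (N : Net ℂ) (z0 : ℂ) (R R1 d b0 r : ℝ), World S N z0 R R1 d b0 C4 →
    K * R ≤ R1 →
  ∀ (f : Fc S N z0 r) (z1 : ℂ) (ρ1 ρ2 : ℝ), 4 * ρ1 ≤ R → 16 * ρ2 ≤ ρ1 → 16 * r ≤ ρ1 →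
    ‖z1 - z0‖ ≤ r → K * b0 ≤ ρ2 → K * d ≤ ρ2 →
  ∀ J ∈ N.tj f.s0, ∀ t ∈ f.T, (∀ i, ‖vt t i - z1‖ < ρ2 / 4) →
    c * (ρ2 / ρ1) ^ C0 *
      (pr (Fs S z0 (4 * ρ1)) (fun β => GO N f.s0 z0 ρ1 δ (flip N.toTrg J β)) *
       pr (Fs S z0 (4 * ρ1)) (fun β => GI N t z1 ρ2 δ (f.at' (flip N.toTrg J β) t))) ≤
      f.X1 (4 * ρ1) J t

/-- two worlds with the same inside -/
structure Pair (S S' : Finset ℂ) (N N' : Net ℂ) (z0 : ℂ) (R R1 d b0 C4 r : ℝ) (f : Fc S N z0 r)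
    (f' : Fc S' N' z0 r) : Prop where
  w : World S N z0 R R1 d b0 C4
  w' : World S' N' z0 R R1 d b0 C4
  same : ∀ s : ℂ, ‖s - z0‖ < 2 * R → (s ∈ S ↔ s ∈ S')
  T : f.T = f'.T
  s0 : f.s0 = f'.s0
  gam : f.gam = f'.gam
  pt : f.pt = f'.pt
  a0 : f.a0 = f'.a0

/-- regeneration at the scale `j` for the world `(S, N, f)` with the data `reg`, `Y`: `Att J n` = the
outer legs of `J` are attached to the three gates of a loop of `J` in the annulus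
`Rj j / 16 ≤ |z - z0| < Rj j / 8`, winding label `n` -/
structure RegW {S : Finset ℂ} {N : Net ℂ} {z0 : ℂ} {r : ℝ} (f : Fc S N z0 r) (R : ℝ) (j : ℕ)
    (δ c : ℝ) (reg : Finset (ℂ × ℂ) → ℝ) (Y : Finset (ℂ × ℂ) → ℂ × ℂ × ℂ → ℤ → ℝ)
    (Att : Finset (ℂ × ℂ) → ℤ → Prop) : Prop where
  uniq : ∀ J n n', Att J n → Att J n' → n = n'
  val : ∀ J ∈ N.tj f.s0, ∀ n, Att J n → ∀ t ∈ f.T, ∀ k,
    f.XK (Rj R (j + 1)) J t k = Y (restr z0 (Rj R (j + 1)) (Rj R j / 8) J) t (k - n)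
  lo : ∀ J ∈ N.tj f.s0, ∃ w : ℤ → ℝ, (∀ n, 0 ≤ w n) ∧ (Function.support w).Finite ∧
    ∑ᶠ n, w n = pr (Fs S z0 (Rj R j)) (fun β => GO N f.s0 z0 (Rj R j / 4) δ (flip N.toTrg J β)) ∧
    ∀ b n, c * w n * reg b ≤ pr (Ann S z0 (Rj R (j + 1)) (Rj R j)) fun β =>
      Att (flip N.toTrg J β) n ∧ restr z0 (Rj R (j + 1)) (Rj R j / 8) (flip N.toTrg J β) = b
  up : ∀ J ∈ N.tj f.s0, ∀ t ∈ f.T,
    c * f.g (Rj R j) (Rj R j / 64) δ J t ≤ ∑ᶠ b, reg b * ∑ᶠ k, Y b t k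

/-- **REG** -/
def REG : Prop := ∀ C4 δ : ℝ, 0 < C4 → 0 < δ → δ ≤ 1 → ∃ c K : ℝ, 0 < c ∧ 0 < K ∧
  ∀ (S S' : Finset ℂ) (N N' : Net ℂ) (z0 : ℂ) (R R1 d b0 r : ℝ) (f : Fc S N z0 r)
    (f' : Fc S' N' z0 r), Pair S S' N N' z0 R R1 d b0 C4 r f f' → K * R ≤ R1 →
  ∀ j : ℕ, r ≤ Rj R (j + 2) → K * b0 ≤ Rj R (j + 1) → K * d ≤ Rj R (j + 1) →
    ∃ (reg : Finset (ℂ × ℂ) → ℝ) (Y : Finset (ℂ × ℂ) → ℂ × ℂ × ℂ → ℤ → ℝ)
      (Att Att' : Finset (ℂ × ℂ) → ℤ → Prop),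
      (∀ b, 0 ≤ reg b) ∧ (Function.support reg).Finite ∧ (∀ b t k, 0 ≤ Y b t k) ∧
      (∀ b t, (Function.support (Y b t)).Finite) ∧
      RegW f R j δ c reg Y Att ∧ RegW f' R j δ c reg Y Att'

end Crest.Agent.R143.X0Cx683
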