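import Crest.Agent.R143.Rel2_63
import Crest.Agent.R143.XF_903
import Crest.Agent.R143.Blk_838

/-!
# Row 143 (S0194), leaf EQE, part 1 (helper63): a closed chain with one gate

* `AL S c p` : total angle of the closed chain `c` seen from the triangle on the left of `p`
* `Gt1` : closed chain of sites of `S` with at most one occupied edge `g`
* `rk_iff` : `J` odd at `t`, `J'` odd at `t'`, both inside a chain with one gate, `J = J'` outside:
  the legs end at the same mark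
-/

set_option autoImplicit false

noncomputable section

open scoped Classical

namespace Crest.Agent.R143.EQE1x63

open Crest.Agent.R143.B0x346 Crest.Agent.R143.DelGx806 Crest.Agent.R143.DelRx806
open Crest.Agent.R143.ToolWx838 Crest.Agent.R143.Blkx838
open Crest.Agent.R143.JWalkx872 Crest.Agent.R143.J1x872 Crest.Agent.R143.XFx903

variable {S : Finset ℂ} {N : Net ℂ} {J J' : Finset (ℂ × ℂ)} {c : List ℂ} {g : ℂ × ℂ}

/-- total angle of `c` seen from the triangle on the left of `p` (`0` if there is none) -/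
def AL (S : Finset ℂ) (c : List ℂ) (p : ℂ × ℂ) : ℝ :=
  if h : ∃ x, (p.1, p.2, x) ∈ delT S then asum (gc (p.1, p.2, h.choose)) c else 0

theorem gc_rot (a b x : ℂ) : gc (b, x, a) = gc (a, b, x) := by
  unfold gc; ring

theorem al_tri (hS : GP (S : Set ℂ)) {a b x : ℂ} (h : (a, b, x) ∈ delT S) :
    AL S c (a, b) = asum (gc (a, b, x)) c := by
  have hex : ∃ x, ((a, b).1, (a, b).2, x) ∈ delT S := ⟨x, h⟩
  unfold AL
  rw [dif_pos hex]
  have := (g1 S hS).2.1 _ _ _ _ hex.choose_spec h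
  simp only [this]

theorem al_tri2 (hS : GP (S : Set ℂ)) {a b x : ℂ} (h : (a, b, x) ∈ delT S) :
    AL S c (b, x) = asum (gc (a, b, x)) c := by
  rw [al_tri hS (rot_mem h), gc_rot]

theorem al_tri3 (hS : GP (S : Set ℂ)) {a b x : ℂ} (h : (a, b, x) ∈ delT S) :
    AL S c (x, a) = asum (gc (a, b, x)) c := by
  rw [al_tri hS (rot_mem (rot_mem h)), gc_rot, gc_rot]

theorem al_none {p : ℂ × ℂ} (h : ∀ x, (p.1, p.2, x) ∉ delT S) : AL S c p = 0 := by
  unfold AL
  rw [dif_neg]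
  push Not
  exact h

/-- the two sides of an avoided edge -/
theorem al_swap (hS : GP (S : Set ℂ)) (hl : Loop S c) (hc : ∀ s ∈ c, s ∈ S) {p : ℂ × ℂ}
    (hp : DE S p.1 p.2) (hav : Avoid c p) : AL S c p = AL S c p.swap := by
  obtain ⟨a, b⟩ := p
  have key : ∀ a b x : ℂ, (a, b, x) ∈ delT S → Avoid c (a, b) →
      AL S c (a, b) = AL S c (b, a) := by
    intro a b x h hav
    have e1 : AL S c (a, b) = asum (mid (a, b)) c := by
      rw [al_tri hS h]
      exact asum_open_mid hS hl h (gc_in h) hav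
    by_cases h2 : ∃ y, (b, a, y) ∈ delT S
    · obtain ⟨y, hy⟩ := h2
      rw [e1, al_tri hS hy, mid_swap]
      exact (asum_open_mid hS hl hy (gc_in hy) hav.swap).symm
    · push Not at h2
      rw [e1, al_none (p := (b, a)) h2]
      exact asum_hull hS hl hc ⟨⟨x, h⟩, h2⟩ hav
  rcases hp with ⟨x, hx⟩ | ⟨x, hx⟩
  · exact key a b x hx hav
  · exact (key b a x hx hav.swap).symm

/-- one step of the walker -/
theorem al_step (hS : GP (S : Set ℂ)) {G : Trg ℂ} (hG : G.T = delT S) {O : Set (ℂ × ℂ × ℂ)}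
    {D : Set (ℂ × ℂ)} {p q : ℂ × ℂ} (h : Step G O D J p q) : AL S c q.swap = AL S c p := by
  obtain ⟨a, b⟩ := p
  obtain ⟨x, hx, -, -, h | h⟩ := h
  · rw [hG] at hx
    obtain ⟨-, rfl⟩ := h
    change AL S c (b, x) = AL S c (a, b)
    rw [al_tri2 hS hx, al_tri hS hx]
  · rw [hG] at hx
    obtain ⟨-, -, rfl⟩ := h
    change AL S c (x, a) = AL S c (a, b)
    rw [al_tri3 hS hx, al_tri hS hx]

/-- the walk crosses only triangles with total angle `0` -/
def LZ (S : Finset ℂ) (c : List ℂ) (G : Trg ℂ) (O : Set (ℂ × ℂ × ℂ)) (D : Set (ℂ × ℂ))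
    (J : Finset (ℂ × ℂ)) (p q : ℂ × ℂ) : Prop :=
  Relation.ReflTransGen (fun p q => Step G O D J p q ∧ AL S c p = 0) p q

/-- the last crossing -/
theorem last_cross (hS : GP (S : Set ℂ)) {G : Trg ℂ} (hG : G.T = delT S) {O : Set (ℂ × ℂ × ℂ)}
    {D : Set (ℂ × ℂ)} {p e : ℂ × ℂ} (h : Leads G O D J p e) (he : AL S c e.swap = 0) :
    (AL S c p.swap = 0 ∧ LZ S c G O D J p e) ∨
      ∃ s, Leads G O D J p s ∧ AL S c s.swap ≠ 0 ∧ AL S c s = 0 ∧ LZ S c G O D J s e := by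
  induction h using Relation.ReflTransGen.head_induction_on with
  | refl => exact Or.inl ⟨he, Relation.ReflTransGen.refl⟩
  | @head p p' hst hle ih =>
    rcases ih with ⟨h1, h2⟩ | ⟨s, h1, h2, h3, h4⟩
    · have h5 : AL S c p = 0 := by rw [← al_step hS hG hst]; exact h1
      have h6 : LZ S c G O D J p e := Relation.ReflTransGen.head ⟨hst, h5⟩ h2
      by_cases h7 : AL S c p.swap = 0
      · exact Or.inl ⟨h7, h6⟩
      · exact Or.inr ⟨p, Relation.ReflTransGen.refl, h7, h5, h6⟩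
    · exact Or.inr ⟨s, Relation.ReflTransGen.head hst h1, h2, h3, h4⟩

/-- a state of a walk from an occupied state is occupied -/
theorem leads_occ {G : Trg ℂ} {O : Set (ℂ × ℂ × ℂ)} {D : Set (ℂ × ℂ)} {p q : ℂ × ℂ}
    (hp : p ∈ J ∨ p.swap ∈ J) (h : Leads G O D J p q) : q ∈ J ∨ q.swap ∈ J := by
  rcases Relation.ReflTransGen.cases_tail h with h | ⟨r, -, hr⟩
  · rw [h]; exact hp
  · exact Or.inr (step_occ hr)

/-- closed chain of sites of `S` whose only occupied edge is `g` -/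
structure Gt1 (S : Finset ℂ) (J : Finset (ℂ × ℂ)) (c : List ℂ) (g : ℂ × ℂ) : Prop where
  loop : Loop S c
  mem : ∀ s ∈ c, s ∈ S
  only : ∀ p ∈ prs c, (p ∈ J ∨ p.swap ∈ J) → p = g ∨ p = g.swap

theorem Gt1.of_not_avoid (h : Gt1 S J c g) {p : ℂ × ℂ} (hp : p ∈ J ∨ p.swap ∈ J)
    (hn : ¬ Avoid c p) : p = g ∨ p = g.swap := by
  unfold Avoid at hn
  by_cases h1 : p ∈ prs c
  · exact h.only p h1 hp
  · have h2 : p.swap ∈ prs c := by
      by_contra h2
      exact hn ⟨h1, h2⟩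
    have h3 := h.only _ h2 (by rw [Prod.swap_swap]; exact hp.symm)
    rcases h3 with h3 | h3
    · right; rw [← h3, Prod.swap_swap]
    · left; exact Prod.swap_injective h3

/-- the gate state: the walker leaves the inside of the chain -/
structure GS (S : Finset ℂ) (c : List ℂ) (g s : ℂ × ℂ) : Prop where
  eq : s = g ∨ s = g.swap
  inn : AL S c s.swap ≠ 0
  out : AL S c s = 0

theorem GS.unique {s s' : ℂ × ℂ} (h : GS S c g s) (h' : GS S c g s') : s = s' := by
  have key : s' = s.swap → s = s' := by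
    intro e
    have := h'.out
    rw [e] at this
    exact absurd this h.inn
  rcases h.eq with h1 | h1 <;> rcases h'.eq with h2 | h2
  · rw [h1, h2]
  · exact key (by rw [h1, h2])
  · exact key (by rw [h1, h2, Prod.swap_swap])
  · rw [h1, h2]

theorem leads_cross (H : HNet S N) {t : ℂ × ℂ × ℂ} (ht : t ∈ delT S) (hJ : J ∈ N.tj t)
    (hG : Gt1 S J c g) (hm : ∀ k, Avoid c (N.ex k)) (hin : asum (gc t) c ≠ 0) {i k : ZMod 3}
    (hi : sd t i ∈ J) (h : En N t J i k) :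
    ∃ s, GS S c g s ∧ Leads N.toTrg (rots t) N.exS J (sw (sd t i)) s ∧
      LZ S c N.toTrg (rots t) N.exS J s (sw (N.ex k)) := by
  have hS := H.gp
  have he : AL S c (sw (N.ex k)).swap = 0 := by
    have hh := H.hex k
    obtain ⟨x, hx⟩ := hh.1
    have e : (sw (N.ex k)).swap = ((N.ex k).1, (N.ex k).2) := rfl
    rw [e, al_tri hS hx, asum_open_mid hS hG.loop hx (gc_in hx) (hm k)]
    exact asum_hull hS hG.loop hG.mem hh (hm k)
  have hst : AL S c (sw (sd t i)).swap ≠ 0 := by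
    have e : (sw (sd t i)).swap = sd t i := rfl
    obtain ⟨a, b, x⟩ := t
    rw [e]
    rcases cases_z3 i with rfl | rfl | rfl
    · rw [sd0, al_tri hS ht]; exact hin
    · rw [sd1, al_tri2 hS ht]; exact hin
    · rw [sd2, al_tri3 hS ht]; exact hin
  have hocc : sw (sd t i) ∈ J ∨ (sw (sd t i)).swap ∈ J := Or.inr hi
  rcases last_cross hS H.tri h he with ⟨h1, -⟩ | ⟨s, h1, h2, h3, h4⟩
  · exact absurd h1 hst
  · refine ⟨s, ⟨?_, h2, h3⟩, h1, h4⟩
    have ho := leads_occ hocc h1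
    refine hG.of_not_avoid ho fun hav => ?_
    have hde : DE S s.1 s.2 := by
      have hJ' := tj_join hJ
      have hE : s ∈ N.E ∨ s.swap ∈ N.E := ho.imp (fun h => hJ'.sub h) (fun h => hJ'.sub h)
      have key : ∀ p : ℂ × ℂ, p ∈ N.E → DE S p.1 p.2 := by
        intro p hp
        unfold Trg.E at hp
        rw [Finset.mem_union, Finset.mem_image, Finset.mem_image, H.tri] at hp
        rcases hp with ⟨u, hu, rfl⟩ | ⟨u, hu, rfl⟩
        · exact Or.inl ⟨_, hu⟩
        · exact Or.inr ⟨_, hu⟩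
      rcases hE with h | h
      · exact key _ h
      · exact (key _ h).symm
    have := al_swap hS hG.loop hG.mem hde hav
    rw [h3] at this
    exact h2 this.symm

/-- transfer of a walk outside of the chain -/
theorem lz_transfer (hS : GP (S : Set ℂ)) {G : Trg ℂ} (hG : G.T = delT S) {O O' : Set (ℂ × ℂ × ℂ)}
    {D : Set (ℂ × ℂ)}
    (hJJ : ∀ a b x, (a, b, x) ∈ delT S → asum (gc (a, b, x)) c = 0 → ((a, b) ∈ J ↔ (a, b) ∈ J'))
    (hO : ∀ T ∈ delT S, asum (gc T) c = 0 → T ∉ O') {p q : ℂ × ℂ} (h : LZ S c G O D J p q) :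
    Leads G O' D J' p q := by
  induction h with
  | refl => exact Relation.ReflTransGen.refl
  | @tail y z _ hyz ih =>
    refine Relation.ReflTransGen.tail ih ?_
    obtain ⟨⟨x, hx, -, hD, h⟩, h0⟩ := hyz
    obtain ⟨a, b⟩ := y
    have hx' : (a, b, x) ∈ delT S := by rw [← hG]; exact hx
    rw [al_tri hS hx'] at h0
    have e2 := hJJ b x a (rot_mem hx') (by rw [gc_rot]; exact h0)
    have e3 := hJJ x a b (rot_mem (rot_mem hx')) (by rw [gc_rot, gc_rot]; exact h0)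
    refine ⟨x, hx, hO _ hx' h0, hD, ?_⟩
    simp only at h ⊢
    rw [← e2, ← e3]
    exact h

/-- **same mark**, one direction -/
theorem rk_imp (H : HNet S N) {t t' : ℂ × ℂ × ℂ} (ht : t ∈ delT S) (ht' : t' ∈ delT S)
    (hJ : J ∈ N.tj t) (hJ' : J' ∈ N.tj t') (hG : Gt1 S J c g) (hG' : Gt1 S J' c g)
    (hm : ∀ k, Avoid c (N.ex k)) (hin : asum (gc t) c ≠ 0) (hin' : asum (gc t') c ≠ 0)
    (hJJ : ∀ a b x, (a, b, x) ∈ delT S → asum (gc (a, b, x)) c = 0 → ((a, b) ∈ J ↔ (a, b) ∈ J'))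
    (hO' : ∀ T ∈ delT S, asum (gc T) c = 0 → T ∉ rots t') {k : ZMod 3} (h : Rk N t J k) :
    Rk N t' J' k := by
  have hg := good_of_hnet H
  -- no three legs
  have hn3 : ∀ {t : ℂ × ℂ × ℂ} {J : Finset (ℂ × ℂ)}, t ∈ delT S → J ∈ N.tj t → Gt1 S J c g →
      asum (gc t) c ≠ 0 → ¬ ∃ k', N.Tri3 t k' J := by
    rintro t J ht hJ hG hin ⟨k', h3⟩
    obtain ⟨h4, h5⟩ := (tri3_iff k').1 h3
    obtain ⟨s, a1, a2, a3⟩ := leads_cross H ht hJ hG hm hin (h4 0) (h5 0)
    obtain ⟨s', b1, b2, b3⟩ := leads_cross H ht hJ hG hm hin (h4 1) (h5 1)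
    have hs := a1.unique b1
    subst hs
    have c1 : Leads N.toTrg (rots t) N.exS J s (sw (N.ex (0 + k'))) :=
      Relation.ReflTransGen.mono (fun _ _ h => h.1) _ _ a3
    have c2 : Leads N.toTrg (rots t) N.exS J s (sw (N.ex (1 + k'))) :=
      Relation.ReflTransGen.mono (fun _ _ h => h.1) _ _ b3
    have := ends_unique hg subset_rfl c1 c2
    revert this
    generalize k' = u
    revert u
    decide
  obtain ⟨-, i, hi, hE⟩ := h
  obtain ⟨s, a1, a2, a3⟩ := leads_cross H ht hJ hG hm hin hi hE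
  have ht'N : t' ∈ N.T := by rw [H.tri]; exact ht'
  obtain ⟨k', hk', -⟩ := qk_unique hg ht'N (tj_join hJ') (Rel2x63.p1all N S H t' ht')
  have hR : Rk N t' J' k' := hk'.resolve_left fun h => hn3 ht' hJ' hG' hin' ⟨k', h⟩
  obtain ⟨-, i', hi', hE'⟩ := hR
  obtain ⟨s', b1, b2, b3⟩ := leads_cross H ht' hJ' hG' hm hin' hi' hE'
  have hs := a1.unique b1
  subst hs
  have c1 : Leads N.toTrg (rots t') N.exS J' s (sw (N.ex k)) :=
    lz_transfer H.gp H.tri hJJ hO' a3
  have c2 : Leads N.toTrg (rots t') N.exS J' s (sw (N.ex k')) :=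
    Relation.ReflTransGen.mono (fun _ _ h => h.1) _ _ b3
  have := ends_unique hg subset_rfl c1 c2
  subst this
  exact ⟨hn3 ht' hJ' hG' hin', i', hi', hE'⟩

/-- **same mark** -/
theorem rk_iff (H : HNet S N) {t t' : ℂ × ℂ × ℂ} (ht : t ∈ delT S) (ht' : t' ∈ delT S)
    (hJ : J ∈ N.tj t) (hJ' : J' ∈ N.tj t') (hG : Gt1 S J c g)
    (hcc : ∀ p ∈ prs c, (p ∈ J ↔ p ∈ J') ∧ (p.swap ∈ J ↔ p.swap ∈ J'))
    (hm : ∀ k, Avoid c (N.ex k)) (hin : asum (gc t) c ≠ 0) (hin' : asum (gc t') c ≠ 0)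
    (hJJ : ∀ a b x, (a, b, x) ∈ delT S → asum (gc (a, b, x)) c = 0 → ((a, b) ∈ J ↔ (a, b) ∈ J'))
    (k : ZMod 3) : Rk N t J k ↔ Rk N t' J' k := by
  have hG' : Gt1 S J' c g := ⟨hG.loop, hG.mem, fun p hp h => hG.only p hp (by
    rw [(hcc p hp).1, (hcc p hp).2]; exact h)⟩
  have hO : ∀ {t : ℂ × ℂ × ℂ}, asum (gc t) c ≠ 0 → ∀ T ∈ delT S, asum (gc T) c = 0 →
      T ∉ rots t := by
    intro t hin T _ h0 hT
    apply hin
    rw [← h0]
    obtain ⟨a, b, x⟩ := t
    unfold rots at hT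
    simp only [Set.mem_insert_iff, Set.mem_singleton_iff] at hT
    rcases hT with rfl | rfl | rfl
    · rfl
    · rw [gc_rot a b x]
    · rw [gc_rot b x a, gc_rot a b x]
  exact ⟨rk_imp H ht ht' hJ hJ' hG hG' hm hin hin' hJJ (hO hin'),
    rk_imp H ht' ht hJ' hJ hG' hG hm hin' hin (fun a b x h h0 => (hJJ a b x h h0).symm) (hO hin)⟩

end Crest.Agent.R143.EQE1x63
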