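import Crest.Agent.R143.K33D_877
import Crest.Agent.R143.Jump_697
import Crest.Agent.R143.EQE1_63

/-!
# Row 143 (S0194), CONT: the K33 lemma (helper877, note 3434)

* `FF` : face functions mod 2; `par` : the number of jumps across the edges which leave a set of
  sites is even
* `nd S l` : index mod 2 of the closed chain `l`; `nd_jump`; `star`, `zero_of` : it vanishes around a
  connected set of sites off `l` with a hull site
* `three` : the core of the parity argument
* `ktt`, `ktx`, `kxx`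
-/

set_option autoImplicit false

noncomputable section

open scoped Classical

namespace Crest.Agent.R143.K33x877

open Set
open Crest.Agent.R143.B0x346 Crest.Agent.R143.DelGx806 Crest.Agent.R143.DelRx806
  Crest.Agent.R143.JColx54 Crest.Agent.R143.RE0x723
open Crest.Agent.R143.ToolWx838 Crest.Agent.R143.Blkx838 Crest.Agent.R143.EQE1x63
open Crest.Agent.R143.XFx903 (gc gc_in)
open Crest.Agent.R143.RB2x54 (Vt)

variable {S : Finset ℂ}

/-! ### face functions -/

/-- face function mod 2, as a function of the directed edges (value of the triangle on the left) -/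
def FF (S : Finset ℂ) (G : ℂ × ℂ → ZMod 2) : Prop :=
  (∀ a b c, (a, b, c) ∈ delT S → G (b, c) = G (a, b)) ∧
    ∀ p : ℂ × ℂ, (∀ c, (p.1, p.2, c) ∉ delT S) → G p = 0

/-- pairs which leave `A` -/
def lv (S : Finset ℂ) (A : Set ℂ) : Finset (ℂ × ℂ) :=
  (S ×ˢ S).filter fun p => p.1 ∈ A ∧ p.2 ∉ A

theorem two_zero (x : ZMod 2) : x + x = 0 := by revert x; decide

theorem sum_rot3 {M : Type} [AddCommMonoid M] (f : ℂ × ℂ × ℂ → M) :
    ∑ t ∈ delT S, f (t.2.1, t.2.2, t.1) = ∑ t ∈ delT S, f t := by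
  refine Finset.sum_nbij' (fun t => (t.2.1, t.2.2, t.1)) (fun t => (t.2.2, t.1, t.2.1))
    (fun t ht => rot_mem ht) (fun t ht => rot_mem (rot_mem ht)) ?_ ?_ ?_
  · intro t _; rfl
  · intro t _; rfl
  · intro t _; rfl

/-- **parity** -/
theorem par (hS : GP (S : Set ℂ)) {G : ℂ × ℂ → ZMod 2} (hG : FF S G) (A : Set ℂ) :
    ∑ p ∈ lv S A, (G p + G p.swap) = 0 := by
  set f : ℂ × ℂ → ZMod 2 := fun p =>
    if (p.1 ∈ A ∧ p.2 ∉ A) ∨ (p.2 ∈ A ∧ p.1 ∉ A) then G p else 0 with hf
  -- sum over the triangles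
  have h1 : ∑ t ∈ delT S, f (t.1, t.2.1) = 0 := by
    have e1 := sum_rot3 (S := S) (fun t => f (t.1, t.2.1))
    have e2 := sum_rot3 (S := S) (fun t => f (t.2.1, t.2.2))
    simp only at e1 e2
    have e3 : ∑ t ∈ delT S, (f (t.1, t.2.1) + f (t.2.1, t.2.2) + f (t.2.2, t.1)) = 0 := by
      refine Finset.sum_eq_zero ?_
      rintro ⟨a, b, c⟩ ht
      simp only [hf]
      have g1 : G (b, c) = G (a, b) := hG.1 a b c ht
      have g2 : G (c, a) = G (a, b) := by rw [hG.1 b c a (rot_mem ht), g1]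
      rw [g1, g2]
      by_cases ha : a ∈ A <;> by_cases hb : b ∈ A <;> by_cases hc : c ∈ A <;>
        simp [ha, hb, hc, two_zero]
    rw [Finset.sum_add_distrib, Finset.sum_add_distrib, e2, e1] at e3
    have e4 : ∑ t ∈ delT S, f (t.1, t.2.1) + ∑ t ∈ delT S, f (t.1, t.2.1) = 0 := two_zero _
    rw [e4, zero_add] at e3
    exact e3
  -- sum over the directed edges
  have h2 : ∑ p ∈ S ×ˢ S, f p = 0 := by
    rw [← h1]
    have hinj : ∀ t ∈ delT S, ∀ t' ∈ delT S, ((t.1, t.2.1) : ℂ × ℂ) = (t'.1, t'.2.1) → t = t' := by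
      rintro ⟨a, b, c⟩ ht ⟨a', b', c'⟩ ht' h
      simp only [Prod.mk.injEq] at h
      obtain ⟨rfl, rfl⟩ := h
      rw [(g1 S hS).2.1 _ _ _ _ ht ht']
    rw [← Finset.sum_image (f := f) (g := fun t : ℂ × ℂ × ℂ => (t.1, t.2.1)) hinj]
    symm
    refine Finset.sum_subset ?_ ?_
    · intro p hp
      obtain ⟨t, ht, rfl⟩ := Finset.mem_image.1 hp
      have := mem_delT.1 ht
      exact Finset.mem_product.2 ⟨this.1, this.2.1⟩
    · intro p _ hp
      have h0 : G p = 0 := by
        refine hG.2 p fun c hc => hp ?_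
        exact Finset.mem_image.2 ⟨(p.1, p.2, c), hc, rfl⟩
      simp only [hf]
      rw [h0, ite_self]
  -- split
  have h3 : ∑ p ∈ S ×ˢ S, f p = ∑ p ∈ lv S A, G p + ∑ p ∈ lv S A, G p.swap := by
    have e1 : ∀ p ∈ S ×ˢ S, f p = (if p.1 ∈ A ∧ p.2 ∉ A then G p else 0) +
        (if p.2 ∈ A ∧ p.1 ∉ A then G p else 0) := by
      intro p _
      simp only [hf]
      by_cases ha : p.1 ∈ A <;> by_cases hb : p.2 ∈ A <;> simp [ha, hb]
    rw [Finset.sum_congr rfl e1, Finset.sum_add_distrib, ← Finset.sum_filter, ← Finset.sum_filter]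
    congr 1
    refine Finset.sum_nbij' Prod.swap Prod.swap ?_ ?_ ?_ ?_ ?_
    · rintro ⟨a, b⟩ h
      simp only [lv, Finset.mem_filter, Finset.mem_product, Prod.swap_prod_mk] at h ⊢
      tauto
    · rintro ⟨a, b⟩ h
      simp only [lv, Finset.mem_filter, Finset.mem_product, Prod.swap_prod_mk] at h ⊢
      tauto
    · intro p _; exact Prod.swap_swap p
    · intro p _; exact Prod.swap_swap p
    · intro p _; rw [Prod.swap_swap]
  rw [Finset.sum_add_distrib, ← h3, h2]

/-- the core of the parity argument -/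
theorem three (hS : GP (S : Set ℂ)) {G H : ℂ × ℂ → ZMod 2} (hG : FF S G) (hH : FF S H) {A : Set ℂ}
    {p q e : ℂ × ℂ} (hp : p ∈ lv S A) (hq : q ∈ lv S A) (he : e ∈ lv S A) (hpq : p ≠ q)
    (hpe : p ≠ e) (hqe : q ≠ e)
    (G1 : ∀ r ∈ lv S A, r ≠ p → r ≠ e → G r + G r.swap = 0) (G2 : G p + G p.swap = 1)
    (H1 : ∀ r ∈ lv S A, r ≠ q → r ≠ e → H r + H r.swap = 0) (H2 : H q + H q.swap = 1)
    (Gq : G q = 0) (Hp : H p = 0) (hull : (∀ c, (e.1, e.2, c) ∉ delT S) ∨ ∀ c, (e.2, e.1, c) ∉ delT S) :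
    False := by
  have key : ∀ {G : ℂ × ℂ → ZMod 2} {p : ℂ × ℂ}, FF S G → p ∈ lv S A → p ≠ e →
      (∀ r ∈ lv S A, r ≠ p → r ≠ e → G r + G r.swap = 0) → G p + G p.swap = 1 →
      G e + G e.swap = 1 := by
    intro G p hG hp hpe G1 G2
    have h1 := par hS hG A
    rw [← Finset.sum_subset (s₁ := {p, e})] at h1
    · rw [Finset.sum_pair hpe, G2] at h1
      have h2 : ∀ x : ZMod 2, 1 + x = 0 → x = 1 := by decide
      exact h2 _ h1
    · intro r hr
      rcases Finset.mem_insert.1 hr with rfl | hr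
      · exact hp
      · rw [Finset.mem_singleton.1 hr]; exact he
    · intro r hr hr'
      simp only [Finset.mem_insert, Finset.mem_singleton, not_or] at hr'
      exact G1 r hr hr'.1 hr'.2
  have Ge := key hG hp hpe G1 G2
  have He := key hH hq hqe H1 H2
  -- the function `G or H`
  set K : ℂ × ℂ → ZMod 2 := fun r => G r + H r + G r * H r with hK
  have hKF : FF S K := by
    refine ⟨fun a b c h => ?_, fun r hr => ?_⟩
    · simp only [hK]; rw [hG.1 a b c h, hH.1 a b c h]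
    · simp only [hK]; rw [hG.2 r hr, hH.2 r hr]; ring
  have h1 := par hS hKF A
  rw [← Finset.sum_subset (s₁ := {p, q, e})] at h1
  · rw [Finset.sum_insert (by simp [hpq, hpe]), Finset.sum_pair hqe] at h1
    have Gq' : G q.swap = 0 := by
      have := G1 q hq hpq.symm hqe
      rw [Gq, zero_add] at this; exact this
    have Hp' : H p.swap = 0 := by
      have := H1 p hp hpq hpe
      rw [Hp, zero_add] at this; exact this
    have e1 : K p + K p.swap = 1 := by
      simp only [hK]; rw [Hp, Hp']; linear_combination G2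
    have e2 : K q + K q.swap = 1 := by
      simp only [hK]; rw [Gq, Gq']; linear_combination H2
    have e3 : K e + K e.swap = 1 := by
      simp only [hK]
      rcases hull with h | h
      · have g0 : G e = 0 := hG.2 e h
        have h0 : H e = 0 := hH.2 e h
        rw [g0, zero_add] at Ge
        rw [h0, zero_add] at He
        rw [g0, h0, Ge, He]; decide
      · have g0 : G e.swap = 0 := hG.2 e.swap h
        have h0 : H e.swap = 0 := hH.2 e.swap h
        rw [g0, add_zero] at Ge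
        rw [h0, add_zero] at He
        rw [g0, h0, Ge, He]; decide
    rw [e1, e2, e3] at h1
    exact absurd h1 (by decide)
  · intro r hr
    simp only [Finset.mem_insert, Finset.mem_singleton] at hr
    rcases hr with rfl | rfl | rfl
    · exact hp
    · exact hq
    · exact he
  · intro r hr hr'
    simp only [Finset.mem_insert, Finset.mem_singleton, not_or] at hr'
    have a1 := G1 r hr hr'.1 hr'.2.2
    have a2 := H1 r hr hr'.2.1 hr'.2.2
    simp only [hK]
    revert a1 a2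
    generalize G r = x
    generalize G r.swap = y
    generalize H r = z
    generalize H r.swap = w
    revert x y z w
    decide

/-! ### the index of a closed chain -/

/-- index mod 2 of the closed chain `l` at the triangle on the left of `p` -/
def nd (S : Finset ℂ) (l : List ℂ) (p : ℂ × ℂ) : ZMod 2 :=
  if h : ∃ k : ℤ, AL S l p = 2 * Real.pi * k then (h.choose : ZMod 2) else 0

theorem al_int (hS : GP (S : Set ℂ)) {l : List ℂ} (hl : Loop S l) (hlS : ∀ s ∈ l, s ∈ S)
    (p : ℂ × ℂ) : ∃ k : ℤ, AL S l p = 2 * Real.pi * k := by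
  by_cases h : ∃ x, (p.1, p.2, x) ∈ delT S
  · obtain ⟨x, hx⟩ := h
    have e : AL S l p = asum (gc (p.1, p.2, x)) l := al_tri hS hx
    rw [e]
    refine asum_closed (fun a ha h => ?_) hl.closed
    have h1 := XFx903.not_site hS hx (gc_in hx)
    rw [← h] at h1
    exact h1 (hlS a ha)
  · push Not at h
    exact ⟨0, by rw [al_none h]; simp⟩

theorem nd_spec {l : List ℂ} {p : ℂ × ℂ} {k : ℤ} (h : AL S l p = 2 * Real.pi * k) :
    nd S l p = (k : ZMod 2) := by
  have hex : ∃ k : ℤ, AL S l p = 2 * Real.pi * k := ⟨k, h⟩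
  have h1 := h.symm.trans hex.choose_spec
  have h2 : (k : ℝ) = (hex.choose : ℝ) := by
    have h3 : (2 * Real.pi) ≠ 0 := by positivity
    exact mul_left_cancel₀ h3 h1
  have h3 : k = hex.choose := by exact_mod_cast h2
  unfold nd
  rw [dif_pos hex, ← h3]

theorem nd_zero {l : List ℂ} {p : ℂ × ℂ} (h : AL S l p = 0) : nd S l p = 0 := by
  rw [nd_spec (k := 0) (by rw [h]; simp)]
  simp

theorem nd_eq {l : List ℂ} {p q : ℂ × ℂ} (h : AL S l p = AL S l q) : nd S l p = nd S l q := by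
  unfold nd
  simp only [h]

theorem nd_ff (hS : GP (S : Set ℂ)) (l : List ℂ) : FF S (nd S l) := by
  refine ⟨fun a b c h => ?_, fun p hp => nd_zero (al_none hp)⟩
  apply nd_eq
  rw [al_tri hS h, al_tri2 hS h]

/-- jump at an inner edge -/
theorem nd_jump (hS : GP (S : Set ℂ)) {l : List ℂ} (hl : Loop S l) (hlS : ∀ s ∈ l, s ∈ S)
    {a b c d : ℂ} (h : (a, b, c) ∈ delT S) (h' : (b, a, d) ∈ delT S) :
    nd S l (a, b) + nd S l (a, b).swap =
      (((prs l).count (a, b) + (prs l).count (b, a) : ℕ) : ZMod 2) := by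
  obtain ⟨k, hk⟩ := al_int hS hl hlS (a, b)
  obtain ⟨m, hm⟩ := al_int hS hl hlS (b, a)
  have h1 := Jumpx697.asum_jump hS hl h h' (gc_in h) (gc_in h')
  rw [← al_tri hS h, ← al_tri hS h', hk, hm] at h1
  have h2 : ((k - m : ℤ) : ℝ) = (((prs l).count (a, b) : ℤ) - ((prs l).count (b, a) : ℤ) : ℤ) := by
    have h3 : (2 * Real.pi) ≠ 0 := by positivity
    have h4 : 2 * Real.pi * ((k : ℝ) - m) =
        2 * Real.pi * (((prs l).count (a, b) : ℝ) - (prs l).count (b, a)) := by
      rw [← h1]; ring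
    have h5 := mul_left_cancel₀ h3 h4
    push_cast
    exact h5
  have h3 : k - m = ((prs l).count (a, b) : ℤ) - ((prs l).count (b, a) : ℤ) := by exact_mod_cast h2
  rw [nd_spec hk, Prod.swap_prod_mk, nd_spec hm]
  have h4 : k = m + ((prs l).count (a, b) : ℤ) - ((prs l).count (b, a) : ℤ) := by omega
  rw [h4]
  push_cast
  generalize ((prs l).count (a, b) : ZMod 2) = x
  generalize ((prs l).count (b, a) : ZMod 2) = y
  generalize (m : ZMod 2) = z
  revert x y z
  decide

/-- no jump at an edge off the chain -/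
theorem nd_avoid (hS : GP (S : Set ℂ)) {l : List ℂ} (hl : Loop S l) (hlS : ∀ s ∈ l, s ∈ S)
    {p : ℂ × ℂ} (h : Avoid l p) : nd S l p + nd S l p.swap = 0 := by
  by_cases hd : DE S p.1 p.2
  · rw [nd_eq (al_swap hS hl hlS hd h), two_zero]
  · unfold DE at hd
    push Not at hd
    rw [nd_zero (al_none hd.1), nd_zero (p := p.swap) (al_none hd.2), zero_add]

/-- from an open triangle to a vertex -/
theorem open_vertex {a b c x : ℂ} (h : (a, b, c) ∈ delT S) (hx : InO x a b c) {s t : ℝ}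
    (hs : 0 < s) (ht : 0 ≤ t) (hst : s + t = 1) : InO (s • x + t • a) a b c := by
  obtain ⟨o, T⟩ := mem_delT_iff.1 h
  have hpos := T.pos
  obtain ⟨x1, x2, x3⟩ := hx
  unfold Lft at x1 x2 x3
  rw [cr_sub] at x1 x2 x3
  rw [cr_sub] at hpos
  have ht' : t = 1 - s := by linarith
  have hre : (s • x + t • a).re = s * x.re + t * a.re := by simp
  have him : (s • x + t • a).im = s * x.im + t * a.im := by simp
  refine ⟨?_, ?_, ?_⟩
  · unfold Lft
    rw [cr_sub, hre, him]
    have : (b.re - a.re) * (s * x.im + t * a.im - a.im) -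
        (b.im - a.im) * (s * x.re + t * a.re - a.re) =
        s * ((b.re - a.re) * (x.im - a.im) - (b.im - a.im) * (x.re - a.re)) := by
      subst ht'; ring
    rw [this]; positivity
  · unfold Lft
    rw [cr_sub, hre, him]
    have : (c.re - b.re) * (s * x.im + t * a.im - b.im) -
        (c.im - b.im) * (s * x.re + t * a.re - b.re) =
        s * ((c.re - b.re) * (x.im - b.im) - (c.im - b.im) * (x.re - b.re)) +
        t * ((b.re - a.re) * (c.im - a.im) - (b.im - a.im) * (c.re - a.re)) := by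
      subst ht'; ring
    rw [this]; positivity
  · unfold Lft
    rw [cr_sub, hre, him]
    have : (a.re - c.re) * (s * x.im + t * a.im - c.im) -
        (a.im - c.im) * (s * x.re + t * a.re - c.re) =
        s * ((a.re - c.re) * (x.im - c.im) - (a.im - c.im) * (x.re - c.re)) := by
      subst ht'; ring
    rw [this]; positivity

/-- a site on a Delaunay edge is an end -/
theorem site_seg (hS : GP (S : Set ℂ)) {a b v : ℂ} (h : DE S a b) (hv : v ∈ S)
    (hs : v ∈ segment ℝ a b) : v = a ∨ v = b := by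
  obtain ⟨e, o, -, ha, hb, hab, -⟩ := h.circ hS
  by_contra hcon
  push Not at hcon
  exact hS.line a ha b hb v hv hab (Ne.symm hcon.2) (Ne.symm hcon.1) (cr_of_seg hs)

/-- **star** : the triangles at a site off the chain see it as the site -/
theorem star (hS : GP (S : Set ℂ)) {l : List ℂ} (hl : Loop S l) {v b c : ℂ} (hv : v ∉ l)
    (h : (v, b, c) ∈ delT S) : asum (gc (v, b, c)) l = asum v l := by
  have hvS : v ∈ S := (mem_delT.1 h).1
  refine asum_seg hl.closed ?_
  rintro z ⟨s, t, hs, ht, hst, rfl⟩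
  rcases hs.lt_or_eq with hs | hs
  · exact off_open hS hl h (open_vertex h (gc_in h) hs ht hst)
  · have h1 : t = 1 := by linarith
    rw [← hs, h1, zero_smul, one_smul, zero_add]
    intro p hp hseg
    have h2 := mem_of_prs hp
    rcases site_seg hS (hl.del p hp) hvS hseg with h3 | h3
    · exact hv (h3 ▸ h2.1)
    · exact hv (h3 ▸ h2.2)

/-- a triangle with the vertex `v` -/
theorem star' (hS : GP (S : Set ℂ)) {l : List ℂ} (hl : Loop S l) {a b c v : ℂ} (hv : v ∉ l)
    (h : (a, b, c) ∈ delT S) (hVt : Vt (a, b, c) v) : AL S l (a, b) = asum v l := by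
  rw [al_tri hS h]
  rcases hVt with h1 | h1 | h1
  · simp only at h1; subst h1; exact star hS hl hv h
  · simp only at h1; subst h1
    rw [← gc_rot a v c]; exact star hS hl hv (rot_mem h)
  · simp only at h1; subst h1
    rw [← gc_rot a b v, ← gc_rot b v a]; exact star hS hl hv (rot_mem (rot_mem h))

/-- neighbours off the chain -/
theorem asum_adj (hS : GP (S : Set ℂ)) {l : List ℂ} (hl : Loop S l) {u v : ℂ} (hu : u ∉ l)
    (hv : v ∉ l) (h : Adj S u v) : asum u l = asum v l := by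
  rcases h with ⟨c, h⟩ | ⟨c, h⟩
  · rw [← star' hS hl hu h (Or.inl rfl), ← star' hS hl hv h (Or.inr (Or.inl rfl))]
  · rw [← star' hS hl hu h (Or.inr (Or.inl rfl)), ← star' hS hl hv h (Or.inl rfl)]

theorem asum_pth (hS : GP (S : Set ℂ)) {l : List ℂ} (hl : Loop S l) {V : Set ℂ} {x y : ℂ}
    (hV : ∀ v ∈ V, v ∉ l) (h : Pth S V x y) : asum y l = asum x l :=
  h.ind (P := fun v => asum v l = asum x l) rfl
    fun a b ha hb hab h1 => by rw [← asum_adj hS hl (hV a ha) (hV b hb) hab, h1]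

/-- hull sites off the chain -/
theorem asum_hull0 (hS : GP (S : Set ℂ)) {l : List ℂ} (hl : Loop S l) (hlS : ∀ s ∈ l, s ∈ S)
    {u v : ℂ} (hu : u ∉ l) (h : hullE S u v) : asum u l = 0 := by
  obtain ⟨⟨c, hc⟩, hn⟩ := h
  have hav : Avoid l (u, v) := ⟨fun h1 => hu (mem_of_prs h1).1, fun h1 => hu (mem_of_prs h1).2⟩
  rw [← star' hS hl hu hc (Or.inl rfl), al_swap hS hl hlS (Or.inl ⟨c, hc⟩) hav]
  exact al_none hn

/-- the index vanishes on the triangles at `v` -/
theorem nd_of_zero (hS : GP (S : Set ℂ)) {l : List ℂ} (hl : Loop S l) {v : ℂ} (hv : v ∉ l)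
    (h0 : asum v l = 0) {p : ℂ × ℂ} {c : ℂ} (h : (p.1, p.2, c) ∈ delT S)
    (hVt : Vt (p.1, p.2, c) v) : nd S l p = 0 :=
  nd_zero (by rw [← h0]; exact star' hS hl hv h hVt)

/-! ### chains of sites -/

/-- list of a path -/
theorem pth_list {V : Set ℂ} {x y : ℂ} (h : Pth S V x y) : ∃ l : List ℂ, l.head? = some x ∧
    l.getLast? = some y ∧ (∀ s ∈ l, s ∈ V) ∧ ∀ p ∈ prs l, DE S p.1 p.2 := by
  obtain ⟨hx, h⟩ := h
  induction h using Relation.ReflTransGen.head_induction_on with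
  | refl => exact ⟨[y], rfl, rfl, by simpa using hx, by simp⟩
  | @head a b hab hb ih =>
    obtain ⟨l, h1, h2, h3, h4⟩ := ih hab.2
    cases l with
    | nil => simp at h1
    | cons u l =>
      simp only [List.head?_cons, Option.some.injEq] at h1
      subst h1
      refine ⟨a :: u :: l, rfl, ?_, ?_, ?_⟩
      · rw [List.getLast?_cons_cons]; exact h2
      · intro s hs
        rcases List.mem_cons.1 hs with rfl | hs
        · exact hx
        · exact h3 s hs
      · intro p hp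
        rw [prs_cons] at hp
        rcases List.mem_cons.1 hp with rfl | hp
        · exact hab.1
        · exact h4 p hp

/-- pairs of a concatenation -/
theorem prs_cat2 {l m : List ℂ} {a b : ℂ} (h1 : l.getLast? = some a) (h2 : m.head? = some b) :
    prs (l ++ m) = prs l ++ (a, b) :: prs m := by
  cases m with
  | nil => simp at h2
  | cons c m =>
    simp only [List.head?_cons, Option.some.injEq] at h2
    subst h2
    obtain ⟨l', rfl⟩ : ∃ l', l = l' ++ [a] := by
      rcases List.eq_nil_or_concat l with h | ⟨l', c', h⟩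
      · rw [h] at h1; simp at h1
      · rw [h] at h1
        simp only [List.concat_eq_append, List.getLast?_append, List.getLast?_singleton,
          Option.some_or, Option.some.injEq] at h1
        exact ⟨l', by rw [h, h1]; simp⟩
    rw [List.append_assoc, List.singleton_append, prs_append]
    rfl

/-- the closed chain through `a2 .. b` inside `A`, then `f .. a0` inside `V` -/
theorem closed {A V : Set ℂ} {a2 b f a0 : ℂ} (h1 : Pth S A a2 b) (h2 : Adj S b f)
    (h3 : Pth S V f a0) (h4 : Adj S a0 a2) (hd : Disjoint A V) :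
    ∃ l : List ℂ, Loop S l ∧ (∀ s ∈ l, s ∈ A ∨ s ∈ V) ∧
      (∀ p : ℂ × ℂ, p.1 ∈ A → p.2 ∉ A → p ∈ prs l ∨ p.swap ∈ prs l → p = (b, f) ∨ p = (a2, a0)) ∧
      ((b, f) ≠ (a2, a0) → (prs l).count (b, f) + (prs l).count (f, b) = 1) := by
  obtain ⟨P, P1, P2, P3, P4⟩ := pth_list h1
  obtain ⟨Q, Q1, Q2, Q3, Q4⟩ := pth_list h3
  have hP : P ≠ [] := by rintro rfl; simp at P1
  have hQ : Q ≠ [] := by rintro rfl; simp at Q1
  have hQ' : (Q ++ [a2]).head? = some f := by
    rw [List.head?_append_of_ne_nil _ hQ]; exact Q1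
  have e1 : prs (P ++ (Q ++ [a2])) = prs P ++ (b, f) :: (prs Q ++ [(a0, a2)]) := by
    rw [prs_cat2 P2 hQ', prs_cat2 Q2 (m := [a2]) rfl]
    rfl
  have bA : b ∈ A := h1.snd
  have aA : a2 ∈ A := h1.1
  have fV : f ∈ V := h3.1
  have a0V : a0 ∈ V := h3.snd
  have dis : ∀ {x}, x ∈ A → x ∈ V → False := fun hx hy => Set.disjoint_left.1 hd hx hy
  refine ⟨P ++ (Q ++ [a2]), ⟨?_, ?_⟩, ?_, ?_, ?_⟩
  · rw [List.head?_append_of_ne_nil _ hP, P1, List.getLast?_append_of_ne_nil _ (by simp),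
      List.getLast?_append_of_ne_nil _ (by simp)]
    rfl
  · intro p hp
    rw [e1] at hp
    simp only [List.mem_append, List.mem_cons, List.not_mem_nil, or_false] at hp
    rcases hp with hp | rfl | hp | rfl
    · exact P4 p hp
    · exact h2
    · exact Q4 p hp
    · exact h4
  · intro s hs
    simp only [List.mem_append, List.mem_cons, List.not_mem_nil, or_false] at hs
    rcases hs with hs | hs | rfl
    · exact Or.inl (P3 s hs)
    · exact Or.inr (Q3 s hs)
    · exact Or.inl aA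
  · intro p p1 p2 hp
    rw [e1] at hp
    simp only [List.mem_append, List.mem_cons, List.not_mem_nil, or_false] at hp
    rcases hp with (hp | hp | hp | hp) | (hp | hp | hp | hp)
    · exact absurd (P3 _ (mem_of_prs hp).2) p2
    · exact Or.inl hp
    · exact absurd (Q3 _ (mem_of_prs hp).1) (fun h => dis p1 h)
    · rw [hp] at p1; exact absurd a0V (fun h => dis p1 h)
    · exact absurd (P3 _ (mem_of_prs hp).1) p2
    · have : p = (f, b) := by rw [← Prod.swap_swap p, hp]; rfl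
      rw [this] at p1; exact absurd fV (fun h => dis p1 h)
    · exact absurd (Q3 _ (mem_of_prs hp).2) (fun h => dis p1 h)
    · right; rw [← Prod.swap_swap p, hp]; rfl
  · intro hne
    rw [e1, List.count_append, List.count_append, List.count_cons, List.count_cons,
      List.count_append, List.count_append]
    have c1 : (prs P).count (b, f) = 0 := List.count_eq_zero.2 fun h =>
      dis (P3 _ (mem_of_prs h).2) fV
    have c2 : (prs P).count (f, b) = 0 := List.count_eq_zero.2 fun h =>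
      dis (P3 _ (mem_of_prs h).1) fV
    have c3 : (prs Q).count (b, f) = 0 := List.count_eq_zero.2 fun h =>
      dis bA (Q3 _ (mem_of_prs h).1)
    have c4 : (prs Q).count (f, b) = 0 := List.count_eq_zero.2 fun h =>
      dis bA (Q3 _ (mem_of_prs h).2)
    have c5 : List.count (b, f) [(a0, a2)] = 0 := List.count_eq_zero.2 fun h => by
      simp only [List.mem_cons, Prod.mk.injEq, List.not_mem_nil, or_false] at h
      exact dis bA (h.1 ▸ a0V)
    have c6 : List.count (f, b) [(a0, a2)] = 0 := List.count_eq_zero.2 fun h => by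
      simp only [List.mem_cons, Prod.mk.injEq, List.not_mem_nil, or_false] at h
      exact hne (by rw [h.1, h.2])
    have c7 : ((b, f) == (f, b)) = false := by
      rw [beq_eq_false_iff_ne]
      intro h
      have h' : b = f := congrArg Prod.fst h
      rw [h'] at bA
      exact dis bA fV
    rw [c1, c2, c3, c4, c5, c6, c7]
    simp

/-! ### K33 -/

section k33

variable {A : ZMod 3 → Set ℂ} {i j k : ZMod 3}

theorem Tr.hull_end (hT : Tr S A) {a b : ℂ} (h : hullE S a b ∨ hullE S b a) :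
    ∃ c, hullE S a c := by
  rcases h with h | h
  · exact ⟨b, h⟩
  · obtain ⟨c, hc, -⟩ := DelRx806.hull_succ hT.gp h
    exact ⟨c, hc⟩

theorem Tr.hull_mem (hT : Tr S A) {a b : ℂ} (h : hullE S a b ∨ hullE S b a) : ∃ i, a ∈ A i := by
  obtain ⟨c, hc⟩ := hT.hull_end h
  exact hT.hull _ _ hc

theorem Tr.ne (hT : Tr S A) (hij : i ≠ j) {a : ℂ} (h : a ∈ A i) (h' : a ∈ A j) : False :=
  Set.disjoint_left.1 (hT.disj i j hij) h h'

/-- an adjacent pair which is not a hull edge has two triangles -/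
theorem both {a b : ℂ} (h : Adj S a b) (h1 : ¬ hullE S a b) (h2 : ¬ hullE S b a) :
    (∃ c, (a, b, c) ∈ delT S) ∧ ∃ c, (b, a, c) ∈ delT S := by
  unfold hullE at h1 h2
  push Not at h1 h2
  rcases h with h | h
  · exact ⟨h, h1 h⟩
  · exact ⟨h2 h, h⟩

/-- the index of the closed chain of a branch -/
theorem br_ix (hT : Tr S A) (hik : i ≠ k) {a2 a0 b f : ℂ} {V : Set ℂ}
    (he : hullE S a2 a0 ∨ hullE S a0 a2) (ha2 : a2 ∈ A i) (hb : b ∈ A i) (hbf : Adj S b f)
    (hV : Pth S V f a0) (hVS : V ⊆ (S : Set ℂ)) (hVi : Disjoint (A i) V) (hVk : Disjoint (A k) V) :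
    ∃ G : ℂ × ℂ → ZMod 2, FF S G ∧
      (∀ r ∈ lv S (A i), r ≠ (b, f) → r ≠ (a2, a0) → G r + G r.swap = 0) ∧
      ((b, f) ≠ (a2, a0) → (∃ c, (b, f, c) ∈ delT S) → (∃ c, (f, b, c) ∈ delT S) →
        G (b, f) + G (b, f).swap = 1) ∧
      ∀ (W : Set ℂ) (v z : ℂ), z ∈ A k → Pth S W z v → Disjoint W (A i) → Disjoint W V →
        ∀ p : ℂ × ℂ, (∀ c, (p.1, p.2, c) ∈ delT S → Vt (p.1, p.2, c) v) → G p = 0 := by
  have hS := hT.gp
  have had : Adj S a0 a2 := by
    rcases he with h | h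
    · exact Adj.symm (Or.inl h.1)
    · exact Or.inl h.1
  obtain ⟨l, hl, hlm, hu, hc⟩ := closed (hT.con i a2 ha2 b hb) hbf hV had hVi
  have hlS : ∀ s ∈ l, s ∈ S := fun s hs => by
    rcases hlm s hs with h | h
    · exact hT.sub i h
    · exact hVS h
  refine ⟨nd S l, nd_ff hS l, ?_, ?_, ?_⟩
  · intro r hr h1 h2
    simp only [lv, Finset.mem_filter] at hr
    apply nd_avoid hS hl hlS
    constructor
    · intro h
      rcases hu r hr.2.1 hr.2.2 (Or.inl h) with h | h
      · exact h1 h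
      · exact h2 h
    · intro h
      rcases hu r hr.2.1 hr.2.2 (Or.inr h) with h | h
      · exact h1 h
      · exact h2 h
  · rintro hne ⟨c, h1⟩ ⟨d, h2⟩
    rw [nd_jump hS hl hlS h1 h2, hc hne]
    rfl
  · intro W v z hz hW hWi hWV p hp
    -- a hull site of `A k`
    obtain ⟨h, h', hh, hk, -, -⟩ := hT.one k i (Ne.symm hik)
    obtain ⟨c0, hc0⟩ := hT.hull_end hh
    have off : ∀ s, s ∈ A k → s ∉ l := fun s hs hsl => by
      rcases hlm s hsl with h1 | h1
      · exact hT.ne hik h1 hs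
      · exact Set.disjoint_left.1 hVk hs h1
    have e0 : asum h l = 0 := asum_hull0 hS hl hlS (off h hk) hc0
    have e1 : asum z l = asum h l := asum_pth hS hl off (hT.con k h hk z hz)
    have off2 : ∀ s ∈ W, s ∉ l := fun s hs hsl => by
      rcases hlm s hsl with h1 | h1
      · exact Set.disjoint_left.1 hWi hs h1
      · exact Set.disjoint_left.1 hWV hs h1
    have e2 : asum v l = asum z l := asum_pth hS hl off2 hW
    by_cases hex : ∃ c, (p.1, p.2, c) ∈ delT S
    · obtain ⟨c, hc1⟩ := hex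
      exact nd_of_zero hS hl (off2 v hW.snd) (by rw [e2, e1, e0]) hc1 (hp c hc1)
    · push Not at hex
      exact (nd_ff hS l).2 p hex

/-- branch through a connected set -/
theorem CtrX.br (hT : Tr S A) (hij : i ≠ j) (hjk : j ≠ k) {X : Set ℂ}
    (hX : CtrX S A X) {a0 : ℂ} (ha0 : a0 ∈ A j) : ∃ b ∈ A i, ∃ f ∈ X, Adj S b f ∧
      Pth S (X ∪ A j) f a0 ∧ X ∪ A j ⊆ (S : Set ℂ) ∧ Disjoint (A i) (X ∪ A j) ∧
      Disjoint (A k) (X ∪ A j) := by
  obtain ⟨hd, hc, ha⟩ := hX
  obtain ⟨f, hf, b, hb, hfb⟩ := ha i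
  obtain ⟨x, hx, w, hw, hxw⟩ := ha j
  refine ⟨b, hb, f, hf, hfb.symm, ?_, ?_, ?_, ?_⟩
  · have h1 : Pth S (X ∪ A j) f x := (hc f hf x hx).mono Set.subset_union_left
    exact (h1.tail hxw (Or.inr hw)).trans ((hT.con j w hw a0 ha0).mono Set.subset_union_right)
  · rintro v (hv | hv)
    · -- a site of `X` : it has a neighbour
      rcases Relation.ReflTransGen.cases_head (hc v hv f hf).2 with h | ⟨c, h, -⟩
      · rw [h]; exact (Adj.mem hfb).1
      · exact (Adj.mem h.1).1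
    · exact hT.sub j hv
  · rw [Set.disjoint_union_right]
    exact ⟨(hd i).symm, hT.disj i j hij⟩
  · rw [Set.disjoint_union_right]
    exact ⟨(hd k).symm, hT.disj k j (Ne.symm hjk)⟩

theorem free_not_hull (hT : Tr S A) {b f : ℂ} (hf : ∀ m, f ∉ A m) :
    ¬ hullE S b f ∧ ¬ hullE S f b := by
  constructor
  · intro h
    obtain ⟨m, hm⟩ := hT.hull_mem (Or.inr h)
    exact hf m hm
  · intro h
    obtain ⟨m, hm⟩ := hT.hull_mem (Or.inl h)
    exact hf m hm

theorem kxx : KXX := by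
  intro S A hT X Y hX hY hXY
  have hS := hT.gp
  obtain ⟨a2, a0, he, ha2, ha0, -⟩ := hT.one 0 1 (by decide)
  have d01 : (0 : ZMod 3) ≠ 1 := by decide
  have d02 : (0 : ZMod 3) ≠ 2 := by decide
  have d12 : (1 : ZMod 3) ≠ 2 := by decide
  obtain ⟨b, hb, f, hf, hbf, pV, sV, dVi, dVk⟩ := hX.br hT d01 d12 ha0
  obtain ⟨b', hb', f', hf', hbf', pV', sV', dVi', dVk'⟩ := hY.br hT d01 d12 ha0
  obtain ⟨G, gF, g1, g2, g3⟩ := br_ix hT d02 he ha2 hb hbf pV sV dVi dVk
  obtain ⟨H, hF, h1, h2, h3⟩ := br_ix hT d02 he ha2 hb' hbf' pV' sV' dVi' dVk'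
  have hfA : ∀ m, f ∉ A m := fun m h => Set.disjoint_left.1 (hX.1 m) hf h
  have hfA' : ∀ m, f' ∉ A m := fun m h => Set.disjoint_left.1 (hY.1 m) hf' h
  obtain ⟨n1, n2⟩ := free_not_hull hT (b := b) hfA
  obtain ⟨n1', n2'⟩ := free_not_hull hT (b := b') hfA'
  obtain ⟨t1, t2⟩ := both hbf n1 n2
  obtain ⟨t1', t2'⟩ := both hbf' n1' n2'
  have m0 : a0 ∈ A 1 := ha0
  have ne1 : (b, f) ≠ (a2, a0) := fun h => by
    have h' : f = a0 := congrArg Prod.snd h
    exact hfA 1 (h' ▸ m0)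
  have ne2 : (b', f') ≠ (a2, a0) := fun h => by
    have h' : f' = a0 := congrArg Prod.snd h
    exact hfA' 1 (h' ▸ m0)
  have ne3 : (b, f) ≠ (b', f') := fun h => by
    have : f = f' := congrArg Prod.snd h
    exact Set.disjoint_left.1 hXY hf (this ▸ hf')
  have mlv : ∀ {b f : ℂ}, b ∈ A 0 → f ∉ A 0 → f ∈ S → (b, f) ∈ lv S (A 0) := by
    intro b f h1 h2 h3
    simp only [lv, Finset.mem_filter, Finset.mem_product]
    exact ⟨⟨hT.sub 0 h1, h3⟩, h1, h2⟩
  obtain ⟨z, hz, y, hy, hzy⟩ := hX.2.2 2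
  obtain ⟨z', hz', y', hy', hzy'⟩ := hY.2.2 2
  refine three hS gF hF (mlv hb (hfA 0) (Adj.mem hbf).2) (mlv hb' (hfA' 0) (Adj.mem hbf').2)
    (mlv ha2 (fun h => hT.ne d01 h ha0) (hT.sub 1 ha0)) ne3 ne1 ne2 g1 (g2 ne1 t1 t2) h1
    (h2 ne2 t1' t2') ?_ ?_ ?_
  · -- `G` around `f'`
    refine g3 (A 2 ∪ Y) f' y' hy' ?_ ?_ ?_ _ fun c _ => Or.inr (Or.inl rfl)
    · have e1 : Pth S (A 2 ∪ Y) y' z' := Pth.single (Or.inl hy') hzy'.symm (Or.inr hz')
      exact e1.trans ((hY.2.1 z' hz' f' hf').mono Set.subset_union_right)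
    · rw [Set.disjoint_union_left]
      exact ⟨hT.disj 2 0 (by decide), hY.1 0⟩
    · rw [Set.disjoint_union_left, Set.disjoint_union_right, Set.disjoint_union_right]
      exact ⟨⟨(hX.1 2).symm, hT.disj 2 1 (by decide)⟩, hXY.symm, hY.1 1⟩
  · refine h3 (A 2 ∪ X) f y hy ?_ ?_ ?_ _ fun c _ => Or.inr (Or.inl rfl)
    · have e1 : Pth S (A 2 ∪ X) y z := Pth.single (Or.inl hy) hzy.symm (Or.inr hz)
      exact e1.trans ((hX.2.1 z hz f hf).mono Set.subset_union_right)
    · rw [Set.disjoint_union_left]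
      exact ⟨hT.disj 2 0 (by decide), hX.1 0⟩
    · rw [Set.disjoint_union_left, Set.disjoint_union_right, Set.disjoint_union_right]
      exact ⟨⟨(hY.1 2).symm, hT.disj 2 1 (by decide)⟩, hXY, hX.1 1⟩
  · rcases he with h | h
    · exact Or.inr h.2
    · exact Or.inl h.2

/-- the vertices of a centre -/
theorem CtrT.vert (hT : Tr S A) {t : ℂ × ℂ × ℂ} (h : CtrT S A t) : ∃ u v w : ℂ, u ∈ A 0 ∧ v ∈ A 1 ∧
    w ∈ A 2 ∧ (((u, v, w) ∈ delT S ∧ (u, v, w) ∈ rots t) ∨ ((v, u, w) ∈ delT S ∧ (v, u, w) ∈ rots t)) := by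
  obtain ⟨ht, hv⟩ := h
  obtain ⟨x, y, z⟩ := t
  obtain ⟨u, hu, uA⟩ := hv 0
  obtain ⟨v, hv', vA⟩ := hv 1
  obtain ⟨w, hw, wA⟩ := hv 2
  have d01 : u ≠ v := fun h => hT.ne (i := 0) (j := 1) (by decide) uA (h ▸ vA)
  have d02 : u ≠ w := fun h => hT.ne (i := 0) (j := 2) (by decide) uA (h ▸ wA)
  have d12 : v ≠ w := fun h => hT.ne (i := 1) (j := 2) (by decide) vA (h ▸ wA)
  have r1 := rot_mem ht
  have r2 := rot_mem r1
  refine ⟨u, v, w, uA, vA, wA, ?_⟩
  simp only [Vt] at hu hv' hw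
  rcases hu with rfl | rfl | rfl <;> rcases hv' with rfl | rfl | rfl <;>
    rcases hw with rfl | rfl | rfl <;>
    first
    | exact absurd rfl d01
    | exact absurd rfl d02
    | exact absurd rfl d12
    | exact Or.inl ⟨ht, by simp [rots]⟩
    | exact Or.inl ⟨r1, by simp [rots]⟩
    | exact Or.inl ⟨r2, by simp [rots]⟩
    | exact Or.inr ⟨ht, by simp [rots]⟩
    | exact Or.inr ⟨r1, by simp [rots]⟩
    | exact Or.inr ⟨r2, by simp [rots]⟩

/-- branch through an edge -/
theorem br_edge (hT : Tr S A) (hij : i ≠ j) (hjk : j ≠ k) {a0 v : ℂ} (ha0 : a0 ∈ A j)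
    (hv : v ∈ A j) : Pth S (A j) v a0 ∧ A j ⊆ (S : Set ℂ) ∧ Disjoint (A i) (A j) ∧
      Disjoint (A k) (A j) :=
  ⟨hT.con j v hv a0 ha0, hT.sub j, hT.disj i j hij, hT.disj k j (Ne.symm hjk)⟩

/-- index at the hull edge -/
theorem hull_one (hS : GP (S : Set ℂ)) {G : ℂ × ℂ → ZMod 2} (hG : FF S G) {B : Set ℂ}
    {p e : ℂ × ℂ} (hp : p ∈ lv S B) (he : e ∈ lv S B) (hpe : p ≠ e)
    (G1 : ∀ r ∈ lv S B, r ≠ p → r ≠ e → G r + G r.swap = 0) (G2 : G p + G p.swap = 1) :
    G e + G e.swap = 1 := by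
  have h1 := par hS hG B
  rw [← Finset.sum_subset (s₁ := {p, e})] at h1
  · rw [Finset.sum_pair hpe, G2] at h1
    have h2 : ∀ x : ZMod 2, 1 + x = 0 → x = 1 := by decide
    exact h2 _ h1
  · intro r hr
    rcases Finset.mem_insert.1 hr with rfl | hr
    · exact hp
    · rw [Finset.mem_singleton.1 hr]; exact he
  · intro r hr hr'
    simp only [Finset.mem_insert, Finset.mem_singleton, not_or] at hr'
    exact G1 r hr hr'.1 hr'.2

theorem ktx : KTX := by
  intro S A hT t Y ht hY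
  have hS := hT.gp
  obtain ⟨a2, a0, he, ha2, ha0, huniq⟩ := hT.one 0 1 (by decide)
  have d01 : (0 : ZMod 3) ≠ 1 := by decide
  have d02 : (0 : ZMod 3) ≠ 2 := by decide
  have d12 : (1 : ZMod 3) ≠ 2 := by decide
  obtain ⟨u, v, w, hu, hv, hw, htri⟩ := ht.vert hT
  obtain ⟨b', hb', f', hf', hbf', pV', sV', dVi', dVk'⟩ := hY.br hT d01 d12 ha0
  obtain ⟨H, hF, h1, h2, h3⟩ := br_ix hT d02 he ha2 hb' hbf' pV' sV' dVi' dVk'
  have hfA' : ∀ m, f' ∉ A m := fun m h => Set.disjoint_left.1 (hY.1 m) hf' h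
  obtain ⟨n1', n2'⟩ := free_not_hull hT (b := b') hfA'
  obtain ⟨t1', t2'⟩ := both hbf' n1' n2'
  have m0 : a0 ∈ A 1 := ha0
  have ne2 : (b', f') ≠ (a2, a0) := fun h => by
    have h' : f' = a0 := congrArg Prod.snd h
    exact hfA' 1 (h' ▸ m0)
  have mlv : ∀ {b f : ℂ}, b ∈ A 0 → f ∉ A 0 → f ∈ S → (b, f) ∈ lv S (A 0) := by
    intro b f h1 h2 h3
    simp only [lv, Finset.mem_filter, Finset.mem_product]
    exact ⟨⟨hT.sub 0 h1, h3⟩, h1, h2⟩
  have me : (a2, a0) ∈ lv S (A 0) := mlv ha2 (fun h => hT.ne d01 h ha0) (hT.sub 1 ha0)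
  have mq : (b', f') ∈ lv S (A 0) := mlv hb' (hfA' 0) (Adj.mem hbf').2
  have huv : Adj S u v := by
    rcases htri with h | h
    · exact Or.inl ⟨w, h.1⟩
    · exact Or.inr ⟨w, h.1⟩
  have mp : (u, v) ∈ lv S (A 0) := mlv hu (fun h => hT.ne d01 h hv) (hT.sub 1 hv)
  have ne3 : (u, v) ≠ (b', f') := fun h => by
    have h' : v = f' := congrArg Prod.snd h
    exact hfA' 1 (h' ▸ hv)
  have He := hull_one hS hF mq me ne2 h1 (h2 ne2 t1' t2')
  -- `H` vanishes on the triangle
  have Hw : ∀ p : ℂ × ℂ, (∀ c, (p.1, p.2, c) ∈ delT S → Vt (p.1, p.2, c) w) → H p = 0 :=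
    h3 (A 2) w w hw (Pth.refl hw) (hT.disj 2 0 (by decide)) dVk'
  -- one of the two sides of the edge
  have side : ((∀ c, (u, v, c) ∈ delT S → Vt (u, v, c) w)) ∨
      (∀ c, (v, u, c) ∈ delT S → Vt (v, u, c) w) := by
    rcases htri with h | h
    · left
      intro c hc
      rw [(g1 S hS).2.1 _ _ _ _ hc h.1]
      exact Or.inr (Or.inr rfl)
    · right
      intro c hc
      rw [(g1 S hS).2.1 _ _ _ _ hc h.1]
      exact Or.inr (Or.inr rfl)
  by_cases hpe : (u, v) = (a2, a0)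
  · -- the triangle at the hull edge
    obtain ⟨rfl, rfl⟩ := Prod.mk.injEq .. ▸ hpe
    have e1 : H (u, v) = 0 := by
      rcases side with h | h
      · exact Hw _ h
      · rcases he with h' | h'
        · rcases htri with h4 | h4
          · exact Hw _ (fun c hc => by rw [(g1 S hS).2.1 _ _ _ _ hc h4.1]; exact Or.inr (Or.inr rfl))
          · exact absurd h4.1 (h'.2 w)
        · exact hF.2 _ h'.2
    have e2 : H (v, u) = 0 := by
      rcases side with h | h
      · rcases he with h' | h'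
        · exact hF.2 _ h'.2
        · rcases htri with h4 | h4
          · exact absurd h4.1 (h'.2 w)
          · exact Hw _ (fun c hc => by rw [(g1 S hS).2.1 _ _ _ _ hc h4.1]; exact Or.inr (Or.inr rfl))
      · exact Hw _ h
    rw [Prod.swap_prod_mk, e1, e2] at He
    exact absurd He (by decide)
  · have nh : ¬ hullE S u v ∧ ¬ hullE S v u := by
      constructor
      · intro h
        obtain ⟨e1, e2⟩ := huniq u v (Or.inl h) hu hv
        exact hpe (by rw [e1, e2])
      · intro h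
        obtain ⟨e1, e2⟩ := huniq u v (Or.inr h) hu hv
        exact hpe (by rw [e1, e2])
    obtain ⟨t1, t2⟩ := both huv nh.1 nh.2
    obtain ⟨pV, sV, dVi, dVk⟩ := br_edge (i := 0) (k := 2) hT d01 d12 ha0 hv
    obtain ⟨G, gF, g1', g2, g3⟩ := br_ix hT d02 he ha2 hu huv pV sV dVi dVk
    obtain ⟨z', hz', y', hy', hzy'⟩ := hY.2.2 2
    refine three hS gF hF mp mq me ne3 hpe ne2 g1' (g2 hpe t1 t2) h1 (h2 ne2 t1' t2') ?_ ?_ ?_
    · refine g3 (A 2 ∪ Y) f' y' hy' ?_ ?_ ?_ _ fun c _ => Or.inr (Or.inl rfl)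
      · have e1 : Pth S (A 2 ∪ Y) y' z' := Pth.single (Or.inl hy') hzy'.symm (Or.inr hz')
        exact e1.trans ((hY.2.1 z' hz' f' hf').mono Set.subset_union_right)
      · rw [Set.disjoint_union_left]
        exact ⟨hT.disj 2 0 (by decide), hY.1 0⟩
      · rw [Set.disjoint_union_left]
        exact ⟨hT.disj 2 1 (by decide), hY.1 1⟩
    · rcases side with h | h
      · exact Hw _ h
      · have e1 : H (v, u) = 0 := Hw _ h
        have e2 := h1 (u, v) mp ne3 hpe
        rw [Prod.swap_prod_mk, e1, add_zero] at e2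
        exact e2
    · rcases he with h | h
      · exact Or.inr h.2
      · exact Or.inl h.2

/-- a function which vanishes on the triangle `(u, v, w)` or `(v, u, w)` at a hull edge vanishes on
both sides of the edge -/
theorem hull_zero (hS : GP (S : Set ℂ)) {H : ℂ × ℂ → ZMod 2} (hF : FF S H) {u v w : ℂ}
    (he : hullE S u v ∨ hullE S v u) (ht : (u, v, w) ∈ delT S ∨ (v, u, w) ∈ delT S)
    (Hw : ∀ p : ℂ × ℂ, (∀ c, (p.1, p.2, c) ∈ delT S → Vt (p.1, p.2, c) w) → H p = 0) :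
    H (u, v) + H (u, v).swap = 0 := by
  have z : ∀ {a b : ℂ}, (a, b, w) ∈ delT S → H (a, b) = 0 := fun {a b} h =>
    Hw _ (fun c hc => by rw [(g1 S hS).2.1 _ _ _ _ hc h]; exact Or.inr (Or.inr rfl))
  rw [Prod.swap_prod_mk]
  rcases he with h' | h'
  · rcases ht with h4 | h4
    · rw [z h4, hF.2 (v, u) h'.2, zero_add]
    · exact absurd h4 (h'.2 w)
  · rcases ht with h4 | h4
    · exact absurd h4 (h'.2 w)
    · rw [z h4, hF.2 (u, v) h'.2, zero_add]

theorem rots_trans {t t' r : ℂ × ℂ × ℂ} (h : r ∈ rots t) (h' : r ∈ rots t') : t' ∈ rots t := by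
  obtain ⟨a, b, c⟩ := t
  obtain ⟨a', b', c'⟩ := t'
  simp only [rots, Set.mem_insert_iff, Set.mem_singleton_iff] at h h' ⊢
  rcases h with rfl | rfl | rfl <;> simp only [Prod.mk.injEq] at h' ⊢ <;>
    rcases h' with ⟨rfl, rfl, rfl⟩ | ⟨rfl, rfl, rfl⟩ | ⟨rfl, rfl, rfl⟩ <;> simp

theorem ktt : KTT := by
  intro S A hT t t' ht ht'
  have hS := hT.gp
  obtain ⟨a2, a0, he, ha2, ha0, huniq⟩ := hT.one 0 1 (by decide)
  have d01 : (0 : ZMod 3) ≠ 1 := by decide
  have d02 : (0 : ZMod 3) ≠ 2 := by decide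
  have d12 : (1 : ZMod 3) ≠ 2 := by decide
  obtain ⟨u, v, w, hu, hv, hw, htri⟩ := ht.vert hT
  obtain ⟨u', v', w', hu', hv', hw', htri'⟩ := ht'.vert hT
  have mlv : ∀ {b f : ℂ}, b ∈ A 0 → f ∈ A 1 → (b, f) ∈ lv S (A 0) := by
    intro b f h1 h2
    simp only [lv, Finset.mem_filter, Finset.mem_product]
    exact ⟨⟨hT.sub 0 h1, hT.sub 1 h2⟩, h1, fun h => hT.ne d01 h h2⟩
  have me : (a2, a0) ∈ lv S (A 0) := mlv ha2 ha0
  have tri : ∀ {u v w : ℂ} {t : ℂ × ℂ × ℂ}, (((u, v, w) ∈ delT S ∧ (u, v, w) ∈ rots t) ∨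
      ((v, u, w) ∈ delT S ∧ (v, u, w) ∈ rots t)) → (u, v, w) ∈ delT S ∨ (v, u, w) ∈ delT S := by
    intro u v w t h
    rcases h with h | h
    · exact Or.inl h.1
    · exact Or.inr h.1
  -- the index of an edge off the hull edge
  have key : ∀ {u v w : ℂ}, u ∈ A 0 → v ∈ A 1 → ((u, v, w) ∈ delT S ∨ (v, u, w) ∈ delT S) →
      (u, v) ≠ (a2, a0) → ∃ G : ℂ × ℂ → ZMod 2, FF S G ∧
      (∀ r ∈ lv S (A 0), r ≠ (u, v) → r ≠ (a2, a0) → G r + G r.swap = 0) ∧
      G (u, v) + G (u, v).swap = 1 ∧ (∃ c, (u, v, c) ∈ delT S) ∧ (∃ c, (v, u, c) ∈ delT S) ∧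
      ∀ w' ∈ A 2, ∀ p : ℂ × ℂ, (∀ c, (p.1, p.2, c) ∈ delT S → Vt (p.1, p.2, c) w') → G p = 0 := by
    intro u v w hu hv h hne
    have huv : Adj S u v := by
      rcases h with h | h
      · exact Or.inl ⟨w, h⟩
      · exact Or.inr ⟨w, h⟩
    have nh : ¬ hullE S u v ∧ ¬ hullE S v u := by
      constructor
      · intro h
        obtain ⟨e1, e2⟩ := huniq u v (Or.inl h) hu hv
        exact hne (by rw [e1, e2])
      · intro h
        obtain ⟨e1, e2⟩ := huniq u v (Or.inr h) hu hv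
        exact hne (by rw [e1, e2])
    obtain ⟨t1, t2⟩ := both huv nh.1 nh.2
    obtain ⟨pV, sV, dVi, dVk⟩ := br_edge (i := 0) (k := 2) hT d01 d12 ha0 hv
    obtain ⟨G, gF, g1', g2, g3⟩ := br_ix hT d02 he ha2 hu huv pV sV dVi dVk
    exact ⟨G, gF, g1', g2 hne t1 t2, t1, t2, fun w' hw' =>
      g3 (A 2) w' w' hw' (Pth.refl hw') (hT.disj 2 0 (by decide)) dVk⟩
  -- the value on a triangle
  have val : ∀ {G : ℂ × ℂ → ZMod 2} {w' : ℂ}, (∀ p : ℂ × ℂ,
      (∀ c, (p.1, p.2, c) ∈ delT S → Vt (p.1, p.2, c) w') → G p = 0) → ∀ {a b : ℂ},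
      (a, b, w') ∈ delT S → G (a, b) = 0 := by
    intro G w' hz a b h
    exact hz _ (fun c hc => by rw [(g1 S hS).2.1 _ _ _ _ hc h]; exact Or.inr (Or.inr rfl))
  by_cases hp : (u, v) = (u', v')
  · -- the same edge
    obtain ⟨rfl, rfl⟩ := Prod.mk.injEq .. ▸ hp
    rcases htri with h | h <;> rcases htri' with h' | h'
    · have : w' = w := (g1 S hS).2.1 _ _ _ _ h'.1 h.1
      subst this
      exact rots_trans h.2 h'.2
    · exfalso
      by_cases hpe : (u, v) = (a2, a0)
      · obtain ⟨rfl, rfl⟩ := Prod.mk.injEq .. ▸ hpe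
        rcases he with h2 | h2
        · exact h2.2 _ h'.1
        · exact h2.2 _ h.1
      · obtain ⟨G, gF, g1', g2, -, -, g3⟩ := key hu hv (Or.inl h.1) hpe
        rw [Prod.swap_prod_mk, val (g3 w hw) h.1, val (g3 w' hw') h'.1] at g2
        exact absurd g2 (by decide)
    · exfalso
      by_cases hpe : (u, v) = (a2, a0)
      · obtain ⟨rfl, rfl⟩ := Prod.mk.injEq .. ▸ hpe
        rcases he with h2 | h2
        · exact h2.2 _ h.1
        · exact h2.2 _ h'.1
      · obtain ⟨G, gF, g1', g2, -, -, g3⟩ := key hu hv (Or.inr h.1) hpe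
        rw [Prod.swap_prod_mk, val (g3 w hw) h.1, val (g3 w' hw') h'.1] at g2
        exact absurd g2 (by decide)
    · have : w' = w := (g1 S hS).2.1 _ _ _ _ h'.1 h.1
      subst this
      exact rots_trans h.2 h'.2
  · exfalso
    by_cases hpe : (u, v) = (a2, a0)
    · have hpe' : (u', v') ≠ (a2, a0) := fun h => hp (hpe.trans h.symm)
      obtain ⟨H, hF, h1, h2, -, -, h3⟩ := key hu' hv' (tri htri') hpe'
      have e1 := hull_one hS hF (mlv hu' hv') me hpe' h1 h2
      obtain ⟨rfl, rfl⟩ := Prod.mk.injEq .. ▸ hpe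
      have e2 := hull_zero hS hF he (tri htri) (h3 w hw)
      rw [e2] at e1
      exact absurd e1 (by decide)
    · by_cases hpe' : (u', v') = (a2, a0)
      · obtain ⟨H, hF, h1, h2, -, -, h3⟩ := key hu hv (tri htri) hpe
        have e1 := hull_one hS hF (mlv hu hv) me hpe h1 h2
        obtain ⟨rfl, rfl⟩ := Prod.mk.injEq .. ▸ hpe'
        have e2 := hull_zero hS hF he (tri htri') (h3 w' hw')
        rw [e2] at e1
        exact absurd e1 (by decide)
      · obtain ⟨G, gF, g1', g2, t1, t2, g3⟩ := key hu hv (tri htri) hpe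
        obtain ⟨H, hF, h1, h2, t1', t2', h3⟩ := key hu' hv' (tri htri') hpe'
        have side : ∀ {G : ℂ × ℂ → ZMod 2} {u v w : ℂ}, ((u, v, w) ∈ delT S ∨ (v, u, w) ∈ delT S) →
            (∀ p : ℂ × ℂ, (∀ c, (p.1, p.2, c) ∈ delT S → Vt (p.1, p.2, c) w) → G p = 0) →
            G (u, v) + G (u, v).swap = 0 → G (u, v) = 0 := by
          intro G u v w h hz h0
          rcases h with h | h
          · exact val hz h
          · rw [Prod.swap_prod_mk, val hz h, add_zero] at h0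
            exact h0
        refine three hS gF hF (mlv hu hv) (mlv hu' hv') me hp hpe hpe' g1' g2 h1 h2 ?_ ?_ ?_
        · exact side (tri htri') (g3 w' hw') (g1' _ (mlv hu' hv') (Ne.symm hp) hpe')
        · exact side (tri htri) (h3 w hw) (h1 _ (mlv hu hv) hp hpe)
        · rcases he with h | h
          · exact Or.inr h.2
          · exact Or.inl h.2

end k33

end Crest.Agent.R143.K33x877
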