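import Crest.Agent.R143.NetU_346
import Crest.Agent.R143.K33_877
import Crest.Agent.R143.Appl1_359

/-!
# Row 143 (S0194), CONT (K8'): the static `T` is local (helper277)

`X` = a connected set of free sites which is adjacent to the three giants (`CtrX`) and closed (all its
other neighbours are in the giants).

* `K3 S A` : K33 for (triangle, set) and (set, set); `k3_tr` : it holds for `Tr S A`
* `Lo S A X S' A'` : the nets `(S, A)` and `(S', A')` have the same triangles at `X` and the same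
  labels at the neighbours of `X`; `Lo.refl`, `Lo.symm`
* `near` : the hit triple has a vertex in `X`, its other vertices are in `X` or in the giants
* `hitO_loc` : **the same hit triples**
* `exC_inter` : mean of a function of `T ∩ X`
* `TS_loc` : **`TS S A z = TS S' A' z`** ; `TS_same` : the same sites and free sites
* `TS_small` : no centre `X` : `‖TS S A z‖ ≤ 6 r`, `r` = maximum of `‖z a - z b‖` over the edges
-/

set_option autoImplicit false

noncomputable section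

open scoped Classical

namespace Crest.Agent.R143.Loc8x277

open Crest.Agent.R143.B0x346 Crest.Agent.R143.DelGx806 Crest.Agent.R143.DelRx806
open Crest.Agent.R143.JColx54 (Adj adj_tri adj_tri' adj_tri'')
open Crest.Agent.R143.RE0x723 (Pth Pth.refl Pth.snd Pth.trans Pth.tail Pth.single Pth.symm Pth.mono
  Pth.ind Pth.self)
open Crest.Agent.R143.K33x877
open Crest.Agent.R143.RB2x54 (Vt)
open Crest.Agent.R143.NetUx346

variable {S S' : Finset ℂ} {A A' : ZMod 3 → Set ℂ} {X : Set ℂ} {i m : ZMod 3}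

/-- K33 -/
structure K3 (S : Finset ℂ) (A : ZMod 3 → Set ℂ) : Prop where
  gp : GP (S : Set ℂ)
  tx : ∀ t X, CtrT S A t → ¬ CtrX S A X
  xx : ∀ X Y, CtrX S A X → CtrX S A Y → ¬ Disjoint X Y

theorem k3_tr (h : Tr S A) : K3 S A :=
  ⟨h.gp, fun t X => ktx S A h t X, fun X Y => kxx S A h X Y⟩

/-- the nets `(S, A)` and `(S', A')` coincide at `X` -/
structure Lo (S : Finset ℂ) (A : ZMod 3 → Set ℂ) (X : Set ℂ) (S' : Finset ℂ)
    (A' : ZMod 3 → Set ℂ) : Prop where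
  ctr : CtrX S A X
  cl : ∀ x ∈ X, ∀ v, Adj S x v → v ∈ X ∨ ∃ i, v ∈ A i
  tri : ∀ t, (∃ v, Vt t v ∧ v ∈ X) → (t ∈ delT S ↔ t ∈ delT S')
  lab : ∀ x ∈ X, ∀ v, Adj S x v → ∀ i, (v ∈ A i ↔ v ∈ A' i)
  dis : ∀ i, Disjoint X (A' i)

theorem Lo.adj (h : Lo S A X S' A') {x v : ℂ} (hx : x ∈ X) : Adj S x v ↔ Adj S' x v := by
  constructor
  · rintro (⟨c, hc⟩ | ⟨c, hc⟩)
    · exact Or.inl ⟨c, (h.tri _ ⟨x, Or.inl rfl, hx⟩).1 hc⟩
    · exact Or.inr ⟨c, (h.tri _ ⟨x, Or.inr (Or.inl rfl), hx⟩).1 hc⟩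
  · rintro (⟨c, hc⟩ | ⟨c, hc⟩)
    · exact Or.inl ⟨c, (h.tri _ ⟨x, Or.inl rfl, hx⟩).2 hc⟩
    · exact Or.inr ⟨c, (h.tri _ ⟨x, Or.inr (Or.inl rfl), hx⟩).2 hc⟩

/-- a site of a centre is a site -/
theorem ctr_sub (h : CtrX S A X) : X ⊆ (S : Set ℂ) := by
  intro x hx
  obtain ⟨y, hy, w, -, hyw⟩ := h.2.2 0
  rcases Relation.ReflTransGen.cases_head (h.2.1 x hx y hy).2 with e | ⟨c, hc, -⟩
  · rw [e]; exact (Adj.mem hyw).1
  · exact (Adj.mem hc.1).1

theorem Lo.refl (h : CtrX S A X) (hcl : ∀ x ∈ X, ∀ v, Adj S x v → v ∈ X ∨ ∃ i, v ∈ A i) :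
    Lo S A X S A :=
  ⟨h, hcl, fun _ _ => Iff.rfl, fun _ _ _ _ _ => Iff.rfl, h.1⟩

theorem Lo.symm (h : Lo S A X S' A') : Lo S' A' X S A where
  ctr := by
    refine ⟨h.dis, ?_, ?_⟩
    · intro x hx y hy
      obtain ⟨h1, h2⟩ := h.ctr.2.1 x hx y hy
      refine ⟨h1, ?_⟩
      have key : ∀ y, Relation.ReflTransGen (fun a b => Adj S a b ∧ b ∈ X) x y →
          y ∈ X ∧ Relation.ReflTransGen (fun a b => Adj S' a b ∧ b ∈ X) x y := by
        intro y hy
        induction hy with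
        | refl => exact ⟨h1, Relation.ReflTransGen.refl⟩
        | tail _ h3 ih => exact ⟨h3.2, ih.2.tail ⟨(h.adj ih.1).1 h3.1, h3.2⟩⟩
      exact (key y h2).2
    · intro i
      obtain ⟨x, hx, y, hy, hxy⟩ := h.ctr.2.2 i
      exact ⟨x, hx, y, (h.lab x hx y hxy i).1 hy, (h.adj hx).1 hxy⟩
  cl := by
    intro x hx v hv
    have hv' := (h.adj hx).2 hv
    rcases h.cl x hx v hv' with h1 | ⟨i, h1⟩
    · exact Or.inl h1
    · exact Or.inr ⟨i, (h.lab x hx v hv' i).1 h1⟩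
  tri := fun t ht => (h.tri t ht).symm
  lab := fun x hx v hv i => (h.lab x hx v ((h.adj hx).2 hv) i).symm
  dis := h.ctr.1

/-! ### the hit triple is near `X` -/

/-- the last site of a chain in `B` -/
theorem clu_out {F B : Set ℂ} {b : ℂ} (h : b ∈ Clu S F B) :
    b ∈ B ∨ (b ∈ F ∧ ∃ a ∈ B, ∃ c, Adj S a c ∧ Pth S F c b) := by
  obtain ⟨x, hx, hp⟩ := h
  refine hp.ind (P := fun b => b ∈ B ∨ (b ∈ F ∧ ∃ a ∈ B, ∃ c, Adj S a c ∧ Pth S F c b))
    (Or.inl hx) ?_
  intro a b ha hb hab ih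
  by_cases hbB : b ∈ B
  · exact Or.inl hbB
  · have hbF : b ∈ F := hb.resolve_right hbB
    right
    refine ⟨hbF, ?_⟩
    rcases ih with h1 | ⟨h1, a', ha', c, hc, hp⟩
    · exact ⟨a, h1, b, hab, Pth.refl hbF⟩
    · exact ⟨a', ha', c, hc, hp.tail hab hbF⟩

theorem clu_in {F B : Set ℂ} {b : ℂ} (h : b ∈ B) : b ∈ Clu S F B := ⟨b, h, Pth.refl (Or.inr h)⟩

/-- the free component of `b` -/
def Cp (S : Finset ℂ) (A : ZMod 3 → Set ℂ) (b : ℂ) : Set ℂ := {y | Pth S (fr S A) b y}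

theorem cp_ctr {b : ℂ} (h : ∀ i, ∃ x ∈ Cp S A b, ∃ y ∈ A i, Adj S x y) : CtrX S A (Cp S A b) := by
  refine ⟨?_, ?_, h⟩
  · intro i
    rw [Set.disjoint_left]
    intro v hv hvi
    exact (Pth.snd hv).2 i hvi
  · intro x hx y hy
    have h1 : Pth S (fr S A) x y := (Pth.symm hx).trans hy
    refine (Pth.self h1).mono ?_
    rintro v ⟨-, hv⟩
    exact Pth.trans hy hv.symm

/-- `X` is closed along free sites -/
theorem cl_path (hcl : ∀ x ∈ X, ∀ v, Adj S x v → v ∈ X ∨ ∃ i, v ∈ A i) {x y : ℂ} (hx : x ∈ X)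
    (h : Pth S (fr S A) x y) : y ∈ X := by
  refine h.ind (P := fun y => y ∈ X) hx ?_
  intro a b _ hb hab ha
  rcases hcl a ha b hab with h1 | ⟨i, h1⟩
  · exact h1
  · exact absurd h1 (hb.2 i)

theorem z3 : ∀ i k : ZMod 3, k = i ∨ k = i + 1 ∨ k = i + 2 := by decide

theorem z3n : ∀ i : ZMod 3, i ≠ i + 1 ∧ i ≠ i + 2 ∧ i + 1 ≠ i + 2 := by decide

/-- the hit triple either consists of sites of the giants, or one of the free components of its
vertices is a centre -/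
theorem hit_cases (hS : GP (S : Set ℂ)) {T : Set ℂ} {t : ℂ × ℂ × ℂ} (h : HitO S A i T t) :
    CtrT S A t ∨ (t.2.1 ∈ fr S A ∧ CtrX S A (Cp S A t.2.1) ∧
      (t.2.2 ∈ A (i + 2) ∨ t.2.2 ∈ fr S A)) ∨
    (t.2.2 ∈ fr S A ∧ CtrX S A (Cp S A t.2.2) ∧ t.2.1 ∈ A (i + 1)) := by
  obtain ⟨u, b, v⟩ := t
  obtain ⟨h1, h2, h3, h4⟩ := h
  simp only at h2 h3 h4 ⊢
  have aub : Adj S u b := adj_tri h1
  have abv : Adj S b v := adj_tri' hS h1
  have avu : Adj S v u := adj_tri'' hS h1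
  rcases clu_out h3 with hb | ⟨hb, a, ha, c, hac, hp⟩
  · rcases clu_out h4 with hv | ⟨hv, a, ha, c, hac, hp⟩
    · left
      refine ⟨h1, fun k => ?_⟩
      rcases z3 i k with rfl | rfl | rfl
      · exact ⟨u, Or.inl rfl, h2⟩
      · exact ⟨b, Or.inr (Or.inl rfl), hb⟩
      · exact ⟨v, Or.inr (Or.inr rfl), hv⟩
    · right; right
      refine ⟨hv.1, cp_ctr fun k => ?_, hb⟩
      have vv : v ∈ Cp S A v := Pth.refl hv.1
      rcases z3 i k with rfl | rfl | rfl
      · exact ⟨v, vv, u, h2, avu⟩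
      · exact ⟨v, vv, b, hb, abv.symm⟩
      · exact ⟨c, (hp.mono Set.sdiff_subset).symm, a, ha, hac.symm⟩
  · right; left
    have bb : b ∈ Cp S A b := Pth.refl hb.1
    rcases clu_out h4 with hv | ⟨hv, a', ha', c', hac', hp'⟩
    · refine ⟨hb.1, cp_ctr fun k => ?_, Or.inl hv⟩
      rcases z3 i k with rfl | rfl | rfl
      · exact ⟨b, bb, u, h2, aub.symm⟩
      · exact ⟨c, (hp.mono Set.inter_subset_left).symm, a, ha, hac.symm⟩
      · exact ⟨b, bb, v, hv, abv⟩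
    · refine ⟨hb.1, cp_ctr fun k => ?_, Or.inr hv.1⟩
      rcases z3 i k with rfl | rfl | rfl
      · exact ⟨b, bb, u, h2, aub.symm⟩
      · exact ⟨c, (hp.mono Set.inter_subset_left).symm, a, ha, hac.symm⟩
      · refine ⟨c', ?_, a', ha', hac'.symm⟩
        exact (Pth.single hb.1 abv hv.1).trans (hp'.mono Set.sdiff_subset).symm

/-- **the hit triple is near `X`** -/
theorem near (K : K3 S A) (hX : CtrX S A X)
    (hcl : ∀ x ∈ X, ∀ v, Adj S x v → v ∈ X ∨ ∃ i, v ∈ A i) {T : Set ℂ} {t : ℂ × ℂ × ℂ}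
    (h : HitO S A i T t) : (t.2.1 ∈ X ∨ t.2.1 ∈ A (i + 1)) ∧ (t.2.2 ∈ X ∨ t.2.2 ∈ A (i + 2)) ∧
      (t.2.1 ∈ X ∨ t.2.2 ∈ X) := by
  have hS := K.gp
  have key : ∀ b, CtrX S A (Cp S A b) → b ∈ X := by
    intro b hb
    have h1 := K.xx _ _ hb hX
    rw [Set.not_disjoint_iff] at h1
    obtain ⟨z, hz, hzX⟩ := h1
    exact cl_path hcl hzX (Pth.symm hz)
  rcases hit_cases hS h with h1 | ⟨hb, h1, hv⟩ | ⟨hv, h1, hb⟩
  · exact absurd hX (K.tx t X h1)
  · have bX := key _ h1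
    refine ⟨Or.inl bX, ?_, Or.inl bX⟩
    rcases hv with hv | hv
    · exact Or.inr hv
    · left
      refine cl_path hcl bX (Pth.single hb ?_ hv)
      exact adj_tri' hS (show (t.1, t.2.1, t.2.2) ∈ delT S from h.1)
  · have vX := key _ h1
    exact ⟨Or.inr hb, Or.inl vX, Or.inr vX⟩

/-! ### the same hit triples -/

theorem Lo.mem (h : Lo S A X S' A') {x : ℂ} (hx : x ∈ X) : x ∈ S' := ctr_sub h.symm.ctr hx

theorem Lo.free (h : Lo S A X S' A') {x : ℂ} (hx : x ∈ X) : x ∈ fr S' A' :=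
  ⟨h.mem hx, fun i hi => Set.disjoint_left.1 (h.dis i) hx hi⟩

/-- clusters -/
theorem Lo.clu (h : Lo S A X S' A') {Q Q' : Set ℂ} (hQ : ∀ x ∈ X, x ∈ Q → x ∈ Q') {b : ℂ}
    (hb : b ∈ Clu S (fr S A ∩ Q) (A m)) (hbX : b ∈ X) : b ∈ Clu S' (fr S' A' ∩ Q') (A' m) := by
  obtain ⟨x, hx, hp⟩ := hb
  refine hp.ind (P := fun y => y ∈ X → y ∈ Clu S' (fr S' A' ∩ Q') (A' m)) ?_ ?_ hbX
  · intro hxX
    exact absurd hx (Set.disjoint_left.1 (h.ctr.1 m) hxX)
  · intro a b ha hb hab ih hbX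
    have hbQ : b ∈ fr S A ∩ Q := hb.resolve_right (Set.disjoint_left.1 (h.ctr.1 m) hbX)
    have hb' : b ∈ fr S' A' ∩ Q' := ⟨h.free hbX, hQ b hbX hbQ.2⟩
    have hab' : Adj S' a b := ((h.adj hbX).1 hab.symm).symm
    rcases ha with ha | ha
    · have haX : a ∈ X := by
        rcases h.cl b hbX a hab.symm with h1 | ⟨j, h1⟩
        · exact h1
        · exact absurd h1 (ha.1.2 j)
      obtain ⟨y, hy, hp'⟩ := ih haX
      exact ⟨y, hy, hp'.tail hab' (Or.inl hb')⟩
    · have ha' : a ∈ A' m := (h.lab b hbX a hab.symm m).1 ha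
      exact ⟨a, ha', Pth.single (Or.inr ha') hab' (Or.inl hb')⟩

/-- **the same hit triples** -/
theorem hitO_loc (K : K3 S A) (h : Lo S A X S' A') {T T' : Set ℂ} (hT : ∀ x ∈ X, (x ∈ T ↔ x ∈ T'))
    {t : ℂ × ℂ × ℂ} (ht : HitO S A i T t) : HitO S' A' i T' t := by
  obtain ⟨n1, n2, n3⟩ := near K h.ctr h.cl ht
  obtain ⟨u, b, v⟩ := t
  obtain ⟨h1, h2, h3, h4⟩ := ht
  simp only at h2 h3 h4 n1 n2 n3
  have hS := K.gp
  have aub : Adj S u b := adj_tri h1
  have abv : Adj S b v := adj_tri' hS h1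
  have avu : Adj S v u := adj_tri'' hS h1
  refine ⟨?_, ?_, ?_, ?_⟩
  · refine (h.tri _ ?_).1 h1
    rcases n3 with hX | hX
    · exact ⟨b, Or.inr (Or.inl rfl), hX⟩
    · exact ⟨v, Or.inr (Or.inr rfl), hX⟩
  · show u ∈ A' i
    rcases n3 with hX | hX
    · exact (h.lab b hX u aub.symm i).1 h2
    · exact (h.lab v hX u avu i).1 h2
  · show b ∈ Clu S' (fr S' A' ∩ T') (A' (i + 1))
    rcases n1 with hb | hb
    · exact h.clu (fun x hx => (hT x hx).1) h3 hb
    · have vX : v ∈ X := n3.resolve_left fun hbX => Set.disjoint_left.1 (h.ctr.1 _) hbX hb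
      exact clu_in ((h.lab v vX b abv.symm (i + 1)).1 hb)
  · show v ∈ Clu S' (fr S' A' \ T') (A' (i + 2))
    rcases n2 with hv | hv
    · rw [Set.sdiff_eq] at h4 ⊢
      refine h.clu (Q := Tᶜ) (Q' := T'ᶜ) (fun x hx h5 => ?_) h4 hv
      exact fun h6 => h5 ((hT x hx).2 h6)
    · have bX : b ∈ X := n3.resolve_right fun hvX => Set.disjoint_left.1 (h.ctr.1 _) hvX hv
      exact clu_in ((h.lab b bX v abv (i + 2)).1 hv)

theorem hitO_iff_loc (K : K3 S A) (K' : K3 S' A') (h : Lo S A X S' A') {T T' : Set ℂ}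
    (hT : ∀ x ∈ X, (x ∈ T ↔ x ∈ T')) {t : ℂ × ℂ × ℂ} : HitO S A i T t ↔ HitO S' A' i T' t :=
  ⟨hitO_loc K h hT, hitO_loc K' h.symm fun x hx => (hT x hx).symm⟩

/-! ### means -/

/-- mean of a function of `T ∩ X` -/
theorem exC_inter {V X : Finset ℂ} (hXV : X ⊆ V) {f g : Finset ℂ → ℂ}
    (h : ∀ T ⊆ V, f T = g (T ∩ X)) : exC V f = exC X g := by
  unfold exC
  have e1 : ∑ T ∈ V.powerset, f T = ∑ p ∈ X.powerset ×ˢ (V \ X).powerset, g p.1 := by
    refine Finset.sum_nbij' (fun T => (T ∩ X, T \ X)) (fun p => p.1 ∪ p.2) ?_ ?_ ?_ ?_ ?_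
    · intro T hT
      rw [Finset.mem_powerset] at hT
      rw [Finset.mem_product, Finset.mem_powerset, Finset.mem_powerset]
      exact ⟨Finset.inter_subset_right, Finset.sdiff_subset_sdiff hT subset_rfl⟩
    · intro p hp
      rw [Finset.mem_product, Finset.mem_powerset, Finset.mem_powerset] at hp
      rw [Finset.mem_powerset]
      exact Finset.union_subset (hp.1.trans hXV) (hp.2.trans Finset.sdiff_subset)
    · intro T _
      show T ∩ X ∪ T \ X = T
      ext x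
      simp only [Finset.mem_union, Finset.mem_inter, Finset.mem_sdiff]
      tauto
    · intro p hp
      rw [Finset.mem_product, Finset.mem_powerset, Finset.mem_powerset] at hp
      refine Prod.ext ?_ ?_
      · show (p.1 ∪ p.2) ∩ X = p.1
        ext x
        simp only [Finset.mem_union, Finset.mem_inter]
        constructor
        · rintro ⟨h1 | h1, h2⟩
          · exact h1
          · exact absurd h2 (Finset.mem_sdiff.1 (hp.2 h1)).2
        · exact fun h1 => ⟨Or.inl h1, hp.1 h1⟩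
      · show (p.1 ∪ p.2) \ X = p.2
        ext x
        simp only [Finset.mem_union, Finset.mem_sdiff]
        constructor
        · rintro ⟨h1 | h1, h2⟩
          · exact absurd (hp.1 h1) h2
          · exact h1
        · exact fun h1 => ⟨Or.inr h1, (Finset.mem_sdiff.1 (hp.2 h1)).2⟩
    · intro T hT
      exact h T (Finset.mem_powerset.1 hT)
  rw [e1, Finset.sum_product]
  simp only [Finset.sum_const, Finset.card_powerset, nsmul_eq_mul]
  rw [← Finset.mul_sum]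
  have hc : V.card = (V \ X).card + X.card := by
    rw [Finset.card_sdiff_add_card_eq_card hXV]
  rw [hc, pow_add]
  push_cast
  rw [mul_div_mul_left _ _ (pow_ne_zero _ two_ne_zero)]

/-- `X` as a finite set -/
def xf (S : Finset ℂ) (X : Set ℂ) : Finset ℂ := S.filter fun v => v ∈ X

theorem mem_xf (h : CtrX S A X) {v : ℂ} : v ∈ xf S X ↔ v ∈ X := by
  unfold xf
  rw [Finset.mem_filter]
  exact ⟨fun h => h.2, fun hv => ⟨by exact_mod_cast ctr_sub h hv, hv⟩⟩

theorem xf_eq (h : Lo S A X S' A') : xf S X = xf S' X := by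
  ext v
  rw [mem_xf h.ctr, mem_xf h.symm.ctr]

theorem xf_sub (h : CtrX S A X) : xf S X ⊆ ff S A := by
  intro v hv
  have h1 := (mem_xf h).1 hv
  rw [mem_ff]
  exact ⟨by exact_mod_cast ctr_sub h h1, fun i hi => Set.disjoint_left.1 (h.1 i) h1 hi⟩

/-- the mean only looks at `X` -/
theorem Ey_xf (K : K3 S A) (hX : CtrX S A X)
    (hcl : ∀ x ∈ X, ∀ v, Adj S x v → v ∈ X ∨ ∃ i, v ∈ A i) (z : ℂ → ℂ) (i : ZMod 3) :
    Ey S A z i = exC (xf S X) fun T => ∑ t ∈ hits S A i (T : Set ℂ), z t.1 := by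
  unfold Ey
  refine exC_inter (xf_sub hX) fun T _ => ?_
  have e : hits S A i (T : Set ℂ) = hits S A i ((T ∩ xf S X : Finset ℂ) : Set ℂ) := by
    ext t
    rw [mem_hits, mem_hits]
    refine hitO_iff_loc K K (Lo.refl hX hcl) fun x hx => ?_
    rw [Finset.mem_coe, Finset.mem_coe, Finset.mem_inter]
    exact ⟨fun h => ⟨h, (mem_xf hX).2 hx⟩, fun h => h.1⟩
  show ∑ t ∈ hits S A i (T : Set ℂ), z t.1 =
    ∑ t ∈ hits S A i ((T ∩ xf S X : Finset ℂ) : Set ℂ), z t.1
  rw [e]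

/-- **the static `T` is local** -/
theorem TS_loc (K : K3 S A) (K' : K3 S' A') (h : Lo S A X S' A') (z : ℂ → ℂ) :
    TS S A z = TS S' A' z := by
  unfold TS
  congr 1
  refine Finset.sum_congr rfl fun i _ => ?_
  congr 1
  rw [Ey_xf K h.ctr h.cl, Ey_xf K' h.symm.ctr h.symm.cl, ← xf_eq h]
  unfold exC
  congr 1
  refine Finset.sum_congr rfl fun T _ => ?_
  have e : hits S A i (T : Set ℂ) = hits S' A' i (T : Set ℂ) := by
    ext t
    rw [mem_hits, mem_hits]
    exact hitO_iff_loc K K' h fun x _ => Iff.rfl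
  show ∑ t ∈ hits S A i (T : Set ℂ), z t.1 = ∑ t ∈ hits S' A' i (T : Set ℂ), z t.1
  rw [e]

/-! ### the same sites, the same free sites -/

/-- the free component of a centre -/
theorem ctr_cp (hX : CtrX S A X) {x : ℂ} (hx : x ∈ X) : CtrX S A (Cp S A x) := by
  refine cp_ctr fun i => ?_
  obtain ⟨y, hy, w, hw, hyw⟩ := hX.2.2 i
  refine ⟨y, ?_, w, hw, hyw⟩
  refine (hX.2.1 x hx y hy).mono fun v hv => ⟨by exact_mod_cast ctr_sub hX hv, fun j hj => ?_⟩
  exact Set.disjoint_left.1 (hX.1 j) hv hj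

theorem cp_cl {b : ℂ} : ∀ x ∈ Cp S A b, ∀ v, Adj S x v → v ∈ Cp S A b ∨ ∃ i, v ∈ A i := by
  intro x hx v hxv
  by_cases hv : ∃ i, v ∈ A i
  · exact Or.inr hv
  · push Not at hv
    exact Or.inl (Pth.tail hx hxv ⟨(Adj.mem hxv).2, hv⟩)

/-- **(K8')** the same free sites and the same labels next to the free sites, a centre of free sites:
the same `T` -/
theorem TS_same (K : K3 S A) (K' : K3 S A') (hf : fr S A = fr S A')
    (hl : ∀ x ∈ fr S A, ∀ v, Adj S x v → ∀ i, (v ∈ A i ↔ v ∈ A' i)) (hX : CtrX S A X) (z : ℂ → ℂ) :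
    TS S A z = TS S A' z := by
  obtain ⟨x, hx, -⟩ := hX.2.2 0
  refine TS_loc K K' (X := Cp S A x) ?_ z
  have hsub : ∀ v ∈ Cp S A x, v ∈ fr S A := fun v hv => Pth.snd hv
  refine ⟨ctr_cp hX hx, cp_cl, fun _ _ => Iff.rfl, fun v hv => hl v (hsub v hv), fun i => ?_⟩
  rw [Set.disjoint_left]
  intro v hv hi
  have h1 := hsub v hv
  rw [hf] at h1
  exact h1.2 i hi

/-! ### no centre of free sites -/

/-- **no centre of free sites**: the end points are the vertices of one triangle -/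
theorem TS_small (hS : GP (S : Set ℂ)) (hd : ∀ i j, i ≠ j → Disjoint (A i) (A j)) (hX : Hex S A)
    (htt : ∀ t t', CtrT S A t → CtrT S A t' → t' ∈ rots t) (hn : ∀ X, ¬ CtrX S A X) {z : ℂ → ℂ}
    {r : ℝ} (hr : ∀ a b, Adj S a b → ‖z a - z b‖ ≤ r) : ‖TS S A z‖ ≤ 6 * r := by
  have key : ∀ (i : ZMod 3) (T : Set ℂ) (t : ℂ × ℂ × ℂ), HitO S A i T t → CtrT S A t := by
    intro i T t h
    rcases hit_cases hS h with h1 | ⟨-, h1, -⟩ | ⟨-, h1, -⟩
    · exact h1
    · exact absurd h1 (hn _)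
    · exact absurd h1 (hn _)
  obtain ⟨t0, ht0, -⟩ := hX 0 ∅ (Finset.empty_subset _)
  have c0 := key _ _ _ ht0
  obtain ⟨u0, b0, v0⟩ := t0
  have k0 := c0.2
  -- the vertex in every giant
  choose y hy1 hy2 using k0
  have hy : ∀ (i : ZMod 3) (T : Finset ℂ), T ⊆ ff S A → ∃ b v, HitO S A i (T : Set ℂ) (y i, b, v) := by
    intro i T hT
    obtain ⟨⟨u, b, v⟩, ht, -⟩ := hX i T hT
    have h1 := htt _ _ c0 (key _ _ _ ht)
    have hu : u ∈ A i := ht.2.1
    have e : u = y i := by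
      have h2 : Vt (u0, b0, v0) u := by
        simp only [rots, Set.mem_insert_iff, Set.mem_singleton_iff, Prod.mk.injEq] at h1
        unfold Vt
        rcases h1 with h1 | h1 | h1
        · exact Or.inl h1.1
        · exact Or.inr (Or.inl h1.1)
        · exact Or.inr (Or.inr h1.1)
      -- two vertices of the triangle in the same giant are equal
      by_contra hne
      have h3 := hy1 i
      have h4 := hy1 (i + 1)
      have h5 := hy1 (i + 2)
      have z12 := z3n i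
      have d : ∀ {j k : ZMod 3} {w : ℂ}, j ≠ k → w ∈ A j → w ∈ A k → False := fun h h' h'' =>
        Set.disjoint_left.1 (hd _ _ h) h' h''
      have n1 : y i ≠ y (i + 1) := fun e => d z12.1 (hy2 i) (e ▸ hy2 (i + 1))
      have n2 : y i ≠ y (i + 2) := fun e => d z12.2.1 (hy2 i) (e ▸ hy2 (i + 2))
      have n3 : y (i + 1) ≠ y (i + 2) := fun e => d z12.2.2 (hy2 (i + 1)) (e ▸ hy2 (i + 2))
      have n4 : u ≠ y (i + 1) := fun e => d z12.1 hu (e ▸ hy2 (i + 1))
      have n5 : u ≠ y (i + 2) := fun e => d z12.2.1 hu (e ▸ hy2 (i + 2))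
      unfold Vt at h2 h3 h4 h5
      simp only at h2 h3 h4 h5
      rcases h2 with h2 | h2 | h2 <;> rcases h3 with h3 | h3 | h3 <;>
        rcases h4 with h4 | h4 | h4 <;> rcases h5 with h5 | h5 | h5 <;>
        first
        | exact hne (h2.trans h3.symm)
        | exact n1 (h3.trans h4.symm)
        | exact n2 (h3.trans h5.symm)
        | exact n3 (h4.trans h5.symm)
        | exact n4 (h2.trans h4.symm)
        | exact n5 (h2.trans h5.symm)
    exact ⟨b, v, e ▸ ht⟩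
  have e1 : ∀ i, Ey S A z i = z (y i) := by
    intro i
    rw [Ey_of hX z i (fun _ => y i) (hy i), exC_const]
  have hadj : ∀ i j, i ≠ j → Adj S (y i) (y j) := by
    intro i j hij
    have h1 : (u0, b0, v0) ∈ delT S := ht0.1
    have a1 : Adj S u0 b0 := adj_tri h1
    have a2 : Adj S b0 v0 := adj_tri' hS h1
    have a3 : Adj S v0 u0 := adj_tri'' hS h1
    have hne : y i ≠ y j := fun e => Set.disjoint_left.1 (hd _ _ hij) (hy2 i) (e ▸ hy2 j)
    have h3 := hy1 i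
    have h4 := hy1 j
    unfold Vt at h3 h4
    simp only at h3 h4
    rcases h3 with h3 | h3 | h3 <;> rcases h4 with h4 | h4 | h4 <;>
      first
      | exact absurd (h3.trans h4.symm) hne
      | (rw [h3, h4]; first | exact a1 | exact a2 | exact a3 | exact a1.symm | exact a2.symm |
          exact a3.symm)
  have e2 : TS S A z = 3 * ∑ i : ZMod 3, omz i * (z (y i) - z (y 0)) := by
    unfold TS
    congr 1
    simp only [e1, mul_sub, Finset.sum_sub_distrib]
    rw [← Finset.sum_mul]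
    have : ∑ i : ZMod 3, omz i = 0 := by
      exact Applx359.sum_omz
    rw [this, zero_mul, sub_zero]
  have hr0 : 0 ≤ r := (norm_nonneg _).trans (hr _ _ (hadj 0 1 (by decide)))
  rw [e2, norm_mul, Complex.norm_ofNat]
  have h1 : ‖∑ i : ZMod 3, omz i * (z (y i) - z (y 0))‖ ≤ 2 * r := by
    rw [show (Finset.univ : Finset (ZMod 3)) = {0, 1, 2} from rfl, Finset.sum_insert (by decide),
      Finset.sum_insert (by decide), Finset.sum_singleton, sub_self, mul_zero, zero_add]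
    refine (norm_add_le _ _).trans ?_
    rw [norm_mul, norm_mul, norm_omz, norm_omz, one_mul, one_mul]
    have h2 := hr _ _ (hadj 1 0 (by decide))
    have h3 := hr _ _ (hadj 2 0 (by decide))
    linarith
  linarith

theorem TS_small_tr (h : Tr S A) (hX : Hex S A) (hn : ∀ X, ¬ CtrX S A X) {z : ℂ → ℂ} {r : ℝ}
    (hr : ∀ a b, Adj S a b → ‖z a - z b‖ ≤ r) : ‖TS S A z‖ ≤ 6 * r :=
  TS_small h.gp h.disj hX (fun t t' => ktt S A h t t') hn hr

end Crest.Agent.R143.Loc8x277
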