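import Crest.Agent.R143.Comp_66
import Crest.Agent.R143.CtrL_723
import Crest.Agent.R143.K33R_877

/-!
# Row 143 (S0194), CONT / K7: leaf CENT of `K7D_359` (helper723)

* `vis0` : `CtrLx723.vis` without orientation (existence of the hit `HITE` of 877 for the empty
  colouring)
* **`cent : K7Dx359.CENT`**
-/

set_option autoImplicit false

noncomputable section

open scoped Classical

namespace Crest.Agent.R143.Centx723

open Set
open Crest.Agent.R143.B0x346 Crest.Agent.R143.DelGx806 Crest.Agent.R143.DelRx806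
  Crest.Agent.R143.JColx54 Crest.Agent.R143.RE0x723
open Crest.Agent.R143.K33x877
open Crest.Agent.R143.RB2x54 (Vt)
open Crest.Agent.R143.CenSx496 (SmC)
open Crest.Agent.R143.Loc8x277 (Cp cp_ctr clu_out)
open Crest.Agent.R143.CtrLx723

variable {S : Finset ℂ} {A A' : ZMod 3 → Set ℂ} {r m : ℝ}

/-- three classes have a centre -/
theorem ex_centre (hT : Tr S A) : (∃ t, CtrT S A t) ∨ ∃ b, b ∈ fr S A ∧ CtrX S A (Cp S A b) := by
  have hS := hT.gp
  obtain ⟨b, v, u, h⟩ := hite S A hT 0 1 2 (by decide) (by decide) (by decide) ∅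
  have hb : b ∈ A 0 := by
    rcases clu_out h.hb with h1 | ⟨h1, -⟩
    · exact h1
    · exact absurd h1.2 (Set.notMem_empty _)
  have hu := h.hu
  -- adjacencies
  have hadj : Adj S b v ∧ Adj S v u ∧ Adj S u b := by
    rcases h.tri with h1 | h1
    · exact ⟨adj_tri h1, adj_tri' hS h1, adj_tri'' hS h1⟩
    · exact ⟨(adj_tri h1).symm, (adj_tri'' hS h1).symm, (adj_tri' hS h1).symm⟩
  obtain ⟨abv, avu, aub⟩ := hadj
  have z3' : ∀ k : ZMod 3, k = 0 ∨ k = 1 ∨ k = 2 := by decide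
  rcases clu_out h.hv with hv | ⟨hv, a, ha, c, hac, hp⟩
  · left
    rcases h.tri with h1 | h1
    · refine ⟨_, h1, fun k => ?_⟩
      rcases z3' k with rfl | rfl | rfl
      · exact ⟨b, Or.inl rfl, hb⟩
      · exact ⟨v, Or.inr (Or.inl rfl), hv⟩
      · exact ⟨u, Or.inr (Or.inr rfl), hu⟩
    · refine ⟨_, h1, fun k => ?_⟩
      rcases z3' k with rfl | rfl | rfl
      · exact ⟨b, Or.inr (Or.inl rfl), hb⟩
      · exact ⟨v, Or.inl rfl, hv⟩
      · exact ⟨u, Or.inr (Or.inr rfl), hu⟩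
  · right
    have hv' : v ∈ fr S A := hv.1
    refine ⟨v, hv', cp_ctr fun k => ?_⟩
    have vv : v ∈ Cp S A v := Pth.refl hv'
    rcases z3' k with rfl | rfl | rfl
    · exact ⟨v, vv, b, hb, abv.symm⟩
    · exact ⟨c, (hp.mono Set.sdiff_subset).symm, a, ha, hac.symm⟩
    · exact ⟨v, vv, u, hu, avu⟩

/-- **VISIBILITY** without orientation -/
theorem vis0 (hT' : Tr S A') (hA : ∀ i, A i ⊆ A' i) (hth : Thn S A A' r)
    (hr : 0 ≤ r) (hm : ∀ u v, Adj S u v → ‖u - v‖ ≤ m) (hns : ∀ p, ¬ SmC S A p (m + r)) :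
    (∀ t, ¬ CtrT S A' t) ∧ ∃ X, CtrX S A' X ∧ X ⊆ fr S A' ∧
      (∀ x ∈ X, ∀ y, Pth S (fr S A') x y → y ∈ X) ∧ ∀ Y, CtrX S A' Y → ¬ Disjoint X Y := by
  have hS := hT'.gp
  have hnt : ∀ t, ¬ CtrT S A' t := by
    intro t ht
    have h1 : ∀ v, Vt t v → ‖v - t.1‖ ≤ m := by
      intro v hv
      by_cases e : v = t.1
      · rw [e, sub_self, norm_zero]
        have h2 : Adj S t.1 t.2.1 := adj_tri ht.1
        exact (norm_nonneg _).trans (hm _ _ h2)
      · exact hm _ _ (vt_adj hS ht.1 hv (Or.inl rfl) e)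
    exact hns _ (lift_t hS hA (fun i j h => hT'.disj i j h) hth hr ht h1)
  refine ⟨hnt, ?_⟩
  rcases ex_centre hT' with ⟨t, ht⟩ | ⟨b, hb, hX⟩
  · exact absurd ht (hnt t)
  · exact ⟨Cp S A' b, hX, fun v hv => Pth.snd hv, fun x hx y hy => Pth.trans hx hy,
      fun Y hY => kxx S A' hT' _ _ hX hY⟩

theorem smC_mono {p : ℂ} {r r' : ℝ} (h : SmC S A p r) (hr : r ≤ r') : SmC S A p r' := by
  rcases h with ⟨c, h1, h2⟩ | ⟨X, h1, h2⟩
  · exact Or.inl ⟨c, h1, fun v hv => (h2 v hv).trans hr⟩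
  · exact Or.inr ⟨X, h1, fun v hv => (h2 v hv).trans hr⟩

theorem thn_of {C s : ℝ} (h : ∀ j, K7Dx359.ThF S A A' j (C * s)) : Thn S A A' (C * s) := by
  intro j x hx
  obtain ⟨a, ha, hp⟩ := h j x hx
  refine ⟨a, ha, hp.mono ?_⟩
  rintro y ⟨h1, h2⟩
  exact ⟨h1, mem_closedBall_iff_norm.2 h2⟩

/-- **leaf CENT** -/
theorem cent : K7Dx359.CENT := by
  intro C hC
  refine ⟨C + 1, by linarith, ?_⟩
  intro S A A' x0 L d s l hStg hLay
  obtain ⟨hs, -⟩ := Compx66.numbers hStg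
  by_cases hns : ∃ p, SmC S A p ((C + 1) * s)
  · exact Or.inl hns
  right
  push Not at hns
  have hm : ∀ u v, Adj S u v → ‖u - v‖ ≤ s := by
    intro u v huv
    refine (Compx66.edge_len hStg huv).trans ?_
    rw [div_le_iff₀ (by norm_num)]
    nlinarith
  obtain ⟨h1, X, hX, hXf, -, hXY⟩ := vis0 hLay.tr hLay.sub (thn_of hLay.thin)
    (mul_nonneg (by linarith) hs.le) hm (fun p h => hns p (smC_mono h (by linarith)))
  refine ⟨h1, X, hX, fun x hx => ?_, hXY⟩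
  have h2 := hXf hx
  rw [hLay.fr] at h2
  exact h2

end Crest.Agent.R143.Centx723
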