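import Mathlib

/-!
# Row 143 (S0194), hedge block H: law of large numbers along a chain (helper323)

Abstract `L²` lemma for the potential `f` along the outer path `K` under the product weight
(gates i.i.d., tubes independent given the gates): the increments `Y k` (= charge of the tube `k`
minus its mean) are uncorrelated as soon as the indices differ by at least two.

* `orth_sum` : orthogonal sums;
* `var` : `∫ ‖∑ k ∈ Ico a b, Y k‖² ≤ 2 (b - a) C`;
* `chain_max` : ONE integrable function `B` dominates `‖∑ k < j, Y k‖²` for all `j ≤ n`, with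
  `∫ B ≤ (4 n (n / q + 1) + 2 q n) C` (check points at the multiples of `q`);
* `chain_max_sqrt` : with `q ≈ √n` : `∫ B ≤ 18 n √n C`. With `n = A / s`, `C = C₀ s²` this is
  `O(√s)`.
* `chain_lin` : the same for the increments `Z k` with the means `a k`.
-/

set_option autoImplicit false

noncomputable section

open MeasureTheory Finset
open scoped ComplexConjugate

namespace Crest.Agent.R143.ChainVx323

variable {Ω : Type*} [MeasurableSpace Ω] {μ : Measure Ω}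

/-- real part of the Hermitian product -/
def ip (u v : ℂ) : ℝ := (u * conj v).re

theorem ip_self (u : ℂ) : ip u u = ‖u‖ ^ 2 := by
  unfold ip
  rw [Complex.mul_conj, Complex.ofReal_re, Complex.normSq_eq_norm_sq]

theorem ip_comm (u v : ℂ) : ip u v = ip v u := by
  unfold ip
  simp only [Complex.mul_re, Complex.conj_re, Complex.conj_im]
  ring

theorem ip_sum_left {ι : Type*} (s : Finset ι) (u : ι → ℂ) (v : ℂ) :
    ip (∑ i ∈ s, u i) v = ∑ i ∈ s, ip (u i) v := by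
  unfold ip
  rw [Finset.sum_mul, Complex.re_sum]

theorem ip_sum_right {ι : Type*} (s : Finset ι) (u : ℂ) (v : ι → ℂ) :
    ip u (∑ i ∈ s, v i) = ∑ i ∈ s, ip u (v i) := by
  rw [ip_comm, ip_sum_left]
  exact Finset.sum_congr rfl fun i _ => ip_comm _ _

theorem ip_le (u v : ℂ) : |ip u v| ≤ ‖u‖ * ‖v‖ := by
  unfold ip
  refine (Complex.abs_re_le_norm _).trans ?_
  rw [norm_mul, Complex.norm_conj]

theorem norm_sum_sq {ι : Type*} (s : Finset ι) (u : ι → ℂ) :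
    ‖∑ i ∈ s, u i‖ ^ 2 = ∑ i ∈ s, ∑ j ∈ s, ip (u i) (u j) := by
  rw [← ip_self, ip_sum_left]
  exact Finset.sum_congr rfl fun i _ => ip_sum_right _ _ _

theorem ip_integrable {f g : Ω → ℂ} (hf : MemLp f 2 μ) (hg : MemLp g 2 μ) :
    Integrable (fun ω => ip (f ω) (g ω)) μ := by
  have h1 : Integrable (fun ω => f ω * conj (g ω)) μ := by
    have hg' : MemLp (fun ω => conj (g ω)) 2 μ := by
      refine ⟨?_, ?_⟩
      · exact Complex.continuous_conj.comp_aestronglyMeasurable hg.1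
      · have : eLpNorm (fun ω => conj (g ω)) 2 μ = eLpNorm g 2 μ :=
          eLpNorm_congr_norm_ae (Filter.Eventually.of_forall fun ω => Complex.norm_conj _)
        rw [this]
        exact hg.2
    exact MemLp.integrable_mul hf hg'
  exact h1.re

theorem sq_integrable {f : Ω → ℂ} (hf : MemLp f 2 μ) : Integrable (fun ω => ‖f ω‖ ^ 2) μ := by
  have := hf.integrable_norm_pow (by norm_num)
  simpa using this

/-- orthogonal sums -/
theorem orth_sum {ι : Type*} (s : Finset ι) {Y : ι → Ω → ℂ} (hL : ∀ i ∈ s, MemLp (Y i) 2 μ)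
    (ho : ∀ i ∈ s, ∀ j ∈ s, i ≠ j → ∫ ω, ip (Y i ω) (Y j ω) ∂μ = 0) :
    ∫ ω, ‖∑ i ∈ s, Y i ω‖ ^ 2 ∂μ = ∑ i ∈ s, ∫ ω, ‖Y i ω‖ ^ 2 ∂μ := by
  have e : ∀ ω, ‖∑ i ∈ s, Y i ω‖ ^ 2 = ∑ i ∈ s, ∑ j ∈ s, ip (Y i ω) (Y j ω) :=
    fun ω => norm_sum_sq s fun i => Y i ω
  simp_rw [e]
  rw [integral_finsetSum]
  · refine Finset.sum_congr rfl fun i hi => ?_
    rw [integral_finsetSum]
    · rw [Finset.sum_eq_single_of_mem i hi]
      · exact integral_congr_ae (Filter.Eventually.of_forall fun ω => ip_self _)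
      · intro j hj hji
        exact ho i hi j hj (Ne.symm hji)
    · intro j hj
      exact ip_integrable (hL i hi) (hL j hj)
  · intro i hi
    exact integrable_finsetSum _ fun j hj => ip_integrable (hL i hi) (hL j hj)

theorem memLp_sum {ι : Type*} (s : Finset ι) {Y : ι → Ω → ℂ} (hL : ∀ i ∈ s, MemLp (Y i) 2 μ) :
    MemLp (fun ω => ∑ i ∈ s, Y i ω) 2 μ := memLp_finsetSum s hL

theorem two_sq (u v : ℂ) : ‖u + v‖ ^ 2 ≤ 2 * ‖u‖ ^ 2 + 2 * ‖v‖ ^ 2 := by
  have h1 := norm_add_le u v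
  have h2 := norm_nonneg (u + v)
  nlinarith [sq_nonneg (‖u‖ - ‖v‖), norm_nonneg u, norm_nonneg v]

/-- **variance** of a sum whose terms are uncorrelated at index distance at least two -/
theorem var {Y : ℕ → Ω → ℂ} {C : ℝ} {a b : ℕ} (hL : ∀ k, a ≤ k → k < b → MemLp (Y k) 2 μ)
    (hC : ∀ k, a ≤ k → k < b → ∫ ω, ‖Y k ω‖ ^ 2 ∂μ ≤ C)
    (ho : ∀ k l, a ≤ k → k + 2 ≤ l → l < b → ∫ ω, ip (Y k ω) (Y l ω) ∂μ = 0) :
    ∫ ω, ‖∑ k ∈ Ico a b, Y k ω‖ ^ 2 ∂μ ≤ 2 * ((Ico a b).card * C) := by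
  classical
  set E := (Ico a b).filter fun k => k % 2 = 0 with hE
  set O := (Ico a b).filter fun k => ¬ k % 2 = 0 with hO
  have hd : ∀ ω, ∑ k ∈ Ico a b, Y k ω = ∑ k ∈ E, Y k ω + ∑ k ∈ O, Y k ω := fun ω =>
    (Finset.sum_filter_add_sum_filter_not _ _ _).symm
  have key : ∀ s : Finset ℕ, (∀ k ∈ s, a ≤ k ∧ k < b) →
      (∀ k ∈ s, ∀ l ∈ s, k < l → k + 2 ≤ l) →
      ∫ ω, ‖∑ k ∈ s, Y k ω‖ ^ 2 ∂μ ≤ s.card * C := by
    intro s hs h2
    rw [orth_sum s (fun k hk => hL k (hs k hk).1 (hs k hk).2)]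
    · refine (Finset.sum_le_sum fun k hk => hC k (hs k hk).1 (hs k hk).2).trans ?_
      rw [Finset.sum_const, nsmul_eq_mul]
    · intro k hk l hl hkl
      rcases lt_or_gt_of_ne hkl with h | h
      · exact ho k l (hs k hk).1 (h2 k hk l hl h) (hs l hl).2
      · have := ho l k (hs l hl).1 (h2 l hl k hk h) (hs k hk).2
        rw [← this]
        exact integral_congr_ae (Filter.Eventually.of_forall fun ω => ip_comm _ _)
  have hEm : ∀ k ∈ E, a ≤ k ∧ k < b := fun k hk => Finset.mem_Ico.1 (Finset.mem_filter.1 hk).1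
  have hOm : ∀ k ∈ O, a ≤ k ∧ k < b := fun k hk => Finset.mem_Ico.1 (Finset.mem_filter.1 hk).1
  have h1 := key E hEm (by
    intro k hk l hl hkl
    have := (Finset.mem_filter.1 hk).2
    have := (Finset.mem_filter.1 hl).2
    omega)
  have h2 := key O hOm (by
    intro k hk l hl hkl
    have := (Finset.mem_filter.1 hk).2
    have := (Finset.mem_filter.1 hl).2
    omega)
  have hcard : (E.card : ℝ) + O.card = (Ico a b).card := by
    rw [← Nat.cast_add, hE, hO, Finset.card_filter_add_card_filter_not]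
  have i1 : Integrable (fun ω => ‖∑ k ∈ E, Y k ω‖ ^ 2) μ :=
    sq_integrable (memLp_sum E fun k hk => hL k (hEm k hk).1 (hEm k hk).2)
  have i2 : Integrable (fun ω => ‖∑ k ∈ O, Y k ω‖ ^ 2) μ :=
    sq_integrable (memLp_sum O fun k hk => hL k (hOm k hk).1 (hOm k hk).2)
  have i0 : Integrable (fun ω => ‖∑ k ∈ Ico a b, Y k ω‖ ^ 2) μ :=
    sq_integrable (memLp_sum _ fun k hk => hL k (Finset.mem_Ico.1 hk).1 (Finset.mem_Ico.1 hk).2)
  calc ∫ ω, ‖∑ k ∈ Ico a b, Y k ω‖ ^ 2 ∂μ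
      ≤ ∫ ω, (2 * ‖∑ k ∈ E, Y k ω‖ ^ 2 + 2 * ‖∑ k ∈ O, Y k ω‖ ^ 2) ∂μ := by
        refine integral_mono i0 ((i1.const_mul 2).add (i2.const_mul 2)) fun ω => ?_
        show ‖∑ k ∈ Ico a b, Y k ω‖ ^ 2 ≤ _
        rw [hd ω]
        exact two_sq _ _
    _ = 2 * ∫ ω, ‖∑ k ∈ E, Y k ω‖ ^ 2 ∂μ + 2 * ∫ ω, ‖∑ k ∈ O, Y k ω‖ ^ 2 ∂μ := by
        rw [integral_add (i1.const_mul 2) (i2.const_mul 2), integral_const_mul,
          integral_const_mul]
    _ ≤ 2 * (E.card * C) + 2 * (O.card * C) := by linarith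
    _ = 2 * ((Ico a b).card * C) := by rw [← hcard]; ring

/-- **maximal bound**: one integrable function dominates all partial sums -/
theorem chain_max {Y : ℕ → Ω → ℂ} {C : ℝ} {n : ℕ} (hL : ∀ k < n, MemLp (Y k) 2 μ)
    (hC : ∀ k < n, ∫ ω, ‖Y k ω‖ ^ 2 ∂μ ≤ C)
    (ho : ∀ k l, k + 2 ≤ l → l < n → ∫ ω, ip (Y k ω) (Y l ω) ∂μ = 0) {q : ℕ} (hq : 0 < q) :
    ∃ B : Ω → ℝ, Integrable B μ ∧ (∀ ω, ∀ j ≤ n, ‖∑ k ∈ range j, Y k ω‖ ^ 2 ≤ B ω) ∧
      ∫ ω, B ω ∂μ ≤ (4 * n * ((n / q : ℕ) + 1) + 2 * q * n) * C := by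
  classical
  have hC0 : 0 < n → 0 ≤ C := fun hn =>
    le_trans (integral_nonneg fun ω => by positivity) (hC 0 hn)
  set m := n / q with hm
  let B : Ω → ℝ := fun ω =>
    2 * (∑ a ∈ range (m + 1), ‖∑ k ∈ range (q * a), Y k ω‖ ^ 2) +
      2 * q * ∑ k ∈ range n, ‖Y k ω‖ ^ 2
  have hqa : ∀ a ∈ range (m + 1), q * a ≤ n := by
    intro a ha
    have h1 : a ≤ m := Nat.lt_succ_iff.1 (Finset.mem_range.1 ha)
    calc q * a ≤ q * m := Nat.mul_le_mul_left _ h1
      _ ≤ n := Nat.mul_div_le n q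
  have hS : ∀ j ≤ n, MemLp (fun ω => ∑ k ∈ range j, Y k ω) 2 μ := fun j hj =>
    memLp_sum _ fun k hk => hL k (lt_of_lt_of_le (Finset.mem_range.1 hk) hj)
  have hi1 : Integrable (fun ω => ∑ a ∈ range (m + 1), ‖∑ k ∈ range (q * a), Y k ω‖ ^ 2) μ :=
    integrable_finsetSum _ fun a ha => sq_integrable (hS _ (hqa a ha))
  have hi2 : Integrable (fun ω => ∑ k ∈ range n, ‖Y k ω‖ ^ 2) μ :=
    integrable_finsetSum _ fun k hk => sq_integrable (hL k (Finset.mem_range.1 hk))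
  refine ⟨B, (hi1.const_mul 2).add (hi2.const_mul _), fun ω j hj => ?_, ?_⟩
  · -- pointwise
    set a := j / q with ha
    have ham : a ∈ range (m + 1) := Finset.mem_range.2
      (Nat.lt_succ_iff.2 (Nat.div_le_div_right hj))
    have h1 : q * a ≤ j := Nat.mul_div_le j q
    have h2 : j < q * a + q := by
      have := Nat.lt_mul_div_succ j hq
      rw [Nat.mul_succ] at this
      exact this
    have e : ∑ k ∈ range j, Y k ω = ∑ k ∈ range (q * a), Y k ω + ∑ k ∈ Ico (q * a) j, Y k ω :=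
      (Finset.sum_range_add_sum_Ico _ h1).symm
    have h3 : ‖∑ k ∈ Ico (q * a) j, Y k ω‖ ^ 2 ≤ q * ∑ k ∈ range n, ‖Y k ω‖ ^ 2 := by
      have g1 : ‖∑ k ∈ Ico (q * a) j, Y k ω‖ ^ 2 ≤ (∑ k ∈ Ico (q * a) j, ‖Y k ω‖) ^ 2 :=
        pow_le_pow_left₀ (norm_nonneg _) (norm_sum_le _ _) 2
      have g2 : (∑ k ∈ Ico (q * a) j, ‖Y k ω‖) ^ 2 ≤
          (Ico (q * a) j).card * ∑ k ∈ Ico (q * a) j, ‖Y k ω‖ ^ 2 := sq_sum_le_card_mul_sum_sq
      have g3 : ((Ico (q * a) j).card : ℝ) ≤ q := by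
        rw [Nat.card_Ico]
        exact_mod_cast (by omega : j - q * a ≤ q)
      have g4 : ∑ k ∈ Ico (q * a) j, ‖Y k ω‖ ^ 2 ≤ ∑ k ∈ range n, ‖Y k ω‖ ^ 2 := by
        refine Finset.sum_le_sum_of_subset_of_nonneg ?_ fun k _ _ => by positivity
        intro k hk
        exact Finset.mem_range.2 (lt_of_lt_of_le (Finset.mem_Ico.1 hk).2 hj)
      have g5 : 0 ≤ ∑ k ∈ Ico (q * a) j, ‖Y k ω‖ ^ 2 := Finset.sum_nonneg fun k _ => by positivity
      calc _ ≤ _ := g1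
        _ ≤ _ := g2
        _ ≤ (q : ℝ) * ∑ k ∈ range n, ‖Y k ω‖ ^ 2 :=
          mul_le_mul g3 g4 g5 (Nat.cast_nonneg _)
    have h4 : ‖∑ k ∈ range (q * a), Y k ω‖ ^ 2 ≤
        ∑ a ∈ range (m + 1), ‖∑ k ∈ range (q * a), Y k ω‖ ^ 2 :=
      Finset.single_le_sum (f := fun a => ‖∑ k ∈ range (q * a), Y k ω‖ ^ 2)
        (fun a _ => by positivity) ham
    rw [e]
    refine (two_sq _ _).trans ?_
    show _ ≤ 2 * (∑ a ∈ range (m + 1), ‖∑ k ∈ range (q * a), Y k ω‖ ^ 2) +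
      2 * q * ∑ k ∈ range n, ‖Y k ω‖ ^ 2
    nlinarith
  · -- integral
    have e : ∫ ω, B ω ∂μ = 2 * ∑ a ∈ range (m + 1), ∫ ω, ‖∑ k ∈ range (q * a), Y k ω‖ ^ 2 ∂μ +
        2 * q * ∑ k ∈ range n, ∫ ω, ‖Y k ω‖ ^ 2 ∂μ := by
      show ∫ ω, (2 * (∑ a ∈ range (m + 1), ‖∑ k ∈ range (q * a), Y k ω‖ ^ 2) +
        2 * q * ∑ k ∈ range n, ‖Y k ω‖ ^ 2) ∂μ = _
      rw [integral_add (hi1.const_mul 2) (hi2.const_mul _), integral_const_mul,
        integral_const_mul, integral_finsetSum, integral_finsetSum]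
      · exact fun k hk => sq_integrable (hL k (Finset.mem_range.1 hk))
      · exact fun a ha => sq_integrable (hS _ (hqa a ha))
    rw [e]
    rcases Nat.eq_zero_or_pos n with hn | hn
    · subst hn
      have hm0 : m = 0 := by rw [hm]; exact Nat.zero_div q
      rw [hm0]
      simp
    · have hC' := hC0 hn
      have k1 : ∀ a ∈ range (m + 1), ∫ ω, ‖∑ k ∈ range (q * a), Y k ω‖ ^ 2 ∂μ ≤ 2 * (n * C) := by
        intro a ha
        have hv := var (Y := Y) (C := C) (a := 0) (b := q * a) (μ := μ)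
          (fun k _ hk => hL k (lt_of_lt_of_le hk (hqa a ha)))
          (fun k _ hk => hC k (lt_of_lt_of_le hk (hqa a ha)))
          (fun k l _ h hl => ho k l h (lt_of_lt_of_le hl (hqa a ha)))
        rw [Nat.Ico_zero_eq_range, Finset.card_range] at hv
        refine hv.trans ?_
        have : ((q * a : ℕ) : ℝ) ≤ n := by exact_mod_cast hqa a ha
        nlinarith
      have k2 : ∑ a ∈ range (m + 1), ∫ ω, ‖∑ k ∈ range (q * a), Y k ω‖ ^ 2 ∂μ ≤
          ((m : ℝ) + 1) * (2 * (n * C)) := by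
        refine (Finset.sum_le_sum k1).trans ?_
        rw [Finset.sum_const, Finset.card_range, nsmul_eq_mul]
        push_cast
        exact le_refl _
      have k3 : ∑ k ∈ range n, ∫ ω, ‖Y k ω‖ ^ 2 ∂μ ≤ n * C := by
        refine (Finset.sum_le_sum fun k hk => hC k (Finset.mem_range.1 hk)).trans ?_
        rw [Finset.sum_const, Finset.card_range, nsmul_eq_mul]
      have k4 : 2 * (q : ℝ) * ∑ k ∈ range n, ∫ ω, ‖Y k ω‖ ^ 2 ∂μ ≤ 2 * q * (n * C) :=
        mul_le_mul_of_nonneg_left k3 (by positivity)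
      nlinarith

/-- with check points at distance `≈ √n` -/
theorem chain_max_sqrt {Y : ℕ → Ω → ℂ} {C : ℝ} {n : ℕ} (hL : ∀ k < n, MemLp (Y k) 2 μ)
    (hC : ∀ k < n, ∫ ω, ‖Y k ω‖ ^ 2 ∂μ ≤ C)
    (ho : ∀ k l, k + 2 ≤ l → l < n → ∫ ω, ip (Y k ω) (Y l ω) ∂μ = 0) :
    ∃ B : Ω → ℝ, Integrable B μ ∧ (∀ ω, ∀ j ≤ n, ‖∑ k ∈ range j, Y k ω‖ ^ 2 ≤ B ω) ∧
      ∫ ω, B ω ∂μ ≤ 18 * (n * Real.sqrt n) * C := by
  rcases Nat.eq_zero_or_pos n with hn | hn
  · subst hn
    refine ⟨fun _ => 0, integrable_zero _ _ _, fun ω j hj => ?_, by simp⟩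
    rw [Nat.le_zero.1 hj]
    simp
  have hC' : 0 ≤ C := le_trans (integral_nonneg fun ω => by positivity) (hC 0 hn)
  set q := Nat.sqrt n with hqd
  have hq : 0 < q := Nat.sqrt_pos.2 hn
  obtain ⟨B, h1, h2, h3⟩ := chain_max hL hC ho hq
  refine ⟨B, h1, h2, h3.trans (mul_le_mul_of_nonneg_right ?_ hC')⟩
  have hn1 : (1 : ℝ) ≤ n := by exact_mod_cast hn
  have hs0 : 0 ≤ Real.sqrt n := Real.sqrt_nonneg _
  have hs1 : 1 ≤ Real.sqrt n := by
    rw [Real.one_le_sqrt]; exact hn1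
  have hss : Real.sqrt n * Real.sqrt n = n := Real.mul_self_sqrt (by linarith)
  have hq1 : (q : ℝ) ≤ Real.sqrt n := by
    rw [hqd]; exact Real.nat_sqrt_le_real_sqrt
  have hq2 : Real.sqrt n ≤ q + 1 := by
    rw [hqd]; exact Real.real_sqrt_le_nat_sqrt_succ
  have hq0 : (1 : ℝ) ≤ q := by exact_mod_cast hq
  -- n / q ≤ (q + 1)^2 / q ≤ q + 3
  have hdiv : ((n / q : ℕ) : ℝ) ≤ q + 2 := by
    have hlt : n < (q + 1) * (q + 1) := Nat.lt_succ_sqrt n
    have h5 : n / q < q + 3 := by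
      rw [Nat.div_lt_iff_lt_mul hq]
      nlinarith
    have h6 : n / q ≤ q + 2 := by omega
    exact_mod_cast h6
  have h7 : (4 : ℝ) * n * (((n / q : ℕ) : ℝ) + 1) ≤ 4 * n * (q + 3) := by
    refine mul_le_mul_of_nonneg_left (by linarith) (by linarith)
  have h8 : (n : ℝ) * q ≤ n * Real.sqrt n := mul_le_mul_of_nonneg_left hq1 (by linarith)
  have h9 : (n : ℝ) * 1 ≤ n * Real.sqrt n := mul_le_mul_of_nonneg_left hs1 (by linarith)
  calc (4 : ℝ) * n * (((n / q : ℕ) : ℝ) + 1) + 2 * q * n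
      ≤ 4 * n * (q + 3) + 2 * q * n := by linarith
    _ = 6 * (n * q) + 12 * (n * 1) := by ring
    _ ≤ 6 * (n * Real.sqrt n) + 12 * (n * Real.sqrt n) := by linarith
    _ = 18 * (n * Real.sqrt n) := by ring

/-- the same for increments `Z k` with the means `a k` -/
theorem chain_lin [IsFiniteMeasure μ] {Z : ℕ → Ω → ℂ} {a : ℕ → ℂ} {C : ℝ} {n : ℕ}
    (hL : ∀ k < n, MemLp (Z k) 2 μ)
    (hC : ∀ k < n, ∫ ω, ‖Z k ω - a k‖ ^ 2 ∂μ ≤ C)
    (ho : ∀ k l, k + 2 ≤ l → l < n → ∫ ω, ip (Z k ω - a k) (Z l ω - a l) ∂μ = 0) :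
    ∃ B : Ω → ℝ, Integrable B μ ∧
      (∀ ω, ∀ i j, i ≤ j → j ≤ n → ‖∑ k ∈ Ico i j, Z k ω - ∑ k ∈ Ico i j, a k‖ ^ 2 ≤ B ω) ∧
      ∫ ω, B ω ∂μ ≤ 72 * (n * Real.sqrt n) * C := by
  obtain ⟨B, h1, h2, h3⟩ := chain_max_sqrt (Y := fun k ω => Z k ω - a k)
    (fun k hk => (hL k hk).sub (memLp_const _)) hC ho
  refine ⟨fun ω => 4 * B ω, h1.const_mul 4, fun ω i j hij hj => ?_, ?_⟩
  · have e : ∑ k ∈ Ico i j, Z k ω - ∑ k ∈ Ico i j, a k =
        ∑ k ∈ range j, (Z k ω - a k) + -∑ k ∈ range i, (Z k ω - a k) := by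
      rw [← Finset.sum_sub_distrib, Finset.sum_Ico_eq_sub _ hij]
      ring
    rw [e]
    refine (two_sq _ _).trans ?_
    rw [norm_neg]
    have g1 := h2 ω j hj
    have g2 := h2 ω i (hij.trans hj)
    show _ ≤ 4 * B ω
    linarith
  · rw [integral_const_mul]
    linarith

/-- mean zero of the product from the product rule of the law: if
`E[Z k conj (Z l)] = E[Z k] conj (E[Z l])` under a probability measure then the centred variables
are orthogonal -/
theorem ip_centred [IsProbabilityMeasure μ] {f g : Ω → ℂ} (hf : MemLp f 2 μ) (hg : MemLp g 2 μ)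
    (h : ∫ ω, f ω * conj (g ω) ∂μ = (∫ ω, f ω ∂μ) * conj (∫ ω, g ω ∂μ)) :
    ∫ ω, ip (f ω - ∫ x, f x ∂μ) (g ω - ∫ x, g x ∂μ) ∂μ = 0 := by
  set a := ∫ x, f x ∂μ with ha
  set b := ∫ x, g x ∂μ with hb
  have hfi : Integrable f μ := hf.integrable (by norm_num)
  have hgi : Integrable g μ := hg.integrable (by norm_num)
  have hg' : MemLp (fun ω => conj (g ω)) 2 μ := by
    refine ⟨Complex.continuous_conj.comp_aestronglyMeasurable hg.1, ?_⟩
    have : eLpNorm (fun ω => conj (g ω)) 2 μ = eLpNorm g 2 μ :=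
      eLpNorm_congr_norm_ae (Filter.Eventually.of_forall fun ω => Complex.norm_conj _)
    rw [this]
    exact hg.2
  have hgc : Integrable (fun ω => conj (g ω)) μ := hg'.integrable (by norm_num)
  have hfg : Integrable (fun ω => f ω * conj (g ω)) μ := MemLp.integrable_mul hf hg'
  have hcg : ∫ ω, conj (g ω) ∂μ = conj b := by rw [hb]; exact integral_conj
  have hI : Integrable (fun ω => (f ω - a) * conj (g ω - b)) μ := by
    have e : (fun ω => (f ω - a) * conj (g ω - b)) =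
        fun ω => f ω * conj (g ω) - a * conj (g ω) - f ω * conj b + a * conj b := by
      funext ω
      rw [map_sub]
      ring
    rw [e]
    exact ((hfg.sub (hgc.const_mul a)).sub (hfi.mul_const _)).add (integrable_const _)
  have hJ : ∫ ω, (f ω - a) * conj (g ω - b) ∂μ = 0 := by
    have e : (fun ω => (f ω - a) * conj (g ω - b)) =
        fun ω => f ω * conj (g ω) - a * conj (g ω) - f ω * conj b + a * conj b := by
      funext ω
      rw [map_sub]
      ring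
    rw [e]
    have i1 : Integrable (fun ω => f ω * conj (g ω) - a * conj (g ω)) μ := hfg.sub (hgc.const_mul a)
    have i2 : Integrable (fun ω => f ω * conj (g ω) - a * conj (g ω) - f ω * conj b) μ :=
      i1.sub (hfi.mul_const _)
    rw [integral_add i2 (integrable_const _), integral_sub i1 (hfi.mul_const _),
      integral_sub hfg (hgc.const_mul a), integral_const_mul, integral_mul_const, hcg, h,
      integral_const, ← ha]
    simp
  have := integral_re hI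
  unfold ip
  have h2 : ∫ ω, ((f ω - a) * conj (g ω - b)).re ∂μ =
      (∫ ω, (f ω - a) * conj (g ω - b) ∂μ).re := by
    simpa using this
  rw [h2, hJ]
  rfl

end Crest.Agent.R143.ChainVx323
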