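import Mathlib

/-!
# Row 143 (S0194): chaining bound for partial sums of the final chain (helper867, note 3221)

`R n ω` = sum of the final chain after time `n` (root block sum of the explored net).
`A j ω` = the step times of level `j` (nested, `A 0 = {0}`), `par S n` = last element of `S` at or
before `n`.

* `det` : deterministic telescoping over the levels
* `frame_sum` : conditional frame at all times ⇒ sum over a random (adapted) set of times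
* `sup_le` : `‖sup_n |R 0 - R n|‖₂ ≤ Σ_j (√(a_j n_j) + √(a_j n_{j+1}))`
-/

set_option autoImplicit false

open MeasureTheory ENNReal

namespace Crest.Agent.R143.Chnx867

/-- last element of `S` at or before `n` (`0` if there is none) -/
def par (S : Finset ℕ) (n : ℕ) : ℕ := (S.filter (· ≤ n)).sup id

theorem par_le (S : Finset ℕ) (n : ℕ) : par S n ≤ n :=
  Finset.sup_le fun _ hm => (Finset.mem_filter.1 hm).2

theorem par_mem {S : Finset ℕ} (h0 : 0 ∈ S) (n : ℕ) : par S n ∈ S := by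
  have hne : (S.filter (· ≤ n)).Nonempty := ⟨0, Finset.mem_filter.2 ⟨h0, Nat.zero_le n⟩⟩
  obtain ⟨m, hm, h⟩ := Finset.exists_mem_eq_sup _ hne id
  unfold par
  rw [h]
  exact (Finset.mem_filter.1 hm).1

theorem le_par {S : Finset ℕ} {m n : ℕ} (hm : m ∈ S) (h : m ≤ n) : m ≤ par S n :=
  Finset.le_sup (f := id) (Finset.mem_filter.2 ⟨hm, h⟩)

theorem par_self {S : Finset ℕ} {n : ℕ} (h : n ∈ S) : par S n = n :=
  le_antisymm (par_le S n) (le_par h le_rfl)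

theorem par_par {S T : Finset ℕ} (hST : S ⊆ T) (h0 : 0 ∈ S) (n : ℕ) :
    par S (par T n) = par S n := by
  apply le_antisymm
  · exact le_par (par_mem h0 _) ((par_le S _).trans (par_le T n))
  · exact le_par (par_mem h0 _) (le_par (hST (par_mem h0 n)) (par_le S n))

theorem par_zero {n : ℕ} : par {0} n = 0 := by
  have h := par_mem (S := {0}) (Finset.mem_singleton_self 0) n
  exact Finset.mem_singleton.1 h

theorem zero_mem {A : ℕ → Finset ℕ} (h0 : A 0 = {0}) (hA : ∀ j, A j ⊆ A (j + 1)) (j : ℕ) :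
    0 ∈ A j := by
  induction j with
  | zero => rw [h0]; exact Finset.mem_singleton_self 0
  | succ j ih => exact hA j ih

/-- telescoping over the levels -/
theorem det {E : Type*} [SeminormedAddCommGroup E] {A : ℕ → Finset ℕ} (h0 : A 0 = {0})
    (hA : ∀ j, A j ⊆ A (j + 1)) {J n : ℕ} (hn : n ∈ A J) (R : ℕ → E) {x y : ℕ → ℕ → ℝ}
    (h : ∀ j < J, ∀ m ∈ A (j + 1), ‖R (par (A j) m) - R m‖ ≤ x j (par (A j) m) + y j m) :
    ‖R 0 - R n‖ ≤ ∑ j ∈ Finset.range J,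
      (√(∑ m ∈ A j, x j m ^ 2) + √(∑ m ∈ A (j + 1), y j m ^ 2)) := by
  have hz := zero_mem h0 hA
  have e : R 0 - R n = ∑ j ∈ Finset.range J, (R (par (A j) n) - R (par (A (j + 1)) n)) := by
    rw [Finset.sum_range_sub' (fun j => R (par (A j) n)), par_self hn, h0, par_zero]
  rw [e]
  refine (norm_sum_le _ _).trans (Finset.sum_le_sum fun j hj => ?_)
  have hm : par (A (j + 1)) n ∈ A (j + 1) := par_mem (hz _) n
  have h1 := h j (Finset.mem_range.1 hj) _ hm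
  rw [par_par (hA j) (hz j)] at h1
  refine h1.trans (add_le_add ?_ ?_)
  · exact (le_abs_self _).trans (by
      rw [← Real.sqrt_sq_eq_abs]
      exact Real.sqrt_le_sqrt
        (Finset.single_le_sum (f := fun m => x j m ^ 2) (fun _ _ => sq_nonneg _)
          (par_mem (hz j) n)))
  · exact (le_abs_self _).trans (by
      rw [← Real.sqrt_sq_eq_abs]
      exact Real.sqrt_le_sqrt
        (Finset.single_le_sum (f := fun m => y j m ^ 2) (fun _ _ => sq_nonneg _) hm))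

/-- weighted Cauchy–Schwarz -/
theorem cs {ι : Type*} (s : Finset ι) (c d : ι → ℝ) (hc : ∀ i ∈ s, 0 < c i)
    (hd : ∀ i ∈ s, 0 ≤ d i) :
    (∑ i ∈ s, √(d i)) ^ 2 ≤ (∑ i ∈ s, c i) * ∑ i ∈ s, (c i)⁻¹ * d i := by
  apply Finset.sum_sq_le_sum_mul_sum_of_sq_le_mul
  · intro i hi; exact (hc i hi).le
  · intro i hi; exact mul_nonneg (inv_nonneg.2 (hc i hi).le) (hd i hi)
  · intro i hi
    apply le_of_eq
    rw [Real.sq_sqrt (hd i hi), ← mul_assoc, mul_inv_cancel₀ (hc i hi).ne', one_mul]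

variable {Ω : Type*} {m0 : MeasurableSpace Ω} {μ : Measure Ω}

/-- **conditional frame at all times ⇒ sum over a random adapted set of times** -/
theorem frame_sum {E : Type*} [NormedAddCommGroup E] (F : Filtration ℕ m0) {A : Ω → Finset ℕ}
    (hA : ∀ n, MeasurableSet[F n] {ω | n ∈ A ω}) {N : ℕ} (hN : ∀ ω, A ω ⊆ Finset.range N)
    {Y : ℕ → Ω → E} {C : ℝ≥0∞} (hYm : ∀ n, AEMeasurable (fun ω => ‖Y n ω‖ₑ ^ 2) μ)
    (hY : ∀ n, ∀ s, MeasurableSet[F n] s → ∫⁻ ω in s, ‖Y n ω‖ₑ ^ 2 ∂μ ≤ C * μ s) :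
    ∫⁻ ω, ∑ n ∈ A ω, ‖Y n ω‖ₑ ^ 2 ∂μ ≤ C * ∫⁻ ω, ((A ω).card : ℝ≥0∞) ∂μ := by
  have hA' : ∀ n, MeasurableSet {ω | n ∈ A ω} := fun n => F.le n _ (hA n)
  have e1 : ∀ f : ℕ → Ω → ℝ≥0∞, ∀ ω, ∑ n ∈ A ω, f n ω =
      ∑ n ∈ Finset.range N, ({ω | n ∈ A ω} : Set Ω).indicator (f n) ω := by
    intro f ω
    rw [← Finset.sum_subset (hN ω) (fun n _ hn => Set.indicator_of_notMem (s := {ω | n ∈ A ω}) hn (f n))]
    exact Finset.sum_congr rfl fun n hn =>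
      (Set.indicator_of_mem (s := {ω | n ∈ A ω}) hn (f n)).symm
  have e2 : ∀ ω, ((A ω).card : ℝ≥0∞) =
      ∑ n ∈ Finset.range N, ({ω | n ∈ A ω} : Set Ω).indicator (fun _ => (1 : ℝ≥0∞)) ω := by
    intro ω
    rw [← e1 (fun _ _ => 1) ω]
    simp
  simp only [e1 (fun n ω => ‖Y n ω‖ₑ ^ 2), e2]
  rw [lintegral_finsetSum' _ fun n _ => (hYm n).indicator (hA' n),
    lintegral_finsetSum' _ fun n _ => aemeasurable_const.indicator (hA' n), Finset.mul_sum]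
  refine Finset.sum_le_sum fun n _ => ?_
  rw [lintegral_indicator (hA' n), lintegral_indicator_const (hA' n), one_mul]
  exact hY n _ (hA n)

/-- measurability of a sum over a random set of times -/
theorem aem_sum {A : Ω → Finset ℕ} (hA : ∀ n, MeasurableSet {ω | n ∈ A ω}) {N : ℕ}
    (hN : ∀ ω, A ω ⊆ Finset.range N) {f : ℕ → Ω → ℝ≥0∞} (hf : ∀ n, AEMeasurable (f n) μ) :
    AEMeasurable (fun ω => ∑ n ∈ A ω, f n ω) μ := by
  have e1 : (fun ω => ∑ n ∈ A ω, f n ω) = fun ω =>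
      ∑ n ∈ Finset.range N, ({ω | n ∈ A ω} : Set Ω).indicator (f n) ω := by
    funext ω
    rw [← Finset.sum_subset (hN ω) (fun n _ hn => Set.indicator_of_notMem (s := {ω | n ∈ A ω}) hn (f n))]
    exact Finset.sum_congr rfl fun n hn =>
      (Set.indicator_of_mem (s := {ω | n ∈ A ω}) hn (f n)).symm
  rw [e1]
  exact Finset.aemeasurable_fun_sum _ fun n _ => (hf n).indicator (hA n)

/-- **chaining**: square function of the levels bounded in mean ⇒ maximal bound -/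
theorem chain {E : Type*} [NormedAddCommGroup E] {A : ℕ → Ω → Finset ℕ} {J : ℕ}
    (h0 : ∀ ω, A 0 ω = {0}) (hA : ∀ j ω, A j ω ⊆ A (j + 1) ω) {R : ℕ → Ω → E}
    {X Y : ℕ → ℕ → Ω → E}
    (h : ∀ j < J, ∀ ω, ∀ m ∈ A (j + 1) ω,
      ‖R (par (A j ω) m) ω - R m ω‖ ≤ ‖X j (par (A j ω) m) ω‖ + ‖Y j m ω‖)
    (hXm : ∀ j < J, AEMeasurable (fun ω => ∑ m ∈ A j ω, ‖X j m ω‖ₑ ^ 2) μ)
    (hYm : ∀ j < J, AEMeasurable (fun ω => ∑ m ∈ A (j + 1) ω, ‖Y j m ω‖ₑ ^ 2) μ)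
    {c : Bool → ℕ → ℝ} (hc : ∀ b j, 0 < c b j)
    (hX : ∀ j < J, ∫⁻ ω, ∑ m ∈ A j ω, ‖X j m ω‖ₑ ^ 2 ∂μ ≤ ENNReal.ofReal (c false j ^ 2))
    (hY : ∀ j < J, ∫⁻ ω, ∑ m ∈ A (j + 1) ω, ‖Y j m ω‖ₑ ^ 2 ∂μ ≤ ENNReal.ofReal (c true j ^ 2)) :
    ∫⁻ ω, ⨆ n ∈ A J ω, ‖R 0 ω - R n ω‖ₑ ^ 2 ∂μ ≤
      ENNReal.ofReal ((∑ j ∈ Finset.range J, (c false j + c true j)) ^ 2) := by
  set S : ℝ := ∑ j ∈ Finset.range J, (c false j + c true j) with hS
  have hS0 : 0 ≤ S := Finset.sum_nonneg fun j _ => add_nonneg (hc _ _).le (hc _ _).le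
  -- pointwise bound
  have key : ∀ ω, (⨆ n ∈ A J ω, ‖R 0 ω - R n ω‖ₑ ^ 2) ≤ ENNReal.ofReal S *
      ∑ j ∈ Finset.range J, (ENNReal.ofReal (c false j)⁻¹ * (∑ m ∈ A j ω, ‖X j m ω‖ₑ ^ 2) +
        ENNReal.ofReal (c true j)⁻¹ * (∑ m ∈ A (j + 1) ω, ‖Y j m ω‖ₑ ^ 2)) := by
    intro ω
    refine iSup₂_le fun n hn => ?_
    have h1 := det (h0 ω) (fun j => hA j ω) hn (fun n => R n ω)
      (x := fun j m => ‖X j m ω‖) (y := fun j m => ‖Y j m ω‖) (fun j hj m hm => h j hj ω m hm)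
    have h2 := cs (Finset.range J ×ˢ (Finset.univ : Finset Bool)) (fun i => c i.2 i.1)
      (fun i => if i.2 then ∑ m ∈ A (i.1 + 1) ω, ‖Y i.1 m ω‖ ^ 2 else ∑ m ∈ A i.1 ω, ‖X i.1 m ω‖ ^ 2)
      (fun i _ => hc _ _) (fun i _ => by
        rcases i with ⟨j, b⟩
        cases b
        · simp only [Bool.false_eq_true, if_false]
          exact Finset.sum_nonneg fun _ _ => sq_nonneg _
        · simp only [if_true]
          exact Finset.sum_nonneg fun _ _ => sq_nonneg _)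
    rw [Finset.sum_product, Finset.sum_product, Finset.sum_product] at h2
    simp only [Fintype.sum_bool, if_true, Bool.false_eq_true, if_false] at h2
    have h3 : ‖R 0 ω - R n ω‖ ^ 2 ≤ S * ∑ j ∈ Finset.range J,
        ((c false j)⁻¹ * (∑ m ∈ A j ω, ‖X j m ω‖ ^ 2) +
          (c true j)⁻¹ * (∑ m ∈ A (j + 1) ω, ‖Y j m ω‖ ^ 2)) := by
      have h4 : ‖R 0 ω - R n ω‖ ^ 2 ≤ (∑ j ∈ Finset.range J,
          (√(∑ m ∈ A (j + 1) ω, ‖Y j m ω‖ ^ 2) + √(∑ m ∈ A j ω, ‖X j m ω‖ ^ 2))) ^ 2 := by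
        exact pow_le_pow_left₀ (norm_nonneg _) (by
          refine h1.trans (le_of_eq ?_)
          exact Finset.sum_congr rfl fun j _ => add_comm _ _) 2
      refine h4.trans (h2.trans (le_of_eq ?_))
      rw [hS]
      congr 1
      · exact Finset.sum_congr rfl fun j _ => add_comm _ _
      · exact Finset.sum_congr rfl fun j _ => add_comm _ _
    have h6 : ‖R 0 ω - R n ω‖ₑ ^ 2 = ENNReal.ofReal (‖R 0 ω - R n ω‖ ^ 2) := by
      rw [ENNReal.ofReal_pow (norm_nonneg _), ofReal_norm]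
    have h7 : ∀ (T : Finset ℕ) (f : ℕ → E), (∑ m ∈ T, ‖f m‖ₑ ^ 2) =
        ENNReal.ofReal (∑ m ∈ T, ‖f m‖ ^ 2) := by
      intro T f
      rw [ENNReal.ofReal_sum_of_nonneg fun _ _ => sq_nonneg _]
      refine Finset.sum_congr rfl fun m _ => ?_
      rw [ENNReal.ofReal_pow (norm_nonneg _), ofReal_norm]
    rw [h6]
    refine (ENNReal.ofReal_le_ofReal h3).trans (le_of_eq ?_)
    have h8 : ∀ b j (T : Finset ℕ) (f : ℕ → E), 0 ≤ (c b j)⁻¹ * ∑ m ∈ T, ‖f m‖ ^ 2 :=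
      fun b j T f => mul_nonneg (inv_nonneg.2 (hc b j).le) (Finset.sum_nonneg fun _ _ => sq_nonneg _)
    rw [ENNReal.ofReal_mul hS0, ENNReal.ofReal_sum_of_nonneg
      (fun j _ => add_nonneg (h8 _ _ _ _) (h8 _ _ _ _))]
    congr 1
    refine Finset.sum_congr rfl fun j _ => ?_
    rw [h7, h7, ENNReal.ofReal_add (h8 _ _ _ _) (h8 _ _ _ _),
      ENNReal.ofReal_mul (inv_nonneg.2 (hc _ _).le), ENNReal.ofReal_mul (inv_nonneg.2 (hc _ _).le)]
  refine (lintegral_mono key).trans ?_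
  rw [lintegral_const_mul' _ _ ENNReal.ofReal_ne_top, lintegral_finsetSum']
  · have h8 : ∀ j ∈ Finset.range J,
        (∫⁻ ω, (ENNReal.ofReal (c false j)⁻¹ * (∑ m ∈ A j ω, ‖X j m ω‖ₑ ^ 2) +
        ENNReal.ofReal (c true j)⁻¹ * (∑ m ∈ A (j + 1) ω, ‖Y j m ω‖ₑ ^ 2)) ∂μ) ≤
          ENNReal.ofReal (c false j + c true j) := by
      intro j hj
      have hj' := Finset.mem_range.1 hj
      rw [lintegral_add_left' ((hXm j hj').const_mul _),
        lintegral_const_mul' _ _ ENNReal.ofReal_ne_top,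
        lintegral_const_mul' _ _ ENNReal.ofReal_ne_top, ENNReal.ofReal_add (hc _ _).le (hc _ _).le]
      refine add_le_add ?_ ?_
      · refine (mul_le_mul_right (hX j hj') _).trans (le_of_eq ?_)
        rw [← ENNReal.ofReal_mul (inv_nonneg.2 (hc _ _).le)]
        congr 1
        rw [sq, ← mul_assoc, inv_mul_cancel₀ (hc _ _).ne', one_mul]
      · refine (mul_le_mul_right (hY j hj') _).trans (le_of_eq ?_)
        rw [← ENNReal.ofReal_mul (inv_nonneg.2 (hc _ _).le)]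
        congr 1
        rw [sq, ← mul_assoc, inv_mul_cancel₀ (hc _ _).ne', one_mul]
    refine (mul_le_mul_right (Finset.sum_le_sum h8) _).trans (le_of_eq ?_)
    rw [← ENNReal.ofReal_sum_of_nonneg fun j _ => add_nonneg (hc _ _).le (hc _ _).le, ← hS, sq,
      ENNReal.ofReal_mul hS0]
  · intro j hj
    have hj' := Finset.mem_range.1 hj
    exact ((hXm j hj').const_mul _).add ((hYm j hj').const_mul _)

/-- **maximal bound from conditional frames and step counts**: `a j` = constant of the frame of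
level `j` (`C rho_j^2`), expected number of level `j` times `≤ c^2 / a j` -/
theorem sup_le {E : Type*} [NormedAddCommGroup E] (F : Filtration ℕ m0) {A : ℕ → Ω → Finset ℕ}
    {J N : ℕ} (h0 : ∀ ω, A 0 ω = {0}) (hA : ∀ j ω, A j ω ⊆ A (j + 1) ω)
    (hAm : ∀ j n, MeasurableSet[F n] {ω | n ∈ A j ω}) (hN : ∀ j ω, A j ω ⊆ Finset.range N)
    {R : ℕ → Ω → E} {X Y : ℕ → ℕ → Ω → E}
    (h : ∀ j < J, ∀ ω, ∀ m ∈ A (j + 1) ω,
      ‖R (par (A j ω) m) ω - R m ω‖ ≤ ‖X j (par (A j ω) m) ω‖ + ‖Y j m ω‖)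
    (hXm : ∀ j n, AEMeasurable (fun ω => ‖X j n ω‖ₑ ^ 2) μ)
    (hYm : ∀ j n, AEMeasurable (fun ω => ‖Y j n ω‖ₑ ^ 2) μ) {a : ℕ → ℝ≥0∞}
    (hX : ∀ j n, ∀ s, MeasurableSet[F n] s → ∫⁻ ω in s, ‖X j n ω‖ₑ ^ 2 ∂μ ≤ a j * μ s)
    (hY : ∀ j n, ∀ s, MeasurableSet[F n] s → ∫⁻ ω in s, ‖Y j n ω‖ₑ ^ 2 ∂μ ≤ a j * μ s)
    {c : Bool → ℕ → ℝ} (hc : ∀ b j, 0 < c b j)
    (h1 : ∀ j < J, a j * ∫⁻ ω, ((A j ω).card : ℝ≥0∞) ∂μ ≤ ENNReal.ofReal (c false j ^ 2))
    (h2 : ∀ j < J, a j * ∫⁻ ω, ((A (j + 1) ω).card : ℝ≥0∞) ∂μ ≤ ENNReal.ofReal (c true j ^ 2)) :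
    ∫⁻ ω, ⨆ n ∈ A J ω, ‖R 0 ω - R n ω‖ₑ ^ 2 ∂μ ≤
      ENNReal.ofReal ((∑ j ∈ Finset.range J, (c false j + c true j)) ^ 2) := by
  have hA' : ∀ j n, MeasurableSet {ω | n ∈ A j ω} := fun j n => F.le n _ (hAm j n)
  refine chain h0 hA h (fun j _ => aem_sum (hA' j) (hN j) (hXm j))
    (fun j _ => aem_sum (hA' (j + 1)) (hN (j + 1)) (hYm j)) hc (fun j hj => ?_) (fun j hj => ?_)
  · exact (frame_sum F (hAm j) (hN j) (hXm j) (hX j)).trans (h1 j hj)
  · exact (frame_sum F (hAm (j + 1)) (hN (j + 1)) (hYm j) (hY j)).trans (h2 j hj)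

end Crest.Agent.R143.Chnx867
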