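import Crest.Agent.R143.Flip_357

/-!
# Row 143 (S0194), hedge block H2c (helper357)

The chord of a loop through a giant class `o` of the coarse map: the walker leaves `o` at the time
`t₁` and returns to `o` at the time `t₂`.

* `cset M p t₁ t₂` : the gaps at the times `s ∈ [t₁, t₂)` such that no left cell occurs in `(t₁, s]`
  and in `(s, t₂)`
* `chord_coarse` : the block of the coarse map which leaves the giant at the time `t₁` is
  `cset M p t₁ t₂`; in particular it depends only on the states at the times `t₁, .., t₂`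
* `cset_congr` : the same set for two configurations with the same states
-/

set_option autoImplicit false

noncomputable section

open scoped Classical

namespace Crest.Agent.R143.ChordCx357

open Crest.Agent.R143.Frame1x395 Crest.Agent.R143.Frame2x395 Crest.Agent.R143.Frame3x395
  Crest.Agent.R143.Frame4x395 Crest.Agent.R143.Frame8x395 Crest.Agent.R143.Frame9x395
  Crest.Agent.R143.NonXx592 Crest.Agent.R143.Coarsex166
  Crest.Agent.R143.Coarse2x166 Crest.Agent.R143.Flipx357

variable {D C C' : Type} {M : CMap D C} {x : D → ZMod 2} {π : C → C'} {hπ : ClsCon M π}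

/-- the gaps of a chord -/
def cset [Fintype D] (M : CMap D C) (Q : ℕ → D) (t₁ t₂ : ℕ) : Finset D :=
  Finset.univ.filter fun h => ∃ s, t₁ ≤ s ∧ s < t₂ ∧ M.rho h = Q s ∧ out M h = Q (s + 1) ∧
    ∀ u v, t₁ < u → u ≤ s → s < v → v < t₂ → M.cell (Q u) ≠ M.cell (Q v)

theorem mem_cset [Fintype D] {Q : ℕ → D} {t₁ t₂ : ℕ} {h : D} : h ∈ cset M Q t₁ t₂ ↔
    ∃ s, t₁ ≤ s ∧ s < t₂ ∧ M.rho h = Q s ∧ out M h = Q (s + 1) ∧
    ∀ u v, t₁ < u → u ≤ s → s < v → v < t₂ → M.cell (Q u) ≠ M.cell (Q v) := by
  unfold cset
  rw [Finset.mem_filter]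
  simp

/-- the set depends on the states at the times `t₁, .., t₂` only -/
theorem cset_congr [Fintype D] {Q Q' : ℕ → D} {t₁ t₂ : ℕ}
    (e : ∀ s, t₁ ≤ s → s ≤ t₂ → Q s = Q' s) : cset M Q t₁ t₂ = cset M Q' t₁ t₂ := by
  ext h
  rw [mem_cset, mem_cset]
  constructor
  · rintro ⟨s, h1, h2, h3, h4, h5⟩
    refine ⟨s, h1, h2, h3.trans (e s h1 h2.le), h4.trans (e _ (by omega) h2), ?_⟩
    intro u v a1 a2 a3 a4
    rw [← e u (by omega) (by omega), ← e v (by omega) (by omega)]
    exact h5 u v a1 a2 a3 a4
  · rintro ⟨s, h1, h2, h3, h4, h5⟩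
    refine ⟨s, h1, h2, h3.trans (e s h1 h2.le).symm, h4.trans (e _ (by omega) h2).symm, ?_⟩
    intro u v a1 a2 a3 a4
    rw [e u (by omega) (by omega), e v (by omega) (by omega)]
    exact h5 u v a1 a2 a3 a4

/-- shift of the times -/
theorem cset_shift [Fintype D] {Q : ℕ → D} {t₁ t₂ a : ℕ} :
    cset M (fun n => Q (a + n)) t₁ t₂ = cset M Q (a + t₁) (a + t₂) := by
  ext h
  rw [mem_cset, mem_cset]
  constructor
  · rintro ⟨s, h1, h2, h3, h4, h5⟩
    refine ⟨a + s, by omega, by omega, h3, h4, ?_⟩
    intro u v a1 a2 a3 a4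
    have := h5 (u - a) (v - a) (by omega) (by omega) (by omega) (by omega)
    simpa only [show a + (u - a) = u by omega, show a + (v - a) = v by omega] using this
  · rintro ⟨s, h1, h2, h3, h4, h5⟩
    refine ⟨s - a, by omega, by omega, ?_, ?_, ?_⟩
    · show _ = Q (a + (s - a))
      rw [show a + (s - a) = s by omega]; exact h3
    · show _ = Q (a + (s - a + 1))
      rw [show a + (s - a + 1) = s + 1 by omega]; exact h4
    · intro u v a1 a2 a3 a4
      exact h5 (a + u) (a + v) (by omega) (by omega) (by omega) (by omega)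

/-- a transition through `h` is a gap -/
theorem gp_of_out (hx : IsC M ∅ x) {p h : D} (hp : x p = 1) (h1 : M.rho h = p)
    (h2 : out M h = stp M x p) : Gp M x h := by
  rcases stp_cases hx hp (Set.notMem_empty _) with ⟨a1, a2, e⟩ | ⟨a1, a2, e⟩
  · have : M.rho (M.rho p) = h := by rw [← h1, M.rho3]
    exact ⟨by rw [← this]; exact a2, by rw [h1]; exact hp⟩
  · exfalso
    rw [e] at h2
    unfold out at h2
    have h3 := iota_inj M h2
    rw [h1] at h3
    exact M.rho_ne (M.rho p) h3.symm

/-- the times of the gaps of a block -/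
theorem blk_time [Fintype D] (hx : IsC M ∅ x) {g₀ : D} (hg₀ : Gp M x g₀) {N : ℕ} (hNpos : 0 < N)
    (hN : P M x (out M g₀) N = out M g₀) (hlast : M.rho g₀ = P M x (out M g₀) (N - 1)) {k : D}
    (hk : k ∈ blk M x g₀) (hne : k ≠ g₀) : ∃ b, b + 1 < N ∧ M.rho k = P M x (out M g₀) b := by
  obtain ⟨h1, h2⟩ := mem_blk.1 hk
  have h3 : ∃ b, b < N ∧ M.rho k = P M x (out M g₀) b := by
    rcases h2 (M.cell g₀) with e | h | h
    · exact absurd e.symm hne
    · exact time_of_av hNpos hN h
    · obtain ⟨m, h4, -⟩ := h
      obtain ⟨m', h5⟩ := come_back hx h1 hg₀ h4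
      exact time_of hNpos hN h5
  obtain ⟨b, hb, hkb⟩ := h3
  refine ⟨b, ?_, hkb⟩
  by_contra hc
  have : b = N - 1 := by omega
  rw [this, ← hlast] at hkb
  exact hne (rho_inj M hkb)

/-- **the block of the coarse map through the giant = the chord** -/
theorem chord_coarse [Fintype D] (hx : IsC (coarse M π hπ) ∅ x) {o : C'}
    (single : ∀ c c', π c ≠ o → π c = π c' → c = c') {p : D} (hp : x p = 1) {t₁ t₂ : ℕ}
    (h12 : t₁ < t₂) {k₀ : D} (hk₀ : Gp M x k₀) (hk₁ : M.rho k₀ = P M x p t₁)
    (h1 : π (M.cell (P M x p t₁)) = o) (h2 : π (M.cell (P M x p t₂)) = o)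
    (hin : ∀ u, t₁ < u → u < t₂ → π (M.cell (P M x p u)) ≠ o) :
    blk (coarse M π hπ) x k₀ = cset M (P M x p) t₁ t₂ := by
  set K := coarse M π hπ with hK
  have hxM : IsC M ∅ x := IsC.of_coarse hx
  have hgK : Gp K x k₀ := hk₀
  obtain ⟨N, hNpos, hN, hinj, hlast⟩ := exists_period hx hgK
  have base : ∀ n, P M x (out M k₀) n = P M x p (t₁ + 1 + n) := by
    intro n
    have e1 : out M k₀ = P M x p (t₁ + 1) := by
      rw [P_succ, ← hk₁, hk₀.stp hxM]
    rw [e1, ← P_add]
    congr 1
    omega
  have baseK : ∀ n, P K x (out K k₀) n = P M x p (t₁ + 1 + n) := base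
  obtain ⟨m, rfl⟩ := Nat.exists_eq_add_of_lt h12
  -- the return
  have hm : π (M.cell (P M x (out M k₀) m)) = o := by
    rw [base m, show t₁ + 1 + m = t₁ + m + 1 by omega]; exact h2
  have hlt : ∀ u, u < m → π (M.cell (P M x (out M k₀) u)) ≠ o := by
    intro u hu
    rw [base u]
    exact hin _ (by omega) (by omega)
  have hlo : π (M.cell (P M x (out M k₀) (N - 1))) = o := by
    have : M.rho k₀ = P M x (out M k₀) (N - 1) := hlast
    rw [← this, hk₁]; exact h1
  have hmN : m ≤ N - 1 := by
    by_contra hc
    exact hlt (N - 1) (by omega) hlo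
  have c0 : π (M.cell (M.rho k₀)) = o := by rw [hk₁]; exact h1
  rcases Nat.eq_zero_or_pos m with rfl | hmpos
  · -- direct transition between two cells of the giant
    have e1 : K.cell k₀ = K.cell (K.rho k₀) := by
      show π (M.cell k₀) = π (M.cell (M.rho k₀))
      rw [c0, ← cell_out hxM hk₀]
      exact hm
    rw [blk_single hx hgK e1]
    ext h
    rw [Finset.mem_singleton, mem_cset]
    constructor
    · rintro rfl
      refine ⟨t₁, le_rfl, h12, hk₁, ?_, fun u v a1 a2 a3 a4 => by omega⟩
      rw [P_succ, ← hk₁, hk₀.stp hxM]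
    · rintro ⟨s, a1, a2, a3, -, -⟩
      have : s = t₁ := by omega
      subst this
      exact rho_inj M (a3.trans hk₁.symm)
  · ext h
    rw [mem_cset]
    constructor
    · intro hh
      by_cases hhk : h = k₀
      · subst hhk
        refine ⟨t₁, le_rfl, h12, hk₁, ?_, fun u v a1 a2 a3 a4 => by omega⟩
        rw [P_succ, ← hk₁, hk₀.stp hxM]
      · obtain ⟨b, hbN, hhb⟩ := blk_time hx hgK hNpos hN hlast hh hhk
        obtain ⟨gh, rh⟩ := mem_blk.1 hh
        have hr := (rel_loop hx hgK hN hinj hlast hbN gh hhb).1 rh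
        have hbm : b < m := by
          by_contra hc
          refine hr m (by omega) (N - 1) (by omega) (by omega) ?_
          show π (M.cell (P M x (out M k₀) m)) = π (M.cell (P M x (out M k₀) (N - 1)))
          rw [hm, hlo]
        have hhb' : M.rho h = P M x (out M k₀) b := hhb
        refine ⟨t₁ + 1 + b, by omega, by omega, hhb'.trans (base b), ?_, ?_⟩
        · have gh' : Gp M x h := gh
          rw [← gh'.stp hxM, hhb', base b, ← P_succ]
        · intro u v a1 a2 a3 a4 e
          refine hr (u - (t₁ + 1)) (by omega) (v - (t₁ + 1)) (by omega) (by omega) ?_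
          show π (M.cell (P M x (out M k₀) (u - (t₁ + 1)))) =
            π (M.cell (P M x (out M k₀) (v - (t₁ + 1))))
          rw [base, base, show t₁ + 1 + (u - (t₁ + 1)) = u by omega,
            show t₁ + 1 + (v - (t₁ + 1)) = v by omega, e]
    · rintro ⟨s, a1, a2, a3, a4, a5⟩
      have gh : Gp M x h := gp_of_out hxM (P_occ hxM hp s) a3 (by rw [a4, P_succ])
      rcases Nat.eq_or_lt_of_le a1 with e | hs
      · subst e
        have : h = k₀ := rho_inj M (a3.trans hk₁.symm)
        rw [this]
        exact Frame8x395.self_mem hgK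
      · have hb : M.rho h = P M x (out M k₀) (s - (t₁ + 1)) := by
          rw [base, show t₁ + 1 + (s - (t₁ + 1)) = s by omega]; exact a3
        refine mem_blk.2 ⟨gh, (rel_loop hx hgK hN hinj hlast (by omega) gh hb).2 ?_⟩
        intro u hu v hv1 hv2 e
        have e' : π (M.cell (P M x (out M k₀) u)) = π (M.cell (P M x (out M k₀) v)) := e
        have hu' : π (M.cell (P M x (out M k₀) u)) ≠ o := hlt u (by omega)
        rcases lt_trichotomy v m with c1 | c1 | c1
        · have e2 := single _ _ hu' e'
          rw [base, base] at e2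
          exact a5 (t₁ + 1 + u) (t₁ + 1 + v) (by omega) (by omega) (by omega) (by omega) e2
        · rw [c1, hm] at e'
          exact hu' e'
        · rcases Nat.eq_or_lt_of_le (show v ≤ N - 1 by omega) with c2 | c2
          · rw [c2, hlo] at e'
            exact hu' e'
          · -- crossing
            have sh : ∀ n, P K x (K.rho k₀) (n + 1) = P K x (out K k₀) n := by
              intro n
              rw [P_add]
              congr 1
              show stp K x (K.rho k₀) = out K k₀
              exact hgK.stp hx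
            have h0 : P K x (K.rho k₀) 0 = P K x (out K k₀) (N - 1) := hlast
            have hcross := noncross hx (M := K) (p := K.rho k₀) hgK.2 (k := u + 1) (j := m + 1)
              (l := v + 1) (by omega) (by omega) (by omega) ?_ ?_ ?_
            · rw [sh] at hcross
              exact hu' (hcross.trans c0)
            · intro a b hab hbl
              obtain ⟨b', rfl⟩ : ∃ b', b = b' + 1 := ⟨b - 1, by omega⟩
              rw [sh]
              cases a with
              | zero =>
                rw [h0]
                exact (hinj b' (N - 1) (by omega) (by omega)).symm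
              | succ a =>
                rw [sh]
                exact hinj a b' (by omega) (by omega)
            · rw [sh]
              exact hm.trans c0.symm
            · rw [sh, sh]
              exact e

end Crest.Agent.R143.ChordCx357
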