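import Crest.Agent.R143.Chord_355
import Crest.Agent.R143.ChordC_357

/-!
# Row 143 (S0194), block H, leaf H2a, part 2: joined chords (helper355)

`M` closed map, `x` even configuration (later `x = cfg M χ`).
* `Oa M x p₀ b Rv` : explored OUTER ARC = the states `P p₀ 0, .., P p₀ (b - 1)`; its right cells are
  in `Rv` (revealed cells)
* `Jc M x p₀ b Rv k n` : JOINED CHORD with the start gap `k`: the walker starts at `rho k`, whose left
  cell is a left cell of the outer arc, comes back to such a cell after `n` steps (first time), its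
  right cells are not in `Rv`, and its right cells are connected with the right cells of the outer arc
* `pot` : the potential of the outer arc, a function on the cells
* `Jc.sum` : `∑_{blk M x k} φ = ∑_{cset} φ + pot (start) - pot (end)`
* `Jc.inj` : different joined chords are in different blocks
* `sum_joined` : `∑_{joined chords} ‖∑_{cset} φ + pot - pot‖² ≤ ∑_{β ∈ Big} ‖∑_β φ‖²`
-/

set_option autoImplicit false

noncomputable section

open scoped Classical

namespace Crest.Agent.R143.Chord2x355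

open Crest.Agent.R143.Frame1x395 Crest.Agent.R143.Frame2x395 Crest.Agent.R143.Frame3x395
  Crest.Agent.R143.Frame8x395 Crest.Agent.R143.Frame11x395 Crest.Agent.R143.NonXx592
  Crest.Agent.R143.Chordx355 Crest.Agent.R143.ChordCx357

variable {D C : Type} {M : CMap D C} {x : D → ZMod 2}

/-! ### connectivity along the walk -/

theorem con_left (h : IsC M ∅ x) {p : D} (hp : x p = 1) (j : ℕ) :
    Con M x (M.cell p) (M.cell (P M x p j)) := by
  induction j with
  | zero => exact Relation.EqvGen.refl _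
  | succ j ih =>
    refine Relation.EqvGen.trans _ _ _ ih ?_
    rw [P_succ]
    rcases stp_cases h (P_occ h hp j) (Set.notMem_empty _) with ⟨h1, h2, e⟩ | ⟨h1, h2, e⟩
    · rw [e, M.cell_iota _ (h.lv h1)]
      refine Relation.EqvGen.symm _ _ (Relation.EqvGen.rel _ _ ⟨_, h2, rfl, ?_⟩)
      rw [M.rho3]
    · rw [e, M.cell_iota _ (h.lv h2), M.rho3]
      exact Relation.EqvGen.refl _

theorem con_right (h : IsC M ∅ x) {p : D} (hp : x p = 1) (j : ℕ) :
    Con M x (M.cell (M.rho p)) (M.cell (M.rho (P M x p j))) := by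
  induction j with
  | zero => exact Relation.EqvGen.refl _
  | succ j ih =>
    refine Relation.EqvGen.trans _ _ _ ih ?_
    rw [P_succ]
    rcases stp_cases h (P_occ h hp j) (Set.notMem_empty _) with ⟨h1, h2, e⟩ | ⟨h1, h2, e⟩
    · rw [e, cell_rho_iota M (h.lv h1)]
      exact Relation.EqvGen.refl _
    · rw [e, cell_rho_iota M (h.lv h2)]
      exact Relation.EqvGen.rel _ _ ⟨_, h1, rfl, rfl⟩

/-- the loop of an occupied dart -/
theorem exists_lp [Finite D] (h : IsC M ∅ x) {p : D} (hp : x p = 1) : ∃ N, Lp M x p N := by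
  have h1 : ∃ N, 0 < N ∧ P M x p N = p := periodic h hp
  refine ⟨Nat.find h1, h, hp, (Nat.find_spec h1).1, (Nat.find_spec h1).2, ?_⟩
  intro a b hab hb e
  have h2 : P M x p (b - a) = p := by
    have e2 : P M x p b = P M x (P M x p (b - a)) a := by
      rw [← P_add]; congr 1; omega
    rw [e2] at e
    exact (it_inj h (P_occ h hp _) hp a e.symm)
  exact Nat.find_min h1 (m := b - a) (by omega) ⟨by omega, h2⟩

/-! ### the chord set and the chord sum -/

theorem mem_cset0 [Fintype D] (hx : IsC M ∅ x) {e : D} (he : x e = 1) {n : ℕ} {h : D} :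
    h ∈ cset M (P M x e) 0 n ↔
      ∃ m, m < n ∧ NL (lc M x e) 0 n m ∧ Gp M x (gt M x e m) ∧ gt M x e m = h := by
  rw [mem_cset]
  constructor
  · rintro ⟨s, -, h2, h3, h4, h5⟩
    have e1 := gt_eq h3
    refine ⟨s, h2, fun u hu1 hu2 v hv1 hv2 => h5 u v hu1 hu2 hv1 hv2, ?_, e1⟩
    rw [e1]
    refine gp_of_out hx (P_occ hx he s) h3 ?_
    rw [h4, P_succ]
  · rintro ⟨m, h1, h2, h3, rfl⟩
    refine ⟨m, Nat.zero_le _, h1, rho_gt e m, ?_, fun u v a1 a2 a3 a4 => h2 u a1 a2 v a3 a4⟩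
    exact out_eq hx h3 (rho_gt e m)

theorem cset_sum [Fintype D] (hx : IsC M ∅ x) {e : D} (he : x e = 1) {n : ℕ}
    (hinj : ∀ a b, a < b → b < n → P M x e a ≠ P M x e b) {A : Type*} [AddCommMonoid A]
    (φ : D → A) : ∑ h ∈ cset M (P M x e) 0 n, φ h = chs M x e n φ := by
  unfold chs
  have e1 : ∀ m ∈ Finset.range n, (if NL (lc M x e) 0 n m then vl M x e φ m else 0) =
      if NL (lc M x e) 0 n m ∧ Gp M x (gt M x e m) then φ (gt M x e m) else 0 := by
    intro m _
    unfold vl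
    by_cases h1 : NL (lc M x e) 0 n m
    · by_cases h2 : Gp M x (gt M x e m)
      · rw [if_pos h1, if_pos h2, if_pos ⟨h1, h2⟩]
      · rw [if_pos h1, if_neg h2, if_neg fun h => h2 h.2]
    · rw [if_neg h1, if_neg fun h => h1 h.1]
  rw [Finset.sum_congr rfl e1, ← Finset.sum_filter]
  symm
  refine Finset.sum_bij (fun m _ => gt M x e m) ?_ ?_ ?_ ?_
  · intro m hm
    obtain ⟨h1, h2, h3⟩ := Finset.mem_filter.1 hm
    exact (mem_cset0 hx he).2 ⟨m, Finset.mem_range.1 h1, h2, h3, rfl⟩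
  · intro a ha b hb eab
    have ha' := Finset.mem_range.1 (Finset.mem_filter.1 ha).1
    have hb' := Finset.mem_range.1 (Finset.mem_filter.1 hb).1
    have e' : P M x e a = P M x e b := by
      rw [← rho_gt e a, ← rho_gt e b]
      exact congrArg M.rho eab
    rcases lt_trichotomy a b with h1 | h1 | h1
    · exact absurd e' (hinj a b h1 hb')
    · exact h1
    · exact absurd e'.symm (hinj b a h1 ha')
  · intro k hk
    obtain ⟨m, h1, h2, h3, h4⟩ := (mem_cset0 hx he).1 hk
    exact ⟨m, Finset.mem_filter.2 ⟨Finset.mem_range.2 h1, h2, h3⟩, h4⟩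
  · intro m _
    rfl

/-! ### outer arc and joined chords -/

/-- the explored outer arc -/
structure Oa (M : CMap D C) (x : D → ZMod 2) (p₀ : D) (b : ℕ) (Rv : Set C) : Prop where
  ev : IsC M ∅ x
  occ : x p₀ = 1
  rv : ∀ a, a < b → M.cell (M.rho (P M x p₀ a)) ∈ Rv

/-- a chord with the start gap `k` and `n` steps, joined to the outer arc by its right cells -/
structure Jc (M : CMap D C) (x : D → ZMod 2) (p₀ : D) (b : ℕ) (Rv : Set C) (k : D) (n : ℕ) :
    Prop where
  gp : Gp M x k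
  pos : 0 < n
  c0 : ∃ a, a < b ∧ lc M x p₀ a = M.cell (M.rho k)
  c1 : ∃ a, a < b ∧ lc M x p₀ a = lc M x (M.rho k) n
  int : ∀ u, 0 < u → u < n → ∀ a, a < b → lc M x (M.rho k) u ≠ lc M x p₀ a
  new : ∀ u, u ≤ n → M.cell (M.rho (P M x (M.rho k) u)) ∉ Rv
  join : Con M x (M.cell (M.rho p₀)) (M.cell (M.rho (M.rho k)))

variable {p₀ : D} {b : ℕ} {Rv : Set C} {N : ℕ}

/-- **a joined chord is a chord of the loop of the outer arc** -/
theorem Jc.ch [Finite D] (O : Oa M x p₀ b Rv) (L : Lp M x p₀ N) {k : D} {n : ℕ}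
    (J : Jc M x p₀ b Rv k n) : ∃ t, M.rho k = P M x p₀ t ∧ Ch (lc M x p₀) N b t n := by
  obtain ⟨a0, ha0, e0⟩ := J.c0
  have hk1 : x (M.rho k) = 1 := J.gp.2
  obtain ⟨m, hm⟩ := same_loop O.ev O.occ hk1
    (e0 ▸ con_left O.ev O.occ a0) J.join
  have hm' : M.rho k = P M x p₀ (m % N) := by
    rw [← L.mod m]; exact hm.symm
  have htN : m % N < N := Nat.mod_lt _ L.pos
  set t := m % N with ht
  have sh : ∀ u, P M x (M.rho k) u = P M x p₀ (t + u) := by
    intro u
    rw [hm', ← P_add, add_comm u t]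
  have lsh : ∀ u, lc M x (M.rho k) u = lc M x p₀ (t + u) := by
    intro u
    unfold lc
    rw [sh u]
  have hbt : b ≤ t := by
    by_contra hc
    have h1 := J.new 0 (Nat.zero_le _)
    rw [sh 0, add_zero] at h1
    exact h1 (O.rv t (by omega))
  have hb0 : 0 < b := by
    obtain ⟨a, ha, -⟩ := J.c0
    omega
  have htn : t + n < N := by
    by_contra hc
    have h1 := J.new (N - t) (by omega)
    rw [sh (N - t), show t + (N - t) = N by omega, L.per] at h1
    exact h1 (O.rv 0 hb0)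
  refine ⟨t, hm', mkCh L hbt htn ?_ ?_ ?_⟩
  · obtain ⟨a, ha, e⟩ := J.c0
    refine ⟨a, ha, e.trans ?_⟩
    rw [hm']
    rfl
  · obtain ⟨a, ha, e⟩ := J.c1
    exact ⟨a, ha, e.trans (lsh n)⟩
  · intro u hu1 hu2 a ha
    have := J.int (u - t) (by omega) (by omega) a ha
    rwa [lsh, show t + (u - t) = u by omega] at this

/-- the potential of the outer arc at a cell -/
def pot {A : Type*} [AddCommMonoid A] (M : CMap D C) (x : D → ZMod 2) (p₀ : D) (b : ℕ) (φ : D → A)
    (c : C) : A :=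
  if h : ∃ a, a < b ∧ lc M x p₀ a = c then Fo M x p₀ b φ (Nat.find h) else 0

theorem pot_eq {A : Type*} [AddCommMonoid A] (φ : D → A) {a : ℕ} (ha : a < b) {c : C}
    (e : lc M x p₀ a = c) : pot M x p₀ b φ c = Fo M x p₀ b φ a := by
  have h : ∃ a, a < b ∧ lc M x p₀ a = c := ⟨a, ha, e⟩
  unfold pot
  rw [dif_pos h]
  obtain ⟨h1, h2⟩ := Nat.find_spec h
  exact fo_cell φ h1 ha (h2.trans e.symm)

/-- **the plane block of a joined chord** -/
theorem Jc.sum [Fintype D] (O : Oa M x p₀ b Rv) {k : D} {n : ℕ} (J : Jc M x p₀ b Rv k n)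
    {A : Type*} [AddCommGroup A] (φ : D → A) :
    ∑ h ∈ blk M x k, φ h = ∑ h ∈ cset M (P M x (M.rho k)) 0 n, φ h +
      (pot M x p₀ b φ (M.cell (M.rho k)) - pot M x p₀ b φ (lc M x (M.rho k) n)) := by
  obtain ⟨N, L⟩ := exists_lp O.ev O.occ
  obtain ⟨t, ht, H⟩ := J.ch O L
  obtain ⟨i, hi, ci⟩ := J.c0
  obtain ⟨j, hj, cj⟩ := J.c1
  have hn := J.pos
  have htn := H.tn
  have e1 : lc M x p₀ (t + n) = lc M x (M.rho k) n := by
    rw [ht]
    exact (lc_shift p₀ t n).symm
  have e2 : lc M x p₀ t = M.cell (M.rho k) := by rw [ht]; rfl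
  have hnl : NL (lc M x p₀) t (t + n) t := by
    intro u hu1 hu2
    omega
  have := chord_pot L H (s := t) le_rfl (by omega) hnl J.gp ht φ hi hj (ci.trans e2.symm)
    (cj.trans e1.symm)
  rw [this, ← ht]
  rw [cset_sum O.ev J.gp.2, pot_eq φ hi ci, pot_eq φ hj cj]
  intro a c hac hc
  rw [ht, ← P_add, ← P_add]
  exact L.inj _ _ (by omega) (by omega)

/-- **different joined chords are in different blocks** -/
theorem Jc.inj [Fintype D] (O : Oa M x p₀ b Rv) {k k' : D} {n n' : ℕ} (J : Jc M x p₀ b Rv k n)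
    (J' : Jc M x p₀ b Rv k' n') (R : Rel M x k k') : k = k' ∧ n = n' := by
  obtain ⟨N, L⟩ := exists_lp O.ev O.occ
  obtain ⟨t, ht, H⟩ := J.ch O L
  obtain ⟨t', ht', H'⟩ := J'.ch O L
  have hn := J.pos
  have hn' := J'.pos
  have hnl : NL (lc M x p₀) t (t + n) t := by
    intro u hu1 hu2
    omega
  obtain ⟨e1, e2⟩ := chord_disj L H H' (s := t) (s' := t') le_rfl (by omega) hnl le_rfl
    (by omega) J.gp ht J'.gp ht' R
  subst e1
  exact ⟨rho_inj M (ht.trans ht'.symm), e2⟩

/-- the value of a chord: chord sum and difference of the potential at its two end cells -/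
def cv [Fintype D] (M : CMap D C) (x : D → ZMod 2) (p₀ : D) (b : ℕ) (φ : D → ℂ) (k : D) (n : ℕ) :
    ℂ := ∑ h ∈ cset M (P M x (M.rho k)) 0 n, φ h +
      (pot M x p₀ b φ (M.cell (M.rho k)) - pot M x p₀ b φ (lc M x (M.rho k) n))

/-- **the joined chords are paid by different closed blocks of the same configuration** -/
theorem sum_joined [Fintype D] (O : Oa M x p₀ b Rv) (Γ : Finset D) (n : D → ℕ)
    (hΓ : ∀ k ∈ Γ, Jc M x p₀ b Rv k (n k)) (φ : D → ℂ) (Big : Finset (Finset D))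
    (hBig : ∀ k ∈ Γ, blk M x k ∈ Big) :
    ∑ k ∈ Γ, ‖cv M x p₀ b φ k (n k)‖ ^ 2 ≤ ∑ β ∈ Big, ‖∑ h ∈ β, φ h‖ ^ 2 := by
  have h1 : ∀ k ∈ Γ, ‖cv M x p₀ b φ k (n k)‖ ^ 2 = ‖∑ h ∈ blk M x k, φ h‖ ^ 2 := by
    intro k hk
    rw [(hΓ k hk).sum O φ]
    rfl
  have hinj : Set.InjOn (fun k => blk M x k) (Γ : Set D) := by
    intro k hk k' hk' e
    have h2 : k' ∈ blk M x k := by
      have : k' ∈ blk M x k' := self_mem (hΓ k' hk').gp
      rw [show blk M x k = blk M x k' from e]
      exact this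
    exact ((hΓ k hk).inj O (hΓ k' hk') (mem_blk.1 h2).2).1
  rw [Finset.sum_congr rfl h1, ← Finset.sum_image (f := fun β => ‖∑ h ∈ β, φ h‖ ^ 2)
    (fun a ha c hc e => hinj ha hc e)]
  refine Finset.sum_le_sum_of_subset_of_nonneg ?_ (fun _ _ _ => by positivity)
  intro β hβ
  obtain ⟨k, hk, rfl⟩ := Finset.mem_image.1 hβ
  exact hBig k hk

end Crest.Agent.R143.Chord2x355
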