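import Crest.Agent.R143.Coarse_166

/-!
# Row 143 (S0194), block H, leaf H2a: chord + outer arc = one closed block (helper355)

Any closed map `M`, any even configuration `x`, a loop `P 0, .., P (N - 1)` with left cells `c u`.
* `Ch c N b t n` : combinatorial data of a CHORD: the outer arc of the loop = the times `< b`, the
  chord = the times `t, .., t + n` (`b ≤ t`, `t + n < N`), its two end cells `c t`, `c (t + n)` are
  touched by the outer arc, the cells strictly between are not
* `chord_blk` : for a gap `g` of the chord which is not in a lobe of the chord: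
  `h ∈ blk M x g` iff `h` is a gap of the chord (not in a lobe of it), or a gap of the outer arc (not
  in a lobe of the outer arc) at a time after the last visit of `c (t + n)` and before the first
  visit of `c t`
* `chord_sum` : the sum over the block of `g` = chord sum + `Fo (time of c t) - Fo (time of c (t+n))`
* `chord_disj` : two different chords of the loop are in different blocks
-/

set_option autoImplicit false

noncomputable section

open scoped Classical

namespace Crest.Agent.R143.Chordx355

open Crest.Agent.R143.Frame1x395 Crest.Agent.R143.Frame2x395 Crest.Agent.R143.Frame3x395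
  Crest.Agent.R143.Frame8x395 Crest.Agent.R143.NonXx592

variable {D C : Type} {M : CMap D C} {x : D → ZMod 2}

/-! ### words -/

/-- no left cell is visited on both arcs between the positions `i < j` -/
def Sep (c : ℕ → C) (N i j : ℕ) : Prop :=
  ∀ u, i < u → u ≤ j → ∀ v, v < N → (v ≤ i ∨ j < v) → c u ≠ c v

/-- a chord -/
structure Ch (c : ℕ → C) (N b t n : ℕ) : Prop where
  nc : ∀ i j k l, i < j → j < k → k < l → l < N → c i = c k → c j = c l → c j = c i
  bt : b ≤ t
  tn : t + n < N
  p : ∃ a, a < b ∧ c a = c t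
  q : ∃ a, a < b ∧ c a = c (t + n)
  int : ∀ u, t < u → u < t + n → ∀ a, a < b → c u ≠ c a

/-- the position `s` is not in a lobe of the piece `t .. e` (end points excluded) -/
def NL (c : ℕ → C) (t e s : ℕ) : Prop := ∀ u, t < u → u ≤ s → ∀ v, s < v → v < e → c u ≠ c v

/-- the position `a` is not in a lobe of the outer arc -/
def NO (c : ℕ → C) (b a : ℕ) : Prop := ∀ u, a < u → u < b → ∀ v, v ≤ a → c u ≠ c v

variable {c : ℕ → C} {N b t n : ℕ}

theorem Ch.outer (H : Ch c N b t n) {a s : ℕ} (ha : a < b) (hs1 : t ≤ s) (hs2 : s < t + n)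
    (hnl : NL c t (t + n) s) :
    Sep c N a s ↔ NO c b a ∧ (∀ u, a < u → u < b → c u ≠ c (t + n)) ∧ ∀ v, v ≤ a → c v ≠ c t := by
  have hbt := H.bt
  have htn := H.tn
  constructor
  · intro S
    refine ⟨fun u h1 h2 v h3 => S u h1 (by omega) v (by omega) (Or.inl h3), fun u h1 h2 =>
      S u h1 (by omega) (t + n) htn (Or.inr hs2), fun v hv e => ?_⟩
    exact S t (by omega) hs1 v (by omega) (Or.inl hv) e.symm
  · rintro ⟨h1, h2, h3⟩ u hu1 hu2 v hvN hv e
    obtain ⟨p, hpb, hp⟩ := H.p
    obtain ⟨q, hqb, hq⟩ := H.q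
    have hap : a < p := by
      by_contra hc
      exact h3 p (by omega) hp
    have hqa : q ≤ a := by
      by_contra hc
      exact h2 q (by omega) hqb hq
    -- `c p ≠ c q`
    have hpq : c p ≠ c q := fun e' => h2 p hap hpb (e'.trans hq)
    rcases lt_or_ge u b with c1 | c1
    · -- `u` on the outer arc
      rcases hv with hv | hv
      · exact h1 u hu1 c1 v hv e
      · rcases lt_trichotomy v (t + n) with c2 | c2 | c2
        · exact H.int v (by omega) c2 u c1 e.symm
        · rw [c2] at e
          exact h2 u hu1 c1 e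
        · have := H.nc q u (t + n) v (by omega) (by omega) c2 hvN hq e
          exact h2 u hu1 c1 (this.trans hq)
    · rcases lt_trichotomy u t with c2 | c2 | c2
      · rcases hv with hv | hv
        · have := H.nc v p u t (by omega) (by omega) c2 (by omega) e.symm hp
          exact h3 v hv (this ▸ hp)
        · rcases lt_trichotomy v (t + n) with c3 | c3 | c3
          · have := H.nc p u t v (by omega) c2 (by omega) hvN hp e
            exact H.int v (by omega) c3 p hpb (e.symm.trans this)
          · rw [c3, ← hq] at e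
            have := H.nc q p u t (by omega) (by omega) c2 (by omega) e.symm hp
            exact hpq this
          · have h4 := H.nc p u t v (by omega) c2 (by omega) hvN hp e
            have h5 := H.nc q p (t + n) v (by omega) (by omega) c3 hvN hq (h4.symm.trans e)
            exact hpq h5
      · subst c2
        rcases hv with hv | hv
        · exact h3 v hv e.symm
        · rcases lt_trichotomy v (u + n) with c3 | c3 | c3
          · exact H.int v (by omega) c3 p hpb (e.symm.trans hp.symm)
          · rw [c3] at e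
            exact h2 p hap hpb (hp.trans e)
          · have h5 := H.nc q p (u + n) v (by omega) (by omega) c3 hvN hq (hp.trans e)
            exact hpq h5
      · rcases hv with hv | hv
        · exact H.int u c2 (by omega) v (by omega) e
        · rcases lt_trichotomy v (t + n) with c3 | c3 | c3
          · exact hnl u c2 hu2 v hv c3 e
          · rw [c3, ← hq] at e
            exact H.int u c2 (by omega) q hqb e
          · have h5 := H.nc q u (t + n) v (by omega) (by omega) c3 hvN hq e
            exact H.int u c2 (by omega) q hqb h5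

theorem Ch.inner (H : Ch c N b t n) {s s' : ℕ} (h0 : t ≤ s) (hss : s < s') (hs2 : s' < t + n)
    (h1 : NL c t (t + n) s) (h2 : NL c t (t + n) s') : Sep c N s s' := by
  have hbt := H.bt
  have htn := H.tn
  intro u hu1 hu2 v hvN hv e
  obtain ⟨p, hpb, hp⟩ := H.p
  obtain ⟨q, hqb, hq⟩ := H.q
  have hint : ∀ a, a < b → c u ≠ c a := H.int u (by omega) (by omega)
  rcases hv with hv | hv
  · rcases lt_or_ge v b with c1 | c1
    · exact hint v c1 e
    · rcases lt_trichotomy v t with c2 | c2 | c2
      · have := H.nc p v t u (by omega) c2 (by omega) (by omega) hp e.symm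
        exact hint p hpb (e.trans this)
      · rw [c2, ← hp] at e
        exact hint p hpb e
      · exact h1 v c2 hv u hu1 (by omega) e.symm
  · rcases lt_trichotomy v (t + n) with c2 | c2 | c2
    · exact h2 u (by omega) hu2 v hv c2 e
    · rw [c2, ← hq] at e
      exact hint q hqb e
    · have := H.nc q u (t + n) v (by omega) (by omega) c2 hvN hq e
      exact hint q hqb this

theorem Ch.inner' {s s' : ℕ} (htn : t + n < N) (hss : s < s') (hs2 : s' < t + n)
    (h1 : NL c t (t + n) s) (S : Sep c N s s') : NL c t (t + n) s' := by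
  intro u hu1 hu2 v hv1 hv2 e
  rcases lt_or_ge s u with c1 | c1
  · exact S u c1 hu2 v (by omega) (Or.inr hv1) e
  · exact h1 u hu1 c1 v (by omega) hv2 e

theorem Ch.inner'' {s s' : ℕ} (htn : t + n < N) (hss : s < s') (hs2 : s' < t + n)
    (h1 : NL c t (t + n) s') (S : Sep c N s s') : NL c t (t + n) s := by
  intro u hu1 hu2 v hv1 hv2 e
  rcases lt_or_ge s' v with c1 | c1
  · exact h1 u hu1 (by omega) v c1 hv2 e
  · exact S v hv1 c1 u (by omega) (Or.inl hu2) e.symm

/-- a position between the outer arc and the chord -/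
theorem Ch.r1 (H : Ch c N b t n) {d s : ℕ} (hd1 : b ≤ d) (hd2 : d < t) (hs1 : t ≤ s)
    (hs2 : s < t + n) : ¬ Sep c N d s := by
  have htn := H.tn
  intro S
  obtain ⟨p, hpb, hp⟩ := H.p
  exact S t hd2 hs1 p (by omega) (Or.inl (by omega)) hp.symm

/-- a position after the chord -/
theorem Ch.r2 (H : Ch c N b t n) {d s : ℕ} (hd1 : t + n ≤ d) (hd2 : d < N) (hs1 : t ≤ s)
    (hs2 : s < t + n) : ¬ Sep c N s d := by
  have hbt := H.bt
  intro S
  obtain ⟨q, hqb, hq⟩ := H.q
  exact S (t + n) hs2 hd1 q (by omega) (Or.inl (by omega)) hq.symm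

/-- after the last visit of `c (t + n)` and before the first visit of `c t`, not in a lobe of the
outer arc -/
def Bt (c : ℕ → C) (b t n a : ℕ) : Prop :=
  NO c b a ∧ (∀ u, a < u → u < b → c u ≠ c (t + n)) ∧ ∀ v, v ≤ a → c v ≠ c t

/-! ### loops -/

/-- a loop -/
structure Lp (M : CMap D C) (x : D → ZMod 2) (p : D) (N : ℕ) : Prop where
  ev : IsC M ∅ x
  occ : x p = 1
  pos : 0 < N
  per : P M x p N = p
  inj : ∀ a b, a < b → b < N → P M x p a ≠ P M x p b

/-- the left cells -/
def lc (M : CMap D C) (x : D → ZMod 2) (p : D) (u : ℕ) : C := M.cell (P M x p u)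

/-- the gap at the time `d` (if there is one) -/
def gt (M : CMap D C) (x : D → ZMod 2) (p : D) (d : ℕ) : D := M.rho (M.rho (P M x p d))

theorem rho_gt (p : D) (d : ℕ) : M.rho (gt M x p d) = P M x p d := M.rho3 _

theorem gt_eq {p g : D} {d : ℕ} (h : M.rho g = P M x p d) : gt M x p d = g := by
  unfold gt
  rw [← h, M.rho3]

variable {p : D}

theorem Lp.nc [Finite D] (L : Lp M x p N) (i j k l : ℕ) (hij : i < j) (hjk : j < k) (hkl : k < l)
    (hl : l < N) (h1 : lc M x p i = lc M x p k) (h2 : lc M x p j = lc M x p l) :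
    lc M x p j = lc M x p i := by
  have := noncross L.ev (p := P M x p i) (P_occ L.ev L.occ i) (k := j - i) (j := k - i)
    (l := l - i) (by omega) (by omega) (by omega) ?_ ?_ ?_
  · rw [← P_add, show j - i + i = j by omega] at this
    exact this
  · intro a b hab hb
    rw [← P_add, ← P_add]
    exact L.inj _ _ (by omega) (by omega)
  · rw [← P_add, show k - i + i = k by omega]
    exact h1.symm
  · rw [← P_add, ← P_add, show j - i + i = j by omega, show l - i + i = l by omega]
    exact h2

theorem Lp.rel [Finite D] (L : Lp M x p N) {a b : ℕ} (hab : a < b) (hb : b < N) {g k : D}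
    (hg : Gp M x g) (hk : Gp M x k) (ga : M.rho g = P M x p a) (kb : M.rho k = P M x p b) :
    Rel M x g k ↔ Sep (lc M x p) N a b := by
  rw [lobe L.ev L.occ L.per L.inj le_rfl (by rw [L.per]) hab hb hg hk ga kb]
  constructor
  · intro H u h1 h2 v hv1 hv2
    exact H u h1 h2 v hv1.le hv2
  · intro H u h1 h2 v hv1 hv2
    rcases lt_or_eq_of_le hv1 with h3 | h3
    · exact H u h1 h2 v h3 hv2
    · rw [h3, L.per]
      exact H u h1 h2 0 L.pos (Or.inl (Nat.zero_le _))

theorem per_q {p : D} {N : ℕ} (hN : P M x p N = p) (r k : ℕ) : P M x p (r + N * k) = P M x p r := by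
  induction k with
  | zero => simp
  | succ k ih => rw [Nat.mul_succ, ← add_assoc, P_per hN, ih]

theorem Lp.mod (L : Lp M x p N) (d : ℕ) : P M x p d = P M x p (d % N) := by
  conv_lhs => rw [← Nat.mod_add_div d N]
  exact per_q L.per _ _

/-- related gaps are on the same loop -/
theorem Lp.time [Finite D] (L : Lp M x p N) {g k : D} (hg : Gp M x g) (hk : Gp M x k) {s : ℕ}
    (gs : M.rho g = P M x p s) (H : Rel M x g k) : ∃ d, d < N ∧ M.rho k = P M x p d := by
  suffices h : ∃ d, M.rho k = P M x p d by
    obtain ⟨d, hd⟩ := h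
    exact ⟨d % N, Nat.mod_lt _ L.pos, hd.trans (L.mod d)⟩
  rcases H (M.cell g) with h1 | ⟨m, h1, -⟩ | ⟨m, h1, -⟩
  · exact ⟨s, h1 ▸ gs⟩
  · refine ⟨m + (s + 1), ?_⟩
    rw [P_add, ← out_eq L.ev hg gs]
    exact h1.symm
  · obtain ⟨m', h2⟩ := come_back L.ev hk hg h1
    refine ⟨m' + (s + 1), ?_⟩
    rw [P_add, ← out_eq L.ev hg gs]
    exact h2.symm

/-- **the block of a gap as a sum over the times** -/
theorem Lp.sum [Fintype D] (L : Lp M x p N) {g : D} (hg : Gp M x g) {s : ℕ}
    (gs : M.rho g = P M x p s) {A : Type*} [AddCommMonoid A] (φ : D → A) :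
    ∑ h ∈ blk M x g, φ h = ∑ d ∈ Finset.range N,
      if Gp M x (gt M x p d) ∧ Rel M x g (gt M x p d) then φ (gt M x p d) else 0 := by
  rw [← Finset.sum_filter]
  symm
  refine Finset.sum_bij (fun d _ => gt M x p d) ?_ ?_ ?_ ?_
  · intro d hd
    have := (Finset.mem_filter.1 hd).2
    exact mem_blk.2 this
  · intro a ha b hb e
    have ha' := Finset.mem_range.1 (Finset.mem_filter.1 ha).1
    have hb' := Finset.mem_range.1 (Finset.mem_filter.1 hb).1
    have e' : P M x p a = P M x p b := by
      rw [← rho_gt p a, ← rho_gt p b]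
      exact congrArg M.rho e
    rcases lt_trichotomy a b with h1 | h1 | h1
    · exact absurd e' (L.inj a b h1 hb')
    · exact h1
    · exact absurd e'.symm (L.inj b a h1 ha')
  · intro k hk
    obtain ⟨h1, h2⟩ := mem_blk.1 hk
    obtain ⟨d, hd, hkd⟩ := L.time hg h1 gs h2
    have e := gt_eq hkd
    exact ⟨d, Finset.mem_filter.2 ⟨Finset.mem_range.2 hd, by rw [e]; exact ⟨h1, h2⟩⟩, e⟩
  · intro d _
    rfl

/-! ### the chord -/

/-- chord data on a loop -/
theorem mkCh [Finite D] (L : Lp M x p N) (bt : b ≤ t) (tn : t + n < N)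
    (hp : ∃ a, a < b ∧ lc M x p a = lc M x p t) (hq : ∃ a, a < b ∧ lc M x p a = lc M x p (t + n))
    (hint : ∀ u, t < u → u < t + n → ∀ a, a < b → lc M x p u ≠ lc M x p a) :
    Ch (lc M x p) N b t n :=
  ⟨L.nc, bt, tn, hp, hq, hint⟩

/-- **the block of a gap of the chord** -/
theorem chord_blk [Fintype D] (L : Lp M x p N) (H : Ch (lc M x p) N b t n) {s : ℕ} (hs1 : t ≤ s)
    (hs2 : s < t + n) (hnl : NL (lc M x p) t (t + n) s) {g : D} (hg : Gp M x g)
    (gs : M.rho g = P M x p s) {d : ℕ} (hd : d < N) {k : D} (hk : Gp M x k)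
    (kd : M.rho k = P M x p d) :
    Rel M x g k ↔ (t ≤ d ∧ d < t + n ∧ NL (lc M x p) t (t + n) d) ∨
      (d < b ∧ Bt (lc M x p) b t n d) := by
  have hbt := H.bt
  have htn := H.tn
  rcases lt_trichotomy d s with h1 | h1 | h1
  · have h2 : Rel M x g k ↔ Rel M x k g := ⟨fun h => rel_symm h, fun h => rel_symm h⟩
    rw [h2, L.rel h1 (by omega) hk hg kd gs]
    rcases lt_or_ge d b with c1 | c1
    · rw [H.outer c1 hs1 hs2 hnl]
      constructor
      · exact fun h => Or.inr ⟨c1, h⟩
      · rintro (⟨h3, -⟩ | h3)
        · omega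
        · exact h3.2
    · rcases lt_or_ge d t with c2 | c2
      · constructor
        · exact fun h => absurd h (H.r1 c1 c2 hs1 hs2)
        · rintro (⟨h3, -⟩ | h3)
          · omega
          · omega
      · constructor
        · exact fun h => Or.inl ⟨c2, by omega, Ch.inner'' htn h1 hs2 hnl h⟩
        · rintro (⟨-, -, h3⟩ | h3)
          · exact H.inner c2 h1 hs2 h3 hnl
          · omega
  · subst h1
    have e : g = k := rho_inj M (gs.trans kd.symm)
    subst e
    exact ⟨fun _ => Or.inl ⟨hs1, hs2, hnl⟩, fun _ => rel_refl g⟩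
  · rw [L.rel h1 hd hg hk gs kd]
    rcases lt_or_ge d (t + n) with c1 | c1
    · constructor
      · exact fun h => Or.inl ⟨by omega, c1, Ch.inner' htn h1 c1 hnl h⟩
      · rintro (⟨-, -, h3⟩ | h3)
        · exact H.inner hs1 h1 c1 hnl h3
        · omega
    · constructor
      · exact fun h => absurd h (H.r2 c1 hd hs1 hs2)
      · rintro (⟨-, h3, -⟩ | h3)
        · omega
        · omega

/-- value of the gap at the time `d` -/
def vl {A : Type*} [AddCommMonoid A] (M : CMap D C) (x : D → ZMod 2) (p : D) (φ : D → A) (d : ℕ) :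
    A := if Gp M x (gt M x p d) then φ (gt M x p d) else 0

/-- **chord sum**: the walker starts at `e`, `n` steps, the gaps which are not in a lobe -/
def chs {A : Type*} [AddCommMonoid A] (M : CMap D C) (x : D → ZMod 2) (e : D) (n : ℕ) (φ : D → A) :
    A := ∑ m ∈ Finset.range n, if NL (lc M x e) 0 n m then vl M x e φ m else 0

theorem lc_shift (p : D) (t m : ℕ) : lc M x (P M x p t) m = lc M x p (t + m) := by
  unfold lc
  rw [← P_add, add_comm]

theorem gt_shift (p : D) (t m : ℕ) : gt M x (P M x p t) m = gt M x p (t + m) := by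
  unfold gt
  rw [← P_add, add_comm]

theorem nl_shift (p : D) (t n m : ℕ) :
    NL (lc M x (P M x p t)) 0 n m ↔ NL (lc M x p) t (t + n) (t + m) := by
  constructor
  · intro H u h1 h2 v h3 h4
    have := H (u - t) (by omega) (by omega) (v - t) (by omega) (by omega)
    rwa [lc_shift, lc_shift, show t + (u - t) = u by omega, show t + (v - t) = v by omega] at this
  · intro H u h1 h2 v h3 h4
    rw [lc_shift, lc_shift]
    exact H _ (by omega) (by omega) _ (by omega) (by omega)

/-- **the sum over the block of a gap of the chord** -/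
theorem chord_sum [Fintype D] (L : Lp M x p N) (H : Ch (lc M x p) N b t n) {s : ℕ} (hs1 : t ≤ s)
    (hs2 : s < t + n) (hnl : NL (lc M x p) t (t + n) s) {g : D} (hg : Gp M x g)
    (gs : M.rho g = P M x p s) {A : Type*} [AddCommMonoid A] (φ : D → A) :
    ∑ h ∈ blk M x g, φ h = chs M x (P M x p t) n φ +
      ∑ a ∈ Finset.range b, if Bt (lc M x p) b t n a then vl M x p φ a else 0 := by
  have hbt := H.bt
  have htn := H.tn
  rw [L.sum hg gs φ]
  have e1 : ∀ d ∈ Finset.range N,
      (if Gp M x (gt M x p d) ∧ Rel M x g (gt M x p d) then φ (gt M x p d) else 0) =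
      (if t ≤ d ∧ d < t + n ∧ NL (lc M x p) t (t + n) d then vl M x p φ d else 0) +
      (if d < b ∧ Bt (lc M x p) b t n d then vl M x p φ d else 0) := by
    intro d hd
    have hd' := Finset.mem_range.1 hd
    by_cases hk : Gp M x (gt M x p d)
    · have key := chord_blk L H hs1 hs2 hnl hg gs hd' hk (rho_gt p d)
      have hv : vl M x p φ d = φ (gt M x p d) := if_pos hk
      rw [hv]
      by_cases h1 : t ≤ d ∧ d < t + n ∧ NL (lc M x p) t (t + n) d
      · have h2 : ¬ (d < b ∧ Bt (lc M x p) b t n d) := fun h => by omega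
        rw [if_pos ⟨hk, key.2 (Or.inl h1)⟩, if_pos h1, if_neg h2, add_zero]
      · by_cases h2 : d < b ∧ Bt (lc M x p) b t n d
        · rw [if_pos ⟨hk, key.2 (Or.inr h2)⟩, if_neg h1, if_pos h2, zero_add]
        · rw [if_neg, if_neg h1, if_neg h2, add_zero]
          rintro ⟨-, h3⟩
          rcases key.1 h3 with h4 | h4
          · exact h1 h4
          · exact h2 h4
    · have hv : vl M x p φ d = 0 := if_neg hk
      rw [hv, ite_self, ite_self, add_zero, if_neg]
      exact fun h => hk h.1
  rw [Finset.sum_congr rfl e1, Finset.sum_add_distrib]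
  congr 1
  · -- the chord
    unfold chs
    have e2 : ∀ m ∈ Finset.range n, (if NL (lc M x (P M x p t)) 0 n m then
        vl M x (P M x p t) φ m else 0) =
        (fun d => if t ≤ d ∧ d < t + n ∧ NL (lc M x p) t (t + n) d then vl M x p φ d else 0)
          (t + m) := by
      intro m hm
      have hm' := Finset.mem_range.1 hm
      have h1 : vl M x (P M x p t) φ m = vl M x p φ (t + m) := by
        unfold vl
        rw [gt_shift]
      rw [h1]
      simp only [nl_shift]
      by_cases h2 : NL (lc M x p) t (t + n) (t + m)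
      · rw [if_pos h2, if_pos ⟨by omega, by omega, h2⟩]
      · rw [if_neg h2, if_neg fun h => h2 h.2.2]
    rw [Finset.sum_congr rfl e2]
    symm
    have e3 := Finset.sum_image (s := Finset.range n) (g := fun m => t + m)
      (f := fun d => if t ≤ d ∧ d < t + n ∧ NL (lc M x p) t (t + n) d then vl M x p φ d else 0)
      (fun a _ b _ h => by simpa using h)
    rw [← e3]
    refine Finset.sum_subset ?_ ?_
    · intro d hd
      obtain ⟨m, hm, rfl⟩ := Finset.mem_image.1 hd
      have := Finset.mem_range.1 hm
      exact Finset.mem_range.2 (by omega)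
    · intro d hd1 hd2
      rw [if_neg]
      rintro ⟨h1, h2, -⟩
      exact hd2 (Finset.mem_image.2 ⟨d - t, Finset.mem_range.2 (by omega), by omega⟩)
  · -- the outer arc
    symm
    have e2 : ∀ a ∈ Finset.range b, (if Bt (lc M x p) b t n a then vl M x p φ a else 0) =
        if a < b ∧ Bt (lc M x p) b t n a then vl M x p φ a else 0 := by
      intro a ha
      have := Finset.mem_range.1 ha
      simp only [this, true_and]
    rw [Finset.sum_congr rfl e2]
    refine Finset.sum_subset ?_ ?_
    · intro d hd
      have := Finset.mem_range.1 hd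
      exact Finset.mem_range.2 (by omega)
    · intro d _ hd2
      rw [if_neg]
      rintro ⟨h1, -⟩
      exact hd2 (Finset.mem_range.2 h1)

/-! ### the potential of the outer arc -/

/-- potential of the outer arc `E 0 .. E (b - 1)`: the gaps before the time `k` which are not in a
lobe of the outer arc -/
def Fo {A : Type*} [AddCommMonoid A] (M : CMap D C) (x : D → ZMod 2) (p : D) (b : ℕ) (φ : D → A)
    (k : ℕ) : A := ∑ a ∈ Finset.range k, if NO (lc M x p) b a then vl M x p φ a else 0

/-- the potential is a function of the cell -/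
theorem fo_cell {A : Type*} [AddCommMonoid A] (φ : D → A) {k k' : ℕ} (hk : k < b) (hk' : k' < b)
    (e : lc M x p k = lc M x p k') : Fo M x p b φ k = Fo M x p b φ k' := by
  wlog h : k ≤ k' generalizing k k'
  · exact (this hk' hk e.symm (by omega)).symm
  unfold Fo
  refine Finset.sum_subset ?_ ?_
  · intro d hd
    have := Finset.mem_range.1 hd
    exact Finset.mem_range.2 (by omega)
  · intro a h1 h2
    rw [if_neg]
    intro h3
    have h1' := Finset.mem_range.1 h1
    have h2' : ¬ a < k := fun h => h2 (Finset.mem_range.2 h)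
    exact h3 k' h1' hk' k (by omega) e.symm

theorem bt_iff (H : Ch c N b t n) {i j a : ℕ} (hi : i < b) (hj : j < b) (ci : c i = c t)
    (cj : c j = c (t + n)) (hne : c i ≠ c j) (ha : a < b) :
    Bt c b t n a ↔ NO c b a ∧ j ≤ a ∧ a < i := by
  have hbt := H.bt
  have htn := H.tn
  constructor
  · rintro ⟨h1, h2, h3⟩
    refine ⟨h1, ?_, ?_⟩
    · by_contra hc
      exact h2 j (by omega) hj cj
    · by_contra hc
      exact h3 i (by omega) ci
  · rintro ⟨h1, h2, h3⟩
    refine ⟨h1, fun u hu1 hu2 e => ?_, fun v hv e => ?_⟩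
    · exact h1 u hu1 hu2 j h2 (e.trans cj.symm)
    · exact h1 i h3 hi v hv (ci.trans e.symm)

/-- the order of the end points -/
theorem Ch.ord (H : Ch c N b t n) (hn : 0 < n) {i j : ℕ} (hi : i < b) (hj : j < b) (ci : c i = c t)
    (cj : c j = c (t + n)) (hne : c i ≠ c j) : j < i := by
  have hbt := H.bt
  have htn := H.tn
  by_contra hc
  rcases lt_or_eq_of_le (not_lt.1 hc) with h1 | h1
  · exact hne (H.nc i j t (t + n) h1 (by omega) (by omega) htn ci cj).symm
  · exact hne (by rw [h1])

/-- **the sum over the block = chord + difference of the potential** -/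
theorem chord_pot [Fintype D] (L : Lp M x p N) (H : Ch (lc M x p) N b t n) {s : ℕ} (hs1 : t ≤ s)
    (hs2 : s < t + n) (hnl : NL (lc M x p) t (t + n) s) {g : D} (hg : Gp M x g)
    (gs : M.rho g = P M x p s) {A : Type*} [AddCommGroup A] (φ : D → A) {i j : ℕ} (hi : i < b)
    (hj : j < b) (ci : lc M x p i = lc M x p t) (cj : lc M x p j = lc M x p (t + n)) :
    ∑ h ∈ blk M x g, φ h =
      chs M x (P M x p t) n φ + (Fo M x p b φ i - Fo M x p b φ j) := by
  rw [chord_sum L H hs1 hs2 hnl hg gs φ]
  congr 1
  by_cases hne : lc M x p i = lc M x p j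
  · rw [fo_cell φ hi hj hne, sub_self]
    refine Finset.sum_eq_zero fun a ha => ?_
    have ha' := Finset.mem_range.1 ha
    rw [if_neg]
    rintro ⟨-, h2, h3⟩
    rcases lt_or_ge a i with c1 | c1
    · exact h2 i c1 hi (hne.trans cj)
    · exact h3 i c1 ci
  · have hlt := H.ord (by omega) hi hj ci cj hne
    unfold Fo
    rw [eq_sub_iff_add_eq]
    have e1 : ∑ a ∈ Finset.range b, (if Bt (lc M x p) b t n a then vl M x p φ a else 0) =
        ∑ a ∈ Finset.Ico j i, if NO (lc M x p) b a then vl M x p φ a else 0 := by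
      symm
      have e2 : ∀ a ∈ Finset.Ico j i, (if NO (lc M x p) b a then vl M x p φ a else 0) =
          if Bt (lc M x p) b t n a then vl M x p φ a else 0 := by
        intro a ha
        have ha' := Finset.mem_Ico.1 ha
        have := bt_iff H hi hj ci cj hne (a := a) (by omega)
        by_cases h1 : NO (lc M x p) b a
        · rw [if_pos h1, if_pos (this.2 ⟨h1, ha'.1, ha'.2⟩)]
        · rw [if_neg h1, if_neg fun h => h1 h.1]
      rw [Finset.sum_congr rfl e2]
      refine Finset.sum_subset ?_ ?_
      · intro d hd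
        have := Finset.mem_Ico.1 hd
        exact Finset.mem_range.2 (by omega)
      · intro a h1 h2
        have h1' := Finset.mem_range.1 h1
        rw [if_neg]
        intro h3
        have h4 := (bt_iff H hi hj ci cj hne h1').1 h3
        exact h2 (Finset.mem_Ico.2 h4.2)
    rw [e1, add_comm, Finset.sum_range_add_sum_Ico _ hlt.le]

/-- **two different chords are in different blocks** -/
theorem chord_disj [Fintype D] (L : Lp M x p N) {t' n' : ℕ} (H : Ch (lc M x p) N b t n)
    (H' : Ch (lc M x p) N b t' n') {s s' : ℕ} (hs1 : t ≤ s) (hs2 : s < t + n)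
    (hnl : NL (lc M x p) t (t + n) s) (hs1' : t' ≤ s') (hs2' : s' < t' + n') {g g' : D}
    (hg : Gp M x g) (gs : M.rho g = P M x p s) (hg' : Gp M x g') (gs' : M.rho g' = P M x p s')
    (R : Rel M x g g') : t = t' ∧ n = n' := by
  have hbt := H.bt
  have hbt' := H'.bt
  have htn := H.tn
  have htn' := H'.tn
  obtain ⟨p0, hp0, hp⟩ := H.p
  obtain ⟨q0, hq0, hq⟩ := H.q
  obtain ⟨p1, hp1, hp'⟩ := H'.p
  obtain ⟨q1, hq1, hq'⟩ := H'.q
  have h1 := (chord_blk L H hs1 hs2 hnl hg gs (by omega) hg' gs').1 R
  rcases h1 with ⟨h1, h2, -⟩ | ⟨h1, -⟩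
  · -- the piece `t .. t + n` has no cell of the outer arc inside
    have e1 : t = t' := by
      rcases lt_trichotomy t t' with h | h | h
      · exact absurd hp'.symm (H.int t' h (by omega) p1 hp1)
      · exact h
      · exact absurd hp.symm (H'.int t h (by omega) p0 hp0)
    subst e1
    refine ⟨rfl, ?_⟩
    rcases lt_trichotomy n n' with h | h | h
    · exact absurd hq.symm (H'.int (t + n) (by omega) (by omega) q0 hq0)
    · exact h
    · exact absurd hq'.symm (H.int (t + n') (by omega) (by omega) q1 hq1)
  · omega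

end Crest.Agent.R143.Chordx355
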