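import Crest.Agent.R143.Coarse2_166
import Crest.Agent.R143.Frame11_395

/-!
# Row 143 (S0194): chords of a net with one giant (helper795)

`M` = fine net, `M' = coarse M π hπ` = net with ONE giant `A` (`π` is injective off `A`). A chord =
block of a gap `g₀` whose old cell is in `A`. `P t` = walk from `out g₀`, `N` = period, `T` = first
time with the left cell in `A`.

* `Cho` : these data; `Cho.sep` : left cells before `T` ≠ left cells after `T`
* `Cho.mem_coarse` : the block in `M'` in terms of the walk before `T`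
* `Cho.rest` : the gaps of the block of `M` which are not in the block of `M'` come after `T`
-/

set_option autoImplicit false

noncomputable section

open scoped Classical

namespace Crest.Agent.R143.Chordx795

open Crest.Agent.R143.Frame1x395 Crest.Agent.R143.Frame2x395 Crest.Agent.R143.Frame3x395
  Crest.Agent.R143.Frame4x395 Crest.Agent.R143.Frame8x395 Crest.Agent.R143.Frame9x395
  Crest.Agent.R143.Frame11x395
  Crest.Agent.R143.NonXx592 Crest.Agent.R143.Coarsex166 Crest.Agent.R143.Coarse2x166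

variable {D C C' : Type} {M : CMap D C} {x : D → ZMod 2} {π : C → C'} {hπ : ClsCon M π} {A : C'}
  {g₀ : D} {N T : ℕ}

/-- left cell of the walk from `out g₀` -/
abbrev Lc (M : CMap D C) (x : D → ZMod 2) (g₀ : D) (t : ℕ) : C := M.cell (P M x (out M g₀) t)

/-- right cell of the walk from `out g₀` -/
abbrev Rr (M : CMap D C) (x : D → ZMod 2) (g₀ : D) (t : ℕ) : C := M.cell (M.rho (P M x (out M g₀) t))

/-- the data of a chord -/
structure Cho (M : CMap D C) (π : C → C') (A : C') (x : D → ZMod 2) (g₀ : D) (N T : ℕ) :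
    Prop where
  gp : Gp M x g₀
  per : P M x (out M g₀) N = out M g₀
  inj : ∀ a b, a < b → b < N → P M x (out M g₀) a ≠ P M x (out M g₀) b
  last : M.rho g₀ = P M x (out M g₀) (N - 1)
  lt : T < N
  off : ∀ t, t < T → π (Lc M x g₀ t) ≠ A
  ret : π (Lc M x g₀ T) = A
  old : π (M.cell (M.rho g₀)) = A

theorem Cho.pos (H : Cho M π A x g₀ N T) : 0 < N := lt_of_le_of_lt (Nat.zero_le _) H.lt

theorem Cho.lastA (H : Cho M π A x g₀ N T) : π (Lc M x g₀ (N - 1)) = A := by
  have := H.old
  rwa [H.last] at this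

theorem exists_cho [Finite D] (hx : IsC M ∅ x) (hg : Gp M x g₀)
    (hA : π (M.cell (M.rho g₀)) = A) : ∃ N T, Cho M π A x g₀ N T := by
  obtain ⟨N, h1, h2, h3, h4⟩ := exists_period hx hg
  have hex : ∃ t, π (Lc M x g₀ t) = A := ⟨N - 1, by
    have := hA
    rwa [h4] at this⟩
  have hle : Nat.find hex ≤ N - 1 := Nat.find_min' hex (by
    have := hA
    rwa [h4] at this)
  exact ⟨N, Nat.find hex, hg, h2, h3, h4, by omega, fun t ht => Nat.find_min hex ht,
    Nat.find_spec hex, hA⟩

theorem Cho.T_unique {N' T' : ℕ} (H : Cho M π A x g₀ N T) (H' : Cho M π A x g₀ N' T') :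
    T = T' := by
  rcases lt_trichotomy T T' with h | h | h
  · exact absurd H.ret (H'.off _ h)
  · exact h
  · exact absurd H'.ret (H.off _ h)

/-- **the left cells after the return are different from the left cells before** -/
theorem Cho.sep [Finite D] (hx : IsC (coarse M π hπ) ∅ x) (H : Cho M π A x g₀ N T) {u v : ℕ}
    (hu : u < T) (hv : T ≤ v) (hvN : v < N) : π (Lc M x g₀ u) ≠ π (Lc M x g₀ v) := by
  intro e
  have hx' := IsC.of_coarse hx
  have hTN := H.lt
  have hvT : v ≠ T := by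
    rintro rfl
    exact H.off u hu (e.trans H.ret)
  have hvl : v ≠ N - 1 := by
    rintro rfl
    exact H.off u hu (e.trans H.lastA)
  have hper : P M x (out M g₀) N = out M g₀ := H.per
  have key := NonXx592.noncross (M := coarse M π hπ) hx (p := P M x (out M g₀) T)
    (P_occ hx' (H.gp.out hx') _) (k := v - T) (j := N - 1 - T) (l := N + u - T) (by omega)
    (by omega) (by omega) ?_ ?_ ?_
  · have h1 : π (M.cell (P M x (P M x (out M g₀) T) (v - T))) = π (Lc M x g₀ v) := by
      rw [← P_add, show v - T + T = v by omega]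
    have h2 : π (Lc M x g₀ v) = A := by
      rw [← h1]
      exact key.trans H.ret
    exact H.off u hu (e.trans h2)
  · intro a c hac hc h1
    have h1' : P M x (P M x (out M g₀) T) a = P M x (P M x (out M g₀) T) c := h1
    rw [← P_add, ← P_add] at h1'
    rcases Nat.lt_or_ge (c + T) N with h2 | h2
    · exact H.inj _ _ (by omega) h2 h1'
    · have h3 : P M x (out M g₀) (c + T) = P M x (out M g₀) (c + T - N) := by
        conv_lhs => rw [show c + T = (c + T - N) + N by omega]
        exact P_per hper _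
      rw [h3] at h1'
      rcases Nat.lt_or_ge (a + T) N with h4 | h4
      · exact H.inj _ _ (show c + T - N < a + T by omega) h4 h1'.symm
      · have h5 : P M x (out M g₀) (a + T) = P M x (out M g₀) (a + T - N) := by
          conv_lhs => rw [show a + T = (a + T - N) + N by omega]
          exact P_per hper _
        rw [h5] at h1'
        exact H.inj _ _ (by omega) (by omega) h1'
  · show π (M.cell (P M x (P M x (out M g₀) T) (N - 1 - T))) = π (M.cell (P M x (out M g₀) T))
    rw [← P_add, show N - 1 - T + T = N - 1 by omega]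
    exact H.lastA.trans H.ret.symm
  · show π (M.cell (P M x (P M x (out M g₀) T) (v - T))) =
      π (M.cell (P M x (P M x (out M g₀) T) (N + u - T)))
    rw [← P_add, ← P_add, show v - T + T = v by omega, show N + u - T + T = u + N by omega,
      P_per hper]
    exact e.symm

/-- times modulo the period -/
theorem time_mod {p q : D} (hNpos : 0 < N) (hN : P M x p N = p) {n : ℕ} (h : P M x p n = q) :
    ∃ b, b < N ∧ q = P M x p b := by
  refine ⟨n % N, Nat.mod_lt _ hNpos, ?_⟩
  rw [← h]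
  conv_lhs => rw [← Nat.mod_add_div n N]
  rw [P_add]
  congr 1
  have : ∀ q, P M x p (N * q) = p := by
    intro q
    induction q with
    | zero => rfl
    | succ q ih => rw [Nat.mul_succ, P_add, hN, ih]
  exact this _

/-- the time of another gap of the block -/
theorem blk_time [Fintype D] (hx : IsC M ∅ x) (H : Cho M π A x g₀ N T) {h : D}
    (hh : h ∈ blk M x g₀) (hne : h ≠ g₀) :
    ∃ b, b + 1 < N ∧ M.rho h = P M x (out M g₀) b := by
  obtain ⟨h1, h2⟩ := mem_blk.1 hh
  have hN := H.pos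
  have key : ∃ b, b < N ∧ M.rho h = P M x (out M g₀) b := by
    rcases h2 (M.cell g₀) with h3 | ⟨n, h3, -⟩ | ⟨n, h3, -⟩
    · exact absurd h3.symm hne
    · exact time_mod hN H.per h3
    · obtain ⟨m, hm⟩ := come_back hx h1 H.gp h3
      exact time_mod hN H.per hm
  obtain ⟨b, hb, e⟩ := key
  refine ⟨b, ?_, e⟩
  rcases Nat.lt_or_ge (b + 1) N with h3 | h3
  · exact h3
  · exfalso
    have h4 : b = N - 1 := by omega
    rw [h4, ← H.last] at e
    exact hne (rho_inj M e)

/-- **the block of the fine net in terms of the walk** -/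
theorem Cho.mem_fine [Fintype D] (hx : IsC M ∅ x) (H : Cho M π A x g₀ N T) {h : D} {b : ℕ}
    (hb : b + 1 < N) (hh : Gp M x h) (hhb : M.rho h = P M x (out M g₀) b) :
    h ∈ blk M x g₀ ↔ ∀ u, u ≤ b → ∀ v, b < v → v < N → Lc M x g₀ u ≠ Lc M x g₀ v := by
  rw [mem_blk, rel_loop hx H.gp H.per H.inj H.last hb hh hhb]
  exact ⟨fun h1 => h1.2, fun h1 => ⟨hh, h1⟩⟩

/-- **the block of the net with one giant in terms of the walk before the return** -/
theorem Cho.mem_coarse [Fintype D] (hx : IsC (coarse M π hπ) ∅ x) (H : Cho M π A x g₀ N T)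
    {h : D} {b : ℕ} (hb : b + 1 < N) (hh : Gp M x h) (hhb : M.rho h = P M x (out M g₀) b) :
    h ∈ blk (coarse M π hπ) x g₀ ↔
      b < T ∧ ∀ u, u ≤ b → ∀ v, b < v → v < T → π (Lc M x g₀ u) ≠ π (Lc M x g₀ v) := by
  have hTN := H.lt
  have e := rel_loop (M := coarse M π hπ) hx H.gp H.per H.inj H.last hb hh hhb
  have e' : h ∈ blk (coarse M π hπ) x g₀ ↔
      ∀ u, u ≤ b → ∀ v, b < v → v < N → π (Lc M x g₀ u) ≠ π (Lc M x g₀ v) := by
    rw [mem_blk]
    constructor
    · intro h1
      exact e.1 h1.2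
    · intro h1
      exact ⟨hh, e.2 h1⟩
  rw [e']
  constructor
  · intro h1
    have h2 : b < T := by
      by_contra hc
      exact h1 T (not_lt.1 hc) (N - 1) (by omega) (by omega) (H.ret.trans H.lastA.symm)
    exact ⟨h2, fun u hu v hv1 hv2 => h1 u hu v hv1 (by omega)⟩
  · rintro ⟨h1, h2⟩ u hu v hv1 hv2
    rcases Nat.lt_or_ge v T with h3 | h3
    · exact h2 u hu v hv1 h3
    · exact H.sep hx (by omega) h3 hv2

/-- gaps of the fine block before the return are in the coarse block -/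
theorem Cho.early [Fintype D] (hx : IsC (coarse M π hπ) ∅ x)
    (hA : ∀ c c', π c = π c' → c = c' ∨ π c = A) (H : Cho M π A x g₀ N T)
    {h : D} {b : ℕ} (hb : b < T) (hbN : b + 1 < N) (hhb : M.rho h = P M x (out M g₀) b)
    (hh : h ∈ blk M x g₀) : h ∈ blk (coarse M π hπ) x g₀ := by
  have hx' := IsC.of_coarse hx
  have hgp := (mem_blk.1 hh).1
  have hTN := H.lt
  rw [H.mem_fine hx' hbN hgp hhb] at hh
  rw [H.mem_coarse hx hbN hgp hhb]
  refine ⟨hb, fun u hu v hv1 hv2 e => ?_⟩
  rcases hA _ _ e with h1 | h1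
  · exact hh u hu v hv1 (by omega) h1
  · exact H.off u (by omega) h1

/-- **the rest of the fine block comes after the return** -/
theorem Cho.rest [Fintype D] (hx : IsC (coarse M π hπ) ∅ x)
    (hA : ∀ c c', π c = π c' → c = c' ∨ π c = A) (H : Cho M π A x g₀ N T) {h : D}
    (hh : h ∈ blk M x g₀) (hn : h ∉ blk (coarse M π hπ) x g₀) :
    ∃ b, T ≤ b ∧ b + 1 < N ∧ M.rho h = P M x (out M g₀) b ∧
      M.cell (M.rho h) = Lc M x g₀ b ∧ M.cell h = Lc M x g₀ (b + 1) := by
  have hx' := IsC.of_coarse hx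
  have hgp := (mem_blk.1 hh).1
  have hne : h ≠ g₀ := by
    rintro rfl
    exact hn (mem_blk.2 ⟨hgp, rel_refl _⟩)
  obtain ⟨b, hb, e⟩ := blk_time hx' H hh hne
  refine ⟨b, ?_, hb, e, congrArg M.cell e, ?_⟩
  · by_contra hc
    exact hn (H.early hx hA (not_le.1 hc) hb e hh)
  · show _ = M.cell (P M x (out M g₀) (b + 1))
    rw [← out_eq hx' hgp e, cell_out hx' hgp]

/-! ### the revealed set -/

/-- time of the first return to `A` -/
def tR (M : CMap D C) (π : C → C') (A : C') (x : D → ZMod 2) (g₀ : D) : ℕ :=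
  sInf {t | π (Lc M x g₀ t) = A}

theorem Cho.tR_eq (H : Cho M π A x g₀ N T) : tR M π A x g₀ = T := by
  have h1 : T ∈ {t | π (Lc M x g₀ t) = A} := H.ret
  refine le_antisymm (Nat.sInf_le h1) ?_
  by_contra hc
  exact H.off _ (not_le.1 hc) (Nat.sInf_mem ⟨T, h1⟩)

/-- revealed cells of the chord of `g₀` -/
def Rv (M : CMap D C) (π : C → C') (A : C') (x : D → ZMod 2) (g₀ : D) : Set C' :=
  {c | c = A ∨ ∃ t, t ≤ tR M π A x g₀ ∧ (c = π (Lc M x g₀ t) ∨ c = π (Rr M x g₀ t))}

theorem third (hx : IsC M ∅ x) {p : D} (hp : x p = 1) :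
    M.cell (M.rho (M.rho p)) = M.cell (stp M x p) ∨
      M.cell (M.rho (M.rho p)) = M.cell (M.rho (stp M x p)) := by
  rcases stp_cases hx hp (Set.notMem_empty _) with ⟨h1, -, e⟩ | ⟨-, h1, e⟩
  · left
    rw [e, M.cell_iota _ (hx.lv h1)]
  · right
    rw [e, cell_rho_iota M (hx.lv h1)]

/-- right cell of `out g` -/
theorem right_out (hx : IsC M ∅ x) {g : D} (hg : Gp M x g) :
    M.cell (M.rho (out M g)) = M.cell (M.rho (M.rho g)) := by
  unfold out
  rw [cell_rho_iota M (hx.lv (hg.two hx))]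

/-- two consecutive states with the left cells of a gap -/
theorem gp_of_walk {y : D → ZMod 2} (hy : IsC M ∅ y) {p h : D} (hp : y p = 1) {b : ℕ}
    (h1 : M.rho h = P M y p b) (h2 : out M h = P M y p (b + 1)) : Gp M y h := by
  have e1 : y (M.rho h) = 1 := by rw [h1]; exact P_occ hy hp b
  have e2 : y (M.rho (M.rho h)) = 1 := by
    have h3 : y (out M h) = 1 := by rw [h2]; exact P_occ hy hp _
    unfold out at h3
    rwa [hy.iot] at h3
  have e3 := hy.par h
  rw [if_neg (Set.notMem_empty h), e1, e2] at e3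
  refine ⟨?_, e1⟩
  revert e3
  generalize y h = a
  revert a; decide

section cyl

variable {χ ψ : C' → ZMod 2}

/-- the walk before the return is determined by the revealed colours -/
theorem cyl_walk [Fintype D] (hπ : ClsCon M π) {g₀ : D} (hg : Gp M (cfg (coarse M π hπ) χ) g₀)
    (he : ∀ c ∈ Rv M π A (cfg (coarse M π hπ) χ) g₀, ψ c = χ c) {t : ℕ}
    (ht : t ≤ tR M π A (cfg (coarse M π hπ) χ) g₀) :
    P M (cfg (coarse M π hπ) ψ) (out M g₀) t = P M (cfg (coarse M π hπ) χ) (out M g₀) t := by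
  set x := cfg (coarse M π hπ) χ with hxdef
  set y := cfg (coarse M π hπ) ψ with hydef
  have hx : IsC M ∅ x := IsC.of_coarse (cfg_isC χ)
  induction t with
  | zero => rfl
  | succ t ih =>
    have ih' := ih (by omega)
    rw [P_succ, P_succ, ih']
    set p := P M x (out M g₀) t with hp
    have hocc : x p = 1 := P_occ hx (hg.out hx) t
    have e1 : ψ (π (M.cell (M.rho p))) = χ (π (M.cell (M.rho p))) :=
      he _ (Or.inr ⟨t, by omega, Or.inr rfl⟩)
    have e2 : ψ (π (M.cell (M.rho (M.rho p)))) = χ (π (M.cell (M.rho (M.rho p)))) := by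
      apply he
      right
      refine ⟨t + 1, ht, ?_⟩
      have h3 : P M x (out M g₀) (t + 1) = stp M x p := P_succ _ _
      rcases third hx hocc with h4 | h4
      · left
        show _ = π (M.cell (P M x (out M g₀) (t + 1)))
        rw [h3, h4]
      · right
        show _ = π (M.cell (M.rho (P M x (out M g₀) (t + 1))))
        rw [h3, h4]
    have e3 : y (M.rho p) = x (M.rho p) := by
      show ψ (π (M.cell (M.rho p))) + ψ (π (M.cell (M.rho (M.rho p)))) =
        χ (π (M.cell (M.rho p))) + χ (π (M.cell (M.rho (M.rho p))))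
      rw [e1, e2]
    unfold stp
    rw [e3]

theorem cyl_gp [Fintype D] (hπ : ClsCon M π) {g₀ : D} (hg : Gp M (cfg (coarse M π hπ) χ) g₀)
    (hA : π (M.cell (M.rho g₀)) = A)
    (he : ∀ c ∈ Rv M π A (cfg (coarse M π hπ) χ) g₀, ψ c = χ c) :
    Gp M (cfg (coarse M π hπ) ψ) g₀ := by
  set x := cfg (coarse M π hπ) χ with hxdef
  have hx : IsC M ∅ x := IsC.of_coarse (cfg_isC χ)
  have e0 : ψ (π (M.cell g₀)) = χ (π (M.cell g₀)) := by
    apply he
    right
    refine ⟨0, Nat.zero_le _, Or.inl ?_⟩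
    show π (M.cell g₀) = π (M.cell (out M g₀))
    rw [cell_out hx hg]
  have e1 : ψ (π (M.cell (M.rho g₀))) = χ (π (M.cell (M.rho g₀))) := by
    apply he
    left
    exact hA
  have e2 : ψ (π (M.cell (M.rho (M.rho g₀)))) = χ (π (M.cell (M.rho (M.rho g₀)))) := by
    apply he
    right
    refine ⟨0, Nat.zero_le _, Or.inr ?_⟩
    show π (M.cell (M.rho (M.rho g₀))) = π (M.cell (M.rho (out M g₀)))
    rw [right_out hx hg]
  have h1 : χ (π (M.cell g₀)) + χ (π (M.cell (M.rho g₀))) = 0 := hg.1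
  have h2 : χ (π (M.cell (M.rho g₀))) + χ (π (M.cell (M.rho (M.rho g₀)))) = 1 := hg.2
  constructor
  · show ψ (π (M.cell g₀)) + ψ (π (M.cell (M.rho g₀))) = 0
    rw [e0, e1, h1]
  · show ψ (π (M.cell (M.rho g₀))) + ψ (π (M.cell (M.rho (M.rho g₀)))) = 1
    rw [e1, e2, h2]

theorem cyl_tR [Fintype D] (hπ : ClsCon M π) {g₀ : D} (hg : Gp M (cfg (coarse M π hπ) χ) g₀)
    (hA : π (M.cell (M.rho g₀)) = A)
    (he : ∀ c ∈ Rv M π A (cfg (coarse M π hπ) χ) g₀, ψ c = χ c) :
    tR M π A (cfg (coarse M π hπ) ψ) g₀ = tR M π A (cfg (coarse M π hπ) χ) g₀ := by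
  have hx : IsC M ∅ (cfg (coarse M π hπ) χ) := IsC.of_coarse (cfg_isC χ)
  obtain ⟨N, T, H⟩ := exists_cho hx hg hA
  have hT := H.tR_eq
  have hw := fun t ht => cyl_walk hπ hg he (t := t) ht
  rw [hT] at hw ⊢
  have h1 : T ∈ {t | π (Lc M (cfg (coarse M π hπ) ψ) g₀ t) = A} := by
    show π (M.cell (P M (cfg (coarse M π hπ) ψ) (out M g₀) T)) = A
    rw [hw T le_rfl]
    exact H.ret
  refine le_antisymm (Nat.sInf_le h1) ?_
  by_contra hc
  have h2 := not_le.1 hc
  refine H.off _ h2 ?_
  have h3 : π (M.cell (P M (cfg (coarse M π hπ) ψ) (out M g₀)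
    (tR M π A (cfg (coarse M π hπ) ψ) g₀))) = A := Nat.sInf_mem ⟨T, h1⟩
  rw [hw _ h2.le] at h3
  exact h3

theorem cyl_Rv [Fintype D] (hπ : ClsCon M π) {g₀ : D} (hg : Gp M (cfg (coarse M π hπ) χ) g₀)
    (hA : π (M.cell (M.rho g₀)) = A)
    (he : ∀ c ∈ Rv M π A (cfg (coarse M π hπ) χ) g₀, ψ c = χ c) :
    Rv M π A (cfg (coarse M π hπ) ψ) g₀ = Rv M π A (cfg (coarse M π hπ) χ) g₀ := by
  have e1 := cyl_tR hπ hg hA he
  have hw := fun t ht => cyl_walk hπ hg he (t := t) ht
  ext c
  unfold Rv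
  rw [e1]
  constructor
  · rintro (h1 | ⟨t, ht, h1⟩)
    · exact Or.inl h1
    · refine Or.inr ⟨t, ht, ?_⟩
      have h2 : c = π (M.cell (P M (cfg (coarse M π hπ) ψ) (out M g₀) t)) ∨
        c = π (M.cell (M.rho (P M (cfg (coarse M π hπ) ψ) (out M g₀) t))) := h1
      rw [hw t ht] at h2
      exact h2
  · rintro (h1 | ⟨t, ht, h1⟩)
    · exact Or.inl h1
    · refine Or.inr ⟨t, ht, ?_⟩
      show c = π (M.cell (P M (cfg (coarse M π hπ) ψ) (out M g₀) t)) ∨
        c = π (M.cell (M.rho (P M (cfg (coarse M π hπ) ψ) (out M g₀) t)))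
      rw [hw t ht]
      exact h1

/-- the block is determined by the revealed colours -/
theorem cyl_blk [Fintype D] (hπ : ClsCon M π) {g₀ : D}
    (hg : Gp M (cfg (coarse M π hπ) χ) g₀) (hA : π (M.cell (M.rho g₀)) = A)
    (he : ∀ c ∈ Rv M π A (cfg (coarse M π hπ) χ) g₀, ψ c = χ c) :
    blk (coarse M π hπ) (cfg (coarse M π hπ) ψ) g₀ =
      blk (coarse M π hπ) (cfg (coarse M π hπ) χ) g₀ := by
  have key : ∀ {χ ψ : C' → ZMod 2}, Gp M (cfg (coarse M π hπ) χ) g₀ →
      (∀ c ∈ Rv M π A (cfg (coarse M π hπ) χ) g₀, ψ c = χ c) →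
      blk (coarse M π hπ) (cfg (coarse M π hπ) χ) g₀ ⊆
        blk (coarse M π hπ) (cfg (coarse M π hπ) ψ) g₀ := by
    intro χ ψ hg he h hh
    have hg' := cyl_gp hπ hg hA he
    have hx' : IsC (coarse M π hπ) ∅ (cfg (coarse M π hπ) χ) := cfg_isC χ
    have hy' : IsC (coarse M π hπ) ∅ (cfg (coarse M π hπ) ψ) := cfg_isC ψ
    have hx := IsC.of_coarse hx'
    have hy := IsC.of_coarse hy'
    obtain ⟨N, T, H⟩ := exists_cho hx hg hA
    obtain ⟨N', T', H'⟩ := exists_cho hy hg' hA
    have hT : T' = T := by rw [← H.tR_eq, ← H'.tR_eq]; exact cyl_tR hπ hg hA he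
    have hw := fun t ht => cyl_walk hπ hg he (t := t) ht
    rw [H.tR_eq] at hw
    by_cases hne : h = g₀
    · subst hne
      exact mem_blk.2 ⟨hg', rel_refl _⟩
    · have hgp : Gp M (cfg (coarse M π hπ) χ) h := (mem_blk.1 hh).1
      obtain ⟨b, hb, e⟩ := blk_time hx H (blk_coarse_sub hh) hne
      obtain ⟨h1, h2⟩ := (H.mem_coarse hx' hb hgp e).1 hh
      have hTN' := H'.lt
      have e' : M.rho h = P M (cfg (coarse M π hπ) ψ) (out M g₀) b := by
        rw [hw b h1.le]; exact e
      have e'' : out M h = P M (cfg (coarse M π hπ) ψ) (out M g₀) (b + 1) := by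
        rw [hw (b + 1) h1]
        exact out_eq hx hgp e
      have hgp' := gp_of_walk hy (hg'.out hy) e' e''
      refine (H'.mem_coarse hy' (by omega) hgp' e').2 ⟨by omega, fun u hu v hv1 hv2 => ?_⟩
      show π (M.cell (P M (cfg (coarse M π hπ) ψ) (out M g₀) u)) ≠
        π (M.cell (P M (cfg (coarse M π hπ) ψ) (out M g₀) v))
      rw [hw u (by omega), hw v (by omega)]
      exact h2 u hu v hv1 (by omega)
  refine Finset.Subset.antisymm ?_ (key hg he)
  refine key (cyl_gp hπ hg hA he) fun c hc => ?_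
  rw [cyl_Rv hπ hg hA he] at hc
  exact (he c hc).symm

end cyl

/-! ### no fresh arm: the rest of the loop stays near -/

section near

variable {χ : C' → ZMod 2}

theorem col_left [Fintype D] (hg : Gp M (cfg (coarse M π hπ) χ) g₀)
    (hA : π (M.cell (M.rho g₀)) = A) (t : ℕ) :
    χ (π (Lc M (cfg (coarse M π hπ) χ) g₀ t)) = χ A := by
  have hx' : IsC (coarse M π hπ) ∅ (cfg (coarse M π hπ) χ) := cfg_isC χ
  have h0 : ∀ d, cfg (coarse M π hπ) χ d = 0 →
      χ ((coarse M π hπ).cell d) = χ ((coarse M π hπ).cell ((coarse M π hπ).rho d)) := by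
    intro d hd
    have h1 : χ ((coarse M π hπ).cell d) + χ ((coarse M π hπ).cell ((coarse M π hπ).rho d)) = 0 :=
      hd
    revert h1
    generalize χ ((coarse M π hπ).cell d) = a
    generalize χ ((coarse M π hπ).cell ((coarse M π hπ).rho d)) = b
    revert a b; decide
  have h1 := it_col hx' (Gp.out hx' (g := g₀) hg) h0 t
  have h2 : χ (π (M.cell g₀)) = χ (π (M.cell (M.rho g₀))) := h0 g₀ hg.1
  have h3 : π (M.cell (out M g₀)) = π (M.cell g₀) := by
    rw [cell_out (IsC.of_coarse hx') hg]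
  calc χ (π (Lc M (cfg (coarse M π hπ) χ) g₀ t)) = χ (π (M.cell (out M g₀))) := h1
    _ = χ A := by rw [h3, h2, hA]

theorem col_right [Fintype D] (hg : Gp M (cfg (coarse M π hπ) χ) g₀)
    (hA : π (M.cell (M.rho g₀)) = A) (t : ℕ) :
    χ (π (Rr M (cfg (coarse M π hπ) χ) g₀ t)) = χ A + 1 := by
  have hx' : IsC (coarse M π hπ) ∅ (cfg (coarse M π hπ) χ) := cfg_isC χ
  have hx := IsC.of_coarse hx'
  have h1 : χ (π (M.cell (P M (cfg (coarse M π hπ) χ) (out M g₀) t))) +
      χ (π (M.cell (M.rho (P M (cfg (coarse M π hπ) χ) (out M g₀) t)))) = 1 :=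
    P_occ hx (hg.out hx) t
  have h2 : χ (π (M.cell (P M (cfg (coarse M π hπ) χ) (out M g₀) t))) = χ A :=
    col_left (hπ := hπ) hg hA t
  rw [h2] at h1
  show χ (π (M.cell (M.rho (P M (cfg (coarse M π hπ) χ) (out M g₀) t)))) = χ A + 1
  revert h1
  generalize χ A = a
  generalize χ (π (M.cell (M.rho (P M (cfg (coarse M π hπ) χ) (out M g₀) t)))) = b
  revert a b; decide

/-- step of a chain of cells of colour `0` outside `A` and outside `R` -/
def StA (M : CMap D C) (π : C → C') (A : C') (R : Set C') (χ : C' → ZMod 2) (u v : C) : Prop :=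
  (∃ d ∈ M.live, M.cell d = u ∧ M.cell (M.rho d) = v) ∧ π v ≠ A ∧ π v ∉ R ∧ χ (π v) = 0

/-- **fresh arm** from `Nr` to `Fr` -/
def ArmE (M : CMap D C) (π : C → C') (A : C') (Nr Fr : Set C) (R : Set C') (χ : C' → ZMod 2) :
    Prop :=
  ∃ a ∈ Nr, ∃ c ∈ Fr, Relation.ReflTransGen (StA M π A R χ) a c

theorem armE_mono {Nr Fr : Set C} {R R' : Set C'} (h : R' ⊆ R) {χ : C' → ZMod 2}
    (H : ArmE M π A Nr Fr R χ) : ArmE M π A Nr Fr R' χ := by
  obtain ⟨a, ha, c, hc, h1⟩ := H
  exact ⟨a, ha, c, hc, Relation.ReflTransGen.mono (p := StA M π A R' χ)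
    (fun u v h2 => ⟨h2.1, h2.2.1, fun h3 => h2.2.2.1 (h h3), h2.2.2.2⟩) a c h1⟩

theorem armE_congr {Nr Fr : Set C} {R : Set C'} {χ ψ : C' → ZMod 2}
    (h : ∀ c, c ∉ R → ψ c = χ c) (H : ArmE M π A Nr Fr R ψ) : ArmE M π A Nr Fr R χ := by
  obtain ⟨a, ha, c, hc, h1⟩ := H
  exact ⟨a, ha, c, hc, Relation.ReflTransGen.mono (p := StA M π A R χ)
    (fun u v h2 => ⟨h2.1, h2.2.1, h2.2.2.1, by rw [← h _ h2.2.2.1]; exact h2.2.2.2⟩) a c h1⟩

/-- **no fresh arm ⟹ after the return the walker does not see the far cells** -/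
theorem near [Fintype D] (hχA : χ A = 0)
    (H : Cho M π A (cfg (coarse M π hπ) χ) g₀ N T) {Nr Fr : Set C}
    (hNr : ∀ v, T ≤ v → v < N → π (Lc M (cfg (coarse M π hπ) χ) g₀ v) = A →
      Lc M (cfg (coarse M π hπ) χ) g₀ v ∈ Nr)
    (hE : ¬ ArmE M π A Nr Fr (Rv M π A (cfg (coarse M π hπ) χ) g₀) χ) :
    ∀ v, T ≤ v → v < N → Lc M (cfg (coarse M π hπ) χ) g₀ v ∉ Fr := by
  set x := cfg (coarse M π hπ) χ with hxdef
  have hx' : IsC (coarse M π hπ) ∅ x := cfg_isC χ
  have hx := IsC.of_coarse hx'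
  have hg := H.gp
  have key : ∀ k, T + k < N → ∃ a ∈ Nr,
      Relation.ReflTransGen (StA M π A (Rv M π A x g₀) χ) a (Lc M x g₀ (T + k)) := by
    intro k
    induction k with
    | zero => intro hk; exact ⟨_, hNr T le_rfl hk H.ret, Relation.ReflTransGen.refl⟩
    | succ k ih =>
      intro hk
      obtain ⟨a, ha, h1⟩ := ih (by omega)
      by_cases hAv : π (Lc M x g₀ (T + (k + 1))) = A
      · exact ⟨_, hNr _ (by omega) hk hAv, Relation.ReflTransGen.refl⟩
      by_cases hsame : Lc M x g₀ (T + (k + 1)) = Lc M x g₀ (T + k)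
      · exact ⟨a, ha, by rw [hsame]; exact h1⟩
      · refine ⟨a, ha, h1.tail ?_⟩
        obtain ⟨g, hg1, hg2, hg3⟩ := gap_of_ne hx (P_occ hx (hg.out hx) (T + k)) (by
          have e : stp M x (P M x (out M g₀) (T + k)) = P M x (out M g₀) (T + (k + 1)) :=
            (P_succ _ _).symm
          rw [e]
          exact hsame)
        have e1 : M.cell (M.rho g) = Lc M x g₀ (T + k) := by rw [hg2]
        have e2 : M.cell g = Lc M x g₀ (T + (k + 1)) := by
          rw [← cell_out hx hg1, hg3, ← P_succ]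
          rfl
        have hlive : g ∈ M.live := by
          by_contra hc
          have := M.dead g hc
          rw [e1, e2] at this
          exact hsame this
        refine ⟨⟨M.iota g, M.iota_live g hlive, ?_, ?_⟩, hAv, ?_, ?_⟩
        · rw [M.cell_iota g hlive, e1]
        · rw [cell_rho_iota M hlive, e2]
        · rintro (h2 | ⟨t, ht, h2 | h2⟩)
          · exact hAv h2
          · rw [H.tR_eq] at ht
            rcases Nat.lt_or_ge t T with h3 | h3
            · exact H.sep hx' h3 (v := T + (k + 1)) (by omega) hk h2.symm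
            · have h4 : t = T := by omega
              rw [h4] at h2
              exact hAv (h2.trans H.ret)
          · have h3 := col_left (hπ := hπ) hg H.old (T + (k + 1))
            have h4 := col_right (hπ := hπ) hg H.old t
            rw [← hxdef] at h3 h4
            rw [h2, h4, hχA] at h3
            exact absurd h3 (by decide)
        · have h3 := col_left (hπ := hπ) hg H.old (T + (k + 1))
          rw [← hxdef] at h3
          rw [h3, hχA]
  intro v hv hvN hF
  obtain ⟨a, ha, h1⟩ := key (v - T) (by omega)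
  rw [show T + (v - T) = v by omega] at h1
  exact hE ⟨a, ha, _, hF, h1⟩

end near

end Crest.Agent.R143.Chordx795
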