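import Crest.Agent.R143.Neck1_921
import Crest.Agent.R143.RBm_838

/-!
# Row 143, RIG, closing tile: definitions (helper838)

Units `η`, `T = 100`; gate `a` = frame `(z a, e a)`, tile `a` of type `ty a` (`S` straight, `L`, `R` turn)
between the gates `a` and `a + 1`, `n ≤ a < M`.

* `Ln` : chain of the lane `2 < Y < 5`, `Wd` : vertical chain of the window `|X| < 1/2`
* `Lane` : lane of a tile (one chain for `S`, two legs for `L`, `R`)
* `Lanes` : all lanes and windows of the tiles `n, …, M - 1`, from `l0` (frame `n`) to `- l0` (frame `M`)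
* `InLanes` : support
-/

set_option autoImplicit false

noncomputable section

open scoped Classical

namespace Crest.Agent.R143.CloDx838

open Crest.Agent.R143.B0x346 Crest.Agent.R143.DelGx806 Crest.Agent.R143.DelRx806
open Crest.Agent.R143.ToolWx838 Crest.Agent.R143.Blkx838 Crest.Agent.R143.ToolW2x838
open Crest.Agent.R143.ToolW3x838 Crest.Agent.R143.Circ4x838 Crest.Agent.R143.Harx315
open Crest.Agent.R143.RB0x838 Crest.Agent.R143.CircPx838 Crest.Agent.R143.Gatex838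
open Crest.Agent.R143.Neckx921

/-- type of a tile -/
inductive Ty
  | S
  | L
  | R

/-- rotation of the direction -/
def Ty.rot : Ty → ℂ
  | .S => 1
  | .L => Complex.I
  | .R => -Complex.I

/-- position of the next gate in the frame of the gate, units `η` -/
def Ty.dz : Ty → ℂ
  | .S => 100
  | .L => 50 + 50 * Complex.I
  | .R => 50 - 50 * Complex.I

/-- consecutive gates -/
structure Nxt (η : ℝ) (t : Ty) (z e z' e' : ℂ) : Prop where
  dir : e' = e * t.rot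
  pos : z' = z + e * ((η : ℂ) * t.dz)

/-- chain of the lane `2 < Y < 5` from `x0` to `x1` -/
def Ln (S : Finset ℂ) (η : ℝ) (z e : ℂ) (x0 x1 : ℝ) (ω : Finset ℂ) : Prop :=
  ∃ l, HC S z e (x0 * η) (x1 * η) (2 * η) (5 * η) (3 / 2 * η) ω l

/-- support of `Ln` -/
def InLn (η : ℝ) (z e : ℂ) (x0 x1 : ℝ) (s : ℂ) : Prop :=
  (2 * η < Y z e s ∧ Y z e s < 5 * η) ∧ x0 * η - 3 / 2 * η ≤ X z e s ∧
    X z e s ≤ x1 * η + 3 / 2 * η

/-- chain of the window -/
def Wd (S : Finset ℂ) (η : ℝ) (z e : ℂ) (ω : Finset ℂ) : Prop :=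
  ∃ l, VC S z e (-(1 / 2) * η) (1 / 2 * η) (2 * η) (5 * η) (1 / 2 * η) ω l

/-- support of `Wd` -/
def InWd (η : ℝ) (z e : ℂ) (s : ℂ) : Prop :=
  (-(1 / 2) * η < X z e s ∧ X z e s < 1 / 2 * η) ∧ 2 * η - 1 / 2 * η ≤ Y z e s ∧
    Y z e s ≤ 5 * η + 1 / 2 * η

/-- lane of a tile, from `A` (frame of the gate `(z, e)`) to `B` (frame of the next gate) -/
def Lane (S : Finset ℂ) (η : ℝ) (t : Ty) (z e z' e' : ℂ) (A B : ℝ) (ω : Finset ℂ) : Prop :=
  match t with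
  | .S => Ln S η z e A (100 + B) ω
  | .L => Ln S η z e A 48 ω ∧ Ln S η z' e' (-48) B ω
  | .R => Ln S η z e A 55 ω ∧ Ln S η z' e' (-55) B ω

/-- support of `Lane` -/
def InLane (η : ℝ) (t : Ty) (z e z' e' : ℂ) (A B : ℝ) (s : ℂ) : Prop :=
  match t with
  | .S => InLn η z e A (100 + B) s
  | .L => InLn η z e A 48 s ∨ InLn η z' e' (-48) B s
  | .R => InLn η z e A 55 s ∨ InLn η z' e' (-55) B s

/-- start of the lane of the tile `a` -/
def lA (l0 : ℝ) (n a : ℕ) : ℝ := if a = n then l0 else -1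

/-- end of the lane of the tile `a`, frame `a + 1` -/
def lB (l0 : ℝ) (M a : ℕ) : ℝ := if a + 1 = M then -l0 else 1

/-- path of gates -/
structure GPath (η : ℝ) (n M : ℕ) (ty : ℕ → Ty) (z e : ℕ → ℂ) : Prop where
  eta : 0 < η
  lt : n < M
  en : ‖e n‖ = 1
  nx : ∀ a, n ≤ a → a < M → Nxt η (ty a) (z a) (e a) (z (a + 1)) (e (a + 1))

/-- all lanes and windows (`ω` = white sites) -/
structure Lanes (S : Finset ℂ) (η l0 : ℝ) (n M : ℕ) (ty : ℕ → Ty) (z e : ℕ → ℂ)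
    (ω : Finset ℂ) : Prop where
  lane : ∀ a, n ≤ a → a < M →
    Lane S η (ty a) (z a) (e a) (z (a + 1)) (e (a + 1)) (lA l0 n a) (lB l0 M a) ω
  wd : ∀ a, n < a → a < M → Wd S η (z a) (e a) ω

/-- support of all lanes and windows -/
def InLanes (η l0 : ℝ) (n M : ℕ) (ty : ℕ → Ty) (z e : ℕ → ℂ) (s : ℂ) : Prop :=
  (∃ a, (n ≤ a ∧ a < M) ∧
    InLane η (ty a) (z a) (e a) (z (a + 1)) (e (a + 1)) (lA l0 n a) (lB l0 M a) s) ∨
  ∃ a, (n < a ∧ a < M) ∧ InWd η (z a) (e a) s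

theorem Ln.mono {S ω ω' : Finset ℂ} {η x0 x1 : ℝ} {z e : ℂ} (h : Ln S η z e x0 x1 ω)
    (hω : ω ⊆ ω') : Ln S η z e x0 x1 ω' := by
  obtain ⟨l, hl⟩ := h
  exact ⟨l, hl.mono hω⟩

theorem Wd.mono {S ω ω' : Finset ℂ} {η : ℝ} {z e : ℂ} (h : Wd S η z e ω)
    (hω : ω ⊆ ω') : Wd S η z e ω' := by
  obtain ⟨l, hl⟩ := h
  exact ⟨l, hl.mono hω⟩

theorem Lane.mono {S ω ω' : Finset ℂ} {η A B : ℝ} {t : Ty} {z e z' e' : ℂ}
    (h : Lane S η t z e z' e' A B ω) (hω : ω ⊆ ω') : Lane S η t z e z' e' A B ω' := by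
  cases t with
  | S => exact Ln.mono h hω
  | L => exact ⟨Ln.mono h.1 hω, Ln.mono h.2 hω⟩
  | R => exact ⟨Ln.mono h.1 hω, Ln.mono h.2 hω⟩

theorem Lanes.mono {S ω ω' : Finset ℂ} {η l0 : ℝ} {n M : ℕ} {ty : ℕ → Ty} {z e : ℕ → ℂ}
    (h : Lanes S η l0 n M ty z e ω) (hω : ω ⊆ ω') : Lanes S η l0 n M ty z e ω' :=
  ⟨fun a h1 h2 => (h.lane a h1 h2).mono hω, fun a h1 h2 => (h.wd a h1 h2).mono hω⟩

theorem Nxt.norm {η : ℝ} {t : Ty} {z e z' e' : ℂ} (h : Nxt η t z e z' e') : ‖e'‖ = ‖e‖ := by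
  rw [h.dir]
  cases t <;> simp [Ty.rot]

theorem GPath.norm {η : ℝ} {n M : ℕ} {ty : ℕ → Ty} {z e : ℕ → ℂ} (h : GPath η n M ty z e) :
    ∀ a, n ≤ a → a ≤ M → ‖e a‖ = 1 := by
  intro a hna
  induction a, hna using Nat.le_induction with
  | base => exact fun _ => h.en
  | succ a hna ih => exact fun hM => (h.nx a hna (by omega)).norm.trans (ih (by omega))

end Crest.Agent.R143.CloDx838
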