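import Crest.Agent.R143.DomB_722
import Crest.Agent.R143.Loc_922
import Crest.Agent.R143.Frame10_395

/-!
# Row 143 (S0194), RIG glue (helper829): the hull of a dense set of sites is far

`Dns S c L d` (722): the sites are in the disc, every ball of radius `d` well inside contains one.
* `hol_dns` : `Hol S W d` for `W` at depth `2 d`
* `hull_out`, `not_hull` : hull sites are at distance `≥ L - 2 d` of the centre
* `tri_out`, `adj_out` : all the sites of a triangle with a hull site, all the neighbours of a hull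
  site are at distance `≥ L - 4 d`
-/

set_option autoImplicit false

noncomputable section

namespace Crest.Agent.R143.CorEhx829

open Crest.Agent.R143.B0x346 Crest.Agent.R143.DelGx806 Crest.Agent.R143.DomAx722
  Crest.Agent.R143.Locx922 Crest.Agent.R143.Frame10x395
open Crest.Agent.R143.JColx54 (Adj)

variable {S : Finset ℂ} {c : ℂ} {L d : ℝ}

theorem hol_dns (hD : Dns S c L d) {W : Set ℂ} (hW : ∀ w ∈ W, ‖w - c‖ ≤ L - 2 * d) :
    Hol (S : Set ℂ) W d := by
  intro w hw z hz
  have h1 := hW w hw
  have h2 := norm_tri z w c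
  obtain ⟨s, hs, h⟩ := hD.hole z (by linarith)
  exact ⟨s, hs, h⟩

theorem hull_out (hD : Dns S c L d) {v : ℂ} (h : OnHull S v) : L - 2 * d ≤ ‖v - c‖ := by
  obtain ⟨a, ha⟩ := h
  exact (Crest.Agent.R143.DomBx722.hull_far hD ha).2

theorem not_hull (hD : Dns S c L d) {v : ℂ} (h : ‖v - c‖ < L - 2 * d) : ¬ OnHull S v :=
  fun h' => absurd (hull_out hD h') (not_le.2 h)

/-- **the sites of a triangle with a hull site are far** -/
theorem tri_out (hD : Dns S c L d) {a b x : ℂ} (ht : (a, b, x) ∈ delT S)
    (h : OnHull S a ∨ OnHull S b ∨ OnHull S x) :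
    L - 4 * d ≤ ‖a - c‖ ∧ L - 4 * d ≤ ‖b - c‖ ∧ L - 4 * d ≤ ‖x - c‖ := by
  have ht' := mem_delT.1 ht
  have key : ∀ w, InD w a b x → L - 4 * d ≤ ‖w - c‖ := by
    intro w hw
    by_contra hcon
    push Not at hcon
    have hd := hD.dpos
    have hH : Hol (S : Set ℂ) {w} d := hol_dns hD (by
      rintro v rfl
      linarith)
    obtain ⟨o, -, -, -, -, -, h1, h2, h3⟩ := del_small hd hH (Set.mem_singleton w) hw ht'
    rcases h with h | h | h
    · have h4 := hull_out hD h
      have h5 := norm_tri a w c
      linarith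
    · have h4 := hull_out hD h
      have h5 := norm_tri b w c
      linarith
    · have h4 := hull_out hD h
      have h5 := norm_tri x w c
      linarith
  exact ⟨key a (inD_self a b x), key b (inD_snd a b x), key x (inD_trd a b x)⟩

/-- **the neighbours of a hull site are far** -/
theorem adj_out (hD : Dns S c L d) {v w : ℂ} (h : Adj S v w) (hv : OnHull S v) :
    L - 4 * d ≤ ‖w - c‖ := by
  rcases h with ⟨x, h⟩ | ⟨x, h⟩
  · exact (tri_out hD h (Or.inl hv)).2.1
  · exact (tri_out hD h (Or.inr (Or.inl hv))).1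

end Crest.Agent.R143.CorEhx829
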