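import Crest.Agent.R143.Alg4_133

/-!
# Row 143 (S0194), block H, box H5 (d): the linear coefficient is small (helper709)

414's note 3909 (4)(d), quantitative and abstract.

* `Hul e G Z` : `Z 0`, `Z 1`, `Z 2` are (`G` times) points of the `e`-neighbourhoods of the bottom
  side, of the right side and of the convex hull of the top and left sides of the unit square
  (linear inequalities only, so they pass to weighted means: `Hul.sum`, `hul_integral`)
* `area` : twice the signed area of `Z 0, Z 1, Z 2` is at least `- 17 e`; `Pf_ge`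
* **`kap_le`** : if `‖kap * (Z (i+2) - Z (i+1)) - omz i ^ 2 * t‖ ≤ e` for two of the three `i`
  and `Hul e' 1 Z`, `e' ≤ 10⁻⁴`, then `‖kap‖ ≤ 70 e` (negative orientation is impossible);
  `kap_le_conj` : the same for `kap * conj (..) - omz i * t`
* **`kap_pieces`** : a weight `G = G 0 + G 1 + G 2` cut into three pieces; on the piece `m` the
  relations hold for the two indices different from `m`; then `‖kap‖ ≤ 210 e`; `kap_pieces_conj`
-/

set_option autoImplicit false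

noncomputable section

namespace Crest.Agent.R143.Kapx709

open Crest.Agent.R143.B0x346 Crest.Agent.R143.Alg4x133
open Crest.Agent.R143.DefsNx346

/-- cross product -/
def crs (a b : ℂ) : ℝ := a.re * b.im - a.im * b.re

/-- `Z j / G` is near the side (hull of the sides) `j` of the unit square -/
structure Hul (e G : ℝ) (Z : ZMod 3 → ℂ) : Prop where
  b1 : -e * G ≤ (Z 0).re
  b2 : (Z 0).re ≤ (1 + e) * G
  b3 : -e * G ≤ (Z 0).im
  b4 : (Z 0).im ≤ e * G
  r1 : (1 - e) * G ≤ (Z 1).re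
  r2 : (Z 1).re ≤ (1 + e) * G
  r3 : -e * G ≤ (Z 1).im
  r4 : (Z 1).im ≤ (1 + e) * G
  t1 : -e * G ≤ (Z 2).re
  t2 : (Z 2).re ≤ (1 + e) * G
  t3 : -e * G ≤ (Z 2).im
  t4 : (Z 2).im ≤ (1 + e) * G
  t5 : (Z 2).re ≤ (Z 2).im + e * G

variable {e G : ℝ} {Z : ZMod 3 → ℂ}

/-- linear on `[-e, 1 + e]` -/
theorem lin_ge {c d u e : ℝ} (he : 0 ≤ e) (h0 : -(2 * e) ≤ c) (h1 : -(2 * e) ≤ c + d)
    (hd : |d| ≤ 3) (hu : -e ≤ u) (hu' : u ≤ 1 + e) : -(5 * e) ≤ c + d * u := by
  obtain ⟨d1, d2⟩ := abs_le.1 hd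
  rcases lt_or_ge u 0 with h | h
  · nlinarith
  · rcases le_or_gt u 1 with h' | h'
    · nlinarith [mul_nonneg h (sub_nonneg.2 h1), mul_nonneg (sub_nonneg.2 h') (sub_nonneg.2 h0)]
    · nlinarith

/-- a product of two numbers of `[-e, 1 + e]` -/
theorem prod_ge {a y e : ℝ} (he : 0 ≤ e) (he1 : e ≤ 1) (a1 : -e ≤ a) (a2 : a ≤ 1 + e)
    (y1 : -e ≤ y) (y2 : y ≤ 1 + e) : -(2 * e) ≤ a * y := by
  rcases le_or_gt 0 a with h | h
  · nlinarith [mul_nonneg h (by linarith : 0 ≤ y + e), mul_nonneg he (sub_nonneg.2 a2)]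
  · rcases le_or_gt 0 y with h' | h'
    · nlinarith [mul_nonneg h' (by linarith : 0 ≤ a + e), mul_nonneg he (sub_nonneg.2 y2)]
    · nlinarith [mul_pos_of_neg_of_neg h h']

theorem area_real {a α b y u v e : ℝ} (he : 0 ≤ e) (he1 : e ≤ 1)
    (b1 : -e ≤ a) (b2 : a ≤ 1 + e) (b3 : -e ≤ α) (b4 : α ≤ e)
    (r1 : 1 - e ≤ b) (r2 : b ≤ 1 + e) (r3 : -e ≤ y) (r4 : y ≤ 1 + e)
    (t1 : -e ≤ u) (t2 : u ≤ 1 + e) (t3 : -e ≤ v) (t4 : v ≤ 1 + e) (t5 : u ≤ v + e) :
    -(17 * e) ≤ (b - a) * (v - α) - (y - α) * (u - a) := by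
  -- main part
  have m1 : -(2 * e) ≤ a * y := prod_ge he he1 b1 b2 r3 r4
  have m2 : -(2 * e) ≤ (1 - a) * (1 - y) :=
    prod_ge he he1 (by linarith) (by linarith) (by linarith) (by linarith)
  have m3 : -(5 * e) ≤ a * y + (1 - a - y) * u := by
    refine lin_ge he m1 ?_ ?_ t1 t2
    · nlinarith
    · rw [abs_le]
      constructor <;> nlinarith
  have m4 : -(3 * e) ≤ (1 - a) * (v - u) := by
    rcases le_or_gt a 1 with h | h
    · nlinarith [mul_nonneg (sub_nonneg.2 h) (by linarith : 0 ≤ v - u + e)]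
    · have h1 : a - 1 ≤ e := by linarith
      have h2 : v - u ≤ 3 := by linarith
      nlinarith [mul_nonneg (sub_nonneg.2 h.le) (by linarith : 0 ≤ 3 - (v - u))]
  have e1 : |(b - 1) * (v - α)| ≤ e * 3 := by
    rw [abs_mul]
    refine mul_le_mul ?_ ?_ (abs_nonneg _) he
    · rw [abs_le]; constructor <;> linarith
    · rw [abs_le]; constructor <;> linarith
  have e2 : |(1 - a) * α| ≤ 3 * e := by
    rw [abs_mul]
    refine mul_le_mul ?_ ?_ (abs_nonneg _) (by norm_num)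
    · rw [abs_le]; constructor <;> linarith
    · rw [abs_le]; constructor <;> linarith
  have e3 : |α * (u - a)| ≤ e * 3 := by
    rw [abs_mul]
    refine mul_le_mul ?_ ?_ (abs_nonneg _) he
    · rw [abs_le]; constructor <;> linarith
    · rw [abs_le]; constructor <;> linarith
  have key : (b - a) * (v - α) - (y - α) * (u - a) = (a * y + (1 - a - y) * u) +
      (1 - a) * (v - u) + (b - 1) * (v - α) - (1 - a) * α + α * (u - a) := by ring
  rw [key]
  have := abs_le.1 e1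
  have := abs_le.1 e2
  have := abs_le.1 e3
  linarith [this.1, this.2]

/-- **twice the signed area is almost nonnegative** -/
theorem area (h : Hul e 1 Z) (he : 0 ≤ e) (he1 : e ≤ 1) :
    -(17 * e) ≤ crs (Z 1 - Z 0) (Z 2 - Z 0) := by
  obtain ⟨b1, b2, b3, b4, r1, r2, r3, r4, t1, t2, t3, t4, t5⟩ := h
  simp only [mul_one] at *
  unfold crs
  simp only [Complex.sub_re, Complex.sub_im]
  have := area_real he he1 b1 b2 b3 b4 r1 r2 r3 r4 t1 t2 t3 t4 t5
  linarith

/-- the big Fourier coefficient of `Z` is bounded below -/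
theorem Pf_low (h : Hul e 1 Z) (he : 0 ≤ e) (he1 : e ≤ 1 / 10000) : 1 / 20 ≤ ‖Pf Z‖ := by
  by_contra hcon
  push Not at hcon
  have hA := area h he (by linarith)
  have hc : crs (Z 1 - Z 0) (Z 2 - Z 0) = cr (Z 1 - Z 0) (Z 2 - Z 0) := by
    unfold crs cr; ring
  have h1 := normSq_sub Z
  rw [← hc] at h1
  have hP := norm_nonneg (Pf Z)
  have hQ := norm_nonneg (Qf Z)
  have h3 := sqrt3_hi
  have h4 := Real.sqrt_nonneg 3
  have h5 : ‖Qf Z‖ ≤ 1 / 10 := by
    refine Alg4x133.le_of_sq_le_sq ?_ (by norm_num)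
    have h6 : -(60 * e) ≤ 2 * Real.sqrt 3 * crs (Z 1 - Z 0) (Z 2 - Z 0) := by
      have : 2 * Real.sqrt 3 * (-(17 * e)) ≤
          2 * Real.sqrt 3 * crs (Z 1 - Z 0) (Z 2 - Z 0) :=
        mul_le_mul_of_nonneg_left hA (by positivity)
      nlinarith
    have h7 : ‖Pf Z‖ ^ 2 ≤ 1 / 400 := by nlinarith
    nlinarith
  obtain ⟨g1, g2⟩ := diff_bd Z (t := 1 / 10) (by linarith) h5
  have k1 : ‖Z 0 - Z 1‖ ≤ 3 / 25 := by nlinarith
  have k2 : ‖Z 2 - Z 0‖ ≤ 3 / 25 := by nlinarith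
  have a1 := (abs_le.1 ((Complex.abs_re_le_norm _).trans k1)).1
  have a3 := (abs_le.1 ((Complex.abs_re_le_norm _).trans k2)).1
  have a4 := (abs_le.1 ((Complex.abs_im_le_norm _).trans k2)).2
  rw [Complex.sub_re] at a1 a3
  rw [Complex.sub_im] at a4
  have c1 := h.b4
  have c2 := h.r1
  have c3 := h.t5
  linarith

theorem z3 (k : ZMod 3) : k = 0 ∨ k = 1 ∨ k = 2 := by
  revert k; decide

theorem om2_sum : ∀ i k m : ZMod 3, i ≠ k → m ≠ i → m ≠ k →
    omz m ^ 2 = -(omz i ^ 2 + omz k ^ 2) := by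
  have hs := sum_omz2
  rw [sum3] at hs
  intro i k m h1 h2 h3
  rcases z3 i with rfl | rfl | rfl <;> rcases z3 k with rfl | rfl | rfl <;>
    rcases z3 m with rfl | rfl | rfl <;>
    first
      | exact absurd rfl h1
      | exact absurd rfl h2
      | exact absurd rfl h3
      | linear_combination hs

theorem D_sum (Z : ZMod 3 → ℂ) : ∀ i k m : ZMod 3, i ≠ k → m ≠ i → m ≠ k →
    Z (m + 2) - Z (m + 1) = -((Z (i + 2) - Z (i + 1)) + (Z (k + 2) - Z (k + 1))) := by
  have e1 : (1 : ZMod 3) + 2 = 0 := rfl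
  have e2 : (1 : ZMod 3) + 1 = 2 := rfl
  have e3 : (2 : ZMod 3) + 2 = 1 := rfl
  have e4 : (2 : ZMod 3) + 1 = 0 := rfl
  intro i k m h1 h2 h3
  rcases z3 i with rfl | rfl | rfl <;> rcases z3 k with rfl | rfl | rfl <;>
    rcases z3 m with rfl | rfl | rfl <;>
    first
      | exact absurd rfl h1
      | exact absurd rfl h2
      | exact absurd rfl h3
      | (simp only [zero_add, e1, e2, e3, e4]; ring)

/-- **the linear coefficient is small** : two joined patterns are enough -/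
theorem kap_le {κ t : ℂ} {e e' : ℝ} (h : Hul e' 1 Z) (he : 0 ≤ e') (he' : e' ≤ 1 / 10000)
    {i k : ZMod 3} (hik : i ≠ k) (hi : ‖κ * (Z (i + 2) - Z (i + 1)) - omz i ^ 2 * t‖ ≤ e)
    (hk : ‖κ * (Z (k + 2) - Z (k + 1)) - omz k ^ 2 * t‖ ≤ e) : ‖κ‖ ≤ 70 * e := by
  have e0 : 0 ≤ e := (norm_nonneg _).trans hi
  have hall : ∀ m : ZMod 3, ‖κ * (Z (m + 2) - Z (m + 1)) - omz m ^ 2 * t‖ ≤ 2 * e := by
    intro m
    by_cases h1 : m = i
    · rw [h1]; linarith
    by_cases h2 : m = k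
    · rw [h2]; linarith
    rw [D_sum Z i k m hik h1 h2, om2_sum i k m hik h1 h2]
    have e1 : κ * -((Z (i + 2) - Z (i + 1)) + (Z (k + 2) - Z (k + 1))) -
        -(omz i ^ 2 + omz k ^ 2) * t = -((κ * (Z (i + 2) - Z (i + 1)) - omz i ^ 2 * t) +
        (κ * (Z (k + 2) - Z (k + 1)) - omz k ^ 2 * t)) := by ring
    rw [e1, norm_neg]
    exact (norm_add_le _ _).trans (by linarith)
  have hR := rl_of (D := fun m => Z (m + 2) - Z (m + 1)) (m := Z) fun _ => rfl
  have hF : ∀ m : ZMod 3, ‖omz m ^ 2 * (2 * DefsNx346.hi * t + κ * Qf Z) +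
      omz m * (-(κ * Pf Z))‖ ≤ Real.sqrt 3 * (2 * e) := by
    intro m
    have e1 : omz m ^ 2 * (2 * DefsNx346.hi * t + κ * Qf Z) + omz m * (-(κ * Pf Z)) =
        -(2 * DefsNx346.hi * (κ * (Z (m + 2) - Z (m + 1)) - omz m ^ 2 * t)) := by
      have := hR m
      simp only at this
      unfold Pf Qf
      linear_combination κ * this
    rw [e1, norm_neg, norm_mul, norm_hi]
    exact mul_le_mul_of_nonneg_left (hall m) (Real.sqrt_nonneg 3)
  have hq := (fourier hF).2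
  rw [norm_neg, norm_mul] at hq
  have hP := Pf_low h he he'
  have h3 := sqrt3_hi
  have hκ := norm_nonneg κ
  have h4 : ‖κ‖ * (1 / 20) ≤ ‖κ‖ * ‖Pf Z‖ := mul_le_mul_of_nonneg_left hP hκ
  nlinarith

theorem conj_omz (i : ZMod 3) : (starRingEnd ℂ) (omz i) = omz i ^ 2 := by
  have h1 : omz i * (starRingEnd ℂ) (omz i) = 1 := by
    rw [Complex.mul_conj, Complex.normSq_eq_norm_sq, norm_omz]; norm_num
  have h2 := omz_cube i
  have h3 : omz i ≠ 0 := by
    intro h; rw [h, zero_mul] at h1; exact zero_ne_one h1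
  apply mul_left_cancel₀ h3
  rw [h1, ← h2]; ring

/-- the same for an antilinear coefficient (the field `conj RE`) -/
theorem kap_le_conj {κ t : ℂ} {e e' : ℝ} (h : Hul e' 1 Z) (he : 0 ≤ e') (he' : e' ≤ 1 / 10000)
    {i k : ZMod 3} (hik : i ≠ k)
    (hi : ‖κ * (starRingEnd ℂ) (Z (i + 2) - Z (i + 1)) - omz i * t‖ ≤ e)
    (hk : ‖κ * (starRingEnd ℂ) (Z (k + 2) - Z (k + 1)) - omz k * t‖ ≤ e) : ‖κ‖ ≤ 70 * e := by
  have key : ∀ j : ZMod 3, ‖κ * (starRingEnd ℂ) (Z (j + 2) - Z (j + 1)) - omz j * t‖ ≤ e →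
      ‖(starRingEnd ℂ) κ * (Z (j + 2) - Z (j + 1)) - omz j ^ 2 * (starRingEnd ℂ) t‖ ≤ e := by
    intro j hj
    rw [← Complex.norm_conj] at hj
    rwa [map_sub, map_mul, map_mul, Complex.conj_conj, conj_omz] at hj
  have := kap_le h he he' hik (key i hi) (key k hk)
  rwa [Complex.norm_conj] at this

/-! ### the homogeneous form and weighted means -/

theorem Hul.div {G : ℝ} (hG : 0 < G) (h : Hul e G Z) : Hul e 1 (fun j => Z j / (G : ℂ)) := by
  have hre : ∀ j, (Z j / (G : ℂ)).re = (Z j).re / G := fun j => Complex.div_ofReal_re _ _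
  have him : ∀ j, (Z j / (G : ℂ)).im = (Z j).im / G := fun j => Complex.div_ofReal_im _ _
  obtain ⟨b1, b2, b3, b4, r1, r2, r3, r4, t1, t2, t3, t4, t5⟩ := h
  refine ⟨?_, ?_, ?_, ?_, ?_, ?_, ?_, ?_, ?_, ?_, ?_, ?_, ?_⟩ <;>
    simp only [hre, him, mul_one]
  · rw [le_div_iff₀ hG]; linarith
  · rw [div_le_iff₀ hG]; linarith
  · rw [le_div_iff₀ hG]; linarith
  · rw [div_le_iff₀ hG]; linarith
  · rw [le_div_iff₀ hG]; linarith
  · rw [div_le_iff₀ hG]; linarith
  · rw [le_div_iff₀ hG]; linarith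
  · rw [div_le_iff₀ hG]; linarith
  · rw [le_div_iff₀ hG]; linarith
  · rw [div_le_iff₀ hG]; linarith
  · rw [le_div_iff₀ hG]; linarith
  · rw [div_le_iff₀ hG]; linarith
  · rw [div_le_iff₀ hG]
    have : (Z 2).im / G * G = (Z 2).im := div_mul_cancel₀ _ hG.ne'
    nlinarith

/-- weighted sums -/
theorem Hul.sum {ι : Type} (s : Finset ι) {g : ι → ℝ} {z : ι → ZMod 3 → ℂ}
    (hg : ∀ a ∈ s, 0 ≤ g a) (h : ∀ a ∈ s, 0 < g a → Hul e 1 (z a)) :
    Hul e (∑ a ∈ s, g a) (fun j => ∑ a ∈ s, (g a : ℂ) * z a j) := by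
  have hre : ∀ j, (∑ a ∈ s, (g a : ℂ) * z a j).re = ∑ a ∈ s, g a * (z a j).re := by
    intro j
    rw [Complex.re_sum]
    exact Finset.sum_congr rfl fun a _ => Complex.re_ofReal_mul _ _
  have him : ∀ j, (∑ a ∈ s, (g a : ℂ) * z a j).im = ∑ a ∈ s, g a * (z a j).im := by
    intro j
    rw [Complex.im_sum]
    exact Finset.sum_congr rfl fun a _ => Complex.im_ofReal_mul _ _
  have key : ∀ (f : ι → ℝ) (c : ℝ), (∀ a ∈ s, 0 < g a → f a ≤ c) →
      ∑ a ∈ s, g a * f a ≤ c * ∑ a ∈ s, g a := by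
    intro f c hf
    rw [Finset.mul_sum]
    refine Finset.sum_le_sum fun a ha => ?_
    rcases (hg a ha).lt_or_eq with h0 | h0
    · have := mul_le_mul_of_nonneg_left (hf a ha h0) h0.le
      linarith
    · rw [← h0]; simp
  have key' : ∀ (f : ι → ℝ) (c : ℝ), (∀ a ∈ s, 0 < g a → c ≤ f a) →
      c * ∑ a ∈ s, g a ≤ ∑ a ∈ s, g a * f a := by
    intro f c hf
    have := key (fun a => -f a) (-c) fun a ha h0 => neg_le_neg (hf a ha h0)
    simp only [mul_neg, Finset.sum_neg_distrib] at this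
    linarith
  refine ⟨?_, ?_, ?_, ?_, ?_, ?_, ?_, ?_, ?_, ?_, ?_, ?_, ?_⟩ <;> simp only [hre, him]
  · exact key' _ _ fun a ha h0 => by have := (h a ha h0).b1; linarith
  · exact key _ _ fun a ha h0 => by have := (h a ha h0).b2; linarith
  · exact key' _ _ fun a ha h0 => by have := (h a ha h0).b3; linarith
  · exact key _ _ fun a ha h0 => by have := (h a ha h0).b4; linarith
  · exact key' _ _ fun a ha h0 => by have := (h a ha h0).r1; linarith
  · exact key _ _ fun a ha h0 => by have := (h a ha h0).r2; linarith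
  · exact key' _ _ fun a ha h0 => by have := (h a ha h0).r3; linarith
  · exact key _ _ fun a ha h0 => by have := (h a ha h0).r4; linarith
  · exact key' _ _ fun a ha h0 => by have := (h a ha h0).t1; linarith
  · exact key _ _ fun a ha h0 => by have := (h a ha h0).t2; linarith
  · exact key' _ _ fun a ha h0 => by have := (h a ha h0).t3; linarith
  · exact key _ _ fun a ha h0 => by have := (h a ha h0).t4; linarith
  · have := key (fun a => (z a 2).re - (z a 2).im) e fun a ha h0 => by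
      have := (h a ha h0).t5; linarith
    simp only [mul_sub, Finset.sum_sub_distrib] at this
    linarith

/-- **weighted means over a measure** -/
theorem hul_integral {Ω : Type} [MeasurableSpace Ω] {μ : MeasureTheory.Measure Ω} {g : Ω → ℝ}
    {z : Ω → ZMod 3 → ℂ} (hg : ∀ ω, 0 ≤ g ω) (hgi : MeasureTheory.Integrable g μ)
    (hz : ∀ j, MeasureTheory.Integrable (fun ω => (g ω : ℂ) * z ω j) μ)
    (h : ∀ ω, 0 < g ω → Hul e 1 (z ω)) :
    Hul e (∫ ω, g ω ∂μ) (fun j => ∫ ω, (g ω : ℂ) * z ω j ∂μ) := by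
  have hre : ∀ j, (∫ ω, (g ω : ℂ) * z ω j ∂μ).re = ∫ ω, g ω * (z ω j).re ∂μ := by
    intro j
    have h1 := (integral_re (𝕜 := ℂ) (hz j)).symm
    have h2 : (∫ ω, (g ω : ℂ) * z ω j ∂μ).re = RCLike.re (∫ ω, (g ω : ℂ) * z ω j ∂μ) := rfl
    rw [h2, h1]
    exact MeasureTheory.integral_congr_ae (Filter.Eventually.of_forall fun ω =>
      Complex.re_ofReal_mul _ _)
  have him : ∀ j, (∫ ω, (g ω : ℂ) * z ω j ∂μ).im = ∫ ω, g ω * (z ω j).im ∂μ := by
    intro j
    have h1 := (integral_im (𝕜 := ℂ) (hz j)).symm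
    have h2 : (∫ ω, (g ω : ℂ) * z ω j ∂μ).im = RCLike.im (∫ ω, (g ω : ℂ) * z ω j ∂μ) := rfl
    rw [h2, h1]
    exact MeasureTheory.integral_congr_ae (Filter.Eventually.of_forall fun ω =>
      Complex.im_ofReal_mul _ _)
  have ire : ∀ j, MeasureTheory.Integrable (fun ω => g ω * (z ω j).re) μ := fun j =>
    (hz j).re.congr (Filter.Eventually.of_forall fun ω => Complex.re_ofReal_mul _ _)
  have iim : ∀ j, MeasureTheory.Integrable (fun ω => g ω * (z ω j).im) μ := fun j =>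
    (hz j).im.congr (Filter.Eventually.of_forall fun ω => Complex.im_ofReal_mul _ _)
  have key : ∀ (f : Ω → ℝ) (c : ℝ), MeasureTheory.Integrable (fun ω => g ω * f ω) μ →
      (∀ ω, 0 < g ω → f ω ≤ c) → ∫ ω, g ω * f ω ∂μ ≤ c * ∫ ω, g ω ∂μ := by
    intro f c hi hf
    rw [← MeasureTheory.integral_const_mul]
    refine MeasureTheory.integral_mono hi (hgi.const_mul c) fun ω => ?_
    show g ω * f ω ≤ c * g ω
    rcases (hg ω).lt_or_eq with h0 | h0
    · have := mul_le_mul_of_nonneg_left (hf ω h0) h0.le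
      linarith
    · rw [← h0]; simp
  have key' : ∀ (f : Ω → ℝ) (c : ℝ), MeasureTheory.Integrable (fun ω => g ω * f ω) μ →
      (∀ ω, 0 < g ω → c ≤ f ω) → c * ∫ ω, g ω ∂μ ≤ ∫ ω, g ω * f ω ∂μ := by
    intro f c hi hf
    rw [← MeasureTheory.integral_const_mul]
    refine MeasureTheory.integral_mono (hgi.const_mul c) hi fun ω => ?_
    show c * g ω ≤ g ω * f ω
    rcases (hg ω).lt_or_eq with h0 | h0
    · have := mul_le_mul_of_nonneg_left (hf ω h0) h0.le
      linarith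
    · rw [← h0]; simp
  refine ⟨?_, ?_, ?_, ?_, ?_, ?_, ?_, ?_, ?_, ?_, ?_, ?_, ?_⟩ <;> simp only [hre, him]
  · exact key' _ _ (ire 0) fun ω h0 => by have := (h ω h0).b1; linarith
  · exact key _ _ (ire 0) fun ω h0 => by have := (h ω h0).b2; linarith
  · exact key' _ _ (iim 0) fun ω h0 => by have := (h ω h0).b3; linarith
  · exact key _ _ (iim 0) fun ω h0 => by have := (h ω h0).b4; linarith
  · exact key' _ _ (ire 1) fun ω h0 => by have := (h ω h0).r1; linarith
  · exact key _ _ (ire 1) fun ω h0 => by have := (h ω h0).r2; linarith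
  · exact key' _ _ (iim 1) fun ω h0 => by have := (h ω h0).r3; linarith
  · exact key _ _ (iim 1) fun ω h0 => by have := (h ω h0).r4; linarith
  · exact key' _ _ (ire 2) fun ω h0 => by have := (h ω h0).t1; linarith
  · exact key _ _ (ire 2) fun ω h0 => by have := (h ω h0).t2; linarith
  · exact key' _ _ (iim 2) fun ω h0 => by have := (h ω h0).t3; linarith
  · exact key _ _ (iim 2) fun ω h0 => by have := (h ω h0).t4; linarith
  · have hs : MeasureTheory.Integrable (fun ω => g ω * ((z ω 2).re - (z ω 2).im)) μ :=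
      ((ire 2).sub (iim 2)).congr (Filter.Eventually.of_forall fun ω => by
        show g ω * (z ω 2).re - g ω * (z ω 2).im = _
        ring)
    have h1 := key (fun ω => (z ω 2).re - (z ω 2).im) e hs fun ω h0 => by
      have := (h ω h0).t5; linarith
    have h2 : ∫ ω, g ω * ((z ω 2).re - (z ω 2).im) ∂μ =
        ∫ ω, g ω * (z ω 2).re ∂μ - ∫ ω, g ω * (z ω 2).im ∂μ := by
      rw [← MeasureTheory.integral_sub (ire 2) (iim 2)]
      exact MeasureTheory.integral_congr_ae (Filter.Eventually.of_forall fun ω => by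
        show g ω * ((z ω 2).re - (z ω 2).im) = g ω * (z ω 2).re - g ω * (z ω 2).im
        ring)
    rw [h2] at h1
    linarith

/-- **cut weight** : on the piece `m` of the weight the relations hold for the two indices
different from `m` -/
theorem kap_pieces {κ : ℂ} {e e' : ℝ} {G : ZMod 3 → ℝ} {W : ZMod 3 → ZMod 3 → ℂ} {t : ZMod 3 → ℂ}
    (he : 0 ≤ e') (he' : e' ≤ 1 / 10000) (hG : 0 < ∑ m, G m) (h : ∀ m, Hul e' (G m) (W m))
    (hr : ∀ m i : ZMod 3, i ≠ m →
      ‖κ * (W m (i + 2) - W m (i + 1)) - omz i ^ 2 * t m‖ ≤ e * ∑ m, G m) :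
    ‖κ‖ ≤ 210 * e := by
  obtain ⟨m, hm⟩ : ∃ m, (∑ m, G m) / 3 ≤ G m := by
    by_contra hcon
    push Not at hcon
    have h1 : ∑ m, G m < ∑ _m : ZMod 3, (∑ m, G m) / 3 :=
      Finset.sum_lt_sum_of_nonempty Finset.univ_nonempty fun m _ => hcon m
    simp only [Finset.sum_const, Finset.card_univ, ZMod.card, nsmul_eq_mul] at h1
    push_cast at h1
    linarith
  have hGm : 0 < G m := by linarith
  have hd := (h m).div hGm
  have e0 : 0 ≤ e := by
    have h1 := (norm_nonneg _).trans (hr m (m + 1) (by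
      have : ∀ m : ZMod 3, m + 1 ≠ m := by decide
      exact this m))
    by_contra h2
    push Not at h2
    nlinarith [mul_neg_of_neg_of_pos h2 hG]
  have key : ∀ i : ZMod 3, i ≠ m → ‖κ * (W m (i + 2) / (G m : ℂ) - W m (i + 1) / (G m : ℂ)) -
      omz i ^ 2 * (t m / (G m : ℂ))‖ ≤ 3 * e := by
    intro i hi
    have e1 : κ * (W m (i + 2) / (G m : ℂ) - W m (i + 1) / (G m : ℂ)) -
        omz i ^ 2 * (t m / (G m : ℂ)) =
        (κ * (W m (i + 2) - W m (i + 1)) - omz i ^ 2 * t m) / (G m : ℂ) := by ring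
    rw [e1, norm_div, Complex.norm_real, Real.norm_of_nonneg hGm.le, div_le_iff₀ hGm]
    refine (hr m i hi).trans ?_
    nlinarith
  have n1 : ∀ m : ZMod 3, m + 1 ≠ m := by decide
  have n2 : ∀ m : ZMod 3, m + 2 ≠ m := by decide
  have n3 : ∀ m : ZMod 3, m + 1 ≠ m + 2 := by decide
  have := kap_le (i := m + 1) (k := m + 2) hd he he' (n3 m) (key _ (n1 m)) (key _ (n2 m))
  linarith

/-- the antilinear form -/
theorem kap_pieces_conj {κ : ℂ} {e e' : ℝ} {G : ZMod 3 → ℝ} {W : ZMod 3 → ZMod 3 → ℂ}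
    {t : ZMod 3 → ℂ} (he : 0 ≤ e') (he' : e' ≤ 1 / 10000) (hG : 0 < ∑ m, G m)
    (h : ∀ m, Hul e' (G m) (W m))
    (hr : ∀ m i : ZMod 3, i ≠ m →
      ‖κ * (starRingEnd ℂ) (W m (i + 2) - W m (i + 1)) - omz i * t m‖ ≤ e * ∑ m, G m) :
    ‖κ‖ ≤ 210 * e := by
  have := kap_pieces (κ := (starRingEnd ℂ) κ) (t := fun m => (starRingEnd ℂ) (t m)) he he' hG h
    (fun m i hi => by
      have h1 := hr m i hi
      rw [← Complex.norm_conj] at h1
      rwa [map_sub, map_mul, map_mul, Complex.conj_conj, conj_omz] at h1)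
  rwa [Complex.norm_conj] at this

end Crest.Agent.R143.Kapx709
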