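import Crest.Agent.R143.Tri_106

/-!
# Row 143, block H, H5 (d) in the literal form of the small field `Nn` (helper106)

The relation comes as `om ^ i * t = κ * conj (D i) + small`, `om = exp (2πi/3)`
(493's / 415's sign check of note 3909).
-/

set_option autoImplicit false

open Complex ComplexConjugate

namespace Crest.Agent.R143.Trix106

/-- the conjugate of `exp (2πi/3)` is a `Rt` -/
lemma Rt.of_conj {om : ℂ} (h : om ^ 2 + om + 1 = 0) (hi : 0 < om.im) : Rt (conj om) where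
  eq := by
    have := congrArg conj h
    simpa using this
  im := by rw [conj_im]; linarith

/-- **H5 (d) for the small field**: `‖κ conj (D i) - om ^ i t‖ ≤ e` for two of the three patterns -/
theorem wrong_root_conj {om : ℂ} (h : om ^ 2 + om + 1 = 0) (him : 0 < om.im) {Z : Fin 3 → ℂ}
    {z0 : ℂ} {b r e : ℝ} {κ t : ℂ} (hb : 0 < b) (hr : r ≤ b / 200)
    (h0 : ∃ x : ℝ, 0 ≤ x ∧ x ≤ b ∧ ‖Z 0 - (z0 + x)‖ ≤ r)
    (h1 : ∃ y : ℝ, 0 ≤ y ∧ y ≤ b ∧ ‖Z 1 - (z0 + b + y * I)‖ ≤ r)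
    (h2 : ∃ u v : ℝ, 0 ≤ u ∧ u ≤ v ∧ v ≤ b ∧ ‖Z 2 - (z0 + u + v * I)‖ ≤ r)
    {i j : Fin 3} (hij : i ≠ j)
    (hi : ‖κ * conj (Df Z i) - om ^ (i : ℕ) * t‖ ≤ e)
    (hj : ‖κ * conj (Df Z j) - om ^ (j : ℕ) * t‖ ≤ e) :
    ‖κ‖ * b ≤ 60 * e := by
  have hc : ∀ k : Fin 3, ‖conj κ * Df Z k - (conj om) ^ (k : ℕ) * conj t‖ =
      ‖κ * conj (Df Z k) - om ^ (k : ℕ) * t‖ := by
    intro k
    rw [← RCLike.norm_conj (κ * conj (Df Z k) - om ^ (k : ℕ) * t)]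
    simp
  rw [← RCLike.norm_conj κ]
  exact wrong_root_sq (Rt.of_conj h him) hb hr h0 h1 h2 hij ((hc i).trans_le hi)
    ((hc j).trans_le hj)

/-- the same with `ZMod 3` indices (powers `om ^ i.val`) and differences
`D i = Z (i + 2) - Z (i + 1)` -/
theorem wrong_root_z {om : ℂ} (h : om ^ 2 + om + 1 = 0) (him : 0 < om.im) {Z : ZMod 3 → ℂ}
    {z0 : ℂ} {b r e : ℝ} {κ t : ℂ} (hb : 0 < b) (hr : r ≤ b / 200)
    (h0 : ∃ x : ℝ, 0 ≤ x ∧ x ≤ b ∧ ‖Z 0 - (z0 + x)‖ ≤ r)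
    (h1 : ∃ y : ℝ, 0 ≤ y ∧ y ≤ b ∧ ‖Z 1 - (z0 + b + y * I)‖ ≤ r)
    (h2 : ∃ u v : ℝ, 0 ≤ u ∧ u ≤ v ∧ v ≤ b ∧ ‖Z 2 - (z0 + u + v * I)‖ ≤ r)
    {i j : ZMod 3} (hij : i ≠ j)
    (hi : ‖κ * conj (Z (i + 2) - Z (i + 1)) - om ^ i.val * t‖ ≤ e)
    (hj : ‖κ * conj (Z (j + 2) - Z (j + 1)) - om ^ j.val * t‖ ≤ e) :
    ‖κ‖ * b ≤ 60 * e :=
  wrong_root_conj (Z := Z) h him hb hr h0 h1 h2 (i := i) (j := j) hij hi hj

end Crest.Agent.R143.Trix106
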