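import Crest.Agent.R143.SqP_503
import Crest.Agent.R143.TileR1_228
import Crest.Agent.R143.Kap_709
import Crest.Agent.R143.Tri2_106
import Crest.Agent.R143.C2SB_395
import Crest.Agent.R143.NetU_346

/-!
# Row 143 (S0194), block H, H5 = KAPPA, box (S2): the hulls of the three arcs (helper715)

`SqPx503.sqW K` = clockwise boundary of `{0..K}²` from the corner `0`: left `[0, K]`, top `[K, 2K]`,
right `[2K, 3K]`, bottom `[3K, 4K]` (mod `4 K`). Index `0` = bottom, `1` = right, `2` = left and top.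

* `Side K i c` : the vertex `c` of the path is on the side `i`
* `HS e i` : the `e`-neighbourhood of the hull of the side `i` of the unit square by linear
  inequalities: `hul_iff : Kapx709.Hul e 1 Z ↔ ∀ i, Z i ∈ HS e i`; `conv_HS`
* `NearS K A B h j i` : the sites of the tiles within `j` tiles of the side `i`
* **`mem_HS`** : `s ∈ NearS .. i → s / (h K) ∈ HS e i`, `2 (B + h j) ≤ e (h K)`
* **`ez_mem`** : `Ez M A i z ∈ H` for a convex `H` which contains all the hits; `ey_mem` : the same for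
  346's `Ey`
* **`hul_ez`**, **`hul_ey`** : the three together, `Kapx709.Hul e 1`
* `tri0`, `tri1`, `tri2` : the literal hypotheses `h0`, `h1`, `h2` of `Trix106.wrong_root_conj`
-/

set_option autoImplicit false

noncomputable section

open scoped Classical

namespace Crest.Agent.R143.HullGx715

open Crest.Agent.R143.TileRx228 Crest.Agent.R143.SqPx503 Crest.Agent.R143.Kapx709
open Crest.Agent.R143.Frame1x395 Crest.Agent.R143.Frame2x395 Crest.Agent.R143.Frame3x395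
  Crest.Agent.R143.Frame4x395 Crest.Agent.R143.Frame8x395 Crest.Agent.R143.Frame9x395
  Crest.Agent.R143.NonXx592 Crest.Agent.R143.Coarsex166 Crest.Agent.R143.Coarse2x166
  Crest.Agent.R143.C2Sx395 Crest.Agent.R143.K33x137 Crest.Agent.R143.C2SBx395
open Crest.Agent.R143.NetUx346 (Ey Hex ff HitO hv exC)

/-! ### the sides of the square -/

/-- the vertex `c` is on the side `i` : bottom, right, left and top -/
def Side (K : ℕ) (i : ZMod 3) (c : ℤ) : Prop :=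
  if i = 0 then 3 * (K : ℤ) ≤ c % (4 * K) ∨ c % (4 * K) = 0
  else if i = 1 then 2 * (K : ℤ) ≤ c % (4 * K) ∧ c % (4 * K) ≤ 3 * K
  else c % (4 * K) ≤ 2 * K

theorem side0 {K : ℕ} (hK : 1 ≤ K) {c : ℤ} (h : Side K 0 c) :
    0 ≤ (sqW K c).1 ∧ (sqW K c).1 ≤ K ∧ (sqW K c).2 = 0 := by
  have hK' : (1 : ℤ) ≤ K := by exact_mod_cast hK
  have h0 := Int.emod_nonneg c (show (4 * K : ℤ) ≠ 0 by omega)
  have h1 := Int.emod_lt_of_pos c (show (0 : ℤ) < 4 * K by omega)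
  unfold Side at h
  rw [if_pos rfl] at h
  unfold sqW sq0
  split_ifs <;> refine ⟨?_, ?_, ?_⟩ <;> first | rfl | omega

theorem side1 {K : ℕ} (hK : 1 ≤ K) {c : ℤ} (h : Side K 1 c) :
    (sqW K c).1 = K ∧ 0 ≤ (sqW K c).2 ∧ (sqW K c).2 ≤ K := by
  have hK' : (1 : ℤ) ≤ K := by exact_mod_cast hK
  have h0 := Int.emod_nonneg c (show (4 * K : ℤ) ≠ 0 by omega)
  have h1 := Int.emod_lt_of_pos c (show (0 : ℤ) < 4 * K by omega)
  unfold Side at h
  rw [if_neg (by decide), if_pos rfl] at h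
  unfold sqW sq0
  split_ifs <;> refine ⟨?_, ?_, ?_⟩ <;> first | rfl | omega

theorem side2 {K : ℕ} (hK : 1 ≤ K) {c : ℤ} (h : Side K 2 c) :
    0 ≤ (sqW K c).1 ∧ (sqW K c).1 ≤ (sqW K c).2 ∧ (sqW K c).2 ≤ K := by
  have hK' : (1 : ℤ) ≤ K := by exact_mod_cast hK
  have h0 := Int.emod_nonneg c (show (4 * K : ℤ) ≠ 0 by omega)
  have h1 := Int.emod_lt_of_pos c (show (0 : ℤ) < 4 * K by omega)
  unfold Side at h
  rw [if_neg (by decide), if_neg (by decide)] at h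
  unfold sqW sq0
  split_ifs <;> refine ⟨?_, ?_, ?_⟩ <;> first | rfl | omega

/-- a lattice path moves one unit per step -/
theorem lip_nat {M : ℕ} {W : ℤ → ℤ × ℤ} (F : FPath M W) (a : ℤ) (n : ℕ) :
    |(W (a + n)).1 - (W a).1| ≤ n ∧ |(W (a + n)).2 - (W a).2| ≤ n := by
  induction n with
  | zero => simp
  | succ n ih =>
    have hs := F.step (a + n)
    have e : a + ((n + 1 : ℕ) : ℤ) = a + n + 1 := by push_cast; ring
    rw [e]
    have h1 : (W (a + n + 1)).1 - (W (a + n)).1 = (W (a + n + 1) - W (a + n)).1 := rfl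
    have h2 : (W (a + n + 1)).2 - (W (a + n)).2 = (W (a + n + 1) - W (a + n)).2 := rfl
    obtain ⟨i1, i2⟩ := ih
    rw [abs_le] at i1 i2
    rw [abs_le, abs_le]
    push_cast
    rcases hs with hs | hs | hs | hs <;> rw [hs] at h1 h2 <;> simp only at h1 h2 <;>
      refine ⟨⟨?_, ?_⟩, ?_, ?_⟩ <;> omega

theorem lip {M : ℕ} {W : ℤ → ℤ × ℤ} (F : FPath M W) (a c : ℤ) {j : ℝ} (hj : |(a : ℝ) - c| ≤ j) :
    |((W a).1 : ℝ) - (W c).1| ≤ j ∧ |((W a).2 : ℝ) - (W c).2| ≤ j := by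
  rcases le_total c a with h | h
  · obtain ⟨n, rfl⟩ := Int.le.dest h
    obtain ⟨h1, h2⟩ := lip_nat F c n
    have hn : (n : ℝ) ≤ j := by
      have : ((c + n : ℤ) : ℝ) - c = n := by push_cast; ring
      rw [this, abs_of_nonneg (Nat.cast_nonneg _)] at hj
      exact hj
    constructor
    · refine le_trans ?_ hn
      exact_mod_cast h1
    · refine le_trans ?_ hn
      exact_mod_cast h2
  · obtain ⟨n, rfl⟩ := Int.le.dest h
    obtain ⟨h1, h2⟩ := lip_nat F a n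
    have hn : (n : ℝ) ≤ j := by
      have : (a : ℝ) - ((a + n : ℤ) : ℝ) = -n := by push_cast; ring
      rw [this, abs_neg, abs_of_nonneg (Nat.cast_nonneg _)] at hj
      exact hj
    rw [abs_sub_comm] at h1 h2
    constructor
    · refine le_trans ?_ hn
      exact_mod_cast h1
    · refine le_trans ?_ hn
      exact_mod_cast h2

/-! ### the hulls -/

/-- `e`-neighbourhood of the hull of the side `i` of the unit square -/
def HS (e : ℝ) (i : ZMod 3) : Set ℂ :=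
  if i = 0 then {z | -e ≤ z.re ∧ z.re ≤ 1 + e ∧ -e ≤ z.im ∧ z.im ≤ e}
  else if i = 1 then {z | 1 - e ≤ z.re ∧ z.re ≤ 1 + e ∧ -e ≤ z.im ∧ z.im ≤ 1 + e}
  else {z | (-e ≤ z.re ∧ z.re ≤ 1 + e) ∧ (-e ≤ z.im ∧ z.im ≤ 1 + e) ∧ z.re ≤ z.im + e}

variable {e : ℝ} {z : ℂ}

theorem HS0 : z ∈ HS e 0 ↔ -e ≤ z.re ∧ z.re ≤ 1 + e ∧ -e ≤ z.im ∧ z.im ≤ e := by
  unfold HS
  rw [if_pos rfl]
  rfl

theorem HS1 : z ∈ HS e 1 ↔ 1 - e ≤ z.re ∧ z.re ≤ 1 + e ∧ -e ≤ z.im ∧ z.im ≤ 1 + e := by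
  unfold HS
  rw [if_neg (by decide), if_pos rfl]
  rfl

theorem HS2 : z ∈ HS e 2 ↔
    (-e ≤ z.re ∧ z.re ≤ 1 + e) ∧ (-e ≤ z.im ∧ z.im ≤ 1 + e) ∧ z.re ≤ z.im + e := by
  unfold HS
  rw [if_neg (by decide), if_neg (by decide)]
  rfl

theorem z3 : ∀ i : ZMod 3, i = 0 ∨ i = 1 ∨ i = 2 := by decide

theorem forall3 {P : ZMod 3 → Prop} : (∀ i, P i) ↔ P 0 ∧ P 1 ∧ P 2 := by
  refine ⟨fun h => ⟨h 0, h 1, h 2⟩, fun ⟨h0, h1, h2⟩ i => ?_⟩
  rcases z3 i with rfl | rfl | rfl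
  exacts [h0, h1, h2]

theorem conv_HS (e : ℝ) (i : ZMod 3) : Convex ℝ (HS e i) := by
  revert i
  rw [forall3]
  refine ⟨?_, ?_, ?_⟩
  · rintro x hx y hy a b ha hb hab
    rw [HS0] at *
    simp only [Complex.add_re, Complex.add_im, Complex.smul_re, Complex.smul_im, smul_eq_mul]
    obtain ⟨x1, x2, x3, x4⟩ := hx
    obtain ⟨y1, y2, y3, y4⟩ := hy
    have hb' : b = 1 - a := by linarith
    subst hb'
    refine ⟨?_, ?_, ?_, ?_⟩ <;> nlinarith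
  · rintro x hx y hy a b ha hb hab
    rw [HS1] at *
    simp only [Complex.add_re, Complex.add_im, Complex.smul_re, Complex.smul_im, smul_eq_mul]
    obtain ⟨x1, x2, x3, x4⟩ := hx
    obtain ⟨y1, y2, y3, y4⟩ := hy
    have hb' : b = 1 - a := by linarith
    subst hb'
    refine ⟨?_, ?_, ?_, ?_⟩ <;> nlinarith
  · rintro x hx y hy a b ha hb hab
    rw [HS2] at *
    simp only [Complex.add_re, Complex.add_im, Complex.smul_re, Complex.smul_im, smul_eq_mul]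
    obtain ⟨⟨x1, x2⟩, ⟨x3, x4⟩, x5⟩ := hx
    obtain ⟨⟨y1, y2⟩, ⟨y3, y4⟩, y5⟩ := hy
    have hb' : b = 1 - a := by linarith
    subst hb'
    refine ⟨⟨?_, ?_⟩, ⟨?_, ?_⟩, ?_⟩ <;> nlinarith

/-- 709's hypothesis -/
theorem hul_iff {Z : ZMod 3 → ℂ} : Hul e 1 Z ↔ ∀ i, Z i ∈ HS e i := by
  rw [forall3, HS0, HS1, HS2]
  constructor
  · rintro ⟨b1, b2, b3, b4, r1, r2, r3, r4, t1, t2, t3, t4, t5⟩
    simp only [mul_one] at *
    exact ⟨⟨b1, b2, b3, b4⟩, ⟨r1, r2, r3, r4⟩, ⟨t1, t2⟩, ⟨t3, t4⟩, t5⟩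
  · rintro ⟨⟨b1, b2, b3, b4⟩, ⟨r1, r2, r3, r4⟩, ⟨t1, t2⟩, ⟨t3, t4⟩, t5⟩
    constructor <;> simp only [mul_one] <;> assumption

/-! ### the sites of the tiles -/

/-- the sites of the tiles within `j` tiles of the side `i` -/
def NearS (K : ℕ) (A B h j : ℝ) (i : ZMod 3) : Set ℂ :=
  {s | ∃ a c : ℤ, s ∈ RR A B h (sqW K) a ∧ Side K i c ∧ |(a : ℝ) - c| ≤ j}

theorem nearS_coord {K : ℕ} (hK : 1 ≤ K) {A B h j : ℝ} (hh : 0 ≤ h) (hAB : A ≤ B) {i : ZMod 3}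
    {s : ℂ} (hs : s ∈ NearS K A B h j i) : ∃ c : ℤ, Side K i c ∧
      |s.re - h * (sqW K c).1| ≤ B + h * j ∧ |s.im - h * (sqW K c).2| ≤ B + h * j := by
  obtain ⟨a, c, hs, hc, hj⟩ := hs
  have F := sq_fpath hK
  obtain ⟨h1, h2⟩ := ball F hAB hs
  obtain ⟨l1, l2⟩ := lip F a c hj
  have e1 : (s - cen h (sqW K) a).re = s.re - h * (sqW K a).1 := by
    simp [cen, cz]
  have e2 : (s - cen h (sqW K) a).im = s.im - h * (sqW K a).2 := by
    simp [cen, cz]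
  rw [e1] at h1
  rw [e2] at h2
  refine ⟨c, hc, ?_, ?_⟩
  · have : s.re - h * (sqW K c).1 = (s.re - h * (sqW K a).1) +
        h * (((sqW K a).1 : ℝ) - (sqW K c).1) := by ring
    rw [this]
    refine (abs_add_le _ _).trans (add_le_add h1.le ?_)
    rw [abs_mul, abs_of_nonneg hh]
    gcongr
  · have : s.im - h * (sqW K c).2 = (s.im - h * (sqW K a).2) +
        h * (((sqW K a).2 : ℝ) - (sqW K c).2) := by ring
    rw [this]
    refine (abs_add_le _ _).trans (add_le_add h2.le ?_)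
    rw [abs_mul, abs_of_nonneg hh]
    gcongr

/-- **the sites of the tiles near the side `i` are near the hull of the side `i`** -/
theorem mem_HS {K : ℕ} (hK : 1 ≤ K) {A B h j : ℝ} (hh : 0 < h) (hAB : A ≤ B) (hB : 0 ≤ B)
    (hj : 0 ≤ j) (he : 2 * (B + h * j) ≤ e * (h * K)) {i : ZMod 3} {s : ℂ}
    (hs : s ∈ NearS K A B h j i) : s / ((h * K : ℝ) : ℂ) ∈ HS e i := by
  have hK' : (1 : ℝ) ≤ K := by exact_mod_cast hK
  have hb : 0 < h * K := by positivity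
  obtain ⟨c, hc, h1, h2⟩ := nearS_coord hK hh.le hAB hs
  have hd : 0 ≤ B + h * j := by positivity
  have he' : B + h * j ≤ e * (h * K) := by linarith
  set δ := B + h * j with hδ
  obtain ⟨a1, a2⟩ := abs_le.1 h1
  obtain ⟨a3, a4⟩ := abs_le.1 h2
  have r1 : (s / ((h * K : ℝ) : ℂ)).re = s.re / (h * K) := by rw [Complex.div_ofReal_re]
  have r2 : (s / ((h * K : ℝ) : ℂ)).im = s.im / (h * K) := by rw [Complex.div_ofReal_im]
  rcases z3 i with rfl | rfl | rfl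
  · obtain ⟨c1, c2, c3⟩ := side0 hK hc
    have d1 : (0 : ℝ) ≤ (sqW K c).1 := by exact_mod_cast c1
    have d2 : ((sqW K c).1 : ℝ) ≤ K := by exact_mod_cast c2
    have d3 : ((sqW K c).2 : ℝ) = 0 := by exact_mod_cast c3
    have m1 := mul_nonneg hh.le d1
    have m2 := mul_le_mul_of_nonneg_left d2 hh.le
    rw [d3] at a3 a4
    rw [HS0, r1, r2, le_div_iff₀ hb, div_le_iff₀ hb, le_div_iff₀ hb, div_le_iff₀ hb]
    refine ⟨?_, ?_, ?_, ?_⟩ <;> nlinarith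
  · obtain ⟨c1, c2, c3⟩ := side1 hK hc
    have d1 : ((sqW K c).1 : ℝ) = K := by exact_mod_cast c1
    have d2 : (0 : ℝ) ≤ (sqW K c).2 := by exact_mod_cast c2
    have d3 : ((sqW K c).2 : ℝ) ≤ K := by exact_mod_cast c3
    have m1 := mul_nonneg hh.le d2
    have m2 := mul_le_mul_of_nonneg_left d3 hh.le
    rw [d1] at a1 a2
    rw [HS1, r1, r2, le_div_iff₀ hb, div_le_iff₀ hb, le_div_iff₀ hb, div_le_iff₀ hb]
    refine ⟨?_, ?_, ?_, ?_⟩ <;> nlinarith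
  · obtain ⟨c1, c2, c3⟩ := side2 hK hc
    have d1 : (0 : ℝ) ≤ (sqW K c).1 := by exact_mod_cast c1
    have d2 : ((sqW K c).1 : ℝ) ≤ (sqW K c).2 := by exact_mod_cast c2
    have d3 : ((sqW K c).2 : ℝ) ≤ K := by exact_mod_cast c3
    have m1 := mul_nonneg hh.le d1
    have m2 := mul_le_mul_of_nonneg_left d2 hh.le
    have m3 := mul_le_mul_of_nonneg_left d3 hh.le
    have hb' := hb.ne'
    rw [HS2, r1, r2, le_div_iff₀ hb, div_le_iff₀ hb, le_div_iff₀ hb, div_le_iff₀ hb]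
    refine ⟨⟨?_, ?_⟩, ⟨?_, ?_⟩, ?_⟩
    · nlinarith
    · nlinarith
    · nlinarith
    · nlinarith
    · rw [div_le_iff₀ hb, add_mul, div_mul_cancel₀ _ hb']
      linarith

/-! ### means -/

theorem mean_mem {ι : Type*} [Fintype ι] [Nonempty ι] {H : Set ℂ} (hH : Convex ℝ H) {f : ι → ℂ}
    (h : ∀ x, f x ∈ H) : (∑ x, f x) / (Fintype.card ι : ℂ) ∈ H := by
  have hc : (0 : ℝ) < Fintype.card ι := by exact_mod_cast Fintype.card_pos
  have h1 := hH.sum_mem (t := Finset.univ) (w := fun _ : ι => (Fintype.card ι : ℝ)⁻¹) (z := f)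
    (fun _ _ => (inv_pos.2 hc).le) (by
      rw [Finset.sum_const, Finset.card_univ, nsmul_eq_mul, mul_inv_cancel₀ hc.ne'])
    (fun x _ => h x)
  rw [← Finset.smul_sum] at h1
  convert h1 using 1
  rw [Complex.real_smul]
  push_cast
  rw [div_eq_inv_mul]

/-- **the mean end point is in every convex set which contains all the end points** (395's `Ez`) -/
theorem ez_mem {D C : Type} [Fintype D] [Fintype C] {M : CMap D C} {A : ZMod 3 → Set C}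
    {i : ZMod 3} {H : Set ℂ} (hH : Convex ℝ H) (G : Gi M A) {z : C → ℂ}
    (h : ∀ χ : C → ZMod 2, ∃ k, Hit M A i {c | χ c = 1} k ∧ z (M.cell k) ∈ H) :
    Ez M A i z ∈ H := by
  unfold Ez
  refine mean_mem hH fun χ => ?_
  obtain ⟨k, hk, hz⟩ := h χ
  rw [yv_eq G hk]
  exact hz

/-- **the mean end point is in every convex set which contains all the end points** (346's `Ey`) -/
theorem ey_mem {S : Finset ℂ} {A : ZMod 3 → Set ℂ} {i : ZMod 3} {H : Set ℂ} (hH : Convex ℝ H)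
    (hX : Hex S A) {z : ℂ → ℂ} (h : ∀ T ⊆ ff S A, z (hv S A i (T : Set ℂ)) ∈ H) :
    Ey S A z i ∈ H := by
  rw [NetUx346.Ey_eq hX]
  unfold exC
  have h1 := hH.sum_mem (t := (ff S A).powerset)
    (w := fun _ : Finset ℂ => (((ff S A).powerset.card : ℕ) : ℝ)⁻¹)
    (z := fun T => z (hv S A i (T : Set ℂ)))
    (fun _ _ => by positivity) (by
      rw [Finset.sum_const, nsmul_eq_mul, mul_inv_cancel₀]
      rw [Finset.card_powerset]
      positivity)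
    (fun T hT => h T (Finset.mem_powerset.1 hT))
  rw [← Finset.smul_sum, Finset.card_powerset] at h1
  convert h1 using 1
  rw [Complex.real_smul]
  push_cast
  rw [div_eq_inv_mul]

/-- **(S2), cell form**: every hit of the giant `i` is at a site of a tile near the side `i` -/
theorem hul_ez {D C : Type} [Fintype D] [Fintype C] {M : CMap D C} {A : ZMod 3 → Set C}
    (G : Gi M A) {K : ℕ} (hK : 1 ≤ K) {a B h j : ℝ} (hh : 0 < h) (hAB : a ≤ B) (hB : 0 ≤ B)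
    (hj : 0 ≤ j) (he : 2 * (B + h * j) ≤ e * (h * K)) {pos : C → ℂ}
    (hit : ∀ i, ∀ χ : C → ZMod 2, ∃ k, Hit M A i {c | χ c = 1} k ∧
      pos (M.cell k) ∈ NearS K a B h j i) :
    Hul e 1 fun i => Ez M A i fun c => pos c / ((h * K : ℝ) : ℂ) := by
  rw [hul_iff]
  intro i
  refine ez_mem (conv_HS e i) G fun χ => ?_
  obtain ⟨k, hk, hz⟩ := hit i χ
  exact ⟨k, hk, mem_HS hK hh hAB hB hj he hz⟩

/-- **(S2), site form** (346's `Ey`) -/
theorem hul_ey {S : Finset ℂ} {A : ZMod 3 → Set ℂ} (hX : Hex S A) {K : ℕ} (hK : 1 ≤ K)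
    {a B h j : ℝ} (hh : 0 < h) (hAB : a ≤ B) (hB : 0 ≤ B) (hj : 0 ≤ j)
    (he : 2 * (B + h * j) ≤ e * (h * K))
    (hit : ∀ i, ∀ T ⊆ ff S A, hv S A i (T : Set ℂ) ∈ NearS K a B h j i) :
    Hul e 1 fun i => Ey S A (fun s => s / ((h * K : ℝ) : ℂ)) i := by
  rw [hul_iff]
  intro i
  exact ey_mem (conv_HS e i) hX fun T hT => mem_HS hK hh hAB hB hj he (hit i T hT)

/-! ### the literal hypotheses of `Trix106.wrong_root_conj` -/

/-- the hulls of the sides of the square with corner `z0` and side `b` -/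
def HB (z0 : ℂ) (b : ℝ) (i : ZMod 3) : Set ℂ :=
  if i = 0 then {z | ∃ x : ℝ, 0 ≤ x ∧ x ≤ b ∧ z = z0 + x}
  else if i = 1 then {z | ∃ y : ℝ, 0 ≤ y ∧ y ≤ b ∧ z = z0 + b + y * Complex.I}
  else {z | ∃ u v : ℝ, 0 ≤ u ∧ u ≤ v ∧ v ≤ b ∧ z = z0 + u + v * Complex.I}

variable {z0 : ℂ} {b : ℝ}

theorem HB0 : z ∈ HB z0 b 0 ↔ ∃ x : ℝ, 0 ≤ x ∧ x ≤ b ∧ z = z0 + x := by
  unfold HB
  rw [if_pos rfl]
  rfl

theorem HB1 : z ∈ HB z0 b 1 ↔ ∃ y : ℝ, 0 ≤ y ∧ y ≤ b ∧ z = z0 + b + y * Complex.I := by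
  unfold HB
  rw [if_neg (by decide), if_pos rfl]
  rfl

theorem HB2 : z ∈ HB z0 b 2 ↔
    ∃ u v : ℝ, 0 ≤ u ∧ u ≤ v ∧ v ≤ b ∧ z = z0 + u + v * Complex.I := by
  unfold HB
  rw [if_neg (by decide), if_neg (by decide)]
  rfl

theorem conv_HB (z0 : ℂ) (b : ℝ) (i : ZMod 3) : Convex ℝ (HB z0 b i) := by
  revert i
  rw [forall3]
  refine ⟨?_, ?_, ?_⟩
  · rintro x hx y hy p q hp hq hpq
    rw [HB0] at *
    obtain ⟨x1, x2, x3, rfl⟩ := hx
    obtain ⟨y1, y2, y3, rfl⟩ := hy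
    refine ⟨p * x1 + q * y1, by positivity, ?_, ?_⟩
    · calc p * x1 + q * y1 ≤ p * b + q * b := by gcongr
        _ = b := by rw [← add_mul, hpq, one_mul]
    · have hc : (p : ℂ) + q = 1 := by exact_mod_cast hpq
      simp only [Complex.real_smul]
      push_cast
      linear_combination z0 * hc
  · rintro x hx y hy p q hp hq hpq
    rw [HB1] at *
    obtain ⟨x1, x2, x3, rfl⟩ := hx
    obtain ⟨y1, y2, y3, rfl⟩ := hy
    refine ⟨p * x1 + q * y1, by positivity, ?_, ?_⟩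
    · calc p * x1 + q * y1 ≤ p * b + q * b := by gcongr
        _ = b := by rw [← add_mul, hpq, one_mul]
    · have hc : (p : ℂ) + q = 1 := by exact_mod_cast hpq
      simp only [Complex.real_smul]
      push_cast
      linear_combination (z0 + b) * hc
  · rintro x hx y hy p q hp hq hpq
    rw [HB2] at *
    obtain ⟨u, v, h1, h2, h3, rfl⟩ := hx
    obtain ⟨u', v', h1', h2', h3', rfl⟩ := hy
    refine ⟨p * u + q * u', p * v + q * v', by positivity, by gcongr, ?_, ?_⟩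
    · calc p * v + q * v' ≤ p * b + q * b := by gcongr
        _ = b := by rw [← add_mul, hpq, one_mul]
    · have hc : (p : ℂ) + q = 1 := by exact_mod_cast hpq
      simp only [Complex.real_smul]
      push_cast
      linear_combination z0 * hc

/-- **the sites of the tiles near the side `i`**, square with corner `z0` and side `h K` -/
theorem mem_HB {K : ℕ} (hK : 1 ≤ K) {A B h j : ℝ} (hh : 0 ≤ h) (hAB : A ≤ B) {i : ZMod 3}
    {s : ℂ} (hs : s ∈ NearS K A B h j i) :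
    z0 + s ∈ Trix106.Nr (HB z0 (h * K) i) (2 * (B + h * j)) := by
  obtain ⟨c, hc, h1, h2⟩ := nearS_coord hK hh hAB hs
  have key : ∀ w : ℂ, w = z0 + (h * (sqW K c).1 : ℝ) + (h * (sqW K c).2 : ℝ) * Complex.I →
      ‖z0 + s - w‖ ≤ 2 * (B + h * j) := by
    rintro w rfl
    refine (Complex.norm_le_abs_re_add_abs_im _).trans ?_
    have e1 : (z0 + s - (z0 + (h * (sqW K c).1 : ℝ) + (h * (sqW K c).2 : ℝ) * Complex.I)).re =
        s.re - h * (sqW K c).1 := by simp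
    have e2 : (z0 + s - (z0 + (h * (sqW K c).1 : ℝ) + (h * (sqW K c).2 : ℝ) * Complex.I)).im =
        s.im - h * (sqW K c).2 := by simp
    rw [e1, e2]
    linarith
  rcases z3 i with rfl | rfl | rfl
  · obtain ⟨c1, c2, c3⟩ := side0 hK hc
    have d1 : (0 : ℝ) ≤ (sqW K c).1 := by exact_mod_cast c1
    have d2 : ((sqW K c).1 : ℝ) ≤ K := by exact_mod_cast c2
    have d3 : ((sqW K c).2 : ℝ) = 0 := by exact_mod_cast c3
    refine ⟨_, HB0.2 ⟨h * (sqW K c).1, by positivity, by gcongr, rfl⟩, key _ ?_⟩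
    rw [d3]
    simp
  · obtain ⟨c1, c2, c3⟩ := side1 hK hc
    have d1 : ((sqW K c).1 : ℝ) = K := by exact_mod_cast c1
    have d2 : (0 : ℝ) ≤ (sqW K c).2 := by exact_mod_cast c2
    have d3 : ((sqW K c).2 : ℝ) ≤ K := by exact_mod_cast c3
    refine ⟨_, HB1.2 ⟨h * (sqW K c).2, by positivity, by gcongr, rfl⟩, key _ ?_⟩
    rw [d1]
  · obtain ⟨c1, c2, c3⟩ := side2 hK hc
    have d1 : (0 : ℝ) ≤ (sqW K c).1 := by exact_mod_cast c1
    have d2 : ((sqW K c).1 : ℝ) ≤ (sqW K c).2 := by exact_mod_cast c2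
    have d3 : ((sqW K c).2 : ℝ) ≤ K := by exact_mod_cast c3
    exact ⟨_, HB2.2 ⟨h * (sqW K c).1, h * (sqW K c).2, by positivity, by gcongr, by gcongr, rfl⟩,
      key _ rfl⟩

theorem tri0 {r : ℝ} (h : z ∈ Trix106.Nr (HB z0 b 0) r) :
    ∃ x : ℝ, 0 ≤ x ∧ x ≤ b ∧ ‖z - (z0 + x)‖ ≤ r := by
  obtain ⟨a, ha, h⟩ := h
  obtain ⟨x, h1, h2, rfl⟩ := HB0.1 ha
  exact ⟨x, h1, h2, h⟩

theorem tri1 {r : ℝ} (h : z ∈ Trix106.Nr (HB z0 b 1) r) :
    ∃ y : ℝ, 0 ≤ y ∧ y ≤ b ∧ ‖z - (z0 + b + y * Complex.I)‖ ≤ r := by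
  obtain ⟨a, ha, h⟩ := h
  obtain ⟨x, h1, h2, rfl⟩ := HB1.1 ha
  exact ⟨x, h1, h2, h⟩

theorem tri2 {r : ℝ} (h : z ∈ Trix106.Nr (HB z0 b 2) r) :
    ∃ u v : ℝ, 0 ≤ u ∧ u ≤ v ∧ v ≤ b ∧ ‖z - (z0 + u + v * Complex.I)‖ ≤ r := by
  obtain ⟨a, ha, h⟩ := h
  obtain ⟨u, v, h1, h2, h3, rfl⟩ := HB2.1 ha
  exact ⟨u, v, h1, h2, h3, h⟩

/-- **(S2), cell form, 106's hypotheses `h0`, `h1`, `h2`** (`pos c = z0 + site`) -/
theorem tri_ez {D C : Type} [Fintype D] [Fintype C] {M : CMap D C} {A : ZMod 3 → Set C}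
    (G : Gi M A) {K : ℕ} (hK : 1 ≤ K) {a B h j : ℝ} (hh : 0 ≤ h) (hAB : a ≤ B) {pos : C → ℂ}
    (hit : ∀ i, ∀ χ : C → ZMod 2, ∃ k, Hit M A i {c | χ c = 1} k ∧
      ∃ s ∈ NearS K a B h j i, pos (M.cell k) = z0 + s) :
    (∃ x : ℝ, 0 ≤ x ∧ x ≤ h * K ∧ ‖Ez M A 0 pos - (z0 + x)‖ ≤ 2 * (B + h * j)) ∧
    (∃ y : ℝ, 0 ≤ y ∧ y ≤ h * K ∧
      ‖Ez M A 1 pos - (z0 + (h * K : ℝ) + y * Complex.I)‖ ≤ 2 * (B + h * j)) ∧
    ∃ u v : ℝ, 0 ≤ u ∧ u ≤ v ∧ v ≤ h * K ∧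
      ‖Ez M A 2 pos - (z0 + u + v * Complex.I)‖ ≤ 2 * (B + h * j) := by
  have key : ∀ i, Ez M A i pos ∈ Trix106.Nr (HB z0 (h * K) i) (2 * (B + h * j)) := by
    intro i
    refine ez_mem (Trix106.Nr_convex (conv_HB z0 (h * K) i) _) G fun χ => ?_
    obtain ⟨k, hk, s, hs, e⟩ := hit i χ
    exact ⟨k, hk, by rw [e]; exact mem_HB hK hh hAB hs⟩
  exact ⟨tri0 (key 0), tri1 (key 1), tri2 (key 2)⟩

/-- **(S2), site form, 106's hypotheses `h0`, `h1`, `h2`** -/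
theorem tri_ey {S : Finset ℂ} {A : ZMod 3 → Set ℂ} (hX : Hex S A) {K : ℕ} (hK : 1 ≤ K)
    {a B h j : ℝ} (hh : 0 ≤ h) (hAB : a ≤ B)
    (hit : ∀ i, ∀ T ⊆ ff S A, ∃ s ∈ NearS K a B h j i, hv S A i (T : Set ℂ) = z0 + s) :
    (∃ x : ℝ, 0 ≤ x ∧ x ≤ h * K ∧ ‖Ey S A id 0 - (z0 + x)‖ ≤ 2 * (B + h * j)) ∧
    (∃ y : ℝ, 0 ≤ y ∧ y ≤ h * K ∧
      ‖Ey S A id 1 - (z0 + (h * K : ℝ) + y * Complex.I)‖ ≤ 2 * (B + h * j)) ∧
    ∃ u v : ℝ, 0 ≤ u ∧ u ≤ v ∧ v ≤ h * K ∧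
      ‖Ey S A id 2 - (z0 + u + v * Complex.I)‖ ≤ 2 * (B + h * j) := by
  have key : ∀ i, Ey S A id i ∈ Trix106.Nr (HB z0 (h * K) i) (2 * (B + h * j)) := by
    intro i
    refine ey_mem (Trix106.Nr_convex (conv_HB z0 (h * K) i) _) hX fun T hT => ?_
    obtain ⟨s, hs, e⟩ := hit i T hT
    show hv S A i (T : Set ℂ) ∈ _
    rw [e]
    exact mem_HB hK hh hAB hs
  exact ⟨tri0 (key 0), tri1 (key 1), tri2 (key 2)⟩

end Crest.Agent.R143.HullGx715
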