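import Crest.Agent.R143.StS_277
import Crest.Agent.R143.Xc_372
import Crest.Agent.R143.HullG_715

/-!
# Row 143 (S0194), block H, H5 (S1): the centre of the static net of the ring (helper277)

`K 0, K 1, K 2` = arcs of the ring (cells), `W` = outside (contains the hull cell), `Rim`.

* `hit_K`, `hitO_K` : with a centre, the hit of the giant `m` of a pattern is in `K m` (never in `W`)
* `nr_o`, `nr_root` : no positive rainbow triangle of giants (field `nr` of `MarkH_298`), root version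
* `ctr_of_pth` : the centre from three chains of sites from a free site to the hull
* `ctr_dns` : the same from three connected sets in a disc (`Dns`)
* `pre_ray` : half line ∪ everything far away is connected
* **`ctr_loc`** : the square `w + [0, b]²`, the sites of `K i` are near the side `i`
  (`Loc`: bottom / right / left or top): the centre exists, every pattern
* **`ctr_near`** : the same from 715's `NearS` (tiles of the ring)
-/

set_option autoImplicit false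

noncomputable section

open scoped Classical

namespace Crest.Agent.R143.CtrHx277

open Crest.ProbabilityR.Voronoi
open Crest.Agent.R143.B0x346 Crest.Agent.R143.DelGx806 Crest.Agent.R143.DelRx806
open Crest.Agent.R143.DomAx722 (Dns)
open Crest.Agent.R143.JColx54 (Adj adj_tri adj_tri' adj_tri'' delT_rot)
open Crest.Agent.R143.RE0x723 (Pth Pth.refl Pth.snd Pth.trans Pth.tail Pth.single Pth.symm Pth.mono
  Pth.ind Pth.self)
open Crest.Agent.R143.K33x877 (Clu fr CtrT CtrX Cls)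
open Crest.Agent.R143.NetUx346
open Crest.Agent.R143.Loc8x277 Crest.Agent.R143.StSx277
open Crest.Agent.R143.Frame1x395 Crest.Agent.R143.Frame10x395 Crest.Agent.R143.C2SBx395
  Crest.Agent.R143.C2SCx395 Crest.Agent.R143.C2SDx395 Crest.Agent.R143.K33x137
open Crest.Agent.R143.FinCx811 (Cs rc0 cell_mem)
open Crest.Agent.R143.Frame5x395 (sd mem_sd th th_spec)

variable {S : Finset ℂ} {hS : GP (S : Set ℂ)} {K : ZMod 3 → Set (Cs hS)} {W : Set (Cs hS)}
  {i j k l m : ZMod 3} {g : D0 S} {X : Set ℂ}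

/-! ### the hits are in `K` -/

/-- **the hit of a pattern is in `K`** (sites) -/
theorem hitO_K (hr : Rim (rc0 hS) K W) (G : Gi (rc0 hS) (Ap K W k))
    (R : Root (rc0 hS) (Ap K W k) i g) (hX : CtrX S (st (Ap K W k)) X) {T : Set ℂ}
    {t : ℂ × ℂ × ℂ} (h : HitO S (st (Ap K W k)) m T t) : t.1 ∈ st K m := by
  obtain ⟨x, hx, -⟩ := hX.2.2 0
  have hn := near_o (k3o_of G R) (ctr_cp hX hx) cp_cl h
  obtain ⟨u, b, v⟩ := t
  have h1 : (u, b, v) ∈ delT S := h.1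
  have key : ∀ y ∈ Cp S (st (Ap K W k)) x, Adj S y u → u ∈ st K m := by
    intro y hy hyu
    obtain ⟨hu, c, hc, e⟩ : u ∈ st (Ap K W k) m := h.2.1
    obtain ⟨cy, hcy⟩ := cell_ex (hS := hS) hyu
    have h2 := hr cy c (ed_of_adj hyu hcy e) (((fr_pat k).1 (Pth.snd hy)).2 cy hcy)
    exact ⟨hu, c, hc.resolve_right fun h => h2 h.2, e⟩
  rcases hn.2.2 with h2 | h2
  · exact key b h2 (adj_tri h1).symm
  · exact key v h2 (adj_tri'' hS h1)

/-- **the hit of a pattern is in `K`** (cells) -/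
theorem hit_K (hr : Rim (rc0 hS) K W) (G : Gi (rc0 hS) (Ap K W k))
    (R : Root (rc0 hS) (Ap K W k) i g) (H : Hl (Ap K W k) j) (hX : CtrX S (st (Ap K W k)) X)
    {T : Set (Cs hS)} {d : D0 S} (h : Hit (rc0 hS) (Ap K W k) m T d) :
    (rc0 hS).cell d ∈ K m := by
  have ht : (d.1.1, d.1.2, th S d.1) ∈ delT S := th_spec d.2
  obtain ⟨-, c, hc, e⟩ := hitO_K hr G R hX ((hitO_hit H (cmp_ts _ T) ht).2 h)
  have : (rc0 hS).cell d = c := Subtype.ext (by rw [e]; rfl)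
  rw [this]
  exact hc

/-- **no positive rainbow triangle of giants** (the root triangle is negative) -/
theorem nr_o {A : ZMod 3 → Set ℂ} {O : Set (ℂ × ℂ × ℂ)} (K : K3o S A O) (hX : CtrX S A X) :
    ∀ t ∈ delT S, ∀ i, ¬ (t.1 ∈ A i ∧ t.2.1 ∈ A (i + 1) ∧ t.2.2 ∈ A (i + 2)) := by
  rintro t ht i ⟨h1, h2, h3⟩
  have hh : HitO S A i (∅ : Set ℂ) t := ⟨ht, h1, clu_in h2, clu_in h3⟩
  refine K.tx t X ⟨ht, fun k => ?_⟩ (K.no _ _ _ hh) hX
  rcases z3 i k with rfl | rfl | rfl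
  · exact ⟨t.1, Or.inl rfl, h1⟩
  · exact ⟨t.2.1, Or.inr (Or.inl rfl), h2⟩
  · exact ⟨t.2.2, Or.inr (Or.inr rfl), h3⟩

theorem nr_root {A : ZMod 3 → Set (Cs hS)} (G : Gi (rc0 hS) A) (R : Root (rc0 hS) A i g)
    (hX : CtrX S (st A) X) : ∀ t ∈ delT S, ∀ i,
      ¬ (t.1 ∈ st A i ∧ t.2.1 ∈ st A (i + 1) ∧ t.2.2 ∈ st A (i + 2)) := nr_o (k3o_of G R) hX

/-! ### chains of sites to the hull -/

/-- **the centre from three chains of sites** -/
theorem ctr_of_pth (h3 : 3 ≤ S.card)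
    (hW : ∀ c : Cs hS, ∀ v, OnHull S v → c.1 = Quot.mk (hullE S) v → c ∈ W)
    (hr : Rim (rc0 hS) K W) {s₀ : ℂ} {c₀ : Cs hS} (e0 : c₀.1 = Quot.mk (hullE S) s₀)
    (h0 : Fc K W c₀) (V : ZMod 3 → Set ℂ) (hV : ∀ j i, i ≠ j → ∀ v ∈ V j, v ∉ st K i)
    (hp : ∀ j, ∃ b, OnHull S b ∧ b ∈ S ∧ Pth S (V j) s₀ b) (k : ZMod 3) :
    ∃ X, CtrX S (st (Ap K W k)) X := by
  refine ctr_of hW h0 (ctr_regions hr h0
    (fun j c => ∃ v ∈ S, c.1 = Quot.mk (hullE S) v ∧ v ∈ V j) ?_ ?_) k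
  · rintro j c ⟨v, hv, e, h1⟩ i hi
    by_contra hne
    exact hV j i hne v h1 ⟨hv, c, hi, e⟩
  · intro j
    obtain ⟨b, hb, hbS, hp⟩ := hp j
    refine ⟨⟨Quot.mk _ b, cell_mem hS h3 hbS⟩, fun h => h.2 (hW _ b hb rfl), ?_⟩
    refine (hp.ind (P := fun y => ∀ c : Cs hS, c.1 = Quot.mk (hullE S) y →
      Relation.ReflTransGen (fun a b => Ed (rc0 hS) a b ∧
        ∃ v ∈ S, b.1 = Quot.mk (hullE S) v ∧ v ∈ V j) c₀ c) ?_ ?_) _ rfl
    · intro c hc
      have : c = c₀ := Subtype.ext (hc.trans e0.symm)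
      rw [this]
    · intro a b ha hb hab ih c hc
      obtain ⟨ca, hca⟩ := cell_ex (hS := hS) hab
      exact (ih ca hca).tail ⟨ed_of_adj hab hca hc, b, hab.mem.2, hc, hb⟩

/-- **the centre from three connected sets in a disc** -/
theorem ctr_dns {c : ℂ} {L d : ℝ} (hD : Dns S c L d)
    (hW : ∀ c : Cs hS, ∀ v, OnHull S v → c.1 = Quot.mk (hullE S) v → c ∈ W)
    (hr : Rim (rc0 hS) K W) {s₀ z₀ : ℂ} (hs : s₀ ∈ S) (hz : z₀ ∈ voronoiCell (S : Set ℂ) s₀)
    {c₀ : Cs hS} (e0 : c₀.1 = Quot.mk (hullE S) s₀) (h0 : Fc K W c₀) (C : ZMod 3 → Set ℂ)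
    (hC : ∀ j, IsPreconnected (C j)) (hzC : ∀ j, z₀ ∈ C j)
    (hout : ∀ j z, L - 2 * d ≤ ‖z - c‖ → z ∈ C j)
    (hfar : ∀ j i, i ≠ j → ∀ v ∈ st K i, ∀ z ∈ C j, 2 * d ≤ ‖v - z‖) (k : ZMod 3) :
    ∃ X, CtrX S (st (Ap K W k)) X := by
  obtain ⟨a, b, hab⟩ := exists_hull hD.gp hD.card
  have hb : b ∈ S := by
    obtain ⟨c', hc'⟩ := hab.1
    exact (mem3 hS hc').2.1
  refine ctr_of_pth hD.card hW hr e0 h0
    (fun j => {x | x ∈ S ∧ ∃ z ∈ C j, ‖x - z‖ < 2 * d}) ?_ (fun j => ⟨b, ⟨a, hab⟩, hb, ?_⟩) k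
  · rintro j i hij v ⟨-, z, hz, hvz⟩ hv
    exact absurd (hfar j i hij v hv z hz) (not_le.2 hvz)
  · exact Xcx372.join_out' hD (hC j) (hout j) hs hb ⟨z₀, hzC j, hz⟩
      ⟨b, hout j b (Xcx372.hull_rad' hD hab), REwx838.self_cell b⟩

/-! ### rays -/

/-- everything far away is connected -/
theorem pre_far (c : ℂ) {R : ℝ} (hR : 0 ≤ R) : IsPreconnected {z : ℂ | R ≤ ‖z - c‖} := by
  have e : {z : ℂ | R ≤ ‖z - c‖} =
      (fun p : ℝ × ℝ => c + (p.1 : ℂ) * Complex.exp ((p.2 : ℂ) * Complex.I)) ''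
        (Set.Ici R ×ˢ Set.univ) := by
    ext z
    constructor
    · intro hz
      refine ⟨(‖z - c‖, Complex.arg (z - c)), ⟨hz, Set.mem_univ _⟩, ?_⟩
      show c + (‖z - c‖ : ℂ) * Complex.exp ((Complex.arg (z - c) : ℂ) * Complex.I) = z
      rw [Complex.norm_mul_exp_arg_mul_I]
      ring
    · rintro ⟨⟨r, t⟩, ⟨hr, -⟩, rfl⟩
      have hr' : R ≤ r := hr
      show R ≤ ‖c + (r : ℂ) * Complex.exp ((t : ℂ) * Complex.I) - c‖
      rw [add_sub_cancel_left, norm_mul, Complex.norm_exp_ofReal_mul_I, mul_one,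
        Complex.norm_real, Real.norm_eq_abs, abs_of_nonneg (hR.trans hr')]
      exact hr'
  rw [e]
  refine ((convex_Ici R).isPreconnected.prod isPreconnected_univ).image _ ?_
  fun_prop

/-- a half line and everything far away -/
def Ray (o u c : ℂ) (R : ℝ) : Set ℂ := {z | ∃ t : ℝ, 0 ≤ t ∧ z = o + t * u} ∪ {z | R ≤ ‖z - c‖}

theorem pre_ray (o c : ℂ) {u : ℂ} (hu : ‖u‖ = 1) {R : ℝ} (hR : 0 ≤ R) :
    IsPreconnected (Ray o u c R) := by
  have h1 : IsPreconnected {z : ℂ | ∃ t : ℝ, 0 ≤ t ∧ z = o + t * u} := by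
    refine Convex.isPreconnected ?_
    rintro _ ⟨s, hs, rfl⟩ _ ⟨t, ht, rfl⟩ a b ha hb hab
    refine ⟨a * s + b * t, by positivity, ?_⟩
    have hc : (a : ℂ) + b = 1 := by exact_mod_cast hab
    simp only [Complex.real_smul]
    push_cast
    linear_combination o * hc
  refine IsPreconnected.union (o + ((R + ‖o - c‖ : ℝ) : ℂ) * u) ⟨R + ‖o - c‖, by positivity, rfl⟩
    ?_ h1 (pre_far c hR)
  show R ≤ ‖o + ((R + ‖o - c‖ : ℝ) : ℂ) * u - c‖
  have e : o + ((R + ‖o - c‖ : ℝ) : ℂ) * u - c = ((R + ‖o - c‖ : ℝ) : ℂ) * u - (c - o) := by ring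
  have h2 := norm_sub_norm_le (((R + ‖o - c‖ : ℝ) : ℂ) * u) (c - o)
  rw [← e, norm_mul, hu, mul_one, Complex.norm_real, Real.norm_eq_abs,
    abs_of_nonneg (by positivity), norm_sub_rev c o] at h2
  linarith

/-! ### the square -/

/-- near the side `i` of the square `w + [0, b]²` (bottom / right / left or top) -/
def Loc (w : ℂ) (b e : ℝ) (i : ZMod 3) : Set ℂ :=
  if i = 0 then {v | |v.im - w.im| ≤ e} else if i = 1 then {v | |v.re - (w.re + b)| ≤ e}
  else {v | |v.re - w.re| ≤ e ∨ |v.im - (w.im + b)| ≤ e}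

/-- the centre of the square -/
def cen (w : ℂ) (b : ℝ) : ℂ := ⟨w.re + b / 2, w.im + b / 2⟩

/-- direction from the centre to the side `i` -/
def dir (i : ZMod 3) : ℂ := if i = 0 then -Complex.I else if i = 1 then 1 else -1

theorem norm_dir (i : ZMod 3) : ‖dir i‖ = 1 := by
  unfold dir
  split_ifs <;> simp

/-- points near the side `i` are far from the half line to another side -/
theorem far_ray {w : ℂ} {b e : ℝ} {i j : ZMod 3} (hij : i ≠ j) {v : ℂ} (hv : v ∈ Loc w b e i)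
    {t : ℝ} (ht : 0 ≤ t) : b / 2 - e ≤ ‖v - (cen w b + t * dir j)‖ := by
  have r := Complex.abs_re_le_norm (v - (cen w b + t * dir j))
  have q := Complex.abs_im_le_norm (v - (cen w b + t * dir j))
  have e1 : ∀ j : ZMod 3, (v - (cen w b + t * dir j)).re = v.re - (w.re + b / 2) - t * (dir j).re := by
    intro j
    simp [cen]
    ring
  have e2 : ∀ j : ZMod 3, (v - (cen w b + t * dir j)).im = v.im - (w.im + b / 2) - t * (dir j).im := by
    intro j
    simp [cen]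
    ring
  rw [e1] at r
  rw [e2] at q
  have key : ∀ {x y : ℝ}, |x| ≤ y → x ≤ y ∧ -y ≤ x := fun h => ⟨(abs_le.1 h).2, (abs_le.1 h).1⟩
  obtain ⟨r1, r2⟩ := key r
  obtain ⟨q1, q2⟩ := key q
  unfold Loc at hv
  revert hv r1 r2 q1 q2
  rcases HullGx715.z3 i with rfl | rfl | rfl <;> rcases HullGx715.z3 j with rfl | rfl | rfl <;>
    simp only [dir, if_true, if_false, show (1 : ZMod 3) ≠ 0 by decide,
      show (2 : ZMod 3) ≠ 0 by decide, show (2 : ZMod 3) ≠ 1 by decide, Complex.neg_re,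
      Complex.neg_im, Complex.I_re, Complex.I_im, Complex.one_re, Complex.one_im, Set.mem_ofPred_eq] <;>
    intro hv r1 r2 q1 q2 <;> first
    | exact absurd rfl hij
    | (obtain ⟨v1, v2⟩ := key hv; linarith)
    | (rcases hv with hv | hv <;> obtain ⟨v1, v2⟩ := key hv <;> linarith)

/-- **the centre of the static net of the ring** -/
theorem ctr_loc {c : ℂ} {L d : ℝ} (hD : Dns S c L d)
    (hW : ∀ c : Cs hS, ∀ v, OnHull S v → c.1 = Quot.mk (hullE S) v → c ∈ W)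
    (hr : Rim (rc0 hS) K W) {w : ℂ} {b e : ℝ} (he : 2 * d + e < b / 2)
    (hloc : ∀ i, ∀ v ∈ st K i, v ∈ Loc w b e i)
    (hin : ∀ i, ∀ v ∈ st K i, ‖v - c‖ ≤ L - 4 * d) (ho : ‖cen w b - c‖ ≤ L - d)
    (hcen : ∀ s ∈ S, ‖s - cen w b‖ < d → ∀ c : Cs hS, c.1 = Quot.mk (hullE S) s → c ∉ W)
    (k : ZMod 3) : ∃ X, CtrX S (st (Ap K W k)) X := by
  have hd := hD.dpos
  have hL := hD.dL
  -- the site at the centre
  obtain ⟨s1, hs1, h1⟩ := hD.hole _ ho
  obtain ⟨s₀, hs₀, hmin⟩ := Finset.exists_min_image S (fun s => ‖cen w b - s‖) ⟨s1, hs1⟩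
  have hz : cen w b ∈ voronoiCell (S : Set ℂ) s₀ := fun s hs => hmin s (Finset.mem_coe.1 hs)
  have hs₀' : ‖s₀ - cen w b‖ < d := by
    have := hmin s1 hs1
    rw [norm_sub_rev s₀]
    rw [norm_sub_rev s1] at h1
    linarith
  set c₀ : Cs hS := ⟨Quot.mk _ s₀, cell_mem hS hD.card hs₀⟩ with hc₀
  have hcW : c₀ ∉ W := hcen s₀ hs₀ hs₀' c₀ rfl
  have hcK : ∀ j, c₀ ∉ K j := by
    intro j hj
    obtain ⟨i, hi⟩ : ∃ i : ZMod 3, j ≠ i := ⟨j + 1, (z3n j).1⟩
    have h2 := far_ray hi (hloc j s₀ ⟨hs₀, c₀, hj, rfl⟩) (le_refl (0 : ℝ))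
    simp only [Complex.ofReal_zero, zero_mul, add_zero] at h2
    linarith
  refine ctr_dns hD hW hr hs₀ hz rfl ⟨hcK, hcW⟩
    (fun j => Ray (cen w b) (dir j) c (L - 2 * d)) (fun j => pre_ray _ _ (norm_dir j) (by linarith))
    (fun j => Or.inl ⟨0, le_rfl, by simp⟩) (fun j z hz => Or.inr hz) ?_ k
  rintro j i hij v hv z (⟨t, ht, rfl⟩ | hz)
  · have := far_ray hij (hloc i v hv) ht
    linarith
  · have h2 := hin i v hv
    have h3 := norm_sub_norm_le (z - c) (z - v)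
    have e1 : z - c - (z - v) = v - c := by ring
    rw [e1, norm_sub_rev z v] at h3
    have hz' : L - 2 * d ≤ ‖z - c‖ := hz
    linarith

/-! ### the tiles of the ring -/

theorem side2' {n : ℕ} (hn : 1 ≤ n) {a : ℤ} (h : HullGx715.Side n 2 a) :
    (SqPx503.sqW n a).1 = 0 ∨ (SqPx503.sqW n a).2 = n := by
  have hn' : (1 : ℤ) ≤ n := by exact_mod_cast hn
  have h0 := Int.emod_nonneg a (show (4 * n : ℤ) ≠ 0 by omega)
  unfold HullGx715.Side at h
  rw [if_neg (by decide), if_neg (by decide)] at h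
  unfold SqPx503.sqW SqPx503.sq0
  split_ifs with h1 h2 h3
  · exact Or.inl rfl
  · exact Or.inr rfl
  · have : a % (4 * n) = 2 * n := by omega
    right
    simp only
    omega
  · omega

/-- sites of the tiles near the side `i` -/
theorem loc_near {n : ℕ} (hn : 1 ≤ n) {A B h jj : ℝ} (hh : 0 ≤ h) (hAB : A ≤ B) {w v : ℂ}
    {i : ZMod 3} (hv : v - w ∈ HullGx715.NearS n A B h jj i) :
    v ∈ Loc w (h * n) (B + h * jj) i := by
  obtain ⟨a, ha, h1, h2⟩ := HullGx715.nearS_coord hn hh hAB hv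
  rw [Complex.sub_re] at h1
  rw [Complex.sub_im] at h2
  unfold Loc
  rcases HullGx715.z3 i with rfl | rfl | rfl
  · rw [if_pos rfl]
    obtain ⟨-, -, c3⟩ := HullGx715.side0 hn ha
    rw [c3] at h2
    show |v.im - w.im| ≤ _
    simpa using h2
  · rw [if_neg (by decide), if_pos rfl]
    obtain ⟨c1, -, -⟩ := HullGx715.side1 hn ha
    rw [c1] at h1
    show |v.re - (w.re + h * n)| ≤ _
    rw [← sub_sub]
    exact_mod_cast h1
  · rw [if_neg (by decide), if_neg (by decide)]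
    show |v.re - w.re| ≤ _ ∨ |v.im - (w.im + h * n)| ≤ _
    rcases side2' hn ha with c1 | c1
    · left
      rw [c1] at h1
      simpa using h1
    · right
      rw [c1] at h2
      rw [← sub_sub]
      exact_mod_cast h2

/-- **the centre, tiles of the ring** -/
theorem ctr_near {c : ℂ} {L d : ℝ} (hD : Dns S c L d)
    (hW : ∀ c : Cs hS, ∀ v, OnHull S v → c.1 = Quot.mk (hullE S) v → c ∈ W)
    (hr : Rim (rc0 hS) K W) {n : ℕ} (hn : 1 ≤ n) {A B h jj : ℝ} (hh : 0 ≤ h) (hAB : A ≤ B)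
    {w : ℂ} (he : 2 * d + (B + h * jj) < h * n / 2)
    (hloc : ∀ i, ∀ v ∈ st K i, v - w ∈ HullGx715.NearS n A B h jj i)
    (hin : ∀ i, ∀ v ∈ st K i, ‖v - c‖ ≤ L - 4 * d) (ho : ‖cen w (h * n) - c‖ ≤ L - d)
    (hcen : ∀ s ∈ S, ‖s - cen w (h * n)‖ < d → ∀ c : Cs hS, c.1 = Quot.mk (hullE S) s → c ∉ W)
    (k : ZMod 3) : ∃ X, CtrX S (st (Ap K W k)) X :=
  ctr_loc hD hW hr he (fun i v hv => loc_near hn hh hAB (hloc i v hv)) hin ho hcen k

end Crest.Agent.R143.CtrHx277
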