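import Crest.Agent.R143.RingB_312
import Crest.Agent.R143.RingI1_503

/-!
# Row 143 (S0194), block H: the giant of the ring loop (helper312; RingI2 of 503)

`H : Clo ..` (503's closed ring of tubes) along the square `W a = sqW K a + v`, `M = 4 K`; ring loop
from `pz hχ H o` with the period `N`, `Lf = Lf (cm0 hS) (xc hS hχ) (pz hχ H o) n`, `N ≤ n + 1`.
* `zc` : the centre of the square; `sp_tile` : the tiles are at sup distance `< h K / 2 + A` from it
* **`box_not_eg`** : the sites of the inner square are not in the giant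
* **`far_in_ek`** : the far sites are in `Ek`
* **`right_ek`** : the right cells of the loop are in `Ek`
-/

set_option autoImplicit false

noncomputable section

open scoped Classical

namespace Crest.Agent.R143.RingCx312

open Crest.Agent.R143.B0x346 Crest.Agent.R143.DelGx806 Crest.Agent.R143.DelRx806
open Crest.Agent.R143.ToolWx838 Crest.Agent.R143.Blkx838
open Crest.Agent.R143.Gatex838 (X Y)
open Crest.Agent.R143.Frame1x395 Crest.Agent.R143.Frame2x395 Crest.Agent.R143.Frame3x395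
  Crest.Agent.R143.Frame8x395 Crest.Agent.R143.Frame10x395 Crest.Agent.R143.Frame11x395
open Crest.Agent.R143.Frame5x395 (sd mem_sd th th_spec)
open Crest.Agent.R143.Splx117 Crest.Agent.R143.WLocx713 Crest.Agent.R143.RingDx117
  Crest.Agent.R143.Neckx921
open Crest.Agent.R143.Idxx927 (RingP cyc wl X_wl Y_wl)
open Crest.Agent.R143.TileRx228 Crest.Agent.R143.SqPx503 Crest.Agent.R143.Sepx686
open Crest.Agent.R143.RingPx503 Crest.Agent.R143.RingIx503 Crest.Agent.R143.RingBx312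
open Crest.Agent.R143.PathDx503 Crest.Agent.R143.PathGx503
open Crest.Agent.R143.GiantEx197 (Ek Eg Lf ek_step)
open Crest.Agent.R143.FarEkx88 (sp far_ek nb_adj)

/-! ### the square -/

section sq

variable {h A B : ℝ} {K : ℕ} {W : ℤ → ℤ × ℤ} {v : ℤ × ℤ}

/-- the centre of the square -/
def zc (h : ℝ) (K : ℕ) (v : ℤ × ℤ) : ℂ := ⟨h * (v.1 + K / 2), h * (v.2 + K / 2)⟩

theorem sp_tile (hK : 1 ≤ K) (hW : ∀ a, W a = sqW K a + v) (F : FPath (4 * K) W) (hA : 0 < A)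
    (hB : B ≤ h) (hh : 0 < h) {a : ℤ} {z : ℂ} (hz : z ∈ RR A B h W a) :
    sp (zc h K v) z < h * K / 2 + A := by
  obtain ⟨⟨⟨h1, h2⟩, h3, h4⟩, -⟩ := sq_strip hK hW F hA hB hh hz
  unfold sp zc
  simp only
  refine max_lt (abs_lt.2 ⟨?_, ?_⟩) (abs_lt.2 ⟨?_, ?_⟩) <;> nlinarith

end sq

variable {S V β : Finset ℂ} {χ : ℂ → ZMod 2} {h A B A' B' κ bb m m' τ : ℝ} {a0 a1 b0 b1 : ℝ}
  {K : ℕ} {v : ℤ × ℤ} {W : ℤ → ℤ × ℤ} {y x : ℤ → ℂ} {U : Set ℂ}
  {hS : GP (S : Set ℂ)} {hχ : HullC S χ}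

/-- the numbers of the square ring -/
structure NumS (h A B m τ : ℝ) (K : ℕ) : Prop where
  K3 : 3 ≤ K
  hB : h / 2 < B + τ + m
  hh : A + B + 2 * τ + 2 * m < h

section ring

variable (H : Clo S V β χ h A B A' B' κ bb a0 a1 b0 b1 m m' τ (4 * K) W y x U)

include H

theorem pos : 0 < h ∧ 0 < A + τ ∧ A + τ ≤ B + τ ∧ B + τ ≤ h ∧ 0 ≤ m := by
  have N := H.N
  have n0 := N.A0; have n1 := N.m0; have n2 := N.mτ; have n3 := N.hA2; have n4 := N.hB2
  have n5 := N.hAB; have n6 := N.hh; have n7 := N.AB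
  exact ⟨by linarith, by linarith, by linarith, by linarith, n1⟩

/-- the gate darts are on the loop -/
theorem pz_loop (o : ℤ) {T : ℕ → ℕ}
    (Tp : ∀ k, NonXx592.P (cm0 hS) (cfg (cm0 hS) (lift S hχ)) (pz hχ H o) (T k) = pz hχ H (o - k))
    (a : ℤ) : ∃ i : ℕ, (stp (cm0 hS) (xc hS hχ))^[i] (pz hχ H o) = pz hχ H a := by
  have hM := H.M5
  have per : ∀ (q : ℕ) (a : ℤ), pz hχ H (a + q * (4 * K : ℕ)) = pz hχ H a := by
    intro q a
    induction q with
    | zero => simp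
    | succ q ih =>
      rw [show a + ((q + 1 : ℕ) : ℤ) * (4 * K : ℕ) = a + q * (4 * K : ℕ) + (4 * K : ℕ) by
        push_cast; ring, H.pz_per, ih]
  -- a natural number `k` with `o - k ≡ a`
  obtain ⟨k, q, hk⟩ : ∃ k q : ℕ, o - k + q * (4 * K : ℕ) = a := by
    refine ⟨(o - a + (|a| + |o|) * (4 * K : ℕ)).toNat, (|a| + |o|).toNat, ?_⟩
    have h1 : (0 : ℤ) ≤ |a| + |o| := add_nonneg (abs_nonneg _) (abs_nonneg _)
    have h2 : (0 : ℤ) ≤ o - a + (|a| + |o|) * (4 * K : ℕ) := by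
      have h4 := le_abs_self a
      have h5 := neg_abs_le o
      have h8 : (1 : ℤ) ≤ ((4 * K : ℕ) : ℤ) := by exact_mod_cast (by omega : 1 ≤ 4 * K)
      nlinarith
    rw [Int.toNat_of_nonneg h1, Int.toNat_of_nonneg h2]
    ring
  refine ⟨T k, ?_⟩
  have h1 := Tp k
  rw [← hk, per]
  exact h1

/-- the left sites of the loop are in the tiles -/
theorem ll_tile (o : ℤ) {T : ℕ → ℕ} (hTm : StrictMono T) (hT0 : T 0 = 0)
    (hTR : ∀ k t, T k ≤ t → t ≤ T (k + 1) →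
      NonXx592.P (cm0 hS) (cfg (cm0 hS) (lift S hχ)) (pz hχ H o) t ∈
        RD S (RR (A + τ) (B + τ) h W (o - 1 - k))) (i : ℕ) :
    ∃ a : ℤ, (stp (cm0 hS) (xc hS hχ))^[i] (pz hχ H o) ∈ RD S (RR (A + τ) (B + τ) h W a) := by
  have h1 : ∃ k, i < T k := ⟨i + 1, lt_of_lt_of_le (Nat.lt_succ_self i) (hTm.id_le (i + 1))⟩
  have h2 : i < T (Nat.find h1) := Nat.find_spec h1
  have h3 : Nat.find h1 ≠ 0 := by
    intro h
    rw [h, hT0] at h2
    omega
  obtain ⟨k, hk⟩ := Nat.exists_eq_succ_of_ne_zero h3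
  have h4 := Nat.find_min h1 (m := k) (by omega)
  rw [hk] at h2
  exact ⟨_, hTR k i (by omega) h2.le⟩

omit H in
/-- a chain of sites off `K` stays in `Ek` -/
theorem lk_ek {Kc : Set (Quot (hullE S))} {h0 : Quot (hullE S)} {C : Set ℂ}
    (hC : ∀ s ∈ C, Quot.mk _ s ∉ Kc) {a b : ℂ} (h : Lk S C a b)
    (ha : Quot.mk _ a ∈ Ek (cm0 hS) h0 Kc) : Quot.mk _ b ∈ Ek (cm0 hS) h0 Kc := by
  obtain ⟨-, h⟩ := h
  induction h with
  | refl => exact ha
  | tail _ h2 ih => exact ek_step ih (nb_adj hS h2.1) (hC _ h2.2.2)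

omit H in
/-- the first site of a chain -/
theorem lk_S {C : Set ℂ} {a b : ℂ} (h : Lk S C a b) (hb : b ∈ S) : a ∈ S := by
  obtain ⟨-, h⟩ := h
  rcases Relation.ReflTransGen.cases_head h with rfl | ⟨c, h1, -⟩
  · exact hb
  · exact (de_sites h1.1).1

/-- the region of the loop -/
theorem lf_tile (o : ℤ) {T : ℕ → ℕ} (hTm : StrictMono T) (hT0 : T 0 = 0)
    (hTR : ∀ k t, T k ≤ t → t ≤ T (k + 1) →
      NonXx592.P (cm0 hS) (cfg (cm0 hS) (lift S hχ)) (pz hχ H o) t ∈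
        RD S (RR (A + τ) (B + τ) h W (o - 1 - k))) {n : ℕ} {w : ℂ}
    (hw : Quot.mk _ w ∈ Lf (cm0 hS) (xc hS hχ) (pz hχ H o) n) :
    (∃ a, w ∈ RR (A + τ) (B + τ) h W a) ∧ ¬ OnHull S w := by
  refine lf_inner (R := {s | ∃ a, s ∈ RR (A + τ) (B + τ) h W a}) hS hχ ?_ ?_ hw
  · rintro s ⟨i, rfl⟩
    obtain ⟨a, ha⟩ := ll_tile H o hTm hT0 hTR i
    exact ⟨a, ha.1⟩
  · rintro s hs ⟨a, ha⟩
    exact H.env.inn s hs (H.hU a ha)

/-- white sites are off the loop -/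
theorem white_off (o : ℤ) {T : ℕ → ℕ} (hTm : StrictMono T) (hT0 : T 0 = 0)
    (hTR : ∀ k t, T k ≤ t → t ≤ T (k + 1) →
      NonXx592.P (cm0 hS) (cfg (cm0 hS) (lift S hχ)) (pz hχ H o) t ∈
        RD S (RR (A + τ) (B + τ) h W (o - 1 - k))) {n : ℕ} {w : ℂ} (hc : χ w = 0) :
    Quot.mk _ w ∉ Lf (cm0 hS) (xc hS hχ) (pz hχ H o) n := by
  intro hw
  have h1 := (lf_tile H o hTm hT0 hTR hw).2
  obtain ⟨j, -, hj⟩ := hw
  have e : ((stp (cm0 hS) (xc hS hχ))^[j] (pz hχ H o)).1.1 = w := quot_inner hS h1 hj.symm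
  have hO : Occ S χ (pz hχ H o).1 := ⟨(pz hχ H o).2, by
    show χ (y o) + χ (x o) = 1
    rw [H.cy, H.cx, add_zero]⟩
  have h2 := (left_lk hS hχ hO j).2
  have h3 := it_eq hS hχ (p := pz hχ H o) (by
    show χ (y o) + χ (x o) = 1
    rw [H.cy, H.cx, add_zero]) j
  rw [← h3] at h2
  have h4 : χ w = χ (y o) := by rw [← e]; exact h2
  rw [H.cy, hc] at h4
  exact absurd h4 (by decide)

section main

variable {o : ℤ} {N : ℕ} {T : ℕ → ℕ}
  (R : Winx355.RL (cm0 hS) (cfg (cm0 hS) (lift S hχ)) (pz hχ H o) N (4 * K) T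
    (fun k => cl S (RR (A + τ) (B + τ) h W (o - 1 - k))))
  (Tp : ∀ k, NonXx592.P (cm0 hS) (cfg (cm0 hS) (lift S hχ)) (pz hχ H o) (T k) = pz hχ H (o - k))
  (TR : ∀ k t, T k ≤ t → t ≤ T (k + 1) →
    NonXx592.P (cm0 hS) (cfg (cm0 hS) (lift S hχ)) (pz hχ H o) t ∈
      RD S (RR (A + τ) (B + τ) h W (o - 1 - k)))

include R TR

/-- **the sites of the inner square are not in the giant** -/
theorem box_not_eg (Tp : ∀ k, NonXx592.P (cm0 hS) (cfg (cm0 hS) (lift S hχ)) (pz hχ H o) (T k) =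
      pz hχ H (o - k)) (Q : NumS h A B m τ K) (hW : ∀ a, W a = sqW K a + v) (h3 : 3 ≤ S.card)
    {n : ℕ} (hn : N ≤ n + 1) {u : ℂ} (hu : OnHull S u) {w : ℂ} (hw : w ∈ Kin h (A + τ + m) K v) :
    Quot.mk _ w ∉ Eg (cm0 hS) (Quot.mk _ u) (Lf (cm0 hS) (xc hS hχ) (pz hχ H o) n) := by
  obtain ⟨p1, p2, p3, p4, p5⟩ := pos H
  have q1 := Q.hB
  have q2 := Q.hh
  have hK1 : 1 ≤ K := by have := Q.K3; omega
  obtain ⟨P, HR, hl, hLL, hP⟩ := left_ring (m := m) (A := A + τ) (B := B + τ) hS hχ H.F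
    (by have := Q.K3; omega) H.pery (p := fun a => pz hχ H a) (fun _ => rfl)
    (fun a => by show χ (y a) + χ (x a) = 1; rw [H.cy, H.cx, add_zero]) (p₀ := pz hχ H o)
    (pz_loop H o Tp) (fun a => Or.inr (H.back hS hχ a))
    (fun a u v huv hu hv => H.env.step u v huv (H.hU a hu) (H.hU a hv)) 0
  have hidx := sq_index (A := A + τ + m) (B := B + τ + m) Q.K3 hW H.F (by linarith) (by linarith)
    (by linarith) (by linarith) HR
    (fun j hj s hs => RR_mono (by linarith) (by linarith) h W _ (hP j hj s hs))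
    (fun a => by
      have h1 := neck_win (H.gate a)
      have N' := H.N.toNum
      have n1 := N'.l0; have n2 := N'.l1; have n3 := N'.tot; have n4 := N'.Ab; have n5 := N'.A0
      have n6 := N'.m0
      exact abs_lt.2 ⟨by linarith [h1.1.1], by linarith [h1.1.2]⟩) hw
  refine not_eg_of hS h3 hl (fun s hs => ll_S hS hχ (hLL s hs))
    (fun s hs => ll_lf hS hχ R.L.per R.L.pos hn (hLL s hs)) hu ?_ ?_ ?_
  · intro h1
    exact (lf_tile H o R.mono R.zero TR h1).2 hu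
  · rw [hidx]
    have := Real.pi_pos
    linarith
  · intro h1
    obtain ⟨⟨a, ha⟩, -⟩ := lf_tile H o R.mono R.zero TR h1
    exact kin_off (B := B + τ + m) hK1 hW H.F (by linarith) (by linarith) p1 hw a
      (RR_mono (by linarith) (by linarith) h W _ ha)

/-- **the far sites are in `Ek`** -/
theorem far_in_ek (hK1 : 1 ≤ K) (hW : ∀ a, W a = sqW K a + v) (h3 : 3 ≤ S.card)
    {n : ℕ} {r h1 : ℝ} (hr : 0 ≤ r) (hh1 : h * K / 2 + (A + τ) + r ≤ h1)
    (hole : ∀ p : ℂ, sp (zc h K v) p = h1 → ∃ t ∈ S, ‖t - p‖ < r) {u s : ℂ} (hu : u ∈ S)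
    (hu' : h1 ≤ sp (zc h K v) u) (hs : s ∈ S) (hs' : h1 ≤ sp (zc h K v) s) :
    Quot.mk _ s ∈ Ek (cm0 hS) (Quot.mk _ u) (Lf (cm0 hS) (xc hS hχ) (pz hχ H o) n) := by
  obtain ⟨p1, p2, p3, p4, p5⟩ := pos H
  refine far_ek hS h3 hr hole (fun w _ hwK => ?_) hu hu' hs hs'
  obtain ⟨⟨a, ha⟩, -⟩ := lf_tile H o R.mono R.zero TR hwK
  have := sp_tile hK1 hW H.F p2 p4 p1 ha
  linarith

/-- **the right cells of the loop are in `Ek`** -/
theorem right_ek (Tp : ∀ k, NonXx592.P (cm0 hS) (cfg (cm0 hS) (lift S hχ)) (pz hχ H o) (T k) =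
      pz hχ H (o - k)) (K3 : 3 ≤ K) (hW : ∀ a, W a = sqW K a + v) (h3 : 3 ≤ S.card)
    {n : ℕ} {r h1 : ℝ} (hr : 0 ≤ r) (hh1 : h * K / 2 + (A + τ) + r ≤ h1)
    (hb1 : h1 ≤ h * K / 2 + b1)
    (hole : ∀ p : ℂ, sp (zc h K v) p = h1 → ∃ t ∈ S, ‖t - p‖ < r) {u : ℂ} (hu : u ∈ S)
    (hu' : h1 ≤ sp (zc h K v) u) (i : ℕ) :
    Quot.mk _ ((stp (cm0 hS) (xc hS hχ))^[i] (pz hχ H o)).1.2 ∈
      Ek (cm0 hS) (Quot.mk _ u) (Lf (cm0 hS) (xc hS hχ) (pz hχ H o) n) := by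
  obtain ⟨p1, p2, p3, p4, p5⟩ := pos H
  have hK1 : 1 ≤ K := by omega
  have hK' : (3 : ℤ) ≤ K := by exact_mod_cast K3
  have woff : ∀ w, χ w = 0 → Quot.mk _ w ∉ Lf (cm0 hS) (xc hS hχ) (pz hχ H o) n :=
    fun w hw => white_off H o R.mono R.zero TR hw
  -- a gate on the left side
  obtain ⟨k, -, q, hq⟩ := exists_gate K hK1 0
  set g : ℤ := 0 + k + 1 with hg
  have w1 : W (g - 1) = (0, 1) + v := sq_pt hW (by omega) (by omega) ⟨q, by linarith⟩ hK1
  have w2 : W g = (0, 2) + v := sq_pt hW (by omega) (by omega) ⟨q, by linarith⟩ hK1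
  have g1 : ge W g = Complex.I := by
    unfold ge
    rw [w2, w1]
    apply Complex.ext <;> simp [cz]
  obtain ⟨up, dn, hN, hx⟩ := H.gate g
  -- the upper arm
  have hadj := hN.adj
  rw [← isChain_iff_prs, List.isChain_append] at hadj
  have lup : Lk S {s | s ∈ up} (up.head hN.nu) (x g) := by
    rw [← hx]
    exact lk_list ((isChain_iff_prs (R := DE S) up).1 hadj.1) (fun s hs => hs) (List.head_mem _)
      (List.getLast_mem _)
  have hxS : x g ∈ S := by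
    have h4 := H.sd' hχ g
    exact (mem_delT.1 (th_spec h4)).2.1
  have hup : ∀ s ∈ up, χ s = 0 := by
    intro s hs
    have h4 := hN.cu s hs
    have key : ∀ b : ZMod 2, b ≠ 1 → b = 0 := by decide
    exact key _ fun h5 => h4.2 ((H.hβ s h4.1).1 h5)
  have htop : h1 ≤ sp (zc h K v) (up.head hN.nu) := by
    have h4 := hN.top
    have e1 : ∀ s, Y (gz h W g) (ge W g) s = h * v.1 - s.re := by
      intro s
      rw [g1]
      unfold Y gz
      rw [w1, w2]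
      simp [cz]
    rw [e1] at h4
    refine le_trans ?_ (le_max_left _ _)
    refine le_trans ?_ (neg_le_abs _)
    unfold zc
    simp only
    nlinarith
  have htS : up.head hN.nu ∈ S := lk_S lup hxS
  have e1 := far_in_ek (n := n) H R TR hK1 hW h3 hr hh1 hole hu hu' htS htop
  have e2 := lk_ek (C := {s | s ∈ up}) (fun s hs => woff s (hup s hs)) lup e1
  -- the right sites
  obtain ⟨j, hj⟩ := pz_loop H o Tp g
  have hO : Occ S χ (pz hχ H g).1 := ⟨(pz hχ H g).2, by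
    show χ (y g) + χ (x g) = 1
    rw [H.cy, H.cx, add_zero]⟩
  have per : ∀ q r, (stp (cm0 hS) (xc hS hχ))^[r + q * N] (pz hχ H o) =
      (stp (cm0 hS) (xc hS hχ))^[r] (pz hχ H o) := by
    intro q r
    have hN' : (stp (cm0 hS) (xc hS hχ))^[N] (pz hχ H o) = pz hχ H o := R.L.per
    induction q with
    | zero => simp
    | succ q ih =>
      rw [show r + (q + 1) * N = (r + q * N) + N by ring, Function.iterate_add_apply, hN', ih]
  have hNp := R.L.pos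
  have e3 : (stp (cm0 hS) (xc hS hχ))^[i] (pz hχ H o) =
      (stp (cm0 hS) (xc hS hχ))^[i + j * N - j] (pz hχ H g) := by
    have h5 : j ≤ i + j * N := by nlinarith
    rw [← hj, ← Function.iterate_add_apply, Nat.sub_add_cancel h5, per]
  rw [e3, it_eq hS hχ (p := pz hχ H g) hO.2]
  refine lk_ek (fun s hs => woff s ?_) (right_lk hS hχ hO _).1 e2
  rw [RS_col hS hχ hO hs]
  exact H.cx g

end main

end ring

end Crest.Agent.R143.RingCx312
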