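import Crest.Agent.R143.S1_828
import Crest.Agent.R143.CtrH_277
import Crest.Agent.R143.RingC_312
import Crest.Agent.R143.CorEh_829

/-!
# Row 143 (S0194), block H, H5 (S1): the geometric fields `hull`, `far`, `ctr` of 828's `Dta`
(helper277)

* `Geo` : the ring of the square (503's `Clo`), `p` any state of the loop, `Dns` in a disc around it
* `Geo.lf_iff`, **`Geo.wc_iff`** : dictionary `Lf`, `Wc` (828, `rc0`) = `Lf`, `Ek` (197, `cm0`)
* **`Geo.hull`, `Geo.far`, `Geo.out`** : the hull cell, the cells at the hull darts, the cells of the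
  sites far from the square are in the outside `Wc`
* **`Geo.mid`** : the cells of the sites of the inner square are not in `Wc`
* **`Geo.ctr`** : the centre (`CtrX`) for every pattern
-/

set_option autoImplicit false

noncomputable section

open scoped Classical

namespace Crest.Agent.R143.DtaGx277

open Crest.ProbabilityR.Voronoi
open Crest.Agent.R143.B0x346 Crest.Agent.R143.DelGx806 Crest.Agent.R143.DelRx806
open Crest.Agent.R143.DomAx722 (Dns)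
open Crest.Agent.R143.Frame1x395 Crest.Agent.R143.Frame2x395 Crest.Agent.R143.Frame3x395
  Crest.Agent.R143.Frame8x395 Crest.Agent.R143.Frame10x395 Crest.Agent.R143.Frame11x395
  Crest.Agent.R143.C2SCx395 Crest.Agent.R143.C2SDx395
open Crest.Agent.R143.Frame5x395 (sd mem_sd th th_spec)
open Crest.Agent.R143.FinCx811 (Cs rc0 cell_mem)
open Crest.Agent.R143.NonXx592 (P)
open Crest.Agent.R143.TileRx228 Crest.Agent.R143.SqPx503
open Crest.Agent.R143.WLocx713 (HullC lift xc)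
open Crest.Agent.R143.RingDx117 (RD)
open Crest.Agent.R143.RingPx503 Crest.Agent.R143.RingIx503
open Crest.Agent.R143.RingBx312 Crest.Agent.R143.RingCx312
open Crest.Agent.R143.GiantEx197 (Ek Eg ek_step ek_off ek_ind h0_ek)
open Crest.Agent.R143.FarEkx88 (sp)
open Crest.Agent.R143.K33x137 (Ed)
open Crest.Agent.R143.K33x877 (CtrX)
open Crest.Agent.R143.Splx117 (Lp)
open Patx828 (Rg3 Gc Wc AP)

variable {S V β : Finset ℂ} {χ : ℂ → ZMod 2} {h A B A' B' κ bb m m' τ : ℝ} {a0 a1 b0 b1 : ℝ}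
  {K : ℕ} {v : ℤ × ℤ} {W : ℤ → ℤ × ℤ} {y x : ℤ → ℂ} {U : Set ℂ}
  {hS : GP (S : Set ℂ)} {hχ : HullC S χ} {σ : Cs hS → ZMod 2} {p : D0 S} {c : ℂ} {L d : ℝ}

/-- **geometry of the ring of the square for one colouring** -/
structure Geo (H : Clo S V β χ h A B A' B' κ bb a0 a1 b0 b1 m m' τ (4 * K) W y x U)
    (hS : GP (S : Set ℂ)) (hχ : HullC S χ) (σ : Cs hS → ZMod 2) (p : D0 S) (v : ℤ × ℤ) (c : ℂ)
    (L d : ℝ) : Prop where
  D : Dns S c L d
  Q : NumS h A B m τ K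
  hW : ∀ a, W a = sqW K a + v
  hb : A + τ + d ≤ b1
  hin : ‖zc h K v - c‖ + 2 * (h * K / 2 + b1) ≤ L - 4 * d
  col : ∀ q : Cs hS, ∀ s ∈ S, q.1 = Quot.mk _ s → σ q = χ s
  on : ∃ (o : ℤ) (t : ℕ), p = P (cm0 hS) (xc hS hχ) (pz hχ H o) t

/-! ### sup distance -/

theorem norm_sp (z w : ℂ) : ‖w - z‖ ≤ 2 * sp z w := by
  have h1 := Complex.norm_le_abs_re_add_abs_im (w - z)
  rw [Complex.sub_re, Complex.sub_im] at h1
  have h2 := le_max_left |w.re - z.re| |w.im - z.im|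
  have h3 := le_max_right |w.re - z.re| |w.im - z.im|
  unfold sp
  linarith

namespace Geo

variable {H : Clo S V β χ h A B A' B' κ bb a0 a1 b0 b1 m m' τ (4 * K) W y x U}
  (G : Geo H hS hχ σ p v c L d)

include G

theorem cfg_eq : cfg (rc0 hS) σ = xc hS hχ := by
  funext e
  have h1 : e.1.1 ∈ S := (mem_delT.1 (th_spec e.2)).1
  have h2 : e.1.2 ∈ S := (mem_delT.1 (th_spec e.2)).2.1
  show σ ((rc0 hS).cell e) + σ ((rc0 hS).cell ((rc0 hS).rho e)) = χ e.1.1 + χ e.1.2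
  rw [G.col _ _ h1 rfl, G.col _ _ h2 rfl]

theorem K1 : 1 ≤ K := by have := G.Q.K3; omega

theorem card : 3 ≤ S.card := G.D.card

/-- a hull site -/
theorem hull_ex : ∃ u, OnHull S u ∧ u ∈ S := by
  obtain ⟨a, b, hab⟩ := exists_hull hS G.card
  refine ⟨b, ⟨a, hab⟩, ?_⟩
  obtain ⟨c', hc'⟩ := hab.1
  exact (mem3 hS hc').2.1

/-- the hull sites are far -/
theorem hull_sp {u : ℂ} (hu : OnHull S u) : h * K / 2 + b1 ≤ sp (zc h K v) u := by
  have h1 := CorEhx829.hull_out G.D hu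
  have h2 := G.hin
  have h3 := norm_sp (zc h K v) u
  have h4 := norm_sub_le (u - zc h K v) (-(zc h K v - c))
  have e : u - zc h K v - -(zc h K v - c) = u - c := by ring
  rw [e, norm_neg] at h4
  have hd := G.D.dpos
  linarith

/-- holes on the square around the ring -/
theorem hole (q : ℂ) (hq : sp (zc h K v) q = h * K / 2 + b1) : ∃ t ∈ S, ‖t - q‖ < d := by
  refine G.D.hole q ?_
  have h2 := G.hin
  have h3 := norm_sp (zc h K v) q
  have h4 := norm_add_le (q - zc h K v) (zc h K v - c)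
  rw [sub_add_sub_cancel] at h4
  have hd := G.D.dpos
  rw [hq] at h3
  linarith

/-- the tiles are well inside -/
theorem tile_in {a : ℤ} {z : ℂ} (hz : z ∈ RR (A + τ) (B + τ) h W a) : ‖z - c‖ < L - 4 * d := by
  obtain ⟨p1, p2, p3, p4, p5⟩ := RingCx312.pos H
  have h1 := sp_tile G.K1 G.hW H.F p2 p4 p1 hz
  have h2 := G.hin
  have h3 := norm_sp (zc h K v) z
  have h4 := norm_add_le (z - zc h K v) (zc h K v - c)
  rw [sub_add_sub_cancel] at h4
  have h5 := G.hb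
  have hd := G.D.dpos
  linarith

end Geo

/-- the ring loop of 503 -/
structure RLo (H : Clo S V β χ h A B A' B' κ bb a0 a1 b0 b1 m m' τ (4 * K) W y x U)
    (hS : GP (S : Set ℂ)) (hχ : HullC S χ) (o : ℤ) (N : ℕ) (T : ℕ → ℕ) : Prop where
  R : Winx355.RL (cm0 hS) (cfg (cm0 hS) (lift S hχ)) (pz hχ H o) N (4 * K) T
    (fun k => cl S (RR (A + τ) (B + τ) h W (o - 1 - k)))
  Tp : ∀ k, P (cm0 hS) (cfg (cm0 hS) (lift S hχ)) (pz hχ H o) (T k) = pz hχ H (o - k)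
  TR : ∀ k t, T k ≤ t → t ≤ T (k + 1) →
    P (cm0 hS) (cfg (cm0 hS) (lift S hχ)) (pz hχ H o) t ∈
      RD S (RR (A + τ) (B + τ) h W (o - 1 - k))

theorem rlo (H : Clo S V β χ h A B A' B' κ bb a0 a1 b0 b1 m m' τ (4 * K) W y x U)
    (hS : GP (S : Set ℂ)) (hχ : HullC S χ) (o : ℤ) : ∃ N T, RLo H hS hχ o N T := by
  obtain ⟨N, T, h1, h2, h3⟩ := H.rl hS hχ o
  exact ⟨N, T, h1, h2, h3⟩

theorem RLo.it {H : Clo S V β χ h A B A' B' κ bb a0 a1 b0 b1 m m' τ (4 * K) W y x U} {o : ℤ}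
    {N : ℕ} {T : ℕ → ℕ} (R : RLo H hS hχ o N T) (q r : ℕ) :
    (stp (cm0 hS) (xc hS hχ))^[r + q * N] (pz hχ H o) =
      (stp (cm0 hS) (xc hS hχ))^[r] (pz hχ H o) := by
  have hN' : (stp (cm0 hS) (xc hS hχ))^[N] (pz hχ H o) = pz hχ H o := R.R.L.per
  induction q with
  | zero => simp
  | succ q ih =>
    rw [show r + (q + 1) * N = (r + q * N) + N by ring, Function.iterate_add_apply, hN', ih]

namespace Geo

variable {H : Clo S V β χ h A B A' B' κ bb a0 a1 b0 b1 m m' τ (4 * K) W y x U}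

/-- **the left cells** -/
theorem lf_iff (G : Geo H hS hχ σ p v c L d) {o : ℤ} {N t : ℕ} {T : ℕ → ℕ} (R : RLo H hS hχ o N T)
    (hp : p = P (cm0 hS) (xc hS hχ) (pz hχ H o) t) (q : Cs hS) :
    q ∈ Patx828.Lf (rc0 hS) (cfg (rc0 hS) σ) p ↔
      q.1 ∈ GiantEx197.Lf (cm0 hS) (xc hS hχ) (pz hχ H o) N := by
  have hst : ∀ i, P (rc0 hS) (cfg (rc0 hS) σ) p i =
      (stp (cm0 hS) (xc hS hχ))^[i + t] (pz hχ H o) := by
    intro i
    rw [G.cfg_eq, hp, Function.iterate_add_apply]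
    rfl
  constructor
  · rintro ⟨i, rfl⟩
    have h1 : ((rc0 hS).cell (P (rc0 hS) (cfg (rc0 hS) σ) p i)).1 =
        Quot.mk _ ((stp (cm0 hS) (xc hS hχ))^[i + t] (pz hχ H o)).1.1 := by
      rw [hst]
      rfl
    show ((rc0 hS).cell (P (rc0 hS) (cfg (rc0 hS) σ) p i)).1 ∈ _
    rw [h1]
    exact ll_lf hS hχ R.R.L.per R.R.L.pos (by omega) ⟨_, rfl⟩
  · rintro ⟨j, -, hj⟩
    have hNp := R.R.L.pos
    refine ⟨j + t * N - t, Subtype.ext ?_⟩
    show ((rc0 hS).cell (P (rc0 hS) (cfg (rc0 hS) σ) p (j + t * N - t))).1 = _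
    rw [hst, Nat.sub_add_cancel (by nlinarith), R.it]
    exact hj

/-- the hull cell is not a left cell -/
theorem hull_off (_G : Geo H hS hχ σ p v c L d) {o : ℤ} {N : ℕ} {T : ℕ → ℕ}
    (R : RLo H hS hχ o N T) {u : ℂ} (hu : OnHull S u) :
    (Quot.mk _ u : Quot (hullE S)) ∉ GiantEx197.Lf (cm0 hS) (xc hS hχ) (pz hχ H o) N :=
  fun h1 => (lf_tile H o R.R.mono R.R.zero R.TR h1).2 hu

/-- the right cell is in `Ek` -/
theorem right (G : Geo H hS hχ σ p v c L d) {o : ℤ} {N t : ℕ} {T : ℕ → ℕ} (R : RLo H hS hχ o N T)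
    (hp : p = P (cm0 hS) (xc hS hχ) (pz hχ H o) t) {u : ℂ} (hu : OnHull S u) (huS : u ∈ S) :
    ((rc0 hS).cell ((rc0 hS).rho p)).1 ∈
      Ek (cm0 hS) (Quot.mk _ u) (GiantEx197.Lf (cm0 hS) (xc hS hχ) (pz hχ H o) N) := by
  have h1 := right_ek H R.R R.TR R.Tp G.Q.K3 G.hW G.card (n := N) (h1 := h * K / 2 + b1)
    G.D.dpos.le (by have := G.hb; linarith) le_rfl G.hole huS (G.hull_sp hu) t
  have e : ((rc0 hS).cell ((rc0 hS).rho p)).1 =
      Quot.mk _ ((stp (cm0 hS) (xc hS hχ))^[t] (pz hχ H o)).1.2 := by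
    rw [hp]
    rfl
  rw [e]
  exact h1

/-- **the outside is `Ek`** -/
theorem wc_iff (G : Geo H hS hχ σ p v c L d) {o : ℤ} {N t : ℕ} {T : ℕ → ℕ} (R : RLo H hS hχ o N T)
    (hp : p = P (cm0 hS) (xc hS hχ) (pz hχ H o) t) {u : ℂ} (hu : OnHull S u) (huS : u ∈ S)
    (q : Cs hS) :
    q ∈ Wc (rc0 hS) (cfg (rc0 hS) σ) p ↔
      q.1 ∈ Ek (cm0 hS) (Quot.mk _ u) (GiantEx197.Lf (cm0 hS) (xc hS hχ) (pz hχ H o) N) := by
  have h0 := G.hull_off R hu
  have hr := G.right R hp hu huS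
  set Kc := GiantEx197.Lf (cm0 hS) (xc hS hχ) (pz hχ H o) N with hKc
  have hlf : ∀ q : Cs hS, q ∈ Patx828.Lf (rc0 hS) (cfg (rc0 hS) σ) p ↔ q.1 ∈ Kc :=
    fun q => G.lf_iff R hp q
  constructor
  · rintro ⟨-, hq⟩
    have key : ∀ a c : Cs hS, Relation.EqvGen
        (R5bx166.Nb (rc0 hS) (Patx828.Lf (rc0 hS) (cfg (rc0 hS) σ) p)ᶜ) a c →
        (a.1 ∈ Ek (cm0 hS) (Quot.mk _ u) Kc ↔ c.1 ∈ Ek (cm0 hS) (Quot.mk _ u) Kc) := by
      intro a c h
      induction h with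
      | rel a c h =>
        obtain ⟨h1, h2, e, -, rfl, rfl⟩ := h
        have h1' : ((rc0 hS).cell e).1 ∉ Kc := fun h => h1 ((hlf _).2 h)
        have h2' : ((rc0 hS).cell ((rc0 hS).rho e)).1 ∉ Kc := fun h => h2 ((hlf _).2 h)
        have hn : Exitx707.Nb (cm0 hS) ((rc0 hS).cell e).1 ((rc0 hS).cell ((rc0 hS).rho e)).1 :=
          ⟨e, rfl, rfl⟩
        exact ⟨fun h => ek_step h hn h2', fun h => ek_step h (Exitx707.nb_symm hn) h1'⟩
      | refl _ => exact Iff.rfl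
      | symm _ _ _ ih => exact ih.symm
      | trans _ _ _ _ _ ih1 ih2 => exact ih1.trans ih2
    exact (key _ _ hq).1 hr
  · intro hq
    set hc : Cs hS := ⟨Quot.mk _ u, cell_mem hS G.card huS⟩ with hhc
    have key : ∀ b ∈ Ek (cm0 hS) (Quot.mk _ u) Kc, ∀ q : Cs hS, q.1 = b →
        (q ∈ Wc (rc0 hS) (cfg (rc0 hS) σ) p ↔ hc ∈ Wc (rc0 hS) (cfg (rc0 hS) σ) p) := by
      refine ek_ind ?_ ?_
      · intro q hq
        rw [show q = hc from Subtype.ext hq]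
      · rintro a b ha ih ⟨e, rfl, rfl⟩ hb q hq
        have h1 := ih ((rc0 hS).cell e) rfl
        have e2 : q = (rc0 hS).cell ((rc0 hS).rho e) := Subtype.ext hq
        rw [← h1, e2]
        have ha' := ek_off h0 ha
        have n1 : (rc0 hS).cell e ∉ Patx828.Lf (rc0 hS) (cfg (rc0 hS) σ) p :=
          fun h => ha' ((hlf _).1 h)
        have n2 : (rc0 hS).cell ((rc0 hS).rho e) ∉ Patx828.Lf (rc0 hS) (cfg (rc0 hS) σ) p :=
          fun h => hb ((hlf _).1 h)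
        have he : Ed (rc0 hS) ((rc0 hS).cell e) ((rc0 hS).cell ((rc0 hS).rho e)) := ⟨e, rfl, rfl⟩
        exact ⟨fun h => Patx828.wc_nb h n1 he.symm, fun h => Patx828.wc_nb h n2 he⟩
    have h1 : (rc0 hS).cell ((rc0 hS).rho p) ∈ Wc (rc0 hS) (cfg (rc0 hS) σ) p :=
      ⟨fun h => ek_off h0 hr ((hlf _).1 h), Relation.EqvGen.refl _⟩
    exact (key _ hq _ rfl).2 ((key _ hr _ rfl).1 h1)

/-- **the hull cell is in the outside** -/
theorem hull (G : Geo H hS hχ σ p v c L d) (q : Cs hS) (u : ℂ) (hu : OnHull S u)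
    (hq : q.1 = Quot.mk (hullE S) u) : q ∈ Wc (rc0 hS) (cfg (rc0 hS) σ) p := by
  obtain ⟨o, t, hp⟩ := G.on
  obtain ⟨N, T, R⟩ := rlo H hS hχ o
  obtain ⟨u', hu', huS'⟩ := G.hull_ex
  rw [G.wc_iff R hp hu' huS', hq, GiantEx197.hull_mem hS G.card hu' hu]
  exact h0_ek

/-- **the cells of the far sites are in the outside** -/
theorem out (G : Geo H hS hχ σ p v c L d) {s : ℂ} (hs : s ∈ S)
    (hs' : h * K / 2 + b1 ≤ sp (zc h K v) s) (q : Cs hS) (hq : q.1 = Quot.mk (hullE S) s) :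
    q ∈ Wc (rc0 hS) (cfg (rc0 hS) σ) p := by
  obtain ⟨o, t, hp⟩ := G.on
  obtain ⟨N, T, R⟩ := rlo H hS hχ o
  obtain ⟨u', hu', huS'⟩ := G.hull_ex
  rw [G.wc_iff R hp hu' huS', hq]
  exact far_in_ek H R.R R.TR G.K1 G.hW G.card G.D.dpos.le (by have := G.hb; linarith) G.hole huS'
    (G.hull_sp hu') hs hs'

/-- **the sites of the inner square are not in the outside** -/
theorem mid (G : Geo H hS hχ σ p v c L d) {w : ℂ} (hw : w ∈ Kin h (A + τ + m) K v) (q : Cs hS)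
    (hq : q.1 = Quot.mk (hullE S) w) : q ∉ Wc (rc0 hS) (cfg (rc0 hS) σ) p := by
  obtain ⟨o, t, hp⟩ := G.on
  obtain ⟨N, T, R⟩ := rlo H hS hχ o
  obtain ⟨u', hu', huS'⟩ := G.hull_ex
  rw [G.wc_iff R hp hu' huS', hq]
  intro h1
  exact box_not_eg H R.R R.TR R.Tp G.Q G.hW G.card (by omega) hu' hw (Or.inl h1)

/-- the sites of the left cells are in the tiles -/
theorem lf_in (G : Geo H hS hχ σ p v c L d) {w : ℂ} (q : Cs hS) (hq : q.1 = Quot.mk (hullE S) w)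
    (h1 : q ∈ Patx828.Lf (rc0 hS) (cfg (rc0 hS) σ) p) :
    (∃ a, w ∈ RR (A + τ) (B + τ) h W a) ∧ ¬ OnHull S w := by
  obtain ⟨o, t, hp⟩ := G.on
  obtain ⟨N, T, R⟩ := rlo H hS hχ o
  rw [G.lf_iff R hp, hq] at h1
  exact lf_tile H o R.R.mono R.R.zero R.TR h1

/-- a neighbour of a cell of the outside which is off the tiles -/
theorem wc_off (G : Geo H hS hχ σ p v c L d) {q q' : Cs hS}
    (hq : q ∈ Wc (rc0 hS) (cfg (rc0 hS) σ) p) (he : Ed (rc0 hS) q q') {w : ℂ}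
    (hw : q'.1 = Quot.mk (hullE S) w) (h1 : ∀ a, w ∉ RR (A + τ) (B + τ) h W a) :
    q' ∈ Wc (rc0 hS) (cfg (rc0 hS) σ) p :=
  Patx828.wc_nb hq (fun h2 => by
    obtain ⟨⟨a, ha⟩, -⟩ := G.lf_in q' hw h2
    exact h1 a ha) he

/-- **the cells at the hull darts are in the outside** -/
theorem far (G : Geo H hS hχ σ p v c L d) (e : D0 S) (he : OnHull S e.1.1) :
    (rc0 hS).cell e ∈ Wc (rc0 hS) (cfg (rc0 hS) σ) p ∧
    (rc0 hS).cell ((rc0 hS).rho e) ∈ Wc (rc0 hS) (cfg (rc0 hS) σ) p ∧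
    (rc0 hS).cell ((rc0 hS).rho ((rc0 hS).rho e)) ∈ Wc (rc0 hS) (cfg (rc0 hS) σ) p := by
  have ht := th_spec e.2
  obtain ⟨-, h2, h3⟩ := CorEhx829.tri_out G.D ht (Or.inl he)
  have key : ∀ {w : ℂ}, L - 4 * d ≤ ‖w - c‖ → ∀ a, w ∉ RR (A + τ) (B + τ) h W a :=
    fun h4 a h5 => absurd (G.tile_in h5) (not_lt.2 h4)
  have c1 := G.hull ((rc0 hS).cell e) e.1.1 he rfl
  have e1 : Ed (rc0 hS) ((rc0 hS).cell e) ((rc0 hS).cell ((rc0 hS).rho e)) := ⟨e, rfl, rfl⟩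
  have e2 : Ed (rc0 hS) ((rc0 hS).cell ((rc0 hS).rho ((rc0 hS).rho e))) ((rc0 hS).cell e) :=
    ⟨(rc0 hS).rho ((rc0 hS).rho e), rfl, by rw [(rc0 hS).rho3]⟩
  exact ⟨c1, G.wc_off c1 e1 rfl (key h2), G.wc_off c1 e2.symm rfl (key h3)⟩

/-- **the centre, every pattern** (`w` = corner of the square) -/
theorem ctr (G : Geo H hS hχ σ p v c L d) {N : ℕ} {r : ZMod 3 → ℕ} (X : Rg3 (rc0 hS) σ p N r)
    {A0 B0 jj : ℝ} (hAB : A0 ≤ B0) (he : 2 * d + (B0 + h * jj) < h * K / 2) {w : ℂ}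
    (hw : w = ⟨h * v.1, h * v.2⟩)
    (hloc : ∀ i, ∀ z ∈ st (Gc (rc0 hS) (cfg (rc0 hS) σ) p N r) i,
      z - w ∈ HullGx715.NearS K A0 B0 h jj i) (k : ZMod 3) :
    ∃ X, CtrX S (st (AP (rc0 hS) (cfg (rc0 hS) σ) p N r k)) X := by
  have e0 : CtrHx277.cen w (h * K) = zc h K v := by
    rw [hw]
    unfold CtrHx277.cen RingCx312.zc
    apply Complex.ext <;> simp only <;> ring
  obtain ⟨p1, p2, p3, p4, p5⟩ := RingCx312.pos H
  have n1 := G.hb
  have n2 := H.N.toNum.s3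
  have n3 := H.N.toNum.tot
  have n4 := H.N.toNum.κ0
  have n5 := H.N.toNum.A0
  have n6 := H.N.mτ
  have n7 := H.N.AB
  have n8 := G.Q.hh
  have hd := G.D.dpos
  have K3 : (3 : ℝ) ≤ K := by exact_mod_cast G.Q.K3
  have hin := G.hin
  have hcn := norm_nonneg (zc h K v - c)
  have hK : h * 3 ≤ h * K := mul_le_mul_of_nonneg_left K3 p1.le
  rw [S1x828.ap_eq]
  refine CtrHx277.ctr_near G.D (fun q u hu hq => G.hull q u hu hq) (S1x828.rim X) G.K1 p1.le hAB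
    he hloc ?_ ?_ ?_ k
  · rintro i z ⟨-, q, hq, e⟩
    obtain ⟨⟨a, ha⟩, -⟩ := G.lf_in q e (Patx828.gc_lf hq)
    exact (G.tile_in ha).le
  · rw [e0]
    linarith
  · intro s _ hs q hq
    rw [e0] at hs
    refine G.mid ?_ q hq
    have h1 := Complex.abs_re_le_norm (s - zc h K v)
    have h2 := Complex.abs_im_le_norm (s - zc h K v)
    rw [Complex.sub_re] at h1
    rw [Complex.sub_im] at h2
    have h3 := abs_le.1 (h1.trans hs.le)
    have h4 := abs_le.1 (h2.trans hs.le)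
    unfold RingCx312.zc at h3 h4
    simp only at h3 h4
    refine ⟨⟨?_, ?_⟩, ?_, ?_⟩ <;> nlinarith

end Geo

/-! ### the colours -/

open Crest.Agent.R143.Freshx829 (scol Inn rep rep_spec rep_eq)

/-- the colours of the sites (hull white) -/
def chs (S β : Finset ℂ) (s : ℂ) : ZMod 2 := if s ∈ S ∧ s ∈ β ∧ ¬ OnHull S s then 1 else 0

theorem chs_hull (hS : GP (S : Set ℂ)) (β : Finset ℂ) : HullC S (chs S β) := by
  intro a b hab
  unfold chs
  rw [if_neg fun h => h.2.2 (onHull_left hS hab), if_neg fun h => h.2.2 ⟨a, hab⟩]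

theorem chs_one {β : Finset ℂ} {s : ℂ} (hs : s ∈ S) (hi : ¬ OnHull S s) :
    chs S β s = 1 ↔ s ∈ β := by
  unfold chs
  by_cases h : s ∈ β
  · rw [if_pos ⟨hs, h, hi⟩]
    exact ⟨fun _ => h, fun _ => rfl⟩
  · rw [if_neg fun h' => h h'.2.1]
    exact ⟨fun h' => absurd h' (by decide), fun h' => absurd h' h⟩

/-- **the colouring of the cells and the colouring of the sites** (field `col`) -/
theorem scol_chs (hS : GP (S : Set ℂ)) (β : Finset ℂ) (q : Cs hS) (s : ℂ) (hs : s ∈ S)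
    (hq : q.1 = Quot.mk _ s) : scol hS (β : Set ℂ) q = chs S β s := by
  unfold scol chs
  by_cases hi : OnHull S s
  · have h1 : ¬ (Inn hS q ∧ rep hS q ∈ (β : Set ℂ)) := by
      rintro ⟨⟨u, -, e, hui⟩, -⟩
      have := quot_inner hS hui (e.symm.trans hq)
      exact hui (this ▸ hi)
    rw [if_neg h1, if_neg fun h => h.2.2 hi]
  · have h1 : rep hS q = s := rep_eq hi hs hq
    have hin : Inn hS q := ⟨s, hs, hq, hi⟩
    rw [h1]
    by_cases h : s ∈ β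
    · rw [if_pos ⟨hin, Finset.mem_coe.2 h⟩, if_pos ⟨hs, h, hi⟩]
    · rw [if_neg fun h' => h (Finset.mem_coe.1 h'.2), if_neg fun h' => h h'.2.1]

end Crest.Agent.R143.DtaGx277
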