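import Crest.Agent.R143.HGlue_136
import Crest.Agent.R143.Tri2_106

/-!
# Row 143 (S0194), block H, H5 = KAPPA, the end of route 2 (helper690)

One ring; functionals of the configuration `X` in a box `B`: weight `g`, total `t`, mean end points
`Z 0, Z 1, Z 2` on the three arcs (all functions of what is seen from outside), `J k` : the pattern
`k` is joined; error of the closing of the pattern `k`: `Er κ t Z k`.
* `two` : two joined patterns, `Z` near the three arcs ⟹ `‖κ‖ b ≤ 60 ∑_{k joined} Er k` (106's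
  `wrong_root_conj`), POINTWISE: no averages of `Z`, no pieces
* `kap_mq` : quenched form with a measurable majorant (136's convention)
* `Ring2` : the inputs of route 2 for one `(N, ε)`; `kap_small2 : (∀ δ, eventually Ring2) → KapH`
-/

set_option autoImplicit false

noncomputable section

open scoped Classical

namespace Crest.Agent.R143.KapAx690

open MeasureTheory Filter Topology Complex ComplexConjugate
open Crest.ProbabilityR.Voronoi
open Crest.Agent.R143.B0x346 Crest.Agent.R143.Mass1x302 Crest.Agent.R143.Mass2x302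
  Crest.Agent.R143.Mass3x302 Crest.Agent.R143.Mass4x302 Crest.Agent.R143.Mass5x302
open Crest.Agent.R143.Dblx609 Crest.Agent.R143.Dbl2x609 Crest.Agent.R143.HGluex136 Crest.Agent.R143.Trix106
open scoped ENNReal

/-- the mean end points are near the three arcs (bottom side; right side; convex hull of the top and
the left side) of the square of side `b` with the corner `z0` -/
structure Hl (z0 : ℂ) (b r : ℝ) (Z : Fin 3 → ℂ) : Prop where
  h0 : ∃ x : ℝ, 0 ≤ x ∧ x ≤ b ∧ ‖Z 0 - (z0 + x)‖ ≤ r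
  h1 : ∃ y : ℝ, 0 ≤ y ∧ y ≤ b ∧ ‖Z 1 - (z0 + b + y * I)‖ ≤ r
  h2 : ∃ u v : ℝ, 0 ≤ u ∧ u ≤ v ∧ v ≤ b ∧ ‖Z 2 - (z0 + u + v * I)‖ ≤ r

/-- the error of the closing of the pattern `k` (small field `Nn`): `E V(γ_k) = om ^ k t` up to the
sign, potential `- κ conj (displacement)` -/
def Er (om κ t : ℂ) (Z : Fin 3 → ℂ) (k : Fin 3) : ℝ := ‖κ * conj (Df Z k) - om ^ (k : ℕ) * t‖

/-- the sum of the errors of the joined patterns -/
def ErJ (om κ t : ℂ) (Z : Fin 3 → ℂ) (J : Fin 3 → Prop) : ℝ≥0∞ :=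
  ∑ k : Fin 3, if J k then ENNReal.ofReal (Er om κ t Z k) else 0

/-- **two joined patterns are enough**, pointwise -/
theorem two {om : ℂ} (h : om ^ 2 + om + 1 = 0) (him : 0 < om.im) {z0 : ℂ} {b r : ℝ} (hb : 0 < b)
    (hr : r ≤ b / 200) {κ t : ℂ} {Z : Fin 3 → ℂ} (H : Hl z0 b r Z) {J : Fin 3 → Prop}
    (hJ : ∃ i j, i ≠ j ∧ J i ∧ J j) :
    ENNReal.ofReal (‖κ‖ * b) ≤ 60 * ErJ om κ t Z J := by
  obtain ⟨i, j, hij, hi, hj⟩ := hJ
  have h1 := wrong_root_conj (κ := κ) (t := t) (e := max (Er om κ t Z i) (Er om κ t Z j)) h him hb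
    hr H.h0 H.h1 H.h2 hij (le_max_left _ _) (le_max_right _ _)
  have key : ∀ k, J k → ENNReal.ofReal (Er om κ t Z k) ≤ ErJ om κ t Z J := by
    intro k hk
    unfold ErJ
    refine le_trans ?_ (Finset.single_le_sum (f := fun k => if J k then
      ENNReal.ofReal (Er om κ t Z k) else 0) (fun _ _ => zero_le) (Finset.mem_univ k))
    show _ ≤ if J k then ENNReal.ofReal (Er om κ t Z k) else 0
    rw [if_pos hk]
  have h2 : ENNReal.ofReal (max (Er om κ t Z i) (Er om κ t Z j)) ≤ ErJ om κ t Z J := by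
    rcases max_choice (Er om κ t Z i) (Er om κ t Z j) with e | e <;> rw [e]
    · exact key i hi
    · exact key j hj
  calc ENNReal.ofReal (‖κ‖ * b)
      ≤ ENNReal.ofReal (60 * max (Er om κ t Z i) (Er om κ t Z j)) := ENNReal.ofReal_le_ofReal h1
    _ = 60 * ENNReal.ofReal (max (Er om κ t Z i) (Er om κ t Z j)) := by
        rw [ENNReal.ofReal_mul (by norm_num)]
        norm_num
    _ ≤ _ := by gcongr

/-- **quenched form** : `g`, `t`, `Z`, `J` functionals of the configuration in the box `B`, `R` a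
measurable majorant of the quenched mean of `g * (errors of the joined patterns)` -/
theorem kap_mq {om : ℂ} (h : om ^ 2 + om + 1 = 0) (him : 0 < om.im) {z0 : ℂ} {b r : ℝ} (hb : 0 < b)
    (hr : r ≤ b / 200) {κ : ℂ} {ε : ℝ} (hε : 0 < ε) {B : Set ℂ} (hBm : MeasurableSet B)
    (hB : Bornology.IsBounded B) {g : Set (ℂ × Bool) → ℝ≥0∞} (hg : Poisx304.FM g)
    {t : Set (ℂ × Bool) → ℂ} {Z : Set (ℂ × Bool) → Fin 3 → ℂ} {J : Set (ℂ × Bool) → Fin 3 → Prop}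
    (H : ∀ᵐ ω ∂sampleLaw, ∀ β ∈ (Ap ε B ω).powerset, g (paint (Ap ε B ω) β) ≠ 0 →
      Hl z0 b r (Z (paint (Ap ε B ω) β)) ∧
        ∃ i j, i ≠ j ∧ J (paint (Ap ε B ω) β) i ∧ J (paint (Ap ε B ω) β) j)
    {R : Sample → ℝ≥0∞}
    (hR : ∀ᵐ ω ∂sampleLaw, mq ε B (fun X => g X * ErJ om κ (t X) (Z X) (J X)) ω ≤ R ω) :
    ENNReal.ofReal (‖κ‖ * b) * ∫⁻ ω, g (PP0x831.cfg ε ω ∩ ovM Bool B) ∂sampleLaw ≤
      60 * ∫⁻ ω, R ω ∂sampleLaw := by
  rw [← lint_eq_mq hε hBm hB hg, ← lintegral_const_mul'' _ (mq_meas hε hBm hB hg),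
    ← lintegral_const_mul' _ _ (by norm_num)]
  refine lintegral_mono_ae ?_
  filter_upwards [H, hR] with ω h1 h2
  calc ENNReal.ofReal (‖κ‖ * b) * mq ε B g ω
      = mq ε B (fun X => ENNReal.ofReal (‖κ‖ * b) * g X) ω := (mq_mul ε B _ g ω).symm
    _ ≤ mq ε B (fun X => 60 * (g X * ErJ om κ (t X) (Z X) (J X))) ω := by
        refine mq_mono fun β hβ => ?_
        by_cases h0 : g (paint (Ap ε B ω) β) = 0
        · rw [h0, mul_zero]; exact zero_le
        · obtain ⟨h3, h4⟩ := h1 β hβ h0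
          have h5 := two (κ := κ) (t := t (paint (Ap ε B ω) β)) h him hb hr h3 h4
          calc ENNReal.ofReal (‖κ‖ * b) * g (paint (Ap ε B ω) β)
              ≤ (60 * ErJ om κ (t (paint (Ap ε B ω) β)) (Z (paint (Ap ε B ω) β))
                  (J (paint (Ap ε B ω) β))) * g (paint (Ap ε B ω) β) := by gcongr
            _ = _ := by ring
    _ = 60 * mq ε B (fun X => g X * ErJ om κ (t X) (Z X) (J X)) ω := mq_mul ε B _ _ ω
    _ ≤ 60 * R ω := by gcongr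

/-- **the inputs of route 2** for one mesh `ε` and one ring, precision `δ` -/
def Ring2 (om κ z0 : ℂ) (b ε δ : ℝ) : Prop :=
  ∃ (r : ℝ) (B : Set ℂ) (g : Set (ℂ × Bool) → ℝ≥0∞) (t : Set (ℂ × Bool) → ℂ)
    (Z : Set (ℂ × Bool) → Fin 3 → ℂ) (J : Set (ℂ × Bool) → Fin 3 → Prop) (R : Sample → ℝ≥0∞),
    r ≤ b / 200 ∧ MeasurableSet B ∧ Bornology.IsBounded B ∧ Poisx304.FM g ∧ (∀ X, g X ≤ 1) ∧
    (∀ᵐ ω ∂sampleLaw, ∀ β ∈ (Ap ε B ω).powerset, g (paint (Ap ε B ω) β) ≠ 0 →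
      Hl z0 b r (Z (paint (Ap ε B ω) β)) ∧
        ∃ i j, i ≠ j ∧ J (paint (Ap ε B ω) β) i ∧ J (paint (Ap ε B ω) β) j) ∧
    (∀ᵐ ω ∂sampleLaw, mq ε B (fun X => g X * ErJ om κ (t X) (Z X) (J X)) ω ≤ R ω) ∧
    0 < ∫⁻ ω, g (PP0x831.cfg ε ω ∩ ovM Bool B) ∂sampleLaw ∧
    ∫⁻ ω, R ω ∂sampleLaw ≤ ENNReal.ofReal δ *
      ∫⁻ ω, g (PP0x831.cfg ε ω ∩ ovM Bool B) ∂sampleLaw

theorem Ring2.small {om κ z0 : ℂ} (h : om ^ 2 + om + 1 = 0) (him : 0 < om.im) {b ε δ : ℝ}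
    (hb : 0 < b) (hε : 0 < ε) (hδ : 0 ≤ δ) (H : Ring2 om κ z0 b ε δ) : ‖κ‖ * b ≤ 60 * δ := by
  obtain ⟨r, B, g, t, Z, J, R, hr, hBm, hB, hg, hg1, h1, h2, h3, h4⟩ := H
  have h5 := kap_mq h him hb hr hε hBm hB hg h1 h2
  set G := ∫⁻ ω, g (PP0x831.cfg ε ω ∩ ovM Bool B) ∂sampleLaw with hG
  have hG1 : G ≤ 1 := by
    rw [hG]
    calc ∫⁻ ω, g (PP0x831.cfg ε ω ∩ ovM Bool B) ∂sampleLaw
        ≤ ∫⁻ _, 1 ∂sampleLaw := lintegral_mono fun ω => hg1 _
      _ = 1 := by simp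
  have hGt : G ≠ ∞ := ne_top_of_le_ne_top ENNReal.one_ne_top hG1
  have h6 : ENNReal.ofReal (‖κ‖ * b) * G ≤ ENNReal.ofReal (60 * δ) * G := by
    refine h5.trans ?_
    calc 60 * ∫⁻ ω, R ω ∂sampleLaw ≤ 60 * (ENNReal.ofReal δ * G) := by gcongr
      _ = ENNReal.ofReal (60 * δ) * G := by
          rw [ENNReal.ofReal_mul (by norm_num), ← mul_assoc]
          norm_num
  have h7 := (ENNReal.mul_le_mul_iff_left h3.ne' hGt).1 h6
  exact (ENNReal.ofReal_le_ofReal_iff (by positivity)).1 h7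

/-- **KapH** : the coefficient is small (first the tile, then the mesh) -/
def KapH (κ : ℕ → ℝ → ℂ) : Prop := ∀ δ : ℝ, 0 < δ → ∀ᶠ N : ℕ in atTop, ∀ᶠ ε : ℝ in 𝓝[>] 0,
  ‖κ N ε‖ ≤ δ

/-- **route 2** -/
theorem kapH_of_ring {om z0 : ℂ} (h : om ^ 2 + om + 1 = 0) (him : 0 < om.im) {b : ℝ} (hb : 0 < b)
    {κ : ℕ → ℝ → ℂ} (H : ∀ δ : ℝ, 0 < δ → ∀ᶠ N : ℕ in atTop, ∀ᶠ ε : ℝ in 𝓝[>] 0,
      Ring2 om (κ N ε) z0 b ε δ) : KapH κ := by
  intro δ hδ
  filter_upwards [H (δ * b / 60) (by positivity)] with N h1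
  filter_upwards [h1, self_mem_nhdsWithin] with ε h2 hε
  have h3 := h2.small h him hb hε (by positivity)
  have h4 : 60 * (δ * b / 60) = δ * b := by ring
  rw [h4] at h3
  exact le_of_mul_le_mul_right h3 hb

end Crest.Agent.R143.KapAx690
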