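import Crest.Agent.R143.KapA_690

/-!
# Row 143 (S0194), block H, H5 = KAPPA, route 2, (A2) (helper440): the error of one pattern

Everything is a functional of the painted configuration `X` in the box `B`.  `g` = weight, `P` = the
pattern is joined (both decided by the stopping set `Jf` of the outside), `V` = charge of the root
chord, `W` = its displacement, `τ = om ^ k t` and `D = Df Z k` = their means over the fresh coins.
* `er_le` : quenched, `Σ g 1_P ‖mean‖ ≤ Σ g 1_P ‖e‖` (strong Markov property)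
* `MeanQ`, `mq_mean` : the same for `e = κ conj W - V` in 136's convention
* `amgm`, `amgm'` : `x ≤ c + c⁻¹ x²`, `x ≤ c x² + c⁻¹`
* `PatE` : all the inputs for one pattern; off the bad event `Mk` of the marks
  `‖e‖ ≤ Σ q_i + rr`, on `Mk` `‖e‖ ≤ ‖V‖ + K0`; quenched means of `g 1_P q_i²`, `g 1_P 1_Mk`,
  `g 1_P ‖V‖²` with measurable majorants
* `PatE.bound` : the majorant of `g 1_P Er`; `ring2_of` : three patterns give `Ring2`
-/

set_option autoImplicit false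

noncomputable section

open scoped Classical

namespace Crest.Agent.R143.KapEx440

open MeasureTheory Filter Topology Complex ComplexConjugate
open Crest.ProbabilityR.Voronoi
open Crest.Agent.R143.B0x346
open Crest.Agent.R143.Dblx609 Crest.Agent.R143.Dbl2x609 Crest.Agent.R143.HGluex136
  Crest.Agent.R143.Trix106 Crest.Agent.R143.KapAx690
open Crest.Agent.R143.Harx315 Crest.Agent.R143.Histx389
open scoped ENNReal

/-! ### one environment -/

section quenched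

variable {α : Type*} {V : Finset α} {Jf : Finset α → Finset α}

/-- mean over the fresh coins, complex values -/
def avc (V R : Finset α) (F : Finset α → ℂ) (b : Finset α) : ℂ :=
  ((2 : ℂ) ^ (V \ R).card)⁻¹ * ∑ b' ∈ (V \ R).powerset, F (b' ∪ (b ∩ R))

theorem avc_lin (V R : Finset α) (F G : Finset α → ℂ) (κ : ℂ) (b : Finset α) :
    avc V R (fun b => κ * conj (G b) - F b) b = κ * conj (avc V R G b) - avc V R F b := by
  unfold avc
  rw [map_mul, map_inv₀, map_pow, map_sum, Finset.sum_sub_distrib, ← Finset.mul_sum]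
  have h2 : (starRingEnd ℂ) 2 = 2 := Complex.conj_ofNat 2
  rw [h2]
  ring

theorem avc_norm (V R : Finset α) (F : Finset α → ℂ) (b : Finset α) :
    ENNReal.ofReal ‖avc V R F b‖ ≤ av V R (fun b => ENNReal.ofReal ‖F b‖) b := by
  unfold avc av
  have h1 : ‖((2 : ℂ) ^ (V \ R).card)⁻¹ * ∑ b' ∈ (V \ R).powerset, F (b' ∪ (b ∩ R))‖ ≤
      ((2 : ℝ) ^ (V \ R).card)⁻¹ * ∑ b' ∈ (V \ R).powerset, ‖F (b' ∪ (b ∩ R))‖ := by
    rw [norm_mul, norm_inv, norm_pow, Complex.norm_ofNat]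
    exact mul_le_mul_of_nonneg_left (norm_sum_le _ _) (by positivity)
  refine (ENNReal.ofReal_le_ofReal h1).trans (le_of_eq ?_)
  rw [ENNReal.ofReal_mul (by positivity), ENNReal.ofReal_sum_of_nonneg fun _ _ => norm_nonneg _,
    ENNReal.ofReal_inv_of_pos (by positivity), ENNReal.ofReal_pow (by norm_num)]
  norm_num

/-- the same outcome -/
theorem out_inter {b b' R : Finset α} (hb' : b' ⊆ V \ R) : (b' ∪ (b ∩ R)) ∩ R = b ∩ R := by
  ext y
  simp only [Finset.mem_inter, Finset.mem_union]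
  constructor
  · rintro ⟨h3 | h3, h4⟩
    · exact absurd h4 (Finset.mem_sdiff.1 (hb' h3)).2
    · exact h3
  · exact fun h3 => ⟨Or.inr h3, h3.2⟩

/-- **quenched mean of the norm of a conditional mean** -/
theorem er_le (hJ : IsStop V Jf) {g : Finset α → ℝ≥0∞} {P : Finset α → Prop} {e m : Finset α → ℂ}
    (hd : ∀ b, b ⊆ V → ∀ b', b' ⊆ V → b' ∩ Jf b = b ∩ Jf b → g b' = g b ∧ (P b' ↔ P b))
    (hm : ∀ b, b ⊆ V → g b ≠ 0 → P b → m b = avc V (Jf b) e b) :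
    ∑ b ∈ V.powerset, g b * (if P b then ENNReal.ofReal ‖m b‖ else 0) ≤
      ∑ b ∈ V.powerset, g b * (if P b then ENNReal.ofReal ‖e b‖ else 0) := by
  rw [← sum_av hJ fun b => g b * (if P b then ENNReal.ofReal ‖e b‖ else 0)]
  refine Finset.sum_le_sum fun b hb => ?_
  rw [Finset.mem_powerset] at hb
  have key : av V (Jf b) (fun b => g b * (if P b then ENNReal.ofReal ‖e b‖ else 0)) b =
      g b * (if P b then av V (Jf b) (fun b => ENNReal.ofReal ‖e b‖) b else 0) := by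
    unfold av
    have h1 : ∀ b' ∈ (V \ Jf b).powerset, g (b' ∪ (b ∩ Jf b)) * (if P (b' ∪ (b ∩ Jf b)) then
        ENNReal.ofReal ‖e (b' ∪ (b ∩ Jf b))‖ else 0) =
        g b * (if P b then ENNReal.ofReal ‖e (b' ∪ (b ∩ Jf b))‖ else 0) := by
      intro b' hb'
      rw [Finset.mem_powerset] at hb'
      have h2 : b' ∪ (b ∩ Jf b) ⊆ V := Finset.union_subset (hb'.trans Finset.sdiff_subset)
        (Finset.inter_subset_left.trans hb)
      obtain ⟨h3, h4⟩ := hd b hb _ h2 (out_inter hb')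
      rw [h3]
      congr 1
      exact if_congr h4 rfl rfl
    rw [Finset.sum_congr rfl h1, ← Finset.mul_sum, mul_left_comm]
    congr 1
    by_cases hP : P b
    · simp only [if_pos hP]
    · simp only [if_neg hP, Finset.sum_const_zero, mul_zero]
  rw [key]
  by_cases h0 : g b = 0
  · rw [h0, zero_mul]; exact zero_le
  by_cases hP : P b
  · rw [if_pos hP, if_pos hP, hm b hb h0 hP]
    gcongr
    exact avc_norm _ _ _ _
  · rw [if_neg hP, mul_zero]; exact zero_le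

end quenched

/-! ### functionals of the configuration -/

/-- the weight `g` and the event `P` are decided by a stopping set; the means of the charge `V` and
of the displacement `W` over the fresh coins are `τ` and `D` -/
def MeanQ (A : Finset ℂ) (g : Set (ℂ × Bool) → ℝ≥0∞) (P : Set (ℂ × Bool) → Prop)
    (V W τ D : Set (ℂ × Bool) → ℂ) : Prop :=
  ∃ Jf : Finset ℂ → Finset ℂ, IsStop A Jf ∧
    (∀ β, β ⊆ A → ∀ β', β' ⊆ A → β' ∩ Jf β = β ∩ Jf β →
      g (paint A β') = g (paint A β) ∧ (P (paint A β') ↔ P (paint A β))) ∧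
    ∀ β, β ⊆ A → g (paint A β) ≠ 0 → P (paint A β) →
      avc A (Jf β) (fun b => V (paint A b)) β = τ (paint A β) ∧
      avc A (Jf β) (fun b => W (paint A b)) β = D (paint A β)

variable {ε : ℝ} {B : Set ℂ} {ω : Sample} {g : Set (ℂ × Bool) → ℝ≥0∞} {P : Set (ℂ × Bool) → Prop}
  {V W τ D : Set (ℂ × Bool) → ℂ}

theorem mq_mean (κ : ℂ) (H : MeanQ (Ap ε B ω) g P V W τ D) :
    mq ε B (fun X => g X * (if P X then ENNReal.ofReal ‖κ * conj (D X) - τ X‖ else 0)) ω ≤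
      mq ε B (fun X => g X * (if P X then ENNReal.ofReal ‖κ * conj (W X) - V X‖ else 0)) ω := by
  obtain ⟨Jf, hJ, hd, hm⟩ := H
  unfold mq
  refine mul_le_mul_right (er_le (g := fun b => g (paint (Ap ε B ω) b))
    (P := fun b => P (paint (Ap ε B ω) b))
    (m := fun b => κ * conj (D (paint (Ap ε B ω) b)) - τ (paint (Ap ε B ω) b))
    (e := fun b => κ * conj (W (paint (Ap ε B ω) b)) - V (paint (Ap ε B ω) b)) hJ hd ?_) _
  intro b hb h0 hP
  obtain ⟨h1, h2⟩ := hm b hb h0 hP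
  rw [avc_lin, h1, h2]

/-! ### `x ≤ c + c⁻¹ x²` -/

theorem amgm {c : ℝ≥0∞} (h0 : c ≠ 0) (h1 : c ≠ ∞) (x : ℝ≥0∞) : x ≤ c + c⁻¹ * x ^ 2 := by
  rcases le_total x c with h | h
  · exact h.trans le_self_add
  · calc x = c⁻¹ * (c * x) := by
          rw [← mul_assoc, ENNReal.inv_mul_cancel h0 h1, one_mul]
      _ ≤ c⁻¹ * (x * x) := by gcongr
      _ = c⁻¹ * x ^ 2 := by rw [sq]
      _ ≤ _ := le_add_self

theorem amgm' {c : ℝ≥0∞} (h0 : c ≠ 0) (h1 : c ≠ ∞) (x : ℝ≥0∞) : x ≤ c * x ^ 2 + c⁻¹ := by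
  have h := amgm (ENNReal.inv_ne_zero.2 h1) (ENNReal.inv_ne_top.2 h0) x
  rw [inv_inv] at h
  rw [add_comm]
  exact h

/-- the inputs for the pattern `k`; `η` small, `C` the frame constant -/
structure PatE (κ : ℂ) (ε : ℝ) (B : Set ℂ) (g : Set (ℂ × Bool) → ℝ≥0∞)
    (P : Set (ℂ × Bool) → Prop) (τ D : Set (ℂ × Bool) → ℂ) (rr K0 η C : ℝ≥0∞) (n : ℕ) : Prop where
  ex : ∃ (V W : Set (ℂ × Bool) → ℂ) (q : Fin n → Set (ℂ × Bool) → ℝ≥0∞)
    (Mk : Set (ℂ × Bool) → Prop) (Rq : Fin n → Sample → ℝ≥0∞) (Rm Rv : Sample → ℝ≥0∞),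
    (∀ᵐ ω ∂sampleLaw, MeanQ (Ap ε B ω) g P V W τ D) ∧
    (∀ᵐ ω ∂sampleLaw, ∀ β ∈ (Ap ε B ω).powerset, g (paint (Ap ε B ω) β) ≠ 0 →
      P (paint (Ap ε B ω) β) →
      (¬ Mk (paint (Ap ε B ω) β) → ENNReal.ofReal ‖κ * conj (W (paint (Ap ε B ω) β)) -
        V (paint (Ap ε B ω) β)‖ ≤ ∑ i, q i (paint (Ap ε B ω) β) + rr) ∧
      (Mk (paint (Ap ε B ω) β) → ENNReal.ofReal ‖κ * conj (W (paint (Ap ε B ω) β)) -
        V (paint (Ap ε B ω) β)‖ ≤ ENNReal.ofReal ‖V (paint (Ap ε B ω) β)‖ + K0)) ∧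
    (∀ i, AEMeasurable (Rq i) sampleLaw) ∧ AEMeasurable Rm sampleLaw ∧
    AEMeasurable Rv sampleLaw ∧
    (∀ i, ∀ᵐ ω ∂sampleLaw, mq ε B (fun X => g X * (if P X then q i X ^ 2 else 0)) ω ≤ Rq i ω) ∧
    (∀ᵐ ω ∂sampleLaw, mq ε B (fun X => g X * (if P X ∧ Mk X then 1 else 0)) ω ≤ Rm ω) ∧
    (∀ᵐ ω ∂sampleLaw, mq ε B (fun X => g X * (if P X then ENNReal.ofReal ‖V X‖ ^ 2 else 0)) ω ≤
      Rv ω) ∧
    (∀ i, ∫⁻ ω, Rq i ω ∂sampleLaw ≤
      η * ∫⁻ ω, g (PP0x831.cfg ε ω ∩ ovM Bool B) ∂sampleLaw) ∧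
    (∫⁻ ω, Rm ω ∂sampleLaw ≤ η * ∫⁻ ω, g (PP0x831.cfg ε ω ∩ ovM Bool B) ∂sampleLaw) ∧
    (∫⁻ ω, Rv ω ∂sampleLaw ≤ C * ∫⁻ ω, g (PP0x831.cfg ε ω ∩ ovM Bool B) ∂sampleLaw)

theorem mq_sum {ι : Type} (s : Finset ι) (Φ : ι → Set (ℂ × Bool) → ℝ≥0∞) (ε : ℝ) (B : Set ℂ)
    (ω : Sample) : mq ε B (fun X => ∑ i ∈ s, Φ i X) ω = ∑ i ∈ s, mq ε B (Φ i) ω := by
  unfold mq
  rw [Finset.sum_comm, Finset.mul_sum]

/-- **(A2)**: the quenched mean of the error of one pattern has a measurable majorant with a small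
integral -/
theorem PatE.bound {κ : ℂ} {rr K0 η C : ℝ≥0∞} {n : ℕ} (H : PatE κ ε B g P τ D rr K0 η C n)
    (hε : 0 < ε) (hBm : MeasurableSet B) (hB : Bornology.IsBounded B) (hg : Poisx304.FM g)
    {c : ℝ≥0∞} (c0 : c ≠ 0) (c1 : c ≠ ∞) :
    ∃ R : Sample → ℝ≥0∞, AEMeasurable R sampleLaw ∧
      (∀ᵐ ω ∂sampleLaw, mq ε B (fun X => g X *
        (if P X then ENNReal.ofReal ‖κ * conj (D X) - τ X‖ else 0)) ω ≤ R ω) ∧
      ∫⁻ ω, R ω ∂sampleLaw ≤ (n * c + rr + (n * c⁻¹ + (c⁻¹ + K0)) * η + c * C) *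
        ∫⁻ ω, g (PP0x831.cfg ε ω ∩ ovM Bool B) ∂sampleLaw := by
  obtain ⟨V, W, q, Mk, Rq, Rm, Rv, h1, h2, m1, m2, m3, r1, r2, r3, i1, i2, i3⟩ := H.ex
  refine ⟨fun ω => (n * c + rr) * mq ε B g ω + c⁻¹ * ∑ i, Rq i ω + (c⁻¹ + K0) * Rm ω + c * Rv ω,
    ?_, ?_, ?_⟩
  · have hm := mq_meas hε hBm hB hg
    refine (((hm.const_mul _).add ?_).add (m2.const_mul _)).add (m3.const_mul _)
    exact (Finset.aemeasurable_fun_sum _ fun i _ => m1 i).const_mul _
  · have r1' : ∀ᵐ ω ∂sampleLaw, ∀ i, mq ε B (fun X => g X * (if P X then q i X ^ 2 else 0)) ω ≤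
        Rq i ω := ae_all_iff.2 r1
    filter_upwards [h1, h2, r1', r2, r3] with ω h1 h2 r1 r2 r3
    refine (mq_mean κ h1).trans ?_
    have key : mq ε B (fun X => g X *
        (if P X then ENNReal.ofReal ‖κ * conj (W X) - V X‖ else 0)) ω ≤
        mq ε B (fun X => (n * c + rr) * g X + c⁻¹ * ∑ i, g X * (if P X then q i X ^ 2 else 0) +
          (c⁻¹ + K0) * (g X * (if P X ∧ Mk X then 1 else 0)) +
          c * (g X * (if P X then ENNReal.ofReal ‖V X‖ ^ 2 else 0))) ω := by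
      refine mq_mono fun β hβ => ?_
      set X := paint (Ap ε B ω) β with hX
      by_cases g0 : g X = 0
      · rw [g0, zero_mul]; exact zero_le
      by_cases hP : P X
      swap
      · rw [if_neg hP, mul_zero]; exact zero_le
      obtain ⟨h3, h4⟩ := h2 β hβ g0 hP
      rw [if_pos hP]
      by_cases hM : Mk X
      · have h5 := h4 hM
        have h6 := amgm' c0 c1 (ENNReal.ofReal ‖V X‖)
        rw [if_pos ⟨hP, hM⟩, if_pos hP, mul_one]
        calc g X * ENNReal.ofReal ‖κ * conj (W X) - V X‖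
            ≤ g X * ((c * ENNReal.ofReal ‖V X‖ ^ 2 + c⁻¹) + K0) := by
              gcongr
              exact h5.trans (by gcongr)
          _ = (c⁻¹ + K0) * g X + c * (g X * ENNReal.ofReal ‖V X‖ ^ 2) := by ring
          _ ≤ _ := by
              gcongr
              exact le_add_self
      · have h5 := h3 hM
        have h6 : ∑ i, q i X ≤ n * c + c⁻¹ * ∑ i, q i X ^ 2 := by
          calc ∑ i, q i X ≤ ∑ i : Fin n, (c + c⁻¹ * q i X ^ 2) :=
                Finset.sum_le_sum fun i _ => amgm c0 c1 _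
            _ = n * c + c⁻¹ * ∑ i, q i X ^ 2 := by
                rw [Finset.sum_add_distrib, Finset.sum_const, Finset.card_univ, Fintype.card_fin,
                  nsmul_eq_mul, Finset.mul_sum]
        have h7 : ∑ i, g X * (if P X then q i X ^ 2 else 0) = g X * ∑ i, q i X ^ 2 := by
          rw [Finset.mul_sum]
          exact Finset.sum_congr rfl fun i _ => by rw [if_pos hP]
        rw [h7]
        calc g X * ENNReal.ofReal ‖κ * conj (W X) - V X‖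
            ≤ g X * ((n * c + c⁻¹ * ∑ i, q i X ^ 2) + rr) := by
              gcongr
              exact h5.trans (by gcongr)
          _ = (n * c + rr) * g X + c⁻¹ * (g X * ∑ i, q i X ^ 2) := by ring
          _ ≤ _ := by
              rw [add_assoc ((n * c + rr) * g X + c⁻¹ * (g X * ∑ i, q i X ^ 2))]
              exact le_self_add
    refine key.trans ?_
    rw [mq_add, mq_add, mq_add, mq_mul, mq_mul, mq_mul, mq_mul, mq_sum]
    gcongr with i
    exact r1 i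
  · have hm := mq_meas hε hBm hB hg
    have a0 : AEMeasurable (fun ω => ∑ i, Rq i ω) sampleLaw :=
      Finset.aemeasurable_fun_sum _ fun i _ => m1 i
    have a1 : AEMeasurable (fun ω => (n * c + rr) * mq ε B g ω) sampleLaw := hm.const_mul _
    have a2 : AEMeasurable (fun ω => c⁻¹ * ∑ i, Rq i ω) sampleLaw := a0.const_mul _
    have a3 : AEMeasurable (fun ω => (c⁻¹ + K0) * Rm ω) sampleLaw := m2.const_mul _
    have e1 : ∫⁻ ω, ((n * c + rr) * mq ε B g ω + c⁻¹ * ∑ i, Rq i ω + (c⁻¹ + K0) * Rm ω +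
        c * Rv ω) ∂sampleLaw = (n * c + rr) * ∫⁻ ω, mq ε B g ω ∂sampleLaw +
        c⁻¹ * ∑ i, ∫⁻ ω, Rq i ω ∂sampleLaw + (c⁻¹ + K0) * ∫⁻ ω, Rm ω ∂sampleLaw +
        c * ∫⁻ ω, Rv ω ∂sampleLaw := by
      have s1 : ∫⁻ ω, ((n * c + rr) * mq ε B g ω + c⁻¹ * ∑ i, Rq i ω + (c⁻¹ + K0) * Rm ω +
          c * Rv ω) ∂sampleLaw = ∫⁻ ω, ((n * c + rr) * mq ε B g ω + c⁻¹ * ∑ i, Rq i ω +
          (c⁻¹ + K0) * Rm ω) ∂sampleLaw + ∫⁻ ω, c * Rv ω ∂sampleLaw :=
        lintegral_add_left' ((a1.add a2).add a3) _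
      have s2 : ∫⁻ ω, ((n * c + rr) * mq ε B g ω + c⁻¹ * ∑ i, Rq i ω + (c⁻¹ + K0) * Rm ω)
          ∂sampleLaw = ∫⁻ ω, ((n * c + rr) * mq ε B g ω + c⁻¹ * ∑ i, Rq i ω) ∂sampleLaw +
          ∫⁻ ω, (c⁻¹ + K0) * Rm ω ∂sampleLaw := lintegral_add_left' (a1.add a2) _
      have s3 : ∫⁻ ω, ((n * c + rr) * mq ε B g ω + c⁻¹ * ∑ i, Rq i ω) ∂sampleLaw =
          ∫⁻ ω, (n * c + rr) * mq ε B g ω ∂sampleLaw + ∫⁻ ω, c⁻¹ * ∑ i, Rq i ω ∂sampleLaw :=
        lintegral_add_left' a1 _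
      rw [s1, s2, s3, lintegral_const_mul'' _ hm, lintegral_const_mul'' _ a0,
        lintegral_const_mul'' _ m2, lintegral_const_mul'' _ m3,
        lintegral_finsetSum' _ fun i _ => m1 i]
    refine (le_of_eq e1).trans ?_
    rw [lint_eq_mq hε hBm hB hg]
    set G := ∫⁻ ω, g (PP0x831.cfg ε ω ∩ ovM Bool B) ∂sampleLaw with hG
    calc _ ≤ (n * c + rr) * G + c⁻¹ * ∑ i : Fin n, η * G + (c⁻¹ + K0) * (η * G) + c * (C * G) := by
          gcongr with i
          exact i1 i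
      _ = _ := by
          rw [Finset.sum_const, Finset.card_univ, Fintype.card_fin, nsmul_eq_mul]
          ring

/-- **three patterns give `Ring2`** -/
theorem ring2_of {om κ z0 : ℂ} {b r δ : ℝ} {t : Set (ℂ × Bool) → ℂ}
    {Z : Set (ℂ × Bool) → Fin 3 → ℂ} {J : Set (ℂ × Bool) → Fin 3 → Prop} (hr : r ≤ b / 200)
    (hε : 0 < ε) (hBm : MeasurableSet B) (hB : Bornology.IsBounded B) (hg : Poisx304.FM g)
    (hg1 : ∀ X, g X ≤ 1)
    (H : ∀ᵐ ω ∂sampleLaw, ∀ β ∈ (Ap ε B ω).powerset, g (paint (Ap ε B ω) β) ≠ 0 →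
      Hl z0 b r (Z (paint (Ap ε B ω) β)) ∧
        ∃ i j, i ≠ j ∧ J (paint (Ap ε B ω) β) i ∧ J (paint (Ap ε B ω) β) j)
    (hpos : 0 < ∫⁻ ω, g (PP0x831.cfg ε ω ∩ ovM Bool B) ∂sampleLaw)
    {rr K0 η C c : ℝ≥0∞} {n : ℕ} (c0 : c ≠ 0) (c1 : c ≠ ∞)
    (HP : ∀ k : Fin 3, PatE κ ε B g (fun X => J X k) (fun X => om ^ (k : ℕ) * t X)
      (fun X => Df (Z X) k) rr K0 η C n)
    (hδ : 3 * (n * c + rr + (n * c⁻¹ + (c⁻¹ + K0)) * η + c * C) ≤ ENNReal.ofReal δ) :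
    Ring2 om κ z0 b ε δ := by
  choose R hR1 hR2 hR3 using fun k => (HP k).bound hε hBm hB hg c0 c1
  refine ⟨r, B, g, t, Z, J, fun ω => ∑ k, R k ω, hr, hBm, hB, hg, hg1, H, ?_, hpos, ?_⟩
  · have h1 : ∀ᵐ ω ∂sampleLaw, ∀ k, mq ε B (fun X => g X * (if J X k then
        ENNReal.ofReal ‖κ * conj (Df (Z X) k) - om ^ (k : ℕ) * t X‖ else 0)) ω ≤ R k ω :=
      ae_all_iff.2 hR2
    filter_upwards [h1] with ω h1
    have e : (fun X => g X * ErJ om κ (t X) (Z X) (J X)) = fun X => ∑ k : Fin 3, g X *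
        (if J X k then ENNReal.ofReal ‖κ * conj (Df (Z X) k) - om ^ (k : ℕ) * t X‖ else 0) := by
      funext X
      unfold ErJ Er
      rw [Finset.mul_sum]
    rw [e, mq_sum]
    exact Finset.sum_le_sum fun k _ => h1 k
  · rw [lintegral_finsetSum' _ fun k _ => hR1 k]
    set G := ∫⁻ ω, g (PP0x831.cfg ε ω ∩ ovM Bool B) ∂sampleLaw with hG
    calc ∑ k, ∫⁻ ω, R k ω ∂sampleLaw
        ≤ ∑ _k : Fin 3, (n * c + rr + (n * c⁻¹ + (c⁻¹ + K0)) * η + c * C) * G :=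
          Finset.sum_le_sum fun k _ => hR3 k
      _ = (3 * (n * c + rr + (n * c⁻¹ + (c⁻¹ + K0)) * η + c * C)) * G := by
          rw [Finset.sum_const, Finset.card_univ, Fintype.card_fin, nsmul_eq_mul]
          push_cast
          ring
      _ ≤ ENNReal.ofReal δ * G := by gcongr

end Crest.Agent.R143.KapEx440
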