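import Crest.Agent.R143.FinC_811
import Crest.Agent.R143.Resa_778

/-!
# Row 143 (S0194), box R5 (helper829): uniform sets of black sites and uniform colours of the cells

* `mean_transfer` : functions of the colours of some cells, each with its own site
* `Inn hS c` : inner cell of `cm0 hS` (cells `Cs hS` of 811), `rep hS c` its site,
  `scol hS β` : colours of the cells given by the set `β` of black sites (the hull is white)
* `site_mean`, **`site_mean_glue`**, `site_mean_glueC` : average over `β ⊆ A` (`S ⊆ A`) =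
  average over the colourings of the cells, for functions of the inner cells, in particular for
  `G (glue O σ ·)`, the hull cells in `O`
-/

set_option autoImplicit false
set_option linter.unusedSectionVars false

noncomputable section

open scoped Classical

namespace Crest.Agent.R143.Freshx829

open Set Filter Topology
open Crest.Agent.R143.B0x346 Crest.Agent.R143.FinCx811 Crest.Agent.R143.Resax778
  Crest.Agent.R143.Frame10x395 Crest.Agent.R143.DelGx806

/-! ### uniform colourings: sites and cells -/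

theorem card_fib {α : Type*} (S W γ : Finset α) (hW : W ⊆ S) (hγ : γ ⊆ W) :
    (S.powerset.filter fun β => β ∩ W = γ).card = 2 ^ (S.card - W.card) := by
  rw [← Finset.card_sdiff_of_subset hW, ← Finset.card_powerset]
  refine Finset.card_nbij' (fun β => β \ W) (fun δ => δ ∪ γ) ?_ ?_ ?_ ?_
  · intro β hβ
    have h1 := Finset.mem_powerset.1 (Finset.mem_filter.1 hβ).1
    exact Finset.mem_powerset.2 (Finset.sdiff_subset_sdiff h1 le_rfl)
  · intro δ hδ
    have h1 := Finset.mem_powerset.1 hδ
    refine Finset.mem_filter.2 ⟨Finset.mem_powerset.2 (Finset.union_subset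
      (h1.trans Finset.sdiff_subset) (hγ.trans hW)), ?_⟩
    ext c
    have h2 := @h1 c
    have h3 := @hγ c
    simp only [Finset.mem_inter, Finset.mem_union, Finset.mem_sdiff] at h2 ⊢
    tauto
  · intro β hβ
    have h1 := (Finset.mem_filter.1 hβ).2
    show β \ W ∪ γ = β
    rw [← h1]
    ext c
    simp only [Finset.mem_inter, Finset.mem_union, Finset.mem_sdiff]
    tauto
  · intro δ hδ
    have h1 := Finset.mem_powerset.1 hδ
    show (δ ∪ γ) \ W = δ
    ext c
    have h2 := @h1 c
    have h3 := @hγ c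
    simp only [Finset.mem_sdiff, Finset.mem_union] at h2 ⊢
    tauto

theorem sum_inter {α E : Type*} [AddCommMonoid E] (S W : Finset α) (hW : W ⊆ S)
    (h : Finset α → E) :
    ∑ β ∈ S.powerset, h (β ∩ W) = 2 ^ (S.card - W.card) • ∑ γ ∈ W.powerset, h γ := by
  rw [← Finset.sum_fiberwise_of_maps_to (g := fun β => β ∩ W) (t := W.powerset)
    (fun β _ => Finset.mem_powerset.2 Finset.inter_subset_right), Finset.smul_sum]
  refine Finset.sum_congr rfl fun γ hγ => ?_
  rw [Finset.sum_congr rfl fun β hβ => by rw [(Finset.mem_filter.1 hβ).2], Finset.sum_const,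
    card_fib S W γ hW (Finset.mem_powerset.1 hγ)]

/-- colouring of a set of black cells -/
def ind {K : Type*} (T : Finset K) (c : K) : ZMod 2 := if c ∈ T then 1 else 0

theorem sum_ind {K E : Type*} [Fintype K] [AddCommMonoid E] (H : (K → ZMod 2) → E) :
    ∑ τ, H τ = ∑ T ∈ (Finset.univ : Finset K).powerset, H (ind T) := by
  symm
  refine Finset.sum_bij' (fun T _ => ind T) (fun τ _ => Finset.univ.filter fun c => τ c = 1)
    (fun _ _ => Finset.mem_univ _) (fun _ _ => Finset.mem_powerset.2 (Finset.subset_univ _))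
    ?_ ?_ (fun _ _ => rfl)
  · intro T _
    ext c
    rw [Finset.mem_filter]
    unfold ind
    by_cases h : c ∈ T <;> simp [h]
  · intro τ _
    funext c
    unfold ind
    simp only [Finset.mem_filter, Finset.mem_univ, true_and]
    by_cases h : τ c = 1
    · rw [if_pos h, h]
    · rw [if_neg h]
      revert h
      generalize τ c = a
      revert a; decide

/-- **uniform black sets of sites give uniform colours of the cells `I`** -/
theorem mean_transfer {K α E : Type*} [Fintype K] [AddCommMonoid E] (S : Finset α) (I : Finset K)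
    (v : K → α) (hv : ∀ c ∈ I, v c ∈ S) (inj : Set.InjOn v I) (H : (K → ZMod 2) → E)
    (hH : ∀ τ τ' : K → ZMod 2, (∀ c ∈ I, τ c = τ' c) → H τ = H τ') :
    2 ^ Fintype.card K • ∑ β ∈ S.powerset, H (fun c => if c ∈ I ∧ v c ∈ β then 1 else 0) =
      2 ^ S.card • ∑ τ, H τ := by
  have hW : I.image v ⊆ S := by
    intro a ha
    obtain ⟨c, hc, rfl⟩ := Finset.mem_image.1 ha
    exact hv c hc
  have hcard : (I.image v).card = I.card := Finset.card_image_of_injOn inj
  -- the cells
  have e1 : ∑ τ, H τ = 2 ^ (Fintype.card K - I.card) • ∑ γ ∈ I.powerset, H (ind γ) := by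
    rw [sum_ind, ← Finset.card_univ, ← sum_inter Finset.univ I (Finset.subset_univ _)
      fun γ => H (ind γ)]
    refine Finset.sum_congr rfl fun T _ => hH _ _ fun c hc => ?_
    unfold ind
    by_cases h : c ∈ T
    · rw [if_pos h, if_pos (Finset.mem_inter.2 ⟨h, hc⟩)]
    · rw [if_neg h, if_neg fun h' => h (Finset.mem_inter.1 h').1]
  -- the sites
  have e2 : ∑ β ∈ S.powerset, H (fun c => if c ∈ I ∧ v c ∈ β then 1 else 0) =
      2 ^ (S.card - I.card) • ∑ γ ∈ I.powerset, H (ind γ) := by
    rw [← hcard]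
    have e3 : ∑ γ ∈ I.powerset, H (ind γ) =
        ∑ δ ∈ (I.image v).powerset, H (fun c => if c ∈ I ∧ v c ∈ δ then 1 else 0) := by
      refine Finset.sum_bij' (fun γ _ => γ.image v)
        (fun δ _ => I.filter fun c => v c ∈ δ) ?_ ?_ ?_ ?_ ?_
      · intro γ hγ
        exact Finset.mem_powerset.2 (Finset.image_subset_image (Finset.mem_powerset.1 hγ))
      · intro δ _
        exact Finset.mem_powerset.2 (Finset.filter_subset _ _)
      · intro γ hγ
        have h1 := Finset.mem_powerset.1 hγ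
        ext c
        rw [Finset.mem_filter, Finset.mem_image]
        constructor
        · rintro ⟨hc, c', hc', e⟩
          rwa [← inj (h1 hc') hc e]
        · intro hc
          exact ⟨h1 hc, c, hc, rfl⟩
      · intro δ hδ
        have h1 := Finset.mem_powerset.1 hδ
        ext a
        rw [Finset.mem_image]
        constructor
        · rintro ⟨c, hc, rfl⟩
          exact (Finset.mem_filter.1 hc).2
        · intro ha
          obtain ⟨c, hc, rfl⟩ := Finset.mem_image.1 (h1 ha)
          exact ⟨c, Finset.mem_filter.2 ⟨hc, ha⟩, rfl⟩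
      · intro γ hγ
        have h1 := Finset.mem_powerset.1 hγ
        refine hH _ _ fun c hc => ?_
        unfold ind
        by_cases h : c ∈ γ
        · rw [if_pos h, if_pos ⟨hc, Finset.mem_image_of_mem v h⟩]
        · rw [if_neg h, if_neg]
          rintro ⟨-, h2⟩
          obtain ⟨c', hc', e⟩ := Finset.mem_image.1 h2
          exact h (by rwa [← inj (h1 hc') hc e])
    rw [e3, ← sum_inter S (I.image v) hW
      fun δ => H (fun c => if c ∈ I ∧ v c ∈ δ then 1 else 0)]
    refine Finset.sum_congr rfl fun β _ => hH _ _ fun c hc => ?_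
    by_cases h : v c ∈ β
    · rw [if_pos ⟨hc, h⟩, if_pos ⟨hc, Finset.mem_inter.2 ⟨h, Finset.mem_image_of_mem v hc⟩⟩]
    · rw [if_neg fun h' => h h'.2, if_neg fun h' => h (Finset.mem_inter.1 h'.2).1]
  have c1 : I.card ≤ S.card := by
    rw [← hcard]; exact Finset.card_le_card hW
  have c2 : I.card ≤ Fintype.card K := by
    rw [← Finset.card_univ]; exact Finset.card_le_card (Finset.subset_univ _)
  rw [e1, e2, smul_smul, smul_smul, ← pow_add, ← pow_add]
  congr 2
  omega

/-! ### the cells of `cm0 hS` -/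

section cells

variable {S : Finset ℂ}

/-- a cell whose sites are not on the hull -/
def Inn (hS : GP (S : Set ℂ)) (c : Cs hS) : Prop :=
  ∃ v, ∃ _ : v ∈ S, c.1 = Quot.mk (hullE S) v ∧ ¬ OnHull S v

/-- the site of an inner cell -/
def rep (hS : GP (S : Set ℂ)) (c : Cs hS) : ℂ := if h : Inn hS c then h.choose else 0

theorem rep_spec {hS : GP (S : Set ℂ)} {c : Cs hS} (h : Inn hS c) :
    rep hS c ∈ S ∧ c.1 = Quot.mk (hullE S) (rep hS c) ∧ ¬ OnHull S (rep hS c) := by
  have e : rep hS c = h.choose := dif_pos h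
  rw [e]
  obtain ⟨h1, h2⟩ := h.choose_spec
  exact ⟨h1, h2⟩

theorem rep_eq {hS : GP (S : Set ℂ)} {c : Cs hS} {v : ℂ} (hv : ¬ OnHull S v) (hvS : v ∈ S)
    (h : c.1 = Quot.mk (hullE S) v) : rep hS c = v := by
  have hc : Inn hS c := ⟨v, hvS, h, hv⟩
  exact quot_inner hS hv (h.symm.trans (rep_spec hc).2.1)

theorem rep_inj {hS : GP (S : Set ℂ)} {c c' : Cs hS} (h : Inn hS c) (h' : Inn hS c')
    (e : rep hS c = rep hS c') : c = c' := by
  apply Subtype.ext
  rw [(rep_spec h).2.1, (rep_spec h').2.1, e]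

theorem rep_cs {hS : GP (S : Set ℂ)} (h3 : 3 ≤ S.card) {v : {v // v ∈ S}}
    (hv : ¬ OnHull S v.1) : rep hS (cs hS h3 v) = v.1 := rep_eq hv v.2 rfl

theorem inn_cs {hS : GP (S : Set ℂ)} (h3 : 3 ≤ S.card) {v : {v // v ∈ S}} :
    Inn hS (cs hS h3 v) ↔ ¬ OnHull S v.1 := by
  constructor
  · rintro ⟨w, hw, h1, h2⟩
    have e : v.1 = w := quot_inner hS h2 h1.symm
    rwa [e]
  · intro h
    exact ⟨v.1, v.2, rfl, h⟩

/-- **colours of the cells given by a set of black sites** (the hull is white) -/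
def scol (hS : GP (S : Set ℂ)) (β : Set ℂ) (c : Cs hS) : ZMod 2 :=
  if Inn hS c ∧ rep hS c ∈ β then 1 else 0

theorem scol_inn {hS : GP (S : Set ℂ)} (h3 : 3 ≤ S.card) {β : Set ℂ} {v : {v // v ∈ S}}
    (hv : ¬ OnHull S v.1) : scol hS β (cs hS h3 v) = if v.1 ∈ β then 1 else 0 := by
  unfold scol
  rw [rep_cs h3 hv]
  by_cases h : v.1 ∈ β
  · rw [if_pos h, if_pos ⟨(inn_cs h3).2 hv, h⟩]
  · rw [if_neg h, if_neg fun h' => h h'.2]

/-- **uniform black sets of sites give uniform colours of the cells**, for functions of the inner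
cells -/
theorem site_mean (hS : GP (S : Set ℂ)) {fi : Fintype (Cs hS → ZMod 2)} {A : Finset ℂ}
    (hA : S ⊆ A) {E : Type*} [AddCommMonoid E] (H : (Cs hS → ZMod 2) → E)
    (hH : ∀ τ τ' : Cs hS → ZMod 2, (∀ c, Inn hS c → τ c = τ' c) → H τ = H τ') :
    2 ^ Fintype.card (Cs hS) • ∑ β ∈ A.powerset, H (scol hS (β : Set ℂ)) =
      2 ^ A.card • ∑ τ : Cs hS → ZMod 2, H τ := by
  have h := mean_transfer A (Finset.univ.filter fun c : Cs hS => Inn hS c) (rep hS)
    (fun c hc => hA (rep_spec (Finset.mem_filter.1 hc).2).1)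
    (fun c hc c' hc' e => rep_inj (Finset.mem_filter.1 hc).2 (Finset.mem_filter.1 hc').2 e) H
    (fun τ τ' h => hH τ τ' fun c hc => h c (Finset.mem_filter.2 ⟨Finset.mem_univ _, hc⟩))
  refine (Eq.trans ?_ h).trans (by congr!)
  congr 1
  refine Finset.sum_congr rfl fun β _ => ?_
  congr 1
  funext c
  unfold scol
  by_cases hc : Inn hS c
  · by_cases hb : rep hS c ∈ β
    · rw [if_pos ⟨hc, hb⟩, if_pos ⟨Finset.mem_filter.2 ⟨Finset.mem_univ _, hc⟩, hb⟩]
    · rw [if_neg fun h' => hb h'.2, if_neg fun h' => hb h'.2]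
  · rw [if_neg fun h' => hc h'.1, if_neg fun h' => hc (Finset.mem_filter.1 h'.1).2]

/-- **the same for the resampled configuration** `σ` on `O`, fresh elsewhere; the hull cells are
in `O` -/
theorem site_mean_glue (hS : GP (S : Set ℂ)) {fi : Fintype (Cs hS → ZMod 2)} {A : Finset ℂ}
    (hA : S ⊆ A) {E : Type*} [AddCommMonoid E] {O : Finset (Cs hS)}
    (hO : ∀ c, ¬ Inn hS c → c ∈ O) (σ : Cs hS → ZMod 2) (G : (Cs hS → ZMod 2) → E) :
    2 ^ Fintype.card (Cs hS) • ∑ β ∈ A.powerset, G (glue O σ (scol hS (β : Set ℂ))) =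
      2 ^ A.card • ∑ τ : Cs hS → ZMod 2, G (glue O σ τ) := by
  refine site_mean hS hA (fun τ => G (glue O σ τ)) fun τ τ' h => ?_
  show G (glue O σ τ) = G (glue O σ τ')
  congr 1
  funext c
  by_cases hc : c ∈ O
  · rw [glue_on hc, glue_on hc]
  · rw [glue_off hc, glue_off hc]
    exact h c (by_contra fun h' => hc (hO c h'))

/-- complex form -/
theorem site_mean_glueC (hS : GP (S : Set ℂ)) {fi : Fintype (Cs hS → ZMod 2)} {A : Finset ℂ}
    (hA : S ⊆ A) {O : Finset (Cs hS)} (hO : ∀ c, ¬ Inn hS c → c ∈ O) (σ : Cs hS → ZMod 2)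
    (G : (Cs hS → ZMod 2) → ℂ) :
    ∑ β ∈ A.powerset, G (glue O σ (scol hS (β : Set ℂ))) =
      2 ^ A.card * ((∑ τ : Cs hS → ZMod 2, G (glue O σ τ)) /
        (Fintype.card (Cs hS → ZMod 2) : ℂ)) := by
  have h := site_mean_glue (fi := fi) hS hA hO σ G
  rw [nsmul_eq_mul, nsmul_eq_mul] at h
  push_cast at h
  have e : (Fintype.card (Cs hS → ZMod 2) : ℂ) = 2 ^ Fintype.card (Cs hS) := by
    rw [← Nat.card_eq_fintype_card, Nat.card_fun, Nat.card_eq_fintype_card,
      Nat.card_eq_fintype_card, ZMod.card]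
    push_cast
    rfl
  rw [e, ← mul_div_assoc, eq_div_iff (pow_ne_zero _ two_ne_zero), ← h]
  ring

end cells

end Crest.Agent.R143.Freshx829

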