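import Crest.Agent.R143.StP_828
import Crest.Agent.R143.C2SD_395
import Crest.Agent.R143.SiteM_829
import Crest.Agent.R143.Tri2_106

/-!
# Row 143 (S0194), block H, H5 (S1), closed map of the sites (helper828)

`M = rc0 hS`; pattern `k`: giants `A` (`Gi`, `Hl`, `Far`), root gap `Root (rc0 hS) A (k+1) g`, `A k` white,
`A (k+1)`, `A (k+2)` black (`Rc A (k+1) χ₀`).

* `gx A χ₀ hS T` : the colouring with `χ₀` on the giants and black free sites `T`
* `sum_gx`, `pE_gx`, `pR_gx` : sums over the pinned colourings = sums over `T ⊆ ff S (st A)`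
* `Vs`, `Ds` : block sum of `RE S` and displacement, root gap removed
* `mean_V`, `mean_D` : means `om ^ (-k) * TS / 3`, `Ey (k+2) - Ey (k+1)`
* **`pat_sites`**, **`pat_sites_conj`** : the relation of pattern `k` with
  `e = mean over T of ‖κ D - V‖` and `Z j = Ey S (st A) id j`; the form of `wrong_root_z`
* `mean_inter` : mean over `T ⊆ W` = mean over `β ⊆ S'` of the function of `β ∩ W`
-/

set_option autoImplicit false
set_option linter.unusedSectionVars false

noncomputable section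

open scoped Classical ComplexConjugate

namespace Crest.Agent.R143.StQx828

open Crest.Agent.R143.B0x346 Crest.Agent.R143.DelGx806 Crest.Agent.R143.DelRx806
  Crest.Agent.R143.JColx54 Crest.Agent.R143.RE0x723
open Crest.Agent.R143.NetUx346 (ff HitO hits exC Ey TS G3 Hex mem_ff mem_hits hv_eq sum_hits)
open Crest.Agent.R143.Frame1x395 Crest.Agent.R143.Frame2x395 Crest.Agent.R143.Frame3x395
  Crest.Agent.R143.Frame4x395 Crest.Agent.R143.Frame8x395 Crest.Agent.R143.Frame9x395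
  Crest.Agent.R143.Frame10x395
  Crest.Agent.R143.NonXx592 Crest.Agent.R143.Coarsex166 Crest.Agent.R143.Coarse2x166
  Crest.Agent.R143.C2Sx395 Crest.Agent.R143.C2SBx395 Crest.Agent.R143.C2SCx395
  Crest.Agent.R143.C2SDx395 Crest.Agent.R143.K33x137
open Crest.Agent.R143.FinCx811 (Cs rc0 cell_mem)
open Crest.Agent.R143.Frame5x395 (sd mem_sd th th_spec)
open Crest.Agent.R143.StPx828 (pE pR TZ n0_ne n0_pos pE_sub pE_mul norm_pE_le conj_omz)
open Crest.Agent.R143.DefsNx346 (RE)

variable {S : Finset ℂ} {hS : GP (S : Set ℂ)} {A : ZMod 3 → Set (Cs hS)} {i j k : ZMod 3}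
  {g : D0 S} {χ₀ : Cs hS → ZMod 2}

/-! ### pinned colourings -/

/-- colours `χ₀` on the giants, black free sites `T` -/
def gx (A : ZMod 3 → Set (Cs hS)) (χ₀ : Cs hS → ZMod 2) (T : Set ℂ) (c : Cs hS) : ZMod 2 :=
  if Free A c then toX hS T c else χ₀ c

theorem gx_pin (T : Set ℂ) : Pin A χ₀ (gx A χ₀ T) := fun _ hc => if_neg hc

theorem sum_pin0 {X : Type} [AddCommMonoid X] (F : (Cs hS → ZMod 2) → X) :
    (∑ χ : Cs hS → ZMod 2, if Pin A χ₀ χ then F χ else 0) =
      ∑ χ : Cs hS → ZMod 2, if Pin A 0 χ then F (fun c => if Free A c then χ c else χ₀ c)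
        else 0 := by
  rw [← Finset.sum_filter, ← Finset.sum_filter]
  refine Finset.sum_nbij' (fun χ c => if Free A c then χ c else 0)
    (fun χ c => if Free A c then χ c else χ₀ c) ?_ ?_ ?_ ?_ ?_
  · intro χ _
    exact Finset.mem_filter.2 ⟨Finset.mem_univ _, fun c hc => if_neg hc⟩
  · intro χ _
    exact Finset.mem_filter.2 ⟨Finset.mem_univ _, fun c hc => if_neg hc⟩
  · intro χ hχ
    have hp := (Finset.mem_filter.1 hχ).2
    funext c
    by_cases h : Free A c
    · simp only [if_pos h]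
    · simp only [if_neg h]
      exact (hp c h).symm
  · intro χ hχ
    have hp := (Finset.mem_filter.1 hχ).2
    funext c
    by_cases h : Free A c
    · simp only [if_pos h]
    · simp only [if_neg h]
      exact (hp c h).symm
  · intro χ hχ
    have hp := (Finset.mem_filter.1 hχ).2
    congr 1
    funext c
    by_cases h : Free A c
    · simp only [if_pos h]
    · simp only [if_neg h]
      exact hp c h

/-- **sums over the pinned colourings** -/
theorem sum_gx (H : Hl A j) (h3 : 3 ≤ S.card) {X : Type} [AddCommMonoid X]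
    (F : (Cs hS → ZMod 2) → X) : (∑ χ : Cs hS → ZMod 2, if Pin A χ₀ χ then F χ else 0) =
      ∑ T ∈ (ff S (st A)).powerset, F (gx A χ₀ (T : Set ℂ)) := by
  rw [sum_pin0, sum_pin_sites H h3]
  rfl

theorem pE_gx (H : Hl A j) (h3 : 3 ≤ S.card) (F : (Cs hS → ZMod 2) → ℂ) :
    pE A χ₀ F = (∑ T ∈ (ff S (st A)).powerset, F (gx A χ₀ (T : Set ℂ))) /
      2 ^ (ff S (st A)).card := by
  unfold pE
  rw [sum_gx H h3, n0_ff H h3]
  push_cast
  rfl

theorem pR_gx (H : Hl A j) (h3 : 3 ≤ S.card) (F : (Cs hS → ZMod 2) → ℝ) :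
    pR A χ₀ F = (∑ T ∈ (ff S (st A)).powerset, F (gx A χ₀ (T : Set ℂ))) /
      2 ^ (ff S (st A)).card := by
  unfold pR
  rw [sum_gx H h3, n0_ff H h3]
  push_cast
  rfl

/-! ### the block sums -/

variable {C' : Type} [Fintype C'] {π : Cs hS → C'} {hπ : ClsCon (rc0 hS) π}

/-- block sum of the small field in the contracted map, root gap removed -/
def Vs (hS : GP (S : Set ℂ)) (π : Cs hS → C') (hπ : ClsCon (rc0 hS) π) (g : D0 S)
    (χ : Cs hS → ZMod 2) : ℂ :=
  rsum (coarse (rc0 hS) π hπ) (cfg (rc0 hS) χ) g fun h => RE S h.1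

/-- displacement of the block, root gap removed -/
def Ds (hS : GP (S : Set ℂ)) (π : Cs hS → C') (hπ : ClsCon (rc0 hS) π) (g : D0 S)
    (χ : Cs hS → ZMod 2) : ℂ :=
  rsum (coarse (rc0 hS) π hπ) (cfg (rc0 hS) χ) g fun h => h.1.2 - h.1.1

theorem re_zf (h : D0 S) : RE S h.1 = om * zf S id h := by
  unfold RE zf
  simp only [id]
  linear_combination (-th S h.1) * om_c

theorem phase_k (k : ZMod 3) (X : ℂ) :
    om * (omz (-(k + 1)) * X) = omz (-k) * X := by
  have h : om * omz (-(k + 1)) = omz (-k) := by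
    have hk : k = 0 ∨ k = 1 ∨ k = 2 := by revert k; decide
    rcases hk with rfl | rfl | rfl
    · rw [show -((0 : ZMod 3) + 1) = 2 by decide, show -(0 : ZMod 3) = 0 by decide, omz2, omz0]
      linear_combination om_c
    · rw [show -((1 : ZMod 3) + 1) = 1 by decide, show -(1 : ZMod 3) = 2 by decide, omz1, omz2]
      ring
    · rw [show -((2 : ZMod 3) + 1) = 0 by decide, show -(2 : ZMod 3) = 1 by decide, omz0, omz1]
      ring
  rw [← mul_assoc, h]

/-- **mean of the small field in pattern `k`** -/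
theorem mean_V (G : Gi (rc0 hS) A) (H : Hl A j) (F : Far A j) (R : Root (rc0 hS) A (k + 1) g)
    (Q : Cq π A) (hc : Rc A (k + 1) χ₀) :
    pE A χ₀ (Vs hS π hπ g) = omz (-k) * (TS S (st A) id / 3) := by
  have h := c2s (hπ := hπ) G H F R Q hc id
  have e : (∑ χ : Cs hS → ZMod 2, if Pin A χ₀ χ then Vs hS π hπ g χ else 0) =
      om * ∑ χ : Cs hS → ZMod 2, if Pin A χ₀ χ then
        rsum (coarse (rc0 hS) π hπ) (cfg (rc0 hS) χ) g (zf S id) else 0 := by
    rw [Finset.mul_sum]
    refine Finset.sum_congr rfl fun χ _ => ?_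
    split_ifs
    · unfold Vs rsum
      rw [Finset.mul_sum]
      exact Finset.sum_congr rfl fun h _ => re_zf h
    · rw [mul_zero]
  unfold pE
  rw [e, h, n0_ff H (card3 hS g), div_eq_iff (by push_cast; exact pow_ne_zero _ two_ne_zero)]
  rw [← phase_k k]
  push_cast
  ring

/-- **mean displacement in pattern `k`** -/
theorem mean_D (G : Gi (rc0 hS) A) (H : Hl A j) (F : Far A j) (R : Root (rc0 hS) A (k + 1) g)
    (Q : Cq π A) (hc : Rc A (k + 1) χ₀) :
    pE A χ₀ (Ds hS π hπ g) = Ey S (st A) id (k + 2) - Ey S (st A) id (k + 1) := by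
  have h := c2s_ends (hπ := hπ) G H F R Q hc id
  have e : (∑ χ : Cs hS → ZMod 2, if Pin A χ₀ χ then Ds hS π hπ g χ else 0) =
      2 ^ (ff S (st A)).card * (Ey S (st A) id (k + 1 + 1) - Ey S (st A) id (k + 1)) := h
  unfold pE
  rw [e, n0_ff H (card3 hS g), (StPx828.z3d k).1]
  push_cast
  rw [mul_div_cancel_left₀ _ (pow_ne_zero _ two_ne_zero)]

theorem ts_tz (A : ZMod 3 → Set ℂ) : TS S A id / 3 = TZ (fun j => Ey S A id j) := by
  unfold TS TZ
  rw [mul_div_cancel_left₀ _ three_ne_zero]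

/-- the giants of pattern `k` with the mean end points `Z` -/
structure Pt (hS : GP (S : Set ℂ)) (k j : ZMod 3) (A : ZMod 3 → Set (Cs hS)) (g : D0 S)
    (χ₀ : Cs hS → ZMod 2) (Z : ZMod 3 → ℂ) : Prop where
  gi : Gi (rc0 hS) A
  hl : Hl A j
  far : Far A j
  root : Root (rc0 hS) A (k + 1) g
  rc : Rc A (k + 1) χ₀
  ez : ∀ l, Ey S (st A) id l = Z l

/-- **(S1)** the relation of pattern `k`, one `Z` -/
theorem pat_sites {Z : ZMod 3 → ℂ} (P : Pt hS k j A g χ₀ Z) (Q : Cq π A) (κ : ℂ) :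
    ‖κ * (Z (k + 2) - Z (k + 1)) - omz (-k) * TZ Z‖ ≤
      (∑ T ∈ (ff S (st A)).powerset, ‖κ * Ds hS π hπ g (gx A χ₀ (T : Set ℂ)) -
        Vs hS π hπ g (gx A χ₀ (T : Set ℂ))‖) / 2 ^ (ff S (st A)).card := by
  have h1 := mean_V (hπ := hπ) P.gi P.hl P.far P.root Q P.rc
  have h2 := mean_D (hπ := hπ) P.gi P.hl P.far P.root Q P.rc
  have e : (fun j => Ey S (st A) id j) = Z := funext P.ez
  rw [ts_tz, e] at h1
  rw [P.ez, P.ez] at h2
  rw [← pR_gx P.hl (card3 hS g) (fun χ => ‖κ * Ds hS π hπ g χ - Vs hS π hπ g χ‖), ← h1, ← h2,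
    ← pE_mul, ← pE_sub]
  exact norm_pE_le _

/-- **(S1)** for the field `Nn = conj RE`, in the form of `Tri2_106.wrong_root_z` -/
theorem pat_sites_conj {Z : ZMod 3 → ℂ} (P : Pt hS k j A g χ₀ Z) (Q : Cq π A) (κ : ℂ) :
    ‖κ * conj (Z (k + 2) - Z (k + 1)) - om ^ k.val * conj (TZ Z)‖ ≤
      (∑ T ∈ (ff S (st A)).powerset, ‖κ * conj (Ds hS π hπ g (gx A χ₀ (T : Set ℂ))) -
        conj (Vs hS π hπ g (gx A χ₀ (T : Set ℂ)))‖) / 2 ^ (ff S (st A)).card := by
  have h := pat_sites (hπ := hπ) P Q (conj κ)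
  have e1 : ∀ a b : ℂ, ‖κ * conj a - conj b‖ = ‖conj κ * a - b‖ := by
    intro a b
    rw [← RCLike.norm_conj (conj κ * a - b)]
    simp
  have e2 : om ^ k.val * conj (TZ Z) = conj (omz (-k) * TZ Z) := by
    rw [map_mul, conj_omz]
    rfl
  rw [e2, e1]
  simpa only [e1] using h

/-! ### means over larger sets of sites -/

/-- mean over `T ⊆ W` = mean over `β ⊆ S'` of a function of `β ∩ W` -/
theorem mean_inter {S' W : Finset ℂ} (hW : W ⊆ S') (h : Finset ℂ → ℝ) :
    (∑ β ∈ S'.powerset, h (β ∩ W)) / 2 ^ S'.card = (∑ T ∈ W.powerset, h T) / 2 ^ W.card := by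
  rw [Freshx829.sum_inter S' W hW h, nsmul_eq_mul]
  have hc : S'.card = (S'.card - W.card) + W.card :=
    (Nat.sub_add_cancel (Finset.card_le_card hW)).symm
  conv_lhs => rw [hc, pow_add]
  push_cast
  rw [show S'.card - W.card + W.card - W.card = S'.card - W.card by omega]
  rw [mul_div_mul_left _ _ (pow_ne_zero _ two_ne_zero)]

end Crest.Agent.R143.StQx828
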