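import Crest.Agent.R143.Loc8_277
import Crest.Agent.R143.K33R_877
import Crest.Agent.R143.C2SD_395

/-!
# Row 143 (S0194), block H, H5 (S1), site half: the three patterns have the same static means
(helper277)

`K 0, K 1, K 2` = three sets of cells (cells of the ring loop first revealed in the three arcs), `W` =
the outside. Pattern `k` = giants `Ap K W k` : `K j` for `j ≠ k`, `K k ∪ W` for `j = k`.

* `K3o S A O` : K33 for classes with a root triangle (`O` = its rotations, never a hit); `k3o_root`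
* `hit_same` : same free sites, same labels next to the free sites, a centre: the same hits
* **`hit_iff`** : `Hit (rc0 hS) (Ap K W k) i T d ↔ Hit (rc0 hS) (Ap K W l) i T d`
* **`ez_same`** : `Ez (rc0 hS) (Ap K W k) i z = Ez (rc0 hS) (Ap K W l) i z`, every `z : Cs hS → ℂ`
* **`ey_same`**, **`ts_same`** : the same for `Ey`, `TS` of the sites
* `ctr_of`, `ctr_regions` : the centre from a free cell and three chains to the outside
-/

set_option autoImplicit false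

noncomputable section

open scoped Classical

namespace Crest.Agent.R143.StSx277

open Crest.Agent.R143.B0x346 Crest.Agent.R143.DelGx806 Crest.Agent.R143.DelRx806
open Crest.Agent.R143.JColx54 (Adj adj_tri adj_tri' adj_tri'' delT_rot)
open Crest.Agent.R143.RE0x723 (Pth Pth.refl Pth.snd Pth.trans Pth.tail Pth.single Pth.symm Pth.mono
  Pth.ind Pth.self)
open Crest.Agent.R143.K33x877 (Clu fr CtrT CtrX Cls k3xx k3tx)
open Crest.Agent.R143.RB2x54 (Vt)
open Crest.Agent.R143.NetUx346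
open Crest.Agent.R143.Loc8x277

variable {S S' : Finset ℂ} {A A' : ZMod 3 → Set ℂ} {O O' : Set (ℂ × ℂ × ℂ)} {X : Set ℂ}
  {i m : ZMod 3}

/-! ### K33 with a root -/

/-- K33, the triangles of `O` do not count and are never hits -/
structure K3o (S : Finset ℂ) (A : ZMod 3 → Set ℂ) (O : Set (ℂ × ℂ × ℂ)) : Prop where
  gp : GP (S : Set ℂ)
  tx : ∀ t X, CtrT S A t → t ∉ O → ¬ CtrX S A X
  xx : ∀ X Y, CtrX S A X → CtrX S A Y → ¬ Disjoint X Y
  no : ∀ (i : ZMod 3) (T : Set ℂ) (t : ℂ × ℂ × ℂ), HitO S A i T t → t ∉ O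

theorem clu_own {Q : Set ℂ} (hC : Cls S A) {b : ℂ} {j : ZMod 3}
    (h : b ∈ Clu S (fr S A ∩ Q) (A m)) (hb : b ∈ A j) : j = m := by
  rcases clu_out h with h1 | h1
  · by_contra hne
    exact Set.disjoint_left.1 (hC.disj _ _ hne) hb h1
  · exact absurd hb (h1.1.1.2 j)

theorem z3p : ∀ i m : ZMod 3, ¬ (i + 1 = m ∧ i = m + 1) ∧ ¬ (i = m ∧ i + 2 = m + 1) ∧
    ¬ (i + 2 = m ∧ i + 1 = m + 1) := by decide

/-- **classes with a negative root triangle** -/
theorem k3o_root (hC : Cls S A) {a b c : ℂ} (ho : (a, b, c) ∈ delT S) (ha : a ∈ A (i + 1))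
    (hb : b ∈ A i) (hc : c ∈ A (i + 2)) : K3o S A (rots (a, b, c)) := by
  have ho' : CtrT S A (a, b, c) := by
    refine ⟨ho, fun k => ?_⟩
    rcases z3 i k with rfl | rfl | rfl
    · exact ⟨b, Or.inr (Or.inl rfl), hb⟩
    · exact ⟨a, Or.inl rfl, ha⟩
    · exact ⟨c, Or.inr (Or.inr rfl), hc⟩
  refine ⟨hC.gp, fun t X ht hn => k3tx hC ho' hn ht, fun X Y => k3xx hC ho', ?_⟩
  rintro m T ⟨u, b', v⟩ ⟨-, h2, h3, -⟩ hr
  simp only at h2 h3
  have key : ∀ j j' : ZMod 3, u ∈ A j → b' ∈ A j' → j = m ∧ j' = m + 1 := by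
    intro j j' hj hj'
    refine ⟨?_, clu_own hC h3 hj'⟩
    by_contra hne
    exact Set.disjoint_left.1 (hC.disj _ _ hne) hj h2
  simp only [rots, Set.mem_insert_iff, Set.mem_singleton_iff, Prod.mk.injEq] at hr
  rcases hr with ⟨rfl, rfl, rfl⟩ | ⟨rfl, rfl, rfl⟩ | ⟨rfl, rfl, rfl⟩
  · exact (z3p i m).1 (key _ _ ha hb)
  · exact (z3p i m).2.1 (key _ _ hb hc)
  · exact (z3p i m).2.2 (key _ _ hc ha)

/-- the hit triple is near `X` -/
theorem near_o (K : K3o S A O) (hX : CtrX S A X)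
    (hcl : ∀ x ∈ X, ∀ v, Adj S x v → v ∈ X ∨ ∃ i, v ∈ A i) {T : Set ℂ} {t : ℂ × ℂ × ℂ}
    (h : HitO S A i T t) : (t.2.1 ∈ X ∨ t.2.1 ∈ A (i + 1)) ∧ (t.2.2 ∈ X ∨ t.2.2 ∈ A (i + 2)) ∧
      (t.2.1 ∈ X ∨ t.2.2 ∈ X) := by
  have hS := K.gp
  have key : ∀ b, CtrX S A (Cp S A b) → b ∈ X := by
    intro b hb
    have h1 := K.xx _ _ hb hX
    rw [Set.not_disjoint_iff] at h1
    obtain ⟨z, hz, hzX⟩ := h1
    exact cl_path hcl hzX (Pth.symm hz)
  rcases hit_cases hS h with h1 | ⟨hb, h1, hv⟩ | ⟨hv, h1, hb⟩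
  · exact absurd hX (K.tx t X h1 (K.no _ _ _ h))
  · have bX := key _ h1
    refine ⟨Or.inl bX, ?_, Or.inl bX⟩
    rcases hv with hv | hv
    · exact Or.inr hv
    · left
      refine cl_path hcl bX (Pth.single hb ?_ hv)
      exact adj_tri' hS (show (t.1, t.2.1, t.2.2) ∈ delT S from h.1)
  · have vX := key _ h1
    exact ⟨Or.inr hb, Or.inl vX, Or.inr vX⟩

/-- the same hit triple -/
theorem hitO_of_near (hS : GP (S : Set ℂ)) (h : Lo S A X S' A') {T T' : Set ℂ}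
    (hT : ∀ x ∈ X, (x ∈ T ↔ x ∈ T')) {t : ℂ × ℂ × ℂ} (ht : HitO S A i T t)
    (hn : (t.2.1 ∈ X ∨ t.2.1 ∈ A (i + 1)) ∧ (t.2.2 ∈ X ∨ t.2.2 ∈ A (i + 2)) ∧
      (t.2.1 ∈ X ∨ t.2.2 ∈ X)) : HitO S' A' i T' t := by
  obtain ⟨n1, n2, n3⟩ := hn
  obtain ⟨u, b, v⟩ := t
  obtain ⟨h1, h2, h3, h4⟩ := ht
  simp only at h2 h3 h4 n1 n2 n3
  have aub : Adj S u b := adj_tri h1
  have abv : Adj S b v := adj_tri' hS h1
  have avu : Adj S v u := adj_tri'' hS h1
  refine ⟨?_, ?_, ?_, ?_⟩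
  · refine (h.tri _ ?_).1 h1
    rcases n3 with hX | hX
    · exact ⟨b, Or.inr (Or.inl rfl), hX⟩
    · exact ⟨v, Or.inr (Or.inr rfl), hX⟩
  · show u ∈ A' i
    rcases n3 with hX | hX
    · exact (h.lab b hX u aub.symm i).1 h2
    · exact (h.lab v hX u avu i).1 h2
  · show b ∈ Clu S' (fr S' A' ∩ T') (A' (i + 1))
    rcases n1 with hb | hb
    · exact h.clu (fun x hx => (hT x hx).1) h3 hb
    · have vX : v ∈ X := n3.resolve_left fun hbX => Set.disjoint_left.1 (h.ctr.1 _) hbX hb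
      exact clu_in ((h.lab v vX b abv.symm (i + 1)).1 hb)
  · show v ∈ Clu S' (fr S' A' \ T') (A' (i + 2))
    rcases n2 with hv | hv
    · rw [Set.sdiff_eq] at h4 ⊢
      refine h.clu (Q := Tᶜ) (Q' := T'ᶜ) (fun x hx h5 => ?_) h4 hv
      exact fun h6 => h5 ((hT x hx).2 h6)
    · have bX : b ∈ X := n3.resolve_right fun hvX => Set.disjoint_left.1 (h.ctr.1 _) hvX hv
      exact clu_in ((h.lab b bX v abv (i + 2)).1 hv)

/-- **same free sites, same labels next to the free sites, a centre of free sites: the same hits** -/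
theorem hit_same (K : K3o S A O) (K' : K3o S A' O') (hf : fr S A = fr S A')
    (hl : ∀ x ∈ fr S A, ∀ v, Adj S x v → ∀ i, (v ∈ A i ↔ v ∈ A' i)) (hX : CtrX S A X)
    (i : ZMod 3) (T : Set ℂ) (t : ℂ × ℂ × ℂ) : HitO S A i T t ↔ HitO S A' i T t := by
  obtain ⟨x, hx, -⟩ := hX.2.2 0
  have hsub : ∀ v ∈ Cp S A x, v ∈ fr S A := fun v hv => Pth.snd hv
  have L : Lo S A (Cp S A x) S A' := by
    refine ⟨ctr_cp hX hx, cp_cl, fun _ _ => Iff.rfl, fun v hv => hl v (hsub v hv), fun i => ?_⟩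
    rw [Set.disjoint_left]
    intro v hv hi
    have h1 := hsub v hv
    rw [hf] at h1
    exact h1.2 i hi
  exact ⟨fun h => hitO_of_near K.gp L (fun _ _ => Iff.rfl) h (near_o K L.ctr L.cl h),
    fun h => hitO_of_near K'.gp L.symm (fun _ _ => Iff.rfl) h (near_o K' L.symm.ctr L.symm.cl h)⟩

/-- the same means -/
theorem ey_of_hit (hf : fr S A = fr S A')
    (hh : ∀ (i : ZMod 3) (T : Set ℂ) (t : ℂ × ℂ × ℂ), HitO S A i T t ↔ HitO S A' i T t)
    (z : ℂ → ℂ) (i : ZMod 3) : Ey S A z i = Ey S A' z i := by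
  have e1 : ff S A = ff S A' := by
    ext v
    rw [mem_ff, mem_ff, hf]
  unfold Ey
  rw [e1]
  unfold exC
  congr 1
  refine Finset.sum_congr rfl fun T _ => ?_
  have e : hits S A i (T : Set ℂ) = hits S A' i (T : Set ℂ) := by
    ext t
    rw [mem_hits, mem_hits]
    exact hh i T t
  show ∑ t ∈ hits S A i (T : Set ℂ), z t.1 = ∑ t ∈ hits S A' i (T : Set ℂ), z t.1
  rw [e]

/-! ### the three patterns -/

section pat

open Crest.Agent.R143.Frame1x395 Crest.Agent.R143.Frame10x395 Crest.Agent.R143.C2SBx395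
  Crest.Agent.R143.C2SCx395 Crest.Agent.R143.C2SDx395 Crest.Agent.R143.K33x137
open Crest.Agent.R143.FinCx811 (Cs rc0 cell_mem)
open Crest.Agent.R143.Frame5x395 (sd mem_sd th th_spec)

/-- giants of the pattern `k` -/
def Ap {C : Type} (K : ZMod 3 → Set C) (W : Set C) (k j : ZMod 3) : Set C :=
  {c | c ∈ K j ∨ (j = k ∧ c ∈ W)}

/-- cells which are neither in `K` nor outside -/
def Fc {C : Type} (K : ZMod 3 → Set C) (W : Set C) (c : C) : Prop := (∀ j, c ∉ K j) ∧ c ∉ W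

theorem free_iff {C : Type} {K : ZMod 3 → Set C} {W : Set C} (k : ZMod 3) {c : C} :
    Free (Ap K W k) c ↔ Fc K W c := by
  constructor
  · exact fun h => ⟨fun j hj => h j (Or.inl hj), fun hW => h k (Or.inr ⟨rfl, hW⟩)⟩
  · rintro ⟨h1, h2⟩ j (h | ⟨-, h⟩)
    · exact h1 j h
    · exact h2 h

/-- the outside is not next to a free cell -/
def Rim {D C : Type} (M : CMap D C) (K : ZMod 3 → Set C) (W : Set C) : Prop :=
  ∀ c c', Ed M c c' → Fc K W c → c' ∉ W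

variable {hS : GP (S : Set ℂ)} {K : ZMod 3 → Set (Cs hS)} {W : Set (Cs hS)} {k l j : ZMod 3}
  {g g' : D0 S}

theorem cls_of {A : ZMod 3 → Set (Cs hS)} (G : Gi (rc0 hS) A) : Cls S (st A) :=
  ⟨(g3 G).gp, (g3 G).sub, (g3 G).disj, (g3 G).con⟩

/-- K33 from the root gap -/
theorem k3o_of {A : ZMod 3 → Set (Cs hS)} (G : Gi (rc0 hS) A) (R : Root (rc0 hS) A i g) :
    K3o S (st A) (rots (g.1.1, g.1.2, th S g.1)) := by
  have ht : (g.1.1, g.1.2, th S g.1) ∈ delT S := th_spec g.2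
  obtain ⟨m1, m2, m3⟩ := mem3 hS ht
  exact k3o_root (cls_of G) ht ((st_mem m1 rfl).2 R.r0) ((st_mem m2 rfl).2 R.r1)
    ((st_mem m3 rfl).2 R.r2)

theorem fr_pat (k : ZMod 3) {v : ℂ} : v ∈ fr S (st (Ap K W k)) ↔
    v ∈ S ∧ ∀ c : Cs hS, c.1 = Quot.mk (hullE S) v → Fc K W c := by
  constructor
  · rintro ⟨h1, h2⟩
    refine ⟨h1, fun c hc => (free_iff k).1 fun j hj => h2 j ⟨h1, c, hj, hc⟩⟩
  · rintro ⟨h1, h2⟩
    refine ⟨h1, fun j hj => ?_⟩
    obtain ⟨-, c, h3, h4⟩ := hj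
    exact (free_iff k).2 (h2 c h4) j h3

theorem fr_eq (k l : ZMod 3) : fr S (st (Ap K W k)) = fr S (st (Ap K W l)) := by
  ext v
  rw [fr_pat, fr_pat]

theorem lab_pat (hr : Rim (rc0 hS) K W) (k l : ZMod 3) {x v : ℂ}
    (hx : x ∈ fr S (st (Ap K W k))) (hxv : Adj S x v) {i : ZMod 3}
    (h : v ∈ st (Ap K W k) i) : v ∈ st (Ap K W l) i := by
  obtain ⟨hv, c, hc, e⟩ := h
  obtain ⟨cx, hcx⟩ := cell_ex (hS := hS) hxv
  have h1 := hr cx c (ed_of_adj hxv hcx e) (((fr_pat k).1 hx).2 cx hcx)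
  refine ⟨hv, c, Or.inl ?_, e⟩
  exact hc.resolve_right fun h => h1 h.2

/-- **the same hits of the sites** -/
theorem hitO_pat (hr : Rim (rc0 hS) K W) (G : Gi (rc0 hS) (Ap K W k))
    (G' : Gi (rc0 hS) (Ap K W l)) {i' : ZMod 3} (R : Root (rc0 hS) (Ap K W k) i g)
    (R' : Root (rc0 hS) (Ap K W l) i' g') (hX : CtrX S (st (Ap K W k)) X) (m : ZMod 3)
    (T : Set ℂ) (t : ℂ × ℂ × ℂ) :
    HitO S (st (Ap K W k)) m T t ↔ HitO S (st (Ap K W l)) m T t := by
  refine hit_same (k3o_of G R) (k3o_of G' R') (fr_eq k l) ?_ hX m T t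
  intro x hx v hxv i
  refine ⟨lab_pat hr k l hx hxv, lab_pat hr l k ?_ hxv⟩
  rw [fr_eq l k]
  exact hx

/-- **the same means of the sites** -/
theorem ey_same (hr : Rim (rc0 hS) K W) (G : Gi (rc0 hS) (Ap K W k))
    (G' : Gi (rc0 hS) (Ap K W l)) {i' : ZMod 3} (R : Root (rc0 hS) (Ap K W k) i g)
    (R' : Root (rc0 hS) (Ap K W l) i' g') (hX : CtrX S (st (Ap K W k)) X) (z : ℂ → ℂ)
    (m : ZMod 3) : Ey S (st (Ap K W k)) z m = Ey S (st (Ap K W l)) z m :=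
  ey_of_hit (fr_eq k l) (hitO_pat hr G G' R R' hX) z m

theorem ts_same (hr : Rim (rc0 hS) K W) (G : Gi (rc0 hS) (Ap K W k))
    (G' : Gi (rc0 hS) (Ap K W l)) {i' : ZMod 3} (R : Root (rc0 hS) (Ap K W k) i g)
    (R' : Root (rc0 hS) (Ap K W l) i' g') (hX : CtrX S (st (Ap K W k)) X) (z : ℂ → ℂ) :
    TS S (st (Ap K W k)) z = TS S (st (Ap K W l)) z := by
  unfold TS
  congr 1
  refine Finset.sum_congr rfl fun m _ => ?_
  rw [ey_same hr G G' R R' hX]

/-- black sites of a set of black cells -/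
def Ts (T : Set (Cs hS)) : Set ℂ := {v | ∃ c ∈ T, c.1 = Quot.mk (hullE S) v}

theorem cmp_ts (A : ZMod 3 → Set (Cs hS)) (T : Set (Cs hS)) : Cmp A (Ts T) T := by
  intro v _ c hc
  constructor
  · exact fun h => ⟨c, h, hc⟩
  · rintro ⟨c', h, hc'⟩
    have : c = c' := Subtype.ext (hc.trans hc'.symm)
    rw [this]
    exact h

/-- **the same hits of the cells** -/
theorem hit_iff (hr : Rim (rc0 hS) K W) (G : Gi (rc0 hS) (Ap K W k))
    (G' : Gi (rc0 hS) (Ap K W l)) {i' j' : ZMod 3} (R : Root (rc0 hS) (Ap K W k) i g)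
    (R' : Root (rc0 hS) (Ap K W l) i' g') (H : Hl (Ap K W k) j) (H' : Hl (Ap K W l) j')
    (hX : CtrX S (st (Ap K W k)) X) (m : ZMod 3) (T : Set (Cs hS)) (d : D0 S) :
    Hit (rc0 hS) (Ap K W k) m T d ↔ Hit (rc0 hS) (Ap K W l) m T d := by
  have ht : (d.1.1, d.1.2, th S d.1) ∈ delT S := th_spec d.2
  rw [← hitO_hit H (cmp_ts _ T) ht, ← hitO_hit H' (cmp_ts _ T) ht]
  exact hitO_pat hr G G' R R' hX m _ _

theorem yv_of_iff {D C R : Type} [Zero R] {M : CMap D C} {A A' : ZMod 3 → Set C} {i : ZMod 3}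
    {T : Set C} (h : ∀ d, Hit M A i T d ↔ Hit M A' i T d) (z : C → R) :
    yv M A i T z = yv M A' i T z := by
  have key : ∀ P Q : D → Prop, P = Q → (if h : ∃ k, P k then z (M.cell h.choose) else 0) =
      if h : ∃ k, Q k then z (M.cell h.choose) else 0 := by
    rintro P _ rfl
    rfl
  exact key _ _ (funext fun d => propext (h d))

/-- **the same means of the cells** -/
theorem ez_same (hr : Rim (rc0 hS) K W) (G : Gi (rc0 hS) (Ap K W k))
    (G' : Gi (rc0 hS) (Ap K W l)) {i' j' : ZMod 3} (R : Root (rc0 hS) (Ap K W k) i g)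
    (R' : Root (rc0 hS) (Ap K W l) i' g') (H : Hl (Ap K W k) j) (H' : Hl (Ap K W l) j')
    (hX : CtrX S (st (Ap K W k)) X) (m : ZMod 3) (z : Cs hS → ℂ) :
    Ez (rc0 hS) (Ap K W k) m z = Ez (rc0 hS) (Ap K W l) m z := by
  unfold Ez
  congr 1
  exact Finset.sum_congr rfl fun χ _ => yv_of_iff (hit_iff hr G G' R R' H H' hX m _) z

/-- the hull cell is in the outside -/
theorem hl_of (h : ∀ c : Cs hS, ∀ v, OnHull S v → c.1 = Quot.mk (hullE S) v → c ∈ W)
    (k : ZMod 3) : Hl (Ap K W k) k := fun c v hv e => Or.inr ⟨rfl, h c v hv e⟩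

/-! ### the centre -/

/-- free component of `c₀` -/
def Fp {D C : Type} (M : CMap D C) (K : ZMod 3 → Set C) (W : Set C) (c₀ c : C) : Prop :=
  Relation.ReflTransGen (fun a b => Ed M a b ∧ Fc K W b) c₀ c

/-- **the centre from a free cell whose free component touches `K 0, K 1, K 2`** -/
theorem ctr_of (h : ∀ c : Cs hS, ∀ v, OnHull S v → c.1 = Quot.mk (hullE S) v → c ∈ W)
    {c₀ : Cs hS} (h0 : Fc K W c₀)
    (hK : ∀ j, ∃ c c', Fp (rc0 hS) K W c₀ c ∧ Ed (rc0 hS) c c' ∧ c' ∈ K j) (k : ZMod 3) :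
    ∃ X, CtrX S (st (Ap K W k)) X := by
  obtain ⟨v0, hv0, e0⟩ := site_of c₀
  have f0 : v0 ∈ fr S (st (Ap K W k)) := fr_of_free ((free_iff k).2 h0) hv0 e0
  have key : ∀ c, Fp (rc0 hS) K W c₀ c → Fc K W c ∧ ∀ v ∈ S, c.1 = Quot.mk (hullE S) v →
      v ∈ Cp S (st (Ap K W k)) v0 := by
    intro c hc
    induction hc with
    | refl =>
      refine ⟨h0, fun v hv e => ?_⟩
      have : v = v0 := free_uniq (hl_of h k) ((free_iff k).2 h0) e0 e
      rw [this]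
      exact Pth.refl f0
    | @tail a b _ hb ih =>
      refine ⟨hb.2, fun v hv e => ?_⟩
      obtain ⟨x, y, hxy, e1, e2⟩ := adj_of_ed hb.1
      have ey : y = v := free_uniq (hl_of h k) ((free_iff k).2 hb.2) e e2
      subst ey
      exact Pth.tail (ih.2 x hxy.mem.1 e1) hxy (fr_of_free ((free_iff k).2 hb.2) hv e)
  refine ⟨Cp S (st (Ap K W k)) v0, cp_ctr fun j => ?_⟩
  obtain ⟨c, c', h1, h2, h3⟩ := hK j
  obtain ⟨x, y, hxy, e1, e2⟩ := adj_of_ed h2
  exact ⟨x, (key c h1).2 x hxy.mem.1 e1, y, ⟨hxy.mem.2, c', Or.inl h3, e2⟩, hxy⟩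

/-- **three chains from `c₀` to the outside in three regions** -/
theorem ctr_regions {D C : Type} {M : CMap D C} {K : ZMod 3 → Set C} {W : Set C}
    (hr : Rim M K W) {c₀ : C} (h0 : Fc K W c₀) (P : ZMod 3 → C → Prop)
    (hP : ∀ j c, P j c → ∀ i, c ∈ K i → i = j)
    (hp : ∀ j, ∃ c, ¬ Fc K W c ∧ Relation.ReflTransGen (fun a b => Ed M a b ∧ P j b) c₀ c) :
    ∀ j, ∃ c c', Fp M K W c₀ c ∧ Ed M c c' ∧ c' ∈ K j := by
  intro j
  obtain ⟨c, hc, h⟩ := hp j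
  have key : ∀ c, Relation.ReflTransGen (fun a b => Ed M a b ∧ P j b) c₀ c →
      (Fc K W c ∧ Fp M K W c₀ c) ∨ ∃ c c', Fp M K W c₀ c ∧ Ed M c c' ∧ c' ∈ K j := by
    intro c h
    induction h with
    | refl => exact Or.inl ⟨h0, .refl⟩
    | @tail a b _ hb ih =>
      rcases ih with ⟨ih1, ih2⟩ | ih
      · by_cases hf : Fc K W b
        · exact Or.inl ⟨hf, ih2.tail ⟨hb.1, hf⟩⟩
        · right
          have h1 := hr a b hb.1 ih1
          have h2 : ∃ i, b ∈ K i := by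
            by_contra hcon
            push Not at hcon
            exact hf ⟨hcon, h1⟩
          obtain ⟨i, hi⟩ := h2
          exact ⟨a, b, ih2, hb.1, hP j b hb.2 i hi ▸ hi⟩
      · exact Or.inr ih
  rcases key c h with ⟨h1, -⟩ | h1
  · exact absurd h1 hc
  · exact h1

end pat

end Crest.Agent.R143.StSx277
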