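import Crest.Agent.R143.Pat_828
import Crest.Agent.R143.StQ_828
import Crest.Agent.R143.StS_277
import Crest.Agent.R143.KapE_440

/-!
# Row 143 (S0194), block H, H5 (S1): static means of the three patterns of a ring loop, as means over
the fresh coins (helper828)

* `ap_eq` : `AP = Ap Gc Wc` (277); `Rg3.rim`
* **`Rg3.stab`** : a colouring which agrees off the free cells has the same loop, left cells, outside,
  giants (the outside is a stopping set)
* `pk A k μ` : colouring of the pattern `k`; `Vk`, `Wk` : charge (field `Nn = conj RE`) and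
  displacement of the root chord; `Zk` : mean end points
* `Dta` : choice of the ring data, decided by the outside; `Dta.stop` : `IsStop`;
  **`Dta.avc_eq`** : the two equations of `MeanQ` for the three patterns
-/

set_option autoImplicit false
set_option linter.unusedSectionVars false

noncomputable section

open scoped Classical ComplexConjugate

namespace Crest.Agent.R143.S1x828

open Crest.Agent.R143.Frame1x395 Crest.Agent.R143.Frame2x395 Crest.Agent.R143.Frame3x395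
  Crest.Agent.R143.Frame4x395 Crest.Agent.R143.Frame8x395 Crest.Agent.R143.Frame9x395
  Crest.Agent.R143.NonXx592 Crest.Agent.R143.Coarsex166 Crest.Agent.R143.Coarse2x166
  Crest.Agent.R143.Flipx166 Crest.Agent.R143.R5bx166 Crest.Agent.R143.R5qx166
  Crest.Agent.R143.Patx828

open Splx117 (Lp InK gp)
open C2SBx395 (Cq Root Free Rc Pin)
open K33x137 (Cn Lk Ed)
open StSx277 (Ap Fc Rim)

section cmap

variable {D C : Type} {M : CMap D C} {σ μ : C → ZMod 2} {p : D} {N : ℕ} {r : ZMod 3 → ℕ}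
  {i j k l : ZMod 3} {c : C}

theorem ap_eq {x : D → ZMod 2} (k : ZMod 3) :
    AP M x p N r k = Ap (Gc M x p N r) (Wc M x p) k := by
  funext j
  ext c
  constructor
  · intro h
    rcases ap_cases h with h | ⟨e, h⟩
    · exact Or.inl h
    · exact Or.inr ⟨e, h⟩
  · rintro (h | ⟨e, h⟩)
    · exact gc_ap h
    · rw [e, ap_self]
      exact Or.inr h

variable [Fintype D]

theorem fc_free : Fc (Gc M (cfg M σ) p N r) (Wc M (cfg M σ) p) c ↔
    Free (AP M (cfg M σ) p N r k) c := by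
  rw [ap_eq, StSx277.free_iff]

theorem rim (X : Rg3 M σ p N r) : Rim M (Gc M (cfg M σ) p N r) (Wc M (cfg M σ) p) :=
  fun _ _ he h => X.nb_free (k := 0) (fc_free.1 h) he

/-! ### stability -/

theorem not_free_lf (X : Rg3 M σ p N r) (h : c ∈ Lf M (cfg M σ) p) :
    ¬ Free (AP M (cfg M σ) p N r k) c := fun hf => (X.free_lf hf).1 h

theorem not_free_wc (X : Rg3 M σ p N r) (h : c ∈ Wc M (cfg M σ) p) :
    ¬ Free (AP M (cfg M σ) p N r k) c := fun hf => (X.free_lf hf).2 h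

/-- **same states** -/
theorem walk (X : Rg3 M σ p N r) (h : ∀ c, ¬ Free (AP M (cfg M σ) p N r 0) c → μ c = σ c)
    (u : ℕ) : P M (cfg M μ) p u = P M (cfg M σ) p u :=
  walk_eq X.L.occ (n := u) (fun v _ => ⟨h _ (not_free_lf X ⟨v, rfl⟩),
    h _ (not_free_wc X (X.rc_wc v))⟩) le_rfl

theorem stab (X : Rg3 M σ p N r) (h : ∀ c, ¬ Free (AP M (cfg M σ) p N r 0) c → μ c = σ c) :
    Rg3 M μ p N r := by
  have hw := walk X h
  have hw' : ∀ u, (stp M (cfg M μ))^[u] p = (stp M (cfg M σ))^[u] p := hw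
  have hg : ∀ u, gp M (cfg M μ) p u = gp M (cfg M σ) p u := fun u => by
    unfold Splx117.gp
    rw [hw']
  have hlc : ∀ u, lc M (cfg M μ) p u = lc M (cfg M σ) p u := fun u => congrArg M.cell (hw u)
  have hocc : cfg M μ p = 1 := by
    have h1 : μ (M.cell p) = σ (M.cell p) := h _ (not_free_lf X ⟨0, rfl⟩)
    have h2 : μ (M.cell (M.rho p)) = σ (M.cell (M.rho p)) := h _ (not_free_wc X (X.rc_wc 0))
    rw [cfg_congr h1 h2]
    exact X.L.occ
  have L : Lp M (cfg M μ) p N := by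
    refine ⟨cfg_isC μ, hocc, X.L.pos, ?_, ?_⟩
    · rw [hw']; exact X.L.per
    · intro a b h1 h2
      rw [hw', hw']; exact X.L.inj a b h1 h2
  have hgap : ∀ j, cfg M μ (gp M (cfg M μ) p (r j)) = 0 := by
    intro j
    obtain ⟨h1, h2, -⟩ := X.junction j
    rw [hg, cfg_congr (h _ (not_free_lf X (gc_lf h1))) (h _ (not_free_lf X (gc_lf h2)))]
    exact X.gap j
  have hG : ∀ j, Gp M (cfg M μ) (gp M (cfg M μ) p (r j)) := fun j => L.gap (hgap j)
  have h1 := X.r01
  have h2 := X.r12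
  have h3 := X.r2N
  refine ⟨L, ?_, h1, h2, h3, hgap, ?_, ?_⟩
  · have h0 : μ (M.cell p) = σ (M.cell p) := h _ (not_free_lf X ⟨0, rfl⟩)
    rw [h0]
    exact X.col
  · refine ((loop_of L).rel h1 (by omega) (hG 0) (hG 1) (Splx117.rho_gp _)
      (Splx117.rho_gp _)).2 ?_
    intro u hu1 hu2 v hv1 hv2
    rw [hlc, hlc]
    exact ((loop_of X.L).rel h1 (by omega) (X.gpx 0) (X.gpx 1) (Splx117.rho_gp _)
      (Splx117.rho_gp _)).1 X.rel u hu1 hu2 v hv1 hv2
  · refine ((loop_of L).rel h2 (by omega) (hG 1) (hG 2) (Splx117.rho_gp _)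
      (Splx117.rho_gp _)).2 ?_
    intro u hu1 hu2 v hv1 hv2
    rw [hlc, hlc]
    exact ((loop_of X.L).rel h2 (by omega) (X.gpx 1) (X.gpx 2) (Splx117.rho_gp _)
      (Splx117.rho_gp _)).1 X.rel' u hu1 hu2 v hv1 hv2

theorem stab_lf (X : Rg3 M σ p N r) (h : ∀ c, ¬ Free (AP M (cfg M σ) p N r 0) c → μ c = σ c) :
    Lf M (cfg M μ) p = Lf M (cfg M σ) p := by
  ext c
  constructor
  · rintro ⟨u, e⟩
    exact ⟨u, by rw [← e]; exact (congrArg M.cell (walk X h u)).symm⟩
  · rintro ⟨u, e⟩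
    exact ⟨u, by rw [← e]; exact congrArg M.cell (walk X h u)⟩

theorem stab_gc (X : Rg3 M σ p N r) (h : ∀ c, ¬ Free (AP M (cfg M σ) p N r 0) c → μ c = σ c) :
    Gc M (cfg M μ) p N r = Gc M (cfg M σ) p N r := by
  funext j
  ext c
  constructor
  · rintro ⟨u, hu, e⟩
    exact ⟨u, hu, by rw [← e]; exact (congrArg M.cell (walk X h u)).symm⟩
  · rintro ⟨u, hu, e⟩
    exact ⟨u, hu, by rw [← e]; exact congrArg M.cell (walk X h u)⟩

theorem stab_wc (X : Rg3 M σ p N r) (h : ∀ c, ¬ Free (AP M (cfg M σ) p N r 0) c → μ c = σ c) :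
    Wc M (cfg M μ) p = Wc M (cfg M σ) p := by
  unfold Patx828.Wc
  rw [stab_lf X h]

/-- **same giants** -/
theorem stab_ap (X : Rg3 M σ p N r) (h : ∀ c, ¬ Free (AP M (cfg M σ) p N r 0) c → μ c = σ c)
    (k : ZMod 3) : AP M (cfg M μ) p N r k = AP M (cfg M σ) p N r k := by
  rw [ap_eq, ap_eq, stab_gc X h, stab_wc X h]

theorem stab_gp (X : Rg3 M σ p N r) (h : ∀ c, ¬ Free (AP M (cfg M σ) p N r 0) c → μ c = σ c)
    (u : ℕ) : gp M (cfg M μ) p u = gp M (cfg M σ) p u := by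
  unfold Splx117.gp
  rw [show (stp M (cfg M μ))^[u] p = (stp M (cfg M σ))^[u] p from walk X h u]

end cmap

/-! ### sites -/

open Crest.Agent.R143.B0x346 Crest.Agent.R143.DelGx806 Crest.Agent.R143.DelRx806
  Crest.Agent.R143.JColx54 Crest.Agent.R143.Frame10x395 Crest.Agent.R143.C2SCx395
  Crest.Agent.R143.C2SDx395
open Crest.Agent.R143.NetUx346 (ff Ey TS mem_ff)
open Crest.Agent.R143.FinCx811 (Cs rc0 cell_mem)
open Crest.Agent.R143.Freshx829 (scol Inn rep rep_spec rep_eq)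
open Crest.Agent.R143.StQx828 (gx gx_pin Vs Ds Pt pE_gx mean_V mean_D ts_tz)
open Crest.Agent.R143.StPx828 (pE pR TZ conj_omz)
open Crest.Agent.R143.K33x877 (fr CtrX)
open Crest.Agent.R143.Harx315 (IsStop)
open Crest.Agent.R143.KapEx440 (avc)

section sites

variable {S : Finset ℂ} {hS : GP (S : Set ℂ)}

/-- colouring of the pattern `k` -/
def pk (A : ZMod 3 → Set (Cs hS)) (k : ZMod 3) (μ : Cs hS → ZMod 2) (c : Cs hS) : ZMod 2 :=
  if c ∈ A k then 0 else if Free A c then μ c else 1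

/-- colours of the giants in the pattern `k` -/
def x0 (A : ZMod 3 → Set (Cs hS)) (k : ZMod 3) (c : Cs hS) : ZMod 2 := if c ∈ A k then 0 else 1

theorem pk_gx {A : ZMod 3 → Set (Cs hS)} {j : ZMod 3} (H : Hl A j) (k : ZMod 3)
    {T β : Finset ℂ} (hT : ∀ v ∈ ff S (st A), (v ∈ β ↔ v ∈ T)) :
    pk A k (scol hS (β : Set ℂ)) = gx A (x0 A k) (T : Set ℂ) := by
  funext c
  unfold pk gx x0
  by_cases hf : Free A c
  · rw [if_pos hf, if_neg (hf k), if_pos hf]
    obtain ⟨v, hv, e⟩ := site_of c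
    have hv' : ¬ OnHull S v := fun ho => hf j (H c v ho e)
    have h1 : rep hS c = v := rep_eq hv' hv e
    have hin : Inn hS c := ⟨v, hv, e, hv'⟩
    have h2 : v ∈ ff S (st A) := mem_ff.2 (fr_of_free hf hv e)
    have h3 : c ∈ Tc hS (T : Set ℂ) ↔ v ∈ T := by
      constructor
      · rintro ⟨w, hw, e'⟩
        have : w = v := quot_inner hS hv' (e.symm.trans e')
        rw [← this]
        exact hw
      · exact fun h => ⟨v, h, e⟩
    unfold scol toX
    rw [h1]
    by_cases h : v ∈ T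
    · rw [if_pos ⟨hin, Finset.mem_coe.2 ((hT v h2).2 h)⟩, if_pos (h3.2 h)]
    · rw [if_neg fun h' => h ((hT v h2).1 (Finset.mem_coe.1 h'.2)), if_neg fun h' => h (h3.1 h')]
  · rw [if_neg hf, if_neg hf]

/-- charge of the root chord of the pattern `k`, field `Nn` -/
def Vk (hS : GP (S : Set ℂ)) (A : ZMod 3 → Set (Cs hS)) (g : D0 S) (k : ZMod 3)
    (μ : Cs hS → ZMod 2) : ℂ :=
  if G : C2SBx395.Gi (rc0 hS) A then conj (Vs hS (pr A) (pr_con G) g (pk A k μ)) else 0

/-- displacement of the root chord of the pattern `k` -/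
def Wk (hS : GP (S : Set ℂ)) (A : ZMod 3 → Set (Cs hS)) (g : D0 S) (k : ZMod 3)
    (μ : Cs hS → ZMod 2) : ℂ :=
  if G : C2SBx395.Gi (rc0 hS) A then Ds hS (pr A) (pr_con G) g (pk A k μ) else 0

/-- **the two means for one pattern**, over the black free sites `T` -/
theorem mean_k {A : ZMod 3 → Set (Cs hS)} {g : D0 S} {k j : ZMod 3} {Z : ZMod 3 → ℂ}
    (Q : Pt hS k j A g (x0 A k) Z) (f : Finset ℂ → Finset ℂ)
    (hf : ∀ T ⊆ ff S (st A), ∀ v ∈ ff S (st A), (v ∈ f T ↔ v ∈ T)) :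
    (∑ T ∈ (ff S (st A)).powerset, Vk hS A g k (scol hS (f T : Set ℂ))) /
        2 ^ (ff S (st A)).card = om ^ k.val * conj (TZ Z) ∧
      (∑ T ∈ (ff S (st A)).powerset, Wk hS A g k (scol hS (f T : Set ℂ))) /
        2 ^ (ff S (st A)).card = Z (k + 2) - Z (k + 1) := by
  have h3 := card3 hS g
  have e : (fun j => Ey S (st A) id j) = Z := funext Q.ez
  have h1 := mean_V (hπ := pr_con Q.gi) Q.gi Q.hl Q.far Q.root (pr_cq Q.gi) Q.rc
  have h2 := mean_D (hπ := pr_con Q.gi) Q.gi Q.hl Q.far Q.root (pr_cq Q.gi) Q.rc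
  rw [ts_tz, e, pE_gx Q.hl h3] at h1
  rw [Q.ez, Q.ez, pE_gx Q.hl h3] at h2
  have g1 : ∀ T ∈ (ff S (st A)).powerset, pk A k (scol hS (f T : Set ℂ)) =
      gx A (x0 A k) (T : Set ℂ) := fun T hT =>
    pk_gx Q.hl k (hf T (Finset.mem_powerset.1 hT))
  constructor
  · have h4 := congrArg conj h1
    rw [map_div₀, map_sum, map_pow, map_mul, conj_omz] at h4
    rw [show (conj (2 : ℂ)) = 2 from Complex.conj_ofNat 2] at h4
    rw [show om ^ k.val = omz k from rfl, ← h4]
    congr 1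
    refine Finset.sum_congr rfl fun T hT => ?_
    unfold Vk
    rw [dif_pos Q.gi, g1 T hT]
  · rw [← h2]
    congr 1
    refine Finset.sum_congr rfl fun T hT => ?_
    unfold Wk
    rw [dif_pos Q.gi, g1 T hT]

/-! ### the choice of the ring -/

/-- ring data: first state, period, times of the three junctions -/
structure Dt (S : Finset ℂ) where
  p : D0 S
  N : ℕ
  r : ZMod 3 → ℕ

/-- giants of the pattern `k` -/
def dA (hS : GP (S : Set ℂ)) (dt : Finset ℂ → Dt S) (β : Finset ℂ) (k : ZMod 3) :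
    ZMod 3 → Set (Cs hS) :=
  AP (rc0 hS) (cfg (rc0 hS) (scol hS (β : Set ℂ))) (dt β).p (dt β).N (dt β).r k

/-- root gap of the pattern `k` -/
def dg (hS : GP (S : Set ℂ)) (dt : Finset ℂ → Dt S) (β : Finset ℂ) (k : ZMod 3) : D0 S :=
  gp (rc0 hS) (cfg (rc0 hS) (scol hS (β : Set ℂ))) (dt β).p ((dt β).r (k + 2))

/-- free sites -/
def dF (hS : GP (S : Set ℂ)) (dt : Finset ℂ → Dt S) (β : Finset ℂ) : Finset ℂ :=
  ff S (st (dA hS dt β 0))

/-- mean end points -/
def dZ (hS : GP (S : Set ℂ)) (dt : Finset ℂ → Dt S) (β : Finset ℂ) (l : ZMod 3) : ℂ :=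
  Ey S (st (dA hS dt β 0)) id l

/-- charge of the root chord -/
def dV (hS : GP (S : Set ℂ)) (dt : Finset ℂ → Dt S) (k : ZMod 3) (β : Finset ℂ) : ℂ :=
  Vk hS (dA hS dt β k) (dg hS dt β k) k (scol hS (β : Set ℂ))

/-- displacement of the root chord -/
def dW (hS : GP (S : Set ℂ)) (dt : Finset ℂ → Dt S) (k : ZMod 3) (β : Finset ℂ) : ℂ :=
  Wk hS (dA hS dt β k) (dg hS dt β k) k (scol hS (β : Set ℂ))

/-- the stopping set of the outside -/
def dJ (hS : GP (S : Set ℂ)) (dt : Finset ℂ → Dt S) (E : Finset ℂ → Prop) (β : Finset ℂ) :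
    Finset ℂ := if E β then S \ dF hS dt β else S

/-- **the ring data on the event `E`, decided by the outside** -/
structure Dta (hS : GP (S : Set ℂ)) (dt : Finset ℂ → Dt S) (E : Finset ℂ → Prop) : Prop where
  ring : ∀ β ⊆ S, E β → Rg3 (rc0 hS) (scol hS (β : Set ℂ)) (dt β).p (dt β).N (dt β).r
  hull : ∀ β ⊆ S, E β → ∀ c : Cs hS, ∀ v, OnHull S v → c.1 = Quot.mk (hullE S) v →
    c ∈ Wc (rc0 hS) (cfg (rc0 hS) (scol hS (β : Set ℂ))) (dt β).p
  far : ∀ β ⊆ S, E β → ∀ d : D0 S, OnHull S d.1.1 →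
    (rc0 hS).cell d ∈ Wc (rc0 hS) (cfg (rc0 hS) (scol hS (β : Set ℂ))) (dt β).p ∧
    (rc0 hS).cell ((rc0 hS).rho d) ∈ Wc (rc0 hS) (cfg (rc0 hS) (scol hS (β : Set ℂ))) (dt β).p ∧
    (rc0 hS).cell ((rc0 hS).rho ((rc0 hS).rho d)) ∈
      Wc (rc0 hS) (cfg (rc0 hS) (scol hS (β : Set ℂ))) (dt β).p
  ctr : ∀ β ⊆ S, E β → ∃ X, CtrX S (st (dA hS dt β 0)) X
  out : ∀ β ⊆ S, E β → ∀ β' ⊆ S, β' ∩ (S \ dF hS dt β) = β ∩ (S \ dF hS dt β) →
    E β' ∧ dt β' = dt β

variable {dt : Finset ℂ → Dt S} {E : Finset ℂ → Prop} {β β' : Finset ℂ}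

/-- colourings which agree off the free sites agree off the free cells -/
theorem agree {A : ZMod 3 → Set (Cs hS)}
    (h : β' ∩ (S \ ff S (st A)) = β ∩ (S \ ff S (st A))) {c : Cs hS} (hc : ¬ Free A c) :
    scol hS (β' : Set ℂ) c = scol hS (β : Set ℂ) c := by
  unfold scol
  by_cases hin : Inn hS c
  · obtain ⟨h1, h2, h3⟩ := rep_spec hin
    have h4 : rep hS c ∈ S \ ff S (st A) := by
      refine Finset.mem_sdiff.2 ⟨h1, fun h5 => hc ?_⟩
      exact free_of_fr (mem_ff.1 h5) h2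
    have h5 : rep hS c ∈ (β' : Set ℂ) ↔ rep hS c ∈ (β : Set ℂ) := by
      rw [Finset.mem_coe, Finset.mem_coe]
      constructor
      · intro h6
        have : rep hS c ∈ β' ∩ (S \ ff S (st A)) := Finset.mem_inter.2 ⟨h6, h4⟩
        rw [h] at this
        exact (Finset.mem_inter.1 this).1
      · intro h6
        have : rep hS c ∈ β ∩ (S \ ff S (st A)) := Finset.mem_inter.2 ⟨h6, h4⟩
        rw [← h] at this
        exact (Finset.mem_inter.1 this).1
    simp only [hin, h5]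
  · rw [if_neg fun h' => hin h'.1, if_neg fun h' => hin h'.1]

namespace Dta

variable (H : Dta hS dt E)

include H

/-- **the giants are decided by the outside** -/
theorem same (hβ : β ⊆ S) (hE : E β) (hβ' : β' ⊆ S)
    (h : β' ∩ (S \ dF hS dt β) = β ∩ (S \ dF hS dt β)) :
    E β' ∧ (∀ k, dA hS dt β' k = dA hS dt β k) ∧ (∀ k, dg hS dt β' k = dg hS dt β k) ∧
      dF hS dt β' = dF hS dt β := by
  obtain ⟨h1, h2⟩ := H.out β hβ hE β' hβ' h
  have X := H.ring β hβ hE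
  have h3 : ∀ c, ¬ Free (AP (rc0 hS) (cfg (rc0 hS) (scol hS (β : Set ℂ))) (dt β).p (dt β).N
      (dt β).r 0) c → scol hS (β' : Set ℂ) c = scol hS (β : Set ℂ) c := fun c hc => agree h hc
  have hA : ∀ k, dA hS dt β' k = dA hS dt β k := fun k => by
    unfold dA
    rw [h2]
    exact stab_ap X h3 k
  refine ⟨h1, hA, fun k => ?_, ?_⟩
  · unfold dg
    rw [h2]
    exact stab_gp X h3 _
  · unfold dF
    rw [hA]

/-- **the outside is a stopping set** -/
theorem stop : IsStop S (dJ hS dt E) where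
  sub := by
    intro β _
    unfold dJ
    split_ifs
    · exact Finset.sdiff_subset
    · exact le_rfl
  stop := by
    intro β β' hβ hβ' h
    unfold dJ at h ⊢
    by_cases hE : E β
    · rw [if_pos hE] at h ⊢
      obtain ⟨h1, -, -, h4⟩ := H.same hβ hE hβ' h.symm
      rw [if_pos h1, h4]
    · rw [if_neg hE] at h ⊢
      rw [Finset.inter_eq_left.2 hβ, Finset.inter_eq_left.2 hβ'] at h
      rw [← h, if_neg hE]

/-- the pattern `k` with the common mean end points -/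
theorem pt (hβ : β ⊆ S) (hE : E β) (k : ZMod 3) :
    Pt hS k k (dA hS dt β k) (dg hS dt β k) (x0 (dA hS dt β k) k) (dZ hS dt β) := by
  have X := H.ring β hβ hE
  have hh := H.hull β hβ hE
  obtain ⟨Y, hY⟩ := H.ctr β hβ hE
  refine ⟨X.gi k, hl_ap hh, far_ap (H.far β hβ hE), X.root k, X.rc k, fun l => ?_⟩
  unfold dZ
  have e0 : dA hS dt β 0 = _ := ap_eq 0
  have ek : dA hS dt β k = _ := ap_eq k
  have G0 := X.gi 0
  have Gk := X.gi k
  have R0 := X.root 0
  have Rk := X.root k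
  rw [e0] at hY
  rw [ap_eq] at G0 Gk R0 Rk
  rw [e0, ek]
  exact (StSx277.ey_same (rim X) G0 Gk R0 Rk hY id l).symm

theorem free_same (hβ : β ⊆ S) (hE : E β) (k : ZMod 3) :
    ff S (st (dA hS dt β k)) = dF hS dt β := by
  have X := H.ring β hβ hE
  have h3 := card3 hS (dg hS dt β k)
  unfold dF
  ext v
  rw [mem_ff, mem_ff]
  have := fr_ap h3 X k 0
  exact Set.ext_iff.1 this v

/-- **the equations of `MeanQ`** -/
theorem avc_eq (hβ : β ⊆ S) (hE : E β) (k : ZMod 3) :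
    avc S (dJ hS dt E β) (dV hS dt k) β = om ^ k.val * conj (TZ (dZ hS dt β)) ∧
      avc S (dJ hS dt E β) (dW hS dt k) β = dZ hS dt β (k + 2) - dZ hS dt β (k + 1) := by
  have Q := H.pt hβ hE k
  have hF := H.free_same hβ hE k
  have hsub : dF hS dt β ⊆ S := Finset.filter_subset _ _
  have hR : dJ hS dt E β = S \ dF hS dt β := if_pos hE
  have hSR : S \ (S \ dF hS dt β) = dF hS dt β := Finset.sdiff_sdiff_eq_self hsub
  have key : ∀ T ⊆ dF hS dt β, T ∪ (β ∩ (S \ dF hS dt β)) ⊆ S ∧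
      (T ∪ (β ∩ (S \ dF hS dt β))) ∩ (S \ dF hS dt β) = β ∩ (S \ dF hS dt β) := by
    intro T hT
    refine ⟨Finset.union_subset (hT.trans hsub) (Finset.inter_subset_left.trans hβ), ?_⟩
    ext v
    simp only [Finset.mem_inter, Finset.mem_union, Finset.mem_sdiff]
    constructor
    · rintro ⟨h1 | h1, h2⟩
      · exact absurd (hT h1) h2.2
      · exact h1
    · exact fun h1 => ⟨Or.inr h1, h1.2⟩
  have hm := mean_k Q (fun T => T ∪ (β ∩ (S \ dF hS dt β))) (by
    intro T hT v hv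
    rw [hF] at hv
    rw [Finset.mem_union, Finset.mem_inter, Finset.mem_sdiff]
    exact ⟨fun h => h.resolve_right fun h' => h'.2.2 hv, Or.inl⟩)
  rw [hF] at hm
  constructor
  · rw [← hm.1, div_eq_inv_mul]
    unfold avc
    rw [hR, hSR]
    congr 1
    refine Finset.sum_congr rfl fun T hT => ?_
    obtain ⟨h1, h2⟩ := key T (Finset.mem_powerset.1 hT)
    obtain ⟨-, h4, h5, -⟩ := H.same hβ hE h1 h2
    unfold dV
    rw [h4, h5]
  · rw [← hm.2, div_eq_inv_mul]
    unfold avc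
    rw [hR, hSR]
    congr 1
    refine Finset.sum_congr rfl fun T hT => ?_
    obtain ⟨h1, h2⟩ := key T (Finset.mem_powerset.1 hT)
    obtain ⟨-, h4, h5, -⟩ := H.same hβ hE h1 h2
    unfold dW
    rw [h4, h5]

end Dta

end sites

end Crest.Agent.R143.S1x828
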