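import Crest.Agent.R143.RingT_715
import Crest.Agent.R143.RingT_263
import Crest.Agent.R143.CtrH_277
import Crest.Agent.R143.S1_828
import Crest.Agent.R143.KapA_690

/-!
# Row 143 (S0194), block H, H5 (S2): the ring of tubes on the sites (helper715)

* **`dr_tl`** : 117's `DRing` with all arcs forward ⟹ gate times `T`, `Lp`, tiles `TL` (cells of the
  sites of `B k`), `CutC`, on `cm0 hS`
* **`dr_rc0`** : the same on `rc0 hS` with the block `g₀` and a gap in every tile (`GT`)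
* `st_gc` : the sites of 828's `Gc j` are in `B k`, `k` in the arc `j`
* `rr_tr` : translation of the path; **`near_of`** : square ring, `B k = RR A B h W (o - 1 - k)`,
  `W = sqW K + v₀`: the sites of `Gc j` are in `NearS`
* **`hl_dz`** : 690's `Hl` for 828's mean end points `dZ`
* `near_norm` : 277's `hin`
-/

set_option autoImplicit false
set_option linter.unusedSectionVars false

noncomputable section

open scoped Classical

namespace Crest.Agent.R143.HullSx715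

open Crest.Agent.R143.B0x346 Crest.Agent.R143.DelGx806 Crest.Agent.R143.DelRx806
  Crest.Agent.R143.JColx54
open Crest.Agent.R143.Frame1x395 Crest.Agent.R143.Frame2x395 Crest.Agent.R143.Frame3x395
  Crest.Agent.R143.Frame4x395 Crest.Agent.R143.Frame8x395 Crest.Agent.R143.Frame9x395
  Crest.Agent.R143.Frame10x395 Crest.Agent.R143.Frame11x395 Crest.Agent.R143.NonXx592
open Crest.Agent.R143.Frame5x395 (sd mem_sd th th_spec)
open Crest.Agent.R143.Junx43 (St rc)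
open Crest.Agent.R143.Patx828 Crest.Agent.R143.HullKx715 Crest.Agent.R143.RingMx715
  Crest.Agent.R143.RingNx715 Crest.Agent.R143.RingOx715 Crest.Agent.R143.HullGx715
open Crest.Agent.R143.Splx117 (FA CutC cut_of_links)
open Crest.Agent.R143.RingDx117 (RD DRing)
open Crest.Agent.R143.RingTx263 (RgC rgc_disj)
open Crest.Agent.R143.WLocx713
open Crest.Agent.R143.FinCx811 (Cs rc0)
open Crest.Agent.R143.TileRx228 Crest.Agent.R143.SqPx503

variable {S : Finset ℂ} {χ : ℂ → ZMod 2} {hS : GP (S : Set ℂ)} {hχ : HullC S χ} {n : ℕ}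
  {y z : ℕ → ℂ} {A B : ℕ → Set ℂ} {p : ℕ → D0 S}

/-! ### gate times on `cm0 hS` -/

/-- **gate times, tiles and the cut property of a ring of tubes** -/
theorem dr_tl (R : DRing hS hχ n y z A B p)
    (hf : ∀ k, FA (cm0 hS) (xc hS hχ) (RD S (B k)) (p k) (p (k + 1)))
    (hB : ∀ k j, 2 ≤ j → j + 2 ≤ n → Disjoint (B k) (B (k + j))) :
    ∃ T : ℕ → ℕ, Chordx355.Lp (cm0 hS) (xc hS hχ) (p 0) (T n) ∧
      TL (cm0 hS) (xc hS hχ) (p 0) (T n) n T (fun k => RgC S (B k)) ∧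
      CutC (cm0 hS) (xc hS hχ) (p 0) T n ∧
      (∀ k, P (cm0 hS) (xc hS hχ) (p 0) (T k) = p k) ∧
      ∀ k i, T k ≤ i → i ≤ T (k + 1) → P (cm0 hS) (xc hS hχ) (p 0) i ∈ RD S (B k) := by
  have hn := R.n3
  have Rr := R.ring
  obtain ⟨T, L, T0, Ts, Tlt, Tp, TR⟩ := Rr.fwd hf
  have hmono : StrictMono T := strictMono_nat_of_lt_succ Tlt
  have hper : ∀ k, T (k + n) = T k + T n := by
    intro k
    induction k with
    | zero => rw [Nat.zero_add, T0, Nat.zero_add]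
    | succ k ih =>
      rw [show k + 1 + n = k + n + 1 by omega, Ts, Ts, ih, Rr.perp,
        show k + n + 1 = k + 1 + n by omega, Rr.perp]
      omega
  have hS1 : ∀ i, (P (cm0 hS) (xc hS hχ) (p 0) i).1.1 ∈ S := fun i =>
    (mem_delT.1 (th_spec (P (cm0 hS) (xc hS hχ) (p 0) i).2)).1
  have hS2 : ∀ i, (P (cm0 hS) (xc hS hχ) (p 0) i).1.2 ∈ S := fun i =>
    (mem_delT.1 (th_spec (P (cm0 hS) (xc hS hχ) (p 0) i).2)).2.1
  have hst : ∀ k i, T k ≤ i → i ≤ T (k + 1) →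
      P (cm0 hS) (xc hS hχ) (p 0) i ∈ RD S (B k) := TR
  have hgen : ∀ i, Gen (cm0 hS) (Splx117.lc (cm0 hS) (xc hS hχ) (p 0) i) := by
    intro i
    obtain ⟨k, hk⟩ : ∃ k, T k ≤ i ∧ i ≤ T (k + 1) := by
      have h1 : ∃ k, i < T k := ⟨i + 1, lt_of_lt_of_le (Nat.lt_succ_self i) (hmono.id_le _)⟩
      have h2 := Nat.find_spec h1
      have h3 : Nat.find h1 ≠ 0 := by
        intro h
        rw [h, T0] at h2
        omega
      refine ⟨Nat.find h1 - 1, ?_, ?_⟩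
      · have := Nat.find_min h1 (m := Nat.find h1 - 1) (by omega)
        omega
      · rw [Nat.sub_add_cancel (by omega)]
        omega
    exact gen_inner hS (R.innB k _ (hS1 i) (hst k i hk.1 hk.2).1)
  have lcT : ∀ k, Splx117.lc (cm0 hS) (xc hS hχ) (p 0) (T k) = (cm0 hS).cell (p k) := by
    intro k
    unfold Splx117.lc
    rw [Tp]
  refine ⟨T, lp355 L, ⟨hmono, T0, hper, fun k => ?_, fun k t h1 h2 => ?_, fun k j h1 h2 => ?_⟩,
    ?_, Tp, hst⟩
  · show RgC S (B (k + n)) = RgC S (B k)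
    rw [R.perB]
  · have h3 := hst k t h1 h2
    exact ⟨⟨_, hS1 t, h3.1, rfl⟩, ⟨_, hS2 t, h3.2, rfl⟩⟩
  · exact rgc_disj hS (R.innB k) (hB k j h1 h2)
  · refine cut_of_links L hgen le_rfl (fun k _ => (Tlt k).le) ?_
    intro k k' c h1 h2
    have h3 := R.links k k' c h1 h2
    have l0 : Splx117.lc (cm0 hS) (xc hS hχ) (p 0) 0 = (cm0 hS).cell (p 0) := rfl
    rw [lcT, lcT, lcT, lcT, l0]
    exact h3

/-! ### `rc0 hS` -/

theorem tl_rc0 {x : D0 S → ZMod 2} {q : D0 S} {N : ℕ} {T : ℕ → ℕ}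
    {Reg : ℕ → Set (Quot (hullE S))} (R : TL (cm0 hS) x q N n T Reg) :
    TL (rc0 hS) x q N n T fun k => {c : Cs hS | c.1 ∈ Reg k} where
  mono := R.mono
  zero := R.zero
  per := R.per
  perR k := by
    show {c : Cs hS | c.1 ∈ Reg (k + n)} = {c : Cs hS | c.1 ∈ Reg k}
    rw [R.perR]
  tile k t h1 h2 := R.tile k t h1 h2
  dis k j h1 h2 := by
    rw [Set.disjoint_left]
    intro c hc hc'
    exact Set.disjoint_left.1 (R.dis k j h1 h2) hc hc'

theorem lp_rc0 {x : D0 S → ZMod 2} {q : D0 S} {N : ℕ} (L : Chordx355.Lp (cm0 hS) x q N) :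
    Chordx355.Lp (rc0 hS) x q N := ⟨Mass3x302.isC_restr.2 L.ev, L.occ, L.pos, L.per, L.inj⟩

theorem cut_rc0 {x : D0 S → ZMod 2} {q : D0 S} {T : ℕ → ℕ} (H : CutC (cm0 hS) x q T n) :
    CutC (rc0 hS) x q T n := by
  intro k k' h1 h2 u v h3 h4 h5 h6 e
  rcases H k k' h1 h2 u v h3 h4 h5 h6 (congrArg Subtype.val e) with ⟨g1, g2⟩ | ⟨g1, g2, g3⟩
  · exact Or.inl ⟨g1, Subtype.ext g2⟩
  · exact Or.inr ⟨g1, g2, Subtype.ext g3⟩

/-- **the ring of tubes on `rc0 hS`** : loop, tiles, one block with a gap in every tile -/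
theorem dr_rc0 (R : DRing hS hχ n y z A B p)
    (hf : ∀ k, FA (cm0 hS) (xc hS hχ) (RD S (B k)) (p k) (p (k + 1)))
    (hB : ∀ k j, 2 ≤ j → j + 2 ≤ n → Disjoint (B k) (B (k + j))) :
    ∃ (T : ℕ → ℕ) (g₀ : D0 S), Chordx355.Lp (rc0 hS) (xc hS hχ) (p 0) (T n) ∧
      TL (rc0 hS) (xc hS hχ) (p 0) (T n) n T (fun k => {c : Cs hS | c.1 ∈ RgC S (B k)}) ∧
      Gp (rc0 hS) (xc hS hχ) g₀ ∧
      GT n T (St (rc0 hS) (xc hS hχ) (p 0) (T n) g₀) ∧
      (∀ k, P (rc0 hS) (xc hS hχ) (p 0) (T k) = p k) ∧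
      ∀ k i, T k ≤ i → i ≤ T (k + 1) → P (rc0 hS) (xc hS hχ) (p 0) i ∈ RD S (B k) := by
  obtain ⟨T, L, H, hc, Tp, hst⟩ := dr_tl R hf hB
  have hn := R.n3
  obtain ⟨g₀, h1, h2⟩ := gt_of (lp_rc0 L) (tl_rc0 H) (by omega) (cut_rc0 hc) (fun k _ e => by
    apply R.neC k
    have e' := congrArg Subtype.val e
    have e1 : (cm0 hS).cell (P (cm0 hS) (xc hS hχ) (p 0) (T k)) =
      (cm0 hS).cell (P (cm0 hS) (xc hS hχ) (p 0) (T (k + 1))) := e'
    rw [Tp, Tp] at e1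
    exact e1)
  exact ⟨T, g₀, lp_rc0 L, tl_rc0 H, h1, h2, Tp, hst⟩

/-! ### sites of the arcs -/

open Crest.Agent.R143.C2SCx395 Crest.Agent.R143.NetUx346
open Crest.Agent.R143.K33x877 (CtrX)

variable {x : D0 S → ZMod 2} {P₀ : D0 S} {N m s : ℕ} {T : ℕ → ℕ} {q r : ZMod 3 → ℕ}
  {j : ZMod 3} {v w : ℂ}

/-- **the sites of the arc `j` are in the regions of its tiles** -/
theorem st_gc (R : TL (rc0 hS) x P₀ N n T fun k => {c : Cs hS | c.1 ∈ RgC S (B k)})
    (hin : ∀ k, ∀ v ∈ S, v ∈ B k → ¬ OnHull S v) (K : Mko n T m q s r)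
    (h : v ∈ st (Gc (rc0 hS) x (P (rc0 hS) x P₀ m) N r) j) : ∃ k, Rt n q s j k ∧ v ∈ B k := by
  obtain ⟨-, c, hc, e⟩ := h
  obtain ⟨k, hk, v', hv', hB, e'⟩ := gc_reg_o R K hc
  refine ⟨k, hk, ?_⟩
  have : v = v' := quot_inner hS (hin k v' hv' hB) (e'.trans e)
  rw [this]
  exact hB

/-! ### the square -/

theorem cz_add (a b : ℤ × ℤ) : cz (a + b) = cz a + cz b := by
  apply Complex.ext <;> simp [cz]

/-- translation of the path -/
theorem rr_tr {A B h : ℝ} {W : ℤ → ℤ × ℤ} {v₀ : ℤ × ℤ} {a : ℤ}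
    (hv : v ∈ RR A B h (fun a => W a + v₀) a) : v - h * cz v₀ ∈ RR A B h W a := by
  have hc : cen h (fun a => W a + v₀) a = cen h W a + h * cz v₀ := by
    unfold cen
    rw [cz_add]
    ring
  have key : ∀ u : ℂ, v ∈ Arm A B (cen h (fun a => W a + v₀) a) u →
      v - h * cz v₀ ∈ Arm A B (cen h W a) u := by
    intro u hu
    have e : v - h * cz v₀ - cen h W a = v - cen h (fun a => W a + v₀) a := by
      rw [hc]
      ring
    have h1 : Gatex838.X (cen h W a) u (v - h * cz v₀) =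
        Gatex838.X (cen h (fun a => W a + v₀) a) u v := by
      unfold Gatex838.X
      rw [e]
    have h2 : Gatex838.Y (cen h W a) u (v - h * cz v₀) =
        Gatex838.Y (cen h (fun a => W a + v₀) a) u v := by
      unfold Gatex838.Y
      rw [e]
    obtain ⟨⟨h3, h4⟩, h5⟩ := hu
    refine ⟨⟨?_, ?_⟩, ?_⟩
    · rw [h1]; exact h3
    · rw [h1]; exact h4
    · rw [h2]; exact h5
  have e1 : W (a - 1) + v₀ - (W a + v₀) = W (a - 1) - W a := by abel
  have e2 : W (a + 1) + v₀ - (W a + v₀) = W (a + 1) - W a := by abel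
  rcases hv with hv | hv
  · left
    have h1 := key _ hv
    simp only [e1] at h1
    exact h1
  · right
    have h1 := key _ hv
    simp only [e2] at h1
    exact h1

/-- the tiles of the arc `j` are near the side `j` : base gate `o`, `q = (o, o + K, o + 2 K)` -/
theorem rt_near {K o k : ℕ} {A B h : ℝ} (hK : 1 ≤ K) (q0 : q 0 = o) (q1 : q 1 = o + K)
    (q2 : q 2 = o + 2 * K) (hk : Rt (4 * K) q s j k)
    (hv : v ∈ RR A B h (sqW K) ((o : ℤ) - 1 - k)) : v ∈ NearS K A B h s j := by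
  have hK' : (1 : ℤ) ≤ K := by exact_mod_cast hK
  -- the nearest index of the side
  have key : ∀ a : ℤ, ∀ lo hi : ℤ, lo ≤ hi → lo - s ≤ a → a ≤ hi + s →
      ∃ c, lo ≤ c ∧ c ≤ hi ∧ |(a : ℝ) - c| ≤ s := by
    intro a lo hi h1 h2 h3
    rcases lt_or_ge a lo with h4 | h4
    · refine ⟨lo, le_rfl, h1, ?_⟩
      rw [abs_le]
      have e1 : (lo : ℝ) - s ≤ a := by exact_mod_cast h2
      have e2 : (a : ℝ) ≤ lo := by exact_mod_cast h4.le
      constructor <;> linarith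
    · rcases lt_or_ge hi a with h5 | h5
      · refine ⟨hi, h1, le_rfl, ?_⟩
        rw [abs_le]
        have e1 : (a : ℝ) ≤ hi + s := by exact_mod_cast h3
        have e2 : (hi : ℝ) ≤ a := by exact_mod_cast h5.le
        constructor <;> linarith
      · refine ⟨a, h4, h5, ?_⟩
        rw [sub_self, abs_zero]
        positivity
  rcases z3e j with rfl | rfl | rfl
  · rw [rt0] at hk
    obtain ⟨c, c1, c2, c3⟩ := key ((o : ℤ) - 1 - k) (-K) 0 (by omega) (by omega) (by omega)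
    refine ⟨_, c, hv, ?_, c3⟩
    unfold Side
    rw [if_pos rfl]
    rcases eq_or_lt_of_le c2 with h1 | h1
    · right
      rw [h1]
      exact Int.zero_emod _
    · left
      have : c % (4 * (K : ℤ)) = c + 4 * K := by
        rw [← Int.add_emod_right, Int.emod_eq_of_lt (by omega) (by omega)]
      omega
  · rw [rt1] at hk
    obtain ⟨c, c1, c2, c3⟩ := key ((o : ℤ) - 1 - k) (-2 * K) (-K) (by omega) (by omega)
      (by omega)
    refine ⟨_, c, hv, ?_, c3⟩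
    unfold Side
    rw [if_neg (by decide), if_pos rfl]
    have : c % (4 * (K : ℤ)) = c + 4 * K := by
      rw [← Int.add_emod_right, Int.emod_eq_of_lt (by omega) (by omega)]
    omega
  · rw [rt2] at hk
    obtain ⟨c, c1, c2, c3⟩ := key ((o : ℤ) - 1 - k) (-4 * K) (-2 * K) (by omega) (by omega)
      (by omega)
    refine ⟨_, c, hv, ?_, c3⟩
    unfold Side
    rw [if_neg (by decide), if_neg (by decide)]
    have : c % (4 * (K : ℤ)) = c + 4 * K := by
      rw [← Int.add_emod_right, Int.emod_eq_of_lt (by omega) (by omega)]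
    omega

/-- **the sites of the arc `j` of the square ring are near the side `j`** (`w = h v₀` = corner) -/
theorem near_of {K o : ℕ} {A B h : ℝ} {v₀ : ℤ × ℤ} (hK : 1 ≤ K) (q0 : q 0 = o)
    (q1 : q 1 = o + K) (q2 : q 2 = o + 2 * K)
    (R : TL (rc0 hS) x P₀ N (4 * K) T fun k : ℕ =>
      {c : Cs hS | c.1 ∈ RgC S (RR A B h (fun a => sqW K a + v₀) ((o : ℤ) - 1 - k))})
    (hin : ∀ a, ∀ v ∈ S, v ∈ RR A B h (fun a => sqW K a + v₀) a → ¬ OnHull S v)
    (H : Mko (4 * K) T m q s r)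
    (hv : v ∈ st (Gc (rc0 hS) x (P (rc0 hS) x P₀ m) N r) j) :
    v - h * cz v₀ ∈ NearS K A B h s j := by
  obtain ⟨k, hk, h1⟩ := st_gc (B := fun k : ℕ => RR A B h (fun a => sqW K a + v₀)
    ((o : ℤ) - 1 - k)) R (fun k v hv h => hin _ v hv h) H hv
  exact rt_near hK q0 q1 q2 hk (rr_tr h1)

/-- **the size of the ring** -/
theorem near_norm {K : ℕ} (hK : 1 ≤ K) {A B h jj : ℝ} (hh : 0 ≤ h) (hAB : A ≤ B)
    (hv : v ∈ NearS K A B h jj j) :
    ‖v - ⟨h * K / 2, h * K / 2⟩‖ ≤ h * K + 2 * (B + h * jj) := by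
  obtain ⟨c, -, h1, h2⟩ := nearS_coord hK hh hAB hv
  have hK' : (1 : ℤ) ≤ K := by exact_mod_cast hK
  have hc : 0 ≤ (sqW K c).1 ∧ (sqW K c).1 ≤ K ∧ 0 ≤ (sqW K c).2 ∧ (sqW K c).2 ≤ K := by
    have h0 := Int.emod_nonneg c (show (4 * K : ℤ) ≠ 0 by omega)
    have h1 := Int.emod_lt_of_pos c (show (0 : ℤ) < 4 * K by omega)
    unfold sqW sq0
    split_ifs <;> refine ⟨?_, ?_, ?_, ?_⟩ <;> simp only [] <;> omega
  obtain ⟨a1, a2, a3, a4⟩ := hc
  have b1 : (0 : ℝ) ≤ h * (sqW K c).1 := mul_nonneg hh (by exact_mod_cast a1)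
  have b2 : h * ((sqW K c).1 : ℝ) ≤ h * K := mul_le_mul_of_nonneg_left (by exact_mod_cast a2) hh
  have b3 : (0 : ℝ) ≤ h * (sqW K c).2 := mul_nonneg hh (by exact_mod_cast a3)
  have b4 : h * ((sqW K c).2 : ℝ) ≤ h * K := mul_le_mul_of_nonneg_left (by exact_mod_cast a4) hh
  obtain ⟨c1, c2⟩ := abs_le.1 h1
  obtain ⟨c3, c4⟩ := abs_le.1 h2
  refine (Complex.norm_le_abs_re_add_abs_im _).trans ?_
  have d1 : |(v - (⟨h * K / 2, h * K / 2⟩ : ℂ)).re| ≤ h * K / 2 + (B + h * jj) := by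
    rw [Complex.sub_re, abs_le]
    constructor <;> simp only <;> linarith
  have d2 : |(v - (⟨h * K / 2, h * K / 2⟩ : ℂ)).im| ≤ h * K / 2 + (B + h * jj) := by
    rw [Complex.sub_im, abs_le]
    constructor <;> simp only <;> linarith
  linarith

/-! ### the mean end points -/

open Crest.Agent.R143.S1x828 (Dt Dta dA dZ)
open Crest.Agent.R143.Freshx829 (scol)

/-- **690's `Hl` for 828's mean end points** -/
theorem hl_dz {dt : Finset ℂ → Dt S} {E : Finset ℂ → Prop} (H : Dta hS dt E) {β : Finset ℂ}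
    (hβ : β ⊆ S) (hE : E β) {K : ℕ} (hK : 1 ≤ K) {A B h jj : ℝ} (hh : 0 ≤ h) (hAB : A ≤ B)
    (hn : ∀ i, ∀ v ∈ st (Gc (rc0 hS) (cfg (rc0 hS) (scol hS (β : Set ℂ))) (dt β).p (dt β).N
      (dt β).r) i, v - w ∈ NearS K A B h jj i) :
    KapAx690.Hl w (h * K) (2 * (B + h * jj)) (fun i : Fin 3 => dZ hS dt β i) := by
  have X := H.ring β hβ hE
  have hh' := H.hull β hβ hE
  obtain ⟨Y, hY⟩ := H.ctr β hβ hE
  have G0 := X.gi 0
  have R0 := X.root 0
  have hX : Hex S (st (dA hS dt β 0)) := hex G0 (hl_ap hh') R0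
  have e0 : dA hS dt β 0 = _ := S1x828.ap_eq 0
  rw [S1x828.ap_eq] at G0 R0
  rw [e0] at hY
  have hit : ∀ i, ∀ T' ⊆ ff S (st (dA hS dt β 0)), ∃ s ∈ NearS K A B h jj i,
      hv S (st (dA hS dt β 0)) i (T' : Set ℂ) = w + s := by
    intro i T' hT'
    obtain ⟨t, ht, -⟩ := hX i T' hT'
    rw [hv_eq hX hT' ht]
    rw [e0] at ht
    have h1 := CtrHx277.hitO_K (S1x828.rim X) G0 R0 hY ht
    exact ⟨t.1 - w, hn i _ h1, by ring⟩
  obtain ⟨h0, h1, h2⟩ := tri_ey (z0 := w) hX hK hh hAB hit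
  refine ⟨h0, ?_, h2⟩
  obtain ⟨y, y1, y2, y3⟩ := h1
  refine ⟨y, y1, y2, ?_⟩
  push_cast
  push_cast at y3
  exact y3

end Crest.Agent.R143.HullSx715
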