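import Crest.Agent.R143.RingJ_503
import Crest.Agent.R143.RingT_263
import Crest.Agent.R143.RWr_355

/-!
# Row 143 (S0194), block H: one family of gate times of the closed ring (helper503)

* **`Clo.times`** : one `T` with 263's `RQ` (regions `FR S Q`), 355's `RLW` (two-sided tiles),
  `P (T k) = pz (o - k)`, confinement and `KS = ZZ`
-/

set_option autoImplicit false

noncomputable section

open scoped Classical

namespace Crest.Agent.R143.RingIx503

open Set
open Crest.Agent.R143.B0x346 Crest.Agent.R143.DelGx806 Crest.Agent.R143.DelRx806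
open Crest.Agent.R143.Frame1x395 Crest.Agent.R143.Frame2x395 Crest.Agent.R143.Frame3x395
  Crest.Agent.R143.Frame4x395 Crest.Agent.R143.Frame8x395 Crest.Agent.R143.Frame9x395
  Crest.Agent.R143.Frame10x395 Crest.Agent.R143.Frame11x395
open Crest.Agent.R143.Frame5x395 (sd mem_sd th th_spec)
open Crest.Agent.R143.Splx117 (FA Ring rtg_symm)
open Crest.Agent.R143.WLocx713 Crest.Agent.R143.RingDx117 Crest.Agent.R143.CorrDx117
open Crest.Agent.R143.Circx63
open Crest.Agent.R143.Gatex838 (X Y)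
open Crest.Agent.R143.TileRx228 Crest.Agent.R143.PathDx503 Crest.Agent.R143.PathGx503
open Crest.Agent.R143.ConfTx503 Crest.Agent.R143.RingPx503 Crest.Agent.R143.CorPx503
open Crest.Agent.R143.Neckx921 Crest.Agent.R143.OrientFx881
open Crest.Agent.R143.NonXx592 (P)
open Crest.Agent.R143.Winx355 (RL)
open Crest.Agent.R143.RingTx263 (QR FR RgC)
open Crest.Agent.R143.PotPx263 Crest.Agent.R143.PotKx263
open Crest.Agent.R143.RWrx355 (RLW)
open Crest.Agent.R143.Splx117 (KS ZZ)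

variable {S V β : Finset ℂ} {χ : ℂ → ZMod 2} {h A B A' B' m m' τ κ bb : ℝ} {a0 a1 b0 b1 : ℝ}
  {M : ℕ} {W : ℤ → ℤ × ℤ} {y x : ℤ → ℂ} {U : Set ℂ}

namespace Clo

variable (H : Clo S V β χ h A B A' B' κ bb a0 a1 b0 b1 m m' τ M W y x U)

/-- **gate times**: 263's `RQ` and 355's `RLW` with the same times -/
theorem times (hS : GP (S : Set ℂ)) (hχ : HullC S χ) (o : ℤ) {Q : ℕ → Set ℂ}
    (HQ : QR S M (fun k => RR (A + τ) (B + τ) h W (o - 1 - k)) Q) :
    ∃ T : ℕ → ℕ, RQ (cm0 hS) (xc hS hχ) (pz hχ H o) (T M) M T (FR S Q) ∧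
      RLW (cm0 hS) (lift S hχ) (pz hχ H o) (T M) M T
        (fun k => cl S (RR (A + τ) (B + τ) h W (o - 1 - k))) ∧
      (∀ k, P (cm0 hS) (xc hS hχ) (pz hχ H o) (T k) = pz hχ H (o - k)) ∧
      (∀ k t, T k ≤ t → t ≤ T (k + 1) →
        P (cm0 hS) (xc hS hχ) (pz hχ H o) t ∈ RD S (RR (A + τ) (B + τ) h W (o - 1 - k))) ∧
      ∀ {E : Type} [AddCommMonoid E] (w : D0 S → E) (k : ℕ),
        KS (cm0 hS) (xc hS hχ) (pz hχ H o) w (T k) (T (k + 1)) =
          ZZ (cm0 hS) (xc hS hχ) w (RD S (RR (A + τ) (B + τ) h W (o - 1 - k)))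
            (pz hχ H (o - k)) (pz hχ H (o - ((k + 1 : ℕ) : ℤ))) := by
  have N := H.N
  have hA0 : 0 < A' := by have := N.A0; have := N.hA2; have := N.m0; have := N.mτ; linarith
  have R := H.dringF hS hχ o
  have e0 : pz hχ H (o - ((0 : ℕ) : ℤ)) = pz hχ H o := by rw [Nat.cast_zero, sub_zero]
  obtain ⟨T, h1, h2, h3, h4, h5⟩ := RingTx263.times R (fun k => H.fwd hS hχ o k) HQ
    (fun k j hj hj' => by
      show Disjoint (RR (A + τ) (B + τ) h W (o - 1 - k))
        (RR (A + τ) (B + τ) h W (o - 1 - ((k + j : ℕ) : ℤ)))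
      refine dsj_mono N.hA2 N.hB2 (dsj_of H.F hA0 N.hAB N.hh) _ _ ?_ ?_ ?_
      · exact not_dvd_of (by push_cast; omega) (by push_cast; omega) (by push_cast; omega)
      · exact not_dvd_of (by push_cast; omega) (by push_cast; omega) (by push_cast; omega)
      · exact not_dvd_of (by push_cast; omega) (by push_cast; omega) (by push_cast; omega))
  simp only [e0] at h1 h2 h3 h4
  refine ⟨T, h1, ⟨h2, H.cy o, fun k t hk hk' => ?_⟩, h3, h4, ?_⟩
  · have h6 := h4 k t hk hk'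
    have h7 := mem_delT.1 (th_spec (P (cm0 hS) (xc hS hχ) (pz hχ H o) t).2)
    exact ⟨⟨_, h7.1, h6.1, rfl⟩, ⟨_, h7.2.1, h6.2, rfl⟩⟩
  · intro E _ w k
    have h6 := h5 w k
    simp only [e0] at h6
    exact h6

end Clo

end Crest.Agent.R143.RingIx503
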