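import Crest.Agent.R143.RingU_715
import Crest.Agent.R143.HullS_715
import Crest.Agent.R143.RingI2_503
import Crest.Agent.R143.DtaG_277

/-!
# Row 143 (S0194), block H, H5: the ring of 503's `Clo` on `rc0 hS` (helper715)

* `Rg` : cells of the sites of the tile `o - 1 - k`; **`Lo`**, `lo` : loop, gate times, tiles, one block
  with a gap in every tile
* `Lo.near` : the sites of the arcs are near the sides (square); `XR`, `Lo.xk` : the states of a tile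
* **`Lo.ring`** : starts and marks (`Jn`) ⟹ `Rg3`, near, centre (277's `Geo`) for every pattern
-/

set_option autoImplicit false
set_option linter.unusedSectionVars false

noncomputable section

open scoped Classical

namespace Crest.Agent.R143.CloIx715

open Crest.Agent.R143.B0x346 Crest.Agent.R143.DelGx806 Crest.Agent.R143.DelRx806
  Crest.Agent.R143.JColx54
open Crest.Agent.R143.Frame1x395 Crest.Agent.R143.Frame2x395 Crest.Agent.R143.Frame3x395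
  Crest.Agent.R143.Frame4x395 Crest.Agent.R143.Frame8x395 Crest.Agent.R143.Frame9x395
  Crest.Agent.R143.Frame10x395 Crest.Agent.R143.Frame11x395 Crest.Agent.R143.NonXx592
  Crest.Agent.R143.C2SCx395 Crest.Agent.R143.C2SDx395
open Crest.Agent.R143.Frame5x395 (sd mem_sd th th_spec)
open Crest.Agent.R143.Junx43 (St rc)
open Crest.Agent.R143.Patx828 Crest.Agent.R143.HullKx715 Crest.Agent.R143.RingMx715
  Crest.Agent.R143.RingNx715 Crest.Agent.R143.RingOx715 Crest.Agent.R143.RingTx715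
  Crest.Agent.R143.RingUx715 Crest.Agent.R143.HullGx715 Crest.Agent.R143.HullSx715
open Crest.Agent.R143.Splx117 (FA)
open Crest.Agent.R143.RingDx117 (RD DRing)
open Crest.Agent.R143.RingTx263 (RgC)
open Crest.Agent.R143.WLocx713
open Crest.Agent.R143.FinCx811 (Cs rc0)
open Crest.Agent.R143.TileRx228 Crest.Agent.R143.SqPx503 Crest.Agent.R143.PathDx503
  Crest.Agent.R143.PathGx503 Crest.Agent.R143.RingPx503 Crest.Agent.R143.RingIx503
  Crest.Agent.R143.ConfTx503 Crest.Agent.R143.CorPx503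
open Crest.Agent.R143.K33x877 (CtrX)
open Crest.Agent.R143.DtaGx277 (Geo)

variable {S V β : Finset ℂ} {χ : ℂ → ZMod 2} {h A B A' B' κ bb m m' τ : ℝ} {a0 a1 b0 b1 : ℝ}
  {n K : ℕ} {W : ℤ → ℤ × ℤ} {y x : ℤ → ℂ} {U : Set ℂ}
  {hS : GP (S : Set ℂ)} {hχ : HullC S χ}

/-- cells of the tile `o - 1 - k` -/
def Rg (hS : GP (S : Set ℂ)) (A B h : ℝ) (W : ℤ → ℤ × ℤ) (o : ℤ) (k : ℕ) : Set (Cs hS) :=
  {c | c.1 ∈ RgC S (RR A B h W (o - 1 - k))}

/-- **the ring loop of `Clo` on `rc0 hS`**, base gate `o` -/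
structure Lo (H : Clo S V β χ h A B A' B' κ bb a0 a1 b0 b1 m m' τ n W y x U)
    (hS : GP (S : Set ℂ)) (hχ : HullC S χ) (o : ℤ) (T : ℕ → ℕ) (g₀ : D0 S) : Prop where
  L : Chordx355.Lp (rc0 hS) (xc hS hχ) (pz hχ H o) (T n)
  R : TL (rc0 hS) (xc hS hχ) (pz hχ H o) (T n) n T (Rg hS (A + τ) (B + τ) h W o)
  g : Gp (rc0 hS) (xc hS hχ) g₀
  G : GT n T (St (rc0 hS) (xc hS hχ) (pz hχ H o) (T n) g₀)
  Tp : ∀ k, P (rc0 hS) (xc hS hχ) (pz hχ H o) (T k) = pz hχ H (o - k)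
  TR : ∀ k i, T k ≤ i → i ≤ T (k + 1) →
    P (rc0 hS) (xc hS hχ) (pz hχ H o) i ∈ RD S (RR (A + τ) (B + τ) h W (o - 1 - k))

theorem lo (H : Clo S V β χ h A B A' B' κ bb a0 a1 b0 b1 m m' τ n W y x U)
    (hS : GP (S : Set ℂ)) (hχ : HullC S χ) (o : ℤ) : ∃ T g₀, Lo H hS hχ o T g₀ := by
  have N := H.N
  have hA0 : 0 < A' := by have := N.A0; have := N.hA2; have := N.m0; have := N.mτ; linarith
  have R := H.dringF hS hχ o
  have e0 : pz hχ H (o - ((0 : ℕ) : ℤ)) = pz hχ H o := by rw [Nat.cast_zero, sub_zero]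
  obtain ⟨T, g₀, h1, h2, h3, h4, h5, h6⟩ := dr_rc0 R (fun k => H.fwd hS hχ o k)
    (fun k j hj hj' => by
      show Disjoint (RR (A + τ) (B + τ) h W (o - 1 - k))
        (RR (A + τ) (B + τ) h W (o - 1 - ((k + j : ℕ) : ℤ)))
      refine dsj_mono N.hA2 N.hB2 (dsj_of H.F hA0 N.hAB N.hh) _ _ ?_ ?_ ?_
      · exact not_dvd_of (by push_cast; omega) (by push_cast; omega) (by push_cast; omega)
      · exact not_dvd_of (by push_cast; omega) (by push_cast; omega) (by push_cast; omega)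
      · exact not_dvd_of (by push_cast; omega) (by push_cast; omega) (by push_cast; omega))
  simp only [e0] at h1 h2 h4 h5 h6
  exact ⟨T, g₀, h1, h2, h3, h4, h5, h6⟩

namespace Lo

variable {H : Clo S V β χ h A B A' B' κ bb a0 a1 b0 b1 m m' τ n W y x U}
  {o : ℤ} {T : ℕ → ℕ} {g₀ : D0 S}

theorem n5 (_ : Lo H hS hχ o T g₀) : 5 ≤ n := H.M5

/-- the states of the tile `k` -/
def XR (S : Finset ℂ) (A B h : ℝ) (W : ℤ → ℤ × ℤ) (o : ℤ) (k : ℕ) : Set (D0 S) :=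
  RD S (RR A B h W (o - 1 - k))

theorem xr_reg {A B h : ℝ} {k : ℕ} {e : D0 S} (he : e ∈ XR S A B h W o k) :
    (rc0 hS).cell e ∈ Rg hS A B h W o k :=
  ⟨e.1.1, (mem_delT.1 (th_spec e.2)).1, he.1, rfl⟩

theorem xr_reg' {A B h : ℝ} {k : ℕ} {e : D0 S} (he : e ∈ XR S A B h W o k) :
    (rc0 hS).cell ((rc0 hS).rho e) ∈ Rg hS A B h W o k :=
  ⟨e.1.2, (mem_delT.1 (th_spec e.2)).2.1, he.2, rfl⟩

/-- **the sets of the marks** -/
theorem xk (Q : Lo H hS hχ o T g₀) {j : ℕ → ℕ} (hj : ∀ k, j (k + 3) = j k + n) :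
    Xk (rc0 hS) (xc hS hχ) (pz hχ H o) T (Rg hS (A + τ) (B + τ) h W o) j
      (fun k => XR S (A + τ) (B + τ) h W o (j k)) where
  per k := by
    show RD S (RR (A + τ) (B + τ) h W (o - 1 - ((j (k + 3) : ℕ) : ℤ))) =
      RD S (RR (A + τ) (B + τ) h W (o - 1 - (j k : ℤ)))
    rw [hj, ← H.rr_per (o - 1 - ((j k + n : ℕ) : ℤ)),
      show o - 1 - ((j k + n : ℕ) : ℤ) + n = o - 1 - (j k : ℤ) by push_cast; ring]
  on k := Q.TR (j k) (T (j k)) le_rfl (Q.R.le (Nat.le_succ _))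
  reg k e he := xr_reg he

/-- the sites of the tiles are inner -/
theorem inn (_ : Lo H hS hχ o T g₀) (a : ℤ) (v : ℂ) (hv : v ∈ S)
    (hv' : v ∈ RR (A + τ) (B + τ) h W a) : ¬ OnHull S v := H.env.inn v hv (H.hU a hv')

end Lo

/-! ### the square -/

theorem cz_mk (h : ℝ) (v : ℤ × ℤ) : (h : ℂ) * cz v = ⟨h * v.1, h * v.2⟩ := by
  apply Complex.ext <;> simp [cz]

variable {H : Clo S V β χ h A B A' B' κ bb a0 a1 b0 b1 m m' τ (4 * K) W y x U}
  {o : ℕ} {T : ℕ → ℕ} {g₀ : D0 S} {v : ℤ × ℤ} {q r : ZMod 3 → ℕ} {mm s : ℕ}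

/-- **the sites of the arcs are near the sides** -/
theorem Lo.near (Q : Lo H hS hχ (o : ℤ) T g₀) (hK : 1 ≤ K) (hW : ∀ a, W a = sqW K a + v)
    (q0 : q 0 = o) (q1 : q 1 = o + K) (q2 : q 2 = o + 2 * K)
    (M : Mko (4 * K) T mm q s r) (i : ZMod 3) (z : ℂ)
    (hz : z ∈ st (Gc (rc0 hS) (xc hS hχ)
      (P (rc0 hS) (xc hS hχ) (pz hχ H (o : ℤ)) mm) (T (4 * K)) r) i) :
    z - (⟨h * v.1, h * v.2⟩ : ℂ) ∈ NearS K (A + τ) (B + τ) h s i := by
  obtain rfl : W = fun a => sqW K a + v := funext hW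
  rw [← cz_mk]
  exact near_of hK q0 q1 q2 Q.R Q.inn M hz

/-- **all the static facts of the ring**: starts and marks `Jn`, the marks are the first times in the
tiles `j k` -/
theorem Lo.ring {σ : Cs hS → ZMod 2} {p : D0 S} {c : ℂ} {L d : ℝ}
    (Q : Lo H hS hχ (o : ℤ) T g₀) (G : Geo H hS hχ σ p v c L d) {ms a b j : ℕ → ℕ}
    (J : Jn (T (4 * K)) (4 * K) T ms a b j) (hj : ∀ k, j (k + 3) = j k + 4 * K)
    (hp : p = P (rc0 hS) (xc hS hχ) (pz hχ H (o : ℤ)) (ms 0))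
    (ho : s ≤ o) (hs : 2 * s < K)
    (j0 : o + 1 ≤ j 0 + s) (j0' : j 0 + 1 ≤ o + s)
    (j1 : o + K + 1 ≤ j 1 + s) (j1' : j 1 + 1 ≤ o + K + s)
    (j2 : o + 2 * K + 1 ≤ j 2 + s) (j2' : j 2 + 1 ≤ o + 2 * K + s)
    (he : 2 * d + (B + τ + h * s) < h * K / 2) :
    ∃ r : ZMod 3 → ℕ, (∀ i, r i = fg (St (rc0 hS) (xc hS hχ) p (T (4 * K)) g₀)
        (tt (rc0 hS) (xc hS hχ) (pz hχ H (o : ℤ)) ms
          (fun k => Lo.XR S (A + τ) (B + τ) h W o (j k)) i.val - ms 0)) ∧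
      Rg3 (rc0 hS) σ p (T (4 * K)) r ∧
      (∀ i, ∀ z ∈ st (Gc (rc0 hS) (cfg (rc0 hS) σ) p (T (4 * K)) r) i,
        z - (⟨h * v.1, h * v.2⟩ : ℂ) ∈ NearS K (A + τ) (B + τ) h s i) ∧
      ∀ k, ∃ X, CtrX S (st (AP (rc0 hS) (cfg (rc0 hS) σ) p (T (4 * K)) r k)) X := by
  have hc := G.cfg_eq
  have hy : (pz hχ H (o : ℤ)).1.1 ∈ S := (mem_delT.1 (th_spec (pz hχ H (o : ℤ)).2)).1
  have hcol : σ ((rc0 hS).cell (pz hχ H (o : ℤ))) = 1 := by
    rw [G.col _ _ hy rfl]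
    exact H.cy (o : ℤ)
  have Y := Q.xk hj
  have hL := Q.L; have hR := Q.R; have hG := Q.G; have hg := Q.g
  have h1 : Rg3 (rc0 hS) σ p (T (4 * K))
      fun i => fg (St (rc0 hS) (xc hS hχ) p (T (4 * K)) g₀)
        (tt (rc0 hS) (xc hS hχ) (pz hχ H (o : ℤ)) ms
          (fun k => Lo.XR S (A + τ) (B + τ) h W o (j k)) i.val - ms 0) := by
    rw [← hc] at hL hR hG hg Y hp ⊢
    rw [hp]
    exact J.rg3 hL hcol hR hg hG Y
  let q : ZMod 3 → ℕ := fun i => if i = 0 then o else if i = 1 then o + K else o + 2 * K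
  have q0 : q 0 = o := if_pos rfl
  have q1 : q 1 = o + K := by
    show (if (1 : ZMod 3) = 0 then _ else _) = _
    rw [if_neg (by decide), if_pos rfl]
  have q2 : q 2 = o + 2 * K := by
    show (if (2 : ZMod 3) = 0 then _ else _) = _
    rw [if_neg (by decide), if_neg (by decide)]
  have hMk : Mko (4 * K) T (ms 0) q s
      fun i => fg (St (rc0 hS) (xc hS hχ) p (T (4 * K)) g₀)
        (tt (rc0 hS) (xc hS hχ) (pz hχ H (o : ℤ)) ms
          (fun k => Lo.XR S (A + τ) (B + τ) h W o (j k)) i.val - ms 0) := by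
    rw [hp]
    refine J.mko hL hR hG Y ?_ ?_ (by rw [q0]; exact ho) (by rw [q0, q1]; omega)
      (by rw [q1, q2]; omega) (by rw [q2, q0]; omega)
    · intro i
      rcases z3e i with rfl | rfl | rfl
      · rw [q0]; exact j0
      · rw [q1]; exact j1
      · rw [q2]; exact j2
    · intro i
      rcases z3e i with rfl | rfl | rfl
      · rw [q0]; exact j0'
      · rw [q1]; exact j1'
      · rw [q2]; exact j2'
  have hnear : ∀ i, ∀ z ∈ st (Gc (rc0 hS) (cfg (rc0 hS) σ) p (T (4 * K))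
      fun i => fg (St (rc0 hS) (xc hS hχ) p (T (4 * K)) g₀)
        (tt (rc0 hS) (xc hS hχ) (pz hχ H (o : ℤ)) ms
          (fun k => Lo.XR S (A + τ) (B + τ) h W o (j k)) i.val - ms 0)) i,
      z - (⟨h * v.1, h * v.2⟩ : ℂ) ∈ NearS K (A + τ) (B + τ) h s i := by
    intro i z hz
    rw [hc] at hz
    refine Q.near G.K1 G.hW q0 q1 q2 hMk i z ?_
    rw [← hp]
    exact hz
  refine ⟨_, fun i => rfl, h1, hnear, ?_⟩
  intro k
  have hAB : A + τ ≤ B + τ := by have := H.N.AB; linarith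
  exact G.ctr h1 hAB he rfl hnear k

end Crest.Agent.R143.CloIx715
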