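import Crest.Agent.R143.Neck1_921

/-!
# Row 143, CORE-C, leaf R1e: chaining of the links of consecutive tiles (helper903)

* `lk_chain` : links `x a → x (a + 1)` inside `A a` for `n ≤ a < m` give a link `x n → x m` inside the
  union of the `A a`
* `clw` : the white links of the tiles `n ≤ a < m` (white halves of `Tile`) give one white link
  `x n → x m`
* `clb` : the same for the black links
-/

set_option autoImplicit false

noncomputable section

open scoped Classical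

namespace Crest.Agent.R143.CloWx903

open Crest.Agent.R143.B0x346 Crest.Agent.R143.DelGx806 Crest.Agent.R143.DelRx806
open Crest.Agent.R143.ToolWx838 Crest.Agent.R143.Neckx921

variable {S V β : Finset ℂ}

/-- chaining of links -/
theorem lk_chain {A : ℤ → Set ℂ} {x : ℤ → ℂ} {n m : ℤ} (hnm : n < m)
    (h : ∀ a, n ≤ a → a < m → Lk S (A a) (x a) (x (a + 1))) :
    Lk S {s | ∃ a, n ≤ a ∧ a < m ∧ s ∈ A a} (x n) (x m) := by
  have key : ∀ k : ℕ, n + (k + 1 : ℕ) ≤ m →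
      Lk S {s | ∃ a, n ≤ a ∧ a < m ∧ s ∈ A a} (x n) (x (n + (k + 1 : ℕ))) := by
    intro k
    induction k with
    | zero =>
      intro hk
      refine (h n le_rfl hnm).mono fun s hs => ⟨n, le_rfl, hnm, hs⟩
    | succ k ih =>
      intro hk
      push_cast at hk ih ⊢
      have h1 := ih (by omega)
      have h2 := (h (n + (k + 1)) (by omega) (by omega)).mono
        (B := {s | ∃ a, n ≤ a ∧ a < m ∧ s ∈ A a})
        fun s hs => ⟨n + (k + 1), by omega, by omega, hs⟩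
      have e : n + (k + 1) + 1 = n + (k + 1 + 1) := by ring
      rw [e] at h2
      exact h1.trans h2
  obtain ⟨k, hk⟩ := Int.eq_ofNat_of_zero_le (a := m - n - 1) (by omega)
  have h1 := key k (by push_cast; omega)
  have e : n + ((k + 1 : ℕ) : ℤ) = m := by push_cast; omega
  rwa [e] at h1

/-- **the white links of the closing tiles** -/
theorem clw {R : ℤ → Set ℂ} {x : ℤ → ℂ} {n m : ℤ} (hnm : n < m)
    (h : ∀ a, n ≤ a → a < m → Lk S {s | (s ∈ V ∧ s ∉ β) ∧ s ∈ R a} (x a) (x (a + 1))) :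
    Lk S {s | (s ∈ V ∧ s ∉ β) ∧ ∃ a, n ≤ a ∧ a < m ∧ s ∈ R a} (x n) (x m) :=
  (lk_chain hnm h).mono fun _ ⟨a, h1, h2, h3⟩ => ⟨h3.1, a, h1, h2, h3.2⟩

/-- the black links of consecutive tiles -/
theorem clb {R : ℤ → Set ℂ} {y : ℤ → ℂ} {n m : ℤ} (hnm : n < m)
    (h : ∀ a, n ≤ a → a < m → Lk S {s | s ∈ β ∧ s ∈ R a} (y a) (y (a + 1))) :
    Lk S {s | s ∈ β ∧ ∃ a, n ≤ a ∧ a < m ∧ s ∈ R a} (y n) (y m) :=
  (lk_chain hnm h).mono fun _ ⟨a, h1, h2, h3⟩ => ⟨h3.1, a, h1, h2, h3.2⟩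

/-- both links from the tile events -/
theorem tiles {R : ℤ → Set ℂ} {x y : ℤ → ℂ} {n m : ℤ} (hnm : n < m)
    (h : ∀ a, n ≤ a → a < m → Tile S V β (R a) (y a) (x a) (y (a + 1)) (x (a + 1))) :
    Lk S {s | s ∈ β ∧ ∃ a, n ≤ a ∧ a < m ∧ s ∈ R a} (y n) (y m) ∧
    Lk S {s | (s ∈ V ∧ s ∉ β) ∧ ∃ a, n ≤ a ∧ a < m ∧ s ∈ R a} (x n) (x m) :=
  ⟨clb hnm fun a h1 h2 => (h a h1 h2).1, clw hnm fun a h1 h2 => (h a h1 h2).2⟩

end Crest.Agent.R143.CloWx903
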