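import Crest.Agent.R143.Frame11_395

/-!
# Row 143 (S0194), part B without E3: EXACT CLOSING, (2) of note 3019 (helper395)

One loop of the plane map `M` = in-arc (indices `0 .. m`) followed by the out-arc (indices
`m .. n`); `s0` = gap at the index `r` of the out-arc such that no cell is touched by both halves
`m .. r`, `r+1 .. n` of the out-arc. `M'` = a closed map in which the in-arc is seen with the cells
of the first half merged, and the cells of the second half merged, `o` = root gap of `M'`.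

* `rel_idx` : `Rel` in terms of the indices on the loop
* `Clo.in_iff` : block of `s0` in the plane = root block of `M'` on the in-arc, exactly
* `Clo.out_iff` : the block on the out-arc
* `Clo.sum_eq` : sums over the plane block = sum over the root block of `M'` + out-arc part
-/

set_option autoImplicit false

noncomputable section

open scoped Classical

namespace Crest.Agent.R143.Clox395

open Crest.Agent.R143.Frame1x395 Crest.Agent.R143.Frame2x395 Crest.Agent.R143.Frame3x395
open Crest.Agent.R143.Frame8x395 Crest.Agent.R143.Frame9x395 Crest.Agent.R143.Frame11x395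

variable {D C : Type} {M : CMap D C} {x : D → ZMod 2}

/-- the states of a loop -/
def St (M : CMap D C) (x : D → ZMod 2) (p : D) (j : ℕ) : D := (stp M x)^[j] p

/-- the left cells of a loop -/
def lc (M : CMap D C) (x : D → ZMod 2) (p : D) (j : ℕ) : C := M.cell (St M x p j)

theorem st_add (p : D) (i j : ℕ) : (stp M x)^[j] (St M x p i) = St M x p (i + j) := by
  unfold St
  rw [← Function.iterate_add_apply, add_comm]

theorem st_succ (p : D) (i : ℕ) : stp M x (St M x p i) = St M x p (i + 1) := by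
  unfold St
  rw [Function.iterate_succ_apply']

/-- a loop of `n` states -/
structure Lp (M : CMap D C) (x : D → ZMod 2) (p : D) (n : ℕ) : Prop where
  pos : 0 < n
  occ : x p = 1
  per : St M x p n = p
  inj : ∀ i < n, ∀ j < n, St M x p i = St M x p j → i = j

theorem lp_exists [Finite D] (h : IsC M ∅ x) {p : D} (hp : x p = 1) : ∃ n, Lp M x p n := by
  have E := periodic h hp
  have h1 := Nat.find_spec E
  set n := Nat.find E with hn
  have key : ∀ i j, i < j → j < n → St M x p i ≠ St M x p j := by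
    intro i j hij hj e
    have e2 : (stp M x)^[j - i] p = p := by
      apply it_inj h (occ_it h hp _) hp i
      rw [← Function.iterate_add_apply, show i + (j - i) = j by omega]
      exact e.symm
    have := Nat.find_min' E ⟨show 0 < j - i by omega, e2⟩
    omega
  refine ⟨n, h1.1, hp, h1.2, fun i hi j hj e => ?_⟩
  rcases lt_trichotomy i j with hl | rfl | hl
  · exact absurd e (key i j hl hj)
  · rfl
  · exact absurd e.symm (key j i hl hi)

theorem Lp.add {p : D} {n : ℕ} (L : Lp M x p n) (j : ℕ) : St M x p (j + n) = St M x p j := by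
  rw [add_comm, ← st_add, L.per]
  rfl

theorem Lp.mod {p : D} {n : ℕ} (L : Lp M x p n) (j : ℕ) : St M x p j = St M x p (j % n) := by
  induction j using Nat.strong_induction_on with
  | _ j ih =>
    by_cases hj : j < n
    · rw [Nat.mod_eq_of_lt hj]
    · have h1 := L.pos
      have h2 : j = (j - n) + n := by omega
      rw [h2, L.add, Nat.add_mod_right]
      exact ih _ (by omega)

theorem Lp.mod_eq {p : D} {n : ℕ} (L : Lp M x p n) {a j : ℕ} (hj : j < n)
    (e : St M x p a = St M x p j) : a % n = j := by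
  rw [L.mod a] at e
  exact L.inj _ (Nat.mod_lt _ L.pos) _ hj e

theorem Lp.lc_add {p : D} {n : ℕ} (L : Lp M x p n) (j : ℕ) : lc M x p (j + n) = lc M x p j := by
  unfold lc
  rw [L.add]

theorem out_st (h : IsC M ∅ x) {p g : D} {i : ℕ} (hg : Gp M x g) (eg : M.rho g = St M x p i) :
    out M g = St M x p (i + 1) := by
  rw [← hg.stp h, eg, st_succ]

/-- **`Rel` on a loop, by indices** -/
theorem rel_idx (h : IsC M ∅ x) {p : D} {n : ℕ} (L : Lp M x p n) {g k : D} (hg : Gp M x g)
    (hk : Gp M x k) {i j : ℕ} (hij : i < j) (hj : j < n) (eg : M.rho g = St M x p i)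
    (ek : M.rho k = St M x p j) :
    Rel M x g k ↔ ∀ a b, i < a → a ≤ j → j < b → b ≤ i + n → lc M x p a ≠ lc M x p b := by
  have og := out_st h hg eg
  have ok := out_st h hk ek
  constructor
  · intro H a b h1 h2 h3 h4 e
    rcases H (lc M x p a) with e1 | ⟨q, e1, av⟩ | ⟨q, e1, av⟩
    · rw [e1, ek] at eg
      have := L.inj j hj i (by omega) eg
      omega
    · rw [og, st_add, ek] at e1
      have e2 := L.mod_eq hj e1
      have hq : j - i - 1 ≤ q := by
        by_contra hc
        rw [Nat.mod_eq_of_lt (by omega)] at e2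
        omega
      have := av (a - i - 1) (by omega)
      rw [og, st_add, show i + 1 + (a - i - 1) = a by omega] at this
      exact this rfl
    · rw [ok, st_add, eg] at e1
      have e2 := L.mod_eq (by omega : i < n) e1
      have hq : i + n - j - 1 ≤ q := by
        by_contra hc
        rcases lt_or_ge (j + 1 + q) n with hl | hl
        · rw [Nat.mod_eq_of_lt hl] at e2
          omega
        · have e3 : (j + 1 + q) % n = j + 1 + q - n := by
            rw [show j + 1 + q = (j + 1 + q - n) + n by omega, Nat.add_mod_right,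
              Nat.mod_eq_of_lt (by omega)]
            omega
          omega
      have := av (b - j - 1) (by omega)
      rw [ok, st_add, show j + 1 + (b - j - 1) = b by omega] at this
      exact this e.symm
  · intro H c
    right
    by_cases hc : ∃ a, i < a ∧ a ≤ j ∧ lc M x p a = c
    · right
      obtain ⟨a, h1, h2, rfl⟩ := hc
      refine ⟨i + n - j - 1, ?_, fun q hq e => ?_⟩
      · rw [ok, st_add, show j + 1 + (i + n - j - 1) = i + n by omega, L.add, eg]
      · rw [ok, st_add] at e
        exact H a (j + 1 + q) h1 h2 (by omega) (by omega) e.symm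
    · left
      refine ⟨j - i - 1, ?_, fun q hq e => ?_⟩
      · rw [og, st_add, show i + 1 + (j - i - 1) = j by omega, ek]
      · rw [og, st_add] at e
        exact hc ⟨i + 1 + q, by omega, by omega, e⟩

/-- gaps in the same block lie on the same loop -/
theorem rel_same [Finite D] (h : IsC M ∅ x) {p : D} {n : ℕ} (L : Lp M x p n) {g k : D}
    (hg : Gp M x g) (hk : Gp M x k) {i : ℕ} (eg : M.rho g = St M x p i) (H : Rel M x g k) :
    ∃ j < n, M.rho k = St M x p j := by
  have og := out_st h hg eg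
  have key : ∃ q, (stp M x)^[q] (out M g) = M.rho k := by
    rcases H (M.cell g) with rfl | ⟨q, e, -⟩ | ⟨q, e, -⟩
    · refine ⟨n - 1, ?_⟩
      have h1 := L.pos
      rw [og, st_add, show i + 1 + (n - 1) = i + n by omega, L.add, eg]
    · exact ⟨q, e⟩
    · exact come_back h hk hg e
  obtain ⟨q, e⟩ := key
  rw [og, st_add, L.mod] at e
  exact ⟨_, Nat.mod_lt _ L.pos, e.symm⟩

variable {D' C' : Type} {M' : CMap D' C'} {x' : D' → ZMod 2}

/-- cells of the first half of the out-arc -/
def I1 (M : CMap D C) (x : D → ZMod 2) (p : D) (m r : ℕ) (c : C) : Prop :=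
  ∃ a, m ≤ a ∧ a ≤ r ∧ lc M x p a = c

/-- cells of the second half of the out-arc -/
def I2 (M : CMap D C) (x : D → ZMod 2) (p : D) (r n : ℕ) (c : C) : Prop :=
  ∃ a, r < a ∧ a ≤ n ∧ lc M x p a = c

/-- **the closing situation** -/
structure Clo (M : CMap D C) (x : D → ZMod 2) (M' : CMap D' C') (x' : D' → ZMod 2) (p : D)
    (n m r : ℕ) (s0 : D) (p' : D') (q u : ℕ) (o : D') (f : D → D') : Prop where
  hx : IsC M ∅ x
  L : Lp M x p n
  mr : m ≤ r
  rn : r < n
  gs0 : Gp M x s0
  es0 : M.rho s0 = St M x p r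
  dis : ∀ a b, m ≤ a → a ≤ r → r < b → b ≤ n → lc M x p a ≠ lc M x p b
  hx' : IsC M' ∅ x'
  L' : Lp M' x' p' (q + 1)
  go : Gp M' x' o
  eo : M'.rho o = St M' x' p' q
  um : u + m ≤ q
  tl : ∀ a ≤ u, lc M' x' p' a = lc M' x' p' u
  tr : ∀ a, u + m ≤ a → a ≤ q → lc M' x' p' a = lc M' x' p' (u + m)
  mrg : ∀ i j, i ≤ m → j ≤ m → (lc M' x' p' (u + i) = lc M' x' p' (u + j) ↔
    lc M x p i = lc M x p j ∨ (I1 M x p m r (lc M x p i) ∧ I1 M x p m r (lc M x p j)) ∨
      (I2 M x p r n (lc M x p i) ∧ I2 M x p r n (lc M x p j)))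
  fst : ∀ j ≤ m, St M' x' p' (u + j) = f (St M x p j)
  frho : ∀ j < m, ∀ s, M.rho s = St M x p j → M'.rho (f s) = f (M.rho s)
  fgap : ∀ j < m, ∀ s, M.rho s = St M x p j → (Gp M' x' (f s) ↔ Gp M x s)

section

variable {p s0 : D} {n m r : ℕ} {p' o : D'} {q u : ℕ} {f : D → D'} [Fintype D] [Fintype D']

theorem Clo.i1m (T : Clo M x M' x' p n m r s0 p' q u o f) : I1 M x p m r (lc M x p m) :=
  ⟨m, le_rfl, T.mr, rfl⟩

theorem Clo.i20 (T : Clo M x M' x' p n m r s0 p' q u o f) : I2 M x p r n (lc M x p 0) :=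
  ⟨n, T.rn, le_rfl, by
    have := T.L.lc_add 0
    rwa [zero_add] at this⟩

/-- relation to the root gap in `M'` -/
theorem Clo.rel' (T : Clo M x M' x' p n m r s0 p' q u o f) {j : ℕ} (hj : j < m) {g : D'}
    (hg : Gp M' x' g) (eg : M'.rho g = St M' x' p' (u + j)) :
    Rel M' x' o g ↔ (∀ i l, i ≤ j → j < l → l ≤ m → lc M x p i ≠ lc M x p l) ∧
      (∀ i ≤ j, ¬ I1 M x p m r (lc M x p i)) ∧
      (∀ l, j < l → l ≤ m → ¬ I2 M x p r n (lc M x p l)) := by
  have um := T.um
  have h0 : Rel M' x' o g ↔ Rel M' x' g o := ⟨rel_symm, rel_symm⟩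
  rw [h0, rel_idx T.hx' T.L' hg T.go (by omega : u + j < q) (by omega) eg T.eo]
  have hlast : lc M' x' p' (q + 1) = lc M' x' p' 0 := by
    have := T.L'.lc_add 0
    rwa [zero_add] at this
  constructor
  · intro H
    -- the basic inequality
    have key : ∀ i l, i ≤ j → j < l → l ≤ m → lc M' x' p' (u + i) ≠ lc M' x' p' (u + l) := by
      intro i l h1 h2 h3 e
      refine H (u + l) (u + i + (q + 1)) (by omega) (by omega) (by omega) (by omega) ?_
      rw [T.L'.lc_add]
      exact e.symm
    refine ⟨fun i l h1 h2 h3 e => ?_, fun i h1 h2 => ?_, fun l h1 h2 h3 => ?_⟩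
    · exact key i l h1 h2 h3 ((T.mrg i l (by omega) h3).2 (Or.inl e))
    · exact key i m h1 (by omega) le_rfl ((T.mrg i m (by omega) le_rfl).2
        (Or.inr (Or.inl ⟨h2, T.i1m⟩)))
    · exact key 0 l (by omega) h1 h2 ((T.mrg 0 l (by omega) h2).2
        (Or.inr (Or.inr ⟨T.i20, h3⟩)))
  · rintro ⟨H1, H2, H3⟩ a b h1 h2 h3 h4 e
    -- reduce to in-arc indices
    have ha : ∃ l, j < l ∧ l ≤ m ∧ lc M' x' p' a = lc M' x' p' (u + l) := by
      rcases le_or_gt a (u + m) with hl | hl
      · exact ⟨a - u, by omega, by omega, by rw [show u + (a - u) = a by omega]⟩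
      · exact ⟨m, by omega, le_rfl, T.tr a hl.le h2⟩
    have hb : ∃ i, i ≤ j ∧ lc M' x' p' b = lc M' x' p' (u + i) := by
      have e2 : lc M' x' p' b = lc M' x' p' (b - (q + 1)) := by
        have := T.L'.lc_add (b - (q + 1))
        rw [show b - (q + 1) + (q + 1) = b by omega] at this
        exact this
      rcases le_or_gt (b - (q + 1)) u with hl | hl
      · exact ⟨0, by omega, by rw [e2, T.tl _ hl, add_zero]⟩
      · exact ⟨b - (q + 1) - u, by omega, by
          rw [e2, show u + (b - (q + 1) - u) = b - (q + 1) by omega]⟩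
    obtain ⟨l, l1, l2, l3⟩ := ha
    obtain ⟨i, i1, i2⟩ := hb
    rw [l3, i2] at e
    rcases (T.mrg l i l2 (by omega)).1 e with e1 | ⟨e1, e2⟩ | ⟨e1, e2⟩
    · exact H1 i l i1 l1 l2 e1.symm
    · exact H2 i i1 e2
    · exact H3 l l1 l2 e1

/-- relation to `s0` in the plane, for a gap of the in-arc -/
theorem Clo.rel_in (T : Clo M x M' x' p n m r s0 p' q u o f) {j : ℕ} (hj : j < m) {g : D}
    (hg : Gp M x g) (eg : M.rho g = St M x p j) :
    Rel M x s0 g ↔ (∀ i l, i ≤ j → j < l → l ≤ m → lc M x p i ≠ lc M x p l) ∧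
      (∀ i ≤ j, ¬ I1 M x p m r (lc M x p i)) ∧
      (∀ l, j < l → l ≤ m → ¬ I2 M x p r n (lc M x p l)) := by
  have mr := T.mr
  have rn := T.rn
  have h0 : Rel M x s0 g ↔ Rel M x g s0 := ⟨rel_symm, rel_symm⟩
  rw [h0, rel_idx T.hx T.L hg T.gs0 (by omega : j < r) rn eg T.es0]
  constructor
  · intro H
    refine ⟨fun i l h1 h2 h3 e => ?_, ?_, ?_⟩
    · refine H l (i + n) h2 (by omega) (by omega) (by omega) ?_
      rw [T.L.lc_add, e]
    · rintro i h1 ⟨a, h2, h3, h4⟩
      refine H a (i + n) (by omega) h3 (by omega) (by omega) ?_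
      rw [T.L.lc_add, h4]
    · rintro l h1 h2 ⟨a, h3, h4, h5⟩
      exact H l a h1 (by omega) h3 (by omega) h5.symm
  · rintro ⟨H1, H2, H3⟩ a b h1 h2 h3 h4 e
    have hb : b ≤ n ∨ ∃ i ≤ j, lc M x p b = lc M x p i := by
      rcases le_or_gt b n with hl | hl
      · exact Or.inl hl
      · right
        refine ⟨b - n, by omega, ?_⟩
        have := T.L.lc_add (b - n)
        rwa [show b - n + n = b by omega] at this
    rcases le_or_gt a m with ha | ha
    · rcases hb with hb | ⟨i, hi, hb⟩
      · exact H3 a h1 ha ⟨b, h3, hb, e.symm⟩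
      · exact H1 i a hi h1 ha (by rw [e, hb])
    · rcases hb with hb | ⟨i, hi, hb⟩
      · exact T.dis a b ha.le h2 h3 hb e
      · exact H2 i hi ⟨a, ha.le, h2, by rw [e, hb]⟩

/-- **exact closing, in-arc** -/
theorem Clo.in_iff (T : Clo M x M' x' p n m r s0 p' q u o f) {j : ℕ} (hj : j < m) {s : D}
    (es : M.rho s = St M x p j) : s ∈ blk M x s0 ↔ f s ∈ blk M' x' o := by
  rw [mem_blk, mem_blk, T.fgap j hj s es]
  constructor
  · rintro ⟨h1, h2⟩
    refine ⟨h1, ?_⟩
    rw [T.rel' hj ((T.fgap j hj s es).2 h1) (by rw [T.frho j hj s es, es, T.fst j hj.le])]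
    exact (T.rel_in hj h1 es).1 h2
  · rintro ⟨h1, h2⟩
    refine ⟨h1, ?_⟩
    rw [T.rel' hj ((T.fgap j hj s es).2 h1) (by rw [T.frho j hj s es, es, T.fst j hj.le])] at h2
    exact (T.rel_in hj h1 es).2 h2

/-- the root block of `M'` lives on the in-arc -/
theorem Clo.net_blk (T : Clo M x M' x' p n m r s0 p' q u o f) {g : D'} (hg : g ∈ blk M' x' o)
    (hne : g ≠ o) : ∃ j < m, ∃ s, M.rho s = St M x p j ∧ g = f s := by
  rw [mem_blk] at hg
  obtain ⟨k, hk, ek⟩ := rel_same T.hx' T.L' T.go hg.1 T.eo hg.2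
  have um := T.um
  have hkq : k ≠ q := by
    rintro rfl
    exact hne (rho_inj M' (ek.trans T.eo.symm))
  have H := (rel_idx T.hx' T.L' hg.1 T.go (by omega : k < q) (by omega) ek T.eo).1
    (rel_symm hg.2)
  have h1 : u ≤ k := by
    by_contra hc
    push Not at hc
    refine H (k + 1) (k + (q + 1)) (by omega) (by omega) (by omega) (by omega) ?_
    rw [T.L'.lc_add, T.tl _ (by omega), T.tl k (by omega)]
  have h2 : k < u + m := by
    by_contra hc
    push Not at hc
    refine H (k + 1) (k + (q + 1)) (by omega) (by omega) (by omega) (by omega) ?_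
    rw [T.L'.lc_add, T.tr _ (by omega) (by omega), T.tr k hc (by omega)]
  refine ⟨k - u, by omega, M.rho (M.rho (St M x p (k - u))), M.rho3 _, ?_⟩
  apply rho_inj M'
  rw [T.frho (k - u) (by omega) _ (M.rho3 _), M.rho3, ← T.fst (k - u) (by omega), ek,
    show u + (k - u) = k by omega]

/-- **exact closing, out-arc** -/
theorem Clo.out_iff (T : Clo M x M' x' p n m r s0 p' q u o f) {k : ℕ} (hm : m ≤ k) (hk : k < n)
    {s : D} (es : M.rho s = St M x p k) :
    s ∈ blk M x s0 ↔ Gp M x s ∧
      ((k ≤ r ∧ ∀ a b, k < a → a ≤ r → b ≤ k → lc M x p a ≠ lc M x p b) ∨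
       (r < k ∧ ∀ a b, r < a → a ≤ k → (k < b ∧ b ≤ n ∨ b ≤ m) → lc M x p a ≠ lc M x p b)) := by
  have mr := T.mr
  have rn := T.rn
  rw [mem_blk]
  constructor
  · rintro ⟨h1, h2⟩
    refine ⟨h1, ?_⟩
    rcases lt_trichotomy k r with hl | rfl | hl
    · left
      refine ⟨hl.le, fun a b a1 a2 a3 e => ?_⟩
      have H := (rel_idx T.hx T.L h1 T.gs0 hl rn es T.es0).1 (rel_symm h2)
      refine H a (b + n) a1 a2 (by omega) (by omega) ?_
      rw [T.L.lc_add, e]
    · left
      exact ⟨le_rfl, fun a b a1 a2 _ _ => by omega⟩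
    · right
      refine ⟨hl, fun a b a1 a2 a3 e => ?_⟩
      have H := (rel_idx T.hx T.L T.gs0 h1 hl hk T.es0 es).1 h2
      rcases a3 with ⟨a3, a4⟩ | a3
      · exact H a b a1 a2 a3 (by omega) e
      · refine H a (b + n) a1 a2 (by omega) (by omega) ?_
        rw [T.L.lc_add, e]
  · rintro ⟨h1, h2⟩
    refine ⟨h1, ?_⟩
    rcases h2 with ⟨h2, H⟩ | ⟨h2, H⟩
    · rcases h2.lt_or_eq with hl | rfl
      · apply rel_symm
        rw [rel_idx T.hx T.L h1 T.gs0 hl rn es T.es0]
        intro a b a1 a2 a3 a4 e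
        rcases le_or_gt b n with hb | hb
        · exact T.dis a b (by omega) a2 a3 hb e
        · have := T.L.lc_add (b - n)
          rw [show b - n + n = b by omega] at this
          exact H a (b - n) a1 a2 (by omega) (e.trans this)
      · have : s = s0 := rho_inj M (es.trans T.es0.symm)
        rw [this]
        exact rel_refl _
    · rw [rel_idx T.hx T.L T.gs0 h1 h2 hk T.es0 es]
      intro a b a1 a2 a3 a4 e
      rcases le_or_gt b n with hb | hb
      · exact H a b a1 a2 (Or.inl ⟨a3, hb⟩) e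
      · have e3 := T.L.lc_add (b - n)
        rw [show b - n + n = b by omega] at e3
        rcases le_or_gt (b - n) m with hb2 | hb2
        · exact H a (b - n) a1 a2 (Or.inr hb2) (e.trans e3)
        · exact T.dis (b - n) a hb2.le (by omega) a1 (by omega) (e.trans e3).symm

/-- indices of the out-arc part of the block -/
def Clo.K (_T : Clo M x M' x' p n m r s0 p' q u o f) : Finset ℕ :=
  (Finset.Ico m n).filter fun k => M.rho (M.rho (St M x p k)) ∈ blk M x s0

/-- **exact closing: sums over the block** -/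
theorem Clo.sum_eq (T : Clo M x M' x' p n m r s0 p' q u o f) {A : Type} [AddCommMonoid A]
    (a : D → A) (a' : D' → A)
    (ha : ∀ j < m, ∀ s, M.rho s = St M x p j → s ∈ blk M x s0 → a' (f s) = a s) :
    ∑ s ∈ blk M x s0, a s = ∑ g ∈ (blk M' x' o).erase o, a' g +
      ∑ k ∈ T.K, a (M.rho (M.rho (St M x p k))) := by
  -- the block = gaps with index `< n`
  have h1 : blk M x s0 = ((Finset.range n).filter fun k =>
      M.rho (M.rho (St M x p k)) ∈ blk M x s0).image fun k => M.rho (M.rho (St M x p k)) := by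
    ext s
    rw [Finset.mem_image]
    constructor
    · intro hs
      obtain ⟨k, hk, ek⟩ := rel_same T.hx T.L T.gs0 (mem_blk.1 hs).1 T.es0 (mem_blk.1 hs).2
      have e2 : M.rho (M.rho (St M x p k)) = s := by rw [← ek, M.rho3]
      exact ⟨k, by rw [Finset.mem_filter, Finset.mem_range, e2]; exact ⟨hk, hs⟩, e2⟩
    · rintro ⟨k, hk, rfl⟩
      exact (Finset.mem_filter.1 hk).2
  have inj : ∀ i < n, ∀ j < n, M.rho (M.rho (St M x p i)) = M.rho (M.rho (St M x p j)) →
      i = j := fun i hi j hj e => T.L.inj i hi j hj (rho_inj M (rho_inj M e))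
  have h2 : ∑ s ∈ blk M x s0, a s = ∑ k ∈ (Finset.range n).filter (fun k =>
      M.rho (M.rho (St M x p k)) ∈ blk M x s0), a (M.rho (M.rho (St M x p k))) := by
    conv_lhs => rw [h1]
    rw [Finset.sum_image]
    intro i hi j hj e
    simp only [Finset.coe_filter, Finset.mem_range, Set.mem_ofPred_eq] at hi hj
    exact inj i hi.1 j hj.1 e
  have h3 : (Finset.range n).filter (fun k => M.rho (M.rho (St M x p k)) ∈ blk M x s0) =
      (Finset.range m).filter (fun k => M.rho (M.rho (St M x p k)) ∈ blk M x s0) ∪ T.K := by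
    have mr := T.mr
    have rn := T.rn
    ext k
    unfold Clo.K
    simp only [Finset.mem_filter, Finset.mem_range, Finset.mem_union, Finset.mem_Ico]
    constructor
    · rintro ⟨a1, a2⟩
      rcases lt_or_ge k m with hl | hl
      · exact Or.inl ⟨hl, a2⟩
      · exact Or.inr ⟨⟨hl, a1⟩, a2⟩
    · rintro (⟨a1, a2⟩ | ⟨a1, a2⟩)
      · exact ⟨by omega, a2⟩
      · exact ⟨a1.2, a2⟩
  rw [h2, h3, Finset.sum_union]
  · congr 1
    -- the in-arc part
    have h4 : (blk M' x' o).erase o = ((Finset.range m).filter fun k =>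
        M.rho (M.rho (St M x p k)) ∈ blk M x s0).image
          fun k => f (M.rho (M.rho (St M x p k))) := by
      ext g
      rw [Finset.mem_erase, Finset.mem_image]
      constructor
      · rintro ⟨g1, g2⟩
        obtain ⟨j, hj, s, es, rfl⟩ := T.net_blk g2 g1
        have e2 : M.rho (M.rho (St M x p j)) = s := by rw [← es, M.rho3]
        exact ⟨j, by
          rw [Finset.mem_filter, Finset.mem_range, e2]
          exact ⟨hj, (T.in_iff hj es).2 g2⟩, by rw [e2]⟩
      · rintro ⟨k, hk, rfl⟩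
        rw [Finset.mem_filter, Finset.mem_range] at hk
        refine ⟨fun e => ?_, (T.in_iff hk.1 (M.rho3 _)).1 hk.2⟩
        have um := T.um
        have e2 := congrArg M'.rho e
        rw [T.frho k hk.1 _ (M.rho3 _), M.rho3, ← T.fst k hk.1.le, T.eo] at e2
        have := T.L'.inj _ (by omega) _ (by omega) e2
        omega
    rw [h4, Finset.sum_image]
    · refine Finset.sum_congr rfl fun k hk => ?_
      rw [Finset.mem_filter, Finset.mem_range] at hk
      exact (ha k hk.1 _ (M.rho3 _) hk.2).symm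
    · intro i hi j hj e
      simp only [Finset.coe_filter, Finset.mem_range, Set.mem_ofPred_eq] at hi hj
      have um := T.um
      have e2 := congrArg M'.rho e
      simp only at e2
      rw [T.frho i hi.1 _ (M.rho3 _), T.frho j hj.1 _ (M.rho3 _), M.rho3, M.rho3,
        ← T.fst i hi.1.le, ← T.fst j hj.1.le] at e2
      have := T.L'.inj _ (by omega) _ (by omega) e2
      omega
  · rw [Finset.disjoint_left]
    intro k h5 h6
    unfold Clo.K at h6
    simp only [Finset.mem_filter, Finset.mem_range, Finset.mem_Ico] at h5 h6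
    omega

/-- membership in `K` -/
theorem Clo.mem_K (T : Clo M x M' x' p n m r s0 p' q u o f) {k : ℕ} :
    k ∈ T.K ↔ m ≤ k ∧ k < n ∧ Gp M x (M.rho (M.rho (St M x p k))) ∧
      ((k ≤ r ∧ ∀ a b, k < a → a ≤ r → b ≤ k → lc M x p a ≠ lc M x p b) ∨
       (r < k ∧ ∀ a b, r < a → a ≤ k → (k < b ∧ b ≤ n ∨ b ≤ m) →
          lc M x p a ≠ lc M x p b)) := by
  unfold Clo.K
  rw [Finset.mem_filter, Finset.mem_Ico]
  constructor
  · rintro ⟨⟨h1, h2⟩, h3⟩
    exact ⟨h1, h2, (T.out_iff h1 h2 (M.rho3 _)).1 h3⟩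
  · rintro ⟨h1, h2, h3⟩
    exact ⟨⟨h1, h2⟩, (T.out_iff h1 h2 (M.rho3 _)).2 h3⟩

end

end Crest.Agent.R143.Clox395
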