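import Crest.Agent.R143.Har_315

/-!
# Row 143: Harris inequality with black sites, white sites and free middles (helper697)

* `Mu V M A` : `A` is increasing in the sites outside of `M`
* `harris_mu` : `pr A * pr B ≤ pr (A ∧ B)` for `Mu V M A`, `Mu V N B`, `M`, `N` disjoint, `A` does not look
  at `N`, `B` does not look at `M`; `harris_mu_prod` : families
* `pr_symm` : `pr V (fun β => A (β ∆ D)) = pr V A`
* `Mx V P M A` : increasing in the sites of `P`, decreasing in the sites outside of `P ∪ M`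
* `harris_mx`, `harris_mx_prod`
-/

set_option autoImplicit false

noncomputable section

open scoped Classical

namespace Crest.Agent.R143.MixHx697

open Finset Crest.Agent.R143.Harx315

variable {α : Type*} {V M N P : Finset α} {A B : Finset α → Prop}

/-- increasing in the sites outside of `M` -/
def Mu (V M : Finset α) (A : Finset α → Prop) : Prop :=
  ∀ β β', β ⊆ β' → β' ⊆ V → β ∩ M = β' ∩ M → A β → A β'

theorem harris_half (hN : N ⊆ V) (hA : Up V A) (hA' : Dep V (V \ N) A) (hB : Mu V N B) :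
    pr V A * pr V B ≤ pr V (fun β => A β ∧ B β) := by
  rw [pr_sum hN B, pr_sum hN (fun β => A β ∧ B β), pr_dep sdiff_subset hA', ← mul_div_assoc,
    mul_sum]
  apply div_le_div_of_nonneg_right _ (two_pos' N).le
  apply sum_le_sum
  intro γ hγ
  rw [mem_powerset] at hγ
  have h1 : Up (V \ N) A := fun β β' h1 h2 h3 => hA β β' h1 (h2.trans sdiff_subset) h3
  have h2 : Up (V \ N) (fun β => B (β ∪ γ)) := by
    intro β β' h1 h2 h3
    refine hB _ _ (union_subset_union h1 subset_rfl)
      (union_subset (h2.trans sdiff_subset) (hγ.trans hN)) ?_ h3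
    ext x
    simp only [mem_inter, mem_union]
    constructor
    · rintro ⟨h4 | h4, h5⟩
      · exact absurd h5 (mem_sdiff.1 (h2 (h1 h4))).2
      · exact ⟨Or.inr h4, h5⟩
    · rintro ⟨h4 | h4, h5⟩
      · exact absurd h5 (mem_sdiff.1 (h2 h4)).2
      · exact ⟨Or.inr h4, h5⟩
  refine (harris_up h1 h2).trans (pr_mono ?_)
  rintro β hβ ⟨h3, h4⟩
  refine ⟨?_, h4⟩
  have h5 : (β ∪ γ) ∩ (V \ N) = β := by
    ext x
    simp only [mem_inter, mem_union]
    constructor
    · rintro ⟨h6 | h6, h7⟩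
      · exact h6
      · exact absurd (hγ h6) (mem_sdiff.1 h7).2
    · intro h6; exact ⟨Or.inl h6, hβ h6⟩
  rw [hA' (β ∪ γ) (union_subset (hβ.trans sdiff_subset) (hγ.trans hN)), h5]
  exact h3

/-- **Harris with free middles** -/
theorem harris_mu (hM : M ⊆ V) (hN : N ⊆ V) (hMN : Disjoint M N) (hA : Mu V M A) (hB : Mu V N B)
    (hA' : Dep V (V \ N) A) (hB' : Dep V (V \ M) B) :
    pr V A * pr V B ≤ pr V (fun β => A β ∧ B β) := by
  rw [pr_sum hM A, pr_sum hM (fun β => A β ∧ B β), pr_dep sdiff_subset hB', div_mul_eq_mul_div,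
    sum_mul]
  apply div_le_div_of_nonneg_right _ (two_pos' M).le
  apply sum_le_sum
  intro γ hγ
  rw [mem_powerset] at hγ
  have hNM : N ⊆ V \ M := fun x hx => mem_sdiff.2 ⟨hN hx, fun h => disjoint_left.1 hMN h hx⟩
  have e0 : ∀ β, β ⊆ V \ M → (β ∪ γ) ∩ (V \ M) = β := by
    intro β hβ
    ext x
    simp only [mem_inter, mem_union]
    constructor
    · rintro ⟨h6 | h6, h7⟩
      · exact h6
      · exact absurd (hγ h6) (mem_sdiff.1 h7).2
    · intro h6; exact ⟨Or.inl h6, hβ h6⟩
  have e1 : ∀ β, β ⊆ V \ M → (B (β ∪ γ) ↔ B β) := by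
    intro β hβ
    rw [hB' (β ∪ γ) (union_subset (hβ.trans sdiff_subset) (hγ.trans hM)), e0 β hβ]
  have h1 : Up (V \ M) (fun β => A (β ∪ γ)) := by
    intro β β' h1 h2 h3
    refine hA _ _ (union_subset_union h1 subset_rfl)
      (union_subset (h2.trans sdiff_subset) (hγ.trans hM)) ?_ h3
    ext x
    simp only [mem_inter, mem_union]
    constructor
    · rintro ⟨h4 | h4, h5⟩
      · exact absurd h5 (mem_sdiff.1 (h2 (h1 h4))).2
      · exact ⟨Or.inr h4, h5⟩
    · rintro ⟨h4 | h4, h5⟩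
      · exact absurd h5 (mem_sdiff.1 (h2 h4)).2
      · exact ⟨Or.inr h4, h5⟩
  have h2 : Dep (V \ M) ((V \ M) \ N) (fun β => A (β ∪ γ)) := by
    intro β hβ
    have hβV : β ∪ γ ⊆ V := union_subset (hβ.trans sdiff_subset) (hγ.trans hM)
    have hβV' : β ∩ ((V \ M) \ N) ∪ γ ⊆ V :=
      union_subset (inter_subset_left.trans (hβ.trans sdiff_subset)) (hγ.trans hM)
    show A (β ∪ γ) ↔ A (β ∩ ((V \ M) \ N) ∪ γ)
    rw [hA' _ hβV, hA' _ hβV']
    have : (β ∪ γ) ∩ (V \ N) = (β ∩ ((V \ M) \ N) ∪ γ) ∩ (V \ N) := by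
      ext x
      simp only [mem_inter, mem_union, mem_sdiff]
      constructor
      · rintro ⟨h4 | h4, h5, h6⟩
        · exact ⟨Or.inl ⟨h4, ⟨h5, (mem_sdiff.1 (hβ h4)).2⟩, h6⟩, h5, h6⟩
        · exact ⟨Or.inr h4, h5, h6⟩
      · rintro ⟨⟨h4, _⟩ | h4, h5⟩
        · exact ⟨Or.inl h4, h5⟩
        · exact ⟨Or.inr h4, h5⟩
    rw [this]
  have h3 : Mu (V \ M) N B := fun β β' h4 h5 h6 h7 => hB β β' h4 (h5.trans sdiff_subset) h6 h7
  refine (harris_half hNM h1 h2 h3).trans (pr_mono ?_)
  rintro β hβ ⟨h4, h5⟩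
  exact ⟨h4, (e1 β hβ).2 h5⟩

theorem Mu.mono {M' : Finset α} (h : Mu V M A) (hM : M ⊆ M') : Mu V M' A := by
  intro β β' h1 h2 h3 h4
  refine h β β' h1 h2 ?_ h4
  have e : ∀ γ : Finset α, γ ∩ M = (γ ∩ M') ∩ M := by
    intro γ; rw [inter_assoc, inter_eq_right.2 hM]
  rw [e β, e β', h3]

theorem Mu.all {ι : Type*} {s : Finset ι} {A : ι → Finset α → Prop}
    (h : ∀ i ∈ s, Mu V M (A i)) : Mu V M (fun β => ∀ i ∈ s, A i β) :=
  fun _ _ h1 h2 h3 h4 i hi => h i hi _ _ h1 h2 h3 (h4 i hi)

/-- **families** -/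
theorem harris_mu_prod {ι : Type*} (s : Finset ι) {A : ι → Finset α → Prop} {M : ι → Finset α}
    (hM : ∀ i ∈ s, M i ⊆ V) (hd : ∀ i ∈ s, ∀ j ∈ s, i ≠ j → Disjoint (M i) (M j))
    (hA : ∀ i ∈ s, Mu V (M i) (A i)) (hA' : ∀ i ∈ s, ∀ j ∈ s, i ≠ j → Dep V (V \ M j) (A i)) :
    ∏ i ∈ s, pr V (A i) ≤ pr V (fun β => ∀ i ∈ s, A i β) := by
  induction s using Finset.induction_on with
  | empty => simp [pr_true]
  | insert i s hi ih =>
      rw [prod_insert hi]
      have hne : ∀ j ∈ s, i ≠ j := fun j hj e => hi (e ▸ hj)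
      have h1 := ih (fun j hj => hM j (mem_insert_of_mem hj))
        (fun j hj k hk => hd j (mem_insert_of_mem hj) k (mem_insert_of_mem hk))
        (fun j hj => hA j (mem_insert_of_mem hj))
        (fun j hj k hk => hA' j (mem_insert_of_mem hj) k (mem_insert_of_mem hk))
      have h3 : pr V (fun β => ∀ j ∈ insert i s, A j β) =
          pr V (fun β => A i β ∧ ∀ j ∈ s, A j β) := by
        apply pr_congr
        intro β _
        simp
      rw [h3]
      refine (mul_le_mul_of_nonneg_left h1 pr_nonneg).trans ?_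
      refine harris_mu (M := M i) (N := s.biUnion M) (hM i (mem_insert_self i s)) ?_ ?_
        (hA i (mem_insert_self i s)) ?_ ?_ ?_
      · rw [biUnion_subset]; exact fun j hj => hM j (mem_insert_of_mem hj)
      · rw [disjoint_biUnion_right]
        exact fun j hj => hd i (mem_insert_self i s) j (mem_insert_of_mem hj) (hne j hj)
      · exact Mu.all fun j hj => (hA j (mem_insert_of_mem hj)).mono (subset_biUnion_of_mem M hj)
      · -- `A i` does not look at the union
        clear ih h1 h3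
        have key : ∀ t : Finset ι, t ⊆ s → Dep V (V \ t.biUnion M) (A i) := by
          intro t
          induction t using Finset.induction_on with
          | empty =>
              intro _ β hβ
              rw [biUnion_empty, sdiff_empty, inter_eq_left.2 hβ]
          | insert j t hj ih =>
              intro ht β hβ
              have h5 := ih (fun x hx => ht (mem_insert_of_mem hx)) β hβ
              have hjs := ht (mem_insert_self j t)
              have h6 := hA' i (mem_insert_self i s) j (mem_insert_of_mem hjs) (hne j hjs)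
                (β ∩ (V \ t.biUnion M)) (inter_subset_left.trans hβ)
              rw [h5, h6]
              have : β ∩ (V \ t.biUnion M) ∩ (V \ M j) = β ∩ (V \ (insert j t).biUnion M) := by
                ext x
                simp only [mem_inter, mem_sdiff, biUnion_insert, mem_union]
                tauto
              rw [this]
        exact key s subset_rfl
      · apply Dep.all
        intro j hj
        exact hA' j (mem_insert_of_mem hj) i (mem_insert_self i s) (hne j hj).symm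

/-! ### exchange of the colours of a part -/

theorem symm_sub {D β : Finset α} (hD : D ⊆ V) (hβ : β ⊆ V) : symmDiff β D ⊆ V := by
  intro x hx
  rw [mem_symmDiff] at hx
  rcases hx with h | h
  · exact hβ h.1
  · exact hD h.1

theorem nb_symm {D : Finset α} (hD : D ⊆ V) (A : Finset α → Prop) :
    nb V (fun β => A (symmDiff β D)) = nb V A := by
  unfold nb
  apply card_bij (fun β _ => symmDiff β D)
  · intro β hβ
    rw [mem_fil] at hβ ⊢
    exact ⟨symm_sub hD hβ.1, hβ.2⟩
  · intro β _ β' _ h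
    exact symmDiff_left_injective D h
  · intro β hβ
    rw [mem_fil] at hβ
    refine ⟨symmDiff β D, ?_, symmDiff_symmDiff_cancel_right D β⟩
    rw [mem_fil]
    exact ⟨symm_sub hD hβ.1, by rw [symmDiff_symmDiff_cancel_right]; exact hβ.2⟩

theorem pr_symm {D : Finset α} (hD : D ⊆ V) (A : Finset α → Prop) :
    pr V (fun β => A (symmDiff β D)) = pr V A := by
  unfold pr; rw [nb_symm hD]

/-- increasing in the sites of `P`, decreasing in the sites outside of `P ∪ M` -/
def Mx (V P M : Finset α) (A : Finset α → Prop) : Prop :=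
  ∀ β β', β ⊆ V → β' ⊆ V → β ∩ M = β' ∩ M → (∀ x ∈ P, x ∉ M → x ∈ β → x ∈ β') →
    (∀ x, x ∉ P → x ∉ M → x ∈ β' → x ∈ β) → A β → A β'

theorem Mx.mu (h : Mx V P M A) : Mu V M (fun β => A (symmDiff β (V \ P))) := by
  intro β β' h1 h2 h3 h4
  refine h _ _ (symm_sub sdiff_subset (h1.trans h2)) (symm_sub sdiff_subset h2) ?_ ?_ ?_ h4
  · ext x
    have h5 : x ∈ β ∩ M ↔ x ∈ β' ∩ M := by rw [h3]
    simp only [mem_inter, mem_symmDiff, mem_sdiff] at h5 ⊢
    tauto
  · intro x hx hxM h6
    rw [mem_symmDiff, mem_sdiff] at h6 ⊢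
    rcases h6 with h6 | h6
    · exact Or.inl ⟨h1 h6.1, fun h => h.2 hx⟩
    · exact absurd hx h6.1.2
  · intro x hx hxM h6
    rw [mem_symmDiff, mem_sdiff] at h6 ⊢
    rcases h6 with h6 | h6
    · exact absurd ⟨h2 h6.1, hx⟩ h6.2
    · exact Or.inr ⟨h6.1, fun h => h6.2 (h1 h)⟩

theorem dep_symm {W D : Finset α} (hD : D ⊆ V) (h : Dep V W A) :
    Dep V W (fun β => A (symmDiff β D)) := by
  intro β hβ
  have h1 := h (symmDiff β D) (symm_sub hD hβ)
  have h2 := h (symmDiff (β ∩ W) D) (symm_sub hD (inter_subset_left.trans hβ))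
  have e : symmDiff β D ∩ W = symmDiff (β ∩ W) D ∩ W := by
    ext x
    simp only [mem_inter, mem_symmDiff]
    tauto
  show A (symmDiff β D) ↔ A (symmDiff (β ∩ W) D)
  rw [h1, h2, e]

/-- **Harris with black sites, white sites and free middles** -/
theorem harris_mx_prod {ι : Type*} (s : Finset ι) {A : ι → Finset α → Prop} {M : ι → Finset α}
    (P : Finset α)
    (hM : ∀ i ∈ s, M i ⊆ V) (hd : ∀ i ∈ s, ∀ j ∈ s, i ≠ j → Disjoint (M i) (M j))
    (hA : ∀ i ∈ s, Mx V P (M i) (A i)) (hA' : ∀ i ∈ s, ∀ j ∈ s, i ≠ j → Dep V (V \ M j) (A i)) :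
    ∏ i ∈ s, pr V (A i) ≤ pr V (fun β => ∀ i ∈ s, A i β) := by
  have h1 := harris_mu_prod (V := V) s (A := fun i β => A i (symmDiff β (V \ P))) hM hd
    (fun i hi => (hA i hi).mu) (fun i hi j hj hij => dep_symm sdiff_subset (hA' i hi j hj hij))
  simp only [pr_symm (V := V) (D := V \ P) sdiff_subset] at h1
  rw [← pr_symm (V := V) (D := V \ P) sdiff_subset (fun β => ∀ i ∈ s, A i β)]
  exact h1

/-- two events -/
theorem harris_mx (P : Finset α) (hM : M ⊆ V) (hN : N ⊆ V) (hMN : Disjoint M N)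
    (hA : Mx V P M A) (hB : Mx V P N B) (hA' : Dep V (V \ N) A) (hB' : Dep V (V \ M) B) :
    pr V A * pr V B ≤ pr V (fun β => A β ∧ B β) := by
  have h1 := harris_mu hM hN hMN hA.mu hB.mu (dep_symm sdiff_subset hA') (dep_symm sdiff_subset hB')
  rw [pr_symm sdiff_subset, pr_symm sdiff_subset] at h1
  rw [← pr_symm (V := V) (D := V \ P) sdiff_subset (fun β => A β ∧ B β)]
  exact h1

end Crest.Agent.R143.MixHx697
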