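import Crest.Agent.R143.Har_315

/-!
# Row 143, CORE-C, RIG: gates and tubes, lower bound of the link probability (helper73)

Fair colours of a finite set (`pr` of Har_315), a gate `G` (fully revealed box), tubes `TL`, `TR` on
its two sides.
* `markov` : `2a ≤ P(A)` implies `a ≤ P(q : a ≤ P(A | q))`, `q` = colours of `G`
* `Good C TL TR L R a q` : `C q`, and the two extensions have conditional probability at least `a`
* `good_pr` : `a ≤ P(Good)` if `2a ≤ P(C ∧ L ∧ R)`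
* `pi_ge` : for good gates `q, q'` the link event has conditional probability at least `a² p²`
  (Harris separately in the two halves `To` (white events), `Ti` (black events) of the tube)
-/

set_option autoImplicit false

noncomputable section

open scoped Classical

namespace Crest.Agent.R143.PiLowx73

open Finset
open Crest.Agent.R143.Harx315

variable {α : Type*} {V W G T TL TR To Ti : Finset α}

/-- **conditional Markov inequality** -/
theorem markov (hG : G ⊆ V) {A : Finset α → Prop} {a : ℝ} (ha : 0 ≤ a) (h : 2 * a ≤ pr V A) :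
    a ≤ pr G (fun q => a ≤ pr (V \ G) (fun τ => A (τ ∪ q))) := by
  set B : Finset α → Prop := fun q => a ≤ pr (V \ G) (fun τ => A (τ ∪ q)) with hB
  have h1 := pr_sum hG A
  have h2 : ∑ γ ∈ G.powerset, pr (V \ G) (fun β => A (β ∪ γ)) ≤
      ∑ γ ∈ G.powerset, ((if B γ then (1 : ℝ) else 0) + a) := by
    refine sum_le_sum fun γ _ => ?_
    split_ifs with hγ
    · have := pr_le_one (V := V \ G) (A := fun β => A (β ∪ γ))
      linarith
    · have : pr (V \ G) (fun β => A (β ∪ γ)) < a := not_le.1 hγ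
      linarith
  rw [sum_add_distrib, sum_const, card_powerset, ← sum_filter, sum_const, nsmul_eq_mul,
    nsmul_eq_mul, mul_one] at h2
  push_cast at h2
  have h3 : ((G.powerset.filter B).card : ℝ) = nb G B := rfl
  rw [h3] at h2
  have h4 : (0 : ℝ) < 2 ^ G.card := by positivity
  have h6 : pr G B * 2 ^ G.card = (nb G B : ℝ) := by
    unfold pr
    rw [div_mul_cancel₀ _ h4.ne']
  have h5 : pr V A ≤ pr G B + a := by
    rw [h1, div_le_iff₀ h4, add_mul, h6]
    linarith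
  linarith

/-- good states of a gate: the gate event `C` and two extensions of conditional probability `≥ a` -/
def Good (C : Finset α → Prop) (TL TR : Finset α) (L R : Finset α → Prop) (a : ℝ)
    (q : Finset α) : Prop :=
  C q ∧ a ≤ pr TL (fun τ => L (τ ∪ q)) ∧ a ≤ pr TR (fun τ => R (τ ∪ q))

/-- marginal of an event which looks at `W` only -/
theorem pr_marg (hW : W ⊆ V) (A : Finset α → Prop) : pr V (fun τ => A (τ ∩ W)) = pr W A := by
  have h1 : Dep V W (fun τ => A (τ ∩ W)) := by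
    intro β _
    show A (β ∩ W) ↔ A (β ∩ W ∩ W)
    rw [inter_assoc, inter_self]
  rw [pr_dep hW h1]
  refine pr_congr fun β hβ => ?_
  rw [inter_eq_left.2 hβ]

/-- **good gates have positive probability** -/
theorem good_pr {C L R : Finset α → Prop} {a : ℝ} (ha : 0 ≤ a) (hL : Disjoint G TL)
    (hR : Disjoint G TR)
    (h : 2 * a ≤ pr (G ∪ (TL ∪ TR)) (fun β => C (β ∩ G) ∧ L (β ∩ (TL ∪ G)) ∧ R (β ∩ (TR ∪ G)))) :
    a ≤ pr G (Good C TL TR L R a) := by
  rcases eq_or_lt_of_le ha with h0 | h0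
  · rw [← h0]; exact pr_nonneg
  have hG : G ⊆ G ∪ (TL ∪ TR) := subset_union_left
  refine (markov hG ha h).trans (pr_mono fun q hq hq' => ?_)
  have hd : Disjoint G (TL ∪ TR) := disjoint_union_right.2 ⟨hL, hR⟩
  have e1 : (G ∪ (TL ∪ TR)) \ G = TL ∪ TR := by
    rw [union_sdiff_left, sdiff_eq_self_of_disjoint hd.symm]
  rw [e1] at hq'
  have i1 : ∀ τ, τ ⊆ TL ∪ TR → (τ ∪ q) ∩ G = q := by
    intro τ hτ
    ext x
    simp only [mem_inter, mem_union]
    constructor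
    · rintro ⟨h1 | h1, h2⟩
      · exact absurd (hτ h1) (disjoint_left.1 hd h2)
      · exact h1
    · intro h1; exact ⟨Or.inr h1, hq h1⟩
  have i2 : ∀ (U : Finset α) τ, τ ⊆ TL ∪ TR → (τ ∪ q) ∩ (U ∪ G) = τ ∩ U ∪ q := by
    intro U τ hτ
    ext x
    simp only [mem_inter, mem_union]
    constructor
    · rintro ⟨h1 | h1, h2 | h2⟩
      · exact Or.inl ⟨h1, h2⟩
      · exact absurd (hτ h1) (disjoint_left.1 hd h2)
      · exact Or.inr h1
      · exact Or.inr h1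
    · rintro (⟨h1, h2⟩ | h1)
      · exact ⟨Or.inl h1, Or.inl h2⟩
      · exact ⟨Or.inr h1, Or.inr (hq h1)⟩
  refine ⟨?_, ?_, ?_⟩
  · by_contra hcon
    have h2 : pr (TL ∪ TR) (fun τ => C ((τ ∪ q) ∩ G) ∧ L ((τ ∪ q) ∩ (TL ∪ G)) ∧
        R ((τ ∪ q) ∩ (TR ∪ G))) ≤ pr (TL ∪ TR) (fun _ => False) :=
      pr_mono fun τ hτ h3 => hcon (by rw [← i1 τ hτ]; exact h3.1)
    rw [pr_false] at h2
    linarith
  · refine hq'.trans ?_
    rw [← pr_marg (V := TL ∪ TR) subset_union_left (fun τ => L (τ ∪ q))]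
    exact pr_mono fun τ hτ h3 => by rw [← i2 TL τ hτ]; exact h3.2.1
  · refine hq'.trans ?_
    rw [← pr_marg (V := TL ∪ TR) subset_union_right (fun τ => R (τ ∪ q))]
    exact pr_mono fun τ hτ h3 => by rw [← i2 TR τ hτ]; exact h3.2.2

/-- six events: white (decreasing) ones on `To`, black (increasing) ones on `Ti` -/
theorem six_ge {Aw Bw Cw Ab Bb Cb : Finset α → Prop} (hd : Disjoint To Ti)
    (dA : Dep T To Aw) (dB : Dep T To Bw) (dC : Dep T To Cw)
    (dA' : Dep T Ti Ab) (dB' : Dep T Ti Bb) (dC' : Dep T Ti Cb)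
    (mA : Dn T Aw) (mB : Dn T Bw) (mC : Dn T Cw) (mA' : Up T Ab) (mB' : Up T Bb) (mC' : Up T Cb) :
    (pr T Aw * pr T Ab) * (pr T Bw * pr T Bb) * (pr T Cw * pr T Cb) ≤
      pr T (fun τ => (Aw τ ∧ Bw τ ∧ Cw τ) ∧ Ab τ ∧ Bb τ ∧ Cb τ) := by
  rw [pr_indep hd (dA.and (dB.and dC)) (dA'.and (dB'.and dC'))]
  have h1 : pr T Aw * (pr T Bw * pr T Cw) ≤ pr T (fun τ => Aw τ ∧ Bw τ ∧ Cw τ) :=
    (mul_le_mul_of_nonneg_left (harris_dn mB mC) pr_nonneg).trans (harris_dn mA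
      (fun β β' h1 h2 h3 => ⟨mB β β' h1 h2 h3.1, mC β β' h1 h2 h3.2⟩))
  have h2 : pr T Ab * (pr T Bb * pr T Cb) ≤ pr T (fun τ => Ab τ ∧ Bb τ ∧ Cb τ) :=
    (mul_le_mul_of_nonneg_left (harris_up mB' mC') pr_nonneg).trans (harris_up mA'
      (fun β β' h1 h2 h3 => ⟨mB' β β' h1 h2 h3.1, mC' β β' h1 h2 h3.2⟩))
  have h3 := mul_le_mul h1 h2 (mul_nonneg pr_nonneg (mul_nonneg pr_nonneg pr_nonneg)) pr_nonneg
  refine le_trans (le_of_eq ?_) h3
  ring

/-- **link probability for good gates** : `q` good on the right, `q'` good on the left, tube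
`T ⊇ To, Ti` (outer half: white events, inner half: black events) -/
theorem pi_ge {Rw Rb Mw Mb Lw Lb E : Finset α → Prop} {a p : ℝ} (ha : 0 ≤ a) (hp : 0 ≤ p)
    {q q' : Finset α} (hd : Disjoint To Ti)
    (dR : Dep T To fun τ => Rw (τ ∪ q)) (dR' : Dep T Ti fun τ => Rb (τ ∪ q))
    (dM : Dep T To Mw) (dM' : Dep T Ti Mb)
    (dL : Dep T To fun τ => Lw (τ ∪ q')) (dL' : Dep T Ti fun τ => Lb (τ ∪ q'))
    (mR : Dn T fun τ => Rw (τ ∪ q)) (mR' : Up T fun τ => Rb (τ ∪ q))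
    (mM : Dn T Mw) (mM' : Up T Mb)
    (mL : Dn T fun τ => Lw (τ ∪ q')) (mL' : Up T fun τ => Lb (τ ∪ q'))
    (h1 : a ≤ pr T (fun τ => Rw (τ ∪ q) ∧ Rb (τ ∪ q))) (h2 : p ≤ pr T Mw) (h3 : p ≤ pr T Mb)
    (h4 : a ≤ pr T (fun τ => Lw (τ ∪ q') ∧ Lb (τ ∪ q')))
    (hE : ∀ τ, τ ⊆ T → (Rw (τ ∪ q) ∧ Mw τ ∧ Lw (τ ∪ q')) → (Rb (τ ∪ q) ∧ Mb τ ∧ Lb (τ ∪ q')) →
      E τ) : a * (p * p) * a ≤ pr T E := by
  rw [pr_indep hd dR dR'] at h1
  rw [pr_indep hd dL dL'] at h4
  have h5 := six_ge hd dR dM dL dR' dM' dL' mR mM mL mR' mM' mL'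
  refine le_trans ?_ (h5.trans (pr_mono fun τ hτ h => hE τ hτ h.1 h.2))
  have h6 : p * p ≤ pr T Mw * pr T Mb := mul_le_mul h2 h3 hp pr_nonneg
  exact mul_le_mul (mul_le_mul h1 h6 (by positivity) (mul_nonneg pr_nonneg pr_nonneg)) h4 ha
    (mul_nonneg (mul_nonneg pr_nonneg pr_nonneg) (mul_nonneg pr_nonneg pr_nonneg))

end Crest.Agent.R143.PiLowx73
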