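import Crest.Agent.R143.CloD_838
import Crest.Agent.R143.PiLow_73
import Crest.Agent.R143.MixH_697

/-!
# Row 143, RIG, closing tile: probability (helper838)

* `pieces` : lanes and windows have probability `≥ p` (from `RBm`)
* `lanes_pr` : all lanes and windows of the tiles `n, …, M - 1` : `≥ p ^ (3 (M - n))`
* `close_ge` : together with the landing chains at the gates `n` and `M` : `≥ a ^ 2 p ^ (3 (M - n))`
-/

set_option autoImplicit false

noncomputable section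

open scoped Classical

namespace Crest.Agent.R143.Closex838

open Crest.Agent.R143.B0x346 Crest.Agent.R143.DelGx806 Crest.Agent.R143.DelRx806
open Crest.Agent.R143.ToolWx838 Crest.Agent.R143.Blkx838 Crest.Agent.R143.ToolW2x838
open Crest.Agent.R143.ToolW3x838 Crest.Agent.R143.Circ4x838 Crest.Agent.R143.Harx315
open Crest.Agent.R143.RB0x838 Crest.Agent.R143.CircPx838 Crest.Agent.R143.Gatex838
open Crest.Agent.R143.Neckx921 Crest.Agent.R143.RBmx838 Crest.Agent.R143.CloDx838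

variable {S T V : Finset ℂ} {η l0 : ℝ} {n M : ℕ} {ty : ℕ → Ty} {z e : ℕ → ℂ}

theorem dn_of_mono {A : Finset ℂ → Prop} (hA : ∀ ω ω' : Finset ℂ, ω ⊆ ω' → A ω → A ω')
    (T : Finset ℂ) : Dn T (fun τ => A (T \ τ)) :=
  fun _ _ h1 _ h3 => hA _ _ (Finset.sdiff_subset_sdiff subset_rfl h1) h3

/-- **lanes and windows** -/
theorem pieces (hRB : RBm) : ∀ C4 : ℝ, 0 ≤ C4 → ∃ p c1 c2 K : ℝ, 0 < p ∧ p ≤ 1 ∧ 0 < c1 ∧ 0 < c2 ∧
    c2 ≤ 1 ∧ 0 < K ∧ ∀ (S : Finset ℂ) (z e : ℂ) (η d : ℝ), 0 < η → ‖e‖ = 1 →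
      NvA S z (K * (2 * η)) c2 (2 * η) d C4 → d ≤ c1 * (2 * η) → ∀ T : Finset ℂ, T ⊆ S →
      (∀ x0 x1 : ℝ, |x0| ≤ 200 → |x1| ≤ 200 → x0 + 1 ≤ x1 →
        (∀ s ∈ S, InLn η z e x0 x1 s → s ∈ T) → p ≤ pr T (fun τ => Ln S η z e x0 x1 (T \ τ))) ∧
      ((∀ s ∈ S, InWd η z e s → s ∈ T) → p ≤ pr T (fun τ => Wd S η z e (T \ τ))) := by
  intro C4 hC4
  obtain ⟨p1, a1, b1, K1, hp1, ha1, hb1, hb1', hK1, H1⟩ := rb_hcm hRB 200 (by norm_num) C4 hC4
  obtain ⟨p2, a2, b2, K2, hp2, ha2, hb2, hb2', hK2, H2⟩ := rb_vcm hRB 200 (by norm_num) C4 hC4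
  refine ⟨min 1 (min p1 p2), min a1 a2, min b1 b2, K1 + K2, lt_min one_pos (lt_min hp1 hp2),
    min_le_left _ _, lt_min ha1 ha2, lt_min hb1 hb2, (min_le_left _ _).trans hb1',
    by positivity, ?_⟩
  intro S z e η d hη he hN hd T hT
  have hpp1 : min 1 (min p1 p2) ≤ p1 := (min_le_right _ _).trans (min_le_left _ _)
  have hpp2 : min 1 (min p1 p2) ≤ p2 := (min_le_right _ _).trans (min_le_right _ _)
  have hN1 : NvA S z (K1 * (2 * η)) b1 (2 * η) d C4 := by
    refine ⟨LDns.mono hN.dns (by nlinarith), ?_⟩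
    have h1 : MeshA S z (K1 * (2 * η)) (min b1 b2) (2 * η) C4 :=
      hN.mesh.shift (by rw [sub_self, norm_zero]; nlinarith)
    exact h1.sub (mul_le_mul_of_nonneg_right (min_le_left _ _) (by positivity)) le_rfl
  have hN2 : NvA S z (K2 * (2 * η)) b2 (2 * η) d C4 := by
    refine ⟨LDns.mono hN.dns (by nlinarith), ?_⟩
    have h1 : MeshA S z (K2 * (2 * η)) (min b1 b2) (2 * η) C4 :=
      hN.mesh.shift (by rw [sub_self, norm_zero]; nlinarith)
    exact h1.sub (mul_le_mul_of_nonneg_right (min_le_right _ _) (by positivity)) le_rfl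
  have hd1 : d ≤ a1 * (2 * η) :=
    hd.trans (mul_le_mul_of_nonneg_right (min_le_left _ _) (by positivity))
  have hd2 : d ≤ a2 * (2 * η) :=
    hd.trans (mul_le_mul_of_nonneg_right (min_le_right _ _) (by positivity))
  constructor
  · intro x0 x1 hx0 hx1 hx hreg
    have h1 := H1 S z (2 * η) d (by positivity) hN1 hd1 e (x0 * η) (x1 * η) (2 * η) (5 * η)
      (3 / 2 * η) he
      (by rw [abs_mul, abs_of_pos hη]; nlinarith) (by rw [abs_mul, abs_of_pos hη]; nlinarith)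
      (by rw [abs_of_pos (by positivity)]; nlinarith)
      (by rw [abs_of_pos (by positivity)]; nlinarith) (by nlinarith) (by nlinarith) (by nlinarith)
      (by nlinarith) T hT (fun s hs h1 h2 h3 h4 => hreg s hs ⟨⟨h1, h2⟩, h3, h4⟩)
    rw [pr_flip T (fun ω => Ln S η z e x0 x1 ω)]
    exact hpp1.trans h1
  · intro hreg
    have h1 := H2 S z (2 * η) d (by positivity) hN2 hd2 e (-(1 / 2) * η) (1 / 2 * η) (2 * η) (5 * η)
      (1 / 2 * η) he
      (by rw [abs_mul, abs_of_pos hη]; norm_num; nlinarith)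
      (by rw [abs_mul, abs_of_pos hη]; norm_num; nlinarith)
      (by rw [abs_of_pos (by positivity)]; nlinarith)
      (by rw [abs_of_pos (by positivity)]; nlinarith) (by nlinarith) (by nlinarith) (by nlinarith)
      (by nlinarith) T hT (fun s hs h1 h2 h3 h4 => hreg s hs ⟨⟨h1, h2⟩, h3, h4⟩)
    rw [pr_flip T (fun ω => Wd S η z e ω)]
    exact hpp2.trans h1

/-- environment of the gates `n, …, M` -/
def EnvG (S : Finset ℂ) (η : ℝ) (n M : ℕ) (z : ℕ → ℂ) (K c2 d C4 : ℝ) : Prop :=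
  ∀ a, n ≤ a → a ≤ M → NvA S (z a) (K * (2 * η)) c2 (2 * η) d C4

theorem lA_abs (h0 : 3 ≤ l0) (h1 : l0 ≤ 45) (n a : ℕ) : -1 ≤ lA l0 n a ∧ lA l0 n a ≤ 45 := by
  unfold lA
  split_ifs <;> constructor <;> linarith

theorem lB_abs (h0 : 3 ≤ l0) (h1 : l0 ≤ 45) (M a : ℕ) : -45 ≤ lB l0 M a ∧ lB l0 M a ≤ 1 := by
  unfold lB
  split_ifs <;> constructor <;> linarith

/-- **all lanes and windows** -/
theorem lanes_pr (hRB : RBm) : ∀ C4 : ℝ, 0 ≤ C4 → ∃ p c1 c2 K : ℝ, 0 < p ∧ p ≤ 1 ∧ 0 < c1 ∧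
    0 < c2 ∧ c2 ≤ 1 ∧ 0 < K ∧ ∀ (S : Finset ℂ) (η l0 d : ℝ) (n M : ℕ) (ty : ℕ → Ty) (z e : ℕ → ℂ),
      GPath η n M ty z e → 3 ≤ l0 → l0 ≤ 45 → EnvG S η n M z K c2 d C4 → d ≤ c1 * (2 * η) →
      ∀ T : Finset ℂ, T ⊆ S → (∀ s ∈ S, InLanes η l0 n M ty z e s → s ∈ T) →
      p ^ (3 * (M - n)) ≤ pr T (fun τ => Lanes S η l0 n M ty z e (T \ τ)) := by
  intro C4 hC4
  obtain ⟨p, c1, c2, K, hp, hp1, hc1, hc2, hc2', hK, H⟩ := pieces hRB C4 hC4
  refine ⟨p, c1, c2, K, hp, hp1, hc1, hc2, hc2', hK, ?_⟩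
  intro S η l0 d n M ty z e hg h0 h1 hE hd T hT hreg
  have hη := hg.eta
  -- the event of the tile `a`
  set A : ℕ → Finset ℂ → Prop := fun a ω =>
    Lane S η (ty a) (z a) (e a) (z (a + 1)) (e (a + 1)) (lA l0 n a) (lB l0 M a) ω with hA
  set B : ℕ → Finset ℂ → Prop := fun a ω => n < a → Wd S η (z a) (e a) ω with hB
  have mA : ∀ a, ∀ ω ω' : Finset ℂ, ω ⊆ ω' → A a ω → A a ω' := fun a ω ω' h h' => h'.mono h
  have mB : ∀ a, ∀ ω ω' : Finset ℂ, ω ⊆ ω' → B a ω → B a ω' := fun a ω ω' h h' h'' =>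
    (h' h'').mono h
  have pA : ∀ a, n ≤ a → a < M → p ^ 2 ≤ pr T (fun τ => A a (T \ τ)) := by
    intro a hna haM
    have hA1 := lA_abs h0 h1 n a
    have hB1 := lB_abs h0 h1 M a
    have e0 := hg.norm a hna haM.le
    have e1 := hg.norm (a + 1) (by omega) haM
    have N0 := hE a hna haM.le
    have N1 := hE (a + 1) (by omega) haM
    have r0 : ∀ s ∈ S, InLane η (ty a) (z a) (e a) (z (a + 1)) (e (a + 1)) (lA l0 n a)
        (lB l0 M a) s → s ∈ T := fun s hs h => hreg s hs (Or.inl ⟨a, ⟨hna, haM⟩, h⟩)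
    have P0 := (H S (z a) (e a) η d hη e0 N0 hd T hT).1
    have P1 := (H S (z (a + 1)) (e (a + 1)) η d hη e1 N1 hd T hT).1
    simp only [hA]
    cases hty : ty a with
    | S =>
      rw [hty] at r0
      have h2 := P0 (lA l0 n a) (100 + lB l0 M a) (by rw [abs_le]; constructor <;> linarith)
        (by rw [abs_le]; constructor <;> linarith) (by linarith) r0
      refine le_trans ?_ h2
      nlinarith
    | L =>
      rw [hty] at r0
      have h2 := P0 (lA l0 n a) 48 (by rw [abs_le]; constructor <;> linarith)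
        (by norm_num) (by linarith) (fun s hs h => r0 s hs (Or.inl h))
      have h3 := P1 (-48) (lB l0 M a) (by norm_num)
        (by rw [abs_le]; constructor <;> linarith) (by linarith) (fun s hs h => r0 s hs (Or.inr h))
      have h4 := harris_dn (V := T)
        (dn_of_mono (A := Ln S η (z a) (e a) (lA l0 n a) 48) (fun _ _ h h' => h'.mono h) T)
        (dn_of_mono (A := Ln S η (z (a + 1)) (e (a + 1)) (-48) (lB l0 M a))
          (fun _ _ h h' => h'.mono h) T)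
      refine le_trans ?_ h4
      rw [sq]
      exact mul_le_mul h2 h3 hp.le pr_nonneg
    | R =>
      rw [hty] at r0
      have h2 := P0 (lA l0 n a) 55 (by rw [abs_le]; constructor <;> linarith)
        (by norm_num) (by linarith) (fun s hs h => r0 s hs (Or.inl h))
      have h3 := P1 (-55) (lB l0 M a) (by norm_num)
        (by rw [abs_le]; constructor <;> linarith) (by linarith) (fun s hs h => r0 s hs (Or.inr h))
      have h4 := harris_dn (V := T)
        (dn_of_mono (A := Ln S η (z a) (e a) (lA l0 n a) 55) (fun _ _ h h' => h'.mono h) T)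
        (dn_of_mono (A := Ln S η (z (a + 1)) (e (a + 1)) (-55) (lB l0 M a))
          (fun _ _ h h' => h'.mono h) T)
      refine le_trans ?_ h4
      rw [sq]
      exact mul_le_mul h2 h3 hp.le pr_nonneg
  have pB : ∀ a, n ≤ a → a < M → p ≤ pr T (fun τ => B a (T \ τ)) := by
    intro a hna haM
    by_cases h : n < a
    · have e0 := hg.norm a hna haM.le
      have N0 := hE a hna haM.le
      have h2 := (H S (z a) (e a) η d hη e0 N0 hd T hT).2
        (fun s hs h3 => hreg s hs (Or.inr ⟨a, ⟨h, haM⟩, h3⟩))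
      exact h2.trans (pr_mono fun τ _ h3 _ => h3)
    · have h2 : pr T (fun τ => B a (T \ τ)) = 1 := by
        rw [← pr_true (V := T)]
        exact pr_congr fun τ _ => ⟨fun _ => trivial, fun _ h3 => absurd h3 h⟩
      rw [h2]
      exact hp1
  have hpr := harris_prod_dn (V := T) (Finset.Ico n M)
    (A := fun a τ => A a (T \ τ) ∧ B a (T \ τ))
    (fun a _ => dn_of_mono (A := fun ω => A a ω ∧ B a ω)
      (fun ω ω' h h' => ⟨mA a ω ω' h h'.1, mB a ω ω' h h'.2⟩) T)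
  have h3 : ∀ a ∈ Finset.Ico n M, p ^ 3 ≤ pr T (fun τ => A a (T \ τ) ∧ B a (T \ τ)) := by
    intro a ha
    rw [Finset.mem_Ico] at ha
    refine le_trans ?_ (harris_dn (dn_of_mono (mA a) T) (dn_of_mono (mB a) T))
    rw [pow_succ]
    exact mul_le_mul (pA a ha.1 ha.2) (pB a ha.1 ha.2) hp.le pr_nonneg
  have h4 : p ^ (3 * (M - n)) ≤ ∏ a ∈ Finset.Ico n M, pr T (fun τ => A a (T \ τ) ∧ B a (T \ τ)) := by
    have h5 := Finset.prod_le_prod (s := Finset.Ico n M) (f := fun _ => p ^ 3)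
      (fun _ _ => by positivity) h3
    rw [Finset.prod_const, Nat.card_Ico, ← pow_mul] at h5
    exact h5
  refine (h4.trans hpr).trans (pr_mono fun τ _ h5 => ⟨fun a h6 h7 => ?_, fun a h6 h7 => ?_⟩)
  · exact (h5 a (Finset.mem_Ico.2 ⟨h6, h7⟩)).1
  · exact (h5 a (Finset.mem_Ico.2 ⟨h6.le, h7⟩)).2 h6

end Crest.Agent.R143.Closex838
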