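import Crest.Agent.R143.DomC_722
import Crest.Agent.R143.Y0_831

/-!
# Row 143, block D: the classes of boundary sites (helper722)

* `fanA_of_ok` : the data of a `Dom`
* `Cls` : class `k` = sites whose cells meet `R k` and hull sites between the edges crossed by the
  rays `k` and `k + 1`
* `cls_one`, `cls_conn`, `cls_vedge`, `cls_hull` : the classes are disjoint, connected through dead
  edges, contain the hull sites and the ends of the killed edges
* `arc` : **leaf ARC**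
-/

set_option autoImplicit false

noncomputable section

open scoped Classical

namespace Crest.Agent.R143.DomDx722

open Crest.ProbabilityR.Voronoi MeasureTheory
open Crest.Agent.R143.B0x346 Crest.Agent.R143.B0Dx346 Crest.Agent.R143.DelGx806
open Crest.Agent.R143.DelRx806 Crest.Agent.R143.DomAx722 Crest.Agent.R143.DomBx722
open Crest.Agent.R143.DomCx722

variable {S : Finset ℂ}

/-! ### the data of a domain -/

/-- lifted sequence of three angles -/
def th3 (x a b : ℝ) (k : ℤ) : ℝ :=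
  x + (if k % 3 = 0 then 0 else if k % 3 = 1 then a else b) + 2 * Real.pi * ((k / 3 : ℤ) : ℝ)

theorem th3_0 (x a b : ℝ) (m : ℤ) : th3 x a b (3 * m) = x + 2 * Real.pi * m := by
  unfold th3
  rw [show (3 * m) % 3 = 0 by omega, show (3 * m) / 3 = m by omega]
  simp

theorem th3_1 (x a b : ℝ) (m : ℤ) : th3 x a b (3 * m + 1) = x + a + 2 * Real.pi * m := by
  unfold th3
  rw [show (3 * m + 1) % 3 = 1 by omega, show (3 * m + 1) / 3 = m by omega]
  simp

theorem th3_2 (x a b : ℝ) (m : ℤ) : th3 x a b (3 * m + 2) = x + b + 2 * Real.pi * m := by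
  unfold th3
  rw [show (3 * m + 2) % 3 = 2 by omega, show (3 * m + 2) / 3 = m by omega]
  simp

theorem cases3 (k : ℤ) : (∃ m, k = 3 * m) ∨ (∃ m, k = 3 * m + 1) ∨ ∃ m, k = 3 * m + 2 := by
  have : k % 3 = 0 ∨ k % 3 = 1 ∨ k % 3 = 2 := by omega
  rcases this with h | h | h
  · exact Or.inl ⟨k / 3, by omega⟩
  · exact Or.inr (Or.inl ⟨k / 3, by omega⟩)
  · exact Or.inr (Or.inr ⟨k / 3, by omega⟩)

theorem exp_per (x : ℝ) (m : ℤ) : Complex.exp (((x + 2 * Real.pi * m : ℝ) : ℂ) * Complex.I) =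
    Complex.exp (x * Complex.I) := by
  have : ((x + 2 * Real.pi * m : ℝ) : ℂ) * Complex.I = x * Complex.I +
      m * (2 * Real.pi * Complex.I) := by push_cast; ring
  rw [this, Complex.exp_add, Complex.exp_int_mul_two_pi_mul_I, mul_one]

theorem fanA_of_ok {D : Dom} {δ : ℝ} (hD : D.OK δ) : ∃ th, FanA 3 D.c D.L δ D.R D.q th := by
  have hpi := Real.pi_pos
  obtain ⟨a, a1, a2, ea⟩ := rel_angle hD (i := 0) (j := 1) (by decide)
  obtain ⟨b, b1, b2, eb⟩ := rel_angle hD (i := 0) (j := 2) (by decide)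
  have hang := DomAx722.ang_pos (DomAx722.eta_pos hD)
  have h0 := hD.qn 0
  set x := (D.q 0).arg with hx
  have ex : D.q 0 = Complex.exp (x * Complex.I) := by
    have := Complex.norm_mul_exp_arg_mul_I (D.q 0)
    rw [h0, Complex.ofReal_one, one_mul] at this
    exact this.symm
  have hab : a < b := by
    have h1 := q_ccw hD
    have e1 : D.q 1 - D.q 0 = D.q 0 * (Complex.exp (a * Complex.I) - 1) := by rw [ea]; ring
    have e2 : D.q 2 - D.q 0 = D.q 0 * (Complex.exp (b * Complex.I) - 1) := by rw [eb]; ring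
    have hn : (D.q 0).re ^ 2 + (D.q 0).im ^ 2 = 1 := by rw [← sq_norm, h0, one_pow]
    have e3 : cr (D.q 1 - D.q 0) (D.q 2 - D.q 0) =
        cr (Complex.exp (a * Complex.I) - 1) (Complex.exp (b * Complex.I) - 1) := by
      rw [e1, e2]
      set u := Complex.exp (a * Complex.I) - 1
      set v := Complex.exp (b * Complex.I) - 1
      unfold cr
      simp only [Complex.mul_re, Complex.mul_im]
      linear_combination (u.re * v.im - u.im * v.re) * hn
    rw [e3, cr_exp] at h1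
    by_contra hcon
    push Not at hcon
    have s1 : 0 < Real.sin (a / 2) := Real.sin_pos_of_pos_of_lt_pi (by linarith) (by linarith)
    have s2 : 0 < Real.sin (b / 2) := Real.sin_pos_of_pos_of_lt_pi (by linarith) (by linarith)
    have s3 : Real.sin ((b - a) / 2) ≤ 0 :=
      Real.sin_nonpos_of_nonpos_of_neg_pi_le (by linarith) (by linarith)
    have : 4 * Real.sin (a / 2) * Real.sin (b / 2) * Real.sin ((b - a) / 2) ≤ 0 :=
      mul_nonpos_of_nonneg_of_nonpos (by positivity) s3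
    linarith
  refine ⟨th3 x a b, fan_of_ok hD, ⟨by norm_num, ?_, ?_⟩, ?_, hD.sect⟩
  · refine strictMono_int_of_lt_succ fun k => ?_
    rcases cases3 k with ⟨m, rfl⟩ | ⟨m, rfl⟩ | ⟨m, rfl⟩
    · rw [th3_0, th3_1]; linarith
    · rw [show 3 * m + 1 + 1 = 3 * m + 2 by ring, th3_1, th3_2]; linarith
    · rw [show 3 * m + 2 + 1 = 3 * (m + 1) by ring, th3_2, th3_0]
      push_cast
      linarith
  · intro k
    rcases cases3 k with ⟨m, rfl⟩ | ⟨m, rfl⟩ | ⟨m, rfl⟩
    · rw [show 3 * m + ((3 : ℕ) : ℤ) = 3 * (m + 1) by push_cast; ring, th3_0, th3_0]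
      push_cast; ring
    · rw [show 3 * m + 1 + ((3 : ℕ) : ℤ) = 3 * (m + 1) + 1 by push_cast; ring, th3_1, th3_1]
      push_cast; ring
    · rw [show 3 * m + 2 + ((3 : ℕ) : ℤ) = 3 * (m + 1) + 2 by push_cast; ring, th3_2, th3_2]
      push_cast; ring
  · intro k
    have h3 : (3 : ZMod 3) = 0 := rfl
    rcases cases3 k with ⟨m, rfl⟩ | ⟨m, rfl⟩ | ⟨m, rfl⟩
    · rw [th3_0, exp_per]
      have : ((3 * m : ℤ) : ZMod 3) = 0 := by push_cast; rw [h3]; ring
      rw [this]; exact ex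
    · rw [th3_1, exp_per]
      have : ((3 * m + 1 : ℤ) : ZMod 3) = 1 := by push_cast; rw [h3]; ring
      rw [this, ea, ← exp_add_I, ← ex]
    · rw [th3_2, exp_per]
      have : ((3 * m + 2 : ℤ) : ZMod 3) = 2 := by push_cast; rw [h3]; ring
      rw [this, eb, ← exp_add_I, ← ex]

/-! ### classes -/

section Cls

variable {n N : ℕ} {c : ℂ} {L δ d : ℝ} {R : ZMod n → Set ℂ} {q : ZMod n → ℂ} {th ϑ : ℤ → ℝ}
  {w : ℤ → ℂ} {p : ZMod n → ℂ × ℂ} {J : ℤ → ℤ}

/-- class `k` of the boundary sites -/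
def Cls (S : Finset ℂ) (R : ZMod n → Set ℂ) (w : ℤ → ℂ) (J : ℤ → ℤ) (k : ℤ) : Set ℂ :=
  {v | v ∈ S ∧ (cell (S : Set ℂ) v ∩ R (k : ZMod n)).Nonempty} ∪
  {v | ∃ i : ℤ, J k < i ∧ i ≤ J (k + 1) ∧ v = w i}

/-- a site far from the centre whose cell meets `R l` is in the sector `l` -/
theorem near_dir (hF : FanA n c L δ R q th) (hS : Dns S c L d) (hd : 400 * (L * d) ≤ δ ^ 2)
    {v : ℂ} (hv : v ∈ S) {ρ φ : ℝ} (hρ : L - 2 * d ≤ ρ) (hpol : v = c + ρ * Complex.exp (φ * Complex.I))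
    {l : ZMod n} (h : (cell (S : Set ℂ) v ∩ R l).Nonempty) :
    ∃ k : ℤ, (k : ZMod n) = l ∧ th k < φ ∧ φ < th (k + 1) := by
  obtain ⟨z, hz, hzl⟩ := h
  have hL := hS.dL
  have hdp := hS.dpos
  have ha := hF.ang_pos
  have hvn : ‖v - c‖ = ρ := by
    rw [hpol, norm_rad (Complex.norm_exp_ofReal_mul_I _) (by linarith)]
  -- `z` is far
  have hzn : L - 3 * d ≤ ‖z - c‖ := by
    by_contra hcon
    push Not at hcon
    have h1 := cell_near hS hz (by linarith)
    have h2 : ‖v - c‖ ≤ ‖v - z‖ + ‖z - c‖ := by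
      have := norm_add_le (v - z) (z - c)
      rwa [sub_add_sub_cancel] at this
    rw [norm_sub_rev v z] at h2
    linarith
  obtain ⟨u, hu, hzu⟩ := exists_pol (c := c) (z := z) (by linarith)
  set r := ‖z - c‖ with hr
  -- direction of `z`
  obtain ⟨θ, hθ⟩ : ∃ θ : ℝ, u = Complex.exp (θ * Complex.I) := by
    refine ⟨u.arg, ?_⟩
    have := Complex.norm_mul_exp_arg_mul_I u
    rw [hu, Complex.ofReal_one, one_mul] at this
    exact this.symm
  rw [hθ] at hzu
  have hzl' : c + (r : ℂ) * Complex.exp (θ * Complex.I) ∈ R l := by rw [← hzu]; exact hzl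
  obtain ⟨k, hk, g1, g2⟩ := hF.sector_conv (r := r) (θ := θ) (by linarith) hzl'
  -- `v` is close to the end of the radius
  have hclose : ‖v - (c + L * Complex.exp (θ * Complex.I))‖ ≤ 5 * Real.sqrt (L * d) := by
    have hsq := d_le_sqrt hdp.le (by linarith : d ≤ L)
    rcases le_or_gt (L - d) r with h | h
    · have := lens hS hv hz (u := Complex.exp (θ * Complex.I)) (R := r)
        (Complex.norm_exp_ofReal_mul_I _) hzu h
      have hs0 := Real.sqrt_nonneg (L * d)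
      linarith
    · have h1 := cell_near hS hz h.le
      have e : v - (c + L * Complex.exp (θ * Complex.I)) =
          (v - z) + ((r - L : ℝ) : ℂ) * Complex.exp (θ * Complex.I) := by
        conv_rhs => rw [hzu]
        push_cast; ring
      rw [e]
      have h2 := norm_add_le (v - z) (((r - L : ℝ) : ℂ) * Complex.exp (θ * Complex.I))
      rw [norm_mul, Complex.norm_exp_ofReal_mul_I, mul_one, Complex.norm_real, Real.norm_eq_abs,
        abs_of_nonpos (by linarith), norm_sub_rev v z] at h2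
      linarith
  have h4 : ‖((L : ℝ) : ℂ) * Complex.exp (θ * Complex.I) - ρ * Complex.exp (φ * Complex.I)‖ ^ 2 ≤
      25 * (L * d) := by
    have e : ((L : ℝ) : ℂ) * Complex.exp (θ * Complex.I) - ρ * Complex.exp (φ * Complex.I) =
        -(v - (c + L * Complex.exp (θ * Complex.I))) := by rw [hpol]; ring
    rw [e, norm_neg]
    calc _ ≤ (5 * Real.sqrt (L * d)) ^ 2 := pow_le_pow_left₀ (norm_nonneg _) hclose 2
      _ = 25 * (L * d) := by rw [mul_pow, Real.sq_sqrt (by nlinarith)]; norm_num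
  have h5 := cos_of_close hF.fan.Lpos hF.fan.dpos hF.fan.lt (by linarith) (by linarith) h4 hd
  obtain ⟨m, hm⟩ := exists_near_of_cos_lt ha.le h5
  rw [abs_lt] at hm
  refine ⟨k + m * n, by simp [hk], ?_, ?_⟩
  · rw [hF.cyc.per_int]; linarith
  · rw [show k + m * (n : ℤ) + 1 = (k + 1) + m * n by ring, hF.cyc.per_int]; linarith

theorem arr_range (hA : Arr n N th ϑ w p J) (hC : Cyc N ϑ) {k i : ℤ} (h1 : J k < i)
    (h2 : i ≤ J (k + 1)) : th k ≤ ϑ i ∧ ϑ i ≤ th (k + 1) :=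
  ⟨(hA.hi k).trans (hC.mono.monotone (by omega)), (hC.mono.monotone h2).trans (hA.lo (k + 1))⟩

/-- **a hull site of the class `k` does not touch another region** -/
theorem hull_cell (hF : FanA n c L δ R q th) (hS : Dns S c L d) (hd : 400 * (L * d) ≤ δ ^ 2)
    (hH : HAng S c N w ϑ) (hA : Arr n N th ϑ w p J) {k i : ℤ} (h1 : J k < i) (h2 : i ≤ J (k + 1))
    {l : ZMod n} (h : (cell (S : Set ℂ) (w i) ∩ R l).Nonempty) : l = (k : ZMod n) := by
  obtain ⟨k', hk', g1, g2⟩ := near_dir hF hS hd (hullE.mem (hH.hull.edge i)).1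
    (hull_far hS (hH.hull.edge i)).1 (hH.pol i) h
  obtain ⟨r1, r2⟩ := arr_range hA hH.cyc h1 h2
  have i1 : k' < k + 1 := hF.cyc.mono.lt_iff_lt.1 (by linarith)
  have i2 : k < k' + 1 := hF.cyc.mono.lt_iff_lt.1 (by linarith)
  have : k' = k := by omega
  rw [← hk', this]

/-- shift by one turn -/
theorem arr_per_int (hA : Arr n N th ϑ w p J) (k m : ℤ) : J (k + m * n) = J k + m * N := by
  induction m using Int.induction_on with
  | zero => simp
  | succ i ih =>
    have : k + (i + 1 : ℤ) * n = (k + i * n) + n := by ring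
    rw [this, hA.per, ih]; ring
  | pred i ih =>
    have h1 := hA.per (k + (-i - 1 : ℤ) * n)
    have : k + (-i - 1 : ℤ) * n + n = k + (-i : ℤ) * n := by ring
    rw [this, ih] at h1
    linarith

/-- **the classes are pairwise disjoint** -/
theorem cls_one (hF : FanA n c L δ R q th) (hS : Dns S c L d) (hd : 400 * (L * d) ≤ δ ^ 2)
    (hH : HAng S c N w ϑ) (hA : Arr n N th ϑ w p J) {k k' : ℤ} {v : ℂ} (h : v ∈ Cls S R w J k)
    (h' : v ∈ Cls S R w J k') : (k : ZMod n) = (k' : ZMod n) := by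
  rcases h with ⟨hv, h⟩ | ⟨i, h1, h2, rfl⟩
  · rcases h' with ⟨-, h'⟩ | ⟨i, h1, h2, rfl⟩
    · exact hF.fan.cell_one hS hd hv h h'
    · exact hull_cell hF hS hd hH hA h1 h2 h
  · rcases h' with ⟨-, h'⟩ | ⟨i', h1', h2', he⟩
    · exact (hull_cell hF hS hd hH hA h1 h2 h').symm
    · have h4 := eq_mod hH.hull.pos hH.hull.per hH.hull.inj he
      obtain ⟨m, hm⟩ := (Int.ModEq.dvd h4 : (N : ℤ) ∣ i' - i)
      -- `i' = i + N m`
      have e1 := arr_per_int hA k m
      have e2 := arr_per_int hA (k + 1) m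
      rw [show k + 1 + m * (n : ℤ) = k + m * n + 1 by ring] at e2
      have i1 : J (k + m * n) < i' := by rw [e1]; linarith [mul_comm (N : ℤ) m]
      have i2 : i' ≤ J (k + m * n + 1) := by rw [e2]; linarith [mul_comm (N : ℤ) m]
      have j1 : k + m * n < k' + 1 := hA.mono.lt_iff_lt.1 (by omega)
      have j2 : k' < k + m * n + 1 := hA.mono.lt_iff_lt.1 (by omega)
      have : k' = k + m * n := by omega
      rw [this]; simp

/-- every hull site is in a class -/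
theorem cls_hull (hH : HAng S c N w ϑ) (hA : Arr n N th ϑ w p J)
    (i : ℤ) : ∃ k : ℤ, J k < i ∧ i ≤ J (k + 1) := by
  -- the greatest `k` with `J k < i`
  obtain ⟨k0, h0⟩ : ∃ k0, J k0 < i := by
    refine ⟨-(|J 0 - i| + 1) * n, ?_⟩
    have := arr_per_int hA 0 (-(|J 0 - i| + 1))
    rw [zero_add] at this
    rw [this]
    have hN : (1 : ℤ) ≤ N := by exact_mod_cast hH.hull.pos
    have h1 := le_abs_self (J 0 - i)
    have h2 := abs_nonneg (J 0 - i)
    nlinarith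
  obtain ⟨k1, h1⟩ : ∃ k1, i ≤ J k1 := by
    refine ⟨(|J 0 - i| + 1) * n, ?_⟩
    have := arr_per_int hA 0 (|J 0 - i| + 1)
    rw [zero_add] at this
    rw [this]
    have hN : (1 : ℤ) ≤ N := by exact_mod_cast hH.hull.pos
    have h1 := neg_abs_le (J 0 - i)
    have h2 := abs_nonneg (J 0 - i)
    nlinarith
  obtain ⟨k, hk, hk'⟩ := Int.exists_greatest_of_bdd (P := fun k => J k < i)
    ⟨k1, fun k hk => by
      by_contra hcon
      push Not at hcon
      have := hA.mono hcon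
      omega⟩ ⟨k0, h0⟩
  refine ⟨k, hk, ?_⟩
  by_contra hcon
  push Not at hcon
  have := hk' (k + 1) hcon
  omega

/-! ### connectedness -/

/-- **the extreme site in a direction** : a hull site whose cell contains the far points of the ray -/
theorem extreme (hS : Dns S c L d) {u : ℂ} (hu : ‖u‖ = 1) :
    ∃ v ∈ S, (∃ b, hullE S v b) ∧ ∃ r0 : ℝ, ∀ r : ℝ, r0 ≤ r → c + r * u ∈ cell (S : Set ℂ) v := by
  have hcard := hS.card
  have hLd := hS.dL
  have hdp := hS.dpos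
  have hne : S.Nonempty := Finset.card_pos.1 (by omega)
  set g : ℂ → ℝ := fun s => (s - c).re * u.re + (s - c).im * u.im with hg
  have hun : u.re ^ 2 + u.im ^ 2 = 1 := by rw [← sq_norm, hu, one_pow]
  obtain ⟨m, hm, hmax⟩ := Finset.exists_max_image S g hne
  obtain ⟨v, hv, hmin⟩ := Finset.exists_min_image (S.filter fun s => g s = g m) (fun s => ‖s - c‖)
    ⟨m, Finset.mem_filter.2 ⟨hm, rfl⟩⟩
  obtain ⟨hvS, hvg⟩ := Finset.mem_filter.1 hv
  have hvmax : ∀ s ∈ S, g s ≤ g v := fun s hs => by rw [hvg]; exact hmax s hs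
  have hexp : ∀ (r : ℝ) (s : ℂ), ‖c + r * u - s‖ ^ 2 = ‖s - c‖ ^ 2 - 2 * r * g s + r ^ 2 := by
    intro r s
    rw [sq_norm, sq_norm, hg]
    simp only [Complex.sub_re, Complex.sub_im, Complex.add_re, Complex.add_im, Complex.mul_re,
      Complex.mul_im, Complex.ofReal_re, Complex.ofReal_im]
    linear_combination r ^ 2 * hun
  refine ⟨v, hvS, ?_, ?_⟩
  · by_contra hcon
    have h1 : ∀ a b, hullE S a b → 0 < cr (b - a) (v - a) := by
      intro a b h
      refine hull_side_lt hS.gp h hvS ?_ ?_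
      · rintro rfl
        exact hcon ⟨b, h⟩
      · rintro rfl
        exact hcon ((hull_in_iff_out hS.gp _).1 ⟨a, h⟩)
    set E : Finset (ℂ × ℂ) := (S ×ˢ S).filter fun e => hullE S e.1 e.2 with hE
    set T : ℝ := 1 + ∑ e ∈ E, |cr (e.2 - e.1) u| / cr (e.2 - e.1) (v - e.1) with hT
    have hterm : ∀ e ∈ E, 0 ≤ |cr (e.2 - e.1) u| / cr (e.2 - e.1) (v - e.1) := fun e he =>
      div_nonneg (abs_nonneg _) (h1 _ _ (Finset.mem_filter.1 he).2).le
    have hT1 : 1 ≤ T := by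
      have := Finset.sum_nonneg hterm
      linarith
    have hin : InHull S (v + ((1 / T : ℝ) : ℂ) * u) := by
      intro a b h
      have he : (a, b) ∈ E := Finset.mem_filter.2 ⟨Finset.mem_product.2 (hullE.mem h), h⟩
      have h2 := Finset.single_le_sum (f := fun e : ℂ × ℂ =>
        |cr (e.2 - e.1) u| / cr (e.2 - e.1) (v - e.1)) hterm he
      dsimp only at h2
      have h3 := h1 a b h
      have h4 : |cr (b - a) u| ≤ T * cr (b - a) (v - a) := by
        rw [← div_le_iff₀ h3]; linarith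
      have e1 : v + ((1 / T : ℝ) : ℂ) * u - a = (v - a) + ((1 / T : ℝ) : ℂ) * u := by ring
      rw [e1, cr_add_right, cr_smul_right]
      have h5 := neg_abs_le (cr (b - a) u)
      have h6 : 1 / T * |cr (b - a) u| ≤ cr (b - a) (v - a) := by
        rw [one_div, inv_mul_le_iff₀ (by linarith)]; exact h4
      have h7 : 0 < 1 / T := by positivity
      nlinarith
    obtain ⟨a, b, e, o, hTr, hx, -⟩ := cover hS.gp hcard hin
    obtain ⟨α, β, γ, k1, k2, k3, k4, hxe⟩ := inT_bary hTr.pos hx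
    have g1 : g (v + ((1 / T : ℝ) : ℂ) * u) = g v + 1 / T := by
      rw [hg]
      simp only [Complex.sub_re, Complex.sub_im, Complex.add_re, Complex.add_im, Complex.mul_re,
        Complex.mul_im, Complex.ofReal_re, Complex.ofReal_im]
      linear_combination (1 / T) * hun
    have g2 : g (v + ((1 / T : ℝ) : ℂ) * u) = α * g a + β * g b + γ * g e := by
      rw [hxe, hg]
      have : γ = 1 - α - β := by linarith
      subst this
      simp only [Complex.sub_re, Complex.sub_im, Complex.add_re, Complex.add_im, Complex.mul_re,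
        Complex.mul_im, Complex.ofReal_re, Complex.ofReal_im]
      ring
    have g3 : α * g a + β * g b + γ * g e ≤ α * g v + β * g v + γ * g v := by
      have := hvmax a hTr.ma
      have := hvmax b hTr.mb
      have := hvmax e hTr.mc
      gcongr
    have g4 : α * g v + β * g v + γ * g v = g v := by rw [← add_mul, ← add_mul, k4, one_mul]
    have : 0 < 1 / T := by positivity
    linarith
  · refine ⟨1 + ∑ s ∈ S, |‖v - c‖ ^ 2 / (2 * (g v - g s))|, fun r hr s hs => ?_⟩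
    have hsum : |‖v - c‖ ^ 2 / (2 * (g v - g s))| ≤
        ∑ s ∈ S, |‖v - c‖ ^ 2 / (2 * (g v - g s))| :=
      Finset.single_le_sum (f := fun s => |‖v - c‖ ^ 2 / (2 * (g v - g s))|)
        (fun _ _ => abs_nonneg _) hs
    refine le_of_sq_le_sq ?_ (norm_nonneg _)
    rw [hexp, hexp]
    rcases eq_or_lt_of_le (hvmax s hs) with h | h
    · have h1 := hmin s (Finset.mem_filter.2 ⟨hs, h.trans hvg⟩)
      have h2 := pow_le_pow_left₀ (norm_nonneg _) h1 2
      rw [h]
      linarith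
    · have h1 : ‖v - c‖ ^ 2 / (2 * (g v - g s)) ≤ r :=
        (le_abs_self _).trans (by linarith)
      rw [div_le_iff₀ (by linarith)] at h1
      nlinarith [sq_nonneg ‖s - c‖]

theorem vedge_comm {x y : ℂ} (hx : x ∈ S) (hy : y ∈ S) :
    vedge (S : Set ℂ) x y = vedge (S : Set ℂ) y x := by
  rw [vedge_eq (Finset.mem_coe.2 hx) (Finset.mem_coe.2 hy),
    vedge_eq (Finset.mem_coe.2 hy) (Finset.mem_coe.2 hx), Set.inter_comm]

theorem KStep.symm {A : Set ℂ} {x y : ℂ} (h : KStep S A x y) : KStep S A y x := by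
  obtain ⟨h1, h2, h3, h4, h5⟩ := h
  exact ⟨h2, h1, h3.symm, by rwa [vedge_comm h2 h1], h5.symm⟩

/-- one step in the class `k` -/
def CS (S : Finset ℂ) (R : ZMod n → Set ℂ) (w : ℤ → ℂ) (J : ℤ → ℤ) (k : ℤ) (x y : ℂ) : Prop :=
  x ∈ Cls S R w J k ∧ y ∈ Cls S R w J k ∧ (KStep S (R (k : ZMod n)) x y ∨
    ∃ i : ℤ, J k < i ∧ i < J (k + 1) ∧ ((x = w i ∧ y = w (i + 1)) ∨ (x = w (i + 1) ∧ y = w i)))

theorem CS.symm {k : ℤ} {x y : ℂ} (h : CS S R w J k x y) : CS S R w J k y x := by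
  obtain ⟨h1, h2, h3⟩ := h
  refine ⟨h2, h1, ?_⟩
  rcases h3 with h | ⟨i, h3, h4, h5⟩
  · exact Or.inl (KStep.symm h)
  · exact Or.inr ⟨i, h3, h4, h5.symm.imp (fun h => ⟨h.2, h.1⟩) fun h => ⟨h.2, h.1⟩⟩

theorem rtg_symm {X : Type} {r : X → X → Prop} (hr : ∀ x y, r x y → r y x) {x y : X}
    (h : Relation.ReflTransGen r x y) : Relation.ReflTransGen r y x := by
  induction h with
  | refl => exact Relation.ReflTransGen.refl
  | tail _ h ih => exact Relation.ReflTransGen.head (hr _ _ h) ih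

theorem rtg_mono {X : Type} {r s : X → X → Prop} (hr : ∀ x y, r x y → s x y) {x y : X}
    (h : Relation.ReflTransGen r x y) : Relation.ReflTransGen s x y := by
  induction h with
  | refl => exact Relation.ReflTransGen.refl
  | tail _ h ih => exact ih.tail (hr _ _ h)

/-- the ends of a Voronoi edge which meets `R k` -/
theorem cls_vedge {k : ℤ} {x y : ℂ} (hx : x ∈ S) (hy : y ∈ S)
    (h : (vedge (S : Set ℂ) x y ∩ R (k : ZMod n)).Nonempty) :
    x ∈ Cls S R w J k ∧ y ∈ Cls S R w J k := by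
  obtain ⟨z, h1, h2⟩ := h
  exact ⟨Or.inl ⟨hx, z, vedge_sub_left _ _ _ h1, h2⟩, Or.inl ⟨hy, z, vedge_sub_right _ _ _ h1, h2⟩⟩

/-- a hull site of the class `k` whose cell meets `R k` -/
theorem cls_link (hF : FanA n c L δ R q th) (hS : Dns S c L d) (hd : 400 * (L * d) ≤ δ ^ 2)
    (hH : HAng S c N w ϑ) (hA : Arr n N th ϑ w p J) (k : ℤ) :
    ∃ i : ℤ, J k < i ∧ i ≤ J (k + 1) ∧ (cell (S : Set ℂ) (w i) ∩ R (k : ZMod n)).Nonempty := by
  have hL := hF.fan.Lpos
  have hgap := hF.gap k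
  have ha := hF.ang_pos
  obtain ⟨v, hv, ⟨b, hb⟩, r0, hr0⟩ := extreme hS (u := Complex.exp
    ((((th k + th (k + 1)) / 2 : ℝ) : ℂ) * Complex.I)) (Complex.norm_exp_ofReal_mul_I _)
  obtain ⟨i, -, -, hi, -⟩ := hH.hull.all v b hb
  have hmeet : (cell (S : Set ℂ) v ∩ R (k : ZMod n)).Nonempty :=
    ⟨_, hr0 (max r0 L) (le_max_left _ _), hF.sector (by
      have := le_max_right r0 L
      linarith) (by linarith) (by linarith)⟩
  rw [← hi] at hmeet
  obtain ⟨k', hk', g1, g2⟩ := near_dir hF hS hd (hullE.mem (hH.hull.edge i)).1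
    (hull_far hS (hH.hull.edge i)).1 (hH.pol i) hmeet
  obtain ⟨m, hm⟩ := (ZMod.intCast_eq_intCast_iff_dvd_sub k' k n).1 hk'
  -- `k = k' + n m`
  have e1 : k = k' + m * n := by linarith [mul_comm (n : ℤ) m]
  have p1 := hF.cyc.per_int k' m
  have p2 := hF.cyc.per_int (k' + 1) m
  have p3 := hH.cyc.per_int i m
  have hw : w (i + m * N) = w i := by
    rw [← mod_per hH.hull.pos hH.hull.per (i + m * N), Int.add_mul_emod_self_right,
      mod_per hH.hull.pos hH.hull.per]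
  rw [← e1] at p1
  rw [show k' + 1 + m * (n : ℤ) = k + 1 by rw [e1]; ring] at p2
  refine ⟨i + m * N, ?_, ?_, by rw [hw]; exact hmeet⟩
  · apply hH.cyc.mono.lt_iff_lt.1
    have := hA.lo k
    linarith
  · have : i + m * N < J (k + 1) + 1 := by
      apply hH.cyc.mono.lt_iff_lt.1
      have := hA.hi (k + 1)
      linarith
    omega

/-- **the classes are connected** -/
theorem cls_conn (hF : FanA n c L δ R q th) (hS : Dns S c L d) (hd : 400 * (L * d) ≤ δ ^ 2)
    (hH : HAng S c N w ϑ) (hA : Arr n N th ϑ w p J) {k : ℤ} {x y : ℂ} (hx : x ∈ Cls S R w J k)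
    (hy : y ∈ Cls S R w J k) : Relation.ReflTransGen (CS S R w J k) x y := by
  obtain ⟨i0, h1, h2, h3⟩ := cls_link hF hS hd hH hA k
  have hull : ∀ i, J k < i → i ≤ J (k + 1) → w i ∈ Cls S R w J k := fun i a b =>
    Or.inr ⟨i, a, b, rfl⟩
  -- hull chain
  have hch : ∀ (m : ℕ) (i : ℤ), J k < i → i + m ≤ J (k + 1) →
      Relation.ReflTransGen (CS S R w J k) (w i) (w (i + m)) := by
    intro m
    induction m with
    | zero => intro i _ _; simp; exact Relation.ReflTransGen.refl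
    | succ m ih =>
      intro i a b
      have b' : i + m ≤ J (k + 1) := by push_cast at b; omega
      refine (ih i a b').tail ⟨hull _ (by omega) b', hull _ (by push_cast at b ⊢; omega) b,
        Or.inr ⟨i + m, by omega, by push_cast at b; omega, Or.inl ⟨rfl, ?_⟩⟩⟩
      congr 1
      push_cast
      ring
  have hto : ∀ x ∈ Cls S R w J k, Relation.ReflTransGen (CS S R w J k) x (w i0) := by
    rintro x (⟨hxS, hxc⟩ | ⟨i, a, b, rfl⟩)
    · have := hF.fan.conn_cells hS hxS (hullE.mem (hH.hull.edge i0)).1 hxc h3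
      refine rtg_mono (fun u v huv => ?_) this
      obtain ⟨m1, m2⟩ := cls_vedge (w := w) (J := J) huv.1 huv.2.1 huv.2.2.2.1
      exact ⟨m1, m2, Or.inl huv⟩
    · rcases le_total i i0 with h | h
      · obtain ⟨m, hm⟩ := Int.eq_ofNat_of_zero_le (sub_nonneg.2 h)
        have e : i0 = i + m := by omega
        rw [e]
        exact hch m i a (by omega)
      · obtain ⟨m, hm⟩ := Int.eq_ofNat_of_zero_le (sub_nonneg.2 h)
        have e : i = i0 + m := by omega
        rw [e]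
        exact rtg_symm (fun _ _ h => CS.symm h) (hch m i0 h1 (by omega))
  exact (hto x hx).trans (rtg_symm (fun _ _ h => CS.symm h) (hto y hy))

/-- equal classes -/
theorem cls_congr (hH : HAng S c N w ϑ) (hA : Arr n N th ϑ w p J) {k k' : ℤ}
    (h : (k : ZMod n) = (k' : ZMod n)) : Cls S R w J k = Cls S R w J k' := by
  have key : ∀ k k' : ℤ, (k : ZMod n) = (k' : ZMod n) → Cls S R w J k ⊆ Cls S R w J k' := by
    intro k k' h v hv
    rcases hv with ⟨h1, h2⟩ | ⟨i, h1, h2, rfl⟩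
    · exact Or.inl ⟨h1, by rw [← h]; exact h2⟩
    · obtain ⟨m, hm⟩ := (ZMod.intCast_eq_intCast_iff_dvd_sub k k' n).1 h
      have e1 : k' = k + m * n := by linarith [mul_comm (n : ℤ) m]
      refine Or.inr ⟨i + m * N, ?_, ?_, ?_⟩
      · rw [e1, arr_per_int hA]; linarith
      · rw [e1, show k + m * (n : ℤ) + 1 = k + 1 + m * n by ring, arr_per_int hA]; linarith
      · rw [← mod_per hH.hull.pos hH.hull.per (i + m * N), Int.add_mul_emod_self_right,
          mod_per hH.hull.pos hH.hull.per]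
  exact Set.Subset.antisymm (key k k' h) (key k' k h.symm)

/-- a hull edge which is not crossed by a ray has both ends in one class -/
theorem cls_edge (hH : HAng S c N w ϑ) (hA : Arr n N th ϑ w p J)
    {a b : ℂ} (h : hullE S a b) (hp : ∀ k, p k ≠ (a, b)) :
    ∃ k : ℤ, ∃ i : ℤ, J k < i ∧ i < J (k + 1) ∧ a = w i ∧ b = w (i + 1) := by
  obtain ⟨i, -, -, rfl, rfl⟩ := hH.hull.all a b h
  obtain ⟨k, h1, h2⟩ := cls_hull hH hA (i + 1)
  have h3 : J k ≠ i := fun e => hp (k : ZMod n) (by rw [hA.edge, e])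
  refine ⟨k, i, by omega, by omega, rfl, rfl⟩

/-- the edges inside a class are not crossed by a ray -/
theorem cls_not_mark (hH : HAng S c N w ϑ) (hA : Arr n N th ϑ w p J) (hn : 0 < n) {k i : ℤ}
    (h1 : J k < i) (h2 : i < J (k + 1)) (l : ZMod n) : p l ≠ (w i, w (i + 1)) := by
  intro h
  have : NeZero n := ⟨hn.ne'⟩
  have hl : ((l.val : ℤ) : ZMod n) = l := by rw [Int.cast_natCast, ZMod.natCast_zmod_val]
  rw [← hl, hA.edge] at h
  have h3 : w (J l.val) = w i := congrArg Prod.fst h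
  have h4 := eq_mod hH.hull.pos hH.hull.per hH.hull.inj h3
  obtain ⟨m, hm⟩ := (Int.ModEq.dvd h4 : (N : ℤ) ∣ i - J l.val)
  have e1 : i = J (l.val + m * n) := by rw [arr_per_int hA]; linarith [mul_comm (N : ℤ) m]
  rw [e1] at h1 h2
  have j1 := hA.mono.lt_iff_lt.1 h1
  have j2 := hA.mono.lt_iff_lt.1 h2
  omega

end Cls

/-! ### leaf ARC -/

open Crest.Agent.R143.Y0x831

/-- all the data of a domain net -/
theorem exists_data {D : Dom} {δ d : ℝ} (hD : D.OK δ) (hS : Dns S D.c D.L d)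
    (hd : 400 * (D.L * d) ≤ δ ^ 2) : ∃ (th ϑ : ℤ → ℝ) (N : ℕ) (w : ℤ → ℂ) (J : ℤ → ℤ),
    FanA 3 D.c D.L δ D.R D.q th ∧ HAng S D.c N w ϑ ∧ Arr 3 N th ϑ w (D.netS S).ex J := by
  obtain ⟨th, hF⟩ := fanA_of_ok hD
  obtain ⟨N, w, hw⟩ := hull_cycle hS.gp hS.card
  obtain ⟨ϑ, hH⟩ := hull_angle hS hw
  obtain ⟨J, hA⟩ := exists_arr hH hF hS hd (p := (D.netS S).ex) fun k => by
    rw [netS_ex hS.gp]
    exact rayMark_spec (crossRay_exists hS (hD.qn k))
  exact ⟨th, ϑ, N, w, J, hF, hH, hA⟩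

theorem mem_netE {D : Dom} (hS : GP (S : Set ℂ)) {x y : ℂ} :
    (x, y) ∈ (D.netS S).toTrg.E ↔ (∃ e, (x, y, e) ∈ delT S) ∨ ∃ e, (y, x, e) ∈ delT S := by
  unfold Trg.E
  rw [Finset.mem_union, Finset.mem_image, Finset.mem_image, netS_T hS]
  constructor
  · rintro (⟨⟨a, b, e⟩, h, he⟩ | ⟨⟨a, b, e⟩, h, he⟩)
    · simp only [Prod.mk.injEq] at he
      obtain ⟨rfl, rfl⟩ := he
      exact Or.inl ⟨e, h⟩
    · simp only [Prod.mk.injEq] at he
      obtain ⟨rfl, rfl⟩ := he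
      exact Or.inr ⟨e, h⟩
  · rintro (⟨e, h⟩ | ⟨e, h⟩)
    · exact Or.inl ⟨(x, y, e), h, rfl⟩
    · exact Or.inr ⟨(y, x, e), h, rfl⟩

theorem del_mem {x y e : ℂ} (h : (x, y, e) ∈ delT S) : x ∈ S ∧ y ∈ S :=
  ⟨(mem_delT.1 h).1, (mem_delT.1 h).2.1⟩

section Net

variable {D : Dom} {δ d : ℝ} {th ϑ : ℤ → ℝ} {N : ℕ} {w : ℤ → ℂ} {J : ℤ → ℤ}

/-- an edge of an arc has both ends in one class -/
theorem arcRel_cls (hD : D.OK δ) (hS : Dns S D.c D.L d) (hd : 400 * (D.L * d) ≤ δ ^ 2)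
    (hH : HAng S D.c N w ϑ) (hA : Arr 3 N th ϑ w (D.netS S).ex J) {x y : ℂ}
    (h : ArcRel (D.netS S) x y) : ∃ k : ℤ, x ∈ Cls S D.R w J k ∧ y ∈ Cls S D.R w J k := by
  obtain ⟨hE, h⟩ := h
  have hxy : x ∈ S ∧ y ∈ S := by
    rcases (mem_netE hS.gp).1 hE with ⟨e, he⟩ | ⟨e, he⟩
    · exact del_mem he
    · exact (del_mem he).symm
  have hhull : ∀ a b : ℂ, (a, b) ∈ (D.netS S).toTrg.E → (∀ e, (b, a, e) ∉ (D.netS S).T) →
      (a, b) ∉ (D.netS S).exS → ∃ k : ℤ, a ∈ Cls S D.R w J k ∧ b ∈ Cls S D.R w J k := by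
    intro a b hE h1 h2
    rw [netS_T hS.gp] at h1
    have hh : hullE S a b := by
      rcases (mem_netE hS.gp).1 hE with he | ⟨e, he⟩
      · exact ⟨he, h1⟩
      · exact absurd he (h1 e)
    obtain ⟨k, i, g1, g2, rfl, rfl⟩ := cls_edge hH hA hh fun k hk => h2 ⟨k, hk⟩
    exact ⟨k, Or.inr ⟨i, g1, g2.le, rfl⟩, Or.inr ⟨i + 1, by omega, by omega, rfl⟩⟩
  rcases h with h | ⟨h1, h2⟩ | ⟨h1, h2⟩
  · rw [netS_kl_eq hD hS hd] at h
    obtain ⟨z, hz1, hz2⟩ := h
    unfold Dom.out at hz2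
    rw [Set.mem_iUnion] at hz2
    obtain ⟨l, hl⟩ := hz2
    have e : ((l.val : ℤ) : ZMod 3) = l := by rw [Int.cast_natCast, ZMod.natCast_zmod_val]
    exact ⟨l.val, cls_vedge hxy.1 hxy.2 ⟨z, hz1, by rw [e]; exact hl⟩⟩
  · exact hhull x y hE h1 h2
  · have hE' : (y, x) ∈ (D.netS S).toTrg.E :=
      (mem_netE hS.gp).2 ((mem_netE hS.gp).1 hE).symm
    obtain ⟨k, g1, g2⟩ := hhull y x hE' h1 h2
    exact ⟨k, g2, g1⟩

/-- a step inside a class is an edge of an arc -/
theorem cs_arcRel (hD : D.OK δ) (hS : Dns S D.c D.L d) (hd : 400 * (D.L * d) ≤ δ ^ 2)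
    (hH : HAng S D.c N w ϑ) (hA : Arr 3 N th ϑ w (D.netS S).ex J) {k : ℤ} {x y : ℂ}
    (h : CS S D.R w J k x y) : ArcRel (D.netS S) x y := by
  obtain ⟨-, -, h⟩ := h
  rcases h with ⟨h1, h2, h3, ⟨z, h4, h4'⟩, h5⟩ | ⟨i, h1, h2, ⟨rfl, rfl⟩ | ⟨rfl, rfl⟩⟩
  · refine ⟨(mem_netE hS.gp).2 h5, Or.inl ((netS_kl_eq hD hS hd _).2 ⟨z, h4, ?_⟩)⟩
    unfold Dom.out
    exact Set.mem_iUnion.2 ⟨_, h4'⟩
  · have hh := hH.hull.edge i
    refine ⟨(mem_netE hS.gp).2 (Or.inl hh.1), Or.inr (Or.inl ⟨?_, ?_⟩)⟩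
    · rw [netS_T hS.gp]; exact hh.2
    · rintro ⟨l, hl⟩
      exact cls_not_mark hH hA (by norm_num) h1 h2 l hl
  · have hh := hH.hull.edge i
    refine ⟨(mem_netE hS.gp).2 (Or.inr hh.1), Or.inr (Or.inr ⟨?_, ?_⟩)⟩
    · rw [netS_T hS.gp]; exact hh.2
    · rintro ⟨l, hl⟩
      exact cls_not_mark hH hA (by norm_num) h1 h2 l hl

/-- **the arcs are the classes** -/
theorem arcN_eq (hD : D.OK δ) (hS : Dns S D.c D.L d) (hd : 400 * (D.L * d) ≤ δ ^ 2)
    (hF : FanA 3 D.c D.L δ D.R D.q th) (hH : HAng S D.c N w ϑ)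
    (hA : Arr 3 N th ϑ w (D.netS S).ex J) (k : ℤ) :
    arcN (D.netS S) (k : ZMod 3) = Cls S D.R w J k := by
  have hstart : ((D.netS S).ex (k : ZMod 3)).2 ∈ Cls S D.R w J k := by
    rw [hA.edge]
    exact Or.inr ⟨J k + 1, by omega, by have := hA.mono (lt_add_one k); omega, rfl⟩
  ext v
  constructor
  · intro hv
    induction hv with
    | refl => exact hstart
    | tail _ h ih =>
      obtain ⟨k', h1, h2⟩ := arcRel_cls hD hS hd hH hA h
      have := cls_one hF hS hd hH hA ih h1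
      rw [cls_congr hH hA this]
      exact h2
  · intro hv
    exact rtg_mono (fun x y h => cs_arcRel hD hS hd hH hA h)
      (cls_conn hF hS hd hH hA hstart hv)

theorem arcOK_S (hD : D.OK δ) (hS : Dns S D.c D.L d) (hd : 400 * (D.L * d) ≤ δ ^ 2) :
    ArcOK (D.netS S) S := by
  obtain ⟨th, ϑ, N, w, J, hF, hH, hA⟩ := exists_data hD hS hd
  have hk : ∀ k : ZMod 3, arcN (D.netS S) k = Cls S D.R w J k.val := fun k => by
    rw [← arcN_eq hD hS hd hF hH hA]
    congr 1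
    rw [Int.cast_natCast, ZMod.natCast_zmod_val]
  refine ⟨fun i j hij => ?_, fun k => ?_, fun v hv x hx => ?_⟩
  · rw [Set.disjoint_left]
    intro v h1 h2
    rw [hk] at h1 h2
    have := cls_one hF hS hd hH hA h1 h2
    rw [Int.cast_natCast, Int.cast_natCast, ZMod.natCast_zmod_val, ZMod.natCast_zmod_val] at this
    exact hij this
  · have e1 : (((k.val : ℤ) : ZMod 3)) = k := by rw [Int.cast_natCast, ZMod.natCast_zmod_val]
    have e2 : (((k.val : ℤ) - 1 : ℤ) : ZMod 3) = k - 1 := by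
      rw [Int.cast_sub, e1, Int.cast_one]
    rw [← e2, arcN_eq hD hS hd hF hH hA]
    have e3 := hA.edge k.val
    rw [e1] at e3
    rw [e3]
    exact Or.inr ⟨J k.val, hA.mono (by omega), by rw [sub_add_cancel], rfl⟩
  · obtain ⟨k', h1, -⟩ := arcRel_cls hD hS hd hH hA hx
    rw [← arcN_eq hD hS hd hF hH hA] at h1
    unfold innN at hv
    exact (Finset.mem_filter.1 hv).2 _ h1

/-- free sites -/
theorem inn_of_cell (hD : D.OK δ) (hS : Dns S D.c D.L d) (hd : 400 * (D.L * d) ≤ δ ^ 2) {v : ℂ}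
    (hv : v ∈ S) (hc : voronoiCell (S : Set ℂ) v ∩ D.out = ∅)
    (hh : ∀ x y : ℂ, hullE S x y → x ≠ v ∧ y ≠ v) : v ∈ innN (D.netS S) S := by
  obtain ⟨th, ϑ, N, w, J, hF, hH, hA⟩ := exists_data hD hS hd
  unfold innN
  refine Finset.mem_filter.2 ⟨hv, fun k hk => ?_⟩
  have e1 : (((k.val : ℤ) : ZMod 3)) = k := by rw [Int.cast_natCast, ZMod.natCast_zmod_val]
  rw [← e1, arcN_eq hD hS hd hF hH hA] at hk
  rcases hk with ⟨-, z, hz1, hz2⟩ | ⟨i, -, -, hi⟩
  · have : z ∈ voronoiCell (S : Set ℂ) v ∩ D.out := ⟨hz1, Set.mem_iUnion.2 ⟨_, hz2⟩⟩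
    rw [hc] at this
    exact this
  · exact (hh _ _ (hH.hull.edge i)).1 hi.symm

end Net

/-- smallness -/
theorem small_d2 {L d δ : ℝ} (hL : 0 < L) (hδ0 : 0 < δ) (hδ : δ ≤ L) (h0 : 0 ≤ d)
    (hd : 40000 * L ^ 5 * d ≤ δ ^ 6) : 400 * (L * d) ≤ δ ^ 2 := by
  have h1 : δ ^ 4 ≤ L ^ 4 := pow_le_pow_left₀ hδ0.le hδ 4
  have h2 : 40000 * L ^ 5 * d ≤ L ^ 4 * δ ^ 2 := by
    calc 40000 * L ^ 5 * d ≤ δ ^ 4 * δ ^ 2 := by rw [← pow_add]; exact hd
      _ ≤ L ^ 4 * δ ^ 2 := by gcongr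
  have h5 : 0 < L ^ 4 := by positivity
  have h6 : L ^ 4 * (400 * (L * d)) ≤ L ^ 4 * δ ^ 2 := by
    have : 0 ≤ L ^ 4 * (L * d) := by positivity
    nlinarith
  exact le_of_mul_le_mul_left h6 h5

/-- **leaf ARC** -/
theorem arc : ARC := by
  intro D δ hD
  have hL := hD.Lpos
  have hδ := hD.dpos
  refine ⟨δ ^ 6 / (40000 * D.L ^ 5), by positivity, fun ε d M ω _ hd0 hd hE => ?_⟩
  rw [le_div_iff₀ (by positivity)] at hd
  have hd' : 40000 * D.L ^ 5 * d ≤ δ ^ 6 := by linarith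
  have h8 := small_d hL hδ (lt_L hD).le hd'
  have hS := dns_of_env hL h8 hE
  have h4 := small_d2 hL hδ (lt_L hD).le hd0.le hd'
  exact ⟨d1 hD hE hd', arcOK_S hD hS h4, fun v hv hc hh => inn_of_cell hD hS h4 hv hc hh⟩

end Crest.Agent.R143.DomDx722
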