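import Crest.Agent.R143.En12_395
import Crest.Agent.R143.DomD_722

/-!
# Row 143 (S0194), part B: classes of boundary sites, from D2 to `Sides2` (helper395)

* `cls_ok` : `Cls` for the networks of the domains `D.OK` (from leaf ARC of helper722).
-/

set_option autoImplicit false

noncomputable section

namespace Crest.Agent.R143.Clsx395

open Set MeasureTheory Filter Topology
open scoped Classical
open Crest.ProbabilityR.Voronoi
open Crest.Agent.R143.B0x346 Crest.Agent.R143.B0Dx346 Crest.Agent.R143.Sidesx697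
open Crest.Agent.R143.Tiling2x395 Crest.Agent.R143.DomAx722 Crest.Agent.R143.DomBx722
open Crest.Agent.R143.En12x395 Crest.Agent.R143.Y0x831

/-! ### walls and arcs -/

theorem wall_of_arc {S : Finset ℂ} {N : Net ℂ} (hN : HNet S N) {x y : ℂ} (h : ArcRel N x y) :
    Wall N x y := by
  obtain ⟨hE, h⟩ := h
  have key : ∀ a b : ℂ, (∀ c, (b, a, c) ∉ N.T) → (b, a) ∉ N.exS := by
    rintro a b h1 ⟨k, hk⟩
    obtain ⟨c, hc⟩ := (hN.hex k).1
    rw [hk, ← hN.tri] at hc
    exact h1 c hc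
  rcases h with h | ⟨h1, h2⟩ | ⟨h1, h2⟩
  · refine ⟨hE, ?_, ?_, Or.inl h⟩
    · rintro ⟨k, e⟩
      exact hN.live k (e ▸ h)
    · rintro ⟨k, e⟩
      exact hN.live k (e ▸ N.klsym _ _ h)
  · exact ⟨hE, h2, key x y h1, Or.inr (Or.inl h1)⟩
  · exact ⟨hE, key y x h1, h2, Or.inr (Or.inr h1)⟩

theorem arc_of_wall {N : Net ℂ} {x y : ℂ} (h : Wall N x y) : ArcRel N x y := by
  obtain ⟨hE, h1, h2, h3⟩ := h
  refine ⟨hE, ?_⟩
  rcases h3 with h | h | h
  · exact Or.inl h
  · exact Or.inr (Or.inl ⟨h, h1⟩)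
  · exact Or.inr (Or.inr ⟨h, h2⟩)

theorem wall_symm {N : Net ℂ} {x y : ℂ} (h : Wall N x y) : Wall N y x := by
  obtain ⟨hE, h1, h2, h3⟩ := h
  refine ⟨?_, h2, h1, ?_⟩
  · unfold Trg.E at hE ⊢
    simp only [Finset.mem_union, Finset.mem_image, Prod.mk.injEq] at hE ⊢
    rcases hE with ⟨t, ht, e1, e2⟩ | ⟨t, ht, e1, e2⟩
    · exact Or.inr ⟨t, ht, e2, e1⟩
    · exact Or.inl ⟨t, ht, e2, e1⟩
  · rcases h3 with h | h | h
    · exact Or.inl (N.klsym _ _ h)
    · exact Or.inr (Or.inr h)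
    · exact Or.inr (Or.inl h)

theorem walls_symm {N : Net ℂ} {x y : ℂ} (h : Relation.ReflTransGen (Wall N) x y) :
    Relation.ReflTransGen (Wall N) y x := by
  induction h with
  | refl => exact Relation.ReflTransGen.refl
  | tail _ h ih => exact Relation.ReflTransGen.head (wall_symm h) ih

/-- classes from the leaf ARC -/
theorem cls_of_arcOK {S : Finset ℂ} {N : Net ℂ} (hN : HNet S N) (hA : ArcOK N S) :
    Cls N (arcN N) := by
  have con2 : ∀ k, ∀ x ∈ arcN N k, Relation.ReflTransGen (Wall N) (N.ex k).2 x := by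
    intro k x hx
    have hx' : Relation.ReflTransGen (ArcRel N) (N.ex k).2 x := hx
    induction hx' with
    | refl => exact Relation.ReflTransGen.refl
    | @tail b c h1 h2 ih => exact (ih h1).tail (wall_of_arc hN h2)
  refine ⟨hA.disj, fun k x hx y hy => (walls_symm (con2 k x hx)).trans (con2 k y hy), hA.mark,
    fun k => Relation.ReflTransGen.refl, fun x y hw => ?_⟩
  have hxy := arc_of_wall hw
  have hxS : x ∈ S := by
    obtain ⟨hE, -⟩ := hxy
    unfold Trg.E at hE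
    simp only [Finset.mem_union, Finset.mem_image, Prod.mk.injEq, hN.tri] at hE
    rcases hE with ⟨⟨a, b, c⟩, ht, e1, e2⟩ | ⟨⟨a, b, c⟩, ht, e1, e2⟩
    · have := DelGx806.mem_delT.1 ht
      rw [← e1]; exact this.1
    · have := DelGx806.mem_delT.1 ht
      rw [← e1]; exact this.2.1
  obtain ⟨k, hk⟩ : ∃ k, x ∈ arcN N k := by
    by_contra hc
    push Not at hc
    exact hA.inn x (Finset.mem_filter.2 ⟨hxS, hc⟩) y hxy
  exact ⟨k, hk, Relation.ReflTransGen.tail (show Relation.ReflTransGen (ArcRel N) (N.ex k).2 x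
    from hk) hxy⟩

/-- **the classes of a domain** -/
theorem clsP : ClsP := fun _ _ _ _ hD hS hd hN => ⟨_, cls_of_arcOK hN (DomDx722.arcOK_S hD hS hd)⟩

end Crest.Agent.R143.Clsx395
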