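import Crest.Agent.R143.Qd3_54

/-!
# Row 143 (S0194): comparison of two quads (helper697), part 1: exploration

Two quads on the same set of sites, `O` with classes `B i`, `U` with classes `B' i ⊇ B i` (so the free
sites of `U` are free in `O`). `wc` = white cluster of `B' 1` in `U`, `wb` = its black boundary.
* `cut` : cutting a path at the first / last site of two sets
* `bd_crq` : if `U` has a black crossing, `wb` contains one
* `stop` : `wc ∪ wb` is an exploration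
* `ext` : if `wb` contains a black crossing of `U` with the ends `x`, `y`, if `x`, `y` are joined to
  `B 0`, `B 2` by short paths in `B' 0`, `B' 2` and if `O` has no black crossing, then there is a
  white chain of non explored sites from the neighbourhood of `x` or `y` to `B 3`
-/

set_option autoImplicit false

noncomputable section

open scoped Classical

namespace Crest.Agent.R143.Cmpx697

open Crest.Agent.R143.DelGx806
open Crest.Agent.R143.RE0x723 (Pth fre Crq Qd)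
open Crest.Agent.R143.JColx54 (Adj)
open Crest.Agent.R143.Qd3x54 (xorq)
open Crest.Agent.R143.Harx315 (pr IsStop)

variable {S : Finset ℂ} {n : ℕ} {w : ℤ → ℂ} {i0 i1 i2 i3 : ℤ} {B : ZMod 4 → Finset ℂ}
  {n' : ℕ} {w' : ℤ → ℂ} {i0' i1' i2' i3' : ℤ} {B' : ZMod 4 → Finset ℂ} {J : Finset ℂ}
  {x y z : ℂ}

/-- cutting a path from `A` to `C` -/
theorem cut {A C T : Set ℂ} (h : Pth S {v | v ∈ T ∨ v ∈ A ∨ v ∈ C} x y) (hx : x ∈ A) (hy : y ∈ C) :
    ∃ a ∈ A, ∃ c ∈ C, Pth S {v | v ∈ T ∨ v = a ∨ v = c} a c := by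
  have key : (∃ a ∈ A, ∃ c ∈ C, Pth S {v | v ∈ T ∨ v = a ∨ v = c} a c) ∨
      ∃ a ∈ A, Pth S {v | v ∈ T ∨ v = a} a y := by
    refine h.ind (P := fun y => (∃ a ∈ A, ∃ c ∈ C, Pth S {v | v ∈ T ∨ v = a ∨ v = c} a c) ∨
      ∃ a ∈ A, Pth S {v | v ∈ T ∨ v = a} a y) ?_ ?_
    · exact Or.inr ⟨x, hx, Pth.refl (Or.inr rfl)⟩
    · intro b b' _ hb' hbb' ih
      rcases ih with ih | ⟨a, ha, ih⟩
      · exact Or.inl ih
      · rcases hb' with h1 | h1 | h1
        · exact Or.inr ⟨a, ha, ih.tail hbb' (Or.inl h1)⟩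
        · exact Or.inr ⟨b', h1, Pth.refl (Or.inr rfl)⟩
        · refine Or.inl ⟨a, ha, b', h1, (ih.mono ?_).tail hbb' (Or.inr (Or.inr rfl))⟩
          rintro v (h2 | h2)
          · exact Or.inl h2
          · exact Or.inr (Or.inl h2)
  rcases key with h1 | ⟨a, ha, h1⟩
  · exact h1
  · refine ⟨a, ha, y, hy, h1.mono ?_⟩
    rintro v (h2 | h2)
    · exact Or.inl h2
    · exact Or.inr (Or.inl h2)

/-- white cluster of the class 1 -/
def wc (S : Finset ℂ) (B : ZMod 4 → Finset ℂ) (J : Finset ℂ) : Finset ℂ :=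
  (fre S B).filter fun v => ∃ x ∈ B 1, Pth S {v | (v ∈ fre S B ∧ v ∉ J) ∨ v ∈ B 1} x v

/-- its black boundary -/
def wb (S : Finset ℂ) (B : ZMod 4 → Finset ℂ) (J : Finset ℂ) : Finset ℂ :=
  (fre S B).filter fun v => v ∈ J ∧ ∃ u, (u ∈ B 1 ∨ u ∈ wc S B J) ∧ Adj S u v

theorem mem_fre {v : ℂ} : v ∈ fre S B ↔ v ∈ S ∧ ∀ i, v ∉ B i := by
  unfold RE0x723.fre; rw [Finset.mem_filter]

theorem wc_fre {v : ℂ} (h : v ∈ wc S B J) : v ∈ fre S B := (Finset.mem_filter.1 h).1

theorem wc_not {v : ℂ} (h : v ∈ wc S B J) : v ∉ J := by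
  obtain ⟨h1, x, -, h2⟩ := Finset.mem_filter.1 h
  rcases h2.snd with h3 | h3
  · exact h3.2
  · exact absurd h3 ((mem_fre.1 h1).2 1)

theorem wc_pth {v : ℂ} (h : v ∈ wc S B J ∨ v ∈ B 1) :
    ∃ x ∈ B 1, Pth S {v | (v ∈ fre S B ∧ v ∉ J) ∨ v ∈ B 1} x v := by
  rcases h with h | h
  · exact (Finset.mem_filter.1 h).2
  · exact ⟨v, h, Pth.refl (Or.inr h)⟩

theorem wc_tail {u v : ℂ} (hu : u ∈ wc S B J ∨ u ∈ B 1) (h : Adj S u v) (hv : v ∈ fre S B)
    (hJ : v ∉ J) : v ∈ wc S B J := by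
  obtain ⟨x, hx, h1⟩ := wc_pth hu
  exact Finset.mem_filter.2 ⟨hv, x, hx, h1.tail h (Or.inl ⟨hv, hJ⟩)⟩

/-- a path inside the cluster -/
theorem wc_pth' {v : ℂ} (h : v ∈ wc S B J ∨ v ∈ B 1) :
    ∃ x ∈ B 1, Pth S {v | v ∈ wc S B J ∨ v ∈ B 1} x v := by
  obtain ⟨x, hx, h1⟩ := wc_pth h
  refine ⟨x, hx, ?_⟩
  refine h1.ind (P := fun v => Pth S {v | v ∈ wc S B J ∨ v ∈ B 1} x v) (Pth.refl (Or.inr hx)) ?_
  intro a b _ hb hab ih
  rcases hb with hb | hb
  · exact ih.tail hab (Or.inl (wc_tail ih.snd hab hb.1 hb.2))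
  · exact ih.tail hab (Or.inr hb)

theorem wb_fre {v : ℂ} (h : v ∈ wb S B J) : v ∈ fre S B := (Finset.mem_filter.1 h).1

theorem wb_mem {v : ℂ} (h : v ∈ wb S B J) : v ∈ J := (Finset.mem_filter.1 h).2.1

theorem wb_of {u v : ℂ} (hu : u ∈ wc S B J ∨ u ∈ B 1) (h : Adj S u v) (hv : v ∈ fre S B)
    (hJ : v ∈ J) : v ∈ wb S B J :=
  Finset.mem_filter.2 ⟨hv, hJ, u, hu.symm, h⟩

/-- **the boundary contains a crossing** -/
theorem bd_crq (hU : Qd S n w i0 i1 i2 i3 B) (h : Crq S B 0 (J ∩ fre S B)) :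
    Crq S B 0 (wb S B J) := by
  rw [xorq hU (fun v hv => wb_fre hv)]
  rintro ⟨x, hx, y, hy, h1⟩
  have h2 := (xorq hU Finset.inter_subset_right).1 h
  have key : (y ∈ wc S B J ∨ y ∈ B 1) ∨ Crq S B 1 (fre S B \ (J ∩ fre S B)) := by
    refine h1.ind (P := fun y => (y ∈ wc S B J ∨ y ∈ B 1) ∨
      Crq S B 1 (fre S B \ (J ∩ fre S B))) (Or.inl (Or.inr hx)) ?_
    intro a b _ hb hab ih
    rcases ih with ih | ih
    · rcases hb with hb | hb | hb
      · rw [Finset.mem_sdiff] at hb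
        by_cases hJ : b ∈ J
        · exact absurd (wb_of ih hab hb.1 hJ) hb.2
        · exact Or.inl (Or.inl (wc_tail ih hab hb.1 hJ))
      · exact Or.inl (Or.inr hb)
      · right
        obtain ⟨x', hx', h3⟩ := wc_pth ih
        refine ⟨x', hx', b, hb, (h3.mono ?_).tail hab (Or.inr (Or.inr hb))⟩
        rintro v (h4 | h4)
        · refine Or.inl (Finset.mem_sdiff.2 ⟨h4.1, fun h5 => h4.2 (Finset.mem_inter.1 h5).1⟩)
        · exact Or.inr (Or.inl h4)
    · exact Or.inr ih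
  rcases key with (h3 | h3) | h3
  · exact (mem_fre.1 (wc_fre h3)).2 _ hy
  · exact Finset.disjoint_left.1 (hU.disj 1 (1 + 2) (by decide)) h3 hy
  · exact h2 h3

/-- **the exploration** -/
theorem stop {V : Finset ℂ} (hV : fre S B ⊆ V) :
    IsStop V (fun β => wc S B β ∪ wb S B β) where
  sub := fun β _ v hv => by
    rcases Finset.mem_union.1 hv with h | h
    · exact hV (wc_fre h)
    · exact hV (wb_fre h)
  stop := fun β β' _ _ he => by
    have e1 : ∀ v, v ∈ wc S B β → v ∉ β' := by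
      intro v hv hv'
      have : v ∈ β' ∩ (wc S B β ∪ wb S B β) :=
        Finset.mem_inter.2 ⟨hv', Finset.mem_union_left _ hv⟩
      rw [← he] at this
      exact wc_not hv (Finset.mem_inter.1 this).1
    have e2 : ∀ v, v ∈ wb S B β → v ∈ β' := by
      intro v hv
      have : v ∈ β ∩ (wc S B β ∪ wb S B β) :=
        Finset.mem_inter.2 ⟨wb_mem hv, Finset.mem_union_right _ hv⟩
      rw [he] at this
      exact (Finset.mem_inter.1 this).1
    have h1 : ∀ v, v ∈ wc S B β → v ∈ wc S B β' := by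
      intro v hv
      obtain ⟨x, hx, h⟩ := wc_pth' (Or.inl hv)
      refine Finset.mem_filter.2 ⟨wc_fre hv, x, hx, h.mono ?_⟩
      rintro u (hu | hu)
      · exact Or.inl ⟨wc_fre hu, e1 u hu⟩
      · exact Or.inr hu
    have h2 : ∀ v, v ∈ wc S B β' → v ∈ wc S B β := by
      intro v hv
      obtain ⟨x, hx, h⟩ := wc_pth (Or.inl hv)
      have : v ∈ wc S B β ∨ v ∈ B 1 := by
        refine h.ind (P := fun v => v ∈ wc S B β ∨ v ∈ B 1) (Or.inr hx) ?_
        intro a b _ hb hab ih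
        rcases hb with hb | hb
        · by_cases hJ : b ∈ β
          · exact absurd (e2 b (wb_of ih hab hb.1 hJ)) hb.2
          · exact Or.inl (wc_tail ih hab hb.1 hJ)
        · exact Or.inr hb
      rcases this with h3 | h3
      · exact h3
      · exact absurd h3 ((mem_fre.1 (wc_fre hv)).2 1)
    have hw : wc S B β' = wc S B β := Finset.Subset.antisymm (fun v => h2 v) (fun v => h1 v)
    have hb : wb S B β' = wb S B β := by
      apply Finset.Subset.antisymm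
      · intro v hv
        obtain ⟨h3, h4, u, h5, h6⟩ := Finset.mem_filter.1 hv
        rw [hw] at h5
        by_cases hJ : v ∈ β
        · exact Finset.mem_filter.2 ⟨h3, hJ, u, h5, h6⟩
        · exact absurd h4 (e1 v (wc_tail h5.symm h6 h3 hJ))
      · intro v hv
        obtain ⟨h3, h4, u, h5, h6⟩ := Finset.mem_filter.1 hv
        exact Finset.mem_filter.2 ⟨h3, e2 v hv, u, by rw [hw]; exact h5, h6⟩
    rw [hw, hb]

/-- the explored sets are determined by the exploration -/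
theorem stop_eq {V : Finset ℂ} (hV : fre S B ⊆ V) {β β' : Finset ℂ} (hβ : β ⊆ V) (hβ' : β' ⊆ V)
    (he : β ∩ (wc S B β ∪ wb S B β) = β' ∩ (wc S B β ∪ wb S B β)) :
    wc S B β' = wc S B β ∧ wb S B β' = wb S B β := by
  have h : wc S B β' ∪ wb S B β' = wc S B β ∪ wb S B β := (stop hV).stop β β' hβ hβ' he
  have e1 : ∀ v, v ∈ wc S B β → v ∉ β' := by
    intro v hv hv'
    have : v ∈ β' ∩ (wc S B β ∪ wb S B β) :=
      Finset.mem_inter.2 ⟨hv', Finset.mem_union_left _ hv⟩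
    rw [← he] at this
    exact wc_not hv (Finset.mem_inter.1 this).1
  have e2 : ∀ v, v ∈ wb S B β → v ∈ β' := by
    intro v hv
    have : v ∈ β ∩ (wc S B β ∪ wb S B β) :=
      Finset.mem_inter.2 ⟨wb_mem hv, Finset.mem_union_right _ hv⟩
    rw [he] at this
    exact (Finset.mem_inter.1 this).1
  constructor
  · ext v
    constructor
    · intro hv
      have : v ∈ wc S B β ∪ wb S B β := by rw [← h]; exact Finset.mem_union_left _ hv
      rcases Finset.mem_union.1 this with h1 | h1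
      · exact h1
      · exact absurd (e2 v h1) (wc_not hv)
    · intro hv
      have : v ∈ wc S B β' ∪ wb S B β' := by rw [h]; exact Finset.mem_union_left _ hv
      rcases Finset.mem_union.1 this with h1 | h1
      · exact h1
      · exact absurd (wb_mem h1) (e1 v hv)
  · ext v
    constructor
    · intro hv
      have : v ∈ wc S B β ∪ wb S B β := by rw [← h]; exact Finset.mem_union_right _ hv
      rcases Finset.mem_union.1 this with h1 | h1
      · exact absurd (wb_mem hv) (e1 v h1)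
      · exact h1
    · intro hv
      have : v ∈ wc S B β' ∪ wb S B β' := by rw [h]; exact Finset.mem_union_right _ hv
      rcases Finset.mem_union.1 this with h1 | h1
      · exact absurd (e2 v hv) (wc_not h1)
      · exact h1

/-- the free sites of the small quad are free in the big one -/
theorem fre_mono (hs : ∀ i, B i ⊆ B' i) : fre S B' ⊆ fre S B := by
  intro v hv
  rw [mem_fre] at hv ⊢
  exact ⟨hv.1, fun i hi => hv.2 i (hs i hi)⟩

theorem fre_of (hd : ∀ i j, i ≠ j → Disjoint (B' i) (B' j)) (hS : ∀ i, B' i ⊆ S)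
    (hs : ∀ i, B i ⊆ B' i) {i : ZMod 4} {v : ℂ} (hv : v ∈ B' i) (h : v ∉ B i) : v ∈ fre S B := by
  rw [mem_fre]
  refine ⟨hS i hv, fun j hj => ?_⟩
  by_cases hij : i = j
  · subst hij; exact h hj
  · exact Finset.disjoint_left.1 (hd i j hij) hv (hs j hj)

/-- **EXT** -/
theorem ext (hO : Qd S n w i0 i1 i2 i3 B) (hU : Qd S n' w' i0' i1' i2' i3' B')
    (hs : ∀ i, B i ⊆ B' i) (hne : (B 1).Nonempty) (hJ : J ⊆ fre S B)
    {X Y : Set ℂ} (hX : ∀ v ∈ X, v ∈ B' 0) (hY : ∀ v ∈ Y, v ∈ B' 2)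
    (hx : ∃ u ∈ B 0, Pth S X x u) (hy : ∃ u ∈ B 2, Pth S Y y u)
    (hxy : Pth S {v | v ∈ wb S B' J ∨ v = x ∨ v = y} x y)
    (hno : ¬ Crq S B 0 J) :
    ∃ z, (z ∈ X ∨ z ∈ Y) ∧ ∃ z' ∈ B 3, Pth S {v | (v ∈ fre S B \ (wc S B' J ∪ wb S B' J) ∧ v ∉ J) ∨
      v = z ∨ v = z'} z z' := by
  obtain ⟨u0, hu0, hpx⟩ := hx
  obtain ⟨u2, hu2, hpy⟩ := hy
  set T : Finset ℂ := (fre S B).filter fun v => v ∈ wb S B' J ∨ v ∈ X ∨ v ∈ Y with hT
  have hTf : T ⊆ fre S B := Finset.filter_subset _ _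
  have hX' : ∀ v ∈ X, v ∈ T ∨ v ∈ B 0 := by
    intro v hv
    by_cases h : v ∈ B 0
    · exact Or.inr h
    · exact Or.inl (Finset.mem_filter.2 ⟨fre_of hU.disj hU.sub hs (hX v hv) h, Or.inr (Or.inl hv)⟩)
  have hY' : ∀ v ∈ Y, v ∈ T ∨ v ∈ B 2 := by
    intro v hv
    by_cases h : v ∈ B 2
    · exact Or.inr h
    · exact Or.inl (Finset.mem_filter.2 ⟨fre_of hU.disj hU.sub hs (hY v hv) h, Or.inr (Or.inr hv)⟩)
  have hc : Crq S B 0 T := by
    refine ⟨u0, hu0, u2, hu2, ?_⟩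
    have h1 : Pth S {v | v ∈ T ∨ v ∈ B 0 ∨ v ∈ B (0 + 2)} u0 x := by
      refine hpx.symm.mono fun v hv => ?_
      rcases hX' v hv with h | h
      · exact Or.inl h
      · exact Or.inr (Or.inl h)
    have h2 : Pth S {v | v ∈ T ∨ v ∈ B 0 ∨ v ∈ B (0 + 2)} y u2 := by
      refine hpy.mono fun v hv => ?_
      rcases hY' v hv with h | h
      · exact Or.inl h
      · exact Or.inr (Or.inr (by simpa using h))
    have h3 : Pth S {v | v ∈ T ∨ v ∈ B 0 ∨ v ∈ B (0 + 2)} x y := by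
      refine hxy.mono ?_
      rintro v (h | h | h)
      · exact Or.inl (Finset.mem_filter.2 ⟨fre_mono hs (wb_fre h), Or.inl h⟩)
      · rw [h]; exact h1.snd
      · rw [h]; exact h2.1
    exact (h1.trans h3).trans h2
  have hn1 : ¬ Crq S B 1 (fre S B \ T) := (xorq hO hTf).1 hc
  have hw : Crq S B 1 (fre S B \ J) := by
    by_contra h
    exact hno ((xorq hO hJ).2 h)
  obtain ⟨b1, hb1⟩ := hne
  -- every site of the cluster is joined to `B 1` off the barrier
  have hcl : ∀ v, v ∈ wc S B' J ∨ v ∈ B' 1 →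
      Pth S {v | v ∈ fre S B \ T ∨ v ∈ B 1 ∨ v ∈ B (1 + 2)} b1 v := by
    intro v hv
    have hmem : ∀ u, u ∈ wc S B' J ∨ u ∈ B' 1 → u ∈ fre S B \ T ∨ u ∈ B 1 ∨ u ∈ B (1 + 2) := by
      intro u hu
      rcases hu with hu | hu
      · refine Or.inl (Finset.mem_sdiff.2 ⟨fre_mono hs (wc_fre hu), fun h => ?_⟩)
        rcases (Finset.mem_filter.1 h).2 with h | h | h
        · exact wc_not hu (wb_mem h)
        · exact (mem_fre.1 (wc_fre hu)).2 0 (hX u h)
        · exact (mem_fre.1 (wc_fre hu)).2 2 (hY u h)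
      · by_cases h1 : u ∈ B 1
        · exact Or.inr (Or.inl h1)
        · refine Or.inl (Finset.mem_sdiff.2 ⟨fre_of hU.disj hU.sub hs hu h1, fun h => ?_⟩)
          rcases (Finset.mem_filter.1 h).2 with h | h | h
          · exact (mem_fre.1 (wb_fre h)).2 1 hu
          · exact Finset.disjoint_left.1 (hU.disj 1 0 (by decide)) hu (hX u h)
          · exact Finset.disjoint_left.1 (hU.disj 1 2 (by decide)) hu (hY u h)
    obtain ⟨a, ha, h1⟩ := wc_pth' hv
    have h2 : Pth S {v | v ∈ fre S B \ T ∨ v ∈ B 1 ∨ v ∈ B (1 + 2)} b1 a := by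
      refine (hU.con 1 b1 (hs 1 hb1) a ha).mono fun u hu => hmem u (Or.inr hu)
    exact h2.trans (h1.mono fun u hu => hmem u hu)
  obtain ⟨a, ha, c, hcc, hp⟩ := hw
  set F : Set ℂ := {v | (v ∈ fre S B \ (wc S B' J ∪ wb S B' J) ∧ v ∉ J)} with hF
  have key : (Pth S {v | v ∈ fre S B \ T ∨ v ∈ B 1 ∨ v ∈ B (1 + 2)} b1 c) ∨
      ∃ z, (z ∈ X ∨ z ∈ Y) ∧ Pth S {v | v ∈ F ∨ v = z ∨ v ∈ B 3} z c := by
    refine hp.ind (P := fun c => (Pth S {v | v ∈ fre S B \ T ∨ v ∈ B 1 ∨ v ∈ B (1 + 2)} b1 c) ∨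
      ∃ z, (z ∈ X ∨ z ∈ Y) ∧ Pth S {v | v ∈ F ∨ v = z ∨ v ∈ B 3} z c)
      (Or.inl (hcl a (Or.inr (hs 1 ha)))) ?_
    intro b b' _ hb' hbb' ih
    by_cases hT1 : b' ∈ T
    · -- a site of the barrier
      obtain ⟨h1, h2⟩ := Finset.mem_filter.1 hT1
      have h3 : b' ∉ J := by
        rcases hb' with h | h | h
        · exact (Finset.mem_sdiff.1 h).2
        · exact absurd h ((mem_fre.1 h1).2 1)
        · exact absurd h ((mem_fre.1 h1).2 (1 + 2))
      have h4 : b' ∈ X ∨ b' ∈ Y := by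
        rcases h2 with h2 | h2
        · exact absurd (wb_mem h2) h3
        · exact h2
      exact Or.inr ⟨b', h4, Pth.refl (Or.inr (Or.inl rfl))⟩
    · by_cases hc1 : b' ∈ wc S B' J ∨ b' ∈ B' 1
      · exact Or.inl (hcl b' hc1)
      · rw [not_or] at hc1
        rcases hb' with h | h | h
        · obtain ⟨h1, h2⟩ := Finset.mem_sdiff.1 h
          rcases ih with ih | ⟨z, hz, ih⟩
          · exact Or.inl (ih.tail hbb' (Or.inl (Finset.mem_sdiff.2 ⟨h1, hT1⟩)))
          · refine Or.inr ⟨z, hz, ih.tail hbb' (Or.inl ⟨Finset.mem_sdiff.2 ⟨h1, ?_⟩, h2⟩)⟩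
            intro h3
            rcases Finset.mem_union.1 h3 with h3 | h3
            · exact hc1.1 h3
            · exact h2 (wb_mem h3)
        · exact absurd (hs 1 h) hc1.2
        · rcases ih with ih | ⟨z, hz, ih⟩
          · exact Or.inl (ih.tail hbb' (Or.inr (Or.inr h)))
          · have h3 : b' ∈ B 3 := h
            exact Or.inr ⟨z, hz, ih.tail hbb' (Or.inr (Or.inr h3))⟩
  rcases key with h1 | ⟨z, hz, h1⟩
  · exact absurd ⟨b1, hb1, c, hcc, h1⟩ hn1
  · have h13 : c ∈ B 3 := hcc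
    obtain ⟨a', ha', c', hc', h2⟩ := cut (A := {z}) (C := {v | v ∈ B 3}) (T := F)
      (h1.mono (by
        rintro v (h | h | h)
        · exact Or.inl h
        · exact Or.inr (Or.inl h)
        · exact Or.inr (Or.inr h))) rfl h13
    have ha2 : a' = z := ha'
    subst ha2
    exact ⟨a', hz, c', hc', h2⟩

end Crest.Agent.R143.Cmpx697
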