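import Crest.Agent.R143.RBm_838

/-!
# Row 143, leaf CNT, part 1 (helper838): tail of the number of disjoint crossings

* `Cn R β x y` : chain of sites of `β` from `x` to `y`
* `NA R A B m β` : `m` sites of `A`, joined to `B` by `β`, in `m` different clusters of `β`
* `tail` : `pr V (NA m) ≤ q ^ m` for all `V ⊆ S` as soon as `pr V (NA 1) ≤ q` for all `V ⊆ S`
* `second` : second moment; `cs` : Cauchy-Schwarz with one more event
* `na_arm`, `cnt_tail` : annuli, from `cbm`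
-/

set_option autoImplicit false

noncomputable section

open scoped Classical

namespace Crest.Agent.R143.Cnt1x838

open Crest.Agent.R143.B0x346 Crest.Agent.R143.DelGx806 Crest.Agent.R143.DelRx806
open Crest.Agent.R143.ToolWx838 Crest.Agent.R143.Blkx838 Crest.Agent.R143.ToolW2x838
open Crest.Agent.R143.ToolW3x838 Crest.Agent.R143.Circ4x838 Crest.Agent.R143.Harx315
open Crest.Agent.R143.RB0x838 Crest.Agent.R143.CircPx838 Crest.Agent.R143.Gatex838
open Crest.Agent.R143.CBx838 Crest.Agent.R143.Multix838 Crest.Agent.R143.RBpx838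
open Crest.Agent.R143.RBmx838

variable {R : ℂ → ℂ → Prop} {A B : ℂ → Prop} {V S β β' : Finset ℂ} {x y z v : ℂ} {m : ℕ}

/-- chain of sites of `β` -/
def Cn (R : ℂ → ℂ → Prop) (β : Finset ℂ) (x y : ℂ) : Prop :=
  x ∈ β ∧ Relation.ReflTransGen (fun a b => R a b ∧ b ∈ β) x y

theorem Cn.snd (h : Cn R β x y) : y ∈ β := by
  rcases Relation.ReflTransGen.cases_tail h.2 with h1 | ⟨z, -, h1⟩
  · rw [h1]; exact h.1
  · exact h1.2

theorem Cn.rfl' (h : x ∈ β) : Cn R β x x := ⟨h, Relation.ReflTransGen.refl⟩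

theorem Cn.trans (h : Cn R β x y) (h' : Cn R β y z) : Cn R β x z := ⟨h.1, h.2.trans h'.2⟩

theorem Cn.tail (h : Cn R β x y) (h1 : R y z) (h2 : z ∈ β) : Cn R β x z :=
  ⟨h.1, h.2.tail ⟨h1, h2⟩⟩

theorem Cn.symm (hR : ∀ a b, R a b → R b a) (h : Cn R β x y) : Cn R β y x := by
  obtain ⟨hx, h⟩ := h
  induction h with
  | refl => exact Cn.rfl' hx
  | tail h1 h2 ih => exact ((Cn.rfl' h2.2).tail (hR _ _ h2.1) (Cn.snd ⟨hx, h1⟩)).trans ih

theorem Cn.mono (h : β ⊆ β') (h1 : Cn R β x y) : Cn R β' x y := by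
  refine ⟨h h1.1, Relation.ReflTransGen.mono ?_ _ _ h1.2⟩
  rintro a b ⟨h2, h3⟩
  exact ⟨h2, h h3⟩

/-- a site of `A` joined to `B` -/
def Gd (R : ℂ → ℂ → Prop) (A B : ℂ → Prop) (β : Finset ℂ) (x : ℂ) : Prop :=
  A x ∧ ∃ y, B y ∧ Cn R β x y

/-- `m` sites of `A`, joined to `B`, in different clusters -/
def NA (R : ℂ → ℂ → Prop) (A B : ℂ → Prop) (m : ℕ) (β : Finset ℂ) : Prop :=
  ∃ x : Fin m → ℂ, (∀ i, Gd R A B β (x i)) ∧ ∀ i j, i ≠ j → ¬ Cn R β (x i) (x j)

theorem Gd.mem (h : Gd R A B β x) : x ∈ β := by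
  obtain ⟨-, y, -, h⟩ := h
  exact h.1

theorem na_zero : NA R A B 0 β := ⟨fun i => i.elim0, fun i => i.elim0, fun i => i.elim0⟩

theorem na_one : NA R A B 1 β ↔ ∃ x, Gd R A B β x := by
  constructor
  · rintro ⟨x, h, -⟩
    exact ⟨x 0, h 0⟩
  · rintro ⟨x, h⟩
    exact ⟨fun _ => x, fun _ => h, fun i j hij => absurd (Subsingleton.elim i j) hij⟩

/-- removal of one site -/
theorem NA.drop (h : NA R A B (m + 1) β) (i0 : Fin (m + 1)) :
    ∃ x : Fin m → ℂ, (∀ i, Gd R A B β (x i)) ∧ (∀ i j, i ≠ j → ¬ Cn R β (x i) (x j)) ∧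
      ∃ x0, Gd R A B β x0 ∧ (∀ i, ¬ Cn R β (x i) x0) ∧ ∀ i, ¬ Cn R β x0 (x i) := by
  obtain ⟨x, h1, h2⟩ := h
  refine ⟨fun i => x (i0.succAbove i), fun i => h1 _, fun i j hij => h2 _ _ fun e =>
    hij (Fin.succAbove_right_injective e), x i0, h1 i0, fun i => h2 _ _ (Fin.succAbove_ne i0 i),
    fun i => h2 _ _ (Fin.succAbove_ne i0 i).symm⟩

theorem NA.pred (h : NA R A B (m + 1) β) : NA R A B m β := by
  obtain ⟨x, h1, h2, -⟩ := h.drop 0
  exact ⟨x, h1, h2⟩

theorem NA.le {k : ℕ} (h : NA R A B m β) (hk : k ≤ m) : NA R A B k β := by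
  induction m with
  | zero =>
    obtain rfl : k = 0 := by omega
    exact h
  | succ m ih =>
    rcases Nat.lt_or_ge k (m + 1) with h1 | h1
    · exact ih h.pred (by omega)
    · obtain rfl : k = m + 1 := by omega
      exact h

/-! ### exploration of the cluster of one site -/

/-- explored set -/
def J (R : ℂ → ℂ → Prop) (V : Finset ℂ) (v : ℂ) (β : Finset ℂ) : Finset ℂ :=
  V.filter fun y => y = v ∨ Cn R β v y ∨ ∃ x, Cn R β v x ∧ R x y

theorem mem_J : y ∈ J R V v β ↔ y ∈ V ∧ (y = v ∨ Cn R β v y ∨ ∃ x, Cn R β v x ∧ R x y) := by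
  unfold J; simp

theorem cn_congr (hv : v ∈ V) (hβ : β ⊆ V) (h : β ∩ J R V v β = β' ∩ J R V v β) (y : ℂ) :
    Cn R β v y → Cn R β' v y := by
  have key : ∀ y, y ∈ β → y ∈ J R V v β → y ∈ β' := fun y h1 h2 => by
    have : y ∈ β ∩ J R V v β := Finset.mem_inter.2 ⟨h1, h2⟩
    rw [h] at this
    exact (Finset.mem_inter.1 this).1
  rintro ⟨h1, h2⟩
  have hv' : v ∈ β' := key v h1 (mem_J.2 ⟨hv, Or.inl rfl⟩)
  induction h2 with
  | refl => exact Cn.rfl' hv'
  | @tail b c hb hc ih =>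
    refine ih.tail hc.1 (key c hc.2 (mem_J.2 ⟨hβ hc.2, Or.inr (Or.inl ?_)⟩))
    exact (show Cn R β v b from ⟨h1, hb⟩).tail hc.1 hc.2

theorem cn_congr' (hv : v ∈ V) (hβ' : β' ⊆ V) (h : β ∩ J R V v β = β' ∩ J R V v β) (y : ℂ) :
    Cn R β' v y → Cn R β v y := by
  have key : ∀ y, y ∈ β' → y ∈ J R V v β → y ∈ β := fun y h1 h2 => by
    have : y ∈ β' ∩ J R V v β := Finset.mem_inter.2 ⟨h1, h2⟩
    rw [← h] at this
    exact (Finset.mem_inter.1 this).1
  rintro ⟨h1, h2⟩
  have hv' : v ∈ β := key v h1 (mem_J.2 ⟨hv, Or.inl rfl⟩)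
  induction h2 with
  | refl => exact Cn.rfl' hv'
  | @tail b c hb hc ih =>
    exact ih.tail hc.1 (key c hc.2 (mem_J.2 ⟨hβ' hc.2, Or.inr (Or.inr ⟨b, ih, hc.1⟩)⟩))

theorem j_stop (hv : v ∈ V) : IsStop V (J R V v) where
  sub β _ := Finset.filter_subset _ _
  stop β β' hβ hβ' h := by
    ext y
    rw [mem_J, mem_J]
    have h1 : ∀ y, Cn R β' v y ↔ Cn R β v y := fun y => ⟨cn_congr' hv hβ' h y, cn_congr hv hβ h y⟩
    simp only [h1]

/-- a chain off the cluster of `v` only uses unexplored sites -/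
theorem off_cluster (hR : ∀ a b, R a b → R b a) {β0 β : Finset ℂ}
    (hv : v ∈ V) (hβ0 : β0 ⊆ V) (hβ : β ⊆ V \ J R V v β0) (hx : ¬ Cn R (β ∪ β0 ∩ J R V v β0) v x)
    (h : Cn R (β ∪ β0 ∩ J R V v β0) x y) : Cn R β x y := by
  set β1 := β ∪ β0 ∩ J R V v β0 with hβ1
  have hsub : β1 ⊆ V := Finset.union_subset (hβ.trans Finset.sdiff_subset)
    (Finset.inter_subset_left.trans hβ0)
  have hint : β0 ∩ J R V v β0 = β1 ∩ J R V v β0 := by
    ext y
    rw [hβ1]
    simp only [Finset.mem_inter, Finset.mem_union]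
    constructor
    · rintro ⟨h1, h2⟩; exact ⟨Or.inr ⟨h1, h2⟩, h2⟩
    · rintro ⟨h1 | h1, h2⟩
      · exact absurd h2 (Finset.mem_sdiff.1 (hβ h1)).2
      · exact h1
  have hJ : J R V v β1 = J R V v β0 := (j_stop hv).stop β0 β1 hβ0 hsub hint
  -- sites of `β1` off the cluster are in `β`
  have key : ∀ y, y ∈ β1 → ¬ Cn R β1 v y → y ∈ β := by
    intro y h1 h2
    rcases Finset.mem_union.1 h1 with h3 | h3
    · exact h3
    · exfalso
      have h4 := (Finset.mem_inter.1 h3).2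
      rw [← hJ] at h4
      rcases (mem_J.1 h4).2 with h5 | h5 | ⟨z, h5, h6⟩
      · exact h2 (h5 ▸ Cn.rfl' (h5 ▸ h1))
      · exact h2 h5
      · exact h2 (h5.tail h6 h1)
  obtain ⟨h1, h2⟩ := h
  refine ⟨key x h1 hx, ?_⟩
  have : Relation.ReflTransGen (fun a b => R a b ∧ b ∈ β) x y ∧ ¬ Cn R β1 v y := by
    induction h2 with
    | refl => exact ⟨Relation.ReflTransGen.refl, hx⟩
    | @tail b c hb hc ih =>
      have hc' : ¬ Cn R β1 v c := fun h3 => ih.2 (h3.tail (hR _ _ hc.1)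
        (Cn.snd (show Cn R β1 x b from ⟨h1, hb⟩)))
      exact ⟨ih.1.tail ⟨hc.1, key c hc.2 hc'⟩, hc'⟩
  exact this.1

/-- **the tail** -/
theorem tail_step (hR : ∀ a b, R a b → R b a) {Q : ℝ} (hQ0 : 0 ≤ Q)
    (hQ : ∀ W, W ⊆ S → pr W (NA R A B m) ≤ Q) :
    ∀ V, V ⊆ S → pr V (NA R A B (m + 1)) ≤ Q * pr V (NA R A B 1) := by
  intro V
  induction V using Finset.strongInduction with
  | H V ih =>
  intro hVS
  rcases V.eq_empty_or_nonempty with hV | ⟨v, hv⟩
  · subst hV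
    have h1 : pr ∅ (NA R A B (m + 1)) = 0 := by
      rw [← pr_false (∅ : Finset ℂ)]
      apply pr_congr
      intro β hβ
      simp only [iff_false]
      rintro ⟨x, hx, -⟩
      have := hβ (hx 0).mem
      simp at this
    rw [h1]
    exact mul_nonneg hQ0 pr_nonneg
  · have hst := j_stop (R := R) hv
    rw [stop_pr hst, stop_pr hst (A := NA R A B 1), Finset.mul_sum]
    apply Finset.sum_le_sum
    intro o ho
    rw [← mul_div_assoc]
    apply div_le_div_of_nonneg_right _ (by positivity)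
    unfold outc at ho
    rw [Finset.mem_image] at ho
    obtain ⟨β0, hβ0, rfl⟩ := ho
    rw [Finset.mem_powerset] at hβ0
    simp only
    have hvJ : v ∈ J R V v β0 := mem_J.2 ⟨hv, Or.inl rfl⟩
    have hss : V \ J R V v β0 ⊂ V := by
      refine Finset.ssubset_iff_subset_ne.2 ⟨Finset.sdiff_subset, fun e => ?_⟩
      have := e ▸ hv
      exact (Finset.mem_sdiff.1 this).2 hvJ
    have hsS : V \ J R V v β0 ⊆ S := Finset.sdiff_subset.trans hVS
    by_cases hc : ∃ x, Gd R A B β0 x ∧ Cn R β0 v x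
    · -- the cluster of `v` crosses
      obtain ⟨x0, hx0, hvx0⟩ := hc
      have e1 : pr (V \ J R V v β0) (fun β => NA R A B 1 (β ∪ β0 ∩ J R V v β0)) = 1 := by
        rw [← pr_true (V \ J R V v β0)]
        apply pr_congr
        intro β hβ
        simp only [iff_true]
        rw [na_one]
        obtain ⟨h1, y, h2, h3⟩ := hx0
        refine ⟨x0, h1, y, h2, ?_⟩
        have hsub : β ∪ β0 ∩ J R V v β0 ⊆ V := Finset.union_subset (hβ.trans Finset.sdiff_subset)
          (Finset.inter_subset_left.trans hβ0)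
        have hint : β0 ∩ J R V v β0 = (β ∪ β0 ∩ J R V v β0) ∩ J R V v β0 := by
          ext y
          simp only [Finset.mem_inter, Finset.mem_union]
          constructor
          · rintro ⟨h1, h2⟩; exact ⟨Or.inr ⟨h1, h2⟩, h2⟩
          · rintro ⟨h1 | h1, h2⟩
            · exact absurd h2 (Finset.mem_sdiff.1 (hβ h1)).2
            · exact h1
        have g1 := cn_congr hv hβ0 hint x0 hvx0
        have g2 := cn_congr hv hβ0 hint y (hvx0.trans h3)
        exact (g1.symm hR).trans g2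
      rw [e1, mul_one]
      refine (pr_mono fun β hβ h => ?_).trans (hQ _ hsS)
      -- at most one of the sites is in the cluster of `v`
      obtain ⟨x, h1, h2⟩ := h
      have hone : ∃ i0 : Fin (m + 1), ∀ i, i ≠ i0 → ¬ Cn R (β ∪ β0 ∩ J R V v β0) v (x i) := by
        by_cases h3 : ∃ i0, Cn R (β ∪ β0 ∩ J R V v β0) v (x i0)
        · obtain ⟨i0, h3⟩ := h3
          exact ⟨i0, fun i hi h4 => h2 i i0 hi ((h4.symm hR).trans h3)⟩
        · push Not at h3
          exact ⟨0, fun i _ => h3 i⟩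
      obtain ⟨i0, hi0⟩ := hone
      refine ⟨fun i => x (i0.succAbove i), fun i => ?_, fun i j hij h3 => ?_⟩
      · obtain ⟨g1, y, g2, g3⟩ := h1 (i0.succAbove i)
        exact ⟨g1, y, g2, off_cluster hR hv hβ0 hβ (hi0 _ (Fin.succAbove_ne i0 i)) g3⟩
      · exact h2 (i0.succAbove i) (i0.succAbove j)
          (fun e => hij (Fin.succAbove_right_injective e)) (h3.mono Finset.subset_union_left)
    · -- the cluster of `v` does not cross
      push Not at hc
      have h1 : pr (V \ J R V v β0) (fun β => NA R A B (m + 1) (β ∪ β0 ∩ J R V v β0)) ≤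
          pr (V \ J R V v β0) (NA R A B (m + 1)) := by
        refine pr_mono fun β hβ h => ?_
        obtain ⟨x, h1, h2⟩ := h
        have hsub : β ∪ β0 ∩ J R V v β0 ⊆ V := Finset.union_subset (hβ.trans Finset.sdiff_subset)
          (Finset.inter_subset_left.trans hβ0)
        have hint : β0 ∩ J R V v β0 = (β ∪ β0 ∩ J R V v β0) ∩ J R V v β0 := by
          ext y
          simp only [Finset.mem_inter, Finset.mem_union]
          constructor
          · rintro ⟨h1, h2⟩; exact ⟨Or.inr ⟨h1, h2⟩, h2⟩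
          · rintro ⟨h1 | h1, h2⟩
            · exact absurd h2 (Finset.mem_sdiff.1 (hβ h1)).2
            · exact h1
        refine ⟨x, fun i => ?_, fun i j hij h3 => h2 i j hij (h3.mono Finset.subset_union_left)⟩
        obtain ⟨g1, y, g2, g3⟩ := h1 i
        refine ⟨g1, y, g2, off_cluster hR hv hβ0 hβ (fun g4 => ?_) g3⟩
        have g5 := cn_congr' hv hsub hint (x i) g4
        have g6 := cn_congr' hv hsub hint y (g4.trans g3)
        exact hc (x i) ⟨g1, y, g2, (g5.symm hR).trans g6⟩ g5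
      refine h1.trans ((ih _ hss hsS).trans ?_)
      refine mul_le_mul_of_nonneg_left (pr_mono fun β hβ h => ?_) hQ0
      rw [na_one] at h ⊢
      obtain ⟨x, g1, y, g2, g3⟩ := h
      exact ⟨x, g1, y, g2, g3.mono Finset.subset_union_left⟩

theorem tail (hR : ∀ a b, R a b → R b a) {q : ℝ} (hq0 : 0 ≤ q)
    (hq : ∀ W, W ⊆ S → pr W (NA R A B 1) ≤ q) (m : ℕ) :
    ∀ V, V ⊆ S → pr V (NA R A B m) ≤ q ^ m := by
  induction m with
  | zero => intro V _; rw [pow_zero]; exact pr_le_one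
  | succ m ih =>
    intro V hV
    refine (tail_step hR (by positivity) ih V hV).trans ?_
    rw [pow_succ]
    exact mul_le_mul_of_nonneg_left (hq V hV) (by positivity)

/-! ### moments -/

/-- expectation over the colourings of `V` -/
def ex (V : Finset ℂ) (f : Finset ℂ → ℝ) : ℝ := (∑ β ∈ V.powerset, f β) / 2 ^ V.card

theorem ex_ind (V : Finset ℂ) (F : Finset ℂ → Prop) [DecidablePred F] :
    ex V (fun β => if F β then 1 else 0) = pr V F := by
  unfold ex pr nb fl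
  congr 1
  rw [Finset.sum_boole]
  congr 2
  ext β
  simp

theorem ex_mono {f g : Finset ℂ → ℝ} (h : ∀ β, β ⊆ V → f β ≤ g β) : ex V f ≤ ex V g := by
  unfold ex
  apply div_le_div_of_nonneg_right _ (by positivity)
  exact Finset.sum_le_sum fun β hβ => h β (Finset.mem_powerset.1 hβ)

theorem ex_sum {ι : Type*} (s : Finset ι) (f : ι → Finset ℂ → ℝ) :
    ex V (fun β => ∑ i ∈ s, f i β) = ∑ i ∈ s, ex V (f i) := by
  unfold ex
  rw [Finset.sum_comm, Finset.sum_div]

theorem ex_smul (c : ℝ) (f : Finset ℂ → ℝ) : ex V (fun β => c * f β) = c * ex V f := by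
  unfold ex
  rw [← Finset.mul_sum, mul_div_assoc]

theorem geo_sum {q : ℝ} (hq0 : 0 ≤ q) (hq1 : q < 1) (M : ℕ) :
    ∑ m ∈ Finset.range M, ((m : ℝ) + 1) * q ^ m ≤ 1 / (1 - q) ^ 2 := by
  have h1 : 0 < 1 - q := by linarith
  rw [le_div_iff₀ (by positivity)]
  have key : (∑ m ∈ Finset.range M, ((m : ℝ) + 1) * q ^ m) * (1 - q) ^ 2 =
      1 - ((M : ℝ) + 1) * q ^ M + M * q ^ (M + 1) := by
    induction M with
    | zero => simp
    | succ M ih =>
      rw [Finset.sum_range_succ, add_mul, ih]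
      push_cast
      ring
  rw [key]
  have h2 : (M : ℝ) * q ^ (M + 1) ≤ ((M : ℝ) + 1) * q ^ M := by
    rw [pow_succ]
    have h3 : q ^ M * q ≤ q ^ M := mul_le_of_le_one_right (by positivity) hq1.le
    have h4 : (0 : ℝ) ≤ q ^ M := by positivity
    nlinarith [mul_le_mul_of_nonneg_left h3 (show (0 : ℝ) ≤ M by positivity)]
  linarith

/-- **second moment** of the number of crossings -/
theorem second {q : ℝ} (hq0 : 0 ≤ q) (hq1 : q < 1)
    (hq : ∀ m, pr V (NA R A B m) ≤ q ^ m) {n : Finset ℂ → ℕ}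
    (hn : ∀ β, β ⊆ V → NA R A B (n β) β) :
    ex V (fun β => (n β : ℝ) ^ 2) ≤ 2 / (1 - q) ^ 2 := by
  set M := V.powerset.sup n with hM
  have hsq : ∀ k : ℕ, ∑ m ∈ Finset.range k, (2 * (m : ℝ) + 1) = (k : ℝ) ^ 2 := by
    intro k
    induction k with
    | zero => simp
    | succ k ih => rw [Finset.sum_range_succ, ih]; push_cast; ring
  have h1 : ∀ β, β ⊆ V → (n β : ℝ) ^ 2 =
      ∑ m ∈ Finset.range M, (2 * (m : ℝ) + 1) * (if m + 1 ≤ n β then 1 else 0) := by
    intro β hβ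
    have hle : n β ≤ M := Finset.le_sup (f := n) (Finset.mem_powerset.2 hβ)
    rw [← hsq (n β)]
    rw [← Finset.sum_subset (Finset.range_mono hle)]
    · apply Finset.sum_congr rfl
      intro m hm
      rw [if_pos (by have := Finset.mem_range.1 hm; omega), mul_one]
    · intro m _ hm
      rw [if_neg (by rw [Finset.mem_range] at hm; omega), mul_zero]
  have h2 : ex V (fun β => (n β : ℝ) ^ 2) ≤
      ex V (fun β => ∑ m ∈ Finset.range M, (2 * (m : ℝ) + 1) * (if m + 1 ≤ n β then 1 else 0)) :=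
    ex_mono fun β hβ => (h1 β hβ).le
  refine h2.trans ?_
  rw [ex_sum]
  have h3 : ∀ m ∈ Finset.range M,
      ex V (fun β => (2 * (m : ℝ) + 1) * (if m + 1 ≤ n β then 1 else 0)) ≤
      2 * (((m : ℝ) + 1) * q ^ m) := by
    intro m _
    rw [ex_smul, ex_ind]
    have h4 : pr V (fun β => m + 1 ≤ n β) ≤ q ^ (m + 1) :=
      (pr_mono fun β hβ h => (hn β hβ).le h).trans (hq (m + 1))
    have h5 : q ^ (m + 1) ≤ q ^ m := by
      rw [pow_succ]
      exact mul_le_of_le_one_right (by positivity) hq1.le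
    have h6 : (0 : ℝ) ≤ q ^ m := by positivity
    have h7 : (0 : ℝ) ≤ pr V (fun β => m + 1 ≤ n β) := pr_nonneg
    have h8 : (0 : ℝ) ≤ m := by positivity
    nlinarith
  refine (Finset.sum_le_sum h3).trans ?_
  rw [← Finset.mul_sum]
  have := geo_sum hq0 hq1 M
  calc 2 * ∑ m ∈ Finset.range M, ((m : ℝ) + 1) * q ^ m ≤ 2 * (1 / (1 - q) ^ 2) :=
        mul_le_mul_of_nonneg_left this (by norm_num)
    _ = 2 / (1 - q) ^ 2 := by ring

/-- **Cauchy-Schwarz** with one more event -/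
theorem cs {f : Finset ℂ → ℝ} (F : Finset ℂ → Prop) :
    ex V (fun β => f β * (if F β then 1 else 0)) ≤
      Real.sqrt (ex V (fun β => f β ^ 2)) * Real.sqrt (pr V F) := by
  rw [← ex_ind, ← Real.sqrt_mul (by
    unfold ex
    exact div_nonneg (Finset.sum_nonneg fun _ _ => sq_nonneg _) (by positivity))]
  apply Real.le_sqrt_of_sq_le
  unfold ex
  rw [div_pow, div_mul_div_comm, ← sq]
  apply div_le_div_of_nonneg_right _ (by positivity)
  have h1 := Finset.sum_mul_sq_le_sq_mul_sq V.powerset f (fun β => if F β then (1 : ℝ) else 0)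
  refine h1.trans (le_of_eq ?_)
  congr 1
  apply Finset.sum_congr rfl
  intro β _
  by_cases h : F β
  · simp [h]
  · simp [h]

/-- number of crossings and one more event -/
theorem second_cs {q : ℝ} (hq0 : 0 ≤ q) (hq1 : q < 1)
    (hq : ∀ m, pr V (NA R A B m) ≤ q ^ m) {n : Finset ℂ → ℕ}
    (hn : ∀ β, β ⊆ V → NA R A B (n β) β) (F : Finset ℂ → Prop) :
    ex V (fun β => (n β : ℝ) * (if F β then 1 else 0)) ≤ 2 / (1 - q) * Real.sqrt (pr V F) := by
  refine (cs F).trans (mul_le_mul_of_nonneg_right ?_ (Real.sqrt_nonneg _))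
  apply Real.sqrt_le_iff.2
  have h1 : 0 < 1 - q := by linarith
  refine ⟨by positivity, (second hq0 hq1 hq hn).trans ?_⟩
  rw [div_pow]
  apply div_le_div_of_nonneg_right _ (by positivity)
  norm_num

/-! ### annuli -/

theorem cn_list {S : Finset ℂ} (h : Cn (DE S) β x y) : ∃ l : List ℂ, ∃ hl : l ≠ [],
    (∀ p ∈ prs l, DE S p.1 p.2) ∧ (∀ s ∈ l, s ∈ β) ∧ l.head hl = x ∧ l.getLast hl = y := by
  obtain ⟨hx, h⟩ := h
  induction h with
  | refl => exact ⟨[x], by simp, by simp [prs], by simpa using hx, rfl, rfl⟩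
  | @tail b c hb hc ih =>
    obtain ⟨l, hl, h1, h2, h3, h4⟩ := ih
    refine ⟨l ++ [c], by simp, ?_, ?_, ?_, by simp⟩
    · have g1 : l.IsChain (DE S) := (isChain_iff_prs l).2 h1
      refine (isChain_iff_prs (R := DE S) _).1 ?_
      rw [List.isChain_append]
      refine ⟨g1, by simp, ?_⟩
      intro u hu v hv
      simp only [List.head?_cons, Option.mem_def, Option.some.injEq] at hv
      subst hv
      rw [List.getLast?_eq_some_getLast hl] at hu
      simp only [Option.mem_def, Option.some.injEq] at hu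
      rw [← hu, h4]
      exact hc.1
    · intro s hs
      rcases List.mem_append.1 hs with h | h
      · exact h2 s h
      · rw [List.mem_singleton] at h
        rw [h]
        exact hc.2
    · rw [List.head_append_of_ne_nil hl]
      exact h3

/-- sites of the disc / off the disc -/
def In (z0 : ℂ) (r : ℝ) (x : ℂ) : Prop := ‖x - z0‖ ≤ r
/-- sites of the disc / off the disc -/
def Ou (z0 : ℂ) (r : ℝ) (x : ℂ) : Prop := r ≤ ‖x - z0‖

theorem na_arm {z0 : ℂ} {r1 r2 : ℝ} (h : NA (DE S) (In z0 r1) (Ou z0 r2) 1 β) :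
    ∃ l, Arm S z0 r1 r2 β l := by
  rw [na_one] at h
  obtain ⟨x, h1, y, h2, h3⟩ := h
  obtain ⟨l, hl, g1, g2, g3, g4⟩ := cn_list h3
  exact ⟨l, hl, g1, g2, by rw [g3]; exact h1, by rw [g4]; exact h2⟩

/-- **tail of the number of disjoint crossings of an annulus**, arbitrary free sites -/
theorem cnt_tail (hRB : RBm) : ∀ C4 : ℝ, 0 ≤ C4 → ∃ q c1 c2 K : ℝ, 0 ≤ q ∧ q < 1 ∧ 0 < c1 ∧
    0 < c2 ∧ c2 ≤ 1 ∧ 0 < K ∧
    ∀ (S : Finset ℂ) (z0 : ℂ) (r d : ℝ), 0 < r → LDns S z0 (K * r) d →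
    MeshA S z0 (K * r) c2 r C4 → d ≤ c1 * r → ∀ V : Finset ℂ, V ⊆ S → ∀ m,
    pr V (NA (DE S) (In z0 r) (Ou z0 (3 * r)) m) ≤ q ^ m := by
  intro C4 hC4
  obtain ⟨p, c1, c2, K, hp, hc1, hc2, hc2', hK, h⟩ := cbm hRB C4 hC4
  refine ⟨max 0 (1 - p), c1, c2, K, le_max_left _ _, max_lt one_pos (by linarith), hc1, hc2, hc2',
    hK, fun S z0 r d hr hD hM hd V hV m => ?_⟩
  refine tail (fun a b h => h.symm) (le_max_left _ _) (fun W hW => ?_) m V hV
  refine (pr_mono fun β _ h => na_arm h).trans ?_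
  exact (h S z0 r d hr hD hM hd W hW).trans (le_max_right _ _)

end Crest.Agent.R143.Cnt1x838
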