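import Crest.Agent.R143.Run_535

/-!
# Row 143 (S0194), CORE-C: giants of an exploration by walkers (helper535)

* `AdjS M S` : adjacency through live darts inside `S`
* `gq S` : contraction of a family `S i` of disjoint sets of cells; `gq_eq`, `gq_ctr`, `gq_con`,
  `gq_card` : it is a `Ctr`, `ClsCon`, with at most `card ι` giants
* `wl M x p n`, `wr M x p n` : left / right cells of the walk from `p` up to the time `n`;
  `wl_con`, `wr_con` : they are connected; `wl_col`, `wr_col` : their colours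
* `walk_agree` : colourings which agree on these cells have the same walk up to the time `n`
* `hit M x p B` : first time `≥ 1` in the stop set `B`; `Rw M p B χ` : the revealed cells;
  `Rw_stp` : **it is a stopping rule** if `p ∈ B`; `Stp.union`
* `walks` : finitely many walkers with disjoint revealed sets: stopping rule and giants (two for each
  walker)
* `runs_of_giants`, `run_fwd`, `run_bwd`, `P_rev` : `Runs` for the giants of forward and backward
  walkers on the loop
-/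

set_option autoImplicit false

noncomputable section

open scoped Classical

namespace Crest.Agent.R143.Gntx535

open Crest.Agent.R143.Frame1x395 Crest.Agent.R143.Frame2x395 Crest.Agent.R143.Frame3x395
  Crest.Agent.R143.Frame4x395 Crest.Agent.R143.Frame8x395 Crest.Agent.R143.NonXx592
  Crest.Agent.R143.Coarsex166 Crest.Agent.R143.CFramex358 Crest.Agent.R143.Runx535

variable {D C : Type} {M : CMap D C} {x : D → ZMod 2}

/-! ### contraction of a family of connected sets -/

/-- adjacent through a live dart inside `S` -/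
def AdjS (M : CMap D C) (S : Finset C) (c c' : C) : Prop :=
  c ∈ S ∧ c' ∈ S ∧ ∃ d ∈ M.live, M.cell d = c ∧ M.cell (M.rho d) = c'

variable {ι : Type}

/-- contraction of the sets `S i` -/
def gs (S : ι → Finset C) (hS : ∀ i j c, c ∈ S i → c ∈ S j → i = j) : Setoid C where
  r c c' := c = c' ∨ ∃ i, c ∈ S i ∧ c' ∈ S i
  iseqv := by
    refine ⟨fun c => Or.inl rfl, ?_, ?_⟩
    · rintro c c' (rfl | ⟨i, h1, h2⟩)
      · exact Or.inl rfl
      · exact Or.inr ⟨i, h2, h1⟩
    · rintro a b c (rfl | ⟨i, h1, h2⟩) (rfl | ⟨j, h3, h4⟩)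
      · exact Or.inl rfl
      · exact Or.inr ⟨j, h3, h4⟩
      · exact Or.inr ⟨i, h1, h2⟩
      · obtain rfl := hS i j _ h2 h3
        exact Or.inr ⟨i, h1, h4⟩

/-- the type of the cells after the contraction -/
abbrev GQ (S : ι → Finset C) (hS : ∀ i j c, c ∈ S i → c ∈ S j → i = j) : Type :=
  Quotient (gs S hS)

/-- the contraction -/
def gq (S : ι → Finset C) (hS : ∀ i j c, c ∈ S i → c ∈ S j → i = j) (c : C) : GQ S hS :=
  Quotient.mk (gs S hS) c

variable {S : ι → Finset C} {hS : ∀ i j c, c ∈ S i → c ∈ S j → i = j}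

theorem gq_eq {c c' : C} : gq S hS c = gq S hS c' ↔ c = c' ∨ ∃ i, c ∈ S i ∧ c' ∈ S i :=
  Quotient.eq (r := gs S hS)

theorem gq_ctr [Fintype ι] {χ : C → ZMod 2} (hm : ∀ i, ∀ c ∈ S i, ∀ c' ∈ S i, χ c = χ c') :
    Ctr (gq S hS) (Finset.univ.biUnion S) χ := by
  refine ⟨Quotient.mk_surjective, ?_, ?_⟩
  · intro c c' hc e
    rcases gq_eq.1 e with h | ⟨i, h1, -⟩
    · exact h
    · exact absurd (Finset.mem_biUnion.2 ⟨i, Finset.mem_univ i, h1⟩) hc
  · intro c _ c' _ e
    rcases gq_eq.1 e with rfl | ⟨i, h1, h2⟩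
    · rfl
    · exact hm i c h1 c' h2

theorem gq_con (hc : ∀ i, ∀ c ∈ S i, ∀ c' ∈ S i, Relation.EqvGen (AdjS M (S i)) c c') :
    ClsCon M (gq S hS) := by
  intro a b e
  rcases gq_eq.1 e with h | ⟨i, h1, h2⟩
  · rw [h]; exact Relation.EqvGen.refl _
  · have key : ∀ c c', Relation.EqvGen (AdjS M (S i)) c c' →
        Relation.EqvGen (Adj M (gq S hS)) c c' := by
      intro c c' H
      induction H with
      | rel c c' h =>
        obtain ⟨g1, g2, d, hd, e1, e2⟩ := h
        exact Relation.EqvGen.rel _ _ ⟨gq_eq.2 (Or.inr ⟨i, g1, g2⟩), d, hd, e1, e2⟩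
      | refl c => exact Relation.EqvGen.refl _
      | symm c c' _ ih => exact Relation.EqvGen.symm _ _ ih
      | trans c c' c'' _ _ ih1 ih2 => exact Relation.EqvGen.trans _ _ _ ih1 ih2
    exact key _ _ (hc i _ h1 _ h2)

theorem gq_card [Fintype ι] :
    ((Finset.univ.biUnion S).image (gq S hS)).card ≤ Fintype.card ι := by
  have h1 : ∀ q ∈ (Finset.univ.biUnion S).image (gq S hS), ∃ i, ∃ c ∈ S i, gq S hS c = q := by
    intro q hq
    obtain ⟨c, hc, rfl⟩ := Finset.mem_image.1 hq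
    obtain ⟨i, -, hi⟩ := Finset.mem_biUnion.1 hc
    exact ⟨i, c, hi, rfl⟩
  have h2 : ∀ q : (Finset.univ.biUnion S).image (gq S hS), ∃ i, ∃ c ∈ S i, gq S hS c = q.1 :=
    fun q => h1 q.1 q.2
  choose f hf using h2
  have hinj : Function.Injective f := by
    intro q q' e
    obtain ⟨c, hc, h3⟩ := hf q
    obtain ⟨c', hc', h4⟩ := hf q'
    apply Subtype.ext
    rw [← h3, ← h4]
    refine gq_eq.2 (Or.inr ⟨f q, hc, ?_⟩)
    rw [e]; exact hc'
  have h5 := Fintype.card_le_of_injective f hinj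
  rwa [Fintype.card_coe] at h5

/-! ### walks -/

/-- left cells of the walk from `p` up to the time `n` -/
def wl (M : CMap D C) (x : D → ZMod 2) (p : D) (n : ℕ) : Finset C :=
  (Finset.range (n + 1)).image fun j => M.cell (P M x p j)

/-- right cells of the walk from `p` up to the time `n` -/
def wr (M : CMap D C) (x : D → ZMod 2) (p : D) (n : ℕ) : Finset C :=
  (Finset.range (n + 1)).image fun j => Rc M (P M x p j)

theorem mem_wl {p : D} {n : ℕ} {c : C} : c ∈ wl M x p n ↔ ∃ j ≤ n, M.cell (P M x p j) = c := by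
  unfold wl
  rw [Finset.mem_image]
  constructor
  · rintro ⟨j, hj, e⟩
    exact ⟨j, by have := Finset.mem_range.1 hj; omega, e⟩
  · rintro ⟨j, hj, e⟩
    exact ⟨j, Finset.mem_range.2 (by omega), e⟩

theorem mem_wr {p : D} {n : ℕ} {c : C} : c ∈ wr M x p n ↔ ∃ j ≤ n, Rc M (P M x p j) = c := by
  unfold wr
  rw [Finset.mem_image]
  constructor
  · rintro ⟨j, hj, e⟩
    exact ⟨j, by have := Finset.mem_range.1 hj; omega, e⟩
  · rintro ⟨j, hj, e⟩
    exact ⟨j, Finset.mem_range.2 (by omega), e⟩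

theorem wl_con (h : IsC M ∅ x) {p : D} (hp : x p = 1) {n : ℕ} {c c' : C} (hc : c ∈ wl M x p n)
    (hc' : c' ∈ wl M x p n) : Relation.EqvGen (AdjS M (wl M x p n)) c c' := by
  have key : ∀ j ≤ n, Relation.EqvGen (AdjS M (wl M x p n)) (M.cell p) (M.cell (P M x p j)) := by
    intro j hj
    induction j with
    | zero => exact Relation.EqvGen.refl _
    | succ j ih =>
      refine Relation.EqvGen.trans _ _ _ (ih (by omega)) ?_
      rw [P_succ]
      rcases left_step h (P_occ h hp j) with e | ⟨hl, e⟩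
      · rw [e]; exact Relation.EqvGen.refl _
      · refine Relation.EqvGen.symm _ _ (Relation.EqvGen.rel _ _
          ⟨mem_wl.2 ⟨j + 1, hj, P_succ p j ▸ rfl⟩, mem_wl.2 ⟨j, by omega, rfl⟩,
            M.rho (M.rho (P M x p j)), hl, e.symm, ?_⟩)
        rw [M.rho3]
  obtain ⟨j, hj, rfl⟩ := mem_wl.1 hc
  obtain ⟨k, hk, rfl⟩ := mem_wl.1 hc'
  exact Relation.EqvGen.trans _ _ _ (Relation.EqvGen.symm _ _ (key j hj)) (key k hk)

theorem wr_con (h : IsC M ∅ x) {p : D} (hp : x p = 1) {n : ℕ} {c c' : C} (hc : c ∈ wr M x p n)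
    (hc' : c' ∈ wr M x p n) : Relation.EqvGen (AdjS M (wr M x p n)) c c' := by
  have key : ∀ j ≤ n, Relation.EqvGen (AdjS M (wr M x p n)) (Rc M p) (Rc M (P M x p j)) := by
    intro j hj
    induction j with
    | zero => exact Relation.EqvGen.refl _
    | succ j ih =>
      refine Relation.EqvGen.trans _ _ _ (ih (by omega)) ?_
      rw [P_succ]
      rcases right_step h (P_occ h hp j) with e | ⟨hl, e⟩
      · rw [e]; exact Relation.EqvGen.refl _
      · exact Relation.EqvGen.rel _ _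
          ⟨mem_wr.2 ⟨j, by omega, rfl⟩, mem_wr.2 ⟨j + 1, hj, P_succ p j ▸ rfl⟩,
            M.rho (P M x p j), hl, rfl, e.symm⟩
  obtain ⟨j, hj, rfl⟩ := mem_wr.1 hc
  obtain ⟨k, hk, rfl⟩ := mem_wr.1 hc'
  exact Relation.EqvGen.trans _ _ _ (Relation.EqvGen.symm _ _ (key j hj)) (key k hk)

section colour

variable {χ χ' : C → ZMod 2}

theorem cfg_zero {d : D} : cfg M χ d = 0 ↔ χ (M.cell d) = χ (M.cell (M.rho d)) := by
  unfold cfg
  generalize χ (M.cell d) = a
  generalize χ (M.cell (M.rho d)) = b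
  revert a b; decide

theorem cfg_one {d : D} : cfg M χ d = 1 ↔ χ (M.cell (M.rho d)) = χ (M.cell d) + 1 := by
  unfold cfg
  generalize χ (M.cell d) = a
  generalize χ (M.cell (M.rho d)) = b
  revert a b; decide

variable [Fintype D]

theorem wl_col {p : D} (hp : cfg M χ p = 1) {n : ℕ} {c : C} (hc : c ∈ wl M (cfg M χ) p n) :
    χ c = χ (M.cell p) := by
  obtain ⟨j, -, rfl⟩ := mem_wl.1 hc
  exact it_col (cfg_isC χ) hp (fun d hd => cfg_zero.1 hd) j

theorem wr_col {p : D} (hp : cfg M χ p = 1) {n : ℕ} {c : C} (hc : c ∈ wr M (cfg M χ) p n) :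
    χ c = χ (M.cell p) + 1 := by
  obtain ⟨j, -, rfl⟩ := mem_wr.1 hc
  have h1 := it_col (cfg_isC χ) hp (fun d hd => cfg_zero.1 hd) j
  have h2 := P_occ (cfg_isC χ) hp j
  rw [cfg_one] at h2
  rw [h2]
  show χ (M.cell (P M (cfg M χ) p j)) + 1 = _
  rw [h1]

omit [Fintype D] in
/-- the third cell of the face of the state is a cell of the next state -/
theorem third_mem (h : IsC M ∅ x) {p : D} (hp : x p = 1) (n : ℕ) :
    M.cell (M.rho (M.rho (P M x p n))) ∈ wl M x p (n + 1) ∪ wr M x p (n + 1) := by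
  rw [Finset.mem_union]
  rcases stp_cases h (P_occ h hp n) (Set.notMem_empty _) with ⟨h1, -, e⟩ | ⟨-, h2, e⟩
  · left
    refine mem_wl.2 ⟨n + 1, le_rfl, ?_⟩
    rw [P_succ, e, M.cell_iota _ (h.lv h1)]
  · right
    refine mem_wr.2 ⟨n + 1, le_rfl, ?_⟩
    rw [P_succ, e]
    exact cell_rho_iota M (h.lv h2)

/-- **locality of the walk** -/
theorem walk_agree {p : D} (hp : cfg M χ p = 1) {n : ℕ}
    (ha : ∀ c ∈ wl M (cfg M χ) p n ∪ wr M (cfg M χ) p n, χ' c = χ c) :
    cfg M χ' p = 1 ∧ ∀ j ≤ n, P M (cfg M χ') p j = P M (cfg M χ) p j := by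
  have h0 : cfg M χ' p = 1 := by
    have e1 : χ' (M.cell p) = χ (M.cell p) :=
      ha _ (Finset.mem_union.2 (Or.inl (mem_wl.2 ⟨0, Nat.zero_le _, rfl⟩)))
    have e2 : χ' (M.cell (M.rho p)) = χ (M.cell (M.rho p)) :=
      ha _ (Finset.mem_union.2 (Or.inr (mem_wr.2 ⟨0, Nat.zero_le _, rfl⟩)))
    rw [cfg_one] at hp ⊢
    rw [e1, e2]
    exact hp
  refine ⟨h0, fun j hj => ?_⟩
  induction j with
  | zero => rfl
  | succ j ih =>
    have hj' := ih (by omega)
    rw [P_succ, P_succ, hj']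
    have e1 : χ' (Rc M (P M (cfg M χ) p j)) = χ (Rc M (P M (cfg M χ) p j)) :=
      ha _ (Finset.mem_union.2 (Or.inr (mem_wr.2 ⟨j, by omega, rfl⟩)))
    have e2 : χ' (M.cell (M.rho (M.rho (P M (cfg M χ) p j)))) =
        χ (M.cell (M.rho (M.rho (P M (cfg M χ) p j)))) := by
      apply ha
      have h1 := third_mem (cfg_isC χ) hp j
      rw [Finset.mem_union] at h1 ⊢
      rcases h1 with h1 | h1
      · left
        obtain ⟨i, hi, e⟩ := mem_wl.1 h1
        exact mem_wl.2 ⟨i, by omega, e⟩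
      · right
        obtain ⟨i, hi, e⟩ := mem_wr.1 h1
        exact mem_wr.2 ⟨i, by omega, e⟩
    have e3 : cfg M χ' (M.rho (P M (cfg M χ) p j)) = cfg M χ (M.rho (P M (cfg M χ) p j)) := by
      show χ' (Rc M (P M (cfg M χ) p j)) + χ' (M.cell (M.rho (M.rho (P M (cfg M χ) p j)))) =
        χ (Rc M (P M (cfg M χ) p j)) + χ (M.cell (M.rho (M.rho (P M (cfg M χ) p j))))
      rw [e1, e2]
    unfold stp
    rw [e3]

end colour

/-! ### the first time in a stop set -/

/-- first time `≥ 1` in `B` (`0` if there is none) -/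
def hit (M : CMap D C) (x : D → ZMod 2) (p : D) (B : Set D) : ℕ :=
  if h : ∃ n, 1 ≤ n ∧ P M x p n ∈ B then Nat.find h else 0

theorem hit_spec {p : D} {B : Set D} (h : ∃ n, 1 ≤ n ∧ P M x p n ∈ B) :
    1 ≤ hit M x p B ∧ P M x p (hit M x p B) ∈ B := by
  unfold hit
  rw [dif_pos h]
  exact Nat.find_spec h

theorem hit_min {p : D} {B : Set D} (h : ∃ n, 1 ≤ n ∧ P M x p n ∈ B) {n : ℕ}
    (hn : n < hit M x p B) (h1 : 1 ≤ n) : P M x p n ∉ B := by
  unfold hit at hn
  rw [dif_pos h] at hn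
  exact fun h2 => Nat.find_min h hn ⟨h1, h2⟩

theorem hit_eq {p : D} {B : Set D} {n : ℕ} (h1 : 1 ≤ n) (h2 : P M x p n ∈ B)
    (h3 : ∀ j, 1 ≤ j → j < n → P M x p j ∉ B) : hit M x p B = n := by
  have h : ∃ n, 1 ≤ n ∧ P M x p n ∈ B := ⟨n, h1, h2⟩
  obtain ⟨g1, g2⟩ := hit_spec h
  rcases lt_trichotomy (hit M x p B) n with hl | hl | hl
  · exact absurd g2 (h3 _ g1 hl)
  · exact hl
  · exact absurd h2 (hit_min h hl h1)

theorem hit_ex [Finite D] (h : IsC M ∅ x) {p : D} (hp : x p = 1) {B : Set D} (hB : p ∈ B) :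
    ∃ n, 1 ≤ n ∧ P M x p n ∈ B := by
  obtain ⟨N, hN, e⟩ := periodic h hp
  exact ⟨N, hN, by show (stp M x)^[N] p ∈ B; rw [e]; exact hB⟩

/-- the revealed cells of the walker `p` with the stop set `B` -/
def Rw (M : CMap D C) (p : D) (B : Set D) (χ : C → ZMod 2) : Finset C :=
  if cfg M χ p = 1 then
    wl M (cfg M χ) p (hit M (cfg M χ) p B) ∪ wr M (cfg M χ) p (hit M (cfg M χ) p B)
  else {M.cell p, M.cell (M.rho p)}

theorem hit_agree [Fintype D] {χ χ' : C → ZMod 2} {p : D} {B : Set D} (hB : p ∈ B)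
    (hp : cfg M χ p = 1) (ha : ∀ c ∈ Rw M p B χ, χ' c = χ c) :
    cfg M χ' p = 1 ∧ hit M (cfg M χ') p B = hit M (cfg M χ) p B ∧
      ∀ j ≤ hit M (cfg M χ) p B, P M (cfg M χ') p j = P M (cfg M χ) p j := by
  have h0 := hit_ex (cfg_isC χ) hp hB
  unfold Rw at ha
  rw [if_pos hp] at ha
  obtain ⟨h1, h2⟩ := walk_agree hp ha
  obtain ⟨g1, g2⟩ := hit_spec h0
  refine ⟨h1, hit_eq g1 ?_ fun j hj1 hj2 => ?_, h2⟩
  · rw [h2 _ le_rfl]; exact g2
  · rw [h2 _ hj2.le]; exact hit_min h0 hj2 hj1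

/-- **a walker with a stop set is a stopping rule** -/
theorem Rw_stp [Fintype D] {p : D} {B : Set D} (hB : p ∈ B) : Stp (Rw M p B) := by
  intro χ χ' ha
  by_cases hp : cfg M χ p = 1
  · obtain ⟨h1, h2, h3⟩ := hit_agree hB hp ha
    unfold Rw
    rw [if_pos hp, if_pos h1, h2]
    congr 1
    · ext c
      rw [mem_wl, mem_wl]
      exact ⟨fun ⟨j, hj, e⟩ => ⟨j, hj, by rw [← h3 j hj]; exact e⟩,
        fun ⟨j, hj, e⟩ => ⟨j, hj, by rw [h3 j hj]; exact e⟩⟩
    · ext c
      rw [mem_wr, mem_wr]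
      exact ⟨fun ⟨j, hj, e⟩ => ⟨j, hj, by rw [← h3 j hj]; exact e⟩,
        fun ⟨j, hj, e⟩ => ⟨j, hj, by rw [h3 j hj]; exact e⟩⟩
  · have e : Rw M p B χ = {M.cell p, M.cell (M.rho p)} := by
      unfold Rw
      rw [if_neg hp]
    rw [e] at ha
    have h1 : cfg M χ' p = cfg M χ p := by
      unfold cfg
      rw [ha (M.cell p) (by simp), ha (M.cell (M.rho p)) (by simp)]
    rw [e]
    unfold Rw
    rw [if_neg (by rw [h1]; exact hp)]

theorem Stp.union {R R' : (C → ZMod 2) → Finset C} (h : Stp R) (h' : Stp R') :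
    Stp fun χ => R χ ∪ R' χ := by
  intro χ χ' ha
  show R χ' ∪ R' χ' = R χ ∪ R' χ
  rw [h χ χ' fun v hv => ha v (Finset.mem_union.2 (Or.inl hv)),
    h' χ χ' fun v hv => ha v (Finset.mem_union.2 (Or.inr hv))]

theorem Stp.biUnion [Fintype ι] {R : ι → (C → ZMod 2) → Finset C} (h : ∀ i, Stp (R i)) :
    Stp fun χ => Finset.univ.biUnion fun i => R i χ := by
  intro χ χ' ha
  show (Finset.univ.biUnion fun i => R i χ') = Finset.univ.biUnion fun i => R i χ
  congr 1
  funext i
  exact h i χ χ' fun v hv => ha v (Finset.mem_biUnion.2 ⟨i, Finset.mem_univ i, hv⟩)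

/-! ### finitely many walkers -/

section walkers

variable [Fintype D] [Fintype ι]

/-- the giants of the walkers: `(i, true)` = left cells, `(i, false)` = right cells -/
def wS (M : CMap D C) (p : ι → D) (B : ι → Set D) (χ : C → ZMod 2) (i : ι × Bool) : Finset C :=
  if i.2 then wl M (cfg M χ) (p i.1) (hit M (cfg M χ) (p i.1) (B i.1))
  else wr M (cfg M χ) (p i.1) (hit M (cfg M χ) (p i.1) (B i.1))

omit [Fintype ι] in
theorem wS_disj {p : ι → D} {B : ι → Set D} {χ : C → ZMod 2} (hp : ∀ i, cfg M χ (p i) = 1)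
    (hd : ∀ i j, i ≠ j → Disjoint (Rw M (p i) (B i) χ) (Rw M (p j) (B j) χ)) :
    ∀ i j c, c ∈ wS M p B χ i → c ∈ wS M p B χ j → i = j := by
  have hsub : ∀ (i : ι) (b : Bool) (c : C), c ∈ wS M p B χ (i, b) → c ∈ Rw M (p i) (B i) χ := by
    intro i b c hc
    unfold Rw
    rw [if_pos (hp i), Finset.mem_union]
    unfold wS at hc
    cases b
    · right; simpa using hc
    · left; simpa using hc
  rintro ⟨i, b⟩ ⟨j, b'⟩ c h1 h2
  have hij : i = j := by
    by_contra hne
    exact Finset.disjoint_left.1 (hd i j hne) (hsub i b c h1) (hsub j b' c h2)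
  subst hij
  have hne : χ (M.cell (p i)) ≠ χ (M.cell (p i)) + 1 := by
    generalize χ (M.cell (p i)) = a
    revert a; decide
  unfold wS at h1 h2
  cases b <;> cases b'
  · rfl
  · exfalso
    have g1 := wr_col (hp i) (by simpa using h1)
    have g2 := wl_col (hp i) (by simpa using h2)
    exact hne (g2.symm.trans g1)
  · exfalso
    have g1 := wl_col (hp i) (by simpa using h1)
    have g2 := wr_col (hp i) (by simpa using h2)
    exact hne (g1.symm.trans g2)
  · rfl

omit [Fintype D] in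
theorem wS_union {p : ι → D} {B : ι → Set D} {χ : C → ZMod 2} (hp : ∀ i, cfg M χ (p i) = 1) :
    Finset.univ.biUnion (wS M p B χ) = Finset.univ.biUnion fun i => Rw M (p i) (B i) χ := by
  ext c
  rw [Finset.mem_biUnion, Finset.mem_biUnion]
  constructor
  · rintro ⟨⟨i, b⟩, -, h⟩
    refine ⟨i, Finset.mem_univ i, ?_⟩
    unfold Rw
    rw [if_pos (hp i), Finset.mem_union]
    unfold wS at h
    cases b
    · right; simpa using h
    · left; simpa using h
  · rintro ⟨i, -, h⟩
    unfold Rw at h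
    rw [if_pos (hp i), Finset.mem_union] at h
    rcases h with h | h
    · exact ⟨(i, true), Finset.mem_univ _, by unfold wS; simpa using h⟩
    · exact ⟨(i, false), Finset.mem_univ _, by unfold wS; simpa using h⟩

/-- **giants of finitely many walkers** with disjoint revealed sets -/
theorem walks {p : ι → D} {B : ι → Set D} {χ : C → ZMod 2} (hp : ∀ i, cfg M χ (p i) = 1)
    (hd : ∀ i j, i ≠ j → Disjoint (Rw M (p i) (B i) χ) (Rw M (p j) (B j) χ)) :
    ClsCon M (gq (wS M p B χ) (wS_disj hp hd)) ∧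
    Ctr (gq (wS M p B χ) (wS_disj hp hd)) (Finset.univ.biUnion fun i => Rw M (p i) (B i) χ) χ ∧
    ((Finset.univ.biUnion fun i => Rw M (p i) (B i) χ).image
      (gq (wS M p B χ) (wS_disj hp hd))).card ≤ 2 * Fintype.card ι := by
  have hx := cfg_isC (M := M) χ
  rw [← wS_union hp]
  refine ⟨gq_con ?_, gq_ctr ?_, (gq_card).trans ?_⟩
  · rintro ⟨i, b⟩ c hc c' hc'
    unfold wS at hc hc' ⊢
    cases b
    · simp only [Bool.false_eq_true, if_false] at hc hc' ⊢
      exact wr_con hx (hp i) hc hc'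
    · simp only [if_true] at hc hc' ⊢
      exact wl_con hx (hp i) hc hc'
  · rintro ⟨i, b⟩ c hc c' hc'
    unfold wS at hc hc'
    cases b
    · simp only [Bool.false_eq_true, if_false] at hc hc'
      rw [wr_col (hp i) hc, wr_col (hp i) hc']
    · simp only [if_true] at hc hc'
      rw [wl_col (hp i) hc, wl_col (hp i) hc']
  · rw [Fintype.card_prod, Fintype.card_bool, mul_comm]

end walkers

/-! ### runs of a loop and giants -/

/-- **runs** : every giant which meets the left cells of the loop is covered by a run -/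
theorem runs_of_giants {p : D} {N : ℕ} (hN : P M x p N = p)
    (hinj : ∀ a b, a < b → b < N → P M x p a ≠ P M x p b) {R : Set (ℕ × ℕ)}
    (hc : ∀ i, (∃ u < N, M.cell (P M x p u) ∈ S i) → ∃ r ∈ R, ∀ w < N,
      M.cell (P M x p w) ∈ S i →
        ∃ w', r.1 ≤ w' ∧ w' < r.2 ∧ w' < N ∧ M.cell (P M x p w') = M.cell (P M x p w)) :
    Runs M (gq S hS) x p N R := by
  refine ⟨hN, hinj, fun u hu v hv e => ?_⟩
  rcases gq_eq.1 e with h | ⟨i, h1, h2⟩
  · exact Or.inl h
  · right
    obtain ⟨r, hr, h3⟩ := hc i ⟨u, hu, h1⟩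
    refine ⟨r, hr, fun w hw e' => ?_⟩
    refine h3 w hw ?_
    rcases gq_eq.1 e' with h | ⟨j, h4, h5⟩
    · rw [h]; exact h1
    · obtain rfl := hS i j _ h1 h5
      exact h4

/-- a forward run: the left cells of the walk from the state at time `s` for `n` steps are visited
in the run `[s, s + n + 1)` -/
theorem run_fwd {p : D} {N s n : ℕ} (hsn : s + n < N) {w : ℕ}
    (hw : M.cell (P M x p w) ∈ wl M x (P M x p s) n) :
    ∃ w', s ≤ w' ∧ w' < s + n + 1 ∧ w' < N ∧ M.cell (P M x p w') = M.cell (P M x p w) := by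
  obtain ⟨j, hj, e⟩ := mem_wl.1 hw
  refine ⟨j + s, by omega, by omega, by omega, ?_⟩
  rw [← e]
  show M.cell (P M x p (j + s)) = _
  rw [P_add]

/-- **reversal** of a walk -/
theorem P_rev (h : IsC M ∅ x) {p : D} (hp : x p = 1) {n j : ℕ} (hj : j ≤ n) :
    P M x (M.iota (P M x p n)) j = M.iota (P M x p (n - j)) := by
  induction j with
  | zero => rfl
  | succ j ih =>
    rw [P_succ, ih (by omega)]
    have e : P M x p (n - j) = stp M x (P M x p (n - (j + 1))) := by
      rw [← P_succ, show n - (j + 1) + 1 = n - j by omega]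
    rw [e]
    exact stp_rev h (P_occ h hp _) (Set.notMem_empty _)

theorem rc_iota (h : IsC M ∅ x) {d : D} (hd : x d = 1) : Rc M (M.iota d) = M.cell d :=
  cell_rho_iota M (h.lv hd)

theorem cell_iota' (h : IsC M ∅ x) {d : D} (hd : x d = 1) : M.cell (M.iota d) = Rc M d :=
  M.cell_iota d (h.lv hd)

/-- a backward run: the right cells of the reversed walk from the state at time `e` for `n` steps
are visited in the run `[e - n, e + 1)` -/
theorem run_bwd (h : IsC M ∅ x) {p : D} (hp : x p = 1) {N e n : ℕ} (hn : n ≤ e) (heN : e < N)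
    {w : ℕ} (hw : M.cell (P M x p w) ∈ wr M x (M.iota (P M x p e)) n) :
    ∃ w', e - n ≤ w' ∧ w' < e + 1 ∧ w' < N ∧ M.cell (P M x p w') = M.cell (P M x p w) := by
  obtain ⟨j, hj, e1⟩ := mem_wr.1 hw
  rw [P_rev h hp (by omega), rc_iota h (P_occ h hp _)] at e1
  exact ⟨e - j, by omega, by omega, by omega, e1⟩

end Crest.Agent.R143.Gntx535
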