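import Crest.Agent.R143.CntS_197
import Crest.Agent.R143.Gnt_535
import Crest.Agent.R143.ArmP_930
import Crest.Agent.R143.Frame10_395

/-!
# Row 143 (S0194), block H, H3(b): the arm events of the closed maps (B3 (iii) of helper795; helper197)

* `Sites M S F j` : the cells `F` of the closed map `M` are the sites `j c` of `S`, cells of `F` which
  are adjacent through a live dart are adjacent sites
* `sites_cm0`, `sites_coarse`, `Sites.coarse` : `cm0 hS`; `coarse (cm0 hS) π hπ` with the free sites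
  `V` (not on the hull, each alone in its class); coarse map of any map
* `ArmC M j z r1 r2 β` : chain of cells of `β` from `B(z, r1)` to the outside of `B(z, r2)`
* `armC_up`, `pr_armC_le` : increasing; at most the probability for the sites
* `arm_cells` : **power bound** for every set of free cells (hypotheses of `ArmP_930.arm`)
* `arm_half` : probability `≤ th` at the ratio `η th`
* `ball_net` : finite nets of balls
-/

set_option autoImplicit false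

noncomputable section

open scoped Classical

namespace Crest.Agent.R143.CntGx197

open Finset
open Crest.Agent.R143.B0x346 Crest.Agent.R143.JColx54 Crest.Agent.R143.Harx315
open Crest.Agent.R143.Frame1x395 Crest.Agent.R143.Frame10x395
open Crest.Agent.R143.Coarsex166 (ClsCon coarse)
open Crest.Agent.R143.Gntx535 (AdjS)
open Crest.Agent.R143.D3Fx802 (CArm)
open Crest.Agent.R143.Lawx872 (ConnIn)
open Crest.Agent.R143.RB0x838 (LDns Mesh)
open Crest.Agent.R143.Frame5x395 (sd mem_sd)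

variable {D C : Type} {M : CMap D C} {S : Finset ℂ} {F : Set C} {j : C → ℂ}

/-- the cells `F` are sites -/
structure Sites (M : CMap D C) (S : Finset ℂ) (F : Set C) (j : C → ℂ) : Prop where
  inj : ∀ c ∈ F, ∀ c' ∈ F, j c = j c' → c = c'
  mem : ∀ c ∈ F, j c ∈ S
  adj : ∀ d ∈ M.live, M.cell d ∈ F → M.cell (M.rho d) ∈ F →
    JColx54.Adj S (j (M.cell d)) (j (M.cell (M.rho d)))

theorem Sites.mono {F' : Set C} (H : Sites M S F j) (h : F' ⊆ F) : Sites M S F' j :=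
  ⟨fun c hc c' hc' => H.inj c (h hc) c' (h hc'), fun c hc => H.mem c (h hc),
    fun d hd h1 h2 => H.adj d hd (h h1) (h h2)⟩

/-- chain of cells of `β` across the annulus `A(z; r1, r2)` -/
def ArmC (M : CMap D C) (j : C → ℂ) (z : ℂ) (r1 r2 : ℝ) (β : Finset C) : Prop :=
  ∃ c ∈ β, ∃ c' ∈ β, ‖j c - z‖ ≤ r1 ∧ r2 ≤ ‖j c' - z‖ ∧ Relation.EqvGen (AdjS M β) c c'

theorem adjS_mono {β β' : Finset C} (h : β ⊆ β') {c c' : C}
    (H : Relation.EqvGen (AdjS M β) c c') : Relation.EqvGen (AdjS M β') c c' :=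
  Relation.EqvGen.mono (fun _ _ ⟨h1, h2, h3⟩ => ⟨h h1, h h2, h3⟩) _ _ H

theorem armC_up (V : Finset C) (z : ℂ) (r1 r2 : ℝ) : Up V (ArmC M j z r1 r2) := by
  rintro β β' h _ ⟨c, hc, c', hc', h1, h2, h3⟩
  exact ⟨c, h hc, c', h hc', h1, h2, adjS_mono h h3⟩

theorem armC_mono {z : ℂ} {r1 r2 s1 s2 : ℝ} (h1 : r1 ≤ s1) (h2 : s2 ≤ r2) {β : Finset C}
    (h : ArmC M j z r1 r2 β) : ArmC M j z s1 s2 β := by
  obtain ⟨c, hc, c', hc', h3, h4, h5⟩ := h
  exact ⟨c, hc, c', hc', h3.trans h1, h2.trans h4, h5⟩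

/-- the chain of the sites -/
theorem Sites.conn (H : Sites M S F j) {β : Finset C} (hβ : ∀ c ∈ β, c ∈ F) {c c' : C}
    (h : Relation.EqvGen (AdjS M β) c c') : ConnIn S (β.image j) (j c) (j c') := by
  induction h with
  | rel c c' h =>
    obtain ⟨h1, h2, d, hd, rfl, rfl⟩ := h
    exact Relation.ReflTransGen.single ⟨H.adj d hd (hβ _ h1) (hβ _ h2), mem_image_of_mem j h1,
      mem_image_of_mem j h2⟩
  | refl c => exact Relation.ReflTransGen.refl
  | symm c c' _ ih => exact ih.symm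
  | trans c c' c'' _ _ ih1 ih2 => exact ih1.trans ih2

theorem Sites.carm (H : Sites M S F j) {β : Finset C} (hβ : ∀ c ∈ β, c ∈ F) {z : ℂ} {r1 r2 : ℝ}
    (h : ArmC M j z r1 r2 β) : CArm S (β.image j) z r1 r2 := by
  obtain ⟨c, hc, c', hc', h1, h2, h3⟩ := h
  exact ⟨j c, j c', mem_image_of_mem j hc, mem_image_of_mem j hc', h1, h2, H.conn hβ h3⟩

/-- fair colourings under an injection -/
theorem pr_image_le {V : Finset C} (hj : ∀ c ∈ V, ∀ c' ∈ V, j c = j c' → c = c')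
    {A : Finset C → Prop} {B : Finset ℂ → Prop} (h : ∀ β ⊆ V, A β → B (β.image j)) :
    pr V A ≤ pr (V.image j) B := by
  unfold pr
  have e1 : (V.image j).card = V.card :=
    card_image_of_injOn fun c hc c' hc' => hj c (mem_coe.1 hc) c' (mem_coe.1 hc')
  have e2 : nb V A ≤ nb (V.image j) B := by
    unfold nb
    refine card_le_card_of_injOn (fun β => β.image j) ?_ ?_
    · intro β hβ
      have h1 := mem_fil.1 (mem_coe.1 hβ)
      exact mem_coe.2 (mem_fil.2 ⟨image_subset_image h1.1, h β h1.1 h1.2⟩)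
    · intro β hβ β' hβ' e
      have h1 := (mem_fil.1 (mem_coe.1 hβ)).1
      have h2 := (mem_fil.1 (mem_coe.1 hβ')).1
      have e' : β.image j = β'.image j := e
      ext c
      constructor
      · intro hc
        have h3 : j c ∈ β'.image j := by rw [← e']; exact mem_image_of_mem j hc
        obtain ⟨c', h4, h5⟩ := mem_image.1 h3
        rwa [← hj c' (h2 h4) c (h1 hc) h5]
      · intro hc
        have h3 : j c ∈ β.image j := by rw [e']; exact mem_image_of_mem j hc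
        obtain ⟨c', h4, h5⟩ := mem_image.1 h3
        rwa [← hj c' (h1 h4) c (h2 hc) h5]
  rw [e1]
  have e3 : (nb V A : ℝ) ≤ nb (V.image j) B := by exact_mod_cast e2
  gcongr

theorem pr_armC_le (H : Sites M S F j) {V : Finset C} (hV : ∀ c ∈ V, c ∈ F) {z : ℂ}
    {r1 r2 : ℝ} : pr V (ArmC M j z r1 r2) ≤
      pr (V.image j) (fun β => CArm S β z r1 r2) :=
  pr_image_le (fun c hc c' hc' => H.inj c (hV c hc) c' (hV c' hc'))
    fun _ hβ h => H.carm (fun c hc => hV c (hβ hc)) h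

/-- **one arm of the cells**, power bound, any set of free cells; hypotheses = those of
`ArmP_930.arm` -/
theorem arm_cells : ∀ C4 : ℝ, 0 ≤ C4 → ∃ C0 c c1 c2 K : ℝ, 0 < C0 ∧ 0 < c ∧ 0 < c1 ∧ 0 < c2 ∧
    c2 ≤ 1 ∧ 1 ≤ K ∧ ∀ (S : Finset ℂ) (p : ℂ) (d r R : ℝ), 0 < r → r ≤ R →
    LDns S p (K * R) d → (∀ b, c2 * r ≤ b → b ≤ R → Mesh S p (K * R) b C4) → d ≤ c1 * r →
    ∀ {D C : Type} (M : CMap D C) (F : Set C) (j : C → ℂ), Sites M S F j →
    ∀ V : Finset C, (∀ c ∈ V, c ∈ F) → pr V (ArmC M j p r R) ≤ C0 * (r / R) ^ c := by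
  intro C4 hC4
  obtain ⟨C0, c, c1, c2, K, h1, h2, h3, h4, h5, h6, H⟩ := ArmPx930.arm C4 hC4
  refine ⟨C0, c, c1, c2, K, h1, h2, h3, h4, h5, h6, ?_⟩
  intro S p d r R hr hrR hD hM hd D C M F j HS V hV
  refine (pr_armC_le HS hV).trans (H S p d r R hr hrR hD hM hd _ ?_)
  intro s hs
  obtain ⟨c, hc, rfl⟩ := mem_image.1 hs
  exact HS.mem c (hV c hc)

/-- **one arm of the cells**, at most `th` at the ratio `η` -/
theorem arm_small : ∀ C4 : ℝ, 0 ≤ C4 → ∀ th : ℝ, 0 < th → ∃ η c1 c2 K : ℝ, 0 < η ∧ η ≤ 1 ∧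
    0 < c1 ∧ 0 < c2 ∧ c2 ≤ 1 ∧ 1 ≤ K ∧ ∀ (S : Finset ℂ) (p : ℂ) (d r R : ℝ), 0 < r →
    r ≤ η * R → LDns S p (K * R) d → (∀ b, c2 * r ≤ b → b ≤ R → Mesh S p (K * R) b C4) →
    d ≤ c1 * r → ∀ {D C : Type} (M : CMap D C) (F : Set C) (j : C → ℂ), Sites M S F j →
    ∀ V : Finset C, (∀ c ∈ V, c ∈ F) → pr V (ArmC M j p r R) ≤ th := by
  intro C4 hC4 th hth
  obtain ⟨C0, c, c1, c2, K, h1, h2, h3, h4, h5, h6, H⟩ := arm_cells C4 hC4
  have h7 : (0 : ℝ) < th / C0 := div_pos hth h1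
  set η : ℝ := min 1 ((th / C0) ^ (1 / c)) with hη
  have h8 : 0 < (th / C0) ^ (1 / c) := Real.rpow_pos_of_pos h7 _
  have h9 : 0 < η := lt_min one_pos h8
  refine ⟨η, c1, c2, K, h9, min_le_left _ _, h3, h4, h5, h6, ?_⟩
  intro S p d r R hr hrR hD hM hd D C M F j HS V hV
  have hR : 0 < R := by
    by_contra hc
    push Not at hc
    nlinarith
  have hrR' : r ≤ R := hrR.trans (by nlinarith [min_le_left (1 : ℝ) ((th / C0) ^ (1 / c))])
  refine (H S p d r R hr hrR' hD hM hd M F j HS V hV).trans ?_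
  have h10 : r / R ≤ (th / C0) ^ (1 / c) := by
    rw [div_le_iff₀ hR]
    exact hrR.trans (mul_le_mul_of_nonneg_right (min_le_right _ _) hR.le)
  have h11 : (r / R) ^ c ≤ th / C0 := by
    calc (r / R) ^ c ≤ ((th / C0) ^ (1 / c)) ^ c :=
          Real.rpow_le_rpow (div_pos hr hR).le h10 h2.le
      _ = th / C0 := by
          rw [← Real.rpow_mul h7.le, one_div, inv_mul_cancel₀ h2.ne', Real.rpow_one]
  calc C0 * (r / R) ^ c ≤ C0 * (th / C0) := mul_le_mul_of_nonneg_left h11 h1.le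
    _ = th := by field_simp

/-! ### the maps -/

/-- any coarse map -/
theorem Sites.coarse {C' : Type} {π : C → C'} {hπ : ClsCon M π} (H : Sites M S F j)
    {σ : C' → C} {F' : Set C'} (hσ : ∀ c' ∈ F', σ c' ∈ F ∧ ∀ c, π c = c' → c = σ c')
    (hσ' : ∀ c' ∈ F', π (σ c') = c') :
    Sites (coarse M π hπ) S F' fun c' => j (σ c') := by
  refine ⟨fun c hc c' hc' e => ?_, fun c hc => H.mem _ (hσ c hc).1, fun d hd h1 h2 => ?_⟩
  · rw [← hσ' c hc, ← hσ' c' hc', H.inj _ (hσ c hc).1 _ (hσ c' hc').1 e]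
  · have e1 : M.cell d = σ (π (M.cell d)) := (hσ _ h1).2 _ rfl
    have e2 : M.cell (M.rho d) = σ (π (M.cell (M.rho d))) := (hσ _ h2).2 _ rfl
    show JColx54.Adj S (j (σ (π (M.cell d)))) (j (σ (π (M.cell (M.rho d)))))
    have h3 : σ (π (M.cell d)) ∈ F := (hσ _ h1).1
    have h4 : σ (π (M.cell (M.rho d))) ∈ F := (hσ _ h2).1
    rw [← e1] at h3 ⊢
    rw [← e2] at h4 ⊢
    exact H.adj d hd.1 h3 h4

/-- the site of a class of `π` with exactly one site of `V` -/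
def siteOf {C' : Type} (S : Finset ℂ) (π : Quot (hullE S) → C') (V : Finset ℂ) (c : C') : ℂ :=
  if h : ∃ v ∈ V, π (Quot.mk _ v) = c then h.choose else 0

theorem siteOf_spec {C' : Type} {π : Quot (hullE S) → C'} {V : Finset ℂ} {c : C'}
    (h : ∃ v ∈ V, π (Quot.mk _ v) = c) :
    siteOf S π V c ∈ V ∧ π (Quot.mk _ (siteOf S π V c)) = c := by
  unfold siteOf
  rw [dif_pos h]
  exact h.choose_spec

/-- the free sites `V` of a coarse map of the Delaunay triangulation : not on the hull, each alone in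
its class -/
structure Free {C' : Type} (S : Finset ℂ) (π : Quot (hullE S) → C') (V : Finset ℂ) : Prop where
  sub : V ⊆ S
  hull : ∀ v ∈ V, ¬ OnHull S v
  alone : ∀ v ∈ V, ∀ c : Quot (hullE S), π c = π (Quot.mk _ v) → c = Quot.mk _ v

theorem Free.eq {C' : Type} {π : Quot (hullE S) → C'} {V : Finset ℂ} (h : Free S π V)
    (hS : GP (S : Set ℂ)) {v a : ℂ} (hv : v ∈ V) (e : π (Quot.mk _ a) = π (Quot.mk _ v)) :
    a = v :=
  quot_inner hS (h.hull v hv) (h.alone v hv _ e).symm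

/-- the cells of the free sites -/
def cellsOf {C' : Type} (S : Finset ℂ) (π : Quot (hullE S) → C') (V : Finset ℂ) : Set C' :=
  {c | ∃ v ∈ V, π (Quot.mk _ v) = c}

theorem Free.site {C' : Type} {π : Quot (hullE S) → C'} {V : Finset ℂ} (h : Free S π V)
    (hS : GP (S : Set ℂ)) {v : ℂ} (hv : v ∈ V) : siteOf S π V (π (Quot.mk _ v)) = v := by
  obtain ⟨h1, h2⟩ := siteOf_spec (S := S) (π := π) (V := V) ⟨v, hv, rfl⟩
  exact h.eq hS hv h2

/-- the site of the cell of a dart -/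
theorem Free.dart {C' : Type} {π : Quot (hullE S) → C'} {V : Finset ℂ} (h : Free S π V)
    (hS : GP (S : Set ℂ)) {a : ℂ} (ha : π (Quot.mk _ a) ∈ cellsOf S π V) :
    siteOf S π V (π (Quot.mk _ a)) = a ∧ a ∈ V := by
  obtain ⟨v, hv, e⟩ := ha
  have h1 : a = v := h.eq hS hv e.symm
  subst h1
  exact ⟨h.site hS hv, hv⟩

/-- **the free sites of a coarse map of the closed Delaunay triangulation** -/
theorem sites_coarse {C' : Type} {π : Quot (hullE S) → C'} {V : Finset ℂ} (h : Free S π V)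
    (hS : GP (S : Set ℂ)) (hπ : ClsCon (cm0 hS) π) :
    Sites (coarse (cm0 hS) π hπ) S (cellsOf S π V) (siteOf S π V) := by
  refine ⟨fun c hc c' hc' e => ?_, fun c hc => h.sub (siteOf_spec hc).1, ?_⟩
  · rw [← (siteOf_spec hc).2, ← (siteOf_spec hc').2, e]
  · intro d _ h1 h2
    have e1 := (h.dart hS (a := d.1.1) h1).1
    have e2 := (h.dart hS (a := d.1.2) h2).1
    show JColx54.Adj S (siteOf S π V (π (Quot.mk _ d.1.1))) (siteOf S π V (π (Quot.mk _ d.1.2)))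
    rw [e1, e2]
    obtain ⟨c, hc⟩ := mem_sd.1 d.2
    exact Or.inl ⟨c, hc⟩

/-- the closed Delaunay triangulation itself -/
theorem sites_cm0 (hS : GP (S : Set ℂ)) {V : Finset ℂ} (hV : V ⊆ S) (hH : ∀ v ∈ V, ¬ OnHull S v) :
    Sites (cm0 hS) S (cellsOf S id V) (siteOf S id V) := by
  have h : Free S (id : Quot (hullE S) → Quot (hullE S)) V := ⟨hV, hH, fun v _ c e => e⟩
  refine ⟨fun c hc c' hc' e => ?_, fun c hc => h.sub (siteOf_spec hc).1, ?_⟩
  · rw [← (siteOf_spec hc).2, ← (siteOf_spec hc').2, e]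
  · intro d _ h1 h2
    have e1 := (h.dart hS (a := d.1.1) h1).1
    have e2 := (h.dart hS (a := d.1.2) h2).1
    show JColx54.Adj S (siteOf S id V (id (Quot.mk _ d.1.1))) (siteOf S id V (id (Quot.mk _ d.1.2)))
    rw [e1, e2]
    obtain ⟨c, hc⟩ := mem_sd.1 d.2
    exact Or.inl ⟨c, hc⟩

/-! ### nets of balls -/

/-- finite nets of the subsets of a disc, the number of the points depends only on the radii -/
theorem ball_net (Rad ρ : ℝ) (hρ : 0 < ρ) : ∃ m : ℕ, ∀ (z0 : ℂ) (X : Set ℂ),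
    (∀ z ∈ X, ‖z - z0‖ ≤ Rad) → ∃ Y : Finset ℂ, Y.card ≤ m ∧ (∀ y ∈ Y, y ∈ X) ∧
      ∀ z ∈ X, ∃ y ∈ Y, ‖z - y‖ < ρ := by
  obtain ⟨T, -, hT1, hT2⟩ := (isCompact_closedBall (0 : ℂ) Rad).finite_cover_balls
    (half_pos hρ)
  refine ⟨hT1.toFinset.card, fun z0 X hX => ?_⟩
  set g : ℂ → ℂ := fun t => if h : ∃ z ∈ X, ‖z - z0 - t‖ < ρ / 2 then h.choose else 0 with hg
  have hg1 : ∀ t, (∃ z ∈ X, ‖z - z0 - t‖ < ρ / 2) → g t ∈ X ∧ ‖g t - z0 - t‖ < ρ / 2 := by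
    intro t h
    simp only [hg, dif_pos h]
    exact h.choose_spec
  refine ⟨(hT1.toFinset.filter fun t => ∃ z ∈ X, ‖z - z0 - t‖ < ρ / 2).image g,
    card_image_le.trans (card_le_card (filter_subset _ _)), ?_, ?_⟩
  · intro y hy
    obtain ⟨t, ht, rfl⟩ := mem_image.1 hy
    exact (hg1 t (mem_filter.1 ht).2).1
  · intro z hz
    have h1 : z - z0 ∈ ⋃ x ∈ T, Metric.ball x (ρ / 2) :=
      hT2 (by rw [mem_closedBall_zero_iff]; exact hX z hz)
    rw [Set.mem_iUnion₂] at h1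
    obtain ⟨t, ht, h2⟩ := h1
    rw [mem_ball_iff_norm] at h2
    have h3 : ∃ z ∈ X, ‖z - z0 - t‖ < ρ / 2 := ⟨z, hz, h2⟩
    refine ⟨g t, mem_image_of_mem g (mem_filter.2 ⟨hT1.mem_toFinset.2 ht, h3⟩), ?_⟩
    have h4 := (hg1 t h3).2
    have h5 : z - g t = (z - z0 - t) - (g t - z0 - t) := by ring
    rw [h5]
    exact (norm_sub_le _ _).trans_lt (by linarith)

/-! ### the expected number of the pairs of strands -/

open Crest.Agent.R143.CFramex358 (Prs Stp)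
open Crest.Agent.R143.CntSx197

theorem armC_center {z y : ℂ} {r1 r2 ρ : ℝ} (h : ‖z - y‖ ≤ ρ) {β : Finset C}
    (H : ArmC M j z r1 r2 β) : ArmC M j y (r1 + ρ) (r2 - ρ) β := by
  obtain ⟨c, hc, c', hc', h1, h2, h3⟩ := H
  refine ⟨c, hc, c', hc', ?_, ?_, h3⟩
  · have e : j c - y = (j c - z) + (z - y) := by ring
    rw [e]
    exact (norm_add_le _ _).trans (add_le_add h1 h)
  · have e : j c' - z = (j c' - y) - (z - y) := by ring
    rw [e] at h2
    have := h2.trans (norm_sub_le _ _)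
    linarith

/-- the hypotheses of the arm bound in a disc : spacing `d`, radii from `r` to `d1` -/
structure Dense (S : Finset ℂ) (z0 : ℂ) (Rad K d c2 r d1 C4 : ℝ) : Prop where
  dns : ∀ y, ‖y - z0‖ ≤ Rad → LDns S y (K * d1) d
  msh : ∀ y, ‖y - z0‖ ≤ Rad → ∀ b, c2 * r ≤ b → b ≤ d1 → Mesh S y (K * d1) b C4

/-- **the arms and the strands** : for every `C4` absolute constants;
(1) `pr V (ArmC M j y (3 * R) d1) ≤ C0 * (R / d1) ^ c ≤ 1 / 2`;
(2) the expected number of forward strands is at most `m (Rad, d1)`;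
(3) the expected number of pairs of strands with ends at distance `≤ 2 * R` is at most
`C0 * (R / d1) ^ c * m (Rad, d1)` -/
theorem strands : ∀ C4 : ℝ, 0 ≤ C4 → ∃ C0 c c1 c2 K η : ℝ, 0 < C0 ∧ 0 < c ∧ 0 < c1 ∧ 0 < c2 ∧
    c2 ≤ 1 ∧ 1 ≤ K ∧ 0 < η ∧ η ≤ 1 ∧ ∀ Rad d1 : ℝ, 0 < d1 → ∃ m : ℕ,
    ∀ (S : Finset ℂ) (z0 : ℂ) (d R : ℝ), 0 < R → R ≤ η * d1 → d ≤ c1 * R →
    Dense S z0 Rad K d c2 R d1 C4 →
    ∀ {D C : Type} [Fintype C] (M : CMap D C) (A : C) (j : C → ℂ), Sites M S {c | c ≠ A} j →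
    (∀ y, ‖y - z0‖ ≤ Rad → ∀ V : Finset C, A ∉ V →
      pr V (ArmC M j y (3 * R) d1) ≤ C0 * (R / d1) ^ c ∧ C0 * (R / d1) ^ c ≤ 1 / 2) ∧
    (∀ {P : Type} (s : (C → ZMod 2) → Finset P) (z : P → ℂ) (cf : (C → ZMod 2) → P → Finset C),
      (∀ χ, ∀ p ∈ s χ, ‖z p - z0‖ ≤ Rad) →
      (∀ χ, ∀ p ∈ s χ, ∀ c ∈ cf χ p, c ≠ A ∧ χ c = 0) →
      (∀ χ, ∀ p ∈ s χ, ∀ p' ∈ s χ, p ≠ p' → Disjoint (cf χ p) (cf χ p')) →
      (∀ χ, ∀ p ∈ s χ, ArmC M j (z p) R d1 (cf χ p)) →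
      ∑ χ, ((s χ).card : ℝ) ≤ m * 2 ^ Fintype.card C) ∧
    (∀ {P Q : Type} (s : Finset P) (z : P → ℂ) {Rv : P → (C → ZMod 2) → Finset C}
      {E : P → (C → ZMod 2) → Prop} (cf : (C → ZMod 2) → P → Finset C)
      (q : (C → ZMod 2) → P → Finset Q) (cb : (C → ZMod 2) → P → Q → Finset C),
      (∀ p ∈ s, ‖z p - z0‖ ≤ Rad) → (∀ p ∈ s, Stp (Rv p)) →
      (∀ p ∈ s, ∀ χ, ∀ χ' ∈ Prs (Rv p χ) χ, (E p χ' ↔ E p χ)) →
      (∀ p ∈ s, ∀ χ, E p χ → A ∈ Rv p χ) →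
      (∀ χ, ∀ p ∈ s, E p χ → ∀ c ∈ cf χ p, c ≠ A ∧ χ c = 0) →
      (∀ χ, ∀ p ∈ s, ∀ p' ∈ s, E p χ → E p' χ → p ≠ p' → Disjoint (cf χ p) (cf χ p')) →
      (∀ χ, ∀ p ∈ s, E p χ → ArmC M j (z p) R d1 (cf χ p)) →
      (∀ χ, ∀ p ∈ s, E p χ → ∀ a ∈ q χ p, ∀ c ∈ cb χ p a, c ∉ Rv p χ ∧ χ c = 0) →
      (∀ χ, ∀ p ∈ s, E p χ → ∀ a ∈ q χ p, ∀ b ∈ q χ p, a ≠ b →
        Disjoint (cb χ p a) (cb χ p b)) →
      (∀ χ, ∀ p ∈ s, E p χ → ∀ a ∈ q χ p, ArmC M j (z p) (3 * R) d1 (cb χ p a)) →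
      ∑ χ, ∑ p ∈ s.filter (fun p => E p χ), ((q χ p).card : ℝ) ≤
        C0 * (R / d1) ^ c * (m * 2 ^ Fintype.card C)) := by
  intro C4 hC4
  obtain ⟨C0, c, c1, c2, K, h1, h2, h3, h4, h5, h6, H⟩ := arm_cells C4 hC4
  -- the ratio with probability at most 1 / 4
  have g1 : (0 : ℝ) < 1 / (4 * C0) := by positivity
  set κ : ℝ := (1 / (4 * C0)) ^ (1 / c) with hκ
  have g2 : 0 < κ := Real.rpow_pos_of_pos g1 _
  have g3 : ∀ x : ℝ, 0 ≤ x → x ≤ κ → C0 * x ^ c ≤ 1 / 4 := by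
    intro x hx hxκ
    have h7 : x ^ c ≤ 1 / (4 * C0) := by
      calc x ^ c ≤ κ ^ c := Real.rpow_le_rpow hx hxκ h2.le
        _ = 1 / (4 * C0) := by
            rw [hκ, ← Real.rpow_mul g1.le, one_div c, inv_mul_cancel₀ h2.ne', Real.rpow_one]
    calc C0 * x ^ c ≤ C0 * (1 / (4 * C0)) := mul_le_mul_of_nonneg_left h7 h1.le
      _ = 1 / 4 := by field_simp
  set η : ℝ := min (1 / 4) (κ / 4) with hη
  have g4 : 0 < η := lt_min (by norm_num) (by positivity)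
  have g5 : η ≤ 1 / 4 := min_le_left _ _
  have g6 : η ≤ κ / 4 := min_le_right _ _
  have g7 : (0 : ℝ) < 3 ^ c := Real.rpow_pos_of_pos (by norm_num) c
  refine ⟨2 * C0 * 3 ^ c, c, c1, c2, K, η, by positivity, h2, h3, h4, h5, h6, g4,
    by linarith, ?_⟩
  intro Rad d1 hd1
  obtain ⟨m, hm⟩ := ball_net Rad (η * d1) (by positivity)
  refine ⟨m, ?_⟩
  intro S z0 d R hR hRd hd hD D C _ M A j HS
  have key : ∀ y, ‖y - z0‖ ≤ Rad → ∀ r R' : ℝ, R ≤ r → r ≤ R' → R' ≤ d1 →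
      ∀ V : Finset C, A ∉ V → pr V (ArmC M j y r R') ≤ C0 * (r / R') ^ c := by
    intro y hy r R' hr hrR' hR' V hV
    have hdd : d ≤ c1 * r := hd.trans (mul_le_mul_of_nonneg_left hr h3.le)
    have hK : K * R' ≤ K * d1 := mul_le_mul_of_nonneg_left hR' (by linarith)
    refine H S y d r R' (hR.trans_le hr) hrR' (ArmPx930.ldns_mono (hD.dns y hy) hK) ?_ hdd M _ j
      HS V ?_
    · intro b hb1 hb2
      exact ArmPx930.mesh_mono (hD.msh y hy b ((mul_le_mul_of_nonneg_left hr h4.le).trans hb1)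
        (hb2.trans hR')) hK
    · rintro c hc rfl
      exact hV hc
  have k0 : R ≤ d1 / 4 := hRd.trans (by nlinarith)
  have k1 : ∀ y, ‖y - z0‖ ≤ Rad → ∀ V : Finset C, A ∉ V →
      pr V (ArmC M j y (3 * R) d1) ≤ C0 * (3 * R / d1) ^ c := fun y hy V hV =>
    key y hy (3 * R) d1 (by linarith) (by linarith) le_rfl V hV
  have e1 : (3 * R / d1) ^ c = 3 ^ c * (R / d1) ^ c := by
    rw [mul_div_assoc, Real.mul_rpow (by norm_num) (div_pos hR hd1).le]
  have k2 : C0 * (3 * R / d1) ^ c ≤ 1 / 4 := by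
    refine g3 _ (by positivity) ?_
    rw [div_le_iff₀ hd1]
    nlinarith
  have k3 : 2 * C0 * 3 ^ c * (R / d1) ^ c = 2 * (C0 * (3 * R / d1) ^ c) := by rw [e1]; ring
  have k4 : 0 ≤ C0 * (3 * R / d1) ^ c := by positivity
  -- the forward strands
  have fwd : ∀ {P : Type} (s : (C → ZMod 2) → Finset P) (z : P → ℂ)
      (cf : (C → ZMod 2) → P → Finset C),
      (∀ χ, ∀ p ∈ s χ, ‖z p - z0‖ ≤ Rad) →
      (∀ χ, ∀ p ∈ s χ, ∀ c ∈ cf χ p, c ≠ A ∧ χ c = 0) →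
      (∀ χ, ∀ p ∈ s χ, ∀ p' ∈ s χ, p ≠ p' → Disjoint (cf χ p) (cf χ p')) →
      (∀ χ, ∀ p ∈ s χ, ArmC M j (z p) R d1 (cf χ p)) →
      ∑ χ, (1 : ℝ) * ((s χ).card : ℕ) ≤ m * 2 ^ Fintype.card C := by
    intro P s z cf i1 i2 i3 i4
    obtain ⟨Y, hY1, hY2, hY3⟩ := hm z0 {w | ∃ χ, ∃ p ∈ s χ, z p = w} (by
      rintro w ⟨χ, p, hp, rfl⟩
      exact i1 χ p hp)
    have l1 : R + η * d1 ≤ 2 * η * d1 := by linarith
    have l2 : (3 / 4 : ℝ) * d1 ≤ d1 - η * d1 := by nlinarith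
    have l3 : ∀ y ∈ Y, ‖y - z0‖ ≤ Rad := by
      intro y hy
      obtain ⟨χ, p, hp, rfl⟩ := hY2 y hy
      exact i1 χ p hp
    have l4 : ∀ y : Y, pr (univ \ {A}) (ArmC M j y.1 (R + η * d1) (d1 - η * d1)) ≤ 1 / 4 := by
      intro y
      refine (key y.1 (l3 _ y.2) _ _ (by nlinarith) (by nlinarith) (by nlinarith) _ ?_).trans
        (g3 _ ?_ ?_)
      · simp
      · exact div_nonneg (by nlinarith) (by nlinarith)
      · rw [div_le_iff₀ (by nlinarith)]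
        have : 2 * η * d1 ≤ κ / 2 * d1 := by nlinarith
        nlinarith
    have l5 := count_set_le (C := C) (stp_const {A}) (W := fun _ => 1) (fun _ => zero_le_one)
      (fun _ _ _ => rfl) (I := Y) (Arm := fun y => ArmC M j y.1 (R + η * d1) (d1 - η * d1))
      (fun y => armC_up _ _ _ _) (th := 1 / 4) (by norm_num) (by norm_num) (fun _ _ => l4) s cf
      (fun χ _ p hp c hc => ⟨fun h => (i2 χ p hp c hc).1 (mem_singleton.1 h),
        (i2 χ p hp c hc).2⟩) (fun χ _ => i3 χ) (by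
        intro χ _ p hp
        obtain ⟨y, hy, h7⟩ := hY3 (z p) ⟨χ, p, hp, rfl⟩
        exact ⟨⟨y, hy⟩, armC_center h7.le (i4 χ p hp)⟩)
    refine l5.trans ?_
    rw [Fintype.card_coe, sum_const, card_univ, Fintype.card_fun, ZMod.card, nsmul_eq_mul, mul_one]
    have l6 : ((Y.card : ℕ) : ℝ) ≤ m := by exact_mod_cast hY1
    push_cast
    have l7 : (0 : ℝ) < 2 ^ Fintype.card C := by positivity
    have l8 : (Y.card : ℝ) * (1 / 4 / (1 - 1 / 4)) ≤ m := by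
      have : (0 : ℝ) ≤ Y.card := Nat.cast_nonneg _
      norm_num
      linarith
    exact mul_le_mul_of_nonneg_right l8 l7.le
  refine ⟨?_, ?_, ?_⟩
  · intro y hy V hV
    rw [k3]
    refine ⟨(k1 y hy V hV).trans (by linarith), by linarith⟩
  · intro P s z cf i1 i2 i3 i4
    have := fwd s z cf i1 i2 i3 i4
    simpa using this
  · intro P Q s z Rv E cf q cb i1 i2 i3 i4 i5 i6 i7 i8 i9 i10
    have f1 := fwd (fun χ => s.filter fun p => E p χ) z cf
      (fun χ p hp => i1 p (mem_filter.1 hp).1)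
      (fun χ p hp => i5 χ p (mem_filter.1 hp).1 (mem_filter.1 hp).2)
      (fun χ p hp p' hp' => i6 χ p (mem_filter.1 hp).1 p' (mem_filter.1 hp').1
        (mem_filter.1 hp).2 (mem_filter.1 hp').2)
      (fun χ p hp => i7 χ p (mem_filter.1 hp).1 (mem_filter.1 hp).2)
    set th : ℝ := C0 * (3 * R / d1) ^ c with hth
    have f2 : th / (1 - th) ≤ 2 * th := by
      rw [div_le_iff₀ (by linarith)]
      nlinarith
    have f3 := pairs_rel s i2 i3 (Arm := fun p => ArmC M j (z p) (3 * R) d1)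
      (fun p _ => armC_up _ _ _ _) k4 (by linarith : th < 1)
      (fun p hp χ hE => k1 (z p) (i1 p hp) _ (by
        rw [mem_sdiff]
        exact fun h => h.2 (i4 p hp χ hE))) q cb i8 i9 i10
    refine f3.trans ?_
    rw [k3]
    refine mul_le_mul f2 ?_ (sum_nonneg fun _ _ => Nat.cast_nonneg _) (by positivity)
    simpa using f1

end Crest.Agent.R143.CntGx197
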