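import Crest.Agent.R143.CFrame_358
import Crest.Agent.R143.BK_315

/-!
# Row 143 (S0194), block H, H3(b): the count of disjoint strands on the atoms of a stopping rule

(B3 of helper795; helper197)

* `blk0 V χ` : the black cells (colour `0`) of `V`
* `card_cyl` : the black set off the revealed cells is uniform on the cylinder
* `count_le` : **count**, one arm event: `∑ W * n ≤ th / (1 - th) * ∑ W`
* `count_fam_le` : count for a finite family of arm events, `∑ W * n ≤ m * (th / (1 - th)) * ∑ W`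
* `count_set_le` : the same for the number of the elements of a finite set `Q χ` with disjoint chains
* `pairs_le` : sum over pairs (a stopping rule, a weight and an arm event for every first element)
* `pairs_rel` : **pairs of strands**: at most `th / (1 - th) * (number of the forward strands)`
* `pairs_total` : **pairs of strands**: at most `th / (1 - th) * (m * (th₁ / (1 - th₁))) * 2 ^ |C|`
-/

set_option autoImplicit false

noncomputable section

open scoped Classical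

namespace Crest.Agent.R143.CntSx197

open Finset
open Crest.Agent.R143.CFramex358 (Prs mem_Prs self_Prs card_Prs Stp)
open Crest.Agent.R143.Harx315 Crest.Agent.R143.BKx315

variable {C : Type} [Fintype C]

/-- the black cells of `V` -/
def blk0 (V : Finset C) (χ : C → ZMod 2) : Finset C := V.filter fun c => χ c = 0

omit [Fintype C] in
theorem mem_blk0 {V : Finset C} {χ : C → ZMod 2} {c : C} : c ∈ blk0 V χ ↔ c ∈ V ∧ χ c = 0 := by
  unfold blk0; simp

omit [Fintype C] in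
theorem blk0_sub {V : Finset C} {χ : C → ZMod 2} : blk0 V χ ⊆ V := filter_subset _ _

/-- the colouring with the black set `β` off `E` and the colours `χ₀` on `E` -/
def mk (E : Finset C) (χ₀ : C → ZMod 2) (β : Finset C) (c : C) : ZMod 2 :=
  if c ∈ E then χ₀ c else if c ∈ β then 0 else 1

/-- **the black set off the revealed cells is uniform on the cylinder** -/
theorem card_cyl (E : Finset C) (χ₀ : C → ZMod 2) (A : Finset C → Prop) :
    ((Prs E χ₀).filter fun χ => A (blk0 (univ \ E) χ)).card = nb (univ \ E) A := by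
  unfold nb
  refine card_bij' (fun χ _ => blk0 (univ \ E) χ) (fun β _ => mk E χ₀ β) ?_ ?_ ?_ ?_
  · intro χ hχ
    rw [mem_filter] at hχ
    rw [mem_fil]
    exact ⟨blk0_sub, hχ.2⟩
  · intro β hβ
    rw [mem_fil] at hβ
    have e : blk0 (univ \ E) (mk E χ₀ β) = β := by
      ext c
      rw [mem_blk0]
      constructor
      · rintro ⟨h1, h2⟩
        by_contra h3
        have h4 : c ∉ E := (mem_sdiff.1 h1).2
        unfold mk at h2
        rw [if_neg h4, if_neg h3] at h2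
        exact absurd h2 (by decide)
      · intro h1
        have h2 := hβ.1 h1
        refine ⟨h2, ?_⟩
        unfold mk
        rw [if_neg (mem_sdiff.1 h2).2, if_pos h1]
    rw [mem_filter]
    refine ⟨mem_Prs.2 fun v hv => ?_, ?_⟩
    · show mk E χ₀ β v = χ₀ v
      unfold mk
      rw [if_pos hv]
    · show A (blk0 (univ \ E) (mk E χ₀ β))
      rw [e]; exact hβ.2
  · intro χ hχ
    rw [mem_filter] at hχ
    have h0 := mem_Prs.1 hχ.1
    funext c
    show mk E χ₀ (blk0 (univ \ E) χ) c = χ c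
    unfold mk
    by_cases hc : c ∈ E
    · rw [if_pos hc, h0 c hc]
    · rw [if_neg hc]
      by_cases h2 : χ c = 0
      · rw [if_pos (mem_blk0.2 ⟨mem_sdiff.2 ⟨mem_univ c, hc⟩, h2⟩), h2]
      · rw [if_neg fun h => h2 (mem_blk0.1 h).2]
        have : ∀ a : ZMod 2, a ≠ 0 → 1 = a := by decide
        exact this _ h2
  · intro β hβ
    rw [mem_fil] at hβ
    show blk0 (univ \ E) (mk E χ₀ β) = β
    ext c
    rw [mem_blk0]
    constructor
    · rintro ⟨h1, h2⟩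
      by_contra h3
      have h4 : c ∉ E := (mem_sdiff.1 h1).2
      unfold mk at h2
      rw [if_neg h4, if_neg h3] at h2
      exact absurd h2 (by decide)
    · intro h1
      have h2 := hβ.1 h1
      refine ⟨h2, ?_⟩
      unfold mk
      rw [if_neg (mem_sdiff.1 h2).2, if_pos h1]

theorem card_Prs' (E : Finset C) (χ₀ : C → ZMod 2) :
    (Prs E χ₀).card = 2 ^ (univ \ E : Finset C).card := by
  have h := card_cyl E χ₀ fun _ => True
  rw [nb_true] at h
  simpa using h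

/-- the same as a fraction of the cylinder -/
theorem card_cyl_pr (E : Finset C) (χ₀ : C → ZMod 2) (A : Finset C → Prop) :
    (((Prs E χ₀).filter fun χ => A (blk0 (univ \ E) χ)).card : ℝ) =
      (Prs E χ₀).card * pr (univ \ E) A := by
  rw [card_cyl, card_Prs']
  unfold pr
  push_cast
  field_simp

/-- tail sum of a natural number -/
theorem tail_sum {k N : ℕ} (h : k ≤ N) : k = ∑ j ∈ range N, if j + 1 ≤ k then 1 else 0 := by
  rw [sum_ite, sum_const_zero, add_zero, sum_const, smul_eq_mul, mul_one]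
  have : (range N).filter (fun j => j + 1 ≤ k) = range k := by
    ext j
    rw [mem_filter, mem_range, mem_range]
    omega
  rw [this, card_range]

/-- sum of the counts on a cylinder -/
theorem cyl_count {E : Finset C} {χ₀ : C → ZMod 2} {Arm : Finset C → Prop}
    (hA : Up (univ \ E) Arm) {th : ℝ} (h0 : 0 ≤ th) (h1 : th < 1) (hth : pr (univ \ E) Arm ≤ th)
    {n : (C → ZMod 2) → ℕ}
    (hn : ∀ χ ∈ Prs E χ₀, DisK (n χ) Arm (blk0 (univ \ E) χ)) :
    ∑ χ ∈ Prs E χ₀, (n χ : ℝ) ≤ (Prs E χ₀).card * (th / (1 - th)) := by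
  -- a bound for the counts
  set N : ℕ := (Prs E χ₀).sup n with hN
  have hle : ∀ χ ∈ Prs E χ₀, n χ ≤ N := fun χ hχ => le_sup (f := n) hχ
  have e1 : ∑ χ ∈ Prs E χ₀, (n χ : ℝ) =
      ∑ j ∈ range N, (((Prs E χ₀).filter fun χ => j + 1 ≤ n χ).card : ℝ) := by
    have : ∀ χ ∈ Prs E χ₀, (n χ : ℝ) = ∑ j ∈ range N, if j + 1 ≤ n χ then (1 : ℝ) else 0 := by
      intro χ hχ
      have h := tail_sum (hle χ hχ)
      have h' : (n χ : ℝ) = ((∑ j ∈ range N, if j + 1 ≤ n χ then 1 else 0 : ℕ) : ℝ) := by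
        exact_mod_cast h
      rw [h']
      push_cast
      rfl
    rw [sum_congr rfl this, sum_comm]
    refine sum_congr rfl fun j _ => ?_
    rw [sum_ite, sum_const_zero, add_zero, sum_const, nsmul_eq_mul, mul_one]
  have e2 : ∀ j, (((Prs E χ₀).filter fun χ => j + 1 ≤ n χ).card : ℝ) ≤
      (Prs E χ₀).card * th ^ (j + 1) := by
    intro j
    have h2 : (((Prs E χ₀).filter fun χ => j + 1 ≤ n χ).card : ℝ) ≤
        ((Prs E χ₀).filter fun χ => DisK (j + 1) Arm (blk0 (univ \ E) χ)).card := by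
      refine Nat.cast_le.2 (card_le_card ?_)
      intro χ hχ
      rw [mem_filter] at hχ ⊢
      exact ⟨hχ.1, (hn χ hχ.1).le hχ.2⟩
    refine h2.trans ?_
    rw [card_cyl_pr]
    exact mul_le_mul_of_nonneg_left (bk_pow_le (j + 1) hA hth) (Nat.cast_nonneg _)
  rw [e1]
  refine (sum_le_sum fun j _ => e2 j).trans ?_
  rw [← mul_sum]
  refine mul_le_mul_of_nonneg_left ?_ (Nat.cast_nonneg _)
  have e3 : ∑ j ∈ range N, th ^ (j + 1) = th * ∑ j ∈ range N, th ^ j := by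
    rw [mul_sum]
    exact sum_congr rfl fun j _ => by ring
  rw [e3, div_eq_mul_inv]
  refine mul_le_mul_of_nonneg_left ?_ h0
  have h4 : (0 : ℝ) < 1 - th := by linarith
  rw [← tsum_geometric_of_lt_one h0 h1]
  exact (summable_geometric_of_lt_one h0 h1).sum_le_tsum _ fun j _ => pow_nonneg h0 j

/-- **count on the atoms of a stopping rule**, bound for the arm event on the atoms with `W ≠ 0` -/
theorem count_le' {R : (C → ZMod 2) → Finset C} (hR : Stp R) {W : (C → ZMod 2) → ℝ}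
    (hW : ∀ χ, 0 ≤ W χ) (hWR : ∀ χ, ∀ χ' ∈ Prs (R χ) χ, W χ' = W χ) {Arm : Finset C → Prop}
    (hA : Up univ Arm) {th : ℝ} (h0 : 0 ≤ th) (h1 : th < 1)
    (hth : ∀ χ, W χ ≠ 0 → pr (univ \ R χ) Arm ≤ th) (n : (C → ZMod 2) → ℕ)
    (hn : ∀ χ, W χ ≠ 0 → DisK (n χ) Arm (blk0 (univ \ R χ) χ)) :
    ∑ χ, W χ * n χ ≤ th / (1 - th) * ∑ χ, W χ := by
  rw [mul_sum]
  refine hR.tower_le fun χ => ?_
  have e1 : ∑ χ' ∈ Prs (R χ) χ, W χ' * (n χ' : ℝ) = W χ * ∑ χ' ∈ Prs (R χ) χ, (n χ' : ℝ) := by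
    rw [mul_sum]
    exact sum_congr rfl fun χ' h => by rw [hWR χ χ' h]
  have e2 : ∑ χ' ∈ Prs (R χ) χ, th / (1 - th) * W χ' =
      W χ * ((Prs (R χ) χ).card * (th / (1 - th))) := by
    have e3 : ∀ χ' ∈ Prs (R χ) χ, th / (1 - th) * W χ' = th / (1 - th) * W χ :=
      fun χ' h => by rw [hWR χ χ' h]
    rw [sum_congr rfl e3, sum_const, nsmul_eq_mul]
    ring
  rw [e1, e2]
  by_cases hw : W χ = 0
  · rw [hw, zero_mul, zero_mul]
  · refine mul_le_mul_of_nonneg_left ?_ (hW χ)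
    refine cyl_count (fun β β' h h' => hA β β' h (subset_univ _)) h0 h1 (hth χ hw) ?_
    intro χ' hχ'
    have h2 := hn χ' (by rw [hWR χ χ' hχ']; exact hw)
    rwa [(hR.atom hχ').1] at h2

/-- **count** (B3 (i)) -/
theorem count_le {R : (C → ZMod 2) → Finset C} (hR : Stp R) {W : (C → ZMod 2) → ℝ}
    (hW : ∀ χ, 0 ≤ W χ) (hWR : ∀ χ, ∀ χ' ∈ Prs (R χ) χ, W χ' = W χ) {Arm : Finset C → Prop}
    (hA : Up univ Arm) {th : ℝ} (h0 : 0 ≤ th) (h1 : th < 1)
    (hth : ∀ V' : Finset C, pr V' Arm ≤ th) (n : (C → ZMod 2) → ℕ)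
    (hn : ∀ χ, W χ ≠ 0 → DisK (n χ) Arm ((univ \ R χ).filter fun c => χ c = 0)) :
    ∑ χ, W χ * n χ ≤ th / (1 - th) * ∑ χ, W χ :=
  count_le' hR hW hWR hA h0 h1 (fun _ _ => hth _) n hn

/-! ### a finite family of arm events -/

omit [Fintype C] in
/-- `n` disjoint subsets which satisfy some of the events `Arm i` : `n = ∑ n i` and `n i` disjoint
occurrences of `Arm i` -/
theorem split_fam {I : Type} [Fintype I] {Arm : I → Finset C → Prop} {n : ℕ} {β : Finset C}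
    (h : DisK n (fun b => ∃ i, Arm i b) β) :
    ∃ k : I → ℕ, n = ∑ i, k i ∧ ∀ i, DisK (k i) (Arm i) β := by
  obtain ⟨w, h1, h2, h3⟩ := h
  choose f hf using h3
  refine ⟨fun i => (univ.filter fun j => f j = i).card, ?_, fun i => ?_⟩
  · have := card_eq_sum_card_fiberwise (s := (univ : Finset (Fin n))) (t := (univ : Finset I))
      (f := f) (fun _ _ => mem_coe.2 (mem_univ _))
    rw [card_univ, Fintype.card_fin] at this
    exact this
  · set s := univ.filter fun j => f j = i with hs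
    let e : Fin s.card ≃ s := s.equivFin.symm
    refine ⟨fun a => w (e a).1, fun a => h1 _, fun a b hab => h2 _ _ ?_, fun a => ?_⟩
    · intro e'
      exact hab (e.injective (Subtype.ext e'))
    · have h4 := (mem_filter.1 (e a).2).2
      have h5 := hf (e a).1
      rwa [h4] at h5

/-- **count for a finite family of arm events** (B3 (ii)), different bounds -/
theorem count_fam_le' {R : (C → ZMod 2) → Finset C} (hR : Stp R) {W : (C → ZMod 2) → ℝ}
    (hW : ∀ χ, 0 ≤ W χ) (hWR : ∀ χ, ∀ χ' ∈ Prs (R χ) χ, W χ' = W χ) {I : Type} [Fintype I]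
    {Arm : I → Finset C → Prop} (hA : ∀ i, Up univ (Arm i)) {th : I → ℝ} (h0 : ∀ i, 0 ≤ th i)
    (h1 : ∀ i, th i < 1) (hth : ∀ χ, W χ ≠ 0 → ∀ i, pr (univ \ R χ) (Arm i) ≤ th i)
    (n : (C → ZMod 2) → ℕ)
    (hn : ∀ χ, W χ ≠ 0 → DisK (n χ) (fun b => ∃ i, Arm i b) (blk0 (univ \ R χ) χ)) :
    ∑ χ, W χ * n χ ≤ (∑ i, th i / (1 - th i)) * ∑ χ, W χ := by
  have hk : ∀ χ, ∃ k : I → ℕ, W χ ≠ 0 → n χ = ∑ i, k i ∧
      ∀ i, DisK (k i) (Arm i) (blk0 (univ \ R χ) χ) := by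
    intro χ
    by_cases hw : W χ = 0
    · exact ⟨fun _ => 0, fun h => absurd hw h⟩
    · obtain ⟨k, h2⟩ := split_fam (hn χ hw)
      exact ⟨k, fun _ => h2⟩
  choose k hk using hk
  have e1 : ∑ χ, W χ * (n χ : ℝ) = ∑ i, ∑ χ, W χ * (k χ i : ℝ) := by
    rw [sum_comm]
    refine sum_congr rfl fun χ _ => ?_
    by_cases hw : W χ = 0
    · simp [hw]
    · rw [(hk χ hw).1, ← mul_sum]
      push_cast
      rfl
  rw [e1, sum_mul]
  refine sum_le_sum fun i _ => ?_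
  exact count_le' hR hW hWR (hA i) (h0 i) (h1 i) (fun χ hw => hth χ hw i) (fun χ => k χ i)
    fun χ hw => (hk χ hw).2 i

/-- **count for a finite family of arm events** (B3 (ii)) -/
theorem count_fam_le {R : (C → ZMod 2) → Finset C} (hR : Stp R) {W : (C → ZMod 2) → ℝ}
    (hW : ∀ χ, 0 ≤ W χ) (hWR : ∀ χ, ∀ χ' ∈ Prs (R χ) χ, W χ' = W χ) {I : Type} [Fintype I]
    {Arm : I → Finset C → Prop} (hA : ∀ i, Up univ (Arm i)) {th : ℝ} (h0 : 0 ≤ th)
    (h1 : th < 1) (hth : ∀ χ, W χ ≠ 0 → ∀ i, pr (univ \ R χ) (Arm i) ≤ th)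
    (n : (C → ZMod 2) → ℕ)
    (hn : ∀ χ, W χ ≠ 0 → DisK (n χ) (fun b => ∃ i, Arm i b)
      ((univ \ R χ).filter fun c => χ c = 0)) :
    ∑ χ, W χ * n χ ≤ Fintype.card I * (th / (1 - th)) * ∑ χ, W χ := by
  refine (count_fam_le' hR hW hWR hA (fun _ => h0) (fun _ => h1) hth n hn).trans (le_of_eq ?_)
  rw [sum_const, card_univ, nsmul_eq_mul]

omit [Fintype C] in
/-- disjoint chains indexed by a finite set -/
theorem disK_of_set {Q : Type*} (s : Finset Q) {Arm : Finset C → Prop} {β : Finset C}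
    (ch : Q → Finset C) (h1 : ∀ q ∈ s, ch q ⊆ β)
    (h2 : ∀ q ∈ s, ∀ q' ∈ s, q ≠ q' → Disjoint (ch q) (ch q')) (h3 : ∀ q ∈ s, Arm (ch q)) :
    DisK s.card Arm β := by
  let e : Fin s.card ≃ s := s.equivFin.symm
  refine ⟨fun a => ch (e a).1, fun a => h1 _ (e a).2, fun a b hab => ?_, fun a => h3 _ (e a).2⟩
  refine h2 _ (e a).2 _ (e b).2 fun e' => hab (e.injective (Subtype.ext e'))

/-- **the expected number of the elements with disjoint chains** : `Q χ` = finite set, `ch χ q` =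
the chain of `q`, a set of black cells off the revealed cells, in some of the arm events -/
theorem count_set_le {R : (C → ZMod 2) → Finset C} (hR : Stp R) {W : (C → ZMod 2) → ℝ}
    (hW : ∀ χ, 0 ≤ W χ) (hWR : ∀ χ, ∀ χ' ∈ Prs (R χ) χ, W χ' = W χ) {I : Type} [Fintype I]
    {Arm : I → Finset C → Prop} (hA : ∀ i, Up univ (Arm i)) {th : ℝ} (h0 : 0 ≤ th)
    (h1 : th < 1) (hth : ∀ χ, W χ ≠ 0 → ∀ i, pr (univ \ R χ) (Arm i) ≤ th)
    {Q : Type} (q : (C → ZMod 2) → Finset Q) (ch : (C → ZMod 2) → Q → Finset C)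
    (hc : ∀ χ, W χ ≠ 0 → ∀ a ∈ q χ, ∀ c ∈ ch χ a, c ∉ R χ ∧ χ c = 0)
    (hd : ∀ χ, W χ ≠ 0 → ∀ a ∈ q χ, ∀ b ∈ q χ, a ≠ b → Disjoint (ch χ a) (ch χ b))
    (ha : ∀ χ, W χ ≠ 0 → ∀ a ∈ q χ, ∃ i, Arm i (ch χ a)) :
    ∑ χ, W χ * (q χ).card ≤ Fintype.card I * (th / (1 - th)) * ∑ χ, W χ := by
  refine count_fam_le hR hW hWR hA h0 h1 hth (fun χ => (q χ).card) fun χ hw => ?_
  refine disK_of_set (q χ) (ch χ) (fun a h => fun c hcc => ?_) (hd χ hw) (ha χ hw)
  have := hc χ hw a h c hcc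
  rw [mem_filter, mem_sdiff]
  exact ⟨⟨mem_univ c, this.1⟩, this.2⟩

/-! ### pairs of strands -/

/-- **pairs** : for every `p ∈ s` a stopping rule `R p`, a weight `W p`, an arm event `Arm p` and a
count `n p` -/
theorem pairs_le {P : Type} (s : Finset P) {R : P → (C → ZMod 2) → Finset C}
    (hR : ∀ p ∈ s, Stp (R p)) {W : P → (C → ZMod 2) → ℝ} (hW : ∀ p ∈ s, ∀ χ, 0 ≤ W p χ)
    (hWR : ∀ p ∈ s, ∀ χ, ∀ χ' ∈ Prs (R p χ) χ, W p χ' = W p χ) {Arm : P → Finset C → Prop}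
    (hA : ∀ p ∈ s, Up univ (Arm p)) {th : ℝ} (h0 : 0 ≤ th) (h1 : th < 1)
    (hth : ∀ p ∈ s, ∀ χ, W p χ ≠ 0 → pr (univ \ R p χ) (Arm p) ≤ th)
    (n : P → (C → ZMod 2) → ℕ)
    (hn : ∀ p ∈ s, ∀ χ, W p χ ≠ 0 →
      DisK (n p χ) (Arm p) ((univ \ R p χ).filter fun c => χ c = 0)) :
    ∑ χ, ∑ p ∈ s, W p χ * n p χ ≤ th / (1 - th) * ∑ χ, ∑ p ∈ s, W p χ := by
  rw [sum_comm, sum_comm (s := (univ : Finset (C → ZMod 2))) (f := fun χ p => W p χ), mul_sum]
  exact sum_le_sum fun p hp => count_le' (hR p hp) (hW p hp) (hWR p hp) (hA p hp) h0 h1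
    (hth p hp) (n p) (hn p hp)

omit [Fintype C] in
/-- a constant set is a stopping rule -/
theorem stp_const (E : Finset C) : Stp fun _ : C → ZMod 2 => E := fun _ _ _ => rfl

/-- **pairs of strands, relative form** : `E p` = the forward strand `p` is there; `q χ p` = the
backward strands of `p`, with the black chains `cb χ p a` off the revealed cells `R p χ`, in the arm
event `Arm p` -/
theorem pairs_rel {P Q : Type} (s : Finset P) {R : P → (C → ZMod 2) → Finset C}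
    (hR : ∀ p ∈ s, Stp (R p)) {E : P → (C → ZMod 2) → Prop}
    (hER : ∀ p ∈ s, ∀ χ, ∀ χ' ∈ Prs (R p χ) χ, (E p χ' ↔ E p χ))
    {Arm : P → Finset C → Prop} (hA : ∀ p ∈ s, Up univ (Arm p)) {th : ℝ} (h0 : 0 ≤ th)
    (h1 : th < 1) (hth : ∀ p ∈ s, ∀ χ, E p χ → pr (univ \ R p χ) (Arm p) ≤ th)
    (q : (C → ZMod 2) → P → Finset Q) (cb : (C → ZMod 2) → P → Q → Finset C)
    (hc : ∀ χ, ∀ p ∈ s, E p χ → ∀ a ∈ q χ p, ∀ c ∈ cb χ p a, c ∉ R p χ ∧ χ c = 0)
    (hd : ∀ χ, ∀ p ∈ s, E p χ → ∀ a ∈ q χ p, ∀ b ∈ q χ p, a ≠ b →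
      Disjoint (cb χ p a) (cb χ p b))
    (ha : ∀ χ, ∀ p ∈ s, E p χ → ∀ a ∈ q χ p, Arm p (cb χ p a)) :
    ∑ χ, ∑ p ∈ s.filter (fun p => E p χ), ((q χ p).card : ℝ) ≤
      th / (1 - th) * ∑ χ, ((s.filter fun p => E p χ).card : ℝ) := by
  set W : P → (C → ZMod 2) → ℝ := fun p χ => if E p χ then 1 else 0 with hWd
  have hW0 : ∀ p χ, W p χ ≠ 0 → E p χ := by
    intro p χ h
    by_contra hc
    exact h (by simp only [hWd, if_neg hc])
  have k1 : ∑ χ, ∑ p ∈ s, W p χ * ((q χ p).card : ℕ) ≤ th / (1 - th) * ∑ χ, ∑ p ∈ s, W p χ := by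
    refine pairs_le s hR ?_ ?_ hA h0 h1 (fun p hp χ hw => hth p hp χ (hW0 p χ hw))
      (fun p χ => (q χ p).card) ?_
    · intro p _ χ
      simp only [hWd]
      split_ifs <;> norm_num
    · intro p hp χ χ' hχ'
      simp only [hWd, hER p hp χ χ' hχ']
    · intro p hp χ hw
      have hE := hW0 p χ hw
      refine disK_of_set (q χ p) (cb χ p) (fun a h => fun c hcc => ?_) (hd χ p hp hE)
        (ha χ p hp hE)
      have := hc χ p hp hE a h c hcc
      rw [mem_filter, mem_sdiff]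
      exact ⟨⟨mem_univ c, this.1⟩, this.2⟩
  have e1 : ∀ χ, ∑ p ∈ s.filter (fun p => E p χ), ((q χ p).card : ℝ) =
      ∑ p ∈ s, W p χ * ((q χ p).card : ℕ) := by
    intro χ
    rw [sum_filter]
    refine sum_congr rfl fun p _ => ?_
    simp only [hWd]
    split_ifs <;> simp
  have e2 : ∀ χ, ∑ p ∈ s, W p χ = ((s.filter fun p => E p χ).card : ℝ) := by
    intro χ
    simp only [hWd]
    rw [sum_ite, sum_const_zero, add_zero, sum_const, nsmul_eq_mul, mul_one]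
  rw [sum_congr rfl fun χ _ => e1 χ]
  refine k1.trans (le_of_eq ?_)
  rw [sum_congr rfl fun χ _ => e2 χ]

/-- **pairs of strands** : the same with the bound for the forward strands `p`, with the black chains
`cf χ p` off the giants `G`, in some of the arm events `Arm₁ i`:
`∑ χ, ∑ p, #(q χ p) ≤ th / (1 - th) * (m * (th₁ / (1 - th₁))) * 2 ^ |C|` -/
theorem pairs_total {P Q : Type} (s : Finset P) {R : P → (C → ZMod 2) → Finset C}
    (hR : ∀ p ∈ s, Stp (R p)) {E : P → (C → ZMod 2) → Prop}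
    (hER : ∀ p ∈ s, ∀ χ, ∀ χ' ∈ Prs (R p χ) χ, (E p χ' ↔ E p χ))
    -- the forward strands
    (G : Finset C) {I : Type} [Fintype I] {Arm₁ : I → Finset C → Prop}
    (hA₁ : ∀ i, Up univ (Arm₁ i)) {th₁ : ℝ} (h0₁ : 0 ≤ th₁) (h1₁ : th₁ < 1)
    (hth₁ : ∀ i, pr (univ \ G) (Arm₁ i) ≤ th₁) (cf : (C → ZMod 2) → P → Finset C)
    (hc₁ : ∀ χ, ∀ p ∈ s, E p χ → ∀ c ∈ cf χ p, c ∉ G ∧ χ c = 0)
    (hd₁ : ∀ χ, ∀ p ∈ s, ∀ p' ∈ s, E p χ → E p' χ → p ≠ p' → Disjoint (cf χ p) (cf χ p'))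
    (ha₁ : ∀ χ, ∀ p ∈ s, E p χ → ∃ i, Arm₁ i (cf χ p))
    -- the backward strands
    {Arm : P → Finset C → Prop} (hA : ∀ p ∈ s, Up univ (Arm p)) {th : ℝ} (h0 : 0 ≤ th)
    (h1 : th < 1) (hth : ∀ p ∈ s, ∀ χ, E p χ → pr (univ \ R p χ) (Arm p) ≤ th)
    (q : (C → ZMod 2) → P → Finset Q) (cb : (C → ZMod 2) → P → Q → Finset C)
    (hc : ∀ χ, ∀ p ∈ s, E p χ → ∀ a ∈ q χ p, ∀ c ∈ cb χ p a, c ∉ R p χ ∧ χ c = 0)
    (hd : ∀ χ, ∀ p ∈ s, E p χ → ∀ a ∈ q χ p, ∀ b ∈ q χ p, a ≠ b →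
      Disjoint (cb χ p a) (cb χ p b))
    (ha : ∀ χ, ∀ p ∈ s, E p χ → ∀ a ∈ q χ p, Arm p (cb χ p a)) :
    ∑ χ, ∑ p ∈ s.filter (fun p => E p χ), ((q χ p).card : ℝ) ≤
      th / (1 - th) * (Fintype.card I * (th₁ / (1 - th₁)) * 2 ^ Fintype.card C) := by
  have k2 : ∑ χ, (1 : ℝ) * ((s.filter fun p => E p χ).card : ℕ) ≤
      Fintype.card I * (th₁ / (1 - th₁)) * ∑ χ : C → ZMod 2, (1 : ℝ) := by
    refine count_set_le (stp_const G) (fun _ => zero_le_one) (fun _ _ _ => rfl) hA₁ h0₁ h1₁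
      (fun χ _ => hth₁) (fun χ => s.filter fun p => E p χ) cf ?_ ?_ ?_
    · intro χ _ p hp
      rw [mem_filter] at hp
      exact hc₁ χ p hp.1 hp.2
    · intro χ _ p hp p' hp'
      rw [mem_filter] at hp hp'
      exact hd₁ χ p hp.1 p' hp'.1 hp.2 hp'.2
    · intro χ _ p hp
      rw [mem_filter] at hp
      exact ha₁ χ p hp.1 hp.2
  have e3 : ∑ χ : C → ZMod 2, (1 : ℝ) = 2 ^ Fintype.card C := by
    rw [sum_const, card_univ, Fintype.card_fun, ZMod.card, nsmul_eq_mul, mul_one]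
    push_cast
    rfl
  have k3 := pairs_rel s hR hER hA h0 h1 hth q cb hc hd ha
  refine k3.trans ?_
  have h2 : 0 ≤ th / (1 - th) := div_nonneg h0 (by linarith)
  refine mul_le_mul_of_nonneg_left ?_ h2
  rw [e3] at k2
  simpa using k2

end Crest.Agent.R143.CntSx197
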