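import Crest.Agent.R143.ES_831
import Crest.Agent.R143.PP0_831

/-!
# R143 (helper831, BC8): the sample law as (positions) x (colours)

* `zip_mp` : `(infinitePi G) x (infinitePi H) → infinitePi (G x H)`
* `Pos`, `Col`, `posLaw`, `colLaw`, `mk`, `mp_mk`
-/

set_option autoImplicit false
set_option linter.unusedSectionVars false

noncomputable section

namespace Crest.Agent.R143.Lawx831

open MeasureTheory Set
open Crest.ProbabilityR.Voronoi
open scoped ENNReal

section zip

variable {I : Type*} {X Y : Type*} [MeasurableSpace X] [MeasurableSpace Y]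
  (G : Measure X) (H : Measure Y) [IsProbabilityMeasure G] [IsProbabilityMeasure H]

theorem zip_mp : MeasurePreserving (fun (p : (I → X) × (I → Y)) (i : I) => (p.1 i, p.2 i))
    ((Measure.infinitePi fun _ : I => G).prod (Measure.infinitePi fun _ : I => H))
    (Measure.infinitePi fun _ : I => G.prod H) := by
  classical
  have hm : Measurable fun (p : (I → X) × (I → Y)) (i : I) => (p.1 i, p.2 i) := by
    rw [measurable_pi_iff]
    intro i
    fun_prop
  refine ⟨hm, ?_⟩
  apply Measure.eq_infinitePi
  intro u A hA
  have hpi : MeasurableSet (Set.pi (u : Set I) A) :=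
    MeasurableSet.pi u.countable_toSet fun i _ => hA i
  rw [Measure.map_apply hm hpi]
  set r : (I → X) × (I → Y) → (u → X) × (u → Y) :=
    Prod.map (u.restrict (π := fun _ => X)) (u.restrict (π := fun _ => Y)) with hr
  have hmp : MeasurePreserving r
      ((Measure.infinitePi fun _ : I => G).prod (Measure.infinitePi fun _ : I => H))
      ((Measure.pi fun _ : u => G).prod (Measure.pi fun _ : u => H)) :=
    MeasurePreserving.prod ⟨Finset.measurable_restrict u, Measure.infinitePi_map_restrict _⟩
      ⟨Finset.measurable_restrict u, Measure.infinitePi_map_restrict _⟩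
  have he := measurePreserving_arrowProdEquivProdArrow X Y u (fun _ => G) (fun _ => H)
  have hcomp := (he.symm).comp hmp
  have hS : (fun (p : (I → X) × (I → Y)) (i : I) => (p.1 i, p.2 i)) ⁻¹' (Set.pi (u : Set I) A) =
      ((MeasurableEquiv.arrowProdEquivProdArrow X Y u).symm ∘ r) ⁻¹'
        (Set.pi Set.univ fun i : u => A i) := by
    ext p
    simp only [Set.mem_preimage, Set.mem_pi, Finset.mem_coe, Set.mem_univ, true_implies,
      Subtype.forall]
    rfl
  rw [hS, hcomp.measure_preimage
    (MeasurableSet.univ_pi fun i : u => hA i).nullMeasurableSet, Measure.pi_pi,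
    ← Finset.prod_coe_sort u]

end zip

/-- the positions of one block: count and coordinates in the unit cell -/
abbrev PB : Type := ℕ × (ℕ → unitInterval × unitInterval)

/-- all positions -/
abbrev Pos : Type := ℤ × ℤ → PB

/-- all colours -/
abbrev Col : Type := (ℤ × ℤ) × ℕ → unitInterval

/-- the law of a block -/
def pbLaw : Measure PB :=
  (ProbabilityTheory.poissonMeasure 1).prod
    (Measure.infinitePi fun _ : ℕ => (volume : Measure unitInterval).prod volume)

instance : IsProbabilityMeasure pbLaw := by unfold pbLaw; infer_instance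

def posLaw : Measure Pos := Measure.infinitePi fun _ : ℤ × ℤ => pbLaw

instance : IsProbabilityMeasure posLaw := by unfold posLaw; infer_instance

def colLaw : Measure Col := Measure.infinitePi fun _ : (ℤ × ℤ) × ℕ => (volume : Measure unitInterval)

instance : IsProbabilityMeasure colLaw := by unfold colLaw; infer_instance

/-- the sample with positions `p` and colours `c` -/
def mk (p : Pos) (c : Col) : Sample :=
  (fun k => (p k).1, fun k j => ![((p k).2 j).1, ((p k).2 j).2, c (k, j)])

/-- three marks -/
def v3 (q : (unitInterval × unitInterval) × unitInterval) : Fin 3 → unitInterval :=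
  ![q.1.1, q.1.2, q.2]

lemma v3_mp : MeasurePreserving v3
    (((volume : Measure unitInterval).prod volume).prod volume)
    (Measure.pi fun _ : Fin 3 => (volume : Measure unitInterval)) := by
  have hm : Measurable v3 := by
    rw [measurable_pi_iff]
    intro i
    fin_cases i
    · exact measurable_fst.comp measurable_fst
    · exact measurable_snd.comp measurable_fst
    · exact measurable_snd
  refine ⟨hm, ?_⟩
  symm
  apply Measure.pi_eq
  intro s hs
  rw [Measure.map_apply hm (MeasurableSet.univ_pi hs)]
  have : v3 ⁻¹' (Set.pi Set.univ s) = (s 0 ×ˢ s 1) ×ˢ s 2 := by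
    ext q
    simp only [Set.mem_preimage, Set.mem_pi, Set.mem_univ, true_implies, Fin.forall_fin_succ,
      Set.mem_prod, v3]
    simp [and_assoc]
  rw [this, Measure.prod_prod, Measure.prod_prod, Fin.prod_univ_three]

/-- a product of measure preserving maps -/
theorem pi_mp {I X Y : Type*} [MeasurableSpace X] [MeasurableSpace Y] {G : Measure X}
    {H : Measure Y} [IsProbabilityMeasure G] [IsProbabilityMeasure H] {g : X → Y}
    (hg : MeasurePreserving g G H) :
    MeasurePreserving (fun (x : I → X) (i : I) => g (x i)) (Measure.infinitePi fun _ : I => G)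
      (Measure.infinitePi fun _ : I => H) := by
  refine ⟨?_, ?_⟩
  · rw [measurable_pi_iff]
    intro i
    exact hg.measurable.comp (measurable_pi_apply i)
  · rw [Measure.infinitePi_map_pi (fun _ : I => G) (f := fun _ => g) (fun _ => hg.measurable)]
    simp only [hg.map_eq]

lemma mp_of_comp {A B C : Type*} [MeasurableSpace A] [MeasurableSpace B] [MeasurableSpace C]
    {a : Measure A} {b : Measure B} {c : Measure C} {z : A → B} {m : B → C}
    (hz : MeasurePreserving z a b) (hm : Measurable m) (h : MeasurePreserving (m ∘ z) a c) :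
    MeasurePreserving m b c := by
  refine ⟨hm, ?_⟩
  rw [← hz.map_eq, Measure.map_map hm hz.measurable, h.map_eq]

lemma measurable_mk : Measurable (fun q : Pos × Col => mk q.1 q.2) := by
  unfold mk
  refine Measurable.prodMk ?_ ?_
  · rw [measurable_pi_iff]
    intro k
    exact measurable_fst.comp ((measurable_pi_apply k).comp measurable_fst)
  · rw [measurable_pi_iff]
    intro k
    rw [measurable_pi_iff]
    intro j
    have h1 : Measurable (fun q : Pos × Col => (q.1 k).2 j) :=
      (measurable_pi_apply j).comp (measurable_snd.comp ((measurable_pi_apply k).comp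
        measurable_fst))
    have h2 : Measurable (fun q : Pos × Col => q.2 (k, j)) :=
      (measurable_pi_apply (k, j)).comp measurable_snd
    exact v3_mp.measurable.comp (h1.prodMk h2)

/-- **The sample law is (positions) x (independent fair colours).** -/
theorem mp_mk : MeasurePreserving (fun q : Pos × Col => mk q.1 q.2) (posLaw.prod colLaw)
    sampleLaw := by
  set P : Measure ℕ := ProbabilityTheory.poissonMeasure 1 with hP
  set V : Measure unitInterval := volume with hV
  set Q : Measure (ℕ → unitInterval × unitInterval) :=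
    Measure.infinitePi fun _ : ℕ => V.prod V with hQ
  set R : Measure (ℕ → Fin 3 → unitInterval) :=
    Measure.infinitePi fun _ : ℕ => Measure.pi fun _ : Fin 3 => V with hR
  set A : Measure (ℤ × ℤ → ℕ) := Measure.infinitePi fun _ : ℤ × ℤ => P with hA
  set B : Measure (ℤ × ℤ → ℕ → unitInterval × unitInterval) :=
    Measure.infinitePi fun _ : ℤ × ℤ => Q with hB
  -- step 1: positions of one block and colours of one block
  have g1 : MeasurePreserving
      (fun (p : (ℕ → unitInterval × unitInterval) × (ℕ → unitInterval)) (j : ℕ) =>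
        v3 (p.1 j, p.2 j)) (Q.prod (Measure.infinitePi fun _ : ℕ => V)) R :=
    (pi_mp (I := ℕ) v3_mp).comp (zip_mp (I := ℕ) (V.prod V) V)
  have g2 : MeasurePreserving
      (fun (p : (ℤ × ℤ → ℕ → unitInterval × unitInterval) × (ℤ × ℤ → ℕ → unitInterval))
        (k : ℤ × ℤ) (j : ℕ) => v3 (p.1 k j, p.2 k j))
      (B.prod (Measure.infinitePi fun _ : ℤ × ℤ => Measure.infinitePi fun _ : ℕ => V))
      (Measure.infinitePi fun _ : ℤ × ℤ => R) :=
    (pi_mp (I := ℤ × ℤ) g1).comp
      (zip_mp (I := ℤ × ℤ) Q (Measure.infinitePi fun _ : ℕ => V))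
  have g3 : MeasurePreserving (MeasurableEquiv.curry (ℤ × ℤ) ℕ unitInterval) colLaw
      (Measure.infinitePi fun _ : ℤ × ℤ => Measure.infinitePi fun _ : ℕ => V) :=
    ⟨MeasurableEquiv.measurable _,
      Measure.infinitePi_map_curry (fun (_ : ℤ × ℤ) (_ : ℕ) => V)⟩
  have g4 : MeasurePreserving
      (fun (p : (ℤ × ℤ → ℕ → unitInterval × unitInterval) × Col) (k : ℤ × ℤ) (j : ℕ) =>
        v3 (p.1 k j, p.2 (k, j))) (B.prod colLaw) (Measure.infinitePi fun _ : ℤ × ℤ => R) :=
    g2.comp ((MeasurePreserving.id B).prod g3)
  have g5 : MeasurePreserving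
      (fun (q : (ℤ × ℤ → ℕ) × ((ℤ × ℤ → ℕ → unitInterval × unitInterval) × Col)) =>
        ((q.1, fun k j => v3 (q.2.1 k j, q.2.2 (k, j))) : Sample))
      (A.prod (B.prod colLaw)) sampleLaw :=
    (MeasurePreserving.id A).prod g4
  have g6 : MeasurePreserving MeasurableEquiv.prodAssoc ((A.prod B).prod colLaw)
      (A.prod (B.prod colLaw)) := ⟨MeasurableEquiv.measurable _, Measure.prodAssoc_prod⟩
  have g7 := g5.comp g6
  have z : MeasurePreserving
      (fun p : ((ℤ × ℤ → ℕ) × (ℤ × ℤ → ℕ → unitInterval × unitInterval)) × Col =>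
        (((fun k => (p.1.1 k, p.1.2 k)), p.2) : Pos × Col)) ((A.prod B).prod colLaw)
      (posLaw.prod colLaw) :=
    (zip_mp (I := ℤ × ℤ) P Q).prod (MeasurePreserving.id colLaw)
  exact mp_of_comp z measurable_mk g7

end Crest.Agent.R143.Lawx831
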