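import Crest.Agent.R143.Pois_304
import Crest.Agent.R143.PP0_831
import Crest.Agent.R143.Law_831

/-!
# R143 (helper304, block M, leaf M2): the Janossy formula and the invariance of the coloured
Poisson configuration: `jan : JAN`, `iso : ISO`
-/

set_option autoImplicit false
set_option linter.unusedSectionVars false

noncomputable section

namespace Crest.Agent.R143.Janx304

open MeasureTheory Set Complex
open Crest.ProbabilityR.Voronoi
open Crest.Agent.R143.PP0x831 Crest.Agent.R143.Poisx304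
open scoped ENNReal

instance : IsProbabilityMeasure coin := ⟨by
  unfold coin
  rw [Measure.smul_apply, Measure.count_apply_finite _ (Set.toFinite _)]
  simp [ENNReal.inv_mul_cancel]⟩

/-! ## the colour -/

def dec (u : unitInterval) : Bool := decide ((u : ℝ) < 1 / 2)

lemma measurable_dec : Measurable dec := by
  unfold dec
  apply measurable_to_bool
  have : (fun u : unitInterval => decide ((u : ℝ) < 1 / 2)) ⁻¹' {true} =
      {u : unitInterval | (u : ℝ) < 1 / 2} := by
    ext u; simp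
  rw [this]
  exact measurableSet_lt measurable_subtype_coe measurable_const

lemma vol_half : (volume : Measure unitInterval) {u | (u : ℝ) < 1 / 2} = 2⁻¹ := by
  rw [unitInterval.volume_apply]
  have : Subtype.val '' {u : unitInterval | (u : ℝ) < 1 / 2} = Ico (0 : ℝ) (1 / 2) := by
    ext t
    simp only [mem_image, mem_ofPred_eq, Subtype.exists, mem_Ico]
    constructor
    · rintro ⟨a, ha, h, rfl⟩; exact ⟨ha.1, h⟩
    · rintro ⟨h0, h1⟩; exact ⟨t, ⟨h0, by linarith⟩, h1, rfl⟩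
  rw [this, Real.volume_Ico, sub_zero, one_div, ENNReal.ofReal_inv_of_pos (by norm_num)]
  simp

lemma map_dec : (volume : Measure unitInterval).map dec = coin := by
  have h1 : dec ⁻¹' {true} = {u : unitInterval | (u : ℝ) < 1 / 2} := by
    ext u; simp [dec]
  have h2 : dec ⁻¹' {false} = {u : unitInterval | (u : ℝ) < 1 / 2}ᶜ := by
    ext u; simp [dec]
  have hc : ∀ b : Bool, coin {b} = 2⁻¹ := by
    intro b
    unfold coin
    rw [Measure.smul_apply, Measure.count_singleton, smul_eq_mul, mul_one]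
  apply Measure.ext_of_singleton
  intro b
  rw [Measure.map_apply measurable_dec (measurableSet_singleton b), hc]
  cases b with
  | true => rw [h1, vol_half]
  | false =>
    rw [h2, prob_compl_eq_one_sub
      (measurableSet_lt measurable_subtype_coe measurable_const), vol_half,
      ENNReal.one_sub_inv_two]

/-! ## the position -/

def pos (ε : ℝ) (k : ℤ × ℤ) (p : unitInterval × unitInterval) : ℂ :=
  (ε : ℂ) * ((((k.1 : ℝ) + (p.1 : ℝ) : ℝ) : ℂ) + (((k.2 : ℝ) + (p.2 : ℝ) : ℝ) : ℂ) * I)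

/-- the affine map -/
def aff (ε : ℝ) (k : ℤ × ℤ) (p : ℝ × ℝ) : ℂ :=
  (ε : ℂ) * ((((k.1 : ℝ) + p.1 : ℝ) : ℂ) + (((k.2 : ℝ) + p.2 : ℝ) : ℂ) * I)

/-- the cell of a point -/
def fl (ε : ℝ) (z : ℂ) : ℤ × ℤ := (⌊z.re / ε⌋, ⌊z.im / ε⌋)

lemma measurable_fl (ε : ℝ) : Measurable (fl ε) :=
  (Int.measurable_floor.comp (measurable_re.div_const ε)).prodMk
    (Int.measurable_floor.comp (measurable_im.div_const ε))

lemma aff_re (ε : ℝ) (k : ℤ × ℤ) (p : ℝ × ℝ) : (aff ε k p).re = ε * (k.1 + p.1) := by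
  simp [aff]

lemma aff_im (ε : ℝ) (k : ℤ × ℤ) (p : ℝ × ℝ) : (aff ε k p).im = ε * (k.2 + p.2) := by
  simp [aff]

lemma aff_preimage {ε : ℝ} (hε : 0 < ε) (k : ℤ × ℤ) :
    aff ε k ⁻¹' (fl ε ⁻¹' {k}) = Ico (0 : ℝ) 1 ×ˢ Ico (0 : ℝ) 1 := by
  ext p
  simp only [mem_preimage, mem_singleton_iff, fl, aff_re, aff_im, Prod.ext_iff, mem_prod, mem_Ico]
  rw [mul_div_cancel_left₀ _ hε.ne', mul_div_cancel_left₀ _ hε.ne', Int.floor_eq_iff,
    Int.floor_eq_iff]
  constructor
  · rintro ⟨⟨h1, h2⟩, h3, h4⟩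
    exact ⟨⟨by linarith, by linarith⟩, by linarith, by linarith⟩
  · rintro ⟨⟨h1, h2⟩, h3, h4⟩
    exact ⟨⟨by linarith, by linarith⟩, by linarith, by linarith⟩

lemma measurable_aff (ε : ℝ) (k : ℤ × ℤ) : Measurable (aff ε k) := by
  unfold aff
  fun_prop

lemma map_aff {ε : ℝ} (hε : 0 < ε) (k : ℤ × ℤ) :
    (volume : Measure (ℝ × ℝ)).map (aff ε k) = (ENNReal.ofReal (ε ^ 2))⁻¹ • volume := by
  have h1 : aff ε k = (fun z : ℂ => ε • z) ∘
      (fun z : ℂ => ((k.1 : ℂ) + (k.2 : ℂ) * I) + z) ∘ measurableEquivRealProd.symm := by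
    funext p
    apply Complex.ext
    · simp [aff]
    · simp [aff]
  have hm1 : Measurable fun z : ℂ => ε • z := measurable_const_smul ε
  have hm2 : Measurable fun z : ℂ => ((k.1 : ℂ) + (k.2 : ℂ) * I) + z := measurable_const_add _
  rw [h1, ← Measure.map_map hm1 (hm2.comp measurableEquivRealProd.symm.measurable),
    ← Measure.map_map hm2 measurableEquivRealProd.symm.measurable,
    (Complex.volume_preserving_equiv_real_prod.symm).map_eq, map_add_left_eq_self,
    Measure.map_addHaar_smul _ hε.ne', Complex.finrank_real_complex, abs_of_pos (by positivity),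
    ENNReal.ofReal_inv_of_pos (by positivity)]

lemma measurable_pos (ε : ℝ) (k : ℤ × ℤ) : Measurable (pos ε k) := by
  unfold pos
  fun_prop

theorem map_pos {ε : ℝ} (hε : 0 < ε) (k : ℤ × ℤ) :
    ((volume : Measure unitInterval).prod volume).map (pos ε k) =
      (ENNReal.ofReal (ε ^ 2))⁻¹ • volume.restrict (fl ε ⁻¹' {k}) := by
  have h1 : pos ε k = aff ε k ∘ Prod.map (Subtype.val : unitInterval → ℝ)
    (Subtype.val : unitInterval → ℝ) := rfl
  have hI : (volume : Measure unitInterval).map (Subtype.val : unitInterval → ℝ) =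
      volume.restrict (Ico (0 : ℝ) 1) := by
    rw [unitInterval.measurePreserving_coe.map_eq]
    exact Measure.restrict_congr_set Ico_ae_eq_Icc.symm
  rw [h1, ← Measure.map_map (measurable_aff ε k)
    (measurable_subtype_coe.prodMap measurable_subtype_coe),
    ← Measure.map_prod_map _ _ measurable_subtype_coe measurable_subtype_coe, hI,
    Measure.prod_restrict, ← Measure.volume_eq_prod, ← aff_preimage hε k,
    ← Measure.restrict_map (measurable_aff ε k)
      (measurable_fl ε (measurableSet_singleton k)), map_aff hε k, Measure.restrict_smul]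

/-! ## marked points -/

abbrev Mk : Type := Fin 3 → unitInterval

def mk3 : Measure Mk := Measure.pi fun _ : Fin 3 => (volume : Measure unitInterval)

instance : IsProbabilityMeasure mk3 := by unfold mk3; infer_instance

/-- position and colour of a mark -/
def pt (ε : ℝ) (k : ℤ × ℤ) (m : Mk) : ℂ × Bool := (pos ε k (m 0, m 1), dec (m 2))

lemma measurable_pt (ε : ℝ) (k : ℤ × ℤ) : Measurable (pt ε k) :=
  ((measurable_pos ε k).comp ((measurable_pi_apply 0).prodMk (measurable_pi_apply 1))).prodMk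
    (measurable_dec.comp (measurable_pi_apply 2))

theorem map_pt {ε : ℝ} (hε : 0 < ε) (k : ℤ × ℤ) :
    mk3.map (pt ε k) =
      ((ENNReal.ofReal (ε ^ 2))⁻¹ • volume.restrict (fl ε ⁻¹' {k})).prod coin := by
  have h1 : pt ε k ∘ Lawx831.v3 = Prod.map (pos ε k) dec := rfl
  unfold mk3
  rw [← Lawx831.v3_mp.map_eq, Measure.map_map (measurable_pt ε k) Lawx831.v3_mp.measurable, h1,
    ← Measure.map_prod_map _ _ (measurable_pos ε k) measurable_dec, map_pos hε k, map_dec]

/-! ## the sample as blocks -/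

abbrev Bl : Type := ℕ × (ℕ → Mk)

def blLaw : Measure Bl :=
  (ProbabilityTheory.poissonMeasure 1).prod (Measure.infinitePi fun _ : ℕ => mk3)

instance : IsProbabilityMeasure blLaw := by unfold blLaw; infer_instance

def blk (ε : ℝ) (k : ℤ × ℤ) (x : Bl) : Set (ℂ × Bool) := (fun j => pt ε k (x.2 j)) '' {j | j < x.1}

def zipS (ω : Sample) : ℤ × ℤ → Bl := fun k => (ω.1 k, ω.2 k)

lemma zipS_mp : MeasurePreserving zipS sampleLaw (Measure.infinitePi fun _ : ℤ × ℤ => blLaw) :=
  Lawx831.zip_mp (I := ℤ × ℤ) (ProbabilityTheory.poissonMeasure 1)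
    (Measure.infinitePi fun _ : ℕ => mk3)

lemma blk_frs (ε : ℝ) (k : ℤ × ℤ) : FRS (blk ε k) :=
  ⟨fun x => x.1, fun j x => pt ε k (x.2 j), measurable_fst,
    fun j => (measurable_pt ε k).comp ((measurable_pi_apply j).comp measurable_snd), fun _ => rfl⟩

lemma cfg_eq (ε : ℝ) (ω : Sample) : cfg ε ω = ⋃ k : ℤ × ℤ, blk ε k (zipS ω k) := by
  ext e
  simp only [cfg, present, blk, zipS, mem_image, mem_ofPred_eq, mem_iUnion]
  constructor
  · rintro ⟨⟨k1, k2, j⟩, hj, rfl⟩
    exact ⟨(k1, k2), j, hj, rfl⟩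
  · rintro ⟨⟨k1, k2⟩, j, hj, rfl⟩
    exact ⟨(k1, k2, j), hj, rfl⟩

/-- the cells near a bounded set -/
lemma exists_cells {ε : ℝ} (hε : 0 < ε) {B : Set ℂ} (hB : Bornology.IsBounded B) :
    ∃ K : Finset (ℤ × ℤ), (∀ k : ℤ × ℤ, ∀ p, pos ε k p ∈ B → k ∈ K) ∧
      (∀ z ∈ B, fl ε z ∈ K) := by
  obtain ⟨R, hR⟩ := hB.subset_closedBall 0
  set N : ℤ := ⌈|R| / ε⌉ + 1 with hN
  have hN1 : |R| / ε + 1 ≤ N := by
    rw [hN]; push_cast; linarith [Int.le_ceil (|R| / ε)]
  have key : ∀ (k : ℤ) (x t : ℝ), |x| ≤ |R| → x / ε = k + t → 0 ≤ t → t ≤ 1 →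
      k ∈ Finset.Icc (-N) N := by
    intro k x t hx h h0 h1
    have h2 : |x / ε| ≤ |R| / ε := by
      rw [abs_div, abs_of_pos hε]; exact div_le_div_of_nonneg_right hx hε.le
    have h3 := abs_le.1 h2
    rw [h] at h3
    rw [Finset.mem_Icc]
    constructor
    · have : (-N : ℝ) ≤ k := by linarith [h3.1]
      exact_mod_cast this
    · have : (k : ℝ) ≤ N := by linarith [h3.2]
      exact_mod_cast this
  have hn : ∀ z ∈ B, ‖z‖ ≤ |R| := fun z hz => by
    have := hR hz
    rw [mem_closedBall_zero_iff] at this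
    exact this.trans (le_abs_self R)
  refine ⟨Finset.Icc (-N) N ×ˢ Finset.Icc (-N) N, fun k p hp => ?_, fun z hz => ?_⟩
  · have h := hn _ hp
    have hre : (pos ε k p).re = ε * (k.1 + p.1) := aff_re ε k ((p.1 : ℝ), (p.2 : ℝ))
    have him : (pos ε k p).im = ε * (k.2 + p.2) := aff_im ε k ((p.1 : ℝ), (p.2 : ℝ))
    rw [Finset.mem_product]
    refine ⟨key k.1 (pos ε k p).re p.1 ((Complex.abs_re_le_norm _).trans h) ?_ p.1.2.1 p.1.2.2,
      key k.2 (pos ε k p).im p.2 ((Complex.abs_im_le_norm _).trans h) ?_ p.2.2.1 p.2.2.2⟩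
    · rw [hre, mul_div_cancel_left₀ _ hε.ne']
    · rw [him, mul_div_cancel_left₀ _ hε.ne']
  · have h := hn _ hz
    rw [Finset.mem_product]
    refine ⟨key _ z.re (Int.fract (z.re / ε)) ((Complex.abs_re_le_norm _).trans h) ?_
      (Int.fract_nonneg _) (Int.fract_lt_one _).le,
      key _ z.im (Int.fract (z.im / ε)) ((Complex.abs_im_le_norm _).trans h) ?_
      (Int.fract_nonneg _) (Int.fract_lt_one _).le⟩
    · exact (Int.floor_add_fract _).symm
    · exact (Int.floor_add_fract _).symm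

lemma local_eq {ε : ℝ} {B : Set ℂ} {K : Finset (ℤ × ℤ)}
    (hK : ∀ k : ℤ × ℤ, ∀ p, pos ε k p ∈ B → k ∈ K) {E : Type*} {F : Set (ℂ × Bool) → E}
    (hF : LocalOn B F) (ω : Sample) :
    F (cfg ε ω) = F (⋃ k ∈ K, blk ε k (zipS ω k)) := by
  rw [hF (cfg ε ω), hF (⋃ k ∈ K, blk ε k (zipS ω k)), cfg_eq]
  congr 1
  ext e
  simp only [mem_inter_iff, mem_iUnion, mem_ofPred_eq, exists_prop]
  constructor
  · rintro ⟨⟨k, hk⟩, he⟩
    refine ⟨⟨k, ?_, hk⟩, he⟩
    obtain ⟨j, hj, rfl⟩ := hk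
    exact hK k _ he
  · rintro ⟨⟨k, -, hk⟩, he⟩
    exact ⟨⟨k, hk⟩, he⟩

lemma meas_and {ε : ℝ} {B : Set ℂ} {K : Finset (ℤ × ℤ)}
    (hK : ∀ k : ℤ × ℤ, ∀ p, pos ε k p ∈ B → k ∈ K) {F : Set (ℂ × Bool) → ℝ≥0∞}
    (hF : LocalOn B F) (hm : FM F) :
    Measurable (fun ω => F (cfg ε ω)) ∧
      ∫⁻ ω, F (cfg ε ω) ∂sampleLaw = J (∑ k ∈ K, mk3.map (pt ε k)) F := by
  have hfrs : FRS fun x : ℤ × ℤ → Bl => ⋃ k ∈ K, blk ε k (x k) :=
    FRS.biUnion K (fun k (x : ℤ × ℤ → Bl) => blk ε k (x k))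
      fun k => (blk_frs ε k).comp (measurable_pi_apply k)
  have hmeas := hfrs.meas hm
  simp only [local_eq hK hF]
  refine ⟨hmeas.comp zipS_mp.measurable, ?_⟩
  have h1 := zipS_mp.lintegral_comp hmeas
  rw [h1]
  have : ∀ k, IsFiniteMeasure (mk3.map (pt ε k)) := fun k => by infer_instance
  exact blocks blLaw (blk ε) (blk_frs ε) (fun k => mk3.map (pt ε k))
    (fun k G hG => poisson_block mk3 (pt ε k) (measurable_pt ε k) hG) K F hm

/-! ## restriction to `B` -/

/-- the part of the configuration space over `B` -/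
def ovr (B : Set ℂ) : Set (ℂ × Bool) := {p | p.1 ∈ B}

lemma ovr_eq (B : Set ℂ) : ovr B = B ×ˢ (univ : Set Bool) := by
  ext p; simp [ovr]

lemma finite_mu {ε : ℝ} (hε : 0 < ε) {B : Set ℂ} (hb : Bornology.IsBounded B) :
    IsFiniteMeasure ((ENNReal.ofReal (ε ^ 2))⁻¹ • (volume : Measure ℂ).restrict B) := by
  have hc : (ENNReal.ofReal (ε ^ 2))⁻¹ ≠ ∞ := by simp [hε.ne']
  have : IsFiniteMeasure ((volume : Measure ℂ).restrict B) :=
    ⟨by rw [Measure.restrict_apply_univ]; exact hb.measure_lt_top⟩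
  exact Measure.smul_finite _ hc

lemma restrict_eq {ε : ℝ} (hε : 0 < ε) {B : Set ℂ} (hB : MeasurableSet B)
    (hb : Bornology.IsBounded B) {K : Finset (ℤ × ℤ)}
    (hK : ∀ z ∈ B, fl ε z ∈ K) :
    (∑ k ∈ K, mk3.map (pt ε k)).restrict (ovr B) =
      ((ENNReal.ofReal (ε ^ 2))⁻¹ • volume.restrict B).prod coin := by
  have := finite_mu hε hb
  symm
  apply Measure.prod_eq
  intro s t hs ht
  rw [ovr_eq, Measure.restrict_apply (hs.prod ht), Set.prod_inter_prod, Set.inter_univ,
    Measure.finsetSum_apply]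
  have h1 : ∀ k ∈ K, mk3.map (pt ε k) ((s ∩ B) ×ˢ t) =
      (ENNReal.ofReal (ε ^ 2))⁻¹ * volume ((s ∩ B) ∩ fl ε ⁻¹' {k}) * coin t := by
    intro k _
    rw [map_pt hε k, Measure.prod_prod, Measure.smul_apply, smul_eq_mul,
      Measure.restrict_apply (hs.inter hB)]
  rw [Finset.sum_congr rfl h1, ← Finset.sum_mul, ← Finset.mul_sum, Measure.smul_apply, smul_eq_mul,
    Measure.restrict_apply hs]
  congr 2
  rw [← measure_biUnion_finset]
  · congr 1
    ext z
    simp only [mem_iUnion, mem_inter_iff, mem_preimage, mem_singleton_iff, exists_prop]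
    constructor
    · rintro ⟨k, -, h, -⟩; exact h
    · rintro h; exact ⟨fl ε z, hK z h.2, h, rfl⟩
  · intro k _ l _ hkl
    rw [Function.onFun, Set.disjoint_left]
    rintro z ⟨-, h1⟩ ⟨-, h2⟩
    exact hkl (h1.symm.trans h2)
  · intro k _
    exact (hs.inter hB).inter (measurable_fl ε (measurableSet_singleton k))

section general

variable {E : Type*} [MeasurableSpace E]

lemma J_const (μ : Measure E) [IsFiniteMeasure μ] (c : ℝ≥0∞) : J μ (fun _ => c) = c := by
  set m : NNReal := (μ univ).toNNReal with hm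
  have hmu : μ univ = (m : ℝ≥0∞) := (ENNReal.coe_toNNReal (measure_ne_top μ _)).symm
  have h1 : ∀ n : ℕ, ENNReal.ofReal (Real.exp (-(μ univ).toReal)) * Q μ n (fun _ => c) =
      c * ENNReal.ofReal (Real.exp (-(m : ℝ)) * (m : ℝ) ^ n / (n.factorial : ℝ)) := by
    intro n
    unfold Q P
    rw [lintegral_const, Measure.pi_univ, Finset.prod_const, Finset.card_univ, Fintype.card_fin,
      hmu, ENNReal.ofReal_div_of_pos (by positivity), ENNReal.ofReal_mul (Real.exp_pos _).le,
      ENNReal.ofReal_pow (NNReal.coe_nonneg m), ENNReal.ofReal_coe_nnreal, ENNReal.ofReal_natCast, div_eq_mul_inv,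
      ENNReal.coe_toReal]
    ring
  unfold J
  rw [← ENNReal.tsum_mul_left]
  simp only [h1]
  rw [ENNReal.tsum_mul_left, ← ENNReal.ofReal_tsum_of_nonneg]
  · rw [(ProbabilityTheory.hasSum_one_poissonMeasure m).tsum_eq, ENNReal.ofReal_one, mul_one]
  · intro n; positivity
  · exact (ProbabilityTheory.hasSum_one_poissonMeasure m).summable

lemma J_local (M : Measure E) [IsFiniteMeasure M] {A : Set E} (hA : MeasurableSet A)
    {F : Set E → ℝ≥0∞} (hF : FM F) (hl : ∀ S, F S = F (S ∩ A)) :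
    J M F = J (M.restrict A) F := by
  conv_lhs => rw [← Measure.restrict_add_restrict_compl (μ := M) hA, J_add _ _ hF]
  congr 1
  funext S
  have h2 : J (M.restrict Aᶜ) (fun T => F (S ∪ T)) = J (M.restrict Aᶜ) (fun _ => F S) := by
    unfold J Q P
    congr 1
    refine tsum_congr fun n => ?_
    congr 1
    have hae : ∀ᵐ z ∂(Measure.pi fun _ : Fin n => M.restrict Aᶜ), ∀ i, z i ∈ Aᶜ := by
      rw [ae_all_iff]
      intro i
      exact (Measure.quasiMeasurePreserving_eval (fun _ : Fin n => M.restrict Aᶜ) i).ae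
        (ae_restrict_mem hA.compl)
    refine lintegral_congr_ae ?_
    filter_upwards [hae] with z hz
    have h3 : (S ∪ range z) ∩ A = S ∩ A := by
      ext e
      simp only [mem_inter_iff, mem_union, mem_range]
      constructor
      · rintro ⟨h | ⟨i, rfl⟩, ha⟩
        · exact ⟨h, ha⟩
        · exact absurd ha (hz i)
      · rintro ⟨h, ha⟩; exact ⟨Or.inl h, ha⟩
    rw [hl (S ∪ range z), h3, ← hl S]
  rw [h2, J_const]

lemma P_smul (μ : Measure E) [IsFiniteMeasure μ] {c : ℝ≥0∞} (hc : c ≠ ∞) (n : ℕ) :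
    ∀ G : Set E → ℝ≥0∞, FM G → P (c • μ) n G = c ^ n * P μ n G := by
  have : IsFiniteMeasure (c • μ) := Measure.smul_finite _ hc
  induction n with
  | zero => intro G _; simp [P_zero]
  | succ n ih =>
    intro G hG
    rw [P_succ _ _ hG, P_succ _ _ hG, lintegral_smul_measure]
    have h1 : ∀ a, P (c • μ) n (fun S => G (insert a S)) = c ^ n * P μ n fun S => G (insert a S) :=
      fun a => ih _ (hG.insert a)
    simp only [h1]
    rw [lintegral_const_mul _ (P_meas (X := E) (H := fun a S => G (insert a S)) (hG.insert_meas n)),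
      smul_eq_mul, pow_succ]
    ring

end general

lemma J_eq_janossy {ε : ℝ} (hε : 0 < ε) {B : Set ℂ} (hb : Bornology.IsBounded B)
    {F : Set (ℂ × Bool) → ℝ≥0∞} (hm : FM F) :
    J (((ENNReal.ofReal (ε ^ 2))⁻¹ • volume.restrict B).prod coin) F =
      janossy (ENNReal.ofReal (ε ^ 2))⁻¹ B F := by
  have hc : (ENNReal.ofReal (ε ^ 2))⁻¹ ≠ ∞ := by simp [hε.ne']
  have : IsFiniteMeasure ((volume : Measure ℂ).restrict B) :=
    ⟨by rw [Measure.restrict_apply_univ]; exact hb.measure_lt_top⟩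
  rw [Measure.prod_smul_left]
  unfold J janossy Q
  congr 1
  · rw [Measure.smul_apply, smul_eq_mul, ← univ_prod_univ, Measure.prod_prod,
      measure_univ (μ := coin), mul_one, Measure.restrict_apply_univ]
  · refine tsum_congr fun n => ?_
    rw [P_smul _ hc n F hm, div_eq_mul_inv]
    unfold P
    ring

/-- **(JAN)** -/
theorem jan : JAN := by
  intro ε hε B hB hb F hF hm
  obtain ⟨K, h1, h2⟩ := exists_cells hε hb
  have hm' : FM F := hm
  obtain ⟨h3, h4⟩ := meas_and h1 hF hm'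
  refine ⟨h3, ?_⟩
  have hA : MeasurableSet (ovr B) := by
    rw [ovr_eq]; exact hB.prod MeasurableSet.univ
  have : ∀ k, IsFiniteMeasure (mk3.map (pt ε k)) := fun k => by infer_instance
  rw [h4, J_local _ hA hm' hF, restrict_eq hε hB hb h2, J_eq_janossy hε hb hm']

/-- **(ISO)** -/
theorem iso : ISO := by
  intro ε hε B hB hb g hg hb' F hF hm
  set F' : Set (ℂ × Bool) → ℝ≥0∞ := fun S => F ((fun p : ℂ × Bool => (g p.1, p.2)) '' S) with hF'
  have hgm : Measurable fun p : ℂ × Bool => (g p.1, p.2) :=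
    (g.measurable.comp measurable_fst).prodMk measurable_snd
  have hl : LocalOn (g ⁻¹' B) F' := by
    intro S
    simp only [hF']
    rw [hF ((fun p : ℂ × Bool => (g p.1, p.2)) '' S),
      hF ((fun p : ℂ × Bool => (g p.1, p.2)) '' (S ∩ {p | p.1 ∈ g ⁻¹' B}))]
    congr 1
    ext e
    simp only [mem_inter_iff, mem_image, mem_ofPred_eq, mem_preimage]
    constructor
    · rintro ⟨⟨p, hp, rfl⟩, he⟩
      exact ⟨⟨p, ⟨hp, he⟩, rfl⟩, he⟩
    · rintro ⟨⟨p, ⟨hp, -⟩, rfl⟩, he⟩
      exact ⟨⟨p, hp, rfl⟩, he⟩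
  have hr : ∀ (n : ℕ) (z : Fin n → ℂ × Bool), (fun p : ℂ × Bool => (g p.1, p.2)) '' range z =
      range fun i => (g (z i).1, (z i).2) := by
    intro n z
    rw [← range_comp]
    rfl
  have hm2 : FinMeas F' := by
    intro n
    simp only [hF', hr]
    exact (hm n).comp (measurable_pi_iff.2 fun i => hgm.comp (measurable_pi_apply i))
  have e1 := (jan ε hε (g ⁻¹' B) (g.measurable hB) hb' F' hl hm2).2
  have e2 := (jan ε hε B hB hb F hF hm).2
  have hfin : IsFiniteMeasure ((volume : Measure ℂ).restrict B) :=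
    ⟨by rw [Measure.restrict_apply_univ]; exact hb.measure_lt_top⟩
  have hfin' : IsFiniteMeasure ((volume : Measure ℂ).restrict (g ⁻¹' B)) :=
    ⟨by rw [Measure.restrict_apply_univ]; exact hb'.measure_lt_top⟩
  have hmp : MeasurePreserving (fun p : ℂ × Bool => (g p.1, p.2))
      ((volume.restrict (g ⁻¹' B)).prod coin) ((volume.restrict B).prod coin) :=
    (hg.restrict_preimage hB).prod (MeasurePreserving.id coin)
  rw [e2]
  refine e1.trans ?_
  unfold janossy
  rw [hg.measure_preimage hB.nullMeasurableSet]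
  congr 1
  refine tsum_congr fun n => ?_
  congr 1
  have hpi : MeasurePreserving (fun (z : Fin n → ℂ × Bool) (i : Fin n) => (g (z i).1, (z i).2))
      (Measure.pi fun _ : Fin n => (volume.restrict (g ⁻¹' B)).prod coin)
      (Measure.pi fun _ : Fin n => (volume.restrict B).prod coin) :=
    measurePreserving_pi _ _ fun _ => hmp
  rw [← hpi.lintegral_comp (hm n)]
  simp only [hF', hr]

end Crest.Agent.R143.Janx304

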