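import Crest.Agent.R143.Law_831
import Crest.Agent.R143.Jan_304
import Crest.Agent.R143.PoisM3_930

/-!
# Row 143 (S0194): weighted objects with the actual colours (helper304)

`Ok P` : a countable family of objects attached to the set `P` of positions; an object `o` has two
disjoint finite sets of sites `A o`, `B o`; it is realised by the coloured configuration `X` if all
the sites of `A o` have one colour and all the sites of `B o` have the other colour (`Rz`).
Given the positions this has probability `2 / 2 ^ #(A o ∪ B o)` (`col_le`: no measurability).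
-/

set_option autoImplicit false

noncomputable section

open scoped Classical

namespace Crest.Agent.R143.ColSumx304

open MeasureTheory Set Filter Topology
open Crest.ProbabilityR.Voronoi
open Crest.Agent.R143.PP0x831 Crest.Agent.R143.Lawx831 Crest.Agent.R143.Janx304
open scoped ENNReal

/-- the sites of `A` have one colour, the sites of `B` have the other colour -/
def Rz (X : Set (ℂ × Bool)) (A B : Finset ℂ) : Prop :=
  ∃ b : Bool, (∀ z ∈ A, (z, b) ∈ X) ∧ ∀ z ∈ B, (z, !b) ∈ X

/-! ### the sample with positions `p` and colours `c` -/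

theorem point_mk (ε : ℝ) (p : Pos) (c c' : Col) (k : ℤ × ℤ) (j : ℕ) :
    point ε (mk p c) k j = point ε (mk p c') k j := by
  unfold point Crest.Agent.R143.Lawx831.mk
  simp

theorem col_mk (p : Pos) (c : Col) (k : ℤ × ℤ) (j : ℕ) : col (mk p c) k j = dec (c (k, j)) := by
  unfold col Crest.Agent.R143.Lawx831.mk dec
  simp

theorem present_mk (p : Pos) (c c' : Col) : present (mk p c) = present (mk p c') := rfl

theorem points_mk (ε : ℝ) (p : Pos) (c c' : Col) : points ε (mk p c) = points ε (mk p c') := by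
  unfold points
  rw [present_mk p c c']
  refine image_congr fun q _ => ?_
  exact point_mk ε p c c' _ _

/-- positions of a sample -/
def toPos (ω : Sample) : Pos := fun k => (ω.1 k, fun j => (ω.2 k j 0, ω.2 k j 1))

theorem measurable_toPos : Measurable toPos := by
  unfold toPos
  refine measurable_pi_lambda _ fun k => ?_
  refine Measurable.prodMk ((measurable_pi_apply k).comp measurable_fst) ?_
  refine measurable_pi_lambda _ fun j => ?_
  have h : Measurable fun ω : Sample => ω.2 k j :=
    (measurable_pi_apply j).comp ((measurable_pi_apply k).comp measurable_snd)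
  exact ((measurable_pi_apply 0).comp h).prodMk ((measurable_pi_apply 1).comp h)

theorem toPos_mk (p : Pos) (c : Col) : toPos (mk p c) = p := by
  funext k
  unfold toPos Crest.Agent.R143.Lawx831.mk
  simp

theorem point_toPos (ε : ℝ) (ω : Sample) (c : Col) (k : ℤ × ℤ) (j : ℕ) :
    point ε (mk (toPos ω) c) k j = point ε ω k j := by
  unfold point Crest.Agent.R143.Lawx831.mk toPos
  simp

theorem points_toPos (ε : ℝ) (ω : Sample) (c : Col) : points ε (mk (toPos ω) c) = points ε ω := by
  unfold points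
  have h : present (mk (toPos ω) c) = present ω := rfl
  rw [h]
  refine image_congr fun q _ => ?_
  exact point_toPos ε ω c _ _

theorem map_toPos : sampleLaw.map toPos = posLaw := by
  rw [← mp_mk.map_eq, Measure.map_map measurable_toPos mp_mk.measurable]
  have h : (toPos ∘ fun q : Pos × Col => mk q.1 q.2) = Prod.fst := by
    funext q
    exact toPos_mk q.1 q.2
  rw [h, Measure.map_fst_prod, measure_univ, one_smul]

/-! ### one object -/

theorem vol_dec (b : Bool) : (volume : Measure unitInterval) (dec ⁻¹' {b}) = 2⁻¹ := by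
  have h : (volume : Measure unitInterval).map dec {b} = coin {b} := by rw [map_dec]
  rw [Measure.map_apply measurable_dec (measurableSet_singleton b)] at h
  rw [h]
  unfold coin
  rw [Measure.smul_apply, Measure.count_singleton, smul_eq_mul, mul_one]

theorem colLaw_pattern (J : Finset ((ℤ × ℤ) × ℕ)) (β : (ℤ × ℤ) × ℕ → Bool) :
    colLaw {c | ∀ i ∈ J, dec (c i) = β i} = (2⁻¹ : ℝ≥0∞) ^ J.card := by
  have h : {c : Col | ∀ i ∈ J, dec (c i) = β i} =
      Set.pi (J : Set ((ℤ × ℤ) × ℕ)) fun i => dec ⁻¹' {β i} := by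
    ext c
    simp
  rw [h]
  unfold colLaw
  rw [Measure.infinitePi_pi]
  · rw [Finset.prod_congr rfl fun i _ => vol_dec (β i), Finset.prod_const]
  · exact fun i _ => measurable_dec (measurableSet_singleton _)

/-- injectivity of the positions -/
def Inj (ε : ℝ) (p : Pos) (c : Col) : Prop :=
  ∀ i ∈ present (mk p c), ∀ j ∈ present (mk p c),
    point ε (mk p c) (i.1, i.2.1) i.2.2 = point ε (mk p c) (j.1, j.2.1) j.2.2 → i = j

theorem Inj_iff (ε : ℝ) (p : Pos) (c c' : Col) : Inj ε p c ↔ Inj ε p c' := by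
  unfold Inj
  rw [present_mk p c c']
  simp only [point_mk ε p c c']

theorem mem_cfg_mk {ε : ℝ} {p : Pos} {c : Col} (hi : Inj ε p c) {i : ℤ × ℤ × ℕ}
    (h : i ∈ present (mk p c)) (b : Bool) :
    (point ε (mk p c) (i.1, i.2.1) i.2.2, b) ∈ cfg ε (mk p c) ↔ dec (c ((i.1, i.2.1), i.2.2)) = b := by
  constructor
  · rintro ⟨j, hj, e⟩
    rw [Prod.mk.injEq] at e
    obtain rfl := hi j hj i h e.1
    rw [← e.2, col_mk]
  · rintro rfl
    exact ⟨i, h, by show (_, _) = _; rw [col_mk]⟩

/-- one object: probability of one pattern -/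
theorem prob_pattern {ε : ℝ} {p : Pos} (hi : ∀ c, Inj ε p c) {c0 : Col} {S : Finset ℂ}
    (hS : (S : Set ℂ) ⊆ points ε (mk p c0)) (χ : ℂ → Bool) :
    ∃ E : Set Col, MeasurableSet E ∧ colLaw E = (2⁻¹ : ℝ≥0∞) ^ S.card ∧
      {c : Col | ∀ z ∈ S, (z, χ z) ∈ cfg ε (mk p c)} = E := by
  have hch : ∀ z : ℂ, ∃ i : ℤ × ℤ × ℕ, z ∈ S → i ∈ present (mk p c0) ∧
      point ε (mk p c0) (i.1, i.2.1) i.2.2 = z := by
    intro z
    by_cases hz : z ∈ S
    · obtain ⟨i, h1, h2⟩ := hS hz
      exact ⟨i, fun _ => ⟨h1, h2⟩⟩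
    · exact ⟨(0, 0, 0), fun h => absurd h hz⟩
  choose g hg using hch
  set f : ℂ → (ℤ × ℤ) × ℕ := fun z => (((g z).1, (g z).2.1), (g z).2.2) with hf
  have hinj : Set.InjOn f (S : Set ℂ) := by
    intro z hz w hw h
    have h1 : g z = g w := by
      simp only [hf, Prod.mk.injEq] at h
      ext
      · exact h.1.1
      · exact h.1.2
      · exact h.2
    rw [← (hg z hz).2, ← (hg w hw).2, h1]
  set h' : (ℤ × ℤ) × ℕ → ℂ := fun i => point ε (mk p c0) i.1 i.2 with hh'
  have hback : ∀ z ∈ S, h' (f z) = z := fun z hz => (hg z hz).2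
  refine ⟨{c | ∀ i ∈ S.image f, dec (c i) = χ (h' i)}, ?_, ?_, ?_⟩
  · have : {c : Col | ∀ i ∈ S.image f, dec (c i) = χ (h' i)} =
        ⋂ i ∈ S.image f, (fun c : Col => dec (c i)) ⁻¹' {χ (h' i)} := by
      ext c; simp
    rw [this]
    exact Finset.measurableSet_biInter _ fun i _ =>
      (measurable_dec.comp (measurable_pi_apply i)) (measurableSet_singleton _)
  · rw [colLaw_pattern, Finset.card_image_of_injOn hinj]
  · ext c
    simp only [Set.mem_ofPred_eq, Finset.forall_mem_image]
    refine forall₂_congr fun z hz => ?_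
    rw [hback z hz]
    have h1 := mem_cfg_mk (hi c) (i := g z) (by rw [present_mk p c c0]; exact (hg z hz).1) (χ z)
    rw [point_mk ε p c c0, (hg z hz).2] at h1
    exact h1

/-- one object: probability that it is realised -/
theorem prob_Rz {ε : ℝ} {p : Pos} (hi : ∀ c, Inj ε p c) {c0 : Col} {A B : Finset ℂ}
    (hA : (A : Set ℂ) ⊆ points ε (mk p c0)) (hB : (B : Set ℂ) ⊆ points ε (mk p c0))
    (hd : Disjoint A B) :
    MeasurableSet {c : Col | Rz (cfg ε (mk p c)) A B} ∧
    colLaw {c : Col | Rz (cfg ε (mk p c)) A B} ≤ 2 / 2 ^ (A ∪ B).card := by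
  have hS : ((A ∪ B : Finset ℂ) : Set ℂ) ⊆ points ε (mk p c0) := by
    rw [Finset.coe_union]
    exact union_subset hA hB
  have key : ∀ b : Bool, {c : Col | (∀ z ∈ A, (z, b) ∈ cfg ε (mk p c)) ∧
      ∀ z ∈ B, (z, !b) ∈ cfg ε (mk p c)} =
      {c : Col | ∀ z ∈ A ∪ B, (z, if z ∈ A then b else !b) ∈ cfg ε (mk p c)} := by
    intro b
    ext c
    simp only [Set.mem_ofPred_eq, Finset.mem_union]
    constructor
    · rintro ⟨h1, h2⟩ z hz
      by_cases hz' : z ∈ A
      · rw [if_pos hz']; exact h1 z hz'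
      · rw [if_neg hz']; exact h2 z (hz.resolve_left hz')
    · intro h
      refine ⟨fun z hz => ?_, fun z hz => ?_⟩
      · have := h z (Or.inl hz)
        rwa [if_pos hz] at this
      · have := h z (Or.inr hz)
        rwa [if_neg (Finset.disjoint_right.1 hd hz)] at this
  have hsplit : {c : Col | Rz (cfg ε (mk p c)) A B} =
      {c : Col | ∀ z ∈ A ∪ B, (z, if z ∈ A then true else !true) ∈ cfg ε (mk p c)} ∪
      {c : Col | ∀ z ∈ A ∪ B, (z, if z ∈ A then false else !false) ∈ cfg ε (mk p c)} := by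
    rw [← key true, ← key false]
    ext c
    constructor
    · rintro ⟨b, h⟩
      cases b with
      | true => exact Or.inl h
      | false => exact Or.inr h
    · rintro (h | h)
      · exact ⟨true, h⟩
      · exact ⟨false, h⟩
  obtain ⟨E1, m1, e1, q1⟩ := prob_pattern hi hS fun z => if z ∈ A then true else !true
  obtain ⟨E2, m2, e2, q2⟩ := prob_pattern hi hS fun z => if z ∈ A then false else !false
  rw [hsplit, q1, q2]
  refine ⟨m1.union m2, (measure_union_le _ _).trans ?_⟩
  rw [e1, e2, ← two_mul, ENNReal.div_eq_inv_mul, mul_comm, ENNReal.inv_pow]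

/-! ### families of objects -/

variable {O : Type}

/-- **the colours are integrated out** -/
theorem col_le (Ok : Set ℂ → Set O) (A B : O → Finset ℂ) (w : O → ℝ≥0∞)
    (hct : ∀ P : Set ℂ, P.Countable → (Ok P).Countable)
    (hA : ∀ P, ∀ o ∈ Ok P, (A o : Set ℂ) ⊆ P) (hB : ∀ P, ∀ o ∈ Ok P, (B o : Set ℂ) ⊆ P)
    (hd : ∀ P, ∀ o ∈ Ok P, Disjoint (A o) (B o)) {ε : ℝ} (hε : 0 < ε) :
    ∫⁻ ω, (∑' o, if o ∈ Ok (points ε ω) ∧ Rz (cfg ε ω) (A o) (B o) then w o else 0) ∂sampleLaw ≤
      ∫⁻ ω, (∑' o, if o ∈ Ok (points ε ω) then w o * (2 / 2 ^ (A o ∪ B o).card) else 0)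
        ∂sampleLaw := by
  set F : Sample → ℝ≥0∞ := fun ω =>
    ∑' o, if o ∈ Ok (points ε ω) ∧ Rz (cfg ε ω) (A o) (B o) then w o else 0 with hF
  set G : Pos → ℝ≥0∞ := fun p =>
    ∑' o, if o ∈ Ok (points ε (mk p fun _ => 0)) then w o * (2 / 2 ^ (A o ∪ B o).card) else 0
    with hG
  have s1 : ∫⁻ ω, F ω ∂sampleLaw ≤ ∫⁻ q : Pos × Col, F (mk q.1 q.2) ∂(posLaw.prod colLaw) := by
    rw [← mp_mk.map_eq]
    exact lintegral_map_le F _
  have s2 : ∫⁻ q : Pos × Col, F (mk q.1 q.2) ∂(posLaw.prod colLaw) ≤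
      ∫⁻ p, ∫⁻ c, F (mk p c) ∂colLaw ∂posLaw := lintegral_prod_le _
  -- almost sure injectivity
  have hinj : ∀ᵐ p ∂posLaw, ∀ c, Inj ε p c := by
    have h1 : ∀ᵐ ω ∂sampleLaw, ∀ p ∈ present ω, ∀ q ∈ present ω,
        point ε ω (p.1, p.2.1) p.2.2 = point ε ω (q.1, q.2.1) q.2.2 → p = q := by
      filter_upwards [Crest.Agent.R143.PoisM3x930.m3a ε hε] with ω h using h.2.1
    have h2 : ∀ᵐ q ∂(posLaw.prod colLaw), Inj ε q.1 q.2 := by
      have := mp_mk.quasiMeasurePreserving.ae h1
      exact this
    have h3 := Measure.ae_ae_of_ae_prod h2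
    filter_upwards [h3] with p hp c
    obtain ⟨c', hc'⟩ := hp.exists
    exact (Inj_iff ε p c' c).1 hc'
  have s3 : ∫⁻ p, ∫⁻ c, F (mk p c) ∂colLaw ∂posLaw ≤ ∫⁻ p, G p ∂posLaw := by
    refine lintegral_mono_ae ?_
    filter_upwards [hinj] with p hp
    set c0 : Col := fun _ => 0 with hc0
    set P : Set ℂ := points ε (mk p c0) with hP
    have hPc : P.Countable := (Set.to_countable _).image _
    have hcount := hct P hPc
    have e1 : ∀ c, F (mk p c) = ∑' o : Ok P, if Rz (cfg ε (mk p c)) (A o) (B o) then w o else 0 := by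
      intro c
      rw [hF]
      simp only
      rw [points_mk ε p c c0]
      have hsup : Function.support (fun o => if o ∈ Ok P ∧ Rz (cfg ε (mk p c)) (A o) (B o)
          then w o else 0) ⊆ Ok P := by
        intro o ho
        by_contra h
        exact ho (if_neg fun h' => h h'.1)
      rw [← tsum_subtype_eq_of_support_subset hsup]
      refine tsum_congr fun o => ?_
      simp only [o.2, true_and]
    have e2 : G p = ∑' o : Ok P, w o * (2 / 2 ^ (A o ∪ B o).card) := by
      rw [hG]
      simp only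
      have hsup : Function.support (fun o => if o ∈ Ok P
          then w o * (2 / 2 ^ (A o ∪ B o).card) else 0) ⊆ Ok P := by
        intro o ho
        by_contra h
        exact ho (if_neg h)
      rw [← tsum_subtype_eq_of_support_subset hsup]
      refine tsum_congr fun o => ?_
      rw [if_pos o.2]
    haveI : Countable (Ok P) := hcount.to_subtype
    have hm : ∀ o : Ok P, MeasurableSet {c : Col | Rz (cfg ε (mk p c)) (A o) (B o)} :=
      fun o => (prob_Rz hp (hA P o o.2) (hB P o o.2) (hd P o o.2)).1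
    simp only [e1]
    rw [lintegral_tsum, e2]
    · refine ENNReal.tsum_le_tsum fun o => ?_
      have e3 : ∀ c : Col, (if Rz (cfg ε (mk p c)) (A o) (B o) then w o else 0) =
          {c : Col | Rz (cfg ε (mk p c)) (A o) (B o)}.indicator (fun _ => w o) c := by
        intro c
        rw [Set.indicator_apply]
        rfl
      simp only [e3]
      rw [lintegral_indicator_const (hm o)]
      gcongr
      exact (prob_Rz hp (hA P o o.2) (hB P o o.2) (hd P o o.2)).2
    · intro o
      have e3 : (fun c : Col => if Rz (cfg ε (mk p c)) (A o) (B o) then w o else 0) =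
          {c : Col | Rz (cfg ε (mk p c)) (A o) (B o)}.indicator (fun _ => w o) := by
        funext c
        rw [Set.indicator_apply]
        rfl
      rw [e3]
      exact (measurable_const.indicator (hm o)).aemeasurable
  have s4 : ∫⁻ p, G p ∂posLaw ≤ ∫⁻ ω, G (toPos ω) ∂sampleLaw := by
    rw [← map_toPos]
    exact lintegral_map_le _ _
  refine (s1.trans s2).trans (s3.trans (s4.trans (le_of_eq ?_)))
  refine lintegral_congr fun ω => ?_
  rw [hG]
  simp only [points_toPos]

end Crest.Agent.R143.ColSumx304
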