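import Crest.Agent.R143.Terr_583

/-!
# Row 143 (S0194): thin territories without lengths (helper583)

Hypothesis: chains of small DIAMETER (no edge lengths, no mesh condition). Four shifted grids of
cells of side `4 ρ`; in step `c` the sites joined inside one cell of the grid `c` to the labelled
sites get their label (991's forest inside the cells), finally the global forest.

* `thin_forest` : abstract form
* `Frs S V X ρ f` : `f : ℂ → ℂ` retraction of `S \ V` onto `X` along chains; sites which are joined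
  to `X` off `V` inside the ball of radius `ρ` have a link of radius `24 ρ` ; `exists_frs`
* `cl S V f K` : territory of `K`; `pg_frs`, `inr_frs`, `pg_thin`, `qd_frs`, `fre_frs`, `qd_thin`
-/

set_option autoImplicit false

noncomputable section

open scoped Classical ENNReal

namespace Crest.Agent.R143.Terr2x583

open Crest.Agent.R143.B0x346 Crest.Agent.R143.DelGx806 Crest.Agent.R143.JColx54
open Crest.Agent.R143.RE0x723
open Crest.Agent.R143.Forx991 (D root Ln)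

/-! ### abstract part -/

section abs

variable {R : ℂ → ℂ → Prop} {O A E : Finset ℂ} {f : ℂ → ℂ} {x y : ℂ}

/-- `f` is a retraction of `E` onto `A` with links inside `E` of radius `r` -/
structure Lab (R : ℂ → ℂ → Prop) (O A E : Finset ℂ) (f : ℂ → ℂ) (r : ℝ) : Prop where
  nn : 0 ≤ r
  subA : A ⊆ E
  subO : E ⊆ O
  fA : ∀ a ∈ A, f a = a
  mem : ∀ x ∈ E, f x ∈ A
  link : ∀ x ∈ E, Relation.ReflTransGen
    (fun a b => R a b ∧ (b ∈ E ∧ f b = f x ∧ dist x b ≤ r)) x (f x)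

/-- start -/
theorem lab_base (hA : A ⊆ O) : Lab R O A A id 0 where
  nn := le_rfl
  subA := fun _ h => h
  subO := hA
  fA := fun _ _ => rfl
  mem := fun _ h => h
  link := fun _ _ => Relation.ReflTransGen.refl

theorem end_mem {P : ℂ → ℂ → Prop} (h : Relation.ReflTransGen (fun a b => P a b ∧ b ∈ O) x y)
    (hx : x ∈ O) : y ∈ O := by
  rcases Relation.ReflTransGen.cases_tail h with h | ⟨_, _, h⟩
  · rw [h]; exact hx
  · exact h.2

/-- finite distance from a chain -/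
theorem d_lt (hy : y ∈ A) (h : Relation.ReflTransGen (fun a b => R a b ∧ b ∈ O) x y)
    (hx : x ∈ O) : D R O A x < ⊤ := by
  have key : ∀ z, Relation.ReflTransGen (fun a b => R a b ∧ b ∈ O) x z → D R O A z < ⊤ →
      D R O A x < ⊤ := by
    intro z hz
    induction hz with
    | refl => exact fun h => h
    | @tail b c h1 h2 ih =>
      intro hD
      refine ih ?_
      exact (Forx991.D_step (end_mem h1 hx) h2.1).trans_lt
        (ENNReal.add_lt_top.2 ⟨edist_lt_top _ _, hD⟩)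
  refine key y h ?_
  rw [Forx991.D_A hy]
  exact ENNReal.zero_lt_top

/-- the new labelled set -/
def nE (R' : ℂ → ℂ → Prop) (O E : Finset ℂ) : Finset ℂ := O.filter fun x => D R' O E x < ⊤

theorem sub_nE {R' : ℂ → ℂ → Prop} (h : E ⊆ O) : E ⊆ nE R' O E := by
  intro x hx
  refine Finset.mem_filter.2 ⟨h hx, ?_⟩
  rw [Forx991.D_A hx]
  exact ENNReal.zero_lt_top

/-- **one step** : `R'` a smaller relation whose chains have diameter `≤ t` -/
theorem lab_step (hR : ∀ x y, R x y → x ≠ y) {R' : ℂ → ℂ → Prop} (hle : ∀ x y, R' x y → R x y)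
    {r t : ℝ} (ht : ∀ x y, Relation.ReflTransGen R' x y → dist x y ≤ t)
    (h : Lab R O A E f r) :
    Lab R O A (nE R' O E) (fun x => f (root R' O E x)) (r + t) := by
  have hR' : ∀ x y, R' x y → x ≠ y := fun x y hxy => hR x y (hle x y hxy)
  have hEE : E ⊆ nE R' O E := sub_nE h.subO
  have hfE : ∀ x ∈ E, f (root R' O E x) = f x := fun x hx => by rw [Forx991.root_A hx]
  have h0 : 0 ≤ t := (dist_nonneg).trans (ht 0 0 Relation.ReflTransGen.refl)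
  refine ⟨add_nonneg h.nn h0, h.subA.trans hEE, Finset.filter_subset _ _, ?_, ?_, ?_⟩
  · intro a ha
    show f (root R' O E a) = a
    rw [hfE a (h.subA ha), h.fA a ha]
  · intro x hx
    obtain ⟨hxO, hxD⟩ := Finset.mem_filter.1 hx
    exact h.mem _ (Forx991.root_mem h.subO hR' hxO hxD)
  · intro x hx
    obtain ⟨hxO, hxD⟩ := Finset.mem_filter.1 hx
    have hy := Forx991.root_mem h.subO hR' hxO hxD
    have hb := Forx991.branch h.subO hR' hxO hxD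
    set y := root R' O E x with hydef
    -- first part
    have h1 : ∀ z, Relation.ReflTransGen (fun a b => R' a b ∧ (b ∈ O ∧ D R' O E b < ⊤ ∧
        root R' O E b = y ∧ edist x b ≤ D R' O E x)) x z → Relation.ReflTransGen R' x z ∧
        Relation.ReflTransGen (fun a b => R a b ∧ (b ∈ nE R' O E ∧
          f (root R' O E b) = f y ∧ dist x b ≤ r + t)) x z := by
      intro z hz
      induction hz with
      | refl => exact ⟨Relation.ReflTransGen.refl, Relation.ReflTransGen.refl⟩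
      | @tail b c _ h3 ih =>
        obtain ⟨h4, h5, h6, h7, -⟩ := h3
        have h8 : Relation.ReflTransGen R' x c := ih.1.tail h4
        refine ⟨h8, ih.2.tail ⟨hle _ _ h4, Finset.mem_filter.2 ⟨h5, h6⟩, by rw [h7], ?_⟩⟩
        have h9 := ht x c h8
        have h10 := h.nn
        linarith
    obtain ⟨h2, h3⟩ := h1 y hb
    have hd := ht x y h2
    -- second part
    refine h3.trans (Relation.ReflTransGen.mono ?_ _ _ (h.link y hy))
    rintro a b ⟨h4, h5, h6, h7⟩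
    refine ⟨h4, hEE h5, ?_, ?_⟩
    · show f (root R' O E b) = f y
      rw [hfE b h5, h6]
    · have := dist_triangle x y b
      linarith

/-! #### the four grids -/

/-- cell of the grid shifted by `u, v` -/
def cel (ρ u v : ℝ) (z : ℂ) : ℤ × ℤ := (⌊z.re / (4 * ρ) + u⌋, ⌊z.im / (4 * ρ) + v⌋)

/-- relation inside the cells -/
def Rc (R : ℂ → ℂ → Prop) (ρ u v : ℝ) (a b : ℂ) : Prop := R a b ∧ cel ρ u v a = cel ρ u v b

theorem rc_cel {ρ u v : ℝ} (h : Relation.ReflTransGen (Rc R ρ u v) x y) :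
    cel ρ u v x = cel ρ u v y := by
  induction h with
  | refl => rfl
  | tail _ h2 ih => rw [ih, h2.2]

theorem floor_close {s t : ℝ} (h : ⌊s⌋ = ⌊t⌋) : |s - t| ≤ 1 := by
  have h1 := Int.floor_le s
  have h2 := Int.lt_floor_add_one s
  have h3 := Int.floor_le t
  have h4 := Int.lt_floor_add_one t
  rw [h] at h1 h2
  rw [abs_le]
  constructor <;> linarith

theorem rc_dist {ρ u v : ℝ} (hρ : 0 < ρ) (h : Relation.ReflTransGen (Rc R ρ u v) x y) :
    dist x y ≤ 6 * ρ := by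
  have hc := rc_cel h
  unfold cel at hc
  rw [Prod.mk.injEq] at hc
  have h1 := floor_close hc.1
  have h2 := floor_close hc.2
  have h4 : (0 : ℝ) < 4 * ρ := by linarith
  have e1 : (x.re / (4 * ρ) + u) - (y.re / (4 * ρ) + u) = (x.re - y.re) / (4 * ρ) := by ring
  have e2 : (x.im / (4 * ρ) + v) - (y.im / (4 * ρ) + v) = (x.im - y.im) / (4 * ρ) := by ring
  rw [e1, abs_div, abs_of_pos h4, div_le_one h4] at h1
  rw [e2, abs_div, abs_of_pos h4, div_le_one h4] at h2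
  rw [dist_eq_norm, Complex.norm_def, Real.sqrt_le_left (by linarith)]
  rw [Complex.normSq_apply, Complex.sub_re, Complex.sub_im]
  have h5 : (x.re - y.re) * (x.re - y.re) ≤ (4 * ρ) ^ 2 := by
    rw [← sq]; exact sq_le_sq' (by linarith [abs_le.1 h1]) (abs_le.1 h1).2
  have h6 : (x.im - y.im) * (x.im - y.im) ≤ (4 * ρ) ^ 2 := by
    rw [← sq]; exact sq_le_sq' (by linarith [abs_le.1 h2]) (abs_le.1 h2).2
  nlinarith

/-- one of the two shifts is good -/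
theorem shift_ok (t : ℝ) : ∃ u : ℝ, (u = 0 ∨ u = 1 / 2) ∧ ∀ s : ℝ, |s - t| ≤ 1 / 4 →
    ⌊s + u⌋ = ⌊t + u⌋ := by
  have h1 := Int.floor_le t
  have h2 := Int.lt_floor_add_one t
  have key : ∀ (u : ℝ) (n : ℤ), (n : ℝ) + 1 / 4 ≤ t + u → t + u < n + 3 / 4 →
      ∀ s : ℝ, |s - t| ≤ 1 / 4 → ⌊s + u⌋ = ⌊t + u⌋ := by
    intro u n h3 h4 s hs
    obtain ⟨h5, h6⟩ := abs_le.1 hs
    have e1 : ⌊s + u⌋ = n := Int.floor_eq_iff.2 ⟨by linarith, by linarith⟩
    have e2 : ⌊t + u⌋ = n := Int.floor_eq_iff.2 ⟨by linarith, by linarith⟩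
    rw [e1, e2]
  rcases lt_or_ge t (⌊t⌋ + 1 / 4) with h3 | h3
  · exact ⟨1 / 2, Or.inr rfl, key (1 / 2) ⌊t⌋ (by linarith) (by linarith)⟩
  · rcases lt_or_ge t (⌊t⌋ + 3 / 4) with h4 | h4
    · exact ⟨0, Or.inl rfl, key 0 ⌊t⌋ (by linarith) (by linarith)⟩
    · refine ⟨1 / 2, Or.inr rfl, key (1 / 2) (⌊t⌋ + 1) ?_ ?_⟩
      · push_cast; linarith
      · push_cast; linarith

theorem cel_ok {ρ : ℝ} (hρ : 0 < ρ) (x : ℂ) : ∃ u v : ℝ, (u = 0 ∨ u = 1 / 2) ∧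
    (v = 0 ∨ v = 1 / 2) ∧ ∀ z : ℂ, dist x z ≤ ρ → cel ρ u v z = cel ρ u v x := by
  obtain ⟨u, hu, hu'⟩ := shift_ok (x.re / (4 * ρ))
  obtain ⟨v, hv, hv'⟩ := shift_ok (x.im / (4 * ρ))
  refine ⟨u, v, hu, hv, fun z hz => ?_⟩
  have h4 : (0 : ℝ) < 4 * ρ := by linarith
  rw [dist_comm, dist_eq_norm] at hz
  unfold cel
  rw [hu', hv']
  · rw [← sub_div, abs_div, abs_of_pos h4, div_le_iff₀ h4]
    have := (Complex.abs_im_le_norm (z - x)).trans hz
    rw [Complex.sub_im] at this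
    linarith
  · rw [← sub_div, abs_div, abs_of_pos h4, div_le_iff₀ h4]
    have := (Complex.abs_re_le_norm (z - x)).trans hz
    rw [Complex.sub_re] at this
    linarith

/-- the chain in the ball is a chain of the cells -/
theorem rc_chain {ρ u v : ℝ} (hρ : 0 < ρ) (hc : ∀ z : ℂ, dist x z ≤ ρ → cel ρ u v z = cel ρ u v x)
    (h : Relation.ReflTransGen (fun a b => R a b ∧ (b ∈ O ∧ dist x b ≤ ρ)) x y) :
    Relation.ReflTransGen (fun a b => Rc R ρ u v a b ∧ b ∈ O) x y := by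
  have key : ∀ z, Relation.ReflTransGen (fun a b => R a b ∧ (b ∈ O ∧ dist x b ≤ ρ)) x z →
      dist x z ≤ ρ ∧ Relation.ReflTransGen (fun a b => Rc R ρ u v a b ∧ b ∈ O) x z := by
    intro z hz
    induction hz with
    | refl => exact ⟨by rw [dist_self]; exact hρ.le, Relation.ReflTransGen.refl⟩
    | @tail b c _ h2 ih =>
      refine ⟨h2.2.2, ih.2.tail ⟨⟨h2.1, ?_⟩, h2.2.1⟩⟩
      rw [hc b ih.1, hc c h2.2.2]
  exact (key y h).2

/-- **thin forest** -/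
theorem thin_forest (hA : A ⊆ O) (hR : ∀ x y, R x y → x ≠ y) {ρ : ℝ} (hρ : 0 < ρ) :
    ∃ (E : Finset ℂ) (f : ℂ → ℂ), Lab R O A E f (24 * ρ) ∧
      ∀ x ∈ O, (∃ y ∈ A, Relation.ReflTransGen
        (fun a b => R a b ∧ (b ∈ O ∧ dist x b ≤ ρ)) x y) → x ∈ E := by
  have st : ∀ (u v : ℝ) (E : Finset ℂ) (f : ℂ → ℂ) (r : ℝ), Lab R O A E f r →
      ∃ (E' : Finset ℂ) (f' : ℂ → ℂ), E ⊆ E' ∧ Lab R O A E' f' (r + 6 * ρ) ∧
      ∀ x ∈ O, (∃ y ∈ A, Relation.ReflTransGen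
        (fun a b => R a b ∧ (b ∈ O ∧ dist x b ≤ ρ)) x y) →
        (∀ z : ℂ, dist x z ≤ ρ → cel ρ u v z = cel ρ u v x) → x ∈ E' := by
    intro u v E f r h
    refine ⟨nE (Rc R ρ u v) O E, fun x => f (root (Rc R ρ u v) O E x), sub_nE h.subO,
      lab_step hR (fun _ _ h => h.1) (fun _ _ h => rc_dist hρ h) h, ?_⟩
    rintro x hx ⟨y, hy, hp⟩ hc
    exact Finset.mem_filter.2 ⟨hx, d_lt (h.subA hy) (rc_chain hρ hc hp) hx⟩
  obtain ⟨E1, f1, h11, h12, h13⟩ := st 0 0 A id 0 (lab_base hA)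
  obtain ⟨E2, f2, h21, h22, h23⟩ := st 0 (1 / 2) E1 f1 _ h12
  obtain ⟨E3, f3, h31, h32, h33⟩ := st (1 / 2) 0 E2 f2 _ h22
  obtain ⟨E4, f4, h41, h42, h43⟩ := st (1 / 2) (1 / 2) E3 f3 _ h32
  refine ⟨E4, f4, ?_, ?_⟩
  · have e : (0 + 6 * ρ + 6 * ρ + 6 * ρ + 6 * ρ : ℝ) = 24 * ρ := by ring
    rw [← e]
    exact h42
  · intro x hx hy
    obtain ⟨u, v, hu, hv, hc⟩ := cel_ok hρ x
    rcases hu with rfl | rfl <;> rcases hv with rfl | rfl
    · exact h41 (h31 (h21 (h13 x hx hy hc)))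
    · exact h41 (h31 (h23 x hx hy hc))
    · exact h41 (h33 x hx hy hc)
    · exact h43 x hx hy hc

/-- **thin forest, all sites** : the sites not reached by short chains are attached by the global
forest -/
theorem thin_global (hA : A ⊆ O) (hR : ∀ x y, R x y → x ≠ y) {ρ : ℝ} (hρ : 0 < ρ) :
    ∃ f : ℂ → ℂ, (∀ a ∈ A, f a = a) ∧
      (∀ x ∈ O, (∃ y ∈ A, Relation.ReflTransGen (fun a b => R a b ∧ b ∈ O) x y) →
        f x ∈ A ∧ Relation.ReflTransGen (fun a b => R a b ∧ (b ∈ O ∧ f b = f x)) x (f x)) ∧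
      (∀ x ∈ O, (∃ y ∈ A, Relation.ReflTransGen
        (fun a b => R a b ∧ (b ∈ O ∧ dist x b ≤ ρ)) x y) →
        Relation.ReflTransGen (fun a b => R a b ∧ (b ∈ O ∧ f b = f x ∧ dist x b ≤ 24 * ρ))
          x (f x)) := by
  obtain ⟨E, f, h, hE⟩ := thin_forest hA hR hρ
  have hroot : ∀ x ∈ E, root R O E x = x := fun x hx => Forx991.root_A hx
  refine ⟨fun x => f (root R O E x), ?_, ?_, ?_⟩
  · intro a ha
    show f (root R O E a) = a
    rw [hroot a (h.subA ha), h.fA a ha]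
  · rintro x hx ⟨y, hy, hp⟩
    have hD : D R O E x < ⊤ := d_lt (h.subA hy) hp hx
    have hr := Forx991.root_mem h.subO hR hx hD
    refine ⟨h.mem _ hr, ?_⟩
    have hb := Forx991.branch h.subO hR hx hD
    refine (Relation.ReflTransGen.mono ?_ _ _ hb).trans
      (Relation.ReflTransGen.mono ?_ _ _ (h.link _ hr))
    · rintro a b ⟨h1, h2, -, h3, -⟩
      refine ⟨h1, h2, ?_⟩
      show f (root R O E b) = f (root R O E x)
      rw [h3]
    · rintro a b ⟨h1, h2, h3, -⟩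
      refine ⟨h1, h.subO h2, ?_⟩
      show f (root R O E b) = _
      rw [hroot b h2, h3]
  · intro x hx hy
    have hxE := hE x hx hy
    show Relation.ReflTransGen _ x (f (root R O E x))
    rw [hroot x hxE]
    refine Relation.ReflTransGen.mono ?_ _ _ (h.link x hxE)
    rintro a b ⟨h1, h2, h3, h4⟩
    refine ⟨h1, h.subO h2, ?_, h4⟩
    show f (root R O E b) = f (root R O E x)
    rw [hroot b h2, hroot x hxE, h3]

end abs

/-! ### sites -/

section sites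

variable {S V X K K' : Finset ℂ} {f : ℂ → ℂ} {ρ : ℝ} {x y : ℂ}

/-- all sites off `V` are joined to `X` off `V` -/
def Joi (S V X : Finset ℂ) : Prop :=
  ∀ x ∈ S, x ∉ V → ∃ y ∈ X, Pth S {z | z ∈ S ∧ z ∉ V} x y

/-- `x` is joined to `X` off `V` inside the ball of radius `ρ` -/
def Near (S V X : Finset ℂ) (ρ : ℝ) (x : ℂ) : Prop :=
  ∃ y ∈ X, Pth S {z | (z ∈ S ∧ z ∉ V) ∧ ‖z - x‖ ≤ ρ} x y

/-- thin retraction of `S \ V` onto `X` -/
structure Frs (S V X : Finset ℂ) (ρ : ℝ) (f : ℂ → ℂ) : Prop where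
  sub : X ⊆ S \ V
  fX : ∀ a ∈ X, f a = a
  mem : ∀ x ∈ S, x ∉ V → f x ∈ X
  link : ∀ x ∈ S, x ∉ V → Pth S {z | (z ∈ S ∧ z ∉ V) ∧ f z = f x} x (f x)
  thin : ∀ x ∈ S, x ∉ V → Near S V X ρ x →
    Pth S {z | (z ∈ S ∧ z ∉ V) ∧ f z = f x ∧ ‖z - x‖ ≤ 24 * ρ} x (f x)

/-- **existence** -/
theorem exists_frs (hX : X ⊆ S \ V) (hJ : Joi S V X) (hρ : 0 < ρ) : ∃ f, Frs S V X ρ f := by
  obtain ⟨f, h1, h2, h3⟩ := thin_global (R := Adj S) hX (fun _ _ h => Adj.ne h) hρ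
  have hO : ∀ z, z ∈ S \ V ↔ z ∈ S ∧ z ∉ V := fun z => Finset.mem_sdiff
  have hj : ∀ x ∈ S, x ∉ V →
      ∃ y ∈ X, Relation.ReflTransGen (fun a b => Adj S a b ∧ b ∈ S \ V) x y := by
    intro x hx hV
    obtain ⟨y, hy, hp⟩ := hJ x hx hV
    refine ⟨y, hy, Relation.ReflTransGen.mono ?_ _ _ hp.2⟩
    rintro a b ⟨h4, h5⟩
    exact ⟨h4, (hO b).2 h5⟩
  refine ⟨f, hX, h1, ?_, ?_, ?_⟩
  · intro x hx hV
    exact (h2 x ((hO x).2 ⟨hx, hV⟩) (hj x hx hV)).1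
  · intro x hx hV
    refine ⟨⟨⟨hx, hV⟩, rfl⟩, Relation.ReflTransGen.mono ?_ _ _
      (h2 x ((hO x).2 ⟨hx, hV⟩) (hj x hx hV)).2⟩
    rintro a b ⟨h4, h5, h6⟩
    exact ⟨h4, (hO b).1 h5, h6⟩
  · rintro x hx hV ⟨y, hy, hp⟩
    have h0 : ‖x - x‖ ≤ 24 * ρ := by rw [sub_self, norm_zero]; linarith
    refine ⟨⟨⟨hx, hV⟩, rfl, h0⟩, Relation.ReflTransGen.mono ?_ _ _
      (h3 x ((hO x).2 ⟨hx, hV⟩) ⟨y, hy, Relation.ReflTransGen.mono ?_ _ _ hp.2⟩)⟩
    · rintro a b ⟨h4, h5, h6, h7⟩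
      rw [dist_comm, dist_eq_norm] at h7
      exact ⟨h4, (hO b).1 h5, h6, h7⟩
    · rintro a b ⟨h4, h5, h6⟩
      refine ⟨h4, (hO b).2 h5, ?_⟩
      rw [dist_comm, dist_eq_norm]
      exact h6

/-- territory of `K` -/
def cl (S V : Finset ℂ) (f : ℂ → ℂ) (K : Finset ℂ) : Finset ℂ := (S \ V).filter fun x => f x ∈ K

theorem mem_cl : x ∈ cl S V f K ↔ (x ∈ S ∧ x ∉ V) ∧ f x ∈ K := by
  unfold cl
  rw [Finset.mem_filter, Finset.mem_sdiff]

theorem cl_subS : cl S V f K ⊆ S := fun _ h => (mem_cl.1 h).1.1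

theorem cl_notV (h : x ∈ cl S V f K) : x ∉ V := (mem_cl.1 h).1.2

theorem cl_disj (h : Disjoint K K') : Disjoint (cl S V f K) (cl S V f K') := by
  rw [Finset.disjoint_left]
  intro x hx hx'
  exact Finset.disjoint_left.1 h (mem_cl.1 hx).2 (mem_cl.1 hx').2

theorem cl_mono (h : K ⊆ K') : cl S V f K ⊆ cl S V f K' := by
  intro x hx
  rw [mem_cl] at hx ⊢
  exact ⟨hx.1, h hx.2⟩

/-- territories of unions -/
theorem cl_un {A : ℕ → Finset ℂ} (i l : ℕ) :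
    un (fun j => cl S V f (A j)) i l = cl S V f (un A i l) := by
  ext x
  simp only [un, Finset.mem_biUnion, Finset.mem_Ico, mem_cl]
  constructor
  · rintro ⟨j, hj, h1, h2⟩; exact ⟨h1, j, hj, h2⟩
  · rintro ⟨h1, j, hj, h2⟩; exact ⟨j, hj, h1, h2⟩

namespace Frs

variable (h : Frs S V X ρ f)
include h

theorem cl_sub (hK : K ⊆ X) : K ⊆ cl S V f K := by
  intro x hx
  refine mem_cl.2 ⟨Finset.mem_sdiff.1 (h.sub (hK hx)), ?_⟩
  rw [h.fX x (hK hx)]
  exact hx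

theorem mem_cl_X (hx : x ∈ X) : x ∈ cl S V f K ↔ x ∈ K := by
  rw [mem_cl, h.fX x hx]
  exact ⟨fun h => h.2, fun h' => ⟨Finset.mem_sdiff.1 (h.sub hx), h'⟩⟩

theorem cl_all : cl S V f X = S \ V := by
  ext x
  rw [mem_cl, Finset.mem_sdiff]
  exact ⟨fun h => h.1, fun h' => ⟨h', h.mem x h'.1 h'.2⟩⟩

/-- every site of the territory is joined to `K` inside -/
theorem cl_link (hx : x ∈ cl S V f K) : f x ∈ K ∧ Pth S (cl S V f K : Set ℂ) x (f x) := by
  obtain ⟨⟨h1, h2⟩, h3⟩ := mem_cl.1 hx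
  refine ⟨h3, (h.link x h1 h2).mono ?_⟩
  rintro z ⟨h4, h5⟩
  exact Finset.mem_coe.2 (mem_cl.2 ⟨h4, by rw [h5]; exact h3⟩)

/-- **thin** -/
theorem cl_thin (hx : x ∈ cl S V f K) (hn : Near S V X ρ x) :
    f x ∈ K ∧ Pth S {z | z ∈ cl S V f K ∧ ‖z - x‖ ≤ 24 * ρ} x (f x) := by
  obtain ⟨⟨h1, h2⟩, h3⟩ := mem_cl.1 hx
  refine ⟨h3, (h.thin x h1 h2 hn).mono ?_⟩
  rintro z ⟨h4, h5, h6⟩
  exact ⟨mem_cl.2 ⟨h4, by rw [h5]; exact h3⟩, h6⟩

theorem cl_con (hK : K ⊆ X) (hc : ∀ x ∈ K, ∀ y ∈ K, Pth S (K : Set ℂ) x y) :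
    ∀ x ∈ cl S V f K, ∀ y ∈ cl S V f K, Pth S (cl S V f K : Set ℂ) x y := by
  have hKt : (K : Set ℂ) ⊆ (cl S V f K : Set ℂ) := fun z hz =>
    Finset.mem_coe.2 (h.cl_sub hK (Finset.mem_coe.1 hz))
  intro x hx y hy
  obtain ⟨hx', hpx⟩ := h.cl_link hx
  obtain ⟨hy', hpy⟩ := h.cl_link hy
  exact (hpx.trans ((hc _ hx' _ hy').mono hKt)).trans hpy.symm

end Frs

end sites

/-! ### polygons -/

section pg

variable {S V : Finset ℂ} {n m : ℕ} {w : ℤ → ℂ} {p : ℕ → ℤ} {A : ℕ → Finset ℂ} {f : ℂ → ℂ}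
  {ρ : ℝ} {x : ℂ}

theorem A_sub_un {j : ℕ} (hj : j ≤ m) : A j ⊆ un A 0 (m + 1) := by
  intro x hx
  simp only [un, Finset.mem_biUnion, Finset.mem_Ico]
  exact ⟨j, ⟨Nat.zero_le _, by omega⟩, hx⟩

/-- the territory of the class `j` -/
def Cj (S V : Finset ℂ) (f : ℂ → ℂ) (A : ℕ → Finset ℂ) (j : ℕ) : Finset ℂ := cl S V f (A j)

theorem sub_Cj (hf : Frs S V (un A 0 (m + 1)) ρ f) {j : ℕ} (hj : j ≤ m) : A j ⊆ Cj S V f A j :=
  hf.cl_sub (A_sub_un hj)

/-- **territories of a polygon** -/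
theorem pg_frs (h : Pg S n w m p A) (hf : Frs S V (un A 0 (m + 1)) ρ f) :
    Pg S n w m p (Cj S V f A) where
  gp := h.gp
  cyc := h.cyc
  mono := h.mono
  last := h.last
  sub := fun _ _ => cl_subS
  disj := fun i j hi hj hij => cl_disj (h.disj i j hi hj hij)
  con := fun j hj => hf.cl_con (A_sub_un hj) (h.con j hj)
  arc := fun j hj k hk hk' => sub_Cj hf hj.le (h.arc j hj k hk hk')
  arcl := fun k hk hk' => sub_Cj hf le_rfl (h.arcl k hk hk')

/-- the inner sites of the new polygon are the sites of `V` -/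
theorem inr_frs (hV : V ⊆ S) (hf : Frs S V (un A 0 (m + 1)) ρ f) :
    inr S (Cj S V f A) m = V := by
  have h1 : un (Cj S V f A) 0 (m + 1) = S \ V := (cl_un 0 (m + 1)).trans hf.cl_all
  show S \ un (Cj S V f A) 0 (m + 1) = V
  rw [h1, Finset.sdiff_sdiff_eq_self hV]

/-- thin, for polygons -/
theorem pg_thin (hf : Frs S V (un A 0 (m + 1)) ρ f) {j : ℕ} (hx : x ∈ Cj S V f A j)
    (hn : Near S V (un A 0 (m + 1)) ρ x) :
    f x ∈ A j ∧ Pth S {z | z ∈ Cj S V f A j ∧ ‖z - x‖ ≤ 24 * ρ} x (f x) :=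
  hf.cl_thin hx hn

/-- **everything together** : the classes `A' j` of the polygon with inner sites `V` -/
theorem pg_terr (h : Pg S n w m p A) (hV : V ⊆ inr S A m) (hJ : Joi S V (un A 0 (m + 1)))
    (hρ : 0 < ρ) : ∃ A' : ℕ → Finset ℂ, Pg S n w m p A' ∧ (∀ j ≤ m, A j ⊆ A' j) ∧
      inr S A' m = V ∧ ∀ j ≤ m, ∀ x ∈ A' j, Near S V (un A 0 (m + 1)) ρ x →
        ∃ y ∈ A j, Pth S {z | z ∈ A' j ∧ ‖z - x‖ ≤ 24 * ρ} x y := by
  have hX : un A 0 (m + 1) ⊆ S \ V := by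
    intro x hx
    have hx' := hx
    simp only [un, Finset.mem_biUnion, Finset.mem_Ico] at hx
    obtain ⟨j, hj, hxj⟩ := hx
    refine Finset.mem_sdiff.2 ⟨h.sub j (by omega) hxj, fun hxV => ?_⟩
    exact (Finset.mem_sdiff.1 (hV hxV)).2 hx'
  obtain ⟨f, hf⟩ := exists_frs hX hJ hρ
  refine ⟨Cj S V f A, pg_frs h hf, fun j hj => sub_Cj hf hj,
    inr_frs (fun x hx => (Finset.mem_sdiff.1 (hV hx)).1) hf, fun j _ x hx hn => ?_⟩
  exact ⟨f x, pg_thin hf hx hn⟩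

end pg

/-! ### quads -/

section qd

variable {S V : Finset ℂ} {n : ℕ} {w : ℤ → ℂ} {i0 i1 i2 i3 : ℤ} {B : ZMod 4 → Finset ℂ}
  {f : ℂ → ℂ} {ρ : ℝ} {x : ℂ}

/-- union of the classes of a quad -/
def uB (B : ZMod 4 → Finset ℂ) : Finset ℂ := Finset.univ.biUnion B

theorem mem_uB : x ∈ uB B ↔ ∃ i, x ∈ B i := by
  simp only [uB, Finset.mem_biUnion, Finset.mem_univ, true_and]

theorem B_sub_uB (i : ZMod 4) : B i ⊆ uB B := fun _ hx => mem_uB.2 ⟨i, hx⟩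

/-- **territories of a quad** -/
theorem qd_terr (h : Qd S n w i0 i1 i2 i3 B) (hV : V ⊆ fre S B) (hJ : Joi S V (uB B))
    (hρ : 0 < ρ) : ∃ B' : ZMod 4 → Finset ℂ, Qd S n w i0 i1 i2 i3 B' ∧ (∀ i, B i ⊆ B' i) ∧
      fre S B' = V ∧ ∀ i, ∀ x ∈ B' i, Near S V (uB B) ρ x →
        ∃ y ∈ B i, Pth S {z | z ∈ B' i ∧ ‖z - x‖ ≤ 24 * ρ} x y := by
  have hX : uB B ⊆ S \ V := by
    intro x hx
    obtain ⟨i, hxi⟩ := mem_uB.1 hx
    exact Finset.mem_sdiff.2 ⟨h.sub i hxi, fun hxV => (Finset.mem_filter.1 (hV hxV)).2 i hxi⟩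
  obtain ⟨f, hf⟩ := exists_frs hX hJ hρ
  have hs : ∀ i, B i ⊆ cl S V f (B i) := fun i => hf.cl_sub (B_sub_uB i)
  refine ⟨fun i => cl S V f (B i), ?_, hs, ?_, fun i x hx hn => ⟨f x, hf.cl_thin hx hn⟩⟩
  · exact
      { gp := h.gp
        m4 := h.m4
        sub := fun _ => cl_subS
        disj := fun i j hij => cl_disj (h.disj i j hij)
        con := fun i => hf.cl_con (B_sub_uB i) (h.con i)
        a0 := fun k hk hk' => hs 0 (h.a0 k hk hk')
        a1 := fun k hk hk' => hs 1 (h.a1 k hk hk')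
        a2 := fun k hk hk' => hs 2 (h.a2 k hk hk')
        a3 := fun k hk hk' => hs 3 (h.a3 k hk hk') }
  · ext x
    constructor
    · intro hx
      obtain ⟨hxS, hx2⟩ := Finset.mem_filter.1 hx
      by_contra hxV
      obtain ⟨i, hi⟩ := mem_uB.1 (hf.mem x hxS hxV)
      exact hx2 i (mem_cl.2 ⟨⟨hxS, hxV⟩, hi⟩)
    · intro hx
      exact Finset.mem_filter.2 ⟨(Finset.mem_filter.1 (hV hx)).1, fun i hi => cl_notV hi hx⟩

end qd

end Crest.Agent.R143.Terr2x583
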