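import Crest.Agent.R143.K33_877
import Crest.Agent.R143.Terr2_583

/-!
# Row 143 (S0194), K7: collar (helper583)

* `tr_up` : enlarged classes
* `tr_terr` : territories of three classes `Tr S A` (877) with free sites `W`, thin for the sites
  with a short chain to the classes
* `collar` : classes `T` with the free sites `W`, `V ⊆ W`, seeds `sd k ⊆ W \ V` joined to `T (l k)`;
  every site of `W \ V` joined to a seed inside `W \ V` within `ρ` : classes `A'` with the free sites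
  `V`, the label of a site of `W \ V` is the label of a seed reached within `24 ρ`
-/

set_option autoImplicit false

noncomputable section

open scoped Classical

namespace Crest.Agent.R143.Colx583

open Set
open Crest.Agent.R143.B0x346 Crest.Agent.R143.DelGx806 Crest.Agent.R143.DelRx806
  Crest.Agent.R143.JColx54 Crest.Agent.R143.RE0x723 Crest.Agent.R143.K33x877
  Crest.Agent.R143.Terr2x583

variable {S V W : Finset ℂ} {A C T : ZMod 3 → Set ℂ} {ρ : ℝ} {x y : ℂ}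

/-- enlarged classes -/
theorem tr_up (h : Tr S A) (hAC : ∀ i, A i ⊆ C i) (hs : ∀ i, C i ⊆ (S : Set ℂ))
    (hd : ∀ i j, i ≠ j → Disjoint (C i) (C j))
    (hc : ∀ i, ∀ x ∈ C i, ∀ y ∈ C i, Pth S (C i) x y) : Tr S C where
  gp := h.gp
  sub := hs
  disj := hd
  con := hc
  hull := fun a b hab => by
    obtain ⟨i, hi⟩ := h.hull a b hab
    exact ⟨i, hAC i hi⟩
  one := fun i j hij => by
    obtain ⟨a, b, h1, h2, h3, h4⟩ := h.one i j hij
    refine ⟨a, b, h1, hAC i h2, hAC j h3, fun a' b' h5 h6 h7 => ?_⟩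
    have key : ∀ {z : ℂ} {m : ZMod 3}, (∃ k, z ∈ A k) → z ∈ C m → z ∈ A m := by
      rintro z m ⟨k, hk⟩ hz
      by_contra hne
      have hkm : k ≠ m := by rintro rfl; exact hne hk
      exact Set.disjoint_left.1 (hd k m hkm) (hAC k hk) hz
    exact h4 a' b' h5 (key (h.hull_mem h5) h6) (key (h.hull_mem (Or.symm h5)) h7)

/-- sites of the classes -/
def uA (S : Finset ℂ) (A : ZMod 3 → Set ℂ) : Finset ℂ := S.filter fun x => ∃ i, x ∈ A i

theorem mem_uA (h : Tr S A) : x ∈ uA S A ↔ ∃ i, x ∈ A i := by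
  unfold uA
  rw [Finset.mem_filter]
  exact ⟨fun h' => h'.2, fun h' => ⟨Finset.mem_coe.1 (h.sub _ h'.choose_spec), h'⟩⟩

/-- **territories of three classes** -/
theorem tr_terr (h : Tr S A) (hW : (W : Set ℂ) ⊆ fr S A) (hJ : Joi S W (uA S A)) (hρ : 0 < ρ) :
    ∃ T : ZMod 3 → Set ℂ, Tr S T ∧ (∀ i, A i ⊆ T i) ∧ fr S T = W ∧
      ∀ i, ∀ x ∈ T i, Near S W (uA S A) ρ x →
        ∃ y ∈ A i, Pth S {z | z ∈ T i ∧ ‖z - x‖ ≤ 24 * ρ} x y := by
  have hX : uA S A ⊆ S \ W := by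
    intro x hx
    obtain ⟨i, hi⟩ := (mem_uA h).1 hx
    refine Finset.mem_sdiff.2 ⟨(Finset.mem_filter.1 hx).1, fun hxW => ?_⟩
    exact (hW (Finset.mem_coe.2 hxW)).2 i hi
  obtain ⟨f, hf⟩ := exists_frs hX hJ hρ
  have hAT : ∀ i, A i ⊆ {x | (x ∈ S ∧ x ∉ W) ∧ f x ∈ A i} := by
    intro i x hx
    have h1 : x ∈ uA S A := (mem_uA h).2 ⟨i, hx⟩
    refine ⟨Finset.mem_sdiff.1 (hX h1), ?_⟩
    rw [hf.fX x h1]
    exact hx
  refine ⟨fun i => {x | (x ∈ S ∧ x ∉ W) ∧ f x ∈ A i}, ?_, hAT, ?_, ?_⟩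
  · refine tr_up h hAT (fun i x hx => Finset.mem_coe.2 hx.1.1) ?_ ?_
    · intro i j hij
      rw [Set.disjoint_left]
      rintro x ⟨-, h1⟩ ⟨-, h2⟩
      exact Set.disjoint_left.1 (h.disj i j hij) h1 h2
    · intro i
      have hl : ∀ x ∈ {x | (x ∈ S ∧ x ∉ W) ∧ f x ∈ A i},
          f x ∈ A i ∧ Pth S {x | (x ∈ S ∧ x ∉ W) ∧ f x ∈ A i} x (f x) := by
        rintro x ⟨⟨h1, h2⟩, h3⟩
        refine ⟨h3, (hf.link x h1 h2).mono ?_⟩
        rintro z ⟨h4, h5⟩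
        exact ⟨h4, by rw [h5]; exact h3⟩
      intro x hx y hy
      obtain ⟨h1, h2⟩ := hl x hx
      obtain ⟨h3, h4⟩ := hl y hy
      exact (h2.trans ((h.con i _ h1 _ h3).mono (hAT i))).trans h4.symm
  · ext x
    constructor
    · rintro ⟨h1, h2⟩
      by_contra hxW
      have hxW' : x ∉ W := fun h' => hxW (Finset.mem_coe.2 h')
      obtain ⟨i, hi⟩ := (mem_uA h).1 (hf.mem x h1 hxW')
      exact h2 i ⟨⟨h1, hxW'⟩, hi⟩
    · intro hx
      exact ⟨(hW hx).1, fun i hi => hi.1.2 (Finset.mem_coe.1 hx)⟩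
  · rintro i x ⟨⟨h1, h2⟩, h3⟩ hn
    refine ⟨f x, h3, (hf.thin x h1 h2 hn).mono ?_⟩
    rintro z ⟨h4, h5, h6⟩
    exact ⟨⟨h4, by rw [h5]; exact h3⟩, h6⟩

theorem rtg_pth {P : Set ℂ} (hx : x ∈ P)
    (h : Relation.ReflTransGen (fun a b => Adj S a b ∧ b ∈ P) x y) : Pth S P x y := ⟨hx, h⟩

/-- **collar** -/
theorem collar (hT : Tr S T) (hW : fr S T = W) (hVW : V ⊆ W) {K : Type} (sd : K → Set ℂ)
    (l : K → ZMod 3) (hρ : 0 < ρ)
    (hsd : ∀ k, ∀ x ∈ sd k, x ∈ W ∧ x ∉ V)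
    (hdis : ∀ k k', l k ≠ l k' → Disjoint (sd k) (sd k'))
    (hcon : ∀ k, ∀ x ∈ sd k, ∃ y ∈ T (l k), Pth S (sd k ∪ T (l k)) x y)
    (hnear : ∀ x ∈ W, x ∉ V → ∃ k, ∃ y ∈ sd k, Pth S {z | (z ∈ W ∧ z ∉ V) ∧ ‖z - x‖ ≤ ρ} x y) :
    ∃ A' : ZMod 3 → Set ℂ, Tr S A' ∧ (∀ i, T i ⊆ A' i) ∧ fr S A' = V ∧
      (∀ k, sd k ⊆ A' (l k)) ∧
      (∀ i, ∀ x ∈ A' i, x ∈ W → ∃ k, l k = i ∧ ∃ y ∈ sd k,
        Pth S {z | z ∈ A' i ∧ (z ∈ W ∧ z ∉ V) ∧ ‖z - x‖ ≤ 24 * ρ} x y) := by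
  have hWS : ∀ x, x ∈ W → x ∈ S := fun x hx => by
    have : x ∈ fr S T := by rw [hW]; exact Finset.mem_coe.2 hx
    exact this.1
  have hWT : ∀ x, x ∈ W → ∀ i, x ∉ T i := fun x hx i => by
    have : x ∈ fr S T := by rw [hW]; exact Finset.mem_coe.2 hx
    exact this.2 i
  set O : Finset ℂ := W \ V with hO
  set X : Finset ℂ := O.filter fun x => ∃ k, x ∈ sd k with hXdef
  have hXO : X ⊆ O := Finset.filter_subset _ _
  have hmO : ∀ z, z ∈ O ↔ z ∈ W ∧ z ∉ V := fun z => Finset.mem_sdiff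
  obtain ⟨E, f, hL, hE⟩ := thin_forest (R := Adj S) hXO (fun _ _ h => Adj.ne h) hρ
  have hOE : ∀ x ∈ O, x ∈ E := by
    intro x hx
    obtain ⟨h1, h2⟩ := (hmO x).1 hx
    obtain ⟨k, y, hy, hp⟩ := hnear x h1 h2
    refine hE x hx ⟨y, Finset.mem_filter.2 ⟨(hmO y).2 (hsd k y hy), k, hy⟩,
      Relation.ReflTransGen.mono ?_ _ _ hp.2⟩
    rintro a b ⟨h4, h5, h6⟩
    refine ⟨h4, (hmO b).2 h5, ?_⟩
    rw [dist_comm, dist_eq_norm]
    exact h6
  -- label of a seed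
  set lab : ℂ → ZMod 3 := fun z => if h : ∃ k, z ∈ sd k then l h.choose else 0 with hlab
  have lab_eq : ∀ k, ∀ z ∈ sd k, lab z = l k := by
    intro k z hz
    have hex : ∃ k, z ∈ sd k := ⟨k, hz⟩
    have e : lab z = l hex.choose := by rw [hlab]; exact dif_pos hex
    rw [e]
    by_contra hne
    exact Set.disjoint_left.1 (hdis _ _ hne) hex.choose_spec hz
  have hfX : ∀ x ∈ O, f x ∈ X := fun x hx => hL.mem x (hOE x hx)
  have hfs : ∀ x ∈ O, ∃ k, f x ∈ sd k := fun x hx => (Finset.mem_filter.1 (hfX x hx)).2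
  set B : ZMod 3 → Set ℂ := fun i => T i ∪ {x | x ∈ O ∧ lab (f x) = i} with hB
  have hTB : ∀ i, T i ⊆ B i := fun i x hx => Or.inl hx
  have hsB : ∀ k, sd k ⊆ B (l k) := by
    intro k x hx
    have h1 : x ∈ O := (hmO x).2 (hsd k x hx)
    have h2 : x ∈ X := Finset.mem_filter.2 ⟨h1, k, hx⟩
    refine Or.inr ⟨h1, ?_⟩
    rw [hL.fA x h2]
    exact lab_eq k x hx
  -- the link of a site of the collar
  have hlink : ∀ x ∈ O, Pth S {z | z ∈ B (lab (f x)) ∧ (z ∈ W ∧ z ∉ V) ∧ ‖z - x‖ ≤ 24 * ρ} x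
      (f x) := by
    intro x hx
    have h0 : ‖x - x‖ ≤ 24 * ρ := by rw [sub_self, norm_zero]; linarith
    refine ⟨⟨Or.inr ⟨hx, rfl⟩, (hmO x).1 hx, h0⟩, Relation.ReflTransGen.mono ?_ _ _
      (hL.link x (hOE x hx))⟩
    rintro a b ⟨h1, h2, h3, h4⟩
    have h5 : b ∈ O := hL.subO h2
    rw [dist_comm, dist_eq_norm] at h4
    exact ⟨h1, Or.inr ⟨h5, by rw [h3]⟩, (hmO b).1 h5, h4⟩
  have hjoin : ∀ i, ∀ x ∈ B i, ∃ y ∈ T i, Pth S (B i) x y := by
    rintro i x (hx | ⟨hx, hxi⟩)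
    · exact ⟨x, hx, Pth.refl (Or.inl hx)⟩
    · obtain ⟨k, hk⟩ := hfs x hx
      have hki : l k = i := by rw [← hxi, lab_eq k _ hk]
      obtain ⟨y, hy, hp⟩ := hcon k _ hk
      rw [hki] at hy hp
      refine ⟨y, hy, ?_⟩
      have h1 := hlink x hx
      rw [hxi] at h1
      refine (h1.mono fun z hz => hz.1).trans (hp.mono ?_)
      rintro z (hz | hz)
      · rw [← hki]; exact hsB k hz
      · exact Or.inl hz
  refine ⟨B, ?_, hTB, ?_, hsB, ?_⟩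
  · refine tr_up hT hTB ?_ ?_ ?_
    · rintro i x (hx | ⟨hx, -⟩)
      · exact hT.sub i hx
      · exact Finset.mem_coe.2 (hWS x ((hmO x).1 hx).1)
    · intro i j hij
      rw [Set.disjoint_left]
      rintro x (hx | ⟨hx, hxi⟩) (hy | ⟨hy, hyj⟩)
      · exact Set.disjoint_left.1 (hT.disj i j hij) hx hy
      · exact hWT x ((hmO x).1 hy).1 i hx
      · exact hWT x ((hmO x).1 hx).1 j hy
      · exact hij (hxi.symm.trans hyj)
    · intro i x hx y hy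
      obtain ⟨x', hx', h1⟩ := hjoin i x hx
      obtain ⟨y', hy', h2⟩ := hjoin i y hy
      exact (h1.trans ((hT.con i x' hx' y' hy').mono (hTB i))).trans h2.symm
  · ext x
    constructor
    · rintro ⟨h1, h2⟩
      by_contra hxV
      have hxV' : x ∉ V := fun h' => hxV (Finset.mem_coe.2 h')
      by_cases hxW : x ∈ W
      · exact h2 (lab (f x)) (Or.inr ⟨(hmO x).2 ⟨hxW, hxV'⟩, rfl⟩)
      · have h3 : x ∉ fr S T := by rw [hW]; exact fun h' => hxW (Finset.mem_coe.1 h')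
        have h4 : ∃ i, x ∈ T i := by
          by_contra hcon'
          push Not at hcon'
          exact h3 ⟨h1, hcon'⟩
        obtain ⟨i, hi⟩ := h4
        exact h2 i (Or.inl hi)
    · intro hx
      have hxV : x ∈ V := Finset.mem_coe.1 hx
      have hxW := hVW hxV
      refine ⟨hWS x hxW, ?_⟩
      rintro i (hi | ⟨hi, -⟩)
      · exact hWT x hxW i hi
      · exact ((hmO x).1 hi).2 hxV
  · rintro i x (hx | ⟨hx, hxi⟩) hxW
    · exact absurd hx (hWT x hxW i)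
    · obtain ⟨k, hk⟩ := hfs x hx
      refine ⟨k, by rw [← hxi, lab_eq k _ hk], f x, hk, ?_⟩
      have h1 := hlink x hx
      rw [hxi] at h1
      exact h1

end Crest.Agent.R143.Colx583
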