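import Crest.Agent.R143.Cont3_920
import Crest.Agent.R143.Appl1_359

/-!
# Row 143 (S0194), CONT (3434): static form (helper920)

* `ArmB` : the one-arm bound at all points of a region, from `d` to `D`; `armB` : from 930's `arm`
* `Ys` : the three hit points of a family of classes, as functions of the colours
* `Dets` : the deterministic lemma for the three indices and all scales
* `static` : `‖ST(A) - ST(A')‖ ≤ 9 (1 + 4 C') D (d / D) ^ (min c 1 / 4)`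
-/

set_option autoImplicit false

noncomputable section

open scoped Classical

namespace Crest.Agent.R143.Cont4x920

open Crest.Agent.R143.Harx315
open Crest.Agent.R143.D3Fx802 (CArm)
open Crest.Agent.R143.JColx54 (Adj)
open Crest.Agent.R143.RE0x723 (Pth)
open Crest.Agent.R143.RB0x838 (LDns Mesh)
open Crest.Agent.R143.DelGx806
open Crest.Agent.R143.K33x877 Crest.Agent.R143.Freshx920 Crest.Agent.R143.Cont2x920
  Crest.Agent.R143.Cont3x920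
open Crest.Agent.R143.Applx359 (ST st_pow)

variable {S V V' : Finset ℂ} {A A' : ZMod 3 → Set ℂ} {i j k : ZMod 3} {T : Set ℂ}
  {b v u x y : ℂ} {P : ℂ → ℂ → ℂ → Prop} {Rg : Set ℂ} {d D C c : ℝ}

/-- one-arm bound at the points of `Rg` -/
def ArmB (S : Finset ℂ) (Rg : Set ℂ) (d D C c : ℝ) : Prop :=
  ∀ z ∈ Rg, ∀ r R : ℝ, 2 * d ≤ r → r ≤ R → R ≤ D → ∀ W ⊆ S,
    pr W (fun β => CArm S β z r R) ≤ C * (r / R) ^ c

/-- **the one-arm bound from the mesh** -/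
theorem armB : ∀ C4 : ℝ, 0 ≤ C4 → ∃ C c c1 c2 K : ℝ, 1 ≤ C ∧ 0 < c ∧ 0 < c1 ∧ 0 < c2 ∧ c2 ≤ 1 ∧
    1 ≤ K ∧ ∀ (S : Finset ℂ) (Rg : Set ℂ) (d0 d D : ℝ), 0 < d →
    (∀ z ∈ Rg, LDns S z (K * D) d0) →
    (∀ z ∈ Rg, ∀ b, c2 * (2 * d) ≤ b → b ≤ D → Mesh S z (K * D) b C4) → d0 ≤ c1 * (2 * d) →
    ArmB S Rg d D C c := by
  intro C4 hC4
  obtain ⟨C, c, c1, c2, K, hC, hc, hc1, hc2, hc2', hK, H⟩ := ArmPx930.arm C4 hC4
  refine ⟨max C 1, c, c1, c2, K, le_max_right _ _, hc, hc1, hc2, hc2', hK, ?_⟩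
  intro S Rg d0 d D hd hL hM hd0 z hz r R hr hrR hR W hW
  have hr0 : 0 < r := by linarith
  have hR0 : 0 < R := by linarith
  have hKR : K * R ≤ K * D := mul_le_mul_of_nonneg_left hR (by linarith)
  refine (H S z d0 r R hr0 hrR (ArmPx930.ldns_mono (hL z hz) hKR) ?_ ?_ W hW).trans ?_
  · intro b hb1 hb2
    refine ArmPx930.mesh_mono (hM z hz b ?_ (hb2.trans hR)) hKR
    exact (mul_le_mul_of_nonneg_left hr hc2.le).trans hb1
  · exact hd0.trans (mul_le_mul_of_nonneg_left hr hc1.le)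
  · exact mul_le_mul_of_nonneg_right (le_max_left _ _) (Real.rpow_nonneg (by positivity) _)

/-- the bound without the restriction `r ≤ R` -/
theorem ArmB.le (h : ArmB S Rg d D C c) (hC : 1 ≤ C) (hc : 0 ≤ c) (hd : 0 < d) {z : ℂ}
    (hz : z ∈ Rg) {r R : ℝ} (hr : 2 * d ≤ r) (hR0 : 0 < R) (hR : R ≤ D) {W : Finset ℂ}
    (hW : W ⊆ S) : pr W (fun β => CArm S β z r R) ≤ C * (r / R) ^ c := by
  rcases le_total r R with h1 | h1
  · exact h z hz r R hr h1 hR W hW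
  · refine pr_le_one.trans ?_
    have h2 : 1 ≤ r / R := (one_le_div hR0).2 h1
    have h3 : 1 ≤ (r / R) ^ c := Real.one_le_rpow h2 hc
    nlinarith

/-- the end points of the three interfaces -/
def Ys (S : Finset ℂ) (A : ZMod 3 → Set ℂ) (P : ℂ → ℂ → ℂ → Prop) (i : ZMod 3)
    (β : Finset ℂ) : ℂ := uf S A (i + 1) (i + 2) i P (β : Set ℂ)

theorem uf_spec (hE : Ex S A i j k P) (T : Set ℂ) :
    ∃ b v, Hit S A i j k T b v (uf S A i j k P T) ∧ P b v (uf S A i j k P T) := by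
  obtain ⟨b, v, u, h1, h2⟩ := hE T
  have hu : ∃ u b v, Hit S A i j k T b v u ∧ P b v u := ⟨u, b, v, h1, h2⟩
  have eu : uf S A i j k P T = hu.choose := by unfold uf; rw [dif_pos hu]
  obtain ⟨b1, v1, h3⟩ := hu.choose_spec
  rw [eu]
  exact ⟨b1, v1, h3⟩

theorem uf_eq (hE : Ex S A i j k P) (hU : Un S A i j k P) (h : Hit S A i j k T b v u)
    (hP : P b v u) : uf S A i j k P T = u := by
  obtain ⟨b', v', h1, h2⟩ := uf_spec hE T
  exact (hU T b v u b' v' _ h hP h1 h2).2.2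

/-- the structure of the four arms -/
def av4 (d ρ1 ρ2 : ℝ) : Fin 4 → ℝ := ![2 * d, 2 * d, 2 * ρ1, 2 * ρ2]
def cv4 (ρ1 ρ2 η : ℝ) : Fin 4 → ℝ := ![η / 2, ρ1 / 2, ρ2 / 2, η / 2]

/-- **the deterministic lemma, three indices, all scales** -/
def Dets (S V : Finset ℂ) (A A' : ZMod 3 → Set ℂ) (P : ℂ → ℂ → ℂ → Prop) (Rg : Set ℂ)
    (d D : ℝ) : Prop :=
  ∀ (i : ZMod 3) (ρ1 ρ2 η : ℝ), d ≤ ρ1 → ρ1 ≤ ρ2 → ρ2 ≤ η → η ≤ D →
    ∃ p0 ∈ Rg, ∃ p1 ∈ Rg, DET S V A A' (i + 1) (i + 2) i P Rg p0 p1 (av4 d ρ1 ρ2)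
      (cv4 ρ1 ρ2 η) η

theorem pow4 (hc : 0 ≤ c) {r R : ℝ} (hr : 0 ≤ r) (hR : 0 < R) :
    (2 * r / (R / 2)) ^ c = 4 ^ c * (r / R) ^ c := by
  rw [← Real.mul_rpow (by norm_num) (by positivity)]
  congr 1
  field_simp
  ring

theorem bds (hA : ArmB S Rg d D C c) (hC : 1 ≤ C) (hc : 0 ≤ c) (hd : 0 < d) (hV : V ⊆ S)
    {ρ1 ρ2 η : ℝ} (h1 : d ≤ ρ1) (h2 : ρ1 ≤ ρ2) (h3 : ρ2 ≤ η) (h4 : η ≤ D) {p0 : ℂ}
    (hp : p0 ∈ Rg) : Bds S V Rg p0 (av4 d ρ1 ρ2) (cv4 ρ1 ρ2 η)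
      ![C * 4 ^ c * (d / η) ^ c, C * 4 ^ c * (d / ρ1) ^ c, C * 4 ^ c * (ρ1 / ρ2) ^ c,
        C * 4 ^ c * (ρ2 / η) ^ c] := by
  have hρ1 : 0 < ρ1 := by linarith
  have hρ2 : 0 < ρ2 := by linarith
  have hη : 0 < η := by linarith
  have p4 : (0 : ℝ) < 4 ^ c := Real.rpow_pos_of_pos (by norm_num) _
  refine ⟨?_, ?_, ?_, ?_, ?_⟩
  · intro l
    fin_cases l <;> simp <;> positivity
  · intro z hz W hW
    have h := hA.le hC hc hd hz (r := 2 * d) (R := η / 2) le_rfl (by linarith) (by linarith)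
      (hW.trans hV)
    rw [pow4 hc hd.le hη, ← mul_assoc] at h
    exact h
  · intro z hz W hW
    have h := hA.le hC hc hd hz (r := 2 * d) (R := ρ1 / 2) le_rfl (by linarith) (by linarith)
      (hW.trans hV)
    rw [pow4 hc hd.le hρ1, ← mul_assoc] at h
    exact h
  · have h := hA.le hC hc hd hp (r := 2 * ρ1) (R := ρ2 / 2) (by linarith) (by linarith)
      (by linarith) hV
    rw [pow4 hc hρ1.le hρ2, ← mul_assoc] at h
    exact h
  · have h := hA.le hC hc hd hp (r := 2 * ρ2) (R := η / 2) (by linarith) (by linarith)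
      (by linarith) hV
    rw [pow4 hc hρ2.le hη, ← mul_assoc] at h
    exact h

/-- **static CONT** -/
theorem static (hVA : (V : Set ℂ) = fr S A) (hVA' : (V' : Set ℂ) = fr S A') (hVV : V' ⊆ V)
    (hE : ∀ i, Ex S A (i + 1) (i + 2) i P)
    (hE' : ∀ i, Ex S A' (i + 1) (i + 2) i P) (hU' : ∀ i, Un S A' (i + 1) (i + 2) i P)
    (hRg : ∀ i b v u T, Hit S A (i + 1) (i + 2) i T b v u → P b v u → u ∈ Rg)
    (hRg' : ∀ i b v u T, Hit S A' (i + 1) (i + 2) i T b v u → P b v u → u ∈ Rg)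
    (hdiam : ∀ z ∈ Rg, ∀ z' ∈ Rg, ‖z - z'‖ ≤ D) (hd : 0 < d) (hdD : d ≤ D)
    (hA : ArmB S Rg d D C c) (hC : 1 ≤ C) (hc : 0 ≤ c) (hD : Dets S V A A' P Rg d D) :
    ‖ST V (Ys S A P) - ST V' (Ys S A' P)‖ ≤
      9 * ((1 + 4 * (2 * (C * 4 ^ c))) * D * (d / D) ^ (min c 1 / 4)) := by
  have p4 : (0 : ℝ) < 4 ^ c := Real.rpow_pos_of_pos (by norm_num) _
  have hVS : V ⊆ S := fun w hw => by
    have : w ∈ fr S A := by rw [← hVA]; exact hw
    exact this.1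
  have hcap : ∀ (i : ZMod 3) (β : Finset ℂ), ∀ w ∈ fr S A',
      (w ∈ (β : Set ℂ) ↔ w ∈ ((β ∩ V' : Finset ℂ) : Set ℂ)) := by
    intro i β w hw
    rw [← hVA'] at hw
    rw [Finset.coe_inter]
    exact ⟨fun h => ⟨h, hw⟩, fun h => h.1⟩
  refine st_pow (y := Ys S A P) (y' := Ys S A' P) hVV hd hdD (by positivity) hc ?_ ?_
  · intro i β _
    obtain ⟨b, v, h1, h2⟩ := uf_spec (hE i) (β : Set ℂ)
    obtain ⟨b', v', h3, h4⟩ := uf_spec (hE' i) ((β ∩ V' : Finset ℂ) : Set ℂ)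
    exact hdiam _ (hRg i _ _ _ _ h1 h2) _ (hRg' i _ _ _ _ h3 h4)
  · intro i ρ1 ρ2 η h1 h2 h3 h4
    obtain ⟨p0, hp0, p1, hp1, hdet⟩ := hD i ρ1 ρ2 η h1 h2 h3 h4
    have hVfr : fr S A' ⊆ V := by
      rw [← hVA']
      exact_mod_cast hVV
    have key := cont_pr hVfr (hE' i) (hU' i) hdet
      (bds hA hC hc hd hVS h1 h2 h3 h4 hp0) (bds hA hC hc hd hVS h1 h2 h3 h4 hp1)
    refine (pr_mono ?_).trans (key.trans (le_of_eq ?_))
    · intro β _ hη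
      obtain ⟨b1, v1, g1, g2⟩ := uf_spec (hE i) (β : Set ℂ)
      obtain ⟨b', v', g3, g4⟩ := uf_spec (hE' i) ((β ∩ V' : Finset ℂ) : Set ℂ)
      exact ⟨b', v', _, b1, v1, _, hit_congr (fun w hw => (hcap i β w hw).symm) g3, g4, g1, g2,
        hη⟩
    · simp only [Matrix.cons_val_zero, Matrix.cons_val_one, Matrix.cons_val]
      ring

end Crest.Agent.R143.Cont4x920
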