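import Crest.Agent.R143.D1_377
import Crest.Agent.R143.Cont4_920
import Crest.Agent.R143.NetH_346
import Crest.Agent.R143.K33R_877

/-!
# Row 143 (S0194), CONT, top layer (helper97)

No colours of the explored net, no AREA, no shallow energy: CONT is a statement on ALL triples of
classes (877's `Tr`, 346's `Hex`) on the sites of a domain.
* `Y_tot` : the total of a live state is `(1 - om) / 3 * TS S (walls) zf` (`zf = id`, `conj`)
* `SC zf T Adm` : **static form of CONT**: in most environments, for ALL triples of classes on the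
  sites of the domain, `‖TS‖ ≤ η + A ∑ ‖T u‖` (finitely many `u`, depending on `D`, `η` only)
* `cont_we : SC id T Adm → CONT we T Adm`, `cont_wd : SC conj T Adm → CONT wd T Adm`
* `static_lip` : 920's static CONT for `zf` of the hit points, `zf` 1-Lipschitz
-/

set_option autoImplicit false

noncomputable section

open scoped Classical

namespace Crest.Agent.R143.CompCx97

open Complex Set Filter Topology MeasureTheory
open scoped ENNReal
open Crest.ProbabilityR.Voronoi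
open Crest.Agent.R143.B0x346 Crest.Agent.R143.B0Dx346 Crest.Agent.R143.JCardx872
  Crest.Agent.R143.JWalkx872
  Crest.Agent.R143.J1x872 Crest.Agent.R143.J4x872 Crest.Agent.R143.Oscx63
open Crest.Agent.R143.Sidesx697 (Wall Side)
open Crest.Agent.R143.Bsumx848 (rr TT)
open Crest.Agent.R143.B6Ix903 (net)
open Crest.Agent.R143.Locx922 Crest.Agent.R143.PP1x831
open Crest.Agent.R143.DicCx831 (rad_small rad_pos ev_unit)
open Crest.Agent.R143.DicDx831 (hnet_ev good_ev)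
open Crest.Agent.R143.AsmNx758 (Bad CONT we wd av av_mono av_const_le)
open Crest.Agent.R143.Spinex422 (Room Linked)
open Crest.Agent.R143.Mabx377
open Crest.Agent.R143.K33x877 Crest.Agent.R143.HitLx54
open Crest.Agent.R143.NetUx346 (TS Hex)
open Crest.Agent.R143.Applx359 (ST st_pow)
open Crest.Agent.R143.Cont3x920 (Ex Un uf hit_congr)
open Crest.Agent.R143.Cont4x920 (Ys uf_spec uf_eq)
open Crest.Agent.R143.Harx315

variable {U : Type}

/-! ### the static total -/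

/-- **the total of a live state is the static total of its walls** -/
theorem Y_tot {S : Finset ℂ} {N : Net ℂ} (h : HNet S N)
    (hkl : ∀ a b : ℂ, (a, b) ∈ N.kl → (a, b) ∈ N.E → ∃ i, Side N i a)
    {x : St ℂ} (hok : Ok N x.1 x.2) (hA : Alive S N x) (zf : ℂ → ℂ) :
    Tr S (sA S (knet N x.1)) ∧ Hex S (sA S (knet N x.1)) ∧
      Y S N (fun t => zf t.2.1 - zf t.1) x =
        (1 - om) / 3 * TS S (sA S (knet N x.1)) zf := by
  obtain ⟨hN, -, hd, hF, hT, -⟩ := alive_net h hkl hok hA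
  refine ⟨hT, NetHx346.hex_of hitu hN hd hF, ?_⟩
  rw [Y_diff h zf x, Y_eq_TT h hA zf, NetHx346.TT_TS hitu hN hd hF zf]

theorem norm_c : ‖((1 : ℂ) - om) / 3‖ ≤ 1 := by
  rw [norm_div]
  have h1 := Mabx377.norm_one_sub_om
  have h3 : ‖(3 : ℂ)‖ = 3 := by norm_num
  rw [h3]
  linarith

/-! ### CONT from its static form -/

/-- **static form of CONT** : the totals of all triples of classes on the sites of a domain are
controlled by finitely many polygons -/
def SC (zf : ℂ → ℂ) (T : U → ℝ → Sample → ℂ) (Adm : Dom → ℝ → Prop) : Prop :=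
  ∀ (D : Dom) (δ : ℝ), Adm D δ → ∀ η > 0, ∃ (P : Finset U) (A : ℝ), 0 ≤ A ∧
    ∀ᶠ ε : ℝ in 𝓝[>] 0, sampleLaw {ω | ∃ B : ZMod 3 → Set ℂ, Tr (D.sites ε ω) B ∧
      Hex (D.sites ε ω) B ∧ η + A * ∑ u ∈ P, ‖T u ε ω‖ < ‖TS (D.sites ε ω) B zf‖} ≤
        ENNReal.ofReal η

theorem cont_of {Adm : Dom → ℝ → Prop}
    (hAdm : ∀ D δ, Adm D δ → D.Ad δ) {zf : ℂ → ℂ}
    {w : ℂ × ℂ × ℂ → ℂ} (hw : w = fun t => zf t.2.1 - zf t.1) {T : U → ℝ → Sample → ℂ}
    (h : SC zf T Adm) : CONT w T Adm := by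
  intro D δ hD m hm r hr z hz hli l hl hlr η hη
  have hOK := hAdm D δ hD
  have hDW := hOK.w
  have hδ := hDW.dpos
  have hL := hDW.Lpos
  obtain ⟨P, A, hA0, h1⟩ := h D δ hD (η / 2) (by positivity)
  obtain ⟨C, K, a, C4, hC, hK, ha, hC4, hgood⟩ := good_ev D hL
  refine ⟨P, A, hA0, ?_⟩
  filter_upwards [hgood, h1, hnet_ev hDW hC, (rad_small C).eventually
    (ge_mem_nhds (show (0 : ℝ) < δ ^ 6 / (40000 * D.L ^ 5) by positivity)),
    (tendsto_id.mono_left nhdsWithin_le_nhds : Tendsto (fun ε : ℝ => ε) (𝓝[>] 0) (𝓝 0)).eventually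
      (ge_mem_nhds (show (0 : ℝ) < η / 2 by positivity))] with ε g0 g1 g2 g3 g4
  rw [le_div_iff₀ (by positivity)] at g3
  have hd : 40000 * D.L ^ 5 * rad C ε ≤ δ ^ 6 := by linarith
  have hsub : {ω | η < av (net D ε ω) (fun J =>
      if Bad (D.sites ε ω) (net D ε ω) w l z (2 * r) (η + A * ∑ u ∈ P, ‖T u ε ω‖) J then
        1 else 0)} ⊆
      {ω | ¬ Y0x831.Good D ε C K a C4 ω} ∪
      {ω | ∃ B : ZMod 3 → Set ℂ, Tr (D.sites ε ω) B ∧ Hex (D.sites ε ω) B ∧
        η / 2 + A * ∑ u ∈ P, ‖T u ε ω‖ < ‖TS (D.sites ε ω) B zf‖} := by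
    intro ω hω
    by_contra hcon
    simp only [mem_union, mem_ofPred_eq, not_or, not_not, not_exists, not_and, not_lt] at hcon
    obtain ⟨c1, c2⟩ := hcon
    have hN := g2 K a C4 ω c1
    have hS := DomAx722.dns_of_env hL (DomAx722.small_d hL hδ hDW.lt.le hd) c1.env
    have hkl := hkl_dom hOK hS hd hN
    have h0 : av (net D ε ω) (fun J =>
        if Bad (D.sites ε ω) (net D ε ω) w l z (2 * r) (η + A * ∑ u ∈ P, ‖T u ε ω‖) J then
        1 else 0) ≤ av (net D ε ω) (fun _ => 0) := by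
      refine av_mono fun J hJ => ?_
      rw [if_neg]
      rintro ⟨j, _, hj1, _, hj⟩
      obtain ⟨hT, hX, hO⟩ := Y_tot hN hkl (xs_ok (good_of_hnet hN) (l := l) hJ j) hj1 zf
      rw [← hw] at hO
      rw [hO, norm_mul] at hj
      have h5 := c2 _ hT hX
      have h6 := mul_le_of_le_one_left (norm_nonneg (TS (D.sites ε ω)
        (sA (D.sites ε ω) (knet (net D ε ω) (xs (net D ε ω) l J j).1)) zf)) norm_c
      linarith
    have h3 := av_const_le (N := net D ε ω) (le_refl (0 : ℝ))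
    have hω' : η < av (net D ε ω) (fun J =>
      if Bad (D.sites ε ω) (net D ε ω) w l z (2 * r) (η + A * ∑ u ∈ P, ‖T u ε ω‖) J then
        1 else 0) := hω
    linarith
  refine (measure_mono hsub).trans ((measure_union_le _ _).trans ?_)
  have h3 : ENNReal.ofReal η = ENNReal.ofReal (η / 2) + ENNReal.ofReal (η / 2) := by
    rw [← ENNReal.ofReal_add (by positivity) (by positivity)]
    congr 1
    ring
  rw [h3]
  exact add_le_add (g0.trans (ENNReal.ofReal_le_ofReal g4)) g1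

/-- **CONT, weight `we`** -/
theorem cont_we {Adm : Dom → ℝ → Prop}
    (hAdm : ∀ D δ, Adm D δ → D.Ad δ) {T : U → ℝ → Sample → ℂ} (h : SC id T Adm) :
    CONT we T Adm :=
  cont_of hAdm (zf := id) rfl h

/-- **CONT, weight `wd`** -/
theorem cont_wd {Adm : Dom → ℝ → Prop}
    (hAdm : ∀ D δ, Adm D δ → D.Ad δ) {T : U → ℝ → Sample → ℂ}
    (h : SC (starRingEnd ℂ) T Adm) : CONT wd T Adm :=
  cont_of hAdm (zf := starRingEnd ℂ)
    (by funext t; unfold wd; rw [map_sub]) h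

/-! ### static CONT for a 1-Lipschitz function of the hit points -/

open Crest.Agent.R143.Cont4x920 (ArmB Dets av4 cv4 bds) in
/-- **static CONT** of 920, `zf` of the hit points -/
theorem static_lip {S V V' : Finset ℂ} {A A' : ZMod 3 → Set ℂ} {P : ℂ → ℂ → ℂ → Prop}
    {Rg : Set ℂ} {d D C c : ℝ} {zf : ℂ → ℂ} (hzf : ∀ x y, ‖zf x - zf y‖ ≤ ‖x - y‖)
    (hVA : (V : Set ℂ) = fr S A) (hVA' : (V' : Set ℂ) = fr S A') (hVV : V' ⊆ V)
    (hE : ∀ i, Ex S A (i + 1) (i + 2) i P)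
    (hE' : ∀ i, Ex S A' (i + 1) (i + 2) i P) (hU' : ∀ i, Un S A' (i + 1) (i + 2) i P)
    (hRg : ∀ i b v u T, Hit S A (i + 1) (i + 2) i T b v u → P b v u → u ∈ Rg)
    (hRg' : ∀ i b v u T, Hit S A' (i + 1) (i + 2) i T b v u → P b v u → u ∈ Rg)
    (hdiam : ∀ z ∈ Rg, ∀ z' ∈ Rg, ‖z - z'‖ ≤ D) (hd : 0 < d) (hdD : d ≤ D)
    (hA : ArmB S Rg d D C c) (hC : 1 ≤ C) (hc : 0 ≤ c) (hD : Dets S V A A' P Rg d D) :
    ‖Applx359.ST V (fun i β => zf (Ys S A P i β)) -
        Applx359.ST V' (fun i β => zf (Ys S A' P i β))‖ ≤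
      9 * ((1 + 4 * (2 * (C * 4 ^ c))) * D * (d / D) ^ (min c 1 / 4)) := by
  have p4 : (0 : ℝ) < 4 ^ c := Real.rpow_pos_of_pos (by norm_num) _
  have hVS : V ⊆ S := fun w hw => by
    have : w ∈ fr S A := by rw [← hVA]; exact hw
    exact this.1
  have hcap : ∀ (i : ZMod 3) (β : Finset ℂ), ∀ w ∈ fr S A',
      (w ∈ (β : Set ℂ) ↔ w ∈ ((β ∩ V' : Finset ℂ) : Set ℂ)) := by
    intro i β w hw
    rw [← hVA'] at hw
    rw [Finset.coe_inter]
    exact ⟨fun h => ⟨h, hw⟩, fun h => h.1⟩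
  refine st_pow (y := fun i β => zf (Ys S A P i β)) (y' := fun i β => zf (Ys S A' P i β)) hVV hd
    hdD (by positivity) hc ?_ ?_
  · intro i β _
    obtain ⟨b, v, h1, h2⟩ := uf_spec (hE i) (β : Set ℂ)
    obtain ⟨b', v', h3, h4⟩ := uf_spec (hE' i) ((β ∩ V' : Finset ℂ) : Set ℂ)
    exact (hzf _ _).trans (hdiam _ (hRg i _ _ _ _ h1 h2) _ (hRg' i _ _ _ _ h3 h4))
  · intro i ρ1 ρ2 η h1 h2 h3 h4
    obtain ⟨p0, hp0, p1, hp1, hdet⟩ := hD i ρ1 ρ2 η h1 h2 h3 h4
    have hVfr : fr S A' ⊆ V := by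
      rw [← hVA']
      exact_mod_cast hVV
    have key := Cont3x920.cont_pr hVfr (hE' i) (hU' i) hdet
      (bds hA hC hc hd hVS h1 h2 h3 h4 hp0) (bds hA hC hc hd hVS h1 h2 h3 h4 hp1)
    refine (pr_mono ?_).trans (key.trans (le_of_eq ?_))
    · intro β _ hη
      obtain ⟨b1, v1, g1, g2⟩ := uf_spec (hE i) (β : Set ℂ)
      obtain ⟨b', v', g3, g4⟩ := uf_spec (hE' i) ((β ∩ V' : Finset ℂ) : Set ℂ)
      exact ⟨b', v', _, b1, v1, _, hit_congr (fun w hw => (hcap i β w hw).symm) g3, g4, g1, g2,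
        lt_of_lt_of_le hη (hzf _ _)⟩
    · simp only [Matrix.cons_val_zero, Matrix.cons_val_one, Matrix.cons_val]
      ring

end Crest.Agent.R143.CompCx97
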