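import Crest.Agent.R143.K7D_359
import Crest.Agent.R143.D4L_408

/-!
# Row 143 (S0194), K7: COMP (helper66)

* `bk_near` : cells at sup distance less than one side belong to equal or neighbouring bricks
* `pt_near` : the same for points of the tiles
* `comp : K7Dx359.COMP`
-/

set_option autoImplicit false

noncomputable section

open scoped Classical

namespace Crest.Agent.R143.Compx66

open Crest.Agent.R158.Sp896 (V lc rc pt ed sq Cyc)
open Crest.Agent.R143.JColx54 (Adj)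
open Crest.Agent.R143.Brkx478 (Bk Nb Conn cells bk nb_iff mem_cells)
open Crest.Agent.R143.Tenx416 (Pg)
open Crest.Agent.R143.NetVx346 (Vin)
open Crest.Agent.R143.K7Dx359

/-- cells at distance `≤ 1` belong to equal or neighbouring bricks -/
theorem bk_near {q q' : V} (h1 : |q.1 - q'.1| ≤ 1) (h2 : |q.2 - q'.2| ≤ 1) :
    bk q' = bk q ∨ Nb (bk q) (bk q') := by
  rw [nb_iff, Prod.ext_iff]
  rw [abs_le] at h1 h2
  simp only [bk]
  omega

/-- cells of two near points -/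
theorem sq_near {s : ℝ} (hs : 0 < s) {q q' : V} {z z' : ℂ} (hz : z ∈ sq s q) (hz' : z' ∈ sq s q')
    (h : ‖z - z'‖ < s) : |q.1 - q'.1| ≤ 1 ∧ |q.2 - q'.2| ≤ 1 := by
  obtain ⟨a1, a2, a3, a4⟩ := hz
  obtain ⟨b1, b2, b3, b4⟩ := hz'
  have h1 := (Complex.abs_re_le_norm (z - z')).trans_lt h
  have h2 := (Complex.abs_im_le_norm (z - z')).trans_lt h
  rw [Complex.sub_re, abs_lt] at h1
  rw [Complex.sub_im, abs_lt] at h2
  have key : ∀ m n : ℤ, s * m < s * (n + 2 : ℝ) → m < n + 2 := by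
    intro m n hmn
    have h3 := lt_of_mul_lt_mul_left hmn hs.le
    exact_mod_cast h3
  have k1 := key q.1 q'.1 (by linarith)
  have k2 := key q'.1 q.1 (by linarith)
  have k3 := key q.2 q'.2 (by linarith)
  have k4 := key q'.2 q.2 (by linarith)
  rw [abs_le, abs_le]
  omega

/-- bricks of two near points -/
theorem pt_near {s : ℝ} (hs : 0 < s) {q q' : V} {z z' : ℂ} (hz : z ∈ sq s q) (hz' : z' ∈ sq s q')
    (h : ‖z - z'‖ < s) : bk q' = bk q ∨ Nb (bk q) (bk q') :=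
  bk_near (sq_near hs hz hz' h).1 (sq_near hs hz hz' h).2

theorem mem_Pg {s : ℝ} {F : Set V} {z : ℂ} : z ∈ Pg s F ↔ ∃ q ∈ F, z ∈ sq s q := by
  unfold Tenx416.Pg
  simp only [Set.mem_iUnion, exists_prop]

theorem mem_Vin {S : Finset ℂ} {P : Set ℂ} {d : ℝ} {x : ℂ} :
    x ∈ Vin S P d ↔ x ∈ S ∧ Metric.closedBall x (2 * d) ⊆ P := by
  unfold NetVx346.Vin
  rw [Finset.mem_filter]

theorem Pg_mono {s : ℝ} {F G : Set V} (h : F ⊆ G) : Pg s F ⊆ Pg s G := by
  intro z hz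
  obtain ⟨q, hq, hz⟩ := mem_Pg.1 hz
  exact mem_Pg.2 ⟨q, h hq, hz⟩

variable {S : Finset ℂ} {A : ZMod 3 → Set ℂ} {x0 : ℂ} {L d s : ℝ}

theorem numbers (h : Stg S A x0 L d s) : 0 < s ∧ 0 < d ∧ 2 ^ 17 * (2 * d) ≤ s ∧
    2 ^ 17 * (6 * √(L * d)) ≤ s := by
  have hd := h.dns.dpos
  have hL := h.dns.dL
  have h1 := h.scl
  have h2 : d ≤ √(L * d) := by
    apply Real.le_sqrt_of_sq_le
    nlinarith
  have h3 : 0 < √(L * d) := lt_of_lt_of_le hd h2
  have h4 : (2 : ℝ) ^ 20 = 8 * 2 ^ 17 := by norm_num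
  rw [h4] at h1
  refine ⟨lt_of_lt_of_le (by positivity) h1, hd, ?_, ?_⟩
  · have : (2 : ℝ) ^ 17 * (2 * d) ≤ 2 ^ 17 * (2 * √(L * d)) := by gcongr
    linarith
  · linarith

theorem edge_len (h : Stg S A x0 L d s) {x y : ℂ} (hxy : Adj S x y) : ‖x - y‖ ≤ s / 2 ^ 17 := by
  have h0 : Cfgx416.Adj S x y := by
    rcases hxy with ⟨c, h1⟩ | ⟨c, h1⟩
    · exact ⟨c, Or.inl h1⟩
    · exact ⟨c, Or.inr h1⟩
  have h1 := D4Lx408.adj_len h.dns h0
  have h2 := (numbers h).2.2.2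
  rw [le_div_iff₀ (by positivity)]
  linarith

/-- a good point near a point of the component is in the component -/
theorem in_comp (hs : 0 < s) {U : Finset Bk} (hU : Cm A x0 L s U) {q : V} {z y : ℂ}
    (hq : q ∈ cells (U : Set Bk)) (hz : z ∈ sq s q) (hy : y ∈ Pg s (cells (Gd A x0 L s)))
    (h : ‖z - y‖ < s) : y ∈ Pg s (cells (U : Set Bk)) := by
  obtain ⟨q', hq', hy'⟩ := mem_Pg.1 hy
  refine mem_Pg.2 ⟨q', ?_, hy'⟩
  rw [mem_cells] at hq hq' ⊢
  rcases pt_near hs hz hy' h with h1 | h1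
  · rw [h1]; exact hq
  · exact hU.cl _ hq _ h1 hq'

theorem self_mem {x : ℂ} (hd : 0 < d) : x ∈ Metric.closedBall x (2 * d) :=
  Metric.mem_closedBall_self (by positivity)

/-- **COMP** -/
theorem comp : COMP := by
  intro S A x0 L d s hS
  obtain ⟨hs, hd, h2d, -⟩ := numbers hS
  have hsd : 2 * d ≤ s / 2 ^ 17 := by rw [le_div_iff₀ (by positivity)]; linarith
  have hs8 : s / 2 ^ 17 ≤ s / 8 := by
    apply div_le_div_of_nonneg_left hs.le (by norm_num) (by norm_num)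
  refine ⟨fun U hU => ⟨?_, ?_, ?_⟩, ?_⟩
  · intro v hv
    unfold Vu at hv
    unfold Va Al
    rw [mem_Vin] at hv ⊢
    exact ⟨hv.1, hv.2.trans (Pg_mono fun q hq => hU.sub _ hq)⟩
  · intro v hv w hw hvw
    have hl := edge_len hS hvw
    unfold Vu at hv ⊢
    unfold Va Al at hw
    rw [mem_Vin] at hv hw ⊢
    refine ⟨hw.1, fun y hy => ?_⟩
    obtain ⟨q, hq, hvq⟩ := mem_Pg.1 (hv.2 (self_mem hd))
    refine in_comp hs hU hq hvq (hw.2 hy) ?_
    rw [Metric.mem_closedBall, dist_eq_norm, norm_sub_rev] at hy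
    calc ‖v - y‖ ≤ ‖v - w‖ + ‖w - y‖ := norm_sub_le_norm_sub_add_norm_sub _ _ _
      _ ≤ s / 8 + s / 8 := by linarith
      _ < s := by linarith
  · intro v hv x hvx a b hab hx
    have hl := edge_len hS hvx
    unfold Vu at hv
    rw [mem_Vin] at hv
    obtain ⟨q, hq, hvq⟩ := mem_Pg.1 (hv.2 (self_mem hd))
    obtain ⟨h1, h2, h3⟩ := hab
    refine ⟨h1, ?_, fun h4 => h3 (hU.sub _ h4)⟩
    obtain ⟨y, hy, hxy⟩ : ∃ y ∈ ed s a b, dist x y < s / 4 := by
      rw [← Metric.infDist_lt_iff (s := ed s a b) ⟨pt s a, left_mem_segment ℝ _ _⟩]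
      linarith
    rw [dist_eq_norm] at hxy
    rw [norm_sub_rev] at hl
    have hvy : ‖v - y‖ < s := by
      calc ‖v - y‖ ≤ ‖v - x‖ + ‖x - y‖ := norm_sub_le_norm_sub_add_norm_sub _ _ _
        _ < s := by linarith
    rw [mem_cells] at hq h2 ⊢
    rcases pt_near hs hvq (Crest.Agent.R158.Sp896.ed_sub_lc hs h1 hy) hvy with h4 | h4
    · rw [h4]; exact hq
    · exact hU.cl _ hq _ h4 h2
  · intro v hv
    unfold Va Al at hv
    rw [mem_Vin] at hv
    obtain ⟨q, hq, hvq⟩ := mem_Pg.1 (hv.2 (self_mem hd))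
    refine ⟨bk q, hq, fun U hU hb => ?_⟩
    unfold Vu
    rw [mem_Vin]
    refine ⟨hv.1, fun y hy => ?_⟩
    refine in_comp hs hU (q := q) hb hvq (hv.2 hy) ?_
    rw [Metric.mem_closedBall, dist_eq_norm, norm_sub_rev] at hy
    linarith

end Crest.Agent.R143.Compx66
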