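import Mathlib

/-!
# Row 143 (S0194): independent summands of a small sum are almost constant (helper434)

* `conc` : `X`, `Y` independent and `‖X + Y‖ ≤ a` outside an event of probability `ε` imply that
  `‖X - c‖ ≤ a` outside an event of probability `ε` for some constant `c`
* `conc_fin` : the same for a finite independent family
* `conc_rot` : if moreover all summands have the law of `u k * X k0` (rotated copies), one constant
  serves for all
* `conc_all` : every further copy is close to the same (rotated) constant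
* `const_near` : two constants close to the same variable are close to each other
-/

set_option autoImplicit false

noncomputable section

namespace Crest.Agent.R143.Concx434

open MeasureTheory ProbabilityTheory Set
open scoped ENNReal

variable {Ω : Type*} [MeasurableSpace Ω] {μ : Measure Ω}
variable {E : Type*} [NormedAddCommGroup E] [MeasurableSpace E] [BorelSpace E]
  [SecondCountableTopology E]

/-- **independent summands of a small sum are almost constant** -/
theorem conc [IsProbabilityMeasure μ] {X Y : Ω → E} (hX : AEMeasurable X μ)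
    (hY : AEMeasurable Y μ) (h : IndepFun X Y μ) {a : ℝ} {ε : ℝ≥0∞}
    (H : μ {ω | a < ‖X ω + Y ω‖} ≤ ε) : ∃ c : E, μ {ω | a < ‖X ω - c‖} ≤ ε := by
  have hXY := (indepFun_iff_map_prod_eq_prod_map_map hX hY).1 h
  have : IsProbabilityMeasure (μ.map X) := Measure.isProbabilityMeasure_map hX
  have : IsProbabilityMeasure (μ.map Y) := Measure.isProbabilityMeasure_map hY
  set s : Set (E × E) := {p | a < ‖p.1 + p.2‖} with hs
  have hsm : MeasurableSet s :=
    measurableSet_lt measurable_const ((continuous_fst.add continuous_snd).norm.measurable)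
  have h1 : ((μ.map X).prod (μ.map Y)) s ≤ ε := by
    rw [← hXY, Measure.map_apply_of_aemeasurable (hX.prodMk hY) hsm]
    exact H
  rw [Measure.prod_apply_symm hsm] at h1
  -- some section is small
  obtain ⟨y, hy⟩ : ∃ y, (μ.map X) ((fun x => (x, y)) ⁻¹' s) ≤ ε := by
    by_contra hc
    push Not at hc
    have h2 : ∫⁻ y, ε ∂(μ.map Y) < ∫⁻ y, (μ.map X) ((fun x => (x, y)) ⁻¹' s) ∂(μ.map Y) := by
      have hε : ε ≠ ⊤ := by
        intro h3
        rw [h3] at hc
        exact absurd (hc 0) (by simp)
      refine lintegral_strict_mono (IsProbabilityMeasure.ne_zero _)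
        (measurable_measure_prodMk_right hsm).aemeasurable ?_ (Filter.Eventually.of_forall hc)
      simp [hε]
    simp only [lintegral_const, measure_univ, mul_one] at h2
    exact absurd h1 (not_le.2 h2)
  refine ⟨-y, ?_⟩
  have hm : MeasurableSet ((fun x => (x, y)) ⁻¹' s) := measurable_prodMk_right hsm
  rw [Measure.map_apply_of_aemeasurable hX hm] at hy
  refine le_trans (measure_mono ?_) hy
  intro ω hω
  simp only [mem_ofPred_eq, sub_neg_eq_add] at hω
  exact hω

/-- finite families -/
theorem conc_fin [IsProbabilityMeasure μ] {ι : Type*} [Fintype ι] [DecidableEq ι] {X : ι → Ω → E}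
    (hX : ∀ i, Measurable (X i)) (h : iIndepFun X μ) {a : ℝ} {ε : ℝ≥0∞}
    (H : μ {ω | a < ‖∑ i, X i ω‖} ≤ ε) (i : ι) : ∃ c : E, μ {ω | a < ‖X i ω - c‖} ≤ ε := by
  have h1 : IndepFun (X i) (∑ j ∈ Finset.univ.erase i, X j) μ :=
    (h.indepFun_finsetSum_of_notMem (fun j => hX j) (Finset.notMem_erase i _)).symm
  refine conc (hX i).aemeasurable ?_ h1 (le_trans (measure_mono ?_) H)
  · have h2 : Measurable (fun ω => ∑ j ∈ Finset.univ.erase i, X j ω) :=
      Finset.measurable_sum _ fun j _ => hX j
    have h3 : (∑ j ∈ Finset.univ.erase i, X j) = fun ω => ∑ j ∈ Finset.univ.erase i, X j ω := by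
      ext ω; simp
    rw [h3]
    exact h2.aemeasurable
  · intro ω hω
    simp only [mem_ofPred_eq, Finset.sum_apply] at hω ⊢
    rwa [Finset.add_sum_erase _ (fun j => X j ω) (Finset.mem_univ i)] at hω

/-- a rotated copy is close to the rotated constant -/
theorem conc_all {Ω' : Type*} [MeasurableSpace Ω'] {ν : Measure Ω'} {X : Ω → ℂ} {Y : Ω' → ℂ}
    {u c : ℂ} (hu : ‖u‖ = 1) (h : IdentDistrib Y (fun ω => u * X ω) ν μ) {a : ℝ} {ε : ℝ≥0∞}
    (H : μ {ω | a < ‖X ω - c‖} ≤ ε) : ν {ω | a < ‖Y ω - u * c‖} ≤ ε := by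
  have hm : MeasurableSet {z : ℂ | a < ‖z - u * c‖} :=
    measurableSet_lt measurable_const ((continuous_id.sub continuous_const).norm.measurable)
  have h1 := h.measure_mem_eq hm
  have h2 : Y ⁻¹' {z : ℂ | a < ‖z - u * c‖} = {ω | a < ‖Y ω - u * c‖} := rfl
  rw [← h2, h1]
  refine le_trans (measure_mono ?_) H
  intro ω hω
  simp only [mem_preimage, mem_ofPred_eq] at hω ⊢
  rwa [← mul_sub, norm_mul, hu, one_mul] at hω

/-- **one constant for all the rotated copies** -/
theorem conc_rot [IsProbabilityMeasure μ] {ι : Type*} [Fintype ι] [DecidableEq ι] {X : ι → Ω → ℂ}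
    (hX : ∀ i, Measurable (X i)) (h : iIndepFun X μ) (i0 : ι) {u : ι → ℂ} (hu : ∀ i, ‖u i‖ = 1)
    (hid : ∀ i, IdentDistrib (X i) (fun ω => u i * X i0 ω) μ μ) {a : ℝ} {ε : ℝ≥0∞}
    (H : μ {ω | a < ‖∑ i, X i ω‖} ≤ ε) :
    ∃ c : ℂ, ∀ i, μ {ω | a < ‖X i ω - u i * c‖} ≤ ε := by
  obtain ⟨c, hc⟩ := conc_fin hX h H i0
  exact ⟨c, fun i => conc_all (hu i) (hid i) hc⟩

/-- two constants which are close to the same variable with positive probability are close -/
theorem const_near [IsProbabilityMeasure μ] {X : Ω → E} {c c' : E} {a a' : ℝ} {ε ε' : ℝ≥0∞}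
    (H : μ {ω | a < ‖X ω - c‖} ≤ ε) (H' : μ {ω | a' < ‖X ω - c'‖} ≤ ε') (h1 : ε + ε' < 1) :
    ‖c - c'‖ ≤ a + a' := by
  by_contra hc
  push Not at hc
  have h2 : (univ : Set Ω) ⊆ {ω | a < ‖X ω - c‖} ∪ {ω | a' < ‖X ω - c'‖} := by
    intro ω _
    by_contra h3
    simp only [mem_union, mem_ofPred_eq, not_or, not_lt] at h3
    have h4 : c - c' = (X ω - c') - (X ω - c) := by abel
    have h5 := norm_sub_le (X ω - c') (X ω - c)
    rw [← h4] at h5
    linarith [h3.1, h3.2]
  have h6 := (measure_mono (μ := μ) h2).trans (measure_union_le _ _)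
  rw [measure_univ] at h6
  exact absurd (h6.trans (add_le_add H H')) (not_le.2 h1)

end Crest.Agent.R143.Concx434
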