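import Crest.Agent.R143.XW1_315
import Crest.Agent.R143.K33D_877
import Crest.Agent.R143.ArmP_930

/-!
# Row 143 (S0194), CONT, probability: what a cluster exploration leaves is fresh (helper930)

* `StpF V R` : `R` = the revealed sites of an exploration of the fair colouring of `V`
* `cond_le` : an event which has probability at most `p` whatever has been revealed
* `Rv S U B β` : the cluster `Clu S (U \ β) B` and its neighbours in `U`; `stp_rv`, `clu_eq`
* `fresh_le` : `P (an arm of unrevealed sites at a place chosen by the exploration) ≤ p`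
-/

set_option autoImplicit false

noncomputable section

open scoped Classical

namespace Crest.Agent.R143.CondArmx930

open Finset
open Crest.Agent.R143.Harx315 Crest.Agent.R143.XW1x315

section abstractpart

variable {α : Type*} {V : Finset α} {R : Finset α → Finset α}

/-- stopping set -/
def StpF (V : Finset α) (R : Finset α → Finset α) : Prop :=
  ∀ β, β ⊆ V → ∀ β', β' ⊆ V → β' ∩ R β = β ∩ R β → R β' = R β

/-- **an event which has probability at most `p` whatever has been revealed** -/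
theorem cond_le (hR : StpF V R) {A : Finset α → Prop} {p : ℝ}
    (h : ∀ β, β ⊆ V → pr (V \ R β) (fun γ => A (β ∩ R β ∪ γ)) ≤ p) : pr V A ≤ p := by
  have key : ∀ β, β ⊆ V → ∀ β', β' ⊆ V →
      ((R β', β' ∩ R β') = (R β, β ∩ R β) ↔ β' ∩ R β = β ∩ R β) := by
    intro β hβ β' hβ'
    constructor
    · intro e
      rw [Prod.mk.injEq] at e
      rw [← e.1, e.2, e.1]
    · intro e
      have := hR β hβ β' hβ' e
      rw [Prod.mk.injEq]
      exact ⟨this, by rw [this, e]⟩
  -- number of elements of an atom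
  have cardatom : ∀ β, β ⊆ V → ∀ P : Finset α → Prop,
      ((V.powerset.filter fun β' => β' ∩ R β = β ∩ R β ∧ P β').card : ℝ) =
        pr (V \ R β) (fun γ => P (β ∩ R β ∪ γ)) * 2 ^ (V \ R β).card := by
    intro β hβ P
    unfold pr
    rw [div_mul_cancel₀ _ (two_pos' _).ne']
    unfold nb
    congr 1
    symm
    refine Finset.card_bij (fun γ _ => β ∩ R β ∪ γ) ?_ ?_ ?_
    · intro γ hγ
      rw [mem_fil] at hγ
      rw [mem_filter, mem_powerset]
      refine ⟨union_subset (inter_subset_left.trans hβ) (hγ.1.trans sdiff_subset), ?_, hγ.2⟩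
      ext x
      simp only [mem_inter, mem_union]
      constructor
      · rintro ⟨h1 | h1, h2⟩
        · exact ⟨h1.1, h2⟩
        · exact absurd h2 (mem_sdiff.1 (hγ.1 h1)).2
      · rintro ⟨h1, h2⟩
        exact ⟨Or.inl ⟨h1, h2⟩, h2⟩
    · intro γ hγ γ' hγ' e
      rw [mem_fil] at hγ hγ'
      ext x
      constructor
      · intro hx
        have h1 : x ∈ β ∩ R β ∪ γ' := by rw [← e]; exact mem_union_right _ hx
        rcases mem_union.1 h1 with h2 | h2
        · exact absurd (mem_inter.1 h2).2 (mem_sdiff.1 (hγ.1 hx)).2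
        · exact h2
      · intro hx
        have h1 : x ∈ β ∩ R β ∪ γ := by rw [e]; exact mem_union_right _ hx
        rcases mem_union.1 h1 with h2 | h2
        · exact absurd (mem_inter.1 h2).2 (mem_sdiff.1 (hγ'.1 hx)).2
        · exact h2
    · intro β' hβ'
      rw [mem_filter, mem_powerset] at hβ'
      have e : β ∩ R β ∪ (β' \ R β) = β' := by
        rw [← hβ'.2.1]
        ext x
        simp only [mem_union, mem_inter, mem_sdiff]
        tauto
      refine ⟨β' \ R β, ?_, e⟩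
      rw [mem_fil]
      refine ⟨sdiff_subset_sdiff hβ'.1 subset_rfl, ?_⟩
      rw [e]
      exact hβ'.2.2
  unfold pr
  rw [div_le_iff₀ (two_pos' _)]
  have e1 : (nb V A : ℝ) = ∑ c ∈ V.powerset.image (fun β => (R β, β ∩ R β)),
      ((V.powerset.filter fun β' => (R β', β' ∩ R β') = c ∧ A β').card : ℝ) := by
    unfold nb fl
    rw [Finset.card_eq_sum_card_fiberwise (f := fun β => (R β, β ∩ R β))
      (t := V.powerset.image (fun β => (R β, β ∩ R β)))
      (fun β hβ => mem_coe.2 (mem_image_of_mem _ (mem_filter.1 (mem_coe.1 hβ)).1))]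
    push_cast
    refine sum_congr rfl fun c _ => ?_
    congr 2
    rw [filter_filter]
    refine filter_congr fun β _ => ?_
    tauto
  have e2 : (2 : ℝ) ^ V.card = ∑ c ∈ V.powerset.image (fun β => (R β, β ∩ R β)),
      ((V.powerset.filter fun β' => (R β', β' ∩ R β') = c).card : ℝ) := by
    have : ((V.powerset.card : ℕ) : ℝ) = 2 ^ V.card := by rw [card_powerset]; push_cast; rfl
    rw [← this, Finset.card_eq_sum_card_fiberwise (f := fun β => (R β, β ∩ R β))
      (t := V.powerset.image (fun β => (R β, β ∩ R β)))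
      (fun β hβ => mem_coe.2 (mem_image_of_mem _ (mem_coe.1 hβ)))]
    push_cast
    rfl
  rw [e1, e2, mul_sum]
  refine sum_le_sum fun c hc => ?_
  obtain ⟨β, hβ, rfl⟩ := mem_image.1 hc
  rw [mem_powerset] at hβ
  have h0 := cardatom β hβ fun _ => True
  rw [pr_true, one_mul] at h0
  have c2 : ((V.powerset.filter fun β' => (R β', β' ∩ R β') = (R β, β ∩ R β)).card : ℝ) =
      2 ^ (V \ R β).card := by
    rw [← h0]
    congr 2
    ext β'
    simp only [mem_filter]
    constructor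
    · rintro ⟨a, b⟩
      exact ⟨a, (key β hβ β' (mem_powerset.1 a)).1 b, trivial⟩
    · rintro ⟨a, b, -⟩
      exact ⟨a, (key β hβ β' (mem_powerset.1 a)).2 b⟩
  have c1 : ((V.powerset.filter fun β' => (R β', β' ∩ R β') = (R β, β ∩ R β) ∧ A β').card : ℝ) =
      pr (V \ R β) (fun γ => A (β ∩ R β ∪ γ)) * 2 ^ (V \ R β).card := by
    rw [← cardatom β hβ A]
    congr 2
    ext β'
    simp only [mem_filter]
    constructor
    · rintro ⟨a, b, c⟩
      exact ⟨a, (key β hβ β' (mem_powerset.1 a)).1 b, c⟩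
    · rintro ⟨a, b, c⟩
      exact ⟨a, (key β hβ β' (mem_powerset.1 a)).2 b, c⟩
  rw [c1, c2]
  exact mul_le_mul_of_nonneg_right (h β hβ) (two_pos' _).le

/-- an event of the unrevealed sites at a place chosen by the exploration -/
theorem fresh_le (hR : StpF V R) {ι : Type*} {z : Finset α → ι}
    (hz : ∀ β, β ⊆ V → ∀ β', β' ⊆ V → β' ∩ R β = β ∩ R β → z β' = z β)
    {E : ι → Finset α → Finset α → Prop} {p : ℝ}
    (h : ∀ β, β ⊆ V → pr (V \ R β) (fun γ => E (z β) (V \ R β) γ) ≤ p) :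
    pr V (fun β => E (z β) (V \ R β) (β \ R β)) ≤ p := by
  refine cond_le hR fun β hβ => le_trans (pr_mono fun γ hγ hE => ?_) (h β hβ)
  have h1 : β ∩ R β ∪ γ ⊆ V := union_subset (inter_subset_left.trans hβ) (hγ.trans sdiff_subset)
  have h2 : (β ∩ R β ∪ γ) ∩ R β = β ∩ R β := by
    ext x
    simp only [mem_inter, mem_union]
    constructor
    · rintro ⟨h1 | h1, h2⟩
      · exact ⟨h1.1, h2⟩
      · exact absurd h2 (mem_sdiff.1 (hγ h1)).2
    · rintro ⟨h1, h2⟩
      exact ⟨Or.inl ⟨h1, h2⟩, h2⟩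
  rw [hz β hβ _ h1 h2, hR β hβ _ h1 h2] at hE
  have h3 : (β ∩ R β ∪ γ) \ R β = γ := by
    ext x
    simp only [mem_sdiff, mem_inter, mem_union]
    constructor
    · rintro ⟨h1 | h1, h2⟩
      · exact absurd h1.2 h2
      · exact h1
    · intro h1
      exact ⟨Or.inr h1, (mem_sdiff.1 (hγ h1)).2⟩
  rw [h3] at hE
  exact hE

end abstractpart

section cluster

open Crest.Agent.R143.B0x346 Crest.Agent.R143.DelGx806 Crest.Agent.R143.DelRx806
  Crest.Agent.R143.JColx54 Crest.Agent.R143.RE0x723 Crest.Agent.R143.K33x877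
open Crest.Agent.R143.D3Fx802 (CArm)
open Crest.Agent.R143.Lawx872 (ConnIn)

variable {S U V β β' : Finset ℂ} {B : Set ℂ} {v w : ℂ}

/-- the cluster of `B` in the sites of `U` off `β` -/
def Cw (S U : Finset ℂ) (B : Set ℂ) (β : Finset ℂ) : Set ℂ := Clu S (↑U \ ↑β) B

/-- revealed sites of the exploration of the cluster -/
def Rv (S U : Finset ℂ) (B : Set ℂ) (β : Finset ℂ) : Finset ℂ :=
  U.filter fun v => v ∈ Cw S U B β ∨ ∃ y ∈ Cw S U B β, Adj S y v

theorem base_cw {x : ℂ} (h : x ∈ B) : x ∈ Cw S U B β := ⟨x, h, Pth.refl (Or.inr h)⟩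

theorem step_cw (hv : v ∈ Cw S U B β) (ha : Adj S v w) (hw : w ∈ U) (hw' : w ∉ β) :
    w ∈ Cw S U B β := by
  obtain ⟨x, hx, hp⟩ := hv
  exact ⟨x, hx, hp.tail ha (Or.inl ⟨Finset.mem_coe.2 hw, fun h => hw' (Finset.mem_coe.1 h)⟩)⟩

/-- **the cluster depends on the revealed colours only** -/
theorem cw_eq (h : β' ∩ Rv S U B β = β ∩ Rv S U B β) : Cw S U B β' = Cw S U B β := by
  have hrev : ∀ v, v ∈ Rv S U B β → (v ∈ β' ↔ v ∈ β) := by
    intro v hv
    constructor
    · intro h1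
      have : v ∈ β' ∩ Rv S U B β := Finset.mem_inter.2 ⟨h1, hv⟩
      rw [h] at this
      exact (Finset.mem_inter.1 this).1
    · intro h1
      have : v ∈ β ∩ Rv S U B β := Finset.mem_inter.2 ⟨h1, hv⟩
      rw [← h] at this
      exact (Finset.mem_inter.1 this).1
  ext v
  constructor
  · rintro ⟨x, hx, hp⟩
    refine Pth.ind (P := fun v => v ∈ Cw S U B β) hp (base_cw hx) ?_
    intro a b _ hb hab ha
    rcases hb with ⟨h1, h2⟩ | h1
    · have h1' : b ∈ U := Finset.mem_coe.1 h1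
      refine step_cw ha hab h1' fun h3 => h2 (Finset.mem_coe.2 ((hrev b ?_).2 h3))
      exact Finset.mem_filter.2 ⟨h1', Or.inr ⟨a, ha, hab⟩⟩
    · exact base_cw h1
  · rintro ⟨x, hx, hp⟩
    have hx' : x ∈ Cw S U B β ∧ x ∈ Cw S U B β' := ⟨base_cw hx, base_cw hx⟩
    refine (Pth.ind (P := fun v => v ∈ Cw S U B β ∧ v ∈ Cw S U B β') hp hx' ?_).2
    intro a b _ hb hab ha
    rcases hb with ⟨h1, h2⟩ | h1
    · have h1' : b ∈ U := Finset.mem_coe.1 h1
      have h2' : b ∉ β := fun h => h2 (Finset.mem_coe.2 h)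
      have h3 : b ∈ Cw S U B β := step_cw ha.1 hab h1' h2'
      have h4 : b ∉ β' := fun h5 => h2' ((hrev b (Finset.mem_filter.2 ⟨h1', Or.inl h3⟩)).1 h5)
      exact ⟨h3, step_cw ha.2 hab h1' h4⟩
    · exact ⟨base_cw h1, base_cw h1⟩

theorem stp_rv (V : Finset ℂ) : StpF V (Rv S U B) := by
  intro β _ β' _ h
  unfold Rv
  rw [cw_eq h]

/-- a site off `β` and off the cluster has not been revealed -/
theorem fresh_site (hv : v ∉ β) (h : v ∉ Cw S U B β) : v ∉ Rv S U B β := by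
  intro h1
  obtain ⟨h2, h3 | ⟨y, h3, h4⟩⟩ := Finset.mem_filter.1 h1
  · exact h h3
  · exact h (step_cw h3 h4 h2 hv)

theorem conn_of_pth {T : Set ℂ} {W : Finset ℂ} (hT : ∀ x ∈ T, x ∈ W) {x y : ℂ}
    (h : Pth S T x y) : ConnIn S W x y := by
  obtain ⟨hx, h⟩ := h
  have : y ∈ T ∧ ConnIn S W x y := by
    induction h with
    | refl => exact ⟨hx, Relation.ReflTransGen.refl⟩
    | tail _ h2 ih => exact ⟨h2.2, ih.2.tail ⟨h2.1, hT _ ih.1, hT _ h2.2⟩⟩
  exact this.2

/-- **an arm of sites off `β` and off the cluster of `B` (`β` = one colour), at a place chosen by the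
exploration** -/
theorem arm_fresh (hV : V ⊆ S) {c : Finset ℂ → ℂ} {a b p : ℝ}
    (hc : ∀ β, β ⊆ V → ∀ β', β' ⊆ V → β' ∩ Rv S U B β = β ∩ Rv S U B β → c β' = c β)
    (h : ∀ β, β ⊆ V → ∀ W, W ⊆ S → pr W (fun γ => CArm S γ (c β) a b) ≤ p) :
    pr V (fun β => ∃ x y, ‖x - c β‖ ≤ a ∧ b ≤ ‖y - c β‖ ∧
      Pth S {v | v ∈ V ∧ v ∉ β ∧ v ∉ Cw S U B β} x y) ≤ p := by
  have key := fresh_le (V := V) (R := Rv S U B) (stp_rv V) (z := c) hc
    (E := fun q W γ => CArm S (W \ γ) q a b) (p := p) ?_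
  · refine le_trans (pr_mono fun β hβ hE => ?_) key
    obtain ⟨x, y, h1, h2, h3⟩ := hE
    have hT : ∀ v ∈ {v | v ∈ V ∧ v ∉ β ∧ v ∉ Cw S U B β},
        v ∈ (V \ Rv S U B β) \ (β \ Rv S U B β) := by
      rintro v ⟨k1, k2, k3⟩
      rw [Finset.mem_sdiff, Finset.mem_sdiff]
      exact ⟨⟨k1, fresh_site k2 k3⟩, fun k4 => k2 (Finset.mem_sdiff.1 k4).1⟩
    exact ⟨x, y, hT x h3.1, hT y h3.snd, h1, h2, conn_of_pth hT h3⟩
  · intro β hβ
    rw [pr_flip (V \ Rv S U B β) fun γ => CArm S γ (c β) a b]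
    exact h β hβ _ (Finset.sdiff_subset.trans hV)

/-- the same for the cluster of the other colour -/
theorem arm_fresh' (hV : V ⊆ S) {c : Finset ℂ → ℂ} {a b p : ℝ}
    (hc : ∀ β, β ⊆ V → ∀ β', β' ⊆ V →
      β' ∩ Rv S U B (V \ β) = β ∩ Rv S U B (V \ β) → c β' = c β)
    (h : ∀ β, β ⊆ V → ∀ W, W ⊆ S → pr W (fun γ => CArm S γ (c β) a b) ≤ p) :
    pr V (fun β => ∃ x y, ‖x - c β‖ ≤ a ∧ b ≤ ‖y - c β‖ ∧
      Pth S {v | v ∈ β ∧ v ∉ Cw S U B (V \ β)} x y) ≤ p := by
  have key := arm_fresh (S := S) (U := U) (B := B) (V := V) hV (c := fun β => c (V \ β))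
    (a := a) (b := b) (p := p) ?_ ?_
  · rw [← pr_flip] at key
    refine le_trans (pr_mono fun β hβ hE => ?_) key
    obtain ⟨x, y, h1, h2, h3⟩ := hE
    have e : V \ (V \ β) = β := Finset.sdiff_sdiff_eq_self hβ
    refine ⟨x, y, by rw [e]; exact h1, by rw [e]; exact h2, h3.mono ?_⟩
    rintro v ⟨k1, k2⟩
    refine ⟨hβ k1, ?_, k2⟩
    rw [Finset.mem_sdiff]
    exact fun k3 => k3.2 k1
  · intro β hβ β' hβ' e
    refine hc _ Finset.sdiff_subset _ Finset.sdiff_subset ?_
    rw [Finset.sdiff_sdiff_eq_self hβ]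
    ext v
    simp only [Finset.mem_inter, Finset.mem_sdiff]
    have e' : v ∈ β' ∩ Rv S U B β ↔ v ∈ β ∩ Rv S U B β := by rw [e]
    simp only [Finset.mem_inter] at e'
    constructor
    · rintro ⟨⟨k1, k2⟩, k3⟩
      exact ⟨⟨k1, fun k4 => k2 (e'.2 ⟨k4, k3⟩).1⟩, k3⟩
    · rintro ⟨⟨k1, k2⟩, k3⟩
      exact ⟨⟨k1, fun k4 => k2 (e'.1 ⟨k4, k3⟩).1⟩, k3⟩
  · intro β hβ W hW
    exact h _ Finset.sdiff_subset W hW

end cluster

end Crest.Agent.R143.CondArmx930
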