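import Crest.Agent.R143.Asm4_414

/-!
# Row 143 (S0194), block H (helper440): the conditional weight `E[g | Out]` as a functional

`Jf A β` = stopping set of the colours `β` of the sites `A` (`IsStop A (Jf A)`), `g` = any weight of the
painted configuration (it need not be decided by `Jf`).
* `cw Jf g` : mean of `g` over the fresh coins; `cw_paint`, `cw_dec` (decided), `cw_ne` (a class with
  `cw ≠ 0` has a member with `g ≠ 0`), `cw_ne'` (decided facts), `cw_le_one`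
* `sum_cw` : `Σ cw F = Σ cw (av F) = Σ g (av F)`; `sum_cw_dec` : `Σ cw F = Σ g F` for decided `F`
* `mq_cw`, `Wt` : quenched mean and mass of a weight, `wt_cw`, `wt_fm`
-/

set_option autoImplicit false

noncomputable section

open scoped Classical

namespace Crest.Agent.R143.CondWx440

open MeasureTheory
open Crest.ProbabilityR.Voronoi
open Crest.Agent.R143.B0x346 Crest.Agent.R143.Dblx609 Crest.Agent.R143.Dbl2x609
  Crest.Agent.R143.HGluex136 Crest.Agent.R143.Harx315 Crest.Agent.R143.Histx389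
  Crest.Agent.R143.Asm4x414
open scoped ENNReal

section abstract

variable {α : Type*} {V : Finset α} {J : Finset α → Finset α}

theorem out_inter {b b' R : Finset α} (hb' : b' ⊆ V \ R) : (b' ∪ (b ∩ R)) ∩ R = b ∩ R := by
  ext y
  simp only [Finset.mem_inter, Finset.mem_union]
  constructor
  · rintro ⟨h3 | h3, h4⟩
    · exact absurd h4 (Finset.mem_sdiff.1 (hb' h3)).2
    · exact h3
  · exact fun h3 => ⟨Or.inr h3, h3.2⟩

theorem out_sub {b b' R : Finset α} (hb : b ⊆ V) (hb' : b' ⊆ V \ R) : b' ∪ (b ∩ R) ⊆ V :=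
  Finset.union_subset (hb'.trans Finset.sdiff_subset) (Finset.inter_subset_left.trans hb)

/-- the conditional mean is decided -/
theorem av_dec (hJ : IsStop V J) (H : Finset α → ℝ≥0∞) : DecF V J fun b => av V (J b) H b := by
  intro b b' hb hb' h
  have e := hJ.stop b b' hb hb' h
  show av V (J b) H b = av V (J b') H b'
  unfold av
  rw [e, h]

/-- decided factor -/
theorem av_mul_dec {w : Finset α → ℝ≥0∞} (hw : DecF V J w)
    (H : Finset α → ℝ≥0∞) {b : Finset α} (hb : b ⊆ V) :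
    av V (J b) (fun b => w b * H b) b = w b * av V (J b) H b := by
  unfold av
  have h1 : ∀ b' ∈ (V \ J b).powerset, w (b' ∪ (b ∩ J b)) * H (b' ∪ (b ∩ J b)) =
      w b * H (b' ∪ (b ∩ J b)) := by
    intro b' hb'
    rw [Finset.mem_powerset] at hb'
    rw [hw b (b' ∪ (b ∩ J b)) hb (out_sub hb hb') (out_inter hb').symm]
  rw [Finset.sum_congr rfl h1, ← Finset.mul_sum, mul_left_comm]

/-- the conditional mean of a decided function -/
theorem av_of_dec {w : Finset α → ℝ≥0∞} (hw : DecF V J w) {b : Finset α}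
    (hb : b ⊆ V) : av V (J b) w b = w b := by
  have h := av_mul_dec hw (fun _ => 1) hb
  simp only [mul_one] at h
  rw [h]
  have h1 : av V (J b) (fun _ => (1 : ℝ≥0∞)) b = 1 := by
    unfold av
    rw [Finset.sum_const, Finset.card_powerset, nsmul_eq_mul, mul_one]
    push_cast
    exact ENNReal.inv_mul_cancel (by positivity) (ENNReal.pow_ne_top (by norm_num))
  rw [h1, mul_one]

theorem av_mono {H K : Finset α → ℝ≥0∞} {R b : Finset α} (hb : b ⊆ V)
    (h : ∀ b', b' ⊆ V → b' ∩ R = b ∩ R → H b' ≤ K b') : av V R H b ≤ av V R K b := by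
  unfold av
  gcongr with b' hb'
  rw [Finset.mem_powerset] at hb'
  exact h _ (out_sub hb hb') (out_inter hb')

theorem av_ne {H : Finset α → ℝ≥0∞} {R b : Finset α} (hb : b ⊆ V) (h : av V R H b ≠ 0) :
    ∃ b', b' ⊆ V ∧ b' ∩ R = b ∩ R ∧ H b' ≠ 0 := by
  by_contra hc
  push Not at hc
  apply h
  unfold av
  rw [Finset.sum_eq_zero, mul_zero]
  intro b' hb'
  rw [Finset.mem_powerset] at hb'
  exact hc _ (out_sub hb hb') (out_inter hb')

/-- **the three sums** -/
theorem sum_dec (hJ : IsStop V J) {w : Finset α → ℝ≥0∞} (hw : DecF V J w) (F : Finset α → ℝ≥0∞) :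
    ∑ b ∈ V.powerset, w b * F b = ∑ b ∈ V.powerset, w b * av V (J b) F b := by
  rw [← sum_av hJ fun b => w b * F b]
  refine Finset.sum_congr rfl fun b hb => ?_
  rw [Finset.mem_powerset] at hb
  exact av_mul_dec hw F hb

theorem sum_av_av (hJ : IsStop V J) (g F : Finset α → ℝ≥0∞) :
    ∑ b ∈ V.powerset, av V (J b) g b * F b = ∑ b ∈ V.powerset, g b * av V (J b) F b := by
  rw [sum_dec hJ (av_dec hJ g) F]
  have h := sum_dec hJ (av_dec hJ F) g
  calc ∑ b ∈ V.powerset, av V (J b) g b * av V (J b) F b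
      = ∑ b ∈ V.powerset, av V (J b) F b * av V (J b) g b :=
        Finset.sum_congr rfl fun _ _ => mul_comm _ _
    _ = ∑ b ∈ V.powerset, av V (J b) F b * g b := h.symm
    _ = _ := Finset.sum_congr rfl fun _ _ => mul_comm _ _

end abstract

/-! ### the functional -/

variable {Jf : Finset ℂ → Finset ℂ → Finset ℂ} {g : Set (ℂ × Bool) → ℝ≥0∞} {A : Finset ℂ}

/-- **the conditional weight** -/
def cw (Jf : Finset ℂ → Finset ℂ → Finset ℂ) (g : Set (ℂ × Bool) → ℝ≥0∞) :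
    Set (ℂ × Bool) → ℝ≥0∞ := val fun A β => av A (Jf A β) (fun b => g (paint A b)) β

theorem cw_paint {β : Finset ℂ} (h : β ⊆ A) :
    cw Jf g (paint A β) = av A (Jf A β) (fun b => g (paint A b)) β := val_paint _ h

theorem cw_dec (hJ : IsStop A (Jf A)) : DecF A (Jf A) fun b => cw Jf g (paint A b) := by
  intro b b' hb hb' h
  show cw Jf g (paint A b) = cw Jf g (paint A b')
  rw [cw_paint hb, cw_paint hb']
  exact av_dec hJ _ b b' hb hb' h

/-- the form of `MeanQ` -/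
theorem cw_dec' (hJ : IsStop A (Jf A)) {β β' : Finset ℂ} (hβ : β ⊆ A) (hβ' : β' ⊆ A)
    (h : β' ∩ Jf A β = β ∩ Jf A β) : cw Jf g (paint A β') = cw Jf g (paint A β) :=
  (cw_dec hJ β β' hβ hβ' h.symm).symm

theorem cw_ne {β : Finset ℂ} (hβ : β ⊆ A) (h : cw Jf g (paint A β) ≠ 0) :
    ∃ b', b' ⊆ A ∧ b' ∩ Jf A β = β ∩ Jf A β ∧ g (paint A b') ≠ 0 := by
  rw [cw_paint hβ] at h
  exact av_ne hβ h

/-- a decided fact which holds where `g ≠ 0` holds where `cw ≠ 0` -/
theorem cw_ne' {Q : Finset ℂ → Prop} (hQ : ∀ b b', b ⊆ A → b' ⊆ A → b ∩ Jf A b = b' ∩ Jf A b →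
    (Q b' → Q b)) (hg : ∀ b, b ⊆ A → g (paint A b) ≠ 0 → Q b) {β : Finset ℂ} (hβ : β ⊆ A)
    (h : cw Jf g (paint A β) ≠ 0) : Q β := by
  obtain ⟨b', h1, h2, h3⟩ := cw_ne hβ h
  exact hQ β b' hβ h1 h2.symm (hg b' h1 h3)

theorem cw_le_one (hg : ∀ X, g X ≤ 1) (X : Set (ℂ × Bool)) : cw Jf g X ≤ 1 := by
  unfold cw val av
  calc _ ≤ ((2 : ℝ≥0∞) ^ (st X \ Jf (st X) (bl X)).card)⁻¹ *
        ∑ _b' ∈ (st X \ Jf (st X) (bl X)).powerset, 1 :=
        mul_le_mul_right (Finset.sum_le_sum fun _ _ => hg _) _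
    _ = 1 := by
        rw [Finset.sum_const, Finset.card_powerset, nsmul_eq_mul, mul_one]
        push_cast
        exact ENNReal.inv_mul_cancel (by positivity) (ENNReal.pow_ne_top (by norm_num))

/-- **sums with the conditional weight** -/
theorem sum_cw (hJ : IsStop A (Jf A)) (F : Finset ℂ → ℝ≥0∞) :
    ∑ b ∈ A.powerset, cw Jf g (paint A b) * F b =
      ∑ b ∈ A.powerset, g (paint A b) * av A (Jf A b) F b := by
  rw [← sum_av_av hJ (fun b => g (paint A b)) F]
  refine Finset.sum_congr rfl fun b hb => ?_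
  rw [cw_paint (Finset.mem_powerset.1 hb)]

theorem sum_cw_av (hJ : IsStop A (Jf A)) (F : Finset ℂ → ℝ≥0∞) :
    ∑ b ∈ A.powerset, cw Jf g (paint A b) * F b =
      ∑ b ∈ A.powerset, cw Jf g (paint A b) * av A (Jf A b) F b := sum_dec hJ (cw_dec hJ) F

theorem sum_cw_dec (hJ : IsStop A (Jf A)) {F : Finset ℂ → ℝ≥0∞} (hF : DecF A (Jf A) F) :
    ∑ b ∈ A.powerset, cw Jf g (paint A b) * F b = ∑ b ∈ A.powerset, g (paint A b) * F b := by
  rw [sum_cw hJ]
  refine Finset.sum_congr rfl fun b hb => ?_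
  rw [av_of_dec hF (Finset.mem_powerset.1 hb)]

variable {ε : ℝ} {B : Set ℂ} {ω : Sample}

theorem mq_cw (hJ : IsStop (Ap ε B ω) (Jf (Ap ε B ω))) : mq ε B (cw Jf g) ω = mq ε B g ω := by
  unfold mq
  congr 1
  have h := sum_cw_dec (g := g) hJ (F := fun _ => 1) fun _ _ _ _ _ => rfl
  simpa only [mul_one] using h

theorem mq_cw_dec (hJ : IsStop (Ap ε B ω) (Jf (Ap ε B ω))) {Φ : Set (ℂ × Bool) → ℝ≥0∞}
    (hΦ : DecF (Ap ε B ω) (Jf (Ap ε B ω)) fun b => Φ (paint (Ap ε B ω) b)) :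
    mq ε B (fun X => cw Jf g X * Φ X) ω = mq ε B (fun X => g X * Φ X) ω := by
  unfold mq
  congr 1
  exact sum_cw_dec hJ hΦ

/-- mass of a weight -/
structure Wt (ε : ℝ) (B : Set ℂ) (w : Set (ℂ × Bool) → ℝ≥0∞) (G : ℝ≥0∞) : Prop where
  me : AEMeasurable (fun ω => mq ε B w ω) sampleLaw
  int : ∫⁻ ω, mq ε B w ω ∂sampleLaw = G

theorem wt_fm (hε : 0 < ε) (hBm : MeasurableSet B) (hB : Bornology.IsBounded B)
    (hg : Poisx304.FM g) : Wt ε B g (∫⁻ ω, g (PP0x831.cfg ε ω ∩ ovM Bool B) ∂sampleLaw) :=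
  ⟨mq_meas hε hBm hB hg, lint_eq_mq hε hBm hB hg⟩

theorem wt_cw (hε : 0 < ε) (hBm : MeasurableSet B) (hB : Bornology.IsBounded B)
    (hg : Poisx304.FM g) (hJ : ∀ᵐ ω ∂sampleLaw, IsStop (Ap ε B ω) (Jf (Ap ε B ω))) :
    Wt ε B (cw Jf g) (∫⁻ ω, g (PP0x831.cfg ε ω ∩ ovM Bool B) ∂sampleLaw) := by
  have h := wt_fm hε hBm hB hg
  have e : (fun ω => mq ε B (cw Jf g) ω) =ᵐ[sampleLaw] fun ω => mq ε B g ω := by
    filter_upwards [hJ] with ω h1 using mq_cw h1
  exact ⟨h.me.congr e.symm, (lintegral_congr_ae e).trans h.int⟩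

end Crest.Agent.R143.CondWx440
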