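import Crest.Agent.R143.Conf_686
import Crest.Agent.R143.RingD_117

/-!
# Row 143 (S0194), part A free route: CONFINEMENT in the literal form of `DRing.conf` (helper686)

`conf_FA` : two gate darts `p = (y, z)`, `q = (y2, z2)`; `y -> y2` and `z -> z2` chains of one colour
inside `A`; `A`-edges inside the open set `R`, whose frontier is connected, covered by the triangles
and free of sites. Then the walk from `p` arrives in `q` inside `R`, or the walk from `q` in `p`.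
-/

set_option autoImplicit false

noncomputable section

open scoped Classical

namespace Crest.Agent.R143.Conf2x686

open Crest.Agent.R143.B0x346 Crest.Agent.R143.DelGx806 Crest.Agent.R143.DelRx806
open Crest.Agent.R143.Frame1x395 Crest.Agent.R143.Frame2x395 Crest.Agent.R143.Frame3x395
  Crest.Agent.R143.Frame8x395 Crest.Agent.R143.Frame10x395 Crest.Agent.R143.Frame11x395
open Crest.Agent.R143.Frame5x395 (sd mem_sd th th_spec)
open Crest.Agent.R143.Splx117 Crest.Agent.R143.WLocx713 Crest.Agent.R143.RingDx117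
open Crest.Agent.R143.Blkx838 (DE)
open Crest.Agent.R143.Circx63
open Crest.Agent.R143.Confx686
open Crest.Agent.R143.NonXx592

variable {S : Finset ℂ} {χ : ℂ → ZMod 2} {A R : Set ℂ}

theorem z_self' : ∀ a : ZMod 2, a + a = 0 := by decide

/-- a chain of one colour in `A` -/
theorem ln_rtg (hS : GP (S : Set ℂ)) (hχ : HullC S χ)
    (hseg : ∀ u v, DE S u v → u ∈ A → v ∈ A → segment ℝ u v ⊆ R) {a b : ℂ}
    (h : Relation.ReflTransGen (StC S χ A) a b) :
    Ln (cm0 hS) (xc hS hχ) (Ei S R) (Quot.mk _ a) (Quot.mk _ b) := by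
  induction h with
  | refl => exact Ln.refl _
  | tail _ h1 ih =>
    refine ih.trans ?_
    obtain ⟨hd, hc, hu, hv⟩ := h1
    rename_i u v _
    have hs := hseg u v hd hu hv
    rcases hd with ⟨c, hc'⟩ | ⟨c, hc'⟩
    · have hm : (u, v) ∈ sd S := mem_sd.2 ⟨c, hc'⟩
      refine Ln.one (M := cm0 hS) (d := ⟨(u, v), hm⟩) hs ?_
      show χ u + χ v = 0
      rw [hc, z_self']
    · have hm : (v, u) ∈ sd S := mem_sd.2 ⟨c, hc'⟩
      refine Ln.symm (Ln.one (M := cm0 hS) (d := ⟨(v, u), hm⟩) ?_ ?_)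
      · show segment ℝ v u ⊆ R
        rw [segment_symm]; exact hs
      · show χ v + χ u = 0
        rw [hc, z_self']

/-- the sites of a dart whose triangle is inside `R` -/
theorem rd_of {d : D0 S} (h : cT (tr S d) ⊆ R) : d ∈ RD S R := by
  have h1 := (sg_cT d).trans h
  exact ⟨h1 (left_mem_segment ℝ _ _), h1 (right_mem_segment ℝ _ _)⟩

/-- **confinement (V2)**, with the triangles -/
theorem conf_tri (hS : GP (S : Set ℂ)) (hχ : HullC S χ) (hR : IsOpen R)
    (hK : IsPreconnected (frontier R)) (hcov : ∀ z ∈ frontier R, ∃ t ∈ delT S, z ∈ cT t)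
    (hKS : ∀ z ∈ frontier R, z ∉ S)
    (hseg : ∀ u v, DE S u v → u ∈ A → v ∈ A → segment ℝ u v ⊆ R) {y z y2 z2 : ℂ} {p q : D0 S}
    (hp : p.1 = (y, z)) (hq : q.1 = (y2, z2)) (col : χ y + χ z = 1)
    (hyA : y ∈ A) (hzA : z ∈ A) (hy2A : y2 ∈ A) (hz2A : z2 ∈ A)
    (hy : Relation.ReflTransGen (StC S χ A) y y2) (hz : Relation.ReflTransGen (StC S χ A) z z2)
    (hne : p ≠ q) :
    ∃ n N, 0 < n ∧ n < N ∧ P (cm0 hS) (xc hS hχ) p n = q ∧ P (cm0 hS) (xc hS hχ) p N = p ∧
      (∀ a b, a < b → b < N → P (cm0 hS) (xc hS hχ) p a ≠ P (cm0 hS) (xc hS hχ) p b) ∧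
      ((∀ m, m < n → cT (tr S (P (cm0 hS) (xc hS hχ) p m)) ⊆ R) ∨
        (∀ m, n ≤ m → m < N → cT (tr S (P (cm0 hS) (xc hS hχ) p m)) ⊆ R)) := by
  have chi_eq : ∀ {a b : ℂ}, Relation.ReflTransGen (StC S χ A) a b → χ a = χ b := by
    intro a b h
    induction h with
    | refl => rfl
    | tail _ h1 ih => exact ih.trans h1.2.1
  have de_of : ∀ {d : D0 S} {u v : ℂ}, d.1 = (u, v) → DE S u v := by
    intro d u v h
    have h1 := d.2
    rw [h] at h1
    exact Or.inl (mem_sd.1 h1)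
  have even : IsC (cm0 hS) ∅ (xc hS hχ) := cfg_isC _
  refine conf hS even ?_ ?_ hne hR hK hcov hKS ?_ ?_ ?_ ?_
  · show χ p.1.1 + χ p.1.2 = 1
    rw [hp]; exact col
  · show χ q.1.1 + χ q.1.2 = 1
    rw [hq, ← chi_eq hy, ← chi_eq hz]; exact col
  · show segment ℝ p.1.1 p.1.2 ⊆ R
    rw [hp]; exact hseg y z (de_of hp) hyA hzA
  · show segment ℝ q.1.1 q.1.2 ⊆ R
    rw [hq]; exact hseg y2 z2 (de_of hq) hy2A hz2A
  · show Ln (cm0 hS) (xc hS hχ) (Ei S R) (Quot.mk _ p.1.1) (Quot.mk _ q.1.1)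
    rw [hp, hq]
    exact ln_rtg hS hχ hseg hy
  · show Ln (cm0 hS) (xc hS hχ) (Ei S R) (Quot.mk _ p.1.2) (Quot.mk _ q.1.2)
    rw [hp, hq]
    exact ln_rtg hS hχ hseg hz

/-- **confinement (V2)** : `DRing.conf` -/
theorem conf_FA (hS : GP (S : Set ℂ)) (hχ : HullC S χ) (hR : IsOpen R)
    (hK : IsPreconnected (frontier R)) (hcov : ∀ z ∈ frontier R, ∃ t ∈ delT S, z ∈ cT t)
    (hKS : ∀ z ∈ frontier R, z ∉ S)
    (hseg : ∀ u v, DE S u v → u ∈ A → v ∈ A → segment ℝ u v ⊆ R) {y z y2 z2 : ℂ} {p q : D0 S}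
    (hp : p.1 = (y, z)) (hq : q.1 = (y2, z2)) (col : χ y + χ z = 1)
    (hyA : y ∈ A) (hzA : z ∈ A) (hy2A : y2 ∈ A) (hz2A : z2 ∈ A)
    (hy : Relation.ReflTransGen (StC S χ A) y y2) (hz : Relation.ReflTransGen (StC S χ A) z z2) :
    FA (cm0 hS) (xc hS hχ) (RD S R) p q ∨ FA (cm0 hS) (xc hS hχ) (RD S R) q p := by
  have de_of : ∀ {d : D0 S} {u v : ℂ}, d.1 = (u, v) → DE S u v := by
    intro d u v h
    have h1 := d.2
    rw [h] at h1
    exact Or.inl (mem_sd.1 h1)
  have rd_seg : ∀ {d : D0 S} {u v : ℂ}, d.1 = (u, v) → u ∈ A → v ∈ A → d ∈ RD S R := by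
    intro d u v h hu hv
    have h1 := hseg u v (de_of h) hu hv
    refine ⟨?_, ?_⟩
    · rw [h]; exact h1 (left_mem_segment ℝ _ _)
    · rw [h]; exact h1 (right_mem_segment ℝ _ _)
  have hpR := rd_seg hp hyA hzA
  have hqR := rd_seg hq hy2A hz2A
  by_cases hne : p = q
  · left
    refine ⟨0, hne, fun i hi => ?_⟩
    rw [Nat.le_zero.1 hi]
    exact hpR
  obtain ⟨n, N, h1, h2, h3, h4, -, h6⟩ := conf_tri hS hχ hR hK hcov hKS hseg hp hq col hyA hzA
    hy2A hz2A hy hz hne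
  rcases h6 with h6 | h6
  · left
    refine ⟨n, h3, fun i hi => ?_⟩
    rcases Nat.lt_or_ge i n with h | h
    · exact rd_of (h6 i h)
    · have : i = n := le_antisymm hi h
      rw [this]
      show P (cm0 hS) (xc hS hχ) p n ∈ RD S R
      rw [h3]; exact hqR
  · right
    have e : ∀ i, (stp (cm0 hS) (xc hS hχ))^[i] q = P (cm0 hS) (xc hS hχ) p (n + i) := by
      intro i
      rw [← h3, add_comm]
      exact (Function.iterate_add_apply _ i n p).symm
    refine ⟨N - n, ?_, fun i hi => ?_⟩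
    · rw [e, show n + (N - n) = N by omega]; exact h4
    · rw [e]
      rcases Nat.lt_or_ge (n + i) N with h | h
      · exact rd_of (h6 _ (by omega) h)
      · have : n + i = N := by omega
        rw [this, h4]; exact hpR

end Crest.Agent.R143.Conf2x686
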