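import Crest.Agent.R143.TileR0_228
import Crest.Agent.R143.PathD_503

/-!
# Row 143 (S0194): frames along a fine path (helper503)

Coordinates of the gates and tiles of `TileR0_228.FPath` (`η` half width of the windows, `A` half width
of the strips, `h` mesh, `m` bound of the steps).

* `arm_frame` : the arms in the frame of a gate
* `near`, `win_lt`, `win_gt` : the fields of `PathDx503.GPath`
* **`gpath`** : `GPath` for every fine path
-/

set_option autoImplicit false

noncomputable section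

open scoped Classical

namespace Crest.Agent.R143.PathGx503

open Crest.Agent.R143.Gatex838 (X Y X_turn Y_turn)
open Crest.Agent.R143.TileRx228 Crest.Agent.R143.PathDx503

/-! ### coordinates -/

theorem X_neg (c u s : ℂ) : X c (-u) s = -X c u s := by
  unfold X
  rw [div_neg, Complex.neg_re]

theorem Y_neg (c u s : ℂ) : Y c (-u) s = -Y c u s := by
  unfold Y
  rw [div_neg, Complex.neg_im]

theorem X_add {u : ℂ} (hu : u ≠ 0) (c s : ℂ) (t : ℝ) : X (c + t * u) u s = X c u s - t := by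
  unfold X
  have : (s - (c + t * u)) / u = (s - c) / u - t := by
    field_simp
    ring
  rw [this, Complex.sub_re, Complex.ofReal_re]

theorem Y_add {u : ℂ} (hu : u ≠ 0) (c s : ℂ) (t : ℝ) : Y (c + t * u) u s = Y c u s := by
  unfold Y
  have : (s - (c + t * u)) / u = (s - c) / u - t := by
    field_simp
    ring
  rw [this, Complex.sub_im, Complex.ofReal_im, sub_zero]

/-- unit lattice directions -/
def D4 (u : ℂ) : Prop := u = 1 ∨ u = Complex.I ∨ u = -1 ∨ u = -Complex.I

theorem D4.ne0 {u : ℂ} (h : D4 u) : u ≠ 0 := by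
  rcases h with rfl | rfl | rfl | rfl
  · exact one_ne_zero
  · exact Complex.I_ne_zero
  · exact neg_ne_zero.2 one_ne_zero
  · exact neg_ne_zero.2 Complex.I_ne_zero

theorem D4.norm {u : ℂ} (h : D4 u) : ‖u‖ = 1 := by
  rcases h with rfl | rfl | rfl | rfl <;> simp

theorem D4.neg {u : ℂ} (h : D4 u) : D4 (-u) := by
  rcases h with rfl | rfl | rfl | rfl
  · exact Or.inr (Or.inr (Or.inl rfl))
  · exact Or.inr (Or.inr (Or.inr rfl))
  · exact Or.inl (neg_neg 1)
  · exact Or.inr (Or.inl (neg_neg _))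

theorem cz_sub (a b : ℤ × ℤ) : cz (a - b) = cz a - cz b := by
  apply Complex.ext
  · simp [cz]
  · simp [cz]

theorem d4_cz {u : ℤ × ℤ} (h : U4 u) : D4 (cz u) := by
  rcases h with rfl | rfl | rfl | rfl
  · left; apply Complex.ext <;> simp [cz]
  · right; left; apply Complex.ext <;> simp [cz]
  · right; right; left; apply Complex.ext <;> simp [cz]
  · right; right; right; apply Complex.ext <;> simp [cz]

/-- two directions: equal, opposite, or perpendicular -/
theorem d4_cases {u v : ℂ} (hu : D4 u) (hv : D4 v) :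
    v = u ∨ v = -u ∨ v = u * Complex.I ∨ v = -(u * Complex.I) := by
  rcases hu with rfl | rfl | rfl | rfl <;> rcases hv with rfl | rfl | rfl | rfl <;> simp

/-! ### frames -/

variable {h A B η m : ℝ} {M : ℕ} {W : ℤ → ℤ × ℤ}

theorem ge_d4 (F : FPath M W) (a : ℤ) : D4 (ge W a) := by
  have := F.step (a - 1)
  rw [show a - 1 + 1 = a by ring] at this
  exact d4_cz this

theorem ge_ne (F : FPath M W) (a : ℤ) : ge W (a + 1) ≠ -ge W a := by
  intro hc
  have h1 : cz (W (a + 1)) - cz (W a) = -(cz (W a) - cz (W (a - 1))) := by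
    have : ge W (a + 1) = cz (W (a + 1) - W a) := by
      unfold ge
      rw [show a + 1 - 1 = a by ring]
    rw [this] at hc
    unfold ge at hc
    rw [cz_sub, cz_sub] at hc
    exact hc
  have h2 : cz (W (a + 1)) = cz (W (a - 1)) := by linear_combination h1
  have h3 : W (a - 1 + 2) = W (a - 1) := by
    rw [show a - 1 + 2 = a + 1 by ring]
    have e1 := congrArg Complex.re h2
    have e2 := congrArg Complex.im h2
    simp only [cz, Int.cast_inj] at e1 e2
    exact Prod.ext e1 e2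
  exact F.turn _ h3

/-- the centre of the tile `a` in the frame of the gate `a` -/
theorem cen_l (h : ℝ) (W : ℤ → ℤ × ℤ) (a : ℤ) :
    cen h W a = gz h W a + ((h / 2 : ℝ) : ℂ) * ge W a := by
  unfold cen gz ge
  rw [cz_sub]
  push_cast
  ring

/-- the centre of the tile `a` in the frame of the gate `a + 1` -/
theorem cen_r (h : ℝ) (W : ℤ → ℤ × ℤ) (a : ℤ) :
    cen h W a = gz h W (a + 1) + ((-(h / 2) : ℝ) : ℂ) * ge W (a + 1) := by
  unfold cen gz ge
  rw [cz_sub, show a + 1 - 1 = a by ring]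
  push_cast
  ring

theorem Xc_l (F : FPath M W) (a : ℤ) (s : ℂ) :
    X (cen h W a) (ge W a) s = X (gz h W a) (ge W a) s - h / 2 := by
  rw [cen_l, X_add (ge_d4 F a).ne0]

theorem Yc_l (F : FPath M W) (a : ℤ) (s : ℂ) :
    Y (cen h W a) (ge W a) s = Y (gz h W a) (ge W a) s := by
  rw [cen_l, Y_add (ge_d4 F a).ne0]

theorem Xc_r (F : FPath M W) (a : ℤ) (s : ℂ) :
    X (cen h W a) (ge W (a + 1)) s = X (gz h W (a + 1)) (ge W (a + 1)) s + h / 2 := by
  rw [cen_r, X_add (ge_d4 F _).ne0]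
  ring

theorem Yc_r (F : FPath M W) (a : ℤ) (s : ℂ) :
    Y (cen h W a) (ge W (a + 1)) s = Y (gz h W (a + 1)) (ge W (a + 1)) s := by
  rw [cen_r, Y_add (ge_d4 F _).ne0]

/-- an arm in a frame: parallel or perpendicular -/
theorem arm_frame {c u v s : ℂ} (hu : D4 u) (hv : D4 v) (hs : s ∈ Arm A B c v) :
    |Y c u s| < A ∨ |X c u s| < A := by
  obtain ⟨-, h2⟩ := hs
  rcases d4_cases hu hv with rfl | rfl | rfl | rfl
  · exact Or.inl h2
  · rw [Y_neg, abs_neg] at h2
    exact Or.inl h2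
  · rw [Y_turn, abs_neg] at h2
    exact Or.inr h2
  · rw [Y_neg, Y_turn, neg_neg] at h2
    exact Or.inr h2

/-- directions of the arms -/
theorem arm_l (F : FPath M W) (a : ℤ) : D4 (cz (W (a - 1) - W a)) := by
  have h1 := (ge_d4 F a).neg
  have : cz (W (a - 1) - W a) = -ge W a := by
    unfold ge
    rw [cz_sub, cz_sub]
    ring
  rw [this]
  exact h1

theorem arm_r (F : FPath M W) (a : ℤ) : D4 (cz (W (a + 1) - W a)) := d4_cz (F.step a)

/-- **near a gate the two tiles are in the strip** -/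
theorem near_l (F : FPath M W) {a : ℤ} {s : ℂ} {κ : ℝ} (hκ : κ + A ≤ h / 2)
    (hs : s ∈ RR A B h W a) (h1 : |X (gz h W (a + 1)) (ge W (a + 1)) s| ≤ κ) :
    |Y (gz h W (a + 1)) (ge W (a + 1)) s| < A := by
  have h2 : |Y (cen h W a) (ge W (a + 1)) s| < A ∨ |X (cen h W a) (ge W (a + 1)) s| < A := by
    rcases hs with hs | hs
    · exact arm_frame (ge_d4 F _) (arm_l F a) hs
    · exact arm_frame (ge_d4 F _) (arm_r F a) hs
  rw [Xc_r F, Yc_r F] at h2
  rcases h2 with h2 | h2
  · exact h2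
  · rw [abs_lt] at h2
    rw [abs_le] at h1
    linarith [h1.1, h2.2]

theorem near_r (F : FPath M W) {a : ℤ} {s : ℂ} {κ : ℝ} (hκ : κ + A ≤ h / 2)
    (hs : s ∈ RR A B h W a) (h1 : |X (gz h W a) (ge W a) s| ≤ κ) :
    |Y (gz h W a) (ge W a) s| < A := by
  have h2 : |Y (cen h W a) (ge W a) s| < A ∨ |X (cen h W a) (ge W a) s| < A := by
    rcases hs with hs | hs
    · exact arm_frame (ge_d4 F _) (arm_l F a) hs
    · exact arm_frame (ge_d4 F _) (arm_r F a) hs
  rw [Xc_l F, Yc_l F] at h2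
  rcases h2 with h2 | h2
  · exact h2
  · rw [abs_lt] at h2
    rw [abs_le] at h1
    linarith [h1.2, h2.1]

/-- the window of the gate `a` is on the left of the gate `a + 1` -/
theorem win_lt (F : FPath M W) {a : ℤ} {s : ℂ} (_hη : 2 * η ≤ h) (hA : A + η ≤ h / 2)
    (hs : s ∈ Win (gz h W a) (ge W a) (-η) η (-A) A) :
    X (gz h W (a + 1)) (ge W (a + 1)) s ≤ -η := by
  obtain ⟨⟨h1, h2⟩, h3, h4⟩ := hs
  have e1 : X (gz h W (a + 1)) (ge W (a + 1)) s = X (cen h W a) (ge W (a + 1)) s - h / 2 := by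
    rw [Xc_r F]; ring
  rw [e1]
  have x1 := Xc_l (h := h) F a s
  have y1 := Yc_l (h := h) F a s
  rcases d4_cases (ge_d4 F a) (ge_d4 F (a + 1)) with h5 | h5 | h5 | h5
  · rw [h5]; linarith
  · exact absurd h5 (ge_ne F a)
  · rw [h5, X_turn]; linarith
  · rw [h5, X_neg, X_turn]; linarith

/-- the window of the gate `a + 1` is on the right of the gate `a` -/
theorem win_gt (F : FPath M W) {a : ℤ} {s : ℂ} (_hη : 2 * η ≤ h) (hA : A + η ≤ h / 2)
    (hs : s ∈ Win (gz h W (a + 1)) (ge W (a + 1)) (-η) η (-A) A) :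
    η ≤ X (gz h W a) (ge W a) s := by
  obtain ⟨⟨h1, h2⟩, h3, h4⟩ := hs
  have e1 : X (gz h W a) (ge W a) s = X (cen h W a) (ge W a) s + h / 2 := by
    rw [Xc_l F]; ring
  rw [e1]
  have x1 := Xc_r (h := h) F a s
  have y1 := Yc_r (h := h) F a s
  have hne : ge W a ≠ -ge W (a + 1) := by
    intro hc
    apply ge_ne F a
    rw [hc, neg_neg]
  rcases d4_cases (ge_d4 F (a + 1)) (ge_d4 F a) with h5 | h5 | h5 | h5
  · rw [h5]; linarith
  · exact absurd h5 hne
  · rw [h5, X_turn]; linarith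
  · rw [h5, X_neg, X_turn]; linarith

/-- **the geometry of gates and tiles along a fine path** (`a = o + k`) -/
theorem gpath {S : Finset ℂ} {P : ℕ → Prop} (F : FPath M W) (o : ℤ) (_hη : 0 ≤ η) (hm : 0 ≤ m)
    (hA : A + η + m ≤ h / 2) (hA0 : 0 ≤ A)
    (hstep : ∀ k : ℕ, P k → P (k + 1) → ∀ u v, Crest.Agent.R143.Blkx838.DE S u v →
      (u ∈ RR A B h W (o + k) ∨ u ∈ RR A B h W (o + (k + 1 : ℕ))) →
      (v ∈ RR A B h W (o + k) ∨ v ∈ RR A B h W (o + (k + 1 : ℕ))) → ‖u - v‖ ≤ m)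
    (hinn : ∀ k : ℕ, P k → ∀ s ∈ S, s ∈ RR A B h W (o + k) →
      ¬ Crest.Agent.R143.Frame10x395.OnHull S s) :
    GPath S P (fun k => gz h W (o + k)) (fun k => ge W (o + k)) (fun k => RR A B h W (o + k))
      (-η) η (-A) A m where
  e0 := fun k => (ge_d4 F _).ne0
  near := by
    intro k _ _ s _ hs h1 h2
    have h3 : |X (gz h W (o + (k + 1 : ℕ))) (ge W (o + (k + 1 : ℕ))) s| ≤ η + m :=
      abs_le.2 ⟨by linarith, h2⟩
    rw [← abs_lt]
    rcases hs with hs | hs
    · have e : o + ((k + 1 : ℕ) : ℤ) = o + (k : ℤ) + 1 := by push_cast; ring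
      rw [e] at h3 ⊢
      exact near_l F (by linarith) hs h3
    · exact near_r F (by linarith) hs h3
  lt := by
    intro k _ s hs
    have e : o + ((k + 1 : ℕ) : ℤ) = o + (k : ℤ) + 1 := by push_cast; ring
    show X (gz h W (o + ((k + 1 : ℕ) : ℤ))) (ge W (o + ((k + 1 : ℕ) : ℤ))) s ≤ -η
    rw [e]
    exact win_lt F (by linarith) (by linarith) hs
  gt := by
    intro k _ s hs
    have e : o + ((k + 1 : ℕ) : ℤ) = o + (k : ℤ) + 1 := by push_cast; ring
    simp only [e] at hs
    exact win_gt F (by linarith) (by linarith) hs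
  step := fun k h1 h2 u v h3 h4 h5 =>
    (Crest.Agent.R143.Crossx228.abs_X_sub _ (ge_d4 F _).norm u v).trans
      (hstep k h1 h2 u v h3 h4 h5)
  inn := hinn

end Crest.Agent.R143.PathGx503
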