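import Crest.Agent.R143.Conf2_686
import Crest.Agent.R143.PathG_503

/-!
# Row 143 (S0194): confinement for the tiles of a fine path (helper503)

* `star_frontier` : the frontier of a star-shaped region `{g < 1}` (`g` continuous, homogeneous, positive)
  is connected
* `rr_frontier` : the frontier of a tile region `RR` is connected
* `exists_t` : an enlargement of the tile region without sites on its frontier
* **`conf_tile`** : black link + white link inside `RR A B` ==> `FA` inside `RR (A + τ) (B + τ)`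
  (`DRing.conf`, from 686's `conf_FA`)
-/

set_option autoImplicit false

noncomputable section

open scoped Classical

namespace Crest.Agent.R143.ConfTx503

open Set
open Crest.Agent.R143.B0x346 Crest.Agent.R143.DelGx806 Crest.Agent.R143.DelRx806
open Crest.Agent.R143.Frame1x395 Crest.Agent.R143.Frame2x395 Crest.Agent.R143.Frame3x395
  Crest.Agent.R143.Frame8x395 Crest.Agent.R143.Frame10x395 Crest.Agent.R143.Frame11x395
open Crest.Agent.R143.Frame5x395 (sd mem_sd th th_spec)
open Crest.Agent.R143.Splx117 Crest.Agent.R143.WLocx713 Crest.Agent.R143.RingDx117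
open Crest.Agent.R143.Blkx838 (DE)
open Crest.Agent.R143.Circx63
open Crest.Agent.R143.Gatex838 (X Y X_turn Y_turn)
open Crest.Agent.R143.TileRx228 Crest.Agent.R143.PathDx503 Crest.Agent.R143.PathGx503
open Crest.Agent.R143.Neckx921 (Lk)

/-! ### star-shaped regions -/

/-- **the frontier of a star-shaped region is connected** -/
theorem star_frontier {g : ℂ → ℝ} {c : ℂ} (hg : Continuous g)
    (hh : ∀ (t : ℝ) (w : ℂ), 0 ≤ t → g (c + t * w) = t * g (c + w))
    (hp : ∀ w, w ≠ 0 → 0 < g (c + w)) : IsPreconnected (frontier {s | g s < 1}) := by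
  have e1 : frontier {s | g s < 1} = {s | g s = 1} := by
    apply Subset.antisymm
    · intro s hs
      have := frontier_lt_subset_eq hg continuous_const hs
      exact this
    · intro s hs
      rw [mem_ofPred_eq] at hs
      refine ⟨?_, ?_⟩
      · -- limit of `c + t (s - c)`, `t → 1-`
        have hl : Filter.Tendsto (fun t : ℝ => c + (t : ℂ) * (s - c)) (nhdsWithin 1 (Ico 0 1))
            (nhds s) := by
          have h1 : Continuous (fun t : ℝ => c + (t : ℂ) * (s - c)) := by fun_prop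
          have h2 := h1.tendsto 1
          have h3 : c + ((1 : ℝ) : ℂ) * (s - c) = s := by push_cast; ring
          rw [h3] at h2
          exact h2.mono_left nhdsWithin_le_nhds
        have : (nhdsWithin (1 : ℝ) (Ico 0 1)).NeBot := by
          rw [← mem_closure_iff_nhdsWithin_neBot, closure_Ico (by norm_num)]
          exact ⟨by norm_num, le_refl _⟩
        refine mem_closure_of_tendsto hl ?_
        filter_upwards [self_mem_nhdsWithin] with t ht
        show g (c + t * (s - c)) < 1
        rw [hh t _ ht.1]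
        have h4 : c + (s - c) = s := by ring
        rw [h4, hs, mul_one]
        exact ht.2
      · have ho : IsOpen {s | g s < 1} := isOpen_lt hg continuous_const
        rw [ho.interior_eq, mem_ofPred_eq, hs]
        exact lt_irrefl _
  rw [e1]
  have hS : IsPreconnected (Metric.sphere (0 : ℂ) 1) :=
    isPreconnected_sphere (by rw [Complex.rank_real_complex]; norm_num) _ _
  have e2 : {s | g s = 1} = (fun w : ℂ => c + ((g (c + w))⁻¹ : ℝ) * w) '' Metric.sphere (0 : ℂ) 1 := by
    apply Subset.antisymm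
    · intro s hs
      rw [mem_ofPred_eq] at hs
      have hsc : s ≠ c := by
        rintro rfl
        have := hh 0 0 le_rfl
        simp only [mul_zero, add_zero, zero_mul] at this
        rw [this] at hs
        exact zero_ne_one hs
      have hn : 0 < ‖s - c‖ := norm_pos_iff.2 (sub_ne_zero.2 hsc)
      refine ⟨((‖s - c‖⁻¹ : ℝ) : ℂ) * (s - c), ?_, ?_⟩
      · rw [mem_sphere_zero_iff_norm, norm_mul, Complex.norm_real, Real.norm_eq_abs,
          abs_of_pos (inv_pos.2 hn), inv_mul_cancel₀ hn.ne']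
      · have h1 := hh ‖s - c‖⁻¹ (s - c) (inv_pos.2 hn).le
        have h4 : c + (s - c) = s := by ring
        rw [h4, hs, mul_one] at h1
        simp only [h1, inv_inv]
        rw [← mul_assoc, ← Complex.ofReal_mul, mul_inv_cancel₀ hn.ne', Complex.ofReal_one, one_mul,
          h4]
    · rintro _ ⟨w, hw, rfl⟩
      have hw0 : w ≠ 0 := by
        rintro rfl
        simp at hw
      have h1 := hp w hw0
      rw [mem_ofPred_eq, hh _ _ (inv_pos.2 h1).le, inv_mul_cancel₀ h1.ne']
  rw [e2]
  refine hS.image _ ?_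
  intro w hw
  have hw0 : w ≠ 0 := by
    rintro rfl
    simp at hw
  have h1 := hp w hw0
  have h2 : ContinuousAt (fun w : ℂ => g (c + w)) w := by
    have : Continuous (fun w : ℂ => g (c + w)) := by fun_prop
    exact this.continuousAt
  have h3 : ContinuousAt (fun w : ℂ => ((g (c + w))⁻¹ : ℝ)) w := h2.inv₀ h1.ne'
  exact (continuousAt_const.add
    ((Complex.continuous_ofReal.continuousAt.comp h3).mul continuousAt_id)).continuousWithinAt

/-! ### the gauge of an arm -/

theorem X_cw (c v w : ℂ) : X c v (c + w) = (w / v).re := by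
  unfold X; rw [add_sub_cancel_left]

theorem Y_cw (c v w : ℂ) : Y c v (c + w) = (w / v).im := by
  unfold Y; rw [add_sub_cancel_left]

theorem X_cont (c v : ℂ) : Continuous (X c v) := by
  unfold X
  exact Complex.continuous_re.comp ((continuous_id.sub continuous_const).div_const _)

theorem Y_cont (c v : ℂ) : Continuous (Y c v) := by
  unfold Y
  exact Complex.continuous_im.comp ((continuous_id.sub continuous_const).div_const _)

/-- gauge of an arm -/
def ga (A B : ℝ) (c v s : ℂ) : ℝ := max (max (-(X c v s) / A) (X c v s / B)) (|Y c v s| / A)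

theorem ga_cont (A B : ℝ) (c v : ℂ) : Continuous (ga A B c v) := by
  have h1 := X_cont c v
  have h2 := Y_cont c v
  unfold ga
  exact (((h1.neg.div_const _).max (h1.div_const _)).max (h2.abs.div_const _))

theorem ga_hom {A B : ℝ} (c v : ℂ) (t : ℝ) (w : ℂ) (ht : 0 ≤ t) :
    ga A B c v (c + t * w) = t * ga A B c v (c + w) := by
  unfold ga
  rw [X_cw, Y_cw, X_cw, Y_cw]
  have e : (t : ℂ) * w / v = t * (w / v) := by ring
  rw [e, Complex.re_ofReal_mul, Complex.im_ofReal_mul, abs_mul, abs_of_nonneg ht, mul_max_of_nonneg _ _ ht,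
    mul_max_of_nonneg _ _ ht]
  congr 1
  · congr 1
    · ring
    · ring
  · ring

theorem ga_pos {A B : ℝ} (hA : 0 < A) (hB : 0 < B) {c v : ℂ} (hv : v ≠ 0) {w : ℂ} (hw : w ≠ 0) :
    0 < ga A B c v (c + w) := by
  unfold ga
  rw [X_cw, Y_cw]
  have h : w / v ≠ 0 := div_ne_zero hw hv
  by_cases h1 : (w / v).im = 0
  · have h2 : (w / v).re ≠ 0 := fun h3 => h (Complex.ext h3 h1)
    rcases lt_or_gt_of_ne h2 with h3 | h3
    · exact lt_max_of_lt_left (lt_max_of_lt_left (div_pos (by linarith) hA))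
    · exact lt_max_of_lt_left (lt_max_of_lt_right (div_pos h3 hB))
  · exact lt_max_of_lt_right (div_pos (abs_pos.2 h1) hA)

theorem mem_arm {A B : ℝ} (hA : 0 < A) (hB : 0 < B) {c v s : ℂ} :
    s ∈ Arm A B c v ↔ ga A B c v s < 1 := by
  unfold ga Arm
  rw [max_lt_iff, max_lt_iff, div_lt_one hA, div_lt_one hB, div_lt_one hA, mem_ofPred_eq,
    neg_lt]

theorem arm_open (A B : ℝ) (c v : ℂ) : IsOpen (Arm A B c v) := by
  have h1 := X_cont c v
  have h2 := (Y_cont c v).abs
  exact ((isOpen_lt continuous_const h1).inter (isOpen_lt h1 continuous_const)).inter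
    (isOpen_lt h2 continuous_const)

/-- **the frontier of the union of two arms is connected** -/
theorem arms_frontier {A B : ℝ} (hA : 0 < A) (hB : 0 < B) {c u v : ℂ} (hu : u ≠ 0) (hv : v ≠ 0) :
    IsPreconnected (frontier (Arm A B c u ∪ Arm A B c v)) := by
  have e : Arm A B c u ∪ Arm A B c v = {s | min (ga A B c u s) (ga A B c v s) < 1} := by
    ext s
    rw [mem_union, mem_arm hA hB, mem_arm hA hB, mem_ofPred_eq, min_lt_iff]
  rw [e]
  refine star_frontier (c := c) ((ga_cont A B c u).min (ga_cont A B c v)) (fun t w ht => ?_)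
    (fun w hw => lt_min (ga_pos hA hB hu hw) (ga_pos hA hB hv hw))
  rw [ga_hom c u t w ht, ga_hom c v t w ht, mul_min_of_nonneg _ _ ht]

/-- a point of the frontier of an arm -/
theorem arm_fr {A B : ℝ} {c v s : ℂ} (hs : s ∈ frontier (Arm A B c v)) :
    -A = X c v s ∨ X c v s = B ∨ |Y c v s| = A := by
  by_contra hc
  push Not at hc
  obtain ⟨h1, h2, h3⟩ := hc
  have ho := arm_open A B c v
  rw [frontier, ho.interior_eq] at hs
  have hcl : s ∈ {s | (-A ≤ X c v s ∧ X c v s ≤ B) ∧ |Y c v s| ≤ A} := by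
    refine closure_minimal ?_ ?_ hs.1
    · rintro z ⟨⟨a1, a2⟩, a3⟩
      exact ⟨⟨a1.le, a2.le⟩, a3.le⟩
    · have h1 := X_cont c v
      have h2 := (Y_cont c v).abs
      exact ((isClosed_le continuous_const h1).inter (isClosed_le h1 continuous_const)).inter
        (isClosed_le h2 continuous_const)
  apply hs.2
  exact ⟨⟨lt_of_le_of_ne hcl.1.1 h1, lt_of_le_of_ne hcl.1.2 h2⟩, lt_of_le_of_ne hcl.2 h3⟩

theorem arm_sub {A B A' B' : ℝ} (hA : A ≤ A') (hB : B ≤ B') (c v : ℂ) :
    Arm A B c v ⊆ Arm A' B' c v := by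
  rintro z ⟨⟨a1, a2⟩, a3⟩
  exact ⟨⟨by linarith, by linarith⟩, by linarith⟩

theorem arm_cl {A B A' B' : ℝ} (hA : A < A') (hB : B < B') (c v : ℂ) :
    closure (Arm A B c v) ⊆ Arm A' B' c v := by
  intro s hs
  have hcl : s ∈ {s | (-A ≤ X c v s ∧ X c v s ≤ B) ∧ |Y c v s| ≤ A} := by
    refine closure_minimal ?_ ?_ hs
    · rintro z ⟨⟨a1, a2⟩, a3⟩
      exact ⟨⟨a1.le, a2.le⟩, a3.le⟩
    · have h1 := X_cont c v
      have h2 := (Y_cont c v).abs
      exact ((isClosed_le continuous_const h1).inter (isClosed_le h1 continuous_const)).inter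
        (isClosed_le h2 continuous_const)
  exact ⟨⟨by linarith [hcl.1.1], by linarith [hcl.1.2]⟩, by linarith [hcl.2]⟩

/-- a point near a point of an arm -/
theorem arm_near {A B t : ℝ} {c v u z : ℂ} (hv : ‖v‖ = 1) (hu : u ∈ Arm A B c v)
    (hz : ‖z - u‖ ≤ t) : z ∈ Arm (A + t) (B + t) c v := by
  obtain ⟨⟨a1, a2⟩, a3⟩ := hu
  have h1 := (Crossx228.abs_X_sub c hv z u).trans hz
  have h2 := (Crossx228.abs_Y_sub c hv z u).trans hz
  rw [abs_le] at h1 h2
  rw [abs_lt] at a3
  refine ⟨⟨by linarith [h1.1], by linarith [h1.2]⟩, abs_lt.2 ⟨by linarith [h2.1], by linarith [h2.2]⟩⟩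

/-- **an enlargement without sites on the frontier** -/
theorem exists_t (S : Finset ℂ) (A B : ℝ) (c u v : ℂ) {lo hi : ℝ} (h : lo < hi) :
    ∃ t, (lo < t ∧ t < hi) ∧
      ∀ z ∈ frontier (Arm (A + t) (B + t) c u ∪ Arm (A + t) (B + t) c v), z ∉ S := by
  set f : ℂ → ℂ → Finset ℝ := fun v s => {-(X c v s) - A, X c v s - B, |Y c v s| - A} with hf
  set T : Finset ℝ := S.biUnion (fun s => f u s ∪ f v s) with hT
  obtain ⟨t, ht, htT⟩ := (Set.Ioo_infinite h).exists_notMem_finset T
  refine ⟨t, ht, fun z hz hzS => htT ?_⟩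
  have key : ∀ v, z ∈ frontier (Arm (A + t) (B + t) c v) → t ∈ f v z := by
    intro v hz
    rw [hf]
    simp only [Finset.mem_insert, Finset.mem_singleton]
    rcases arm_fr hz with h1 | h1 | h1
    · left; linarith
    · right; left; linarith
    · right; right; linarith
  rw [hT, Finset.mem_biUnion]
  refine ⟨z, hzS, Finset.mem_union.2 ?_⟩
  rcases frontier_union_subset _ _ hz with h1 | h1
  · exact Or.inl (key u h1.1)
  · exact Or.inr (key v h1.2)

/-! ### tiles -/

variable {S : Finset ℂ} {χ : ℂ → ZMod 2} {h A B m τ : ℝ} {M : ℕ} {W : ℤ → ℤ × ℤ}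

theorem fa_mono {D C : Type} [Fintype D] [DecidableEq D] {M : CMap D C} {x : D → ZMod 2}
    {R R' : Set D} {a b : D} (hR : R ⊆ R') (h : FA M x R a b) : FA M x R' a b := by
  obtain ⟨n, h1, h2⟩ := h
  exact ⟨n, h1, fun i hi => hR (h2 i hi)⟩

theorem rr_sub {A' B' : ℝ} (hA : A ≤ A') (hB : B ≤ B') (a : ℤ) :
    RR A B h W a ⊆ RR A' B' h W a :=
  union_subset_union (arm_sub hA hB _ _) (arm_sub hA hB _ _)

theorem rr_open (a : ℤ) : IsOpen (RR A B h W a) := (arm_open _ _ _ _).union (arm_open _ _ _ _)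

theorem rr_near (F : FPath M W) {a : ℤ} {u z : ℂ} (hu : u ∈ RR A B h W a) (hz : ‖z - u‖ ≤ τ) :
    z ∈ RR (A + τ) (B + τ) h W a := by
  rcases hu with hu | hu
  · exact Or.inl (arm_near (arm_l F a).norm hu hz)
  · exact Or.inr (arm_near (arm_r F a).norm hu hz)

/-- **confinement for a tile** -/
theorem conf_tile (hS : GP (S : Set ℂ)) (hχ : HullC S χ) (F : FPath M W) (a : ℤ) (hA : 0 < A)
    (hB : 0 < B) (hm : 0 ≤ m) (hmτ : m < τ)
    (hcov : ∀ z ∈ RR (A + τ) (B + τ) h W a, ∃ t ∈ delT S, z ∈ cT t)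
    (hstep : ∀ u v, DE S u v → u ∈ RR A B h W a → v ∈ RR A B h W a → ‖u - v‖ ≤ m)
    {y z y2 z2 : ℂ} {p q : D0 S} (hp : p.1 = (y, z)) (hq : q.1 = (y2, z2)) (col : χ y + χ z = 1)
    (hyA : y ∈ RR A B h W a) (hzA : z ∈ RR A B h W a) (hy2A : y2 ∈ RR A B h W a)
    (hz2A : z2 ∈ RR A B h W a)
    (hy : Relation.ReflTransGen (StC S χ (RR A B h W a)) y y2)
    (hz : Relation.ReflTransGen (StC S χ (RR A B h W a)) z z2) :
    FA (cm0 hS) (xc hS hχ) (RD S (RR (A + τ) (B + τ) h W a)) p q ∨
      FA (cm0 hS) (xc hS hχ) (RD S (RR (A + τ) (B + τ) h W a)) q p := by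
  obtain ⟨t, ⟨t1, t2⟩, ht⟩ := exists_t S A B (cen h W a) (cz (W (a - 1) - W a))
    (cz (W (a + 1) - W a)) hmτ
  have hsub : RR (A + t) (B + t) h W a ⊆ RR (A + τ) (B + τ) h W a :=
    rr_sub (by linarith) (by linarith) a
  have hRD : RD S (RR (A + t) (B + t) h W a) ⊆ RD S (RR (A + τ) (B + τ) h W a) :=
    fun d hd => ⟨hsub hd.1, hsub hd.2⟩
  have hcl : frontier (RR (A + t) (B + t) h W a) ⊆ RR (A + τ) (B + τ) h W a := by
    refine frontier_subset_closure.trans ?_
    unfold RR
    rw [closure_union]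
    exact union_subset_union (arm_cl (by linarith) (by linarith) _ _)
      (arm_cl (by linarith) (by linarith) _ _)
  have h1 := Conf2x686.conf_FA (A := RR A B h W a) (R := RR (A + t) (B + t) h W a) hS hχ
    (rr_open a)
    (arms_frontier (by linarith) (by linarith) (arm_l F a).ne0 (arm_r F a).ne0)
    (fun z hz => hcov z (hcl hz)) ht ?_ hp hq col hyA hzA hy2A hz2A hy hz
  · rcases h1 with h1 | h1
    · exact Or.inl (fa_mono hRD h1)
    · exact Or.inr (fa_mono hRD h1)
  · intro u v huv hu hv s hs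
    refine rr_near F hu ?_
    have h2 : ‖s - u‖ ≤ ‖v - u‖ := by
      have h3 := norm_sub_le_of_mem_segment hs
      exact h3
    rw [norm_sub_rev v u] at h2
    exact h2.trans ((hstep u v huv hu hv).trans t1.le)

end Crest.Agent.R143.ConfTx503
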