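import Crest.Agent.R143.Frame11_395
import Crest.Agent.R143.NonX_592
import Crest.Agent.R143.Circ_63
import Crest.Agent.R143.Frame10_395
import Crest.Agent.R143.Blk_838

/-!
# Row 143 (S0194), part A free route: CONFINEMENT (leaf V2 of 117's cut, helper686)

Two states `p`, `q` of the walker (black cell on the left, white cell on the right), the left cells
joined by a black chain, the right cells joined by a white chain, both chains inside the region `R`.
Then `p` and `q` are on one loop and ONE of the two arcs of the loop between `p` and `q` only passes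
through triangles inside `R`.

* `Ln`, `ex_Z` : chains and their indicator
* `conf_abs` : the statement for closed maps (`CMap`)
* `conf_curve` : Delaunay triangulation, wired hull (`cm0`): one of the two arcs passes through
  triangles which do not meet the connected set `K`, if the chains do not meet `K`
* `conf` : `R` bounded open, `K` = its frontier: one arc passes through triangles inside `R`
-/

set_option autoImplicit false

noncomputable section

open scoped Classical

namespace Crest.Agent.R143.Confx686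

open Crest.Agent.R143.Frame1x395 Crest.Agent.R143.Frame2x395 Crest.Agent.R143.Frame3x395
  Crest.Agent.R143.Frame11x395 Crest.Agent.R143.NonXx592

section abs

variable {D C : Type} {M : CMap D C} {x : D → ZMod 2}

/-- connected by unoccupied darts of the set `E` -/
def Ln (M : CMap D C) (x : D → ZMod 2) (E : Set D) : C → C → Prop :=
  Relation.EqvGen fun a b => ∃ d ∈ E, x d = 0 ∧ M.cell d = a ∧ M.cell (M.rho d) = b

theorem Ln.con {E : Set D} {a b : C} (h : Ln M x E a b) : Con M x a b := by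
  induction h with
  | rel a b hab =>
    obtain ⟨d, -, h1, h2, h3⟩ := hab
    exact Relation.EqvGen.rel _ _ ⟨d, h1, h2, h3⟩
  | refl => exact Relation.EqvGen.refl _
  | symm _ _ _ ih => exact Relation.EqvGen.symm _ _ ih
  | trans _ _ _ _ _ ih1 ih2 => exact Relation.EqvGen.trans _ _ _ ih1 ih2

theorem Ln.mono {E E' : Set D} (hE : E ⊆ E') {a b : C} (h : Ln M x E a b) : Ln M x E' a b := by
  induction h with
  | rel a b hab =>
    obtain ⟨d, h0, h1, h2, h3⟩ := hab
    exact Relation.EqvGen.rel _ _ ⟨d, hE h0, h1, h2, h3⟩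
  | refl => exact Relation.EqvGen.refl _
  | symm _ _ _ ih => exact Relation.EqvGen.symm _ _ ih
  | trans _ _ _ _ _ ih1 ih2 => exact Relation.EqvGen.trans _ _ _ ih1 ih2

theorem Ln.symm {E : Set D} {a b : C} (h : Ln M x E a b) : Ln M x E b a :=
  Relation.EqvGen.symm _ _ h

theorem Ln.trans {E : Set D} {a b c : C} (h : Ln M x E a b) (h' : Ln M x E b c) :
    Ln M x E a c := Relation.EqvGen.trans _ _ _ h h'

theorem Ln.refl {E : Set D} (a : C) : Ln M x E a a := Relation.EqvGen.refl _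

theorem Ln.one {E : Set D} {d : D} (h : d ∈ E) (h0 : x d = 0) :
    Ln M x E (M.cell d) (M.cell (M.rho d)) := Relation.EqvGen.rel _ _ ⟨d, h, h0, rfl, rfl⟩

/-- the indicator of a chain -/
theorem ex_Z [Fintype D] {E : Set D} {a b : C} (h : Ln M x E a b) :
    ∃ Z : D → ZMod 2, (∀ d, Z d ≠ 0 → d ∈ E ∧ x d = 0) ∧
      ∀ (y : D → ZMod 2) (χ : C → ZMod 2), (∀ d, y d = χ (M.cell d) + χ (M.cell (M.rho d))) →
        ∑ d, Z d * y d = χ a + χ b := by
  induction h with
  | rel a b hab =>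
    obtain ⟨d, h1, h2, rfl, rfl⟩ := hab
    refine ⟨Pi.single d 1, ?_, ?_⟩
    · intro e he
      by_cases hed : e = d
      · subst hed; exact ⟨h1, h2⟩
      · exact absurd (Pi.single_eq_of_ne hed 1) he
    · intro y χ hy
      rw [Finset.sum_eq_single d]
      · rw [Pi.single_eq_same, one_mul, hy]
      · intro e _ he
        rw [Pi.single_eq_of_ne he, zero_mul]
      · intro hn; exact absurd (Finset.mem_univ d) hn
  | refl a =>
    refine ⟨fun _ => 0, fun d hd => absurd rfl hd, ?_⟩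
    intro y χ _
    simp [z_self]
  | symm a b _ ih =>
    obtain ⟨Z, h1, h2⟩ := ih
    refine ⟨Z, h1, fun y χ hy => ?_⟩
    rw [h2 y χ hy, add_comm]
  | trans a b c _ _ ih1 ih2 =>
    obtain ⟨Z, h1, h2⟩ := ih1
    obtain ⟨Z', h1', h2'⟩ := ih2
    refine ⟨fun d => Z d + Z' d, ?_, ?_⟩
    · intro d hd
      by_cases h3 : Z d = 0
      · apply h1'
        intro h4
        exact hd (by show Z d + Z' d = 0; rw [h3, h4]; decide)
      · exact h1 d h3
    · intro y χ hy
      have h3 : ∀ d, (Z d + Z' d) * y d = Z d * y d + Z' d * y d := fun d => by ring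
      simp only [h3]
      rw [Finset.sum_add_distrib, h2 y χ hy, h2' y χ hy]
      linear_combination z_self (χ b)

theorem z4 : ∀ a b u v : ZMod 2, u + v = a + b → b = a + u + v := by decide

theorem z5 : ∀ a b : ZMod 2, (0 : ZMod 2) = a + b → b = a := by decide

/-- **confinement in a closed map** -/
theorem conf_abs [Fintype D] (h : IsC M ∅ x) {p q : D} (hp : x p = 1) (hq : x q = 1)
    (hne : p ≠ q) {E : Set D} (hpE : p ∈ E) (hqE : q ∈ E)
    (hl : Ln M x E (M.cell p) (M.cell q)) (hr : Ln M x E (M.cell (M.rho p)) (M.cell (M.rho q)))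
    {O : Set D} (hO : ∀ ψ : D → ZMod 2, (∀ d, ψ (M.rho d) = ψ d) →
      (∀ d ∈ M.live, d ∉ E → M.iota d ∉ E → ψ (M.iota d) = ψ d) →
      ∀ d ∈ O, ∀ d' ∈ O, ψ d = ψ d') :
    ∃ n N, 0 < n ∧ n < N ∧ P M x p n = q ∧ P M x p N = p ∧
      (∀ a b, a < b → b < N → P M x p a ≠ P M x p b) ∧
      ((∀ m, m < n → P M x p m ∉ O) ∨ (∀ m, n ≤ m → m < N → P M x p m ∉ O)) := by
  -- the period
  obtain ⟨N1, hN1⟩ := periodic h hp
  have hex : ∃ N, 0 < N ∧ P M x p N = p := ⟨N1, hN1⟩
  obtain ⟨hN0, hN⟩ := Nat.find_spec hex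
  have hmin : ∀ m, m < Nat.find hex → ¬ (0 < m ∧ P M x p m = p) := fun m hm => Nat.find_min hex hm
  set N := Nat.find hex with hNdef
  have hinj : ∀ a b, a < b → b < N → P M x p a ≠ P M x p b := by
    intro a b hab hb e
    have e1 : P M x p (b - a) = p := by
      apply it_inj h (occ_it h hp _) hp a
      rw [← Function.iterate_add_apply, show a + (b - a) = b by omega]
      exact e.symm
    exact hmin (b - a) (by omega) ⟨by omega, e1⟩
  -- the time of `q`
  obtain ⟨n1, hn1⟩ := same_loop h hp hq hl.con hr.con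
  obtain ⟨n, hnN, hn⟩ : ∃ n, n < N ∧ P M x p n = q := by
    refine ⟨n1 % N, Nat.mod_lt _ hN0, ?_⟩
    have hper : ∀ k j, P M x p (j + N * k) = P M x p j := by
      intro k
      induction k with
      | zero => intro j; rfl
      | succ k ih =>
        intro j
        rw [show j + N * (k + 1) = (j + N * k) + N by ring, P_per hN]
        exact ih j
    have h1 := hper (n1 / N) (n1 % N)
    rw [Nat.mod_add_div] at h1
    rw [← h1]
    exact hn1
  have hn0 : 0 < n := by
    rcases Nat.eq_zero_or_pos n with h0 | h0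
    · subst h0
      exact absurd hn hne
    · exact h0
  -- the cycle
  obtain ⟨Z1, z1, s1⟩ := ex_Z hl
  obtain ⟨Z2, z2', s2⟩ := ex_Z hr
  obtain ⟨ψ, hψr, hψ⟩ := dual M (fun d => Z1 d + Z2 d + (Pi.single p 1 : D → ZMod 2) d +
    (Pi.single q 1 : D → ZMod 2) d) (by
      intro y hy
      obtain ⟨χ, hχ⟩ := M.ex y hy.dead hy.iot
        (fun d => by rw [hy.par d, if_neg (Set.notMem_empty d)])
      have e1 : ∀ r : D, ∑ d, (Pi.single r 1 : D → ZMod 2) d * y d =
          χ (M.cell r) + χ (M.cell (M.rho r)) := by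
        intro r
        rw [Finset.sum_eq_single r]
        · rw [Pi.single_eq_same, one_mul, hχ]
        · intro e _ he
          rw [Pi.single_eq_of_ne he, zero_mul]
        · intro hn; exact absurd (Finset.mem_univ r) hn
      have e2 : ∀ d, (Z1 d + Z2 d + (Pi.single p 1 : D → ZMod 2) d +
          (Pi.single q 1 : D → ZMod 2) d) * y d = Z1 d * y d + Z2 d * y d +
          (Pi.single p 1 : D → ZMod 2) d * y d + (Pi.single q 1 : D → ZMod 2) d * y d :=
        fun d => by ring
      simp only [e2]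
      rw [Finset.sum_add_distrib, Finset.sum_add_distrib, Finset.sum_add_distrib, e1, e1,
        s1 y χ hχ, s2 y χ hχ]
      linear_combination z_self (χ (M.cell p)) + z_self (χ (M.cell q)) +
        z_self (χ (M.cell (M.rho p))) + z_self (χ (M.cell (M.rho q))))
  -- the two sides
  obtain ⟨c, hc⟩ := M.ex x h.dead h.iot (fun d => by rw [h.par d, if_neg (Set.notMem_empty d)])
  have hc0 : ∀ d, x d = 0 → c (M.cell d) = c (M.cell (M.rho d)) := by
    intro d hd
    rw [hc d] at hd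
    revert hd
    generalize c (M.cell d) = a
    generalize c (M.cell (M.rho d)) = b
    revert a b; decide
  have hlc : ∀ m, c (M.cell (P M x p m)) = c (M.cell p) := it_col h hp hc0
  have hcpq : c (M.cell q) = c (M.cell p) := by rw [← hn]; exact hlc n
  -- a state of the loop is not the reverse of `p` or `q`
  have hrev : ∀ m, M.iota (P M x p m) ≠ p ∧ M.iota (P M x p m) ≠ q := by
    have key : ∀ m r, x r = 1 → c (M.cell r) = c (M.cell p) → M.iota (P M x p m) ≠ r := by
      intro m r hr hcr e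
      have h1 := cell_rho_iota M (h.lv (P_occ h hp m))
      rw [e] at h1
      have h2 := hc r
      rw [hr, h1, hlc m, hcr, z_self] at h2
      exact absurd h2 (by decide)
    exact fun m => ⟨key m p hp rfl, key m q hq hcpq⟩
  have hstep : ∀ m, ψ (P M x p (m + 1)) = ψ (P M x p m) +
      (if P M x p (m + 1) = p then 1 else 0) + (if P M x p (m + 1) = q then 1 else 0) := by
    intro m
    -- the exit side
    obtain ⟨s, hs1, hs2, hs3⟩ : ∃ s, ψ s = ψ (P M x p m) ∧ x s = 1 ∧
        P M x p (m + 1) = M.iota s := by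
      rcases stp_cases h (P_occ h hp m) (Set.notMem_empty _) with ⟨h1, -, e⟩ | ⟨-, h1, e⟩
      · exact ⟨_, hψr _, h1, by rw [P_succ, e]⟩
      · exact ⟨_, by rw [hψr, hψr], h1, by rw [P_succ, e]⟩
    have h1 := hψ s (h.lv hs2)
    have zs : ∀ (Z : D → ZMod 2), (∀ d, Z d ≠ 0 → d ∈ E ∧ x d = 0) → ∀ r, x r = 1 → Z r = 0 := by
      intro Z hZ r hr
      by_contra h0
      have := (hZ r h0).2
      rw [hr] at this
      exact absurd this (by decide)
    have hx' : x (M.iota s) = 1 := by rw [h.iot]; exact hs2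
    have ns : ∀ r, r ≠ s → (Pi.single r 1 : D → ZMod 2) s = 0 := fun r hr =>
      Pi.single_eq_of_ne (fun e => hr e.symm) 1
    have hs4 : M.iota (P M x p (m + 1)) = s := by rw [hs3, M.iota2]
    have np : p ≠ s := fun e => (hrev (m + 1)).1 (by rw [hs4, e])
    have nq : q ≠ s := fun e => (hrev (m + 1)).2 (by rw [hs4, e])
    have si : ∀ r : D, (Pi.single r 1 : D → ZMod 2) (M.iota s) =
        if P M x p (m + 1) = r then 1 else 0 := by
      intro r
      rw [hs3]
      by_cases hr : M.iota s = r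
      · rw [if_pos hr, hr, Pi.single_eq_same]
      · rw [if_neg hr, Pi.single_eq_of_ne hr]
    simp only [zs Z1 z1 s hs2, zs Z2 z2' s hs2, zs Z1 z1 _ hx', zs Z2 z2' _ hx', ns p np, ns q nq,
      si, zero_add] at h1
    rw [← hs3] at h1
    rw [← hs1]
    exact z4 _ _ _ _ h1
  -- before `q`
  have hA : ∀ m, m < n → ψ (P M x p m) = ψ p := by
    intro m
    induction m with
    | zero => intro _; rfl
    | succ m ih =>
      intro hm
      rw [hstep m, ih (by omega), if_neg, if_neg]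
      · simp
      · intro e
        exact hinj (m + 1) n hm hnN (by rw [e, hn])
      · intro e
        exact hinj 0 (m + 1) (by omega) (by omega) e.symm
  have hB : ∀ m, n ≤ m → m < N → ψ (P M x p m) = ψ p + 1 := by
    intro m
    induction m with
    | zero => intro h0; omega
    | succ m ih =>
      intro h0 hm
      have e0 : P M x p (m + 1) ≠ p := fun e => hinj 0 (m + 1) (by omega) hm e.symm
      rcases Nat.lt_or_ge m n with h1 | h1
      · have e2 : m + 1 = n := by omega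
        rw [hstep m, hA m h1, if_neg e0, if_pos (by rw [e2]; exact hn)]
        ring
      · rw [hstep m, ih h1 (by omega), if_neg e0, if_neg]
        · simp
        · intro e
          exact hinj n (m + 1) (by omega) hm (by rw [e, hn])
  have hO' := hO ψ hψr (by
    intro d hd h1 h2
    have h3 := hψ d hd
    have zz : ∀ (Z : D → ZMod 2), (∀ d, Z d ≠ 0 → d ∈ E ∧ x d = 0) → ∀ r, r ∉ E → Z r = 0 := by
      intro Z hZ r hr
      by_contra h0
      exact hr (hZ r h0).1
    have ss : ∀ r : D, r ∈ E → ∀ t, t ∉ E → (Pi.single r 1 : D → ZMod 2) t = 0 := by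
      intro r hr t ht
      exact Pi.single_eq_of_ne (fun e : t = r => ht (by rw [e]; exact hr)) 1
    simp only [zz Z1 z1 d h1, zz Z2 z2' d h1, zz Z1 z1 _ h2, zz Z2 z2' _ h2, ss p hpE d h1,
      ss q hqE d h1, ss p hpE _ h2, ss q hqE _ h2] at h3
    simp only [add_zero] at h3
    exact z5 _ _ h3)
  refine ⟨n, N, hn0, hnN, hn, hN, hinj, ?_⟩
  by_contra hcon
  rw [not_or] at hcon
  push Not at hcon
  obtain ⟨⟨a, ha1, ha2⟩, b, hb1, hb2, hb3⟩ := hcon
  have e := hO' _ ha2 _ hb3
  rw [hA a ha1, hB b hb1 hb2] at e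
  revert e
  generalize ψ p = u
  revert u; decide

end abs

/-! ### the Delaunay triangulation with wired hull -/

section del

open Crest.Agent.R143.B0x346 Crest.Agent.R143.DelGx806 Crest.Agent.R143.DelRx806
  Crest.Agent.R143.Frame8x395 Crest.Agent.R143.Frame10x395 Crest.Agent.R143.Circx63
  Crest.Agent.R143.Blkx838 Crest.Agent.R143.ToolWx838
open Crest.Agent.R143.Frame5x395 (sd mem_sd th th_spec)
open Crest.Agent.R143.JColx54 (delT_rot)

variable {S : Finset ℂ}

/-- the triangle on the left of a dart -/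
def tr (S : Finset ℂ) (d : D0 S) : ℂ × ℂ × ℂ := (d.1.1, d.1.2, th S d.1)

theorem tr_mem (d : D0 S) : tr S d ∈ delT S := th_spec d.2

/-- the edge of a dart -/
def sg (d : D0 S) : Set ℂ := segment ℝ d.1.1 d.1.2

theorem tr_rho (hS : GP (S : Set ℂ)) (d : D0 S) : tr S ((cm0 hS).rho d) ∈ rots (tr S d) := by
  obtain ⟨⟨a, b⟩, hd⟩ := d
  have h1 := th_spec hd
  have h2 : th S (b, th S (a, b)) = a := th0 hS (delT_rot hS h1)
  have h3 : tr S ((cm0 hS).rho ⟨(a, b), hd⟩) = (b, th S (a, b), a) :=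
    Prod.ext rfl (Prod.ext rfl h2)
  rw [h3]
  exact Or.inr (Or.inl rfl)

theorem cT_rho (hS : GP (S : Set ℂ)) (d : D0 S) : cT (tr S ((cm0 hS).rho d)) = cT (tr S d) :=
  cT_rots (tr_rho hS d)

theorem tr_pos (d : D0 S) : 0 < cr (d.1.2 - d.1.1) (th S d.1 - d.1.1) := by
  obtain ⟨o, h⟩ := mem_delT_iff.1 (tr_mem d)
  exact h.pos

theorem sg_cT (d : D0 S) : sg d ⊆ cT (tr S d) := fun _ hx => seg_sub_cT (tr_pos d) hx

theorem sg_rho (hS : GP (S : Set ℂ)) (d : D0 S) : sg ((cm0 hS).rho d) ⊆ cT (tr S d) := by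
  rw [← cT_rho hS d]
  exact sg_cT _

theorem sg_rho2 (hS : GP (S : Set ℂ)) (d : D0 S) :
    sg ((cm0 hS).rho ((cm0 hS).rho d)) ⊆ cT (tr S d) := by
  rw [← cT_rho hS d]
  exact sg_rho hS _

theorem sg_iota (hS : GP (S : Set ℂ)) (d : D0 S) : sg ((cm0 hS).iota d) = sg d := by
  show sg (io0 d) = sg d
  by_cases h : (d.1.2, d.1.1) ∈ sd S
  · rw [io0_live h]
    exact segment_symm ℝ _ _
  · rw [io0_dead h]

/-- a rotation invariant function of the darts with the same triangle -/
theorem rot_inv (hS : GP (S : Set ℂ)) {ψ : D0 S → ZMod 2}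
    (hψ : ∀ d, ψ ((cm0 hS).rho d) = ψ d) {d : D0 S} {u v w : ℂ} (h : (u, v, w) ∈ rots (tr S d)) :
    ∃ e : D0 S, e.1 = (u, v) ∧ ψ e = ψ d := by
  obtain ⟨⟨a, b⟩, hd⟩ := d
  have h1 := th_spec hd
  rcases rots_cases h with h2 | h2 | h2
  · have e1 : u = a := congrArg Prod.fst h2
    have e2 : v = b := congrArg (fun t => t.2.1) h2
    refine ⟨⟨(a, b), hd⟩, ?_, rfl⟩
    rw [e1, e2]
  · have e1 : u = b := congrArg Prod.fst h2
    have e2 : v = th S (a, b) := congrArg (fun t => t.2.1) h2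
    refine ⟨(cm0 hS).rho ⟨(a, b), hd⟩, ?_, hψ _⟩
    rw [e1, e2]
    rfl
  · have e1 : u = th S (a, b) := congrArg Prod.fst h2
    have e2 : v = a := congrArg (fun t => t.2.1) h2
    refine ⟨(cm0 hS).rho ((cm0 hS).rho ⟨(a, b), hd⟩), ?_, by rw [hψ, hψ]⟩
    rw [e1, e2]
    have h3 : th S (b, th S (a, b)) = a := th0 hS (delT_rot hS h1)
    show (th S (a, b), th S (b, th S (a, b))) = _
    rw [h3]

/-- darts whose edge does not meet `K` -/
def Ed (S : Finset ℂ) (K : Set ℂ) : Set (D0 S) := {d | Disjoint (sg d) K}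

/-- darts whose triangle meets `K` -/
def Ou (S : Finset ℂ) (K : Set ℂ) : Set (D0 S) := {d | (cT (tr S d) ∩ K).Nonempty}

/-- **the triangles which meet a connected set are connected across the edges which meet it** -/
theorem psi_const (hS : GP (S : Set ℂ)) {K : Set ℂ} (hK : IsPreconnected K)
    (hcov : ∀ z ∈ K, ∃ t ∈ delT S, z ∈ cT t) (hKS : ∀ z ∈ K, z ∉ S) (ψ : D0 S → ZMod 2)
    (hψ : ∀ d, ψ ((cm0 hS).rho d) = ψ d)
    (hi : ∀ d ∈ (cm0 hS).live, d ∉ Ed S K → (cm0 hS).iota d ∉ Ed S K →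
      ψ ((cm0 hS).iota d) = ψ d) {d d' : D0 S} (hd : d ∈ Ou S K) (hd' : d' ∈ Ou S K) :
    ψ d = ψ d' := by
  by_contra hne
  set A : Set ℂ := ⋃ e ∈ {e : D0 S | ψ e = ψ d}, cT (tr S e) with hA
  set B : Set ℂ := ⋃ e ∈ {e : D0 S | ψ e ≠ ψ d}, cT (tr S e) with hB
  have cA : IsClosed A := (Set.toFinite _).isClosed_biUnion fun e _ => isClosed_cT _
  have cB : IsClosed B := (Set.toFinite _).isClosed_biUnion fun e _ => isClosed_cT _
  have hAB : K ⊆ A ∪ B := by
    intro z hz
    obtain ⟨⟨a, b, c⟩, ht, hzt⟩ := hcov z hz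
    have hm : (a, b) ∈ sd S := mem_sd.2 ⟨c, ht⟩
    have he : tr S ⟨(a, b), hm⟩ = (a, b, c) := Prod.ext rfl (Prod.ext rfl (th0 hS ht))
    rw [← he] at hzt
    by_cases h : ψ ⟨(a, b), hm⟩ = ψ d
    · exact Or.inl (Set.mem_biUnion (show (⟨(a, b), hm⟩ : D0 S) ∈ {e : D0 S | ψ e = ψ d} from h) hzt)
    · exact Or.inr (Set.mem_biUnion (show (⟨(a, b), hm⟩ : D0 S) ∈ {e : D0 S | ψ e ≠ ψ d} from h) hzt)
  obtain ⟨z1, h1, h1'⟩ := hd
  obtain ⟨z2, h2, h2'⟩ := hd'
  have n1 : (K ∩ A).Nonempty :=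
    ⟨z1, h1', Set.mem_biUnion (show d ∈ {e : D0 S | ψ e = ψ d} from rfl) h1⟩
  have n2 : (K ∩ B).Nonempty :=
    ⟨z2, h2', Set.mem_biUnion (show d' ∈ {e : D0 S | ψ e ≠ ψ d} from fun e => hne e.symm) h2⟩
  obtain ⟨z, hzK, hzA, hzB⟩ := isPreconnected_closed_iff.1 hK A B cA cB hAB n1 n2
  rw [hA, Set.mem_iUnion₂] at hzA
  rw [hB, Set.mem_iUnion₂] at hzB
  obtain ⟨e1, he1, hz1⟩ := hzA
  obtain ⟨e2, he2, hz2⟩ := hzB
  have he1' : ψ e1 = ψ d := he1
  have he2' : ψ e2 ≠ ψ d := he2
  rcases meet hS (tr_mem e1) (tr_mem e2) hz1 hz2 (fun h => hKS z hzK h) with h3 | h3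
  · obtain ⟨e, ee, hpe⟩ := rot_inv hS hψ (d := e1) (u := e2.1.1) (v := e2.1.2) (w := th S e2.1) h3
    have : e = e2 := Subtype.ext ee
    rw [this, he1'] at hpe
    exact he2' hpe
  · obtain ⟨u, v, w, w', h4, h5, h6⟩ := h3
    obtain ⟨e, ee, hpe⟩ := rot_inv hS hψ h4
    obtain ⟨e', ee', hpe'⟩ := rot_inv hS hψ h5
    have hlive : e ∈ (cm0 hS).live := by
      show (e.1.2, e.1.1) ∈ sd S
      rw [ee]
      have := e'.2
      rwa [ee'] at this
    have hio : (cm0 hS).iota e = e' := by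
      show io0 e = e'
      rw [io0_live hlive]
      apply Subtype.ext
      show (e.1.2, e.1.1) = e'.1
      rw [ee, ee']
    have hne1 : e ∉ Ed S K := by
      intro h
      refine Set.disjoint_left.1 h ?_ hzK
      show z ∈ segment ℝ e.1.1 e.1.2
      rw [ee]; exact h6
    have hne2 : (cm0 hS).iota e ∉ Ed S K := by
      intro h
      have h' : Disjoint (sg ((cm0 hS).iota e)) K := h
      rw [sg_iota] at h'
      exact hne1 h'
    have h7 := hi e hlive hne1 hne2
    rw [hio, hpe', hpe, he1'] at h7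
    exact he2' h7

/-- **confinement by a connected set** -/
theorem conf_curve (hS : GP (S : Set ℂ)) {x : D0 S → ZMod 2} (h : IsC (cm0 hS) ∅ x) {p q : D0 S}
    (hp : x p = 1) (hq : x q = 1) (hne : p ≠ q) {K : Set ℂ} (hK : IsPreconnected K)
    (hcov : ∀ z ∈ K, ∃ t ∈ delT S, z ∈ cT t) (hKS : ∀ z ∈ K, z ∉ S)
    (hpK : p ∈ Ed S K) (hqK : q ∈ Ed S K)
    (hl : Ln (cm0 hS) x (Ed S K) ((cm0 hS).cell p) ((cm0 hS).cell q))
    (hr : Ln (cm0 hS) x (Ed S K) ((cm0 hS).cell ((cm0 hS).rho p))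
      ((cm0 hS).cell ((cm0 hS).rho q))) :
    ∃ n N, 0 < n ∧ n < N ∧ P (cm0 hS) x p n = q ∧ P (cm0 hS) x p N = p ∧
      (∀ a b, a < b → b < N → P (cm0 hS) x p a ≠ P (cm0 hS) x p b) ∧
      ((∀ m, m < n → Disjoint (cT (tr S (P (cm0 hS) x p m))) K) ∨
        (∀ m, n ≤ m → m < N → Disjoint (cT (tr S (P (cm0 hS) x p m))) K)) := by
  obtain ⟨n, N, h1, h2, h3, h4, h5, h6⟩ := conf_abs h hp hq hne hpK hqK hl hr (O := Ou S K)
    (fun ψ hψ hi d hd d' hd' => psi_const hS hK hcov hKS ψ hψ hi hd hd')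
  refine ⟨n, N, h1, h2, h3, h4, h5, ?_⟩
  have key : ∀ d : D0 S, d ∉ Ou S K → Disjoint (cT (tr S d)) K := by
    intro d hd
    rw [Set.disjoint_iff_inter_eq_empty]
    exact Set.not_nonempty_iff_eq_empty.1 hd
  rcases h6 with h6 | h6
  · exact Or.inl fun m hm => key _ (h6 m hm)
  · exact Or.inr fun m hm hm' => key _ (h6 m hm hm')

/-! ### regions -/

theorem convex_cT (t : ℂ × ℂ × ℂ) : Convex ℝ (cT t) := by
  obtain ⟨a, b, c⟩ := t
  have key : ∀ u v : ℂ, Convex ℝ {z : ℂ | 0 ≤ cr (v - u) (z - u)} := by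
    intro u v x hx y hy s t hs ht hst
    have hx' : 0 ≤ cr (v - u) (x - u) := hx
    have hy' : 0 ≤ cr (v - u) (y - u) := hy
    show 0 ≤ cr (v - u) (s • x + t • y - u)
    have e : cr (v - u) (s • x + t • y - u) = s * cr (v - u) (x - u) + t * cr (v - u) (y - u) := by
      have hs' : s = 1 - t := by linarith
      subst hs'
      unfold cr
      simp only [Complex.sub_re, Complex.sub_im, Complex.add_re, Complex.add_im,
        Complex.real_smul, Complex.mul_re, Complex.mul_im, Complex.ofReal_re, Complex.ofReal_im]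
      ring
    rw [e]
    positivity
  have : cT (a, b, c) = {z : ℂ | 0 ≤ cr (b - a) (z - a)} ∩ ({z : ℂ | 0 ≤ cr (c - b) (z - b)} ∩
      {z : ℂ | 0 ≤ cr (a - c) (z - c)}) := by
    ext z
    exact ⟨fun h => ⟨h.1, h.2.1, h.2.2⟩, fun h => ⟨h.1, h.2.1, h.2.2⟩⟩
  rw [this]
  exact (key a b).inter ((key b c).inter (key c a))

/-- a triangle which meets the region and not its frontier is in the region -/
theorem cT_sub {R : Set ℂ} {t : ℂ × ℂ × ℂ} (h : Disjoint (cT t) (frontier R))
    (h' : (cT t ∩ R).Nonempty) : cT t ⊆ R := by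
  have h1 := (convex_cT t).isPreconnected
  have h2 : cT t ⊆ interior R ∪ (closure R)ᶜ := by
    intro z hz
    by_cases h3 : z ∈ closure R
    · left
      by_contra h4
      exact Set.disjoint_left.1 h hz ⟨h3, h4⟩
    · exact Or.inr h3
  have h3 : (cT t ∩ interior R).Nonempty := by
    obtain ⟨z, hz, hzR⟩ := h'
    rcases h2 hz with h4 | h4
    · exact ⟨z, hz, h4⟩
    · exact absurd (subset_closure hzR) h4
  exact (h1.subset_left_of_subset_union isOpen_interior isClosed_closure.isOpen_compl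
    (Set.disjoint_compl_right_iff_subset.2 (interior_subset.trans subset_closure)) h2 h3).trans
    interior_subset

theorem sg_ne (d : D0 S) : (sg d).Nonempty := ⟨_, left_mem_segment ℝ _ _⟩

/-- the walker stays in the region as long as his triangles do not meet the frontier -/
theorem stay (hS : GP (S : Set ℂ)) {x : D0 S → ZMod 2} (h : IsC (cm0 hS) ∅ x) {p : D0 S}
    (hp : x p = 1) {R : Set ℂ} {a b : ℕ} (ha : sg (P (cm0 hS) x p a) ⊆ R)
    (hd : ∀ m, a ≤ m → m < b → Disjoint (cT (tr S (P (cm0 hS) x p m))) (frontier R)) :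
    ∀ m, a ≤ m → m < b → cT (tr S (P (cm0 hS) x p m)) ⊆ R := by
  have key : ∀ m, a ≤ m → m < b → sg (P (cm0 hS) x p m) ⊆ R →
      cT (tr S (P (cm0 hS) x p m)) ⊆ R := by
    intro m h1 h2 h3
    obtain ⟨z, hz⟩ := sg_ne (P (cm0 hS) x p m)
    exact cT_sub (hd m h1 h2) ⟨z, sg_cT _ hz, h3 hz⟩
  intro m h1
  induction m, h1 using Nat.le_induction with
  | base => intro h2; exact key a le_rfl h2 ha
  | succ m h1 ih =>
    intro h2
    apply key (m + 1) (by omega) h2
    have h3 := ih (by omega)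
    rcases stp_cases h (P_occ h hp m) (Set.notMem_empty _) with ⟨-, -, e⟩ | ⟨-, -, e⟩
    · rw [P_succ, e, sg_iota]
      exact (sg_rho hS _).trans h3
    · rw [P_succ, e, sg_iota]
      exact (sg_rho2 hS _).trans h3

/-- darts whose edge is in `R` -/
def Ei (S : Finset ℂ) (R : Set ℂ) : Set (D0 S) := {d | sg d ⊆ R}

/-- **confinement (V2)** : `R` open with connected frontier, covered by the triangles and without
sites on the frontier; the two chains inside `R`. Then all triangles of one of the two arcs of the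
loop between `p` and `q` are inside `R`. -/
theorem conf (hS : GP (S : Set ℂ)) {x : D0 S → ZMod 2} (h : IsC (cm0 hS) ∅ x) {p q : D0 S}
    (hp : x p = 1) (hq : x q = 1) (hne : p ≠ q) {R : Set ℂ} (hR : IsOpen R)
    (hK : IsPreconnected (frontier R)) (hcov : ∀ z ∈ frontier R, ∃ t ∈ delT S, z ∈ cT t)
    (hKS : ∀ z ∈ frontier R, z ∉ S) (hpR : sg p ⊆ R) (hqR : sg q ⊆ R)
    (hl : Ln (cm0 hS) x (Ei S R) ((cm0 hS).cell p) ((cm0 hS).cell q))
    (hr : Ln (cm0 hS) x (Ei S R) ((cm0 hS).cell ((cm0 hS).rho p))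
      ((cm0 hS).cell ((cm0 hS).rho q))) :
    ∃ n N, 0 < n ∧ n < N ∧ P (cm0 hS) x p n = q ∧ P (cm0 hS) x p N = p ∧
      (∀ a b, a < b → b < N → P (cm0 hS) x p a ≠ P (cm0 hS) x p b) ∧
      ((∀ m, m < n → cT (tr S (P (cm0 hS) x p m)) ⊆ R) ∨
        (∀ m, n ≤ m → m < N → cT (tr S (P (cm0 hS) x p m)) ⊆ R)) := by
  have hE : Ei S R ⊆ Ed S (frontier R) := by
    intro d hd
    exact Set.disjoint_of_subset_left hd (by
      rw [hR.frontier_eq]
      exact Set.disjoint_sdiff_right)
  obtain ⟨n, N, h1, h2, h3, h4, h5, h6⟩ := conf_curve hS h hp hq hne hK hcov hKS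
    (hE hpR) (hE hqR) (hl.mono hE) (hr.mono hE)
  refine ⟨n, N, h1, h2, h3, h4, h5, ?_⟩
  rcases h6 with h6 | h6
  · left
    intro m hm
    exact stay hS h hp (a := 0) (b := n) hpR (fun m _ hm => h6 m hm) m (Nat.zero_le m) hm
  · right
    have h7 : sg (P (cm0 hS) x p n) ⊆ R := by rw [h3]; exact hqR
    exact stay hS h hp h7 h6

/-- chains of sites -/
theorem ln_list (hS : GP (S : Set ℂ)) {χ : Quot (hullE S) → ZMod 2} {R : Set ℂ} {i : ZMod 2}
    {l : List ℂ} (hne : l ≠ []) (hadj : ∀ e ∈ prs l, DE S e.1 e.2)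
    (hcol : ∀ s ∈ l, χ (Quot.mk _ s) = i) (hR : ∀ e ∈ prs l, segment ℝ e.1 e.2 ⊆ R) :
    Ln (cm0 hS) (cfg (cm0 hS) χ) (Ei S R) (Quot.mk _ (l.head hne)) (Quot.mk _ (l.getLast hne)) := by
  induction l with
  | nil => exact absurd rfl hne
  | cons a l ih =>
    cases l with
    | nil => exact Ln.refl _
    | cons b l =>
      have h1 := ih (by simp) (fun e he => hadj e (by simp [prs, he]))
        (fun s hs => hcol s (List.mem_cons_of_mem _ hs)) (fun e he => hR e (by simp [prs, he]))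
      rw [List.getLast_cons (by simp)]
      refine Ln.trans ?_ h1
      have hab : DE S a b := hadj (a, b) (by simp [prs])
      have hs : segment ℝ a b ⊆ R := hR (a, b) (by simp [prs])
      have ca := hcol a (by simp)
      have cb := hcol b (by simp)
      show Ln (cm0 hS) (cfg (cm0 hS) χ) (Ei S R) (Quot.mk _ a) (Quot.mk _ b)
      rcases hab with ⟨c, hc⟩ | ⟨c, hc⟩
      · have hm : (a, b) ∈ sd S := mem_sd.2 ⟨c, hc⟩
        refine Ln.one (M := cm0 hS) (d := ⟨(a, b), hm⟩) hs ?_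
        show χ (Quot.mk _ a) + χ (Quot.mk _ b) = 0
        rw [ca, cb, z_self]
      · have hm : (b, a) ∈ sd S := mem_sd.2 ⟨c, hc⟩
        refine Ln.symm (Ln.one (M := cm0 hS) (d := ⟨(b, a), hm⟩) ?_ ?_)
        · show segment ℝ b a ⊆ R
          rw [segment_symm]; exact hs
        · show χ (Quot.mk _ b) + χ (Quot.mk _ a) = 0
          rw [ca, cb, z_self]

end del

end Crest.Agent.R143.Confx686
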