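import Crest.Agent.R143.Fresh_920
import Crest.Agent.R143.K33D_877

/-!
# Row 143 (S0194), CONT (3434): the exploration of a cluster and the probability half (helper920)

`F` a set of sites (the free sites of the small domain), `B` a set of sites (a class), `T` the black
sites.
* `bdy S F B T` : the sites of `F ∩ T` next to the cluster `Clu S (F \ T) B`
* `clu_eq` : cluster and boundary only depend on the colours of the cluster and of the boundary
* `Jw` : the exploration of the cluster and of its boundary, `stop_w`, `dec_clu`, `dec_bdy`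
* `Jb` : the same with the two colours exchanged, `stop_b`
* `hit_bdy` : the hit of `bdy` is a hit; `hit_bdy_iff`
* `last` : the last site of a path in a class
* `half`, `both` : union bound of CONT, one half and both halves
-/

set_option autoImplicit false

noncomputable section

open scoped Classical

namespace Crest.Agent.R143.Cont2x920

open Crest.Agent.R143.Harx315
open Crest.Agent.R143.D3Fx802 (CArm)
open Crest.Agent.R143.JColx54 (Adj)
open Crest.Agent.R143.RE0x723 (Pth)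
open Crest.Agent.R143.DelGx806
open Crest.Agent.R143.K33x877 Crest.Agent.R143.Freshx920

variable {S V : Finset ℂ} {F B T T' : Set ℂ} {x y z : ℂ}

/-! ### clusters -/

theorem clu_self (h : x ∈ B) : x ∈ Clu S T B := ⟨x, h, Pth.refl (Or.inr h)⟩

theorem clu_mem (h : x ∈ Clu S T B) : x ∈ T ∪ B := by
  obtain ⟨_, _, h1⟩ := h
  exact h1.snd

theorem clu_tail (h : x ∈ Clu S T B) (ha : Adj S x y) (hy : y ∈ T ∪ B) : y ∈ Clu S T B := by
  obtain ⟨a, h1, h2⟩ := h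
  exact ⟨a, h1, h2.tail ha hy⟩

theorem clu_mono (h : T ⊆ T') : Clu S T B ⊆ Clu S T' B := by
  rintro v ⟨a, h1, h2⟩
  exact ⟨a, h1, h2.mono (Set.union_subset_union_left _ h)⟩

/-- induction over a cluster -/
theorem clu_ind {P : ℂ → Prop} (h : x ∈ Clu S T B) (h0 : ∀ a ∈ B, P a)
    (hs : ∀ a b, a ∈ Clu S T B → b ∈ T → Adj S a b → P a → P b) : P x := by
  obtain ⟨a, h1, h2⟩ := h
  have key : x ∈ Clu S T B ∧ P x := by
    refine h2.ind (P := fun x => x ∈ Clu S T B ∧ P x) ⟨clu_self h1, h0 a h1⟩ ?_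
    rintro b c _ hc hbc ⟨h3, h4⟩
    refine ⟨clu_tail h3 hbc hc, ?_⟩
    rcases hc with hc | hc
    · exact hs b c h3 hc hbc h4
    · exact h0 c hc
  exact key.2

/-- a path inside the cluster -/
theorem clu_pth (h : x ∈ Clu S T B) : ∃ a ∈ B, Pth S (Clu S T B) a x := by
  obtain ⟨a, h1, h2⟩ := h
  refine ⟨a, h1, ?_⟩
  have key : x ∈ Clu S T B ∧ Pth S (Clu S T B) a x := by
    refine h2.ind (P := fun x => x ∈ Clu S T B ∧ Pth S (Clu S T B) a x)
      ⟨clu_self h1, Pth.refl (clu_self h1)⟩ ?_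
    rintro b c _ hc hbc ⟨h3, h4⟩
    have h5 := clu_tail h3 hbc hc
    exact ⟨h5, h4.tail hbc h5⟩
  exact key.2

/-- the last site of a path which is in the class -/
theorem last (h : x ∈ Clu S T B) : ∃ a ∈ B, Pth S (T ∪ {a}) a x := by
  refine clu_ind (P := fun x => ∃ a ∈ B, Pth S (T ∪ {a}) a x) h
    (fun a ha => ⟨a, ha, Pth.refl (Or.inr rfl)⟩) ?_
  rintro b c _ hc hbc ⟨a, ha, h1⟩
  exact ⟨a, ha, h1.tail hbc (Or.inl hc)⟩

/-- black boundary of the cluster of `B` in `F \ T` -/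
def bdy (S : Finset ℂ) (F B T : Set ℂ) : Set ℂ :=
  {v | v ∈ F ∧ v ∈ T ∧ ∃ u ∈ Clu S (F \ T) B, Adj S u v}

theorem bdy_F (h : x ∈ bdy S F B T) : x ∈ F := h.1
theorem bdy_T (h : x ∈ bdy S F B T) : x ∈ T := h.2.1
theorem bdy_sub : bdy S F B T ⊆ F ∩ T := fun _ h => ⟨h.1, h.2.1⟩

/-- **cluster and boundary only depend on the colours of the cluster and of the boundary** -/
theorem clu_eq (h1 : ∀ v ∈ bdy S F B T, v ∈ T')
    (h2 : ∀ v ∈ Clu S (F \ T) B, v ∈ F → v ∉ T → v ∉ T') :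
    Clu S (F \ T') B = Clu S (F \ T) B ∧ bdy S F B T' = bdy S F B T := by
  have e1 : Clu S (F \ T) B ⊆ Clu S (F \ T') B := by
    intro v hv
    refine clu_ind (P := fun v => v ∈ Clu S (F \ T') B) hv (fun a ha => clu_self ha) ?_
    intro a b ha hb hab ih
    exact clu_tail ih hab (Or.inl ⟨hb.1, h2 b (clu_tail ha hab (Or.inl hb)) hb.1 hb.2⟩)
  have e2 : Clu S (F \ T') B ⊆ Clu S (F \ T) B := by
    intro v hv
    refine clu_ind (P := fun v => v ∈ Clu S (F \ T) B) hv (fun a ha => clu_self ha) ?_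
    intro a b _ hb hab ih
    by_cases hT : b ∈ T
    · exact absurd (h1 b ⟨hb.1, hT, a, ih, hab⟩) hb.2
    · exact clu_tail ih hab (Or.inl ⟨hb.1, hT⟩)
  have e3 : Clu S (F \ T') B = Clu S (F \ T) B := Set.Subset.antisymm e2 e1
  refine ⟨e3, ?_⟩
  ext v
  constructor
  · rintro ⟨h3, h4, u, h5, h6⟩
    rw [e3] at h5
    by_cases hT : v ∈ T
    · exact ⟨h3, hT, u, h5, h6⟩
    · exact absurd h4 (h2 v (clu_tail h5 h6 (Or.inl ⟨h3, hT⟩)) h3 hT)
  · intro h
    obtain ⟨h3, h4, u, h5, h6⟩ := h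
    exact ⟨h3, h1 v ⟨h3, h4, u, h5, h6⟩, u, by rw [e3]; exact h5, h6⟩

/-- the colouring by the boundary alone -/
theorem clu_bdy : Clu S (F \ bdy S F B T) B = Clu S (F \ T) B ∧
    bdy S F B (bdy S F B T) = bdy S F B T :=
  clu_eq (fun _ h => h) fun _ _ _ h3 h4 => h3 (bdy_T h4)

/-! ### the exploration -/

/-- exploration of the cluster of `B` off the black sites `β`, and of its boundary -/
def Jw (S V : Finset ℂ) (F B : Set ℂ) (β : Finset ℂ) : Finset ℂ :=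
  V.filter fun v => v ∈ F ∧ (v ∈ Clu S (F \ (β : Set ℂ)) B ∨ v ∈ bdy S F B (β : Set ℂ))

theorem mem_Jw {β : Finset ℂ} {v : ℂ} : v ∈ Jw S V F B β ↔ v ∈ V ∧ v ∈ F ∧
    (v ∈ Clu S (F \ (β : Set ℂ)) B ∨ v ∈ bdy S F B (β : Set ℂ)) := by
  unfold Jw
  rw [Finset.mem_filter]

theorem clu_not (hd : Disjoint F B) (h : x ∈ Clu S (F \ T) B) (hF : x ∈ F) : x ∉ T := by
  rcases clu_mem h with h1 | h1
  · exact h1.2
  · exact absurd h1 (Set.disjoint_left.1 hd hF)

/-- the explored objects are determined by the explored colours -/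
theorem clu_dec {β β' : Finset ℂ} (hβ : β ⊆ V) (hβ' : β' ⊆ V)
    (he : β ∩ Jw S V F B β = β' ∩ Jw S V F B β) :
    Clu S (F \ (β' : Set ℂ)) B = Clu S (F \ (β : Set ℂ)) B ∧
      bdy S F B (β' : Set ℂ) = bdy S F B (β : Set ℂ) := by
  refine clu_eq ?_ ?_
  · intro v hv
    have h1 : v ∈ β := bdy_T hv
    have h2 : v ∈ β ∩ Jw S V F B β :=
      Finset.mem_inter.2 ⟨h1, mem_Jw.2 ⟨hβ h1, bdy_F hv, Or.inr hv⟩⟩
    rw [he] at h2
    exact (Finset.mem_inter.1 h2).1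
  · intro v hv hF hT hT'
    have h1 : v ∈ β' := hT'
    have h2 : v ∈ β' ∩ Jw S V F B β :=
      Finset.mem_inter.2 ⟨h1, mem_Jw.2 ⟨hβ' h1, hF, Or.inl hv⟩⟩
    rw [← he] at h2
    exact hT (Finset.mem_inter.1 h2).1

theorem stop_w (V : Finset ℂ) (F B : Set ℂ) : IsStop V (Jw S V F B) where
  sub := fun _ _ => Finset.filter_subset _ _
  stop := fun β β' hβ hβ' he => by
    obtain ⟨h1, h2⟩ := clu_dec hβ hβ' he
    unfold Jw
    rw [h1, h2]

theorem dec_clu (V : Finset ℂ) (F B : Set ℂ) :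
    DecF V (Jw S V F B) (fun β => Clu S (F \ (β : Set ℂ)) B) :=
  fun _ _ hβ hβ' he => (clu_dec hβ hβ' he).1

theorem dec_bdy (V : Finset ℂ) (F B : Set ℂ) :
    DecF V (Jw S V F B) (fun β => bdy S F B (β : Set ℂ)) :=
  fun _ _ hβ hβ' he => (clu_dec hβ hβ' he).2

/-! ### exchange of the colours -/

section flip

variable {α γ : Type*} {U : Finset α} {J : Finset α → Finset α} {A : Finset α → Prop}
  {Z : Finset α → γ}

theorem sdiff_inter_eq {β β' K : Finset α} (hK : K ⊆ U) (h : β ∩ K = β' ∩ K) :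
    (U \ β) ∩ K = (U \ β') ∩ K := by
  ext y
  have := Finset.ext_iff.1 h y
  simp only [Finset.mem_inter, Finset.mem_sdiff] at this ⊢
  tauto

theorem flip_stop (hJ : IsStop U J) : IsStop U (fun β => J (U \ β)) where
  sub := fun _ _ => hJ.sub _ Finset.sdiff_subset
  stop := fun β β' _ _ he => hJ.stop (U \ β) (U \ β') Finset.sdiff_subset Finset.sdiff_subset
    (sdiff_inter_eq (hJ.sub _ Finset.sdiff_subset) he)

theorem flip_dec (hJ : IsStop U J) (h : DecF U J Z) :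
    DecF U (fun β => J (U \ β)) (fun β => Z (U \ β)) := fun β β' _ _ he =>
  h (U \ β) (U \ β') Finset.sdiff_subset Finset.sdiff_subset
    (sdiff_inter_eq (hJ.sub _ Finset.sdiff_subset) he)

end flip

/-- exploration of the black cluster of `B` and of its white boundary -/
def Jb (S V : Finset ℂ) (F B : Set ℂ) (β : Finset ℂ) : Finset ℂ := Jw S V F B (V \ β)

theorem stop_b (V : Finset ℂ) (F B : Set ℂ) : IsStop V (Jb S V F B) := flip_stop (stop_w V F B)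

theorem sdiff_coe {β : Finset ℂ} (hF : F ⊆ V) :
    F \ ((V \ β : Finset ℂ) : Set ℂ) = F ∩ (β : Set ℂ) := by
  ext v
  simp only [Set.mem_diff, Finset.coe_sdiff, Finset.mem_coe, Set.mem_inter_iff, not_and, not_not]
  constructor
  · rintro ⟨h1, h2⟩
    exact ⟨h1, h2 (hF h1)⟩
  · rintro ⟨h1, h2⟩
    exact ⟨h1, fun _ => h2⟩

/-- white boundary of the black cluster of `B` in `F` -/
def bdw (S : Finset ℂ) (F B T : Set ℂ) : Set ℂ :=
  {v | v ∈ F ∧ v ∉ T ∧ ∃ u ∈ Clu S (F ∩ T) B, Adj S u v}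

theorem bdw_eq {β : Finset ℂ} (hF : F ⊆ V) :
    bdy S F B ((V \ β : Finset ℂ) : Set ℂ) = bdw S F B (β : Set ℂ) := by
  unfold bdy bdw
  rw [sdiff_coe hF]
  ext v
  simp only [Set.mem_setOf_eq, Finset.coe_sdiff, Set.mem_diff, Finset.mem_coe]
  constructor
  · rintro ⟨h1, h2, h3⟩
    exact ⟨h1, h2.2, h3⟩
  · rintro ⟨h1, h2, h3⟩
    exact ⟨h1, ⟨hF h1, h2⟩, h3⟩

theorem mem_Jb {β : Finset ℂ} {v : ℂ} (hF : F ⊆ V) : v ∈ Jb S V F B β ↔ v ∈ F ∧
    (v ∈ Clu S (F ∩ (β : Set ℂ)) B ∨ v ∈ bdw S F B (β : Set ℂ)) := by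
  unfold Jb
  rw [mem_Jw, sdiff_coe hF, bdw_eq hF]
  constructor
  · rintro ⟨-, h1, h2⟩
    exact ⟨h1, h2⟩
  · rintro ⟨h1, h2⟩
    exact ⟨hF h1, h1, h2⟩

theorem dec_club (hF : F ⊆ V) :
    DecF V (Jb S V F B) (fun β => Clu S (F ∩ (β : Set ℂ)) B) := by
  have h := flip_dec (stop_w (S := S) V F B) (dec_clu (S := S) V F B)
  simp only [sdiff_coe hF] at h
  exact h

theorem dec_bdw (hF : F ⊆ V) : DecF V (Jb S V F B) (fun β => bdw S F B (β : Set ℂ)) := by
  have h := flip_dec (stop_w (S := S) V F B) (dec_bdy (S := S) V F B)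
  simp only [bdw_eq hF] at h
  exact h

/-! ### the hit is a function of the boundary -/

variable {A : ZMod 3 → Set ℂ} {i j k : ZMod 3} {b v u : ℂ}

theorem fr_disj (i : ZMod 3) : Disjoint (fr S A) (A i) :=
  Set.disjoint_left.2 fun _ h h' => h.2 i h'

/-- the hit of the colouring `black = boundary of the white cluster of A j` is a hit -/
theorem hit_bdy (h : Hit S A i j k (bdy S (fr S A) (A j) T) b v u) : Hit S A i j k T b v u where
  tri := h.tri
  hb := by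
    refine clu_mono ?_ h.hb
    rintro w ⟨h1, h2⟩
    exact ⟨h1, bdy_T h2⟩
  hv := by
    have h1 := h.hv
    rwa [clu_bdy.1] at h1
  hu := h.hu

/-- the same for the white boundary of the black cluster of `A i` -/
theorem hit_bdw (h : Hit S A i j k (fr S A \ bdw S (fr S A) (A i) T) b v u) :
    Hit S A i j k T b v u where
  tri := h.tri
  hb := by
    have h1 := h.hb
    have e : fr S A ∩ (fr S A \ bdw S (fr S A) (A i) T) =
        fr S A \ bdy S (fr S A) (A i) (fr S A \ T) := by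
      have e1 : fr S A \ (fr S A \ T) = fr S A ∩ T := by
        ext v; simp only [Set.mem_inter_iff, Set.mem_diff]; tauto
      ext w
      unfold bdy
      rw [e1]
      constructor
      · rintro ⟨h2, -, h3⟩
        exact ⟨h2, fun h4 => h3 ⟨h4.1, h4.2.1.2, h4.2.2⟩⟩
      · rintro ⟨h2, h3⟩
        exact ⟨h2, h2, fun h4 => h3 ⟨h4.1, ⟨h4.1, h4.2.1⟩, h4.2.2⟩⟩
    have e1 : fr S A \ (fr S A \ T) = fr S A ∩ T := by
      ext v; simp only [Set.mem_inter_iff, Set.mem_diff]; tauto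
    rw [e, clu_bdy.1, e1] at h1
    exact h1
  hv := by
    refine clu_mono ?_ h.hv
    rintro v ⟨h1, h2⟩
    refine ⟨h1, fun hT => h2 ⟨h1, fun h3 => h3.2.1 hT⟩⟩
  hu := h.hu

/-- with existence and uniqueness the hit is determined by the boundary (`P` = side condition) -/
theorem hit_bdy_iff {P : ℂ → ℂ → ℂ → Prop}
    (hE : ∀ T : Set ℂ, ∃ b v u, Hit S A i j k T b v u ∧ P b v u)
    (hU : ∀ (T : Set ℂ) (b v u b' v' u' : ℂ), Hit S A i j k T b v u → P b v u →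
      Hit S A i j k T b' v' u' → P b' v' u' → b' = b ∧ v' = v ∧ u' = u) :
    (Hit S A i j k T b v u ∧ P b v u) ↔
      (Hit S A i j k (bdy S (fr S A) (A j) T) b v u ∧ P b v u) := by
  constructor
  · rintro ⟨h1, h2⟩
    obtain ⟨b', v', u', h3, h4⟩ := hE (bdy S (fr S A) (A j) T)
    obtain ⟨rfl, rfl, rfl⟩ := hU T b v u b' v' u' h1 h2 (hit_bdy h3) h4
    exact ⟨h3, h4⟩
  · rintro ⟨h1, h2⟩
    exact ⟨hit_bdy h1, h2⟩

theorem hit_bdw_iff {P : ℂ → ℂ → ℂ → Prop}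
    (hE : ∀ T : Set ℂ, ∃ b v u, Hit S A i j k T b v u ∧ P b v u)
    (hU : ∀ (T : Set ℂ) (b v u b' v' u' : ℂ), Hit S A i j k T b v u → P b v u →
      Hit S A i j k T b' v' u' → P b' v' u' → b' = b ∧ v' = v ∧ u' = u) :
    (Hit S A i j k T b v u ∧ P b v u) ↔
      (Hit S A i j k (fr S A \ bdw S (fr S A) (A i) T) b v u ∧ P b v u) := by
  constructor
  · rintro ⟨h1, h2⟩
    obtain ⟨b', v', u', h3, h4⟩ := hE (fr S A \ bdw S (fr S A) (A i) T)
    obtain ⟨rfl, rfl, rfl⟩ := hU T b v u b' v' u' h1 h2 (hit_bdw h3) h4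
    exact ⟨h3, h4⟩
  · rintro ⟨h1, h2⟩
    exact ⟨hit_bdw h1, h2⟩

/-! ### one half of the union bound -/

section prob

variable {J : Finset ℂ → Finset ℂ} {Far : Finset ℂ → Prop} {Rg : Set ℂ} {p0 : ℂ}
  {a1 a2 a3 a4 c1 c2 c3 c4 q1 q2 q3 q4 : ℝ}

/-- white fresh arm from an explored point in `Rg` -/
theorem one_w (hJ : IsStop V J) {zu : Finset ℂ → ℂ} (hz : DecF V J zu)
    (h1 : ∀ z ∈ Rg, ∀ W ⊆ V, pr W (fun β => CArm S β z a1 c1) ≤ q1) (hq : 0 ≤ q1) :
    pr V (fun β => zu β ∈ Rg ∧ WArm S V J (zu β) a1 c1 β) ≤ q1 := by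
  have h := fresh_one (A := fun β => zu β ∈ Rg) (Z := zu)
    (F := fun z W β => CArm S ((V \ W) \ β) z a1 c1) (q := q1) hJ
    (hz.decided fun z => z ∈ Rg) hz fun β _ hAβ => by
      rw [pr_flip (V \ J β) fun β' => CArm S β' (zu β) a1 c1]
      exact h1 _ hAβ _ Finset.sdiff_subset
  refine (le_of_eq (pr_congr fun β _ => ?_)).trans (h.trans ?_)
  · unfold WArm
    simp only [sdiff_fresh]
  · exact mul_le_of_le_one_right hq pr_le_one

/-- black fresh arm from an explored point in `Rg` -/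
theorem one_b (hJ : IsStop V J) {zu : Finset ℂ → ℂ} (hz : DecF V J zu)
    (h1 : ∀ z ∈ Rg, ∀ W ⊆ V, pr W (fun β => CArm S β z a1 c1) ≤ q1) (hq : 0 ≤ q1) :
    pr V (fun β => zu β ∈ Rg ∧ BArm S J (zu β) a1 c1 β) ≤ q1 := by
  have h := fresh_one (A := fun β => zu β ∈ Rg) (Z := zu)
    (F := fun z _ β => CArm S β z a1 c1) (q := q1) hJ
    (hz.decided fun z => z ∈ Rg) hz fun β _ hAβ => h1 _ hAβ _ Finset.sdiff_subset
  exact h.trans (mul_le_of_le_one_right hq pr_le_one)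

/-- **one half of CONT** -/
theorem half (hJ : IsStop V J) {zu zx : Finset ℂ → ℂ} (hzu : DecF V J zu) (hzx : DecF V J zx)
    (h1 : ∀ z ∈ Rg, ∀ W ⊆ V, pr W (fun β => CArm S β z a1 c1) ≤ q1)
    (h2 : ∀ z ∈ Rg, ∀ W ⊆ V, pr W (fun β => CArm S β z a2 c2) ≤ q2)
    (h3 : pr V (fun β => CArm S β p0 a3 c3) ≤ q3) (h4 : pr V (fun β => CArm S β p0 a4 c4) ≤ q4)
    (hq1 : 0 ≤ q1) (hq2 : 0 ≤ q2)
    (det : ∀ β ⊆ V, Far β → (zu β ∈ Rg ∧ WArm S V J (zu β) a1 c1 β) ∨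
      (zx β ∈ Rg ∧ WArm S V J (zx β) a2 c2 β) ∨ CArm S (V \ β) p0 a3 c3 ∨ CArm S β p0 a4 c4) :
    pr V Far ≤ q1 + q2 + q3 + q4 := by
  have e1 := one_w hJ hzu h1 hq1
  have e2 := one_w hJ hzx h2 hq2
  have e3 := arm_white h3
  have s1 : pr V Far ≤ pr V (fun β => (zu β ∈ Rg ∧ WArm S V J (zu β) a1 c1 β) ∨
      (zx β ∈ Rg ∧ WArm S V J (zx β) a2 c2 β) ∨ CArm S (V \ β) p0 a3 c3 ∨
        CArm S β p0 a4 c4) := pr_mono det
  have s2 : pr V (fun β => (zu β ∈ Rg ∧ WArm S V J (zu β) a1 c1 β) ∨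
      (zx β ∈ Rg ∧ WArm S V J (zx β) a2 c2 β) ∨ CArm S (V \ β) p0 a3 c3 ∨
        CArm S β p0 a4 c4) ≤ _ + _ := pr_or_le
  have s3 : pr V (fun β => (zx β ∈ Rg ∧ WArm S V J (zx β) a2 c2 β) ∨
      CArm S (V \ β) p0 a3 c3 ∨ CArm S β p0 a4 c4) ≤ _ + _ := pr_or_le
  have s4 : pr V (fun β => CArm S (V \ β) p0 a3 c3 ∨ CArm S β p0 a4 c4) ≤ _ + _ := pr_or_le
  linarith

end prob

end Crest.Agent.R143.Cont2x920
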