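import Crest.Agent.R143.Cont2_920

/-!
# Row 143 (S0194), CONT (3434): the probability of `|y_Ω - y_U| > η` (helper920)

* `hit_symm` : exchange of the colours and of the classes
* `uf`, `xf` : the hit and the start of the black chain as functions of the boundary
* `LArms` : output of one half of the deterministic lemma
* `left` : probability of one half
* `DET` : the deterministic lemma; `cont_pr` : the final bound
-/

set_option autoImplicit false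

noncomputable section

open scoped Classical

namespace Crest.Agent.R143.Cont3x920

open Crest.Agent.R143.Harx315
open Crest.Agent.R143.D3Fx802 (CArm)
open Crest.Agent.R143.JColx54 (Adj)
open Crest.Agent.R143.RE0x723 (Pth)
open Crest.Agent.R143.DelGx806
open Crest.Agent.R143.K33x877 Crest.Agent.R143.Freshx920 Crest.Agent.R143.Cont2x920

variable {S V : Finset ℂ} {A A' : ZMod 3 → Set ℂ} {i j k : ZMod 3} {T : Set ℂ} {b v u x y : ℂ}
  {P : ℂ → ℂ → ℂ → Prop}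

/-- exchange of the colours -/
theorem hit_symm (h : Hit S A i j k T b v u) : Hit S A j i k Tᶜ v b u where
  tri := h.tri.symm
  hb := by
    have h1 := h.hv
    rwa [Set.diff_eq] at h1
  hv := by
    have h1 := h.hb
    rwa [Set.diff_eq, compl_compl]
  hu := h.hu

/-- only the colours of the free sites matter -/
theorem hit_congr {T' : Set ℂ} (hT : ∀ w ∈ fr S A, (w ∈ T ↔ w ∈ T')) (h : Hit S A i j k T b v u) :
    Hit S A i j k T' b v u where
  tri := h.tri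
  hb := by
    refine clu_mono ?_ h.hb
    rintro w ⟨h1, h2⟩
    exact ⟨h1, (hT w h1).1 h2⟩
  hv := by
    refine clu_mono ?_ h.hv
    rintro w ⟨h1, h2⟩
    exact ⟨h1, fun h3 => h2 ((hT w h1).2 h3)⟩
  hu := h.hu

theorem hit_flip (hV : fr S A ⊆ V) {β : Finset ℂ} (h : Hit S A i j k β b v u) :
    Hit S A j i k ((V \ β : Finset ℂ) : Set ℂ) v b u := by
  refine hit_congr (fun w hw => ?_) (hit_symm h)
  simp only [Set.mem_compl_iff, Finset.mem_coe, Finset.coe_sdiff, Set.mem_diff]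
  exact ⟨fun h => ⟨hV hw, h⟩, fun h => h.2⟩

/-- existence of a hit with the side condition `P` -/
def Ex (S : Finset ℂ) (A : ZMod 3 → Set ℂ) (i j k : ZMod 3) (P : ℂ → ℂ → ℂ → Prop) : Prop :=
  ∀ T : Set ℂ, ∃ b v u, Hit S A i j k T b v u ∧ P b v u

/-- uniqueness of a hit with the side condition `P` -/
def Un (S : Finset ℂ) (A : ZMod 3 → Set ℂ) (i j k : ZMod 3) (P : ℂ → ℂ → ℂ → Prop) : Prop :=
  ∀ (T : Set ℂ) (b v u b' v' u' : ℂ), Hit S A i j k T b v u → P b v u →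
    Hit S A i j k T b' v' u' → P b' v' u' → b' = b ∧ v' = v ∧ u' = u

theorem Ex.symm (h : Ex S A i j k P) : Ex S A j i k (fun b v u => P v b u) := by
  intro T
  obtain ⟨b, v, u, h1, h2⟩ := h Tᶜ
  refine ⟨v, b, u, ?_, h2⟩
  have h3 := hit_symm h1
  rwa [compl_compl] at h3

theorem Un.symm (h : Un S A i j k P) : Un S A j i k (fun b v u => P v b u) := by
  intro T b v u b' v' u' h1 h2 h3 h4
  obtain ⟨e1, e2, e3⟩ := h Tᶜ v b u v' b' u' (hit_symm h1) h2 (hit_symm h3) h4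
  exact ⟨e2, e1, e3⟩

/-- the hit -/
def uf (S : Finset ℂ) (A : ZMod 3 → Set ℂ) (i j k : ZMod 3) (P : ℂ → ℂ → ℂ → Prop)
    (T : Set ℂ) : ℂ :=
  if h : ∃ u b v, Hit S A i j k T b v u ∧ P b v u then h.choose else 0

/-- the start of the black chain -/
def xf (S : Finset ℂ) (A : ZMod 3 → Set ℂ) (i j k : ZMod 3) (P : ℂ → ℂ → ℂ → Prop)
    (T : Set ℂ) : ℂ :=
  if h : ∃ x b v u, (Hit S A i j k T b v u ∧ P b v u) ∧ x ∈ A i ∧ Pth S (T ∪ {x}) x b then
    h.choose else 0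

/-- the explored data of a colouring `T` -/
theorem uf_xf (hE : Ex S A i j k P) (hU : Un S A i j k P) (T : Set ℂ) :
    ∃ b v, Hit S A i j k T b v (uf S A i j k P (bdy S (fr S A) (A j) T)) ∧
      P b v (uf S A i j k P (bdy S (fr S A) (A j) T)) ∧
      xf S A i j k P (bdy S (fr S A) (A j) T) ∈ A i ∧
      Pth S (bdy S (fr S A) (A j) T ∪ {xf S A i j k P (bdy S (fr S A) (A j) T)})
        (xf S A i j k P (bdy S (fr S A) (A j) T)) b := by
  set T0 := bdy S (fr S A) (A j) T with hT0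
  obtain ⟨b, v, u, h1, h2⟩ := hE T0
  have hu : ∃ u b v, Hit S A i j k T0 b v u ∧ P b v u := ⟨u, b, v, h1, h2⟩
  have hx : ∃ x b v u, (Hit S A i j k T0 b v u ∧ P b v u) ∧ x ∈ A i ∧ Pth S (T0 ∪ {x}) x b := by
    obtain ⟨a, ha, h3⟩ := last h1.hb
    refine ⟨a, b, v, u, ⟨h1, h2⟩, ha, h3.mono ?_⟩
    rintro w (h4 | h4)
    · exact Or.inl h4.2
    · exact Or.inr h4
  have eu : uf S A i j k P T0 = hu.choose := by unfold uf; rw [dif_pos hu]
  have ex : xf S A i j k P T0 = hx.choose := by unfold xf; rw [dif_pos hx]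
  obtain ⟨b1, v1, h3, h4⟩ := hu.choose_spec
  obtain ⟨b2, v2, u2, ⟨h5, h6⟩, h7, h8⟩ := hx.choose_spec
  rw [← eu] at h3 h4
  rw [← ex] at h7 h8
  obtain ⟨e1, e2, e3⟩ := hU T0 _ _ _ _ _ _ h3 h4 h5 h6
  subst e1
  exact ⟨b2, v1, hit_bdy h3, h4, h7, h8⟩

/-- output of one half of the deterministic lemma: `u` the hit, `x` the start of the black chain,
`p0` the gate -/
def LArms (S V : Finset ℂ) (F B Rg : Set ℂ) (p0 : ℂ) (a c : Fin 4 → ℝ) (u x : ℂ)
    (β : Finset ℂ) : Prop :=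
  (u ∈ Rg ∧ WArm S V (Jw S V F B) u (a 0) (c 0) β) ∨
  (x ∈ Rg ∧ WArm S V (Jw S V F B) x (a 1) (c 1) β) ∨
  CArm S (V \ β) p0 (a 2) (c 2) ∨ CArm S β p0 (a 3) (c 3)

/-- the bounds of the arms -/
structure Bds (S V : Finset ℂ) (Rg : Set ℂ) (p0 : ℂ) (a c q : Fin 4 → ℝ) : Prop where
  pos : ∀ l, 0 ≤ q l
  b0 : ∀ z ∈ Rg, ∀ W ⊆ V, pr W (fun β => CArm S β z (a 0) (c 0)) ≤ q 0
  b1 : ∀ z ∈ Rg, ∀ W ⊆ V, pr W (fun β => CArm S β z (a 1) (c 1)) ≤ q 1
  b2 : pr V (fun β => CArm S β p0 (a 2) (c 2)) ≤ q 2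
  b3 : pr V (fun β => CArm S β p0 (a 3) (c 3)) ≤ q 3

/-- **one half** -/
theorem left (V : Finset ℂ) {Rg : Set ℂ} {p0 : ℂ} {a c q : Fin 4 → ℝ}
    (hB : Bds S V Rg p0 a c q) :
    pr V (fun β => LArms S V (fr S A) (A j) Rg p0 a c
      (uf S A i j k P (bdy S (fr S A) (A j) (β : Set ℂ)))
      (xf S A i j k P (bdy S (fr S A) (A j) (β : Set ℂ))) β) ≤ q 0 + q 1 + q 2 + q 3 :=
  half (stop_w V (fr S A) (A j)) ((dec_bdy V (fr S A) (A j)).comp (uf S A i j k P))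
    ((dec_bdy V (fr S A) (A j)).comp (xf S A i j k P)) hB.b0 hB.b1 hB.b2 hB.b3 (hB.pos 0)
    (hB.pos 1) fun _ _ h => h

/-- **the deterministic lemma of CONT** (`A` the classes of `Ω`, `A'` the classes of `U`) -/
def DET (S V : Finset ℂ) (A A' : ZMod 3 → Set ℂ) (i j k : ZMod 3) (P : ℂ → ℂ → ℂ → Prop)
    (Rg : Set ℂ) (p0 p1 : ℂ) (a c : Fin 4 → ℝ) (η : ℝ) : Prop :=
  ∀ β ⊆ V, ∀ b v u, Hit S A' i j k β b v u → P b v u →
  ∀ b1 v1 y, Hit S A i j k β b1 v1 y → P b1 v1 y → η < ‖y - u‖ →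
  ∀ x ∈ A' i, Pth S (bdy S (fr S A') (A' j) (β : Set ℂ) ∪ {x}) x b →
  ∀ x' ∈ A' j, Pth S (bdw S (fr S A') (A' i) (β : Set ℂ) ∪ {x'}) x' v →
    LArms S V (fr S A') (A' j) Rg p0 a c u x β ∨
    LArms S V (fr S A') (A' i) Rg p1 a c u x' (V \ β)

/-- **CONT, probability** -/
theorem cont_pr (hV : fr S A' ⊆ V) (hE : Ex S A' i j k P) (hU : Un S A' i j k P)
    {Rg : Set ℂ} {p0 p1 : ℂ} {a c q : Fin 4 → ℝ} {η : ℝ}
    (hD : DET S V A A' i j k P Rg p0 p1 a c η)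
    (hB : Bds S V Rg p0 a c q) (hB' : Bds S V Rg p1 a c q) :
    pr V (fun β => ∃ b v u b1 v1 y, Hit S A' i j k β b v u ∧ P b v u ∧
      Hit S A i j k β b1 v1 y ∧ P b1 v1 y ∧ η < ‖y - u‖) ≤
      2 * (q 0 + q 1 + q 2 + q 3) := by
  have l1 := left (S := S) (A := A') (i := i) (j := j) (k := k) (P := P) V hB
  have l2 := left (S := S) (A := A') (i := j) (j := i) (k := k) (P := fun b v u => P v b u) V hB'
  rw [← pr_flip V (fun β => LArms S V (fr S A') (A' i) Rg p1 a c _ _ β)] at l2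
  refine (pr_mono (B := fun β => LArms S V (fr S A') (A' j) Rg p0 a c
      (uf S A' i j k P (bdy S (fr S A') (A' j) (β : Set ℂ)))
      (xf S A' i j k P (bdy S (fr S A') (A' j) (β : Set ℂ))) β ∨
      LArms S V (fr S A') (A' i) Rg p1 a c
      (uf S A' j i k (fun b v u => P v b u)
        (bdy S (fr S A') (A' i) ((V \ β : Finset ℂ) : Set ℂ)))
      (xf S A' j i k (fun b v u => P v b u)
        (bdy S (fr S A') (A' i) ((V \ β : Finset ℂ) : Set ℂ))) (V \ β)) ?_).trans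
      (pr_or_le.trans (by linarith))
  rintro β hβ ⟨b, v, u, b1, v1, y, h1, h2, h3, h4, h5⟩
  obtain ⟨b', v', g1, g2, g3, g4⟩ := uf_xf hE hU (β : Set ℂ)
  obtain ⟨v'', b'', f1, f2, f3, f4⟩ := uf_xf hE.symm hU.symm ((V \ β : Finset ℂ) : Set ℂ)
  obtain ⟨rfl, rfl, e3⟩ := hU _ _ _ _ _ _ _ h1 h2 g1 g2
  -- the mirror hit
  have f5 := hit_flip hV h1
  obtain ⟨rfl, rfl, e6⟩ := hU.symm _ _ _ _ _ _ _ f5 h2 f1 f2
  have hb := bdw_eq (S := S) (B := A' i) (β := β) hV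
  rw [hb] at f3 f4 e6
  have key := hD β hβ _ _ u h1 h2 b1 v1 y h3 h4 h5 _ g3 g4 _ f3 f4
  simp only [hb]
  rw [e3, e6]
  exact key

end Crest.Agent.R143.Cont3x920
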