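import Crest.Agent.R143.Cont5_920

/-!
# Row 143 (S0194), CONT (3434): static CONT with the arm bound for free sites only (helper920)

`ArmV S V Rg d D C c` : one-arm bound at the points of `Rg` for the fair colours of any `W ⊆ V`
(`V` = free sites; this is what is available near the hull, 802's `harm`).
* `armV_of_armB`, `ArmV.union`
* `staticV_z`, `staticV_TS` : the theorems of Cont5 with `ArmV`
-/

set_option autoImplicit false

noncomputable section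

open scoped Classical

namespace Crest.Agent.R143.Cont6x920

open Crest.Agent.R143.Harx315
open Crest.Agent.R143.D3Fx802 (CArm)
open Crest.Agent.R143.JColx54 (Adj)
open Crest.Agent.R143.RE0x723 (Pth)
open Crest.Agent.R143.B0x346 Crest.Agent.R143.DelGx806
open Crest.Agent.R143.K33x877 Crest.Agent.R143.Freshx920 Crest.Agent.R143.Cont2x920
  Crest.Agent.R143.Cont3x920 Crest.Agent.R143.Cont4x920 Crest.Agent.R143.Cont5x920
open Crest.Agent.R143.Applx359 (ST st_pow)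
open Crest.Agent.R143.NetUx346

variable {S V V' : Finset ℂ} {A A' : ZMod 3 → Set ℂ} {i j k : ZMod 3} {T : Set ℂ}
  {b v u x y : ℂ} {P : ℂ → ℂ → ℂ → Prop} {Rg Rg' : Set ℂ} {d D C c : ℝ} {z : ℂ → ℂ}

/-- one-arm bound at the points of `Rg`, colours of any set of free sites -/
def ArmV (S V : Finset ℂ) (Rg : Set ℂ) (d D C c : ℝ) : Prop :=
  ∀ z ∈ Rg, ∀ r R : ℝ, 2 * d ≤ r → r ≤ R → R ≤ D → ∀ W ⊆ V,
    pr W (fun β => CArm S β z r R) ≤ C * (r / R) ^ c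

theorem armV_of_armB (h : ArmB S Rg d D C c) (hV : V ⊆ S) : ArmV S V Rg d D C c :=
  fun z hz r R h1 h2 h3 W hW => h z hz r R h1 h2 h3 W (hW.trans hV)

theorem ArmV.mono (h : ArmV S V Rg d D C c) (hV : V' ⊆ V) (hR : Rg' ⊆ Rg) :
    ArmV S V' Rg' d D C c :=
  fun z hz r R h1 h2 h3 W hW => h z (hR hz) r R h1 h2 h3 W (hW.trans hV)

theorem ArmV.union (h : ArmV S V Rg d D C c) (h' : ArmV S V Rg' d D C c) :
    ArmV S V (Rg ∪ Rg') d D C c := by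
  rintro z (hz | hz)
  · exact h z hz
  · exact h' z hz

/-- weaker constants -/
theorem ArmV.weak {C' c' : ℝ} (h : ArmV S V Rg d D C c) (hd : 0 < d) (hC0 : 0 ≤ C)
    (hC : C ≤ C') (hc : c' ≤ c) : ArmV S V Rg d D C' c' := by
  intro z hz r R h1 h2 h3 W hW
  refine (h z hz r R h1 h2 h3 W hW).trans ?_
  have hr : 0 < r := by linarith
  have hR : 0 < R := by linarith
  have h4 : (r / R) ^ c ≤ (r / R) ^ c' :=
    Real.rpow_le_rpow_of_exponent_ge (by positivity) ((div_le_one hR).2 h2) hc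
  have h5 : 0 ≤ (r / R) ^ c := Real.rpow_nonneg (by positivity) _
  calc C * (r / R) ^ c ≤ C * (r / R) ^ c' := mul_le_mul_of_nonneg_left h4 hC0
    _ ≤ C' * (r / R) ^ c' := mul_le_mul_of_nonneg_right hC (h5.trans h4)

theorem ArmV.le (h : ArmV S V Rg d D C c) (hC : 1 ≤ C) (hc : 0 ≤ c) (hd : 0 < d) {z : ℂ}
    (hz : z ∈ Rg) {r R : ℝ} (hr : 2 * d ≤ r) (hR0 : 0 < R) (hR : R ≤ D) {W : Finset ℂ}
    (hW : W ⊆ V) : pr W (fun β => CArm S β z r R) ≤ C * (r / R) ^ c := by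
  rcases le_total r R with h1 | h1
  · exact h z hz r R hr h1 hR W hW
  · refine pr_le_one.trans ?_
    have h2 : 1 ≤ r / R := (one_le_div hR0).2 h1
    have h3 : 1 ≤ (r / R) ^ c := Real.one_le_rpow h2 hc
    nlinarith

theorem bdsV (hA : ArmV S V Rg d D C c) (hC : 1 ≤ C) (hc : 0 ≤ c) (hd : 0 < d)
    {ρ1 ρ2 η : ℝ} (h1 : d ≤ ρ1) (h2 : ρ1 ≤ ρ2) (h3 : ρ2 ≤ η) (h4 : η ≤ D) {p0 : ℂ}
    (hp : p0 ∈ Rg) : Bds S V Rg p0 (av4 d ρ1 ρ2) (cv4 ρ1 ρ2 η)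
      ![C * 4 ^ c * (d / η) ^ c, C * 4 ^ c * (d / ρ1) ^ c, C * 4 ^ c * (ρ1 / ρ2) ^ c,
        C * 4 ^ c * (ρ2 / η) ^ c] := by
  have hρ1 : 0 < ρ1 := by linarith
  have hρ2 : 0 < ρ2 := by linarith
  have hη : 0 < η := by linarith
  have p4 : (0 : ℝ) < 4 ^ c := Real.rpow_pos_of_pos (by norm_num) _
  refine ⟨?_, ?_, ?_, ?_, ?_⟩
  · intro l
    fin_cases l <;> simp <;> positivity
  · intro z hz W hW
    have h := hA.le hC hc hd hz (r := 2 * d) (R := η / 2) le_rfl (by linarith) (by linarith) hW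
    rw [pow4 hc hd.le hη, ← mul_assoc] at h
    exact h
  · intro z hz W hW
    have h := hA.le hC hc hd hz (r := 2 * d) (R := ρ1 / 2) le_rfl (by linarith) (by linarith) hW
    rw [pow4 hc hd.le hρ1, ← mul_assoc] at h
    exact h
  · have h := hA.le hC hc hd hp (r := 2 * ρ1) (R := ρ2 / 2) (by linarith) (by linarith)
      (by linarith) (le_refl V)
    rw [pow4 hc hρ1.le hρ2, ← mul_assoc] at h
    exact h
  · have h := hA.le hC hc hd hp (r := 2 * ρ2) (R := η / 2) (by linarith) (by linarith)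
      (by linarith) (le_refl V)
    rw [pow4 hc hρ2.le hη, ← mul_assoc] at h
    exact h

/-- **static CONT**, 1-Lipschitz function of the end points -/
theorem staticV_z (hz : ∀ a b, ‖z a - z b‖ ≤ ‖a - b‖)
    (hVA' : (V' : Set ℂ) = fr S A') (hVV : V' ⊆ V)
    (hE : ∀ i, Ex S A (i + 1) (i + 2) i P)
    (hE' : ∀ i, Ex S A' (i + 1) (i + 2) i P) (hU' : ∀ i, Un S A' (i + 1) (i + 2) i P)
    (hRg : ∀ i b v u T, Hit S A (i + 1) (i + 2) i T b v u → P b v u → u ∈ Rg)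
    (hRg' : ∀ i b v u T, Hit S A' (i + 1) (i + 2) i T b v u → P b v u → u ∈ Rg)
    (hdiam : ∀ z ∈ Rg, ∀ z' ∈ Rg, ‖z - z'‖ ≤ D) (hd : 0 < d) (hdD : d ≤ D)
    (hA : ArmV S V Rg d D C c) (hC : 1 ≤ C) (hc : 0 ≤ c) (hD : Dets S V A A' P Rg d D) :
    ‖ST V (fun i β => z (Ys S A P i β)) - ST V' (fun i β => z (Ys S A' P i β))‖ ≤
      9 * ((1 + 4 * (2 * (C * 4 ^ c))) * D * (d / D) ^ (min c 1 / 4)) := by
  have p4 : (0 : ℝ) < 4 ^ c := Real.rpow_pos_of_pos (by norm_num) _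
  have hcap : ∀ (i : ZMod 3) (β : Finset ℂ), ∀ w ∈ fr S A',
      (w ∈ (β : Set ℂ) ↔ w ∈ ((β ∩ V' : Finset ℂ) : Set ℂ)) := by
    intro i β w hw
    rw [← hVA'] at hw
    rw [Finset.coe_inter]
    exact ⟨fun h => ⟨h, hw⟩, fun h => h.1⟩
  refine st_pow (y := fun i β => z (Ys S A P i β)) (y' := fun i β => z (Ys S A' P i β)) hVV hd
    hdD (by positivity) hc ?_ ?_
  · intro i β _
    obtain ⟨b, v, h1, h2⟩ := uf_spec (hE i) (β : Set ℂ)
    obtain ⟨b', v', h3, h4⟩ := uf_spec (hE' i) ((β ∩ V' : Finset ℂ) : Set ℂ)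
    exact (hz _ _).trans (hdiam _ (hRg i _ _ _ _ h1 h2) _ (hRg' i _ _ _ _ h3 h4))
  · intro i ρ1 ρ2 η h1 h2 h3 h4
    obtain ⟨p0, hp0, p1, hp1, hdet⟩ := hD i ρ1 ρ2 η h1 h2 h3 h4
    have hVfr : fr S A' ⊆ V := by
      rw [← hVA']
      exact_mod_cast hVV
    have key := cont_pr hVfr (hE' i) (hU' i) hdet
      (bdsV hA hC hc hd h1 h2 h3 h4 hp0) (bdsV hA hC hc hd h1 h2 h3 h4 hp1)
    refine (pr_mono ?_).trans (key.trans (le_of_eq ?_))
    · intro β _ hη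
      obtain ⟨b1, v1, g1, g2⟩ := uf_spec (hE i) (β : Set ℂ)
      obtain ⟨b', v', g3, g4⟩ := uf_spec (hE' i) ((β ∩ V' : Finset ℂ) : Set ℂ)
      exact ⟨b', v', _, b1, v1, _, hit_congr (fun w hw => (hcap i β w hw).symm) g3, g4, g1, g2,
        lt_of_lt_of_le hη (hz _ _)⟩
    · simp only [Matrix.cons_val_zero, Matrix.cons_val_one, Matrix.cons_val]
      ring

/-- **static CONT for `TS`** -/
theorem staticV_TS (hS : GP (S : Set ℂ)) (hX : Hex S A) (hX' : Hex S A') (hs : ∀ l, A l ⊆ A' l)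
    (hz : ∀ a b, ‖z a - z b‖ ≤ ‖a - b‖)
    (hRg : ∀ i (T : Set ℂ) t, HitO S A i T t → t.1 ∈ Rg)
    (hRg' : ∀ i (T : Set ℂ) t, HitO S A' i T t → t.1 ∈ Rg)
    (hdiam : ∀ z ∈ Rg, ∀ z' ∈ Rg, ‖z - z'‖ ≤ D) (hd : 0 < d) (hdD : d ≤ D)
    (hA : ArmV S (ff S A) Rg d D C c) (hC : 1 ≤ C) (hc : 0 ≤ c)
    (hD : Dets S (ff S A) A A' (OP S) Rg d D) :
    ‖TS S A z - TS S A' z‖ ≤
      9 * ((1 + 4 * (2 * (C * 4 ^ c))) * D * (d / D) ^ (min c 1 / 4)) := by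
  rw [TS_eq hS hX, TS_eq hS hX']
  refine staticV_z hz ff_coe ?_ (fun i => ex_of_hex hS hX) (fun i => ex_of_hex hS hX')
    (fun i => un_of_hex hS hX') ?_ ?_ hdiam hd hdD hA hC hc hD
  · intro w hw
    rw [mem_ff] at hw ⊢
    exact ⟨hw.1, fun l hl => hw.2 l (hs l hl)⟩
  · intro i b v u T h1 h2
    exact hRg i T (u, b, v) ((hitO_hit hS).2 ⟨h1, h2⟩)
  · intro i b v u T h1 h2
    exact hRg' i T (u, b, v) ((hitO_hit hS).2 ⟨h1, h2⟩)

end Crest.Agent.R143.Cont6x920
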