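import Crest.Agent.R143.Cont6_920

/-!
# Row 143 (S0194), CONT (3434): separated scales, gates at arbitrary places (helper920)

* `DET.mono` : monotone in the radii
* `gate_move` : the arm at an arbitrary deterministic place is an arm at a free site
* `DetsS` : the deterministic lemma at separated scales, gates anywhere
* `staticS_z`, `staticS_TS` : static CONT from `DetsS`
-/

set_option autoImplicit false

noncomputable section

open scoped Classical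

namespace Crest.Agent.R143.Cont7x920

open Crest.Agent.R143.Harx315
open Crest.Agent.R143.D3Fx802 (CArm)
open Crest.Agent.R143.JColx54 (Adj)
open Crest.Agent.R143.RE0x723 (Pth)
open Crest.Agent.R143.B0x346 Crest.Agent.R143.DelGx806
open Crest.Agent.R143.K33x877 Crest.Agent.R143.Freshx920 Crest.Agent.R143.Cont2x920
  Crest.Agent.R143.Cont3x920 Crest.Agent.R143.Cont4x920 Crest.Agent.R143.Cont5x920
  Crest.Agent.R143.Cont6x920
open Crest.Agent.R143.Applx359 (ST st_pow)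
open Crest.Agent.R143.NetUx346

variable {S V V' : Finset ℂ} {A A' : ZMod 3 → Set ℂ} {i j k : ZMod 3} {T : Set ℂ}
  {b v u x y : ℂ} {P : ℂ → ℂ → ℂ → Prop} {Rg Rg' : Set ℂ} {d D C c : ℝ} {z : ℂ → ℂ}

theorem LArms.mono {F B : Set ℂ} {p0 : ℂ} {a a' e e' : Fin 4 → ℝ} {β : Finset ℂ}
    (ha : ∀ l, a l ≤ a' l) (he : ∀ l, e' l ≤ e l) (h : LArms S V F B Rg p0 a e u x β) :
    LArms S V F B Rg p0 a' e' u x β := by
  rcases h with h | h | h | h
  · exact Or.inl ⟨h.1, carm_radii (ha 0) (he 0) h.2⟩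
  · exact Or.inr (Or.inl ⟨h.1, carm_radii (ha 1) (he 1) h.2⟩)
  · exact Or.inr (Or.inr (Or.inl (carm_radii (ha 2) (he 2) h)))
  · exact Or.inr (Or.inr (Or.inr (carm_radii (ha 3) (he 3) h)))

theorem DET.mono {p0 p1 : ℂ} {a a' e e' : Fin 4 → ℝ} {η : ℝ} (ha : ∀ l, a l ≤ a' l)
    (he : ∀ l, e' l ≤ e l) (h : DET S V A A' i j k P Rg p0 p1 a e η) :
    DET S V A A' i j k P Rg p0 p1 a' e' η := by
  intro β hβ b v u h1 h2 b1 v1 y h3 h4 h5 x hx hpx x' hx' hpx'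
  rcases h β hβ b v u h1 h2 b1 v1 y h3 h4 h5 x hx hpx x' hx' hpx' with g | g
  · exact Or.inl (LArms.mono ha he g)
  · exact Or.inr (LArms.mono ha he g)

/-- **the arm at an arbitrary deterministic place** -/
theorem gate_move {q r R : ℝ} (hq : 0 ≤ q) (p0 : ℂ)
    (h : ∀ w ∈ V, pr V (fun β => CArm S β w (2 * r) (R - r)) ≤ q) :
    pr V (fun β => CArm S β p0 r R) ≤ q := by
  by_cases hw : ∃ w ∈ V, ‖w - p0‖ ≤ r
  · obtain ⟨w, hwV, hw⟩ := hw
    refine (pr_mono fun β _ hc => ?_).trans (h w hwV)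
    have h1 := carm_move (z' := w) (s := r) (by rw [norm_sub_rev]; exact hw) hc
    have e : r + r = 2 * r := by ring
    rwa [e] at h1
  · have h0 : pr V (fun β => CArm S β p0 r R) = 0 := by
      rw [← pr_false V]
      refine pr_congr fun β hβ => ?_
      simp only [iff_false]
      rintro ⟨x, y, h1, -, h3, -, -⟩
      exact hw ⟨x, hβ h1, h3⟩
    rw [h0]
    exact hq

/-- the deterministic lemma, three indices, separated scales, gates anywhere -/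
def DetsS (S V : Finset ℂ) (A A' : ZMod 3 → Set ℂ) (P : ℂ → ℂ → ℂ → Prop) (Rg : Set ℂ)
    (d D : ℝ) : Prop :=
  ∀ (i : ZMod 3) (ρ1 ρ2 η : ℝ), 8 * d ≤ ρ1 → 8 * ρ1 ≤ ρ2 → 8 * ρ2 ≤ η → η ≤ D →
    ∃ p0 p1 : ℂ, DET S V A A' (i + 1) (i + 2) i P Rg p0 p1 (av4 d ρ1 ρ2)
      (cv4 ρ1 ρ2 η) η

theorem pow16 {r R r' R' : ℝ} (hc : 0 ≤ c) (hr : 0 ≤ r) (hR : 0 < R) (hr' : 0 ≤ r')
    (h1 : r' ≤ 4 * r) (h2 : R / 4 ≤ R') : (r' / R') ^ c ≤ 16 ^ c * (r / R) ^ c := by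
  have hR' : 0 < R' := by linarith
  rw [← Real.mul_rpow (by norm_num) (by positivity)]
  refine Real.rpow_le_rpow (by positivity) ?_ hc
  rw [div_le_iff₀ hR']
  have e : 16 * (r / R) * (R / 4) = 4 * r := by field_simp; ring
  have : 16 * (r / R) * (R / 4) ≤ 16 * (r / R) * R' :=
    mul_le_mul_of_nonneg_left h2 (by positivity)
  linarith

theorem bdsS (hA : ArmV S V Rg d D C c) (hV : ∀ w ∈ V, w ∈ Rg) (hC : 1 ≤ C) (hc : 0 ≤ c)
    (hd : 0 < d) {ρ1 ρ2 η : ℝ} (h1 : 8 * d ≤ ρ1) (h2 : 8 * ρ1 ≤ ρ2) (h3 : 8 * ρ2 ≤ η)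
    (h4 : η ≤ D) (p0 : ℂ) : Bds S V Rg p0 (av4 d ρ1 ρ2) (cv4 ρ1 ρ2 η)
      ![C * 16 ^ c * (d / η) ^ c, C * 16 ^ c * (d / ρ1) ^ c, C * 16 ^ c * (ρ1 / ρ2) ^ c,
        C * 16 ^ c * (ρ2 / η) ^ c] := by
  have hρ1 : 0 < ρ1 := by linarith
  have hρ2 : 0 < ρ2 := by linarith
  have hη : 0 < η := by linarith
  have p4 : (0 : ℝ) < 16 ^ c := Real.rpow_pos_of_pos (by norm_num) _
  have key : ∀ (z : ℂ) (r R r' R' : ℝ), z ∈ Rg → 0 < r → 0 < R → 2 * d ≤ r' → R' ≤ D →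
      r' ≤ 4 * r → R / 4 ≤ R' → ∀ W ⊆ V,
      pr W (fun β => CArm S β z r' R') ≤ C * 16 ^ c * (r / R) ^ c := by
    intro z r R r' R' hz hr hR g1 g2 g3 g4 W hW
    refine (hA.le hC hc hd hz g1 (by linarith) g2 hW).trans ?_
    rw [mul_assoc]
    exact mul_le_mul_of_nonneg_left (pow16 hc hr.le hR (by linarith) g3 g4) (by linarith)
  refine ⟨?_, ?_, ?_, ?_, ?_⟩
  · intro l
    fin_cases l <;> simp <;> positivity
  · intro z hz W hW
    exact key z d η (2 * d) (η / 2) hz hd hη le_rfl (by linarith) (by linarith) (by linarith) W hW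
  · intro z hz W hW
    exact key z d ρ1 (2 * d) (ρ1 / 2) hz hd hρ1 le_rfl (by linarith) (by linarith)
      (by linarith) W hW
  · have hq : 0 ≤ C * 16 ^ c * (ρ1 / ρ2) ^ c := by positivity
    refine gate_move hq p0 fun w hw => ?_
    exact key w ρ1 ρ2 (2 * (2 * ρ1)) (ρ2 / 2 - 2 * ρ1) (hV w hw) hρ1 hρ2 (by linarith)
      (by linarith) (by linarith) (by linarith) V (le_refl V)
  · have hq : 0 ≤ C * 16 ^ c * (ρ2 / η) ^ c := by positivity
    refine gate_move hq p0 fun w hw => ?_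
    exact key w ρ2 η (2 * (2 * ρ2)) (η / 2 - 2 * ρ2) (hV w hw) hρ2 hη (by linarith)
      (by linarith) (by linarith) (by linarith) V (le_refl V)

/-- **static CONT**, separated scales -/
theorem staticS_z (hz : ∀ a b, ‖z a - z b‖ ≤ ‖a - b‖)
    (hVA' : (V' : Set ℂ) = fr S A') (hVV : V' ⊆ V)
    (hE : ∀ i, Ex S A (i + 1) (i + 2) i P)
    (hE' : ∀ i, Ex S A' (i + 1) (i + 2) i P) (hU' : ∀ i, Un S A' (i + 1) (i + 2) i P)
    (hRg : ∀ i b v u T, Hit S A (i + 1) (i + 2) i T b v u → P b v u → u ∈ Rg)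
    (hRg' : ∀ i b v u T, Hit S A' (i + 1) (i + 2) i T b v u → P b v u → u ∈ Rg)
    (hVR : ∀ w ∈ V, w ∈ Rg)
    (hdiam : ∀ z ∈ Rg, ∀ z' ∈ Rg, ‖z - z'‖ ≤ D) (hd : 0 < d) (hdD : d ≤ D)
    (hA : ArmV S V Rg d D C c) (hC : 1 ≤ C) (hc : 0 ≤ c) (hD : DetsS S V A A' P Rg d D) :
    ‖ST V (fun i β => z (Ys S A P i β)) - ST V' (fun i β => z (Ys S A' P i β))‖ ≤
      9 * ((1 + 4 * (2 * (C * 16 ^ c))) * D * (d / D) ^ (min c 1 / 4)) := by
  have p4 : (0 : ℝ) < 16 ^ c := Real.rpow_pos_of_pos (by norm_num) _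
  have hcap : ∀ (i : ZMod 3) (β : Finset ℂ), ∀ w ∈ fr S A',
      (w ∈ (β : Set ℂ) ↔ w ∈ ((β ∩ V' : Finset ℂ) : Set ℂ)) := by
    intro i β w hw
    rw [← hVA'] at hw
    rw [Finset.coe_inter]
    exact ⟨fun h => ⟨h, hw⟩, fun h => h.1⟩
  refine st_pow (y := fun i β => z (Ys S A P i β)) (y' := fun i β => z (Ys S A' P i β)) hVV hd
    hdD (by positivity) hc ?_ ?_
  · intro i β _
    obtain ⟨b, v, h1, h2⟩ := uf_spec (hE i) (β : Set ℂ)
    obtain ⟨b', v', h3, h4⟩ := uf_spec (hE' i) ((β ∩ V' : Finset ℂ) : Set ℂ)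
    exact (hz _ _).trans (hdiam _ (hRg i _ _ _ _ h1 h2) _ (hRg' i _ _ _ _ h3 h4))
  · intro i ρ1 ρ2 η h1 h2 h3 h4
    have hρ1 : 0 < ρ1 := by linarith
    have hρ2 : 0 < ρ2 := by linarith
    have hη : 0 < η := by linarith
    have t1 : 0 ≤ (d / η) ^ c := Real.rpow_nonneg (by positivity) _
    have t2 : 0 ≤ (d / ρ1) ^ c := Real.rpow_nonneg (by positivity) _
    have t3 : 0 ≤ (ρ1 / ρ2) ^ c := Real.rpow_nonneg (by positivity) _
    have t4 : 0 ≤ (ρ2 / η) ^ c := Real.rpow_nonneg (by positivity) _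
    have triv : ∀ r R : ℝ, 0 < r → 0 < R → R < 8 * r → 1 ≤ 2 * (C * 16 ^ c) * (r / R) ^ c := by
      intro r R hr hR hrR
      have e1 : (1 / 8 : ℝ) ≤ r / R := by
        rw [div_le_div_iff₀ (by norm_num) hR]
        linarith
      have e2 : (1 / 8 : ℝ) ^ c ≤ (r / R) ^ c := Real.rpow_le_rpow (by norm_num) e1 hc
      have e3 : (16 : ℝ) ^ c * (1 / 8) ^ c = 2 ^ c := by
        rw [← Real.mul_rpow (by norm_num) (by norm_num)]
        norm_num
      have e4 : (1 : ℝ) ≤ 2 ^ c := Real.one_le_rpow (by norm_num) hc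
      have e5 : 2 * (C * 16 ^ c) * (1 / 8 : ℝ) ^ c ≤ 2 * (C * 16 ^ c) * (r / R) ^ c :=
        mul_le_mul_of_nonneg_left e2 (by positivity)
      have e6 : 2 * (C * 16 ^ c) * (1 / 8 : ℝ) ^ c = 2 * C * 2 ^ c := by
        rw [← e3]; ring
      nlinarith
    have hpos : (0 : ℝ) ≤ 2 * (C * 16 ^ c) := by positivity
    by_cases s1 : 8 * d ≤ ρ1
    · by_cases s2 : 8 * ρ1 ≤ ρ2
      · by_cases s3 : 8 * ρ2 ≤ η
        · obtain ⟨p0, p1, hdet⟩ := hD i ρ1 ρ2 η s1 s2 s3 h4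
          have hVfr : fr S A' ⊆ V := by
            rw [← hVA']
            exact_mod_cast hVV
          have key := cont_pr hVfr (hE' i) (hU' i) hdet
            (bdsS hA hVR hC hc hd s1 s2 s3 h4 p0) (bdsS hA hVR hC hc hd s1 s2 s3 h4 p1)
          refine (pr_mono ?_).trans (key.trans (le_of_eq ?_))
          · intro β _ hη
            obtain ⟨b1, v1, g1, g2⟩ := uf_spec (hE i) (β : Set ℂ)
            obtain ⟨b', v', g3, g4⟩ := uf_spec (hE' i) ((β ∩ V' : Finset ℂ) : Set ℂ)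
            exact ⟨b', v', _, b1, v1, _, hit_congr (fun w hw => (hcap i β w hw).symm) g3, g4,
              g1, g2, lt_of_lt_of_le hη (hz _ _)⟩
          · simp only [Matrix.cons_val_zero, Matrix.cons_val_one, Matrix.cons_val]
            ring
        · have := triv ρ2 η hρ2 hη (by linarith)
          refine pr_le_one.trans (this.trans ?_)
          refine mul_le_mul_of_nonneg_left (by linarith) hpos
      · have := triv ρ1 ρ2 hρ1 hρ2 (by linarith)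
        refine pr_le_one.trans (this.trans ?_)
        refine mul_le_mul_of_nonneg_left (by linarith) hpos
    · have := triv d ρ1 hd hρ1 (by linarith)
      refine pr_le_one.trans (this.trans ?_)
      refine mul_le_mul_of_nonneg_left (by linarith) hpos

/-- **static CONT for `TS`**, separated scales -/
theorem staticS_TS (hS : GP (S : Set ℂ)) (hX : Hex S A) (hX' : Hex S A') (hs : ∀ l, A l ⊆ A' l)
    (hz : ∀ a b, ‖z a - z b‖ ≤ ‖a - b‖)
    (hRg : ∀ i (T : Set ℂ) t, HitO S A i T t → t.1 ∈ Rg)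
    (hRg' : ∀ i (T : Set ℂ) t, HitO S A' i T t → t.1 ∈ Rg) (hVR : ∀ w ∈ fr S A, w ∈ Rg)
    (hdiam : ∀ z ∈ Rg, ∀ z' ∈ Rg, ‖z - z'‖ ≤ D) (hd : 0 < d) (hdD : d ≤ D)
    (hA : ArmV S (ff S A) Rg d D C c) (hC : 1 ≤ C) (hc : 0 ≤ c)
    (hD : DetsS S (ff S A) A A' (OP S) Rg d D) :
    ‖TS S A z - TS S A' z‖ ≤
      9 * ((1 + 4 * (2 * (C * 16 ^ c))) * D * (d / D) ^ (min c 1 / 4)) := by
  rw [TS_eq hS hX, TS_eq hS hX']
  refine staticS_z hz ff_coe ?_ (fun i => ex_of_hex hS hX) (fun i => ex_of_hex hS hX')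
    (fun i => un_of_hex hS hX') ?_ ?_ (fun w hw => hVR w (mem_ff.1 hw)) hdiam hd hdD hA hC hc hD
  · intro w hw
    rw [mem_ff] at hw ⊢
    exact ⟨hw.1, fun l hl => hw.2 l (hs l hl)⟩
  · intro i b v u T h1 h2
    exact hRg i T (u, b, v) ((hitO_hit hS).2 ⟨h1, h2⟩)
  · intro i b v u T h1 h2
    exact hRg' i T (u, b, v) ((hitO_hit hS).2 ⟨h1, h2⟩)

end Crest.Agent.R143.Cont7x920
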