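import Crest.Agent.R143.Cont7_920

/-!
# Row 143 (S0194), CONT (3434): static CONT at one fixed set of scales (helper920)

No power law: any bounds `q 0 .. q 3` of the four arms.
* `one_z`, `one_TS` : `‖TS S A z - TS S A' z‖ ≤ 9 (η + D * 2 (q 0 + q 1 + q 2 + q 3))`
* `bds_of` : the bounds `Bds` from arms at the points of `Rg` (the gate may be anywhere)
-/

set_option autoImplicit false

noncomputable section

open scoped Classical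

namespace Crest.Agent.R143.Cont8x920

open Crest.Agent.R143.Harx315
open Crest.Agent.R143.D3Fx802 (CArm)
open Crest.Agent.R143.B0x346 Crest.Agent.R143.DelGx806
open Crest.Agent.R143.K33x877 Crest.Agent.R143.Freshx920 Crest.Agent.R143.Cont2x920
  Crest.Agent.R143.Cont3x920 Crest.Agent.R143.Cont4x920 Crest.Agent.R143.Cont5x920
  Crest.Agent.R143.Cont7x920
open Crest.Agent.R143.Applx359 (ST st_near_le)
open Crest.Agent.R143.NetUx346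

variable {S V V' : Finset ℂ} {A A' : ZMod 3 → Set ℂ} {P : ℂ → ℂ → ℂ → Prop} {Rg : Set ℂ}
  {D η : ℝ} {z : ℂ → ℂ} {a e q : Fin 4 → ℝ}

/-- bounds from arms at the points of `Rg`; the gate may be anywhere -/
theorem bds_of (hV : ∀ w ∈ V, w ∈ Rg) (hq : ∀ l, 0 ≤ q l)
    (h0 : ∀ z ∈ Rg, ∀ W ⊆ V, pr W (fun β => CArm S β z (a 0) (e 0)) ≤ q 0)
    (h1 : ∀ z ∈ Rg, ∀ W ⊆ V, pr W (fun β => CArm S β z (a 1) (e 1)) ≤ q 1)
    (h2 : ∀ z ∈ Rg, pr V (fun β => CArm S β z (2 * a 2) (e 2 - a 2)) ≤ q 2)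
    (h3 : ∀ z ∈ Rg, pr V (fun β => CArm S β z (2 * a 3) (e 3 - a 3)) ≤ q 3) (p0 : ℂ) :
    Bds S V Rg p0 a e q :=
  ⟨hq, h0, h1, gate_move (hq 2) p0 fun w hw => h2 w (hV w hw),
    gate_move (hq 3) p0 fun w hw => h3 w (hV w hw)⟩

/-- **static CONT at one set of scales** -/
theorem one_z (hz : ∀ a b, ‖z a - z b‖ ≤ ‖a - b‖)
    (hVA' : (V' : Set ℂ) = fr S A') (hVV : V' ⊆ V)
    (hE : ∀ i, Ex S A (i + 1) (i + 2) i P)
    (hE' : ∀ i, Ex S A' (i + 1) (i + 2) i P) (hU' : ∀ i, Un S A' (i + 1) (i + 2) i P)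
    (hRg : ∀ i b v u T, Hit S A (i + 1) (i + 2) i T b v u → P b v u → u ∈ Rg)
    (hRg' : ∀ i b v u T, Hit S A' (i + 1) (i + 2) i T b v u → P b v u → u ∈ Rg)
    (hdiam : ∀ z ∈ Rg, ∀ z' ∈ Rg, ‖z - z'‖ ≤ D) (hη : 0 ≤ η) (hD0 : 0 ≤ D)
    (hB : ∀ p0, Bds S V Rg p0 a e q)
    (hD : ∀ i : ZMod 3, ∃ p0 p1 : ℂ, DET S V A A' (i + 1) (i + 2) i P Rg p0 p1 a e η) :
    ‖ST V (fun i β => z (Ys S A P i β)) - ST V' (fun i β => z (Ys S A' P i β))‖ ≤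
      9 * (η + D * (2 * (q 0 + q 1 + q 2 + q 3))) := by
  have hcap : ∀ (i : ZMod 3) (β : Finset ℂ), ∀ w ∈ fr S A',
      (w ∈ (β : Set ℂ) ↔ w ∈ ((β ∩ V' : Finset ℂ) : Set ℂ)) := by
    intro i β w hw
    rw [← hVA'] at hw
    rw [Finset.coe_inter]
    exact ⟨fun h => ⟨h, hw⟩, fun h => h.1⟩
  refine st_near_le (y := fun i β => z (Ys S A P i β)) (y' := fun i β => z (Ys S A' P i β)) hVV
    hη hD0 ?_ ?_
  · intro i β _
    obtain ⟨b, v, h1, h2⟩ := uf_spec (hE i) (β : Set ℂ)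
    obtain ⟨b', v', h3, h4⟩ := uf_spec (hE' i) ((β ∩ V' : Finset ℂ) : Set ℂ)
    exact (hz _ _).trans (hdiam _ (hRg i _ _ _ _ h1 h2) _ (hRg' i _ _ _ _ h3 h4))
  · intro i
    obtain ⟨p0, p1, hdet⟩ := hD i
    have hVfr : fr S A' ⊆ V := by
      rw [← hVA']
      exact_mod_cast hVV
    have key := cont_pr hVfr (hE' i) (hU' i) hdet (hB p0) (hB p1)
    refine (pr_mono ?_).trans key
    intro β _ hη
    obtain ⟨b1, v1, g1, g2⟩ := uf_spec (hE i) (β : Set ℂ)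
    obtain ⟨b', v', g3, g4⟩ := uf_spec (hE' i) ((β ∩ V' : Finset ℂ) : Set ℂ)
    exact ⟨b', v', _, b1, v1, _, hit_congr (fun w hw => (hcap i β w hw).symm) g3, g4, g1, g2,
      lt_of_lt_of_le hη (hz _ _)⟩

/-- **static CONT for `TS` at one set of scales** -/
theorem one_TS (hS : GP (S : Set ℂ)) (hX : Hex S A) (hX' : Hex S A') (hs : ∀ l, A l ⊆ A' l)
    (hz : ∀ a b, ‖z a - z b‖ ≤ ‖a - b‖)
    (hRg : ∀ i (T : Set ℂ) t, HitO S A i T t → t.1 ∈ Rg)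
    (hRg' : ∀ i (T : Set ℂ) t, HitO S A' i T t → t.1 ∈ Rg)
    (hdiam : ∀ z ∈ Rg, ∀ z' ∈ Rg, ‖z - z'‖ ≤ D) (hη : 0 ≤ η) (hD0 : 0 ≤ D)
    (hB : ∀ p0, Bds S (ff S A) Rg p0 a e q)
    (hD : ∀ i : ZMod 3, ∃ p0 p1 : ℂ,
      DET S (ff S A) A A' (i + 1) (i + 2) i (OP S) Rg p0 p1 a e η) :
    ‖TS S A z - TS S A' z‖ ≤ 9 * (η + D * (2 * (q 0 + q 1 + q 2 + q 3))) := by
  rw [TS_eq hS hX, TS_eq hS hX']
  refine one_z hz ff_coe ?_ (fun i => ex_of_hex hS hX) (fun i => ex_of_hex hS hX')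
    (fun i => un_of_hex hS hX') ?_ ?_ hdiam hη hD0 hB hD
  · intro w hw
    rw [mem_ff] at hw ⊢
    exact ⟨hw.1, fun l hl => hw.2 l (hs l hl)⟩
  · intro i b v u T h1 h2
    exact hRg i T (u, b, v) ((hitO_hit hS).2 ⟨h1, h2⟩)
  · intro i b v u T h1 h2
    exact hRg' i T (u, b, v) ((hitO_hit hS).2 ⟨h1, h2⟩)

end Crest.Agent.R143.Cont8x920
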