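import Crest.Agent.R143.Cont7_920
import Crest.Agent.R143.Det_421
import Crest.Agent.R143.Hex_877

/-!
# Row 143 (S0194), CONT (3434): **STATIC CONT, UNCONDITIONAL** (helper920)

421's `det_lit` and 877's families, put into the probability half:
* `dets_fam` : `DetsS` for a family
* `cont_fam` : static CONT for a family `Fam S P O`
* `cont_hull` : three classes which cover the hull (`Tr`), hull classes counterclockwise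
* `cont_root` : root face `o` (`TrR S o m`), negative
-/

set_option autoImplicit false

noncomputable section

open scoped Classical

namespace Crest.Agent.R143.Cont9x920

open Crest.Agent.R143.Harx315
open Crest.Agent.R143.D3Fx802 (CArm)
open Crest.Agent.R143.JColx54 (Adj)
open Crest.Agent.R143.RE0x723 (Pth)
open Crest.Agent.R143.B0x346 Crest.Agent.R143.DelGx806
open Crest.Agent.R143.K33x877 Crest.Agent.R143.Freshx920 Crest.Agent.R143.Cont2x920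
  Crest.Agent.R143.Cont3x920 Crest.Agent.R143.Cont4x920 Crest.Agent.R143.Cont5x920
  Crest.Agent.R143.Cont6x920 Crest.Agent.R143.Cont7x920
open Crest.Agent.R143.NetUx346 (Hex TS ff mem_ff)
open Crest.Agent.R143.Hexx877 (Ccw NegO hex_tr hex_root hitO_off)
open Crest.Agent.R143.GateKx421 (Thin)

variable {S : Finset ℂ} {A A' : ZMod 3 → Set ℂ} {P : (ZMod 3 → Set ℂ) → Prop}
  {O : Set (ℂ × ℂ × ℂ)} {Rg : Set ℂ} {d0 m d D C c : ℝ} {z : ℂ → ℂ}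

theorem d3 (i : ZMod 3) : i + 1 ≠ i + 2 ∧ i + 1 ≠ i ∧ i + 2 ≠ i := by
  revert i
  decide

/-- the oriented hits are off `O` -/
def OffO (S : Finset ℂ) (O : Set (ℂ × ℂ × ℂ)) (A : ZMod 3 → Set ℂ) : Prop :=
  ∀ (i : ZMod 3) (T : Set ℂ) (t : ℂ × ℂ × ℂ), NetUx346.HitO S A i T t →
    (t.2.1, t.2.2, t.1) ∉ O ∧ (t.2.2, t.2.1, t.1) ∉ O

theorem dets_fam (hS : GP (S : Set ℂ)) (F : Fam S P O) (hA : P A) (hA' : P A')
    (hs : ∀ i, A i ⊆ A' i) (vis : ∃ X, CtrX S A' X) (hO : OffO S O A) (hO' : OffO S O A')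
    (hSR : (S : Set ℂ) ⊆ Rg) (hd0 : 0 ≤ d0) (hm0 : 0 ≤ m) (hdm : d0 + 2 * m ≤ d) (hd : 0 < d)
    (hm : ∀ a ∈ fr S A, ∀ b, Adj S a b → ‖a - b‖ ≤ m) (ht : ∀ l, Thin S A A' l d0) :
    DetsS S (ff S A) A A' (OP S) Rg d D := by
  intro i ρ1 ρ2 η h1 h2 h3 _
  obtain ⟨hij, hik, hjk⟩ := d3 i
  obtain ⟨p0, -, p1, -, h⟩ := Detx421.det_lit F hA hA' hs vis hij hik hjk (Q := OP S)
    (fun T b v u g1 g2 => hO i T (u, b, v) ((hitO_hit hS).2 ⟨g1, g2⟩))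
    (fun T b v u g1 g2 => hO' i T (u, b, v) ((hitO_hit hS).2 ⟨g1, g2⟩))
    hd0 hm0 hdm hd h1 h2 h3 hm ht (ff_coe (S := S) (A := A)) (Rg := Rg)
    (fun w hw => hSR hw.1) (fun w hw => by
      obtain ⟨x, -, hx⟩ := hw
      exact hSR hx.mem.1)
  exact ⟨p0, p1, h⟩

/-- **static CONT for a family** -/
theorem cont_fam (hS : GP (S : Set ℂ)) (F : Fam S P O) (hA : P A) (hA' : P A')
    (hs : ∀ i, A i ⊆ A' i) (vis : ∃ X, CtrX S A' X) (hX : Hex S A) (hX' : Hex S A')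
    (hO : OffO S O A) (hO' : OffO S O A') (hz : ∀ a b, ‖z a - z b‖ ≤ ‖a - b‖)
    (hSR : (S : Set ℂ) ⊆ Rg) (hdiam : ∀ z ∈ Rg, ∀ z' ∈ Rg, ‖z - z'‖ ≤ D)
    (hd0 : 0 ≤ d0) (hm0 : 0 ≤ m) (hdm : d0 + 2 * m ≤ d) (hd : 0 < d) (hdD : d ≤ D)
    (hm : ∀ a ∈ fr S A, ∀ b, Adj S a b → ‖a - b‖ ≤ m) (ht : ∀ l, Thin S A A' l d0)
    (hArm : ArmV S (ff S A) Rg d D C c) (hC : 1 ≤ C) (hc : 0 ≤ c) :
    ‖TS S A z - TS S A' z‖ ≤
      9 * ((1 + 4 * (2 * (C * 16 ^ c))) * D * (d / D) ^ (min c 1 / 4)) := by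
  refine staticS_TS hS hX hX' hs hz ?_ ?_ (fun w hw => hSR hw.1) hdiam hd hdD hArm hC hc
    (dets_fam hS F hA hA' hs vis hO hO' hSR hd0 hm0 hdm hd hm ht)
  · rintro i T t ⟨-, h, -⟩
    exact hSR ((F.cls A hA).sub i h)
  · rintro i T t ⟨-, h, -⟩
    exact hSR ((F.cls A' hA').sub i h)

/-- **STATIC CONT, hull version** -/
theorem cont_hull (hA : Tr S A) (hA' : Tr S A') (hs : ∀ i, A i ⊆ A' i) (hc1 : Ccw S A)
    (vis : ∃ X, CtrX S A' X) (hz : ∀ a b, ‖z a - z b‖ ≤ ‖a - b‖)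
    (hSR : (S : Set ℂ) ⊆ Rg) (hdiam : ∀ z ∈ Rg, ∀ z' ∈ Rg, ‖z - z'‖ ≤ D)
    (hd0 : 0 ≤ d0) (hm0 : 0 ≤ m) (hdm : d0 + 2 * m ≤ d) (hd : 0 < d) (hdD : d ≤ D)
    (hm : ∀ a ∈ fr S A, ∀ b, Adj S a b → ‖a - b‖ ≤ m) (ht : ∀ l, Thin S A A' l d0)
    (hArm : ArmV S (ff S A) Rg d D C c) (hC : 1 ≤ C) (hc : 0 ≤ c) :
    ‖TS S A z - TS S A' z‖ ≤
      9 * ((1 + 4 * (2 * (C * 16 ^ c))) * D * (d / D) ^ (min c 1 / 4)) := by
  have hc2 : Ccw S A' := fun i => by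
    obtain ⟨a, b, h, h1, h2⟩ := hc1 i
    exact ⟨a, b, h, hs _ h1, hs _ h2⟩
  exact cont_fam hA.gp (fam_hull S) hA hA' hs vis (hex_tr hA hc1) (hex_tr hA' hc2)
    (fun i T t _ => ⟨by simp, by simp⟩) (fun i T t _ => ⟨by simp, by simp⟩) hz hSR hdiam hd0 hm0
    hdm hd hdD hm ht hArm hC hc

/-- **STATIC CONT, root version** -/
theorem cont_root {o : ℂ × ℂ × ℂ} {μ : ZMod 3} (hA : TrR S o μ A) (hA' : TrR S o μ A')
    (hs : ∀ i, A i ⊆ A' i) (hn : NegO A o)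
    (vis : ∃ X, CtrX S A' X) (hz : ∀ a b, ‖z a - z b‖ ≤ ‖a - b‖)
    (hSR : (S : Set ℂ) ⊆ Rg) (hdiam : ∀ z ∈ Rg, ∀ z' ∈ Rg, ‖z - z'‖ ≤ D)
    (hd0 : 0 ≤ d0) (hm0 : 0 ≤ m) (hdm : d0 + 2 * m ≤ d) (hd : 0 < d) (hdD : d ≤ D)
    (hm : ∀ a ∈ fr S A, ∀ b, Adj S a b → ‖a - b‖ ≤ m) (ht : ∀ l, Thin S A A' l d0)
    (hArm : ArmV S (ff S A) Rg d D C c) (hC : 1 ≤ C) (hc : 0 ≤ c) :
    ‖TS S A z - TS S A' z‖ ≤
      9 * ((1 + 4 * (2 * (C * 16 ^ c))) * D * (d / D) ^ (min c 1 / 4)) := by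
  have hn' : NegO A' o := ⟨hs _ hn.1, hs _ hn.2.1, hs _ hn.2.2⟩
  exact cont_fam hA.gp (fam_root S o μ) hA hA' hs vis (hex_root hA hn) (hex_root hA' hn')
    (fun i T t h => (hitO_off hA hn h).off) (fun i T t h => (hitO_off hA' hn' h).off)
    hz hSR hdiam hd0 hm0 hdm hd hdD hm ht hArm hC hc

end Crest.Agent.R143.Cont9x920
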