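import Crest.Agent.R143.GeoSeq2_416

/-!
# Row 143 (S0194), BLOCK D: the leaf `LDom'` (helper416)

* `int_close` : comparison of the annealed observable with the crossing probability
* `ldom` : `GEO`, `CARA`, `VAL`, `D4LO`, `D4UP`, `D4COL`, `P2b`, `D2` give `LDom' AdmC`
-/

set_option autoImplicit false

noncomputable section

namespace Crest.Agent.R143.GeoSeqx416

open Set Filter Topology MeasureTheory Metric
open Crest.ProbabilityR.Voronoi
open Crest.Agent.R143.B0x346 Crest.Agent.R143.B0Dx346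
open Crest.Agent.R143.Spinex422 Crest.Agent.R143.Cfgx416
open Crest.Agent.R143.BC0x336

/-! ### integrals -/

theorem norm_om_sub : ‖om - 1‖ ≤ 2 := by
  have h1 := norm_sub_le om 1
  rw [norm_om, norm_one] at h1
  linarith

theorem int_close {Ω : Type} [MeasurableSpace Ω] {μ : Measure Ω} [IsProbabilityMeasure μ]
    {G P E : Set Ω} {f : Ω → ℂ} {p : Ω → ℝ} {η : ℝ} (hη : 0 ≤ η) (hG : MeasurableSet G)
    (hP : MeasurableSet P) (hGp : μ Gᶜ ≤ ENNReal.ofReal η) (hPp : μ Pᶜ ≤ ENNReal.ofReal η)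
    (hE : μ E ≤ ENNReal.ofReal η) (hf : AEStronglyMeasurable f (μ.restrict G))
    (hp : AEStronglyMeasurable p (μ.restrict P)) (f3 : ∀ ω, ‖f ω‖ ≤ 3) (p1 : ∀ ω, |p ω| ≤ 1)
    (h : ∀ ω, ω ∈ P → ω ∉ E → dist (f ω) (1 + (p ω : ℂ) * (om - 1)) ≤ η) :
    dist (∫ ω in G, f ω ∂μ) (1 + ((∫ ω in P, p ω ∂μ : ℝ) : ℂ) * (om - 1)) ≤ 20 * η := by
  set E' := toMeasurable μ E with hE'
  have hE'm : MeasurableSet E' := measurableSet_toMeasurable μ E
  have hE'p : μ E' ≤ ENNReal.ofReal η := by rw [hE', measure_toMeasurable]; exact hE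
  set B := Gᶜ ∪ Pᶜ ∪ E' with hB
  have hBm : MeasurableSet B := (hG.compl.union hP.compl).union hE'm
  have hBp : μ.real B ≤ 3 * η := by
    have h1 : μ B ≤ ENNReal.ofReal (3 * η) := by
      calc μ B ≤ μ (Gᶜ ∪ Pᶜ) + μ E' := measure_union_le _ _
        _ ≤ μ Gᶜ + μ Pᶜ + μ E' := by gcongr; exact measure_union_le _ _
        _ ≤ ENNReal.ofReal η + ENNReal.ofReal η + ENNReal.ofReal η := by gcongr
        _ = ENNReal.ofReal (3 * η) := by
            rw [← ENNReal.ofReal_add hη hη, ← ENNReal.ofReal_add (by linarith) hη]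
            congr 1; ring
    exact ENNReal.toReal_le_of_le_ofReal (by linarith) h1
  have hfi : Integrable (G.indicator f) μ := by
    rw [integrable_indicator_iff hG]
    exact Integrable.of_bound hf 3 (ae_of_all _ f3)
  have hpi : Integrable (P.indicator p) μ := by
    rw [integrable_indicator_iff hP]
    exact Integrable.of_bound hp 1 (ae_of_all _ p1)
  have e1 : ∫ ω in G, f ω ∂μ = ∫ ω, G.indicator f ω ∂μ := (integral_indicator hG).symm
  have e2 : ∫ ω in P, p ω ∂μ = ∫ ω, P.indicator p ω ∂μ := (integral_indicator hP).symm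
  have hpc : Integrable (fun ω => ((P.indicator p ω : ℝ) : ℂ) * (om - 1)) μ :=
    hpi.ofReal.mul_const _
  have e4 : ∫ ω, ((P.indicator p ω : ℝ) : ℂ) ∂μ = ((∫ ω, P.indicator p ω ∂μ : ℝ) : ℂ) :=
    integral_ofReal
  have h1i : Integrable (fun ω => 1 + ((P.indicator p ω : ℝ) : ℂ) * (om - 1)) μ :=
    (integrable_const _).add hpc
  have e3 : 1 + ((∫ ω in P, p ω ∂μ : ℝ) : ℂ) * (om - 1) =
      ∫ ω, (1 + ((P.indicator p ω : ℝ) : ℂ) * (om - 1)) ∂μ := by
    rw [integral_add (integrable_const _) hpc, integral_const, integral_mul_const, e2, e4]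
    simp
  rw [e1, e3, dist_eq_norm, ← integral_sub hfi h1i]
  have hgi : Integrable (fun ω => η + B.indicator (fun _ => (6 : ℝ)) ω) μ :=
    (integrable_const _).add ((integrable_const _).indicator hBm)
  refine (norm_integral_le_of_norm_le hgi (ae_of_all _ fun ω => ?_)).trans ?_
  · by_cases hω : ω ∈ B
    · rw [indicator_of_mem hω]
      have h1 : ‖G.indicator f ω‖ ≤ 3 := by
        by_cases hg : ω ∈ G
        · rw [indicator_of_mem hg]; exact f3 ω
        · rw [indicator_of_notMem hg, norm_zero]; norm_num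
      have h2 : |P.indicator p ω| ≤ 1 := by
        by_cases hg : ω ∈ P
        · rw [indicator_of_mem hg]; exact p1 ω
        · rw [indicator_of_notMem hg, abs_zero]; norm_num
      have h3 : ‖((P.indicator p ω : ℝ) : ℂ) * (om - 1)‖ ≤ 2 := by
        rw [norm_mul, Complex.norm_real, Real.norm_eq_abs]
        have := norm_om_sub
        nlinarith [abs_nonneg (P.indicator p ω), norm_nonneg (om - 1)]
      have h4 := norm_sub_le (G.indicator f ω) (1 + ((P.indicator p ω : ℝ) : ℂ) * (om - 1))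
      have h5 := norm_add_le (1 : ℂ) (((P.indicator p ω : ℝ) : ℂ) * (om - 1))
      rw [norm_one] at h5
      linarith
    · rw [indicator_of_notMem hω, add_zero]
      have h1 : ω ∈ G := by
        by_contra hcon
        exact hω (Or.inl (Or.inl hcon))
      have h2 : ω ∈ P := by
        by_contra hcon
        exact hω (Or.inl (Or.inr hcon))
      have h3 : ω ∉ E := fun hcon => hω (Or.inr (subset_toMeasurable μ E hcon))
      rw [indicator_of_mem h1, indicator_of_mem h2, ← dist_eq_norm]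
      exact h ω h2 h3
  · rw [integral_add (integrable_const _) ((integrable_const _).indicator hBm),
      integral_indicator hBm, integral_const, setIntegral_const]
    simp only [smul_eq_mul]
    have h1 : μ.real univ = 1 := by simp
    rw [h1]
    linarith

theorem tr_tr (r : Bool) (w : ℂ) : tr r (tr r w) = w := by
  cases r
  · rfl
  · unfold tr
    simp only [if_true]
    rw [map_mul, Complex.conj_conj, ← mul_assoc, Complex.mul_conj, Complex.normSq_eq_norm_sq,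
      norm_om]
    simp

theorem tr_val (c : ℝ) : tr true (1 + (c : ℂ) * (om - 1)) = 1 + ((1 - c : ℝ) : ℂ) * (om - 1) := by
  have h2 : om ^ 3 = 1 := Oscx63.om_pow_three
  unfold tr
  simp only [if_true]
  rw [map_add, map_mul, map_sub, map_one, Complex.conj_ofReal, conj_om]
  push_cast
  linear_combination (c : ℂ) * h2

/-- the index of the crossing -/
def ix (r : Bool) : ZMod 4 := if r then 1 else 0

theorem pr_nonneg (C : Cfg 4) (S : Finset ℂ) (i : ZMod 4) : 0 ≤ C.pr S i := by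
  unfold Cfg.pr
  positivity

theorem pr_le_one (C : Cfg 4) (S : Finset ℂ) (i : ZMod 4) : C.pr S i ≤ 1 := by
  classical
  unfold Cfg.pr
  rw [div_le_one (by positivity)]
  have h1 := Finset.card_filter_le (C.inn S).powerset
    (fun T : Finset ℂ => C.Crs S (T : Set ℂ) i)
  rw [Finset.card_powerset] at h1
  calc _ ≤ ((2 ^ (C.inn S).card : ℕ) : ℝ) := by
        norm_cast
    _ = 2 ^ (C.inn S).card := by push_cast; rfl

namespace Seq4

variable {S : Dat} {b : ℂ} {up : Bool} {A : ZMod 4 → Set ℂ} {m : ZMod 4 → ℂ} {md : ℝ → ℝ}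
  {rv : ℕ → Bool} {C : ℕ → Cfg 4} {δ κ : ℕ → ℝ} {G : ℕ → Set ℂ} {B : ℕ → ZMod 4 → Set ℂ}

theorem Aix (h : Seq4 S b up A m md rv C δ κ G B) (n : ℕ) :
    rvA (rv n) A (ix (rv n)) = S.A1 ∧ rvA (rv n) A (ix (rv n) + 2) = S.A2 := by
  rw [rvA_eq, rvA_eq, ← h.A0, ← h.A2]
  have h1 : ∀ r, lab r (ix r) = 0 := by decide
  have h2 : ∀ r, lab r (ix r + 2) = 2 := by decide
  rw [h1, h2]
  exact ⟨rfl, rfl⟩

theorem ev_dist (h : Seq4 S b up A m md rv C δ κ G B) : ∃ r > 0, ∀ x ∈ S.A1, ∀ y ∈ S.A2,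
    r ≤ dist x y := by
  rw [← h.A0, ← h.A2]
  have h1 := h.arcs.opp 0
  rw [zero_add] at h1
  obtain ⟨r, hr, h2⟩ := Metric.exists_pos_forall_lt_edist (h.arcs.cpt 0)
    (h.arcs.cpt 2).isClosed h1
  refine ⟨r, hr, fun x hx y hy => ?_⟩
  have h3 := h2 x hx y hy
  rw [edist_dist, ENNReal.lt_ofReal_iff_toReal_lt (by simp)] at h3
  exact h3.le

/-- the properties of the good sets of D4COL which do not involve the crossing -/
structure PmOK (C : Cfg 4) (Pm : ℝ → Set Sample) : Prop where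
  meas : ∀ ε, MeasurableSet (Pm ε)
  prob : ∀ᶠ ε : ℝ in 𝓝[>] 0, sampleLaw (Pm ε)ᶜ ≤ ENNReal.ofReal (ε ^ (10 : ℝ))
  env : ∀ d > 0, ∀ᶠ ε : ℝ in 𝓝[>] 0, ∀ ω ∈ Pm ε, ∃ M : ℝ, Env ε d M C.c C.L ω

theorem ev_pow {η : ℝ} (hη : 0 < η) : ∀ᶠ ε : ℝ in 𝓝[>] 0, 0 < ε ∧ ε ^ (10 : ℝ) ≤ η := by
  have h1 : Tendsto (fun ε : ℝ => ε ^ (10 : ℝ)) (𝓝[>] 0) (𝓝 0) := by
    have h2 : Tendsto (fun ε : ℝ => ε ^ (10 : ℝ)) (𝓝 0) (𝓝 ((0 : ℝ) ^ (10 : ℝ))) :=
      (Real.continuousAt_rpow_const 0 10 (Or.inr (by norm_num))).tendsto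
    rw [Real.zero_rpow (by norm_num)] at h2
    exact h2.mono_left nhdsWithin_le_nhds
  filter_upwards [h1.eventually (gt_mem_nhds hη), eventually_mem_nhdsWithin] with ε e1 e2
  exact ⟨e2, e1.le⟩

/-- the sandwich -/
theorem sand (h : Seq4 S b up A m md rv C δ κ G B) (hL : D4LO) (hU : D4UP)
    {Pm : ℕ → ℝ → Set Sample} (hPm : ∀ n, PmOK (C n) (Pm n)) :
    Sand S up (fun i => sampleLaw.real ((C i.1).NX (ix (rv i.1)) i.2 ∩ Pm i.1 i.2)) := by
  intro η hη
  have c2 : ∀ r : Bool, ix r ∉ rvT r ({1, 3} : Set (ZMod 4)) ∧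
      ix r + 2 ∉ rvT r ({1, 3} : Set (ZMod 4)) ∧ ix r + 1 ∈ rvT r ({1, 3} : Set (ZMod 4)) ∧
      ix r + 3 ∈ rvT r ({1, 3} : Set (ZMod 4)) := by
    intro r
    simp only [rvT, mem_setOf_eq, mem_insert_iff, mem_singleton_iff]
    revert r; decide
  have c3 : ∀ r : Bool, ix r ∈ rvT r ({0, 2} : Set (ZMod 4)) ∧
      ix r + 2 ∈ rvT r ({0, 2} : Set (ZMod 4)) ∧ ix r + 1 ∉ rvT r ({0, 2} : Set (ZMod 4)) ∧
      ix r + 3 ∉ rvT r ({0, 2} : Set (ZMod 4)) := by
    intro r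
    simp only [rvT, mem_setOf_eq, mem_insert_iff, mem_singleton_iff]
    revert r; decide
  rw [ev_lc]
  cases up
  · -- lower
    obtain ⟨r, hr, h1⟩ := h.ev_dist
    filter_upwards [ev_small (show 0 < r / 4 by linarith)] with n hn
    obtain ⟨k1, k2, k3, k4⟩ := c2 (rv n)
    have hmac := h.mac n
    rw [if_neg (by decide)] at hmac
    have h2 := macLO (h.arcs.rv (rv n)) S.hD hmac k1 k2 k3 k4 (by
      rw [(h.Aix n).1, (h.Aix n).2]
      intro x hx y hy
      have := h1 x hx y hy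
      linarith)
    rw [(h.Aix n).1, (h.Aix n).2] at h2
    obtain ⟨d0, hd0, h3⟩ := hL _ _ _ _ _ _ _ _ _ hmac.ok S.hD S.hDb h2
    filter_upwards [(hPm n).env d0 hd0, eventually_mem_nhdsWithin] with ε h4 (hε : 0 < ε)
    rw [if_neg (by decide)]
    have h5 : (C n).NX (ix (rv n)) ε ∩ Pm n ε ⊆ crossingEvent ε S.D S.A1 S.A2 := by
      rintro ω ⟨h6, h7⟩
      obtain ⟨M, h8⟩ := h4 ω h7
      exact h3 ε d0 M ω hε h8 le_rfl h6
    have h6 : sampleLaw.real ((C n).NX (ix (rv n)) ε ∩ Pm n ε) ≤ S.P ε :=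
      measureReal_mono h5 (measure_ne_top _ _)
    show sampleLaw.real ((C n).NX (ix (rv n)) ε ∩ Pm n ε) - η ≤ S.P ε
    linarith
  · -- upper
    refine Eventually.of_forall fun n => ?_
    obtain ⟨k1, k2, k3, k4⟩ := c3 (rv n)
    have hmac := h.mac n
    rw [if_pos rfl] at hmac
    have h2 := macUP hmac k1 k2 k3 k4
    rw [(h.Aix n).1, (h.Aix n).2] at h2
    obtain ⟨d0, hd0, h3⟩ := hU _ _ _ _ _ _ _ hmac.ok S.hD S.hDb h2
    filter_upwards [(hPm n).env d0 hd0, (hPm n).prob, ev_pow hη] with ε h4 h5 h6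
    rw [if_pos rfl]
    have h7 : crossingEvent ε S.D S.A1 S.A2 ⊆
        ((C n).NX (ix (rv n)) ε ∩ Pm n ε) ∪ (Pm n ε)ᶜ := by
      intro ω hω
      by_cases h8 : ω ∈ Pm n ε
      · obtain ⟨M, h9⟩ := h4 ω h8
        exact Or.inl ⟨h3 ε d0 M ω h6.1 h9 le_rfl hω, h8⟩
      · exact Or.inr h8
    have h8 : S.P ε ≤ sampleLaw.real ((C n).NX (ix (rv n)) ε ∩ Pm n ε) +
        sampleLaw.real (Pm n ε)ᶜ :=
      (measureReal_mono h7 (measure_ne_top _ _)).trans (measureReal_union_le _ _)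
    have h9 : sampleLaw.real (Pm n ε)ᶜ ≤ ε ^ (10 : ℝ) :=
      ENNReal.toReal_le_of_le_ofReal (Real.rpow_nonneg h6.1.le _) h5
    show S.P ε ≤ sampleLaw.real ((C n).NX (ix (rv n)) ε ∩ Pm n ε) + η
    linarith [h6.2]

/-- the value near `b` for one configuration, quenched -/
theorem val_q (h : Seq4 S b up A m md rv C δ κ G B) (hV : VAL) (hb : b ∈ S.arc 0) {η : ℝ}
    (hη : 0 < η) : ∃ t > 0, ∀ z ∈ S.D, dist z b < t → ∀ᶠ n : ℕ in atTop,
      ∀ᶠ ε : ℝ in 𝓝[>] 0, ∃ E : Set Sample, sampleLaw E ≤ ENNReal.ofReal η ∧ ∀ ω ∉ E,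
        dist ((C n).dom.h ε ω z)
          (1 + ((C n).pr ((C n).dom.sites ε ω) 0 : ℂ) * (om - 1)) ≤ η := by
  obtain ⟨Λ, hΛ, hv⟩ := hV η hη
  obtain ⟨r0, hr0, h0⟩ := h.exists_r0 hb
  obtain ⟨r, hr, h1⟩ := h.exists_r
  set R0 := min (min (r0 / 4) r) 1 with hR0
  have hR0p : 0 < R0 := lt_min (lt_min (by linarith) hr) one_pos
  have hR01 : R0 ≤ 1 := min_le_right _ _
  have hR0r : R0 ≤ r := (min_le_left _ _).trans (min_le_right _ _)
  have hR04 : R0 ≤ r0 / 4 := (min_le_left _ _).trans (min_le_left _ _)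
  have hΛ0 : 0 < Λ := by linarith
  set s := R0 / Λ with hs
  have hs0 : 0 < s := div_pos hR0p hΛ0
  have hsR : Λ * s = R0 := mul_div_cancel₀ _ hΛ0.ne'
  have hs2 : 0 < s / 2 := by linarith
  refine ⟨min s (md (s / 2)), lt_min hs0 (h.md0 _ hs2), fun z hz hzb => ?_⟩
  filter_upwards [ev_small (show 0 < r0 / 4 by linarith), ev_small hs2, h.ev_body hz] with n n1 n2 n3
  have hm : rvm (rv n) m 1 = b := by rw [rvm_one, h.m1]
  have hA' := h.arcs.rv (rv n)
  have e0 : (1 : ZMod 4) - 1 = 0 := by decide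
  obtain ⟨P, p1, p2, p3, p4, p5, p6⟩ := (h.mac n).lkm 1 (s / 2) hs2 z n3.2 (by
    rw [hm]; exact hzb.trans_le (min_le_right _ _))
  rw [hm] at p3
  have hk := (h.mac n).kpos
  refine hv (C n) (δ n) (h.mac n).ok b R0 s (κ n) (G n \ (C n).out) (B n 1) hs0 hR01 hsR.le hk
    ((closedBall_subset_closedBall hR0r).trans (h1 n b hb.1)) ?_ ?_ ?_ ((h.mac n).tbc 1) ?_ z P
    (hzb.trans_le (min_le_left _ _)) p1 p2 ?_ p4 p5 p6 (h.linked n3.2)
  · rw [disjoint_left]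
    rintro w (hw | hw) hwo
    · exact hw.2 hwo
    · exact disjoint_left.1 (h.B_out n 1) hw hwo
  · intro y hy y' hyy hyb
    rw [dist_comm] at hyy
    rcases h.local_G h0 n1 hy.1 hyy (hyb.trans_le hR04) with h2 | ⟨j, h2, h3⟩ | ⟨h2, -⟩
    · exact Or.inl h2
    · have h4 : dr j = 0 := by rw [h3]; cases rv n <;> rfl
      rcases dr_zero j h4 with rfl | rfl
      · exact Or.inr (Or.inr (Or.inl h2))
      · exact Or.inr (Or.inr (Or.inr h2))
    · exact Or.inr (Or.inl h2)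
  · intro y hy y' hyy
    rw [dist_comm] at hyy
    rcases h.local_B hy hyy with h2 | h2 | h2 | ⟨h2, h3, h4⟩
    · exact Or.inl h2
    · exact Or.inr (Or.inl h2)
    · exact Or.inr (Or.inr (Or.inl h2))
    · exact Or.inr (Or.inr (Or.inr ⟨⟨h2, h3⟩, by linarith⟩))
  · have h7 := hA'.mem 1
    have h8 := hA'.mem' 1
    rw [e0] at h8
    rw [hm] at h7 h8
    obtain ⟨w, hw1, hw2⟩ := (h.mac n).nr' _ b h7
    obtain ⟨w', hw1', hw2'⟩ := (h.mac n).nr' _ b h8
    exact ⟨⟨w', hw1', mem_ball.2 (by linarith)⟩, ⟨w, hw1, mem_ball.2 (by linarith)⟩⟩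
  · intro y hy
    have h9 : y ∉ (C n).out := fun ho => disjoint_left.1 (p6 y hy) (mem_ball_self hk) ho
    rcases p3 hy with ⟨h7, h8⟩ | h7
    · refine Or.inl ⟨⟨h7, h9⟩, ball_subset_ball ?_ h8⟩
      linarith
    · exact Or.inr h7

/-- the value near `b` -/
theorem val (h : Seq4 S b up A m md rv C δ κ G B) (hV : VAL) (hp : P2b) (hd : D2)
    (hb : b ∈ S.arc 0) {Pm : ℕ → ℝ → Set Sample} (hPm : ∀ n, PmOK (C n) (Pm n))
    (hcol : ∀ n, ∀ᶠ ε : ℝ in 𝓝[>] 0,
      AEStronglyMeasurable (fun ω => (C n).pr ((C n).dom.sites ε ω) (ix (rv n)))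
        (sampleLaw.restrict (Pm n ε)) ∧
      ∫ ω in Pm n ε, (C n).pr ((C n).dom.sites ε ω) (ix (rv n)) ∂sampleLaw =
        sampleLaw.real ((C n).NX (ix (rv n)) ε ∩ Pm n ε))
    {Gf : ℕ → ℝ → Set Sample} (hGf : ∀ n, GoodFam (C n).dom (Gf n)) :
    Val S b (Hs rv (fun n => (C n).dom) Gf)
      (fun i => sampleLaw.real ((C i.1).NX (ix (rv i.1)) i.2 ∩ Pm i.1 i.2)) := by
  intro η hη
  have hη' : 0 < η / 30 := by linarith
  obtain ⟨t, ht, h1⟩ := h.val_q hV hb hη'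
  refine ⟨t, ht, fun z hz hzb => ?_⟩
  rw [ev_lc]
  filter_upwards [h1 z hz hzb] with n hn
  obtain ⟨d0, hd0, h2⟩ := hd 4 (C n) (δ n) (by norm_num) (h.mac n).ok
  filter_upwards [hn, (hPm n).env d0 hd0, (hPm n).prob, hcol n, (hGf n).prob, (hGf n).hm1,
    ev_pow hη'] with ε ⟨E, e1, e2⟩ e3 e4 ⟨e5, e6⟩ e7 e8 e9
  -- `pr 0 + pr 1 = 1` on `Pm`
  have h3 : ∀ ω ∈ Pm n ε, (C n).pr ((C n).dom.sites ε ω) 0 +
      (C n).pr ((C n).dom.sites ε ω) 1 = 1 := by
    intro ω hω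
    obtain ⟨M, h4⟩ := e3 ω hω
    exact (hp (C n) _ (h2 ε d0 M ω h4 le_rfl)).1
  have hε : ENNReal.ofReal (ε ^ (10 : ℝ)) ≤ ENNReal.ofReal (η / 30) :=
    ENNReal.ofReal_le_ofReal e9.2
  -- the integral of `pr 0`
  have h5 : AEStronglyMeasurable (fun ω => (C n).pr ((C n).dom.sites ε ω) 0)
      (sampleLaw.restrict (Pm n ε)) ∧
      |(∫ ω in Pm n ε, (C n).pr ((C n).dom.sites ε ω) 0 ∂sampleLaw) -
        (if rv n then 1 - sampleLaw.real ((C n).NX (ix (rv n)) ε ∩ Pm n ε) else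
          sampleLaw.real ((C n).NX (ix (rv n)) ε ∩ Pm n ε))| ≤ η / 30 := by
    cases hr : rv n
    · rw [hr] at e5 e6
      refine ⟨e5, ?_⟩
      have e6' : ∫ ω in Pm n ε, (C n).pr ((C n).dom.sites ε ω) 0 ∂sampleLaw =
        sampleLaw.real ((C n).NX (ix false) ε ∩ Pm n ε) := e6
      rw [e6', if_neg (by decide), sub_self, abs_zero]
      exact hη'.le
    · rw [hr] at e5 e6
      have e5' : AEStronglyMeasurable (fun ω => (C n).pr ((C n).dom.sites ε ω) 1)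
        (sampleLaw.restrict (Pm n ε)) := e5
      have e6' : ∫ ω in Pm n ε, (C n).pr ((C n).dom.sites ε ω) 1 ∂sampleLaw =
        sampleLaw.real ((C n).NX (ix true) ε ∩ Pm n ε) := e6
      have h6 : (fun ω => (C n).pr ((C n).dom.sites ε ω) 0) =ᵐ[sampleLaw.restrict (Pm n ε)]
          fun ω => 1 - (C n).pr ((C n).dom.sites ε ω) 1 := by
        filter_upwards [ae_restrict_mem ((hPm n).meas ε)] with ω hω
        linarith [h3 ω hω]
      refine ⟨(aestronglyMeasurable_const.sub e5').congr h6.symm, ?_⟩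
      have h7 : Integrable (fun ω => (C n).pr ((C n).dom.sites ε ω) 1)
          (sampleLaw.restrict (Pm n ε)) := by
        refine Integrable.of_bound e5' 1 (ae_of_all _ fun ω => ?_)
        rw [Real.norm_eq_abs, abs_of_nonneg (pr_nonneg _ _ _)]
        exact pr_le_one _ _ _
      rw [integral_congr_ae h6, integral_sub (integrable_const _) h7, e6', if_pos rfl]
      have h8 : ∫ _ in Pm n ε, (1 : ℝ) ∂sampleLaw = 1 - sampleLaw.real (Pm n ε)ᶜ := by
        rw [setIntegral_const, smul_eq_mul, mul_one, probReal_compl_eq_one_sub ((hPm n).meas ε)]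
        ring
      have h9 : sampleLaw.real (Pm n ε)ᶜ ≤ ε ^ (10 : ℝ) :=
        ENNReal.toReal_le_of_le_ofReal (Real.rpow_nonneg e9.1.le _) e4
      have h10 : 0 ≤ sampleLaw.real (Pm n ε)ᶜ := measureReal_nonneg
      rw [h8, abs_le]
      constructor <;> linarith [e9.2]
  obtain ⟨h5, h6⟩ := h5
  have h7 := int_close (μ := sampleLaw) (G := Gf n ε) (P := Pm n ε) (E := E)
    (f := fun ω => (C n).dom.h ε ω z) (p := fun ω => (C n).pr ((C n).dom.sites ε ω) 0)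
    hη'.le ((hGf n).meas ε) ((hPm n).meas ε) (e7.trans hε) (e4.trans hε) e1 (e8 z) h5
    (fun ω => norm_h_le _ _ _ _) (fun ω => by
      rw [abs_of_nonneg (pr_nonneg _ _ _)]; exact pr_le_one _ _ _) (fun ω _ hω => e2 ω hω)
  set c := sampleLaw.real ((C n).NX (ix (rv n)) ε ∩ Pm n ε) with hc
  set I := ∫ ω in Pm n ε, (C n).pr ((C n).dom.sites ε ω) 0 ∂sampleLaw with hI
  have h8 : dist (HG (C n).dom (Gf n) ε z) (1 + (I : ℂ) * (om - 1)) ≤ 20 * (η / 30) := h7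
  have h9 : ∀ c' : ℝ, |I - c'| ≤ η / 30 → dist (HG (C n).dom (Gf n) ε z)
      (1 + (c' : ℂ) * (om - 1)) ≤ η := by
    intro c' hc'
    have e : dist (1 + (I : ℂ) * (om - 1)) (1 + (c' : ℂ) * (om - 1)) ≤ 2 * (η / 30) := by
      rw [dist_eq_norm, show 1 + (I : ℂ) * (om - 1) - (1 + (c' : ℂ) * (om - 1)) =
        ((I - c' : ℝ) : ℂ) * (om - 1) by push_cast; ring, norm_mul, Complex.norm_real,
        Real.norm_eq_abs]
      have := norm_om_sub
      nlinarith [abs_nonneg (I - c'), norm_nonneg (om - 1)]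
    have := dist_triangle (HG (C n).dom (Gf n) ε z) (1 + (I : ℂ) * (om - 1))
      (1 + (c' : ℂ) * (om - 1))
    linarith
  have ht3 : (tau3 : ℂ) = om := rfl
  show dist (tr (rv n) (HG (C n).dom (Gf n) ε z)) (1 + (c : ℂ) * (tau3 - 1)) ≤ η
  rw [ht3]
  cases hr : rv n
  · rw [hr] at h6
    rw [if_neg (by decide)] at h6
    exact h9 c h6
  · rw [hr] at h6
    rw [if_pos rfl] at h6
    rw [← tr_tr true (1 + (c : ℂ) * (om - 1)), tr_dist, tr_val]
    exact h9 (1 - c) h6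

end Seq4

/-- **the leaf `LDom'`** -/
theorem ldom (hG : GEO) (hC : CARA) (hV : VAL) (hL : D4LO) (hU : D4UP) (hcol : D4COL) (hp : P2b)
    (hd : D2) : LDom' AdmC := by
  intro S b hb hbd hφb up
  obtain ⟨A, m, md, rv, C, δ, κ, G, B, h⟩ := exists_seq hG hC S hb hbd hφb up
  choose Pm hPm using fun n => hcol (C n) (δ n) (h.mac n).ok (ix (rv n))
  have hP : ∀ n, Seq4.PmOK (C n) (Pm n) := fun n => ⟨(hPm n).1, (hPm n).2.1, (hPm n).2.2.1⟩
  have hb0 : b ∈ S.arc 0 := by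
    refine ⟨hb, hbd, ?_, ?_⟩
    · rw [hφb]; exact Complex.ofReal_im _
    · rw [if_pos rfl, hφb]
      exact ⟨S.hx0, S.hx1⟩
  refine ⟨rv, fun n => (C n).dom, δ, κ, h.adm, h.roomOK, h.arcGeo, fun Gf hGf => ?_⟩
  refine ⟨_, h.val hV hp hd hb0 hP (fun n => ?_) hGf, h.sand hL hU hP⟩
  filter_upwards [(hPm n).2.2.2] with ε hε
  exact ⟨hε.1, hε.2.2⟩

end Crest.Agent.R143.GeoSeqx416
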