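import Crest.Agent.R143.HullF_93
import Crest.Agent.R143.ArmsE_377
import Crest.Agent.R143.GeoSeqP_422

/-!
# Row 143 (S0194): HULLM in the literal form of 377's ArmsE (helper93)
-/

set_option autoImplicit false

noncomputable section

namespace Crest.Agent.R143.HullQx93

open Set MeasureTheory Filter Topology
open scoped Classical ENNReal
open Crest.ProbabilityR.Voronoi
open Crest.Agent.R143.B0Dx346 Crest.Agent.R143.HullMx93

/-- for every class of domains with positive radius -/
theorem hullM {Adm : Dom → ℝ → Prop} (hA : ∀ D δ, Adm D δ → 0 < D.L) : Mabx377.HULLM Adm := by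
  intro D δ hD
  refine ⟨CH, CH_pos.le, fun b0 h0 η hη => ?_⟩
  filter_upwards [HullFx93.hullm (hA D δ hD) b0 h0 η hη] with ε h1
  refine (measure_mono ?_).trans h1
  intro ω hω hcon
  refine hω fun z hz b hb hb' => hcon z ?_ b hb hb'
  rw [mem_closedBall_iff_norm]
  exact hz

/-- **HULLM for the admissible domains** -/
theorem hullM_adP : Mabx377.HULLM GeoSeqPx422.AdP :=
  hullM fun _ _ h => h.1.Lpos

end Crest.Agent.R143.HullQx93
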