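import Mathlib

/-!
# Row 143 (S0194), CORE-C: abstract assembly of W-MIX (helper970)

* `l1_dual` : `|∫ f X| ≤ e` for all `m`-measurable `f`, `‖f‖ ≤ 1` ⟹ `∫ ‖X‖ ≤ e` (308's weight `f`)
* `Rel3`, `dich_l1` : `L¹` form of the dichotomy (222, 712, 106)
* `poly_min` : one `κ` for two nets, errors `≤ δ` ⟹ `min (E ‖T U‖) (E ‖T' U'‖) ≤ 2 δ`
* `poly_lim` : limit form
* `Cor`, `Cor.concl` : the corridor identity for one net, one type, one weight `f` (W-MIX, decoupling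
  by the same-colour coupling of `U_K` and `U`, 311's message 38310)
-/

set_option autoImplicit false

noncomputable section

open scoped Classical

namespace Crest.Agent.R143.PolyAx970

open MeasureTheory Filter Topology

/-! ### duality -/

section dual

variable {Ω : Type*}

theorem l1_dual {m m0 : MeasurableSpace Ω} {P : Measure[m0] Ω} {X : Ω → ℂ}
    (hX : Measurable[m] X) {e : ℝ}
    (h : ∀ f : Ω → ℂ, Measurable[m] f → (∀ ω, ‖f ω‖ ≤ 1) → ‖∫ ω, f ω * X ω ∂P‖ ≤ e) :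
    ∫ ω, ‖X ω‖ ∂P ≤ e := by
  have h1 := h (fun ω => (starRingEnd ℂ) (X ω) / (‖X ω‖ : ℂ)) ?_ ?_
  · have h2 : (fun ω => (starRingEnd ℂ) (X ω) / (‖X ω‖ : ℂ) * X ω) =
        fun ω => ((‖X ω‖ : ℝ) : ℂ) := by
      funext ω
      by_cases hx : X ω = 0
      · simp [hx]
      · have hn : ((‖X ω‖ : ℝ) : ℂ) ≠ 0 := by
          exact_mod_cast norm_ne_zero_iff.2 hx
        rw [div_mul_eq_mul_div, div_eq_iff hn, mul_comm, Complex.mul_conj, Complex.normSq_eq_norm_sq]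
        push_cast
        ring
    rw [h2, integral_complex_ofReal, Complex.norm_real] at h1
    exact (le_abs_self _).trans h1
  · have hc : Measurable[m] fun ω => (starRingEnd ℂ) (X ω) :=
      (Complex.continuous_conj.measurable).comp hX
    have hn : Measurable[m] fun ω => ((‖X ω‖ : ℝ) : ℂ) :=
      Complex.measurable_ofReal.comp (measurable_norm.comp hX)
    exact hc.div hn
  · intro ω
    rw [norm_div, RCLike.norm_conj, Complex.norm_real, norm_norm]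
    exact div_self_le_one _

end dual

/-! ### the dichotomy in `L¹` -/

section dich

variable {Ω : Type*} [MeasurableSpace Ω] {P : Measure Ω}

/-- data of one net (functions of the environment): totals and mean displacements with the exact
relations (848, 660, 712) -/
structure Rel3 (P : Measure Ω) (w c : ℂ) (T T' : Ω → ℂ) (D : Fin 3 → Ω → ℂ) : Prop where
  r0 : ∀ ω, c * D 0 ω = T' ω - T ω
  r1 : ∀ ω, c * D 1 ω = w * T' ω - w ^ 2 * T ω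
  r2 : ∀ ω, c * D 2 ω = w ^ 2 * T' ω - w * T ω
  intT : Integrable T P
  intT' : Integrable T' P

variable {w c κ : ℂ} {T T' : Ω → ℂ} {D : Fin 3 → Ω → ℂ}

theorem Rel3.intD (h : Rel3 P w c T T' D) (hc : c ≠ 0) (i : Fin 3) : Integrable (D i) P := by
  have e0 : D 0 = fun ω => c⁻¹ * (T' ω - T ω) := by
    funext ω; rw [← h.r0 ω]; field_simp
  have e1 : D 1 = fun ω => c⁻¹ * (w * T' ω - w ^ 2 * T ω) := by
    funext ω; rw [← h.r1 ω]; field_simp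
  have e2 : D 2 = fun ω => c⁻¹ * (w ^ 2 * T' ω - w * T ω) := by
    funext ω; rw [← h.r2 ω]; field_simp
  fin_cases i
  · simp only [Fin.zero_eta]
    rw [e0]; exact (h.intT'.sub h.intT).const_mul _
  · simp only [Fin.mk_one]
    rw [e1]; exact ((h.intT'.const_mul _).sub (h.intT.const_mul _)).const_mul _
  · simp only [Fin.reduceFinMk]
    rw [e2]; exact ((h.intT'.const_mul _).sub (h.intT.const_mul _)).const_mul _

/-- the three errors -/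
def Er (w κ : ℂ) (T : Ω → ℂ) (D : Fin 3 → Ω → ℂ) (i : Fin 3) (ω : Ω) : ℂ :=
  w ^ (2 * (i : ℕ)) * T ω - κ * D i ω

theorem Rel3.intE (h : Rel3 P w c T T' D) (hc : c ≠ 0) (i : Fin 3) :
    Integrable (Er w κ T D i) P :=
  (h.intT.const_mul _).sub ((h.intD hc i).const_mul _)

/-- **the dichotomy in `L¹`** -/
theorem dich_l1 (w0 : 1 + w + w ^ 2 = 0) (hc : c ≠ 0) (h : Rel3 P w c T T' D) {δ : ℝ}
    (he : ∀ i, ∫ ω, ‖Er w κ T D i ω‖ ∂P ≤ δ) :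
    ‖c + κ‖ * ∫ ω, ‖T ω‖ ∂P ≤ ‖c‖ * δ ∧ ‖κ‖ * ∫ ω, ‖T' ω‖ ∂P ≤ ‖c‖ * δ := by
  have w3 : w ^ 3 = 1 := by linear_combination (w - 1) * w0
  have w4 : w ^ 4 = w := by linear_combination w * w3
  have wn : ‖w‖ = 1 := by
    have h : ‖w‖ ^ 3 = 1 := by rw [← norm_pow, w3, norm_one]
    exact (pow_eq_one_iff_of_nonneg (norm_nonneg _) (by norm_num)).1 h
  have wn2 : ‖w ^ 2‖ = 1 := by rw [norm_pow, wn, one_pow]
  have cn := norm_nonneg c
  have E0 : ∀ ω, Er w κ T D 0 ω = T ω - κ * D 0 ω := fun ω => by simp [Er]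
  have E1 : ∀ ω, Er w κ T D 1 ω = w ^ 2 * T ω - κ * D 1 ω := fun ω => by simp [Er]
  have E2 : ∀ ω, Er w κ T D 2 ω = w * T ω - κ * D 2 ω := fun ω => by
    simp only [Er, Fin.val_two]; norm_num [w4]
  have hint : Integrable (fun ω => ‖Er w κ T D 0 ω‖ + ‖Er w κ T D 1 ω‖ + ‖Er w κ T D 2 ω‖) P :=
    (((h.intE hc 0).norm.add (h.intE hc 1).norm).add (h.intE hc 2).norm)
  have hsum : ∫ ω, (‖Er w κ T D 0 ω‖ + ‖Er w κ T D 1 ω‖ + ‖Er w κ T D 2 ω‖) ∂P ≤ 3 * δ := by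
    have i0 := (h.intE (κ := κ) hc 0).norm
    have i1 := (h.intE (κ := κ) hc 1).norm
    have i2 := (h.intE (κ := κ) hc 2).norm
    have a1 : ∫ ω, (‖Er w κ T D 0 ω‖ + ‖Er w κ T D 1 ω‖ + ‖Er w κ T D 2 ω‖) ∂P =
        ∫ ω, (‖Er w κ T D 0 ω‖ + ‖Er w κ T D 1 ω‖) ∂P + ∫ ω, ‖Er w κ T D 2 ω‖ ∂P :=
      integral_add (i0.add i1) i2
    have a2 : ∫ ω, (‖Er w κ T D 0 ω‖ + ‖Er w κ T D 1 ω‖) ∂P =
        ∫ ω, ‖Er w κ T D 0 ω‖ ∂P + ∫ ω, ‖Er w κ T D 1 ω‖ ∂P := integral_add i0 i1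
    have b0 := he 0
    have b1 := he 1
    have b2 := he 2
    linarith
  have p1 : ∀ ω, 3 * (‖c + κ‖ * ‖T ω‖) ≤
      ‖c‖ * (‖Er w κ T D 0 ω‖ + ‖Er w κ T D 1 ω‖ + ‖Er w κ T D 2 ω‖) := by
    intro ω
    have h0 := h.r0 ω; have h1 := h.r1 ω; have h2 := h.r2 ω
    have key : 3 * ((c + κ) * T ω) = c * (Er w κ T D 0 ω + w * Er w κ T D 1 ω
        + w ^ 2 * Er w κ T D 2 ω) := by
      rw [E0, E1, E2]
      linear_combination (-c * T ω * 2) * w3 + (κ : ℂ) * h0 + (κ * w) * h1 + (κ * w ^ 2) * h2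
        + (-2 * κ * T ω + κ * T' ω * w) * w3 + (κ * T' ω) * w0
    have hn : ‖3 * ((c + κ) * T ω)‖ ≤
        ‖c‖ * (‖Er w κ T D 0 ω‖ + ‖Er w κ T D 1 ω‖ + ‖Er w κ T D 2 ω‖) := by
      rw [key, norm_mul]
      refine mul_le_mul_of_nonneg_left ?_ cn
      refine (norm_add_le _ _).trans (add_le_add ((norm_add_le _ _).trans (add_le_add le_rfl ?_)) ?_)
      · rw [norm_mul, wn, one_mul]
      · rw [norm_mul, wn2, one_mul]
    rw [norm_mul, norm_mul] at hn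
    have h3 : ‖(3 : ℂ)‖ = 3 := by simp
    rwa [h3] at hn
  have p2 : ∀ ω, 3 * (‖κ‖ * ‖T' ω‖) ≤
      ‖c‖ * (‖Er w κ T D 0 ω‖ + ‖Er w κ T D 1 ω‖ + ‖Er w κ T D 2 ω‖) := by
    intro ω
    have h0 := h.r0 ω; have h1 := h.r1 ω; have h2 := h.r2 ω
    have key : 3 * (κ * T' ω) = -(c * (Er w κ T D 0 ω + w ^ 2 * Er w κ T D 1 ω
        + w * Er w κ T D 2 ω)) := by
      rw [E0, E1, E2]
      linear_combination (-κ) * h0 + (-κ * w ^ 2) * h1 + (-κ * w) * h2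
        + (-2 * κ * T' ω + (κ + c) * T ω * w) * w3 + ((κ + c) * T ω) * w0
    have hn : ‖3 * (κ * T' ω)‖ ≤
        ‖c‖ * (‖Er w κ T D 0 ω‖ + ‖Er w κ T D 1 ω‖ + ‖Er w κ T D 2 ω‖) := by
      rw [key, norm_neg, norm_mul]
      refine mul_le_mul_of_nonneg_left ?_ cn
      refine (norm_add_le _ _).trans (add_le_add ((norm_add_le _ _).trans (add_le_add le_rfl ?_)) ?_)
      · rw [norm_mul, wn2, one_mul]
      · rw [norm_mul, wn, one_mul]
    rw [norm_mul, norm_mul] at hn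
    have h3 : ‖(3 : ℂ)‖ = 3 := by simp
    rwa [h3] at hn
  constructor
  · have q := integral_mono (h.intT.norm.const_mul ‖c + κ‖ |>.const_mul 3) (hint.const_mul ‖c‖) p1
    rw [integral_const_mul, integral_const_mul, integral_const_mul] at q
    nlinarith [mul_le_mul_of_nonneg_left hsum cn]
  · have q := integral_mono (h.intT'.norm.const_mul ‖κ‖ |>.const_mul 3) (hint.const_mul ‖c‖) p2
    rw [integral_const_mul, integral_const_mul, integral_const_mul] at q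
    nlinarith [mul_le_mul_of_nonneg_left hsum cn]

/-- one `κ` for two nets -/
theorem poly_min {S S' : Ω → ℂ} {DS : Fin 3 → Ω → ℂ} (w0 : 1 + w + w ^ 2 = 0) (hc : c ≠ 0)
    (h : Rel3 P w c T T' D) (hS : Rel3 P w c S S' DS) {δ : ℝ}
    (he : ∀ i, ∫ ω, ‖Er w κ T D i ω‖ ∂P ≤ δ) (heS : ∀ i, ∫ ω, ‖Er w κ S DS i ω‖ ∂P ≤ δ) :
    min (∫ ω, ‖T ω‖ ∂P) (∫ ω, ‖S' ω‖ ∂P) ≤ 2 * δ := by
  obtain ⟨h1, -⟩ := dich_l1 w0 hc h he
  obtain ⟨-, h2⟩ := dich_l1 w0 hc hS heS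
  have cp : 0 < ‖c‖ := norm_pos_iff.2 hc
  have nT : 0 ≤ ∫ ω, ‖T ω‖ ∂P := integral_nonneg fun _ => norm_nonneg _
  have nS : 0 ≤ ∫ ω, ‖S' ω‖ ∂P := integral_nonneg fun _ => norm_nonneg _
  have hs : ‖c‖ ≤ ‖c + κ‖ + ‖κ‖ := by
    have h3 := norm_sub_le (c + κ) κ
    rwa [add_sub_cancel_right] at h3
  rcases le_or_gt (‖c‖ / 2) ‖c + κ‖ with h4 | h4
  · refine (min_le_left _ _).trans ?_
    have h5 : ‖c‖ / 2 * ∫ ω, ‖T ω‖ ∂P ≤ ‖c‖ * δ := (mul_le_mul_of_nonneg_right h4 nT).trans h1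
    nlinarith
  · refine (min_le_right _ _).trans ?_
    have h6 : ‖c‖ / 2 ≤ ‖κ‖ := by linarith
    have h5 : ‖c‖ / 2 * ∫ ω, ‖S' ω‖ ∂P ≤ ‖c‖ * δ := (mul_le_mul_of_nonneg_right h6 nS).trans h2
    nlinarith

/-- limit form: for every precision, eventually one `κ` serves both nets -/
theorem poly_lim {ι : Type*} {l : Filter ι} {T T' S S' : ι → Ω → ℂ} {D DS : ι → Fin 3 → Ω → ℂ}
    (w0 : 1 + w + w ^ 2 = 0) (hc : c ≠ 0)
    (H : ∀ η > 0, ∀ᶠ i in l, ∃ κ : ℂ, Rel3 P w c (T i) (T' i) (D i) ∧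
      Rel3 P w c (S i) (S' i) (DS i) ∧ (∀ k, ∫ ω, ‖Er w κ (T i) (D i) k ω‖ ∂P ≤ η) ∧
      ∀ k, ∫ ω, ‖Er w κ (S i) (DS i) k ω‖ ∂P ≤ η) :
    Tendsto (fun i => min (∫ ω, ‖T i ω‖ ∂P) (∫ ω, ‖S' i ω‖ ∂P)) l (𝓝 0) := by
  rw [Metric.tendsto_nhds]
  intro e he
  filter_upwards [H (e / 4) (by positivity)] with i hi
  obtain ⟨κ, h1, h2, h3, h4⟩ := hi
  have h5 := poly_min w0 hc h1 h2 h3 h4
  have h6 : 0 ≤ min (∫ ω, ‖T i ω‖ ∂P) (∫ ω, ‖S' i ω‖ ∂P) :=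
    le_min (integral_nonneg fun _ => norm_nonneg _) (integral_nonneg fun _ => norm_nonneg _)
  rw [Real.dist_eq, sub_zero, abs_of_nonneg h6]
  linarith

end dich

/-! ### one polygon, one type: the corridor identity -/

section cor

variable {Ω : Type*} {m0 : MeasurableSpace Ω} {P ν : Measure Ω}

theorem int_fm {ν : Measure Ω} {f X : Ω → ℂ} (hf : Measurable f) (hf1 : ∀ ω, ‖f ω‖ ≤ 1)
    (hX : Integrable X ν) : Integrable (fun ω => f ω * X ω) ν :=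
  hX.bdd_mul hf.aestronglyMeasurable (ae_of_all _ hf1)

theorem norm_int_fm {ν : Measure Ω} {f X : Ω → ℂ} (hf1 : ∀ ω, ‖f ω‖ ≤ 1)
    (hX : Integrable X ν) : ‖∫ ω, f ω * X ω ∂ν‖ ≤ ∫ ω, ‖X ω‖ ∂ν := by
  refine (norm_integral_le_integral_norm _).trans ?_
  refine integral_mono_of_nonneg (ae_of_all _ fun _ => norm_nonneg _) hX.norm
    (ae_of_all _ fun ω => ?_)
  simp only
  rw [norm_mul]
  exact mul_le_of_le_one_left (norm_nonneg _) (hf1 ω)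

/-- **data of the corridor of one net and one type** for one weight `f` of the points inside.
`ν` = the law with the corridor weight (`g P`, not normalised), `G` its mass.
`Vβ` closed block, `Vγ` crossing block of `U_K`, `VK` = `V (K[y → x])`, `TK` total of `U_K`,
`T`, `D` total and mean displacement of the polygon `U` (functions of the points),
`V k` = `V (K ∩ tile k)`, `one k` = indicator of `tile k` between the touches `y_U`, `x_U` of the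
polygon (function of the inside), `R` = error (partial tiles, tiles between `y` and `y_U`),
`z k` = displacement along the tile `k`, `J` = straight tiles. -/
structure Cor (P ν : Measure Ω) {ι : Type*} (I J : Finset ι) (t κ : ℂ) (G : ℝ) (f : Ω → ℂ)
    (Vβ Vγ VK TK T D R : Ω → ℂ) (V : ι → Ω → ℂ) (one : ι → Ω → ℝ) (z : ι → ℂ)
    (a1 a2 a3 a4 a5 a6 : ℝ) : Prop where
  JI : J ⊆ I
  Gpos : 0 < G
  tn : ‖t‖ = 1
  fm : Measurable f
  f1 : ∀ ω, ‖f ω‖ ≤ 1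
  iβ : Integrable Vβ ν
  iγ : Integrable Vγ ν
  iTK : Integrable TK ν
  iT : Integrable T ν
  iR : Integrable R ν
  i1 : ∀ k ∈ I, Integrable (fun ω => V k ω * one k ω) ν
  /-- exact closing -/
  close : ∀ᵐ ω ∂ν, Vβ ω = Vγ ω + VK ω
  /-- macroscopic closed blocks are small -/
  small : ∫ ω, ‖Vβ ω‖ ∂ν ≤ a1 * G
  /-- inside is fresh; colour switching -/
  fresh : ∫ ω, f ω * Vγ ω ∂ν = t * ∫ ω, f ω * TK ω ∂ν
  /-- continuity of the total -/
  cont : ∫ ω, ‖TK ω - T ω‖ ∂ν ≤ a2 * G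
  /-- the points inside are independent of the corridor -/
  indT : ‖∫ ω, f ω * T ω ∂ν - G * ∫ ω, f ω * T ω ∂P‖ ≤ a3 * G
  /-- splitting of `K` -/
  split : ∀ᵐ ω ∂ν, VK ω = ∑ k ∈ I, V k ω * one k ω + R ω
  part : ∫ ω, ‖R ω‖ ∂ν ≤ a4 * G
  /-- product law: exact mean for straight tiles, independence of the inside -/
  mean : ∀ k ∈ J, ∫ ω, f ω * (V k ω * one k ω) ∂ν = G * (κ * z k) * ∫ ω, f ω * one k ω ∂P
  /-- corner tiles are small -/
  corner : ∑ k ∈ I \ J, ∫ ω, ‖V k ω * one k ω‖ ∂ν ≤ a5 * G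
  /-- displacement -/
  disp : ‖κ‖ * ‖∫ ω, f ω * D ω ∂P - ∑ k ∈ J, z k * ∫ ω, f ω * one k ω ∂P‖ ≤ a6

theorem Cor.concl {ι : Type*} {I J : Finset ι} {t κ : ℂ} {G : ℝ} {f : Ω → ℂ}
    {Vβ Vγ VK TK T D R : Ω → ℂ} {V : ι → Ω → ℂ} {one : ι → Ω → ℝ} {z : ι → ℂ}
    {a1 a2 a3 a4 a5 a6 : ℝ}
    (h : Cor P ν I J t κ G f Vβ Vγ VK TK T D R V one z a1 a2 a3 a4 a5 a6) :
    ‖t * ∫ ω, f ω * T ω ∂P + κ * ∫ ω, f ω * D ω ∂P‖ ≤ a1 + a2 + a3 + a4 + a5 + a6 := by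
  have hG := h.Gpos
  -- splitting
  have hVK : VK =ᵐ[ν] fun ω => Vβ ω - Vγ ω := by
    filter_upwards [h.close] with ω hω
    rw [hω]; ring
  have iVK : Integrable VK ν := (h.iβ.sub h.iγ).congr hVK.symm
  have e1 : ∫ ω, f ω * Vβ ω ∂ν = ∫ ω, f ω * Vγ ω ∂ν + ∫ ω, f ω * VK ω ∂ν := by
    rw [← integral_add (int_fm h.fm h.f1 h.iγ) (int_fm h.fm h.f1 iVK)]
    refine integral_congr_ae ?_
    filter_upwards [h.close] with ω hω
    rw [hω]; ring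
  have e2 : ∫ ω, f ω * VK ω ∂ν =
      ∑ k ∈ I, ∫ ω, f ω * (V k ω * one k ω) ∂ν + ∫ ω, f ω * R ω ∂ν := by
    rw [← integral_finsetSum _ fun k hk => int_fm h.fm h.f1 (h.i1 k hk),
      ← integral_add (integrable_finsetSum _ fun k hk => int_fm h.fm h.f1 (h.i1 k hk))
        (int_fm h.fm h.f1 h.iR)]
    refine integral_congr_ae ?_
    filter_upwards [h.split] with ω hω
    rw [hω, mul_add, Finset.mul_sum]
  -- bounds
  have b1 : ‖∫ ω, f ω * Vβ ω ∂ν‖ ≤ a1 * G := (norm_int_fm h.f1 h.iβ).trans h.small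
  have b2 : ‖∫ ω, f ω * TK ω ∂ν - ∫ ω, f ω * T ω ∂ν‖ ≤ a2 * G := by
    rw [← integral_sub (int_fm h.fm h.f1 h.iTK) (int_fm h.fm h.f1 h.iT)]
    have : (fun ω => f ω * TK ω - f ω * T ω) = fun ω => f ω * (TK ω - T ω) := by
      funext ω; ring
    rw [this]
    exact (norm_int_fm h.f1 (h.iTK.sub h.iT)).trans h.cont
  have b4 : ‖∫ ω, f ω * R ω ∂ν‖ ≤ a4 * G := (norm_int_fm h.f1 h.iR).trans h.part
  have e6 : ∑ k ∈ I, ∫ ω, f ω * (V k ω * one k ω) ∂ν =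
      ∑ k ∈ I \ J, ∫ ω, f ω * (V k ω * one k ω) ∂ν +
        ∑ k ∈ J, ∫ ω, f ω * (V k ω * one k ω) ∂ν :=
    (Finset.sum_sdiff h.JI).symm
  have b6 : ‖∑ k ∈ I \ J, ∫ ω, f ω * (V k ω * one k ω) ∂ν‖ ≤ a5 * G := by
    refine (norm_sum_le _ _).trans (le_trans (Finset.sum_le_sum (g := fun k =>
      ∫ ω, ‖V k ω * one k ω‖ ∂ν) fun k hk => ?_) h.corner)
    exact norm_int_fm h.f1 (h.i1 k (Finset.mem_sdiff.1 hk).1)
  have e7 : ∑ k ∈ J, ∫ ω, f ω * (V k ω * one k ω) ∂ν =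
      G * (κ * ∑ k ∈ J, z k * ∫ ω, f ω * one k ω ∂P) := by
    rw [Finset.mul_sum, Finset.mul_sum]
    refine Finset.sum_congr rfl fun k hk => ?_
    rw [h.mean k hk]; ring
  set A := ∫ ω, f ω * T ω ∂P with hA
  set B := ∫ ω, f ω * D ω ∂P with hB
  set S := ∑ k ∈ J, z k * ∫ ω, f ω * one k ω ∂P with hS
  set TKi := ∫ ω, f ω * TK ω ∂ν with hTKi
  set Ti := ∫ ω, f ω * T ω ∂ν with hTi
  set Bi := ∫ ω, f ω * Vβ ω ∂ν with hBi
  set Ri := ∫ ω, f ω * R ω ∂ν with hRi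
  set O1 := ∑ k ∈ I, ∫ ω, f ω * (V k ω * one k ω) ∂ν with hO1
  set C6 := ∑ k ∈ I \ J, ∫ ω, f ω * (V k ω * one k ω) ∂ν with hC6
  have e3 : Bi = t * TKi + (O1 + Ri) := by rw [e1, h.fresh, e2]
  have h7 : O1 = C6 + G * (κ * S) := by rw [e6, e7]
  have key : (G : ℂ) * (t * A + κ * B) =
      Bi - t * (TKi - Ti) - t * (Ti - G * A) - Ri - C6 + G * (κ * (B - S)) := by
    rw [e3]
    linear_combination -h7
  have b7 : ‖(G : ℂ) * (κ * (B - S))‖ ≤ a6 * G := by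
    rw [norm_mul, norm_mul, Complex.norm_real, Real.norm_of_nonneg hG.le, mul_comm]
    exact mul_le_mul_of_nonneg_right h.disp hG.le
  have c2 : ‖t * (TKi - Ti)‖ ≤ a2 * G := by rw [norm_mul, h.tn, one_mul]; exact b2
  have c3 : ‖t * (Ti - G * A)‖ ≤ a3 * G := by rw [norm_mul, h.tn, one_mul]; exact h.indT
  have tot : ‖(G : ℂ) * (t * A + κ * B)‖ ≤ (a1 + a2 + a3 + a4 + a5 + a6) * G := by
    rw [key]
    have n1 := norm_add_le (Bi - t * (TKi - Ti) - t * (Ti - G * A) - Ri - C6)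
      (G * (κ * (B - S)))
    have n2 := norm_sub_le (Bi - t * (TKi - Ti) - t * (Ti - G * A) - Ri) C6
    have n4 := norm_sub_le (Bi - t * (TKi - Ti) - t * (Ti - G * A)) Ri
    have n5 := norm_sub_le (Bi - t * (TKi - Ti)) (t * (Ti - G * A))
    have n6 := norm_sub_le Bi (t * (TKi - Ti))
    linarith
  rw [norm_mul, Complex.norm_real, Real.norm_of_nonneg hG.le, mul_comm] at tot
  exact le_of_mul_le_mul_right tot hG

end cor

end Crest.Agent.R143.PolyAx970
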