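import Crest.Agent.R143.NetU_346
import Crest.Agent.R143.PolyA_970
import Crest.Agent.R143.Frame7_395

/-!
# Row 143 (S0194): exact relations between `T`, `T'` and the mean displacements (helper62)

In 346's frozen object `TS S A z` (`NetU_346`), for arbitrary giants `A` on an arbitrary finite set
of sites (no `Hex` needed for the algebra):

* `TB S A` `= 3 ∑ om^(2 i) E y_i` `= conj (TS S A conj)`, `‖TB S A‖ = ‖TS S A conj‖`;
* `Dis S A i = E y_(i+1) - E y_(i+2)`;
* `r0 r1 r2` : 970's three relations with `c = 3 (om ^ 2 - om)`;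
* `rel3` : 970's `Rel3` for any random sites and giants with integrable `TS`.
-/

set_option autoImplicit false

noncomputable section

open scoped Classical

namespace Crest.Agent.R143.Relx62

open MeasureTheory
open Crest.Agent.R143.B0x346 Crest.Agent.R143.NetUx346 Crest.Agent.R143.PolyAx970

variable {S : Finset ℂ} {A : ZMod 3 → Set ℂ}

/-- conjugation as a function (the `z` of `T'`) -/
def cj (z : ℂ) : ℂ := (starRingEnd ℂ) z

theorem om_cj : (starRingEnd ℂ) om = om ^ 2 := Frame7x395.om_conj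

theorem om_one : 1 + om + om ^ 2 = 0 := Frame7x395.om_sum

theorem om_cube : om ^ 3 = 1 := by
  linear_combination (om - 1) * om_one

theorem sum3 (f : ZMod 3 → ℂ) : ∑ i : ZMod 3, f i = f 0 + f 1 + f 2 := Fin.sum_univ_three f

theorem omz0 : omz 0 = 1 := by
  unfold omz
  rw [ZMod.val_zero, pow_zero]

theorem omz1 : omz 1 = om := by
  unfold omz
  rw [ZMod.val_one, pow_one]

theorem omz2 : omz 2 = om ^ 2 := rfl

/-- the three means -/
theorem TS_three (z : ℂ → ℂ) : TS S A z = 3 * (Ey S A z 0 + om * Ey S A z 1 + om ^ 2 * Ey S A z 2) := by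
  unfold TS
  rw [sum3, omz0, omz1, omz2, one_mul]

theorem exC_cj (V : Finset ℂ) (f : Finset ℂ → ℂ) :
    (starRingEnd ℂ) (exC V f) = exC V fun T => (starRingEnd ℂ) (f T) := by
  unfold exC
  rw [map_div₀, map_sum, map_pow, Complex.conj_ofNat]

theorem Ey_cj (z : ℂ → ℂ) (i : ZMod 3) :
    (starRingEnd ℂ) (Ey S A z i) = Ey S A (fun v => (starRingEnd ℂ) (z v)) i := by
  unfold Ey
  rw [exC_cj]
  congr 1
  funext T
  rw [map_sum]

/-- the second total, `3 (E y_0 + om² E y_1 + om E y_2)` -/
def TB (S : Finset ℂ) (A : ZMod 3 → Set ℂ) : ℂ :=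
  3 * (Ey S A id 0 + om ^ 2 * Ey S A id 1 + om * Ey S A id 2)

/-- **`T'` of 346 is the conjugate of `TB`** -/
theorem TS_cj : TS S A (fun v => (starRingEnd ℂ) v) = (starRingEnd ℂ) (TB S A) := by
  have h4 : (om ^ 2) ^ 2 = om := by linear_combination om * om_cube
  rw [TS_three]
  unfold TB
  rw [map_mul, map_add, map_add, map_mul, map_mul, map_pow, Complex.conj_ofNat, om_cj, Ey_cj,
    Ey_cj, Ey_cj, h4]
  rfl

theorem norm_TB : ‖TB S A‖ = ‖TS S A (fun v => (starRingEnd ℂ) v)‖ := by
  rw [TS_cj, Complex.norm_conj]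

/-- mean displacements `E y_(i+1) - E y_(i+2)` -/
def Dis (S : Finset ℂ) (A : ZMod 3 → Set ℂ) (i : Fin 3) : ℂ :=
  match i with
  | 0 => Ey S A id 1 - Ey S A id 2
  | 1 => Ey S A id 2 - Ey S A id 0
  | 2 => Ey S A id 0 - Ey S A id 1

/-- the displacement in the labels of `ZMod 3` -/
theorem Dis_eq (i : Fin 3) : Dis S A i =
    Ey S A id ((i : ℕ) + 1 : ZMod 3) - Ey S A id ((i : ℕ) + 2 : ZMod 3) := by
  fin_cases i <;> rfl

/-- the constant of 970's relations -/
def c3 : ℂ := 3 * (om ^ 2 - om)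

theorem c3_ne : c3 ≠ 0 := by
  unfold c3
  intro h
  have h1 : om ^ 2 - om = 0 := by
    rcases mul_eq_zero.1 h with h | h
    · norm_num at h
    · exact h
  have h2 : om * (om - 1) = 0 := by linear_combination h1
  rcases mul_eq_zero.1 h2 with h3 | h3
  · have := om_one
    rw [h3] at this
    norm_num at this
  · have h4 : om = 1 := by linear_combination h3
    have := om_one
    rw [h4] at this
    norm_num at this

theorem r0 : c3 * Dis S A 0 = TB S A - TS S A id := by
  rw [TS_three]
  unfold TB c3 Dis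
  ring

theorem r1 : c3 * Dis S A 1 = om * TB S A - om ^ 2 * TS S A id := by
  rw [TS_three]
  unfold TB c3 Dis
  linear_combination (3 * Ey S A id 2 * om) * om_cube

theorem r2 : c3 * Dis S A 2 = om ^ 2 * TB S A - om * TS S A id := by
  rw [TS_three]
  unfold TB c3 Dis
  linear_combination (-3 * Ey S A id 1 * om) * om_cube

variable {Ω : Type*} [MeasurableSpace Ω] {P : Measure Ω}

/-- **970's `Rel3` for 346's object** -/
theorem rel3 {S : Ω → Finset ℂ} {A : Ω → ZMod 3 → Set ℂ}
    (h : Integrable (fun ω => TS (S ω) (A ω) id) P)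
    (h' : Integrable (fun ω => TS (S ω) (A ω) (fun v => (starRingEnd ℂ) v)) P) :
    Rel3 P om c3 (fun ω => TS (S ω) (A ω) id) (fun ω => TB (S ω) (A ω))
      (fun i ω => Dis (S ω) (A ω) i) where
  r0 ω := r0
  r1 ω := r1
  r2 ω := r2
  intT := h
  intT' := by
    have e : (fun ω => TB (S ω) (A ω)) =
        fun ω => (starRingEnd ℂ) (TS (S ω) (A ω) (fun v => (starRingEnd ℂ) v)) := by
      funext ω
      rw [TS_cj, Complex.conj_conj]
    rw [e]
    exact (Complex.conjCLE.toContinuousLinearMap.integrable_comp h')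

end Crest.Agent.R143.Relx62
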