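import Crest.Agent.R143.PolyU_346
import Crest.Agent.R143.PolyS_854
import Crest.Agent.R143.Rel_62

/-!
# Row 143 (S0194): `POLY` for the frozen polygons, last step (helper62)

346's frozen totals `Poly.T`, `Poly.T'` (`PolyU_346`):

* `EyV S V B z i` : mean of the hit value on the side `i`, `TV = 3 ∑ om^i EyV i` (`TV_three`);
* `TVB S V B = 3 ∑ om^(2 i) EyV id i` `= conj (TV conj)` (`TV_cj`);
* `Poly.TB`, `norm_TB : ‖u.TB ε ω‖ = ‖u.T' ε ω‖`;
* `Poly.Dk u ε ω k = 3 (E y_(k+1) - E y_(k+2))`, the displacement of the type `k`;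
* `rl : Rl (u.T ε ω) (u.TB ε ω) (u.Dk ε ω)` for every `ε`, `ω`; `rlp : RLP ..`;
* `poly_end : RIGP Poly.T Poly.Dk → POLY Poly.T Poly.T'`, `poly_end_l`, `poly_end_n`, `poly_end_cor`.
-/

set_option autoImplicit false

noncomputable section

open scoped Classical

namespace Crest.Agent.R143.RelPx62

open MeasureTheory Filter Topology
open Crest.ProbabilityR.Voronoi
open Crest.Agent.R143.B0x346 Crest.Agent.R143.NetUx346 Crest.Agent.R143.NetVx346
  Crest.Agent.R143.PolyUx346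
open Crest.Agent.R143.DefsNx346 (hi)
open Crest.Agent.R143.Alg4x133 (Rl)
open Crest.Agent.R143.AsmNx758 (POLY)
open Crest.Agent.R143.PolyQx854 Crest.Agent.R143.PolyRx854 Crest.Agent.R143.PolySx854
open Crest.Agent.R143.Relx62 (om_cj om_one om_cube sum3 omz0 omz1 omz2 exC_cj)

variable {S V : Finset ℂ} {B : ZMod 3 → Set ℂ}

/-! ### one labelled free set -/

/-- mean hit value on the side `i` -/
def EyV (S V : Finset ℂ) (B : ZMod 3 → Set ℂ) (z : ℂ → ℂ) (i : ZMod 3) : ℂ :=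
  exC V fun T => zV S V B i (T : Set ℂ) z

theorem TV_eq (z : ℂ → ℂ) : TV S V B z = 3 * ∑ i : ZMod 3, omz i * EyV S V B z i := rfl

theorem TV_three (z : ℂ → ℂ) :
    TV S V B z = 3 * (EyV S V B z 0 + om * EyV S V B z 1 + om ^ 2 * EyV S V B z 2) := by
  rw [TV_eq, sum3, omz0, omz1, omz2, one_mul]

theorem zV_cj (z : ℂ → ℂ) (i : ZMod 3) (T : Set ℂ) :
    (starRingEnd ℂ) (zV S V B i T z) = zV S V B i T fun v => (starRingEnd ℂ) (z v) := by
  unfold zV
  split_ifs with h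
  · rw [map_sum]
  · rw [map_zero]

theorem EyV_cj (z : ℂ → ℂ) (i : ZMod 3) :
    (starRingEnd ℂ) (EyV S V B z i) = EyV S V B (fun v => (starRingEnd ℂ) (z v)) i := by
  unfold EyV
  rw [exC_cj]
  congr 1
  funext T
  exact zV_cj z i _

/-- the second total -/
def TVB (S V : Finset ℂ) (B : ZMod 3 → Set ℂ) : ℂ :=
  3 * (EyV S V B id 0 + om ^ 2 * EyV S V B id 1 + om * EyV S V B id 2)

theorem TV_cj : TV S V B (starRingEnd ℂ) = (starRingEnd ℂ) (TVB S V B) := by
  have h4 : (om ^ 2) ^ 2 = om := by linear_combination om * om_cube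
  rw [TV_three]
  unfold TVB
  rw [map_mul, map_add, map_add, map_mul, map_mul, map_pow, Complex.conj_ofNat, om_cj, EyV_cj,
    EyV_cj, EyV_cj, h4]
  rfl

/-- the displacement of the type `k` (three times the mean end point difference) -/
def DV (S V : Finset ℂ) (B : ZMod 3 → Set ℂ) (k : ZMod 3) : ℂ :=
  3 * (EyV S V B id (k + 1) - EyV S V B id (k + 2))

theorem two_hi : 2 * hi = om - om ^ 2 := by
  have h1 : (starRingEnd ℂ) om = om ^ 2 := om_cj
  have h2 : om - (starRingEnd ℂ) om = (2 * om.im : ℝ) * Complex.I := Complex.sub_conj om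
  have h3 : om.im = Real.sqrt 3 / 2 := by
    unfold om
    rw [Complex.exp_ofReal_mul_I_im, show 2 * Real.pi / 3 = Real.pi - Real.pi / 3 by ring,
      Real.sin_pi_sub, Real.sin_pi_div_three]
  rw [h1, h3] at h2
  rw [h2]
  unfold hi
  push_cast
  ring

/-- **the exact relation** -/
theorem rlV : Rl (TV S V B id) (TVB S V B) (DV S V B) := by
  intro k
  have h3 := om_cube
  rw [TV_three, two_hi]
  unfold TVB DV
  have h1 : k = 0 ∨ k = 1 ∨ k = 2 := by revert k; decide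
  rcases h1 with rfl | rfl | rfl
  · rw [show (0 : ZMod 3) + 1 = 1 from rfl, show (0 : ZMod 3) + 2 = 2 from rfl, omz0]
    ring
  · rw [show (1 : ZMod 3) + 1 = 2 from rfl, show (1 : ZMod 3) + 2 = 0 from rfl, omz1]
    linear_combination (-3 * (om * EyV S V B id 2)) * h3
  · rw [show (2 : ZMod 3) + 1 = 0 from rfl, show (2 : ZMod 3) + 2 = 1 from rfl, omz2]
    linear_combination (-3 * (om * EyV S V B id 0 + (om ^ 2 - om) * EyV S V B id 1 +
      om ^ 3 * EyV S V B id 2)) * h3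

/-! ### the frozen polygons -/

/-- the conjugate of `T'` -/
def TB (u : Poly) (ε : ℝ) (ω : Sample) : ℂ :=
  TVB (u.S ε ω) (Vin (u.S ε ω) u.P √ε) (Bl (u.S ε ω) (Vin (u.S ε ω) u.P √ε) u.Lab)

/-- the displacements of the frozen polygon -/
def Dk (u : Poly) (ε : ℝ) (ω : Sample) (k : ZMod 3) : ℂ :=
  DV (u.S ε ω) (Vin (u.S ε ω) u.P √ε) (Bl (u.S ε ω) (Vin (u.S ε ω) u.P √ε) u.Lab) k

theorem T'_eq (u : Poly) (ε : ℝ) (ω : Sample) : u.T' ε ω = (starRingEnd ℂ) (TB u ε ω) := by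
  unfold Poly.T' TU TB
  exact TV_cj

theorem norm_TB (u : Poly) (ε : ℝ) (ω : Sample) : ‖TB u ε ω‖ = ‖u.T' ε ω‖ := by
  rw [T'_eq, Complex.norm_conj]

theorem rl (u : Poly) (ε : ℝ) (ω : Sample) : Rl (u.T ε ω) (TB u ε ω) (Dk u ε ω) := rlV

theorem rlp : RLP Poly.T TB Dk := by
  intro u η hη
  refine Eventually.of_forall fun ε => ?_
  have h : {ω | ¬ Rl (u.T ε ω) (TB u ε ω) (Dk u ε ω)} = ∅ := by
    ext ω
    simp only [Set.mem_ofPred_eq, Set.mem_empty_iff_false, iff_false, not_not]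
    exact rl u ε ω
  rw [h]
  simp

theorem poly_cj (h : POLY Poly.T TB) : POLY Poly.T Poly.T' := by
  intro u u' η hη
  filter_upwards [h u u' η hη] with ε h1
  rcases h1 with h1 | h1
  · exact Or.inl h1
  · refine Or.inr ?_
    have e : {ω | η < ‖TB u' ε ω‖} = {ω | η < ‖u'.T' ε ω‖} := by
      ext ω
      simp only [Set.mem_ofPred_eq, norm_TB]
    rwa [e] at h1

/-- **`POLY` for the frozen objects from RIG in probability** -/
theorem poly_end (h : RIGP Poly.T Dk) : POLY Poly.T Poly.T' := poly_cj (poly_of_p h rlp)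

theorem poly_end_l (h : RIGL Poly.T Dk) : POLY Poly.T Poly.T' := poly_cj (poly_of_l h rlp)

theorem poly_end_cor {m : Poly → ℝ → MeasurableSpace Sample} (h : CORH m Poly.T Dk) :
    POLY Poly.T Poly.T' := poly_cj (poly_of_cor h rlp)

theorem poly_end_n {I : Type} {𝓁 : Filter I} [𝓁.NeBot] {κ : I → ℝ → ℂ}
    {m : Poly → I → ℝ → MeasurableSpace Sample} (h : CORN 𝓁 κ m Poly.T Dk) :
    POLY Poly.T Poly.T' := poly_cj (poly_of_n h rlp)

end Crest.Agent.R143.RelPx62
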