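import Crest.Agent.R143.FinC_894
import Crest.Agent.R143.VisA_758
import Crest.Agent.R143.RelP_62
import Crest.Agent.R143.ArmsE_377
import Crest.Agent.R143.HullQ_93

/-!
# Row 143 (S0194): what is left, second form (helper894)

* `leaf_visd` : `SMALL`, `VISD` (758, the total of the sites of the domain) for `id`, `conj`, and
  `RIGP Poly.T Dk` (854, 62) give the leaf
* `leaf_harm` : `HARM`, `HULLM` (377's `SMALL`), `VISD Sm1` for `id`, `conj`, and `RIGP Poly.T Dk`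
-/

set_option autoImplicit false

noncomputable section

namespace Crest.Agent.R143.FinDx894

open Crest.ProbabilityR.Voronoi
open Crest.Agent.R143.B0Dx346 Crest.Agent.R143.GeoSeqPx422
open Crest.Agent.R143.AsmNx758 Crest.Agent.R143.Finx894 Crest.Agent.R143.PolyUx346
open Crest.Agent.R143.FinCx894 Crest.Agent.R143.VisAx758 Crest.Agent.R143.RelPx62
open Crest.Agent.R143.Mabx377 (SMALL VIS)
open Crest.Agent.R143.PolyQx854 (RIGP)

theorem rig_of (h : RIGP Poly.T Dk) : Rig := poly_end h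

theorem contB_of_d {Sm : Finset ℂ → (ZMod 3 → Set ℂ) → ℝ → Prop} (h1 : SMALL Sm id AdP)
    (h2 : VISD Sm id AdP) : ContB :=
  contB_of h1 (vis_of FinBx894.adP_w h2)

theorem contD_of_d {Sm : Finset ℂ → (ZMod 3 → Set ℂ) → ℝ → Prop}
    (h1 : SMALL Sm (starRingEnd ℂ) AdP) (h2 : VISD Sm (starRingEnd ℂ) AdP) : ContD :=
  contD_of h1 (vis_of FinBx894.adP_w h2)

/-- the row from `SMALL`, `VISD` and RIG in probability -/
theorem leaf_visd {Sm Sm' : Finset ℂ → (ZMod 3 → Set ℂ) → ℝ → Prop}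
    (h1 : SMALL Sm id AdP) (h1' : SMALL Sm' (starRingEnd ℂ) AdP)
    (h2 : VISD Sm id AdP) (h2' : VISD Sm' (starRingEnd ℂ) AdP) (h5 : RIGP Poly.T Dk) :
    Leaf894 :=
  leaf_frozen (contB_of_d h1 h2) (contD_of_d h1' h2') (rig_of h5)

theorem adP_ad (D : Dom) (δ : ℝ) (h : AdP D δ) : D.Ad δ := h.1

theorem contB_harm (hH : Mabx377.HARM) (hM : Mabx377.HULLM AdP)
    (h2 : VISD Mabx377.Sm1 id AdP) : ContB :=
  Mabx377.cont_we' adP_ad hH hM (vis_of FinBx894.adP_w h2)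

theorem contD_harm (hH : Mabx377.HARM) (hM : Mabx377.HULLM AdP)
    (h2 : VISD Mabx377.Sm1 (starRingEnd ℂ) AdP) : ContD :=
  Mabx377.cont_wd' adP_ad hH hM (vis_of FinBx894.adP_w h2)

/-- the row from the four open Props `HARM`, `HULLM`, `VISD`, `RIGP` -/
theorem leaf_harm (hH : Mabx377.HARM) (hM : Mabx377.HULLM AdP)
    (h2 : VISD Mabx377.Sm1 id AdP) (h2' : VISD Mabx377.Sm1 (starRingEnd ℂ) AdP)
    (h5 : RIGP Poly.T Dk) : Leaf894 :=
  leaf_frozen (contB_harm hH hM h2) (contD_harm hH hM h2') (rig_of h5)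

/-- `HULLM` is 93's theorem: the row from `HARM`, `VISD`, `RIGP` -/
theorem leaf_three (hH : Mabx377.HARM)
    (h2 : VISD Mabx377.Sm1 id AdP) (h2' : VISD Mabx377.Sm1 (starRingEnd ℂ) AdP)
    (h5 : RIGP Poly.T Dk) : Leaf894 :=
  leaf_harm hH HullQx93.hullM_adP h2 h2' h5

end Crest.Agent.R143.FinDx894
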