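import Crest.Agent.R143.K7D_359

/-!
# Row 143 (S0194), CONT, (K7): assembly (helper359)

* **`k7_of : LAYER → GRID → COMP → CENT → THR → MARK → K7`**
-/

set_option autoImplicit false

noncomputable section

open scoped Classical

namespace Crest.Agent.R143.K7x359

open Crest.Agent.R143.K7Dx359
open Crest.Agent.R158.Sp896 (V lc rc pt ed sq Cyc)
open Crest.Agent.R143.JColx54 (Adj)
open Crest.Agent.R143.RE0x723 (Pth)
open Crest.Agent.R143.K33x877 (Tr fr CtrT CtrX)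
open Crest.Agent.R143.Brkx478 (Bk Nb Conn cells mem_cells cyc_brick)
open Crest.Agent.R143.Tenx416 (Pg)
open Crest.Agent.R143.CenSx496 (SmC)
open Crest.Agent.R143.GateKx421 (Thin)
open Crest.Agent.R143.NetVx346 (Vin Bl)
open Crest.Agent.R143.PolyUx346 (Poly)

variable {S : Finset ℂ} {A A' : ZMod 3 → Set ℂ} {x0 : ℂ} {L d s C : ℝ}

theorem SmC.mono {p : ℂ} {r r' : ℝ} (h : SmC S A p r) (hr : r ≤ r') : SmC S A p r' := by
  rcases h with ⟨c, h1, h2⟩ | ⟨X, h1, h2⟩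
  · exact Or.inl ⟨c, h1, fun v hv => (h2 v hv).trans hr⟩
  · exact Or.inr ⟨X, h1, fun v hv => (h2 v hv).trans hr⟩

theorem mem_tile {b : Bk} {z : ℂ} : z ∈ tile s b ↔ ∃ q, Crest.Agent.R143.Brkx478.bk q = b ∧ z ∈ sq s q := by
  unfold tile Pg
  simp only [Set.mem_iUnion, exists_prop, mem_cells, Set.mem_singleton_iff]

theorem mem_pg {U : Set Bk} {z : ℂ} : z ∈ Pg s (cells U) ↔ ∃ b ∈ U, z ∈ tile s b := by
  constructor
  · intro h
    unfold Pg at h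
    simp only [Set.mem_iUnion, exists_prop, mem_cells] at h
    obtain ⟨q, h1, h2⟩ := h
    exact ⟨_, h1, mem_tile.2 ⟨q, rfl, h2⟩⟩
  · rintro ⟨b, hb, h⟩
    obtain ⟨q, h1, h2⟩ := mem_tile.1 h
    unfold Pg
    simp only [Set.mem_iUnion, exists_prop, mem_cells]
    exact ⟨q, h1 ▸ hb, h2⟩

/-- the good bricks are well inside the disc -/
theorem gd_ball {U : Set Bk} (hU : ∀ b ∈ U, b ∈ Gd A x0 L s) {z : ℂ} (hz : z ∈ Pg s (cells U)) :
    ‖z - x0‖ ≤ L - 2 * s := by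
  obtain ⟨b, hb, h⟩ := mem_pg.1 hz
  exact (hU b hb b (Or.inl rfl)).1 z h

/-- boundary data from the layer -/
theorem bd_of (hS : Stg S A x0 L d s) {l : V → V → ZMod 3} (hl : Lay S A x0 L d s C l A')
    (hC : COMP) {U : Finset Bk} (hU : Cm A x0 L s U) {X : Set ℂ} (hX : CtrX S A' X)
    (hXU : ∀ x ∈ X, x ∈ Vu S d s U) {N : ℕ} {v : ℕ → V} (hv : Cyc (cells (U : Set Bk)) N v) :
    Bd S A' d s U l N v := by
  obtain ⟨h1, h2, h3⟩ := (hC S A x0 L d s hS).1 U hU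
  have lab : ∀ i, ∀ x ∈ A' i, (∃ v ∈ Vu S d s U, Adj S x v) →
      ∃ k, l (v k) (v (k + 1)) = i ∧ Metric.infDist x (ed s (v k) (v (k + 1))) ≤ s / 8 := by
    rintro i x hx ⟨w, hw, hxw⟩
    obtain ⟨a, b, hd, hi, hd'⟩ := hl.lab i x hx ⟨w, h1 w hw, hxw⟩
    obtain ⟨ha, hb, hc⟩ := h3 w hw x hxw a b hd hd'
    obtain ⟨k, -, rfl, rfl⟩ := hv.all a b ha hb hc
    exact ⟨k, hi, hd'⟩
  refine ⟨hv, lab, fun i => ?_⟩
  obtain ⟨x, hx, y, hy, hxy⟩ := hX.2.2 i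
  obtain ⟨k, hk, -⟩ := lab i y hy ⟨x, hXU x hx, hxy.symm⟩
  exact ⟨k, hk⟩

/-- **assembly of (K7)** -/
theorem k7_of (hL : LAYER) (hG : GRID) (hC : COMP) (hX : CENT) (hT : THR) (hM : MARK) : K7 := by
  obtain ⟨C, hC1, lay⟩ := hL
  obtain ⟨C', hC'1, cent⟩ := hX C hC1
  refine ⟨max C C', hC1.trans (le_max_left _ _), fun S A x0 L d n hS => ?_⟩
  have hs : (0 : ℝ) < (1 / 2) ^ n := by positivity
  obtain ⟨l, A', hl⟩ := lay S A x0 L d _ hS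
  rcases cent S A A' x0 L d _ l hS hl with ⟨p, hp⟩ | ⟨noT, X, hX, hXV, hXY⟩
  · exact Or.inl ⟨p, SmC.mono hp (mul_le_mul_of_nonneg_right (le_max_right _ _) hs.le)⟩
  right
  obtain ⟨x, hx, -⟩ := hX.2.2 0
  obtain ⟨b, hb, hbU⟩ := (hC S A x0 L d _ hS).2 x (hXV x hx)
  obtain ⟨U, hU, hbU'⟩ := hG S A x0 L d _ hS b hb
  have hxU := hbU U hU hbU'
  obtain ⟨c1, c2, -⟩ := (hC S A x0 L d _ hS).1 U hU
  have hXU : ∀ y ∈ X, y ∈ Vu S d ((1 / 2) ^ n) U := by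
    intro y hy
    refine (hX.2.1 x hx y hy).ind (P := fun y => y ∈ Vu S d ((1 / 2) ^ n) U) hxU ?_
    intro a b _ hb hab ha
    exact c2 a ha b (hXV b hb) hab
  obtain ⟨N, v, hv⟩ := cyc_brick U.finite_toSet hU.ne hU.con hU.con'
  have hbd := bd_of hS hl hC hU hX hXU hv
  obtain ⟨k, k01, k12, k20, l0, l1, l2⟩ := hT S A A' x0 L d _ C l U N v hC1 hS hl hU hbd
  let u : Poly := ⟨n, U, N, v, k, hU.con, hU.con', hv, k01, k12, k20⟩
  have hVu : Vin S u.P d = Vu S d ((1 / 2) ^ n) U := rfl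
  refine ⟨u, A', rfl, ?_⟩
  refine ⟨?_, hl.tr, hl.sub, fun j => ?_, fun w hw => ?_, fun w hw w' hw' h => ?_, noT,
    ⟨X, hX, hXU, hXY⟩, ?_⟩
  · intro z hz
    rw [mem_closedBall_iff_norm]
    exact gd_ball hU.sub hz
  · exact ThF.mono (hl.thin j) (mul_le_mul_of_nonneg_right (le_max_left _ _) hs.le)
  · rw [hl.fr]
    exact c1 w hw
  · rw [hl.fr] at hw'
    exact c2 w hw w' hw' h
  · exact hM S A A' x0 L d _ C l u hC1 rfl hS hl hU hbd l0 l1 l2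

end Crest.Agent.R143.K7x359
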