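import Crest.Agent.R143.VisD_877
import Crest.Agent.R143.VisE_377
import Crest.Agent.R143.K7_359
import Crest.Agent.R143.Comp_66
import Crest.Agent.R143.FinD_894

/-!
# Row 143 (S0194): block CONT, composition (helper877)

`contB`, `contD` : CONT (frozen form) from `HarmOne`, `PG` and the leaves `LAYER`, `GRID`, `CENT`,
`THR`, `MARK` of (K7); `leaf_of` : the row.
-/

set_option autoImplicit false

noncomputable section

namespace Crest.Agent.R143.ContFx877

open Crest.Agent.R143.K7Dx359 Crest.Agent.R143.VisDx877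
open Crest.Agent.R143.PolyUx346 (Poly)

theorem k7 (hL : LAYER) (hG : GRID) (hX : CENT) (hT : THR) (hM : MARK) : K7 :=
  Crest.Agent.R143.K7x359.k7_of hL hG Compx66.comp hX hT hM

theorem contB (h1 : HarmSx496.HarmOne) (hP : PG) (hK : K7) : FinCx894.ContB :=
  Mabx377.cont_we_det FinDx894.adP_ad h1 (detv_id hK hP)

theorem contD (h1 : HarmSx496.HarmOne) (hP : PG) (hK : K7) : FinCx894.ContD :=
  Mabx377.cont_wd_det FinDx894.adP_ad h1 (detv_conj hK hP)

/-- **the row from `HarmOne`, `PG`, `K7`, `RIGP`** -/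
theorem leaf_of (h1 : HarmSx496.HarmOne) (hP : PG) (hK : K7)
    (hR : PolyQx854.RIGP Poly.T RelPx62.Dk) : Finx894.Leaf894 :=
  FinCx894.leaf_frozen (contB h1 hP hK) (contD h1 hP hK) (FinDx894.rig_of hR)

end Crest.Agent.R143.ContFx877
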