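import Crest.Agent.R143.Har_315

/-!
# Row 143 (S0194): the probability half of CONT, free of any walker language (helper359)

`D` an exploration (`IsStop`) of the colours of `V`, `z β` a datum found by it (a point, a pair of
points ...), `Q i β` an event for the colours `β`:
* `fresh`  : `P(Q (z β) (β \ D β)) ≤ q` if `P(Q i β') ≤ q` for the fair colours of every `V' ⊆ V`
* `freshw` : the same for the fresh sites of the other colour
* `un_le` : union bound
-/

set_option autoImplicit false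

noncomputable section

open scoped Classical

namespace Crest.Agent.R143.ContPx359

open Finset
open Crest.Agent.R143.Harx315

section gen

variable {α ι : Type*} {V : Finset α} {D : Finset α → Finset α} {z : Finset α → ι}
  {Q : ι → Finset α → Prop} {A B : Finset α → Prop} {q : ℝ}

/-- the datum `z` is found by the exploration -/
def Found (V : Finset α) (D : Finset α → Finset α) (z : Finset α → ι) : Prop :=
  ∀ β β', β ⊆ V → β' ⊆ V → β ∩ D β = β' ∩ D β → z β' = z β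

theorem Found.self (hD : IsStop V D) : Found V D D := hD.stop

theorem Found.const (i : ι) : Found V D (fun _ => i) := fun _ _ _ _ _ => rfl

theorem Found.comp {κ : Type*} {f : ι → κ} (h : Found V D z) : Found V D (fun β => f (z β)) :=
  fun β β' h1 h2 h3 => by show f (z β') = f (z β); rw [h β β' h1 h2 h3]

theorem Found.pair {κ : Type*} {z' : Finset α → κ} (h : Found V D z) (h' : Found V D z') :
    Found V D (fun β => (z β, z' β)) :=
  fun β β' h1 h2 h3 => by
    show (z β', z' β') = (z β, z' β)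
    rw [h β β' h1 h2 h3, h' β β' h1 h2 h3]

/-- the colours on the explored set -/
theorem Found.col (hD : IsStop V D) : Found V D (fun β => β ∩ D β) := fun β β' h1 h2 h3 => by
  show β' ∩ D β' = β ∩ D β
  rw [hD.stop β β' h1 h2 h3, h3]

theorem Found.decided {P : ι → Prop} (h : Found V D z) : Decided V D (fun β => P (z β)) :=
  fun β β' h1 h2 h3 => by show P (z β) ↔ P (z β'); rw [h β β' h1 h2 h3]

theorem glue_sub {β0 β : Finset α} (hβ0 : β0 ⊆ V) (hβ : β ⊆ V \ D β0) :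
    β ∪ (β0 ∩ D β0) ⊆ V :=
  union_subset (hβ.trans sdiff_subset) (inter_subset_left.trans hβ0)

theorem glue_eq {β0 β : Finset α} (hβ : β ⊆ V \ D β0) :
    β0 ∩ D β0 = (β ∪ (β0 ∩ D β0)) ∩ D β0 := by
  ext x
  simp only [mem_inter, mem_union]
  constructor
  · rintro ⟨h1, h2⟩; exact ⟨Or.inr ⟨h1, h2⟩, h2⟩
  · rintro ⟨h1 | h1, h2⟩
    · exact absurd h2 (mem_sdiff.1 (hβ h1)).2
    · exact ⟨h1.1, h2⟩

theorem glue_sdiff {β0 β : Finset α} (hβ : β ⊆ V \ D β0) :
    (β ∪ (β0 ∩ D β0)) \ D β0 = β := by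
  ext x
  simp only [mem_sdiff, mem_union, mem_inter]
  constructor
  · rintro ⟨h1 | h1, h2⟩
    · exact h1
    · exact absurd h1.2 h2
  · intro h1
    exact ⟨Or.inl h1, (mem_sdiff.1 (hβ h1)).2⟩

theorem glue_sdiff' {β0 β : Finset α} (hβ : β ⊆ V \ D β0) :
    (V \ (β ∪ (β0 ∩ D β0))) \ D β0 = (V \ D β0) \ β := by
  ext x
  simp only [mem_sdiff, mem_union, mem_inter]
  constructor
  · rintro ⟨⟨h1, h2⟩, h3⟩
    exact ⟨⟨h1, h3⟩, fun h => h2 (Or.inl h)⟩
  · rintro ⟨⟨h1, h2⟩, h3⟩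
    refine ⟨⟨h1, ?_⟩, h2⟩
    rintro (h | h)
    · exact h3 h
    · exact h2 h.2

/-- **fresh sites**: an event for the colours off the explored set -/
theorem fresh (hD : IsStop V D) (hz : Found V D z) (hA : Decided V D A)
    (h : ∀ β ⊆ V, A β → ∀ V' ⊆ V, pr V' (Q (z β)) ≤ q) :
    pr V (fun β => A β ∧ Q (z β) (β \ D β)) ≤ q * pr V A := by
  refine stop_le' hD hA (B := fun β => Q (z β) (β \ D β)) ?_
  intro β0 hβ0 hA0
  refine le_trans (le_of_eq ?_) (h β0 hβ0 hA0 (V \ D β0) sdiff_subset)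
  apply pr_congr
  intro β hβ
  have h1 := glue_sub hβ0 hβ
  have h2 := glue_eq hβ
  show Q (z (β ∪ β0 ∩ D β0)) ((β ∪ β0 ∩ D β0) \ D (β ∪ β0 ∩ D β0)) ↔ Q (z β0) β
  rw [hz β0 _ hβ0 h1 h2, hD.stop β0 _ hβ0 h1 h2, glue_sdiff hβ]

/-- **fresh sites of the other colour** -/
theorem freshw (hD : IsStop V D) (hz : Found V D z) (hA : Decided V D A)
    (h : ∀ β ⊆ V, A β → ∀ V' ⊆ V, pr V' (Q (z β)) ≤ q) :
    pr V (fun β => A β ∧ Q (z β) ((V \ β) \ D β)) ≤ q * pr V A := by
  refine stop_le' hD hA (B := fun β => Q (z β) ((V \ β) \ D β)) ?_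
  intro β0 hβ0 hA0
  refine le_trans (le_of_eq ?_) (h β0 hβ0 hA0 (V \ D β0) sdiff_subset)
  rw [← pr_flip (V \ D β0) (Q (z β0))]
  apply pr_congr
  intro β hβ
  have h1 := glue_sub hβ0 hβ
  have h2 := glue_eq hβ
  show Q (z (β ∪ β0 ∩ D β0)) ((V \ (β ∪ β0 ∩ D β0)) \ D (β ∪ β0 ∩ D β0)) ↔
    Q (z β0) ((V \ D β0) \ β)
  rw [hz β0 _ hβ0 h1 h2, hD.stop β0 _ hβ0 h1 h2, glue_sdiff' hβ]

theorem le_one' (hq : 0 ≤ q) : q * pr V A ≤ q := by
  have := pr_le_one (V := V) (A := A)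
  nlinarith

/-- union bound over a finite set of events -/
theorem un_le {κ : Type*} (s : Finset κ) {E : κ → Finset α → Prop} {c : κ → ℝ}
    (hB : ∀ β ⊆ V, B β → ∃ k ∈ s, E k β) (hE : ∀ k ∈ s, pr V (E k) ≤ c k) :
    pr V B ≤ ∑ k ∈ s, c k := by
  exact (pr_mono (B := fun β => ∃ k ∈ s, E k β) hB).trans
    ((pr_exists_le s E).trans (sum_le_sum hE))

end gen

end Crest.Agent.R143.ContPx359
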