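import Crest.Agent.R143.Walk_137

/-!
# Row 143 (S0194): comparison of end points, deterministic part (helper137)

* `Pos` : positions of the ordinary cells, adjacent cells are `ρ₀`-close
* `Arm` : a chain of cells of `F` across an annulus
* `trap` : the walker is confined after it is close to the target, unless there is an arm of unseen
  cells
* `stepI` : the target is enlarged by a thin layer
* `stepII` : the white wall is enlarged by a thin layer
-/

set_option autoImplicit false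

noncomputable section

open scoped Classical

namespace Crest.Agent.R143.Contx137

open Crest.Agent.R143.Frame1x395 Crest.Agent.R143.Frame2x395 Crest.Agent.R143.Frame3x395
  Crest.Agent.R143.Frame8x395 Crest.Agent.R143.Frame11x395 Crest.Agent.R143.NonXx592
  Crest.Agent.R143.Coarsex166 Crest.Agent.R143.K33x137 Crest.Agent.R143.Walkx137

variable {D C : Type}

/-- dart of the third cell -/
def td (M : CMap D C) (c : C → ZMod 2) (r0 : D) (n : ℕ) : D :=
  M.rho (M.rho (P M (cfg M c) r0 n))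

/-- positions of the ordinary cells -/
structure Pos (M : CMap D C) (O : Set C) (pos : C → ℂ) (pd : D → ℂ) (ρ₀ : ℝ) : Prop where
  nn : 0 ≤ ρ₀
  eq : ∀ d, M.cell d ∈ O → pd d = pos (M.cell d)
  n1 : ∀ d, M.cell d ∈ O → ‖pd (M.rho d) - pd d‖ ≤ ρ₀
  n2 : ∀ d, M.cell d ∈ O → ‖pd (M.rho (M.rho d)) - pd d‖ ≤ ρ₀

/-- a chain of cells of `F` across an annulus -/
def Arm (M : CMap D C) (pos : C → ℂ) (F : Set C) (z : ℂ) (r R : ℝ) : Prop :=
  ∃ u ∈ F, ∃ v ∈ F, ‖pos u - z‖ ≤ r ∧ R ≤ ‖pos v - z‖ ∧ Lk M F u v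

/-- thin layer `L` at the wall `W` -/
def Thin (M : CMap D C) (pos : C → ℂ) (L W : Set C) (d : ℝ) : Prop :=
  ∀ l ∈ L, ∃ σ ⊆ L, l ∈ σ ∧ Cn M σ ∧ (∃ s ∈ σ, ∃ w ∈ W, Ed M s w) ∧
    ∀ s ∈ σ, ‖pos s - pos l‖ ≤ d

variable {M : CMap D C} {c : C → ZMod 2} {r0 : D} {A B G L : Set C} {pos : C → ℂ} {pd : D → ℂ}
  {ρ₀ d r R : ℝ}

theorem Arm.mono {F F' : Set C} {z : ℂ} {r' R' : ℝ} (h : Arm M pos F z r R) (hF : F ⊆ F')
    (hr : r ≤ r') (hR : R' ≤ R) : Arm M pos F' z r' R' := by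
  obtain ⟨u, hu, v, hv, h1, h2, h3⟩ := h
  exact ⟨u, hF hu, v, hF hv, h1.trans hr, hR.trans h2, h3.mono hF⟩

/-- ordinary cells -/
def Ord (A B G : Set C) : Set C := {x | x ∉ A ∧ x ∉ B ∧ x ∉ G}

theorem Pos.ed {O : Set C} (h : Pos M O pos pd ρ₀) {u v : C} (hu : u ∈ O) (hv : v ∈ O)
    (he : Ed M u v) : ‖pos v - pos u‖ ≤ ρ₀ := by
  obtain ⟨e, rfl, rfl⟩ := he
  rw [← h.eq _ hu, ← h.eq _ hv]
  exact h.n1 e hu

theorem Pos.td_l {O : Set C} (h : Pos M O pos pd ρ₀) {n : ℕ} (hn : lf M c r0 n ∈ O) :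
    ‖pd (td M c r0 n) - pos (lf M c r0 n)‖ ≤ ρ₀ := by
  rw [lf, ← h.eq _ hn]
  exact h.n2 _ hn

theorem Pos.td_r {O : Set C} (h : Pos M O pos pd ρ₀) {n : ℕ} (hn : rg M c r0 n ∈ O) :
    ‖pd (td M c r0 n) - pos (rg M c r0 n)‖ ≤ ρ₀ := by
  rw [rg, ← h.eq _ hn]
  exact h.n1 _ hn

theorem ord_lf (h : Rt M c r0 A B G) {n : ℕ} (hn : n ≤ tau M c r0 G) (hA : lf M c r0 n ∉ A) :
    lf M c r0 n ∈ Ord A B G := by
  refine ⟨hA, fun hB => ?_, h.lfG hn⟩
  have h1 := h.cB _ hB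
  rw [c_lf h.st] at h1
  exact absurd h1 (by decide)

theorem ord_rg (h : Rt M c r0 A B G) {n : ℕ} (hn : n ≤ tau M c r0 G) (hB : rg M c r0 n ∉ B) :
    rg M c r0 n ∈ Ord A B G := by
  refine ⟨fun hA => ?_, hB, h.rgG hn⟩
  have h1 := h.cA _ hA
  rw [c_rg h.st] at h1
  exact absurd h1 (by decide)

/-- the last time `≤ m` with `p` -/
theorem last_time {p : ℕ → Prop} {m k : ℕ} (hk : k ≤ m) (hp : p k) :
    ∃ j, j ≤ m ∧ p j ∧ ∀ i, j < i → i ≤ m → ¬ p i :=
  ⟨Nat.findGreatest p m, Nat.findGreatest_le m, Nat.findGreatest_spec hk hp,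
    fun _ h1 h2 => Nat.findGreatest_is_greatest h1 h2⟩

/-- the cells of the state are far from `z` -/
def Far (M : CMap D C) (c : C → ZMod 2) (r0 : D) (O : Set C) (pos : C → ℂ) (z : ℂ) (R : ℝ)
    (m : ℕ) : Prop :=
  (lf M c r0 m ∈ O → R ≤ ‖pos (lf M c r0 m) - z‖) ∧
    (rg M c r0 m ∈ O → R ≤ ‖pos (rg M c r0 m) - z‖)

/-- unseen cells of colour `b` -/
def Un (M : CMap D C) (c : C → ZMod 2) (r0 : D) (O L : Set C) (m : ℕ) (b : ZMod 2) : Set C :=
  {x | x ∈ O ∧ x ∉ sl M c r0 0 m ∧ x ∉ sr M c r0 0 m ∧ x ∉ L ∧ c x = b}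

theorem trap [Finite D] (h : Rt M c r0 A B G) (hP : Pos M (Ord A B G) pos pd ρ₀)
    {α β γ : Set C} (hT : T3 M α β γ) {m₀ m : ℕ} (hm : m₀ < m) (hmT : m ≤ tau M c r0 G)
    (hα : ∀ k ≤ m₀, lf M c r0 k ∈ α) (hβ : ∀ k ≤ m₀, rg M c r0 k ∈ β) (hA : A ⊆ α) (hB : B ⊆ β)
    (hcα : ∀ x ∈ α, c x = 1) (hcβ : ∀ x ∈ β, c x = 0)
    (hth : th M c r0 m₀ ∈ γ) (hG : G ⊆ γ) {z : ℂ} (hrR : r < R)
    (hγ : ∀ s ∈ γ, s ∉ G → s ∈ Ord A B G ∧ ‖pos s - z‖ ≤ r)
    (hL0 : ∀ x ∈ L, c x = 0) (hL : ∀ x ∈ L, x ∈ β ∨ ‖pos x - z‖ ≤ r)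
    (hfar : Far M c r0 (Ord A B G) pos z R m) :
    Arm M pos (Un M c r0 (Ord A B G) L m₀ 1) z (r + ρ₀) R ∨
      Arm M pos (Un M c r0 (Ord A B G) L m₀ 0) z (r + ρ₀) R := by
  obtain ⟨j₁, a1, a2, a3⟩ := last_time
    (p := fun i => lf M c r0 i ∈ α ∨ (lf M c r0 i ∈ Ord A B G ∧ ‖pos (lf M c r0 i) - z‖ ≤ r))
    hm.le (Or.inl (hα m₀ le_rfl))
  obtain ⟨j₂, b1, b2, b3⟩ := last_time
    (p := fun i => rg M c r0 i ∈ β ∨ (rg M c r0 i ∈ Ord A B G ∧ ‖pos (rg M c r0 i) - z‖ ≤ r))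
    hm.le (Or.inl (hβ m₀ le_rfl))
  have lO : ∀ k, k ≤ m → lf M c r0 k ∉ α → lf M c r0 k ∈ Ord A B G := fun k hk hc =>
    ord_lf h (hk.trans hmT) fun hc' => hc (hA hc')
  have rO : ∀ k, k ≤ m → rg M c r0 k ∉ β → rg M c r0 k ∈ Ord A B G := fun k hk hc =>
    ord_rg h (hk.trans hmT) fun hc' => hc (hB hc')
  by_cases hl : lf M c r0 j₁ ∈ α
  swap
  · -- black arm
    left
    have key : ∀ k, j₁ ≤ k → k ≤ m → lf M c r0 k ∈ Un M c r0 (Ord A B G) L m₀ 1 := by
      intro k h1 h2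
      have hk : lf M c r0 k ∉ α := by
        rcases h1.lt_or_eq with h3 | rfl
        · exact fun h4 => a3 k h3 h2 (Or.inl h4)
        · exact hl
      refine ⟨lO k h2 hk, ?_, ?_, ?_, c_lf h.st k⟩
      · rintro ⟨i, -, h3, e⟩
        exact hk (e ▸ hα i h3)
      · rintro ⟨i, -, -, e⟩
        have := c_lf h.st k
        rw [← e, c_rg h.st] at this
        exact absurd this (by decide)
      · intro h3
        have := hL0 _ h3
        rw [c_lf h.st] at this
        exact absurd this (by decide)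
    refine ⟨lf M c r0 j₁, key j₁ le_rfl a1, lf M c r0 m, key m a1 le_rfl, ?_, ?_, ?_⟩
    · rcases a2 with h1 | h1
      · exact absurd h1 hl
      · linarith [h1.2, hP.nn]
    · exact hfar.1 (key m a1 le_rfl).1
    · exact chain_lf h.st a1 key
  by_cases hr : rg M c r0 j₂ ∈ β
  swap
  · -- white arm
    right
    have hn := b2.resolve_left hr
    have key : ∀ k, j₂ < k → k ≤ m → rg M c r0 k ∈ Un M c r0 (Ord A B G) L m₀ 0 := by
      intro k h1 h2
      have hk : rg M c r0 k ∉ β := fun h4 => b3 k h1 h2 (Or.inl h4)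
      refine ⟨rO k h2 hk, ?_, ?_, ?_, c_rg h.st k⟩
      · rintro ⟨i, -, -, e⟩
        have := c_rg h.st k
        rw [← e, c_lf h.st] at this
        exact absurd this (by decide)
      · rintro ⟨i, -, h3, e⟩
        exact hk (e ▸ hβ i h3)
      · intro h3
        rcases hL _ h3 with h4 | h4
        · exact hk h4
        · exact b3 k h1 h2 (Or.inr ⟨rO k h2 hk, h4⟩)
    have hlt : j₂ < m := by
      rcases b1.lt_or_eq with h1 | rfl
      · exact h1
      · linarith [hfar.2 hn.1, hn.2]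
    refine ⟨rg M c r0 (j₂ + 1), key _ (by omega) (by omega), rg M c r0 m, key m hlt le_rfl, ?_, ?_, ?_⟩
    · have h5 : ‖pos (rg M c r0 (j₂ + 1)) - pos (rg M c r0 j₂)‖ ≤ ρ₀ := by
        rcases ed_rg h.st j₂ with h6 | h6
        · rw [← h6, sub_self, norm_zero]; exact hP.nn
        · exact hP.ed hn.1 (key _ (by omega) (by omega)).1 h6
      have h7 : pos (rg M c r0 (j₂ + 1)) - z = (pos (rg M c r0 j₂) - z) +
        (pos (rg M c r0 (j₂ + 1)) - pos (rg M c r0 j₂)) := by ring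
      rw [h7]
      refine (norm_add_le _ _).trans ?_
      linarith [hn.2]
    · exact hfar.2 (key m hlt le_rfl).1
    · exact chain_rg h.st (by omega) fun k h1 h2 => key k (by omega) h2
  · exfalso
    refine conf h hT hm hmT hα hβ hth hG a1 b1 hl hr ?_ ?_
    · intro k h1 h2
      have hk : lf M c r0 k ∉ α := fun h4 => a3 k h1 h2 (Or.inl h4)
      refine ⟨fun h4 => ?_, fun h4 => ?_⟩
      · have := hcβ _ h4
        rw [c_lf h.st] at this
        exact absurd this (by decide)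
      · exact a3 k h1 h2 (Or.inr (hγ _ h4 (h.lfG (h2.trans hmT))))
    · intro k h1 h2
      refine ⟨fun h4 => ?_, fun h4 => ?_⟩
      · have := hcα _ h4
        rw [c_rg h.st] at this
        exact absurd this (by decide)
      · exact b3 k h1 h2 (Or.inr (hγ _ h4 (h.rgG (h2.trans hmT))))

/-- a state which is not far : the third dart is close -/
theorem near_of_not_far (_h : Rt M c r0 A B G) (hP : Pos M (Ord A B G) pos pd ρ₀) {z : ℂ} {m : ℕ}
    (hf : ¬ Far M c r0 (Ord A B G) pos z R m) :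
    ‖pd (td M c r0 m) - z‖ ≤ R + ρ₀ ∧ (rg M c r0 m ∈ Ord A B G → ‖pos (rg M c r0 m) - z‖ ≤ R + ρ₀) := by
  unfold Far at hf
  have tri : ∀ {a b : ℂ}, ‖a - b‖ ≤ ρ₀ → ‖b - z‖ < R → ‖a - z‖ ≤ R + ρ₀ := by
    intro a b h1 h2
    have : a - z = (a - b) + (b - z) := by ring
    rw [this]
    refine (norm_add_le _ _).trans ?_
    linarith
  by_cases h1 : lf M c r0 m ∈ Ord A B G → R ≤ ‖pos (lf M c r0 m) - z‖
  · have h2 : ¬ (rg M c r0 m ∈ Ord A B G → R ≤ ‖pos (rg M c r0 m) - z‖) := fun h2 => hf ⟨h1, h2⟩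
    push Not at h2
    exact ⟨tri (hP.td_r h2.1) h2.2, fun _ => by linarith [h2.2, hP.nn]⟩
  · push Not at h1
    exact ⟨tri (hP.td_l h1.1) h1.2, fun h2 => tri (hP.ed h1.1 h2 (ed_lr m)) h1.2⟩

/-! ### step I : the target is enlarged -/

theorem tau_mono [Finite D] (h : Rt M c r0 A B G) (L : Set C) :
    tau M c r0 (G ∪ L) ≤ tau M c r0 G := tau_le (Or.inl h.th_tau)

theorem cn_base {S : Set C} (hS : Cn M S) {σ : Set C} (hσ : Cn M σ)
    (h : ∃ s ∈ σ, ∃ w ∈ S, Ed M s w) : Cn M (S ∪ σ) := by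
  obtain ⟨s, hs, w, hw, he⟩ := h
  exact hS.union hσ hw hs (Or.inr he.symm)

theorem stepI [Finite D] (h : Rt M c r0 A B G) (hP : Pos M (Ord A B G) pos pd ρ₀)
    (hLO : L ⊆ Ord A B G) (hthin : Thin M pos L G d) (hdR : d < R)
    (hno1 : ¬ Arm M pos (Un M c r0 (Ord A B G) ∅ (tau M c r0 (G ∪ L)) 1)
      (pos (th M c r0 (tau M c r0 (G ∪ L)))) (d + ρ₀) R)
    (hno0 : ¬ Arm M pos (Un M c r0 (Ord A B G) ∅ (tau M c r0 (G ∪ L)) 0)
      (pos (th M c r0 (tau M c r0 (G ∪ L)))) (d + ρ₀) R) (hR0 : 0 ≤ R) :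
    ‖pd (td M c r0 (tau M c r0 G)) - pd (td M c r0 (tau M c r0 (G ∪ L)))‖ ≤ R + ρ₀ := by
  set T' := tau M c r0 (G ∪ L) with hT'
  set T := tau M c r0 G with hT
  have hle : T' ≤ T := tau_mono h L
  have hmem : th M c r0 T' ∈ G ∪ L := by
    have : ∃ n, th M c r0 n ∈ G ∪ L := ⟨T, Or.inl h.th_tau⟩
    exact Nat.sInf_mem (s := {n | th M c r0 n ∈ G ∪ L}) this
  by_cases hu : th M c r0 T' ∈ G
  · have : T = T' := le_antisymm (tau_le hu) hle
    rw [this, sub_self, norm_zero]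
    linarith [hP.nn]
  have huL : th M c r0 T' ∈ L := hmem.resolve_left hu
  have hlt : T' < T := by
    rcases hle.lt_or_eq with h1 | h1
    · exact h1
    · exact absurd (h1 ▸ h.th_tau) hu
  obtain ⟨σ, s1, s2, s3, s4, s5⟩ := hthin _ huL
  -- the old cells are not in the layer
  have nL : ∀ k ≤ T', lf M c r0 k ∉ L ∧ rg M c r0 k ∉ L := by
    intro k
    induction k with
    | zero =>
      intro _
      exact ⟨fun hc => (hLO hc).1 h.l0, fun hc => (hLO hc).2.1 h.r0'⟩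
    | succ k ih =>
      intro hk
      obtain ⟨i1, i2⟩ := ih (by omega)
      have h3 : th M c r0 k ∉ L := fun hc => tau_notMem (G := G ∪ L) (n := k) (by omega) (Or.inr hc)
      rcases succ_cases h.st k with ⟨-, h1, h2, -⟩ | ⟨-, h1, h2, -⟩
      · rw [h1, h2]; exact ⟨h3, i2⟩
      · rw [h1, h2]; exact ⟨i1, h3⟩
  have hab := Set.disjoint_left.1 h.t.ab
  have hac := Set.disjoint_left.1 h.t.ac
  have hbc := Set.disjoint_left.1 h.t.bc
  have cα : ∀ x ∈ A ∪ sl M c r0 0 T', c x = 1 := by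
    rintro x (hx | hx)
    · exact h.cA x hx
    · exact c_sl h.st hx
  have cβ : ∀ x ∈ B ∪ sr M c r0 0 T', c x = 0 := by
    rintro x (hx | hx)
    · exact h.cB x hx
    · exact c_sr h.st hx
  have hT3 : T3 M (A ∪ sl M c r0 0 T') (B ∪ sr M c r0 0 T') (G ∪ σ) := by
    refine ⟨cn_add_sl h.st h.t.ca (Nat.zero_le _) h.l0, cn_add_sr h.st h.t.cb (Nat.zero_le _) h.r0',
      cn_base h.t.cc s3 s4, ?_, ?_, ?_⟩
    · rw [Set.disjoint_left]
      intro x hx hy
      have := cα x hx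
      rw [cβ x hy] at this
      exact absurd this (by decide)
    · rw [Set.disjoint_left]
      rintro x (hx | hx) (hy | hy)
      · exact hac hx hy
      · exact (hLO (s1 hy)).1 hx
      · obtain ⟨k, -, k2, rfl⟩ := hx
        exact h.lfG (k2.trans hle) hy
      · obtain ⟨k, -, k2, rfl⟩ := hx
        exact (nL k k2).1 (s1 hy)
    · rw [Set.disjoint_left]
      rintro x (hx | hx) (hy | hy)
      · exact hbc hx hy
      · exact (hLO (s1 hy)).2.1 hx
      · obtain ⟨k, -, k2, rfl⟩ := hx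
        exact h.rgG (k2.trans hle) hy
      · obtain ⟨k, -, k2, rfl⟩ := hx
        exact (nL k k2).2 (s1 hy)
  have hnf : ¬ Far M c r0 (Ord A B G) pos (pos (th M c r0 T')) R T := by
    intro hfar
    rcases trap h hP hT3 hlt le_rfl (fun k hk => Or.inr (lf_mem (Nat.zero_le _) hk))
      (fun k hk => Or.inr (rg_mem (Nat.zero_le _) hk)) Set.subset_union_left Set.subset_union_left
      cα cβ (Or.inr s2) Set.subset_union_left hdR
      (fun s hs hsG => ⟨hLO (s1 (hs.resolve_left hsG)), s5 s (hs.resolve_left hsG)⟩)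
      (L := ∅) (fun x hx => absurd hx (Set.notMem_empty x)) (fun x hx => absurd hx (Set.notMem_empty x))
      hfar with h1 | h1
    · exact hno1 h1
    · exact hno0 h1
  have e1 : pd (td M c r0 T') = pos (th M c r0 T') := hP.eq _ (hLO huL)
  rw [e1]
  exact (near_of_not_far h hP hnf).1

/-! ### step II : the white wall is enlarged -/

/-- in a connected set: a connected part which joins `p` to a cell of `S`, with only one cell of `S` -/
theorem first_seen {Q S : Set C} (hQ : Cn M Q) {p v : C} (hp : p ∈ Q) (hv : v ∈ Q) (hvS : v ∈ S) :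
    ∃ v' ∈ Q, v' ∈ S ∧ ∃ E ⊆ Q, Cn M E ∧ v' ∈ E ∧ p ∈ E ∧ ∀ e ∈ E, e ∈ S → e = v' := by
  by_cases hpS : p ∈ S
  · refine ⟨p, hp, hpS, {p}, Set.singleton_subset_iff.2 hp, ?_, rfl, rfl, fun e he _ => he⟩
    rintro a rfl b rfl
    exact Relation.EqvGen.refl _
  set E₀ : Set C := {q | q ∈ Q ∧ q ∉ S ∧ Lk M {x | x ∈ Q ∧ x ∉ S} p q} with hE₀
  have hpE : p ∈ E₀ := ⟨hp, hpS, Relation.EqvGen.refl _⟩
  have hsub : Lk M {x | x ∈ Q ∧ x ∉ S} ≤ Lk M {x | x ∈ Q ∧ x ∉ S} := le_rfl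
  -- inside `E₀`
  have hin : ∀ q ∈ E₀, Lk M E₀ p q := by
    have key : ∀ a b, Lk M {x | x ∈ Q ∧ x ∉ S} a b → (a ∈ E₀ ↔ b ∈ E₀) ∧ (a ∈ E₀ → Lk M E₀ a b) := by
      intro a b hab
      induction hab with
      | rel a b h =>
        have h1 : a ∈ E₀ ↔ b ∈ E₀ := by
          constructor
          · rintro ⟨-, -, h3⟩
            exact ⟨h.2.1.1, h.2.1.2, h3.trans' (Relation.EqvGen.rel _ _ h)⟩
          · rintro ⟨-, -, h3⟩
            exact ⟨h.1.1, h.1.2, h3.trans' (Relation.EqvGen.symm _ _ (Relation.EqvGen.rel _ _ h))⟩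
        exact ⟨h1, fun ha => Lk.edge ha (h1.1 ha) h.2.2⟩
      | refl a => exact ⟨Iff.rfl, fun _ => Relation.EqvGen.refl _⟩
      | symm a b _ ih => exact ⟨ih.1.symm, fun hb => Relation.EqvGen.symm _ _ (ih.2 (ih.1.2 hb))⟩
      | trans a b e _ _ ih1 ih2 =>
        exact ⟨ih1.1.trans ih2.1, fun ha => (ih1.2 ha).trans' (ih2.2 (ih1.1.1 ha))⟩
    intro q hq
    exact (key p q hq.2.2).2 hpE
  have hcn : Cn M E₀ := fun a ha b hb =>
    Lk.trans' (Relation.EqvGen.symm _ _ (hin a ha)) (hin b hb)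
  -- an edge to `S`
  have hedge : ∃ q ∈ E₀, ∃ v' ∈ Q, v' ∈ S ∧ Ed M q v' := by
    by_contra hcon
    push Not at hcon
    have key : ∀ a b, Lk M Q a b → (a ∈ E₀ ↔ b ∈ E₀) := by
      intro a b hab
      induction hab with
      | rel a b h =>
        have one : ∀ a b, a ∈ Q → b ∈ Q → Ed M a b → a ∈ E₀ → b ∈ E₀ := by
          intro a b ha hb he haE
          have hbS : b ∉ S := fun hbS => hcon a haE b hb hbS he
          exact ⟨hb, hbS, haE.2.2.trans' (Lk.edge ⟨ha, haE.2.1⟩ ⟨hb, hbS⟩ he)⟩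
        exact ⟨one a b h.1 h.2.1 h.2.2, one b a h.2.1 h.1 h.2.2.symm⟩
      | refl a => exact Iff.rfl
      | symm a b _ ih => exact ih.symm
      | trans a b e _ _ ih1 ih2 => exact ih1.trans ih2
    exact ((key p v (hQ p hp v hv)).1 hpE).2.1 hvS
  obtain ⟨q, hq, v', hv'Q, hv'S, he⟩ := hedge
  refine ⟨v', hv'Q, hv'S, E₀ ∪ {v'}, ?_, ?_, Or.inr rfl, Or.inl hpE, ?_⟩
  · rintro x (hx | rfl)
    · exact hx.1
    · exact hv'Q
  · refine hcn.union ?_ hq rfl (Or.inr he)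
    rintro a rfl b rfl
    exact Relation.EqvGen.refl _
  · rintro e (he | rfl) heS
    · exact absurd heS he.2.1
    · rfl

/-- base set plus a family of connected sets which are adjacent to it -/
theorem cn_family {S : Set C} (hS : Cn M S) {b : C} (hb : b ∈ S) {I : Type} (F : I → Set C)
    (hF : ∀ i, Cn M (F i)) (hE : ∀ i, ∃ s ∈ F i, ∃ w ∈ S, Ed M s w) :
    Cn M (S ∪ ⋃ i, F i) := by
  have key : ∀ x ∈ S ∪ ⋃ i, F i, Lk M (S ∪ ⋃ i, F i) b x := by
    rintro x (hx | hx)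
    · exact (hS b hb x hx).mono Set.subset_union_left
    · obtain ⟨i, hi⟩ := Set.mem_iUnion.1 hx
      refine (cn_base hS (hF i) (hE i) b (Or.inl hb) x (Or.inr hi)).mono ?_
      exact Set.union_subset_union_right _ (Set.subset_iUnion F i)
  intro x hx y hy
  exact Lk.trans' (Relation.EqvGen.symm _ _ (key x hx)) (key y hy)

/-- at time `m` the third cell is in the layer and close to the target through unseen cells -/
def Close (M : CMap D C) (c : C → ZMod 2) (r0 : D) (A B G L : Set C) (pos : C → ℂ) (r : ℝ)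
    (m : ℕ) : Prop :=
  th M c r0 m ∈ L ∧ ∃ σ, th M c r0 m ∈ σ ∧ σ ⊆ Ord A B G ∧ Cn M σ ∧
    (∃ s ∈ σ, ∃ g ∈ G, Ed M s g) ∧ (∀ s ∈ σ, s ∉ sl M c r0 0 m ∧ s ∉ sr M c r0 0 m) ∧
    ∀ s ∈ σ, ‖pos s - pos (th M c r0 m)‖ ≤ r

/-- first time at which the walker is close to the target -/
def tc (M : CMap D C) (c : C → ZMod 2) (r0 : D) (A B G L : Set C) (pos : C → ℂ) (r : ℝ) : ℕ :=
  sInf {m | Close M c r0 A B G L pos r m}

/-- last time before the end with the right cell in the enlarged white wall -/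
def tv (M : CMap D C) (c : C → ZMod 2) (r0 : D) (B G L : Set C) : ℕ :=
  Nat.findGreatest (fun j => rg M c r0 j ∈ B ∪ L) (tau M c r0 G)

/-- confinement after the first time at which the walker is close to the target -/
theorem close_conf [Finite D] (h : Rt M c r0 A B G) (hP : Pos M (Ord A B G) pos pd ρ₀)
    (hLO : L ⊆ Ord A B G) (hthin : Thin M pos L B d) (hd : 0 ≤ d) (hL0 : ∀ x ∈ L, c x = 0)
    (hrR : r + d < R) {m₀ m : ℕ} (hcl : Close M c r0 A B G L pos r m₀) (hm : m₀ < m)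
    (hmT : m ≤ tau M c r0 G)
    (hno1 : ¬ Arm M pos (Un M c r0 (Ord A B G) L m₀ 1) (pos (th M c r0 m₀)) (r + d + ρ₀) R)
    (hno0 : ¬ Arm M pos (Un M c r0 (Ord A B G) L m₀ 0) (pos (th M c r0 m₀)) (r + d + ρ₀) R) :
    ¬ Far M c r0 (Ord A B G) pos (pos (th M c r0 m₀)) R m := by
  intro hfar
  obtain ⟨-, σ, s1, s2, s3, s4, s5, s6⟩ := hcl
  set z := pos (th M c r0 m₀) with hz
  choose! F f1 f2 f3 f4 f5 using hthin
  set I := {l : C // l ∈ L ∧ r + d < ‖pos l - z‖} with hI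
  set LF : Set C := ⋃ i : I, F i.1 with hLF
  have LFL : LF ⊆ L := by
    intro x hx
    obtain ⟨i, hi⟩ := Set.mem_iUnion.1 hx
    exact f1 i.1 i.2.1 hi
  have LFf : ∀ x ∈ LF, r < ‖pos x - z‖ := by
    intro x hx
    obtain ⟨i, hi⟩ := Set.mem_iUnion.1 hx
    have h1 := f5 i.1 i.2.1 x hi
    have h2 := i.2.2
    have h3 : ‖pos i.1 - z‖ ≤ ‖pos x - z‖ + ‖pos x - pos i.1‖ := by
      have : pos i.1 - z = (pos x - z) - (pos x - pos i.1) := by ring
      rw [this]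
      exact norm_sub_le _ _
    linarith
  have hac := Set.disjoint_left.1 h.t.ac
  have hbc := Set.disjoint_left.1 h.t.bc
  have m0T : m₀ ≤ tau M c r0 G := hm.le.trans hmT
  have cα : ∀ x ∈ A ∪ sl M c r0 0 m₀, c x = 1 := by
    rintro x (hx | hx)
    · exact h.cA x hx
    · exact c_sl h.st hx
  have cβ : ∀ x ∈ (B ∪ sr M c r0 0 m₀) ∪ LF, c x = 0 := by
    rintro x ((hx | hx) | hx)
    · exact h.cB x hx
    · exact c_sr h.st hx
    · exact hL0 x (LFL hx)
  have hT3 : T3 M (A ∪ sl M c r0 0 m₀) ((B ∪ sr M c r0 0 m₀) ∪ LF) (G ∪ σ) := by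
    refine ⟨cn_add_sl h.st h.t.ca (Nat.zero_le _) h.l0, ?_, cn_base h.t.cc s3 s4, ?_, ?_, ?_⟩
    · refine cn_family (cn_add_sr h.st h.t.cb (Nat.zero_le _) h.r0') (Or.inl h.r0') _
        (fun i => f3 i.1 i.2.1) fun i => ?_
      obtain ⟨s, hs, w, hw, he⟩ := f4 i.1 i.2.1
      exact ⟨s, hs, w, Or.inl hw, he⟩
    · rw [Set.disjoint_left]
      intro x hx hy
      have := cα x hx
      rw [cβ x hy] at this
      exact absurd this (by decide)
    · rw [Set.disjoint_left]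
      rintro x (hx | hx) (hy | hy)
      · exact hac hx hy
      · exact (s2 hy).1 hx
      · obtain ⟨k, -, k2, rfl⟩ := hx
        exact h.lfG (k2.trans m0T) hy
      · exact (s5 x hy).1 hx
    · rw [Set.disjoint_left]
      rintro x ((hx | hx) | hx) (hy | hy)
      · exact hbc hx hy
      · exact (s2 hy).2.1 hx
      · obtain ⟨k, -, k2, rfl⟩ := hx
        exact h.rgG (k2.trans m0T) hy
      · exact (s5 x hy).2 hx
      · exact (hLO (LFL hx)).2.2 hy
      · exact absurd (s6 x hy) (not_le.2 (LFf x hx))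
  rcases trap h hP hT3 hm hmT (fun k hk => Or.inr (lf_mem (Nat.zero_le _) hk))
    (fun k hk => Or.inl (Or.inr (rg_mem (Nat.zero_le _) hk))) Set.subset_union_left
    (Set.subset_union_left.trans Set.subset_union_left) cα cβ (Or.inr s1) Set.subset_union_left hrR
    (fun s hs hsG => ⟨s2 (hs.resolve_left hsG), (s6 s (hs.resolve_left hsG)).trans (by linarith)⟩)
    hL0 (fun x hx => by
      by_cases h1 : ‖pos x - z‖ ≤ r + d
      · exact Or.inr h1
      · left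
        right
        exact Set.mem_iUnion.2 ⟨⟨x, hx, not_le.1 h1⟩, f2 x hx⟩) hfar with h1 | h1
  · exact hno1 h1
  · exact hno0 h1

/-- **step II**: `cp` = the colouring `c` with the layer `L` of the white wall `B` white -/
theorem stepII [Finite D] {cp : C → ZMod 2} (h : Rt M c r0 A B G) (hp : Rt M cp r0 A B G)
    (hP : Pos M (Ord A B G) pos pd ρ₀) (hLO : L ⊆ Ord A B G) (hthin : Thin M pos L B d)
    (hd : 0 ≤ d) (hL0 : ∀ x ∈ L, cp x = 0) (hE : ∀ x ∉ L, cp x = c x) (hdr : d ≤ r)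
    (hrR : 2 * r + d < R)
    (hnoA : ¬ Arm M pos {x | x ∈ Ord A B G ∧ (x ∈ L ∨ (x ∉ sl M cp r0 0 (tau M cp r0 G) ∧
      x ∉ sr M cp r0 0 (tau M cp r0 G))) ∧ c x = 1} (pos (rg M cp r0 (tv M cp r0 B G L))) d r)
    (hno1 : ¬ Arm M pos (Un M cp r0 (Ord A B G) L (tc M cp r0 A B G L pos (2 * r)) 1)
      (pos (th M cp r0 (tc M cp r0 A B G L pos (2 * r)))) (2 * r + d + ρ₀) R)
    (hno0 : ¬ Arm M pos (Un M cp r0 (Ord A B G) L (tc M cp r0 A B G L pos (2 * r)) 0)
      (pos (th M cp r0 (tc M cp r0 A B G L pos (2 * r)))) (2 * r + d + ρ₀) R) :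
    ‖pd (td M c r0 (tau M c r0 G)) - pd (td M cp r0 (tau M cp r0 G))‖ ≤
      2 * r + 2 * R + 3 * ρ₀ := by
  set T := tau M c r0 G with hT
  set Tp := tau M cp r0 G with hTp
  set jv := tv M cp r0 B G L with hjv
  set v := rg M cp r0 jv with hv
  have hr0 : 0 ≤ r := hd.trans hdr
  have hjT : jv ≤ Tp := Nat.findGreatest_le _
  have hvBL : v ∈ B ∪ L :=
    Nat.findGreatest_spec (P := fun j => rg M cp r0 j ∈ B ∪ L) (Nat.zero_le Tp) (Or.inl hp.r0')
  have hvmax : ∀ k, jv < k → k ≤ Tp → rg M cp r0 k ∉ B ∪ L := fun k h1 h2 =>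
    Nat.findGreatest_is_greatest (P := fun j => rg M cp r0 j ∈ B ∪ L) h1 h2
  have hac := Set.disjoint_left.1 h.t.ac
  have hbc := Set.disjoint_left.1 h.t.bc
  -- the chain in the layer
  obtain ⟨σ, s1, s2, s3, s4⟩ : ∃ σ ⊆ L, Cn M (B ∪ σ) ∧ v ∈ B ∪ σ ∧ ((∀ x, x ∉ σ) ∨
      (v ∈ σ ∧ Cn M σ ∧ ∀ s ∈ σ, ‖pos s - pos v‖ ≤ d)) := by
    by_cases hvL : v ∈ L
    · obtain ⟨σ, t1, t2, t3, t4, t5⟩ := hthin v hvL
      exact ⟨σ, t1, cn_base h.t.cb t3 t4, Or.inr t2, Or.inr ⟨t2, t3, t5⟩⟩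
    · refine ⟨∅, Set.empty_subset _, ?_, Or.inl (hvBL.resolve_right hvL),
        Or.inl fun x => Set.notMem_empty x⟩
      rw [Set.union_empty]; exact h.t.cb
  set α := A ∪ sl M cp r0 0 Tp with hα
  set β := (B ∪ σ) ∪ sr M cp r0 jv Tp with hβ
  have cpα : ∀ x ∈ α, cp x = 1 := by
    rintro x (hx | hx)
    · exact hp.cA x hx
    · exact c_sl hp.st hx
  have cα : ∀ x ∈ α, c x = 1 := by
    intro x hx
    have h1 := cpα x hx
    rw [← h1]
    refine (hE x fun hxL => ?_).symm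
    rw [hL0 x hxL] at h1
    exact absurd h1 (by decide)
  have cpβ : ∀ x ∈ β, cp x = 0 := by
    rintro x ((hx | hx) | hx)
    · exact hp.cB x hx
    · exact hL0 x (s1 hx)
    · exact c_sr hp.st hx
  have hCα : Cn M α := cn_add_sl hp.st h.t.ca (Nat.zero_le _) hp.l0
  have hCβ : Cn M β := cn_add_sr hp.st s2 hjT s3
  have hαG : ∀ x ∈ α, x ∉ G := by
    rintro x (hx | hx) hy
    · exact hac hx hy
    · obtain ⟨k, -, k2, rfl⟩ := hx
      exact hp.lfG k2 hy
  have hβG : ∀ x ∈ β, x ∉ G := by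
    rintro x ((hx | hx) | hx) hy
    · exact hbc hx hy
    · exact (hLO (s1 hx)).2.2 hy
    · obtain ⟨k, -, k2, rfl⟩ := hx
      exact hp.rgG k2 hy
  -- the last time with the left cell in the walls of `cp`
  obtain ⟨j₂, a1, a2, a3⟩ := last_time (p := fun i => lf M c r0 i ∈ α ∪ β) (Nat.zero_le T)
    (Or.inl (Or.inl h.l0))
  by_cases hl : lf M c r0 j₂ ∈ α
  · -- the same end
    have hT3 : T3 M (α ∪ sl M c r0 j₂ T) (β ∪ sr M c r0 0 T) G := by
      refine ⟨cn_add_sl h.st hCα a1 hl, cn_add_sr h.st hCβ (Nat.zero_le _) (Or.inl (Or.inl h.r0')),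
        h.t.cc, ?_, ?_, ?_⟩
      · rw [Set.disjoint_left]
        rintro x (hx | hx) (hy | hy)
        · have := cpα x hx
          rw [cpβ x hy] at this
          exact absurd this (by decide)
        · have := cα x hx
          rw [c_sr h.st hy] at this
          exact absurd this (by decide)
        · obtain ⟨k, k1, k2, rfl⟩ := hx
          rcases k1.lt_or_eq with k3 | rfl
          · exact a3 k k3 k2 (Or.inr hy)
          · have := cpα _ hl
            rw [cpβ _ hy] at this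
            exact absurd this (by decide)
        · have := c_sl h.st hx
          rw [c_sr h.st hy] at this
          exact absurd this (by decide)
      · rw [Set.disjoint_left]
        rintro x (hx | hx) hy
        · exact hαG x hx hy
        · obtain ⟨k, -, k2, rfl⟩ := hx
          exact h.lfG k2 hy
      · rw [Set.disjoint_left]
        rintro x (hx | hx) hy
        · exact hβG x hx hy
        · obtain ⟨k, -, k2, rfl⟩ := hx
          exact h.rgG k2 hy
    have t1 : Tri M (α ∪ sl M c r0 j₂ T) (β ∪ sr M c r0 0 T) G (P M (cfg M c) r0 T) :=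
      ⟨Or.inr (lf_mem a1 le_rfl), Or.inr (rg_mem (Nat.zero_le _) le_rfl), h.th_tau⟩
    have t2 : Tri M (α ∪ sl M c r0 j₂ T) (β ∪ sr M c r0 0 T) G (P M (cfg M cp) r0 Tp) :=
      ⟨Or.inl (Or.inr (lf_mem (Nat.zero_le _) le_rfl)), Or.inl (Or.inr (rg_mem hjT le_rfl)),
        hp.th_tau⟩
    have e : P M (cfg M c) r0 T = P M (cfg M cp) r0 Tp := k33 hT3 t1 t2
    have e' : td M c r0 T = td M cp r0 Tp := by
      unfold td
      rw [e]
    rw [e', sub_self, norm_zero]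
    have := hP.nn
    linarith
  -- the left chain comes from the layer
  have hlβ : lf M c r0 j₂ ∈ β := a2.resolve_left hl
  have hlσ : lf M c r0 j₂ ∈ σ := by
    have hc := c_lf h.st j₂
    rcases hlβ with (h1 | h1) | h1
    · rw [h.cB _ h1] at hc
      exact absurd hc (by decide)
    · exact h1
    · obtain ⟨k, k1, k2, e⟩ := h1
      rcases k1.lt_or_eq with k3 | rfl
      · exfalso
        have h2 := hvmax k k3 k2
        have h3 : lf M c r0 j₂ ∉ L := fun h4 => h2 (Or.inr (by rw [e]; exact h4))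
        have h4 := hE _ h3
        rw [hc, ← e, c_rg hp.st] at h4
        exact absurd h4 (by decide)
      · rw [← e]
        rcases s3 with h2 | h2
        · exfalso
          rw [← e, h.cB _ h2] at hc
          exact absurd hc (by decide)
        · exact h2
  obtain ⟨v1, v2, v3⟩ := s4.resolve_left fun h1 => h1 _ hlσ
  have hvL : v ∈ L := s1 v1
  -- the cells of the chain
  have hZ : ∀ k, j₂ ≤ k → k ≤ T → lf M c r0 k ∈ {x | x ∈ Ord A B G ∧
      (x ∈ L ∨ (x ∉ sl M cp r0 0 Tp ∧ x ∉ sr M cp r0 0 Tp)) ∧ c x = 1} := by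
    intro k k1 k2
    rcases k1.lt_or_eq with k3 | rfl
    · have h1 : lf M c r0 k ∉ α ∪ β := a3 k k3 k2
      refine ⟨ord_lf h k2 fun hA => h1 (Or.inl (Or.inl hA)), ?_, c_lf h.st k⟩
      by_cases h2 : lf M c r0 k ∈ L
      · exact Or.inl h2
      · right
        refine ⟨fun h3 => h1 (Or.inl (Or.inr h3)), fun h3 => ?_⟩
        have h4 := hE _ h2
        rw [c_lf h.st, c_sr hp.st h3] at h4
        exact absurd h4 (by decide)
    · exact ⟨hLO (s1 hlσ), Or.inl (s1 hlσ), c_lf h.st _⟩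
  have hnear : ∀ k, j₂ ≤ k → k ≤ T → ‖pos (lf M c r0 k) - pos v‖ < r := by
    intro k k1 k2
    by_contra hcon
    push Not at hcon
    exact hnoA ⟨lf M c r0 j₂, hZ j₂ le_rfl a1, lf M c r0 k, hZ k k1 k2, v3 _ hlσ, hcon,
      chain_lf h.st k1 fun i i1 i2 => hZ i i1 (i2.trans k2)⟩
  -- the connected set `Q`
  set Q := σ ∪ sl M c r0 j₂ T with hQ
  have hCQ : Cn M Q := v2.union (cn_sl h.st j₂ T) hlσ (lf_mem le_rfl a1) (Or.inl rfl)
  have hQO : Q ⊆ Ord A B G := by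
    rintro x (hx | ⟨k, k1, k2, rfl⟩)
    · exact hLO (s1 hx)
    · exact (hZ k k1 k2).1
  have hQr : ∀ x ∈ Q, ‖pos x - pos v‖ ≤ r := by
    rintro x (hx | ⟨k, k1, k2, rfl⟩)
    · exact (v3 x hx).trans hdr
    · exact (hnear k k1 k2).le
  have hQl : ∀ x ∈ Q, x ∉ sl M cp r0 0 Tp := by
    rintro x (hx | ⟨k, k1, k2, rfl⟩) hc
    · have := c_sl hp.st hc
      rw [hL0 x (s1 hx)] at this
      exact absurd this (by decide)
    · rcases k1.lt_or_eq with k3 | rfl
      · exact a3 k k3 k2 (Or.inl (Or.inr hc))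
      · exact hl (Or.inr hc)
  obtain ⟨v', q1, q2, E, E1, E2, E3, E4, E5⟩ := first_seen (S := sr M cp r0 0 Tp) hCQ
    (p := lf M c r0 T) (Or.inr (lf_mem a1 le_rfl)) (Or.inl v1) (rg_mem (Nat.zero_le _) hjT)
  have hv'L : v' ∈ L := by
    by_contra hcon
    rcases q1 with h1 | h1
    · exact hcon (s1 h1)
    · have h2 := hE _ hcon
      rw [c_sr hp.st q2, c_sl h.st h1] at h2
      exact absurd h2 (by decide)
  -- the first time at which `v'` is seen
  have hex : ∃ k, rg M cp r0 k = v' := by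
    obtain ⟨k, -, -, e⟩ := q2
    exact ⟨k, e⟩
  set k' := Nat.find hex with hk'
  have k'1 : rg M cp r0 k' = v' := Nat.find_spec hex
  have k'2 : k' ≤ Tp := by
    obtain ⟨k, -, k2, e⟩ := q2
    exact (Nat.find_min' hex e).trans k2
  have k'0 : k' ≠ 0 := by
    intro h0
    rw [h0] at k'1
    exact (hQO q1).2.1 (k'1 ▸ hp.r0')
  obtain ⟨m, hm⟩ : ∃ m, k' = m + 1 := ⟨k' - 1, by omega⟩
  have hthm : th M cp r0 m = v' := by
    rcases succ_cases hp.st m with ⟨-, -, h1, -⟩ | ⟨-, -, h1, -⟩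
    · exfalso
      refine Nat.find_min hex (m := m) (by omega) ?_
      rw [← h1, ← hm, k'1]
    · rw [← h1, ← hm, k'1]
  have hcl : Close M cp r0 A B G L pos (2 * r) m := by
    refine ⟨by rw [hthm]; exact hv'L, E, by rw [hthm]; exact E3, E1.trans hQO, E2,
      ⟨lf M c r0 T, E4, th M c r0 T, h.th_tau, (ed_tl T).symm⟩, ?_, ?_⟩
    · intro s hs
      refine ⟨?_, ?_⟩
      · rintro ⟨i, -, i2, e⟩
        exact hQl s (E1 hs) ⟨i, Nat.zero_le _, by omega, e⟩
      · rintro ⟨i, -, i2, e⟩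
        have h1 : s = v' := E5 s hs ⟨i, Nat.zero_le _, by omega, e⟩
        exact Nat.find_min hex (m := i) (by omega) (e.trans h1)
    · intro s hs
      rw [hthm]
      have h1 := hQr s (E1 hs)
      have h2 := hQr v' q1
      have h3 : pos s - pos v' = (pos s - pos v) - (pos v' - pos v) := by ring
      rw [h3]
      refine (norm_sub_le _ _).trans ?_
      linarith
  set mc := tc M cp r0 A B G L pos (2 * r) with hmc
  have hmcl : Close M cp r0 A B G L pos (2 * r) mc :=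
    Nat.sInf_mem (s := {m | Close M cp r0 A B G L pos (2 * r) m}) ⟨m, hcl⟩
  have hmcm : mc ≤ m := Nat.sInf_le hcl
  have n1 := close_conf hp hP hLO hthin hd hL0 hrR hmcl (m := k') (by omega) k'2 hno1 hno0
  have n2 := close_conf hp hP hLO hthin hd hL0 hrR hmcl (m := Tp) (by omega) le_rfl hno1 hno0
  have f1 := (near_of_not_far hp hP n1).2 (by rw [k'1]; exact hQO q1)
  rw [k'1] at f1
  have f2 := (near_of_not_far hp hP n2).1
  have f3 : ‖pd (td M c r0 T) - pos (lf M c r0 T)‖ ≤ ρ₀ := hP.td_l (hZ T a1 le_rfl).1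
  have f4 := (hnear T a1 le_rfl).le
  have f5 := hQr v' q1
  set z := pos (th M cp r0 mc)
  have e : pd (td M c r0 T) - pd (td M cp r0 Tp) = (pd (td M c r0 T) - pos (lf M c r0 T)) +
      (pos (lf M c r0 T) - pos v) - (pos v' - pos v) + (pos v' - z) - (pd (td M cp r0 Tp) - z) := by
    ring
  rw [e]
  refine (norm_sub_le _ _).trans ?_
  refine (add_le_add_left (norm_add_le _ _) _).trans ?_
  refine (add_le_add_left (add_le_add_left (norm_sub_le _ _) _) _).trans ?_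
  refine (add_le_add_left (add_le_add_left (add_le_add_left (norm_add_le _ _) _) _) _).trans ?_
  linarith

end Crest.Agent.R143.Contx137
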