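import Crest.Agent.R143.NonX_592
import Crest.Agent.R143.Frame8_395

/-!
# Row 143 (S0194): LEMMA CONT (helper660), planar half on a closed map (helper872)

`M : CMap D C`, root dart `g` with the giants `c0 = cell g`, `c1 = cell (rho g)`,
`c2 = cell (rho (rho g))`; the walker of a colouring `χ` starts at `out M g`, its left cells
`Lc M g χ n` are black (`1`), its right cells `Rt M g χ n` are white (`0`).

* `Con M Q a b` : chain of cells of `Q`; `exists_Z` : the sides of a chain; `exists_side` : the face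
  function of a closed chain; `Side.sep` : a connected set of cells off the chain has one side
* `cont1` : two colourings which differ on the layers `W0, W1, W2` only (`Two`): end points
* `cont2` : a place where the tip is close to the giant `c1`
* `tail_black`, `tail_white` : the output of `cont1` is an input of `cont2`
-/

set_option autoImplicit false
set_option linter.unusedSectionVars false

noncomputable section

open scoped Classical

namespace Crest.Agent.R143.Contx872

open Crest.Agent.R143.Frame1x395 Crest.Agent.R143.Frame2x395 Crest.Agent.R143.Frame3x395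
  Crest.Agent.R143.Frame8x395 Crest.Agent.R143.NonXx592

variable {D C : Type} {M : CMap D C}

/-! ### chains of cells -/

/-- neighbouring cells, both in `Q` -/
def Ad (M : CMap D C) (Q : Set C) (a b : C) : Prop :=
  a ∈ Q ∧ b ∈ Q ∧ ∃ d ∈ M.live, M.cell d = a ∧ M.cell (M.rho d) = b

/-- `a` and `b` are joined by a chain of cells of `Q` -/
def Con (M : CMap D C) (Q : Set C) (a b : C) : Prop := Relation.ReflTransGen (Ad M Q) a b

theorem Ad.symm {Q : Set C} {a b : C} (h : Ad M Q a b) : Ad M Q b a := by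
  obtain ⟨h1, h2, d, hd, h3, h4⟩ := h
  exact ⟨h2, h1, M.iota d, M.iota_live d hd, by rw [M.cell_iota d hd, h4],
    by rw [cell_rho_iota M hd, h3]⟩

theorem Con.refl (Q : Set C) (a : C) : Con M Q a a := Relation.ReflTransGen.refl

theorem Con.symm {Q : Set C} {a b : C} (h : Con M Q a b) : Con M Q b a := by
  unfold Con at h ⊢
  induction h with
  | refl => exact Relation.ReflTransGen.refl
  | tail _ hs ih => exact Relation.ReflTransGen.head hs.symm ih

theorem Con.trans {Q : Set C} {a b c : C} (h : Con M Q a b) (h' : Con M Q b c) : Con M Q a c :=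
  Relation.ReflTransGen.trans h h'

theorem Con.mono {Q Q' : Set C} {a b : C} (h : Con M Q a b) (hQ : Q ⊆ Q') : Con M Q' a b := by
  unfold Con at h ⊢
  induction h with
  | refl => exact Relation.ReflTransGen.refl
  | tail _ hs ih => exact Relation.ReflTransGen.tail ih ⟨hQ hs.1, hQ hs.2.1, hs.2.2⟩

theorem Con.dart {Q : Set C} {d : D} (h : M.cell d ∈ Q) (h' : M.cell (M.rho d) ∈ Q) :
    Con M Q (M.cell d) (M.cell (M.rho d)) := by
  by_cases hd : d ∈ M.live
  · exact Relation.ReflTransGen.single ⟨h, h', d, hd, rfl, rfl⟩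
  · rw [← M.dead d hd]
    exact Relation.ReflTransGen.refl

/-- `Z` lives on the sides with both cells in `Q` -/
def Sup (M : CMap D C) (Z : D → ZMod 2) (Q : Set C) : Prop :=
  ∀ d, Z d ≠ 0 → d ∈ M.live ∧ M.cell d ∈ Q ∧ M.cell (M.rho d) ∈ Q

/-- the side `d` and its other side are not in `Z` -/
def Van (M : CMap D C) (Z : D → ZMod 2) (d : D) : Prop := Z d = 0 ∧ Z (M.iota d) = 0

/-- the dart `e` as a function -/
def sg (e : D) : D → ZMod 2 := fun d => if d = e then 1 else 0

theorem sg_self (e : D) : sg e e = 1 := if_pos rfl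

theorem sg_ne {e d : D} (h : d ≠ e) : sg e d = 0 := if_neg h

theorem sup_sg {e : D} (he : e ∈ M.live) {Q : Set C} (h : M.cell e ∈ Q)
    (h' : M.cell (M.rho e) ∈ Q) : Sup M (sg e) Q := by
  intro d hd
  by_cases h1 : d = e
  · rw [h1]; exact ⟨he, h, h'⟩
  · exact absurd (sg_ne h1) hd

theorem Sup.mono {Z : D → ZMod 2} {Q Q' : Set C} (h : Sup M Z Q) (hQ : Q ⊆ Q') : Sup M Z Q' :=
  fun d hd => ⟨(h d hd).1, hQ (h d hd).2.1, hQ (h d hd).2.2⟩

theorem Sup.add {Z Z' : D → ZMod 2} {Q : Set C} (h : Sup M Z Q) (h' : Sup M Z' Q) :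
    Sup M (Z + Z') Q := by
  intro d hd
  by_cases h1 : Z d = 0
  · refine h' d fun h2 => hd ?_
    show Z d + Z' d = 0
    rw [h1, h2, add_zero]
  · exact h d h1

theorem Sup.van {Z : D → ZMod 2} {Q : Set C} (h : Sup M Z Q) {d : D} (hd : d ∈ M.live)
    (hQ : M.cell d ∉ Q ∨ M.cell (M.rho d) ∉ Q) : Van M Z d := by
  constructor
  · by_contra h1
    have := h d h1
    rcases hQ with h2 | h2
    · exact h2 this.2.1
    · exact h2 this.2.2
  · by_contra h1
    have := h _ h1
    rw [M.cell_iota d hd, cell_rho_iota M hd] at this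
    rcases hQ with h2 | h2
    · exact h2 this.2.2
    · exact h2 this.2.1

theorem Van.add {Z Z' : D → ZMod 2} {d : D} (h : Van M Z d) (h' : Van M Z' d) :
    Van M (Z + Z') d := by
  refine ⟨?_, ?_⟩
  · show Z d + Z' d = 0
    rw [h.1, h'.1, add_zero]
  · show Z _ + Z' _ = 0
    rw [h.2, h'.2, add_zero]

theorem Van.iota {Z : D → ZMod 2} {d : D} (h : Van M Z d) : Van M Z (M.iota d) :=
  ⟨h.2, by rw [M.iota2]; exact h.1⟩

theorem van_sg {e d : D} (h : d ≠ e) (h' : M.iota d ≠ e) : Van M (sg e) d := ⟨sg_ne h, sg_ne h'⟩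

/-- `Z` has the ends `a`, `b` -/
def Bd [Fintype D] (M : CMap D C) (Z : D → ZMod 2) (a b : C) : Prop :=
  ∀ η : C → ZMod 2, ∑ d, Z d * cfg M η d = η a + η b

theorem bd_sg [Fintype D] (e : D) : Bd M (sg e) (M.cell e) (M.cell (M.rho e)) := by
  intro η
  rw [Finset.sum_eq_single e]
  · rw [sg_self, one_mul]; rfl
  · intro b _ hb; rw [sg_ne hb, zero_mul]
  · intro hq; exact absurd (Finset.mem_univ e) hq

theorem Bd.symm [Fintype D] {Z : D → ZMod 2} {a b : C} (h : Bd M Z a b) : Bd M Z b a := by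
  intro η
  rw [h η, add_comm]

theorem Bd.add [Fintype D] {Z Z' : D → ZMod 2} {a b c : C} (h : Bd M Z a b) (h' : Bd M Z' b c) :
    Bd M (Z + Z') a c := by
  intro η
  have h1 : ∑ d, (Z + Z') d * cfg M η d = ∑ d, Z d * cfg M η d + ∑ d, Z' d * cfg M η d := by
    rw [← Finset.sum_add_distrib]
    refine Finset.sum_congr rfl fun d _ => ?_
    show (Z d + Z' d) * _ = _
    ring
  rw [h1, h η, h' η]
  have := z2 (η b)
  linear_combination this

/-- a chain gives a set of sides -/
theorem exists_Z [Fintype D] {Q : Set C} {a b : C} (h : Con M Q a b) :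
    ∃ Z : D → ZMod 2, Sup M Z Q ∧ Bd M Z a b := by
  unfold Con at h
  induction h with
  | refl =>
    refine ⟨0, fun d hd => absurd rfl hd, fun η => ?_⟩
    rw [z2]
    refine Finset.sum_eq_zero fun d _ => ?_
    show 0 * _ = _
    rw [zero_mul]
  | tail _ hs ih =>
    obtain ⟨Z, h1, h2⟩ := ih
    obtain ⟨ha, hb, d, hd, e1, e2⟩ := hs
    subst e1
    subst e2
    exact ⟨Z + sg d, h1.add (sup_sg hd ha hb), h2.add (bd_sg d)⟩

/-! ### the side function of a closed chain -/

/-- `ψ` = a function of the faces which jumps exactly across `Z` -/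
structure Side (M : CMap D C) (Z ψ : D → ZMod 2) : Prop where
  face : ∀ d, ψ (M.rho d) = ψ d
  jump : ∀ d ∈ M.live, Z d + Z (M.iota d) = ψ d + ψ (M.iota d)

theorem exists_side [Fintype D] {Z : D → ZMod 2} {a : C} (hZ : Bd M Z a a) (g : D) :
    ∃ ψ, Side M Z ψ ∧ ψ g = 0 := by
  obtain ⟨ψ, h1, h2⟩ := dual M Z (fun y hy => by
    obtain ⟨η, rfl⟩ := exists_cfg hy
    rw [hZ η, z2])
  refine ⟨fun d => ψ d + ψ g, ⟨fun d => ?_, fun d hd => ?_⟩, z2 _⟩
  · show ψ (M.rho d) + ψ g = ψ d + ψ g
    rw [h1]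
  · show _ = ψ d + ψ g + (ψ (M.iota d) + ψ g)
    rw [h2 d hd]
    have := z2 (ψ g)
    linear_combination -this

variable {Z ψ : D → ZMod 2}

theorem Side.iota (hs : Side M Z ψ) {d : D} (hd : d ∈ M.live) (h : Van M Z d) :
    ψ (M.iota d) = ψ d := by
  have h1 := hs.jump d hd
  rw [h.1, h.2] at h1
  revert h1
  generalize ψ d = a
  generalize ψ (M.iota d) = b
  revert a b; decide

theorem Side.face2 (hs : Side M Z ψ) (d : D) : ψ (M.rho (M.rho d)) = ψ d := by
  rw [hs.face, hs.face]

/-- **a connected set of cells off the chain has one side** -/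
theorem Side.sep [Fintype D] (hs : Side M Z ψ) (A : Set C)
    (hA : ∀ d ∈ M.live, M.cell d ∈ A → M.cell (M.rho d) ∉ A → Van M Z d) {d1 d2 : D}
    (h1 : M.cell d1 ∈ A) (h1' : M.cell (M.rho d1) ∉ A) (h2 : M.cell d2 ∈ A)
    (h2' : M.cell (M.rho d2) ∉ A) (cA : Con M A (M.cell d1) (M.cell d2))
    (cB : Con M Aᶜ (M.cell (M.rho d1)) (M.cell (M.rho d2))) : ψ d1 = ψ d2 := by
  set ind : C → ZMod 2 := fun c => if c ∈ A then 1 else 0 with hind
  have in1 : ∀ c, c ∈ A → ind c = 1 := fun c hc => by rw [hind]; exact if_pos hc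
  have in0 : ∀ c, c ∉ A → ind c = 0 := fun c hc => by rw [hind]; exact if_neg hc
  set y : D → ZMod 2 := fun d => (ind (M.cell d) + ind (M.cell (M.rho d))) * ψ d with hydef
  have hy : IsC M ∅ y := by
    refine ⟨fun d hd => ?_, fun d => ?_, fun d => ?_⟩
    · show (ind (M.cell d) + ind (M.cell (M.rho d))) * ψ d = 0
      rw [M.dead d hd, z2, zero_mul]
    · show (ind (M.cell (M.iota d)) + ind (M.cell (M.rho (M.iota d)))) * ψ (M.iota d) =
        (ind (M.cell d) + ind (M.cell (M.rho d))) * ψ d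
      by_cases hd : d ∈ M.live
      · rw [M.cell_iota d hd, cell_rho_iota M hd]
        by_cases a1 : M.cell d ∈ A <;> by_cases a2 : M.cell (M.rho d) ∈ A
        · rw [in1 _ a1, in1 _ a2, z2, zero_mul, zero_mul]
        · rw [hs.iota hd (hA d hd a1 a2), add_comm]
        · have h3 : Van M Z (M.iota d) := hA _ (M.iota_live d hd)
            (by rw [M.cell_iota d hd]; exact a2) (by rw [cell_rho_iota M hd]; exact a1)
          have h4 : Van M Z d := by
            have := h3.iota
            rwa [M.iota2] at this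
          rw [hs.iota hd h4, add_comm]
        · rw [in0 _ a1, in0 _ a2, add_zero, zero_mul, zero_mul]
      · have hd' : M.iota d ∉ M.live := fun hc' => hd (by
          have := M.iota_live _ hc'
          rwa [M.iota2] at this)
        rw [M.dead d hd, M.dead _ hd', z2, z2, zero_mul, zero_mul]
    · rw [if_neg (Set.notMem_empty d)]
      show (ind (M.cell d) + ind (M.cell (M.rho d))) * ψ d +
        (ind (M.cell (M.rho d)) + ind (M.cell (M.rho (M.rho d)))) * ψ (M.rho d) +
        (ind (M.cell (M.rho (M.rho d))) + ind (M.cell (M.rho (M.rho (M.rho d))))) *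
          ψ (M.rho (M.rho d)) = 0
      rw [hs.face2 d, hs.face d, M.rho3]
      have e1 := z2 (ind (M.cell d))
      have e2 := z2 (ind (M.cell (M.rho d)))
      have e3 := z2 (ind (M.cell (M.rho (M.rho d))))
      linear_combination ψ d * e1 + ψ d * e2 + ψ d * e3
  obtain ⟨η, hη⟩ := exists_cfg hy
  have hη' : ∀ d, η (M.cell d) + η (M.cell (M.rho d)) =
      (ind (M.cell d) + ind (M.cell (M.rho d))) * ψ d := fun d => congrFun hη d
  have eq1 : ∀ {a b : C}, Con M A a b → η a = η b := by
    intro a b hab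
    unfold Con at hab
    induction hab with
    | refl => rfl
    | tail _ hst ih =>
      obtain ⟨ha, hb, d, -, e1, e2⟩ := hst
      subst e1
      subst e2
      have h3 := hη' d
      rw [in1 _ ha, in1 _ hb, z2, zero_mul] at h3
      rw [ih]
      revert h3
      generalize η (M.cell d) = u
      generalize η (M.cell (M.rho d)) = v
      revert u v; decide
  have eq2 : ∀ {a b : C}, Con M Aᶜ a b → η a = η b := by
    intro a b hab
    unfold Con at hab
    induction hab with
    | refl => rfl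
    | tail _ hst ih =>
      obtain ⟨ha, hb, d, -, e1, e2⟩ := hst
      subst e1
      subst e2
      have h3 := hη' d
      rw [in0 _ ha, in0 _ hb, add_zero, zero_mul] at h3
      rw [ih]
      revert h3
      generalize η (M.cell d) = u
      generalize η (M.cell (M.rho d)) = v
      revert u v; decide
  have f1 := hη' d1
  have f2 := hη' d2
  rw [in1 _ h1, in0 _ h1', add_zero, one_mul] at f1
  rw [in1 _ h2, in0 _ h2', add_zero, one_mul] at f2
  rw [← f1, ← f2, eq1 cA, eq2 cB]

/-! ### the walker -/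

variable {x : D → ZMod 2}

theorem Side.stp (hs : Side M Z ψ) (h : IsC M ∅ x) {p : D} (hp : x p = 1) :
    ψ (M.iota (stp M x p)) = ψ p := by
  rcases stp_cases h hp (Set.notMem_empty _) with ⟨-, -, e⟩ | ⟨-, -, e⟩
  · rw [e, M.iota2, hs.face]
  · rw [e, M.iota2, hs.face2]

/-- no crossing: the side does not change -/
theorem Side.const (hs : Side M Z ψ) (h : IsC M ∅ x) {p : D} (hp : x p = 1) {m n : ℕ}
    (hmn : m ≤ n) (hv : ∀ k, m < k → k ≤ n → Van M Z (P M x p k)) :
    ψ (P M x p n) = ψ (P M x p m) := by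
  induction n with
  | zero =>
    have : m = 0 := by omega
    rw [this]
  | succ n ih =>
    rcases Nat.lt_or_ge n m with hl | hl
    · have : m = n + 1 := by omega
      rw [this]
    · rw [← ih hl fun k hk hk' => hv k hk (by omega)]
      have h1 := hv (n + 1) (by omega) le_rfl
      have h2 : P M x p (n + 1) ∈ M.live := h.lv (P_occ h hp _)
      have h3 := hs.iota h2 h1
      rw [← h3, P_succ, hs.stp h (P_occ h hp n)]

/-- left cells: either the same, or adjacent -/
theorem left_con (h : IsC M ∅ x) {p : D} (hp : x p = 1) {Q : Set C} {m n : ℕ} (hmn : m ≤ n)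
    (hQ : ∀ k, m ≤ k → k ≤ n → M.cell (P M x p k) ∈ Q) :
    Con M Q (M.cell (P M x p m)) (M.cell (P M x p n)) := by
  induction n with
  | zero =>
    have : m = 0 := by omega
    rw [this]
    exact Con.refl _ _
  | succ n ih =>
    rcases Nat.lt_or_ge n m with hl | hl
    · have : m = n + 1 := by omega
      rw [this]
      exact Con.refl _ _
    · refine (ih hl fun k hk hk' => hQ k hk (by omega)).trans ?_
      have q1 := hQ n hl (by omega)
      have q2 := hQ (n + 1) (by omega) le_rfl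
      rcases stp_cases h (P_occ h hp n) (Set.notMem_empty _) with ⟨h1, h2, e⟩ | ⟨h1, h2, e⟩
      · have e1 : M.cell (P M x p (n + 1)) = M.cell (M.rho (M.rho (P M x p n))) := by
          rw [P_succ, e, M.cell_iota _ (h.lv h1)]
        rw [e1] at q2 ⊢
        have h3 : Con M Q (M.cell (M.rho (M.rho (P M x p n))))
            (M.cell (M.rho (M.rho (M.rho (P M x p n))))) :=
          Con.dart q2 (by rw [M.rho3]; exact q1)
        rw [M.rho3] at h3
        exact h3.symm
      · have e1 : M.cell (P M x p (n + 1)) = M.cell (P M x p n) := by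
          rw [P_succ, e, M.cell_iota _ (h.lv h2), M.rho3]
        rw [e1]
        exact Con.refl _ _

theorem right_con (h : IsC M ∅ x) {p : D} (hp : x p = 1) {Q : Set C} {m n : ℕ} (hmn : m ≤ n)
    (hQ : ∀ k, m ≤ k → k ≤ n → Rc M (P M x p k) ∈ Q) :
    Con M Q (Rc M (P M x p m)) (Rc M (P M x p n)) := by
  induction n with
  | zero =>
    have : m = 0 := by omega
    rw [this]
    exact Con.refl _ _
  | succ n ih =>
    rcases Nat.lt_or_ge n m with hl | hl
    · have : m = n + 1 := by omega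
      rw [this]
      exact Con.refl _ _
    · refine (ih hl fun k hk hk' => hQ k hk (by omega)).trans ?_
      have q1 := hQ n hl (by omega)
      have q2 := hQ (n + 1) (by omega) le_rfl
      rcases right_cases h hp n with ⟨-, e⟩ | ⟨-, e⟩
      · rw [e]; exact Con.refl _ _
      · rw [e] at q2 ⊢
        exact Con.dart q1 q2

/-- colours along the walk -/
theorem col_left [Fintype D] {χ : C → ZMod 2} {p : D} (hp : cfg M χ p = 1) (n : ℕ) :
    χ (M.cell (P M (cfg M χ) p n)) = χ (M.cell p) := by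
  refine it_col (cfg_isC χ) hp (fun d hd => ?_) n
  have h1 : χ (M.cell d) + χ (M.cell (M.rho d)) = 0 := hd
  revert h1
  generalize χ (M.cell d) = u
  generalize χ (M.cell (M.rho d)) = v
  revert u v; decide

theorem col_right [Fintype D] {χ : C → ZMod 2} {p : D} (hp : cfg M χ p = 1) (n : ℕ) :
    χ (Rc M (P M (cfg M χ) p n)) = χ (M.cell p) + 1 := by
  have h1 : χ (M.cell (P M (cfg M χ) p n)) + χ (Rc M (P M (cfg M χ) p n)) = 1 :=
    P_occ (cfg_isC χ) hp n
  rw [col_left hp n] at h1
  have h2 := z2 (χ (M.cell p))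
  linear_combination h1 - h2

theorem live_of_ne {d : D} (h : M.cell d ≠ M.cell (M.rho d)) : d ∈ M.live := by
  by_contra hd
  exact h (M.dead d hd)

theorem last (p : ℕ → Prop) (s : ℕ) :
    (∀ k ≤ s, ¬ p k) ∨ ∃ m ≤ s, p m ∧ ∀ k, m < k → k ≤ s → ¬ p k := by
  induction s with
  | zero =>
    by_cases h : p 0
    · exact Or.inr ⟨0, le_rfl, h, fun k h1 h2 => by omega⟩
    · left
      intro k hk
      have : k = 0 := by omega
      rwa [this]
  | succ s ih =>
    by_cases h : p (s + 1)
    · exact Or.inr ⟨s + 1, le_rfl, h, fun k h1 h2 => by omega⟩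
    · rcases ih with ih | ⟨m, h1, h2, h3⟩
      · left
        intro k hk
        rcases Nat.lt_or_ge s k with hl | hl
        · have : k = s + 1 := by omega
          rwa [this]
        · exact ih k hl
      · right
        refine ⟨m, by omega, h2, fun k hk hk' => ?_⟩
        rcases Nat.lt_or_ge s k with hl | hl
        · have : k = s + 1 := by omega
          rwa [this]
        · exact h3 k hk hl

/-! ### the face function of one face -/

/-- the three sides of the face of `e` -/
def fc (M : CMap D C) (e : D) : D → ZMod 2 := sg e + sg (M.rho e) + sg (M.rho (M.rho e))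

theorem sg_rho (M : CMap D C) (e d : D) : sg e (M.rho d) = sg (M.rho (M.rho e)) d := by
  by_cases h : M.rho d = e
  · rw [h, sg_self]
    have : d = M.rho (M.rho e) := by rw [← h, M.rho3]
    rw [this, sg_self]
  · rw [sg_ne h, sg_ne]
    intro h1
    exact h (by rw [h1, M.rho3])

theorem side_fc (M : CMap D C) (e : D) : Side M (fc M e) (fc M e) := by
  refine ⟨fun d => ?_, fun d _ => rfl⟩
  show sg e (M.rho d) + sg (M.rho e) (M.rho d) + sg (M.rho (M.rho e)) (M.rho d) =
    sg e d + sg (M.rho e) d + sg (M.rho (M.rho e)) d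
  rw [sg_rho, sg_rho, sg_rho, M.rho3]
  ring

theorem fc_zero {e d : D} (h1 : d ≠ e) (h2 : d ≠ M.rho e) (h3 : d ≠ M.rho (M.rho e)) :
    fc M e d = 0 := by
  show sg e d + sg (M.rho e) d + sg (M.rho (M.rho e)) d = 0
  rw [sg_ne h1, sg_ne h2, sg_ne h3]
  rfl

theorem fc_self (M : CMap D C) (e : D) : fc M e e = 1 := by
  show sg e e + sg (M.rho e) e + sg (M.rho (M.rho e)) e = 1
  rw [sg_self, sg_ne (M.rho_ne e).symm, sg_ne (rho2_ne M e).symm]
  rfl

theorem Side.add {Z' ψ' : D → ZMod 2} (h : Side M Z ψ) (h' : Side M Z' ψ') :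
    Side M (Z + Z') (ψ + ψ') := by
  refine ⟨fun d => ?_, fun d hd => ?_⟩
  · show ψ (M.rho d) + ψ' (M.rho d) = ψ d + ψ' d
    rw [h.face, h'.face]
  · show Z d + Z' d + (Z (M.iota d) + Z' (M.iota d)) = ψ d + ψ' d + (ψ (M.iota d) + ψ' (M.iota d))
    have h1 := h.jump d hd
    have h2 := h'.jump d hd
    linear_combination h1 + h2

/-- one cell off the chain -/
theorem Side.cell [Fintype D] (hs : Side M Z ψ) {Q : Set C} (hZ : Sup M Z Q) {b : C} (hb : b ∉ Q)
    {d1 d2 : D} (h1 : M.cell d1 = b) (h1' : M.cell (M.rho d1) ≠ b) (h2 : M.cell d2 = b)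
    (h2' : M.cell (M.rho d2) ≠ b)
    (cB : Con M {b}ᶜ (M.cell (M.rho d1)) (M.cell (M.rho d2))) : ψ d1 = ψ d2 := by
  refine hs.sep {b} (fun d hd hd1 _ => hZ.van hd (Or.inl ?_)) h1 h1' h2 h2' ?_ cB
  · rw [show M.cell d = b from hd1]; exact hb
  · rw [h1, h2]; exact Con.refl _ _

/-! ### the two worlds -/

/-- `χ` = colours of `Ω`, `χ'` = colours of `U`: the cells of `W0, W1, W2` have got the colours of
the giants `cell g` (black), `cell (rho g)` (black), `cell (rho (rho g))` (white). -/
structure Two (M : CMap D C) (g : D) (W0 W1 W2 : Set C) (χ χ' : C → ZMod 2) : Prop where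
  l0 : χ (M.cell g) = 1
  l1 : χ (M.cell (M.rho g)) = 1
  l2 : χ (M.cell (M.rho (M.rho g))) = 0
  m0 : M.cell g ∈ W0
  m1 : M.cell (M.rho g) ∈ W1
  m2 : M.cell (M.rho (M.rho g)) ∈ W2
  d01 : Disjoint W0 W1
  w0 : ∀ c ∈ W0, χ' c = 1
  w1 : ∀ c ∈ W1, χ' c = 1
  w2 : ∀ c ∈ W2, χ' c = 0
  ww : ∀ c, c ∉ W0 → c ∉ W1 → c ∉ W2 → χ' c = χ c

/-- left cell of the walker from the root gap at time `n` -/
abbrev Lc (M : CMap D C) (g : D) (χ : C → ZMod 2) (n : ℕ) : C :=
  M.cell (P M (cfg M χ) (out M g) n)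

/-- right cell -/
abbrev Rt (M : CMap D C) (g : D) (χ : C → ZMod 2) (n : ℕ) : C :=
  Rc M (P M (cfg M χ) (out M g) n)

/-- `S` links the cell `w` of `W` to the giant `c` inside `W` -/
structure Lnk (M : CMap D C) (W : Set C) (c w : C) (S : Set C) : Prop where
  sub : S ⊆ W
  mem : w = c ∨ w ∈ S
  con : Con M (insert c S) w c
  conn : ∀ a ∈ S, Con M S w a

section root

variable [Fintype D] {g : D} {χ : C → ZMod 2}

/-- the walker starts between the black giant `0` and the white giant `2` -/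
structure Rt0 (M : CMap D C) (g : D) (χ : C → ZMod 2) : Prop where
  l0 : χ (M.cell g) = 1
  l2 : χ (M.cell (M.rho (M.rho g))) = 0

omit [Fintype D] in
theorem Rt0.live (h : Rt0 M g χ) : M.rho (M.rho g) ∈ M.live := by
  apply live_of_ne
  rw [M.rho3]
  intro e
  have h1 := h.l2
  rw [e, h.l0] at h1
  exact absurd h1 (by decide)

theorem Rt0.lc0 (h : Rt0 M g χ) : Lc M g χ 0 = M.cell g := by
  show M.cell (M.iota (M.rho (M.rho g))) = M.cell g
  rw [M.cell_iota _ h.live, M.rho3]

theorem Rt0.rc0 (h : Rt0 M g χ) : Rt M g χ 0 = M.cell (M.rho (M.rho g)) := by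
  show M.cell (M.rho (M.iota (M.rho (M.rho g)))) = _
  rw [cell_rho_iota M h.live]

theorem Rt0.occ (h : Rt0 M g χ) : cfg M χ (out M g) = 1 := by
  show χ (Lc M g χ 0) + χ (Rt M g χ 0) = 1
  rw [h.lc0, h.rc0, h.l0, h.l2]
  rfl

theorem Rt0.left (h : Rt0 M g χ) (n : ℕ) : χ (Lc M g χ n) = 1 := by
  rw [show χ (Lc M g χ n) = χ (M.cell (out M g)) from col_left h.occ n]
  have := h.lc0
  rw [show M.cell (out M g) = M.cell g from this, h.l0]

theorem Rt0.right (h : Rt0 M g χ) (n : ℕ) : χ (Rt M g χ n) = 0 := by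
  rw [show χ (Rt M g χ n) = χ (M.cell (out M g)) + 1 from col_right h.occ n]
  have := h.lc0
  rw [show M.cell (out M g) = M.cell g from this, h.l0]
  rfl

theorem Rt0.lv (h : Rt0 M g χ) (n : ℕ) : P M (cfg M χ) (out M g) n ∈ M.live :=
  (cfg_isC χ).lv (P_occ (cfg_isC χ) h.occ n)

/-- left cells are joined to the giant `0` by black cells -/
theorem Rt0.lcon (h : Rt0 M g χ) {b : C} (hb : χ b = 0) (n : ℕ) :
    Con M {b}ᶜ (Lc M g χ n) (M.cell g) := by
  have h1 := left_con (cfg_isC χ) h.occ (Q := {b}ᶜ) (Nat.zero_le n) (fun k _ _ => by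
    intro e
    have e' : Lc M g χ k = b := e
    have := h.left k
    rw [e', hb] at this
    exact absurd this (by decide))
  rw [show M.cell (P M (cfg M χ) (out M g) 0) = M.cell g from h.lc0] at h1
  exact h1.symm

theorem Rt0.rcon (h : Rt0 M g χ) {b : C} (hb : χ b = 1) (n : ℕ) :
    Con M {b}ᶜ (Rt M g χ n) (M.cell (M.rho (M.rho g))) := by
  have h1 := right_con (cfg_isC χ) h.occ (Q := {b}ᶜ) (Nat.zero_le n) (fun k _ _ => by
    intro e
    have e' : Rt M g χ k = b := e
    have := h.right k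
    rw [e', hb] at this
    exact absurd this (by decide))
  rw [show Rc M (P M (cfg M χ) (out M g) 0) = M.cell (M.rho (M.rho g)) from h.rc0] at h1
  exact h1.symm

/-- the past of a walk which does not cross the chain -/
theorem Rt0.past (h : Rt0 M g χ) (hs : Side M Z ψ) (h0 : ψ g = 0) {n : ℕ}
    (hv : ∀ k ≤ n, Van M Z (P M (cfg M χ) (out M g) k)) :
    ψ (P M (cfg M χ) (out M g) n) = 0 := by
  rw [hs.const (cfg_isC χ) h.occ (Nat.zero_le n) fun k _ hk => hv k hk]
  have h1 := hv 0 (Nat.zero_le n)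
  have h2 := hs.iota (h.lv 0) h1
  rw [← h2]
  show ψ (M.iota (M.iota (M.rho (M.rho g)))) = 0
  rw [M.iota2, hs.face2, h0]

theorem Rt0.pre (h : Rt0 M g χ) (hs : Side M Z ψ) (h0 : ψ g = 0) {n : ℕ}
    (hv : ∀ k < n, Van M Z (P M (cfg M χ) (out M g) k)) :
    ψ (M.iota (P M (cfg M χ) (out M g) n)) = 0 := by
  cases n with
  | zero =>
    show ψ (M.iota (M.iota (M.rho (M.rho g)))) = 0
    rw [M.iota2, hs.face2, h0]
  | succ n =>
    rw [P_succ, hs.stp (cfg_isC χ) (P_occ (cfg_isC χ) h.occ n)]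
    exact h.past hs h0 fun k hk => hv k (by omega)

/-- before the giant `1` is touched the states are different -/
theorem Rt0.inj (h : Rt0 M g χ) (h1 : χ (M.cell (M.rho g)) = 1) {n : ℕ}
    (hn : ∀ k < n, Lc M g χ k ≠ M.cell (M.rho g)) {a b : ℕ} (hab : a < b) (hb : b ≤ n) :
    P M (cfg M χ) (out M g) a ≠ P M (cfg M χ) (out M g) b := by
  intro e
  have hx := cfg_isC (M := M) χ
  have g0 : cfg M χ g = 0 := by
    show χ (M.cell g) + χ (M.cell (M.rho g)) = 0
    rw [h.l0, h1]; rfl
  have g1 : cfg M χ (M.rho g) = 1 := by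
    show χ (M.cell (M.rho g)) + χ (M.cell (M.rho (M.rho g))) = 1
    rw [h.l2, h1]; rfl
  have hg : Gp M (cfg M χ) g := ⟨g0, g1⟩
  obtain ⟨c, rfl⟩ : ∃ c, b = a + (c + 1) := ⟨b - a - 1, by omega⟩
  have e1 : out M g = P M (cfg M χ) (out M g) (c + 1) := by
    apply it_inj hx h.occ (P_occ hx h.occ (c + 1)) a
    show P M (cfg M χ) (out M g) a = P M (cfg M χ) (P M (cfg M χ) (out M g) (c + 1)) a
    rw [← P_add, e]
  have e3 : stp M (cfg M χ) (M.rho g) = stp M (cfg M χ) (P M (cfg M χ) (out M g) c) := by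
    rw [hg.stp hx, ← P_succ]; exact e1
  have e2 := stp_inj hx g1 (Set.notMem_empty _) (P_occ hx h.occ c) (Set.notMem_empty _) e3
  exact hn c (by omega) (by
    show M.cell (P M (cfg M χ) (out M g) c) = _
    rw [← e2])

end root

/-- revealed cells of the walk at times `≤ n` -/
def Rv (M : CMap D C) (g : D) (χ : C → ZMod 2) (n : ℕ) : Set C :=
  {c | ∃ k ≤ n, c = Lc M g χ k ∨ c = Rt M g χ k}

theorem z_one : ∀ a : ZMod 2, a ≠ 0 → a = 1 := by decide

theorem z_contra {a : ZMod 2} (h : a = 0) (h' : a = 1) : False := by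
  rw [h] at h'
  exact absurd h' (by decide)

section two

variable [Fintype D] {g : D} {W0 W1 W2 : Set C} {χ χ' : C → ZMod 2}

theorem Two.root (H : Two M g W0 W1 W2 χ χ') : Rt0 M g χ := ⟨H.l0, H.l2⟩

theorem Two.root' (H : Two M g W0 W1 W2 χ χ') : Rt0 M g χ' := ⟨H.w0 _ H.m0, H.w2 _ H.m2⟩

/-- free cells of `U` have the same colour -/
theorem Two.free0 (H : Two M g W0 W1 W2 χ χ') {c : C} (h : c ∉ W2) (hc : χ' c = 0) : χ c = 0 := by
  rw [← H.ww c (fun h1 => z_contra hc (H.w0 c h1)) (fun h1 => z_contra hc (H.w1 c h1)) h, hc]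

theorem Two.free1 (H : Two M g W0 W1 W2 χ χ') {c : C} (h : c ∉ W0) (h1 : c ∉ W1)
    (hc : χ' c = 1) : χ c = 1 := by
  rw [← H.ww c h h1 (fun h1 => z_contra (H.w2 c h1) hc), hc]

/-- **LEMMA CONT (1)**: the walker of `U` (colours `χ'`) arrives at `W1` at time `t + 1`, the walker
of `Ω` (colours `χ`) at the giant `cell (rho g)` at time `s + 1`. Then both arrive in the same
face, or the black left path of `Ω` ends with a piece which is not revealed by the walker of `U`
and starts in the link of `u` or of the last touched cell of `W2`, or the same for the white right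
path. -/
theorem cont1 (H : Two M g W0 W1 W2 χ χ') {t s i j : ℕ} {S0 S1 S2 : Set C}
    (hT : Lc M g χ' (t + 1) ∈ W1) (hT' : ∀ n ≤ t, Lc M g χ' n ∉ W1)
    (hN : Lc M g χ (s + 1) = M.cell (M.rho g)) (hN' : ∀ n ≤ s, Lc M g χ n ≠ M.cell (M.rho g))
    (hi : i ≤ t) (hi' : ∀ n, i < n → n ≤ t → Rt M g χ' n ∉ W2)
    (hj : j ≤ t) (hj' : ∀ n, j < n → n ≤ t → Lc M g χ' n ∉ W0)
    (k0 : Lnk M W0 (M.cell g) (Lc M g χ' j) S0)
    (k1 : Lnk M W1 (M.cell (M.rho g)) (Lc M g χ' (t + 1)) S1)
    (k2 : Lnk M W2 (M.cell (M.rho (M.rho g))) (Rt M g χ' i) S2) :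
    (P M (cfg M χ) (out M g) s = P M (cfg M χ') (out M g) t ∨
      P M (cfg M χ) (out M g) s = M.rho (P M (cfg M χ') (out M g) t) ∨
      P M (cfg M χ) (out M g) s = M.rho (M.rho (P M (cfg M χ') (out M g) t))) ∨
    (∃ m ≤ s, Lc M g χ m ∈ S1 ∪ S2 ∧ ∀ k, m < k → k ≤ s → Lc M g χ k ∉ Rv M g χ' (t + 1)) ∨
    (∃ m ≤ s, Rt M g χ m ∈ S1 ∪ S0 ∧ ∀ k, m < k → k ≤ s → Rt M g χ k ∉ Rv M g χ' (t + 1)) := by
  have r := H.root
  have r' := H.root'
  set c0 := M.cell g with hc0
  set c1 := M.cell (M.rho g) with hc1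
  set c2 := M.cell (M.rho (M.rho g)) with hc2
  set p := P M (cfg M χ') (out M g) t with hp
  have hx := cfg_isC (M := M) χ
  have hx' := cfg_isC (M := M) χ'
  have n01 : c0 ≠ c1 := fun e => Set.disjoint_left.1 H.d01 H.m0 (by rw [← hc0, e]; exact H.m1)
  have lg : g ∈ M.live := live_of_ne n01
  have lg1 : M.rho g ∈ M.live := live_of_ne (fun e => by
    have h1 : χ c1 = χ c2 := congrArg χ e
    rw [H.l1, H.l2] at h1
    exact absurd h1 (by decide))
  have lg2 := r.live
  -- the step at time `t`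
  have st : cfg M χ' (M.rho p) = 1 ∧ M.cell (M.rho (M.rho p)) = Lc M g χ' (t + 1) ∧
      Rt M g χ' (t + 1) = Rt M g χ' t := by
    have occ : cfg M χ' p = 1 := P_occ hx' r'.occ t
    rcases stp_cases hx' occ (Set.notMem_empty _) with ⟨h1, h2, e⟩ | ⟨h1, h2, e⟩
    · refine ⟨h1, ?_, ?_⟩
      · show _ = M.cell (P M (cfg M χ') (out M g) (t + 1))
        rw [P_succ, ← hp, e, M.cell_iota _ (hx'.lv h1)]
      · show M.cell (M.rho (P M (cfg M χ') (out M g) (t + 1))) = M.cell (M.rho p)
        rw [P_succ, ← hp, e, cell_rho_iota M (hx'.lv h1)]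
    · exfalso
      have h3 : Lc M g χ' (t + 1) = Lc M g χ' t := by
        show M.cell (P M (cfg M χ') (out M g) (t + 1)) = M.cell p
        rw [P_succ, ← hp, e, M.cell_iota _ (hx'.lv h2), M.rho3]
      rw [h3] at hT
      exact hT' t le_rfl hT
  obtain ⟨st1, st2, st3⟩ := st
  set u := Lc M g χ' (t + 1) with hu
  have lp : p ∈ M.live := r'.lv t
  have lp1 : M.rho p ∈ M.live := hx'.lv st1
  have lp2 : M.rho (M.rho p) ∈ M.live := live_of_ne (by
    rw [M.rho3, st2]
    intro e
    exact hT' t le_rfl (by rw [show Lc M g χ' t = u from e.symm]; exact hT))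
  -- the pieces
  obtain ⟨Zb, sb, bb⟩ := exists_Z (show Con M (insert c0 S0 ∪ {c | ∃ n, j ≤ n ∧ n ≤ t ∧
      c = Lc M g χ' n}) c0 (Lc M g χ' t) from
    (k0.con.symm.mono Set.subset_union_left).trans
      (left_con hx' r'.occ hj fun k h1 h2 => Or.inr ⟨k, h1, h2, rfl⟩))
  obtain ⟨Zw, sw, bw⟩ := exists_Z (show Con M (insert c2 S2 ∪ {c | ∃ n, i ≤ n ∧ n ≤ t ∧
      c = Rt M g χ' n}) c2 (Rt M g χ' t) from
    (k2.con.symm.mono Set.subset_union_left).trans
      (right_con hx' r'.occ hi fun k h1 h2 => Or.inr ⟨k, h1, h2, rfl⟩))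
  obtain ⟨Zs, ss, bs⟩ := exists_Z k1.con
  set QR : Set C := {c | c = c1 ∨ c = c2 ∨ c ∈ S1 ∨ c ∈ S2 ∨ ∃ n, i ≤ n ∧ n ≤ t ∧
      c = Rt M g χ' n} with hQR
  set QL : Set C := {c | c = c0 ∨ c = c1 ∨ c ∈ S1 ∨ c ∈ S0 ∨ ∃ n, j ≤ n ∧ n ≤ t ∧
      c = Lc M g χ' n} with hQL
  have uS : u = c1 ∨ u ∈ S1 := k1.mem
  set ZR : D → ZMod 2 := sg (M.rho g) + (Zw + (sg (M.rho p) + Zs)) with hZR
  set ZL : D → ZMod 2 := sg g + (Zb + (sg (M.rho (M.rho p)) + Zs)) with hZL
  have supR : Sup M ZR QR := by
    refine (sup_sg lg1 (Or.inl rfl) (Or.inr (Or.inl rfl))).add ((sw.mono ?_).add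
      ((sup_sg lp1 (Or.inr (Or.inr (Or.inr (Or.inr ⟨t, hi, le_rfl, rfl⟩)))) ?_).add (ss.mono ?_)))
    · rintro c ((h | h) | h)
      · exact Or.inr (Or.inl h)
      · exact Or.inr (Or.inr (Or.inr (Or.inl h)))
      · exact Or.inr (Or.inr (Or.inr (Or.inr h)))
    · rw [st2]
      rcases uS with h | h
      · exact Or.inl h
      · exact Or.inr (Or.inr (Or.inl h))
    · rintro c (h | h)
      · exact Or.inl h
      · exact Or.inr (Or.inr (Or.inl h))
  have supL : Sup M ZL QL := by
    refine (sup_sg lg (Or.inl rfl) (Or.inr (Or.inl rfl))).add ((sb.mono ?_).add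
      ((sup_sg lp2 ?_ ?_).add (ss.mono ?_)))
    · rintro c ((h | h) | h)
      · exact Or.inl h
      · exact Or.inr (Or.inr (Or.inr (Or.inl h)))
      · exact Or.inr (Or.inr (Or.inr (Or.inr h)))
    · rw [st2]
      rcases uS with h | h
      · exact Or.inr (Or.inl h)
      · exact Or.inr (Or.inr (Or.inl h))
    · rw [M.rho3]
      exact Or.inr (Or.inr (Or.inr (Or.inr ⟨t, hj, le_rfl, rfl⟩)))
    · rintro c (h | h)
      · exact Or.inr (Or.inl h)
      · exact Or.inr (Or.inr (Or.inl h))
  have bdR : Bd M ZR c1 c1 := by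
    refine Bd.add (bd_sg (M.rho g)) (Bd.add bw (Bd.add ?_ bs))
    have := bd_sg (M := M) (M.rho p)
    rwa [st2] at this
  have bdL : Bd M ZL c1 c1 := by
    refine Bd.add (bd_sg g).symm (Bd.add bb (Bd.add ?_ bs))
    have := (bd_sg (M := M) (M.rho (M.rho p))).symm
    rwa [st2, M.rho3] at this
  obtain ⟨ψR, sR, gR⟩ := exists_side bdR g
  obtain ⟨ψL, sL, gL⟩ := exists_side bdL g
  -- colours and places
  have lW2 : ∀ n, Lc M g χ' n ∉ W2 := fun n h => z_contra (H.w2 _ h) (r'.left n)
  have rW0 : ∀ n, Rt M g χ' n ∉ W0 := fun n h => z_contra (r'.right n) (H.w0 _ h)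
  have rW1 : ∀ n, Rt M g χ' n ∉ W1 := fun n h => z_contra (r'.right n) (H.w1 _ h)
  have pastR : ∀ n ≤ t, Lc M g χ' n ∉ QR := by
    rintro n hn (h | h | h | h | ⟨k, -, -, h⟩)
    · exact hT' n hn (h ▸ H.m1)
    · exact lW2 n (h ▸ H.m2)
    · exact hT' n hn (k1.sub h)
    · exact lW2 n (k2.sub h)
    · have := r'.left n
      rw [h] at this
      exact z_contra (r'.right k) this
  have pastL : ∀ n ≤ t, Rt M g χ' n ∉ QL := by
    rintro n hn (h | h | h | h | ⟨k, -, -, h⟩)
    · exact rW0 n (h ▸ H.m0)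
    · exact rW1 n (h ▸ H.m1)
    · exact rW1 n (k1.sub h)
    · exact rW0 n (k0.sub h)
    · have := r'.right n
      rw [h] at this
      exact z_contra this (r'.left k)
  have futR : ∀ n ≤ s, Lc M g χ n ∈ QR → Lc M g χ n ∈ S1 ∪ S2 := by
    rintro n hn (h | h | h | h | ⟨k, hk1, hk2, h⟩)
    · exact absurd h (hN' n hn)
    · exact absurd (h ▸ r.left n : χ c2 = 1) (by rw [H.l2]; decide)
    · exact Or.inl h
    · exact Or.inr h
    · rcases Nat.eq_or_lt_of_le hk1 with e | hl
      · subst e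
        rcases k2.mem with h1 | h1
        · rw [h1] at h
          exact absurd (h ▸ r.left n : χ c2 = 1) (by rw [H.l2]; decide)
        · exact Or.inr (h ▸ h1)
      · have h1 := H.free0 (hi' k hl hk2) (r'.right k)
        rw [← h] at h1
        exact absurd (r.left n) (by rw [h1]; decide)
  have futL : ∀ n ≤ s, Rt M g χ n ∈ QL → Rt M g χ n ∈ S1 ∪ S0 := by
    rintro n hn (h | h | h | h | ⟨k, hk1, hk2, h⟩)
    · exact absurd (h ▸ r.right n : χ c0 = 0) (by rw [H.l0]; decide)
    · exact absurd (h ▸ r.right n : χ c1 = 0) (by rw [H.l1]; decide)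
    · exact Or.inl h
    · exact Or.inr h
    · rcases Nat.eq_or_lt_of_le hk1 with e | hl
      · subst e
        rcases k0.mem with h1 | h1
        · rw [h1] at h
          exact absurd (h ▸ r.right n : χ c0 = 0) (by rw [H.l0]; decide)
        · exact Or.inr (h ▸ h1)
      · have h1 := H.free1 (hj' k hl hk2) (hT' k hk2) (r'.left k)
        rw [← h] at h1
        exact absurd (r.right n) (by rw [h1]; decide)
  have vR' : ∀ n ≤ t, Van M ZR (P M (cfg M χ') (out M g) n) := fun n hn =>
    supR.van (r'.lv n) (Or.inl (pastR n hn))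
  have vL' : ∀ n ≤ t, Van M ZL (P M (cfg M χ') (out M g) n) := fun n hn =>
    supL.van (r'.lv n) (Or.inr (pastL n hn))
  have zR : ∀ n ≤ t, ψR (P M (cfg M χ') (out M g) n) = 0 := fun n hn =>
    r'.past sR gR fun k hk => vR' k (hk.trans hn)
  have zL : ∀ n ≤ t, ψL (P M (cfg M χ') (out M g) n) = 0 := fun n hn =>
    r'.past sL gL fun k hk => vL' k (hk.trans hn)
  -- the two sides add up to one at the end of the walk of `Ω`
  by_cases same : (P M (cfg M χ) (out M g) s = p ∨ P M (cfg M χ) (out M g) s = M.rho p ∨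
      P M (cfg M χ) (out M g) s = M.rho (M.rho p))
  · exact Or.inl same
  right
  have hsum : ψL (P M (cfg M χ) (out M g) s) + ψR (P M (cfg M χ) (out M g) s) = 1 := by
    set ZM : D → ZMod 2 := ZL + ZR + fc M g + fc M p with hZM
    have sM : Side M ZM (ψL + ψR + fc M g + fc M p) :=
      ((sL.add sR).add (side_fc M g)).add (side_fc M p)
    have eM : ZM = sg (M.rho (M.rho g)) + (Zb + (Zw + sg p)) := by
      funext d
      show (sg g d + (Zb d + (sg (M.rho (M.rho p)) d + Zs d))) +
        (sg (M.rho g) d + (Zw d + (sg (M.rho p) d + Zs d))) +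
        (sg g d + sg (M.rho g) d + sg (M.rho (M.rho g)) d) +
        (sg p d + sg (M.rho p) d + sg (M.rho (M.rho p)) d) =
        sg (M.rho (M.rho g)) d + (Zb d + (Zw d + sg p d))
      have e1 := z2 (sg g d)
      have e2 := z2 (sg (M.rho g) d)
      have e3 := z2 (sg (M.rho p) d)
      have e4 := z2 (sg (M.rho (M.rho p)) d)
      have e5 := z2 (Zs d)
      linear_combination e1 + e2 + e3 + e4 + e5
    have supM : Sup M ZM {c1}ᶜ := by
      rw [eM]
      have n12 : c2 ≠ c1 := fun e => by
        have := H.l2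
        rw [← hc2, e, H.l1] at this
        exact absurd this (by decide)
      refine (sup_sg lg2 n12 (by rw [M.rho3]; exact n01)).add ((sb.mono ?_).add ((sw.mono ?_).add
        (sup_sg lp ?_ ?_)))
      · rintro c ((h | h) | ⟨k, -, hk, h⟩)
        · rw [h]; exact n01
        · intro e
          have e' : c = c1 := e
          exact Set.disjoint_left.1 H.d01 (k0.sub h) (e' ▸ H.m1)
        · intro e
          have e' : c = c1 := e
          exact hT' k hk (by rw [← h, e']; exact H.m1)
      · rintro c ((h | h) | ⟨k, -, hk, h⟩)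
        · rw [h]; exact n12
        · intro e
          have e' : c = c1 := e
          exact z_contra (H.w2 _ (k2.sub h)) (by rw [e']; exact H.w1 _ H.m1)
        · intro e
          have e' : c = c1 := e
          exact rW1 k (by rw [← h, e']; exact H.m1)
      · intro e
        have e' : Lc M g χ' t = c1 := e
        exact hT' t le_rfl (e' ▸ H.m1)
      · intro e
        have e' : Rt M g χ' t = c1 := e
        exact rW1 t (e' ▸ H.m1)
    have q1 : (ψL + ψR + fc M g + fc M p) (M.rho g) =
        (ψL + ψR + fc M g + fc M p) (P M (cfg M χ) (out M g) (s + 1)) := by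
      refine sM.cell supM (b := c1) (fun h => h rfl) rfl ?_ hN ?_ ?_
      · intro e
        have h1 : χ c2 = χ c1 := congrArg χ e
        rw [H.l1, H.l2] at h1
        exact absurd h1 (by decide)
      · intro e
        have h1 : χ (Rt M g χ (s + 1)) = χ c1 := congrArg χ e
        rw [H.l1, r.right] at h1
        exact absurd h1 (by decide)
      · exact (r.rcon H.l1 (s + 1)).symm
    have q2 : (ψL + ψR + fc M g + fc M p) (P M (cfg M χ) (out M g) (s + 1)) =
        (ψL + ψR + fc M g + fc M p) (P M (cfg M χ) (out M g) s) := by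
      have h1 := sM.iota (r.lv (s + 1)) (supM.van (r.lv (s + 1)) (Or.inl (fun h => h hN)))
      rw [← h1, P_succ, sM.stp hx (P_occ hx r.occ s)]
    have q3 : (ψL + ψR + fc M g + fc M p) (M.rho g) = 1 := by
      rw [sM.face]
      show ψL g + ψR g + fc M g g + fc M p g = 1
      rw [gL, gR, fc_self, fc_zero]
      · rfl
      · intro e
        exact rW1 t (by
          show M.cell (M.rho p) ∈ W1
          rw [← e]; exact H.m1)
      · intro e
        apply lW2 t
        show M.cell p ∈ W2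
        have : p = M.rho (M.rho g) := by rw [e, M.rho3]
        rw [this]; exact H.m2
      · intro e
        apply hT' t le_rfl
        show M.cell p ∈ W1
        have : p = M.rho g := by rw [e, M.rho3]
        rw [this]; exact H.m1
    rw [q1, q2] at q3
    have q4 : ψL (P M (cfg M χ) (out M g) s) + ψR (P M (cfg M χ) (out M g) s) +
        fc M g (P M (cfg M χ) (out M g) s) + fc M p (P M (cfg M χ) (out M g) s) = 1 := q3
    rw [fc_zero (e := g), fc_zero (e := p), add_zero, add_zero] at q4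
    · exact q4
    · exact fun h => same (Or.inl h)
    · exact fun h => same (Or.inr (Or.inl h))
    · exact fun h => same (Or.inr (Or.inr h))
    · intro e
      have h1 : Rt M g χ s = c1 := by
        show M.cell (M.rho (P M (cfg M χ) (out M g) s)) = _
        rw [e]
      have := r.right s
      rw [h1, H.l1] at this
      exact absurd this (by decide)
    · intro e
      exact hN' s le_rfl (by
        show M.cell (P M (cfg M χ) (out M g) s) = _
        rw [e])
    · intro e
      have h1 : Lc M g χ s = c2 := by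
        show M.cell (P M (cfg M χ) (out M g) s) = _
        rw [e]
      have := r.left s
      rw [h1, H.l2] at this
      exact absurd this (by decide)
  rcases z01 (ψR (P M (cfg M χ) (out M g) s)) with hR | hR
  · -- white right path
    right
    rw [hR, add_zero] at hsum
    have van : ∀ k ≤ s, Rt M g χ k ∉ S1 ∪ S0 → Van M ZL (P M (cfg M χ) (out M g) k) :=
      fun k hk h => supL.van (r.lv k) (Or.inr fun h1 => h (futL k hk h1))
    rcases last (fun k => Rt M g χ k ∈ S1 ∪ S0) s with h | ⟨m, hm, hm1, hm2⟩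
    · exfalso
      exact z_contra (r.past sL gL fun k hk => van k hk (h k hk)) hsum
    refine ⟨m, hm, hm1, fun k hk hk' hRv => ?_⟩
    have hk1 : ψL (P M (cfg M χ) (out M g) k) = 1 := by
      rw [← hsum]
      exact (sL.const hx r.occ hk' fun l hl hl' => van l hl' (hm2 l (by omega) hl')).symm
    have hbQ : Rt M g χ k ∉ QL := fun h1 => hm2 k hk hk' (futL k hk' h1)
    have hbS : Rt M g χ k ∉ S1 := fun h1 => hm2 k hk hk' (Or.inl h1)
    have hk2 : ψL (M.iota (P M (cfg M χ) (out M g) k)) = 1 := by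
      rw [sL.iota (r.lv k) (van k hk' (hm2 k hk hk')), hk1]
    have e1 : M.cell (M.iota (P M (cfg M χ) (out M g) k)) = Rt M g χ k :=
      M.cell_iota _ (r.lv k)
    have e2 : M.cell (M.rho (M.iota (P M (cfg M χ) (out M g) k))) = Lc M g χ k :=
      cell_rho_iota M (r.lv k)
    have key : ∀ n ≤ t, Rt M g χ k ≠ Lc M g χ' n ∧ Rt M g χ k ≠ Rt M g χ' n := by
      intro n hn
      refine ⟨fun e => ?_, fun e => ?_⟩
      · have cB : Con M {Rt M g χ k}ᶜ (Lc M g χ k) (Rt M g χ' n) := by
          have hb' : χ' (Rt M g χ k) = 1 := by rw [e]; exact r'.left n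
          refine (r.lcon (r.right k) k).trans (Con.trans ?_ (r'.rcon hb' n).symm)
          have := Con.dart (M := M) (Q := {Rt M g χ k}ᶜ) (d := M.rho (M.rho g))
            (fun h => by
              have h1 : χ' c2 = χ' (Rt M g χ k) := congrArg χ' h
              rw [hb', H.w2 _ H.m2] at h1
              exact absurd h1 (by decide))
            (fun h => by
              rw [M.rho3] at h
              have h1 : χ c0 = χ (Rt M g χ k) := congrArg χ h
              rw [r.right, H.l0] at h1
              exact absurd h1 (by decide))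
          rw [M.rho3] at this
          exact this.symm
        have h1 : ψL (M.iota (P M (cfg M χ) (out M g) k)) = ψL (P M (cfg M χ') (out M g) n) := by
          refine sL.cell supL hbQ e1 ?_ e.symm ?_ (by rw [e2]; exact cB)
          · rw [e2]
            intro h
            have h1 : χ (Lc M g χ k) = χ (Rt M g χ k) := congrArg χ h
            rw [r.right, r.left] at h1
            exact absurd h1 (by decide)
          · intro h
            have h1 : χ' (Rt M g χ' n) = χ' (Lc M g χ' n) := congrArg χ' (h.trans e)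
            rw [r'.right, r'.left] at h1
            exact absurd h1 (by decide)
        rw [hk2, zL n hn] at h1
        exact absurd h1 (by decide)
      · have e1' : M.cell (M.iota (P M (cfg M χ') (out M g) n)) = Rt M g χ' n :=
          M.cell_iota _ (r'.lv n)
        have e2' : M.cell (M.rho (M.iota (P M (cfg M χ') (out M g) n))) = Lc M g χ' n :=
          cell_rho_iota M (r'.lv n)
        have hb' : χ' (Rt M g χ k) = 0 := by rw [e]; exact r'.right n
        have cB : Con M {Rt M g χ k}ᶜ (Lc M g χ k) (Lc M g χ' n) :=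
          (r.lcon (r.right k) k).trans (r'.lcon hb' n).symm
        have h1 : ψL (M.iota (P M (cfg M χ) (out M g) k)) =
            ψL (M.iota (P M (cfg M χ') (out M g) n)) := by
          refine sL.cell supL hbQ e1 ?_ (e1'.trans e.symm) ?_ (by rw [e2, e2']; exact cB)
          · rw [e2]
            intro h
            have h1 : χ (Lc M g χ k) = χ (Rt M g χ k) := congrArg χ h
            rw [r.right, r.left] at h1
            exact absurd h1 (by decide)
          · rw [e2']
            intro h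
            have h1 : χ' (Lc M g χ' n) = χ' (Rt M g χ' n) := congrArg χ' (h.trans e)
            rw [r'.right, r'.left] at h1
            exact absurd h1 (by decide)
        rw [hk2, sL.iota (r'.lv n) (vL' n hn), zL n hn] at h1
        exact absurd h1 (by decide)
    obtain ⟨n, hn, hn'⟩ := hRv
    rcases Nat.lt_or_ge t n with hl | hl
    · have hn1 : n = t + 1 := by omega
      rw [hn1] at hn'
      rcases hn' with hn' | hn'
      · rcases uS with h | h
        · have h1 : χ (Rt M g χ k) = χ c1 := by rw [hn', ← hu, h]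
          rw [H.l1, r.right] at h1
          exact absurd h1 (by decide)
        · exact hbS (by rw [hn']; exact h)
      · rw [st3] at hn'
        exact (key t le_rfl).2 hn'
    · rcases hn' with hn' | hn'
      · exact (key n hl).1 hn'
      · exact (key n hl).2 hn'
  · -- black left path
    left
    have van : ∀ k ≤ s, Lc M g χ k ∉ S1 ∪ S2 → Van M ZR (P M (cfg M χ) (out M g) k) :=
      fun k hk h => supR.van (r.lv k) (Or.inl fun h1 => h (futR k hk h1))
    rcases last (fun k => Lc M g χ k ∈ S1 ∪ S2) s with h | ⟨m, hm, hm1, hm2⟩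
    · exfalso
      exact z_contra (r.past sR gR fun k hk => van k hk (h k hk)) hR
    refine ⟨m, hm, hm1, fun k hk hk' hRv => ?_⟩
    have hk1 : ψR (P M (cfg M χ) (out M g) k) = 1 := by
      rw [← hR]
      exact (sR.const hx r.occ hk' fun l hl hl' => van l hl' (hm2 l (by omega) hl')).symm
    have hbQ : Lc M g χ k ∉ QR := fun h1 => hm2 k hk hk' (futR k hk' h1)
    have hbS : Lc M g χ k ∉ S1 := fun h1 => hm2 k hk hk' (Or.inl h1)
    have hne : M.cell (M.rho (P M (cfg M χ) (out M g) k)) ≠ Lc M g χ k := by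
      intro h
      have h1 : χ (Rt M g χ k) = χ (Lc M g χ k) := congrArg χ h
      rw [r.right, r.left] at h1
      exact absurd h1 (by decide)
    have key : ∀ n ≤ t, Lc M g χ k ≠ Lc M g χ' n ∧ Lc M g χ k ≠ Rt M g χ' n := by
      intro n hn
      refine ⟨fun e => ?_, fun e => ?_⟩
      · have hb' : χ' (Lc M g χ k) = 1 := by rw [e]; exact r'.left n
        have cB : Con M {Lc M g χ k}ᶜ (Rt M g χ k) (Rt M g χ' n) :=
          (r.rcon (r.left k) k).trans (r'.rcon hb' n).symm
        have h1 : ψR (P M (cfg M χ) (out M g) k) = ψR (P M (cfg M χ') (out M g) n) := by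
          refine sR.cell supR hbQ rfl hne e.symm ?_ cB
          intro h
          have h1 : χ' (Rt M g χ' n) = χ' (Lc M g χ' n) := congrArg χ' (h.trans e)
          rw [r'.right, r'.left] at h1
          exact absurd h1 (by decide)
        rw [hk1, zR n hn] at h1
        exact absurd h1 (by decide)
      · have e1' : M.cell (M.iota (P M (cfg M χ') (out M g) n)) = Rt M g χ' n :=
          M.cell_iota _ (r'.lv n)
        have e2' : M.cell (M.rho (M.iota (P M (cfg M χ') (out M g) n))) = Lc M g χ' n :=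
          cell_rho_iota M (r'.lv n)
        have hb' : χ' (Lc M g χ k) = 0 := by rw [e]; exact r'.right n
        have cB : Con M {Lc M g χ k}ᶜ (Rt M g χ k) (Lc M g χ' n) := by
          refine (r.rcon (r.left k) k).trans (Con.trans ?_ (r'.lcon hb' n).symm)
          have := Con.dart (M := M) (Q := {Lc M g χ k}ᶜ) (d := M.rho (M.rho g))
            (fun h => by
              have h1 : χ c2 = χ (Lc M g χ k) := congrArg χ h
              rw [r.left, H.l2] at h1
              exact absurd h1 (by decide))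
            (fun h => by
              rw [M.rho3] at h
              have h1 : χ' c0 = χ' (Lc M g χ k) := congrArg χ' h
              rw [hb', H.w0 _ H.m0] at h1
              exact absurd h1 (by decide))
          rw [M.rho3] at this
          exact this
        have h1 : ψR (P M (cfg M χ) (out M g) k) = ψR (M.iota (P M (cfg M χ') (out M g) n)) := by
          refine sR.cell supR hbQ rfl hne (e1'.trans e.symm) ?_ (by rw [e2']; exact cB)
          rw [e2']
          intro h
          have h1 : χ' (Lc M g χ' n) = χ' (Rt M g χ' n) := congrArg χ' (h.trans e)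
          rw [r'.right, r'.left] at h1
          exact absurd h1 (by decide)
        rw [hk1, sR.iota (r'.lv n) (vR' n hn), zR n hn] at h1
        exact absurd h1 (by decide)
    obtain ⟨n, hn, hn'⟩ := hRv
    rcases Nat.lt_or_ge t n with hl | hl
    · have hn1 : n = t + 1 := by omega
      rw [hn1] at hn'
      rcases hn' with hn' | hn'
      · rcases uS with h | h
        · exact hN' k hk' (by rw [hn', ← hu, h])
        · exact hbS (by rw [hn']; exact h)
      · rw [st3] at hn'
        exact (key t le_rfl).2 hn'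
    · rcases hn' with hn' | hn'
      · exact (key n hl).1 hn'
      · exact (key n hl).2 hn'

end two

/-! ### two giants which are close to each other -/

section close

variable [Fintype D] {g : D} {W0 W2 : Set C} {χ : C → ZMod 2}

/-- the abstract form: `ZL`, `ZR` = the two closed chains -/
theorem close_aux (r : Rt0 M g χ) (h1 : χ (M.cell (M.rho g)) = 1) {t n : ℕ} (htn : t ≤ n)
    (hn : ∀ k ≤ n, Lc M g χ k ≠ M.cell (M.rho g)) (w0 : ∀ c ∈ W0, χ c = 1)
    (w2 : ∀ c ∈ W2, χ c = 0) (m0 : M.cell g ∈ W0) (m1 : M.cell (M.rho g) ∉ W0)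
    (S : C → Set C)
    (k0 : ∀ k ≤ n, Lc M g χ k ∈ W0 → Lnk M W0 (M.cell g) (Lc M g χ k) (S (Lc M g χ k)))
    (k2 : ∀ k ≤ n, Rt M g χ k ∈ W2 →
      Lnk M W2 (M.cell (M.rho (M.rho g))) (Rt M g χ k) (S (Rt M g χ k)))
    {N : Set C} {Zl Zr : D → ZMod 2}
    (bl : Bd M Zl (Lc M g χ t) (M.cell (M.rho g))) (br : Bd M Zr (Rt M g χ t) (M.cell (M.rho g)))
    (sl : Sup M Zl ({c | ∃ k ≤ t, c = Lc M g χ k} ∪ N))
    (sr : Sup M Zr ({c | ∃ k ≤ t, c = Rt M g χ k} ∪ N))
    (vl : ∀ k < t, Van M Zl (P M (cfg M χ) (out M g) k))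
    (vr : ∀ k < t, Van M Zr (P M (cfg M χ) (out M g) k))
    (hsum : Zl + Zr = sg (P M (cfg M χ) (out M g) t)) :
    (∃ m, t ≤ m ∧ m ≤ n ∧ (Rt M g χ m ∈ N ∨ (Rt M g χ m ∈ W2 ∧
        ∃ a ∈ insert (M.cell (M.rho (M.rho g))) (S (Rt M g χ m)), a ∈ N)) ∧
      ∀ k, m < k → k ≤ n → Rt M g χ k ∉ Rv M g χ t ∧ Rt M g χ k ∉ W2) ∨
    (∃ m, t ≤ m ∧ m ≤ n ∧ (Lc M g χ m ∈ N ∨ (Lc M g χ m ∈ W0 ∧
        ∃ a ∈ insert (M.cell g) (S (Lc M g χ m)), a ∈ N)) ∧
      ∀ k, m < k → k ≤ n → Lc M g χ k ∉ Rv M g χ t ∧ Lc M g χ k ∉ W0) := by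
  have hx := cfg_isC (M := M) χ
  have n01 : M.cell g ≠ M.cell (M.rho g) := fun e => m1 (e ▸ m0)
  have n12 : M.cell (M.rho g) ≠ M.cell (M.rho (M.rho g)) := fun e => by
    have h2 : χ (M.cell (M.rho g)) = χ (M.cell (M.rho (M.rho g))) := congrArg χ e
    rw [h1, r.l2] at h2
    exact absurd h2 (by decide)
  have lg : g ∈ M.live := live_of_ne n01
  have lg1 : M.rho g ∈ M.live := live_of_ne n12
  obtain ⟨Zb, sb, bb⟩ := exists_Z (show Con M {c | ∃ k ≤ t, c = Lc M g χ k} (M.cell g)
    (Lc M g χ t) from by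
      have := left_con hx r.occ (Q := {c | ∃ k ≤ t, c = Lc M g χ k}) (Nat.zero_le t)
        fun k _ hk => ⟨k, hk, rfl⟩
      rw [show M.cell (P M (cfg M χ) (out M g) 0) = M.cell g from r.lc0] at this
      exact this)
  obtain ⟨Zw, sw, bw⟩ := exists_Z (show Con M {c | ∃ k ≤ t, c = Rt M g χ k}
    (M.cell (M.rho (M.rho g))) (Rt M g χ t) from by
      have := right_con hx r.occ (Q := {c | ∃ k ≤ t, c = Rt M g χ k}) (Nat.zero_le t)
        fun k _ hk => ⟨k, hk, rfl⟩
      rw [show Rc M (P M (cfg M χ) (out M g) 0) = M.cell (M.rho (M.rho g)) from r.rc0] at this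
      exact this)
  set ZL : D → ZMod 2 := sg g + (Zb + Zl) with hZL
  set ZR : D → ZMod 2 := sg (M.rho g) + (Zw + Zr) with hZR
  have bdL : Bd M ZL (M.cell (M.rho g)) (M.cell (M.rho g)) :=
    Bd.add (bd_sg g).symm (Bd.add bb bl)
  have bdR : Bd M ZR (M.cell (M.rho g)) (M.cell (M.rho g)) :=
    Bd.add (bd_sg (M.rho g)) (Bd.add bw br)
  obtain ⟨ψR, sR, gR⟩ := exists_side bdR g
  obtain ⟨ψL, sL, gL⟩ := exists_side bdL g
  set QL : Set C := {c | c = M.cell g ∨ c = M.cell (M.rho g) ∨ c ∈ N ∨ ∃ k ≤ t, c = Lc M g χ k}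
    with hQL
  set QR : Set C := {c | c = M.cell (M.rho g) ∨ c = M.cell (M.rho (M.rho g)) ∨ c ∈ N ∨
    ∃ k ≤ t, c = Rt M g χ k} with hQR
  have supL : Sup M ZL QL := by
    refine (sup_sg lg (Or.inl rfl) (Or.inr (Or.inl rfl))).add ((sb.mono ?_).add (sl.mono ?_))
    · intro c h
      exact Or.inr (Or.inr (Or.inr h))
    · rintro c (h | h)
      · exact Or.inr (Or.inr (Or.inr h))
      · exact Or.inr (Or.inr (Or.inl h))
  have supR : Sup M ZR QR := by
    refine (sup_sg lg1 (Or.inl rfl) (Or.inr (Or.inl rfl))).add ((sw.mono ?_).add (sr.mono ?_))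
    · intro c h
      exact Or.inr (Or.inr (Or.inr h))
    · rintro c (h | h)
      · exact Or.inr (Or.inr (Or.inr h))
      · exact Or.inr (Or.inr (Or.inl h))
  -- single pieces are not crossed
  have col : ∀ {a b : ℕ}, Lc M g χ a ≠ Rt M g χ b := by
    intro a b e
    have h2 : χ (Lc M g χ a) = χ (Rt M g χ b) := congrArg χ e
    rw [r.left, r.right] at h2
    exact absurd h2 (by decide)
  have va : ∀ k, Van M (sg g) (P M (cfg M χ) (out M g) k) := fun k =>
    (sup_sg (Q := {c | χ c = 1}) lg r.l0 h1).van (r.lv k) (Or.inr fun h => by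
      have := r.right k
      exact z_contra this h)
  have vb : ∀ k, Van M Zb (P M (cfg M χ) (out M g) k) := fun k =>
    sb.van (r.lv k) (Or.inr fun ⟨l, _, h⟩ => col h.symm)
  have vw : ∀ k, Van M Zw (P M (cfg M χ) (out M g) k) := fun k =>
    sw.van (r.lv k) (Or.inl fun ⟨l, _, h⟩ => col h)
  have vc : ∀ k ≤ n, Van M (sg (M.rho g)) (P M (cfg M χ) (out M g) k) := fun k hk =>
    (sup_sg (Q := {c | c = M.cell (M.rho g) ∨ c = M.cell (M.rho (M.rho g))}) lg1 (Or.inl rfl)
      (Or.inr rfl)).van (r.lv k) (Or.inl fun h => by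
      rcases h with h | h
      · exact hn k hk h
      · have := r.left k
        rw [show Lc M g χ k = M.cell (M.rho (M.rho g)) from h, r.l2] at this
        exact absurd this (by decide))
  have vL : ∀ k < t, Van M ZL (P M (cfg M χ) (out M g) k) := fun k hk =>
    (va k).add ((vb k).add (vl k hk))
  have vR : ∀ k < t, Van M ZR (P M (cfg M χ) (out M g) k) := fun k hk =>
    (vc k (by omega)).add ((vw k).add (vr k hk))
  have preL : ∀ k ≤ t, ψL (M.iota (P M (cfg M χ) (out M g) k)) = 0 := fun k hk =>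
    r.pre sL gL fun l hl => vL l (by omega)
  have preR : ∀ k ≤ t, ψR (M.iota (P M (cfg M χ) (out M g) k)) = 0 := fun k hk =>
    r.pre sR gR fun l hl => vR l (by omega)
  have key : ψL (P M (cfg M χ) (out M g) n) + ψR (P M (cfg M χ) (out M g) n) = 1 := by
    have sM := sL.add sR
    have eM : ZL + ZR = sg g + (Zb + (sg (M.rho g) + (Zw + sg (P M (cfg M χ) (out M g) t)))) := by
      rw [← hsum]
      funext d
      show sg g d + (Zb d + Zl d) + (sg (M.rho g) d + (Zw d + Zr d)) =
        sg g d + (Zb d + (sg (M.rho g) d + (Zw d + (Zl d + Zr d))))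
      ring
    have c1 := sM.const hx r.occ htn (fun k hk hk' => by
      rw [eM]
      refine (va k).add ((vb k).add ((vc k hk').add ((vw k).add (van_sg ?_ ?_))))
      · exact (r.inj h1 (fun l hl => hn l (by omega)) hk hk').symm
      · intro e
        have h2 := M.cell_iota _ (r.lv k)
        rw [e] at h2
        exact col (a := t) (b := k) h2)
    have c2 : (ψL + ψR) (P M (cfg M χ) (out M g) t) = 1 := by
      have h2 := sM.jump _ (r.lv t)
      rw [eM] at h2
      have h3 := (va t).add ((vb t).add ((vc t htn).add (vw t)))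
      have h4 : (ψL + ψR) (M.iota (P M (cfg M χ) (out M g) t)) = 0 := by
        show ψL _ + ψR _ = 0
        rw [preL t le_rfl, preR t le_rfl]
        rfl
      have h5 : sg (P M (cfg M χ) (out M g) t) (M.iota (P M (cfg M χ) (out M g) t)) = 0 :=
        sg_ne (M.iota_ne _ (r.lv t))
      have h6 : sg (P M (cfg M χ) (out M g) t) (P M (cfg M χ) (out M g) t) = 1 := sg_self _
      rw [h4] at h2
      have h7 := h3.1
      have h8 := h3.2
      have h9 : sg g (P M (cfg M χ) (out M g) t) + (Zb (P M (cfg M χ) (out M g) t) +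
        (sg (M.rho g) (P M (cfg M χ) (out M g) t) + Zw (P M (cfg M χ) (out M g) t))) = 0 := h7
      have h10 : sg g (M.iota (P M (cfg M χ) (out M g) t)) +
        (Zb (M.iota (P M (cfg M χ) (out M g) t)) +
        (sg (M.rho g) (M.iota (P M (cfg M χ) (out M g) t)) +
        Zw (M.iota (P M (cfg M χ) (out M g) t)))) = 0 := h8
      have h11 : sg g (P M (cfg M χ) (out M g) t) + (Zb (P M (cfg M χ) (out M g) t) +
        (sg (M.rho g) (P M (cfg M χ) (out M g) t) + (Zw (P M (cfg M χ) (out M g) t) +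
          sg (P M (cfg M χ) (out M g) t) (P M (cfg M χ) (out M g) t)))) +
        (sg g (M.iota (P M (cfg M χ) (out M g) t)) +
        (Zb (M.iota (P M (cfg M χ) (out M g) t)) +
        (sg (M.rho g) (M.iota (P M (cfg M χ) (out M g) t)) +
        (Zw (M.iota (P M (cfg M χ) (out M g) t)) +
          sg (P M (cfg M χ) (out M g) t) (M.iota (P M (cfg M χ) (out M g) t)))))) =
        (ψL + ψR) (P M (cfg M χ) (out M g) t) + 0 := h2
      linear_combination -h11 + h9 + h10 + h6 + h5
    have c3 : (ψL + ψR) (P M (cfg M χ) (out M g) n) = 1 := by rw [c1, c2]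
    exact c3
  -- the cell classes
  have Rvt : Rt M g χ t ∈ Rv M g χ t := ⟨t, le_rfl, Or.inr rfl⟩
  have Lvt : Lc M g χ t ∈ Rv M g χ t := ⟨t, le_rfl, Or.inl rfl⟩
  rcases z01 (ψR (P M (cfg M χ) (out M g) n)) with hR | hR
  · left
    rw [hR, add_zero] at key
    rcases last (fun k => Rt M g χ k ∈ Rv M g χ t ∨ Rt M g χ k ∈ W2 ∨ Rt M g χ k ∈ N) n with
      h | ⟨m, hm, hm1, hm2⟩
    · exact absurd (Or.inl Rvt) (h t htn)
    have htm : t ≤ m := by
      by_contra hc
      exact hm2 t (by omega) htn (Or.inl Rvt)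
    by_cases q1 : Rt M g χ m ∈ N
    · exact ⟨m, htm, hm, Or.inl q1, fun k hk hk' =>
        ⟨fun h => hm2 k hk hk' (Or.inl h), fun h => hm2 k hk hk' (Or.inr (Or.inl h))⟩⟩
    by_cases q2 : Rt M g χ m ∈ W2 ∧
        ∃ a ∈ insert (M.cell (M.rho (M.rho g))) (S (Rt M g χ m)), a ∈ N
    · exact ⟨m, htm, hm, Or.inr q2, fun k hk hk' =>
        ⟨fun h => hm2 k hk hk' (Or.inl h), fun h => hm2 k hk hk' (Or.inr (Or.inl h))⟩⟩
    exfalso
    -- white cells of the tail are off the left chain
    have off : ∀ k, m ≤ k → k ≤ n → Rt M g χ k ∉ QL := by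
      rintro k hk hk' (h | h | h | ⟨l, -, h⟩)
      · have := r.right k
        rw [h, r.l0] at this
        exact absurd this (by decide)
      · have := r.right k
        rw [h, h1] at this
        exact absurd this (by decide)
      · rcases Nat.eq_or_lt_of_le hk with e | hl
        · exact q1 (e ▸ h)
        · exact hm2 k hl hk' (Or.inr (Or.inr h))
      · exact col h.symm
    have hn1 : ψL (M.iota (P M (cfg M χ) (out M g) n)) = 1 := by
      rw [sL.iota (r.lv n) (supL.van (r.lv n) (Or.inr (off n hm le_rfl))), key]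
    have e1 : M.cell (M.iota (P M (cfg M χ) (out M g) n)) = Rt M g χ n := M.cell_iota _ (r.lv n)
    have e2 : M.cell (M.rho (M.iota (P M (cfg M χ) (out M g) n))) = Lc M g χ n :=
      cell_rho_iota M (r.lv n)
    by_cases q3 : Rt M g χ m ∈ W2
    · have hk2 := k2 m hm q3
      set A : Set C := {c | c ∈ insert (M.cell (M.rho (M.rho g))) (S (Rt M g χ m)) ∨
        ∃ k, m ≤ k ∧ k ≤ n ∧ c = Rt M g χ k} with hA
      have Acol : ∀ c ∈ A, χ c = 0 := by
        rintro c ((h | h) | ⟨k, -, -, h⟩)
        · rw [h]; exact r.l2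
        · exact w2 c (hk2.sub h)
        · rw [h]; exact r.right k
      have AQ : ∀ c ∈ A, c ∉ QL := by
        rintro c hc (h | h | h | ⟨l, -, h⟩)
        · exact z_contra (Acol c hc) (by rw [h]; exact r.l0)
        · exact z_contra (Acol c hc) (by rw [h]; exact h1)
        · rcases hc with hc | ⟨k, hk, hk', hc⟩
          · exact q2 ⟨q3, c, hc, h⟩
          · exact off k hk hk' (Or.inr (Or.inr (Or.inl (hc ▸ h))))
        · exact z_contra (Acol c hc) (by rw [h]; exact r.left l)
      have hfin : ψL (M.rho (M.rho g)) = ψL (M.iota (P M (cfg M χ) (out M g) n)) := by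
        refine sL.sep A (fun d hd hd1 _ => supL.van hd (Or.inl (AQ _ hd1)))
          (Or.inl (Or.inl rfl)) ?_ (e1 ▸ Or.inr ⟨n, hm, le_rfl, rfl⟩) ?_ ?_ ?_
        · rw [M.rho3]
          exact fun h => z_contra (Acol _ h) r.l0
        · rw [e2]
          exact fun h => z_contra (Acol _ h) (r.left n)
        · rw [e1]
          exact (hk2.con.symm.mono (fun c hc => Or.inl hc)).trans
            (right_con hx r.occ hm fun k hk hk' => Or.inr ⟨k, hk, hk', rfl⟩)
        · rw [e2, M.rho3]
          have := left_con hx r.occ (Q := Aᶜ) (Nat.zero_le n)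
            fun k _ _ h => z_contra (Acol _ h) (r.left k)
          rwa [show M.cell (P M (cfg M χ) (out M g) 0) = M.cell g from r.lc0] at this
      rw [sL.face2, gL, hn1] at hfin
      exact absurd hfin (by decide)
    · have q4 : ∃ j ≤ t, Rt M g χ m = Rt M g χ j := by
        rcases hm1 with ⟨j, hj, h | h⟩ | h | h
        · exact absurd h.symm col
        · exact ⟨j, hj, h⟩
        · exact absurd h q3
        · exact absurd h q1
      obtain ⟨j, hj, q4⟩ := q4
      set A : Set C := {c | ∃ k, m ≤ k ∧ k ≤ n ∧ c = Rt M g χ k} with hA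
      have Acol : ∀ c ∈ A, χ c = 0 := by
        rintro c ⟨k, -, -, h⟩
        rw [h]; exact r.right k
      have AQ : ∀ c ∈ A, c ∉ QL := by
        rintro c ⟨k, hk, hk', hc⟩ h
        exact off k hk hk' (hc ▸ h)
      have e1' : M.cell (M.iota (P M (cfg M χ) (out M g) j)) = Rt M g χ j :=
        M.cell_iota _ (r.lv j)
      have e2' : M.cell (M.rho (M.iota (P M (cfg M χ) (out M g) j))) = Lc M g χ j :=
        cell_rho_iota M (r.lv j)
      have hfin : ψL (M.iota (P M (cfg M χ) (out M g) j)) =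
          ψL (M.iota (P M (cfg M χ) (out M g) n)) := by
        refine sL.sep A (fun d hd hd1 _ => supL.van hd (Or.inl (AQ _ hd1)))
          (e1' ▸ ⟨m, le_rfl, hm, q4.symm⟩) ?_ (e1 ▸ ⟨n, hm, le_rfl, rfl⟩) ?_ ?_ ?_
        · rw [e2']
          exact fun h => z_contra (Acol _ h) (r.left j)
        · rw [e2]
          exact fun h => z_contra (Acol _ h) (r.left n)
        · rw [e1, e1', ← q4]
          exact right_con hx r.occ hm fun k hk hk' => ⟨k, hk, hk', rfl⟩
        · rw [e2, e2']
          exact left_con hx r.occ (Q := Aᶜ) (hj.trans htn)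
            fun k _ _ h => z_contra (Acol _ h) (r.left k)
      rw [preL j hj, hn1] at hfin
      exact absurd hfin (by decide)
  · right
    rcases last (fun k => Lc M g χ k ∈ Rv M g χ t ∨ Lc M g χ k ∈ W0 ∨ Lc M g χ k ∈ N) n with
      h | ⟨m, hm, hm1, hm2⟩
    · exact absurd (Or.inl Lvt) (h t htn)
    have htm : t ≤ m := by
      by_contra hc
      exact hm2 t (by omega) htn (Or.inl Lvt)
    by_cases q1 : Lc M g χ m ∈ N
    · exact ⟨m, htm, hm, Or.inl q1, fun k hk hk' =>
        ⟨fun h => hm2 k hk hk' (Or.inl h), fun h => hm2 k hk hk' (Or.inr (Or.inl h))⟩⟩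
    by_cases q2 : Lc M g χ m ∈ W0 ∧ ∃ a ∈ insert (M.cell g) (S (Lc M g χ m)), a ∈ N
    · exact ⟨m, htm, hm, Or.inr q2, fun k hk hk' =>
        ⟨fun h => hm2 k hk hk' (Or.inl h), fun h => hm2 k hk hk' (Or.inr (Or.inl h))⟩⟩
    exfalso
    have off : ∀ k, m ≤ k → k ≤ n → Lc M g χ k ∉ QR := by
      rintro k hk hk' (h | h | h | ⟨l, -, h⟩)
      · exact hn k hk' h
      · have := r.left k
        rw [h, r.l2] at this
        exact absurd this (by decide)
      · rcases Nat.eq_or_lt_of_le hk with e | hl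
        · exact q1 (e ▸ h)
        · exact hm2 k hl hk' (Or.inr (Or.inr h))
      · exact col h
    by_cases q3 : Lc M g χ m ∈ W0
    · have hk0 := k0 m hm q3
      set A : Set C := {c | c ∈ insert (M.cell g) (S (Lc M g χ m)) ∨
        ∃ k, m ≤ k ∧ k ≤ n ∧ c = Lc M g χ k} with hA
      have Acol : ∀ c ∈ A, χ c = 1 := by
        rintro c ((h | h) | ⟨k, -, -, h⟩)
        · rw [h]; exact r.l0
        · exact w0 c (hk0.sub h)
        · rw [h]; exact r.left k
      have AQ : ∀ c ∈ A, c ∉ QR := by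
        rintro c hc (h | h | h | ⟨l, -, h⟩)
        · rcases hc with (hc | hc) | ⟨k, hk, hk', hc⟩
          · exact n01 (hc.symm.trans h)
          · exact m1 (h ▸ hk0.sub hc)
          · exact hn k hk' (hc.symm.trans h)
        · exact z_contra (by rw [h]; exact r.l2 : χ c = 0) (Acol c hc)
        · rcases hc with hc | ⟨k, hk, hk', hc⟩
          · exact q2 ⟨q3, c, hc, h⟩
          · exact off k hk hk' (Or.inr (Or.inr (Or.inl (hc ▸ h))))
        · exact z_contra (by rw [h]; exact r.right l : χ c = 0) (Acol c hc)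
      have hfin : ψR (out M g) = ψR (P M (cfg M χ) (out M g) n) := by
        refine sR.sep A (fun d hd hd1 _ => supR.van hd (Or.inl (AQ _ hd1)))
          (by rw [show M.cell (out M g) = M.cell g from r.lc0]; exact Or.inl (Or.inl rfl)) ?_
          (Or.inr ⟨n, hm, le_rfl, rfl⟩) ?_ ?_ ?_
        · rw [show M.cell (M.rho (out M g)) = M.cell (M.rho (M.rho g)) from r.rc0]
          exact fun h => z_contra r.l2 (Acol _ h)
        · exact fun h => z_contra (r.right n) (Acol _ h)
        · rw [show M.cell (out M g) = M.cell g from r.lc0]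
          exact (hk0.con.symm.mono (fun c hc => Or.inl hc)).trans
            (left_con hx r.occ hm fun k hk hk' => Or.inr ⟨k, hk, hk', rfl⟩)
        · exact right_con hx r.occ (Q := Aᶜ) (Nat.zero_le n)
            fun k _ _ h => z_contra (r.right k) (Acol _ h)
      have h2 : ψR (out M g) = 0 := by
        have h3 : Van M ZR (out M g) := supR.van (r.lv 0) (Or.inl (by
          rw [show M.cell (out M g) = M.cell g from r.lc0]
          exact AQ _ (Or.inl (Or.inl rfl))))
        have h4 : ψR (M.iota (out M g)) = ψR (out M g) := sR.iota (r.lv 0) h3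
        rw [← h4]
        exact preR 0 (Nat.zero_le t)
      rw [h2, hR] at hfin
      exact absurd hfin (by decide)
    · have q4 : ∃ j ≤ t, Lc M g χ m = Lc M g χ j := by
        rcases hm1 with ⟨j, hj, h | h⟩ | h | h
        · exact ⟨j, hj, h⟩
        · exact absurd h col
        · exact absurd h q3
        · exact absurd h q1
      obtain ⟨j, hj, q4⟩ := q4
      set A : Set C := {c | ∃ k, m ≤ k ∧ k ≤ n ∧ c = Lc M g χ k} with hA
      have Acol : ∀ c ∈ A, χ c = 1 := by
        rintro c ⟨k, -, -, h⟩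
        rw [h]; exact r.left k
      have AQ : ∀ c ∈ A, c ∉ QR := by
        rintro c ⟨k, hk, hk', hc⟩ h
        exact off k hk hk' (hc ▸ h)
      have hfin : ψR (P M (cfg M χ) (out M g) j) = ψR (P M (cfg M χ) (out M g) n) := by
        refine sR.sep A (fun d hd hd1 _ => supR.van hd (Or.inl (AQ _ hd1)))
          ⟨m, le_rfl, hm, q4.symm⟩ ?_ ⟨n, hm, le_rfl, rfl⟩ ?_ ?_ ?_
        · exact fun h => z_contra (r.right j) (Acol _ h)
        · exact fun h => z_contra (r.right n) (Acol _ h)
        · rw [show M.cell (P M (cfg M χ) (out M g) j) = Lc M g χ m from q4.symm]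
          exact left_con hx r.occ hm fun k hk hk' => ⟨k, hk, hk', rfl⟩
        · exact right_con hx r.occ (Q := Aᶜ) (hj.trans htn)
            fun k _ _ h => z_contra (r.right k) (Acol _ h)
      have h2 : ψR (P M (cfg M χ) (out M g) j) = 0 := by
        have h3 : Van M ZR (P M (cfg M χ) (out M g) j) := supR.van (r.lv j) (Or.inl (by
          rw [show M.cell (P M (cfg M χ) (out M g) j) = Lc M g χ m from q4.symm]
          exact off m le_rfl hm))
        rw [← sR.iota (r.lv j) h3]
        exact preR j hj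
      rw [h2, hR] at hfin
      exact absurd hfin (by decide)

/-- **LEMMA CONT (2)**: at time `t` the tip (its right or its left cell) is joined to the giant `1`
inside `N` and the other cells of the walk up to time `t` are not in `N`. At every later time `n`
before the giant `1` is touched: the white right path ends with a piece which was not revealed at
time `t`, starting in `N` or at a touched cell of `W2` whose link meets `N`; or the same holds for
the black left path. -/
theorem cont2 (r : Rt0 M g χ) (h1 : χ (M.cell (M.rho g)) = 1) {t n : ℕ} (htn : t ≤ n)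
    (hn : ∀ k ≤ n, Lc M g χ k ≠ M.cell (M.rho g)) (w0 : ∀ c ∈ W0, χ c = 1)
    (w2 : ∀ c ∈ W2, χ c = 0) (m0 : M.cell g ∈ W0) (m1 : M.cell (M.rho g) ∉ W0) (S : C → Set C)
    (k0 : ∀ k ≤ n, Lc M g χ k ∈ W0 → Lnk M W0 (M.cell g) (Lc M g χ k) (S (Lc M g χ k)))
    (k2 : ∀ k ≤ n, Rt M g χ k ∈ W2 →
      Lnk M W2 (M.cell (M.rho (M.rho g))) (Rt M g χ k) (S (Rt M g χ k)))
    {N : Set C}
    (hq : (Con M N (Rt M g χ t) (M.cell (M.rho g)) ∧ ∀ k ≤ t, Lc M g χ k ∉ N) ∨
      (Con M N (Lc M g χ t) (M.cell (M.rho g)) ∧ ∀ k ≤ t, Rt M g χ k ∉ N)) :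
    (∃ m, t ≤ m ∧ m ≤ n ∧ (Rt M g χ m ∈ N ∨ (Rt M g χ m ∈ W2 ∧
        ∃ a ∈ insert (M.cell (M.rho (M.rho g))) (S (Rt M g χ m)), a ∈ N)) ∧
      ∀ k, m < k → k ≤ n → Rt M g χ k ∉ Rv M g χ t ∧ Rt M g χ k ∉ W2) ∨
    (∃ m, t ≤ m ∧ m ≤ n ∧ (Lc M g χ m ∈ N ∨ (Lc M g χ m ∈ W0 ∧
        ∃ a ∈ insert (M.cell g) (S (Lc M g χ m)), a ∈ N)) ∧
      ∀ k, m < k → k ≤ n → Lc M g χ k ∉ Rv M g χ t ∧ Lc M g χ k ∉ W0) := by
  have vt : ∀ k < t, Van M (sg (P M (cfg M χ) (out M g) t)) (P M (cfg M χ) (out M g) k) := by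
    intro k hk
    refine van_sg (r.inj h1 (fun l hl => hn l (by omega)) hk le_rfl) ?_
    intro e
    have h2 := M.cell_iota _ (r.lv k)
    rw [e] at h2
    have h3 : χ (Lc M g χ t) = χ (Rt M g χ k) := congrArg χ h2
    rw [r.left, r.right] at h3
    exact absurd h3 (by decide)
  have bt : Bd M (sg (P M (cfg M χ) (out M g) t)) (Lc M g χ t) (Rt M g χ t) := bd_sg _
  rcases hq with ⟨c, hc⟩ | ⟨c, hc⟩
  · obtain ⟨Z, sz, bz⟩ := exists_Z c
    have hRN : Rt M g χ t ∈ N := by
      rcases Relation.ReflTransGen.cases_head c with h | ⟨b, h, -⟩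
      · exfalso
        have h2 : χ (Rt M g χ t) = χ (M.cell (M.rho g)) := congrArg χ h
        rw [r.right, h1] at h2
        exact absurd h2 (by decide)
      · exact h.1
    refine close_aux r h1 htn hn w0 w2 m0 m1 S k0 k2 (bt.add bz) bz
      ((sup_sg (r.lv t) (Or.inl ⟨t, le_rfl, rfl⟩) (Or.inr hRN)).add
        (sz.mono Set.subset_union_right)) (sz.mono Set.subset_union_right)
      (fun k hk => (vt k hk).add (sz.van (r.lv k) (Or.inl (hc k hk.le))))
      (fun k hk => sz.van (r.lv k) (Or.inl (hc k hk.le))) ?_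
    funext d
    show sg (P M (cfg M χ) (out M g) t) d + Z d + Z d = _
    have := z2 (Z d)
    linear_combination this
  · obtain ⟨Z, sz, bz⟩ := exists_Z c
    have hLN : Lc M g χ t ∈ N := by
      rcases Relation.ReflTransGen.cases_head c with h | ⟨b, h, -⟩
      · exact absurd h (hn t htn)
      · exact h.1
    refine close_aux r h1 htn hn w0 w2 m0 m1 S k0 k2 bz (bt.symm.add bz)
      (sz.mono Set.subset_union_right)
      ((sup_sg (r.lv t) (Or.inr hLN) (Or.inl ⟨t, le_rfl, rfl⟩)).add
        (sz.mono Set.subset_union_right))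
      (fun k hk => sz.van (r.lv k) (Or.inr (hc k hk.le)))
      (fun k hk => (vt k hk).add (sz.van (r.lv k) (Or.inr (hc k hk.le)))) ?_
    funext d
    show Z d + (sg (P M (cfg M χ) (out M g) t) d + Z d) = _
    have := z2 (Z d)
    linear_combination this

end close

/-! ### from (1) to (2) -/

section link

variable [Fintype D] {g : D} {W0 W1 W2 : Set C} {χ χ' : C → ZMod 2}

/-- a tail of black cells of `Ω` which starts in the link of the last touched cell `v` of `W2` joins
`v` to the giant `1` -/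
theorem tail_black (H : Two M g W0 W1 W2 χ χ') {t s m i : ℕ} {S2 : Set C}
    (hT' : ∀ n ≤ t, Lc M g χ' n ∉ W1)
    (hN : Lc M g χ (s + 1) = M.cell (M.rho g))
    (k2 : Lnk M W2 (M.cell (M.rho (M.rho g))) (Rt M g χ' i) S2)
    (hm : m ≤ s) (hm1 : Lc M g χ m ∈ S2)
    (hm2 : ∀ k, m < k → k ≤ s → Lc M g χ k ∉ Rv M g χ' t) :
    Con M (S2 ∪ {c | ∃ k, m < k ∧ k ≤ s + 1 ∧ c = Lc M g χ k}) (Rt M g χ' i)
      (M.cell (M.rho g)) ∧
    ∀ n ≤ t, Lc M g χ' n ∉ S2 ∪ {c | ∃ k, m < k ∧ k ≤ s + 1 ∧ c = Lc M g χ k} := by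
  have r := H.root
  have r' := H.root'
  constructor
  · refine ((k2.conn _ hm1).mono Set.subset_union_left).trans ?_
    rw [← hN]
    refine left_con (cfg_isC χ) r.occ (by omega) fun k hk hk' => ?_
    rcases Nat.eq_or_lt_of_le hk with e | hl
    · exact Or.inl (e ▸ hm1)
    · exact Or.inr ⟨k, hl, hk', rfl⟩
  · rintro n hn (h | ⟨k, hk, hk', h⟩)
    · exact z_contra (H.w2 _ (k2.sub h)) (r'.left n)
    · rcases Nat.lt_or_ge s k with hl | hl
      · have hk1 : k = s + 1 := by omega
        rw [hk1, hN] at h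
        exact hT' n hn (h ▸ H.m1)
      · exact hm2 k hk hl ⟨n, hn, Or.inl h.symm⟩

/-- the mirror image for white tails -/
theorem tail_white (H : Two M g W0 W1 W2 χ χ') {t s m j : ℕ} {S0 : Set C}
    (hN : Lc M g χ (s + 1) = M.cell (M.rho g))
    (hN' : ∀ n ≤ s, Lc M g χ n ≠ M.cell (M.rho g))
    (k0 : Lnk M W0 (M.cell g) (Lc M g χ' j) S0)
    (hm : m ≤ s) (hm1 : Rt M g χ m ∈ S0)
    (hm2 : ∀ k, m < k → k ≤ s → Rt M g χ k ∉ Rv M g χ' t) :
    Con M (S0 ∪ {c | c = M.cell (M.rho g) ∨ ∃ k, m < k ∧ k ≤ s ∧ c = Rt M g χ k}) (Lc M g χ' j)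
      (M.cell (M.rho g)) ∧
    ∀ n ≤ t, Rt M g χ' n ∉ S0 ∪
      {c | c = M.cell (M.rho g) ∨ ∃ k, m < k ∧ k ≤ s ∧ c = Rt M g χ k} := by
  have r := H.root
  have r' := H.root'
  have hx := cfg_isC (M := M) χ
  constructor
  · refine ((k0.conn _ hm1).mono Set.subset_union_left).trans ?_
    refine Con.trans (right_con hx r.occ hm fun k hk hk' => ?_) ?_
    · rcases Nat.eq_or_lt_of_le hk with e | hl
      · exact Or.inl (e ▸ hm1)
      · exact Or.inr (Or.inr ⟨k, hl, hk', rfl⟩)
    · have hs : Rt M g χ s ∈ S0 ∪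
          {c | c = M.cell (M.rho g) ∨ ∃ k, m < k ∧ k ≤ s ∧ c = Rt M g χ k} := by
        rcases Nat.eq_or_lt_of_le hm with e | hl
        · exact Or.inl (e ▸ hm1)
        · exact Or.inr (Or.inr ⟨s, hl, le_rfl, rfl⟩)
      -- the step at time `s`
      rcases stp_cases hx (P_occ hx r.occ s) (Set.notMem_empty _) with ⟨q1, q2, e⟩ | ⟨q1, q2, e⟩
      · have h2 : M.cell (M.rho (M.rho (P M (cfg M χ) (out M g) s))) = M.cell (M.rho g) := by
          rw [← hN]
          show _ = M.cell (P M (cfg M χ) (out M g) (s + 1))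
          rw [P_succ, e, M.cell_iota _ (hx.lv q1)]
        have h3 : Con M (S0 ∪ {c | c = M.cell (M.rho g) ∨ ∃ k, m < k ∧ k ≤ s ∧ c = Rt M g χ k})
            (M.cell (M.rho (P M (cfg M χ) (out M g) s)))
            (M.cell (M.rho (M.rho (P M (cfg M χ) (out M g) s)))) :=
          Con.dart hs (by rw [h2]; exact Or.inr (Or.inl rfl))
        rw [h2] at h3
        exact h3
      · exfalso
        apply hN' s le_rfl
        rw [← hN]
        show M.cell (P M (cfg M χ) (out M g) s) = M.cell (P M (cfg M χ) (out M g) (s + 1))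
        rw [P_succ, e, M.cell_iota _ (hx.lv q2), M.rho3]
  · rintro n hn (h | h | ⟨k, hk, hk', h⟩)
    · exact z_contra (r'.right n) (H.w0 _ (k0.sub h))
    · exact z_contra (r'.right n) (by rw [h]; exact H.w1 _ H.m1)
    · exact hm2 k hk hk' ⟨n, hn, Or.inr h.symm⟩

end link

end Crest.Agent.R143.Contx872
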