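import Mathlib

/-!
# Row 143 (S0194): the antiholomorphic alternative is excluded by convexity (660, note 3160 (1b))

`m0` in the bottom side, `m1` in the right side, `m2` in the convex hull of the other two sides of
the unit square (`X ≤ Y`).  Then `m0, m1, m2` is never close to a clockwise equilateral triangle:
`1/8 ≤ ‖m0 + w m1 + w² m2‖²` for the root `w` of `w²+w+1` with `Im w < 0`.
General form: square of side `a` with lower left corner `z0`.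
-/

set_option autoImplicit false

noncomputable section

namespace Crest.Agent.R143.Convx712

/-- the two nontrivial cube roots of unity, in coordinates -/
theorem key (x y X Y : ℝ) (hx0 : 0 ≤ x) (hx1 : x ≤ 1) (hy0 : 0 ≤ y) (hy1 : y ≤ 1)
    (hX0 : 0 ≤ X) (hXY : X ≤ Y) (hY1 : Y ≤ 1) :
    0 ≤ (1 - x) * Y - y * (X - x) := by
  rcases le_total 0 (1 - x - y) with h | h
  · nlinarith [mul_nonneg hy0 (sub_nonneg.2 hXY), mul_nonneg h (hX0.trans hXY),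
      mul_nonneg hx0 hy0]
  · nlinarith [mul_nonneg hy0 (sub_nonneg.2 hXY),
      mul_nonneg (neg_nonneg.2 h) (sub_nonneg.2 hY1),
      mul_nonneg (sub_nonneg.2 hx1) (sub_nonneg.2 hy1)]

theorem low (x y X Y : ℝ) (hx0 : 0 ≤ x) (hx1 : x ≤ 1) (hy0 : 0 ≤ y) (hy1 : y ≤ 1)
    (hX0 : 0 ≤ X) (hXY : X ≤ Y) (hY1 : Y ≤ 1) :
    1 / 4 ≤ ((1 - x) ^ 2 + y ^ 2) + ((X - x) ^ 2 + Y ^ 2) := by
  nlinarith [sq_nonneg (2 * (1 - x) - 1), sq_nonneg (X - x - Y), sq_nonneg (X - x + Y),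
    sq_nonneg y, mul_nonneg hX0 (sub_nonneg.2 hXY)]

/-- **660 (1b)**, unit square. -/
theorem excl {w m0 m1 m2 : ℂ} (hre : w.re = -1 / 2) (him : w.im = -(Real.sqrt 3 / 2))
    (h00 : m0.im = 0) (h01 : 0 ≤ m0.re) (h02 : m0.re ≤ 1)
    (h10 : m1.re = 1) (h11 : 0 ≤ m1.im) (h12 : m1.im ≤ 1)
    (h20 : 0 ≤ m2.re) (h21 : m2.re ≤ m2.im) (h22 : m2.im ≤ 1) :
    1 / 8 ≤ ‖m0 + w * m1 + w ^ 2 * m2‖ ^ 2 := by
  have hs : Real.sqrt 3 * Real.sqrt 3 = 3 := Real.mul_self_sqrt (by norm_num)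
  have hs0 : 0 ≤ Real.sqrt 3 := Real.sqrt_nonneg 3
  have hk := key m0.re m1.im m2.re m2.im h01 h02 h11 h12 h20 h21 h22
  have hl := low m0.re m1.im m2.re m2.im h01 h02 h11 h12 h20 h21 h22
  set s := Real.sqrt 3 with hsdef
  set x := m0.re
  set y := m1.im
  set X := m2.re
  set Y := m2.im
  have h : ‖m0 + w * m1 + w ^ 2 * m2‖ ^ 2
      = ((1 - x) ^ 2 + y ^ 2) + ((X - x) ^ 2 + Y ^ 2) - ((1 - x) * (X - x) + y * Y)
        + s * ((1 - x) * Y - y * (X - x)) := by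
    rw [← Complex.normSq_eq_norm_sq, Complex.normSq_apply]
    simp only [pow_two, Complex.add_re, Complex.add_im, Complex.mul_re, Complex.mul_im, hre, him,
      h00, h10]
    change (x + ((-1 / 2) * 1 - -(s / 2) * y) + (((-1 / 2) * (-1 / 2) - -(s / 2) * -(s / 2)) * X
        - ((-1 / 2) * -(s / 2) + -(s / 2) * (-1 / 2)) * Y)) *
      (x + ((-1 / 2) * 1 - -(s / 2) * y) + (((-1 / 2) * (-1 / 2) - -(s / 2) * -(s / 2)) * X
        - ((-1 / 2) * -(s / 2) + -(s / 2) * (-1 / 2)) * Y)) +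
      (0 + ((-1 / 2) * y + -(s / 2) * 1) + (((-1 / 2) * (-1 / 2) - -(s / 2) * -(s / 2)) * Y
        + ((-1 / 2) * -(s / 2) + -(s / 2) * (-1 / 2)) * X)) *
      (0 + ((-1 / 2) * y + -(s / 2) * 1) + (((-1 / 2) * (-1 / 2) - -(s / 2) * -(s / 2)) * Y
        + ((-1 / 2) * -(s / 2) + -(s / 2) * (-1 / 2)) * X)) = _
    have hs2 : s ^ 2 = 3 := by rw [pow_two]; exact hs
    have hs3 : s ^ 3 = 3 * s := by rw [pow_succ, hs2]
    have hs4 : s ^ 4 = 9 := by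
      rw [show (4 : ℕ) = 2 * 2 from rfl, pow_mul, hs2]; norm_num
    ring_nf
    rw [hs2, hs3, hs4]
    ring
  rw [h]
  nlinarith [mul_nonneg hs0 hk, sq_nonneg (1 - x - (X - x)), sq_nonneg (y - Y)]

/-- **660 (1b)**, square of side `a` with lower left corner `z0`. -/
theorem excl_sq {w m0 m1 m2 z0 : ℂ} {a : ℝ} (ha : 0 < a) (hre : w.re = -1 / 2)
    (him : w.im = -(Real.sqrt 3 / 2))
    (h00 : m0.im = z0.im) (h01 : z0.re ≤ m0.re) (h02 : m0.re ≤ z0.re + a)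
    (h10 : m1.re = z0.re + a) (h11 : z0.im ≤ m1.im) (h12 : m1.im ≤ z0.im + a)
    (h20 : z0.re ≤ m2.re) (h21 : m2.re - z0.re ≤ m2.im - z0.im) (h22 : m2.im ≤ z0.im + a) :
    a ^ 2 / 8 ≤ ‖m0 + w * m1 + w ^ 2 * m2‖ ^ 2 := by
  have hs : Real.sqrt 3 * Real.sqrt 3 = 3 := Real.mul_self_sqrt (by norm_num)
  have hw : 1 + w + w ^ 2 = 0 := by
    apply Complex.ext
    · simp only [pow_two, Complex.add_re, Complex.mul_re, Complex.one_re, Complex.zero_re, hre, him]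
      nlinarith
    · simp only [pow_two, Complex.add_im, Complex.mul_im, Complex.one_im, Complex.zero_im, hre, him]
      ring
  have hac : (a : ℂ) ≠ 0 := by exact_mod_cast ha.ne'
  have hre' : ∀ m : ℂ, ((m - z0) / (a : ℂ)).re = (m.re - z0.re) / a := fun m => by
    rw [Complex.div_ofReal_re, Complex.sub_re]
  have him' : ∀ m : ℂ, ((m - z0) / (a : ℂ)).im = (m.im - z0.im) / a := fun m => by
    rw [Complex.div_ofReal_im, Complex.sub_im]
  have H := excl (w := w) (m0 := (m0 - z0) / a) (m1 := (m1 - z0) / a) (m2 := (m2 - z0) / a)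
    hre him (by rw [him', h00, sub_self, zero_div])
    (by rw [hre']; exact div_nonneg (by linarith) ha.le)
    (by rw [hre', div_le_one ha]; linarith)
    (by rw [hre', h10, add_sub_cancel_left, div_self ha.ne'])
    (by rw [him']; exact div_nonneg (by linarith) ha.le)
    (by rw [him', div_le_one ha]; linarith)
    (by rw [hre']; exact div_nonneg (by linarith) ha.le)
    (by rw [hre', him']; exact div_le_div_of_nonneg_right h21 ha.le)
    (by rw [him', div_le_one ha]; linarith)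
  have e : (m0 - z0) / (a : ℂ) + w * ((m1 - z0) / a) + w ^ 2 * ((m2 - z0) / a)
      = (m0 + w * m1 + w ^ 2 * m2) / a := by
    have : (m0 - z0) / (a : ℂ) + w * ((m1 - z0) / a) + w ^ 2 * ((m2 - z0) / a)
      = (m0 + w * m1 + w ^ 2 * m2 - (1 + w + w ^ 2) * z0) / a := by ring
    rw [this, hw, zero_mul, sub_zero]
  rw [e, norm_div, div_pow, Complex.norm_real, Real.norm_of_nonneg ha.le,
    le_div_iff₀ (by positivity)] at H
  linarith

/-- **final algebra, one domain** (782 3019 (4), 660 3160 (1a)): `c0 D_i = w^i T' - w^{-i} T` exactly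
and `w^{-i} T = kap D_i + O(ε)` for `i = 0,1,2`. -/
theorem alg {w c0 kap T T' D0 D1 D2 : ℂ} {ε : ℝ} (hw : 1 + w + w ^ 2 = 0) (hn : ‖w‖ = 1)
    (d0 : c0 * D0 = T' - T) (d1 : c0 * D1 = w * T' - w ^ 2 * T) (d2 : c0 * D2 = w ^ 2 * T' - w * T)
    (e0 : ‖T - kap * D0‖ ≤ ε) (e1 : ‖w ^ 2 * T - kap * D1‖ ≤ ε) (e2 : ‖w * T - kap * D2‖ ≤ ε) :
    ‖(c0 + kap) * T‖ ≤ ‖c0‖ * ε ∧ ‖kap * T'‖ ≤ ‖c0‖ * ε := by
  have hw3 : w ^ 3 = 1 := by
    have : w ^ 3 - 1 = (w - 1) * (1 + w + w ^ 2) := by ring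
    rw [hw, mul_zero] at this
    exact sub_eq_zero.1 this
  have hw4 : w ^ 4 = w := by rw [show (4 : ℕ) = 3 + 1 from rfl, pow_succ, hw3, one_mul]
  have hn2 : ‖w ^ 2‖ = 1 := by rw [norm_pow, hn, one_pow]
  have f0 : ‖c0 * (T - kap * D0)‖ ≤ ‖c0‖ * ε := by
    rw [norm_mul]; exact mul_le_mul_of_nonneg_left e0 (norm_nonneg _)
  have f1 : ‖c0 * (w ^ 2 * T - kap * D1)‖ ≤ ‖c0‖ * ε := by
    rw [norm_mul]; exact mul_le_mul_of_nonneg_left e1 (norm_nonneg _)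
  have f2 : ‖c0 * (w * T - kap * D2)‖ ≤ ‖c0‖ * ε := by
    rw [norm_mul]; exact mul_le_mul_of_nonneg_left e2 (norm_nonneg _)
  have w1 : w ^ 2 = -1 - w := by linear_combination hw
  constructor
  · have h : (3 : ℂ) * ((c0 + kap) * T) = c0 * (T - kap * D0) + w * (c0 * (w ^ 2 * T - kap * D1))
        + w ^ 2 * (c0 * (w * T - kap * D2)) := by
      have : c0 * (T - kap * D0) + w * (c0 * (w ^ 2 * T - kap * D1))
        + w ^ 2 * (c0 * (w * T - kap * D2))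
        = c0 * T * (1 + 2 * w ^ 3) - kap * (c0 * D0 + w * (c0 * D1) + w ^ 2 * (c0 * D2)) := by ring
      rw [this, d0, d1, d2, hw3]
      linear_combination (-(kap * T) * 2) * hw3 + (kap * T') * hw + kap * T' * hw4
    have h3 : 3 * ‖(c0 + kap) * T‖ ≤ 3 * (‖c0‖ * ε) := by
      have : ‖(3 : ℂ) * ((c0 + kap) * T)‖ ≤ 3 * (‖c0‖ * ε) := by
        rw [h]
        refine (norm_add₃_le).trans ?_
        rw [norm_mul w, norm_mul (w ^ 2), hn, hn2, one_mul, one_mul]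
        linarith
      rwa [norm_mul, Complex.norm_ofNat] at this
    linarith
  · have h : -(3 : ℂ) * (kap * T') = c0 * (T - kap * D0)
        + w ^ 2 * (c0 * (w ^ 2 * T - kap * D1)) + w * (c0 * (w * T - kap * D2)) := by
      have : c0 * (T - kap * D0) + w ^ 2 * (c0 * (w ^ 2 * T - kap * D1))
        + w * (c0 * (w * T - kap * D2))
        = c0 * T * (1 + w ^ 4 + w ^ 2) - kap * (c0 * D0 + w ^ 2 * (c0 * D1) + w * (c0 * D2)) := by
        ring
      rw [this, d0, d1, d2, hw4]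
      linear_combination (-(c0 * T)) * hw + (kap * T' * 2) * hw3 - (kap * T) * (hw + hw4)
    have h3 : 3 * ‖kap * T'‖ ≤ 3 * (‖c0‖ * ε) := by
      have : ‖-(3 : ℂ) * (kap * T')‖ ≤ 3 * (‖c0‖ * ε) := by
        rw [h]
        refine (norm_add₃_le).trans ?_
        rw [norm_mul w, norm_mul (w ^ 2), hn, hn2, one_mul, one_mul]
        linarith
      rwa [norm_mul, norm_neg, Complex.norm_ofNat] at this
    linarith

/-- the exact relations `c0 D_i = w^i T' - w^{-i} T` for mean end points `m0, m1, m2`: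
`c0 = w^2 - w`, `T = -(m0 + w m1 + w^2 m2)`, `T' = -(m0 + w^2 m1 + w m2)`, `D_i = m_{i+2} - m_{i+1}` -/
theorem ends {w : ℂ} (hw : 1 + w + w ^ 2 = 0) (m0 m1 m2 : ℂ) :
    (w ^ 2 - w) * (m2 - m1) = -(m0 + w ^ 2 * m1 + w * m2) - -(m0 + w * m1 + w ^ 2 * m2) ∧
    (w ^ 2 - w) * (m0 - m2) = w * -(m0 + w ^ 2 * m1 + w * m2)
      - w ^ 2 * -(m0 + w * m1 + w ^ 2 * m2) ∧
    (w ^ 2 - w) * (m1 - m0) = w ^ 2 * -(m0 + w ^ 2 * m1 + w * m2)
      - w * -(m0 + w * m1 + w ^ 2 * m2) := by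
  have hw3 : w ^ 3 = 1 := by
    have : w ^ 3 - 1 = (w - 1) * (1 + w + w ^ 2) := by ring
    rw [hw, mul_zero] at this
    exact sub_eq_zero.1 this
  refine ⟨by ring, ?_, ?_⟩
  · linear_combination (-(w * m2)) * hw3
  · linear_combination (w * m1) * hw3

/-- **final algebra, all domains**: one domain with `c ≤ ‖T'‖` decides for all of them. -/
theorem fin {c0 kap Ts T : ℂ} {ε c : ℝ} (hc0 : c0 ≠ 0) (hc : 0 < c) (hε : 2 * ε ≤ c)
    (hk : ‖kap * Ts‖ ≤ ‖c0‖ * ε) (hTs : c ≤ ‖Ts‖) (hT : ‖(c0 + kap) * T‖ ≤ ‖c0‖ * ε) :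
    ‖T‖ ≤ 2 * ε := by
  have h0 : 0 < ‖c0‖ := norm_pos_iff.2 hc0
  rw [norm_mul] at hk hT
  have h1 : ‖kap‖ * c ≤ ‖c0‖ * ε := (mul_le_mul_of_nonneg_left hTs (norm_nonneg _)).trans hk
  have h2 : ‖kap‖ ≤ ‖c0‖ / 2 := by
    have : ‖kap‖ * c ≤ ‖c0‖ / 2 * c := by nlinarith
    exact le_of_mul_le_mul_right this hc
  have h3 : ‖c0‖ / 2 ≤ ‖c0 + kap‖ := by
    have : ‖c0‖ ≤ ‖c0 + kap‖ + ‖kap‖ := by
      have := norm_sub_le (c0 + kap) kap
      rwa [add_sub_cancel_right] at this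
    linarith
  have h4 : ‖c0‖ / 2 * ‖T‖ ≤ ‖c0‖ * ε := (mul_le_mul_of_nonneg_right h3 (norm_nonneg _)).trans hT
  have h5 : ‖c0‖ / 2 * ‖T‖ ≤ ‖c0‖ / 2 * (2 * ε) := by linarith
  exact le_of_mul_le_mul_left h5 (by linarith)

end Crest.Agent.R143.Convx712
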