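import Crest.Agent.R143.RingP_503
import Crest.Agent.R143.TileR1_228
import Crest.Agent.R143.CorrD_117

/-!
# Row 143 (S0194): the open corridor along a fine path (helper503)

* `dsj_of` : `Dsj` from 228's `disj`
* **`Evp.corr`** : gates + tile events `o, .., o + n - 1` of a fine path ==> `DCorr` of helper117
* **`Evp.ring'`** : the closed case with 228's numbers (`A' + B' < h`)
-/

set_option autoImplicit false

noncomputable section

open scoped Classical

namespace Crest.Agent.R143.CorPx503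

open Set
open Crest.Agent.R143.B0x346 Crest.Agent.R143.DelGx806 Crest.Agent.R143.DelRx806
open Crest.Agent.R143.Frame1x395 Crest.Agent.R143.Frame2x395 Crest.Agent.R143.Frame3x395
  Crest.Agent.R143.Frame8x395 Crest.Agent.R143.Frame10x395 Crest.Agent.R143.Frame11x395
open Crest.Agent.R143.Frame5x395 (sd mem_sd th th_spec)
open Crest.Agent.R143.Splx117 Crest.Agent.R143.WLocx713 Crest.Agent.R143.RingDx117
  Crest.Agent.R143.CorrDx117
open Crest.Agent.R143.Blkx838 (DE)
open Crest.Agent.R143.Circx63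
open Crest.Agent.R143.Gatex838 (X Y X_turn Y_turn)
open Crest.Agent.R143.TileRx228 Crest.Agent.R143.PathDx503 Crest.Agent.R143.PathGx503
open Crest.Agent.R143.ConfTx503 Crest.Agent.R143.RingPx503
open Crest.Agent.R143.Neckx921

variable {S V β : Finset ℂ} {χ : ℂ → ZMod 2} {h A B A' B' m m' τ κ bb : ℝ} {a0 a1 b0 b1 : ℝ}
  {M : ℕ} {W : ℤ → ℤ × ℤ} {b : ZMod 2} {P : ℤ → Prop} {y x : ℤ → ℂ} {U : Set ℂ}

theorem dsj_of (F : FPath M W) (hA : 0 < A) (hAB : A ≤ B) (hh : A + B < h) : Dsj A B h M W := by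
  intro a c h0 h1 h2
  refine disj F hA hAB hh h0 ?_ ?_
  · rwa [show c - (a + 1) = c - a - 1 by ring]
  · rwa [show c - (a - 1) = c - a + 1 by ring]

theorem not_dvd_of {M : ℕ} {j : ℤ} (h0 : j ≠ 0) (h1 : -(M : ℤ) < j) (h2 : j < M) :
    ¬ (M : ℤ) ∣ j := by
  rintro ⟨k, rfl⟩
  have hM : (0 : ℤ) < M := by omega
  have hk1 : k < 1 := by
    by_contra hc
    push Not at hc
    nlinarith
  have hk2 : -1 < k := by
    by_contra hc
    push Not at hc
    nlinarith
  have : k = 0 := by omega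
  rw [this, mul_zero] at h0
  exact h0 rfl

/-- **the open corridor of a fine path** -/
theorem corr (E : Evp S V β h A B a0 a1 b0 b1 m' W P y x) (N : Num h A B κ bb a0 a1 b0 b1 m)
    (F : FPath M W) {hS : GP (S : Set ℂ)} {hχ : HullC S χ} (hβ : ∀ s ∈ V, χ s = b ↔ s ∈ β)
    (hβV : β ⊆ V) (hE : Envr S U m) (hτ : m < τ) (o : ℤ) {n : ℕ} (n1 : 1 ≤ n) (nM : n < M)
    (hP : ∀ k : ℕ, k < n → P (o + k)) (hU : ∀ k : ℕ, k < n → RR (A + τ) (B + τ) h W (o + k) ⊆ U)
    (hA : bb ≤ A') (hB : h / 2 + κ ≤ B') (hA2 : A + τ ≤ A') (hB2 : B + τ ≤ B') (hAB : A' ≤ B')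
    (hh : A' + B' < h) {p : ℕ → D0 S} (hp : ∀ k, k ≤ n → (p k).1 = (y (o + k), x (o + k))) :
    DCorr hS hχ n (fun k : ℕ => y (o + k)) (fun k : ℕ => x (o + k))
      (fun k : ℕ => RR A B h W (o + k)) (fun k : ℕ => RR (A + τ) (B + τ) h W (o + k)) p := by
  have m0 := N.m0
  have A0 := N.A0
  have hA0 : 0 < A' := by linarith
  have hsub : ∀ k : ℕ, k < n → RR A B h W (o + k) ⊆ U := fun k hk =>
    (rr_sub (by linarith) (by linarith) _).trans (hU k hk)
  have G := gpath_gen (S := S) (P := fun k : ℕ => k < n) N F o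
    (fun k h1 h2 u v huv hu hv => hE.step u v huv
      (hu.elim (fun h => hsub _ h1 h) (fun h => hsub _ h2 h))
      (hv.elim (fun h => hsub _ h1 h) (fun h => hsub _ h2 h)))
    (fun k h1 s hs hs2 => hE.inn s hs (hsub _ h1 hs2))
  have gt : Gts S V β (fun k => k < n) (fun k => gz h W (o + k)) (fun k => ge W (o + k))
      (fun k => RR A B h W (o + k)) a0 a1 b0 b1 m' (fun k => y (o + k)) (fun k => x (o + k)) := by
    have g := E.gts o
    exact ⟨fun k hk => g.gate k (hk.elim (fun h => Or.inl (hP _ h))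
      fun ⟨j, e, h⟩ => Or.inr ⟨j, e, hP _ h⟩), fun k hk => g.link k (hP _ hk)⟩
  have gate : ∀ k : ℕ, k ≤ n → NeckD S (gz h W (o + k)) (ge W (o + k)) a0 a1 b0 b1 m' V β
      (y (o + k)) (x (o + k)) := by
    intro k hk
    rcases Nat.lt_or_ge k n with h1 | h1
    · exact gt.gate k (Or.inl h1)
    · exact gt.gate k (Or.inr ⟨k - 1, by omega, by omega⟩)
  have e1 : ∀ k : ℕ, o + ((k + 1 : ℕ) : ℤ) = o + (k : ℤ) + 1 := fun k => by push_cast; ring
  refine ⟨n1, hp, fun k hk => (neck_col hβ (gate k hk)).2, fun k hk v hv hv2 =>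
    hE.inn v hv (hsub k hk hv2), fun k hk v hv hv2 => hE.inn v hv (hU k hk hv2),
    fun k hk => gt.stc hβ hβV hk, fun k hk => (gt.link k hk).1.1.2,
    fun k hk => (gt.link k hk).1.2.2, fun k hk => gt.ne G hk, fun k j h1 h2 => ?_,
    fun k j h1 h2 h3 h4 => ?_, fun k hk => gt.crs hS hβ G (by show k < n; omega) hk,
    fun k hk => ?_⟩
  · show Disjoint (RR A B h W (o + k)) (RR A B h W (o + j))
    refine (disj F hA0 hAB hh ?_ ?_ ?_).mono (rr_sub (by linarith) (by linarith) _)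
      (rr_sub (by linarith) (by linarith) _)
    · exact not_dvd_of (by omega) (by omega) (by omega)
    · exact not_dvd_of (by omega) (by omega) (by omega)
    · exact not_dvd_of (by omega) (by omega) (by omega)
  · show y (o + j) ∉ RR (A + τ) (B + τ) h W (o + k)
    intro hc
    have hw := neck_win (gate j h2)
    have hj : o + (j : ℤ) = o + (j : ℤ) - 1 + 1 := by ring
    rw [hj] at hw
    obtain ⟨k1, k2⟩ := win_rr N F hA hB hw
    rw [← hj] at k2 k1
    refine far (b := o + j) (a := o + k) F hA0 hAB hh ?_ ?_ k1 k2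
      (rr_sub hA2 hB2 _ hc)
    · exact not_dvd_of (by omega) (by omega) (by omega)
    · exact not_dvd_of (by omega) (by omega) (by omega)
  · refine E.conf N F hS hχ hβ hβV hE hτ (hP k hk) (hU k hk) (hp k (by omega)) ?_
    rw [← e1]
    exact hp (k + 1) (by omega)

/-- **the ring of tubes of a closed fine path**, 228's numbers -/
theorem ring (E : Evp S V β h A B a0 a1 b0 b1 m' W (fun _ => True) y x)
    (N : Num h A B κ bb a0 a1 b0 b1 m) (F : FPath M W) (hS : GP (S : Set ℂ)) (hχ : HullC S χ)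
    (hβ : ∀ s ∈ V, χ s = b ↔ s ∈ β) (hβV : β ⊆ V) (hE : Envr S U m) (hτ : m < τ) (M4 : 4 ≤ M)
    (pery : ∀ a, y (a + M) = y a) (perx : ∀ a, x (a + M) = x a)
    (hU : ∀ a, RR (A + τ) (B + τ) h W a ⊆ U) (hA : bb ≤ A') (hB : h / 2 + κ ≤ B')
    (hA2 : A + τ ≤ A') (hB2 : B + τ ≤ B') (hAB : A' ≤ B') (hh : A' + B' < h) (o : ℤ) :
    DRing hS hχ M (fun k : ℕ => y (o + k)) (fun k : ℕ => x (o + k))
      (fun k : ℕ => RR A B h W (o + k)) (fun k : ℕ => RR (A + τ) (B + τ) h W (o + k))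
      (fun k : ℕ => ⟨(y (o + k), x (o + k)), neck_sd hχ hβ (E.neck trivial)⟩) :=
  E.ring N F hS hχ hβ hβV hE hτ M4 pery perx hU hA hB hA2 hB2
    (dsj_of F (by linarith [N.A0, N.m0]) hAB hh) o

end Crest.Agent.R143.CorPx503
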