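import Crest.Agent.R143.OrientE_881
import Crest.Agent.R143.CorP_503
import Crest.Agent.R143.TileR2_228

/-!
# Row 143 (S0194), R1g: orientation of the corridor along a fine path (helper881)

* `arms_of` : five straight tiles `g - 2, .., g + 2` in use round the gate `g` give the long chains `Arms`
* **`back_path`** : 503's events along a fine path, DCorr of `CorP_503.corr`, five straight tiles round one
  inner gate `g` ==> **all arcs of the corridor are backward** (hypothesis `hf` of `DCorr.main_back`)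
-/

set_option autoImplicit false

noncomputable section

open scoped Classical

namespace Crest.Agent.R143.OrientFx881

open Crest.Agent.R143.B0x346 Crest.Agent.R143.DelGx806 Crest.Agent.R143.DelRx806
open Crest.Agent.R143.Blkx838 (DE)
open Crest.Agent.R143.Gatex838 (X Y)
open Crest.Agent.R143.Frame10x395 Crest.Agent.R143.WLocx713 Crest.Agent.R143.Splx117
open Crest.Agent.R143.RingDx117 Crest.Agent.R143.CorrDx117
open Crest.Agent.R143.TileRx228 Crest.Agent.R143.PathDx503 Crest.Agent.R143.RingPx503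
open Crest.Agent.R143.Neckx921 Crest.Agent.R143.Orientx881 Crest.Agent.R143.OrientDx881

variable {S V β : Finset ℂ} {χ : ℂ → ZMod 2} {h A B A' B' m m' τ κ bb : ℝ} {a0 a1 b0 b1 : ℝ}
  {M : ℕ} {W : ℤ → ℤ × ℤ} {b : ZMod 2} {P : ℤ → Prop} {y x : ℤ → ℂ} {U : Set ℂ}

theorem zm2 {b u v : ZMod 2} (h : b + v = 1) (h' : u ≠ b) : u = v := by
  revert b u v; decide

/-- the white site of a gate is in the window -/
theorem neck_x {z0 e : ℂ} {a0 a1 b0 b1 m : ℝ} {y x : ℂ} (h : NeckD S z0 e a0 a1 b0 b1 m V β y x) :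
    a0 < X z0 e x ∧ X z0 e x < a1 := by
  obtain ⟨up, dn, h, rfl⟩ := h
  exact (h.win _ (by simp [List.getLast_mem h.nu])).1

/-- the straight tile `j` in the frame of the gate `g`, `i = j - g` -/
theorem tile_frame (F : FPath M W) (hA : 0 < A) (hAB : A ≤ B) {g : ℤ}
    (hs : ∀ j, g - 2 ≤ j → j ≤ g + 2 → ge W (j + 1) = ge W j) (s : ℂ) :
    (s ∈ RR A B h W (g - 2) → (-(3 * h / 2) - B < X (gz h W g) (ge W g) s ∧
      X (gz h W g) (ge W g) s < -(3 * h / 2) + B) ∧ |Y (gz h W g) (ge W g) s| < A) ∧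
    (s ∈ RR A B h W (g - 1) → (-(h / 2) - B < X (gz h W g) (ge W g) s ∧
      X (gz h W g) (ge W g) s < -(h / 2) + B) ∧ |Y (gz h W g) (ge W g) s| < A) ∧
    (s ∈ RR A B h W g → (h / 2 - B < X (gz h W g) (ge W g) s ∧
      X (gz h W g) (ge W g) s < h / 2 + B) ∧ |Y (gz h W g) (ge W g) s| < A) ∧
    (s ∈ RR A B h W (g + 1) → (3 * h / 2 - B < X (gz h W g) (ge W g) s ∧
      X (gz h W g) (ge W g) s < 3 * h / 2 + B) ∧ |Y (gz h W g) (ge W g) s| < A) ∧
    (s ∈ RR A B h W (g + 2) → (5 * h / 2 - B < X (gz h W g) (ge W g) s ∧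
      X (gz h W g) (ge W g) s < 5 * h / 2 + B) ∧ |Y (gz h W g) (ge W g) s| < A) := by
  have n2 := next_S F (hs (g - 2) (by omega) (by omega)) h s
  have n1 := next_S F (hs (g - 1) (by omega) (by omega)) h s
  have n0 := next_S F (hs g (by omega) (by omega)) h s
  have p1 := next_S F (hs (g + 1) (by omega) (by omega)) h s
  rw [show g - 2 + 1 = g - 1 by ring] at n2
  rw [show g - 1 + 1 = g by ring] at n1
  rw [show g + 1 + 1 = g + 2 by ring] at p1
  refine ⟨fun hh => ?_, fun hh => ?_, fun hh => ?_, fun hh => ?_, fun hh => ?_⟩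
  · have := (frame_S F hA hAB (hs (g - 2) (by omega) (by omega))).1 hh
    rw [n1.1, n2.1, n1.2, n2.2]
    exact ⟨⟨by linarith [this.1.1], by linarith [this.1.2]⟩, this.2⟩
  · have := (frame_S F hA hAB (hs (g - 1) (by omega) (by omega))).1 hh
    rw [n1.1, n1.2]
    exact ⟨⟨by linarith [this.1.1], by linarith [this.1.2]⟩, this.2⟩
  · exact (frame_S F hA hAB (hs g (by omega) (by omega))).1 hh
  · have := (frame_S F hA hAB (hs (g + 1) (by omega) (by omega))).1 hh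
    rw [n0.1, n0.2] at this
    exact ⟨⟨by linarith [this.1.1], by linarith [this.1.2]⟩, this.2⟩
  · have := (frame_S F hA hAB (hs (g + 2) (by omega) (by omega))).1 hh
    rw [p1.1, p1.2, n0.1, n0.2] at this
    exact ⟨⟨by linarith [this.1.1], by linarith [this.1.2]⟩, this.2⟩

/-- the gates in the frame of the gate `g` -/
theorem gate_frame (F : FPath M W) (h : ℝ) {g : ℤ}
    (hs : ∀ j, g - 2 ≤ j → j ≤ g + 2 → ge W (j + 1) = ge W j) (s : ℂ) :
    X (gz h W g) (ge W g) s = X (gz h W (g - 2)) (ge W (g - 2)) s - 2 * h ∧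
    X (gz h W g) (ge W g) s = X (gz h W (g - 1)) (ge W (g - 1)) s - h ∧
    X (gz h W g) (ge W g) s = X (gz h W (g + 1)) (ge W (g + 1)) s + h ∧
    X (gz h W g) (ge W g) s = X (gz h W (g + 2)) (ge W (g + 2)) s + 2 * h ∧
    X (gz h W g) (ge W g) s = X (gz h W (g + 3)) (ge W (g + 3)) s + 3 * h := by
  have n2 := next_S F (hs (g - 2) (by omega) (by omega)) h s
  have n1 := next_S F (hs (g - 1) (by omega) (by omega)) h s
  have n0 := next_S F (hs g (by omega) (by omega)) h s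
  have p1 := next_S F (hs (g + 1) (by omega) (by omega)) h s
  have p2 := next_S F (hs (g + 2) (by omega) (by omega)) h s
  rw [show g - 2 + 1 = g - 1 by ring] at n2
  rw [show g - 1 + 1 = g by ring] at n1
  rw [show g + 1 + 1 = g + 2 by ring] at p1
  rw [show g + 2 + 1 = g + 3 by ring] at p2
  refine ⟨?_, ?_, ?_, ?_, ?_⟩ <;> linarith [n2.1, n1.1, n0.1, p1.1, p2.1]

/-- **the long chains round a gate with five straight tiles** -/
theorem arms_of (E : Evp S V β h A B a0 a1 b0 b1 m' W P y x) (F : FPath M W) (hA : 0 < A)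
    (hAB : A ≤ B) (hβ : ∀ s ∈ V, χ s = b ↔ s ∈ β) (hβV : β ⊆ V) (s0 : b0 ≤ -A) (s1 : A ≤ b1)
    {g : ℤ} (hs : ∀ j, g - 2 ≤ j → j ≤ g + 2 → ge W (j + 1) = ge W j)
    (hP : ∀ j, g - 2 ≤ j → j ≤ g + 2 → P j) {c0 c1 : ℝ} (q1 : a1 + B ≤ 3 * h / 2)
    (q0 : B - a0 ≤ 3 * h / 2) (q2 : a1 - h ≤ c0) (q3 : c1 ≤ 2 * h + a0) :
    Arms S χ (gz h W g) (ge W g) b0 b1 c0 c1 (-(h / 2) - B) (3 * h / 2 + B) (y g) (x g) := by
  have Pn2 := hP (g - 2) (by omega) (by omega)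
  have Pn1 := hP (g - 1) (by omega) (by omega)
  have P0 := hP g (by omega) (by omega)
  have P1 := hP (g + 1) (by omega) (by omega)
  have P2 := hP (g + 2) (by omega) (by omega)
  have G0 := E.gate g (Or.inl P0)
  have hy := (neck_col hβ G0).1
  have hyx := (neck_col hβ G0).2
  have tf := fun s => tile_frame (h := h) F hA hAB hs s
  -- colours
  have cb : ∀ s ∈ β, χ s = χ (y g) := fun s hs => by rw [hy]; exact (hβ s (hβV hs)).2 hs
  have cw : ∀ s, s ∈ V → s ∉ β → χ s = χ (x g) := fun s h1 h2 => by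
    have h3 : χ s ≠ b := fun hh => h2 ((hβ s h1).1 hh)
    rw [hy] at hyx
    exact zm2 hyx h3
  have yb : ∀ {s : ℂ}, |Y (gz h W g) (ge W g) s| < A →
      b0 < Y (gz h W g) (ge W g) s ∧ Y (gz h W g) (ge W g) s < b1 := fun {s} hh => by
    obtain ⟨h1, h2⟩ := abs_lt.1 hh
    exact ⟨by linarith, by linarith⟩
  have Tn2 := E.tile (g - 2) Pn2
  have Tn1 := E.tile (g - 1) Pn1
  have T0 := E.tile g P0
  have T1 := E.tile (g + 1) P1
  have T2 := E.tile (g + 2) P2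
  rw [show g - 2 + 1 = g - 1 by ring] at Tn2
  rw [show g - 1 + 1 = g by ring] at Tn1
  rw [show g + 1 + 1 = g + 2 by ring] at T1
  rw [show g + 2 + 1 = g + 3 by ring] at T2
  have Gn2 := E.gate (g - 2) (Or.inl Pn2)
  have Gn1 := E.gate (g - 1) (Or.inl Pn1)
  have G2 := E.gate (g + 2) (Or.inl P2)
  have G3 := E.gate (g + 3) (Or.inr (by rw [show g + 3 - 1 = g + 2 by ring]; exact P2))
  have hh0 : 0 < h := by
    have := (neck_win G0).1
    linarith
  set TB : Set ℂ := {s | χ s = χ (y g) ∧ b0 < Y (gz h W g) (ge W g) s ∧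
    Y (gz h W g) (ge W g) s < b1} with hTB
  have l1 : Lk S TB (y g) (y (g - 1)) :=
    Tn1.1.symm.mono fun s hs => ⟨cb s hs.1, yb ((tf s).2.1 hs.2).2⟩
  have l2 : Lk S TB (y (g - 1)) (y (g - 2)) :=
    Tn2.1.symm.mono fun s hs => ⟨cb s hs.1, yb ((tf s).1 hs.2).2⟩
  have l3 : Lk S TB (y g) (y (g + 1)) :=
    T0.1.mono fun s hs => ⟨cb s hs.1, yb ((tf s).2.2.1 hs.2).2⟩
  have l4 : Lk S TB (y (g + 1)) (y (g + 2)) :=
    T1.1.mono fun s hs => ⟨cb s hs.1, yb ((tf s).2.2.2.1 hs.2).2⟩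
  have l5 : Lk S TB (y (g + 2)) (y (g + 3)) :=
    T2.1.mono fun s hs => ⟨cb s hs.1, yb ((tf s).2.2.2.2 hs.2).2⟩
  set TW : Set ℂ := {s | χ s = χ (x g) ∧ (b0 < Y (gz h W g) (ge W g) s ∧
    Y (gz h W g) (ge W g) s < b1) ∧ -(h / 2) - B < X (gz h W g) (ge W g) s ∧
    X (gz h W g) (ge W g) s < 3 * h / 2 + B} with hTW
  have l6 : Lk S TW (x g) (x (g + 1)) := T0.2.mono fun s hs => by
    obtain ⟨⟨h1, h2⟩, h3⟩ := (tf s).2.2.1 hs.2
    exact ⟨cw s hs.1.1 hs.1.2, yb h3, by linarith, by linarith⟩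
  have l7 : Lk S TW (x (g + 1)) (x (g + 2)) := T1.2.mono fun s hs => by
    obtain ⟨⟨h1, h2⟩, h3⟩ := (tf s).2.2.2.1 hs.2
    exact ⟨cw s hs.1.1 hs.1.2, yb h3, by linarith, by linarith⟩
  refine ⟨⟨y (g - 2), ?_, ?_⟩, ⟨y (g + 3), ?_, ?_⟩, ⟨x (g - 1), ?_, ?_⟩, ⟨x (g + 2), ?_, ?_⟩⟩
  · exact l1.trans l2
  · rw [(gate_frame F h hs _).1]
    linarith [(neck_win Gn2).1.2]
  · exact l3.trans (l4.trans l5)
  · rw [(gate_frame F h hs _).2.2.2.2]
    linarith [(neck_win G3).1.1]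
  · refine Tn1.2.symm.mono fun s hs => ?_
    obtain ⟨⟨h1, h2⟩, h3⟩ := (tf s).2.1 hs.2
    exact ⟨cw s hs.1.1 hs.1.2, yb h3, by linarith, by linarith⟩
  · rw [(gate_frame F h hs _).2.1]
    linarith [(neck_x Gn1).2]
  · exact l6.trans l7
  · rw [(gate_frame F h hs _).2.2.2.1]
    linarith [(neck_x G2).1]

/-- **all arcs of the corridor of a fine path are backward** -/
theorem back_path {hS : GP (S : Set ℂ)} {hχ : HullC S χ} {n : ℕ} {o : ℤ} {p : ℕ → D0 S}
    (D : DCorr hS hχ n (fun k : ℕ => y (o + k)) (fun k : ℕ => x (o + k))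
      (fun k : ℕ => RR A B h W (o + k)) (fun k : ℕ => RR (A + τ) (B + τ) h W (o + k)) p)
    (E : Evp S V β h A B a0 a1 b0 b1 m' W P y x) (F : FPath M W) (hA : 0 < A)
    (hAB : A ≤ B) (hβ : ∀ s ∈ V, χ s = b ↔ s ∈ β) (hβV : β ⊆ V) (s0 : b0 ≤ -A) (s1 : A ≤ b1)
    (hτ : 0 ≤ τ) (hτh : τ ≤ h) {k : ℕ} (hk : k < n)
    (hs : ∀ j, o + k - 2 ≤ j → j ≤ o + k + 2 → ge W (j + 1) = ge W j)
    (hP : ∀ j, o + k - 2 ≤ j → j ≤ o + k + 2 → P j) (q1 : a1 + B + τ ≤ 3 * h / 2)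
    (q0 : B + τ - a0 ≤ 3 * h / 2) (q4 : h / 2 - B - τ ≤ a0) (q5 : a1 ≤ h / 2 + B + τ) :
    (∀ k, k < n → FA (cm0 hS) (xc hS hχ) (RD S (RR (A + τ) (B + τ) h W (o + k))) (p (k + 1)) (p k)) ∧
      ∀ k, k < n → ¬ FA (cm0 hS) (xc hS hχ) (RD S (RR (A + τ) (B + τ) h W (o + k))) (p k)
        (p (k + 1)) := by
  have G0 := E.gate (o + k) (Or.inl (hP _ (by omega) (by omega)))
  have G1 := E.gate (o + k + 1) (Or.inl (hP _ (by omega) (by omega)))
  have hy := (neck_col hβ G0).1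
  refine D.back2 (c0 := h / 2 - (B + τ)) (c1 := h / 2 + (B + τ)) (k0 := -(h / 2) - B)
    (k1 := 3 * h / 2 + B) hk G0 (ge_ne F _) (fun s hs => by rw [hy]; exact hβ s hs) (by linarith)
    (by linarith) (by linarith) (by linarith)
    (arms_of E F hA hAB hβ hβV s0 s1 hs hP (by linarith) (by linarith) (by linarith) (by linarith))
    (fun s hh => ?_) ?_
  · exact ((frame_S F (by linarith) (by linarith) (hs (o + k) (by omega) (by omega))).1 hh).1
  · have e1 : ((k + 1 : ℕ) : ℤ) = (k : ℤ) + 1 := by push_cast; rfl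
    show a1 ≤ X _ _ (y (o + ((k + 1 : ℕ) : ℤ)))
    rw [e1, ← add_assoc, (gate_frame F h hs _).2.2.1]
    linarith [(neck_win G1).1.1]

end Crest.Agent.R143.OrientFx881
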