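import Crest.Agent.R143.Sep1_686

/-!
# Row 143 (S0194), part A free route: SEPARATION (3b) of note 3646, the closed white chain (helper686)

* `RS`, `LS` : right and left sites of the walk from `e` up to the time `m`
* `right_lk`, `left_lk` : they are chains of Delaunay neighbours of one colour
* `far_side` : the closed chain misses the neck and its lower arm
-/

set_option autoImplicit false

noncomputable section

open scoped Classical

namespace Crest.Agent.R143.Sepx686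

open Crest.Agent.R143.B0x346 Crest.Agent.R143.DelGx806 Crest.Agent.R143.DelRx806
open Crest.Agent.R143.JColx54 (delT_rot)
open Crest.Agent.R143.ToolWx838 Crest.Agent.R143.Blkx838 Crest.Agent.R143.ToolW2x838
open Crest.Agent.R143.ToolW3x838 Crest.Agent.R143.Gatex838 Crest.Agent.R143.Neckx921
open Crest.Agent.R143.Frame1x395 Crest.Agent.R143.Frame2x395 Crest.Agent.R143.Frame3x395
  Crest.Agent.R143.Frame4x395 Crest.Agent.R143.Frame8x395 Crest.Agent.R143.Frame9x395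
  Crest.Agent.R143.Frame10x395 Crest.Agent.R143.Frame11x395
open Crest.Agent.R143.Frame5x395 (sd mem_sd th th_spec)
open Crest.Agent.R143.Splx117 Crest.Agent.R143.WLocx713 Crest.Agent.R143.RingDx117
  Crest.Agent.R143.CorrDx117

variable {S : Finset ℂ} {χ : ℂ → ZMod 2}

/-- left sites up to the time `m` -/
def LS (S : Finset ℂ) (χ : ℂ → ZMod 2) (e : ℂ × ℂ) (m : ℕ) : Set ℂ :=
  {s | ∃ i ≤ m, s = ((nx S χ)^[i] e).1}

/-- right sites up to the time `m` -/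
def RS (S : Finset ℂ) (χ : ℂ → ZMod 2) (e : ℂ × ℂ) (m : ℕ) : Set ℂ :=
  {s | ∃ i ≤ m, s = ((nx S χ)^[i] e).2}

theorem z_r : ∀ a b c : ZMod 2, a + b = 1 → b + c ≠ 1 → c = b := by decide
theorem z_l : ∀ a b c : ZMod 2, a + b = 1 → b + c = 1 → c = a := by decide

/-- one step of the walk -/
theorem nx_step (hS : GP (S : Set ℂ)) {e : ℂ × ℂ} (h : Occ S χ e) :
    ((nx S χ e).1 = e.1 ∨ DE S e.1 (nx S χ e).1) ∧ ((nx S χ e).2 = e.2 ∨ DE S e.2 (nx S χ e).2) ∧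
      χ (nx S χ e).1 = χ e.1 ∧ χ (nx S χ e).2 = χ e.2 := by
  obtain ⟨a, b⟩ := e
  obtain ⟨h1, h2⟩ := h
  have t1 := th_spec h1
  have t2 := delT_rot hS t1
  have t3 := delT_rot hS t2
  unfold nx
  split_ifs with hc
  · exact ⟨Or.inr (Or.inr ⟨b, t3⟩), Or.inl rfl, z_l _ _ _ h2 hc, rfl⟩
  · exact ⟨Or.inl rfl, Or.inr (Or.inl ⟨a, t2⟩), rfl, z_r _ _ _ h2 hc⟩

theorem lk_de {A : Set ℂ} {u v : ℂ} (hu : u ∈ A) (hv : v ∈ A) (h : v = u ∨ DE S u v) :
    Lk S A u v := by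
  rcases h with h | h
  · rw [h]; exact Lk.refl hu
  · exact ⟨⟨hu, hv⟩, .single ⟨h, hu, hv⟩⟩

theorem LS_mono {e : ℂ × ℂ} {m m' : ℕ} (h : m ≤ m') : LS S χ e m ⊆ LS S χ e m' :=
  fun _ ⟨i, hi, h1⟩ => ⟨i, hi.trans h, h1⟩

theorem RS_mono {e : ℂ × ℂ} {m m' : ℕ} (h : m ≤ m') : RS S χ e m ⊆ RS S χ e m' :=
  fun _ ⟨i, hi, h1⟩ => ⟨i, hi.trans h, h1⟩

/-- the left sites are a chain of one colour -/
theorem left_lk (hS : GP (S : Set ℂ)) (hχ : HullC S χ) {e : ℂ × ℂ} (h : Occ S χ e) (m : ℕ) :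
    Lk S (LS S χ e m) e.1 ((nx S χ)^[m] e).1 ∧ χ ((nx S χ)^[m] e).1 = χ e.1 := by
  induction m with
  | zero => exact ⟨Lk.refl ⟨0, le_rfl, rfl⟩, rfl⟩
  | succ m ih =>
    have h1 := nx_step hS (h.it hS hχ m)
    rw [Function.iterate_succ_apply']
    refine ⟨(ih.1.mono (LS_mono (Nat.le_succ m))).trans (lk_de ⟨m, Nat.le_succ m, rfl⟩
      ⟨m + 1, le_rfl, by rw [Function.iterate_succ_apply']⟩ h1.1), h1.2.2.1.trans ih.2⟩

/-- the right sites are a chain of one colour -/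
theorem right_lk (hS : GP (S : Set ℂ)) (hχ : HullC S χ) {e : ℂ × ℂ} (h : Occ S χ e) (m : ℕ) :
    Lk S (RS S χ e m) e.2 ((nx S χ)^[m] e).2 ∧ χ ((nx S χ)^[m] e).2 = χ e.2 := by
  induction m with
  | zero => exact ⟨Lk.refl ⟨0, le_rfl, rfl⟩, rfl⟩
  | succ m ih =>
    have h1 := nx_step hS (h.it hS hχ m)
    rw [Function.iterate_succ_apply']
    refine ⟨(ih.1.mono (RS_mono (Nat.le_succ m))).trans (lk_de ⟨m, Nat.le_succ m, rfl⟩
      ⟨m + 1, le_rfl, by rw [Function.iterate_succ_apply']⟩ h1.2.1), h1.2.2.2.trans ih.2⟩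

theorem LS_col (hS : GP (S : Set ℂ)) (hχ : HullC S χ) {e : ℂ × ℂ} (h : Occ S χ e) {m : ℕ} {s : ℂ}
    (hs : s ∈ LS S χ e m) : χ s = χ e.1 := by
  obtain ⟨i, -, rfl⟩ := hs
  exact (left_lk hS hχ h i).2

theorem RS_col (hS : GP (S : Set ℂ)) (hχ : HullC S χ) {e : ℂ × ℂ} (h : Occ S χ e) {m : ℕ} {s : ℂ}
    (hs : s ∈ RS S χ e m) : χ s = χ e.2 := by
  obtain ⟨i, -, rfl⟩ := hs
  exact (right_lk hS hχ h i).2

/-- the left sites are linked to the first one -/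
theorem LS_lk (hS : GP (S : Set ℂ)) (hχ : HullC S χ) {e : ℂ × ℂ} (h : Occ S χ e) {m : ℕ} {s : ℂ}
    (hs : s ∈ LS S χ e m) : Lk S (LS S χ e m) e.1 s := by
  obtain ⟨i, hi, rfl⟩ := hs
  exact (left_lk hS hχ h i).1.mono (LS_mono hi)

theorem RS_lk (hS : GP (S : Set ℂ)) (hχ : HullC S χ) {e : ℂ × ℂ} (h : Occ S χ e) {m : ℕ} {s : ℂ}
    (hs : s ∈ RS S χ e m) : Lk S (RS S χ e m) e.2 s := by
  obtain ⟨i, hi, rfl⟩ := hs
  exact (right_lk hS hχ h i).1.mono (RS_mono hi)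

/-- **an arc inside `B`**: the walk from `p` to `q` -/
theorem fa_sets (hS : GP (S : Set ℂ)) (hχ : HullC S χ) {B : Set ℂ} {p q : D0 S}
    (hp : χ p.1.1 + χ p.1.2 = 1) (h : FA (cm0 hS) (xc hS hχ) (RD S B) p q) :
    Occ S χ p.1 ∧ ∃ m, (stp (cm0 hS) (xc hS hχ))^[m] p = q ∧ (nx S χ)^[m] p.1 = q.1 ∧
      LS S χ p.1 m ⊆ B ∧ RS S χ p.1 m ⊆ B := by
  obtain ⟨m, h1, h2⟩ := h
  have key : ∀ i, ((stp (cm0 hS) (xc hS hχ))^[i] p).1 = (nx S χ)^[i] p.1 := it_eq hS hχ hp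
  refine ⟨⟨p.2, hp⟩, m, h1, by rw [← key, h1], ?_, ?_⟩
  · rintro s ⟨i, hi, rfl⟩
    rw [← key]
    exact (h2 i hi).1
  · rintro s ⟨i, hi, rfl⟩
    rw [← key]
    exact (h2 i hi).2

/-! ### the corridor -/

section corr

variable {hS : GP (S : Set ℂ)} {hχ : HullC S χ} {n : ℕ} {y z : ℕ → ℂ} {A B : ℕ → Set ℂ}
  {p : ℕ → D0 S}

theorem stc_col {A : Set ℂ} {a b : ℂ} (h : Relation.ReflTransGen (StC S χ A) a b) : χ a = χ b := by
  induction h with
  | refl => rfl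
  | tail _ h1 ih => exact ih.trans h1.2.1

/-- the colour of the gates -/
theorem col_y (D : DCorr hS hχ n y z A B p) {k : ℕ} (hk : k ≤ n) : χ (y k) = χ (y 0) := by
  induction k with
  | zero => rfl
  | succ k ih => rw [← ih (by omega)]; exact (stc_col (D.link k (by omega))).symm

theorem z1 : ∀ a b : ZMod 2, a + b = 1 → b ≠ a := by decide
theorem z2 : ∀ a b c : ZMod 2, a + b = 1 → a = c → b ≠ c := by decide

theorem col_z (D : DCorr hS hχ n y z A B p) {k : ℕ} (hk : k ≤ n) : χ (z k) ≠ χ (y 0) :=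
  z2 _ _ _ (D.col k hk) (col_y D hk)

theorem occ_p (D : DCorr hS hχ n y z A B p) {k : ℕ} (hk : k ≤ n) : Occ S χ (p k).1 := by
  refine ⟨(p k).2, ?_⟩
  rw [D.st k hk]
  exact D.col k hk

/-- **the arcs of the corridor, walked with decreasing index**: the time from `p (k + 1)` to `p k` -/
structure Back (D : DCorr hS hχ n y z A B p) (t : ℕ → ℕ) : Prop where
  arr : ∀ k, k < n → (nx S χ)^[t k] (p (k + 1)).1 = (p k).1
  lB : ∀ k, k < n → LS S χ (p (k + 1)).1 (t k) ⊆ B k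
  rB : ∀ k, k < n → RS S χ (p (k + 1)).1 (t k) ⊆ B k

theorem exists_back (D : DCorr hS hχ n y z A B p)
    (hb : ∀ k, k < n → FA (cm0 hS) (xc hS hχ) (RD S (B k)) (p (k + 1)) (p k)) :
    ∃ t, Back D t := by
  have h : ∀ k, ∃ m, k < n → (nx S χ)^[m] (p (k + 1)).1 = (p k).1 ∧
      LS S χ (p (k + 1)).1 m ⊆ B k ∧ RS S χ (p (k + 1)).1 m ⊆ B k := by
    intro k
    by_cases hk : k < n
    · obtain ⟨-, m, -, h2, h3, h4⟩ := fa_sets hS hχ (by
        rw [D.st (k + 1) (by omega)]; exact D.col (k + 1) (by omega)) (hb k hk)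
      exact ⟨m, fun _ => ⟨h2, h3, h4⟩⟩
    · exact ⟨0, fun h => absurd h hk⟩
  choose t ht using h
  exact ⟨t, fun k hk => (ht k hk).1, fun k hk => (ht k hk).2.1, fun k hk => (ht k hk).2.2⟩

variable {D : DCorr hS hχ n y z A B p} {t : ℕ → ℕ}

/-- the right sites of an arc are linked to both of its ends -/
theorem Back.rlk (T : Back D t) {k : ℕ} (hk : k < n) {s : ℂ}
    (hs : s ∈ RS S χ (p (k + 1)).1 (t k)) :
    Lk S (RS S χ (p (k + 1)).1 (t k)) (z (k + 1)) s ∧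
      Lk S (RS S χ (p (k + 1)).1 (t k)) (z k) s := by
  have ho := occ_p D (show k + 1 ≤ n by omega)
  have e1 : (p (k + 1)).1.2 = z (k + 1) := by rw [D.st (k + 1) (by omega)]
  have e0 : (p k).1.2 = z k := by rw [D.st k (by omega)]
  have h1 := RS_lk hS hχ ho hs
  have h2 := (right_lk hS hχ ho (t k)).1
  rw [T.arr k hk, e0] at h2
  rw [e1] at h1 h2
  exact ⟨h1, h2.symm.trans h1⟩

/-- the left sites of an arc are linked to both of its ends -/
theorem Back.llk (T : Back D t) {k : ℕ} (hk : k < n) {s : ℂ}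
    (hs : s ∈ LS S χ (p (k + 1)).1 (t k)) :
    Lk S (LS S χ (p (k + 1)).1 (t k)) (y (k + 1)) s ∧
      Lk S (LS S χ (p (k + 1)).1 (t k)) (y k) s := by
  have ho := occ_p D (show k + 1 ≤ n by omega)
  have e1 : (p (k + 1)).1.1 = y (k + 1) := by rw [D.st (k + 1) (by omega)]
  have e0 : (p k).1.1 = y k := by rw [D.st k (by omega)]
  have h1 := LS_lk hS hχ ho hs
  have h2 := (left_lk hS hχ ho (t k)).1
  rw [T.arr k hk, e0] at h2
  rw [e1] at h1 h2
  exact ⟨h1, h2.symm.trans h1⟩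

theorem Back.rcol (_T : Back D t) {k : ℕ} (hk : k < n) {s : ℂ}
    (hs : s ∈ RS S χ (p (k + 1)).1 (t k)) : χ s ≠ χ (y 0) := by
  rw [RS_col hS hχ (occ_p D (show k + 1 ≤ n by omega)) hs, D.st (k + 1) (by omega)]
  exact col_z D (by omega)

theorem Back.lcol (_T : Back D t) {k : ℕ} (hk : k < n) {s : ℂ}
    (hs : s ∈ LS S χ (p (k + 1)).1 (t k)) : χ s = χ (y 0) := by
  rw [LS_col hS hχ (occ_p D (show k + 1 ≤ n by omega)) hs, D.st (k + 1) (by omega)]
  exact col_y D (by omega)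

/-- all sites of the colour of the corridor have the same index -/
theorem Back.idx_left (T : Back D t) {cw : List ℂ} (hl : Loop S cw)
    (hc : ∀ s ∈ cw, χ s ≠ χ (y 0)) {k : ℕ} (hk : k < n) {s : ℂ}
    (hs : s ∈ LS S χ (p (k + 1)).1 (t k)) : asum s cw = asum (y k) cw :=
  (asum_lk hS hl (fun s' hs' h => hc s' h (T.lcol hk hs')) (T.llk hk hs).2).symm

theorem idx_y (D : DCorr hS hχ n y z A B p) {cw : List ℂ} (hl : Loop S cw)
    (hc : ∀ s ∈ cw, χ s ≠ χ (y 0)) {k : ℕ} (hk : k ≤ n) : asum (y k) cw = asum (y 0) cw := by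
  induction k with
  | zero => rfl
  | succ k ih =>
    rw [← ih (by omega)]
    have h1 := D.link k (by omega)
    have h0 := col_y D (show k ≤ n by omega)
    symm
    have key : ∀ b, Relation.ReflTransGen (StC S χ (A k)) (y k) b →
        χ b = χ (y 0) ∧ asum (y k) cw = asum b cw := by
      intro b h
      induction h with
      | refl => exact ⟨h0, rfl⟩
      | tail _ h2 ih2 =>
        have h3 := ih2.1
        have h4 := h2.2.1.symm.trans h3
        exact ⟨h4, ih2.2.trans (asum_site hS hl h2.1 (fun h => hc _ h h3) (fun h => hc _ h h4))⟩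
    exact (key _ h1).2

/-- the four links around the gate `k0` -/
theorem links4 (D : DCorr hS hχ n y z A B p) {k0 : ℕ} (h2 : 2 ≤ k0) (h3 : k0 + 2 ≤ n) {G : Set ℂ}
    (hG : ∀ j, k0 ≤ j + 2 → j < k0 + 2 → ∀ s ∈ S, s ∈ A j → χ s = χ (y 0) → s ∈ G) :
    Lk S G (y (k0 - 2)) (y (k0 + 2)) := by
  have one : ∀ j, k0 ≤ j + 2 → j < k0 + 2 → Lk S G (y j) (y (j + 1)) := by
    intro j hj hj'
    have h0 := col_y D (show j ≤ n by omega)
    have key : ∀ b, Relation.ReflTransGen (StC S χ (A j)) (y j) b →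
        χ b = χ (y 0) ∧ Lk S G (y j) b := by
      intro b h
      induction h with
      | refl => exact ⟨h0, Lk.refl (hG j hj hj' _ (D.yS (by omega)) (D.mem0 j (by omega)) h0)⟩
      | tail _ h4 ih =>
        rename_i b1 b2 _
        have h5 := ih.1
        have h6 := h4.2.1.symm.trans h5
        obtain ⟨m1, m2⟩ := de_sites h4.1
        have g1 := hG j hj hj' _ m1 h4.2.2.1 h5
        have g2 := hG j hj hj' _ m2 h4.2.2.2 h6
        exact ⟨h6, ih.2.trans ⟨⟨g1, g2⟩, .single ⟨h4.1, g1, g2⟩⟩⟩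
    exact (key _ (D.link j (by omega))).2
  have e : k0 = k0 - 2 + 2 := by omega
  obtain ⟨k, rfl⟩ : ∃ k, k0 = k + 2 := ⟨k0 - 2, e⟩
  have := (((one k (by omega) (by omega)).trans (one (k + 1) (by omega) (by omega))).trans
    (one (k + 2) (by omega) (by omega))).trans (one (k + 3) (by omega) (by omega))
  exact this

/-- **the closed white chain misses the neck `y k0` and its lower arm** -/
theorem Back.miss (T : Back D t) (hS' : GP (S : Set ℂ)) {k0 : ℕ} (h2 : 2 ≤ k0) (h3 : k0 + 2 ≤ n)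
    {z0 e : ℂ} (he : e ≠ 0) {a0 a1 b0 b1 m x0 x1 : ℝ} {V β : Finset ℂ} {up dn : List ℂ}
    (N : Neck S z0 e a0 a1 b0 b1 m V β up (y k0) dn) (hup : up.getLast N.nu = z k0)
    (h0 : x0 ≤ a0) (h1 : a1 ≤ x1)
    (hβ : ∀ j, k0 ≤ j + 2 → j < k0 + 2 → ∀ s ∈ S, s ∈ A j → χ s = χ (y 0) → s ∈ β)
    (hβ' : ∀ s ∈ β, χ s = χ (y 0))
    (hA : ∀ j, k0 ≤ j + 2 → j < k0 + 2 → ∀ s ∈ S, s ∈ A j → b0 < Y z0 e s ∧ Y z0 e s < b1)
    (hX0 : X z0 e (y (k0 - 2)) ≤ x0) (hX1 : x1 ≤ X z0 e (y (k0 + 2)))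
    (hB : ∀ j, k0 ≤ j + 1 → j < k0 + 1 → ∀ s ∈ S, s ∈ B j → x0 < X z0 e s ∧ X z0 e s < x1)
    (hfar : ∀ j, j < n → j ≠ k0 → j + 1 ≠ k0 → ∀ s ∈ dn, s ∉ B j) {k : ℕ} (hk : k < n) {r : ℂ}
    (hr : r ∈ RS S χ (p (k + 1)).1 (t k)) :
    r ≠ y k0 ∧ r ∉ dn ∧ (k = k0 ∨ k + 1 = k0 → b0 < Y z0 e r) := by
  have hcol := T.rcol hk hr
  have hy : r ≠ y k0 := by
    rintro rfl
    exact hcol (col_y D (by omega))
  by_cases hk0 : k = k0 ∨ k + 1 = k0
  · -- the black chain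
    obtain ⟨P, hP, dP, mP, P0, P1⟩ := lk_to_list (links4 D h2 h3
      (G := {s | s ∈ β ∧ b0 < Y z0 e s ∧ Y z0 e s < b1})
      (fun j hj hj' s hsS hs hc => ⟨hβ j hj hj' s hsS hs hc, hA j hj hj' s hsS hs⟩))
    have hlk : Lk S (RS S χ (p (k + 1)).1 (t k)) (up.getLast N.nu) r := by
      rw [hup]
      rcases hk0 with h | h
      · rw [← h]; exact (T.rlk hk hr).2
      · rw [← h]; exact (T.rlk hk hr).1
    have hWS : ∀ s ∈ RS S χ (p (k + 1)).1 (t k), s ∈ S := by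
      rintro s ⟨i, -, rfl⟩
      have ho := (occ_p D (show k + 1 ≤ n by omega)).it hS hχ i
      have := th_spec ho.1
      exact (mem_delT.1 this).2.1
    obtain ⟨g1, g2⟩ := neck_low hS' he N h0 h1 hP dP (fun s hs => (mP s hs).1)
      (fun s hs => (mP s hs).2) (by rw [P0]; exact hX0) (by rw [P1]; exact hX1)
      (W := RS S χ (p (k + 1)).1 (t k))
      (fun s hs => ⟨hB k (by omega) (by omega) s (hWS s hs) (T.rB k hk hs),
        fun h => T.rcol hk hs (hβ' s h)⟩) hlk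
    exact ⟨hy, g2, fun _ => g1⟩
  · refine ⟨hy, fun h => ?_, fun h => absurd h hk0⟩
    push Not at hk0
    exact hfar k hk hk0.1 hk0.2 r h (T.rB k hk hr)

/-- **the neck and the lower end of its arm have the same index** -/
theorem neck_idx (hS : GP (S : Set ℂ)) {z0 e : ℂ} {a0 a1 b0 b1 m : ℝ} {V β : Finset ℂ}
    {up dn : List ℂ} {y : ℂ} (N : Neck S z0 e a0 a1 b0 b1 m V β up y dn) {cw : List ℂ}
    (hl : Loop S cw) (hy : y ∉ cw) (hd : ∀ s ∈ dn, s ∉ cw) :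
    asum y cw = asum (dn.getLast N.nd) cw := by
  have hadj := N.adj
  rw [← isChain_iff_prs, List.isChain_append] at hadj
  have h1 : Lk S {s | s ∈ y :: dn} y (dn.getLast N.nd) :=
    lk_list ((isChain_iff_prs (R := DE S) (y :: dn)).1 hadj.2.1) (fun s hs => hs) (by simp)
      (List.mem_cons_of_mem _ (List.getLast_mem _))
  refine asum_lk hS hl (fun s hs => ?_) h1
  rcases List.mem_cons.1 hs with h | h
  · rw [h]; exact hy
  · exact hd s h

end corr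

end Crest.Agent.R143.Sepx686
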