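import Crest.Agent.R143.CorH_713
import Crest.Agent.R143.OrientF_881
import Crest.Agent.R143.Sep2_686

/-!
# Row 143 (S0194): orientation of the corridor under `CorH` (helper713)

* `CorH.back` : five straight tiles in the middle ==> all arcs backward (881's `back_path`)
* `CorH.exB` : 686's `Back`
* `CorH.mainB` : 117's `main_back`, value of every arc = `zC`
-/

set_option autoImplicit false
set_option linter.all false

noncomputable section

open scoped Classical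

namespace Crest.Agent.R143.CorHx713

open Set
open Crest.Agent.R143.B0x346 Crest.Agent.R143.DelGx806 Crest.Agent.R143.DelRx806
  Crest.Agent.R143.JColx54
open Crest.Agent.R143.Frame1x395 Crest.Agent.R143.Frame2x395 Crest.Agent.R143.Frame3x395
  Crest.Agent.R143.Frame4x395 Crest.Agent.R143.Frame8x395 Crest.Agent.R143.Frame9x395
  Crest.Agent.R143.Frame10x395 Crest.Agent.R143.Frame11x395
open Crest.Agent.R143.Frame5x395 (sd mem_sd th th_spec)
open Crest.Agent.R143.Locx922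
open Crest.Agent.R143.Splx117 Crest.Agent.R143.WLocx713
open Crest.Agent.R143.Blkx838 (DE)
open Crest.Agent.R143.PP0x831 Crest.Agent.R143.FinMx609
open Crest.Agent.R143.RingDx117 (RD DRing StC StR)
open Crest.Agent.R143.CorrDx117 (DCorr)
open Crest.Agent.R143.TileRx228 Crest.Agent.R143.PathDx503 Crest.Agent.R143.PathGx503
open Crest.Agent.R143.RingPx503 Crest.Agent.R143.DCorGx713 Crest.Agent.R143.DCorFx713
open Crest.Agent.R143.Sepx686 (Back exists_back)

variable {X : Set (ℂ × Bool)} {U : Set ℂ} {M : ℕ} {W : ℤ → ℤ × ℤ} {η d : ℝ} {o : ℤ} {n : ℕ}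

namespace CorH

/-- **all arcs of the corridor are backward** -/
theorem back (H : CorH X U M W η d o n) {k : ℕ} (hk2 : 2 ≤ k) (hkn : k + 2 < n)
    (hs : ∀ j, o + k - 2 ≤ j → j ≤ o + k + 2 → ge W (j + 1) = ge W j) :
    (∀ k, k < n → FA (cm0 H.gp) (xc H.gp H.hull)
      (RD (sX X) (RR (19 / 2 * η) (103 / 2 * η) (100 * η) W (o + k))) (H.p (k + 1)) (H.p k)) ∧
    ∀ k, k < n → ¬ FA (cm0 H.gp) (xc H.gp H.hull)
      (RD (sX X) (RR (19 / 2 * η) (103 / 2 * η) (100 * η) W (o + k))) (H.p k) (H.p (k + 1)) := by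
  have h1 := H.e0
  have e1 : 9 * η + η / 2 = 19 / 2 * η := by ring
  have e2 : 51 * η + η / 2 = 103 / 2 * η := by ring
  have D := H.corr
  rw [← e1, ← e2] at D ⊢
  exact OrientFx881.back_path (b := 1) (β := bX X) (V := sX X) D H.evp H.path (by linarith)
    (by linarith) bX_iff bX_sub le_rfl (by linarith) (by linarith) (by linarith) (k := k)
    (by omega) hs (fun j h2 h3 => ⟨by omega, by omega⟩) (by linarith) (by linarith)
    (by linarith) (by linarith)

/-- **686's `Back`** -/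
theorem exB (H : CorH X U M W η d o n) {k : ℕ} (hk2 : 2 ≤ k) (hkn : k + 2 < n)
    (hs : ∀ j, o + k - 2 ≤ j → j ≤ o + k + 2 → ge W (j + 1) = ge W j) :
    ∃ t, Back H.corr t := exists_back H.corr (H.back hk2 hkn hs).1

/-- **117's `main_back` with the values `zC`**: `k`-th arc = tile `o + (n - 1 - k)` -/
theorem mainB (H : CorH X U M W η d o n) {k : ℕ} (hk2 : 2 ≤ k) (hkn : k + 2 < n)
    (hs : ∀ j, o + k - 2 ≤ j → j ≤ o + k + 2 → ge W (j + 1) = ge W j) :
    ∃ (N : ℕ) (T : ℕ → ℕ), Lp (cm0 H.gp) (xc H.gp H.hull) (H.p n) N ∧ T 0 = 0 ∧ T n < N ∧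
      (∀ k, k < n → T k < T (k + 1)) ∧
      (∀ k, k ≤ n → (stp (cm0 H.gp) (xc H.gp H.hull))^[T k] (H.p n) = H.p (n - k)) ∧
      (∀ k, k < n → ∀ i, T k ≤ i → i ≤ T (k + 1) →
        (stp (cm0 H.gp) (xc H.gp H.hull))^[i] (H.p n) ∈
          RD (sX X) (RR (19 / 2 * η) (103 / 2 * η) (100 * η) W (o + (n - 1 - k : ℕ)))) ∧
      Cut (cm0 H.gp) (xc H.gp H.hull) (H.p n) T 0 n ∧
      ∀ (f : ℂ × ℂ × ℂ → ℂ) (w : D0 (sX X) → ℂ) (k : ℕ), k < n →
        (∀ e : D0 (sX X),
          e.1.2 ∈ RR (19 / 2 * η) (103 / 2 * η) (100 * η) W (o + (n - 1 - k : ℕ)) →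
          th (sX X) e.1 ∈ RR (19 / 2 * η) (103 / 2 * η) (100 * η) W (o + (n - 1 - k : ℕ)) →
          w e = f (e.1.2, th (sX X) e.1, e.1.1)) →
        KS (cm0 H.gp) (xc H.gp H.hull) (H.p n) w (T k) (T (k + 1)) =
          zC f (RR (19 / 2 * η) (103 / 2 * η) (100 * η) W (o + (n - 1 - k : ℕ)))
            (LG (gA η W (o + (n - 1 - k : ℕ) + 1)) (QA η W (o + (n - 1 - k : ℕ) + 1)))
            (LG (gA η W (o + (n - 1 - k : ℕ))) (QA η W (o + (n - 1 - k : ℕ)))) X := by
  obtain ⟨N, T, h1, h2, h3, h4, h5, h6, h7, h8⟩ := H.corr.main_back (H.back hk2 hkn hs).1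
  refine ⟨N, T, h1, h2, h3, h4, h5, h6, h7, fun f w k hk hw => ?_⟩
  rw [h8 w k hk]
  have e : H.p (n - k) = H.st (o + (n - 1 - k : ℕ) + 1) := by
    show H.st (o + (n - k : ℕ)) = _
    congr 1
    omega
  rw [e]
  exact H.val' (o + (n - 1 - k : ℕ)) hw

end CorH

end Crest.Agent.R143.CorHx713
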