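import Crest.Agent.R143.RE0_723
import Crest.Agent.R143.DomC_722

/-!
# Row 143, RSW without E3 (RBE), T3b: labels along the hull (helper838)

* `asc` : between the leftmost and the rightmost hull site, `X` is weakly increasing
* `up` : positions of the thresholds
* `dns`, `hlen`, `hfar`, `near` : the hull of the sites of the big disc
* `hul` : **HUL**
-/

set_option autoImplicit false

noncomputable section

open scoped Classical

namespace Crest.Agent.R143.HULx838

open Set
open Crest.Agent.R143.B0x346 Crest.Agent.R143.B0Dx346 Crest.Agent.R143.DelGx806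
  Crest.Agent.R143.DelRx806 Crest.Agent.R143.DomAx722 Crest.Agent.R143.DomBx722
  Crest.Agent.R143.RE0x723
open Crest.Agent.R143.RB0x838 (LDns)

/-! ### cyclic sequences -/

/-- **unimodality**: between the minimum and the maximum `x` is weakly increasing -/
theorem asc {x y : ℤ → ℝ} {n : ℕ} (px : ∀ i, x (i + n) = x i) (py : ∀ i, y (i + n) = y i)
    (cv : ∀ i j k : ℤ, i < j → j < k → k < i + n →
      0 < (x j - x i) * (y k - y i) - (y j - y i) * (x k - x i)) {m0 m1 : ℤ} (h01 : m0 < m1)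
    (h10 : m1 < m0 + n) (hmin : ∀ i, x m0 ≤ x i) (hmax : ∀ i, x i ≤ x m1) (j : ℤ) (h0 : m0 ≤ j)
    (h1 : j < m1) : x j ≤ x (j + 1) := by
  by_contra hcon
  push Not at hcon
  have e0 : m0 ≠ j := by
    rintro rfl
    exact absurd (hmin (m0 + 1)) (by linarith)
  have e1 : j + 1 ≠ m1 := by
    rintro rfl
    exact absurd (hmax j) (by linarith)
  have a0 : m0 < j := by omega
  have a1 : j + 1 < m1 := by omega
  have c1 := cv j (j + 1) m1 (by omega) a1 (by omega)
  have c2 := cv j (j + 1) (m0 + n) (by omega) (by omega) (by omega)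
  have c3 := cv m0 j m1 a0 (by omega) h10
  rw [px, py] at c2
  have k0 := hmin j
  have k1 := hmax j
  have q1 : 0 ≤ (x m1 - x j) * ((x (j + 1) - x j) * (y m0 - y j) -
      (y (j + 1) - y j) * (x m0 - x j)) := mul_nonneg (by linarith) c2.le
  have q2 : 0 ≤ (x j - x m0) * ((x (j + 1) - x j) * (y m1 - y j) -
      (y (j + 1) - y j) * (x m1 - x j)) := mul_nonneg (by linarith) c1.le
  have q3 : 0 < (x j - x (j + 1)) * ((x j - x m0) * (y m1 - y m0) - (y j - y m0) * (x m1 - x m0)) :=
    mul_pos (by linarith) c3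
  nlinarith

/-- position of a threshold on an increasing piece -/
theorem up {x : ℤ → ℝ} {m0 m1 : ℤ} {t : ℝ} (hm : ∀ j, m0 ≤ j → j < m1 → x j ≤ x (j + 1))
    (h01 : m0 ≤ m1) (h0 : x m0 ≤ t) (h1 : t < x m1) : ∃ p, m0 ≤ p ∧ p < m1 ∧ x p ≤ t ∧
    (∀ k, m0 ≤ k → k ≤ p → x k ≤ t) ∧ (∀ k, p < k → k ≤ m1 → t < x k) := by
  have hmono : ∀ (l : ℕ) (i : ℤ), m0 ≤ i → i + l ≤ m1 → x i ≤ x (i + l) := by
    intro l
    induction l with
    | zero => intro i _ _; simp
    | succ l ih =>
      intro i hi hl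
      have g1 := ih i hi (by push_cast at hl; omega)
      have g2 := hm (i + l) (by omega) (by push_cast at hl; omega)
      have e : i + ((l + 1 : ℕ) : ℤ) = i + l + 1 := by push_cast; ring
      rw [e]
      exact g1.trans g2
  have mono : ∀ i j : ℤ, m0 ≤ i → i ≤ j → j ≤ m1 → x i ≤ x j := by
    intro i j hi hij hj
    have := hmono (j - i).toNat i hi (by omega)
    rwa [show i + ((j - i).toNat : ℤ) = j by omega] at this
  obtain ⟨p, hp, hmax⟩ := Int.exists_greatest_of_bdd (P := fun k => m0 ≤ k ∧ k ≤ m1 ∧ x k ≤ t)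
    ⟨m1, fun z hz => hz.2.1⟩ ⟨m0, le_rfl, h01, h0⟩
  obtain ⟨p0, p1, pt⟩ := hp
  have hpm : p < m1 := by
    rcases lt_or_eq_of_le p1 with h | h
    · exact h
    · subst h; linarith
  refine ⟨p, p0, hpm, pt, fun k hk hkp => (mono k p hk hkp p1).trans pt, fun k hk hk1 => ?_⟩
  by_contra hcon
  push Not at hcon
  have := hmax k ⟨by omega, hk1, hcon⟩
  omega

/-! ### the frame -/

variable {S : Finset ℂ} {z0 u : ℂ} {a b k d : ℝ}

theorem u_ne (hu : ‖u‖ = 1) : u ≠ 0 := by
  rintro rfl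
  simp at hu

theorem ndiv (hu : ‖u‖ = 1) (z : ℂ) : ‖z / u‖ = ‖z‖ := by rw [norm_div, hu, div_one]

theorem X_sub (s t : ℂ) : X z0 u s - X z0 u t = ((s - t) / u).re := by
  unfold X
  rw [← Complex.sub_re]
  congr 1
  ring

theorem Y_sub (s t : ℂ) : Y z0 u s - Y z0 u t = ((s - t) / u).im := by
  unfold Y
  rw [← Complex.sub_im]
  congr 1
  ring

theorem X_diff (hu : ‖u‖ = 1) (s t : ℂ) : |X z0 u s - X z0 u t| ≤ ‖s - t‖ := by
  rw [X_sub, ← ndiv hu]
  exact Complex.abs_re_le_norm _

theorem Y_diff (hu : ‖u‖ = 1) (s t : ℂ) : |Y z0 u s - Y z0 u t| ≤ ‖s - t‖ := by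
  rw [Y_sub, ← ndiv hu]
  exact Complex.abs_im_le_norm _

theorem cr_mul (hu : ‖u‖ = 1) (v w : ℂ) : cr (u * v) (u * w) = cr v w := by
  have h : u.re ^ 2 + u.im ^ 2 = 1 := by rw [← sq_norm, hu, one_pow]
  unfold cr
  simp only [Complex.mul_re, Complex.mul_im]
  linear_combination (v.re * w.im - v.im * w.re) * h

theorem cr_div (hu : ‖u‖ = 1) (v w : ℂ) : cr v w = cr (v / u) (w / u) := by
  rw [← cr_mul hu (v / u) (w / u), mul_div_cancel₀ _ (u_ne hu), mul_div_cancel₀ _ (u_ne hu)]

/-- orientation in the frame -/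
theorem cr_XY (hu : ‖u‖ = 1) (r s s' t : ℂ) : cr (s - r) (t - s') =
    (X z0 u s - X z0 u r) * (Y z0 u t - Y z0 u s') - (Y z0 u s - Y z0 u r) * (X z0 u t - X z0 u s') := by
  rw [cr_div hu, X_sub, X_sub, Y_sub, Y_sub]
  rfl

theorem sq_XY (hu : ‖u‖ = 1) (s t : ℂ) : ‖s - t‖ ^ 2 =
    (X z0 u s - X z0 u t) ^ 2 + (Y z0 u s - Y z0 u t) ^ 2 := by
  rw [← ndiv hu, sq_norm, X_sub, Y_sub]

theorem X_cc (hu : ‖u‖ = 1) : X z0 u (cc z0 u k a b) = 0 := by
  unfold X cc
  rw [add_sub_cancel_left, mul_div_cancel_left₀ _ (u_ne hu)]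
  simp

theorem Y_cc (hu : ‖u‖ = 1) : Y z0 u (cc z0 u k a b) = RR k a b - 3 * b / 4 := by
  unfold Y cc
  rw [add_sub_cancel_left, mul_div_cancel_left₀ _ (u_ne hu)]
  simp

/-! ### the hull -/

/-- hypotheses -/
structure HH (S : Finset ℂ) (z0 u : ℂ) (a b k d : ℝ) : Prop where
  u1 : ‖u‖ = 1
  ha : 0 < a
  hb : 0 < b
  hk : 1 ≤ k
  hab : a ≤ k * b
  ld : LDns S z0 (20 * (1 + k) * (a + b)) d
  db : 100 * d ≤ b

namespace HH

variable (H : HH S z0 u a b k d)

include H

theorem dp : 0 < d := H.ld.dpos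

theorem R16 : 16 * (a + b) ≤ RR k a b := by
  have := H.ha
  have := H.hb
  have := H.hk
  unfold RR
  nlinarith

theorem Rb : 8 * (a + b) ^ 2 ≤ RR k a b * b := by
  have h1 := H.ha
  have h2 := H.hb
  have h3 := H.hab
  unfold RR
  have : (a + b) ≤ (1 + k) * b := by linarith
  nlinarith [mul_le_mul_of_nonneg_left this (show 0 ≤ 8 * (a + b) by linarith)]

theorem cdist : ‖cc z0 u k a b - z0‖ ≤ RR k a b := by
  have h := H.R16
  have h1 := H.ha
  have h2 := H.hb
  unfold cc
  rw [add_sub_cancel_left, norm_mul, H.u1, one_mul, norm_mul, Complex.norm_I, mul_one,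
    Complex.norm_real, Real.norm_eq_abs, abs_of_nonneg (by linarith)]
  linarith

/-- the sites of the big disc are dense -/
theorem dns : Dns (SS S z0 u k a b) (cc z0 u k a b) (RR k a b) d where
  gp := gp_mono (by
    intro s hs
    exact Finset.mem_coe.2 (Finset.mem_filter.1 (Finset.mem_coe.1 hs)).1) H.ld.gp
  dpos := H.dp
  dL := by
    have h := H.R16
    have h1 := H.ha
    have h2 := H.hb
    have h3 := H.db
    linarith
  sub := fun s hs => (Finset.mem_filter.1 hs).2
  hole := fun z hz => by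
    have h := H.R16
    have h1 := H.ha
    have h2 := H.hb
    have h3 := H.dp
    have h4 := H.cdist
    have hk := H.hk
    obtain ⟨s, hs, hd⟩ := H.ld.hole z (by
      have h5 : ‖z - z0‖ ≤ ‖z - cc z0 u k a b‖ + ‖cc z0 u k a b - z0‖ := by
        have := norm_add_le (z - cc z0 u k a b) (cc z0 u k a b - z0)
        rwa [sub_add_sub_cancel] at this
      have h6 : 2 * RR k a b ≤ 20 * (1 + k) * (a + b) := by
        unfold RR
        nlinarith
      linarith)
    refine ⟨s, Finset.mem_filter.2 ⟨hs, ?_⟩, hd⟩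
    have := norm_add_le (s - z) (z - cc z0 u k a b)
    rw [sub_add_sub_cancel] at this
    linarith

theorem hlen {x y : ℂ} (h : hullE (SS S z0 u k a b) x y) :
    ‖y - x‖ ≤ 4 * Real.sqrt (RR k a b * d) := edge_len H.dns h

theorem hfar {x y : ℂ} (h : hullE (SS S z0 u k a b) x y) :
    RR k a b - 2 * d ≤ ‖x - cc z0 u k a b‖ := (hull_far H.dns h).1

/-- a hull site near every direction -/
theorem near {n : ℕ} {w : ℤ → ℂ} (hc : HullCyc (SS S z0 u k a b) n w) {q : ℂ} (hq : ‖q‖ = 1) :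
    ∃ i, ‖w i - (cc z0 u k a b + RR k a b * q)‖ ≤ 6 * Real.sqrt (RR k a b * d) := by
  obtain ⟨p, hp⟩ := crossRay_exists H.dns hq
  have h1 := crossRay_near H.dns hq hp
  have h2 := H.hlen hp.1
  obtain ⟨i, -, -, hi, -⟩ := hc.all _ _ hp.1
  refine ⟨i, ?_⟩
  rw [hi]
  have e : p.1 - (cc z0 u k a b + RR k a b * q) = (mid p - (cc z0 u k a b + RR k a b * q)) -
      (1 / 2 : ℂ) * (p.2 - p.1) := by
    unfold mid
    ring
  rw [e]
  have h3 : ‖(1 / 2 : ℂ) * (p.2 - p.1)‖ ≤ 2 * Real.sqrt (RR k a b * d) := by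
    rw [norm_mul]
    have : ‖(1 / 2 : ℂ)‖ = 1 / 2 := by simp
    rw [this]
    linarith
  have := norm_sub_le (mid p - (cc z0 u k a b + RR k a b * q)) ((1 / 2 : ℂ) * (p.2 - p.1))
  linarith

/-- a hull site in the middle, on an edge which goes to the right, is at the bottom -/
theorem bot {x y : ℂ} (h : hullE (SS S z0 u k a b) x y) (hx : |X z0 u x| ≤ a + b)
    (hxy : X z0 u x ≤ X z0 u y) : Y z0 u x < -(b / 2) := by
  have h0 := H.R16
  have h1 := H.ha
  have h2 := H.hb
  have h3 := H.dp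
  have h4 := H.db
  have hRb := H.Rb
  have e1 := edge_dist H.dns h
  have e2 := H.hfar h
  have e3 := sq_XY (z0 := z0) H.u1 x (cc z0 u k a b)
  rw [cr_XY (z0 := z0) H.u1] at e1
  rw [X_cc H.u1, Y_cc H.u1] at e1 e3
  have e4 := (Y_diff (z0 := z0) H.u1 y x)
  have hn : 0 < ‖y - x‖ := norm_pos_iff.2 (sub_ne_zero.2 (hullE.ne h).symm)
  set R := RR k a b with hR
  set xx := X z0 u x with hxx
  set yy := Y z0 u x with hyy
  have hs : yy < R - 3 * b / 4 := by
    by_contra hcon
    push Not at hcon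
    have g1 : (X z0 u y - xx) * (R - 3 * b / 4 - yy) ≤ 0 :=
      mul_nonpos_of_nonneg_of_nonpos (by linarith) (by linarith)
    have g2 : (Y z0 u y - yy) * xx ≤ ‖y - x‖ * (a + b) := by
      calc (Y z0 u y - yy) * xx ≤ |(Y z0 u y - yy) * xx| := le_abs_self _
        _ = |Y z0 u y - yy| * |xx| := abs_mul _ _
        _ ≤ ‖y - x‖ * (a + b) := mul_le_mul e4 hx (abs_nonneg _) hn.le
    have g3 : (R - 2 * d) * ‖y - x‖ ≤ (a + b) * ‖y - x‖ := by linarith
    have g4 := le_of_mul_le_mul_right g3 hn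
    linarith
  by_contra hcon
  push Not at hcon
  have g1 : (R - 2 * d) ^ 2 ≤ ‖x - cc z0 u k a b‖ ^ 2 :=
    pow_le_pow_left₀ (by linarith) e2 2
  have g2 : xx ^ 2 ≤ (a + b) ^ 2 := by
    rw [← sq_abs]
    exact pow_le_pow_left₀ (abs_nonneg _) hx 2
  have g3 : (yy - (R - 3 * b / 4)) ^ 2 ≤ (R - b / 4) ^ 2 := by
    apply sq_le_sq'
    · linarith
    · linarith
  have g4 : (R - 2 * d) ^ 2 ≤ (a + b) ^ 2 + (R - b / 4) ^ 2 := by
    have : (xx - 0) ^ 2 = xx ^ 2 := by ring
    rw [e3, this] at g1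
    linarith
  have g5 : R * (100 * d) ≤ R * b := mul_le_mul_of_nonneg_left h4 (by linarith)
  have g6 : b ^ 2 ≤ (a + b) ^ 2 := pow_le_pow_left₀ h2.le (by linarith) 2
  nlinarith [sq_nonneg d]

/-- a hull site in the middle, on an edge which goes to the left, is at the top -/
theorem top {x y : ℂ} (h : hullE (SS S z0 u k a b) x y) (hx : |X z0 u x| ≤ a + b)
    (hxy : X z0 u y ≤ X z0 u x) : b / 2 ≤ Y z0 u x := by
  have h0 := H.R16
  have h1 := H.ha
  have h2 := H.hb
  have h3 := H.dp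
  have h4 := H.db
  have e1 := edge_dist H.dns h
  rw [cr_XY (z0 := z0) H.u1] at e1
  rw [X_cc H.u1, Y_cc H.u1] at e1
  have e4 := (Y_diff (z0 := z0) H.u1 y x)
  have hn : 0 < ‖y - x‖ := norm_pos_iff.2 (sub_ne_zero.2 (hullE.ne h).symm)
  set R := RR k a b with hR
  set xx := X z0 u x with hxx
  set yy := Y z0 u x with hyy
  by_contra hcon
  push Not at hcon
  have g1 : (X z0 u y - xx) * (R - 3 * b / 4 - yy) ≤ 0 :=
    mul_nonpos_of_nonpos_of_nonneg (by linarith) (by linarith)
  have g2 : (Y z0 u y - yy) * xx ≤ ‖y - x‖ * (a + b) := by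
    calc (Y z0 u y - yy) * xx ≤ |(Y z0 u y - yy) * xx| := le_abs_self _
      _ = |Y z0 u y - yy| * |xx| := abs_mul _ _
      _ ≤ ‖y - x‖ * (a + b) := mul_le_mul e4 hx (abs_nonneg _) hn.le
  have g3 : (R - 2 * d) * ‖y - x‖ ≤ (a + b) * ‖y - x‖ := by linarith
  have g4 := le_of_mul_le_mul_right g3 hn
  linarith

end HH

/-! ### the positions -/

/-- the minimum of a periodic sequence -/
theorem exists_min {x : ℤ → ℝ} {n : ℕ} (hn : 0 < n) (px : ∀ i, x (i + n) = x i) :
    ∃ m, ∀ i, x m ≤ x i := by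
  have hnz : (0 : ℤ) < n := by exact_mod_cast hn
  obtain ⟨m, -, hm⟩ := Finset.exists_min_image (Finset.Ico (0 : ℤ) n) x
    ⟨0, Finset.mem_Ico.2 ⟨le_rfl, hnz⟩⟩
  refine ⟨m, fun i => ?_⟩
  have := hm (i % n) (Finset.mem_Ico.2 ⟨Int.emod_nonneg _ hnz.ne', Int.emod_lt_of_pos _ hnz⟩)
  rwa [mod_per hn px] at this

/-- translation into a period -/
theorem exists_mod {x : ℤ → ℝ} {n : ℕ} (hn : 0 < n) (px : ∀ i, x (i + n) = x i) (m0 i : ℤ) :
    ∃ j, m0 ≤ j ∧ j < m0 + n ∧ x j = x i := by
  have hnz : (0 : ℤ) < n := by exact_mod_cast hn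
  refine ⟨m0 + (i - m0) % n, ?_, ?_, ?_⟩
  · have := Int.emod_nonneg (i - m0) hnz.ne'
    omega
  · have := Int.emod_lt_of_pos (i - m0) hnz
    omega
  · have h := mod_per (X := ℝ) (w := fun j => x (m0 + j)) hn (fun j => by
      rw [← add_assoc]; exact px _) (i - m0)
    rw [h]
    congr 1
    ring

/-- **positions of the thresholds along a cyclic sequence** -/
theorem pos {x y : ℤ → ℝ} {n : ℕ} (hn : 0 < n) (px : ∀ i, x (i + n) = x i)
    (py : ∀ i, y (i + n) = y i)
    (cv : ∀ i j k : ℤ, i < j → j < k → k < i + n →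
      0 < (x j - x i) * (y k - y i) - (y j - y i) * (x k - x i)) {e : ℝ}
    (he : ∀ i, |x (i + 1) - x i| ≤ e) {N : ℕ} (hN : 0 < N) {g : ℕ → ℝ}
    (hg : ∀ j, 1 ≤ j → j ≤ N → g j + e < g (j + 1)) {i0 i1 : ℤ}
    (hi0 : x i0 ≤ g 1) (hi1 : g (N + 1) < x i1) :
    ∃ p : ℕ → ℤ, (∀ j, j ≤ N + 1 → p j < p (j + 1)) ∧ p (N + 2) < p 0 + n ∧
      (∀ i, p 0 < i → i ≤ p 1 → x i ≤ g 1) ∧
      (∀ j, 1 ≤ j → j ≤ N → ∀ i, p j < i → i ≤ p (j + 1) →
        g j < x i ∧ x i ≤ g (j + 1) ∧ x i ≤ x (i + 1)) ∧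
      (∀ i, p (N + 1) < i → i ≤ p (N + 2) → g (N + 1) < x i) ∧
      (∀ i, p (N + 2) < i → i ≤ p 0 + n → g 1 < x i ∧ x i ≤ g (N + 1) ∧ x (i + 1) ≤ x i) := by
  have hnz : (0 : ℤ) < n := by exact_mod_cast hn
  have he0 : 0 ≤ e := (abs_nonneg _).trans (he 0)
  have gm : ∀ l : ℕ, ∀ j, 1 ≤ j → j + l ≤ N + 1 → g j ≤ g (j + l) := by
    intro l
    induction l with
    | zero => intro j _ _; exact le_rfl
    | succ l ih =>
      intro j hj hl
      have := ih j hj (by omega)
      have h2 := hg (j + l) (by omega) (by omega)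
      have : g (j + (l + 1)) = g (j + l + 1) := rfl
      linarith [this]
  have gm' : ∀ i j, 1 ≤ i → i ≤ j → j ≤ N + 1 → g i ≤ g j := fun i j hi hij hj => by
    have := gm (j - i) i hi (by omega)
    rwa [Nat.add_sub_cancel' hij] at this
  have g1N : g 1 < g (N + 1) := by
    have h1 := gm' 1 N le_rfl (by omega) (by omega)
    have h2 := hg N (by omega) le_rfl
    linarith
  obtain ⟨m0, hm0⟩ := exists_min hn px
  obtain ⟨m1', hm1'⟩ := exists_min (x := fun i => -x i) hn (fun i => by rw [px])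
  obtain ⟨m1, hm1a, hm1b, hm1c⟩ := exists_mod hn px m0 m1'
  have hm1 : ∀ i, x i ≤ x m1 := fun i => by
    have := hm1' i
    rw [hm1c]
    linarith
  have hlt : x m0 < x m1 := by
    have := hm0 i0
    have := hm1 i1
    linarith
  have h01 : m0 < m1 := by
    rcases lt_or_eq_of_le hm1a with h | h
    · exact h
    · rw [h] at hlt
      exact absurd hlt (lt_irrefl _)
  -- ascending and descending
  have as := asc px py cv h01 hm1b hm0 hm1
  have ds : ∀ j, m1 ≤ j → j < m0 + n → x (j + 1) ≤ x j := by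
    intro j h1 h2
    have := asc (x := fun i => -x i) (y := fun i => -y i) (n := n) (fun i => by rw [px])
      (fun i => by rw [py]) (fun i j k hij hjk hki => by
        have := cv i j k hij hjk hki
        nlinarith) (m0 := m1) (m1 := m0 + n) hm1b (by omega) (fun i => by
          have := hm1 i
          linarith) (fun i => by
          have := hm0 i
          rw [px]
          linarith) j h1 h2
    linarith
  -- thresholds
  have hU : ∀ j, 1 ≤ j → j ≤ N + 1 → ∃ p, m0 ≤ p ∧ p < m1 ∧ x p ≤ g j ∧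
      (∀ k, m0 ≤ k → k ≤ p → x k ≤ g j) ∧ (∀ k, p < k → k ≤ m1 → g j < x k) := by
    intro j h1 h2
    refine up as h01.le ?_ ?_
    · have := hm0 i0
      have := gm' 1 j le_rfl h1 h2
      linarith
    · have := hm1 i1
      have := gm' j (N + 1) h1 h2 le_rfl
      linarith
  have hD : ∀ j, 1 ≤ j → j ≤ N + 1 → ∃ p, m1 ≤ p ∧ p < m0 + n ∧ g j < x p ∧
      (∀ k, m1 ≤ k → k ≤ p → g j < x k) ∧ (∀ k, p < k → k ≤ m0 + n → x k ≤ g j) := by
    intro j h1 h2
    -- least index with `x ≤ g j`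
    obtain ⟨p, ⟨p0, p1, pt⟩, hmin⟩ := Int.exists_least_of_bdd
      (P := fun k => m1 ≤ k ∧ k ≤ m0 + n ∧ x k ≤ g j) ⟨m1, fun z hz => hz.1⟩
      ⟨m0 + n, by omega, le_rfl, by
        rw [px]
        have := hm0 i0
        have := gm' 1 j le_rfl h1 h2
        linarith⟩
    have hpm : m1 < p := by
      rcases lt_or_eq_of_le p0 with h | h
      · exact h
      · subst h
        have := hm1 i1
        have := gm' j (N + 1) h1 h2 le_rfl
        linarith
    have hless : ∀ k, m1 ≤ k → k ≤ p - 1 → g j < x k := by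
      intro k hk hkp
      by_contra hcon
      push Not at hcon
      have := hmin k ⟨hk, by omega, hcon⟩
      omega
    refine ⟨p - 1, by omega, by omega, hless _ (by omega) le_rfl, hless, ?_⟩
    have : ∀ l : ℕ, p + l ≤ m0 + n → x (p + l) ≤ g j := by
      intro l
      induction l with
      | zero => intro _; simpa using pt
      | succ l ih =>
        intro hl
        have g1 := ih (by push_cast at hl; omega)
        have g2 := ds (p + l) (by omega) (by push_cast at hl; omega)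
        have e : p + ((l + 1 : ℕ) : ℤ) = p + l + 1 := by push_cast; ring
        rw [e]
        exact g2.trans g1
    intro k hk hk2
    have := this (k - p).toNat (by omega)
    rwa [show p + ((k - p).toNat : ℤ) = k by omega] at this
  choose! U U0 U1 Ux Ul Ug using hU
  choose! D D0 D1 Dx Dg Dl using hD
  refine ⟨fun j => if j = 0 then D 1 - n else if j = N + 2 then D (N + 1) else U j, ?_, ?_, ?_, ?_,
    ?_, ?_⟩
  · intro j hj
    dsimp only
    rcases Nat.eq_zero_or_pos j with rfl | hj0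
    · rw [if_pos rfl, if_neg (by omega), if_neg (by omega)]
      have h1 := D1 1 le_rfl (by omega)
      have h2 := U0 1 le_rfl (by omega)
      change D 1 - n < U 1
      omega
    rw [if_neg (by omega), if_neg (by omega), if_neg (by omega)]
    rcases Nat.lt_or_ge j (N + 1) with h | h
    · rw [if_neg (by omega)]
      by_contra hcon
      push Not at hcon
      have h1 := U1 j hj0 hj
      have h2 := Ug (j + 1) (by omega) (by omega) (U j + 1) (by omega) (by omega)
      have h3 := Ux j hj0 hj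
      have h4 := he (U j)
      have h5 := le_abs_self (x (U j + 1) - x (U j))
      have h6 := hg j hj0 (by omega)
      linarith
    · have : j = N + 1 := by omega
      subst this
      rw [if_pos rfl]
      have := D0 (N + 1) (by omega) le_rfl
      have := U1 (N + 1) (by omega) le_rfl
      omega
  · dsimp only
    rw [if_neg (by omega), if_pos rfl, if_pos rfl, sub_add_cancel]
    by_contra hcon
    push Not at hcon
    have h1 := D1 (N + 1) (by omega) le_rfl
    have h2 := Dl 1 le_rfl (by omega) (D (N + 1) + 1) (by omega) (by omega)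
    have h3 := Dx (N + 1) (by omega) le_rfl
    have h4 := he (D (N + 1))
    have h5 := neg_abs_le (x (D (N + 1) + 1) - x (D (N + 1)))
    have h6 := hg 1 le_rfl (by omega)
    have h7 := gm' 2 (N + 1) (by omega) (by omega) le_rfl
    have h8 : g (1 + 1) = g 2 := rfl
    rw [h8] at h6
    linarith
  · dsimp only
    rw [if_pos rfl, if_neg (by omega), if_neg (by omega)]
    intro i h1 h2
    by_cases h3 : m0 ≤ i
    · exact Ul 1 le_rfl (by omega) i h3 h2
    · have := Dl 1 le_rfl (by omega) (i + n) (by omega) (by omega)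
      rwa [px] at this
  · intro j h1 h2
    dsimp only
    rw [if_neg (by omega), if_neg (by omega), if_neg (by omega), if_neg (by omega)]
    intro i h3 h4
    have k1 := U0 j h1 (by omega)
    have k2 := U1 (j + 1) (by omega) (by omega)
    exact ⟨Ug j h1 (by omega) i h3 (by omega), Ul (j + 1) (by omega) (by omega) i (by omega) h4,
      as i (by omega) (by omega)⟩
  · dsimp only
    rw [if_neg (by omega), if_neg (by omega), if_neg (by omega), if_pos rfl]
    intro i h1 h2
    by_cases h3 : i ≤ m1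
    · exact Ug (N + 1) (by omega) le_rfl i h1 h3
    · exact Dg (N + 1) (by omega) le_rfl i (by omega) h2
  · dsimp only
    rw [if_neg (by omega), if_pos rfl, if_pos rfl]
    intro i h1 h2
    have k1 := D0 (N + 1) (by omega) le_rfl
    have k2 := D1 1 le_rfl (by omega)
    exact ⟨Dg 1 le_rfl (by omega) i (by omega) (by omega),
      Dl (N + 1) (by omega) le_rfl i h1 (by omega), ds i (by omega) (by omega)⟩

/-! ### HUL -/

theorem hh_pos (K : ℕ) (hb : 0 < b) : 0 < hh K b := by
  unfold hh MM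
  positivity

theorem xj_succ (K j : ℕ) : xj K a b (j + 1) = xj K a b j + hh K b := by
  unfold xj
  push_cast
  ring

theorem xj_one (K : ℕ) : xj K a b 1 = -(a + b / 4) := by
  unfold xj
  push_cast
  ring

/-- **HUL** -/
theorem hul : HUL := by
  intro k hk K hK
  refine ⟨1 / (32768 * (1 + k) ^ 2 * (MM K : ℝ) ^ 2), ?_, ?_⟩
  · have : (0 : ℝ) < MM K := by unfold MM; positivity
    positivity
  intro S z0 u a b d N hu ha hb hab hba hld hd hN
  have hM : (3 : ℝ) ≤ MM K := by
    have : 3 ≤ MM K := by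
      unfold MM
      have : 1 ≤ 4 ^ K := Nat.one_le_pow _ _ (by norm_num)
      omega
    exact_mod_cast this
  have hd' : d * (32768 * (1 + k) ^ 2 * (MM K : ℝ) ^ 2) ≤ b := by
    have h0 : (0 : ℝ) < 32768 * (1 + k) ^ 2 * (MM K : ℝ) ^ 2 := by positivity
    rw [one_div, mul_comm, ← div_eq_mul_inv] at hd
    rwa [le_div_iff₀ h0] at hd
  have hdp := hld.dpos
  have hkM : 1 ≤ (1 + k) ^ 2 * (MM K : ℝ) ^ 2 := by
    have h1 : 1 ≤ (1 + k) ^ 2 := by nlinarith
    have h2 : 1 ≤ (MM K : ℝ) ^ 2 := by nlinarith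
    nlinarith
  have H : HH S z0 u a b k d := ⟨hu, ha, hb, hk, hab, hld, by nlinarith⟩
  obtain ⟨n, w, hc⟩ := hull_cycle H.dns.gp H.dns.card
  have h16 := H.R16
  have hhp := hh_pos (b := b) K hb
  -- the edges are shorter than half of a segment
  have hsq : Real.sqrt (RR k a b * d) ≤ hh K b / 8 := by
    apply Real.sqrt_le_iff.2
    refine ⟨by positivity, ?_⟩
    have h1 : RR k a b ≤ 8 * (1 + k) ^ 2 * b := by
      unfold RR
      have : a + b ≤ (1 + k) * b := by linarith
      nlinarith [mul_le_mul_of_nonneg_left this (show (0 : ℝ) ≤ 8 * (1 + k) by linarith)]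
    have h2 : RR k a b * d ≤ 8 * (1 + k) ^ 2 * b * d := mul_le_mul_of_nonneg_right h1 hdp.le
    have h3 : 8 * (1 + k) ^ 2 * b * d * (4096 * (MM K : ℝ) ^ 2) ≤ b ^ 2 := by nlinarith
    unfold hh
    have h4 : (b / (8 * (MM K : ℝ)) / 8) ^ 2 = b ^ 2 / (4096 * (MM K : ℝ) ^ 2) := by
      field_simp
      norm_num
    rw [h4]
    refine h2.trans ?_
    rw [le_div_iff₀ (by positivity)]
    exact h3
  set x : ℤ → ℝ := fun i => X z0 u (w i) with hx
  set y : ℤ → ℝ := fun i => Y z0 u (w i) with hy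
  have hhb : 24 * hh K b ≤ b := by
    unfold hh
    rw [← mul_div_assoc, div_le_iff₀ (by linarith)]
    nlinarith
  obtain ⟨i0, hi0⟩ := H.near hc (q := -u) (by rw [norm_neg, hu])
  obtain ⟨i1, hi1⟩ := H.near hc (q := u) hu
  have hN0 : 0 < N := by
    have := hN.MN
    have h3 : 3 ≤ MM K := by exact_mod_cast hM
    omega
  obtain ⟨p, P1, P2, P3, P4, P5, P6⟩ := pos (x := x) (y := y) (n := n) hc.pos
    (fun i => by rw [hx]; dsimp only; rw [hc.per]) (fun i => by rw [hy]; dsimp only; rw [hc.per])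
    (fun i j k hij hjk hki => by
      have := hc.conv i j k hij hjk hki
      rwa [cr_XY (z0 := z0) hu] at this) (e := hh K b / 2) (fun i => by
      have h1 := X_diff (z0 := z0) hu (w (i + 1)) (w i)
      have h2 := H.hlen (hc.edge i)
      rw [hx]
      dsimp only
      linarith) hN0 (g := xj K a b) (fun j _ _ => by
      rw [xj_succ]
      linarith) (i0 := i0) (i1 := i1) (by
      have h1 := X_diff (z0 := z0) hu (w i0) (cc z0 u k a b + RR k a b * -u)
      have h2 : X z0 u (cc z0 u k a b + RR k a b * -u) = - RR k a b := by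
        have := X_sub (z0 := z0) (u := u) (cc z0 u k a b + RR k a b * -u) (cc z0 u k a b)
        have e : ((RR k a b : ℂ) * -u) / u = ((-RR k a b : ℝ) : ℂ) := by
          rw [mul_neg, neg_div, mul_div_cancel_right₀ _ (u_ne hu)]
          push_cast
          rfl
        rw [X_cc hu, add_sub_cancel_left, e, Complex.ofReal_re, sub_zero] at this
        exact this
      rw [h2] at h1
      have h3 := le_abs_self (X z0 u (w i0) - -RR k a b)
      rw [xj_one, hx]
      dsimp only
      linarith) (by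
      have h1 := X_diff (z0 := z0) hu (w i1) (cc z0 u k a b + RR k a b * u)
      have h2 : X z0 u (cc z0 u k a b + RR k a b * u) = RR k a b := by
        have := X_sub (z0 := z0) (u := u) (cc z0 u k a b + RR k a b * u) (cc z0 u k a b)
        rw [X_cc hu, add_sub_cancel_left, mul_div_cancel_right₀ _ (u_ne hu)] at this
        simp only [Complex.ofReal_re] at this
        linarith
      rw [h2] at h1
      have h3 := neg_abs_le (X z0 u (w i1) - RR k a b)
      have h4 := hN.xr
      rw [hx]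
      dsimp only
      linarith)
  have hxr := hN.xr
  refine ⟨n, w, p, hc, P1, P2, ?_, ?_⟩
  · intro j hj i h1 h2
    unfold Lab
    rcases Nat.eq_zero_or_pos j with rfl | hj0
    · rw [if_pos rfl]
      exact P3 i h1 h2
    rw [if_neg (by omega)]
    by_cases hjN : j = N + 1
    · subst hjN
      rw [if_pos rfl]
      exact P5 i h1 h2
    rw [if_neg hjN, if_neg (by omega)]
    obtain ⟨k1, k2, k3⟩ := P4 j hj0 (by omega) i h1 h2
    refine ⟨k1, k2, H.bot (hc.edge i) ?_ k3⟩
    have g : ∀ l : ℕ, -(a + b / 4) ≤ xj K a b (l + 1) := by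
      intro l
      unfold xj
      push_cast
      have : 0 ≤ (l : ℝ) * hh K b := by positivity
      linarith
    have g1 := g (j - 1)
    rw [Nat.sub_add_cancel hj0] at g1
    have g2 : xj K a b (j + 1) ≤ xj K a b (N + 1) := by
      unfold xj
      push_cast
      have : (j : ℝ) ≤ N := by exact_mod_cast (show j ≤ N by omega)
      nlinarith
    rw [abs_le]
    constructor <;> linarith
  · intro i h1 h2
    unfold Lab
    rw [if_neg (by omega), if_neg (by omega), if_pos rfl]
    obtain ⟨k1, k2, k3⟩ := P6 i h1 h2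
    refine ⟨k1, k2, H.top (hc.edge i) ?_ k3⟩
    rw [xj_one] at k1
    rw [abs_le]
    constructor <;> linarith

end Crest.Agent.R143.HULx838
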