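import Crest.Agent.R143.SSb_930
import Crest.Agent.R143.HUL_838
import Crest.Agent.R143.G6W_723

/-!
# Row 143, RSW without E3 (RBE), T3a: straight walks in the big disc (helper838)

* `pth_of_set` : a connected set gives a chain of sites
* `walkB`, `walkT` : a site below (above) the strip is joined to the hull below (above) the strip
-/

set_option autoImplicit false

noncomputable section

open scoped Classical

namespace Crest.Agent.R143.REwx838

open Set
open Crest.ProbabilityR.Voronoi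
open Crest.Agent.R143.B0x346 Crest.Agent.R143.B0Dx346 Crest.Agent.R143.DelGx806
  Crest.Agent.R143.DelRx806 Crest.Agent.R143.DomAx722 Crest.Agent.R143.JColx54
  Crest.Agent.R143.RE0x723 Crest.Agent.R143.G6Tx408 Crest.Agent.R143.G6Vx408
open Crest.Agent.R143.RB0x838 (LDns)
open Crest.Agent.R143.HULx838 (HH u_ne)

/-- **a connected set gives a chain of sites** -/
theorem pth_of_set {T : Finset ℂ} (gp : GP (T : Set ℂ)) (h3 : 3 ≤ T.card) {C : Set ℂ}
    (hC : IsPreconnected C) {V : Set ℂ} {x y z1 z2 : ℂ} (hx : x ∈ T) (hy : y ∈ T)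
    (h1 : z1 ∈ C ∧ z1 ∈ voronoiCell (T : Set ℂ) x) (h2 : z2 ∈ C ∧ z2 ∈ voronoiCell (T : Set ℂ) y)
    (hV : ∀ s ∈ T, (C ∩ voronoiCell (T : Set ℂ) s).Nonempty → s ∈ V) : Pth T V x y := by
  have h := G6Wx723.chain_of_conn_fin gp h3 hC hx hy ⟨z1, h1⟩ ⟨z2, h2⟩
  refine ⟨hV x hx ⟨z1, h1⟩, ?_⟩
  refine Relation.ReflTransGen.mono ?_ _ _ h
  rintro p q ⟨g1, z, g2, g3⟩
  refine ⟨g1, hV q ?_ ⟨z, g3, G6Wx723.vedge_sub_cell' g2⟩⟩
  rcases g1 with ⟨c, hc⟩ | ⟨c, hc⟩
  · obtain ⟨o, hc⟩ := mem_delT_iff.1 hc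
    exact hc.mb
  · obtain ⟨o, hc⟩ := mem_delT_iff.1 hc
    exact hc.ma

/-- a site whose cell contains a point of the disc is near the point -/
theorem cell_near {T : Finset ℂ} {c : ℂ} {L d : ℝ} (hD : Dns T c L d) {z s : ℂ}
    (hz : ‖z - c‖ ≤ L) (hs : z ∈ voronoiCell (T : Set ℂ) s) : ‖s - z‖ < 2 * d := by
  have hd := hD.dpos
  have hL := hD.dL
  by_cases h : ‖z - c‖ ≤ L - d
  · obtain ⟨t, ht, h1⟩ := hD.hole z h
    have := hs t (Finset.mem_coe.2 ht)
    rw [norm_sub_rev s z]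
    rw [norm_sub_rev z t] at this
    linarith
  · push Not at h
    have hp : 0 < ‖z - c‖ := by linarith
    have hz0 : (‖z - c‖ : ℂ) ≠ 0 := by exact_mod_cast hp.ne'
    set z' : ℂ := c + (((1 - d / ‖z - c‖ : ℝ)) : ℂ) * (z - c) with hz'
    have e1 : ‖z' - c‖ = ‖z - c‖ - d := by
      rw [hz', add_sub_cancel_left, norm_mul, Complex.norm_real, Real.norm_eq_abs, abs_of_nonneg]
      · field_simp
      · rw [sub_nonneg, div_le_one hp]
        linarith
    have e2 : ‖z' - z‖ = d := by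
      have : z' - z = ((-(d / ‖z - c‖) : ℝ) : ℂ) * (z - c) := by
        rw [hz']
        push_cast
        ring
      rw [this, norm_mul, Complex.norm_real, Real.norm_eq_abs, abs_neg, abs_of_pos (by positivity)]
      field_simp
    obtain ⟨t, ht, h1⟩ := hD.hole z' (by rw [e1]; linarith)
    have g1 := hs t (Finset.mem_coe.2 ht)
    have g2 := norm_add_le (t - z') (z' - z)
    rw [sub_add_sub_cancel] at g2
    rw [norm_sub_rev s z]
    rw [norm_sub_rev z t] at g1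
    linarith

theorem self_cell {T : Finset ℂ} (x : ℂ) : x ∈ voronoiCell (T : Set ℂ) x := by
  intro s _
  rw [sub_self, norm_zero]
  exact norm_nonneg _

/-- walk along a segment in the disc -/
theorem pseg {T : Finset ℂ} {c : ℂ} {L d : ℝ} (hD : Dns T c L d) {p1 p2 x y : ℂ} {V : Set ℂ}
    (hx : x ∈ T) (hy : y ∈ T) (h1 : ‖p1 - c‖ ≤ L) (h2 : ‖p2 - c‖ ≤ L)
    (c1 : p1 ∈ voronoiCell (T : Set ℂ) x) (c2 : p2 ∈ voronoiCell (T : Set ℂ) y)
    (hV : ∀ s ∈ T, ∀ z ∈ segment ℝ p1 p2, ‖s - z‖ < 2 * d → s ∈ V) : Pth T V x y := by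
  refine pth_of_set hD.gp hD.card (C := segment ℝ p1 p2) (convex_segment p1 p2).isPreconnected
    hx hy ⟨left_mem_segment ℝ p1 p2, c1⟩ ⟨right_mem_segment ℝ p1 p2, c2⟩ ?_
  rintro s hs ⟨z, hz, hzs⟩
  refine hV s hs z hz (cell_near hD ?_ hzs)
  have hc : Convex ℝ (Metric.closedBall c L) := convex_closedBall c L
  have hz' := hc.segment_subset (x := p1) (y := p2) (by
    rw [Metric.mem_closedBall, dist_eq_norm]; exact h1) (by
    rw [Metric.mem_closedBall, dist_eq_norm]; exact h2) hz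
  rwa [Metric.mem_closedBall, dist_eq_norm] at hz'

/-- walk from a site in the direction `e` -/
theorem pdir {T : Finset ℂ} {c : ℂ} {L d : ℝ} (hD : Dns T c L d) {v y e : ℂ} {τ : ℝ} {V : Set ℂ}
    (hv : v ∈ T) (hy : y ∈ T) (he : ‖e‖ = 1) (hτ : 0 ≤ τ)
    (c2 : v + τ * e ∈ voronoiCell (T : Set ℂ) y)
    (hV : ∀ s ∈ T, ∀ σ : ℝ, 0 ≤ σ → σ ≤ τ → ‖s - (v + σ * e)‖ ≤ σ → s ∈ V) : Pth T V v y := by
  have hC : IsPreconnected ((fun σ : ℝ => v + (σ : ℂ) * e) '' Icc 0 τ) :=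
    isPreconnected_Icc.image _ (by fun_prop)
  refine pth_of_set hD.gp hD.card hC hv hy (z1 := v) (z2 := v + τ * e) ⟨?_, self_cell v⟩
    ⟨?_, c2⟩ ?_
  · exact ⟨0, ⟨le_rfl, hτ⟩, by simp⟩
  · exact ⟨τ, ⟨hτ, le_rfl⟩, rfl⟩
  · rintro s hs ⟨z, ⟨σ, ⟨h0, h1⟩, rfl⟩, hz⟩
    refine hV s hs σ h0 h1 ?_
    have := hz v (Finset.mem_coe.2 hv)
    dsimp only at this
    rw [norm_sub_rev, add_sub_cancel_left, norm_mul, he, mul_one, Complex.norm_real,
      Real.norm_eq_abs, abs_of_nonneg h0] at this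
    · exact this

variable {S : Finset ℂ} {z0 u : ℂ} {a b k d : ℝ}

theorem X_seg {p q : ℂ} {s t : ℝ} (h : s + t = 1) :
    X z0 u (s • p + t • q) = s * X z0 u p + t * X z0 u q := by
  unfold X
  have h1 : s = 1 - t := by linarith
  have e : (s • p + t • q - z0) / u = (s : ℂ) * ((p - z0) / u) + (t : ℂ) * ((q - z0) / u) := by
    subst h1
    simp only [Complex.real_smul]
    push_cast
    ring
  rw [e, Complex.add_re, Complex.re_ofReal_mul, Complex.re_ofReal_mul]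

theorem Y_seg {p q : ℂ} {s t : ℝ} (h : s + t = 1) :
    Y z0 u (s • p + t • q) = s * Y z0 u p + t * Y z0 u q := by
  unfold Y
  have h1 : s = 1 - t := by linarith
  have e : (s • p + t • q - z0) / u = (s : ℂ) * ((p - z0) / u) + (t : ℂ) * ((q - z0) / u) := by
    subst h1
    simp only [Complex.real_smul]
    push_cast
    ring
  rw [e, Complex.add_im, Complex.im_ofReal_mul, Complex.im_ofReal_mul]

theorem seg_le {s t A B C : ℝ} (h0 : 0 ≤ s) (h1 : 0 ≤ t) (h : s + t = 1) (hA : A ≤ C) (hB : B ≤ C) :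
    s * A + t * B ≤ C := by
  have g1 := mul_le_mul_of_nonneg_left hA h0
  have g2 := mul_le_mul_of_nonneg_left hB h1
  have : s * C + t * C = C := by rw [← add_mul, h, one_mul]
  linarith

theorem le_seg {s t A B C : ℝ} (h0 : 0 ≤ s) (h1 : 0 ≤ t) (h : s + t = 1) (hA : C ≤ A) (hB : C ≤ B) :
    C ≤ s * A + t * B := by
  have g1 := mul_le_mul_of_nonneg_left hA h0
  have g2 := mul_le_mul_of_nonneg_left hB h1
  have : s * C + t * C = C := by rw [← add_mul, h, one_mul]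
  linarith

theorem X_add (u0 : u ≠ 0) (p : ℂ) (w : ℂ) : X z0 u (p + u * w) = X z0 u p + w.re := by
  unfold X
  rw [show p + u * w - z0 = (p - z0) + u * w by ring, add_div, mul_div_cancel_left₀ _ u0,
    Complex.add_re]

theorem Y_add (u0 : u ≠ 0) (p : ℂ) (w : ℂ) : Y z0 u (p + u * w) = Y z0 u p + w.im := by
  unfold Y
  rw [show p + u * w - z0 = (p - z0) + u * w by ring, add_div, mul_div_cancel_left₀ _ u0,
    Complex.add_im]

theorem hh_of (H : SSbx930.SH S z0 u a b k d) : HH S z0 u a b k d :=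
  ⟨H.u1, H.ha, H.hb, H.k1, H.ab, H.ld, by
    have := H.d_b
    have := H.dp
    linarith⟩

/-- a hull site near a direction -/
theorem hull_near (H : SSbx930.SH S z0 u a b k d) {q : ℂ} (hq : ‖q‖ = 1) :
    ∃ x y, hullE (SS S z0 u k a b) x y ∧
      ‖x - (cc z0 u k a b + RR k a b * q)‖ ≤ 6 * Real.sqrt (RR k a b * d) := by
  obtain ⟨n, w, hc⟩ := hull_cycle H.dns.gp H.dns.card
  obtain ⟨i, hi⟩ := (hh_of H).near hc hq
  exact ⟨w i, w (i + 1), hc.edge i, hi⟩

theorem d_le (H : SSbx930.SH S z0 u a b k d) : 16 * d ≤ Real.sqrt (RR k a b * d) := by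
  apply Real.le_sqrt_of_sq_le
  have h1 := H.Rb
  have h2 := H.d_b
  have h3 := H.dp
  nlinarith

/-- **below the strip** -/
theorem walkB (H : SSbx930.SH S z0 u a b k d) (h4 : 400 * Real.sqrt (RR k a b * d) ≤ b) {v : ℂ}
    (hv : v ∈ SS S z0 u k a b) (hx : |X z0 u v| ≤ a + b / 2) (hy : Y z0 u v < -(b / 2)) :
    ∃ x y, hullE (SS S z0 u k a b) x y ∧ Pth (SS S z0 u k a b) {s | s ∈ SS S z0 u k a b ∧
      Y z0 u s < -(b / 2) ∧ |X z0 u s - X z0 u v| ≤ 10 * Real.sqrt (RR k a b * d)} v x := by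
  have hd := H.dp
  have hdD := d_le H
  have ha := H.ha
  have hb := H.hb
  have hRb := H.Rb
  have hHH := hh_of H
  have h16 := hHH.R16
  have hRb2 := hHH.Rb
  have hu0 := H.u0
  set D0 := Real.sqrt (RR k a b * d) with hD0
  have hDn := H.dns
  set R := RR k a b with hR
  set x0 := X z0 u v with hx0
  -- the direction
  have hsq : x0 ^ 2 ≤ R ^ 2 := by
    rw [← sq_abs x0]
    apply pow_le_pow_left₀ (abs_nonneg _)
    linarith
  have hRp : 0 < R := H.Rp
  set h : ℝ := Real.sqrt (R ^ 2 - x0 ^ 2) with hh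
  have h2 : h ^ 2 = R ^ 2 - x0 ^ 2 := Real.sq_sqrt (by linarith)
  set e : ℂ := ⟨x0 / R, -(h / R)⟩ with he
  have he1 : ‖e‖ = 1 := by
    have : ‖e‖ ^ 2 = 1 := by
      rw [sq_norm, he]
      have : (x0 / R) ^ 2 + (-(h / R)) ^ 2 = (x0 ^ 2 + h ^ 2) / R ^ 2 := by
        field_simp
      rw [this, h2]
      field_simp
      ring
    have h0 := norm_nonneg e
    nlinarith
  obtain ⟨x, y, hxy, hq⟩ := hull_near H (q := u * e) (by rw [norm_mul, H.u1, he1, one_mul])
  have hxS : x ∈ SS S z0 u k a b := (hullE.mem hxy).1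
  have ec : cc z0 u k a b + (R : ℂ) * (u * e) = cc z0 u k a b + u * ((R : ℂ) * e) := by ring
  have eX : X z0 u (cc z0 u k a b + (R : ℂ) * (u * e)) = x0 := by
    rw [ec, X_add hu0, HULx838.X_cc H.u1, he]
    simp only [Complex.re_ofReal_mul]
    field_simp
    ring
  have eY : Y z0 u (cc z0 u k a b + (R : ℂ) * (u * e)) = R - 3 * b / 4 - h := by
    rw [ec, Y_add hu0, HULx838.Y_cc H.u1, he]
    simp only [Complex.im_ofReal_mul]
    field_simp
    ring
  have g1 := H.X_diff x (cc z0 u k a b + (R : ℂ) * (u * e))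
  have g2 := H.Y_diff x (cc z0 u k a b + (R : ℂ) * (u * e))
  rw [eX] at g1
  rw [eY] at g2
  have g3 : |X z0 u x - x0| ≤ 6 * D0 := g1.trans hq
  have g4 : |Y z0 u x - (R - 3 * b / 4 - h)| ≤ 6 * D0 := g2.trans hq
  -- `h` is close to `R`
  have hhR : R - b / 8 ≤ h := by
    apply Real.le_sqrt_of_sq_le
    have : x0 ^ 2 ≤ (a + b) ^ 2 := by
      rw [← sq_abs x0]
      exact pow_le_pow_left₀ (abs_nonneg _) (by linarith) 2
    nlinarith
  have hYx : Y z0 u x ≤ -(5 * b / 8) + 6 * D0 := by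
    have := (abs_le.1 g4).2
    linarith
  refine ⟨x, y, hxy, ?_⟩
  have hlast : ∀ p w : ℂ, p ∈ voronoiCell ((SS S z0 u k a b : Finset ℂ) : Set ℂ) w →
      w ∈ SS S z0 u k a b → ‖p - cc z0 u k a b‖ ≤ R → X z0 u p = x0 → Y z0 u p ≤ -(b / 2) - 3 * d →
      Pth (SS S z0 u k a b) {s | s ∈ SS S z0 u k a b ∧
      Y z0 u s < -(b / 2) ∧ |X z0 u s - x0| ≤ 10 * D0} w x := by
    intro p w hpw hw hpR hpX hpY
    refine pseg hDn hw hxS hpR (hDn.sub _ hxS) hpw (self_cell x) ?_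
    rintro s hs z ⟨s1, t1, hs1, ht1, hst, rfl⟩ hsz
    have k1 := H.X_diff s (s1 • p + t1 • x)
    have k2 := H.Y_diff s (s1 • p + t1 • x)
    rw [X_seg hst] at k1
    rw [Y_seg hst] at k2
    have k3 : s1 * Y z0 u p + t1 * Y z0 u x ≤ -(b / 2) - 3 * d :=
      seg_le hs1 ht1 hst hpY (by linarith)
    have k4 : s1 * X z0 u p + t1 * X z0 u x ≤ x0 + 6 * D0 :=
      seg_le hs1 ht1 hst (by linarith) (by have := (abs_le.1 g3).2; linarith)
    have k5 : x0 - 6 * D0 ≤ s1 * X z0 u p + t1 * X z0 u x :=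
      le_seg hs1 ht1 hst (by linarith) (by have := (abs_le.1 g3).1; linarith)
    have k6 := abs_le.1 (k1.trans hsz.le)
    have k7 := abs_le.1 (k2.trans hsz.le)
    refine ⟨hs, by linarith [k7.2], abs_le.2 ⟨by linarith [k6.1], by linarith [k6.2]⟩⟩
  by_cases hc : Y z0 u v ≤ -(b / 2) - 3 * d
  · exact hlast v v (self_cell v) hv (hDn.sub _ hv) rfl hc
  · push Not at hc
    set p : ℂ := v + ((10 * d : ℝ) : ℂ) * (u * -Complex.I) with hp
    have hp' : p = v + u * (((10 * d : ℝ) : ℂ) * -Complex.I) := by rw [hp]; ring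
    have hpX : X z0 u p = x0 := by
      rw [hp', X_add hu0]
      simp [hx0]
    have hpY : Y z0 u p = Y z0 u v - 10 * d := by
      rw [hp', Y_add hu0]
      simp
      ring
    obtain ⟨w, hw, hpw⟩ := G6Wx723.exists_cell ⟨v, hv⟩ p
    have hpR : ‖p - cc z0 u k a b‖ ≤ R := by
      have := H.deep (s := p) (by rw [hpX]; linarith) (by rw [hpY]; linarith)
        (by rw [hpY]; linarith)
      linarith
    refine (pdir hDn (e := u * -Complex.I) (τ := 10 * d) hv hw ?_ (by linarith) hpw ?_).trans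
      (hlast p w hpw hw hpR hpX (by rw [hpY]; linarith))
    · rw [norm_mul, H.u1, norm_neg, Complex.norm_I, one_mul]
    · intro s hs σ h0 h1 hσ
      have k1 := H.X_diff s (v + σ * (u * -Complex.I))
      have k2 := H.Y_diff s (v + σ * (u * -Complex.I))
      rw [show v + (σ : ℂ) * (u * -Complex.I) = v + u * ((σ : ℂ) * -Complex.I) by ring] at k1 k2 hσ
      rw [X_add hu0] at k1
      rw [Y_add hu0] at k2
      have e1 : ((σ : ℂ) * -Complex.I).re = 0 := by simp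
      have e2 : ((σ : ℂ) * -Complex.I).im = -σ := by simp
      rw [e1, add_zero] at k1
      rw [e2] at k2
      have k3 := (abs_le.1 (k2.trans hσ)).2
      refine ⟨hs, by linarith, ?_⟩
      exact (k1.trans hσ).trans (by linarith)

/-- **above the strip** -/
theorem walkT (H : SSbx930.SH S z0 u a b k d) (h4 : 400 * Real.sqrt (RR k a b * d) ≤ b) {v : ℂ}
    (hv : v ∈ SS S z0 u k a b) (hx : |X z0 u v| ≤ a + b / 2) (hy : b / 2 ≤ Y z0 u v) :
    ∃ x y, hullE (SS S z0 u k a b) x y ∧ Pth (SS S z0 u k a b) {s | s ∈ SS S z0 u k a b ∧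
      b / 2 ≤ Y z0 u s ∧ min (X z0 u v) 0 - 10 * Real.sqrt (RR k a b * d) ≤ X z0 u s ∧
      X z0 u s ≤ max (X z0 u v) 0 + 10 * Real.sqrt (RR k a b * d)} v x := by
  have hd := H.dp
  have hdD := d_le H
  have ha := H.ha
  have hb := H.hb
  have hRb := H.Rb
  have hu0 := H.u0
  set D0 := Real.sqrt (RR k a b * d) with hD0
  have hDn := H.dns
  set R := RR k a b with hR
  set x0 := X z0 u v with hx0
  obtain ⟨x, y, hxy, hq⟩ := hull_near H (q := u * Complex.I)
    (by rw [norm_mul, H.u1, Complex.norm_I, one_mul])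
  have hxS : x ∈ SS S z0 u k a b := (hullE.mem hxy).1
  have ec : cc z0 u k a b + (R : ℂ) * (u * Complex.I) =
      cc z0 u k a b + u * ((R : ℂ) * Complex.I) := by ring
  have eX : X z0 u (cc z0 u k a b + (R : ℂ) * (u * Complex.I)) = 0 := by
    rw [ec, X_add hu0, HULx838.X_cc H.u1]
    simp
  have eY : Y z0 u (cc z0 u k a b + (R : ℂ) * (u * Complex.I)) = 2 * R - 3 * b / 4 := by
    rw [ec, Y_add hu0, HULx838.Y_cc H.u1]
    simp
    ring
  have g1 := H.X_diff x (cc z0 u k a b + (R : ℂ) * (u * Complex.I))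
  have g2 := H.Y_diff x (cc z0 u k a b + (R : ℂ) * (u * Complex.I))
  rw [eX, sub_zero] at g1
  rw [eY] at g2
  have g3 : |X z0 u x| ≤ 6 * D0 := g1.trans hq
  have g4 : |Y z0 u x - (2 * R - 3 * b / 4)| ≤ 6 * D0 := g2.trans hq
  have hYx : b / 2 + 3 * d ≤ Y z0 u x := by
    have := (abs_le.1 g4).1
    linarith
  have hm1 : min x0 0 ≤ x0 := min_le_left _ _
  have hm2 : min x0 0 ≤ 0 := min_le_right _ _
  have hm3 : x0 ≤ max x0 0 := le_max_left _ _
  have hm4 : 0 ≤ max x0 0 := le_max_right _ _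
  refine ⟨x, y, hxy, ?_⟩
  have hlast : ∀ p w : ℂ, p ∈ voronoiCell ((SS S z0 u k a b : Finset ℂ) : Set ℂ) w →
      w ∈ SS S z0 u k a b → ‖p - cc z0 u k a b‖ ≤ R → X z0 u p = x0 → b / 2 + 3 * d ≤ Y z0 u p →
      Pth (SS S z0 u k a b) {s | s ∈ SS S z0 u k a b ∧ b / 2 ≤ Y z0 u s ∧
        min x0 0 - 10 * D0 ≤ X z0 u s ∧ X z0 u s ≤ max x0 0 + 10 * D0} w x := by
    intro p w hpw hw hpR hpX hpY
    refine pseg hDn hw hxS hpR (hDn.sub _ hxS) hpw (self_cell x) ?_
    rintro s hs z ⟨s1, t1, hs1, ht1, hst, rfl⟩ hsz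
    have k1 := H.X_diff s (s1 • p + t1 • x)
    have k2 := H.Y_diff s (s1 • p + t1 • x)
    rw [X_seg hst] at k1
    rw [Y_seg hst] at k2
    have k3 : b / 2 + 3 * d ≤ s1 * Y z0 u p + t1 * Y z0 u x := le_seg hs1 ht1 hst hpY hYx
    have k4 : s1 * X z0 u p + t1 * X z0 u x ≤ max x0 0 + 6 * D0 :=
      seg_le hs1 ht1 hst (by linarith) (by have := (abs_le.1 g3).2; linarith)
    have k5 : min x0 0 - 6 * D0 ≤ s1 * X z0 u p + t1 * X z0 u x :=
      le_seg hs1 ht1 hst (by linarith) (by have := (abs_le.1 g3).1; linarith)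
    have k6 := abs_le.1 (k1.trans hsz.le)
    have k7 := abs_le.1 (k2.trans hsz.le)
    exact ⟨hs, by linarith [k7.1], by linarith [k6.1], by linarith [k6.2]⟩
  by_cases hc : b / 2 + 3 * d ≤ Y z0 u v
  · exact hlast v v (self_cell v) hv (hDn.sub _ hv) rfl hc
  · push Not at hc
    set p : ℂ := v + ((10 * d : ℝ) : ℂ) * (u * Complex.I) with hp
    have hp' : p = v + u * (((10 * d : ℝ) : ℂ) * Complex.I) := by rw [hp]; ring
    have hpX : X z0 u p = x0 := by
      rw [hp', X_add hu0]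
      simp [hx0]
    have hpY : Y z0 u p = Y z0 u v + 10 * d := by
      rw [hp', Y_add hu0]
      simp
    obtain ⟨w, hw, hpw⟩ := G6Wx723.exists_cell ⟨v, hv⟩ p
    have hpR : ‖p - cc z0 u k a b‖ ≤ R := by
      have := H.deep (s := p) (by rw [hpX]; linarith) (by rw [hpY]; linarith)
        (by rw [hpY]; linarith)
      linarith
    refine (pdir hDn (e := u * Complex.I) (τ := 10 * d) hv hw ?_ (by linarith) hpw ?_).trans
      (hlast p w hpw hw hpR hpX (by rw [hpY]; linarith))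
    · rw [norm_mul, H.u1, Complex.norm_I, one_mul]
    · intro s hs σ h0 h1 hσ
      have k1 := H.X_diff s (v + σ * (u * Complex.I))
      have k2 := H.Y_diff s (v + σ * (u * Complex.I))
      rw [show v + (σ : ℂ) * (u * Complex.I) = v + u * ((σ : ℂ) * Complex.I) by ring] at k1 k2 hσ
      rw [X_add hu0] at k1
      rw [Y_add hu0] at k2
      have e1 : ((σ : ℂ) * Complex.I).re = 0 := by simp
      have e2 : ((σ : ℂ) * Complex.I).im = σ := by simp
      rw [e1, add_zero] at k1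
      rw [e2] at k2
      have k3 := (abs_le.1 (k2.trans hσ)).1
      have k4 := abs_le.1 (k1.trans hσ)
      exact ⟨hs, by linarith, by linarith [k4.1], by linarith [k4.2]⟩

end Crest.Agent.R143.REwx838
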