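import Crest.Agent.R143.Ten_416
import Crest.Agent.R143.REw_838

/-!
# Row 143, POLY: OUTSIDE CONNECTION (helper571; statement of helper923, (L3) of 686, (3d), (3e) of
note 3646)

`F` : a set of cells of the grid of mesh `δ` whose complement is edge-connected (no bricks, no
finiteness), `0 ≤ ρ`, `2 ρ < δ`.

* `Far δ ρ F` : the points at sup distance `> ρ` from the closed polygon `Pg δ F`
* (O1) `far_preconn` : `Far δ ρ F` is preconnected (`far_joined` : path connected);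
  `far_zero`, `compl_preconn` : the case `ρ = 0`, the complement of the polygon
* (O2) `asum_far` : `F` finite, `l` a closed chain whose segments are off `Far` has index `0` seen
  from every point of `Far`
* (O3) `pth_far` : two sites whose Voronoi cells meet `Far` are joined by sites whose cells meet
  `Far`; `near_far` : with `Dns S c L d` such a site is at distance `< d` of `Far` or at distance
  `> L - 2 d` from the centre
* (O4) `off_of_near` : a chain within sup distance `ρ` of the polygon is off `Far`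
-/

set_option autoImplicit false

noncomputable section

namespace Crest.Agent.R143.OutCx571

open Set
open Crest.ProbabilityR.Voronoi
open Crest.Agent.R158.Sp896
open Crest.Agent.R143.Tenx416 (Pg)
open Crest.Agent.R143.B0x346 (GP)
open Crest.Agent.R143.RE0x723 (Pth)
open Crest.Agent.R143.DomAx722 (Dns)
open Crest.Agent.R143.ToolWx838 (Off asum prs)

/-- the points at sup distance more than `ρ` from the polygon -/
def Far (δ ρ : ℝ) (F : Set V) : Set ℂ :=
  {z | ∀ w ∈ Pg δ F, ρ < max |z.re - w.re| |z.im - w.im|}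

variable {δ ρ : ℝ} {F : Set V}

theorem mem_pg {w : ℂ} : w ∈ Pg δ F ↔ ∃ q ∈ F, w ∈ sq δ q := by
  unfold Pg
  simp only [Set.mem_iUnion, exists_prop]

theorem Far.anti {r : ℝ} (h : ρ ≤ r) : Far δ r F ⊆ Far δ ρ F := fun _ hz w hw =>
  lt_of_le_of_lt h (hz w hw)

theorem far_not_mem (hr : 0 ≤ ρ) {z : ℂ} (hz : z ∈ Far δ ρ F) : z ∉ Pg δ F := by
  intro h
  have := hz z h
  simp only [sub_self, abs_zero, max_self] at this
  linarith

theorem far_zero : Far δ 0 F = (Pg δ F)ᶜ := by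
  ext z
  constructor
  · exact fun h => far_not_mem le_rfl h
  · intro h w hw
    by_contra hcon
    push Not at hcon
    have h1 : |z.re - w.re| ≤ 0 := (le_max_left _ _).trans hcon
    have h2 : |z.im - w.im| ≤ 0 := (le_max_right _ _).trans hcon
    have e : z = w := by
      apply Complex.ext
      · have := abs_nonpos_iff.1 h1; linarith
      · have := abs_nonpos_iff.1 h2; linarith
    exact h (e ▸ hw)

/-- the cell of a point of `Far` is not in `F` -/
theorem cell_notMem (hr : 0 ≤ ρ) {z : ℂ} (hz : z ∈ Far δ ρ F) {q : V} (hq : z ∈ sq δ q) : q ∉ F :=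
  fun h => far_not_mem hr hz (mem_pg.2 ⟨q, h, hq⟩)

/-- vertical moves towards the middle line of the cell stay in `Far` -/
theorem far_vert (hr : 0 ≤ ρ) (hd : 2 * ρ < δ) {z p : ℂ} {q : V} (hz : z ∈ Far δ ρ F)
    (hq : z ∈ sq δ q) (h1 : p.re = z.re)
    (h2 : (z.im ≤ p.im ∧ p.im ≤ δ * (q.2 + 1 / 2)) ∨ (δ * (q.2 + 1 / 2) ≤ p.im ∧ p.im ≤ z.im)) :
    p ∈ Far δ ρ F := by
  have hδ : 0 < δ := by linarith
  obtain ⟨a1, a2, a3, a4⟩ := hq
  intro w hw
  by_contra hcon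
  push Not at hcon
  obtain ⟨q2, hF, b1, b2, b3, b4⟩ := mem_pg.1 hw
  have c1 : |p.re - w.re| ≤ ρ := (le_max_left _ _).trans hcon
  have c2 : |p.im - w.im| ≤ ρ := (le_max_right _ _).trans hcon
  rw [h1] at c1
  obtain ⟨c3, c4⟩ := abs_le.1 c2
  rcases lt_trichotomy q2.2 q.2 with h | h | h
  · have h' : (q2.2 : ℝ) + 1 ≤ q.2 := by exact_mod_cast h
    have e1 : δ * (q2.2 + 1) ≤ δ * q.2 := mul_le_mul_of_nonneg_left h' hδ.le
    have e2 : δ * ((q.2 : ℝ) + 1 / 2) = δ * q.2 + δ / 2 := by ring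
    have e3 : z.im ≤ p.im := by
      rcases h2 with h2 | h2
      · exact h2.1
      · linarith [h2.1]
    have := hz w hw
    have e4 : |z.im - w.im| ≤ ρ := by
      rw [abs_le]
      constructor <;> linarith
    exact absurd (max_le c1 e4) (not_le.2 this)
  · have hw' : (⟨w.re, z.im⟩ : ℂ) ∈ Pg δ F := by
      refine mem_pg.2 ⟨q2, hF, b1, b2, ?_, ?_⟩
      · rw [h]; exact a3
      · rw [h]; exact a4
    have := hz _ hw'
    simp only [sub_self, abs_zero] at this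
    exact absurd (max_le c1 hr) (not_le.2 this)
  · have h' : (q.2 : ℝ) + 1 ≤ q2.2 := by exact_mod_cast h
    have e1 : δ * ((q.2 : ℝ) + 1) ≤ δ * q2.2 := mul_le_mul_of_nonneg_left h' hδ.le
    have e2 : δ * ((q.2 : ℝ) + 1 / 2) = δ * (q.2 + 1) - δ / 2 := by ring
    have e3 : p.im ≤ z.im := by
      rcases h2 with h2 | h2
      · linarith [h2.2]
      · exact h2.2
    have := hz w hw
    have e4 : |z.im - w.im| ≤ ρ := by
      rw [abs_le]
      constructor <;> linarith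
    exact absurd (max_le c1 e4) (not_le.2 this)

/-- horizontal moves towards the middle line of the cell stay in `Far` -/
theorem far_horiz (hr : 0 ≤ ρ) (hd : 2 * ρ < δ) {z p : ℂ} {q : V} (hz : z ∈ Far δ ρ F)
    (hq : z ∈ sq δ q) (h1 : p.im = z.im)
    (h2 : (z.re ≤ p.re ∧ p.re ≤ δ * (q.1 + 1 / 2)) ∨ (δ * (q.1 + 1 / 2) ≤ p.re ∧ p.re ≤ z.re)) :
    p ∈ Far δ ρ F := by
  have hδ : 0 < δ := by linarith
  obtain ⟨a1, a2, a3, a4⟩ := hq
  intro w hw
  by_contra hcon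
  push Not at hcon
  obtain ⟨q2, hF, b1, b2, b3, b4⟩ := mem_pg.1 hw
  have c1 : |p.re - w.re| ≤ ρ := (le_max_left _ _).trans hcon
  have c2 : |p.im - w.im| ≤ ρ := (le_max_right _ _).trans hcon
  rw [h1] at c2
  obtain ⟨c3, c4⟩ := abs_le.1 c1
  rcases lt_trichotomy q2.1 q.1 with h | h | h
  · have h' : (q2.1 : ℝ) + 1 ≤ q.1 := by exact_mod_cast h
    have e1 : δ * ((q2.1 : ℝ) + 1) ≤ δ * q.1 := mul_le_mul_of_nonneg_left h' hδ.le
    have e2 : δ * ((q.1 : ℝ) + 1 / 2) = δ * q.1 + δ / 2 := by ring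
    have e3 : z.re ≤ p.re := by
      rcases h2 with h2 | h2
      · exact h2.1
      · linarith [h2.1]
    have := hz w hw
    have e4 : |z.re - w.re| ≤ ρ := by
      rw [abs_le]
      constructor <;> linarith
    exact absurd (max_le e4 c2) (not_le.2 this)
  · have hw' : (⟨z.re, w.im⟩ : ℂ) ∈ Pg δ F := by
      refine mem_pg.2 ⟨q2, hF, ?_, ?_, b3, b4⟩
      · rw [h]; exact a1
      · rw [h]; exact a2
    have := hz _ hw'
    simp only [sub_self, abs_zero] at this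
    exact absurd (max_le hr c2) (not_le.2 this)
  · have h' : (q.1 : ℝ) + 1 ≤ q2.1 := by exact_mod_cast h
    have e1 : δ * ((q.1 : ℝ) + 1) ≤ δ * q2.1 := mul_le_mul_of_nonneg_left h' hδ.le
    have e2 : δ * ((q.1 : ℝ) + 1 / 2) = δ * (q.1 + 1) - δ / 2 := by ring
    have e3 : p.re ≤ z.re := by
      rcases h2 with h2 | h2
      · linarith [h2.2]
      · exact h2.2
    have := hz w hw
    have e4 : |z.re - w.re| ≤ ρ := by
      rw [abs_le]
      constructor <;> linarith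
    exact absurd (max_le e4 c2) (not_le.2 this)

/-- centre of a cell -/
def ctr (δ : ℝ) (q : V) : ℂ := ⟨δ * (q.1 + 1 / 2), δ * (q.2 + 1 / 2)⟩

theorem ctr_mem (hδ : 0 ≤ δ) (q : V) : ctr δ q ∈ sq δ q := by
  refine ⟨?_, ?_, ?_, ?_⟩ <;>
    · simp only [ctr]
      nlinarith

/-- points of a segment with constant real or imaginary part are between the ends -/
theorem seg_re {a b p : ℂ} (hp : p ∈ segment ℝ a b) : p.re ∈ segment ℝ a.re b.re := by
  obtain ⟨s, t, hs, ht, hst, rfl⟩ := hp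
  exact ⟨s, t, hs, ht, hst, by simp⟩

theorem seg_im {a b p : ℂ} (hp : p ∈ segment ℝ a b) : p.im ∈ segment ℝ a.im b.im := by
  obtain ⟨s, t, hs, ht, hst, rfl⟩ := hp
  exact ⟨s, t, hs, ht, hst, by simp⟩

theorem real_seg {a b p : ℝ} (hp : p ∈ segment ℝ a b) : (a ≤ p ∧ p ≤ b) ∨ (b ≤ p ∧ p ≤ a) := by
  rw [segment_eq_uIcc, Set.mem_uIcc] at hp
  exact hp

theorem real_seg_self {a p : ℝ} (hp : p ∈ segment ℝ a a) : p = a := by
  rw [segment_same] at hp
  exact hp

/-- the point and the centre of its cell -/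
theorem far_ctr (hr : 0 ≤ ρ) (hd : 2 * ρ < δ) {z : ℂ} {q : V} (hz : z ∈ Far δ ρ F)
    (hq : z ∈ sq δ q) : JoinedIn (Far δ ρ F) z (ctr δ q) := by
  have hδ : 0 < δ := by linarith
  have h1 : ∀ p ∈ segment ℝ z (⟨z.re, δ * (q.2 + 1 / 2)⟩ : ℂ), p ∈ Far δ ρ F := by
    intro p hp
    have e0 := seg_re hp
    have e1 : p.re = z.re := real_seg_self e0
    exact far_vert hr hd hz hq e1 (real_seg (seg_im hp))
  have hz' := h1 _ (right_mem_segment ℝ _ _)
  have hq' : (⟨z.re, δ * (q.2 + 1 / 2)⟩ : ℂ) ∈ sq δ q := by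
    obtain ⟨a1, a2, a3, a4⟩ := hq
    refine ⟨a1, a2, ?_, ?_⟩ <;>
      · simp only
        nlinarith
  have h2 : ∀ p ∈ segment ℝ (⟨z.re, δ * (q.2 + 1 / 2)⟩ : ℂ) (ctr δ q), p ∈ Far δ ρ F := by
    intro p hp
    have e0 := seg_im hp
    have e1 : p.im = δ * (q.2 + 1 / 2) := real_seg_self e0
    exact far_horiz hr hd hz' hq' e1 (real_seg (seg_re hp))
  exact (JoinedIn.of_segment_subset h1).trans (JoinedIn.of_segment_subset h2)

/-- the centres of the cells outside `F` are in `Far`, and the whole segment between the centres of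
two adjacent ones -/
theorem far_adj (hd : 2 * ρ < δ) (hδ : 0 < δ) {q q' : V} (hq : q ∉ F) (hq' : q' ∉ F)
    (ha : q' = q ∨ Adj q q') {p : ℂ} (hp : p ∈ segment ℝ (ctr δ q) (ctr δ q')) :
    p ∈ Far δ ρ F := by
  have hre := real_seg (seg_re hp)
  have him := real_seg (seg_im hp)
  simp only [ctr] at hre him
  intro w hw
  obtain ⟨q2, hF, b1, b2, b3, b4⟩ := mem_pg.1 hw
  have n1 : q2 ≠ q := fun h => hq (h ▸ hF)
  have n2 : q2 ≠ q' := fun h => hq' (h ▸ hF)
  -- separation in one coordinate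
  have key : ∀ (x y : ℝ) (m n k l : ℤ), ((δ * ((m : ℝ) + 1 / 2) ≤ x ∧ x ≤ δ * ((n : ℝ) + 1 / 2)) ∨
      (δ * ((n : ℝ) + 1 / 2) ≤ x ∧ x ≤ δ * ((m : ℝ) + 1 / 2))) → δ * (k : ℝ) ≤ y →
      y ≤ δ * ((k : ℝ) + 1) → ((k < m ∧ k < n) ∨ (m < k ∧ n < k)) → ρ < |x - y| := by
    intro x y m n k l hx h1 h2 hk
    rcases hk with ⟨k1, k2⟩ | ⟨k1, k2⟩
    · have e1 : (k : ℝ) + 1 ≤ m := by exact_mod_cast k1
      have e2 : (k : ℝ) + 1 ≤ n := by exact_mod_cast k2
      have g1 := mul_le_mul_of_nonneg_left e1 hδ.le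
      have g2 := mul_le_mul_of_nonneg_left e2 hδ.le
      refine lt_of_lt_of_le ?_ (le_abs_self _)
      rcases hx with hx | hx
      · have : δ * ((m : ℝ) + 1 / 2) = δ * m + δ / 2 := by ring
        linarith [hx.1]
      · have : δ * ((n : ℝ) + 1 / 2) = δ * n + δ / 2 := by ring
        linarith [hx.1]
    · have e1 : (m : ℝ) + 1 ≤ k := by exact_mod_cast k1
      have e2 : (n : ℝ) + 1 ≤ k := by exact_mod_cast k2
      have g1 := mul_le_mul_of_nonneg_left e1 hδ.le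
      have g2 := mul_le_mul_of_nonneg_left e2 hδ.le
      refine lt_of_lt_of_le ?_ (neg_le_abs _)
      rcases hx with hx | hx
      · have : δ * ((n : ℝ) + 1 / 2) = δ * (n + 1) - δ / 2 := by ring
        linarith [hx.2]
      · have : δ * ((m : ℝ) + 1 / 2) = δ * (m + 1) - δ / 2 := by ring
        linarith [hx.2]
  rcases q with ⟨a, c⟩
  rcases q' with ⟨a', c'⟩
  rcases q2 with ⟨a2, c2⟩
  simp only [ne_eq, Prod.mk.injEq, not_and] at n1 n2
  simp only [Prod.mk.injEq, Adj] at ha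
  simp only at hre him b1 b2 b3 b4
  by_cases hx : (a2 < a ∧ a2 < a') ∨ (a < a2 ∧ a' < a2)
  · exact lt_of_lt_of_le (key p.re w.re a a' a2 0 hre b1 b2 hx) (le_max_left _ _)
  · by_cases hy : (c2 < c ∧ c2 < c') ∨ (c < c2 ∧ c' < c2)
    · exact lt_of_lt_of_le (key p.im w.im c c' c2 0 him b3 b4 hy) (le_max_right _ _)
    · exfalso
      have : (a2 = a ∧ c2 = c) ∨ (a2 = a' ∧ c2 = c') := by omega
      rcases this with h | h
      · exact n1 h.1 h.2
      · exact n2 h.1 h.2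

theorem ctr_far (hd : 2 * ρ < δ) (hδ : 0 < δ) {q : V} (hq : q ∉ F) : ctr δ q ∈ Far δ ρ F :=
  far_adj hd hδ hq hq (Or.inl rfl) (left_mem_segment ℝ _ _)

theorem ctr_joined (hd : 2 * ρ < δ) (hδ : 0 < δ) {q q' : V} (hq : q ∉ F) (h : Con Fᶜ q q') :
    JoinedIn (Far δ ρ F) (ctr δ q) (ctr δ q') := by
  induction h with
  | refl => exact JoinedIn.refl (ctr_far hd hδ hq)
  | @tail b c h1 h2 ih =>
    have hb : b ∉ F := Con.mem h1 hq
    exact ih.trans (JoinedIn.of_segment_subset fun p hp =>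
      far_adj hd hδ hb h2.2 (Or.inr h2.1) hp)

/-! ### (O1) -/

/-- **(O1)** any two points of `Far` are joined in `Far` -/
theorem far_joined (hF : ∀ q ∉ F, ∀ q' ∉ F, Con Fᶜ q q') (hr : 0 ≤ ρ) (hd : 2 * ρ < δ) {z w : ℂ}
    (hz : z ∈ Far δ ρ F) (hw : w ∈ Far δ ρ F) : JoinedIn (Far δ ρ F) z w := by
  have hδ : 0 < δ := by linarith
  have h1 := mem_cellOf hδ z
  have h2 := mem_cellOf hδ w
  have n1 := cell_notMem hr hz h1
  have n2 := cell_notMem hr hw h2
  exact ((far_ctr hr hd hz h1).trans (ctr_joined hd hδ n1 (hF _ n1 _ n2))).trans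
    (far_ctr hr hd hw h2).symm

/-- **(O1)** `Far` is preconnected -/
theorem far_preconn (hF : ∀ q ∉ F, ∀ q' ∉ F, Con Fᶜ q q') (hr : 0 ≤ ρ) (hd : 2 * ρ < δ) :
    IsPreconnected (Far δ ρ F) := by
  rcases (Far δ ρ F).eq_empty_or_nonempty with h | ⟨z, hz⟩
  · rw [h]; exact isPreconnected_empty
  · have : IsPathConnected (Far δ ρ F) := ⟨z, hz, fun {_} hw => far_joined hF hr hd hz hw⟩
    exact this.isConnected.isPreconnected

/-- the complement of the polygon is preconnected -/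
theorem compl_preconn (hF : ∀ q ∉ F, ∀ q' ∉ F, Con Fᶜ q q') (hδ : 0 < δ) :
    IsPreconnected (Pg δ F)ᶜ := by
  rw [← far_zero]
  exact far_preconn hF le_rfl (by linarith)

/-! ### `F` finite: far points -/

theorem pg_bdd (hf : F.Finite) (hδ : 0 ≤ δ) : ∃ M : ℝ, 0 < M ∧ ∀ w ∈ Pg δ F, |w.re| ≤ M ∧ |w.im| ≤ M := by
  obtain ⟨M, hM⟩ := exists_box hf
  refine ⟨δ * (|(M : ℝ)| + 1) + 1, by positivity, fun w hw => ?_⟩
  obtain ⟨q, hq, b1, b2, b3, b4⟩ := mem_pg.1 hw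
  obtain ⟨h1, h2⟩ := hM q hq
  have h1' : |(q.1 : ℝ)| ≤ |(M : ℝ)| := (by exact_mod_cast h1 : |(q.1 : ℝ)| ≤ M).trans (le_abs_self _)
  have h2' : |(q.2 : ℝ)| ≤ |(M : ℝ)| := (by exact_mod_cast h2 : |(q.2 : ℝ)| ≤ M).trans (le_abs_self _)
  obtain ⟨e1, e2⟩ := abs_le.1 h1'
  obtain ⟨e3, e4⟩ := abs_le.1 h2'
  constructor
  · rw [abs_le]
    constructor <;> nlinarith
  · rw [abs_le]
    constructor <;> nlinarith

/-- all points with large real part are in `Far` -/
theorem far_right (hf : F.Finite) (hδ : 0 ≤ δ) (ρ : ℝ) : ∃ M : ℝ, ∀ z : ℂ, M < z.re → z ∈ Far δ ρ F := by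
  obtain ⟨M, -, hM⟩ := pg_bdd hf hδ
  refine ⟨M + ρ, fun z hz w hw => lt_of_lt_of_le ?_ (le_max_left _ _)⟩
  have := (abs_le.1 (hM w hw).1).2
  exact lt_of_lt_of_le (by linarith) (le_abs_self _)

/-- all points far from `0` are in `Far` -/
theorem far_norm (hf : F.Finite) (hδ : 0 ≤ δ) (ρ : ℝ) : ∃ M : ℝ, ∀ z : ℂ, M < ‖z‖ → z ∈ Far δ ρ F := by
  obtain ⟨M, -, hM⟩ := pg_bdd hf hδ
  refine ⟨2 * (M + ρ), fun z hz w hw => ?_⟩
  by_contra hcon
  push Not at hcon
  have c1 : |z.re - w.re| ≤ ρ := (le_max_left _ _).trans hcon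
  have c2 : |z.im - w.im| ≤ ρ := (le_max_right _ _).trans hcon
  have h1 : |z.re| ≤ M + ρ := by
    have := abs_sub_abs_le_abs_sub z.re w.re
    linarith [(hM w hw).1]
  have h2 : |z.im| ≤ M + ρ := by
    have := abs_sub_abs_le_abs_sub z.im w.im
    linarith [(hM w hw).2]
  have := Complex.norm_le_abs_re_add_abs_im z
  linarith

/-! ### (O2) -/

/-- **(O2)** a closed chain off `Far` has index `0` seen from `Far` -/
theorem asum_far (hF : ∀ q ∉ F, ∀ q' ∉ F, Con Fᶜ q q') (hf : F.Finite) (hr : 0 ≤ ρ)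
    (hd : 2 * ρ < δ) {l : List ℂ} (hl : l.head? = l.getLast?)
    (hoff : ∀ x ∈ Far δ ρ F, Off x l) {z : ℂ} (hz : z ∈ Far δ ρ F) : asum z l = 0 := by
  have hδ : 0 < δ := by linarith
  obtain ⟨M, hM⟩ := far_right hf hδ.le ρ
  obtain ⟨K, hK⟩ : ∃ K : ℝ, ∀ a ∈ l, a.re ≤ K := by
    clear hl hoff
    induction l with
    | nil => exact ⟨0, fun a ha => absurd ha (List.not_mem_nil)⟩
    | cons b l ih =>
      obtain ⟨K, hK⟩ := ih
      refine ⟨max b.re K, fun a ha => ?_⟩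
      rcases List.mem_cons.1 ha with h | h
      · rw [h]; exact le_max_left _ _
      · exact (hK a h).trans (le_max_right _ _)
  set y : ℂ := ((max M K + 1 : ℝ) : ℂ) with hy
  have hyre : y.re = max M K + 1 := by rw [hy, Complex.ofReal_re]
  have hyF : y ∈ Far δ ρ F := hM y (by rw [hyre]; linarith [le_max_left M K])
  rw [ToolWx838.asum_const hl (far_preconn hF hr hd) hoff hz hyF]
  refine ToolWx838.asum_half_closed (u := -1) hl fun a ha => ?_
  have h1 : ((a - y) / (-1 : ℂ)).re = y.re - a.re := by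
    rw [div_neg, div_one]
    simp
  rw [h1, hyre]
  linarith [hK a ha, le_max_right M K]

/-! ### (O4) -/

/-- **(O4)** a chain within sup distance `ρ` of the polygon is off `Far` -/
theorem off_of_near {l : List ℂ} (h : ∀ p ∈ prs l, ∀ x ∈ segment ℝ p.1 p.2, ∃ w ∈ Pg δ F,
    max |x.re - w.re| |x.im - w.im| ≤ ρ) {x : ℂ} (hx : x ∈ Far δ ρ F) : Off x l := by
  intro p hp hs
  obtain ⟨w, hw, h1⟩ := h p hp x hs
  exact absurd h1 (not_le.2 (hx w hw))

/-- **(O2) + (O4)** -/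
theorem asum_far' (hF : ∀ q ∉ F, ∀ q' ∉ F, Con Fᶜ q q') (hf : F.Finite) (hr : 0 ≤ ρ)
    (hd : 2 * ρ < δ) {l : List ℂ} (hl : l.head? = l.getLast?)
    (h : ∀ p ∈ prs l, ∀ x ∈ segment ℝ p.1 p.2, ∃ w ∈ Pg δ F,
      max |x.re - w.re| |x.im - w.im| ≤ ρ) {z : ℂ} (hz : z ∈ Far δ ρ F) : asum z l = 0 :=
  asum_far hF hf hr hd hl (fun _ hx => off_of_near h hx) hz

/-- points at distance more than `2 ρ` from the polygon (Euclidean) are in `Far` -/
theorem far_of_dist {z : ℂ} (h : ∀ w ∈ Pg δ F, 2 * ρ < ‖z - w‖) : z ∈ Far δ ρ F := by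
  intro w hw
  by_contra hcon
  push Not at hcon
  have c1 : |z.re - w.re| ≤ ρ := (le_max_left _ _).trans hcon
  have c2 : |z.im - w.im| ≤ ρ := (le_max_right _ _).trans hcon
  have := Complex.norm_le_abs_re_add_abs_im (z - w)
  rw [Complex.sub_re, Complex.sub_im] at this
  linarith [h w hw]

/-- points of `Far` are at Euclidean distance `> ρ` from the polygon -/
theorem dist_of_far {z w : ℂ} (hz : z ∈ Far δ ρ F) (hw : w ∈ Pg δ F) : ρ < ‖z - w‖ := by
  have h1 := Complex.abs_re_le_norm (z - w)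
  have h2 := Complex.abs_im_le_norm (z - w)
  rw [Complex.sub_re] at h1
  rw [Complex.sub_im] at h2
  exact lt_of_lt_of_le (hz w hw) (max_le h1 h2)

/-! ### (O3) -/

variable {S : Finset ℂ}

/-- **(O3)** two sites whose cells meet `Far` are joined by sites whose cells meet `Far` -/
theorem pth_far (hF : ∀ q ∉ F, ∀ q' ∉ F, Con Fᶜ q q') (hr : 0 ≤ ρ) (hd : 2 * ρ < δ)
    (gp : GP (S : Set ℂ)) (h3 : 3 ≤ S.card) {a b : ℂ} (ha : a ∈ S) (hb : b ∈ S)
    (h1 : (Far δ ρ F ∩ voronoiCell (S : Set ℂ) a).Nonempty)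
    (h2 : (Far δ ρ F ∩ voronoiCell (S : Set ℂ) b).Nonempty) :
    Pth S {v | v ∈ S ∧ (Far δ ρ F ∩ voronoiCell (S : Set ℂ) v).Nonempty} a b := by
  obtain ⟨z1, g1⟩ := h1
  obtain ⟨z2, g2⟩ := h2
  exact REwx838.pth_of_set gp h3 (far_preconn hF hr hd) ha hb g1 g2 fun s hs h => ⟨hs, h⟩

/-- a preconnected part `C` -/
theorem pth_conn (gp : GP (S : Set ℂ)) (h3 : 3 ≤ S.card) {C : Set ℂ} (hC : IsPreconnected C)
    {a b : ℂ} (ha : a ∈ S) (hb : b ∈ S) (h1 : (C ∩ voronoiCell (S : Set ℂ) a).Nonempty)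
    (h2 : (C ∩ voronoiCell (S : Set ℂ) b).Nonempty) :
    Pth S {v | v ∈ S ∧ (C ∩ voronoiCell (S : Set ℂ) v).Nonempty} a b := by
  obtain ⟨z1, g1⟩ := h1
  obtain ⟨z2, g2⟩ := h2
  exact REwx838.pth_of_set gp h3 hC ha hb g1 g2 fun s hs h => ⟨hs, h⟩

/-- **(O3)** a site whose cell meets `C` is at distance `< d` of a point of `C` in its cell, or near
the boundary of the disc -/
theorem near_of_cell {c : ℂ} {L d : ℝ} (hD : Dns S c L d) {C : Set ℂ} {v : ℂ}
    (h : (C ∩ voronoiCell (S : Set ℂ) v).Nonempty) :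
    (∃ z ∈ C, z ∈ voronoiCell (S : Set ℂ) v ∧ ‖v - z‖ < d) ∨ L - 2 * d < ‖v - c‖ := by
  obtain ⟨z, hz, hzv⟩ := h
  by_cases h1 : ‖z - c‖ ≤ L - d
  · obtain ⟨t, ht, h2⟩ := hD.hole z h1
    have h3 := hzv t (Finset.mem_coe.2 ht)
    left
    refine ⟨z, hz, hzv, ?_⟩
    rw [norm_sub_rev v z]
    rw [norm_sub_rev t z] at h2
    linarith
  · right
    by_contra hcon
    push Not at hcon h1
    -- point of the segment at distance `L - d` from `c`
    have hcont : ContinuousOn (fun p : ℂ => ‖p - c‖) (segment ℝ v z) :=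
      (continuous_norm.comp (continuous_id.sub continuous_const)).continuousOn
    have hpre := (convex_segment (𝕜 := ℝ) v z).isPreconnected
    have hd := hD.dpos
    obtain ⟨p, hp, hpn⟩ := hpre.intermediate_value (left_mem_segment ℝ v z)
      (right_mem_segment ℝ v z) hcont (⟨by linarith, h1.le⟩ : L - d ∈ Set.Icc ‖v - c‖ ‖z - c‖)
    have hpn' : ‖p - c‖ = L - d := hpn
    have hpv : p ∈ voronoiCell (S : Set ℂ) v :=
      (G6Vx408.convex_cell (S : Set ℂ) v).segment_subset (REwx838.self_cell v) hzv hp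
    obtain ⟨t, ht, h2⟩ := hD.hole p hpn'.le
    have h3 := hpv t (Finset.mem_coe.2 ht)
    rw [norm_sub_rev t p] at h2
    have h4 : ‖p - c‖ ≤ ‖p - v‖ + ‖v - c‖ := by
      have : p - c = (p - v) + (v - c) := by ring
      rw [this]
      exact norm_add_le _ _
    linarith

/-- **(O3)** for `Far` -/
theorem near_far {c : ℂ} {L d : ℝ} (hD : Dns S c L d) {v : ℂ}
    (h : (Far δ ρ F ∩ voronoiCell (S : Set ℂ) v).Nonempty) :
    (∃ z ∈ Far δ ρ F, ‖v - z‖ < d) ∨ L - 2 * d < ‖v - c‖ := by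
  rcases near_of_cell hD h with ⟨z, hz, -, h1⟩ | h1
  · exact Or.inl ⟨z, hz, h1⟩
  · exact Or.inr h1

/-- the site of a point of `Far` -/
theorem cell_of_far (hne : S.Nonempty) {z : ℂ} (hz : z ∈ Far δ ρ F) :
    ∃ v ∈ S, z ∈ voronoiCell (S : Set ℂ) v ∧ (Far δ ρ F ∩ voronoiCell (S : Set ℂ) v).Nonempty := by
  obtain ⟨v, hv, h⟩ := G6Wx723.exists_cell hne z
  exact ⟨v, hv, h, z, hz, h⟩

/-- a site in `Far` -/
theorem site_far {v : ℂ} (hv : v ∈ Far δ ρ F) :
    (Far δ ρ F ∩ voronoiCell (S : Set ℂ) v).Nonempty :=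
  ⟨v, hv, REwx838.self_cell v⟩

/-- **(O3)** two sites of `Far` are joined by sites at distance `< d` of `Far` or near the boundary
of the disc -/
theorem pth_sites (hF : ∀ q ∉ F, ∀ q' ∉ F, Con Fᶜ q q') (hr : 0 ≤ ρ) (hd : 2 * ρ < δ) {c : ℂ}
    {L d : ℝ} (hD : Dns S c L d) (h3 : 3 ≤ S.card) {a b : ℂ} (ha : a ∈ S) (hb : b ∈ S)
    (h1 : (Far δ ρ F ∩ voronoiCell (S : Set ℂ) a).Nonempty)
    (h2 : (Far δ ρ F ∩ voronoiCell (S : Set ℂ) b).Nonempty) :
    Pth S {v | v ∈ S ∧ ((∃ z ∈ Far δ ρ F, ‖v - z‖ < d) ∨ L - 2 * d < ‖v - c‖)} a b :=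
  REwx838.pth_of_set hD.gp h3 (far_preconn hF hr hd) ha hb h1.some_mem h2.some_mem
    fun _ hs h => ⟨hs, near_far hD h⟩

end Crest.Agent.R143.OutCx571
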