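import Crest.Agent.R143.Xc_372
import Crest.Agent.R143.OutC_571
import Crest.Agent.R143.Fine2_422
import Crest.Agent.R143.FineD_576
import Crest.Agent.R143.TileR1_228

/-!
# Row 143, R4 (3d), geometry of the column (helper372)

`H : Fine F n m p M W A` (422): fine path `W` (mesh `h`) at distance one on the left of the clockwise
boundary walk `p` of the coarse polygon `F` (side `m h`), gates of 228: `gz h W a`, `ge W a`.
* `box_far` : above a gate `a` with `A k + 4 ≤ a`, `a + 4 ≤ A (k + 1)` (frame `X`, `Y` of the gate,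
  absolute units): `|X| ≤ h / 2`, `0 ≤ Y ≤ h` ==> sup distance from the polygon `≥ h + Y`;
* `RR_sharp` : tile regions are at sup distance `≤ h + A'` from the polygon (`A'` = half width);
  `far_off` : `Far (m h) (h + A') F` is disjoint from all of them;
* `colC`, `col_pre` : the box above the gate `∪` the exterior `Far (m h) (3/2 h) F` is connected;
* `col_path` : every site in the box above the gate at height `≥ y1` is joined to both ends of every
  hull edge by sites of `Far (m h) (h + y1 - 2 d) F`;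
* `out_path` : the same for every site of `Far (m h) (3/2 h) F`;
* `col_off` : with `A' + 2 d ≤ y1` all these sites are off all tile regions `RR A' B' h W b`;
* **`top_T`** : every site `s` of the window of the gate with `A' ≤ Y s` is joined to the hull by
  sites off all `RR A' B' h W b`, and off all `RR (A' + e) (B' + e) h W b`, `b ≠ a - 1, a` mod `M`.
-/

set_option autoImplicit false

noncomputable section

open scoped Classical

namespace Crest.Agent.R143.LnkGx372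

open Crest.ProbabilityR.Voronoi
open Crest.Agent.R158.Sp896 (V Adj Con sq lc rc)
open Crest.Agent.R143.Tenx416 (Pg)
open Crest.Agent.R143.OutCx571 (Far mem_pg)
open Crest.Agent.R143.TileRx228 (U4 cz cen gz ge Arm RR)
open Crest.Agent.R143.Gatex838 (X Y)
open Crest.Agent.R143.Finex422 (Fine ro)
open Crest.Agent.R143.RE0x723 (Pth)
open Crest.Agent.R143.DomAx722 (Dns)
open Crest.Agent.R143.B0x346 (hullE)

variable {F : Set V} {n : ℕ} {m : ℤ} {p : ℤ → V} {M : ℕ} {W : ℤ → V} {A : ℤ → ℤ} {h : ℝ}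

/-- a point in the open coarse square `q` and in the closed square `q'` -/
theorem open_cell {δ : ℝ} (hδ : 0 < δ) {q q' : V} {w : ℂ} (hw : w ∈ sq δ q')
    (h1 : δ * q.1 < w.re) (h2 : w.re < δ * (q.1 + 1)) (h3 : δ * q.2 < w.im)
    (h4 : w.im < δ * (q.2 + 1)) : q' = q := by
  obtain ⟨g1, g2, g3, g4⟩ := hw
  have a1 : (q'.1 : ℝ) < q.1 + 1 := lt_of_mul_lt_mul_left (lt_of_le_of_lt g1 h2) hδ.le
  have a2 : (q.1 : ℝ) < q'.1 + 1 := lt_of_mul_lt_mul_left (lt_of_lt_of_le h1 g2) hδ.le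
  have a3 : (q'.2 : ℝ) < q.2 + 1 := lt_of_mul_lt_mul_left (lt_of_le_of_lt g3 h4) hδ.le
  have a4 : (q.2 : ℝ) < q'.2 + 1 := lt_of_mul_lt_mul_left (lt_of_lt_of_le h3 g4) hδ.le
  have b1 : q'.1 < q.1 + 1 := by exact_mod_cast a1
  have b2 : q.1 < q'.1 + 1 := by exact_mod_cast a2
  have b3 : q'.2 < q.2 + 1 := by exact_mod_cast a3
  have b4 : q.2 < q'.2 + 1 := by exact_mod_cast a4
  exact Prod.ext (by omega) (by omega)

/-- exact position of a vertex well inside a coarse edge -/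
theorem pos (H : Fine F n m p M W A) {k a : ℤ} (h1 : A k + 4 ≤ a) (h2 : a + 4 ≤ A (k + 1)) :
    ∃ t : ℤ, 3 ≤ t ∧ t + 3 ≤ m ∧
      W a = m • p k + ro (p (k + 1) - p k) + t • (p (k + 1) - p k) := by
  obtain ⟨t1, a1, -, e1⟩ := H.exact k (A k) le_rfl (by omega)
  obtain ⟨t2, -, a2, e2⟩ := H.exact k (A (k + 1)) (by omega) le_rfl
  have e3 := H.seg k a (by omega) (by omega)
  have e4 := H.seg k (A (k + 1)) (by omega) le_rfl
  rw [e1] at e3 e4
  rw [e2] at e4
  have hD := Crest.Agent.R143.Finex422.adj_un (H.cl.step k)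
  have e5 : t2 = t1 + (A (k + 1) - A k) := by
    have f1 := congrArg Prod.fst e4
    have f2 := congrArg Prod.snd e4
    rcases hD with h | h | h | h <;> rw [h] at f1 f2 <;> simp [ro] at f1 f2 <;> omega
  refine ⟨t1 + (a - A k), by omega, by omega, ?_⟩
  rw [e3, add_smul, add_assoc]

theorem coord {u : V} (hu : U4 u) (c z : ℂ) :
    z.re = c.re + u.1 * X c (cz u) z - u.2 * Y c (cz u) z ∧
      z.im = c.im + u.2 * X c (cz u) z + u.1 * Y c (cz u) z := by
  rw [Crest.Agent.R143.TileRx228.X_cz hu, Crest.Agent.R143.TileRx228.Y_cz hu]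
  rcases hu with rfl | rfl | rfl | rfl <;> constructor <;>
    simp only [Complex.sub_re, Complex.sub_im, Int.cast_one, Int.cast_zero, Int.cast_neg] <;> ring

/-- coordinates of a point in the frame of a gate inside a coarse edge -/
theorem frame (H : Fine F n m p M W A) {k a : ℤ} (h1 : A k + 4 ≤ a)
    (h2 : a + 4 ≤ A (k + 1)) (h : ℝ) (z : ℂ) : ∃ t : ℤ, 3 ≤ t ∧ t + 3 ≤ m ∧
      z.re = h * (m * (p k).1 - (p (k + 1) - p k).2 + (t - 1 / 2) * (p (k + 1) - p k).1) +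
        (p (k + 1) - p k).1 * X (gz h W a) (ge W a) z -
        (p (k + 1) - p k).2 * Y (gz h W a) (ge W a) z ∧
      z.im = h * (m * (p k).2 + (p (k + 1) - p k).1 + (t - 1 / 2) * (p (k + 1) - p k).2) +
        (p (k + 1) - p k).2 * X (gz h W a) (ge W a) z +
        (p (k + 1) - p k).1 * Y (gz h W a) (ge W a) z := by
  obtain ⟨t, t3, t4, eW⟩ := pos H h1 h2
  have eS : W a - W (a - 1) = p (k + 1) - p k := by
    have := H.step k (a - 1) (by omega) (by omega)
    rwa [sub_add_cancel] at this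
  have hU := Crest.Agent.R143.Finex422.adj_un (H.cl.step k)
  have hge : ge W a = cz (p (k + 1) - p k) := by unfold ge; rw [eS]
  have hgz : gz h W a = (h : ℂ) * (cz (W a) - cz (p (k + 1) - p k) / 2) := by
    unfold gz
    have : W (a - 1) = W a - (p (k + 1) - p k) := by rw [← eS]; abel
    rw [this, Crest.Agent.R143.TileRx228.cz_sub]
    ring
  obtain ⟨e1, e2⟩ := coord hU (gz h W a) z
  rw [hge]
  generalize hD : p (k + 1) - p k = D at *
  have r1 : (gz h W a).re = h * ((W a).1 - (D.1 : ℝ) / 2) := by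
    rw [hgz]
    simp only [cz, Complex.re_ofReal_mul, Complex.sub_re]
    congr 2
    have := Complex.div_ofReal_re (⟨(D.1 : ℝ), (D.2 : ℝ)⟩ : ℂ) 2
    simpa using this
  have r2 : (gz h W a).im = h * ((W a).2 - (D.2 : ℝ) / 2) := by
    rw [hgz]
    simp only [cz, Complex.im_ofReal_mul, Complex.sub_im]
    congr 2
    have := Complex.div_ofReal_im (⟨(D.1 : ℝ), (D.2 : ℝ)⟩ : ℂ) 2
    simpa using this
  have w1 : ((W a).1 : ℝ) = m * (p k).1 - D.2 + t * D.1 := by
    have := congrArg Prod.fst eW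
    simp only [ro, Prod.fst_add, Prod.smul_fst, smul_eq_mul] at this
    rw [this]
    push_cast
    ring
  have w2 : ((W a).2 : ℝ) = m * (p k).2 + D.1 + t * D.2 := by
    have := congrArg Prod.snd eW
    simp only [ro, Prod.snd_add, Prod.smul_snd, smul_eq_mul] at this
    rw [this]
    push_cast
    ring
  refine ⟨t, t3, t4, ?_, ?_⟩
  · rw [r1, w1] at e1
    rw [e1]
    ring
  · rw [r2, w2] at e2
    rw [e2]
    ring

/-- the left cell of a coarse edge -/
theorem lc_eq (x : V) :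
    lc x (x + (1, 0)) = (x.1, x.2) ∧ lc x (x + (0, 1)) = (x.1 - 1, x.2) ∧
      lc x (x + (-1, 0)) = (x.1 - 1, x.2 - 1) ∧ lc x (x + (0, -1)) = (x.1, x.2 - 1) := by
  refine ⟨?_, ?_, ?_, ?_⟩ <;> simp only [lc, Prod.fst_add, Prod.snd_add] <;>
    ext <;> simp only <;> omega

/-- **above a gate inside a coarse edge** -/
theorem box_far (H : Fine F n m p M W A) (hh : 0 < h) {k a : ℤ} (h1 : A k + 4 ≤ a)
    (h2 : a + 4 ≤ A (k + 1)) {z : ℂ} (hX : |X (gz h W a) (ge W a) z| ≤ h / 2)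
    (hY0 : 0 ≤ Y (gz h W a) (ge W a) z) (hY1 : Y (gz h W a) (ge W a) z ≤ h) {w : ℂ}
    (hw : w ∈ Pg (m * h) F) :
    h + Y (gz h W a) (ge W a) z ≤ max |z.re - w.re| |z.im - w.im| := by
  by_contra hcon
  push Not at hcon
  obtain ⟨t, t3, t4, e1, e2⟩ := frame H h1 h2 h z
  generalize X (gz h W a) (ge W a) z = x at *
  generalize Y (gz h W a) (ge W a) z = y at *
  have hm : (6 : ℤ) ≤ m := by omega
  have hmR : (6 : ℝ) ≤ m := by exact_mod_cast hm
  have hδ : (0 : ℝ) < m * h := by positivity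
  obtain ⟨q', hq', hwq⟩ := mem_pg.1 hw
  have c1 := (le_max_left _ _).trans_lt hcon
  have c2 := (le_max_right _ _).trans_lt hcon
  rw [abs_lt] at c1 c2
  rw [abs_le] at hX
  have ht3 : (3 : ℝ) ≤ t := by exact_mod_cast t3
  have ht4 : (t : ℝ) + 3 ≤ m := by exact_mod_cast t4
  have k3 : h * 3 ≤ h * t := mul_le_mul_of_nonneg_left ht3 hh.le
  have k4 : h * (t + 3) ≤ h * m := mul_le_mul_of_nonneg_left ht4 hh.le
  have k6 : h * 6 ≤ h * m := mul_le_mul_of_nonneg_left hmR hh.le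
  refine H.cl.left k ?_
  have hU := Crest.Agent.R143.Finex422.adj_un (H.cl.step k)
  have hp : p (k + 1) = p k + (p (k + 1) - p k) := by abel
  obtain ⟨x1, x2⟩ := hX
  obtain ⟨c11, c12⟩ := c1
  obtain ⟨c21, c22⟩ := c2
  obtain ⟨l1, l2, l3, l4⟩ := lc_eq (p k)
  generalize hD : p (k + 1) - p k = D at *
  rw [hp]
  rcases hU with rfl | rfl | rfl | rfl <;>
    simp only [Int.cast_one, Int.cast_zero, Int.cast_neg] at e1 e2
  · rw [l1, ← open_cell hδ (q := ((p k).1, (p k).2)) hwq ?_ ?_ ?_ ?_]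
    · exact hq'
    all_goals simp only; nlinarith
  · rw [l2, ← open_cell hδ (q := ((p k).1 - 1, (p k).2)) hwq ?_ ?_ ?_ ?_]
    · exact hq'
    all_goals push_cast; nlinarith
  · rw [l3, ← open_cell hδ (q := ((p k).1 - 1, (p k).2 - 1)) hwq ?_ ?_ ?_ ?_]
    · exact hq'
    all_goals push_cast; nlinarith
  · rw [l4, ← open_cell hδ (q := ((p k).1, (p k).2 - 1)) hwq ?_ ?_ ?_ ?_]
    · exact hq'
    all_goals push_cast; nlinarith

/-! ### tile regions -/

theorem rc_eq (x : V) :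
    rc x (x + (1, 0)) = (x.1, x.2 - 1) ∧ rc x (x + (0, 1)) = (x.1, x.2) ∧
      rc x (x + (-1, 0)) = (x.1 - 1, x.2) ∧ rc x (x + (0, -1)) = (x.1 - 1, x.2 - 1) := by
  refine ⟨?_, ?_, ?_, ?_⟩ <;> simp only [rc, Prod.fst_add, Prod.snd_add] <;>
    ext <;> simp only <;> omega

/-- clamp -/
theorem clamp {v b h : ℝ} (hb : 0 ≤ b) (hh : 0 ≤ h) (h1 : -h ≤ v) (h2 : v ≤ b + h) :
    ∃ c, 0 ≤ c ∧ c ≤ b ∧ |v - c| ≤ h := by
  rcases le_total v 0 with h3 | h3
  · exact ⟨0, le_rfl, hb, by rw [abs_le]; constructor <;> linarith⟩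
  · rcases le_total v b with h4 | h4
    · exact ⟨v, h3, h4, by rw [sub_self, abs_zero]; exact hh⟩
    · exact ⟨b, hb, le_rfl, by rw [abs_le]; constructor <;> linarith⟩

/-- fine edges are at sup distance `≤ h` from the polygon -/
theorem edge_near (H : Fine F n m p M W A) (hh : 0 < h) (hm : 0 < m) (c : ℤ) {t : ℝ} (t0 : 0 ≤ t)
    (t1 : t ≤ h) : ∃ x ∈ Pg (m * h) F,
      |h * (W c).1 + t * (W (c + 1) - W c).1 - x.re| ≤ h ∧
        |h * (W c).2 + t * (W (c + 1) - W c).2 - x.im| ≤ h := by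
  obtain ⟨k, k1, k2⟩ := H.loc c
  obtain ⟨t1', a1, a2, eW⟩ := H.exact k c k1 k2.le
  obtain ⟨t2', a3, a4, eW'⟩ := H.exact k (c + 1) (by omega) (by omega)
  have eS : W (c + 1) - W c = p (k + 1) - p k := H.step k c k1 k2
  have hU := Crest.Agent.R143.Finex422.adj_un (H.cl.step k)
  have hr := H.cl.right k
  have hp : p (k + 1) = p k + (p (k + 1) - p k) := by abel
  obtain ⟨r1, r2, r3, r4⟩ := rc_eq (p k)
  have hmh : (0 : ℝ) < m * h := by
    have : (0 : ℝ) < m := by exact_mod_cast hm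
    positivity
  have hlt : t1' + 1 ≤ m + 1 := by
    have e : t2' = t1' + 1 := by
      have e3 : W (c + 1) = W c + (p (k + 1) - p k) := by rw [← eS]; abel
      rw [eW, eW'] at e3
      have f1 := congrArg Prod.fst e3
      have f2 := congrArg Prod.snd e3
      rcases hU with h | h | h | h <;> rw [h] at f1 f2 <;> simp [ro] at f1 f2 <;> omega
    omega
  rw [hp] at hr
  rw [eS]
  generalize hD : p (k + 1) - p k = D at *
  have w1 : ((W c).1 : ℝ) = m * (p k).1 - D.2 + t1' * D.1 := by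
    have := congrArg Prod.fst eW
    simp only [ro, Prod.fst_add, Prod.smul_fst, smul_eq_mul] at this
    rw [this]
    push_cast
    ring
  have w2 : ((W c).2 : ℝ) = m * (p k).2 + D.1 + t1' * D.2 := by
    have := congrArg Prod.snd eW
    simp only [ro, Prod.snd_add, Prod.smul_snd, smul_eq_mul] at this
    rw [this]
    push_cast
    ring
  have b1 : (-1 : ℝ) ≤ t1' := by exact_mod_cast a1
  have b2 : (t1' : ℝ) + 1 ≤ m + 1 := by exact_mod_cast hlt
  have v1 : -h ≤ h * t1' + t := by nlinarith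
  have v2 : h * t1' + t ≤ m * h + h := by nlinarith
  obtain ⟨v, v3, v4, v5⟩ := clamp hmh.le hh.le v1 v2
  rw [abs_le] at v5
  rw [w1, w2]
  refine ⟨⟨m * h * (p k).1 + v * D.1, m * h * (p k).2 + v * D.2⟩, ?_, ?_, ?_⟩
  · refine mem_pg.2 ⟨_, hr, ?_⟩
    rcases hU with rfl | rfl | rfl | rfl
    · rw [r1]
      simp only [Crest.Agent.R158.Sp896.sq, Set.mem_ofPred_eq]
      push_cast
      refine ⟨?_, ?_, ?_, ?_⟩ <;> nlinarith
    · rw [r2]
      simp only [Crest.Agent.R158.Sp896.sq, Set.mem_ofPred_eq]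
      push_cast
      refine ⟨?_, ?_, ?_, ?_⟩ <;> nlinarith
    · rw [r3]
      simp only [Crest.Agent.R158.Sp896.sq, Set.mem_ofPred_eq]
      push_cast
      refine ⟨?_, ?_, ?_, ?_⟩ <;> nlinarith
    · rw [r4]
      simp only [Crest.Agent.R158.Sp896.sq, Set.mem_ofPred_eq]
      push_cast
      refine ⟨?_, ?_, ?_, ?_⟩ <;> nlinarith
  · rw [abs_le]
    rcases hU with rfl | rfl | rfl | rfl <;>
      simp only [Int.cast_one, Int.cast_zero, Int.cast_neg] <;> constructor <;> nlinarith [v5.1, v5.2]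
  · rw [abs_le]
    rcases hU with rfl | rfl | rfl | rfl <;>
      simp only [Int.cast_one, Int.cast_zero, Int.cast_neg] <;> constructor <;> nlinarith [v5.1, v5.2]

/-- foot point of a point of an arm, strict form -/
theorem arm_pt' {A B : ℝ} (hB : 0 ≤ B) {c s : ℂ} {u : V} (hu : U4 u) (hs : s ∈ Arm A B c (cz u)) :
    ∃ t : ℝ, 0 ≤ t ∧ t ≤ B ∧ |s.re - (c.re + t * u.1)| < A ∧ |s.im - (c.im + t * u.2)| < A := by
  obtain ⟨⟨h1, h2⟩, h3⟩ := hs
  obtain ⟨e1, e2⟩ := coord hu c s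
  have hA : 0 < A := lt_of_le_of_lt (abs_nonneg _) h3
  generalize X c (cz u) s = x at *
  generalize Y c (cz u) s = y at *
  rw [abs_lt] at h3
  have key : 0 ≤ max 0 x ∧ max 0 x ≤ B ∧ -A < x - max 0 x ∧ x - max 0 x ≤ 0 := by
    rcases le_total 0 x with h0 | h0
    · rw [max_eq_right h0]
      exact ⟨h0, h2.le, by linarith, by linarith⟩
    · rw [max_eq_left h0]
      exact ⟨le_rfl, hB, by linarith, by linarith⟩
  obtain ⟨k1, k2, k3, k4⟩ := key
  refine ⟨_, k1, k2, ?_, ?_⟩ <;>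
  (generalize max 0 x = M at k3 k4 ⊢
   rw [abs_lt]
   rcases hu with rfl | rfl | rfl | rfl <;>
    simp only [Int.cast_one, Int.cast_zero, Int.cast_neg, mul_one, mul_zero, mul_neg, add_zero,
      zero_add, sub_zero, zero_sub, one_mul, zero_mul, neg_mul] at h3 e1 e2 k3 k4 ⊢ <;>
      constructor <;> linarith)

/-- **tile regions are at sup distance `< h + A'` from the polygon** -/
theorem RR_sharp (H : Fine F n m p M W A) (hh : 0 < h) (hm : 0 < m) {A' B' : ℝ} (hB : 0 ≤ B')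
    (hBh : B' ≤ h) {b : ℤ} {s : ℂ} (hs : s ∈ RR A' B' h W b) : ∃ x ∈ Pg (m * h) F,
      |s.re - x.re| < h + A' ∧ |s.im - x.im| < h + A' := by
  have tri : ∀ a b c d e : ℝ, |a - b| < d → |b - c| ≤ e → |a - c| < e + d := by
    intro a b c d e h1 h2
    have := abs_sub_le a b c
    linarith
  rcases hs with hs | hs
  · have hu : U4 (W (b - 1) - W b) := by
      have h1 := H.un (b - 1)
      rw [sub_add_cancel] at h1
      have h2 : U4 (W b - W (b - 1)) := h1
      have h3 := Crest.Agent.R143.TileRx228.U4.neg h2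
      rwa [neg_sub] at h3
    obtain ⟨t, t0, t1, t2, t3⟩ := arm_pt' hB hu hs
    rw [Crest.Agent.R143.FineDx576.cen_re] at t2
    rw [Crest.Agent.R143.FineDx576.cen_im] at t3
    obtain ⟨x, hx, x1, x2⟩ := edge_near H hh hm (b - 1) (t := h - t) (by linarith) (by linarith)
    rw [sub_add_cancel] at x1 x2
    have e1 : h * ((W (b - 1)).1 : ℝ) + (h - t) * (W b - W (b - 1)).1 =
        h * (W b).1 + t * (W (b - 1) - W b).1 := by
      simp only [Prod.fst_sub]; push_cast; ring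
    have e2 : h * ((W (b - 1)).2 : ℝ) + (h - t) * (W b - W (b - 1)).2 =
        h * (W b).2 + t * (W (b - 1) - W b).2 := by
      simp only [Prod.snd_sub]; push_cast; ring
    rw [e1] at x1
    rw [e2] at x2
    exact ⟨x, hx, tri _ _ _ _ _ t2 x1, tri _ _ _ _ _ t3 x2⟩
  · obtain ⟨t, t0, t1, t2, t3⟩ := arm_pt' hB (H.un b) hs
    rw [Crest.Agent.R143.FineDx576.cen_re] at t2
    rw [Crest.Agent.R143.FineDx576.cen_im] at t3
    obtain ⟨x, hx, x1, x2⟩ := edge_near H hh hm b (t := t) t0 (by linarith)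
    exact ⟨x, hx, tri _ _ _ _ _ t2 x1, tri _ _ _ _ _ t3 x2⟩

/-- points at sup distance `≥ h + A'` are off the tile regions -/
theorem dist_off (H : Fine F n m p M W A) (hh : 0 < h) (hm : 0 < m) {A' B' : ℝ} (hB : 0 ≤ B')
    (hBh : B' ≤ h) {s : ℂ}
    (hs : ∀ w ∈ Pg (m * h) F, h + A' ≤ max |s.re - w.re| |s.im - w.im|) (b : ℤ) :
    s ∉ RR A' B' h W b := by
  intro h1
  obtain ⟨x, hx, x1, x2⟩ := RR_sharp H hh hm hB hBh h1
  have := hs x hx
  have h2 := max_lt x1 x2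
  linarith

/-- **the exterior is off the tile regions** -/
theorem far_off (H : Fine F n m p M W A) (hh : 0 < h) (hm : 0 < m) {A' B' ρ : ℝ} (hB : 0 ≤ B')
    (hBh : B' ≤ h) (hρ : h + A' ≤ ρ) {s : ℂ} (hs : s ∈ Far (m * h) ρ F) (b : ℤ) :
    s ∉ RR A' B' h W b := by
  exact dist_off H hh hm hB hBh (fun w hw => hρ.trans (hs w hw).le) b

/-! ### the column -/

/-- the box above the gate at height `≥ y1`, and the exterior -/
def colC (h : ℝ) (W : ℤ → V) (a : ℤ) (y1 : ℝ) (m : ℤ) (F : Set V) : Set ℂ :=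
  {z | (|X (gz h W a) (ge W a) z| ≤ h / 2 ∧ y1 ≤ Y (gz h W a) (ge W a) z ∧
    Y (gz h W a) (ge W a) z ≤ h)} ∪ Far (m * h) (3 / 2 * h) F

theorem convex_box (c e : ℂ) (x0 y0 y1 : ℝ) :
    Convex ℝ {z : ℂ | |X c e z| ≤ x0 ∧ y0 ≤ Y c e z ∧ Y c e z ≤ y1} := by
  rintro z ⟨a1, a2, a3⟩ w ⟨b1, b2, b3⟩ s t hs ht hst
  have ex : X c e (s • z + t • w) = s * X c e z + t * X c e w :=
    Crest.Agent.R143.REwx838.X_seg (z0 := c) (u := e) hst
  have ey : Y c e (s • z + t • w) = s * Y c e z + t * Y c e w :=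
    Crest.Agent.R143.REwx838.Y_seg (z0 := c) (u := e) hst
  refine ⟨?_, ?_, ?_⟩
  · rw [ex]
    rw [abs_le] at a1 b1 ⊢
    exact ⟨Crest.Agent.R143.REwx838.le_seg hs ht hst a1.1 b1.1,
      Crest.Agent.R143.REwx838.seg_le hs ht hst a1.2 b1.2⟩
  · rw [ey]
    exact Crest.Agent.R143.REwx838.le_seg hs ht hst a2 b2
  · rw [ey]
    exact Crest.Agent.R143.REwx838.seg_le hs ht hst a3 b3

theorem ge_ne (H : Fine F n m p M W A) (a : ℤ) : ge W a ≠ 0 := by
  have h1 := H.un (a - 1)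
  rw [sub_add_cancel] at h1
  exact Crest.Agent.R143.TileRx228.cz_ne h1

theorem col_pre (H : Fine F n m p M W A) (hh : 0 < h) (hF : ∀ q ∉ F, ∀ q' ∉ F, Con Fᶜ q q')
    {k a : ℤ} (h1 : A k + 4 ≤ a) (h2 : a + 4 ≤ A (k + 1)) {y1 : ℝ} (hy : y1 ≤ h) :
    IsPreconnected (colC h W a y1 m F) := by
  obtain ⟨t, t3, t4, -⟩ := pos H h1 h2
  have hmR : (6 : ℝ) ≤ m := by exact_mod_cast (by omega : (6 : ℤ) ≤ m)
  have hne := ge_ne H a
  set z : ℂ := gz h W a + ge W a * (h * Complex.I) with hz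
  have e1 : X (gz h W a) (ge W a) z = 0 := by
    rw [hz]; unfold X
    rw [add_sub_cancel_left, mul_div_cancel_left₀ _ hne]; simp
  have e2 : Y (gz h W a) (ge W a) z = h := by
    rw [hz]; unfold Y
    rw [add_sub_cancel_left, mul_div_cancel_left₀ _ hne]; simp
  refine IsPreconnected.union z ?_ ?_ (convex_box _ _ _ _ _).isPreconnected
    (Crest.Agent.R143.OutCx571.far_preconn hF (by positivity) (by nlinarith))
  · refine ⟨?_, ?_, ?_⟩
    · rw [e1, abs_zero]; positivity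
    · rw [e2]; exact hy
    · rw [e2]
  · intro w hw
    have := box_far H hh h1 h2 (z := z) (by rw [e1, abs_zero]; positivity) (by rw [e2]; exact hh.le)
      (by rw [e2]) hw
    rw [e2] at this
    linarith

/-- sup distance of the points of `colC` -/
theorem col_dist (H : Fine F n m p M W A) (hh : 0 < h) {k a : ℤ} (h1 : A k + 4 ≤ a)
    (h2 : a + 4 ≤ A (k + 1)) {y1 : ℝ} (hy0 : 0 ≤ y1) (hy : y1 ≤ h / 2) {z w : ℂ}
    (hz : z ∈ colC h W a y1 m F) (hw : w ∈ Pg (m * h) F) :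
    h + y1 ≤ max |z.re - w.re| |z.im - w.im| := by
  rcases hz with ⟨a1, a2, a3⟩ | hz
  · have := box_far H hh h1 h2 a1 (by linarith) a3 hw
    linarith
  · have := hz w hw
    linarith

/-- the sup distance changes by at most the norm -/
theorem max_near {x z w : ℂ} {e r : ℝ} (hx : ‖x - z‖ < e) (h : r ≤ max |z.re - w.re| |z.im - w.im|) :
    r - e < max |x.re - w.re| |x.im - w.im| := by
  have g1 := (Complex.abs_re_le_norm (x - z)).trans_lt hx
  have g2 := (Complex.abs_im_le_norm (x - z)).trans_lt hx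
  rw [Complex.sub_re] at g1
  rw [Complex.sub_im] at g2
  rcases le_max_iff.1 h with h | h
  · refine lt_of_lt_of_le ?_ (le_max_left _ _)
    have := abs_sub_le z.re x.re w.re
    rw [abs_sub_comm z.re x.re] at this
    linarith
  · refine lt_of_lt_of_le ?_ (le_max_right _ _)
    have := abs_sub_le z.im x.im w.im
    rw [abs_sub_comm z.im x.im] at this
    linarith

/-- **the column**: every site whose cell meets `colC` is joined to both ends of every hull edge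
inside `Far (m h) (h + y1 - 2 d) F` -/
theorem col_path (H : Fine F n m p M W A) (hh : 0 < h) (hF : ∀ q ∉ F, ∀ q' ∉ F, Con Fᶜ q q')
    {k a : ℤ} (h1 : A k + 4 ≤ a) (h2 : a + 4 ≤ A (k + 1)) {y1 : ℝ} (hy0 : 0 ≤ y1) (hy : y1 ≤ h / 2)
    {T : Finset ℂ} {c : ℂ} {L d : ℝ} (hD : Dns T c L d)
    (hin : ∀ z, L - 2 * d ≤ ‖z - c‖ → z ∈ Far (m * h) (3 / 2 * h) F) {u x y : ℂ} (hu : u ∈ T)
    (huC : (colC h W a y1 m F ∩ voronoiCell (T : Set ℂ) u).Nonempty) (hxy : hullE T x y) :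
    Pth T {s | s ∈ T ∧ s ∈ Far (m * h) (h + y1 - 2 * d) F} u x ∧
      Pth T {s | s ∈ T ∧ s ∈ Far (m * h) (h + y1 - 2 * d) F} u y := by
  have hd := hD.dpos
  have hL := hD.dL
  have hpre := col_pre H hh hF h1 h2 (y1 := y1) (by linarith)
  have hout : ∀ z, L - 2 * d ≤ ‖z - c‖ → z ∈ colC h W a y1 m F := fun z hz => Or.inr (hin z hz)
  have hV : {s | s ∈ T ∧ ∃ z ∈ colC h W a y1 m F, ‖s - z‖ < 2 * d} ⊆
      {s | s ∈ T ∧ s ∈ Far (m * h) (h + y1 - 2 * d) F} := by
    rintro s ⟨g1, z, g2, g3⟩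
    exact ⟨g1, fun w hw => max_near g3 (col_dist H hh h1 h2 hy0 hy g2 hw)⟩
  obtain ⟨e, he⟩ := hxy.1
  obtain ⟨w, hw⟩ := Crest.Agent.R143.DelGx806.mem_delT_iff.1 he
  constructor
  · refine (Xcx372.join_out' hD hpre hout hu hw.ma huC
      ⟨x, hout x ?_, Crest.Agent.R143.REwx838.self_cell x⟩).mono hV
    have := Xcx372.hull_rad hD hxy
    linarith
  · refine (Xcx372.join_out' hD hpre hout hu hw.mb huC
      ⟨y, hout y ?_, Crest.Agent.R143.REwx838.self_cell y⟩).mono hV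
    have := Xcx372.hull_rad' hD hxy
    linarith

/-- every site whose cell meets the exterior `Far (m h) (3/2 h) F` -/
theorem out_path (hh : 0 < h) (hm : 4 ≤ m) (hF : ∀ q ∉ F, ∀ q' ∉ F, Con Fᶜ q q')
    {T : Finset ℂ} {c : ℂ} {L d : ℝ} (hD : Dns T c L d)
    (hin : ∀ z, L - 2 * d ≤ ‖z - c‖ → z ∈ Far (m * h) (3 / 2 * h) F) {u x y : ℂ} (hu : u ∈ T)
    (huC : (Far (m * h) (3 / 2 * h) F ∩ voronoiCell (T : Set ℂ) u).Nonempty) (hxy : hullE T x y) :
    Pth T {s | s ∈ T ∧ s ∈ Far (m * h) (3 / 2 * h - 2 * d) F} u x ∧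
      Pth T {s | s ∈ T ∧ s ∈ Far (m * h) (3 / 2 * h - 2 * d) F} u y := by
  have hd := hD.dpos
  have hL := hD.dL
  have hmR : (4 : ℝ) ≤ m := by exact_mod_cast hm
  have hpre : IsPreconnected (Far (m * h) (3 / 2 * h) F) :=
    Crest.Agent.R143.OutCx571.far_preconn hF (by positivity) (by nlinarith)
  have hV : {s | s ∈ T ∧ ∃ z ∈ Far (m * h) (3 / 2 * h) F, ‖s - z‖ < 2 * d} ⊆
      {s | s ∈ T ∧ s ∈ Far (m * h) (3 / 2 * h - 2 * d) F} := by
    rintro s ⟨g1, z, g2, g3⟩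
    exact ⟨g1, fun w hw => max_near g3 (g2 w hw).le⟩
  obtain ⟨e, he⟩ := hxy.1
  obtain ⟨w, hw⟩ := Crest.Agent.R143.DelGx806.mem_delT_iff.1 he
  constructor
  · refine (Xcx372.join_out' hD hpre hin hu hw.ma huC
      ⟨x, hin x ?_, Crest.Agent.R143.REwx838.self_cell x⟩).mono hV
    have := Xcx372.hull_rad hD hxy
    linarith
  · refine (Xcx372.join_out' hD hpre hin hu hw.mb huC
      ⟨y, hin y ?_, Crest.Agent.R143.REwx838.self_cell y⟩).mono hV
    have := Xcx372.hull_rad' hD hxy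
    linarith

/-- a site in the box above the gate -/
theorem box_site {T : Finset ℂ} {a : ℤ} {y1 : ℝ} {u : ℂ}
    (h1 : |X (gz h W a) (ge W a) u| ≤ h / 2) (h2 : y1 ≤ Y (gz h W a) (ge W a) u)
    (h3 : Y (gz h W a) (ge W a) u ≤ h) : (colC h W a y1 m F ∩ voronoiCell (T : Set ℂ) u).Nonempty :=
  ⟨u, Or.inl ⟨h1, h2, h3⟩, Crest.Agent.R143.REwx838.self_cell u⟩

/-- **the path of the column is off all tile regions** -/
theorem col_off (H : Fine F n m p M W A) (hh : 0 < h) (hm : 0 < m)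
    (hF : ∀ q ∉ F, ∀ q' ∉ F, Con Fᶜ q q')
    {k a : ℤ} (h1 : A k + 4 ≤ a) (h2 : a + 4 ≤ A (k + 1)) {y1 : ℝ} (hy0 : 0 ≤ y1) (hy : y1 ≤ h / 2)
    {T : Finset ℂ} {c : ℂ} {L d : ℝ} (hD : Dns T c L d)
    (hin : ∀ z, L - 2 * d ≤ ‖z - c‖ → z ∈ Far (m * h) (3 / 2 * h) F) {u x y : ℂ} (hu : u ∈ T)
    (u1 : |X (gz h W a) (ge W a) u| ≤ h / 2) (u2 : y1 ≤ Y (gz h W a) (ge W a) u)
    (u3 : Y (gz h W a) (ge W a) u ≤ h) (hxy : hullE T x y) {A' B' : ℝ} (hB : 0 ≤ B')
    (hBh : B' ≤ h) (hA : A' + 2 * d ≤ y1) :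
    Pth T {s | s ∈ T ∧ ∀ b, s ∉ RR A' B' h W b} u x ∧
      Pth T {s | s ∈ T ∧ ∀ b, s ∉ RR A' B' h W b} u y := by
  obtain ⟨g1, g2⟩ := col_path H hh hF h1 h2 hy0 hy hD hin hu (box_site u1 u2 u3) hxy
  have hV : {s | s ∈ T ∧ s ∈ Far (m * h) (h + y1 - 2 * d) F} ⊆
      {s | s ∈ T ∧ ∀ b, s ∉ RR A' B' h W b} := fun s hs =>
    ⟨hs.1, fun b => far_off H hh hm hB hBh (by linarith) hs.2 b⟩
  exact ⟨g1.mono hV, g2.mono hV⟩

/-- points of the window are in the disc -/
theorem win_disc (H : Fine F n m p M W A) (hh : 0 < h) (hm : 0 < m) {c : ℂ} {L d : ℝ}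
    (hin : ∀ z, L - 2 * d ≤ ‖z - c‖ → z ∈ Far (m * h) (3 / 2 * h) F) {A2 B2 : ℝ} (hB : 0 ≤ B2)
    (hBh : B2 ≤ h) (hA : A2 ≤ h / 2) {b : ℤ} {z : ℂ} (hz : z ∈ RR A2 B2 h W b) :
    ‖z - c‖ < L - 2 * d := by
  by_contra hcon
  push Not at hcon
  exact far_off H hh hm hB hBh (by linarith) (hin z hcon) b hz

/-- **a site just above the strips at a gate inside a coarse edge is joined to the hull off all the
strips**, and off the strips fattened by `e` except near the gate -/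
theorem top_T (H : Fine F n m p M W A) (hh : 0 < h) (hm : 0 < m)
    (hF : ∀ q ∉ F, ∀ q' ∉ F, Con Fᶜ q q')
    {k a : ℤ} (h1 : A k + 4 ≤ a) (h2 : a + 4 ≤ A (k + 1))
    {T : Finset ℂ} {c : ℂ} {L d : ℝ} (hD : Dns T c L d)
    (hin : ∀ z, L - 2 * d ≤ ‖z - c‖ → z ∈ Far (m * h) (3 / 2 * h) F)
    {A' B' e A2 B2 : ℝ} (hA : 0 < A') (hAB : A' ≤ B') (he : 0 ≤ e) (hA2 : A' + e ≤ A2)
    (hB2 : B' + e ≤ B2) (hAB2 : A2 + B2 < h) (hAB2' : A2 ≤ B2) {s x y : ℂ} (hs : s ∈ T)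
    (hX : |X (gz h W a) (ge W a) s| + (2 * e + 8 * d) < B2 - h / 2)
    (hY : A' ≤ Y (gz h W a) (ge W a) s)
    (hY2 : Y (gz h W a) (ge W a) s + (2 * e + 8 * d) < A2) (hxy : hullE T x y) :
    Pth T {q | q ∈ T ∧ (∀ b, q ∉ RR A' B' h W b) ∧ ∀ b, ¬ (M : ℤ) ∣ a - b →
        ¬ (M : ℤ) ∣ a - (b + 1) → q ∉ RR (A' + e) (B' + e) h W b} s x ∧
      Pth T {q | q ∈ T ∧ (∀ b, q ∉ RR A' B' h W b) ∧ ∀ b, ¬ (M : ℤ) ∣ a - b →
        ¬ (M : ℤ) ∣ a - (b + 1) → q ∉ RR (A' + e) (B' + e) h W b} s y := by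
  have hd := hD.dpos
  have P := H.fpath
  have hne := ge_ne H a
  have hn1 : ‖ge W a‖ = 1 := by
    have h3 := H.un (a - 1)
    rw [sub_add_cancel] at h3
    exact Crest.Agent.R143.TileRx228.norm_cz h3
  have Xd : ∀ u v : ℂ, |X (gz h W a) (ge W a) u - X (gz h W a) (ge W a) v| ≤ ‖u - v‖ :=
    fun u v => Crest.Agent.R143.HULx838.X_diff hn1 u v
  have Yd : ∀ u v : ℂ, |Y (gz h W a) (ge W a) u - Y (gz h W a) (ge W a) v| ≤ ‖u - v‖ :=
    fun u v => Crest.Agent.R143.HULx838.Y_diff hn1 u v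
  set τ : ℝ := e + 4 * d with hτ
  have hτ0 : 0 ≤ τ := by positivity
  set g : ℂ := ge W a * Complex.I with hg
  have hg1 : ‖g‖ = 1 := by rw [hg, norm_mul, hn1, Complex.norm_I, mul_one]
  have Xp : ∀ σ : ℝ, X (gz h W a) (ge W a) (s + σ * g) = X (gz h W a) (ge W a) s := by
    intro σ
    have := Crest.Agent.R143.REwx838.X_add (z0 := gz h W a) hne s (σ * Complex.I)
    rw [show s + (σ : ℂ) * g = s + ge W a * (σ * Complex.I) by rw [hg]; ring]
    refine Eq.trans this ?_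
    simp
    rfl
  have Yp : ∀ σ : ℝ, Y (gz h W a) (ge W a) (s + σ * g) = Y (gz h W a) (ge W a) s + σ := by
    intro σ
    have := Crest.Agent.R143.REwx838.Y_add (z0 := gz h W a) hne s (σ * Complex.I)
    rw [show s + (σ : ℂ) * g = s + ge W a * (σ * Complex.I) by rw [hg]; ring]
    refine Eq.trans this ?_
    simp
    rfl
  -- the window
  have win : ∀ q : ℂ, |X (gz h W a) (ge W a) q| < B2 - h / 2 → |Y (gz h W a) (ge W a) q| < A2 →
      q ∈ RR A2 B2 h W (a - 1) ∧ q ∈ RR A2 B2 h W a := by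
    intro q q1 q2
    refine ⟨?_, Crest.Agent.R143.TileRx228.win_right P (by linarith) (by linarith) q1 q2⟩
    have e0 : a - 1 + 1 = a := by ring
    refine Crest.Agent.R143.TileRx228.win_left P (by linarith) (by linarith) ?_ ?_
    · rw [e0]; exact q1
    · rw [e0]; exact q2
  -- the target of the first leg
  obtain ⟨v, hv, hvc⟩ := Crest.Agent.R143.G6Wx723.exists_cell (S := T) ⟨s, hs⟩ (s + τ * g)
  have z1R : s + τ * g ∈ RR A2 B2 h W a := by
    refine (win _ ?_ ?_).2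
    · rw [Xp]; linarith
    · rw [Yp, abs_lt]; constructor <;> linarith
  have z1L := win_disc H hh hm hin (by linarith) (by linarith) (by linarith) z1R
  have hL := hD.dL
  have v1 := Crest.Agent.R143.REwx838.cell_near hD (by linarith) hvc
  have vX := (Xd v (s + τ * g)).trans v1.le
  have vY := (Yd v (s + τ * g)).trans v1.le
  rw [Xp, abs_le] at vX
  rw [Yp, abs_le] at vY
  have hXs := abs_lt.1 (show |X (gz h W a) (ge W a) s| < B2 - h / 2 - (2 * e + 8 * d) by linarith)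
  -- first leg
  have leg1 : Pth T {q | q ∈ T ∧ (∀ b, q ∉ RR A' B' h W b) ∧ ∀ b, ¬ (M : ℤ) ∣ a - b →
        ¬ (M : ℤ) ∣ a - (b + 1) → q ∉ RR (A' + e) (B' + e) h W b} s v := by
    refine Crest.Agent.R143.REwx838.pdir hD hs hv hg1 hτ0 hvc ?_
    intro q hq σ s0 s1 hqs
    have qX := (Xd q (s + σ * g)).trans hqs
    have qY := (Yd q (s + σ * g)).trans hqs
    rw [Xp, abs_le] at qX
    rw [Yp, abs_le] at qY
    have c1 : |X (gz h W a) (ge W a) q| < B2 - h / 2 := by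
      rw [abs_lt]; constructor <;> linarith
    have c2 : A' ≤ Y (gz h W a) (ge W a) q := by linarith
    have c3 : Y (gz h W a) (ge W a) q < A2 := by linarith
    refine ⟨hq, ?_, ?_⟩
    · intro b
      refine dist_off H hh hm (by linarith) (by linarith) (fun w hw => ?_) b
      have := box_far H hh h1 h2 (z := q) (by linarith) (by linarith) (by linarith) hw
      linarith
    · intro b b1 b2 hqb
      obtain ⟨w1, w2⟩ := win q c1 (by rw [abs_lt]; constructor <;> linarith)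
      exact Crest.Agent.R143.TileRx228.far P (by linarith) hAB2' hAB2 b1 b2 w1 w2
        (Crest.Agent.R143.TileRx228.RR_mono hA2 hB2 h W b hqb)
  -- second leg
  have leg2 := col_off H hh hm hF h1 h2 (y1 := A' + e + 2 * d) (by linarith) (by linarith) hD hin hv
    (by rw [abs_le]; constructor <;> linarith) (by linarith) (by linarith) hxy (A' := A' + e)
    (B' := B' + e) (by linarith) (by linarith) le_rfl
  have hV : {q | q ∈ T ∧ ∀ b, q ∉ RR (A' + e) (B' + e) h W b} ⊆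
      {q | q ∈ T ∧ (∀ b, q ∉ RR A' B' h W b) ∧ ∀ b, ¬ (M : ℤ) ∣ a - b →
        ¬ (M : ℤ) ∣ a - (b + 1) → q ∉ RR (A' + e) (B' + e) h W b} := fun q hq =>
    ⟨hq.1, fun b hb => hq.2 b
      (Crest.Agent.R143.TileRx228.RR_mono (by linarith) (by linarith) h W b hb),
      fun b _ _ => hq.2 b⟩
  exact ⟨leg1.trans (leg2.1.mono hV), leg1.trans (leg2.2.mono hV)⟩

end Crest.Agent.R143.LnkGx372
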