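import Crest.Agent.R143.OutC_571
import Crest.Agent.R143.PolyU_346

/-!
# Row 143, POLY: OUTSIDE CONNECTION for the frozen index `Poly` (helper571)

`OutCx571` at `F = cells U`, `δ = u.s`.
-/

set_option autoImplicit false

noncomputable section

namespace Crest.Agent.R143.OutPx571

open Set
open Crest.ProbabilityR.Voronoi
open Crest.Agent.R158.Sp896
open Crest.Agent.R143.Tenx416 (Pg)
open Crest.Agent.R143.Brkx478
open Crest.Agent.R143.PolyUx346
open Crest.Agent.R143.OutCx571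
open Crest.Agent.R143.DomAx722 (Dns)
open Crest.Agent.R143.RE0x723 (Pth)
open Crest.Agent.R143.ToolWx838 (Off asum prs)

theorem con_compl {U : Set Bk} (h : Conn Uᶜ) : ∀ q ∉ cells U, ∀ q' ∉ cells U,
    Con (cells U)ᶜ q q' := fun q hq q' hq' => con_cells h q hq q' hq'

variable (u : Poly)

/-- the cells of the polygon -/
abbrev F : Set V := cells (u.U : Set Bk)

theorem F_fin : (F u).Finite := cells_finite u.U.finite_toSet

theorem P_eq : u.P = Pg u.s (F u) := rfl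

theorem F_con' : ∀ q ∉ F u, ∀ q' ∉ F u, Con (F u)ᶜ q q' := con_compl u.con'

theorem F_con : ∀ q ∈ F u, ∀ q' ∈ F u, Con (F u) q q' := con_cells u.con

/-- the complement of the region is preconnected -/
theorem compl_P : IsPreconnected (u.P)ᶜ := compl_preconn (F_con' u) u.s_pos

variable {u} {ρ : ℝ}

theorem poly_far (hr : 0 ≤ ρ) (hd : 2 * ρ < u.s) : IsPreconnected (Far u.s ρ (F u)) :=
  far_preconn (F_con' u) hr hd

theorem poly_joined (hr : 0 ≤ ρ) (hd : 2 * ρ < u.s) {z w : ℂ} (hz : z ∈ Far u.s ρ (F u))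
    (hw : w ∈ Far u.s ρ (F u)) : JoinedIn (Far u.s ρ (F u)) z w :=
  far_joined (F_con' u) hr hd hz hw

theorem poly_asum (hr : 0 ≤ ρ) (hd : 2 * ρ < u.s) {l : List ℂ} (hl : l.head? = l.getLast?)
    (h : ∀ p ∈ prs l, ∀ x ∈ segment ℝ p.1 p.2, ∃ w ∈ u.P,
      max |x.re - w.re| |x.im - w.im| ≤ ρ) {z : ℂ} (hz : z ∈ Far u.s ρ (F u)) : asum z l = 0 :=
  asum_far' (F_con' u) (F_fin u) hr hd hl h hz

theorem poly_pth {S : Finset ℂ} (hr : 0 ≤ ρ) (hd : 2 * ρ < u.s) {c : ℂ}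
    {L d : ℝ} (hD : Dns S c L d) (h3 : 3 ≤ S.card) {a b : ℂ} (ha : a ∈ S) (hb : b ∈ S)
    (h1 : (Far u.s ρ (F u) ∩ voronoiCell (S : Set ℂ) a).Nonempty)
    (h2 : (Far u.s ρ (F u) ∩ voronoiCell (S : Set ℂ) b).Nonempty) :
    Pth S {v | v ∈ S ∧ ((∃ z ∈ Far u.s ρ (F u), ‖v - z‖ < d) ∨ L - 2 * d < ‖v - c‖)} a b :=
  pth_sites (F_con' u) hr hd hD h3 ha hb h1 h2

end Crest.Agent.R143.OutPx571
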