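import Crest.Agent.R143.CorE_133
import Crest.Agent.R143.LnkG_372
import Crest.Agent.R143.OutP_571

/-!
# Row 143 (S0194), RIG: the environment of a polygon, part 2 (helper133)

* `far_of`, `hin_far`, `hin_far'` : far points in 571's form (`hin` of 372's `top_T`, `L = RU u`)
* **`topU`** : 372's `top_T` at a good environment and the layout of `u`: a site just above the
  strips at a gate inside a coarse edge is joined to every hull edge off all the strips
-/

set_option autoImplicit false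

noncomputable section

open scoped Classical ENNReal

namespace Crest.Agent.R143.CorEx133

open Crest.ProbabilityR.Voronoi
open Crest.Agent.R143.B0x346 Crest.Agent.R143.DelGx806
open Crest.Agent.R143.PolyUx346 Crest.Agent.R143.LayUx416
open Crest.Agent.R143.DomAx722 (Dns)
open Crest.Agent.R143.Gatex838 (X Y)
open Crest.Agent.R143.TileRx228 (FPath cen gz ge RR)
open Crest.Agent.R143.Brkx478 (Bk cells)
open Crest.Agent.R143.RE0x723 (Pth)
open Crest.Agent.R143.OutCx571 (Far)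

variable {u : Poly}

/-- **far points are far from the polygon** -/
theorem far_of {r : ℝ} (hr : r ≤ 1) {z : ℂ} (hz : Rp u + 4 ≤ ‖z‖) :
    z ∈ Far u.s r (cells (u.U : Set Bk)) := by
  intro w hw
  have h1 : ‖w‖ ≤ Rp u := P_norm u hw
  have h2 := Complex.norm_le_abs_re_add_abs_im (z - w)
  have h3 := norm_add_le (z - w) w
  rw [sub_add_cancel] at h3
  rw [Complex.sub_re, Complex.sub_im] at h2
  have h4 := le_max_left |z.re - w.re| |z.im - w.im|
  have h5 := le_max_right |z.re - w.re| |z.im - w.im|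
  linarith

theorem hin_far {r : ℝ} (hr : r ≤ 1) {z : ℂ} (hz : RU u / 2 ≤ ‖z - 0‖) :
    z ∈ Far u.s r (cells (u.U : Set Bk)) := by
  refine far_of hr ?_
  rw [sub_zero] at hz
  unfold RU at hz
  linarith

theorem hin_far' {r d : ℝ} (hr : r ≤ 1) (hd : d ≤ 1 / 100) {z : ℂ}
    (hz : RU u - 2 * d ≤ ‖z - 0‖) : z ∈ Far u.s r (cells (u.U : Set Bk)) := by
  refine far_of hr ?_
  rw [sub_zero] at hz
  have := one_le_Rp u
  unfold RU at hz
  linarith

section lay

variable {m M : ℕ} {p W : ℤ → ℤ × ℤ} {A e : ℤ → ℤ} {ε d K1 c2 ρ0 : ℝ} {ω : Sample}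

/-- **the top of the column is joined to the hull off the strips** -/
theorem topU (C : CorEnv u ε d K1 c2 ρ0 ω) (H : LayU u m M p W A e) {h : ℝ}
    (hh : (m : ℝ) * h = u.s) {k a : ℤ} (h1 : A k + 4 ≤ a) (h2 : a + 4 ≤ A (k + 1))
    {A' B' e' A2 B2 : ℝ} (hA : 0 < A') (hAB : A' ≤ B') (he : 0 ≤ e') (hA2 : A' + e' ≤ A2)
    (hB2 : B' + e' ≤ B2) (hAB2 : A2 + B2 < h) (hAB2' : A2 ≤ B2) {s x y : ℂ}
    (hs : s ∈ SU u ε ω) (hX : |X (gz h W a) (ge W a) s| + (2 * e' + 8 * d) < B2 - h / 2)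
    (hY : A' ≤ Y (gz h W a) (ge W a) s)
    (hY2 : Y (gz h W a) (ge W a) s + (2 * e' + 8 * d) < A2) (hxy : hullE (SU u ε ω) x y) :
    Pth (SU u ε ω) {q | q ∈ SU u ε ω ∧ (∀ b, q ∉ RR A' B' h W b) ∧ ∀ b, ¬ (M : ℤ) ∣ a - b →
        ¬ (M : ℤ) ∣ a - (b + 1) → q ∉ RR (A' + e') (B' + e') h W b} s x ∧
      Pth (SU u ε ω) {q | q ∈ SU u ε ω ∧ (∀ b, q ∉ RR A' B' h W b) ∧ ∀ b, ¬ (M : ℤ) ∣ a - b →
        ¬ (M : ℤ) ∣ a - (b + 1) → q ∉ RR (A' + e') (B' + e') h W b} s y := by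
  have hle := h_le H hh
  have hm := H.m_pos
  have h0 := H.h_pos hh
  have e1 : (((m : ℕ) : ℤ) : ℝ) * h = u.s := by
    rw [Int.cast_natCast]
    exact hh
  refine LnkGx372.top_T H.fine h0 (by omega) ?_ h1 h2 C.dns (fun z hz => ?_) hA hAB he hA2 hB2
    hAB2 hAB2' hs hX hY hY2 hxy
  · intro q hq q' hq'
    exact OutPx571.con_compl u.con' q hq q' hq'
  · rw [e1]
    exact hin_far' (by linarith) C.d1 hz

end lay

end Crest.Agent.R143.CorEx133
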