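import Crest.Agent.R143.Fair_653
import Crest.Agent.R143.PoisM3_930

/-!
# R143 (helper653), box R1 (C): general position and one colour per position

* `gp_meas`, `gp_fm` : `GP` of finitely many points is measurable; `gpE D X = 1[¬ GP (sites in D)]`
* `sc_ae` : almost surely one colour per position (`Sc (cfg ε ω)`)
* `Rs_gp` : for almost every `ω` the sites `(cfg ω off C) ∪ (fresh points of C)` in `D` are in general
  position, almost surely : `Rs ε C (gpE D) (cfg ε ω) = 0`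
* `force_of` : `c ≤ Rs ε C (E + gpE D) S` for finite `S` gives `c ≤ Rs ε C E (cfg ε ω)` a.s.
-/

set_option autoImplicit false

noncomputable section

open scoped Classical

namespace Crest.Agent.R143.GPmx653

open MeasureTheory Set ProbabilityTheory
open Crest.ProbabilityR.Voronoi
open Crest.Agent.R143.B0x346 (GP cr)
open Crest.Agent.R143.PP0x831 Crest.Agent.R143.Poisx304 Crest.Agent.R143.Janx304
open Crest.Agent.R143.IndLocx279 Crest.Agent.R143.IndLoc2x279 Crest.Agent.R143.IndLoc3x279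
open Crest.Agent.R143.IndLoc4x279 Crest.Agent.R143.PWx978 Crest.Agent.R143.Fairx653
open scoped ENNReal Nat

variable {ε : ℝ} {B C D : Set ℂ} {E F : Cf → ℝ≥0∞}

/-! ## general position is measurable -/

/-- cocircular -/
def Coc (q : (ℂ × ℂ) × (ℂ × ℂ)) : Prop :=
  ∃ o : ℂ, ‖q.1.2 - o‖ = ‖q.1.1 - o‖ ∧ ‖q.2.1 - o‖ = ‖q.1.1 - o‖ ∧ ‖q.2.2 - o‖ = ‖q.1.1 - o‖

lemma coc_closed (n : ℕ) : IsClosed {q : (ℂ × ℂ) × (ℂ × ℂ) | ∃ o ∈ Metric.closedBall (0 : ℂ) n,
    ‖q.1.2 - o‖ = ‖q.1.1 - o‖ ∧ ‖q.2.1 - o‖ = ‖q.1.1 - o‖ ∧ ‖q.2.2 - o‖ = ‖q.1.1 - o‖} := by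
  have hK : CompactSpace (Metric.closedBall (0 : ℂ) n) :=
    isCompact_iff_compactSpace.1 (isCompact_closedBall _ _)
  have h1 : IsClosed {p : ((ℂ × ℂ) × (ℂ × ℂ)) × Metric.closedBall (0 : ℂ) n |
      ‖p.1.1.2 - (p.2 : ℂ)‖ = ‖p.1.1.1 - (p.2 : ℂ)‖ ∧ ‖p.1.2.1 - (p.2 : ℂ)‖ = ‖p.1.1.1 - (p.2 : ℂ)‖ ∧
        ‖p.1.2.2 - (p.2 : ℂ)‖ = ‖p.1.1.1 - (p.2 : ℂ)‖} := by
    refine IsClosed.inter (isClosed_eq (by fun_prop) (by fun_prop))
      (IsClosed.inter (isClosed_eq (by fun_prop) (by fun_prop))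
        (isClosed_eq (by fun_prop) (by fun_prop)))
  have h2 := isClosedMap_fst_of_compactSpace (X := (ℂ × ℂ) × (ℂ × ℂ))
    (Y := Metric.closedBall (0 : ℂ) n) _ h1
  convert h2 using 1
  ext q
  simp only [mem_ofPred_eq, mem_image]
  constructor
  · rintro ⟨o, ho, h⟩
    exact ⟨(q, ⟨o, ho⟩), h, rfl⟩
  · rintro ⟨⟨q', o⟩, h, rfl⟩
    exact ⟨o, o.2, h⟩

lemma coc_meas : MeasurableSet {q : (ℂ × ℂ) × (ℂ × ℂ) | Coc q} := by
  have e : {q : (ℂ × ℂ) × (ℂ × ℂ) | Coc q} = ⋃ n : ℕ, {q | ∃ o ∈ Metric.closedBall (0 : ℂ) n,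
      ‖q.1.2 - o‖ = ‖q.1.1 - o‖ ∧ ‖q.2.1 - o‖ = ‖q.1.1 - o‖ ∧ ‖q.2.2 - o‖ = ‖q.1.1 - o‖} := by
    ext q
    simp only [Coc, mem_ofPred_eq, mem_iUnion, mem_closedBall_zero_iff]
    constructor
    · rintro ⟨o, h⟩
      obtain ⟨n, hn⟩ := exists_nat_ge ‖o‖
      exact ⟨n, o, hn, h⟩
    · rintro ⟨n, o, -, h⟩
      exact ⟨o, h⟩
  rw [e]
  exact MeasurableSet.iUnion fun n => (coc_closed n).measurableSet

lemma gp_range {n : ℕ} (z : Fin n → ℂ) : GP (range z) ↔
    (∀ i j k, z i ≠ z j → z j ≠ z k → z i ≠ z k → cr (z j - z i) (z k - z i) ≠ 0) ∧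
    ∀ i j k l, z i ≠ z j → z i ≠ z k → z i ≠ z l → z j ≠ z k → z j ≠ z l → z k ≠ z l →
      ¬ Coc ((z i, z j), (z k, z l)) := by
  constructor
  · intro h
    refine ⟨fun i j k h1 h2 h3 => h.line _ ⟨i, rfl⟩ _ ⟨j, rfl⟩ _ ⟨k, rfl⟩ h1 h2 h3, ?_⟩
    rintro i j k l h1 h2 h3 h4 h5 h6 ⟨o, ho⟩
    exact h.circ _ ⟨i, rfl⟩ _ ⟨j, rfl⟩ _ ⟨k, rfl⟩ _ ⟨l, rfl⟩ h1 h2 h3 h4 h5 h6 o ho
  · rintro ⟨h1, h2⟩
    constructor
    · rintro _ ⟨i, rfl⟩ _ ⟨j, rfl⟩ _ ⟨k, rfl⟩ a b c
      exact h1 i j k a b c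
    · rintro _ ⟨i, rfl⟩ _ ⟨j, rfl⟩ _ ⟨k, rfl⟩ _ ⟨l, rfl⟩ a b c d e f o ho
      exact h2 i j k l a b c d e f ⟨o, ho⟩

theorem gp_meas (n : ℕ) : MeasurableSet {z : Fin n → ℂ | GP (range z)} := by
  have e : {z : Fin n → ℂ | GP (range z)} =
      (⋂ i, ⋂ j, ⋂ k, ({z : Fin n → ℂ | z i = z j} ∪ {z | z j = z k} ∪ {z | z i = z k} ∪
        {z | cr (z j - z i) (z k - z i) = 0}ᶜ)) ∩
      ⋂ i, ⋂ j, ⋂ k, ⋂ l, ({z : Fin n → ℂ | z i = z j} ∪ {z | z i = z k} ∪ {z | z i = z l} ∪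
        {z | z j = z k} ∪ {z | z j = z l} ∪ {z | z k = z l} ∪
        {z | Coc ((z i, z j), (z k, z l))}ᶜ) := by
    ext z
    rw [mem_ofPred_eq, gp_range]
    simp only [mem_inter_iff, mem_iInter, mem_union, mem_ofPred_eq, mem_compl_iff]
    refine and_congr (forall_congr' fun i => forall_congr' fun j => forall_congr' fun k => ?_)
      (forall_congr' fun i => forall_congr' fun j => forall_congr' fun k => forall_congr' fun l => ?_)
    · tauto
    · tauto
  have heq : ∀ i j : Fin n, MeasurableSet {z : Fin n → ℂ | z i = z j} := fun i j =>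
    measurableSet_eq_fun (measurable_pi_apply i) (measurable_pi_apply j)
  have hcr : ∀ i j k : Fin n, MeasurableSet {z : Fin n → ℂ | cr (z j - z i) (z k - z i) = 0} := by
    intro i j k
    refine measurableSet_eq_fun ?_ measurable_const
    unfold cr
    have h1 : Measurable fun z : Fin n → ℂ => z j - z i :=
      (measurable_pi_apply j).sub (measurable_pi_apply i)
    have h2 : Measurable fun z : Fin n → ℂ => z k - z i :=
      (measurable_pi_apply k).sub (measurable_pi_apply i)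
    exact ((Complex.measurable_re.comp h1).mul (Complex.measurable_im.comp h2)).sub
      ((Complex.measurable_im.comp h1).mul (Complex.measurable_re.comp h2))
  have hco : ∀ i j k l : Fin n, MeasurableSet {z : Fin n → ℂ | Coc ((z i, z j), (z k, z l))} := by
    intro i j k l
    have h1 : Measurable fun z : Fin n → ℂ => ((z i, z j), (z k, z l)) :=
      ((measurable_pi_apply i).prodMk (measurable_pi_apply j)).prodMk
        ((measurable_pi_apply k).prodMk (measurable_pi_apply l))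
    exact h1 coc_meas
  rw [e]
  refine MeasurableSet.inter ?_ ?_
  · exact MeasurableSet.iInter fun i => MeasurableSet.iInter fun j => MeasurableSet.iInter fun k =>
      (((heq i j).union (heq j k)).union (heq i k)).union (hcr i j k).compl
  · exact MeasurableSet.iInter fun i => MeasurableSet.iInter fun j => MeasurableSet.iInter fun k =>
      MeasurableSet.iInter fun l => ((((((heq i j).union (heq i k)).union (heq i l)).union
        (heq j k)).union (heq j l)).union (heq k l)).union (hco i j k l).compl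

/-- `1[¬ GP]` of the sites in `D` -/
def gpE (D : Set ℂ) (X : Cf) : ℝ≥0∞ := if GP (psn X ∩ D) then 0 else 1

lemma gpE_local (D : Set ℂ) : LocalOn D (gpE D) :=
  ps_local (fun P : Set ℂ => if GP P then (0 : ℝ≥0∞) else 1) D

lemma gpE_fm (hD : MeasurableSet D) : FinMeas (gpE D) :=
  ps_measX (f := fun P : Set ℂ => if GP P then (0 : ℝ≥0∞) else 1)
    (fun n => Measurable.ite (gp_meas n) measurable_const measurable_const) hD

lemma gpE_le (X : Cf) : gpE D X ≤ 1 := by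
  unfold gpE
  split_ifs <;> simp

lemma gp_mono {S T : Set ℂ} (h : GP S) (hT : T ⊆ S) : GP T :=
  ⟨fun a ha b hb c hc => h.line a (hT ha) b (hT hb) c (hT hc),
    fun a ha b hb c hc e he => h.circ a (hT ha) b (hT hb) c (hT hc) e (hT he)⟩

/-! ## almost sure properties -/

theorem gp_ae (hε : 0 < ε) : ∀ᵐ ω ∂sampleLaw, GP (points ε ω) :=
  (PoisM3x930.m3a ε hε).mono fun _ h => h.1

/-- one colour per position -/
theorem sc_ae (hε : 0 < ε) : ∀ᵐ ω ∂sampleLaw, Sc (cfg ε ω) := by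
  filter_upwards [PoisM3x930.m3a ε hε] with ω hω z h1 h2
  obtain ⟨p, hp, hp1⟩ := h1
  obtain ⟨q, hq, hq1⟩ := h2
  have e1 := congrArg Prod.fst hp1
  have e2 := congrArg Prod.snd hp1
  have e3 := congrArg Prod.fst hq1
  have e4 := congrArg Prod.snd hq1
  simp only at e1 e2 e3 e4
  have h3 := hω.2.1 p hp q hq (e1.trans e3.symm)
  subst h3
  rw [e4] at e2
  exact Bool.noConfusion e2

/-- the fresh points of `C` are in general position together with the other points -/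
theorem Rs_gp (hε : 0 < ε) (hD : MeasurableSet D) (hDb : Bornology.IsBounded D)
    (hC : MeasurableSet C) (hCb : Bornology.IsBounded C) :
    ∀ᵐ ω ∂sampleLaw, Rs ε C (gpE D) (cfg ε ω) = 0 := by
  have h1 : ∫⁻ ω, gpE D (cfg ε ω) ∂sampleLaw = 0 := by
    rw [lintegral_congr_ae (g := fun _ => 0), lintegral_zero]
    filter_upwards [gp_ae hε] with ω hω
    unfold gpE
    rw [if_pos]
    rw [psn_cfg]
    exact gp_mono hω inter_subset_left
  rw [Rs_tower hε hD hDb hC hCb (gpE_local D) (gpE_fm hD)] at h1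
  have hm : Measurable fun ω => Rs ε C (gpE D) (cfg ε ω) :=
    meas_fun hε (hD.diff hC) (hDb.subset sdiff_subset) (Rs_local hε hC hCb (gpE_local D))
      (Rs_meas hε hC hCb (gpE_fm hD))
  exact (lintegral_eq_zero_iff hm).1 h1

lemma Rs_add (hε : 0 < ε) (hCb : Bornology.IsBounded C) (hE : FinMeas E) (hF : FinMeas F)
    {S : Cf} (hS : S.Finite) : Rs ε C (fun X => E X + F X) S = Rs ε C E S + Rs ε C F S := by
  have hEF : FinMeas fun X => E X + F X := fun n => (hE n).add (hF n)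
  have h := meas_st (f := fun T => E ((S ∩ ovr Cᶜ) ∪ T))
    (fm_union_fin hE (hS.subset inter_subset_left))
  rw [Rs_eq hEF hS, Rs_eq hE hS, Rs_eq hF hS, lintegral_add_left h]

/-- **FORCE**: a bound which holds for all finite `S` up to general position holds for the
configuration almost surely without it -/
theorem force_of (hε : 0 < ε) (hB : MeasurableSet B) (hBb : Bornology.IsBounded B)
    (hD : MeasurableSet D) (hDb : Bornology.IsBounded D)
    (hC : MeasurableSet C) (hCb : Bornology.IsBounded C) (hBC : Disjoint B C) (hBD : D ⊆ B ∪ C)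
    (hE : LocalOn (B ∪ C) E) (hEm : FinMeas E) {c : ℝ≥0∞} {A : Cf → Prop}
    (hA : ∀ S S' : Cf, S ∩ ovr B = S' ∩ ovr B → A S → A S')
    (h : ∀ S : Cf, S.Finite → S ⊆ ovr B → Sc S → A S → c ≤ Rs ε C (fun X => E X + gpE D X) S) :
    ∀ᵐ ω ∂sampleLaw, A (cfg ε ω) → c ≤ Rs ε C E (cfg ε ω) := by
  filter_upwards [Rs_gp (D := D) hε hD hDb hC hCb, sc_ae hε] with ω h1 h2 hAω
  set S : Cf := cfg ε ω ∩ ovr B with hS
  have hfin : S.Finite := cfg_finite hε hBb ω
  have e : cfg ε ω ∩ ovr B = S ∩ ovr B := by rw [hS, inter_assoc, inter_self]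
  have h3 := h S hfin inter_subset_right (h2.mono inter_subset_left) (hA _ _ e hAω)
  rw [Rs_add hε hCb hEm (gpE_fm hD) hfin] at h3
  have h4 : Rs ε C (gpE D) S = 0 := by
    rw [← h1]
    exact (Rs_local' (LocalOn.mono hBD (gpE_local D)) e hBC).symm
  rw [h4, add_zero] at h3
  rw [Rs_local' hE e hBC]
  exact h3

end Crest.Agent.R143.GPmx653
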