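import Crest.Agent.R143.CorE_133
import Crest.Agent.R143.GPm_653
import Crest.Agent.R143.CntG_197
import Crest.Agent.R143.HGlue_136

/-!
# Row 143 (S0194), block H, box (R5): the environment of the ring as a functional (helper795)

* `EnvS S R d ρ0` : environment of ONE finite set of sites `S`: general position, no hole of radius
  `d` in the disc `R + 1 - d`, mesh bound `Cab` at all places of the disc `R`, all scales
  `ρ0 ≤ b < 3 / 4`; consequences: `card`, `hol`, `envr`, `hull_far`, `ldns`, `meshA`, `nva`,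
  `nva_agr` (every finite set which agrees with `S` near the place), `meshL`, `nvaL` (all scales,
  absolute constant `Ce`), `dense` (197), `dns` (722, when the box is a disc)
* `eF R d ρ0 : Set (ℂ × Bool) → ℝ≥0∞` : values in `{0, 1}`, `FM`, function of the sites
* `eF_ne` : `eF (paint A β) ≠ 0 → EnvS A R d ρ0`
* `env_pr`, `env_sqrt` : `P(eF = 0) ≤ ε ^ A` for every box `B ⊇ closedBall 0 (R + 1)`
* `mul_e` : `∫ g ≤ ∫ g * e + ε ^ A`
-/

set_option autoImplicit false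

noncomputable section

open scoped Classical ENNReal

namespace Crest.Agent.R143.EnvRx795

open MeasureTheory Set Filter Topology
open Crest.ProbabilityR.Voronoi
open Crest.Agent.R143.B0x346 Crest.Agent.R143.B0Dx346 Crest.Agent.R143.DelGx806
open Crest.Agent.R143.Locx922 Crest.Agent.R143.PP1x831 Crest.Agent.R143.B6Ix903
open Crest.Agent.R143.Circx63 Crest.Agent.R143.Scalx63
open Crest.Agent.R143.RB0x838 (LDns Mesh)
open Crest.Agent.R143.RBmx838 (MeshA NvA)
open Crest.Agent.R143.EnvHx653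
open Crest.Agent.R143.Dbl2x609 (Ap coe_Ap finite_points paint)
open Crest.Agent.R143.Dblx609 (ovM fst_cfg)
open Crest.Agent.R143.PP0x831 (cfg LocalOn FinMeas)
open Crest.Agent.R143.FinMx609 (ps mem_ps_range meas_pos meas_tri fme_sum)
open Crest.Agent.R143.RingPx503 (Envr)
open Crest.Agent.R143.Frame10x395 (OnHull)

variable {P : Set ℂ} {S S' : Finset ℂ} {z0 : ℂ} {R b r d C ρ0 ρ c : ℝ}

/-! ### the mesh bound with the disc of radius `r` -/

/-- the sum of the squares of the longest sides of the triangles meeting a disc -/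
theorem mesh_ball_r (hd : 0 < d) {W : Set ℂ} (hH : Hol P W d) (hA : Agr P (S : Set ℂ) W (2 * d))
    {x : ℂ} (hb : b + 2 * d ≤ r) (hC : 0 ≤ C) (hx : Metric.closedBall x b ⊆ W)
    (hM : diamSum P (Metric.ball x r) ≤ ENNReal.ofReal (C * r ^ 2)) :
    ∑ t ∈ (delT S).filter (fun t => (cT t ∩ Metric.closedBall x b).Nonempty),
      dm t ^ 2 ≤ 4 * C * r ^ 2 := by
  set F := (delT S).filter
    (fun t => (cT t ∩ Metric.closedBall x b).Nonempty) with hF
  set Q : Set (ℂ × ℂ × ℂ) := {t : ℂ × ℂ × ℂ | Del P t.1 t.2.1 t.2.2 ∧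
    ((voronoiCell P t.1 ∪ voronoiCell P t.2.1 ∪
      voronoiCell P t.2.2) ∩ Metric.ball x r).Nonempty} with hQ
  have key : ∀ t ∈ F, t ∈ Q ∧
      ENNReal.ofReal (dm t ^ 2) ≤ 4 * (Metric.ediam (voronoiCell P t.1)) ^ 2 := by
    rintro ⟨a, b', c⟩ ht
    rw [hF, Finset.mem_filter] at ht
    obtain ⟨htS, y, hy, hyb⟩ := ht
    obtain ⟨o', hT⟩ := mem_delT_iff.1 htS
    have hyx : ‖y - x‖ ≤ b := by rwa [mem_closedBall_iff_norm] at hyb
    have hyW : y ∈ W := hx hyb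
    have hyT : InT y a b' c := hy
    have hDel : Del P a b' c :=
      (del_local hd hH hA hyW hyT).2 (DelGx806.mem_delT.1 htS)
    obtain ⟨o, h1, h2, h3, h4, h5, ga, gb, gc⟩ := del_small hd hH hyW
      (InT.inD hT.pos hyT) hDel
    constructor
    · refine ⟨hDel, a, Or.inl (Or.inl ?_), ?_⟩
      · intro s hs
        simp
      · rw [mem_ball_iff_norm]
        have := norm_tri a y x
        linarith
    · have hdm : dm (a, b', c) ≤ 2 * ‖a - o‖ := EQ4x63.dm_le le_rfl h1.le h2.le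
      have hdm0 : 0 ≤ dm (a, b', c) := le_max_of_le_right (norm_nonneg _)
      have ha : a ∈ voronoiCell P a := fun s hs => by simp
      have ho : o ∈ voronoiCell P a := by
        intro s hs
        rw [norm_sub_rev o a, norm_sub_rev o s]
        exact h3 s hs
      have h6 : ENNReal.ofReal ‖a - o‖ ≤ Metric.ediam (voronoiCell P a) := by
        have := Metric.edist_le_ediam_of_mem ha ho
        rwa [edist_dist, dist_eq_norm] at this
      calc ENNReal.ofReal (dm (a, b', c) ^ 2) ≤ ENNReal.ofReal (4 * ‖a - o‖ ^ 2) := by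
            apply ENNReal.ofReal_le_ofReal
            nlinarith [norm_nonneg (a - o)]
        _ = 4 * (ENNReal.ofReal ‖a - o‖) ^ 2 := by
            rw [ENNReal.ofReal_mul (by norm_num), ENNReal.ofReal_pow (norm_nonneg _)]
            norm_num
        _ ≤ 4 * (Metric.ediam (voronoiCell P a)) ^ 2 := by gcongr
  have hsum : ∑ t ∈ F, ENNReal.ofReal (dm t ^ 2) ≤ 4 * diamSum P (Metric.ball x r) := by
    have e1 : diamSum P (Metric.ball x r) =
        ∑' t : ℂ × ℂ × ℂ, Q.indicator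
          (fun t => (Metric.ediam (voronoiCell P t.1)) ^ 2) t := by
      rw [← tsum_subtype]
      rfl
    rw [e1]
    calc ∑ t ∈ F, ENNReal.ofReal (dm t ^ 2)
        ≤ ∑ t ∈ F, 4 * Q.indicator
          (fun t => (Metric.ediam (voronoiCell P t.1)) ^ 2) t := by
          apply Finset.sum_le_sum
          intro t ht
          rw [Set.indicator_of_mem (key t ht).1]
          exact (key t ht).2
      _ = 4 * ∑ t ∈ F, Q.indicator
          (fun t => (Metric.ediam (voronoiCell P t.1)) ^ 2) t := by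
          rw [Finset.mul_sum]
      _ ≤ _ := by
          gcongr
          exact ENNReal.sum_le_tsum _
  have h7 : ENNReal.ofReal (∑ t ∈ F, dm t ^ 2) ≤ ENNReal.ofReal (4 * C * r ^ 2) := by
    rw [ENNReal.ofReal_sum_of_nonneg fun t _ => sq_nonneg _]
    refine hsum.trans ((mul_le_mul_right hM 4).trans (le_of_eq ?_))
    have e2 : (4 : ℝ≥0∞) = ENNReal.ofReal 4 := by norm_num
    rw [e2, ← ENNReal.ofReal_mul (by norm_num)]
    congr 1
    ring
  exact (ENNReal.ofReal_le_ofReal_iff (by positivity)).1 h7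

/-! ### the sum over the triangles meeting a disc -/

/-- the sum over the triangles which meet a disc -/
def MS (S : Finset ℂ) (z : ℂ) (b : ℝ) : ℝ :=
  ∑ t ∈ (delT S).filter (fun t => (cT t ∩ Metric.closedBall z b).Nonempty), dm t ^ 2

theorem ms_nonneg (S : Finset ℂ) (z : ℂ) (b : ℝ) : 0 ≤ MS S z b :=
  Finset.sum_nonneg fun _ _ => sq_nonneg _

theorem ms_mono {z z' : ℂ} {b b' : ℝ} (h : ‖z - z'‖ + b ≤ b') : MS S z b ≤ MS S z' b' := by
  refine Finset.sum_le_sum_of_subset_of_nonneg (fun t ht => ?_) fun _ _ _ => sq_nonneg _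
  rw [Finset.mem_filter] at ht ⊢
  obtain ⟨h1, y, h2, h3⟩ := ht
  refine ⟨h1, y, h2, ?_⟩
  rw [mem_closedBall_iff_norm] at h3 ⊢
  have := norm_tri y z z'
  linarith

/-- two finite sets which agree near the disc -/
theorem ms_agr (hd : 0 < d) {W : Set ℂ} (hH : Hol (S : Set ℂ) W d)
    (hA : Agr (S : Set ℂ) (S' : Set ℂ) W (2 * d)) {x : ℂ} (hx : Metric.closedBall x b ⊆ W) :
    MS S' x b ≤ MS S x b := by
  refine Finset.sum_le_sum_of_subset_of_nonneg (fun t ht => ?_) fun _ _ _ => sq_nonneg _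
  rw [Finset.mem_filter] at ht ⊢
  obtain ⟨h1, y, h2, h3⟩ := ht
  refine ⟨?_, y, h2, h3⟩
  obtain ⟨a, b', c⟩ := t
  have h4 : InT y a b' c := h2
  exact DelGx806.mem_delT.2 ((del_local hd hH hA (hx h3) h4).2 (DelGx806.mem_delT.1 h1))

theorem sum_biUnion_le' {ι α : Type*} [DecidableEq α] (s : Finset ι) (F : ι → Finset α) (f : α → ℝ)
    (hf : ∀ a, 0 ≤ f a) : ∑ a ∈ s.biUnion F, f a ≤ ∑ i ∈ s, ∑ a ∈ F i, f a := by
  induction s using Finset.induction_on with
  | empty => simp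
  | insert i s hi ih =>
    rw [Finset.biUnion_insert, Finset.sum_insert hi]
    have h1 := Finset.sum_union_inter (s₁ := F i) (s₂ := s.biUnion F) (f := f)
    have h0 : 0 ≤ ∑ a ∈ F i ∩ s.biUnion F, f a := Finset.sum_nonneg fun a _ => hf a
    linarith

theorem round_mono' {x y : ℝ} (h : x ≤ y) : round x ≤ round y := by
  rw [round_eq, round_eq]
  exact Int.floor_mono (by linarith)

/-- rounding on the half integer grid -/
theorem round_half (x : ℝ) : |x - (round (2 * x) : ℤ) / 2| ≤ 1 / 4 := by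
  have h := abs_sub_round (2 * x)
  have e : x - (round (2 * x) : ℤ) / 2 = (2 * x - round (2 * x)) / 2 := by ring
  rw [e, abs_div, abs_of_pos (by norm_num : (0 : ℝ) < 2)]
  linarith

/-- **covering** : a disc of radius `b ≥ 1 / 2` by at most `100 b ^ 2` discs of radius `1 / 2` -/
theorem ms_cover {z : ℂ} (hb : 1 / 2 ≤ b) (hC : 0 ≤ C)
    (h : ∀ w : ℂ, ‖w - z‖ ≤ b + 1 → MS S w (1 / 2) ≤ C * (1 / 2) ^ 2) :
    MS S z b ≤ 25 * C * b ^ 2 := by
  -- the grid
  set N : ℕ := ⌈2 * b⌉₊ with hN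
  have hNb : (N : ℝ) < 2 * b + 1 := Nat.ceil_lt_add_one (by linarith)
  set G : Finset (ℤ × ℤ) := Finset.Icc (-(N : ℤ)) N ×ˢ Finset.Icc (-(N : ℤ)) N with hG
  let p : ℤ × ℤ → ℂ := fun q => z + ⟨(q.1 : ℝ) / 2, (q.2 : ℝ) / 2⟩
  set G' := G.filter fun q => ‖p q - z‖ ≤ b + 1 with hG'
  have hcard : (G'.card : ℝ) ≤ 100 * b ^ 2 := by
    have h1 : G'.card ≤ (2 * N + 1) ^ 2 := by
      refine (Finset.card_filter_le _ _).trans (le_of_eq ?_)
      rw [hG, Finset.card_product, Int.card_Icc]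
      have : ((N : ℤ) + 1 - -(N : ℤ)).toNat = 2 * N + 1 := by omega
      rw [this]
      ring
    have h2 : (G'.card : ℝ) ≤ ((2 * N + 1 : ℕ) : ℝ) ^ 2 := by exact_mod_cast h1
    refine h2.trans ?_
    push_cast
    nlinarith [Nat.cast_nonneg (α := ℝ) N]
  have key : MS S z b ≤ ∑ q ∈ G', MS S (p q) (1 / 2) := by
    have hsub : (delT S).filter (fun t => (cT t ∩ Metric.closedBall z b).Nonempty) ⊆
        G'.biUnion fun q =>
          (delT S).filter (fun t => (cT t ∩ Metric.closedBall (p q) (1 / 2)).Nonempty) := by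
      intro t ht
      rw [Finset.mem_filter] at ht
      obtain ⟨h1, y, h2, h3⟩ := ht
      rw [mem_closedBall_iff_norm] at h3
      set q : ℤ × ℤ := (round (2 * (y - z).re), round (2 * (y - z).im)) with hq
      have e1 : ‖y - p q‖ ≤ 1 / 2 := by
        refine (Complex.norm_le_abs_re_add_abs_im _).trans ?_
        have a1 := round_half (y - z).re
        have a2 := round_half (y - z).im
        have b1 : (y - p q).re = (y - z).re - (round (2 * (y - z).re) : ℤ) / 2 := by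
          simp only [p, hq, Complex.sub_re, Complex.add_re]
          ring
        have b2 : (y - p q).im = (y - z).im - (round (2 * (y - z).im) : ℤ) / 2 := by
          simp only [p, hq, Complex.sub_im, Complex.add_im]
          ring
        rw [b1, b2]
        linarith
      have hr : ∀ x : ℝ, |x| ≤ b → round (2 * x) ∈ Finset.Icc (-(N : ℤ)) N := by
        intro x hx
        have hx2 : |2 * x| ≤ N := by
          rw [abs_mul, abs_of_pos (by norm_num : (0 : ℝ) < 2)]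
          exact le_trans (by linarith) (Nat.le_ceil _)
        rw [abs_le] at hx2
        rw [Finset.mem_Icc]
        constructor
        · have h5 : round ((-(N : ℤ) : ℤ) : ℝ) ≤ round (2 * x) := by
            refine round_mono' ?_
            push_cast
            linarith
          rwa [round_intCast] at h5
        · have h5 : round (2 * x) ≤ round (((N : ℤ) : ℤ) : ℝ) := by
            refine round_mono' ?_
            push_cast
            linarith
          rwa [round_intCast] at h5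
      have hqG : q ∈ G := by
        rw [hG, Finset.mem_product]
        exact ⟨hr _ ((Complex.abs_re_le_norm _).trans h3),
          hr _ ((Complex.abs_im_le_norm _).trans h3)⟩
      rw [Finset.mem_biUnion]
      refine ⟨q, ?_, ?_⟩
      · rw [hG', Finset.mem_filter]
        refine ⟨hqG, ?_⟩
        have := norm_tri (p q) y z
        rw [norm_sub_rev (p q) y] at this
        linarith
      · rw [Finset.mem_filter]
        exact ⟨h1, y, h2, mem_closedBall_iff_norm.2 e1⟩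
    unfold MS
    refine (Finset.sum_le_sum_of_subset_of_nonneg hsub fun _ _ _ => sq_nonneg _).trans ?_
    exact sum_biUnion_le' _ _ _ fun _ => sq_nonneg _
  refine key.trans ?_
  calc ∑ q ∈ G', MS S (p q) (1 / 2) ≤ ∑ _q ∈ G', C * (1 / 2) ^ 2 :=
        Finset.sum_le_sum fun q hq => h _ (Finset.mem_filter.1 hq).2
    _ = (G'.card : ℝ) * (C * (1 / 2) ^ 2) := by rw [Finset.sum_const, nsmul_eq_mul]
    _ ≤ (100 * b ^ 2) * (C * (1 / 2) ^ 2) := by gcongr
    _ = _ := by ring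

/-! ### the environment of a finite set of sites -/

/-- **environment of a finite set of sites in the disc of radius `R`** -/
structure EnvS (S : Finset ℂ) (R d ρ0 : ℝ) : Prop where
  gp : GP (S : Set ℂ)
  dpos : 0 < d
  rpos : 0 < ρ0
  hole : ∀ z : ℂ, ‖z‖ ≤ R + 1 - d → ∃ s ∈ S, ‖s - z‖ < d
  mesh : ∀ (z : ℂ) (b : ℝ), ‖z‖ < R → ρ0 ≤ b → b < 3 / 4 → MS S z b ≤ Cab * b ^ 2

/-- the absolute mesh constant at all scales -/
def Ce : ℝ := 25 * Cab

theorem Ce_pos : 0 < Ce := by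
  unfold Ce
  have := Cab_pos
  positivity

theorem Cab_le_Ce : Cab ≤ Ce := by
  unfold Ce
  linarith [Cab_pos]

namespace EnvS

/-- no hole -/
theorem hol (H : EnvS S R d ρ0) : Hol (S : Set ℂ) (Metric.closedBall 0 (R + 1 - 2 * d)) d := by
  intro w hw z hz
  rw [mem_closedBall_zero_iff] at hw
  obtain ⟨s, hs, h⟩ := H.hole z (by
    have := norm_add_le (z - w) w
    rw [sub_add_cancel] at this
    linarith)
  exact ⟨s, Finset.mem_coe.2 hs, h⟩

theorem holU (H : EnvS S R d ρ0) {U : Set ℂ} (hU : ∀ z ∈ U, ‖z‖ ≤ R + 1 - 2 * d) :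
    Hol (S : Set ℂ) U d := H.hol.mono fun z hz => mem_closedBall_zero_iff.2 (hU z hz)

/-- **503's environment** -/
theorem envr (H : EnvS S R d ρ0) {U : Set ℂ} (hU : ∀ z ∈ U, ‖z‖ ≤ R + 1 - 2 * d) :
    Envr S U (2 * d) := EnvUx503.envr_of H.gp H.dpos (H.holU hU)

theorem card (H : EnvS S R d ρ0) (h : 2 * d ≤ R + 1) : 3 ≤ S.card :=
  three_le H.dpos H.hol (w := 0) (mem_closedBall_zero_iff.2 (by rw [norm_zero]; linarith))

/-- hull sites are far -/
theorem hull_far (H : EnvS S R d ρ0) {s : ℂ} (h : OnHull S s) : R + 1 - 2 * d < ‖s‖ := by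
  by_contra hc
  obtain ⟨a, ha⟩ := h
  exact (not_hull H.dpos H.hol (mem_closedBall_zero_iff.2 (not_lt.1 hc)) a).2 ha

theorem inn (H : EnvS S R d ρ0) {s : ℂ} (h : ‖s‖ ≤ R + 1 - 2 * d) : ¬ OnHull S s := fun h1 =>
  absurd (H.hull_far h1) (not_lt.2 h)

/-- the triangles at a site are small -/
theorem side (H : EnvS S R d ρ0) {u v w : ℂ} (h : (u, v, w) ∈ delT S)
    (hu : ‖u‖ ≤ R + 1 - 2 * d) : ‖u - v‖ < 2 * d ∧ ‖v - w‖ < 2 * d ∧ ‖w - u‖ < 2 * d :=
  del_side H.dpos H.hol (mem_closedBall_zero_iff.2 hu) (inD_self u v w) (DelGx806.mem_delT.1 h)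

/-- every point of the disc is in a triangle -/
theorem cover (H : EnvS S R d ρ0) {z : ℂ} (hz : ‖z‖ ≤ R + 1 - 2 * d) : ∃ t ∈ delT S, z ∈ cT t :=
  (H.envr (U := {z}) (by rintro _ rfl; exact hz)).cov z rfl

/-- 722's density, when all the sites are in the disc -/
theorem dns (H : EnvS S R d ρ0) (hd : 8 * d ≤ R + 1) (hS : ∀ s ∈ S, ‖s‖ ≤ R + 1) :
    DomAx722.Dns S 0 (R + 1) d where
  gp := H.gp
  dpos := H.dpos
  dL := hd
  sub s hs := by rw [sub_zero]; exact hS s hs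
  hole z hz := H.hole z (by rwa [sub_zero] at hz)

theorem ldns (H : EnvS S R d ρ0) {y : ℂ} (h : ‖y‖ + r ≤ R + 1 - d) : LDns S y r d where
  gp := H.gp
  dpos := H.dpos
  hole z hz := H.hole z (by
    have := norm_add_le (z - y) y
    rw [sub_add_cancel] at this
    linarith)

/-- mesh at one scale -/
theorem msh (H : EnvS S R d ρ0) {y : ℂ} (h : ‖y‖ + r < R) (h1 : ρ0 ≤ b) (h2 : b < 3 / 4) :
    Mesh S y r b Cab := by
  intro z hz
  refine H.mesh z b ?_ h1 h2
  have := norm_add_le (z - y) y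
  rw [sub_add_cancel] at this
  linarith

theorem meshA (H : EnvS S R d ρ0) {y : ℂ} (h : ‖y‖ + r < R) (h1 : ρ0 ≤ c * ρ) (h2 : ρ < 3 / 4) :
    MeshA S y r c ρ Cab := fun _ h3 h4 => H.msh h (h1.trans h3) (h4.trans_lt h2)

/-- **conditional estimates, scales at most `3 / 4`** -/
theorem nva (H : EnvS S R d ρ0) (hd : d ≤ 1) {y : ℂ} (h : ‖y‖ + r < R) (h1 : ρ0 ≤ c * ρ)
    (h2 : ρ < 3 / 4) : NvA S y r c ρ d Cab :=
  ⟨H.ldns (by linarith), H.meshA h h1 h2⟩

/-- **mesh at all scales** -/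
theorem meshL (H : EnvS S R d ρ0) (hρ0 : ρ0 ≤ 1 / 2) {z : ℂ} (h : ‖z‖ + b + 1 < R)
    (h1 : ρ0 ≤ b) : MS S z b ≤ Ce * b ^ 2 := by
  have hb : 0 < b := H.rpos.trans_le h1
  rcases lt_or_ge b (1 / 2) with h2 | h2
  · exact (H.mesh z b (by linarith) h1 (by linarith)).trans
      (mul_le_mul_of_nonneg_right Cab_le_Ce (sq_nonneg _))
  · refine (ms_cover h2 Cab_pos.le fun w hw => ?_).trans (le_of_eq (by unfold Ce; ring))
    refine H.mesh w (1 / 2) ?_ hρ0 (by norm_num)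
    have := norm_add_le (w - z) z
    rw [sub_add_cancel] at this
    linarith

theorem mshL (H : EnvS S R d ρ0) (hρ0 : ρ0 ≤ 1 / 2) {y : ℂ} (h : ‖y‖ + r + b + 1 < R)
    (h1 : ρ0 ≤ b) : Mesh S y r b Ce := by
  intro z hz
  refine H.meshL hρ0 ?_ h1
  have := norm_add_le (z - y) y
  rw [sub_add_cancel] at this
  linarith

/-- **conditional estimates, all scales** (RBm, `strip_pr`, circuits) -/
theorem nvaL (H : EnvS S R d ρ0) (hρ0 : ρ0 ≤ 1 / 2) (hd : d ≤ 1) {y : ℂ}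
    (h : ‖y‖ + r + ρ + 1 < R) (hρ : 0 ≤ ρ) (h1 : ρ0 ≤ c * ρ) : NvA S y r c ρ d Ce :=
  ⟨H.ldns (by linarith), fun _ h3 h4 => H.mshL hρ0 (by linarith) (h1.trans h3)⟩

/-- **197's hypotheses of the arm bound** : centre `z0`, radii from `r` to `d1` -/
theorem dense (H : EnvS S R d ρ0) (hρ0 : ρ0 ≤ 1 / 2) (hd : d ≤ 1) {Rad K c2 d1 : ℝ}
    (h : ‖z0‖ + Rad + K * d1 + d1 + 1 < R) (hd1 : 0 ≤ d1) (h1 : ρ0 ≤ c2 * r) :
    CntGx197.Dense S z0 Rad K d c2 r d1 Ce where
  dns y hy := H.ldns (by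
    have := norm_add_le (y - z0) z0
    rw [sub_add_cancel] at this
    linarith)
  msh y hy b h3 h4 := H.mshL hρ0 (by
    have := norm_add_le (y - z0) z0
    rw [sub_add_cancel] at this
    linarith) (h1.trans h3)

/-- **653's `EnvH` for a finite set** : every finite set which agrees with `S` near the place -/
theorem nva_agr (H : EnvS S R d ρ0) (hS' : GP (S' : Set ℂ)) (h : ‖z0‖ + r + ρ + 2 * d < R)
    (hρ : 0 ≤ ρ) (h1 : ρ0 ≤ c * ρ) (h2 : ρ < 3 / 4)
    (hA : ∀ s : ℂ, ‖s - z0‖ ≤ r + ρ + 2 * d → (s ∈ S ↔ s ∈ S')) : NvA S' z0 r c ρ d Cab := by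
  have hd := H.dpos
  have hH : Hol (S : Set ℂ) (Metric.closedBall z0 (r + ρ)) d := by
    refine H.holU fun w hw => ?_
    rw [mem_closedBall_iff_norm] at hw
    have := norm_add_le (w - z0) z0
    rw [sub_add_cancel] at this
    linarith
  have hAg : Agr (S : Set ℂ) (S' : Set ℂ) (Metric.closedBall z0 (r + ρ)) (2 * d) := by
    intro w hw s hs
    rw [mem_closedBall_iff_norm] at hw
    rw [Finset.mem_coe, Finset.mem_coe]
    refine hA s ?_
    have := norm_tri s w z0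
    linarith
  refine ⟨⟨hS', hd, fun z hz => ?_⟩, fun b h3 h4 z hz => ?_⟩
  · obtain ⟨s, hs, hsz⟩ := (hH.agr hAg) z (mem_closedBall_iff_norm.2 (by linarith)) z
      (by rw [sub_self, norm_zero]; exact hd.le)
    exact ⟨s, hs, hsz⟩
  · have hsub : Metric.closedBall z b ⊆ Metric.closedBall z0 (r + ρ) := by
      intro w hw
      rw [mem_closedBall_iff_norm] at hw ⊢
      have := norm_tri w z z0
      linarith
    refine (ms_agr hd hH hAg hsub).trans (H.mesh z b ?_ (h1.trans h3) (h4.trans_lt h2))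
    have := norm_add_le (z - z0) z0
    rw [sub_add_cancel] at this
    linarith

/-- smaller discs, larger holes and scales -/
theorem mono {R' d' ρ0' : ℝ} (H : EnvS S R d ρ0) (hR : R' ≤ R) (hd : d ≤ d') (hρ : ρ0 ≤ ρ0') :
    EnvS S R' d' ρ0' where
  gp := H.gp
  dpos := H.dpos.trans_le hd
  rpos := H.rpos.trans_le hρ
  hole z hz := by
    obtain ⟨s, hs, h⟩ := H.hole z (by linarith)
    exact ⟨s, hs, h.trans_le hd⟩
  mesh z b h1 h2 h3 := H.mesh z b (h1.trans_le hR) (hρ.trans h2) h3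

end EnvS

/-! ### the functional -/

theorem proj_closed' {X Y : Type*} [TopologicalSpace X] [TopologicalSpace Y] {K : Set Y}
    (hK : IsCompact K) {C : Set (X × Y)} (hC : IsClosed C) : IsClosed {x | ∃ y ∈ K, (x, y) ∈ C} := by
  have : CompactSpace K := isCompact_iff_compactSpace.1 hK
  have h1 : IsClosed {p : X × K | (p.1, (p.2 : Y)) ∈ C} :=
    hC.preimage (continuous_fst.prodMk (continuous_subtype_val.comp continuous_snd))
  have h2 := isClosedMap_fst_of_compactSpace (X := X) (Y := K) _ h1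
  convert h2 using 1
  ext x
  constructor
  · rintro ⟨y, hy, h⟩
    exact ⟨(x, ⟨y, hy⟩), h, rfl⟩
  · rintro ⟨⟨x', y⟩, h, rfl⟩
    exact ⟨y, y.2, h⟩

/-- triangles which meet the disc -/
def Pt (z : ℂ) (b : ℝ) (X : Set (ℂ × Bool)) (t : ℂ × ℂ × ℂ) : Prop :=
  Del (ps X) t.1 t.2.1 t.2.2 ∧ (cT t ∩ Metric.closedBall z b).Nonempty

/-- the sum over the triangles which meet the disc -/
def MX (z : ℂ) (b : ℝ) (X : Set (ℂ × Bool)) : ℝ :=
  ∑ᶠ (t : ℂ × ℂ × ℂ) (_ : Pt z b X t), dm t ^ 2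

theorem mx_eq {X : Set (ℂ × Bool)} (h : ps X = S) (z : ℂ) (b : ℝ) : MX z b X = MS S z b := by
  have e : {t | Pt z b X t} =
      (((delT S).filter fun t => (cT t ∩ Metric.closedBall z b).Nonempty :
        Finset (ℂ × ℂ × ℂ)) : Set (ℂ × ℂ × ℂ)) := by
    ext ⟨a, b', c⟩
    rw [mem_ofPred_eq, Finset.mem_coe, Finset.mem_filter, DelGx806.mem_delT]
    unfold Pt
    rw [h]
  unfold MX MS
  rw [← finsum_mem_coe_finset, ← e]
  rfl

theorem meet_meas (z : ℂ) (b : ℝ) :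
    MeasurableSet {t : ℂ × ℂ × ℂ | (cT t ∩ Metric.closedBall z b).Nonempty} := by
  have h : IsClosed {t : ℂ × ℂ × ℂ | ∃ y ∈ Metric.closedBall z b, (t, y) ∈
      {q : (ℂ × ℂ × ℂ) × ℂ | InT q.2 q.1.1 q.1.2.1 q.1.2.2}} := by
    refine proj_closed' (isCompact_closedBall z b) ?_
    have key : ∀ f g h : (ℂ × ℂ × ℂ) × ℂ → ℂ, Continuous f → Continuous g → Continuous h →
        IsClosed {q : (ℂ × ℂ × ℂ) × ℂ | 0 ≤ cr (f q - g q) (h q - g q)} := by
      intro f g h hf hg hh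
      unfold cr
      exact isClosed_le continuous_const (by fun_prop)
    exact (key _ _ _ (by fun_prop) (by fun_prop) (by fun_prop)).inter
      ((key _ _ _ (by fun_prop) (by fun_prop) (by fun_prop)).inter
        (key _ _ _ (by fun_prop) (by fun_prop) (by fun_prop)))
  convert h.measurableSet using 1
  ext t
  simp only [mem_ofPred_eq]
  constructor
  · rintro ⟨y, h1, h2⟩
    exact ⟨y, h2, h1⟩
  · rintro ⟨y, h1, h2⟩
    exact ⟨y, h2, h1⟩

theorem dm_meas : Measurable dm := by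
  unfold dm
  fun_prop

theorem mx_fm (z : ℂ) (b : ℝ) : FinMeas (MX z b) := by
  refine fme_sum (U := fun a : Empty => a.elim)
    (R := fun (_ : Unit) t => (cT t ∩ Metric.closedBall z b).Nonempty)
    (fun a => a.elim) (fun _ => meet_meas z b) (P := Pt z b) ?_ ?_ (dm_meas.pow_const 2)
  · rintro X t ⟨⟨h1, h2, h3, -⟩, -⟩
    exact ⟨h1, h2, h3⟩
  · rintro X X' - - e he x hx y hy w hw ⟨h1, h2⟩
    exact ⟨(he.del x hx y hy w hw).1 h1, (he.rel x hx y hy w hw ()).1 h2⟩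

theorem ps_range' {n : ℕ} (z : Fin n → ℂ × Bool) : ps (range z) = range fun i => (z i).1 := by
  ext x
  rw [mem_ps_range]
  rfl

theorem gp_fm : FinMeas fun X : Set (ℂ × Bool) => GP (ps X) := by
  intro n
  have h1 : Measurable fun z : Fin n → ℂ × Bool => fun i => (z i).1 :=
    measurable_pi_iff.2 fun i => meas_pos n i
  have h2 := h1 (GPmx653.gp_meas n)
  refine measurableSet_setOfPred.1 ?_
  convert h2 using 1
  ext z
  simp only [mem_ofPred_eq, mem_preimage, ps_range']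

theorem hole_fm (r d : ℝ) : FinMeas fun X : Set (ℂ × Bool) =>
    ∀ z : ℂ, ‖z‖ ≤ r → ∃ s ∈ ps X, ‖s - z‖ < d := by
  intro n
  refine measurableSet_setOfPred.1 ?_
  have h : IsClosed {x : Fin n → ℂ × Bool | ∃ y ∈ Metric.closedBall (0 : ℂ) r, (x, y) ∈
      {q : (Fin n → ℂ × Bool) × ℂ | ∀ i, d ≤ ‖(q.1 i).1 - q.2‖}} := by
    refine proj_closed' (isCompact_closedBall 0 r) ?_
    have e : {q : (Fin n → ℂ × Bool) × ℂ | ∀ i, d ≤ ‖(q.1 i).1 - q.2‖} =
        ⋂ i, {q : (Fin n → ℂ × Bool) × ℂ | d ≤ ‖(q.1 i).1 - q.2‖} := by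
      ext q
      simp only [mem_ofPred_eq, mem_iInter]
    rw [e]
    exact isClosed_iInter fun i => isClosed_le continuous_const (by fun_prop)
  convert h.measurableSet.compl using 1
  ext x
  simp only [mem_ofPred_eq, mem_compl_iff, not_exists, not_and, not_forall, not_le,
    mem_closedBall_zero_iff, mem_ps_range]
  refine forall_congr' fun z => forall_congr' fun _ => ?_
  constructor
  · rintro ⟨s, ⟨i, rfl⟩, hs⟩
    exact ⟨i, hs⟩
  · rintro ⟨i, hi⟩
    exact ⟨_, ⟨i, rfl⟩, hi⟩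

/-- rational places -/
def zq (p : ℚ × ℚ × ℚ) : ℂ := ⟨p.1, p.2.1⟩

/-- the environment of a coloured configuration -/
def EnvX (R d ρ0 : ℝ) (X : Set (ℂ × Bool)) : Prop :=
  (0 < d ∧ 0 < ρ0) ∧ GP (ps X) ∧ (∀ z : ℂ, ‖z‖ ≤ R + 1 - d → ∃ s ∈ ps X, ‖s - z‖ < d) ∧
    ∀ p : ℚ × ℚ × ℚ, (‖zq p‖ ≤ R ∧ ρ0 ≤ p.2.2 ∧ (p.2.2 : ℝ) ≤ 3 / 4) →
      MX (zq p) p.2.2 X ≤ Cab * (p.2.2 : ℝ) ^ 2

theorem envX_fm (R d ρ0 : ℝ) : FinMeas (EnvX R d ρ0) := by
  intro n
  unfold EnvX
  refine measurable_const.and ((gp_fm n).and ((hole_fm (R + 1 - d) d n).and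
    (Measurable.forall fun p => measurable_const.imp ?_)))
  exact measurableSet_setOfPred.1 (measurableSet_le (mx_fm _ _ n) measurable_const)

/-- **the functional of the environment** -/
def eF (R d ρ0 : ℝ) (X : Set (ℂ × Bool)) : ℝ≥0∞ := if EnvX R d ρ0 X then 1 else 0

theorem eF_fm (R d ρ0 : ℝ) : Poisx304.FM (eF R d ρ0) := fun n =>
  Measurable.ite (measurableSet_setOfPred.2 (envX_fm R d ρ0 n)) measurable_const measurable_const

theorem eF_01 (R d ρ0 : ℝ) (X : Set (ℂ × Bool)) : eF R d ρ0 X = 0 ∨ eF R d ρ0 X = 1 := by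
  unfold eF
  split_ifs
  · exact Or.inr rfl
  · exact Or.inl rfl

theorem eF_le (R d ρ0 : ℝ) (X : Set (ℂ × Bool)) : eF R d ρ0 X ≤ 1 := by
  rcases eF_01 R d ρ0 X with h | h <;> rw [h]
  exact zero_le

theorem eF_iff {X : Set (ℂ × Bool)} : eF R d ρ0 X ≠ 0 ↔ EnvX R d ρ0 X := by
  unfold eF
  split_ifs with h
  · exact ⟨fun _ => h, fun _ => one_ne_zero⟩
  · exact ⟨fun h1 => absurd rfl h1, fun h1 => absurd h1 h⟩

/-- a function of the sites -/
theorem eF_ps {X X' : Set (ℂ × Bool)} (h : ps X = ps X') : eF R d ρ0 X = eF R d ρ0 X' := by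
  have e : ∀ z b, MX z b X = MX z b X' := fun z b => by
    unfold MX Pt
    rw [h]
  have e2 : EnvX R d ρ0 X ↔ EnvX R d ρ0 X' := by
    unfold EnvX
    rw [h]
    simp only [e]
  unfold eF
  simp only [e2]

theorem ps_paint {A β : Finset ℂ} : ps (paint A β) = A := by
  ext z
  constructor
  · rintro ⟨q, hq, rfl⟩
    exact hq.1
  · intro hz
    exact ⟨(z, decide (z ∈ β)), ⟨hz, by simp⟩, rfl⟩

/-- independent of the colours -/
theorem eF_paint {A β β' : Finset ℂ} : eF R d ρ0 (paint A β) = eF R d ρ0 (paint A β') :=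
  eF_ps (by rw [ps_paint, ps_paint])

/-! ### rational places suffice -/

theorem exists_zq (z : ℂ) {δ : ℝ} (hδ : 0 < δ) (b : ℝ) :
    ∃ p : ℚ × ℚ × ℚ, ‖z - zq p‖ < 2 * δ ∧ b + 2 * δ < p.2.2 ∧ (p.2.2 : ℝ) < b + 3 * δ := by
  obtain ⟨x, hx1, hx2⟩ := exists_rat_btwn (show z.re - δ < z.re + δ by linarith)
  obtain ⟨y, hy1, hy2⟩ := exists_rat_btwn (show z.im - δ < z.im + δ by linarith)
  obtain ⟨c, hc1, hc2⟩ := exists_rat_btwn (show b + 2 * δ < b + 3 * δ by linarith)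
  refine ⟨(x, y, c), ?_, hc1, hc2⟩
  refine (Complex.norm_le_abs_re_add_abs_im _).trans_lt ?_
  have h1 : |(z - zq (x, y, c)).re| < δ := by
    rw [Complex.sub_re, abs_lt]
    simp only [zq]
    constructor <;> linarith
  have h2 : |(z - zq (x, y, c)).im| < δ := by
    rw [Complex.sub_im, abs_lt]
    simp only [zq]
    constructor <;> linarith
  linarith

/-- **what the functional gives** -/
theorem envS_of {X : Set (ℂ × Bool)} (hX : ps X = S) (h : EnvX R d ρ0 X) : EnvS S R d ρ0 := by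
  obtain ⟨⟨h1, h2⟩, h3, h4, h5⟩ := h
  rw [hX] at h3 h4
  refine ⟨h3, h1, h2, h4, fun z b hz hb hb2 => ?_⟩
  refine le_of_forall_pos_le_add fun η hη => ?_
  have hC := Cab_pos
  obtain ⟨δ, hδ, h6, h7, h8⟩ : ∃ δ : ℝ, 0 < δ ∧ ‖z‖ + 2 * δ ≤ R ∧ b + 3 * δ ≤ 3 / 4 ∧
      Cab * (b + 3 * δ) ^ 2 ≤ Cab * b ^ 2 + η := by
    have hb0 : 0 < b := h2.trans_le hb
    refine ⟨min (min ((R - ‖z‖) / 2) ((3 / 4 - b) / 3)) (min 1 (η / (Cab * 20))), ?_, ?_, ?_, ?_⟩
    · refine lt_min (lt_min (by linarith) (by linarith)) (lt_min one_pos (by positivity))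
    · have := (min_le_left (min ((R - ‖z‖) / 2) ((3 / 4 - b) / 3)) (min 1 (η / (Cab * 20)))).trans
        (min_le_left _ _)
      linarith
    · have := (min_le_left (min ((R - ‖z‖) / 2) ((3 / 4 - b) / 3)) (min 1 (η / (Cab * 20)))).trans
        (min_le_right _ _)
      linarith
    · set δ := min (min ((R - ‖z‖) / 2) ((3 / 4 - b) / 3)) (min 1 (η / (Cab * 20))) with hδ
      have hδ0 : 0 < δ :=
        lt_min (lt_min (by linarith) (by linarith)) (lt_min one_pos (by positivity))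
      have e1 : δ ≤ 1 := (min_le_right _ _).trans (min_le_left _ _)
      have e2 : δ ≤ η / (Cab * 20) := (min_le_right _ _).trans (min_le_right _ _)
      rw [le_div_iff₀ (by positivity)] at e2
      have e3 : (b + 3 * δ) ^ 2 ≤ b ^ 2 + 20 * δ := by nlinarith
      nlinarith
  obtain ⟨p, hp1, hp2, hp3⟩ := exists_zq z hδ b
  have h9 := h5 p ⟨by
    have := norm_sub_rev z (zq p)
    have := norm_add_le (zq p - z) z
    rw [sub_add_cancel] at this
    linarith, by linarith, by linarith⟩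
  rw [mx_eq hX] at h9
  refine (ms_mono (z' := zq p) (b' := p.2.2) (by linarith)).trans (h9.trans ?_)
  refine le_trans ?_ h8
  have : (p.2.2 : ℝ) ^ 2 ≤ (b + 3 * δ) ^ 2 := by
    have hb0 : 0 < b := h2.trans_le hb
    nlinarith
  nlinarith

/-- **`eF ≠ 0` gives the environment of the sites** -/
theorem eF_ne {A β : Finset ℂ} (h : eF R d ρ0 (paint A β) ≠ 0) : EnvS A R d ρ0 :=
  envS_of ps_paint (eF_iff.1 h)

/-! ### the sample -/

section sample

variable {ε : ℝ} {ω : Sample} {B : Set ℂ}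

theorem ps_box (ε : ℝ) (ω : Sample) (B : Set ℂ) :
    ps (cfg ε ω ∩ ovM Bool B) = points ε ω ∩ B := by
  have h : ps (cfg ε ω) = points ε ω := fst_cfg ε ω
  rw [← h]
  ext z
  constructor
  · rintro ⟨q, ⟨hq, hqB⟩, rfl⟩
    exact ⟨⟨q, hq, rfl⟩, hqB⟩
  · rintro ⟨⟨q, hq, rfl⟩, hqB⟩
    exact ⟨q, ⟨hq, hqB⟩, rfl⟩

theorem ps_boxA (hε : 0 < ε) (hB : Bornology.IsBounded B) :
    ps (cfg ε ω ∩ ovM Bool B) = Ap ε B ω := by rw [ps_box, coe_Ap hε hB]

theorem envX_mono {X : Set (ℂ × Bool)} {d' : ℝ} (h : EnvX R d ρ0 X) (hd : d ≤ d') :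
    EnvX R d' ρ0 X := by
  obtain ⟨⟨h1, h2⟩, h3, h4, h5⟩ := h
  refine ⟨⟨h1.trans_le hd, h2⟩, h3, fun z hz => ?_, h5⟩
  obtain ⟨s, hs, h⟩ := h4 z (by linarith)
  exact ⟨s, hs, h.trans_le hd⟩

/-- **a good sample has the environment in every box** -/
theorem envX_good {C' K : ℝ} (hG : GoodB (R + 2) ε C' K 8 Ca0 ω) (he : 0 < ε)
    (hd : 0 < rad C' ε) (hd1 : rad C' ε ≤ 1 / 16) (hρ0 : 0 < ρ0)
    (h1 : ε * Real.log (1 / ε) ^ (8 : ℝ) ≤ 2 * ρ0) (h2 : 2 * rad C' ε ≤ ρ0)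
    (h3 : ε * Real.log (1 / ε) ^ (8 : ℝ) ≤ 1)
    (hB : Bornology.IsBounded B) (hRB : Metric.closedBall (0 : ℂ) (R + 1) ⊆ B) :
    EnvX R (rad C' ε) ρ0 (cfg ε ω ∩ ovM Bool B) := by
  have hA := coe_Ap he hB ω
  have hin : ∀ {s : ℂ}, s ∈ points ε ω → ‖s‖ ≤ R + 1 → s ∈ Ap ε B ω := by
    intro s h4 h5
    rw [← Finset.mem_coe, hA]
    exact ⟨h4, hRB (mem_closedBall_zero_iff.2 h5)⟩
  refine ⟨⟨hd, hρ0⟩, ?_, fun z hz => ?_, fun p hp => ?_⟩
  · rw [ps_box]
    exact DomAx722.gp_mono inter_subset_left hG.env.gp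
  · obtain ⟨s, hs, h⟩ := hG.env.hole z (by
      rw [mem_closedBall_zero_iff]
      linarith)
    rw [Metric.mem_ball, dist_eq_norm] at h
    refine ⟨s, ?_, h⟩
    rw [ps_boxA he hB, Finset.mem_coe]
    refine hin hs ?_
    have := norm_add_le (s - z) z
    rw [sub_add_cancel] at this
    linarith
  · obtain ⟨hp1, hp2, hp3⟩ := hp
    rw [mx_eq (ps_boxA he hB)]
    set z := zq p
    set b : ℝ := (p.2.2 : ℝ)
    have hb : 0 < b := hρ0.trans_le hp2
    have hH : Hol (points ε ω) (Metric.closedBall z b) (rad C' ε) := by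
      refine (Env.hol hG.env).mono fun w hw => ?_
      rw [mem_closedBall_iff_norm] at hw
      rw [mem_closedBall_zero_iff]
      have := norm_add_le (w - z) z
      rw [sub_add_cancel] at this
      linarith
    have hAg : Agr (points ε ω) (Ap ε B ω : Set ℂ) (Metric.closedBall z b) (2 * rad C' ε) := by
      intro w hw s hs
      rw [mem_closedBall_iff_norm] at hw
      constructor
      · intro h
        refine hin h ?_
        have h4 := norm_add_le (w - z) z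
        have h5 := norm_add_le (s - w) w
        rw [sub_add_cancel] at h4 h5
        linarith
      · intro h
        rw [hA] at h
        exact h.1
    have hz : z ∈ Metric.closedBall (0 : ℂ) (R + 2) := by
      rw [mem_closedBall_zero_iff]
      linarith
    have hC := Ca0_pos
    rcases le_or_gt b (1 / 2) with h4 | h4
    · have h5 := mesh_ball_agr hd hH hAg hC.le (h2.trans hp2) le_rfl
        (hG.diam z hz (2 * b) (by linarith) (by linarith))
      exact h5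
    · have h5 := mesh_ball_r hd hH hAg (b := b) (r := 1) (by linarith) hC.le le_rfl
        (hG.diam z hz 1 h3 le_rfl)
      have h6 : (1 / 2 : ℝ) ^ 2 ≤ b ^ 2 := pow_le_pow_left₀ (by norm_num) h4.le 2
      have h7 : Ca0 * (1 / 2 : ℝ) ^ 2 ≤ Ca0 * b ^ 2 := mul_le_mul_of_nonneg_left h6 hC.le
      refine h5.trans ?_
      unfold Cab
      linarith

/-- **the environment fails with probability at most `ε ^ A`** -/
theorem env_pr (R A : ℝ) : ∃ C : ℝ, 0 < C ∧ ∀ c1 ρ0 : ℝ, 0 < c1 → 0 < ρ0 →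
    ∀ᶠ ε : ℝ in 𝓝[>] 0, (0 < rad C ε ∧ rad C ε ≤ c1) ∧ ∀ B : Set ℂ, Bornology.IsBounded B →
      Metric.closedBall (0 : ℂ) (R + 1) ⊆ B →
      sampleLaw {ω | eF R (rad C ε) ρ0 (cfg ε ω ∩ ovM Bool B) = 0} ≤ ENNReal.ofReal (ε ^ A) := by
  obtain ⟨C, K, hC, hK, hMP⟩ := mgA (R + 2) A
  refine ⟨C, hC, fun c1 ρ0 hc1 hρ0 => ?_⟩
  unfold MP at hMP
  have f1 : ∀ᶠ ε : ℝ in 𝓝[>] 0, rad C ε < min c1 (min (ρ0 / 2) (1 / 16)) :=
    (DicCx831.rad_small C).eventually_lt_const (by positivity)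
  have f2 : ∀ᶠ ε : ℝ in 𝓝[>] 0, ε * Real.log (1 / ε) ^ (8 : ℝ) < min (2 * ρ0) 1 :=
    log8_small.eventually_lt_const (by positivity)
  have f3 : ∀ᶠ ε : ℝ in 𝓝[>] 0, 0 < ε := eventually_mem_nhdsWithin
  have f4 := PoisM4x501.tendsto_logInv.eventually_ge_atTop 1
  filter_upwards [hMP, f1, f2, f3, f4] with ε h1 h2 h3 h4 h5
  have hrad : 0 < rad C ε := by
    have hlog : 0 < Real.log (1 / ε) := by linarith
    unfold rad
    positivity
  have g1 := h2.trans_le (min_le_left _ _)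
  have g2 := h2.trans_le ((min_le_right _ _).trans (min_le_left _ _))
  have g3 := h2.trans_le ((min_le_right _ _).trans (min_le_right _ _))
  refine ⟨⟨hrad, g1.le⟩, fun B hB hRB => (measure_mono ?_).trans h1⟩
  intro ω hω hG
  exact eF_iff.2 (envX_good hG h4 hrad g3.le hρ0 (h3.le.trans (min_le_left _ _)) (by linarith)
    (h3.le.trans (min_le_right _ _)) hB hRB) hω

/-- **the same with the universal scale `√ε`** -/
theorem env_sqrt (R A c1 ρ0 : ℝ) (hc1 : 0 < c1) (hρ0 : 0 < ρ0) :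
    ∀ᶠ ε : ℝ in 𝓝[>] 0, (0 < √ε ∧ √ε ≤ c1) ∧ ∀ B : Set ℂ, Bornology.IsBounded B →
      Metric.closedBall (0 : ℂ) (R + 1) ⊆ B →
      sampleLaw {ω | eF R √ε ρ0 (cfg ε ω ∩ ovM Bool B) = 0} ≤ ENNReal.ofReal (ε ^ A) := by
  obtain ⟨C, hC, h⟩ := env_pr R A
  have f3 : ∀ᶠ ε : ℝ in 𝓝[>] 0, 0 < ε := eventually_mem_nhdsWithin
  filter_upwards [h 1 ρ0 one_pos hρ0, MeasQx609.rad_le_sqrt C, CorEx133.sqrt_small hc1, f3]
    with ε h1 h2 h4 h6
  refine ⟨⟨Real.sqrt_pos.2 h6, h4⟩, fun B hB hRB => (measure_mono ?_).trans (h1.2 B hB hRB)⟩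
  intro ω hω
  by_contra hc
  exact eF_iff.2 (envX_mono (eF_iff.1 hc) h2) hω

/-- **the weight times the environment** -/
theorem mul_e (hε : 0 < ε) (hBm : MeasurableSet B) (hB : Bornology.IsBounded B)
    {g : Set (ℂ × Bool) → ℝ≥0∞} (hg : Poisx304.FM g) (h1 : ∀ X, g X ≤ 1) :
    ∫⁻ ω, g (cfg ε ω ∩ ovM Bool B) ∂sampleLaw ≤
      ∫⁻ ω, g (cfg ε ω ∩ ovM Bool B) * eF R d ρ0 (cfg ε ω ∩ ovM Bool B) ∂sampleLaw +
        sampleLaw {ω | eF R d ρ0 (cfg ε ω ∩ ovM Bool B) = 0} := by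
  have m1 : Measurable fun ω => g (cfg ε ω ∩ ovM Bool B) :=
    Dblx609.meas_mcf Janx304.measurable_dec hε hBm hB (F := g) hg
  have m2 : Measurable fun ω => eF R d ρ0 (cfg ε ω ∩ ovM Bool B) :=
    Dblx609.meas_mcf Janx304.measurable_dec hε hBm hB (F := eF R d ρ0) (eF_fm R d ρ0)
  have m3 : MeasurableSet {ω | eF R d ρ0 (cfg ε ω ∩ ovM Bool B) = 0} :=
    m2 (measurableSet_singleton 0)
  have m4 : Measurable fun ω => g (cfg ε ω ∩ ovM Bool B) * eF R d ρ0 (cfg ε ω ∩ ovM Bool B) :=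
    m1.mul m2
  rw [← lintegral_indicator_one m3, ← lintegral_add_left m4]
  refine lintegral_mono fun ω => ?_
  show g (cfg ε ω ∩ ovM Bool B) ≤ g (cfg ε ω ∩ ovM Bool B) * eF R d ρ0 (cfg ε ω ∩ ovM Bool B) +
    ({ω | eF R d ρ0 (cfg ε ω ∩ ovM Bool B) = 0} : Set Sample).indicator 1 ω
  rcases eF_01 R d ρ0 (cfg ε ω ∩ ovM Bool B) with h | h
  · have hm : ω ∈ {ω | eF R d ρ0 (cfg ε ω ∩ ovM Bool B) = 0} := h
    rw [indicator_of_mem hm, h, mul_zero, zero_add, Pi.one_apply]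
    exact h1 _
  · rw [h, mul_one]
    exact le_self_add

theorem mul_fm {g : Set (ℂ × Bool) → ℝ≥0∞} (hg : Poisx304.FM g) :
    Poisx304.FM fun X => g X * eF R d ρ0 X := fun n => (hg n).mul (eF_fm R d ρ0 n)

/-- **form for the assembly** : the weight `g * e` keeps half of the mass of `g` -/
theorem mul_half (R c0 ρ0 : ℝ) (hc0 : 0 < c0) (hρ0 : 0 < ρ0) :
    ∀ᶠ ε : ℝ in 𝓝[>] 0, ∀ B : Set ℂ, MeasurableSet B → Bornology.IsBounded B →
      Metric.closedBall (0 : ℂ) (R + 1) ⊆ B → ∀ g : Set (ℂ × Bool) → ℝ≥0∞, Poisx304.FM g →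
      (∀ X, g X ≤ 1) → ENNReal.ofReal c0 ≤ ∫⁻ ω, g (cfg ε ω ∩ ovM Bool B) ∂sampleLaw →
      ENNReal.ofReal (c0 / 2) ≤
          ∫⁻ ω, g (cfg ε ω ∩ ovM Bool B) * eF R √ε ρ0 (cfg ε ω ∩ ovM Bool B) ∂sampleLaw ∧
        ∫⁻ ω, g (cfg ε ω ∩ ovM Bool B) ∂sampleLaw ≤
          2 * ∫⁻ ω, g (cfg ε ω ∩ ovM Bool B) * eF R √ε ρ0 (cfg ε ω ∩ ovM Bool B) ∂sampleLaw := by
  have f1 := env_sqrt R 1 1 ρ0 one_pos hρ0
  have f2 : ∀ᶠ ε : ℝ in 𝓝[>] 0, ε < c0 / 2 :=
    nhdsWithin_le_nhds (eventually_lt_nhds (by positivity))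
  have f3 : ∀ᶠ ε : ℝ in 𝓝[>] 0, 0 < ε := eventually_mem_nhdsWithin
  filter_upwards [f1, f2, f3] with ε h1 h2 hε
  intro B hBm hB hRB g hg hg1 hc
  have h3 := mul_e (R := R) (d := √ε) (ρ0 := ρ0) hε hBm hB hg hg1
  have h4 := h1.2 B hB hRB
  rw [Real.rpow_one] at h4
  set I := ∫⁻ ω, g (cfg ε ω ∩ ovM Bool B) ∂sampleLaw
  set J := ∫⁻ ω, g (cfg ε ω ∩ ovM Bool B) * eF R √ε ρ0 (cfg ε ω ∩ ovM Bool B) ∂sampleLaw
  have h5 : I ≤ J + ENNReal.ofReal (c0 / 2) :=
    h3.trans (add_le_add le_rfl (h4.trans (ENNReal.ofReal_le_ofReal h2.le)))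
  have h6 : ENNReal.ofReal (c0 / 2) ≤ J := by
    have e1 : ENNReal.ofReal c0 = ENNReal.ofReal (c0 / 2) + ENNReal.ofReal (c0 / 2) := by
      rw [← ENNReal.ofReal_add (by positivity) (by positivity), add_halves]
    rw [e1] at hc
    exact (ENNReal.add_le_add_iff_right ENNReal.ofReal_ne_top).1 (hc.trans h5)
  refine ⟨h6, h5.trans ?_⟩
  rw [two_mul]
  exact add_le_add le_rfl h6

end sample

end Crest.Agent.R143.EnvRx795
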