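import Crest.Agent.R143.SSb_930

/-!
# Row 143, RSW without E3, leaf T4 (helper930)

* `Pg.qd` : the quads of a polygon, `fre_qk`
* `epg : EPQ → EPG`
-/

set_option autoImplicit false
set_option linter.unusedSectionVars false

noncomputable section

open scoped Classical

namespace Crest.Agent.R143.EPGx930

open Set
open Crest.Agent.R143.B0x346 Crest.Agent.R143.DelGx806 Crest.Agent.R143.DelRx806
open Crest.Agent.R143.Famx930 Crest.Agent.R143.Halfx930 Crest.Agent.R143.RE0x723
open Crest.Agent.R143.JColx54 Crest.Agent.R143.Crsx117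
open Crest.Agent.R143.Circx63 Crest.Agent.R143.Scalx63 Crest.Agent.R143.SSbx930
open Crest.Agent.R143.RB0x838 (LDns Mesh Cross)
open Crest.Agent.R143.RB2x54 (Vt)
open Crest.Agent.R143.Harx315 (pr)
open Crest.Agent.R143.Locx922 (norm_tri)

/-! ### the quads of a polygon -/

section Pg

variable {S : Finset ℂ} {n : ℕ} {w : ℤ → ℂ} {m : ℕ} {p : ℕ → ℤ} {A : ℕ → Finset ℂ}

theorem mem_un {i l : ℕ} {v : ℂ} : v ∈ un A i l ↔ ∃ j, i ≤ j ∧ j < l ∧ v ∈ A j := by
  unfold un
  rw [Finset.mem_biUnion]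
  constructor
  · rintro ⟨j, h1, h2⟩
    rw [Finset.mem_Ico] at h1
    exact ⟨j, h1.1, h1.2, h2⟩
  · rintro ⟨j, h1, h2, h3⟩
    exact ⟨j, Finset.mem_Ico.2 ⟨h1, h2⟩, h3⟩

theorem pth_mono {V V' : Set ℂ} (h : V ⊆ V') {x y : ℂ} (hp : Pth S V x y) : Pth S V' x y :=
  hp.mono h

theorem pth_trans {V : Set ℂ} {x y z : ℂ} (h : Pth S V x y) (h' : Pth S V y z) : Pth S V x z :=
  h.trans h'

theorem pth_symm {V : Set ℂ} {x y : ℂ} (h : Pth S V x y) : Pth S V y x := h.symm

theorem pth_adj {V : Set ℂ} {x y : ℂ} (hx : x ∈ V) (hy : y ∈ V) (h : Adj S x y) : Pth S V x y :=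
  Pth.single hx h hy

theorem mono_lt (P : Pg S n w m p A) {i j : ℕ} (hij : i < j) (hj : j ≤ m) : p i < p j := by
  induction j with
  | zero => omega
  | succ j ih =>
    have h1 := P.mono j (by omega)
    rcases Nat.lt_succ_iff_lt_or_eq.1 hij with h | h
    · exact (ih h (by omega)).trans h1
    · rw [h]; exact h1

theorem mono_le (P : Pg S n w m p A) {i j : ℕ} (hij : i ≤ j) (hj : j ≤ m) : p i ≤ p j := by
  rcases hij.eq_or_lt with h | h
  · rw [h]
  · exact (mono_lt P h hj).le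

/-- the position in the arcs -/
theorem find (_P : Pg S n w m p A) {i l : ℕ} (hil : i ≤ l) (hl : l ≤ m) {k : ℤ} (h1 : p i < k)
    (h2 : k ≤ p l) : ∃ j, i ≤ j ∧ j < l ∧ p j < k ∧ k ≤ p (j + 1) := by
  induction l with
  | zero =>
    have : i = 0 := by omega
    subst this
    omega
  | succ l ih =>
    rcases le_or_gt k (p l) with h | h
    · rcases Nat.lt_or_ge l i with h3 | h3
      · have : i = l + 1 := by omega
        subst this
        omega
      · obtain ⟨j, a1, a2, a3, a4⟩ := ih h3 (by omega) h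
        exact ⟨j, a1, by omega, a3, a4⟩
    · rcases Nat.lt_or_ge l i with h3 | h3
      · have : i = l + 1 := by omega
        subst this
        omega
      · exact ⟨l, h3, by omega, h, h2⟩

theorem adj_hull {a b : ℂ} (h : hullE S a b) : Adj S a b := Or.inl h.1

/-- a site of every class at the end of its arc -/
theorem last_mem (P : Pg S n w m p A) {j : ℕ} (hj : j < m) : w (p (j + 1)) ∈ A j :=
  P.arc j hj _ (P.mono j hj) le_rfl

theorem first_mem (P : Pg S n w m p A) {j : ℕ} (hj : j ≤ m) : w (p j + 1) ∈ A j := by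
  rcases hj.eq_or_lt with h | h
  · rw [h]
    exact P.arcl _ (by omega) (by have := P.last; omega)
  · have := P.mono j h
    exact P.arc j h _ (by omega) (by omega)

/-- consecutive classes are connected -/
theorem un_con (P : Pg S n w m p A) {i l : ℕ} (hl : l ≤ m + 1) :
    ∀ x ∈ un A i l, ∀ y ∈ un A i l, Pth S (un A i l : Set ℂ) x y := by
  -- every site is joined to the first site of the class `i`
  have key : ∀ j, i ≤ j → j < l → ∀ x ∈ A j, Pth S (un A i l : Set ℂ) (w (p i + 1)) x := by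
    intro j
    induction j with
    | zero =>
      intro h1 h2 x hx
      have h0 : i = 0 := by omega
      have hsub : ((A 0 : Finset ℂ) : Set ℂ) ⊆ (un A i l : Set ℂ) := fun v hv =>
        Finset.mem_coe.2 (mem_un.2 ⟨0, by omega, h2, Finset.mem_coe.1 hv⟩)
      rw [h0] at hsub ⊢
      exact pth_mono hsub (P.con 0 (by omega) _ (first_mem P (by omega)) _ hx)
    | succ j ih =>
      intro h1 h2 x hx
      have hsub : ∀ q, i ≤ q → q < l → ((A q : Finset ℂ) : Set ℂ) ⊆ (un A i l : Set ℂ) :=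
        fun q hq hq' v hv => Finset.mem_coe.2 (mem_un.2 ⟨q, hq, hq', Finset.mem_coe.1 hv⟩)
      rcases Nat.lt_or_ge j i with h3 | h3
      · have h0 : i = j + 1 := by omega
        have hs := hsub (j + 1) h1 h2
        rw [h0] at hs ⊢
        exact pth_mono hs (P.con (j + 1) (by omega) _ (first_mem P (by omega)) _ hx)
      · have a1 := ih h3 (by omega) _ (last_mem P (j := j) (by omega))
        have a2 : Pth S (un A i l : Set ℂ) (w (p (j + 1))) (w (p (j + 1) + 1)) :=
          pth_adj (hsub j h3 (by omega) (Finset.mem_coe.2 (last_mem P (by omega))))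
            (hsub (j + 1) h1 h2 (Finset.mem_coe.2 (first_mem P (by omega))))
            (adj_hull (P.cyc.edge _))
        have a3 : Pth S (un A i l : Set ℂ) (w (p (j + 1) + 1)) x :=
          pth_mono (hsub (j + 1) h1 h2)
            (P.con (j + 1) (by omega) _ (first_mem P (by omega)) _ hx)
        exact pth_trans a1 (pth_trans a2 a3)
  intro x hx y hy
  obtain ⟨j, a1, a2, a3⟩ := mem_un.1 hx
  obtain ⟨j', b1, b2, b3⟩ := mem_un.1 hy
  exact pth_trans (pth_symm (key j a1 a2 x a3)) (key j' b1 b2 y b3)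

theorem z4 (i : ZMod 4) : i = 0 ∨ i = 1 ∨ i = 2 ∨ i = 3 := by revert i; decide

theorem qk0 {i j l : ℕ} : qk A m i j l 0 = un A 0 i := rfl
theorem qk1 {i j l : ℕ} : qk A m i j l 1 = un A i j := rfl
theorem qk2 {i j l : ℕ} : qk A m i j l 2 = un A j l := rfl
theorem qk3 {i j l : ℕ} : qk A m i j l 3 = un A l (m + 1) := rfl

/-- **the quads of a polygon** -/
theorem qd (P : Pg S n w m p A) {i j l : ℕ} (h0 : 0 < i) (h1 : i < j) (h2 : j < l) (h3 : l ≤ m) :
    Qd S n w (p 0) (p i) (p j) (p l) (qk A m i j l) where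
  gp := P.gp
  m4 := ⟨P.cyc, mono_lt P h0 (by omega), mono_lt P h1 (by omega), mono_lt P h2 h3, by
    have := mono_le P h3 le_rfl
    have := P.last
    omega⟩
  sub := by
    have key : ∀ i l, l ≤ m + 1 → un A i l ⊆ S := by
      intro i l hl v hv
      obtain ⟨q, -, a2, a3⟩ := mem_un.1 hv
      exact P.sub q (by omega) a3
    intro c
    rcases z4 c with rfl | rfl | rfl | rfl
    · exact key _ _ (by omega)
    · exact key _ _ (by omega)
    · exact key _ _ (by omega)
    · exact key _ _ (by omega)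
  disj := by
    have key : ∀ i l i' l', l ≤ m + 1 → l' ≤ m + 1 → l ≤ i' → Disjoint (un A i l) (un A i' l') := by
      intro i l i' l' hl hl' hli
      rw [Finset.disjoint_left]
      intro v hv hv'
      obtain ⟨q, a1, a2, a3⟩ := mem_un.1 hv
      obtain ⟨q', b1, b2, b3⟩ := mem_un.1 hv'
      exact Finset.disjoint_left.1 (P.disj q q' (by omega) (by omega) (by omega)) a3 b3
    intro c c' hcc
    rcases z4 c with rfl | rfl | rfl | rfl <;> rcases z4 c' with rfl | rfl | rfl | rfl <;>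
      first
      | exact absurd rfl hcc
      | exact key _ _ _ _ (by omega) (by omega) (by omega)
      | exact (key _ _ _ _ (by omega) (by omega) (by omega)).symm
  con := by
    intro c
    rcases z4 c with rfl | rfl | rfl | rfl
    · exact un_con P (by omega)
    · exact un_con P (by omega)
    · exact un_con P (by omega)
    · exact un_con P (by omega)
  a0 k ha hb := by
    obtain ⟨q, a1, a2, a3, a4⟩ := find P (Nat.zero_le _) (by omega) ha hb
    exact mem_un.2 ⟨q, a1, a2, P.arc q (by omega) k a3 a4⟩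
  a1 k ha hb := by
    obtain ⟨q, a1, a2, a3, a4⟩ := find P h1.le (by omega) ha hb
    exact mem_un.2 ⟨q, a1, a2, P.arc q (by omega) k a3 a4⟩
  a2 k ha hb := by
    obtain ⟨q, a1, a2, a3, a4⟩ := find P h2.le (by omega) ha hb
    exact mem_un.2 ⟨q, a1, a2, P.arc q (by omega) k a3 a4⟩
  a3 k ha hb := by
    rcases le_or_gt k (p m) with h | h
    · obtain ⟨q, a1, a2, a3, a4⟩ := find P h3 le_rfl ha h
      exact mem_un.2 ⟨q, a1, by omega, P.arc q a2 k a3 a4⟩
    · exact mem_un.2 ⟨m, by omega, by omega, P.arcl k h hb⟩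

/-- the free sites -/
theorem fre_qk {i j l : ℕ} (h1 : i ≤ j) (h2 : j ≤ l) (h3 : l ≤ m + 1) :
    fre S (qk A m i j l) = inr S A m := by
  ext v
  unfold fre inr
  rw [Finset.mem_filter, Finset.mem_sdiff]
  refine and_congr_right fun _ => ⟨fun h hv => ?_, fun h c hc => ?_⟩
  · obtain ⟨q, -, a2, a3⟩ := mem_un.1 hv
    rcases Nat.lt_or_ge q i with g | g
    · exact h 0 (mem_un.2 ⟨q, by omega, g, a3⟩)
    rcases Nat.lt_or_ge q j with g' | g'
    · exact h 1 (mem_un.2 ⟨q, g, g', a3⟩)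
    rcases Nat.lt_or_ge q l with g'' | g''
    · exact h 2 (mem_un.2 ⟨q, g', g'', a3⟩)
    · exact h 3 (mem_un.2 ⟨q, g'', a2, a3⟩)
  · apply h
    have key : ∀ i' l', l' ≤ m + 1 → v ∈ un A i' l' → v ∈ un A 0 (m + 1) := by
      intro i' l' hl' hv
      obtain ⟨q, -, a2, a3⟩ := mem_un.1 hv
      exact mem_un.2 ⟨q, by omega, by omega, a3⟩
    rcases z4 c with rfl | rfl | rfl | rfl
    · exact key _ _ (by omega) hc
    · exact key _ _ (by omega) hc
    · exact key _ _ (by omega) hc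
    · exact key _ _ (by omega) hc

end Pg

/-! ### the arcs -/

section Geo

variable {S : Finset ℂ} {z0 u : ℂ} {a b k d : ℝ} {K n N : ℕ} {w : ℤ → ℂ} {p : ℕ → ℤ}
  {A : ℕ → Finset ℂ}

/-- the centre of the arcs -/
def ctr (z0 u : ℂ) (K : ℕ) (a b : ℝ) (i : ℕ) : ℂ :=
  z0 + u * (((xj K a b i : ℝ) : ℂ) + ((-(b / 2) : ℝ) : ℂ) * Complex.I)

theorem u_exp (hu : ‖u‖ = 1) : Complex.exp ((Complex.arg u : ℂ) * Complex.I) = u := by
  have := Complex.norm_mul_exp_arg_mul_I u
  rwa [hu, Complex.ofReal_one, one_mul] at this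

/-- points of the arcs in the frame -/
theorem arc_pt (H : SH S z0 u a b k d) {i : ℕ} {ρ : ℝ} {y : ℂ}
    (hy : y ∈ arc (ctr z0 u K a b i) (Complex.arg u - Real.pi / 6) (Complex.arg u + 7 * Real.pi / 6) ρ) :
    ∃ θ : ℝ, -(Real.pi / 6) ≤ θ ∧ θ ≤ 7 * Real.pi / 6 ∧
      X z0 u y = xj K a b i + ρ * Real.cos θ ∧ Y z0 u y = -(b / 2) + ρ * Real.sin θ := by
  obtain ⟨α, ⟨h1, h2⟩, rfl⟩ := hy
  refine ⟨α - Complex.arg u, by linarith, by linarith, ?_⟩
  have e : ((ctr z0 u K a b i + (ρ : ℂ) * Complex.exp ((α : ℂ) * Complex.I)) - z0) / u =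
      (((xj K a b i : ℝ) : ℂ) + ((-(b / 2) : ℝ) : ℂ) * Complex.I) +
        (ρ : ℂ) * Complex.exp (((α - Complex.arg u : ℝ) : ℂ) * Complex.I) := by
    have h3 : Complex.exp ((α : ℂ) * Complex.I) =
        u * Complex.exp (((α - Complex.arg u : ℝ) : ℂ) * Complex.I) := by
      calc Complex.exp ((α : ℂ) * Complex.I)
          = Complex.exp ((Complex.arg u : ℂ) * Complex.I) *
            Complex.exp (((α - Complex.arg u : ℝ) : ℂ) * Complex.I) := by
            rw [← Complex.exp_add]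
            congr 1
            push_cast
            ring
        _ = u * Complex.exp (((α - Complex.arg u : ℝ) : ℂ) * Complex.I) := by rw [u_exp H.u1]
    rw [h3]
    unfold ctr
    have hu := H.u0
    field_simp
    ring
  unfold X Y
  simp only
  rw [e]
  constructor
  · rw [Complex.add_re, Complex.add_re, Complex.ofReal_re, Complex.re_ofReal_mul, Complex.I_re,
      Complex.re_ofReal_mul, Complex.exp_ofReal_mul_I_re]
    ring
  · rw [Complex.add_im, Complex.add_im, Complex.ofReal_im, Complex.im_ofReal_mul, Complex.I_im,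
      Complex.im_ofReal_mul, Complex.exp_ofReal_mul_I_im]
    ring

/-- every angle in the range gives a point -/
theorem pt_arc (H : SH S z0 u a b k d) (i : ℕ) (ρ : ℝ) {θ : ℝ} (h1 : -(Real.pi / 6) ≤ θ)
    (h2 : θ ≤ 7 * Real.pi / 6) :
    ∃ y ∈ arc (ctr z0 u K a b i) (Complex.arg u - Real.pi / 6) (Complex.arg u + 7 * Real.pi / 6) ρ,
      X z0 u y = xj K a b i + ρ * Real.cos θ ∧ Y z0 u y = -(b / 2) + ρ * Real.sin θ := by
  refine ⟨_, ⟨Complex.arg u + θ, ⟨by linarith, by linarith⟩, rfl⟩, ?_⟩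
  have e : ((ctr z0 u K a b i + (ρ : ℂ) * Complex.exp (((Complex.arg u + θ : ℝ) : ℂ) * Complex.I)) -
      z0) / u = (((xj K a b i : ℝ) : ℂ) + ((-(b / 2) : ℝ) : ℂ) * Complex.I) +
        (ρ : ℂ) * Complex.exp ((θ : ℂ) * Complex.I) := by
    have h3 : Complex.exp (((Complex.arg u + θ : ℝ) : ℂ) * Complex.I) =
        u * Complex.exp ((θ : ℂ) * Complex.I) := by
      calc Complex.exp (((Complex.arg u + θ : ℝ) : ℂ) * Complex.I)
          = Complex.exp ((Complex.arg u : ℂ) * Complex.I) *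
            Complex.exp ((θ : ℂ) * Complex.I) := by
            rw [← Complex.exp_add]
            congr 1
            push_cast
            ring
        _ = u * Complex.exp ((θ : ℂ) * Complex.I) := by rw [u_exp H.u1]
    rw [h3]
    unfold ctr
    have hu := H.u0
    field_simp
    ring
  unfold X Y
  simp only
  rw [e]
  constructor
  · rw [Complex.add_re, Complex.add_re, Complex.ofReal_re, Complex.re_ofReal_mul, Complex.I_re,
      Complex.re_ofReal_mul, Complex.exp_ofReal_mul_I_re]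
    ring
  · rw [Complex.add_im, Complex.add_im, Complex.ofReal_im, Complex.im_ofReal_mul, Complex.I_im,
      Complex.im_ofReal_mul, Complex.exp_ofReal_mul_I_im]
    ring

theorem sin_ge {θ : ℝ} (h1 : -(Real.pi / 6) ≤ θ) (h2 : θ ≤ 7 * Real.pi / 6) :
    -(1 / 2) ≤ Real.sin θ := by
  have hpi := Real.pi_pos
  have h6 : Real.sin (-(Real.pi / 6)) = -(1 / 2) := by
    rw [Real.sin_neg, Real.sin_pi_div_six]
  rcases le_total θ (Real.pi / 2) with h | h
  · rw [← h6]
    exact Real.sin_le_sin_of_le_of_le_pi_div_two (by linarith) h h1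
  · rw [← h6, ← Real.sin_pi_sub θ]
    exact Real.sin_le_sin_of_le_of_le_pi_div_two (by linarith) (by linarith) (by linarith)

theorem hh_pos (hb : 0 < b) : 0 < hh K b := by
  unfold hh MM
  positivity

theorem hh_K (hb : 0 < b) : (4 : ℝ) ^ K * hh K b < b / 8 := by
  unfold hh MM
  push_cast
  rw [mul_div_assoc', div_lt_div_iff₀ (by positivity) (by norm_num)]
  nlinarith [pow_pos (show (0 : ℝ) < 4 by norm_num) K]

theorem xj_mono {i j : ℕ} (hb : 0 < b) (h : i ≤ j) : xj K a b i ≤ xj K a b j := by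
  unfold xj
  have h1 : (i : ℝ) ≤ j := by exact_mod_cast h
  have := hh_pos (K := K) hb
  nlinarith

theorem xj_succ (i : ℕ) : xj K a b (i + 1) = xj K a b i + hh K b := by
  unfold xj
  push_cast
  ring

/-- the arcs are deep -/
theorem arc_deep (H : SH S z0 u a b k d) (G : Geo S z0 u a b k K n w N p A) {i : ℕ} (hi : 1 ≤ i)
    (hiN : i ≤ N) {ρ : ℝ} (hρ0 : 0 ≤ ρ) (hρ : ρ ≤ b / 8) {y : ℂ}
    (hy : y ∈ arc (ctr z0 u K a b i) (Complex.arg u - Real.pi / 6) (Complex.arg u + 7 * Real.pi / 6) ρ) :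
    ‖y - cc z0 u k a b‖ ≤ RR k a b - 4 * d := by
  obtain ⟨θ, h1, h2, hX, hY⟩ := arc_pt H hy
  have ha := H.ha
  have hb := H.hb
  have hs := sin_ge h1 h2
  have hs1 := Real.sin_le_one θ
  have hc1 := Real.cos_le_one θ
  have hc2 := Real.neg_one_le_cos θ
  have x1 : xj K a b 1 ≤ xj K a b i := xj_mono hb hi
  have x2 : xj K a b i ≤ xj K a b (N + 1) := xj_mono hb (by omega)
  have x3 : xj K a b 1 = -(a + b / 4) := by unfold xj; push_cast; ring
  have x4 := G.nok.xr
  apply H.deep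
  · rw [hX, abs_le]
    constructor <;> nlinarith
  · rw [hY]; nlinarith
  · rw [hY]; nlinarith

/-- the classes of the corners -/
theorem arc_cls (H : SH S z0 u a b k d) (G : Geo S z0 u a b k K n w N p A)
    (hdh : 100 * d ≤ hh K b) {i : ℕ} (hi : 1 ≤ i)
    (hiN : i ≤ N) {ρ : ℝ} (hρ : 2 * hh K b ≤ ρ) (hρ' : ρ ≤ b / 8) {y v : ℂ}
    (hy : y ∈ arc (ctr z0 u K a b i) (Complex.arg u - Real.pi / 6) (Complex.arg u + 7 * Real.pi / 6) ρ)
    (hv : ‖v - y‖ < 2 * d) {j : ℕ} (hj : j ≤ N + 2) (hvj : v ∈ A j) : j < i ∨ i < j ∧ j < N + 2 := by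
  obtain ⟨θ, h1, h2, hX, hY⟩ := arc_pt H hy
  have ha := H.ha
  have hb := H.hb
  have hd := H.dp
  have hdb := H.d_b
  have hh0 := hh_pos (K := K) hb
  have hXd := abs_le.1 (H.X_diff v y)
  have hYd := abs_le.1 (H.Y_diff v y)
  have hs := sin_ge h1 h2
  have hs1 := Real.sin_le_one θ
  rcases lt_trichotomy j i with h | h | h
  · exact Or.inl h
  · exfalso
    subst h
    obtain ⟨g1, g2, g3⟩ := G.loc j hi hiN v hvj
    rw [xj_succ] at g2
    have hρ0 : 0 < ρ := by linarith
    have k1 : ρ * Real.sin θ < 2 * d := by linarith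
    have k2 : Real.sin θ ≤ 1 / 2 := by
      by_contra hcon
      push Not at hcon
      nlinarith
    have k3 : Real.sin θ ^ 2 ≤ 1 / 4 := by
      have : |Real.sin θ| ≤ 1 / 2 := abs_le.2 ⟨by linarith, k2⟩
      have := pow_le_pow_left₀ (abs_nonneg _) this 2
      rw [sq_abs] at this
      norm_num at this ⊢
      exact this
    have k4 := Real.sin_sq_add_cos_sq θ
    have k5 : (ρ * Real.cos θ) ^ 2 ≥ 3 / 4 * ρ ^ 2 := by
      rw [mul_pow]
      nlinarith [sq_nonneg ρ]
    have k6 : |ρ * Real.cos θ| ≤ 12 / 10 * hh K b := by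
      rw [abs_le]
      constructor <;> linarith
    have k7 := pow_le_pow_left₀ (abs_nonneg _) k6 2
    rw [sq_abs] at k7
    nlinarith
  · refine Or.inr ⟨h, ?_⟩
    rcases Nat.lt_or_ge j (N + 2) with g | g
    · exact g
    · exfalso
      have : j = N + 2 := by omega
      subst this
      have g1 := G.locT v hvj
      have : ρ * Real.sin θ ≤ ρ := by nlinarith
      linarith

theorem cos_76 : Real.cos (7 * Real.pi / 6) = -(Real.sqrt 3 / 2) ∧
    Real.sin (7 * Real.pi / 6) = -(1 / 2) := by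
  have e : 7 * Real.pi / 6 = Real.pi / 6 + Real.pi := by ring
  rw [e, Real.cos_add_pi, Real.sin_add_pi, Real.cos_pi_div_six, Real.sin_pi_div_six]
  exact ⟨rfl, rfl⟩

theorem sqrt3 : 17 / 10 ≤ Real.sqrt 3 := by
  apply Real.le_sqrt_of_sq_le
  norm_num

/-- the left end -/
theorem arc_left (H : SH S z0 u a b k d) (G : Geo S z0 u a b k K n w N p A)
    (hdh : 100 * d ≤ hh K b) {i : ℕ} (hi : 1 ≤ i)
    (hiN : i ≤ N) {ρ : ℝ} (hρ : 2 * hh K b ≤ ρ) (hρ' : ρ ≤ b / 8) :
    ∃ t ∈ delT (SS S z0 u k a b), (cT t ∩ arc (ctr z0 u K a b i) (Complex.arg u - Real.pi / 6)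
      (Complex.arg u + 7 * Real.pi / 6) ρ).Nonempty ∧ ∃ v, Vt t v ∧ v ∈ un A 0 i := by
  have ha := H.ha
  have hb := H.hb
  have hd := H.dp
  have hh0 := hh_pos (K := K) hb
  have hpi := Real.pi_pos
  obtain ⟨y, hy, hX, hY⟩ := pt_arc H (K := K) i ρ (θ := 7 * Real.pi / 6) (by linarith) le_rfl
  rw [cos_76.1] at hX
  rw [cos_76.2] at hY
  have hdeep := arc_deep H G hi hiN (by linarith) hρ' hy
  obtain ⟨t, ht, hyt⟩ := H.cover (p := y) (by linarith)
  have hvt := H.vt ht hyt (by linarith) (v := t.1) (Or.inl rfl)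
  have hXd := abs_le.1 (H.X_diff t.1 y)
  have hYd := abs_le.1 (H.Y_diff t.1 y)
  have h3 := sqrt3
  refine ⟨t, ht, ⟨y, hyt, hy⟩, t.1, Or.inl rfl, ?_⟩
  obtain ⟨j, hj, hvj⟩ := (G.outer t.1 hvt.2).2 (Or.inr (Or.inr (Or.inr (by linarith))))
  rcases arc_cls H G hdh hi hiN hρ hρ' hy hvt.1 hj hvj with h | ⟨h, h'⟩
  · exact mem_un.2 ⟨j, Nat.zero_le _, h, hvj⟩
  · exfalso
    have k1 : X z0 u t.1 ≤ xj K a b i - 16 / 10 * hh K b := by nlinarith
    rcases Nat.lt_or_ge j (N + 1) with g | g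
    · obtain ⟨g1, -, -⟩ := G.loc j (by omega) (by omega) _ hvj
      have := xj_mono (K := K) (a := a) hb h.le
      linarith
    · have : j = N + 1 := by omega
      subst this
      have g1 := G.locN _ hvj
      have := xj_mono (K := K) (a := a) hb h.le
      linarith

/-- the right end -/
theorem arc_right (H : SH S z0 u a b k d) (G : Geo S z0 u a b k K n w N p A)
    (hdh : 100 * d ≤ hh K b) {i : ℕ} (hi : 1 ≤ i)
    (hiN : i ≤ N) {ρ : ℝ} (hρ : 2 * hh K b ≤ ρ) (hρ' : ρ ≤ b / 8) :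
    ∃ t ∈ delT (SS S z0 u k a b), (cT t ∩ arc (ctr z0 u K a b i) (Complex.arg u - Real.pi / 6)
      (Complex.arg u + 7 * Real.pi / 6) ρ).Nonempty ∧ ∃ v, Vt t v ∧ v ∈ un A (i + 1) (N + 2) := by
  have ha := H.ha
  have hb := H.hb
  have hd := H.dp
  have hh0 := hh_pos (K := K) hb
  have hpi := Real.pi_pos
  obtain ⟨y, hy, hX, hY⟩ := pt_arc H (K := K) i ρ (θ := -(Real.pi / 6)) le_rfl (by linarith)
  rw [Real.cos_neg, Real.cos_pi_div_six] at hX
  rw [Real.sin_neg, Real.sin_pi_div_six] at hY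
  have hdeep := arc_deep H G hi hiN (by linarith) hρ' hy
  obtain ⟨t, ht, hyt⟩ := H.cover (p := y) (by linarith)
  have hvt := H.vt ht hyt (by linarith) (v := t.1) (Or.inl rfl)
  have hXd := abs_le.1 (H.X_diff t.1 y)
  have hYd := abs_le.1 (H.Y_diff t.1 y)
  have h3 := sqrt3
  refine ⟨t, ht, ⟨y, hyt, hy⟩, t.1, Or.inl rfl, ?_⟩
  obtain ⟨j, hj, hvj⟩ := (G.outer t.1 hvt.2).2 (Or.inr (Or.inr (Or.inr (by linarith))))
  rcases arc_cls H G hdh hi hiN hρ hρ' hy hvt.1 hj hvj with h | ⟨h, h'⟩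
  · exfalso
    have k1 : xj K a b i + 16 / 10 * hh K b ≤ X z0 u t.1 := by nlinarith
    rcases Nat.eq_zero_or_pos j with g | g
    · subst g
      have g1 := G.loc0 _ hvj
      have := xj_mono (K := K) (a := a) hb hi
      linarith
    · obtain ⟨-, g2, -⟩ := G.loc j (by omega) (by omega) _ hvj
      have := xj_mono (K := K) (a := a) hb (show j + 1 ≤ i by omega)
      linarith
  · exact mem_un.2 ⟨j, by omega, h', hvj⟩

/-- the balls around the centre are deep -/
theorem ctr_deep (H : SH S z0 u a b k d) (G : Geo S z0 u a b k K n w N p A) {i : ℕ} (hi : 1 ≤ i)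
    (hiN : i ≤ N) : ‖ctr z0 u K a b i - cc z0 u k a b‖ + b / 8 ≤ RR k a b - 2 * d := by
  have hk := H.k1
  have ha := H.ha
  have hb := H.hb
  have hR := H.Rb
  have hd := H.dp
  have hsm := H.sm
  have hdb := H.d_b
  have x1 : xj K a b 1 ≤ xj K a b i := xj_mono hb hi
  have x2 : xj K a b i ≤ xj K a b (N + 1) := xj_mono hb (by omega)
  have x3 : xj K a b 1 = -(a + b / 4) := by unfold xj; push_cast; ring
  have x4 := G.nok.xr
  have hXc : X z0 u (ctr z0 u K a b i) = xj K a b i := by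
    unfold X ctr
    rw [add_sub_cancel_left, mul_div_cancel_left₀ _ H.u0, Complex.add_re, Complex.ofReal_re,
      Complex.re_ofReal_mul, Complex.I_re]
    ring
  have hYc : Y z0 u (ctr z0 u K a b i) = -(b / 2) := by
    unfold Y ctr
    rw [add_sub_cancel_left, mul_div_cancel_left₀ _ H.u0, Complex.add_im, Complex.ofReal_im,
      Complex.im_ofReal_mul, Complex.I_im]
    ring
  have key : ‖ctr z0 u K a b i - cc z0 u k a b‖ ≤ RR k a b - b / 8 - 2 * d := by
    rw [← abs_of_nonneg (norm_nonneg (ctr z0 u K a b i - cc z0 u k a b)),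
      ← abs_of_nonneg (show 0 ≤ RR k a b - b / 8 - 2 * d by linarith), ← sq_le_sq, H.norm_sq, hXc,
      hYc]
    have h1 : xj K a b i ^ 2 ≤ (a + b) ^ 2 := by
      rw [sq_le_sq, abs_of_nonneg (show 0 ≤ a + b by linarith), abs_le]
      constructor <;> linarith
    have hRe : RR k a b = 8 * ((1 + k) * (a + b)) := by unfold RR; ring
    have h3 : a + b ≤ (1 + k) * b := by linarith [H.ab]
    have h4 : (a + b) * (a + b) ≤ (1 + k) * (a + b) * b := by nlinarith
    have h5 : d * RR k a b * 100 ≤ 8 * (b * (a + b)) := by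
      rw [hRe]; nlinarith
    have h6 : b * b ≤ b * (a + b) := by nlinarith
    have h7 : b * (a + b) ≤ (a + b) * (a + b) := by nlinarith
    have h8 : RR k a b * b = 8 * ((1 + k) * (a + b) * b) := by rw [hRe]; ring
    nlinarith
  linarith

end Geo

/-- **T4** -/
theorem epg (hE : EPQ) : EPG := by
  intro k C4 hk hC4
  obtain ⟨K, hK⟩ := exists_nat_ge (96 * C4 + 1)
  have hK0 : 0 < K := by
    rcases Nat.eq_zero_or_pos K with h | h
    · subst h; norm_num at hK; linarith
    · exact h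
  have hMp : (0 : ℝ) < MM K := by unfold MM; push_cast; positivity
  refine ⟨K, hK0, 1 / (800 * MM K * (1 + k)), by positivity, 1 / (4 * MM K), by positivity, ?_, ?_⟩
  · rw [div_le_one (by positivity)]
    unfold MM
    push_cast
    have : (0 : ℝ) < 4 ^ K := by positivity
    linarith
  intro S z0 u a b d hu ha hb hab hba hL hd hM n w N p A G i hi hiN
  have hdp := hL.dpos
  have hM1 : (1 : ℝ) ≤ MM K := by
    unfold MM
    push_cast
    have : (0 : ℝ) < 4 ^ K := by positivity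
    linarith
  have hdd : 800 * MM K * (1 + k) * d ≤ b := by
    rw [one_div, inv_mul_eq_div, le_div_iff₀ (by positivity)] at hd
    linarith
  have H : SH S z0 u a b k d := ⟨hk, hu, ha, hb, hab, hba, hL, by nlinarith [mul_pos (show (0 : ℝ) < 1 + k by linarith) hdp]⟩
  have hdh : 100 * d ≤ hh K b := by
    unfold hh
    rw [le_div_iff₀ (by positivity)]
    have : 0 ≤ 800 * (MM K : ℝ) * d := by positivity
    nlinarith
  have hh0 := hh_pos (K := K) hb
  have hhK := hh_K (K := K) hb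
  have h4 : (4 : ℝ) ≤ 4 ^ K := by
    calc (4 : ℝ) = 4 ^ 1 := by norm_num
      _ ≤ 4 ^ K := pow_le_pow_right₀ (by norm_num) hK0
  have hQ := qd G.pg (i := i) (j := i + 1) (l := N + 2) (by omega) (by omega) (by omega) le_rfl
  have hfre : fre (SS S z0 u k a b) (qk A (N + 2) i (i + 1) (N + 2)) =
      inr (SS S z0 u k a b) A (N + 2) := fre_qk (by omega) (by omega) (by omega)
  rw [← hfre]
  have hr2 : 2 * (2 * hh K b) ≤ 4 ^ K * hh K b := by nlinarith
  refine hE _ n w _ _ _ _ _ hQ (ctr z0 u K a b i) (Complex.arg u - Real.pi / 6)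
    (Complex.arg u + 7 * Real.pi / 6) (2 * hh K b) (4 ^ K * hh K b) (4 ^ K * hh K b) C4
    (by positivity) hr2 le_rfl ?_ ?_ ?_ ?_ ?_ ?_
  · have e : 4 ^ K * hh K b / (2 * hh K b) = 4 ^ K / 2 := by
      field_simp
    rw [e, Real.log_div (by positivity) (by norm_num), Real.log_pow]
    have h5 : Real.log 4 = 2 * Real.log 2 := by
      rw [show (4 : ℝ) = 2 ^ 2 by norm_num, Real.log_pow]
      push_cast
      ring
    have h6 := Real.log_two_gt_d9
    have h7 := Real.log_two_lt_d9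
    rw [h5]
    nlinarith
  · intro ρ hρ y hy
    have := arc_deep H G hi hiN (by linarith [hρ.1]) (by linarith [hρ.2]) hy
    exact H.cover (by linarith)
  · rintro ρ hρ t ht ⟨y, hyt, hy⟩ v hv
    have hdeep := arc_deep H G hi hiN (by linarith [hρ.1]) (by linarith [hρ.2]) hy
    obtain ⟨h1, h2⟩ := H.vt ht hyt (by linarith) hv
    by_cases hc : ∃ j, j ≤ N + 2 ∧ v ∈ A j
    · obtain ⟨j, hj, hvj⟩ := hc
      rcases arc_cls H G hdh hi hiN hρ.1 (by linarith [hρ.2]) hy h1 hj hvj with h | ⟨h, h'⟩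
      · exact Or.inl (mem_un.2 ⟨j, Nat.zero_le _, h, hvj⟩)
      · exact Or.inr (Or.inl (mem_un.2 ⟨j, by omega, h', hvj⟩))
    · refine Or.inr (Or.inr ?_)
      rw [hfre]
      unfold inr
      rw [Finset.mem_sdiff]
      refine ⟨h2, fun hv' => ?_⟩
      obtain ⟨j, -, a2, a3⟩ := mem_un.1 hv'
      exact hc ⟨j, by omega, a3⟩
  · intro ρ hρ
    exact arc_left H G hdh hi hiN hρ.1 (by linarith [hρ.2])
  · intro ρ hρ
    exact arc_right H G hdh hi hiN hρ.1 (by linarith [hρ.2])
  · intro b' hb'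
    have hc2 : 1 / (4 * (MM K : ℝ)) * b = 2 * hh K b := by
      unfold hh
      field_simp
      ring
    apply H.mesh (hM b' (by rw [hc2]; exact hb'.1) (by linarith [hb'.2]))
    · have := ctr_deep H G hi hiN
      linarith [hb'.2]
    · linarith [hb'.1]

end Crest.Agent.R143.EPGx930
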