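import Crest.Agent.R143.Fam_930

/-!
# Row 143 (S0194), leaf T4 (arcs with logarithmic weights), generic part (helper930)

* `circ_fam` : curves `C h` inside the circles of radius `exp h` around `x` : a finite family of
  curves with `cw t ≤ dm t / ((β - α) * max (exp α) (lo x t))`
* `circ_sq` : the sum of the squares is `≤ C * #scales / (β - α) ^ 2`
* `fst` : the arc from the angle `φ` to the first point in a compact set
* `hit_of_chain` : a chain of Delaunay edges meets the circles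
-/

set_option autoImplicit false

noncomputable section

namespace Crest.Agent.R143.Halfx930

open Set MeasureTheory
open scoped Classical
open Crest.Agent.R143.B0x346 Crest.Agent.R143.Oscx63 Crest.Agent.R143.DelGx806
open Crest.Agent.R143.Circx63 Crest.Agent.R143.Scalx63 Crest.Agent.R143.Rswx63
open Crest.Agent.R143.Famx930

/-! ### the family -/

theorem log_sub_le {m s s' : ℝ} (hm : 0 < m) (hs : m ≤ s) (hs' : m ≤ s') :
    Real.log s - Real.log s' ≤ |s - s'| / m := by
  have h1 : 0 < s := hm.trans_le hs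
  have h2 : 0 < s' := hm.trans_le hs'
  rw [← Real.log_div h1.ne' h2.ne']
  have h3 := Real.log_le_sub_one_of_pos (div_pos h1 h2)
  refine h3.trans ?_
  have h4 : s / s' - 1 = (s - s') / s' := by field_simp
  rw [h4]
  calc (s - s') / s' ≤ |s - s'| / s' := div_le_div_of_nonneg_right (le_abs_self _) h2.le
    _ ≤ |s - s'| / m := div_le_div_of_nonneg_left (abs_nonneg _) hm hs'

variable {S : Finset ℂ} {U : Finset (ℂ × ℂ × ℂ)} {x : ℂ} {C : ℝ → Set ℂ} {α β : ℝ}

/-- curves on concentric circles, with the logarithm of the radius as a parameter -/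
theorem circ_fam (U : Finset (ℂ × ℂ × ℂ)) (hUS : U ⊆ delT S) (x : ℂ) (C : ℝ → Set ℂ)
    (hαβ : α < β) (hC : ∀ h ∈ Icc α β, ∀ y ∈ C h, ‖y - x‖ = Real.exp h) :
    ∃ J lam p, GFam U S C α β J lam p ∧
      ∀ t ∈ U, cw J lam (fun s => s) t ≤ dm t / ((β - α) * max (Real.exp α) (lo x t)) := by
  have key : ∃ J lam p, GFam U S C α β J lam p ∧
      ∀ t ∈ U, cw J lam (fun s => s) t ≤ dm t / max (Real.exp α) (lo x t) / (β - α) := by
    apply gfam U S C (fun t => dm t / max (Real.exp α) (lo x t)) hαβ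
      (fun t _ => div_nonneg (dm_nonneg t) (le_max_of_le_left (Real.exp_pos _).le))
    rotate_left
    · intro y _
      apply Set.Subsingleton.countable
      rintro h ⟨hy, hh⟩ h' ⟨hy', hh'⟩
      have e1 := hC h hh y hy
      have e2 := hC h' hh' y hy'
      exact Real.exp_injective (e1.symm.trans e2)
    rintro t ht h hh h' hh' ⟨y, hy, hyC⟩ ⟨y', hy', hyC'⟩
    have e1 := hC h hh y hyC
    have e2 := hC h' hh' y' hyC'
    have l1 := lo_le (x := x) hy
    have l2 := lo_le (x := x) hy'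
    rw [e1] at l1
    rw [e2] at l2
    have hm : 0 < max (Real.exp α) (lo x t) := lt_max_of_lt_left (Real.exp_pos _)
    have m1 : max (Real.exp α) (lo x t) ≤ Real.exp h := max_le (Real.exp_le_exp.2 hh.1) l1
    have m2 : max (Real.exp α) (lo x t) ≤ Real.exp h' := max_le (Real.exp_le_exp.2 hh'.1) l2
    have h3 := log_sub_le hm m1 m2
    rw [Real.log_exp, Real.log_exp] at h3
    refine h3.trans (div_le_div_of_nonneg_right ?_ hm.le)
    rw [← e1, ← e2]
    have h4 := abs_norm_sub_norm_le (y - x) (y' - x)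
    rw [sub_sub_sub_cancel_right] at h4
    exact h4.trans (dist_le_dm (hUS ht) hy hy')
  obtain ⟨J, lam, p, h1, h2⟩ := key
  refine ⟨J, lam, p, h1, fun t ht => (h2 t ht).trans (le_of_eq ?_)⟩
  rw [div_div, mul_comm]

theorem circ_meet (hUS : U ⊆ delT S) (hC : ∀ h ∈ Icc α β, ∀ y ∈ C h, ‖y - x‖ = Real.exp h)
    {h : ℝ} (hh : h ∈ Icc α β) {t : ℂ × ℂ × ℂ} (ht : t ∈ U) (hm : (cT t ∩ C h).Nonempty) :
    lo x t ≤ Real.exp h ∧ Real.exp h ≤ hi x t := by
  obtain ⟨y, hy, hyC⟩ := hm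
  have h1 := lo_le (x := x) hy
  obtain ⟨o, hT⟩ := mem_delT_iff.1 (show (t.1, t.2.1, t.2.2) ∈ delT S from hUS ht)
  have h2 := le_hi (x := x) hT.pos hy
  rw [hC h hh y hyC] at h1 h2
  exact ⟨h1, h2⟩

/-- the sum of the squares -/
theorem circ_sq (hUS : U ⊆ delT S) (hαβ : α < β) {D : ℝ} {k0 k1 : ℤ}
    (hC : ∀ h ∈ Icc α β, ∀ y ∈ C h, ‖y - x‖ = Real.exp h)
    (h0 : (2 : ℝ) ^ k0 ≤ Real.exp α) (h1 : Real.exp β ≤ (2 : ℝ) ^ k1) {J lam p}
    (h : GFam U S C α β J lam p)
    (hcw : ∀ t ∈ U, cw J lam (fun s => s) t ≤ dm t / ((β - α) * max (Real.exp α) (lo x t)))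
    (hM : ∀ k ∈ Finset.Icc k0 k1,
      ∑ t ∈ U.filter (fun t => lo x t ≤ (2 : ℝ) ^ (k + 1) ∧ lo x t ≤ Real.exp β),
        dm t ^ 2 ≤ D * (4 : ℝ) ^ k) :
    ∑ t ∈ U, cw J lam (fun s => s) t ^ 2 ≤ D * (k1 - k0 + 1) / (β - α) ^ 2 := by
  have hL : 0 < β - α := sub_pos.2 hαβ
  have hk : k0 ≤ k1 := by
    by_contra hcon
    push Not at hcon
    have h5 : (2 : ℝ) ^ k1 < (2 : ℝ) ^ k0 := zpow_lt_zpow_right₀ (by norm_num) hcon
    have h6 := Real.exp_lt_exp.2 hαβ
    linarith
  set B : ℤ → Finset (ℂ × ℂ × ℂ) := fun k =>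
    U.filter (fun t => lo x t ≤ (2 : ℝ) ^ (k + 1) ∧ lo x t ≤ Real.exp β) with hB
  have key : ∀ t ∈ U, cw J lam (fun s => s) t ^ 2 ≤
      ∑ k ∈ Finset.Icc k0 k1, if t ∈ B k then 1 / (β - α) ^ 2 * (dm t ^ 2 / (4 : ℝ) ^ k) else 0 := by
    intro t ht
    have hnn : ∀ k ∈ Finset.Icc k0 k1,
        0 ≤ if t ∈ B k then 1 / (β - α) ^ 2 * (dm t ^ 2 / (4 : ℝ) ^ k) else 0 := by
      intro k _
      split_ifs <;> positivity
    by_cases hm : ∃ a ∈ Icc α β, (cT t ∩ C a).Nonempty
    · obtain ⟨a, ha, hm⟩ := hm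
      obtain ⟨hlo, -⟩ := circ_meet hUS hC ha ht hm
      -- the dyadic scale
      set m := max (Real.exp α) (lo x t) with hmdef
      have hm0 : 0 < m := lt_max_of_lt_left (Real.exp_pos _)
      have hma : m ≤ Real.exp a := max_le (Real.exp_le_exp.2 ha.1) hlo
      have hmR : m ≤ (2 : ℝ) ^ k1 := hma.trans ((Real.exp_le_exp.2 ha.2).trans h1)
      obtain ⟨k, hk1, hk2⟩ := exists_mem_Ico_zpow hm0 (by norm_num : (1 : ℝ) < 2)
      have hkk1 : k ≤ k1 := by
        by_contra hcon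
        push Not at hcon
        have : (2 : ℝ) ^ (k1 + 1) ≤ (2 : ℝ) ^ k := zpow_le_zpow_right₀ (by norm_num) (by omega)
        have h5 : (2 : ℝ) ^ k1 < (2 : ℝ) ^ (k1 + 1) := zpow_lt_zpow_right₀ (by norm_num) (by omega)
        linarith
      have hkk0 : k0 ≤ k := by
        by_contra hcon
        push Not at hcon
        have : (2 : ℝ) ^ (k + 1) ≤ (2 : ℝ) ^ k0 := zpow_le_zpow_right₀ (by norm_num) (by omega)
        have h5 : Real.exp α ≤ m := le_max_left _ _
        linarith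
      have htB : t ∈ B k := by
        rw [hB, Finset.mem_filter]
        exact ⟨ht, (le_max_right _ _).trans hk2.le, hlo.trans (Real.exp_le_exp.2 ha.2)⟩
      have h4 : cw J lam (fun s => s) t ^ 2 ≤ 1 / (β - α) ^ 2 * (dm t ^ 2 / (4 : ℝ) ^ k) := by
        have h5 := pow_le_pow_left₀ (cw_nonneg h.nn _ t) (hcw t ht) 2
        refine h5.trans ?_
        rw [← hmdef]
        have h6 : (dm t / ((β - α) * m)) ^ 2 = 1 / (β - α) ^ 2 * (dm t ^ 2 / m ^ 2) := by
          field_simp
        rw [h6]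
        apply mul_le_mul_of_nonneg_left _ (by positivity)
        apply div_le_div_of_nonneg_left (by positivity) (by positivity)
        have h7 : (4 : ℝ) ^ k = ((2 : ℝ) ^ k) ^ 2 := by
          rw [show (4 : ℝ) = 2 ^ 2 by norm_num, ← zpow_natCast, ← zpow_natCast, ← zpow_mul,
            ← zpow_mul, mul_comm]
        rw [h7]
        exact pow_le_pow_left₀ (by positivity) hk1 2
      refine h4.trans ?_
      have h5 := Finset.single_le_sum hnn (Finset.mem_Icc.2 ⟨hkk0, hkk1⟩)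
      rwa [if_pos htB] at h5
    · rw [h.cw_zero hm]
      have := Finset.sum_nonneg hnn
      simpa using this
  calc ∑ t ∈ U, cw J lam (fun s => s) t ^ 2
      ≤ ∑ t ∈ U, ∑ k ∈ Finset.Icc k0 k1,
          (if t ∈ B k then 1 / (β - α) ^ 2 * (dm t ^ 2 / (4 : ℝ) ^ k) else 0) :=
        Finset.sum_le_sum key
    _ = ∑ k ∈ Finset.Icc k0 k1, ∑ t ∈ B k, 1 / (β - α) ^ 2 * (dm t ^ 2 / (4 : ℝ) ^ k) := by
        rw [Finset.sum_comm]
        apply Finset.sum_congr rfl
        intro j _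
        rw [← Finset.sum_filter]
        apply Finset.sum_congr _ fun _ _ => rfl
        ext t
        simp only [Finset.mem_filter]
        exact ⟨fun h => h.2, fun h => ⟨(Finset.mem_filter.mp h).1, h⟩⟩
    _ ≤ ∑ k ∈ Finset.Icc k0 k1, 1 / (β - α) ^ 2 * D := by
        apply Finset.sum_le_sum
        intro k hk
        rw [← Finset.mul_sum, ← Finset.sum_div]
        apply mul_le_mul_of_nonneg_left _ (by positivity)
        rw [div_le_iff₀ (by positivity)]
        exact hM k hk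
    _ = D * (k1 - k0 + 1) / (β - α) ^ 2 := by
        rw [Finset.sum_const, Int.card_Icc, nsmul_eq_mul]
        have h5 : (((k1 + 1 - k0).toNat : ℕ) : ℝ) = (k1 : ℝ) - k0 + 1 := by
          have h6 : (((k1 + 1 - k0).toNat : ℕ) : ℤ) = k1 + 1 - k0 := Int.toNat_of_nonneg (by omega)
          have h7 : (((k1 + 1 - k0).toNat : ℕ) : ℝ) = (((k1 + 1 - k0).toNat : ℤ) : ℝ) := by
            norm_cast
          rw [h7, h6]
          push_cast
          ring
        rw [h5]
        ring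

theorem meets_ball {t : ℂ × ℂ × ℂ} (ht : t ∈ delT S) {r : ℝ} (h : lo x t ≤ r) :
    (cT t ∩ Metric.closedBall x r).Nonempty := by
  obtain ⟨o, hT⟩ := mem_delT_iff.1 (show (t.1, t.2.1, t.2.2) ∈ delT S from ht)
  have hne : (cT t).Nonempty := ⟨t.1, (vertex_mem hT.pos).1⟩
  obtain ⟨y, hy, hd⟩ := (isClosed_cT t).exists_infDist_eq_dist hne x
  refine ⟨y, hy, ?_⟩
  rw [Metric.mem_closedBall, dist_comm, ← hd]
  exact h

/-- **families of curves on concentric circles**: the sum of the squares is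
`≤ 24 * C4 / log (R / r)` -/
theorem circles (U : Finset (ℂ × ℂ × ℂ)) (hUS : U ⊆ delT S) (x : ℂ) (C : ℝ → Set ℂ)
    {r R b C4 : ℝ} (hr : 0 < r) (hrR : 2 * r ≤ R) (hRb : R ≤ b)
    (hC : ∀ h ∈ Icc (Real.log r) (Real.log R), ∀ y ∈ C h, ‖y - x‖ = Real.exp h)
    (hM : ∀ b' ∈ Icc r b, ∑ t ∈ (delT S).filter
      (fun t => (cT t ∩ Metric.closedBall x b').Nonempty), dm t ^ 2 ≤ C4 * b' ^ 2) :
    ∃ J lam p, GFam U S C (Real.log r) (Real.log R) J lam p ∧
      (∀ t ∈ U, cw J lam (fun s => s) t ≤ dm t / (Real.log (R / r) * r)) ∧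
      ∑ t ∈ U, cw J lam (fun s => s) t ^ 2 ≤ 24 * C4 / Real.log (R / r) := by
  have hR : 0 < R := by linarith
  have hlt : Real.log r < Real.log R := Real.log_lt_log hr (by linarith)
  have hLe : Real.log R - Real.log r = Real.log (R / r) := (Real.log_div hR.ne' hr.ne').symm
  have hl2 := Real.log_two_gt_d9
  have hL2 : Real.log 2 ≤ Real.log (R / r) := by
    apply Real.log_le_log (by norm_num)
    rw [le_div_iff₀ hr]
    exact hrR
  have hL : 0 < Real.log (R / r) := by linarith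
  have hC40 : 0 ≤ C4 := by
    have h1 := hM r ⟨le_rfl, by linarith⟩
    have h2 : 0 ≤ C4 * r ^ 2 := le_trans (Finset.sum_nonneg fun t _ => sq_nonneg _) h1
    exact nonneg_of_mul_nonneg_left h2 (by positivity)
  obtain ⟨J, lam, p, hG, hcw⟩ := circ_fam U hUS x C hlt hC
  refine ⟨J, lam, p, hG, fun t ht => (hcw t ht).trans ?_, ?_⟩
  · rw [hLe]
    apply div_le_div_of_nonneg_left (dm_nonneg t) (by positivity)
    apply mul_le_mul_of_nonneg_left _ hL.le
    rw [Real.exp_log hr]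
    exact le_max_left _ _
  · obtain ⟨k0, hk1, hk2⟩ := exists_mem_Ico_zpow hr (by norm_num : (1 : ℝ) < 2)
    obtain ⟨k1, hk3, hk4⟩ := exists_mem_Ico_zpow hR (by norm_num : (1 : ℝ) < 2)
    have hsq := circ_sq (D := 4 * C4) (k0 := k0) (k1 := k1 + 1) hUS hlt hC
      (by rw [Real.exp_log hr]; exact hk1) (by rw [Real.exp_log hR]; exact hk4.le) hG hcw ?_
    · refine hsq.trans ?_
      rw [hLe]
      have h1 : ((k1 + 1 : ℤ) : ℝ) - k0 + 1 ≤ 6 * Real.log (R / r) := by
        have h2 : (k1 : ℝ) * Real.log 2 ≤ Real.log R := by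
          rw [← Real.log_zpow]
          exact Real.log_le_log (by positivity) hk3
        have h3 : Real.log r ≤ ((k0 : ℝ) + 1) * Real.log 2 := by
          have : Real.log r ≤ Real.log ((2 : ℝ) ^ (k0 + 1)) := Real.log_le_log hr hk2.le
          rw [Real.log_zpow] at this
          push_cast at this
          exact this
        push_cast
        have h4 : ((k1 : ℝ) + 1 - k0 + 1) * Real.log 2 ≤ Real.log (R / r) + 3 * Real.log 2 := by
          rw [← hLe]; nlinarith
        have h5 : ((k1 : ℝ) + 1 - k0 + 1) * Real.log 2 ≤ 4 * Real.log (R / r) := by linarith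
        have h6 : 4 * Real.log (R / r) ≤ (6 * Real.log (R / r)) * Real.log 2 := by
          have : 4 ≤ 6 * Real.log 2 := by linarith
          nlinarith
        have h7 : 0 < Real.log 2 := by linarith
        exact le_of_mul_le_mul_right (h5.trans h6) h7
      calc 4 * C4 * (((k1 + 1 : ℤ) : ℝ) - k0 + 1) / Real.log (R / r) ^ 2
          ≤ 4 * C4 * (6 * Real.log (R / r)) / Real.log (R / r) ^ 2 := by
            apply div_le_div_of_nonneg_right _ (by positivity)
            exact mul_le_mul_of_nonneg_left h1 (by positivity)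
        _ = 24 * C4 / Real.log (R / r) := by
            field_simp
            ring
    · intro k hk
      rw [Finset.mem_Icc] at hk
      rw [Real.exp_log hR]
      have hb1 : min ((2 : ℝ) ^ (k + 1)) R ∈ Icc r b := by
        refine ⟨le_min ?_ (by linarith), (min_le_right _ _).trans hRb⟩
        exact hk2.le.trans (zpow_le_zpow_right₀ (by norm_num) (by omega))
      refine le_trans ?_ ((hM _ hb1).trans ?_)
      · apply Finset.sum_le_sum_of_subset_of_nonneg _ fun t _ _ => sq_nonneg _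
        intro t ht
        obtain ⟨h1, h2, h3⟩ := Finset.mem_filter.1 ht
        exact Finset.mem_filter.2 ⟨hUS h1, meets_ball (hUS h1) (le_min h2 h3)⟩
      · have h1 : min ((2 : ℝ) ^ (k + 1)) R ^ 2 ≤ 4 * (4 : ℝ) ^ k := by
          have h2 : min ((2 : ℝ) ^ (k + 1)) R ^ 2 ≤ ((2 : ℝ) ^ (k + 1)) ^ 2 :=
            pow_le_pow_left₀ (le_min (by positivity) hR.le) (min_le_left _ _) 2
          refine h2.trans (le_of_eq ?_)
          rw [← zpow_natCast, ← zpow_mul, show (4 : ℝ) = 2 ^ (2 : ℤ) by norm_num, ← zpow_mul,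
            ← zpow_add₀ (by norm_num)]
          congr 1
          push_cast
          ring
        calc C4 * min ((2 : ℝ) ^ (k + 1)) R ^ 2 ≤ C4 * (4 * (4 : ℝ) ^ k) :=
              mul_le_mul_of_nonneg_left h1 hC40
          _ = 4 * C4 * (4 : ℝ) ^ k := by ring

/-- the same for the arcs with the angles in `[φ, ψ]` -/
theorem arcs (U : Finset (ℂ × ℂ × ℂ)) (hUS : U ⊆ delT S) (x : ℂ) (φ ψ : ℝ)
    {r R b C4 : ℝ} (hr : 0 < r) (hrR : 2 * r ≤ R) (hRb : R ≤ b)
    (hM : ∀ b' ∈ Icc r b, ∑ t ∈ (delT S).filter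
      (fun t => (cT t ∩ Metric.closedBall x b').Nonempty), dm t ^ 2 ≤ C4 * b' ^ 2) :
    ∃ J lam p, GFam U S (fun h => arc x φ ψ (Real.exp h)) (Real.log r) (Real.log R) J lam p ∧
      (∀ t ∈ U, cw J lam (fun s => s) t ≤ dm t / (Real.log (R / r) * r)) ∧
      ∑ t ∈ U, cw J lam (fun s => s) t ^ 2 ≤ 24 * C4 / Real.log (R / r) := by
  apply circles U hUS x _ hr hrR hRb _ hM
  rintro h _ y ⟨a, _, rfl⟩
  exact norm_ray (Real.exp_pos _).le

end Crest.Agent.R143.Halfx930
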