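import Crest.Agent.R143.Qd2_54
import Crest.Agent.R143.RE0_723
import Crest.Agent.R143.Half_930

/-!
# Row 143 (S0194): RSW without E3, the quads of RE0_723 (helper54)

* `toQd` : a quad of `RE0_723` is a quad of `Qd1_54`
* `xorq` : duality
* `epl` : energy principle for the arcs of circles with radii in `[r, R]`
-/

set_option autoImplicit false

noncomputable section

open scoped Classical

namespace Crest.Agent.R143.Qd3x54

open Set
open Crest.Agent.R143.B0x346 Crest.Agent.R143.B0Dx346 Crest.Agent.R143.DelGx806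
  Crest.Agent.R143.DelRx806 Crest.Agent.R143.Oscx63 Crest.Agent.R143.Rswx63
  Crest.Agent.R143.Circx63 Crest.Agent.R143.Famx930
  Crest.Agent.R143.Crsx117 Crest.Agent.R143.JCardx872
open Crest.Agent.R143.RB2x54 (rot3 Vt vt_of_side net0)
open Crest.Agent.R143.Scalx63 (dm)
open Crest.Agent.R143.Harx315 (pr)
open Crest.Agent.R143.RE0x723 (Pth fre Crq)
open Crest.Agent.R143.JColx54 (Adj)

variable {S : Finset ℂ} {n : ℕ} {w : ℤ → ℂ} {i0 i1 i2 i3 : ℤ} {B : ZMod 4 → Finset ℂ}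

/-- the marks -/
def mks (w : ℤ → ℂ) (i0 i1 i2 i3 : ℤ) (k : ZMod 4) : ℂ × ℂ :=
  if k = 0 then hm w i0 else if k = 1 then hm w i1 else if k = 2 then hm w i2 else hm w i3

theorem mks0 : mks w i0 i1 i2 i3 0 = hm w i0 := by unfold mks; rw [if_pos rfl]
theorem mks1 : mks w i0 i1 i2 i3 1 = hm w i1 := by
  unfold mks; rw [if_neg (by decide), if_pos rfl]
theorem mks2 : mks w i0 i1 i2 i3 2 = hm w i2 := by
  unfold mks; rw [if_neg (by decide), if_neg (by decide), if_pos rfl]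
theorem mks3 : mks w i0 i1 i2 i3 3 = hm w i3 := by
  unfold mks; rw [if_neg (by decide), if_neg (by decide), if_neg (by decide)]

theorem z4 (k : ZMod 4) : k = 0 ∨ k = 1 ∨ k = 2 ∨ k = 3 := by revert k; decide

/-- the class as a set -/
def cs (B : ZMod 4 → Finset ℂ) (i : ZMod 4) : Set ℂ := (B i : Set ℂ)

/-- the quads of `RE0_723` -/
theorem toQd (h : RE0x723.Qd S n w i0 i1 i2 i3 B) :
    Qdx54.Qd S (fre S B) (cs B) (mks w i0 i1 i2 i3) where
  gp := h.gp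
  sub := fun i => by
    intro v hv
    exact Finset.mem_coe.2 (h.sub i (Finset.mem_coe.1 hv))
  disj := fun i j hij => Finset.disjoint_coe.2 (h.disj i j hij)
  inn := by
    intro v
    unfold fre
    rw [Finset.mem_filter]
    rfl
  hr := by
    intro k
    rcases z4 k with rfl | rfl | rfl | rfl
    · rw [mks0]; exact h.m4.cyc.edge _
    · rw [mks1]; exact h.m4.cyc.edge _
    · rw [mks2]; exact h.m4.cyc.edge _
    · rw [mks3]; exact h.m4.cyc.edge _
  end1 := by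
    intro k
    have h01 := h.m4.h01
    have h12 := h.m4.h12
    have h23 := h.m4.h23
    have h30 := h.m4.h30
    rcases z4 k with rfl | rfl | rfl | rfl
    · rw [mks0, show (0 : ZMod 4) - 1 = 3 from rfl]
      have := h.a3 (i0 + n) (by linarith) le_rfl
      rw [h.m4.cyc.per] at this
      exact this
    · rw [mks1, show (1 : ZMod 4) - 1 = 0 from rfl]
      exact h.a0 i1 h01 le_rfl
    · rw [mks2, show (2 : ZMod 4) - 1 = 1 from rfl]
      exact h.a1 i2 h12 le_rfl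
    · rw [mks3, show (3 : ZMod 4) - 1 = 2 from rfl]
      exact h.a2 i3 h23 le_rfl
  end2 := by
    intro k
    have h01 := h.m4.h01
    have h12 := h.m4.h12
    have h23 := h.m4.h23
    have h30 := h.m4.h30
    rcases z4 k with rfl | rfl | rfl | rfl
    · rw [mks0]; exact h.a0 (i0 + 1) (by linarith) (by linarith)
    · rw [mks1]; exact h.a1 (i1 + 1) (by linarith) (by linarith)
    · rw [mks2]; exact h.a2 (i2 + 1) (by linarith) (by linarith)
    · rw [mks3]; exact h.a3 (i3 + 1) (by linarith) (by linarith)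
  hull := by
    intro a b hab
    have h01 := h.m4.h01
    have h12 := h.m4.h12
    have h23 := h.m4.h23
    have h30 := h.m4.h30
    obtain ⟨i, g1, g2, rfl, rfl⟩ := Sidesx697.hull_window h.m4.cyc i0 hab
    rcases eq_or_lt_of_le g1 with e | g3
    · left; exact ⟨0, by rw [mks0, e]; rfl⟩
    rcases lt_trichotomy i i1 with g4 | g4 | g4
    · right; exact ⟨0, h.a0 i g3 g4.le, h.a0 (i + 1) (by linarith) (by linarith)⟩
    · left; exact ⟨1, by rw [mks1, g4]; rfl⟩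
    rcases lt_trichotomy i i2 with g5 | g5 | g5
    · right; exact ⟨1, h.a1 i g4 g5.le, h.a1 (i + 1) (by linarith) (by linarith)⟩
    · left; exact ⟨2, by rw [mks2, g5]; rfl⟩
    rcases lt_trichotomy i i3 with g6 | g6 | g6
    · right; exact ⟨2, h.a2 i g5 g6.le, h.a2 (i + 1) (by linarith) (by linarith)⟩
    · left; exact ⟨3, by rw [mks3, g6]; rfl⟩
    · right; exact ⟨3, h.a3 i g6 g2.le, h.a3 (i + 1) (by linarith) (by linarith)⟩
  con := by
    intro i x hx y hy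
    obtain ⟨-, h1⟩ := h.con i x hx y hy
    have h2 : Relation.ReflTransGen (fun a b => a ∈ cs B i ∧ b ∈ cs B i ∧ Adj S a b) x y ∧
        y ∈ cs B i := by
      clear hy
      induction h1 with
      | refl => exact ⟨Relation.ReflTransGen.refl, hx⟩
      | tail _ h3 ih => exact ⟨ih.1.tail ⟨ih.2, h3.2, h3.1⟩, h3.2⟩
    exact h2.1

theorem crs_iff (_h : RE0x723.Qd S n w i0 i1 i2 i3 B) (i : ZMod 4) (T : Finset ℂ) :
    Crq S B i T ↔ Qdx54.Qd.Crs S (cs B) (T : Set ℂ) i := by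
  constructor
  · rintro ⟨x, hx, y, hy, -, h1⟩
    refine ⟨x, hx, y, hy, Relation.ReflTransGen.mono ?_ _ _ h1⟩
    rintro a b ⟨h2, h3⟩
    exact ⟨h2, h3⟩
  · rintro ⟨x, hx, y, hy, h1⟩
    refine ⟨x, hx, y, hy, Or.inr (Or.inl hx), Relation.ReflTransGen.mono ?_ _ _ h1⟩
    rintro a b ⟨h2, h3⟩
    exact ⟨h2, h3⟩

/-- **duality** -/
theorem xorq (h : RE0x723.Qd S n w i0 i1 i2 i3 B) {T : Finset ℂ} (hT : T ⊆ fre S B) :
    Crq S B 0 T ↔ ¬ Crq S B 1 (fre S B \ T) := by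
  rw [crs_iff h, crs_iff h]
  exact (toQd h).xor hT

theorem pr_eq (h : RE0x723.Qd S n w i0 i1 i2 i3 B) (i : ZMod 4) :
    Qdx54.Qd.pr S (fre S B) (cs B) i = pr (fre S B) (Crq S B i) := by
  unfold Qdx54.Qd.pr pr Harx315.nb Harx315.fl
  congr 2
  refine congrArg Finset.card (Finset.filter_congr ?_)
  intro T _
  exact (crs_iff h i T).symm

theorem cT_vt {t t' : ℂ × ℂ × ℂ} (h : t' ∈ rots t) {v : ℂ} (hv : Vt t v) : Vt t' v := by
  obtain ⟨a, b, c⟩ := t
  simp only [rots, Set.mem_insert_iff, Set.mem_singleton_iff] at h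
  unfold Vt at hv ⊢
  rcases h with rfl | rfl | rfl <;> simp only at hv ⊢ <;> tauto

/-- **energy principle for arcs**: if the arcs with centre `x` and radii in `[r, R]` go from the
class `0` to the class `2`, then there is a crossing with probability `≥ 1/3` -/
theorem epl (h : RE0x723.Qd S n w i0 i1 i2 i3 B) (x : ℂ) (φ ψ : ℝ) {r R b C4 : ℝ} (hr : 0 < r)
    (hrR : 2 * r ≤ R) (hRb : R ≤ b) (hlog : 96 * C4 ≤ Real.log (R / r))
    (hcov : ∀ ρ ∈ Icc r R, ∀ y ∈ arc x φ ψ ρ, ∃ t ∈ delT S, y ∈ cT t)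
    (hvert : ∀ ρ ∈ Icc r R, ∀ t ∈ delT S, (cT t ∩ arc x φ ψ ρ).Nonempty →
      ∀ v, Vt t v → v ∈ B 0 ∨ v ∈ B 2 ∨ v ∈ fre S B)
    (hfst : ∀ ρ ∈ Icc r R, ∃ t ∈ delT S, (cT t ∩ arc x φ ψ ρ).Nonempty ∧ ∃ v, Vt t v ∧ v ∈ B 0)
    (hlst : ∀ ρ ∈ Icc r R, ∃ t ∈ delT S, (cT t ∩ arc x φ ψ ρ).Nonempty ∧ ∃ v, Vt t v ∧ v ∈ B 2)
    (hM : ∀ b' ∈ Icc r b, ∑ t ∈ (delT S).filter
      (fun t => (cT t ∩ Metric.closedBall x b').Nonempty), dm t ^ 2 ≤ C4 * b' ^ 2) :
    1 / 3 ≤ pr (fre S B) (Crq S B 0) := by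
  have O := toQd h
  have hS := O.gp
  rw [← pr_eq h]
  by_cases hadj : ∃ a ∈ B 0, ∃ b ∈ B 2, Adj S a b
  · obtain ⟨a, ha, b, hb, hab⟩ := hadj
    rw [Qd2x54.pr_one O ha hb hab]
    norm_num
  push Not at hadj
  -- representatives
  obtain ⟨U, hUT, hrep, hcovU⟩ := T6Dx697.reps (delT S)
  have hR0 : 0 < R := by linarith
  have hlogpos : 0 < Real.log (R / r) := Real.log_pos (by rw [lt_div_iff₀ hr]; linarith)
  obtain ⟨J, lam, p, hG, -, hsq⟩ := Halfx930.arcs U hUT x φ ψ hr hrR hRb hM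
  have hrad : ∀ s ∈ J, Real.exp (p s) ∈ Icc r R := by
    intro s hs
    have h1 := hG.mem s hs
    exact ⟨by rw [← Real.exp_log hr]; exact Real.exp_le_exp.2 h1.1,
      by rw [← Real.exp_log hR0]; exact Real.exp_le_exp.2 h1.2⟩
  have hmeet : ∀ s ∈ J, ∀ t ∈ s, t ∈ delT S ∧ ∃ ρ ∈ Icc r R, (cT t ∩ arc x φ ψ ρ).Nonempty := by
    intro s hs t ht
    obtain ⟨q, hq, hm⟩ := hG.meet s hs t ht
    refine ⟨hUT (hG.sub s hs ht), Real.exp q, ⟨?_, ?_⟩, hm⟩
    · rw [← Real.exp_log hr]; exact Real.exp_le_exp.2 hq.1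
    · rw [← Real.exp_log hR0]; exact Real.exp_le_exp.2 hq.2
  have hno : ∀ s ∈ J, ∀ t ∈ s, ∀ v v', Vt t v → Vt t v' → v ∈ cs B 0 → v' ∉ cs B 2 := by
    intro s hs t ht v v' hv hv' h1 h2
    have hne : v ≠ v' := by
      rintro rfl
      exact absurd (O.uniq h1 h2) (by decide)
    exact hadj v h1 v' h2 (Qd2x54.adj_of_vt hS (hmeet s hs t ht).1 hv hv' hne)
  have side_at : ∀ t : ℂ × ℂ × ℂ, ∀ v, Vt t v → ∃ e, LSide (net0 O.N) t e ∧ e.1 = v := by
    rintro ⟨a, b, c⟩ v hv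
    rcases hv with h | h | h
    · exact ⟨(a, b), ⟨fun h => h, Or.inl rfl⟩, h.symm⟩
    · exact ⟨(b, c), ⟨fun h => h, Or.inr (Or.inl rfl)⟩, h.symm⟩
    · exact ⟨(c, a), ⟨fun h => h, Or.inr (Or.inr (Or.inl rfl))⟩, h.symm⟩
  have hmain := Qd2x54.ep_gen O (U := U) hUT hrep
    hG.nn hG.sum hG.sub ?_ hno ?_
  · have h1 : Real.sqrt (∑ t ∈ U, cw J lam (fun s => s) t ^ 2) ≤ 1 / 2 := by
      rw [show (1 / 2 : ℝ) = Real.sqrt (1 / 4) by
        rw [show (1 / 4 : ℝ) = (1 / 2) ^ 2 by norm_num, Real.sqrt_sq (by norm_num)]]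
      apply Real.sqrt_le_sqrt
      refine hsq.trans ?_
      rw [div_le_iff₀ hlogpos]
      linarith
    have h3 : Real.sqrt 3 * Real.sqrt 3 = 3 := Real.mul_self_sqrt (by norm_num)
    have h3p : 0 < Real.sqrt 3 := Real.sqrt_pos.2 (by norm_num)
    have h3l : Real.sqrt 3 ≤ 9 / 5 := by
      rw [Real.sqrt_le_left (by norm_num)]; norm_num
    set P := Qdx54.Qd.pr S (fre S B) (cs B) 0 with hP
    have h2 : 3 / 2 ≤ Real.sqrt 3 * P + Real.sqrt 3 * (1 / 2) := by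
      have := mul_le_mul_of_nonneg_left h1 h3p.le
      linarith
    by_contra hcon
    push Not at hcon
    have h4 : Real.sqrt 3 * P < Real.sqrt 3 * (1 / 3) := mul_lt_mul_of_pos_left hcon h3p
    nlinarith
  · intro s hs t ht v hv
    obtain ⟨h1, ρ, h2, h3⟩ := hmeet s hs t ht
    rcases hvert ρ h2 t h1 h3 v hv with h4 | h4 | h4
    · exact Or.inl h4
    · exact Or.inr (Or.inl h4)
    · exact Or.inr (Or.inr h4)
  · intro s hs
    obtain ⟨t1, ht1, hm1, v1, hv1, hv1c⟩ := hfst _ (hrad s hs)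
    obtain ⟨t2, ht2, hm2, v2, hv2, hv2c⟩ := hlst _ (hrad s hs)
    have hAc : ∀ t ∈ delT S, (cT t ∩ arc x φ ψ (Real.exp (p s))).Nonempty →
        ∃ t' ∈ s, t' ∈ rots t := by
      intro t ht hm
      obtain ⟨t', ht', hr'⟩ := hcovU t ht
      refine ⟨t', hG.hit s hs t' ht' ?_, hr'⟩
      show (cT t' ∩ arc x φ ψ (Real.exp (p s))).Nonempty
      rwa [cT_rots hr']
    -- the first triangle in `s`
    obtain ⟨t1', ht1', hr1⟩ := hAc t1 ht1 hm1
    have hv1' : Vt t1' v1 := cT_vt hr1 hv1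
    have ht1S : t1' ∈ delT S := (hmeet s hs t1' ht1').1
    have hm1' : (cT t1' ∩ arc x φ ψ (Real.exp (p s))).Nonempty := by rwa [cT_rots hr1]
    obtain ⟨g, hg1, hg2⟩ := side_at t1' v1 hv1'
    obtain ⟨g', hg1', hg2'⟩ := side_at t2 v2 hv2
    refine ⟨g, g', ?_, Or.inl (by rw [hg2]; exact hv1c), Or.inl (by rw [hg2']; exact hv2c),
      t1', ht1', hg1⟩
    exact conn_all (N := net0 O.N) hS (arc_conn x φ ψ _) (hcov _ (hrad s hs)) (hG.off s hs)
      (fun _ _ _ _ _ _ _ h => h) hAc ht1S hm1' ht2 hm2 hg1 hg1'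

/-- **EPQ** -/
theorem epq : RE0x723.EPQ := fun _ _ _ _ _ _ _ _ h x φ ψ _ _ _ _ hr hrR hRb hlog hcov hvert hfst
    hlst hM => epl h x φ ψ hr hrR hRb hlog hcov hvert hfst hlst hM

end Crest.Agent.R143.Qd3x54
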