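import Crest.Agent.R143.Rect1_723
import Crest.Agent.R143.RB0_838
import Crest.Agent.R143.DomE_722
import Crest.Agent.R143.Ex2_922
import Crest.Agent.R143.Loc_922
import Crest.Agent.R143.G6W_723

/-!
# Row 143 (S0194), leaf RB (box crossings), geometry of the rectangle, file 2 (helper723)

* `Sr` : the sites of the big net in the disc of the configuration
* `RH` : hypotheses; `RH.dns`, `RH.out`
* `mid_site` : sites in the middle are inner (and `|im| ≤ b₁`) or in the classes `1`, `3`
* `cls0_left`, `cls2_right`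
* `crs_cross` : a network crossing contains a crossing of the rectangle
-/

set_option autoImplicit false
set_option linter.unusedSectionVars false

noncomputable section

open scoped Classical

namespace Crest.Agent.R143.Rect2x723

open Set Filter Topology
open Crest.ProbabilityR.Voronoi
open Crest.Agent.R143.B0x346 Crest.Agent.R143.DelGx806 Crest.Agent.R143.DelRx806
  Crest.Agent.R143.Cfgx416 Crest.Agent.R143.Rect1x723
  Crest.Agent.R143.RB0x838 Crest.Agent.R143.ToolWx838 Crest.Agent.R143.Blkx838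

/-- half length of the network -/
def a1 (a b : ℝ) : ℝ := a + b / 4
/-- half width of the network -/
def b1 (b : ℝ) : ℝ := b / 2
/-- radius of the network -/
def Lr (a b : ℝ) : ℝ := LL (a1 a b) (b1 b)
/-- width of the tentacles -/
def dr (a b : ℝ) : ℝ := dl (a1 a b) (b1 b)
/-- the configuration -/
def Cr (z0 u : ℂ) (a b : ℝ) : Cfg 4 := rc z0 u (a1 a b) (b1 b)
/-- the sites of the network -/
def Sr (S : Finset ℂ) (z0 : ℂ) (a b : ℝ) : Finset ℂ := S.filter fun s => ‖s - z0‖ ≤ Lr a b
/-- bound for the edges -/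
def Dr (a b d : ℝ) : ℝ := 5 * Real.sqrt (Lr a b * d)

/-- hypotheses -/
structure RH (S : Finset ℂ) (z0 u : ℂ) (a b d : ℝ) : Prop where
  u1 : ‖u‖ = 1
  ha : 0 < a
  hb : 0 < b
  ld : LDns S z0 (Lr a b) d
  sm : 40000 * Lr a b ^ 5 * d ≤ dr a b ^ 6
  sa : 25 * (Lr a b * d) ≤ a ^ 2

variable {S : Finset ℂ} {z0 u : ℂ} {a b d : ℝ}

/-- a point of the middle outside the regions is near the axis -/
theorem mid_im {A B : ℝ} (hA : 0 < A) (hB : 0 < B) {w : ℂ} (hx : |w.re| ≤ A - B / 4)
    (h : ∀ k, w ∉ Rg A B k) : |w.im| ≤ B := by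
  by_contra hcon
  push Not at hcon
  have hr := rd_pos (b := B) hA
  have hrl := rd_le hA hB
  have hL := LL_pos hA hB
  have hmA := min_le_left A B
  have hmB := min_le_right A B
  have hm0 := min_pos' hA hB
  have hx0 := abs_nonneg w.re
  have key : M A B w * rd A B < A * |w.im| - B * |w.re| := by
    rcases le_or_gt ‖w‖ (LL A B / 2) with h1 | h1
    · rw [M_near hA hB h1]
      have h2 : dl A B / 2 * (A + B) = min A B ^ 2 / 8 := by
        unfold dl; field_simp; ring
      have h3 : dl A B / 2 * rd A B ≤ min A B ^ 2 / 8 := by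
        rw [← h2]
        exact mul_le_mul_of_nonneg_left hrl (by have := dl_pos hA hB; positivity)
      have h4 : min A B ^ 2 ≤ B ^ 2 := pow_le_pow_left₀ hm0.le hmB 2
      have h5 : A * B < A * |w.im| := mul_lt_mul_of_pos_left hcon hA
      have h6 : B * |w.re| ≤ B * (A - B / 4) := mul_le_mul_of_nonneg_left hx hB.le
      nlinarith
    · rw [M_far h1]
      have h7 : ‖w‖ ≤ |w.re| + |w.im| := by
        exact Complex.norm_le_abs_re_add_abs_im w
      have h8 : A + 2 * B < |w.im| := by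
        unfold LL at h1; linarith
      have h9 : ‖w‖ ≤ 2 * |w.im| := by linarith
      have h10 : dl A B / LL A B * (A + B) ^ 2 = min A B ^ 2 / 16 := by
        unfold dl LL; field_simp; ring
      have h11 : min A B ^ 2 ≤ A * (A + B) := by nlinarith
      have h12 : dl A B / LL A B * (A + B) ≤ A / 16 := by
        have hAB : 0 < A + B := by positivity
        by_contra hc
        push Not at hc
        have := mul_lt_mul_of_pos_right hc hAB
        nlinarith
      have he := eta_pos hA hB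
      have h13 : dl A B / LL A B * ‖w‖ * rd A B ≤ A / 16 * (2 * |w.im|) := by
        calc dl A B / LL A B * ‖w‖ * rd A B ≤ dl A B / LL A B * (2 * |w.im|) * (A + B) :=
              mul_le_mul (mul_le_mul_of_nonneg_left h9 he.le) hrl hr.le (by positivity)
          _ = dl A B / LL A B * (A + B) * (2 * |w.im|) := by ring
          _ ≤ _ := mul_le_mul_of_nonneg_right h12 (by positivity)
      have h14 : B * |w.re| ≤ B * A := mul_le_mul_of_nonneg_left (by linarith) hB.le
      have h15 : A * (2 * B) ≤ A * |w.im| := mul_le_mul_of_nonneg_left (by linarith) hA.le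
      have h16 : 0 < A * |w.im| := mul_pos hA (by linarith)
      linarith
  have hre1 := neg_abs_le w.re
  have hre2 := le_abs_self w.re
  have m1 : B * w.re ≤ B * |w.re| := mul_le_mul_of_nonneg_left hre2 hB.le
  have m2 : -(B * |w.re|) ≤ B * w.re := by
    have := mul_le_mul_of_nonneg_left hre1 hB.le
    linarith
  rcases lt_abs.1 hcon with h1 | h1
  · rw [abs_of_pos (hB.trans h1)] at key
    apply h 3
    rw [Rg3]
    refine ⟨h1, ?_, ?_⟩
    · unfold X; rw [lt_div_iff₀ hr]; linarith
    · unfold Y; rw [lt_div_iff₀ hr]; linarith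
  · rw [abs_of_neg (by linarith)] at key
    apply h 1
    rw [Rg1]
    refine ⟨by linarith, ?_, ?_⟩
    · unfold X; rw [div_lt_iff₀ hr]; linarith
    · unfold Y; rw [div_lt_iff₀ hr]; linarith

/-- points of the west axis -/
theorem west_mem {A B : ℝ} (hA : 0 < A) (hB : 0 < B) {t : ℝ} (ht : LL A B / 2 < t) :
    ((-t : ℝ) : ℂ) ∈ RW A B := by
  have hL := LL_pos hA hB
  have hr := rd_pos (b := B) hA
  have ht0 : 0 < t := by linarith
  have hn : ‖((-t : ℝ) : ℂ)‖ = t := by rw [Complex.norm_real, norm_neg, Real.norm_of_nonneg ht0.le]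
  have hk : dl A B / LL A B * t < B * t / rd A B := by
    have h1 := eta_le hA hB
    have h2 : dl A B / LL A B * (A + B) ^ 2 = min A B ^ 2 / 16 := by
      unfold dl LL; field_simp; ring
    have hm0 := min_pos' hA hB
    have h3 : min A B ^ 2 ≤ B * (A + B) := by nlinarith [min_le_right A B, min_le_left A B]
    have hAB : 0 < A + B := by positivity
    have h4 : dl A B / LL A B * (A + B) ≤ B / 16 := by
      by_contra hc
      push Not at hc
      have := mul_lt_mul_of_pos_right hc hAB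
      nlinarith
    have h5 : dl A B / LL A B * rd A B ≤ dl A B / LL A B * (A + B) :=
      mul_le_mul_of_nonneg_left (rd_le hA hB) (eta_pos hA hB).le
    rw [lt_div_iff₀ hr]
    have h6 : dl A B / LL A B * rd A B < B := by linarith
    calc dl A B / LL A B * t * rd A B = dl A B / LL A B * rd A B * t := by ring
      _ < B * t := mul_lt_mul_of_pos_right h6 ht0
  have hf : LL A B / 2 < ‖((-t : ℝ) : ℂ)‖ := by rw [hn]; exact ht
  apply RW_far hA hB hf
  · rw [M_far hf, hn]
    unfold X
    rw [Complex.ofReal_re, Complex.ofReal_im]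
    rw [show A * 0 - B * -t = B * t by ring]
    exact hk
  · rw [M_far hf, hn]
    unfold Y
    rw [Complex.ofReal_re, Complex.ofReal_im]
    rw [show A * 0 + B * -t = -(B * t) by ring, neg_div]
    exact neg_lt_neg hk

/-- points of the east axis -/
theorem east_mem {A B : ℝ} (hA : 0 < A) (hB : 0 < B) {t : ℝ} (ht : LL A B / 2 < t) :
    ((t : ℝ) : ℂ) ∈ RE A B := by
  have h := west_mem hA hB ht
  have ht0 : 0 < t := by have := LL_pos hA hB; linarith
  have hM : M A B ((-t : ℝ) : ℂ) = M A B ((t : ℝ) : ℂ) := by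
    unfold M; rw [Complex.norm_real, Complex.norm_real, norm_neg]
  have hX : X A B ((-t : ℝ) : ℂ) = -X A B ((t : ℝ) : ℂ) := by
    rw [Complex.ofReal_neg, X_neg]
  have hY : Y A B ((-t : ℝ) : ℂ) = -Y A B ((t : ℝ) : ℂ) := by
    rw [Complex.ofReal_neg, Y_neg]
  obtain ⟨h1, h2, h3⟩ := h
  rw [hM, hX] at h2
  rw [hM, hY] at h3
  rw [Complex.ofReal_re] at h1
  exact ⟨by rw [Complex.ofReal_re]; linarith, by linarith, by linarith⟩

theorem mem_Sr {s : ℂ} : s ∈ Sr S z0 a b ↔ s ∈ S ∧ ‖s - z0‖ ≤ Lr a b := by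
  unfold Sr; rw [Finset.mem_filter]

namespace RH

variable (H : RH S z0 u a b d)
include H

theorem a1p : 0 < a1 a b := by have := H.ha; have := H.hb; unfold a1; positivity
theorem b1p : 0 < b1 b := by have := H.hb; unfold b1; positivity
theorem Lp : 0 < Lr a b := LL_pos H.a1p H.b1p
theorem dp : 0 < d := H.ld.dpos
theorem drp : 0 < dr a b := dl_pos H.a1p H.b1p

theorem ok : (Cr z0 u a b).OK (dr a b) := rc_ok H.a1p H.b1p H.u1

theorem dr_le : 8 * dr a b ≤ min (a1 a b) (b1 b) := dl_le H.a1p H.b1p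

theorem dr_b : 16 * dr a b ≤ b := by
  have := H.dr_le
  have h := min_le_right (a1 a b) (b1 b)
  unfold b1 at h this
  linarith

theorem dr_L : 64 * dr a b ≤ Lr a b := by
  have := eta_le H.a1p H.b1p
  rw [div_le_iff₀ (LL_pos H.a1p H.b1p)] at this
  unfold dr Lr
  linarith

/-- the edges are very short -/
theorem Dr_le : 100 * Dr a b d ≤ dr a b := by
  have hL := H.Lp
  have hd := H.dp
  have hδ := H.drp
  have h64 := H.dr_L
  have hsm := H.sm
  unfold Dr
  set L := Lr a b
  set δ := dr a b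
  have h1 : L * d * (40000 * L ^ 4) ≤ δ ^ 6 := by
    calc L * d * (40000 * L ^ 4) = 40000 * L ^ 5 * d := by ring
      _ ≤ _ := hsm
  have h2 : (64 * δ) ^ 4 ≤ L ^ 4 := pow_le_pow_left₀ (by positivity) h64 4
  have h3 : L * d ≤ (δ / 500) ^ 2 := by
    by_contra hcon
    push Not at hcon
    have h4 : (δ / 500) ^ 2 * (40000 * L ^ 4) < δ ^ 6 :=
      lt_of_lt_of_le (mul_lt_mul_of_pos_right hcon (by positivity)) h1
    have h5 : (δ / 500) ^ 2 * (40000 * (64 * δ) ^ 4) < δ ^ 6 := by
      refine lt_of_le_of_lt ?_ h4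
      apply mul_le_mul_of_nonneg_left _ (by positivity)
      linarith
    have h6 : (δ / 500) ^ 2 * (40000 * (64 * δ) ^ 4) = (40000 * 64 ^ 4 / 500 ^ 2) * δ ^ 6 := by ring
    rw [h6] at h5
    have : 0 < δ ^ 6 := by positivity
    nlinarith
  have h4 : Real.sqrt (L * d) ≤ δ / 500 := by
    rw [Real.sqrt_le_left (by positivity)]; exact h3
  linarith

theorem Dr_b : 1600 * Dr a b d ≤ b := by
  have := H.Dr_le
  have := H.dr_b
  linarith

theorem Dr_a : Dr a b d ≤ a := by
  unfold Dr
  have h := H.sa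
  have h0 : 0 ≤ Lr a b * d := (mul_pos H.Lp H.dp).le
  have h1 : (5 * Real.sqrt (Lr a b * d)) ^ 2 ≤ a ^ 2 := by
    rw [mul_pow, Real.sq_sqrt h0]; linarith
  exact le_of_sq_le_sq h1 H.ha.le

theorem Drp : 0 < Dr a b d := by
  unfold Dr
  have := Real.sqrt_pos.2 (mul_pos H.Lp H.dp)
  linarith

theorem dL : 8 * d ≤ Lr a b := by
  have hL := H.Lp
  have hd := H.dp
  have hδ := H.drp
  have h64 := H.dr_L
  have hsm := H.sm
  set L := Lr a b
  set δ := dr a b
  by_contra hcon
  push Not at hcon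
  have h1 : 40000 * L ^ 5 * (L / 8) < δ ^ 6 :=
    lt_of_lt_of_le (mul_lt_mul_of_pos_left (by linarith) (by positivity)) hsm
  have h2 : δ ^ 6 ≤ L ^ 6 := pow_le_pow_left₀ hδ.le (by linarith) 6
  have h3 : 0 < L ^ 6 := by positivity
  nlinarith

theorem d_Dr : 10 * d ≤ Dr a b d := by
  unfold Dr
  have hL := H.Lp
  have hd := H.dp
  have h8 := H.dL
  have : 2 * d ≤ Real.sqrt (Lr a b * d) := by
    apply Real.le_sqrt_of_sq_le
    nlinarith
  linarith

theorem d_small : 16000 * d ≤ b := by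
  have := H.Dr_b
  have := H.d_Dr
  linarith

theorem b_L : 3 * b ≤ Lr a b := by
  have := H.ha
  unfold Lr LL a1 b1
  linarith

/-! ### the network -/

theorem dns : DomAx722.Dns (Sr S z0 a b) z0 (Lr a b) d where
  gp := DomAx722.gp_mono (fun s hs => (mem_Sr.1 hs).1) H.ld.gp
  dpos := H.dp
  dL := H.dL
  sub s hs := (mem_Sr.1 hs).2
  hole z hz := by
    have hd := H.dp
    obtain ⟨s, hs, h1⟩ := H.ld.hole z (by linarith)
    refine ⟨s, mem_Sr.2 ⟨hs, ?_⟩, h1⟩
    have := Locx922.norm_tri s z z0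
    linarith

theorem out : (Cr z0 u a b).Out (Sr S z0 a b) :=
  DomEx722.out_S (by norm_num) H.ok H.dns H.sm

/-- the interior of the disc -/
theorem hol : Locx922.Hol (Sr S z0 a b : Set ℂ) {w | ‖w - z0‖ ≤ Lr a b - 2 * d} d := by
  intro w hw z hz
  have hd := H.dp
  obtain ⟨s, hs, h1⟩ := H.dns.hole z (by
    have := Locx922.norm_tri z w z0
    have hw' : ‖w - z0‖ ≤ Lr a b - 2 * d := hw
    linarith)
  exact ⟨s, hs, h1⟩

theorem agr : Locx922.Agr (Sr S z0 a b : Set ℂ) (S : Set ℂ) {w | ‖w - z0‖ ≤ Lr a b - 2 * d} (2 * d) := by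
  intro w hw s hs
  have hw' : ‖w - z0‖ ≤ Lr a b - 2 * d := hw
  have := Locx922.norm_tri s w z0
  rw [Finset.mem_coe, Finset.mem_coe, mem_Sr]
  exact ⟨fun h => h.1, fun h => ⟨h, by linarith⟩⟩

/-- locality of the edges -/
theorem de_of_adj {x y : ℂ} (hx : ‖x - z0‖ ≤ Lr a b - 2 * d) (h : Adj (Sr S z0 a b) x y) :
    DE S x y := by
  obtain ⟨c, h1 | h1⟩ := h
  · exact Or.inl ⟨c, (Locx922.delT_vertex H.dp H.hol H.agr hx).1 h1⟩
  · exact Or.inr ⟨c, (Locx922.delT_vertex2 H.dp H.hol H.agr hx).1 h1⟩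

/-- the edges are short -/
theorem adj_len {x y : ℂ} (h : Adj (Sr S z0 a b) x y) : ‖x - y‖ ≤ Dr a b d := by
  obtain ⟨c, h1 | h1⟩ := h
  · obtain ⟨o, hT⟩ := mem_delT_iff.1 h1
    exact Ex2x922.tri_near H.dns h1 (Circx63.seg_sub_cT hT.pos (right_mem_segment ℝ x y))
  · obtain ⟨o, hT⟩ := mem_delT_iff.1 h1
    rw [norm_sub_rev]
    exact Ex2x922.tri_near H.dns h1 (Circx63.seg_sub_cT hT.pos (right_mem_segment ℝ y x))

theorem hull_len {x y : ℂ} (h : hullE (Sr S z0 a b) x y) : ‖y - x‖ ≤ Dr a b d := by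
  have := DomAx722.edge_len H.dns h
  have h1 := Real.sqrt_nonneg (Lr a b * d)
  unfold Dr
  linarith

/-! ### the frame -/

theorem u0 : u ≠ 0 := by
  rintro rfl
  simpa using H.u1

theorem ndiv (z : ℂ) : ‖z / u‖ = ‖z‖ := by rw [norm_div, H.u1, div_one]

theorem re_diff (x y : ℂ) : |((x - z0) / u).re - ((y - z0) / u).re| ≤ ‖x - y‖ := by
  rw [← Complex.sub_re, ← sub_div, sub_sub_sub_cancel_right, ← H.ndiv (x - y)]
  exact Complex.abs_re_le_norm _

theorem im_diff (x y : ℂ) : |((x - z0) / u).im - ((y - z0) / u).im| ≤ ‖x - y‖ := by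
  rw [← Complex.sub_im, ← sub_div, sub_sub_sub_cancel_right, ← H.ndiv (x - y)]
  exact Complex.abs_im_le_norm _

/-- deep points -/
theorem deep {x : ℂ} (h1 : |((x - z0) / u).re| ≤ a1 a b) (h2 : |((x - z0) / u).im| ≤ 3 * b1 b) :
    ‖x - z0‖ ≤ 3 / 4 * Lr a b := by
  rw [← H.ndiv]
  refine (Complex.norm_le_abs_re_add_abs_im _).trans ?_
  have := H.a1p
  have := H.b1p
  unfold Lr LL
  linarith

theorem deep_hol : 3 / 4 * Lr a b ≤ Lr a b - 2 * d := by
  have := H.dL
  linarith

/-- a deep site is not on the hull -/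
theorem not_hull {x : ℂ} (h : ‖x - z0‖ ≤ 3 / 4 * Lr a b) (y : ℂ) :
    ¬ hullE (Sr S z0 a b) x y ∧ ¬ hullE (Sr S z0 a b) y x :=
  Locx922.not_hull H.dp H.hol (show ‖x - z0‖ ≤ _ from h.trans H.deep_hol) y

/-- a site of `harc` is on the hull -/
theorem harc_hull {i : ZMod 4} {x : ℂ} (h : x ∈ (Cr z0 u a b).harc (Sr S z0 a b) i) :
    ∃ y, hullE (Sr S z0 a b) y x := by
  have h' : Relation.ReflTransGen (fun v w => hullE (Sr S z0 a b) v w ∧
    ∀ k, (Cr z0 u a b).ray (Sr S z0 a b) k ≠ (v, w)) ((Cr z0 u a b).ray (Sr S z0 a b) i).2 x := h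
  rcases Relation.ReflTransGen.cases_tail h' with h1 | ⟨y, -, h1⟩
  · rw [h1]
    exact ⟨_, (H.out.ray i).1⟩
  · exact ⟨y, h1.1⟩

/-- the class of a deep site -/
theorem cls_deep {i : ZMod 4} {x : ℂ} (h : ‖x - z0‖ ≤ 3 / 4 * Lr a b)
    (hx : x ∈ (Cr z0 u a b).cls (Sr S z0 a b) i) :
    ∃ z, ‖z - x‖ < d ∧ (z - z0) / u ∈ Rg (a1 a b) (b1 b) i := by
  rcases hx with ⟨-, z, hz1, hz2⟩ | hx
  · exact ⟨z, Locx922.cell_sub_ball H.dp H.hol (show ‖x - z0‖ ≤ _ from h.trans H.deep_hol) hz1, hz2⟩
  · obtain ⟨y, hy⟩ := H.harc_hull hx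
    exact absurd hy (H.not_hull h y).2

/-- sites in a region -/
theorem cls_of_mem {i : ZMod 4} {x : ℂ} (hS : x ∈ Sr S z0 a b)
    (hx : (x - z0) / u ∈ Rg (a1 a b) (b1 b) i) : x ∈ (Cr z0 u a b).cls (Sr S z0 a b) i := by
  refine Or.inl ⟨hS, x, ?_, hx⟩
  intro s _
  rw [sub_self, norm_zero]
  exact norm_nonneg _

theorem re_lt_of_W {w : ℂ} (h : w ∈ Rg (a1 a b) (b1 b) 0) : w.re < -a1 a b := by
  rw [Rg0] at h; exact h.1

theorem re_gt_of_E {w : ℂ} (h : w ∈ Rg (a1 a b) (b1 b) 2) : a1 a b < w.re := by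
  rw [Rg2] at h; exact h.1

/-- **sites of the middle**: in the class `1` or `3`, or near the axis -/
theorem mid_site {x : ℂ} (hS : x ∈ Sr S z0 a b) (hx : |((x - z0) / u).re| ≤ a + b / 8) :
    (x ∈ (Cr z0 u a b).cls (Sr S z0 a b) 1 ∨ x ∈ (Cr z0 u a b).cls (Sr S z0 a b) 3) ∨
      |((x - z0) / u).im| ≤ b1 b := by
  have hb := H.hb
  by_cases h : ∀ k, (x - z0) / u ∉ Rg (a1 a b) (b1 b) k
  · right
    exact mid_im H.a1p H.b1p (by unfold a1 b1; linarith) h
  · left
    push Not at h
    obtain ⟨k, hk⟩ := h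
    rcases z4 k with rfl | rfl | rfl | rfl
    · have := H.re_lt_of_W hk
      have := neg_abs_le ((x - z0) / u).re
      unfold a1 at *
      linarith
    · exact Or.inl (H.cls_of_mem hS hk)
    · have := H.re_gt_of_E hk
      have := le_abs_self ((x - z0) / u).re
      unfold a1 at *
      linarith
    · exact Or.inr (H.cls_of_mem hS hk)

/-- the sites of the middle are not in the classes `0`, `2` -/
theorem mid_not {x : ℂ} (hx : |((x - z0) / u).re| ≤ a + b / 8) :
    x ∉ (Cr z0 u a b).cls (Sr S z0 a b) 0 ∧ x ∉ (Cr z0 u a b).cls (Sr S z0 a b) 2 := by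
  have hb := H.hb
  have hds := H.d_small
  have hab := abs_le.1 hx
  have key : ∀ i : ZMod 4, i = 0 ∨ i = 2 → x ∉ (Cr z0 u a b).cls (Sr S z0 a b) i := by
    intro i hi hc
    have hS := H.out.sub i hc
    rcases H.mid_site hS hx with h | h
    · rcases h with h | h
      · refine Set.disjoint_left.1 (H.out.disj i 1 ?_) hc h
        rcases hi with rfl | rfl <;> decide
      · refine Set.disjoint_left.1 (H.out.disj i 3 ?_) hc h
        rcases hi with rfl | rfl <;> decide
    · have hb1 := H.b1p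
      obtain ⟨z, hz1, hz2⟩ := H.cls_deep (H.deep (by unfold a1; linarith) (by linarith)) hc
      have h3 := H.re_diff z x
      rw [abs_le] at h3
      rcases hi with rfl | rfl
      · have := H.re_lt_of_W hz2
        unfold a1 at this
        linarith
      · have := H.re_gt_of_E hz2
        unfold a1 at this
        linarith
  exact ⟨key 0 (Or.inl rfl), key 2 (Or.inr rfl)⟩

/-- steps inside a class do not jump over the middle -/
theorem cls_side {i : ZMod 4} (hi : i = 0 ∨ i = 2) {x y : ℂ}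
    (hx : x ∈ (Cr z0 u a b).cls (Sr S z0 a b) i) (hy : y ∈ (Cr z0 u a b).cls (Sr S z0 a b) i)
    (h : ((x - z0) / u).re < -(a + b / 8)) : ((y - z0) / u).re < -(a + b / 8) := by
  have ha := H.ha
  have hb := H.hb
  have hDb := H.Dr_b
  have hnot : ∀ w, w ∈ (Cr z0 u a b).cls (Sr S z0 a b) i → a + b / 8 < |((w - z0) / u).re| := by
    intro w hw
    by_contra hc
    push Not at hc
    have := H.mid_not hc
    rcases hi with rfl | rfl
    · exact this.1 hw
    · exact this.2 hw
  have hcon := H.out.con i x hx y hy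
  induction hcon with
  | refl => exact h
  | @tail v w _ hvw ih =>
    obtain ⟨hv, hw, hE⟩ := hvw
    have hv' := ih hv
    have hlen : ‖v - w‖ ≤ Dr a b d := by
      rcases hE with ⟨h1, -⟩ | ⟨h1 | h1, -⟩
      · exact H.adj_len h1
      · rw [norm_sub_rev]; exact H.hull_len h1
      · exact H.hull_len h1
    have h3 := H.re_diff v w
    rw [abs_le] at h3
    rcases lt_abs.1 (hnot w hw) with h4 | h4
    · linarith
    · linarith

theorem cls_side' {i : ZMod 4} (hi : i = 0 ∨ i = 2) {x y : ℂ}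
    (hx : x ∈ (Cr z0 u a b).cls (Sr S z0 a b) i) (hy : y ∈ (Cr z0 u a b).cls (Sr S z0 a b) i)
    (h : a + b / 8 < ((x - z0) / u).re) : a + b / 8 < ((y - z0) / u).re := by
  by_contra hc
  have hnot : a + b / 8 < |((y - z0) / u).re| := by
    by_contra hc
    push Not at hc
    have := H.mid_not hc
    rcases hi with rfl | rfl
    · exact this.1 hy
    · exact this.2 hy
  rcases lt_abs.1 hnot with h4 | h4
  · exact hc h4
  · have := H.cls_side hi hy hx (by linarith)
    have := H.ha
    have := H.hb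
    linarith

theorem Sr_ne : (Sr S z0 a b).Nonempty := by
  have := H.dns.card
  exact Finset.card_pos.1 (by omega)

/-- a site of the class `0` on the left -/
theorem exists_left : ∃ x ∈ (Cr z0 u a b).cls (Sr S z0 a b) 0, ((x - z0) / u).re < -(a + b / 8) := by
  have hL := H.Lp
  have hd8 := H.dL
  have hd := H.dp
  have hu0 := H.u0
  have hb := H.hb
  have hbL := H.b_L
  set t := 3 / 4 * Lr a b with ht
  set z := z0 + u * ((-t : ℝ) : ℂ) with hz
  have hzw : (z - z0) / u = ((-t : ℝ) : ℂ) := by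
    rw [hz, add_sub_cancel_left, mul_div_cancel_left₀ _ hu0]
  obtain ⟨x, hx, hxz⟩ := G6Wx723.exists_cell (S := Sr S z0 a b) H.Sr_ne z
  have hmem : (z - z0) / u ∈ Rg (a1 a b) (b1 b) 0 := by
    rw [hzw, Rg0]
    apply west_mem H.a1p H.b1p
    show Lr a b / 2 < t
    linarith
  refine ⟨x, Or.inl ⟨hx, z, hxz, hmem⟩, ?_⟩
  have hzn : ‖z - z0‖ = t := by
    rw [← H.ndiv, hzw, Complex.norm_real, norm_neg, Real.norm_of_nonneg (by linarith)]
  obtain ⟨s, hs, hsz⟩ := H.dns.hole z (by rw [hzn]; linarith)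
  have h1 : ‖z - x‖ < d := by
    have := hxz s hs
    rw [norm_sub_rev z s] at this
    linarith
  have h2 := H.re_diff z x
  rw [hzw, Complex.ofReal_re, abs_le] at h2
  have : 4 * (a + b / 8) ≤ Lr a b - 2 * b := by
    unfold Lr LL a1 b1; linarith
  linarith

/-- a site of the class `2` on the right -/
theorem exists_right : ∃ x ∈ (Cr z0 u a b).cls (Sr S z0 a b) 2, a + b / 8 < ((x - z0) / u).re := by
  have hL := H.Lp
  have hd8 := H.dL
  have hd := H.dp
  have hu0 := H.u0
  have hb := H.hb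
  have hbL := H.b_L
  set t := 3 / 4 * Lr a b with ht
  set z := z0 + u * ((t : ℝ) : ℂ) with hz
  have hzw : (z - z0) / u = ((t : ℝ) : ℂ) := by
    rw [hz, add_sub_cancel_left, mul_div_cancel_left₀ _ hu0]
  obtain ⟨x, hx, hxz⟩ := G6Wx723.exists_cell (S := Sr S z0 a b) H.Sr_ne z
  have hmem : (z - z0) / u ∈ Rg (a1 a b) (b1 b) 2 := by
    rw [hzw, Rg2]
    apply east_mem H.a1p H.b1p
    show Lr a b / 2 < t
    linarith
  refine ⟨x, Or.inl ⟨hx, z, hxz, hmem⟩, ?_⟩
  have hzn : ‖z - z0‖ = t := by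
    rw [← H.ndiv, hzw, Complex.norm_real, Real.norm_of_nonneg (by linarith)]
  obtain ⟨s, hs, hsz⟩ := H.dns.hole z (by rw [hzn]; linarith)
  have h1 : ‖z - x‖ < d := by
    have := hxz s hs
    rw [norm_sub_rev z s] at this
    linarith
  have h2 := H.re_diff z x
  rw [hzw, Complex.ofReal_re, abs_le] at h2
  have : 4 * (a + b / 8) ≤ Lr a b - 2 * b := by
    unfold Lr LL a1 b1; linarith
  linarith

theorem cls0_left {x : ℂ} (hx : x ∈ (Cr z0 u a b).cls (Sr S z0 a b) 0) :
    ((x - z0) / u).re < -(a + b / 8) := by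
  obtain ⟨y, hy, h⟩ := H.exists_left
  exact H.cls_side (Or.inl rfl) hy hx h

theorem cls2_right {x : ℂ} (hx : x ∈ (Cr z0 u a b).cls (Sr S z0 a b) 2) :
    a + b / 8 < ((x - z0) / u).re := by
  obtain ⟨y, hy, h⟩ := H.exists_right
  exact H.cls_side' (Or.inr rfl) hy hx h

/-! ### network crossings contain crossings of the rectangle -/

theorem inn_im {x : ℂ} (hx : x ∈ (Cr z0 u a b).inn (Sr S z0 a b))
    (h : |((x - z0) / u).re| ≤ a + b / 8) : |((x - z0) / u).im| ≤ b1 b := by
  rw [DomEx722.mem_inn] at hx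
  rcases H.mid_site hx.1 h with h1 | h1
  · rcases h1 with h1 | h1
    · exact absurd h1 (hx.2 1)
    · exact absurd h1 (hx.2 3)
  · exact h1

/-- **(R4)** -/
theorem crs_cross {T : Finset ℂ} (hT : T ⊆ (Cr z0 u a b).inn (Sr S z0 a b))
    (h : (Cr z0 u a b).Crs (Sr S z0 a b) (T : Set ℂ) 0) : ∃ l, Cross S z0 u a b T l := by
  have ha := H.ha
  have hb := H.hb
  have hDb := H.Dr_b
  have hDa := H.Dr_a
  have hDp := H.Drp
  have hb1 : b1 b < b := by unfold b1; linarith
  obtain ⟨p, hp, q, hq, hpq⟩ := h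
  rw [zero_add] at hq
  -- good sites
  have hgood : ∀ v, (v ∈ (T : Set ℂ) ∨ v ∈ (Cr z0 u a b).cls (Sr S z0 a b) 0 ∨
      v ∈ (Cr z0 u a b).cls (Sr S z0 a b) (0 + 2)) → |((v - z0) / u).re| ≤ a + b / 8 →
      v ∈ T ∧ |((v - z0) / u).im| < b ∧ |((v - z0) / u).re| ≤ a + b := by
    intro v hv hx
    rw [zero_add] at hv
    have hvT : v ∈ T := by
      rcases hv with hv | hv | hv
      · exact hv
      · exact absurd hv (H.mid_not hx).1
      · exact absurd hv (H.mid_not hx).2
    exact ⟨hvT, lt_of_le_of_lt (H.inn_im (hT hvT) hx) hb1, by linarith⟩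
  have hdeep : ∀ v, v ∈ T → |((v - z0) / u).re| ≤ a + b / 8 → ‖v - z0‖ ≤ Lr a b - 2 * d := by
    intro v hv hx
    refine (H.deep (by unfold a1; linarith) ?_).trans H.deep_hol
    have := H.inn_im (hT hv) hx
    have := H.b1p
    linarith
  have key : ∀ v, Relation.ReflTransGen (fun x y => Adj (Sr S z0 a b) x y ∧
      (y ∈ (T : Set ℂ) ∨ y ∈ (Cr z0 u a b).cls (Sr S z0 a b) 0 ∨
        y ∈ (Cr z0 u a b).cls (Sr S z0 a b) (0 + 2))) p v →
      (v ∈ (T : Set ℂ) ∨ v ∈ (Cr z0 u a b).cls (Sr S z0 a b) 0 ∨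
        v ∈ (Cr z0 u a b).cls (Sr S z0 a b) (0 + 2)) ∧
      (((v - z0) / u).re ≤ -a ∨ (|((v - z0) / u).re| < a ∧ ∃ r : List ℂ,
        (∀ p ∈ prs (v :: r), DE S p.1 p.2) ∧
        (∀ s ∈ v :: r, s ∈ T ∧ |((s - z0) / u).im| < b ∧ |((s - z0) / u).re| ≤ a + b) ∧
        (((v :: r).getLast (List.cons_ne_nil _ _) - z0) / u).re ≤ -a) ∨
        ∃ l, Cross S z0 u a b T l) := by
    intro v hv
    induction hv with
    | refl =>
      refine ⟨Or.inr (Or.inl hp), Or.inl ?_⟩
      have := H.cls0_left hp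
      linarith
    | @tail v w _ hvw ih =>
      obtain ⟨hadj, hw⟩ := hvw
      obtain ⟨hv, htri⟩ := ih
      refine ⟨hw, ?_⟩
      have hlen := H.adj_len hadj
      have h3 := H.re_diff v w
      rw [abs_le] at h3
      rcases htri with h1 | ⟨h1, r, hr1, hr2, hr3⟩ | h1
      · -- left
        by_cases h4 : ((w - z0) / u).re ≤ -a
        · exact Or.inl h4
        push Not at h4
        right; left
        have hvx : |((v - z0) / u).re| ≤ a + b / 8 := by
          rw [abs_le]; constructor <;> linarith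
        have hwx : |((w - z0) / u).re| < a := by
          rw [abs_lt]; constructor <;> linarith
        have gv := hgood v hv hvx
        have gw := hgood w hw (by linarith)
        have hde := H.de_of_adj (hdeep v gv.1 hvx) hadj
        refine ⟨hwx, [v], ?_, ?_, ?_⟩
        · intro p hp
          simp only [prs_cons, prs_one, List.mem_cons, List.not_mem_nil, or_false] at hp
          rw [hp]; exact hde.symm
        · intro s hs
          simp only [List.mem_cons, List.not_mem_nil, or_false] at hs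
          rcases hs with rfl | rfl
          · exact gw
          · exact gv
        · simpa using h1
      · -- middle
        have h1' := abs_lt.1 h1
        have gv := hgood v hv (by linarith)
        have hde := H.de_of_adj (hdeep v gv.1 (by linarith)) hadj
        by_cases h4 : ((w - z0) / u).re ≤ -a
        · exact Or.inl h4
        push Not at h4
        have hwx : |((w - z0) / u).re| ≤ a + b / 8 := by
          rw [abs_le]; constructor <;> linarith
        have gw := hgood w hw hwx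
        have e1 : ∀ p ∈ prs (w :: v :: r), DE S p.1 p.2 := by
          intro p hp
          simp only [prs_cons, List.mem_cons] at hp
          rcases hp with rfl | hp
          · exact hde.symm
          · exact hr1 p hp
        have e2 : ∀ s ∈ w :: v :: r, s ∈ T ∧ |((s - z0) / u).im| < b ∧
            |((s - z0) / u).re| ≤ a + b := by
          intro s hs
          rw [List.mem_cons] at hs
          rcases hs with rfl | hs
          · exact gw
          · exact hr2 s hs
        have e3 : (((w :: v :: r).getLast (List.cons_ne_nil _ _) - z0) / u).re ≤ -a := by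
          rw [List.getLast_cons (List.cons_ne_nil _ _)]; exact hr3
        by_cases h5 : ((w - z0) / u).re < a
        · right; left
          exact ⟨abs_lt.2 ⟨h4, h5⟩, v :: r, e1, e2, e3⟩
        · push Not at h5
          right; right
          refine ⟨(w :: v :: r).reverse, ?_, ?_, ?_, ?_, ?_, ?_, ?_⟩
          · simp
          · intro p hp
            rw [prs_reverse] at hp
            simp only [List.mem_reverse, List.mem_map] at hp
            obtain ⟨p', hp', rfl⟩ := hp
            exact (e1 p' hp').symm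
          · intro s hs
            exact (e2 s (List.mem_reverse.1 hs)).1
          · intro s hs
            exact (e2 s (List.mem_reverse.1 hs)).2.1
          · intro s hs
            exact (e2 s (List.mem_reverse.1 hs)).2.2
          · rw [List.head_reverse]; exact e3
          · rw [List.getLast_reverse]; exact h5
      · exact Or.inr (Or.inr h1)
  obtain ⟨-, h1 | ⟨h1, -⟩ | h1⟩ := key q hpq
  · have := H.cls2_right hq
    linarith
  · have := H.cls2_right hq
    have := (abs_lt.1 h1).2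
    linarith
  · exact h1

/-- **the probability** -/
theorem pr_le : (Cr z0 u a b).pr (Sr S z0 a b) 0 ≤
    Harx315.pr ((Cr z0 u a b).inn (Sr S z0 a b)) (fun β => ∃ l, Cross S z0 u a b β l) := by
  unfold Cfg.pr Harx315.pr Harx315.nb Harx315.fl
  apply div_le_div_of_nonneg_right _ (by positivity)
  norm_cast
  apply Finset.card_le_card
  intro T hT
  rw [Finset.mem_filter] at hT ⊢
  exact ⟨hT.1, H.crs_cross (Finset.mem_powerset.1 hT.1) hT.2⟩

theorem inn_sub : (Cr z0 u a b).inn (Sr S z0 a b) ⊆ S := by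
  intro s hs
  rw [DomEx722.mem_inn] at hs
  exact (mem_Sr.1 hs.1).1

end RH

end Crest.Agent.R143.Rect2x723
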