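import Crest.Agent.R143.RE0_723
import Crest.Agent.R143.Rect2_723
import Crest.Agent.R143.Half_930

/-!
# Row 143, RSW without E3: the sites of the big disc (helper930)

`SH` : hypotheses of a strip; `SH.dns`, `SH.hol`, `SH.agr`, `SH.cover`, `SH.tri_small`,
`SH.vert_small`, `SH.deep` (the disc near the strip), `SH.mesh` (sums of squares).
-/

set_option autoImplicit false
set_option linter.unusedSectionVars false

noncomputable section

open scoped Classical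

namespace Crest.Agent.R143.SSbx930

open Set
open Crest.Agent.R143.B0x346 Crest.Agent.R143.DelGx806 Crest.Agent.R143.DelRx806
open Crest.Agent.R143.Famx930 Crest.Agent.R143.Halfx930 Crest.Agent.R143.RE0x723
open Crest.Agent.R143.Circx63 Crest.Agent.R143.Scalx63
open Crest.Agent.R143.RB0x838 (LDns Mesh Cross)
open Crest.Agent.R143.Locx922 (norm_tri)

variable {S : Finset ℂ} {z0 u : ℂ} {a b k d : ℝ}

theorem mem_SS {s : ℂ} : s ∈ SS S z0 u k a b ↔ s ∈ S ∧ ‖s - cc z0 u k a b‖ ≤ RR k a b := by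
  unfold SS
  rw [Finset.mem_filter]

/-- the hypotheses -/
structure SH (S : Finset ℂ) (z0 u : ℂ) (a b k d : ℝ) : Prop where
  k1 : 1 ≤ k
  u1 : ‖u‖ = 1
  ha : 0 < a
  hb : 0 < b
  ab : a ≤ k * b
  ba : b ≤ k * a
  ld : LDns S z0 (20 * (1 + k) * (a + b)) d
  sm : 100 * (1 + k) * d ≤ b

namespace SH

variable (H : SH S z0 u a b k d)
include H

theorem dp : 0 < d := H.ld.dpos

theorem d_b : 200 * d ≤ b := by
  have := H.sm
  have := H.k1
  have := H.dp
  nlinarith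

theorem Rp : 0 < RR k a b := by
  have := H.k1
  have := H.ha
  have := H.hb
  unfold RR
  positivity

theorem Rb : 16 * b ≤ RR k a b := by
  have := H.k1
  have := H.ha
  have := H.hb
  unfold RR
  nlinarith

theorem u0 : u ≠ 0 := by
  intro h
  have := H.u1
  rw [h] at this
  simp at this

theorem ndiv (z : ℂ) : ‖z / u‖ = ‖z‖ := by rw [norm_div, H.u1, div_one]

theorem X_diff (x y : ℂ) : |X z0 u x - X z0 u y| ≤ ‖x - y‖ := by
  unfold X
  rw [← Complex.sub_re, ← sub_div, sub_sub_sub_cancel_right, ← H.ndiv (x - y)]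
  exact Complex.abs_re_le_norm _

theorem Y_diff (x y : ℂ) : |Y z0 u x - Y z0 u y| ≤ ‖x - y‖ := by
  unfold Y
  rw [← Complex.sub_im, ← sub_div, sub_sub_sub_cancel_right, ← H.ndiv (x - y)]
  exact Complex.abs_im_le_norm _

theorem cc_div : (cc z0 u k a b - z0) / u = ((RR k a b - 3 * b / 4 : ℝ) : ℂ) * Complex.I := by
  unfold cc
  rw [add_sub_cancel_left, mul_div_cancel_left₀ _ H.u0]

theorem norm_cc : ‖cc z0 u k a b - z0‖ ≤ RR k a b := by
  rw [← H.ndiv, H.cc_div, norm_mul, Complex.norm_I, mul_one, Complex.norm_real, Real.norm_eq_abs]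
  have := H.Rb
  have := H.hb
  rw [abs_le]
  constructor <;> linarith

theorem norm_sq (s : ℂ) : ‖s - cc z0 u k a b‖ ^ 2 =
    X z0 u s ^ 2 + (RR k a b - 3 * b / 4 - Y z0 u s) ^ 2 := by
  rw [← H.ndiv, ← Complex.normSq_eq_norm_sq, Complex.normSq_apply]
  have h1 : (s - cc z0 u k a b) / u = (s - z0) / u - (cc z0 u k a b - z0) / u := by
    rw [← sub_div, sub_sub_sub_cancel_right]
  rw [h1, H.cc_div, Complex.sub_re, Complex.sub_im, Complex.re_ofReal_mul, Complex.im_ofReal_mul,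
    Complex.I_re, Complex.I_im]
  unfold X Y
  ring

/-- the disc near the strip -/
theorem deep {s : ℂ} (hx : |X z0 u s| ≤ a + b) (hy : -(9 * b / 16) ≤ Y z0 u s) (hy' : Y z0 u s ≤ b) :
    ‖s - cc z0 u k a b‖ ≤ RR k a b - 4 * d := by
  have hk := H.k1
  have ha := H.ha
  have hb := H.hb
  have hR := H.Rb
  have hd := H.dp
  have hsm := H.sm
  have hdb := H.d_b
  rw [← abs_of_nonneg (norm_nonneg (s - cc z0 u k a b)),
    ← abs_of_nonneg (show 0 ≤ RR k a b - 4 * d by linarith), ← sq_le_sq, H.norm_sq]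
  have h1 : X z0 u s ^ 2 ≤ (a + b) ^ 2 := by
    rw [sq_le_sq, abs_of_nonneg (show 0 ≤ a + b by linarith)]
    exact hx
  have h2 : (RR k a b - 3 * b / 4 - Y z0 u s) ^ 2 ≤ (RR k a b - 3 * b / 16) ^ 2 := by
    apply pow_le_pow_left₀ <;> linarith
  have hRe : RR k a b = 8 * ((1 + k) * (a + b)) := by unfold RR; ring
  have h3 : a + b ≤ (1 + k) * b := by linarith [H.ab]
  have h4 : (a + b) * (a + b) ≤ (1 + k) * (a + b) * b := by nlinarith
  have h5 : d * RR k a b * 100 ≤ 8 * (b * (a + b)) := by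
    rw [hRe]; nlinarith
  have h6 : b * b ≤ b * (a + b) := by nlinarith
  have h7 : b * (a + b) ≤ (a + b) * (a + b) := by nlinarith
  have h8 : RR k a b * b = 8 * ((1 + k) * (a + b) * b) := by rw [hRe]; ring
  nlinarith

theorem dns : DomAx722.Dns (SS S z0 u k a b) (cc z0 u k a b) (RR k a b) d where
  gp := DomAx722.gp_mono (fun s hs => (mem_SS.1 hs).1) H.ld.gp
  dpos := H.dp
  dL := by
    have := H.Rb
    have := H.d_b
    have := H.dp
    linarith
  sub s hs := (mem_SS.1 hs).2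
  hole z hz := by
    have hd := H.dp
    have h1 := norm_tri z (cc z0 u k a b) z0
    have h2 := H.norm_cc
    have hk := H.k1
    have ha := H.ha
    have hb := H.hb
    obtain ⟨s, hs, h3⟩ := H.ld.hole z (by
      unfold RR at *
      nlinarith)
    refine ⟨s, mem_SS.2 ⟨hs, ?_⟩, h3⟩
    have := norm_tri s z (cc z0 u k a b)
    linarith

theorem gp : GP (SS S z0 u k a b : Set ℂ) := H.dns.gp

/-- the interior of the disc -/
theorem hol : Locx922.Hol (SS S z0 u k a b : Set ℂ) {w | ‖w - cc z0 u k a b‖ ≤ RR k a b - 2 * d} d := by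
  intro w hw z hz
  have hd := H.dp
  obtain ⟨s, hs, h1⟩ := H.dns.hole z (by
    have := norm_tri z w (cc z0 u k a b)
    have hw' : ‖w - cc z0 u k a b‖ ≤ RR k a b - 2 * d := hw
    linarith)
  exact ⟨s, hs, h1⟩

theorem agr : Locx922.Agr (SS S z0 u k a b : Set ℂ) (S : Set ℂ)
    {w | ‖w - cc z0 u k a b‖ ≤ RR k a b - 2 * d} (2 * d) := by
  intro w hw s hs
  have hw' : ‖w - cc z0 u k a b‖ ≤ RR k a b - 2 * d := hw
  have := norm_tri s w (cc z0 u k a b)
  rw [Finset.mem_coe, Finset.mem_coe, mem_SS]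
  exact ⟨fun h => h.1, fun h => ⟨h, by linarith⟩⟩

theorem cover {p : ℂ} (hp : ‖p - cc z0 u k a b‖ ≤ RR k a b - 2 * d) :
    ∃ t ∈ delT (SS S z0 u k a b), p ∈ cT t := by
  obtain ⟨x, y, w, h1, h2⟩ := Locx922.exists_tri_W H.gp H.dp H.hol
    (show p ∈ {w | ‖w - cc z0 u k a b‖ ≤ RR k a b - 2 * d} from hp)
  exact ⟨(x, y, w), h1, h2⟩

theorem tri_small {t : ℂ × ℂ × ℂ} (ht : t ∈ delT (SS S z0 u k a b)) {p : ℂ} (hp : p ∈ cT t)
    (hd : ‖p - cc z0 u k a b‖ ≤ RR k a b - 2 * d) :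
    (‖t.1 - p‖ < 2 * d ∧ ‖t.2.1 - p‖ < 2 * d ∧ ‖t.2.2 - p‖ < 2 * d) ∧ dm t ≤ 2 * d := by
  have hW : p ∈ {w | ‖w - cc z0 u k a b‖ ≤ RR k a b - 2 * d} := hd
  have hDel : Del (SS S z0 u k a b : Set ℂ) t.1 t.2.1 t.2.2 := mem_delT.1 ht
  have hD := Locx922.InT.inD hDel.2.2.2.1 hp
  obtain ⟨o, h1, h2, h3, h4, h5, ga, gb, gc⟩ := Locx922.del_small H.dp H.hol hW hD hDel
  obtain ⟨k1, k2, k3⟩ := Locx922.del_side H.dp H.hol hW hD hDel
  exact ⟨⟨ga, gb, gc⟩, max_le (max_le k1.le k2.le) k3.le⟩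

theorem vert_small {x y w p : ℂ} (ht : (x, y, w) ∈ delT (SS S z0 u k a b)) (hp : p ∈ cT (x, y, w))
    (hd : ‖p - cc z0 u k a b‖ ≤ RR k a b - 2 * d) :
    (‖x - p‖ < 2 * d ∧ ‖y - p‖ < 2 * d ∧ ‖w - p‖ < 2 * d) ∧
      x ∈ SS S z0 u k a b ∧ y ∈ SS S z0 u k a b ∧ w ∈ SS S z0 u k a b := by
  obtain ⟨m1, m2, m3, -⟩ := mem_delT.1 ht
  exact ⟨(H.tri_small ht hp hd).1, m1, m2, m3⟩

/-- corner of a triangle at a deep point -/
theorem vt {t : ℂ × ℂ × ℂ} (ht : t ∈ delT (SS S z0 u k a b)) {p : ℂ} (hp : p ∈ cT t)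
    (hd : ‖p - cc z0 u k a b‖ ≤ RR k a b - 2 * d) {v : ℂ} (hv : RB2x54.Vt t v) :
    ‖v - p‖ < 2 * d ∧ v ∈ SS S z0 u k a b := by
  obtain ⟨x, y, w⟩ := t
  obtain ⟨⟨h1, h2, h3⟩, m1, m2, m3⟩ := H.vert_small ht hp hd
  rcases hv with rfl | rfl | rfl
  · exact ⟨h1, m1⟩
  · exact ⟨h2, m2⟩
  · exact ⟨h3, m3⟩

/-- locality of the triangles -/
theorem del_iff {t : ℂ × ℂ × ℂ} {p : ℂ} (hp : p ∈ cT t)
    (hd : ‖p - cc z0 u k a b‖ ≤ RR k a b - 2 * d) :
    t ∈ delT (SS S z0 u k a b) ↔ t ∈ delT S :=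
  Locx922.delT_local (a := t.1) (b := t.2.1) (c := t.2.2) H.dp H.hol H.agr hd hp

/-- the sums of squares -/
theorem mesh {r C4 : ℝ} (hM : Mesh S z0 (20 * (1 + k) * (a + b)) r C4) {x : ℂ}
    (hx : ‖x - cc z0 u k a b‖ + r ≤ RR k a b - 2 * d) (hr : 0 ≤ r) :
    ∑ t ∈ (delT (SS S z0 u k a b)).filter
      (fun t => (cT t ∩ Metric.closedBall x r).Nonempty), dm t ^ 2 ≤ C4 * r ^ 2 := by
  have hk := H.k1
  have ha := H.ha
  have hb := H.hb
  have hd := H.dp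
  refine le_trans ?_ (hM x ?_)
  · apply Finset.sum_le_sum_of_subset_of_nonneg _ fun t _ _ => sq_nonneg _
    intro t ht
    obtain ⟨h1, y, hy1, hy2⟩ := Finset.mem_filter.1 ht
    refine Finset.mem_filter.2 ⟨?_, y, hy1, hy2⟩
    refine (H.del_iff hy1 ?_).1 h1
    rw [Metric.mem_closedBall, dist_eq_norm] at hy2
    have := norm_tri y x (cc z0 u k a b)
    linarith
  · have h1 := norm_tri x (cc z0 u k a b) z0
    have h2 := H.norm_cc
    unfold RR at *
    nlinarith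

end SH

end Crest.Agent.R143.SSbx930
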