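import Crest.Agent.R143.Qd3_54
import Crest.Agent.R143.RBm_838
import Crest.Agent.R143.SSb_930
import Crest.Agent.R143.HUL_838

/-!
# Row 143 (S0194): RSW without E3, assembly T5 (helper54)

* `PgQ` : the quads of a polygon, `fre_qk`
* `comb` : if every bottom segment is cut off from the top by a black chain, there is a black chain
  from the left to the right class
* `prob` : Harris
* `cross_of` : such a chain contains a crossing of the rectangle
* `rbm_of` : `EPG → GEO3 → RBm`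
-/

set_option autoImplicit false

noncomputable section

open scoped Classical

namespace Crest.Agent.R143.Qd4x54

open Set
open Crest.Agent.R143.B0x346 Crest.Agent.R143.DelGx806 Crest.Agent.R143.DelRx806
  Crest.Agent.R143.Crsx117
open Crest.Agent.R143.Harx315 (pr Up harris_prod_up pr_mono pr_congr)
open Crest.Agent.R143.RE0x723
open Crest.Agent.R143.JColx54 (Adj)
open Crest.Agent.R143.Circx63 (cT)
open Crest.Agent.R143.ToolWx838 (prs prs_nil prs_one prs_cons)
open Crest.Agent.R143.Blkx838 (DE)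
open Crest.Agent.R143.RB0x838 (LDns Mesh Cross)

variable {S : Finset ℂ} {n : ℕ} {w : ℤ → ℂ} {m : ℕ} {p : ℕ → ℤ} {A : ℕ → Finset ℂ}

/-! ### quads of a polygon -/

theorem mem_un {i l : ℕ} {v : ℂ} : v ∈ un A i l ↔ ∃ j, i ≤ j ∧ j < l ∧ v ∈ A j := by
  unfold un
  simp only [Finset.mem_biUnion, Finset.mem_Ico]
  constructor
  · rintro ⟨j, ⟨h1, h2⟩, h3⟩; exact ⟨j, h1, h2, h3⟩
  · rintro ⟨j, h1, h2, h3⟩; exact ⟨j, ⟨h1, h2⟩, h3⟩

theorem qk0 (m i j l : ℕ) : qk A m i j l 0 = un A 0 i := by unfold qk; rw [if_pos rfl]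
theorem qk1 (m i j l : ℕ) : qk A m i j l 1 = un A i j := by
  unfold qk; rw [if_neg (by decide), if_pos rfl]
theorem qk2 (m i j l : ℕ) : qk A m i j l 2 = un A j l := by
  unfold qk; rw [if_neg (by decide), if_neg (by decide), if_pos rfl]
theorem qk3 (m i j l : ℕ) : qk A m i j l 3 = un A l (m + 1) := by
  unfold qk; rw [if_neg (by decide), if_neg (by decide), if_neg (by decide)]

theorem mono' (P : Pg S n w m p A) {i j : ℕ} (hij : i ≤ j) (hj : j ≤ m) : p i ≤ p j := by
  induction j, hij using Nat.le_induction with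
  | base => exact le_rfl
  | succ j h ih => exact (ih (by omega)).trans (P.mono j (by omega)).le

theorem smono (P : Pg S n w m p A) {i j : ℕ} (hij : i < j) (hj : j ≤ m) : p i < p j :=
  lt_of_lt_of_le (P.mono i (by omega)) (mono' P (by omega) hj)

/-- sites of an arc -/
theorem arc_un (P : Pg S n w m p A) {i l : ℕ} (hil : i ≤ l) (hl : l ≤ m) {k : ℤ}
    (h1 : p i < k) (h2 : k ≤ p l) : w k ∈ un A i l := by
  induction l, hil using Nat.le_induction with
  | base => omega
  | succ l h ih =>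
    rcases le_or_gt k (p l) with h3 | h3
    · obtain ⟨j, g1, g2, g3⟩ := mem_un.1 (ih (by omega) h3)
      exact mem_un.2 ⟨j, g1, by omega, g3⟩
    · exact mem_un.2 ⟨l, h, by omega, P.arc l (by omega) k h3 h2⟩

theorem arc_last (P : Pg S n w m p A) {l : ℕ} (hl : l ≤ m) {k : ℤ}
    (h1 : p l < k) (h2 : k ≤ p 0 + n) : w k ∈ un A l (m + 1) := by
  rcases le_or_gt k (p m) with h3 | h3
  · obtain ⟨j, g1, g2, g3⟩ := mem_un.1 (arc_un P hl le_rfl h1 h3)
    exact mem_un.2 ⟨j, g1, by omega, g3⟩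
  · exact mem_un.2 ⟨m, hl, by omega, P.arcl k h3 h2⟩

/-- the edge between two consecutive classes -/
theorem link (P : Pg S n w m p A) {j : ℕ} (hj : j < m) :
    ∃ x ∈ A j, ∃ y ∈ A (j + 1), Adj S x y := by
  refine ⟨w (p (j + 1)), P.arc j hj _ (P.mono j hj) le_rfl, w (p (j + 1) + 1), ?_,
    Crs6x117.adj_of_hull (P.cyc.edge _)⟩
  rcases Nat.lt_or_ge (j + 1) m with h | h
  · exact P.arc (j + 1) h _ (by omega) (by have := P.mono (j + 1) h; omega)
  · have e : j + 1 = m := by omega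
    rw [e]
    have h1 : p m < p 0 + n := P.last
    exact P.arcl _ (by omega) (by omega)

/-- a union of consecutive classes is connected -/
theorem con_un (P : Pg S n w m p A) {i l : ℕ} (hl : l ≤ m + 1) :
    ∀ x ∈ un A i l, ∀ y ∈ un A i l, Pth S (un A i l : Set ℂ) x y := by
  have base : ∀ j, i ≤ j → j < l → ∀ x ∈ A j, ∀ y ∈ A j, Pth S (un A i l : Set ℂ) x y := by
    intro j h1 h2 x hx y hy
    refine Pth.mono ?_ (P.con j (by omega) x hx y hy)
    intro v hv
    exact Finset.mem_coe.2 (mem_un.2 ⟨j, h1, h2, Finset.mem_coe.1 hv⟩)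
  have up : ∀ j j', i ≤ j → j ≤ j' → j' < l → ∀ x ∈ A j, ∀ y ∈ A j',
      Pth S (un A i l : Set ℂ) x y := by
    intro j j' h1 h2
    induction j', h2 using Nat.le_induction with
    | base => intro h3 x hx y hy; exact base j h1 h3 x hx y hy
    | succ j' h2 ih =>
      intro h3 x hx y hy
      obtain ⟨a, ha, b, hb, hab⟩ := link P (j := j') (by omega)
      have h4 := ih (by omega) x hx a ha
      have h5 := base (j' + 1) (by omega) h3 b hb y hy
      exact (h4.tail hab h5.1).trans h5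
  intro x hx y hy
  obtain ⟨j, g1, g2, g3⟩ := mem_un.1 hx
  obtain ⟨j', g1', g2', g3'⟩ := mem_un.1 hy
  rcases le_total j j' with h | h
  · exact up j j' g1 h g2' x g3 y g3'
  · exact (up j' j g1' h g2 y g3' x g3).symm

theorem disj_un (P : Pg S n w m p A) {i l i' l' : ℕ} (_hl : l ≤ m + 1) (hl' : l' ≤ m + 1)
    (h : l ≤ i') : Disjoint (un A i l) (un A i' l') := by
  rw [Finset.disjoint_left]
  intro v hv hv'
  obtain ⟨j, g1, g2, g3⟩ := mem_un.1 hv
  obtain ⟨j', g1', g2', g3'⟩ := mem_un.1 hv'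
  exact Finset.disjoint_left.1 (P.disj j j' (by omega) (by omega) (by omega)) g3 g3'

/-- **the quads of a polygon** -/
theorem PgQ (P : Pg S n w m p A) {i j l : ℕ} (h0 : 0 < i) (h1 : i < j) (h2 : j < l) (h3 : l ≤ m) :
    Qd S n w (p 0) (p i) (p j) (p l) (qk A m i j l) where
  gp := P.gp
  m4 :=
    { cyc := P.cyc
      h01 := smono P h0 (by omega)
      h12 := smono P h1 (by omega)
      h23 := smono P h2 (by omega)
      h30 := lt_of_le_of_lt (mono' P h3 le_rfl) P.last }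
  sub := by
    intro c v hv
    have key : ∀ i l, l ≤ m + 1 → v ∈ un A i l → v ∈ S := by
      intro i l hl h
      obtain ⟨j, g1, g2, g3⟩ := mem_un.1 h
      exact P.sub j (by omega) g3
    rcases Qd3x54.z4 c with rfl | rfl | rfl | rfl
    · rw [qk0] at hv; exact key _ _ (by omega) hv
    · rw [qk1] at hv; exact key _ _ (by omega) hv
    · rw [qk2] at hv; exact key _ _ (by omega) hv
    · rw [qk3] at hv; exact key _ _ (by omega) hv
  disj := by
    intro c c' hc
    have d01 : Disjoint (un A 0 i) (un A i j) := disj_un P (by omega) (by omega) le_rfl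
    have d02 : Disjoint (un A 0 i) (un A j l) := disj_un P (by omega) (by omega) h1.le
    have d03 : Disjoint (un A 0 i) (un A l (m + 1)) := disj_un P (by omega) (by omega) (by omega)
    have d12 : Disjoint (un A i j) (un A j l) := disj_un P (by omega) (by omega) le_rfl
    have d13 : Disjoint (un A i j) (un A l (m + 1)) := disj_un P (by omega) (by omega) h2.le
    have d23 : Disjoint (un A j l) (un A l (m + 1)) := disj_un P (by omega) (by omega) le_rfl
    rcases Qd3x54.z4 c with rfl | rfl | rfl | rfl <;> rcases Qd3x54.z4 c' with rfl | rfl | rfl | rfl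
    all_goals first
      | exact absurd rfl hc
      | (simp only [qk0, qk1, qk2, qk3]
         first
          | exact d01 | exact d02 | exact d03 | exact d12 | exact d13 | exact d23
          | exact d01.symm | exact d02.symm | exact d03.symm | exact d12.symm | exact d13.symm
          | exact d23.symm)
  con := by
    intro c
    rcases Qd3x54.z4 c with rfl | rfl | rfl | rfl
    · rw [qk0]; exact con_un P (by omega)
    · rw [qk1]; exact con_un P (by omega)
    · rw [qk2]; exact con_un P (by omega)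
    · rw [qk3]; exact con_un P (by omega)
  a0 := by
    intro k g1 g2
    rw [qk0]
    exact arc_un P (by omega) (by omega) g1 g2
  a1 := by
    intro k g1 g2
    rw [qk1]
    exact arc_un P (by omega) (by omega) g1 g2
  a2 := by
    intro k g1 g2
    rw [qk2]
    exact arc_un P (by omega) (by omega) g1 g2
  a3 := by
    intro k g1 g2
    rw [qk3]
    exact arc_last P h3 g1 g2

theorem fre_qk {i j l : ℕ} (h1 : i ≤ j) (h2 : j ≤ l) (h3 : l ≤ m) :
    fre S (qk A m i j l) = inr S A m := by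
  ext v
  unfold fre inr
  rw [Finset.mem_filter, Finset.mem_sdiff]
  refine and_congr_right fun _ => ?_
  constructor
  · intro h hv
    obtain ⟨c, g1, g2, g3⟩ := mem_un.1 hv
    have a0 := h 0
    have a1 := h 1
    have a2 := h 2
    have a3 := h 3
    rw [qk0, mem_un] at a0
    rw [qk1, mem_un] at a1
    rw [qk2, mem_un] at a2
    rw [qk3, mem_un] at a3
    by_cases c1 : c < i
    · exact a0 ⟨c, g1, c1, g3⟩
    by_cases c2 : c < j
    · exact a1 ⟨c, by omega, c2, g3⟩
    by_cases c3 : c < l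
    · exact a2 ⟨c, by omega, c3, g3⟩
    · exact a3 ⟨c, by omega, g2, g3⟩
  · intro h c hv
    apply h
    have key : ∀ i l, l ≤ m + 1 → v ∈ un A i l → v ∈ un A 0 (m + 1) := by
      intro i l hl h
      obtain ⟨j, g1, g2, g3⟩ := mem_un.1 h
      exact mem_un.2 ⟨j, Nat.zero_le _, by omega, g3⟩
    rcases Qd3x54.z4 c with rfl | rfl | rfl | rfl
    · rw [qk0] at hv; exact key _ _ (by omega) hv
    · rw [qk1] at hv; exact key _ _ (by omega) hv
    · rw [qk2] at hv; exact key _ _ (by omega) hv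
    · rw [qk3] at hv; exact key _ _ (by omega) hv

/-! ### combination of the cuts -/

/-- last exit: a path from a site of `Q` to a site off `Q` -/
theorem last_exit {V : Set ℂ} {Q : ℂ → Prop} {x y : ℂ} (h : Pth S V x y) (h0 : Q x)
    (h1 : ¬ Q y) : ∃ u v, u ∈ V ∧ Q u ∧ Adj S u v ∧ Pth S {w | w ∈ V ∧ ¬ Q w} v y := by
  obtain ⟨u, v, g1, g2, g3, g4⟩ := Pth.exit (Q := fun w => ¬ Q w) h.symm h1 (not_not.2 h0)
  exact ⟨v, u, g3, not_not.1 g4, g2.symm, g1.symm⟩

theorem comb {N : ℕ} (P : Pg S n w (N + 2) p A) (hN : 1 ≤ N) {T : Finset ℂ}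
    (hT : T ⊆ inr S A (N + 2))
    (h : ∀ i, 1 ≤ i → i ≤ N → Crq S (qk A (N + 2) i (i + 1) (N + 2)) 0 T) :
    Crq S (qk A (N + 2) 1 (N + 1) (N + 2)) 0 T := by
  have hQ := PgQ P (i := 1) (j := N + 1) (l := N + 2) (by omega) (by omega) (by omega) le_rfl
  have hf := fre_qk (S := S) (A := A) (m := N + 2) (i := 1) (j := N + 1) (l := N + 2) (by omega)
    (by omega) le_rfl
  rw [Qd3x54.xorq hQ (by rw [hf]; exact hT), hf]
  rintro ⟨x, hx, y, hy, hxy⟩
  have e3 : (1 : ZMod 4) + 2 = 3 := by decide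
  rw [e3, qk1, qk3] at hxy
  rw [qk1] at hx
  rw [e3, qk3] at hy
  have hdis := disj_un P (i := 1) (l := N + 1) (i' := N + 2) (l' := N + 2 + 1) (by omega) le_rfl
    (by omega)
  have hyn : y ∉ un A 1 (N + 1) := fun h' => Finset.disjoint_left.1 hdis h' hy
  obtain ⟨u, v, g1, g2, g3, g4⟩ := last_exit (Q := fun v => v ∈ un A 1 (N + 1)) hxy hx hyn
  obtain ⟨i, hi1, hi2, hi3⟩ := mem_un.1 g2
  have hQi := PgQ P (i := i) (j := i + 1) (l := N + 2) (by omega) (by omega) (by omega) le_rfl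
  have hfi := fre_qk (S := S) (A := A) (m := N + 2) (i := i) (j := i + 1) (l := N + 2) (by omega)
    (by omega) le_rfl
  have hi := h i hi1 (by omega)
  rw [Qd3x54.xorq hQi (by rw [hfi]; exact hT), hfi] at hi
  apply hi
  have hu : u ∈ un A i (i + 1) := mem_un.2 ⟨i, le_rfl, by omega, hi3⟩
  refine ⟨u, by rw [qk1]; exact hu, y, by rw [e3, qk3]; exact hy, ?_⟩
  rw [e3, qk1, qk3]
  have hsub : {w | w ∈ {v | v ∈ inr S A (N + 2) \ T ∨ v ∈ un A 1 (N + 1) ∨
      v ∈ un A (N + 2) (N + 2 + 1)} ∧ ¬ w ∈ un A 1 (N + 1)} ⊆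
      {v | v ∈ inr S A (N + 2) \ T ∨ v ∈ un A i (i + 1) ∨ v ∈ un A (N + 2) (N + 2 + 1)} := by
    rintro z ⟨h1 | h1 | h1, h2⟩
    · exact Or.inl h1
    · exact absurd h1 h2
    · exact Or.inr (Or.inr h1)
  have h5 := Pth.mono hsub g4
  exact (Pth.single (Or.inr (Or.inl hu)) g3 h5.1).trans h5

theorem crq_up (V : Finset ℂ) (B : ZMod 4 → Finset ℂ) (c : ZMod 4) : Up V (Crq S B c) := by
  rintro T T' h1 - ⟨x, hx, y, hy, h⟩
  refine ⟨x, hx, y, hy, Pth.mono ?_ h⟩
  rintro v (hv | hv | hv)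
  · exact Or.inl (h1 hv)
  · exact Or.inr (Or.inl hv)
  · exact Or.inr (Or.inr hv)

/-- **Harris** -/
theorem prob {N : ℕ} (P : Pg S n w (N + 2) p A) (hN : 1 ≤ N) (h : EPk S A N) :
    (1 / 3 : ℝ) ^ N ≤ pr (inr S A (N + 2)) (Crq S (qk A (N + 2) 1 (N + 1) (N + 2)) 0) := by
  have h1 := harris_prod_up (V := inr S A (N + 2)) (Finset.Icc 1 N)
    (A := fun i => Crq S (qk A (N + 2) i (i + 1) (N + 2)) 0) fun i _ => crq_up _ _ _
  have h2 : (1 / 3 : ℝ) ^ N ≤ ∏ i ∈ Finset.Icc 1 N, pr (inr S A (N + 2))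
      (Crq S (qk A (N + 2) i (i + 1) (N + 2)) 0) := by
    have h3 : ∏ i ∈ Finset.Icc 1 N, (1 / 3 : ℝ) = (1 / 3 : ℝ) ^ N := by
      rw [Finset.prod_const, Nat.card_Icc, Nat.add_sub_cancel]
    rw [← h3]
    refine Finset.prod_le_prod (fun i _ => by norm_num) fun i hi => ?_
    rw [Finset.mem_Icc] at hi
    exact h i hi.1 hi.2
  refine h2.trans (h1.trans (pr_mono fun T hT h4 => ?_))
  exact comb P hN hT fun i hi1 hi2 => h4 i (Finset.mem_Icc.2 ⟨hi1, hi2⟩)

/-! ### the crossing of the rectangle -/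

/-- a chain as a list -/
theorem list_of {S' : Finset ℂ} {V : Set ℂ} {x y : ℂ} (h : Pth S' V x y)
    (hDE : ∀ a b, a ∈ V → b ∈ V → Adj S' a b → DE S b a) :
    ∃ (l : List ℂ) (ne : l ≠ []), (∀ p ∈ prs l, DE S p.1 p.2) ∧ (∀ s ∈ l, s ∈ V) ∧
      l.head ne = y ∧ l.getLast ne = x := by
  obtain ⟨hx, h⟩ := h
  induction h with
  | refl => exact ⟨[x], by simp, by simp, by simpa using hx, rfl, rfl⟩
  | @tail b c hb hbc ih =>
    obtain ⟨l, ne, h1, h2, h3, h4⟩ := ih
    cases l with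
    | nil => exact absurd rfl ne
    | cons e l =>
      simp only [List.head_cons] at h3
      subst h3
      refine ⟨c :: e :: l, by simp, ?_, ?_, rfl, ?_⟩
      · intro q hq
        rw [prs_cons, List.mem_cons] at hq
        rcases hq with rfl | hq
        · exact hDE e c (h2 e (by simp)) hbc.2 hbc.1
        · exact h1 q hq
      · intro q hq
        rw [List.mem_cons] at hq
        rcases hq with rfl | hq
        · exact hbc.2
        · exact h2 q hq
      · rw [List.getLast_cons (List.cons_ne_nil _ _)]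
        exact h4

variable {z0 u : ℂ} {a b k d : ℝ} {K N : ℕ}

theorem adj_tri {S' : Finset ℂ} {x y : ℂ} (h : Adj S' x y) :
    ∃ t ∈ delT S', x ∈ cT t ∧ y ∈ cT t ∧ RB2x54.Vt t x ∧ RB2x54.Vt t y ∧
      (t ∈ delT S → DE S x y) := by
  rcases h with ⟨c, hc⟩ | ⟨c, hc⟩
  · obtain ⟨o, hT⟩ := mem_delT_iff.1 hc
    exact ⟨(x, y, c), hc, Circx63.seg_sub_cT hT.pos (left_mem_segment ℝ x y),
      Circx63.seg_sub_cT hT.pos (right_mem_segment ℝ x y), Or.inl rfl, Or.inr (Or.inl rfl),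
      fun h => Or.inl ⟨c, h⟩⟩
  · obtain ⟨o, hT⟩ := mem_delT_iff.1 hc
    exact ⟨(y, x, c), hc, Circx63.seg_sub_cT hT.pos (right_mem_segment ℝ y x),
      Circx63.seg_sub_cT hT.pos (left_mem_segment ℝ y x), Or.inr (Or.inl rfl), Or.inl rfl,
      fun h => Or.inr ⟨c, h⟩⟩

theorem hh_le (hb : 0 < b) (K : ℕ) : 0 < hh K b ∧ hh K b ≤ b / 16 := by
  have h1 : (2 : ℝ) ≤ (MM K : ℝ) := by
    have : 2 ≤ MM K := by
      unfold MM
      exact Nat.le_add_left 2 _
    exact_mod_cast this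
  unfold hh
  refine ⟨by positivity, ?_⟩
  apply div_le_div_of_nonneg_left hb.le (by norm_num)
  linarith

theorem cross_of (H : SSbx930.SH S z0 u a b k d) (hsm : 200 * (1 + k) ^ 3 * d ≤ b)
    (G : Geo S z0 u a b k K n w N p A) {T : Finset ℂ}
    (hT : T ⊆ inr (SS S z0 u k a b) A (N + 2))
    (h : Crq (SS S z0 u k a b) (qk A (N + 2) 1 (N + 1) (N + 2)) 0 T) :
    ∃ l, Cross S z0 u a b T l := by
  have ha := H.ha
  have hb := H.hb
  have hk := H.k1
  have hd := H.dp
  have hdb := H.d_b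
  obtain ⟨hh0, hh1⟩ := hh_le (K := K) hb
  have hx1 : xj K a b 1 = -(a + b / 4) := HULx838.xj_one K
  have hxl := G.nok.xl
  have hxr := G.nok.xr
  -- inner sites
  have hin : ∀ s ∈ T, |X z0 u s| ≤ a + b / 2 ∧ |Y z0 u s| ≤ b / 2 := by
    intro s hs
    have h1 := hT hs
    unfold inr at h1
    rw [Finset.mem_sdiff] at h1
    have h2 := (G.outer s h1.1).not.1 (by
      rintro ⟨j, g1, g2⟩
      exact h1.2 (mem_un.2 ⟨j, Nat.zero_le _, by omega, g2⟩))
    push Not at h2
    obtain ⟨g1, g2, g3, g4⟩ := h2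
    refine ⟨abs_le.2 ⟨by linarith, by linarith⟩, abs_le.2 ⟨g4, g3.le⟩⟩
  have hdeep : ∀ s ∈ T, ‖s - cc z0 u k a b‖ ≤ RR k a b - 2 * d := by
    intro s hs
    obtain ⟨g1, g2⟩ := hin s hs
    rw [abs_le] at g2
    have := H.deep (s := s) (by linarith) (by linarith) (by linarith)
    linarith
  -- edges at inner sites
  have hedge : ∀ x ∈ T, ∀ y, Adj (SS S z0 u k a b) x y → ‖x - y‖ < 2 * d ∧ DE S x y := by
    intro x hx y hxy
    obtain ⟨t, ht, h1, h2, h3, h4, h5⟩ := adj_tri (S := S) hxy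
    have h6 := H.vt ht h1 (hdeep x hx) h4
    refine ⟨by rw [norm_sub_rev]; exact h6.1, h5 ((H.del_iff h1 (hdeep x hx)).1 ht)⟩
  -- long edges
  have hlong : ∀ x y, Adj (SS S z0 u k a b) x y → ‖x - y‖ ≤ a := by
    intro x y hxy
    obtain ⟨t, ht, h1, h2, h3, h4, -⟩ := adj_tri (S := S) hxy
    have h6 : ‖x - y‖ ≤ 5 * Real.sqrt (RR k a b * d) := by
      obtain ⟨c, hc | hc⟩ : ∃ c, (x, y, c) ∈ delT (SS S z0 u k a b) ∨
          (y, x, c) ∈ delT (SS S z0 u k a b) := exists_or.2 hxy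
      · obtain ⟨o, hT⟩ := mem_delT_iff.1 hc
        exact Ex2x922.tri_near H.dns hc (Circx63.seg_sub_cT hT.pos (right_mem_segment ℝ x y))
      · obtain ⟨o, hT⟩ := mem_delT_iff.1 hc
        rw [norm_sub_rev]
        exact Ex2x922.tri_near H.dns hc (Circx63.seg_sub_cT hT.pos (right_mem_segment ℝ y x))
    refine h6.trans ?_
    have h7 : Real.sqrt (RR k a b * d) ≤ a / 5 := by
      rw [Real.sqrt_le_left (by positivity)]
      unfold RR
      have h8 : b ≤ k * a := H.ba
      have h9 : (1 + k) * (a + b) ≤ (1 + k) ^ 2 * a := by nlinarith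
      have h10 : 8 * (1 + k) * (a + b) * d ≤ 8 * ((1 + k) ^ 2 * a) * d := by
        apply mul_le_mul_of_nonneg_right _ hd.le
        linarith
      have h11 : 200 * (1 + k) ^ 2 * d ≤ a := by
        have h12 : (1 + k) * (200 * (1 + k) ^ 2 * d) ≤ (1 + k) * a := by nlinarith
        exact le_of_mul_le_mul_left h12 (by linarith)
      nlinarith
    linarith
  -- the path
  have e2 : (0 : ZMod 4) + 2 = 2 := by decide
  obtain ⟨x, hx, y, hy, hxy⟩ := h
  rw [e2] at hy
  rw [e2, qk0, qk2] at hxy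
  rw [qk0] at hx
  rw [qk2] at hy
  have m0 : ∀ v, v ∈ un A 0 1 → v ∈ A 0 := by
    intro v hv
    obtain ⟨j, g1, g2, g3⟩ := mem_un.1 hv
    have : j = 0 := by omega
    rwa [this] at g3
  have m2 : ∀ v, v ∈ un A (N + 1) (N + 2) → v ∈ A (N + 1) := by
    intro v hv
    obtain ⟨j, g1, g2, g3⟩ := mem_un.1 hv
    have : j = N + 1 := by omega
    rwa [this] at g3
  have hne : ∀ v, v ∈ A 0 → v ∉ A (N + 1) := fun v hv hv' =>
    Finset.disjoint_left.1 (G.pg.disj 0 (N + 1) (by omega) (by omega) (by omega)) hv hv'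
  obtain ⟨q, r, g1, g2, g3, g4⟩ := Pth.exit (Q := fun v => v ∉ A (N + 1)) hxy (hne x (m0 x hx))
    (not_not.2 (m2 y hy))
  have g4' : r ∈ A (N + 1) := not_not.1 g4
  -- the last site before the right class is in `T`
  have hqV := g1.snd
  have hqT : q ∈ T := by
    rcases hqV.1 with h1 | h1 | h1
    · exact h1
    · exfalso
      have h2 := G.loc0 q (m0 q h1)
      have h3 := G.locN r g4'
      have h4 := hlong q r g2
      have h5 := H.X_diff (z0 := z0) r q
      rw [abs_le] at h5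
      rw [norm_sub_rev] at h4
      rw [hx1] at h2
      linarith [h5.1, h5.2]
    · exact absurd (m2 q h1) hqV.2
  have g1' := g1.symm
  have hqn : ¬ q ∈ A 0 := by
    intro h1
    have h2 := G.loc0 q h1
    have h3 := (hin q hqT)
    have h4 := hT hqT
    unfold inr at h4
    rw [Finset.mem_sdiff] at h4
    exact h4.2 (mem_un.2 ⟨0, le_rfl, by omega, h1⟩)
  obtain ⟨q', r', f1, f2, f3, f4⟩ := Pth.exit (Q := fun v => v ∉ A 0) g1' hqn
    (not_not.2 (m0 x hx))
  have f4' : r' ∈ A 0 := not_not.1 f4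
  have hsub : {w | w ∈ {w | w ∈ {v | v ∈ T ∨ v ∈ un A 0 1 ∨ v ∈ un A (N + 1) (N + 2)} ∧
      w ∉ A (N + 1)} ∧ w ∉ A 0} ⊆ (T : Set ℂ) := by
    rintro z ⟨⟨h1 | h1 | h1, h2⟩, h3⟩
    · exact h1
    · exact absurd (m0 z h1) h3
    · exact absurd (m2 z h1) h2
  have f5 := Pth.mono hsub f1
  have hq'T : q' ∈ T := f5.snd
  obtain ⟨l, ne, l1, l2, l3, l4⟩ := list_of (S := S) f5 fun a b ha hb hab =>
    (hedge b hb a hab.symm).2
  refine ⟨l, ⟨ne, l1, fun s hs => l2 s hs, ?_, ?_, ?_, ?_⟩⟩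
  · intro s hs
    have := (hin s (l2 s hs)).2
    unfold Y at this
    linarith
  · intro s hs
    have := (hin s (l2 s hs)).1
    unfold X at this
    linarith
  · rw [l3]
    have h1 := (hedge q' hq'T r' f2).1
    have h2 := G.loc0 r' f4'
    have h3 := H.X_diff (z0 := z0) q' r'
    rw [abs_le] at h3
    rw [hx1] at h2
    show X z0 u q' ≤ -a
    linarith [h3.1, h3.2]
  · rw [l4]
    have h1 := (hedge q hqT r g2).1
    have h2 := G.locN r g4'
    have h3 := H.X_diff (z0 := z0) q r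
    rw [abs_le] at h3
    show a ≤ X z0 u q
    linarith [h3.1, h3.2]

/-! ### assembly -/

theorem inr_sub (A : ℕ → Finset ℂ) (m : ℕ) : inr (SS S z0 u k a b) A m ⊆ S := by
  intro v hv
  unfold inr at hv
  rw [Finset.mem_sdiff] at hv
  exact (SSbx930.mem_SS.1 hv.1).1

/-- **T5** -/
theorem rbm_of (hG : GEO3) (hE : EPG) : RBmx838.RBm := by
  intro k hk C4 hC4
  obtain ⟨K, hK, c1, hc1, c2, hc2, hc2', E⟩ := hE k C4 hk hC4
  obtain ⟨c3, hc3, G⟩ := hG k hk K hK
  have hk1 : 0 < 200 * (1 + k) ^ 3 := by positivity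
  refine ⟨(1 / 3) ^ ⌈8 * (MM K : ℝ) * (2 * k + 1) + 1⌉₊, min (min c1 c3) (1 / (200 * (1 + k) ^ 3)),
    c2, 20 * (1 + k), by positivity, lt_min (lt_min hc1 hc3) (by positivity), hc2, hc2',
    by positivity, ?_⟩
  intro S z0 u a b d hu ha hb hab hba hD hM hd
  have hd1 : d ≤ c1 * b := hd.trans (mul_le_mul_of_nonneg_right
    ((min_le_left _ _).trans (min_le_left _ _)) hb.le)
  have hd3 : d ≤ c3 * b := hd.trans (mul_le_mul_of_nonneg_right
    ((min_le_left _ _).trans (min_le_right _ _)) hb.le)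
  have hd4 : 200 * (1 + k) ^ 3 * d ≤ b := by
    have h1 : d ≤ 1 / (200 * (1 + k) ^ 3) * b := hd.trans (mul_le_mul_of_nonneg_right
      (min_le_right _ _) hb.le)
    rw [one_div, inv_mul_eq_div, le_div_iff₀ hk1] at h1
    linarith
  have hdp := hD.dpos
  have hsm : 100 * (1 + k) * d ≤ b := by
    refine le_trans ?_ hd4
    apply mul_le_mul_of_nonneg_right _ hdp.le
    nlinarith [sq_nonneg (1 + k), sq_nonneg k]
  obtain ⟨n, w, N, p, A, g⟩ := G S z0 u a b d hu ha hb hab hba hD hd3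
  have h1 := E S z0 u a b d hu ha hb hab hba hD hd1 (fun r h2 h3 => hM r h2 h3) n w N p A g
  have H : SSbx930.SH S z0 u a b k d := ⟨hk, hu, ha, hb, hab, hba, hD, hsm⟩
  have hN : 1 ≤ N := by
    have h0 := g.nok.MN
    have h00 : 2 ≤ MM K := by
      unfold MM
      exact Nat.le_add_left 2 _
    omega
  refine ⟨inr (SS S z0 u k a b) A (N + 2), inr_sub A (N + 2), ?_⟩
  have h2 := prob g.pg hN h1
  refine le_trans ?_ (h2.trans (pr_mono fun T hT h3 => cross_of H hd4 g hT h3))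
  refine pow_le_pow_of_le_one (by norm_num) (by norm_num) ?_
  exact_mod_cast (g.nok.Nle.trans (Nat.le_ceil _))

end Crest.Agent.R143.Qd4x54
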