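import Crest.Agent.R143.RE5_723
import Crest.Agent.R143.REw_838
import Crest.Agent.R143.EPG_930
import Crest.Agent.R143.Qd3_54
import Crest.Agent.R143.Qd4_54

/-!
# Row 143, RSW without E3 (RBE): the strip theorem (helper54)

* `geo3` : the polygon of a strip (723's `geo3_of` and 838's walks)
* `epg` : the E3-free gauge bound in the polygon (930's `epg` and `Qd3_54.epq`)
* `rbm` : **the strip theorem of the mesoscopic RSW**
-/

set_option autoImplicit false

noncomputable section

namespace Crest.Agent.R143.RBmFx54

/-- **the polygon of a strip** -/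
theorem geo3 : RE0x723.GEO3 :=
  RE5x723.geo3_of (fun _ _ _ _ _ _ _ H h4 _ hv hx hy => REwx838.walkB H h4 hv hx hy)
    (fun _ _ _ _ _ _ _ H h4 _ hv hx hy => REwx838.walkT H h4 hv hx hy)

/-- **the gauge bound in the polygon** -/
theorem epg : RE0x723.EPG := EPGx930.epg Qd3x54.epq

/-- **the strip theorem**, without E3 -/
theorem rbm : RBmx838.RBm := Qd4x54.rbm_of geo3 epg

end Crest.Agent.R143.RBmFx54

#print axioms Crest.Agent.R143.RBmFx54.rbm
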