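import Crest.Agent.R143.MajA_136
import Crest.Agent.R143.EnvR_795
import Crest.Agent.R143.RBmF_54

/-!
# Row 143 (S0194), block H: `GeoA` for all windows and cores (helper136)

* `RegH` : what [A] needs from the regions of the windows (707's regions)
* **`geoA_env`** : 795's `EnvS` + `RegH` ==> `GeoA` (MajA_136) for all windows and all cores of depth
  `d0`, with one tube probability `p` (the strip theorem is inside)
* `QI` : the data of [A] at one set of sites; **`ry`** : the clause `RY` of `ValsQ` / `RFar`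
-/

set_option autoImplicit false

noncomputable section

open scoped Classical ENNReal

namespace Crest.Agent.R143.GeoIx136

open MeasureTheory Filter Topology
open Crest.ProbabilityR.Voronoi
open Crest.Agent.R143.Mass1x302 Crest.Agent.R143.Mass2x302 Crest.Agent.R143.Mass3x302
  Crest.Agent.R143.Mass4x302 Crest.Agent.R143.Mass5x302 Crest.Agent.R143.MassQx304
  Crest.Agent.R143.Asm4x414 Crest.Agent.R143.PP0x831
open Crest.Agent.R143.Dbl2x609 (Ap paint coe_Ap)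
open Crest.Agent.R143.B0x346 Crest.Agent.R143.DelGx806 Crest.Agent.R143.DelRx806
  Crest.Agent.R143.SmallAx304 Crest.Agent.R143.Frame10x395 Crest.Agent.R143.RevCx389
  Crest.Agent.R143.RevEx389 Crest.Agent.R143.Harx315
  Crest.Agent.R143.SumAx389 Crest.Agent.R143.Meetx707 Crest.Agent.R143.Meet2x707
  Crest.Agent.R143.Stripx707 Crest.Agent.R143.MajAx136 Crest.Agent.R143.BigFx357
open Crest.Agent.R143.EnvRx795 (EnvS Ce Ce_pos)
open Crest.Agent.R143.CircPx838 (sup sup_le_norm norm_le_sup)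
open Crest.Agent.R143.TubeWx707 (TW)
open Crest.Agent.R143.Multix838 (Rect)
open Crest.Agent.R143.FinCx811 (Cs rc0)

/-- the regions of the windows, as [A] needs them: side `u i`, middle `c0 i` of the window -/
structure RegH (zB : ℂ) (hB l t0 a2 : ℝ) (m₀ : ℕ) (u : ℕ → ℂ) (c0 : ℕ → ℝ) {A : Finset ℂ}
    (hS : GP (A : Set ℂ)) (h3 : 3 ≤ A.card) (G : ℕ → Rg (D0 A) (Cs hS))
    (Gf : Rg (D0 A) (Cs hS)) : Prop where
  dir : ∀ i, i < m₀ → Dir (u i)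
  win : ∀ i, i < m₀ → |c0 i| ≤ hB - l
  h0 : ∀ i, i < m₀ → ∀ s, OnHull A s → sr hS h3 s = (G i).h0
  le : ∀ i, i < m₀ → Le (G i) Gf
  th : ∀ i, i < m₀ → ∀ c, c ∈ (G i).Dw → c ∉ (G i).Th
  far : ∀ i, i < m₀ → cel A (sr hS h3) (fun s => hB + a2 ≤ sup (s - zB)) ⊆ (G i).Far
  sec : ∀ i, i < m₀ → cel A (sr hS h3) (Sec (u i) zB hB t0 (c0 i) l) ⊆ (G i).Th
  deep : ∀ i, i < m₀ → cel A (sr hS h3) (fun s => sup (s - zB) ≤ hB - t0) ⊆ (G i).Dp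

/-- the inner sites -/
def inS (A : Finset ℂ) : Finset ℂ := A.filter fun s => ¬ OnHull A s

theorem norm_le_of_sup {s zB : ℂ} {r : ℝ} (h : sup (s - zB) ≤ r) : ‖s‖ ≤ ‖zB‖ + 2 * r := by
  have h1 := norm_le_sup (s - zB)
  have h2 := norm_add_le (s - zB) zB
  rw [sub_add_cancel] at h2
  linarith

/-- **`GeoA` for all windows and all cores** -/
theorem geoA_env {hB d0 l t0 a2 r1 et E : ℝ} (P : Par hB d0 l t0 a2 r1 et E) :
    ∃ p c1 c2 K : ℝ, 0 < p ∧ 0 < c1 ∧ 0 < c2 ∧ c2 ≤ 1 ∧ 0 < K ∧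
    ∀ (A : Finset ℂ) (R d ρ0 : ℝ) (zB : ℂ), EnvS A R d ρ0 → d ≤ c1 * r1 → d ≤ 1 / 2 →
      ρ0 ≤ 1 / 2 → ρ0 ≤ c2 * r1 → ‖zB‖ + 2 * hB + 2 * l + 2 * a2 + K * r1 + r1 + 2 < R →
    ∀ (hS : GP (A : Set ℂ)) (h3 : 3 ≤ A.card) (m₀ : ℕ) (u : ℕ → ℂ) (c0 : ℕ → ℝ)
      (G : ℕ → Rg (D0 A) (Cs hS)) (Gf : Rg (D0 A) (Cs hS)),
      RegH zB hB l t0 a2 m₀ u c0 hS h3 G Gf →
    ∀ Z : Finset ℂ, (∀ z ∈ Z, sup (z - zB) ≤ hB - d0) → ∀ k : ℝ, 2 * k ≤ r1 →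
      GeoA (Metric.closedBall 0 R) k p m₀ A hS h3 G Gf (inS A) Z id (fun _ => r1) zB (hB + a2)
        fun i z => strip (u i) zB hB (c0 i) z E et := by
  obtain ⟨p, c1, c2, K, hp, hc1, hc2, hc2', hK, H⟩ := strip_pr RBmFx54.rbm P Ce Ce_pos.le
  refine ⟨p, c1, c2, K, hp, hc1, hc2, hc2', hK, ?_⟩
  intro A R d ρ0 zB hE hd hd2 hρ hρ2 hR hS h3 m₀ u c0 G Gf hG Z hZ k hk
  have hr := P.pr
  have hB0 := P.pB
  have hd0 := P.pd
  have ha := P.pa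
  have hl : 0 < l := by have := P.l0; have := P.pe; have := P.et_t0; linarith
  have hKr : 0 < K * r1 := by positivity
  have hdp := hE.dpos
  have hVi : ∀ s ∈ inS A, ¬ OnHull A s := fun s hs => (Finset.mem_filter.1 hs).2
  have hVA : inS A ⊆ A := Finset.filter_subset _ _
  refine ⟨?_, ?_, hG.h0, hG.le, hG.th, hVA, hVi, hG.far, ?_, fun _ _ => hk, ?_⟩
  · intro v _ hv
    rw [mem_closedBall_zero_iff] at hv
    exact hE.inn (by linarith)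
  · refine dn_of_hol hdp (hE.holU ?_) ?_
    · intro v hv
      have hv' : sup (v - zB) < hB + a2 := hv
      have := norm_le_of_sup hv'.le
      linarith
    · intro v hv z hz
      have hv' : sup (v - zB) < hB + a2 := hv
      have h1 := norm_le_of_sup hv'.le
      have h2 := norm_add_le (z - v) v
      rw [sub_add_cancel] at h2
      rw [mem_closedBall_zero_iff]
      linarith
  · intro i hi z hz
    exact geo P ⟨hG.dir i hi, hZ z hz, hG.win i hi⟩ (hG.far i hi) (hG.sec i hi) (hG.deep i hi)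
      hVA hVi
  · intro i hi z hz
    have h4 := hZ z hz
    have h5 : ‖z - zB‖ ≤ 2 * (hB - d0) := (norm_le_sup _).trans (by linarith)
    refine H A zB (2 * hB + K * r1) d (hE.nvaL hρ (by linarith) ?_ hr.le hρ2) hd (inS A) hVA
      (u i) zB z (c0 i) ⟨hG.dir i hi, hZ z hz, hG.win i hi⟩ ?_ ?_
    · linarith
    · linarith
    · intro s hs h6
      refine Finset.mem_filter.2 ⟨hs, hE.inn ?_⟩
      have := norm_le_of_sup h6
      linarith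

/-- the fields look at the points in `U` only -/
theorem fldU_congr {D : Type} {P Q U : Set ℂ} (h : ∀ z ∈ U, z ∈ P ↔ z ∈ Q) {δ : ℂ → ℂ → D}
    {a : D → ℂ} (H : FldU P U δ a) : FldU Q U δ a := by
  obtain ⟨u, hu, H⟩ := H
  have key : ∀ t : T3, Fc Q U t.1 t.2.1 t.2.2 → Fc P U t.1 t.2.1 t.2.2 := fun t ht =>
    fc_congr (fun z hz => (h z hz).symm) ht
  refine ⟨u, hu, ?_⟩
  rcases H with H | H | H | H
  · exact Or.inl fun t ht => H t (key t ht)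
  · exact Or.inr (Or.inl fun t ht => H t (key t ht))
  · exact Or.inr (Or.inr (Or.inl fun t ht => H t (key t ht)))
  · exact Or.inr (Or.inr (Or.inr fun t ht => H t (key t ht)))

/-- the data of [A] at the set `A` of the points in the box, for a weight `w` and a function `Y` of
the black sites -/
def QI (kp : ℝ≥0∞) (R c1 c2 hB l t0 a2 r1 : ℝ) (zB : ℂ) (m₀ : ℕ) (Z : Finset ℂ)
    (A : Finset ℂ) (w Y : Finset ℂ → ℝ≥0∞) : Prop :=
  (∀ b, b ⊆ A → w b * Y b = 0) ∨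
  ∃ (d ρ0 : ℝ) (hS : GP (A : Set ℂ)) (h3 : 3 ≤ A.card) (e0 : D0 A) (a : D0 A → ℂ) (u : ℕ → ℂ)
    (c0 : ℕ → ℝ) (G : ℕ → Rg (D0 A) (Cs hS)) (Gf : Rg (D0 A) (Cs hS)) (I : Finset (D0 A × ℕ)),
    (EnvS A R d ρ0 ∧ d ≤ c1 * r1 ∧ d ≤ 1 / 2 ∧ ρ0 ≤ 1 / 2 ∧ ρ0 ≤ c2 * r1) ∧
    FldU (A : Set ℂ) (Metric.closedBall 0 R) (dl e0) a ∧
    RegH zB hB l t0 a2 m₀ u c0 hS h3 G Gf ∧
    (∀ b, b ⊆ A → w b ≠ 0 → ∃ r, Rd (rc0 hS) Gf G m₀ (chiS hS h3 b) r) ∧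
    ∀ b, b ⊆ A → w b ≠ 0 → Y b ≤ kp * avPhi m₀ hS h3 G Gf Z id (fun _ => r1) I a b

/-- **the clause `RY`** : the constants depend only on the parameters `P` and on `zB` -/
theorem ry {hB d0 l t0 a2 r1 et E : ℝ} (P : Par hB d0 l t0 a2 r1 et E) (zB : ℂ) :
    ∃ c1 c2 R0 : ℝ, 0 < c1 ∧ 0 < c2 ∧ c2 ≤ 1 ∧ 0 < R0 ∧ ∀ R : ℝ, R0 ≤ R → ∀ (m₀ : ℕ)
      (Z : Finset ℂ), (∀ z ∈ Z, sup (z - zB) ≤ hB - d0) → ∀ kp : ℝ≥0∞, kp ≠ ∞ →
      ∀ δ : ℝ, 0 < δ → ∀ᶠ ε : ℝ in 𝓝[>] 0, ∀ B : Set ℂ, Bornology.IsBounded B →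
      Metric.closedBall 0 R ⊆ B → ∀ g : Set (ℂ × Bool) → ℝ≥0∞, (∀ X, g X ≤ 1) →
      ∀ Y : Finset ℂ → Finset ℂ → ℝ≥0∞,
      (∀ᵐ ω ∂sampleLaw, QI kp R c1 c2 hB l t0 a2 r1 zB m₀ Z (Ap ε B ω)
        (fun β => g (paint (Ap ε B ω) β)) (Y (Ap ε B ω))) →
      ∃ RY : Sample → ℝ≥0∞, MajQ ε B g Y RY ∧ ∫⁻ ω, RY ω ∂sampleLaw ≤ ENNReal.ofReal δ := by
  obtain ⟨p, c1, c2, K, hp, hc1, hc2, hc2', hK, H⟩ := geoA_env P
  have hr := P.pr
  refine ⟨c1, c2, max 1 (‖zB‖ + 2 * hB + 2 * l + 2 * a2 + K * r1 + r1 + 3), hc1, hc2, hc2',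
    lt_max_of_lt_left one_pos, ?_⟩
  intro R hR m₀ Z hZ kp hkp δ hδ
  have hR' := (le_max_right _ _).trans hR
  have hk : 0 < r1 / 2 := by linarith
  filter_upwards [majA_lim hk (Metric.isBounded_closedBall (x := (0 : ℂ)) (r := R)) ℂ hkp hp m₀
    Z.card hδ, eventually_mem_nhdsWithin] with ε h1 hε B hBb hUB g hg Y hQ
  have hε : 0 < ε := hε
  refine h1 B hBb hUB g hg Y ?_
  filter_upwards [hQ] with ω hq
  have hA := coe_Ap hε hBb ω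
  have hPS : ∀ z ∈ Metric.closedBall (0 : ℂ) R, z ∈ ((Ap ε B ω : Finset ℂ) : Set ℂ) ↔
      z ∈ points ε ω := by
    intro z hz
    rw [hA]
    exact ⟨fun h => h.1, fun h => ⟨h, hUB hz⟩⟩
  rcases hq with hq | ⟨d, ρ0, hS, h3, e0, a, u, c0, G, Gf, I, ⟨e1, e2, e3, e4, e5⟩, ha, hG, hR2, hY⟩
  · exact Or.inl hq
  · exact Or.inr ⟨hS, h3, e0, a, G, Gf, inS _, Z, id, fun _ => r1, zB, hB + a2, _, I,
      fldU_congr hPS ha, H _ R d ρ0 zB e1 e2 e3 e4 e5 (by linarith only [hR']) hS h3 m₀ u c0 G Gf hG Z hZ _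
        (by linarith only), le_rfl, hR2, hY⟩

end Crest.Agent.R143.GeoIx136
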