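import Crest.Agent.R143.StrH_795
import Crest.Agent.R143.GeoI_136
import Crest.Agent.R143.HBud_136

/-!
# Row 143 (S0194), block H: the cores cover the deep darts (helper389)

* `Zl zB r1 H` : the lattice points of step `r1` at sup distance `≤ H` of `zB` (`zl_sup`), rounded
  towards `zB`; `zl_cover` : every point at sup distance `≤ H` is at sup distance `≤ r1` of one of
  them
* `deep_site` : a dart of `Df A B` has its site within `3 d` of `B` (795's environment)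
* **`hco`** : the hypothesis `hCo` of `FarF_263.far_one` with the cores of `GeoI_136`
-/

set_option autoImplicit false

noncomputable section

open scoped Classical

namespace Crest.Agent.R143.Corex389

open Crest.ProbabilityR.Voronoi
open Crest.Agent.R143.B0x346 Crest.Agent.R143.DelGx806 Crest.Agent.R143.DelRx806
  Crest.Agent.R143.Frame10x395 Crest.Agent.R143.HBudx136
open Crest.Agent.R143.Mass1x302 Crest.Agent.R143.Mass2x302 Crest.Agent.R143.Mass3x302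
open Crest.Agent.R143.SumScx302 (sq)
open Crest.Agent.R143.Frame5x395 (sd mem_sd th th_spec)
open Crest.Agent.R143.StrHx795 (Df Vp)
open Crest.Agent.R143.EnvRx795 (EnvS)
open Crest.Agent.R143.CircPx838 (sup sup_le_norm norm_le_sup)
open Crest.Agent.R143.Meetx707 (sr core cel pl_rc0 Pl)
open Crest.Agent.R143.FinCx811 (Cs rc0)
open Crest.Agent.R143.MajAx136 (sup_sub_le)
open Crest.Agent.R143.JColx54 (delT_rot)

/-! ### the lattice -/

/-- rounding towards zero -/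
theorem round0 {r x : ℝ} (hr : 0 < r) : ∃ i : ℤ, |r * i| ≤ |x| ∧ |x - r * i| ≤ r := by
  have key : ∀ y : ℝ, 0 ≤ y → 0 ≤ r * (⌊y / r⌋ : ℤ) ∧ r * (⌊y / r⌋ : ℤ) ≤ y ∧
      y - r * (⌊y / r⌋ : ℤ) ≤ r := by
    intro y hy
    have h1 : (0 : ℤ) ≤ ⌊y / r⌋ := Int.floor_nonneg.2 (div_nonneg hy hr.le)
    have h2 : ((⌊y / r⌋ : ℤ) : ℝ) ≤ y / r := Int.floor_le _
    have h3 : y / r < (⌊y / r⌋ : ℤ) + 1 := Int.lt_floor_add_one _
    have h4 : r * (y / r) = y := mul_div_cancel₀ y hr.ne'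
    have h5 : (0 : ℝ) ≤ ((⌊y / r⌋ : ℤ) : ℝ) := by exact_mod_cast h1
    refine ⟨mul_nonneg hr.le h5, by nlinarith, by nlinarith⟩
  rcases le_total 0 x with hx | hx
  · obtain ⟨h1, h2, h3⟩ := key x hx
    refine ⟨⌊x / r⌋, ?_, ?_⟩
    · rw [abs_of_nonneg h1, abs_of_nonneg hx]; exact h2
    · rw [abs_of_nonneg (by linarith)]; exact h3
  · obtain ⟨h1, h2, h3⟩ := key (-x) (by linarith)
    refine ⟨-⌊-x / r⌋, ?_, ?_⟩
    · push_cast
      rw [mul_neg, abs_neg, abs_of_nonneg h1, abs_of_nonpos hx]; exact h2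
    · push_cast
      rw [mul_neg, sub_neg_eq_add, abs_of_nonpos (by linarith)]
      linarith

/-- lattice points of step `r1` at sup distance `≤ H` of `zB` -/
def Zl (zB : ℂ) (r1 H : ℝ) : Finset ℂ :=
  (((Finset.Icc (-(⌈H / r1⌉₊ : ℤ)) ⌈H / r1⌉₊) ×ˢ (Finset.Icc (-(⌈H / r1⌉₊ : ℤ)) ⌈H / r1⌉₊)).image
    fun p : ℤ × ℤ => zB + (⟨r1 * p.1, r1 * p.2⟩ : ℂ)).filter fun q => sup (q - zB) ≤ H

theorem zl_sup {zB q : ℂ} {r1 H : ℝ} (h : q ∈ Zl zB r1 H) : sup (q - zB) ≤ H :=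
  (Finset.mem_filter.1 h).2

theorem zl_cover {zB s : ℂ} {r1 H : ℝ} (hr : 0 < r1) (hs : sup (s - zB) ≤ H) :
    ∃ q ∈ Zl zB r1 H, sup (s - q) ≤ r1 := by
  obtain ⟨i, i1, i2⟩ := round0 (x := (s - zB).re) hr
  obtain ⟨j, j1, j2⟩ := round0 (x := (s - zB).im) hr
  have a1 : |(s - zB).re| ≤ H := (le_max_left _ _).trans hs
  have a2 : |(s - zB).im| ≤ H := (le_max_right _ _).trans hs
  have hN : H ≤ r1 * (⌈H / r1⌉₊ : ℝ) := by
    have := Nat.le_ceil (H / r1)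
    rw [div_le_iff₀ hr] at this
    linarith
  have bnd : ∀ k : ℤ, |r1 * k| ≤ H → k ∈ Finset.Icc (-(⌈H / r1⌉₊ : ℤ)) ⌈H / r1⌉₊ := by
    intro k hk
    obtain ⟨h1, h2⟩ := abs_le.1 (hk.trans hN)
    have h3 : (k : ℝ) ≤ (⌈H / r1⌉₊ : ℝ) := le_of_mul_le_mul_left h2 hr
    have h4 : -(⌈H / r1⌉₊ : ℝ) ≤ (k : ℝ) := by
      refine le_of_mul_le_mul_left ?_ hr
      linarith
    rw [Finset.mem_Icc]
    constructor
    · exact_mod_cast h4
    · exact_mod_cast h3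
  set q : ℂ := zB + (⟨r1 * i, r1 * j⟩ : ℂ) with hq
  have q1 : (q - zB).re = r1 * i := by rw [hq, add_sub_cancel_left]
  have q2 : (q - zB).im = r1 * j := by rw [hq, add_sub_cancel_left]
  have q3 : sup (q - zB) ≤ H := by
    refine max_le ?_ ?_
    · rw [q1]; exact i1.trans a1
    · rw [q2]; exact j1.trans a2
  refine ⟨q, Finset.mem_filter.2 ⟨Finset.mem_image.2 ⟨(i, j), Finset.mem_product.2
    ⟨bnd i (i1.trans a1), bnd j (j1.trans a2)⟩, rfl⟩, q3⟩, ?_⟩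
  have e : s - q = (s - zB) - (q - zB) := by ring
  refine max_le ?_ ?_
  · rw [e, Complex.sub_re, q1]; exact i2
  · rw [e, Complex.sub_im, q2]; exact j2

/-! ### the deep darts -/

variable {A : Finset ℂ} {R d ρ0 : ℝ}

/-- a dart with a deep face has its site near the deep set -/
theorem deep_site (H : EnvS A R d ρ0) {B : Set ℂ} (hB : ∀ w ∈ B, ‖w‖ ≤ R + 1 - 3 * d)
    {g : D0 A} (hg : g ∈ Df A B) : ∃ w ∈ B, ‖g.1.1 - w‖ < 3 * d := by
  have hd := H.dpos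
  have ht : (g.1.1, g.1.2, th A g.1) ∈ delT A := th_spec g.2
  have ht2 := delT_rot H.gp ht
  have ht3 := delT_rot H.gp ht2
  have key : ∀ v, v ∈ Vp A B → ∃ w ∈ B, ‖v - w‖ < d ∧ ‖v‖ ≤ R + 1 - 2 * d := by
    intro v hv
    obtain ⟨hvA, w, hwB, hw⟩ := Finset.mem_filter.1 hv
    have h1 := hB w hwB
    obtain ⟨s, hs, h2⟩ := H.hole w (by linarith)
    have h3 := hw s (Finset.mem_coe.2 hs)
    have h4 : ‖v - w‖ < d := by
      rw [norm_sub_rev v w]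
      rw [norm_sub_rev w s] at h3
      exact h3.trans_lt h2
    refine ⟨w, hwB, h4, ?_⟩
    have h5 := norm_add_le (v - w) w
    rw [sub_add_cancel] at h5
    linarith
  have tri : ∀ v w : ℂ, ‖g.1.1 - w‖ ≤ ‖g.1.1 - v‖ + ‖v - w‖ := fun v w =>
    norm_sub_le_norm_sub_add_norm_sub _ _ _
  rcases hg with h | h | h
  · obtain ⟨w, hw, h1, h2⟩ := key _ h
    exact ⟨w, hw, by linarith⟩
  · obtain ⟨w, hw, h1, h2⟩ := key _ h
    obtain ⟨-, -, h3⟩ := H.side ht2 h2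
    refine ⟨w, hw, ?_⟩
    have h4 := tri g.1.2 w
    linarith
  · obtain ⟨w, hw, h1, h2⟩ := key _ h
    obtain ⟨h3, -, -⟩ := H.side ht3 h2
    refine ⟨w, hw, ?_⟩
    have h4 := tri (th A g.1) w
    rw [norm_sub_rev (th A g.1) g.1.1] at h3
    linarith

/-- **the cores cover the deep darts** : general deep set -/
theorem hco' (H : EnvS A R d ρ0) (hS : GP (A : Set ℂ)) (h3 : 3 ≤ A.card) {B : Set ℂ} {zB : ℂ}
    {H0 Hc r1 : ℝ} (hr : 0 < r1) (hB : ∀ w ∈ B, sup (w - zB) ≤ H0) (hH : H0 + 3 * d ≤ Hc)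
    (hR : ‖zB‖ + 2 * H0 + 5 * d ≤ R + 1) {g : D0 A} (hg : g ∈ Df A B) :
    (rc0 hS).cell g ∈ ⋃ q ∈ Zl zB r1 Hc, core A (sr hS h3) (id q) r1 := by
  have hd := H.dpos
  have hBn : ∀ w ∈ B, ‖w‖ ≤ ‖zB‖ + 2 * H0 := fun w hw => by
    have h1 := (norm_le_sup (w - zB)).trans (by linarith [hB w hw] : _ ≤ 2 * H0)
    have h2 := norm_add_le (w - zB) zB
    rw [sub_add_cancel] at h2
    linarith
  obtain ⟨w, hw, h1⟩ := deep_site H (fun w hw => by linarith [hBn w hw]) hg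
  have h2 := hB w hw
  have h4 := sup_sub_le g.1.1 w zB
  obtain ⟨q, hq, h5⟩ := zl_cover (zB := zB) (s := g.1.1) (H := Hc) hr (by linarith)
  refine Set.mem_iUnion₂.2 ⟨q, hq, ?_⟩
  rw [(pl_rc0 hS h3).cell]
  refine ⟨g.1.1, (mem_delT.1 (th_spec g.2)).1, H.inn ?_, h5, rfl⟩
  have h6 := norm_add_le (g.1.1 - w) w
  rw [sub_add_cancel] at h6
  have h7 := hBn w hw
  linarith

/-! ### the deep square -/

/-- the middle of the box -/
def zm (z : ℂ) (b : ℝ) : ℂ := z + ((b / 2 : ℝ) : ℂ) * (1 + Complex.I)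

theorem sb_sup {z w : ℂ} {b d0 : ℝ} (hw : w ∈ Sb z b d0) : sup (w - zm z b) ≤ b / 2 - d0 := by
  obtain ⟨h1, h2, h3, h4⟩ := hw
  rw [re_k] at h1 h2
  rw [im_k] at h3 h4
  have e1 : (w - zm z b).re = w.re - (z.re + b / 2) := by
    unfold zm
    rw [Complex.sub_re, re_k]
  have e2 : (w - zm z b).im = w.im - (z.im + b / 2) := by
    unfold zm
    rw [Complex.sub_im, im_k]
  refine max_le ?_ ?_
  · rw [e1, abs_le]; constructor <;> linarith
  · rw [e2, abs_le]; constructor <;> linarith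

/-- **the hypothesis `hCo` of `FarF_263.far_one`** -/
theorem hco (H : EnvS A R d ρ0) (hS : GP (A : Set ℂ)) (h3 : 3 ≤ A.card) {z : ℂ}
    {b d0 Hc r1 : ℝ} (hr : 0 < r1) (hH : b / 2 - d0 + 3 * d ≤ Hc)
    (hR : ‖zm z b‖ + b + 5 * d ≤ R + 1 + 2 * d0) :
    ∀ g ∈ Df A (Sb z b d0),
      (rc0 hS).cell g ∈ ⋃ q ∈ Zl (zm z b) r1 Hc, core A (sr hS h3) (id q) r1 := fun _ hg =>
  hco' H hS h3 hr (fun _ => sb_sup) hH (by linarith) hg

/-- the middle of the unit box (`RingUx197.zB`) -/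
theorem zm_zB : zm 0 1 = (⟨1 / 2, 1 / 2⟩ : ℂ) := by
  unfold zm
  apply Complex.ext <;> simp

theorem norm_zm : ‖zm 0 1‖ ≤ 1 := by
  refine (norm_le_sup _).trans ?_
  have : sup (zm 0 1) ≤ 1 / 2 := by
    rw [zm_zB]
    refine max_le ?_ ?_
    · show |(1 / 2 : ℝ)| ≤ 1 / 2
      rw [abs_of_pos (by norm_num)]
    · show |(1 / 2 : ℝ)| ≤ 1 / 2
      rw [abs_of_pos (by norm_num)]
  linarith

/-- **the field `core` of `FarG_263.FarD` for 88's numbers** : half side `1 / 2 + hh` -/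
theorem core_num (H : EnvS A R d ρ0) (hS : GP (A : Set ℂ)) (h3 : 3 ≤ A.card) {d0 hh r1 : ℝ}
    (hr : 0 < r1) (hh0 : 0 ≤ hh) (hd : 6 * d ≤ d0) (hR : 1 ≤ R) :
    ∀ g ∈ Df A (Sb 0 1 d0), (rc0 hS).cell g ∈
      ⋃ q ∈ Zl (⟨1 / 2, 1 / 2⟩ : ℂ) r1 (1 / 2 + hh - d0 / 2), core A (sr hS h3) (id q) r1 := by
  have h1 := norm_zm
  have h2 := H.dpos
  have h := hco (z := 0) (b := 1) (d0 := d0) (Hc := 1 / 2 + hh - d0 / 2) H hS h3 hr (by linarith)
    (by linarith)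
  rwa [zm_zB] at h

end Crest.Agent.R143.Corex389
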