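import Crest.Agent.R143.Spt2_169

/-!
# Row 143 (S0194), CORE-C: the window `K[y → x]` in the shape of `CorMx970.quenched` (helper169)

`a = ka + 2`, `b = kb - 2`: `KP = ∑ l ∈ Ico a b, Vl l + M + M'` with `M`, `M'` = sums of at most four charges
`Wl l` of the window next to `ka`, `kb`; `‖M‖ ^ 2 ≤ 4 * ∑ l, ‖Wl l‖ ^ 2`.
-/

set_option autoImplicit false

noncomputable section

open scoped Classical

namespace Crest.Agent.R143.Sptx169

open Crest.Agent.R143.Frame1x395 Crest.Agent.R143.Frame2x395 Crest.Agent.R143.Frame3x395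
  Crest.Agent.R143.Frame4x395 Crest.Agent.R143.Frame8x395 Crest.Agent.R143.Frame9x395
  Crest.Agent.R143.Frame11x395
open Crest.Agent.R143.Splx117

variable {D C : Type} {M : CMap D C} {x : D → ZMod 2} {q : D} {n m : ℕ} {T : ℕ → ℕ}

section

variable {E : Type} [AddCommMonoid E] {w : D → E} {F : ℕ → Set D}

/-- the regions at the first end -/
def Ma (m ka : ℕ) : Finset ℕ := (Finset.range m).filter fun l => ka ≤ l + 2 ∧ l < ka + 2

/-- the regions at the second end -/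
def Mb (m ka kb : ℕ) : Finset ℕ :=
  (Finset.range m).filter fun l => ka + 2 ≤ l ∧ kb ≤ l + 2 ∧ l < kb + 2

theorem card_Ma (m ka : ℕ) : (Ma m ka).card ≤ 4 := by
  have h : Ma m ka ⊆ Finset.Ico (ka - 2) (ka + 2) := by
    intro l hl
    have := (Finset.mem_filter.1 hl).2
    rw [Finset.mem_Ico]
    omega
  have h2 := Finset.card_le_card h
  rw [Nat.card_Ico] at h2
  omega

theorem card_Mb (m ka kb : ℕ) : (Mb m ka kb).card ≤ 4 := by
  have h : Mb m ka kb ⊆ Finset.Ico (kb - 2) (kb + 2) := by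
    intro l hl
    have := (Finset.mem_filter.1 hl).2
    rw [Finset.mem_Ico]
    omega
  have h2 := Finset.card_le_card h
  rw [Nat.card_Ico] at h2
  omega

/-- **the window in the shape of `CorMx970.quenched`** -/
theorem Reg.split_form (R : Reg M x q T n m F) {a b ka kb : ℕ} (ha : T 0 ≤ a) (hab : a ≤ b)
    (hb : b ≤ T n) (ha1 : T ka ≤ a) (ha2 : a ≤ T (ka + 1)) (hka : ka < n) (hb1 : T kb ≤ b)
    (hb2 : b ≤ T (kb + 1)) (hkb : kb < n) (hnm : n ≤ m) :
    KP M x q w (T 0) (T n) a b = ∑ l ∈ Finset.Ico (ka + 2) (kb - 2), Vl M x q T n w F l +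
      ∑ l ∈ Ma m ka, Wl M x q T n w F a b l + ∑ l ∈ Mb m ka kb, Wl M x q T n w F a b l := by
  rw [R.wl_sum ha hb]
  have e1 : ∑ l ∈ Finset.Ico (ka + 2) (kb - 2), Vl M x q T n w F l =
      ∑ l ∈ Finset.Ico (ka + 2) (kb - 2), Wl M x q T n w F a b l := by
    refine Finset.sum_congr rfl fun l hl => ?_
    rw [Finset.mem_Ico] at hl
    exact (R.wl_in ha hab hb ha2 hb1 hkb hl.1 (by omega)).symm
  rw [e1, ← Finset.sum_union, ← Finset.sum_union]
  · symm
    refine Finset.sum_subset (fun l hl => ?_) fun l hl hl' => ?_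
    · rcases Finset.mem_union.1 hl with h | h
      · rcases Finset.mem_union.1 h with h | h
        · rw [Finset.mem_Ico] at h
          exact Finset.mem_range.2 (by omega)
        · exact (Finset.mem_filter.1 h).1
      · exact (Finset.mem_filter.1 h).1
    · apply R.wl_out ha hb ha1 hka hb2
      by_contra hc
      push Not at hc
      apply hl'
      rw [Finset.mem_union, Finset.mem_union, Finset.mem_Ico, Ma, Mb, Finset.mem_filter,
        Finset.mem_filter]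
      by_cases h1 : l < ka + 2
      · exact Or.inl (Or.inr ⟨hl, by omega, h1⟩)
      · by_cases h2 : l < kb - 2
        · exact Or.inl (Or.inl ⟨by omega, h2⟩)
        · exact Or.inr ⟨hl, by omega, by omega, by omega⟩
  · rw [Finset.disjoint_left]
    intro l hl hl'
    have h1 := (Finset.mem_filter.1 hl').2
    rcases Finset.mem_union.1 hl with h | h
    · rw [Finset.mem_Ico] at h
      omega
    · have h2 := (Finset.mem_filter.1 h).2
      omega
  · rw [Finset.disjoint_left]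
    intro l hl hl'
    have h1 := (Finset.mem_filter.1 hl').2
    rw [Finset.mem_Ico] at hl
    omega

end

section norm

variable {E : Type} [NormedAddCommGroup E] {w : D → E} {F : ℕ → Set D}

/-- square of a sum with at most four terms -/
theorem sum_sq_le {s : Finset ℕ} (hs : s.card ≤ 4) {m : ℕ} (hsm : s ⊆ Finset.range m) (f : ℕ → E) :
    ‖∑ l ∈ s, f l‖ ^ 2 ≤ 4 * ∑ l ∈ Finset.range m, ‖f l‖ ^ 2 := by
  have h1 : ‖∑ l ∈ s, f l‖ ≤ ∑ l ∈ s, ‖f l‖ := norm_sum_le _ _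
  have h2 : (∑ l ∈ s, ‖f l‖) ^ 2 ≤ s.card * ∑ l ∈ s, ‖f l‖ ^ 2 := sq_sum_le_card_mul_sum_sq
  have h3 : ∑ l ∈ s, ‖f l‖ ^ 2 ≤ ∑ l ∈ Finset.range m, ‖f l‖ ^ 2 :=
    Finset.sum_le_sum_of_subset_of_nonneg hsm fun _ _ _ => by positivity
  have h4 : (0 : ℝ) ≤ ∑ l ∈ s, ‖f l‖ ^ 2 := Finset.sum_nonneg fun _ _ => by positivity
  have h5 : (s.card : ℝ) ≤ 4 := by exact_mod_cast hs
  calc ‖∑ l ∈ s, f l‖ ^ 2 ≤ (∑ l ∈ s, ‖f l‖) ^ 2 := pow_le_pow_left₀ (norm_nonneg _) h1 2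
    _ ≤ s.card * ∑ l ∈ s, ‖f l‖ ^ 2 := h2
    _ ≤ 4 * ∑ l ∈ s, ‖f l‖ ^ 2 := mul_le_mul_of_nonneg_right h5 h4
    _ ≤ 4 * ∑ l ∈ Finset.range m, ‖f l‖ ^ 2 := mul_le_mul_of_nonneg_left h3 (by norm_num)

theorem norm_Ma_sq {a b ka : ℕ} : ‖∑ l ∈ Ma m ka, Wl M x q T n w F a b l‖ ^ 2 ≤
    4 * ∑ l ∈ Finset.range m, ‖Wl M x q T n w F a b l‖ ^ 2 :=
  sum_sq_le (card_Ma m ka) (Finset.filter_subset _ _) _

theorem norm_Mb_sq {a b ka kb : ℕ} : ‖∑ l ∈ Mb m ka kb, Wl M x q T n w F a b l‖ ^ 2 ≤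
    4 * ∑ l ∈ Finset.range m, ‖Wl M x q T n w F a b l‖ ^ 2 :=
  sum_sq_le (card_Mb m ka kb) (Finset.filter_subset _ _) _

/-- the partial charges from the exact closing for every field -/
theorem wl_sq {a b l : ℕ} {Sβ Sγ : (D → E) → E}
    (h : ∀ v : D → E, Sβ v = Sγ v + KP M x q v (T 0) (T n) a b) :
    ‖Wl M x q T n w F a b l‖ ^ 2 ≤ 2 * ‖Sβ (rst w (F l))‖ ^ 2 + 2 * ‖Sγ (rst w (F l))‖ ^ 2 := by
  rw [wl_diff h]
  have h1 := norm_sub_le (Sβ (rst w (F l))) (Sγ (rst w (F l)))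
  have h2 := sq_nonneg (‖Sβ (rst w (F l))‖ - ‖Sγ (rst w (F l))‖)
  have h3 := norm_nonneg (Sβ (rst w (F l)) - Sγ (rst w (F l)))
  nlinarith [norm_nonneg (Sβ (rst w (F l))), norm_nonneg (Sγ (rst w (F l)))]

end norm

end Crest.Agent.R143.Sptx169
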