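import Crest.Agent.R143.CorrD_117

/-!
# Row 143 (S0194), part B without E3: the revealed strand of an open corridor (helper117)

The loop through `q` passes `T 0 = 0 < T 1 < .. < T n < N` (gates), `Rs` = a fixed set of states which
contains the arcs `1, .., n - 2` and does not contain the states of the times `0` and `T n`. The maximal
strand of states of `Rs` through the arcs `1, .., n - 2` is `[s, e]` with `0 < s ≤ T 1`,
`T (n - 1) ≤ e < T n`.

* `Cut.shrink` : the cut hypothesis for `s, T 1, .., T (n - 1), e`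
* `Lp.shift` : the loop from another state
* `Str` : data of a strand (start state, times, cut, charges), `strand_of`
* `DCorr.strand` : the strand of the corridor (all arcs backward)
-/

set_option autoImplicit false

noncomputable section

open scoped Classical

namespace Crest.Agent.R143.StrBx117

open Crest.Agent.R143.B0x346 Crest.Agent.R143.DelGx806 Crest.Agent.R143.DelRx806
  Crest.Agent.R143.JColx54
open Crest.Agent.R143.Frame1x395 Crest.Agent.R143.Frame2x395 Crest.Agent.R143.Frame3x395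
  Crest.Agent.R143.Frame4x395 Crest.Agent.R143.Frame8x395 Crest.Agent.R143.Frame9x395
  Crest.Agent.R143.Frame10x395 Crest.Agent.R143.Frame11x395
open Crest.Agent.R143.Splx117 Crest.Agent.R143.WLocx713 Crest.Agent.R143.RingDx117
  Crest.Agent.R143.CorrDx117

section cm

variable {D C : Type} {M : CMap D C} {x : D → ZMod 2} {N : ℕ} {q : D}

/-- the times of a shrunken corridor -/
def sT (T : ℕ → ℕ) (n s e : ℕ) (k : ℕ) : ℕ := if k = 0 then s else if k < n then T k else e

theorem sT_zero {T : ℕ → ℕ} {n s e : ℕ} : sT T n s e 0 = s := if_pos rfl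

theorem sT_mid {T : ℕ → ℕ} {n s e k : ℕ} (h1 : 0 < k) (h2 : k < n) : sT T n s e k = T k := by
  unfold sT
  rw [if_neg (by omega), if_pos h2]

theorem sT_end {T : ℕ → ℕ} {n s e : ℕ} (hn : 0 < n) : sT T n s e n = e := by
  unfold sT
  rw [if_neg (by omega), if_neg (by omega)]

theorem sT_lo {T : ℕ → ℕ} {n s e k : ℕ} (hs0 : T 0 ≤ s) (hk : k < n) :
    T k ≤ sT T n s e k ∧ (0 < k → sT T n s e k = T k) := by
  rcases Nat.eq_zero_or_pos k with rfl | h
  · exact ⟨by rw [sT_zero]; exact hs0, fun h => absurd h (lt_irrefl _)⟩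
  · rw [sT_mid h hk]
    exact ⟨le_rfl, fun _ => rfl⟩

theorem sT_hi {T : ℕ → ℕ} {n s e k : ℕ} (hn : 2 ≤ n) (he : e ≤ T n) (hk : k < n) :
    sT T n s e (k + 1) ≤ T (k + 1) := by
  rcases Nat.lt_or_ge (k + 1) n with h | h
  · rw [sT_mid (by omega) h]
  · have : k + 1 = n := by omega
    rw [this, sT_end (by omega)]
    exact he

theorem sT_mono {T : ℕ → ℕ} {n s e k : ℕ} (hn : 2 ≤ n) (hs : s ≤ T 1)
    (he0 : T (n - 1) ≤ e) (hm : ∀ k, k < n → T k ≤ T (k + 1)) (hk : k < n) :
    sT T n s e k ≤ sT T n s e (k + 1) := by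
  rcases Nat.eq_zero_or_pos k with rfl | h
  · rw [sT_zero, sT_mid (by omega) (by omega)]
    exact hs
  · rw [sT_mid h hk]
    rcases Nat.lt_or_ge (k + 1) n with h1 | h1
    · rw [sT_mid (by omega) h1]
      exact hm k hk
    · have e1 : k + 1 = n := by omega
      have e2 : k = n - 1 := by omega
      rw [e1, sT_end (by omega), e2]
      exact he0

/-- **the cut hypothesis for the shrunken corridor** -/
theorem Cut.shrink {T : ℕ → ℕ} {n s e : ℕ} (hn : 2 ≤ n) (hs0 : T 0 ≤ s)
    (he : e ≤ T n) (h : Cut M x q T 0 n) :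
    Cut M x q (sT T n s e) 0 n := by
  intro k k' h0 h1 h2 u v a1 a2 a3 a4 a5
  obtain ⟨b1, -⟩ := sT_lo (e := e) hs0 (show k < n by omega)
  obtain ⟨b2, b3⟩ := sT_lo (e := e) hs0 h2
  have b4 := sT_hi (s := s) hn he (show k < n by omega)
  have b5 := sT_hi (s := s) hn he h2
  obtain ⟨c1, c2⟩ := h k k' h0 h1 h2 u v (b1.trans a1) (a2.trans b4) (b2.trans a3)
    (a4.trans b5) a5
  exact ⟨c1, by rw [c2, b3 (by omega)]⟩

theorem it_add (a b : ℕ) : (stp M x)^[a] ((stp M x)^[b] q) = (stp M x)^[a + b] q := by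
  rw [← Function.iterate_add_apply]

/-- the loop from another state -/
theorem Lp.shift (L : Lp M x q N) (s : ℕ) : Lp M x ((stp M x)^[s] q) N where
  even := L.even
  occ := L.st s
  pos := L.pos
  per := by
    rw [it_add, Nat.add_comm, L.add]
  inj := fun i j hij hj => by
    rw [it_add, it_add]
    exact L.ne (by omega) (by omega)

theorem lc_shift (s i : ℕ) : lc M x ((stp M x)^[s] q) i = lc M x q (i + s) := by
  unfold lc
  rw [it_add]

/-- the cut hypothesis from another state -/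
theorem Cut.shift {T : ℕ → ℕ} {a b s : ℕ} (hs : ∀ k, a ≤ k → k ≤ b → s ≤ T k)
    (h : Cut M x q T a b) : Cut M x ((stp M x)^[s] q) (fun k => T k - s) a b := by
  intro k k' h0 h1 h2 u v a1 a2 a3 a4 a5
  change T k - s ≤ u at a1
  change u ≤ T (k + 1) - s at a2
  change T k' - s ≤ v at a3
  change v ≤ T (k' + 1) - s at a4
  have e1 := hs k h0 (by omega)
  have e2 := hs (k + 1) (by omega) (by omega)
  have e3 := hs k' (by omega) (by omega)
  have e4 := hs (k' + 1) (by omega) (by omega)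
  rw [lc_shift, lc_shift] at a5
  obtain ⟨c1, c2⟩ := h k k' h0 h1 h2 (u + s) (v + s) (by omega) (by omega) (by omega) (by omega) a5
  refine ⟨c1, ?_⟩
  rw [lc_shift, lc_shift, c2, show T k' - s + s = T k' by omega]

/-- the maximal interval of states in `Rs` -/
theorem ival {Rs : Set D} {a b c : ℕ} (h0 : 0 < a) (hab : a ≤ b) (hbc : b < c)
    (hin : ∀ i, a ≤ i → i ≤ b → (stp M x)^[i] q ∈ Rs) (n0 : q ∉ Rs) (nc : (stp M x)^[c] q ∉ Rs) :
    ∃ s e, 0 < s ∧ s ≤ a ∧ b ≤ e ∧ e < c ∧ (∀ i, s ≤ i → i ≤ e → (stp M x)^[i] q ∈ Rs) ∧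
      (stp M x)^[s - 1] q ∉ Rs ∧ (stp M x)^[e + 1] q ∉ Rs := by
  obtain ⟨i, -, i2, i3, i4⟩ := last_time (Q := fun i => (stp M x)^[i] q ∉ Rs) (u := 0) (m := a)
    h0 n0 (fun h => h (hin a le_rfl hab))
  obtain ⟨j, j1, j2, j3, j4⟩ := first_time (Q := fun i => (stp M x)^[i] q ∉ Rs) (m := b) (v := c)
    hbc nc (fun h => h (hin b hab le_rfl))
  refine ⟨i + 1, j - 1, by omega, by omega, by omega, by omega, fun l h1 h2 => ?_, ?_, ?_⟩
  · rcases Nat.lt_or_ge l a with h3 | h3
    · by_contra h4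
      exact i4 l (by omega) h3.le h4
    rcases Nat.lt_or_ge b l with h4 | h4
    · by_contra h5
      exact j4 l h4.le (by omega) h5
    · exact hin l h3 h4
  · rw [Nat.add_sub_cancel]
    exact i3
  · rw [show j - 1 + 1 = j by omega]
    exact j3

/-- the arc of a time, half open -/
theorem exists_arc {T : ℕ → ℕ} {a b u : ℕ} (hab : a < b) (h1 : T a ≤ u) (h2 : u < T b) :
    ∃ k, a ≤ k ∧ k < b ∧ T k ≤ u ∧ u < T (k + 1) := by
  induction b with
  | zero => omega
  | succ b ih =>
    rcases Nat.lt_or_ge u (T b) with h3 | h3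
    · rcases Nat.lt_or_ge a b with h4 | h4
      · obtain ⟨k, a1, a2, a3, a4⟩ := ih h4 h3
        exact ⟨k, a1, by omega, a3, a4⟩
      · have : a = b := by omega
        subst this
        omega
    · exact ⟨b, by omega, by omega, h3, h2⟩

/-- a strand of states of `Rs` : start state `q`, states of the times `0, .., T n` in `Rs`, the state
before and the state after are not in `Rs`; arcs `k` in `R k` (partial for `k = 0`, `k = n - 1`) -/
structure Str (M : CMap D C) (x : D → ZMod 2) (n : ℕ) (Rs : Set D) (p : ℕ → D) (R : ℕ → Set D)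
    (q : D) (N : ℕ) (T : ℕ → ℕ) : Prop where
  n3 : 3 ≤ n
  lp : Lp M x q N
  T0 : T 0 = 0
  TN : T n + 1 < N
  mono : ∀ k, k < n → T k ≤ T (k + 1)
  lt : ∀ k, 0 < k → k + 1 < n → T k < T (k + 1)
  at_ : ∀ k, 0 < k → k < n → (stp M x)^[T k] q = p k
  arc : ∀ k, k < n → ∀ i, T k ≤ i → i ≤ T (k + 1) → (stp M x)^[i] q ∈ R k
  mem : ∀ i, i ≤ T n → (stp M x)^[i] q ∈ Rs
  bef : (stp M x)^[N - 1] q ∉ Rs
  aft : (stp M x)^[T n + 1] q ∉ Rs
  cut : Cut M x q T 0 n
  befR : (stp M x)^[N - 1] q ∈ R 0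
  aftR : (stp M x)^[T n + 1] q ∈ R (n - 1)

/-- the strand inside a larger corridor -/
theorem strand_of {n : ℕ} (n3 : 3 ≤ n) {Rs : Set D} {p : ℕ → D} {R : ℕ → Set D} {T : ℕ → ℕ}
    (L : Lp M x q N) (T0 : T 0 = 0) (TN : T n < N) (Tlt : ∀ k, k < n → T k < T (k + 1))
    (Tp : ∀ k, k ≤ n → (stp M x)^[T k] q = p k)
    (TR : ∀ k, k < n → ∀ i, T k ≤ i → i ≤ T (k + 1) → (stp M x)^[i] q ∈ R k)
    (cut : Cut M x q T 0 n) (hR : ∀ k, 0 < k → k + 1 < n → R k ⊆ Rs)
    (h0 : p 0 ∉ Rs) (hn : p n ∉ Rs) :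
    ∃ s e, 0 < s ∧ s ≤ T 1 ∧ T (n - 1) ≤ e ∧ e < T n ∧
      Str M x n Rs p R ((stp M x)^[s] q) N fun k => sT T n s e k - s := by
  have Tm : ∀ k, k < n → T k ≤ T (k + 1) := fun k hk => (Tlt k hk).le
  have q0 : q ∉ Rs := by
    have h1 := Tp 0 (by omega)
    rw [T0] at h1
    change q = p 0 at h1
    rw [h1]
    exact h0
  have t1 : T 0 < T 1 := Tlt 0 (by omega)
  have t2 : T (n - 1) < T n := by
    have := Tlt (n - 1) (by omega)
    rwa [show n - 1 + 1 = n by omega] at this
  have t3 : T 1 ≤ T (n - 1) := mono_of (a := 0) (b := n) (fun k _ h => Tm k h) (by omega) (by omega)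
    (by omega)
  obtain ⟨s, e, s0, s1, e1, e2, hin, hb, ha⟩ := ival (M := M) (x := x) (q := q) (Rs := Rs)
    (a := T 1) (b := T (n - 1)) (c := T n) (by omega) t3 t2 (fun i h1 h2 => by
      obtain ⟨k, k1, k2, k3, k4⟩ := arc_of (T := T) (a := 1) (b := n - 1) (u := i) (by omega) h1 h2
      exact hR k (by omega) (by omega) (TR k (by omega) i k3 k4)) q0 (by rw [Tp n le_rfl]; exact hn)
  have T1n : T 1 ≤ T n := by omega
  have base : ∀ k, k ≤ n → s ≤ sT T n s e k := by
    intro k hk
    have := mono_of (T := sT T n s e) (a := 0) (b := n)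
      (fun k _ h => sT_mono (by omega) s1 e1 Tm h) (le_refl 0) (Nat.zero_le k) hk
    rwa [sT_zero] at this
  refine ⟨s, e, s0, s1, e1, e2, ?_⟩
  refine
    { n3 := n3
      lp := Lp.shift L s
      T0 := by
        show sT T n s e 0 - s = 0
        rw [sT_zero, Nat.sub_self]
      TN := by
        show sT T n s e n - s + 1 < N
        rw [sT_end (by omega)]
        omega
      mono := fun k hk => Nat.sub_le_sub_right (sT_mono (by omega) s1 e1 Tm hk) s
      lt := fun k h1 h2 => by
        show sT T n s e k - s < sT T n s e (k + 1) - s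
        have hb := base k (by omega)
        rw [sT_mid h1 (by omega)] at hb ⊢
        rw [sT_mid (by omega) h2]
        have := Tlt k (by omega)
        omega
      at_ := fun k h1 h2 => by
        have hb := base k (by omega)
        show (stp M x)^[sT T n s e k - s] _ = _
        rw [it_add, sT_mid h1 h2]
        rw [sT_mid h1 h2] at hb
        rw [show T k - s + s = T k by omega, Tp k h2.le]
      arc := fun k hk i h1 h2 => by
        have b1 := base k (by omega)
        have b2 := base (k + 1) (by omega)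
        obtain ⟨b3, -⟩ := sT_lo (s := s) (e := e) (T := T) (n := n) (by omega) hk
        have b4 := sT_hi (s := s) (e := e) (T := T) (n := n) (by omega) e2.le hk
        rw [it_add]
        exact TR k hk (i + s) (by omega) (by omega)
      mem := fun i hi => by
        have hi' : i ≤ sT T n s e n - s := hi
        rw [sT_end (by omega)] at hi'
        rw [it_add]
        exact hin _ (by omega) (by omega)
      bef := by
        rw [it_add, show N - 1 + s = (s - 1) + N by omega, L.add]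
        exact hb
      aft := by
        show (stp M x)^[sT T n s e n - s + 1] _ ∉ Rs
        rw [it_add, sT_end (by omega), show e - s + 1 + s = e + 1 by omega]
        exact ha
      cut := Cut.shift (fun k _ hk => base k hk)
        (Cut.shrink (by omega) (by omega) e2.le cut)
      befR := by
        rw [it_add, show N - 1 + s = (s - 1) + N by omega, L.add]
        exact TR 0 (by omega) (s - 1) (by omega) (by rw [zero_add]; omega)
      aftR := by
        show (stp M x)^[sT T n s e n - s + 1] _ ∈ R (n - 1)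
        rw [it_add, sT_end (by omega), show e - s + 1 + s = e + 1 by omega]
        exact TR (n - 1) (by omega) (e + 1) (by omega) (by
          rw [show n - 1 + 1 = n by omega]
          omega) }

variable {n : ℕ} {Rs : Set D} {p : ℕ → D} {R : ℕ → Set D} {T : ℕ → ℕ}

/-- the gaps of the arc `k` -/
theorem Str.ink (A : Str M x n Rs p R q N T) {k i : ℕ} (hk : k < n) (h1 : T k ≤ i)
    (h2 : i < T (k + 1)) : InK M x q 0 (T n) i ↔ InK M x q (T k) (T (k + 1)) i := by
  have h3 := ink_tile (a := 0) (b := n) (fun k _ h => A.mono k h) A.cut (Nat.zero_le k) hk h1 h2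
  rwa [A.T0] at h3

/-- a gap between the times of the gates `a ≤ b` -/
theorem Str.ink' (A : Str M x n Rs p R q N T) {a b i : ℕ} (hab : a < b) (hb : b ≤ n)
    (h1 : T a ≤ i) (h2 : i < T b) : InK M x q 0 (T n) i ↔ InK M x q (T a) (T b) i := by
  obtain ⟨k, k1, k2, k3, k4⟩ := exists_arc (T := T) hab h1 h2
  rw [A.ink (by omega) k3 k4]
  exact (ink_tile (fun k _ h => A.mono k (by omega)) (A.cut.sub (Nat.zero_le a) hb) k1 k2 k3
    k4).symm

theorem Str.ks (A : Str M x n Rs p R q N T) {E : Type} [AddCommMonoid E] (w : D → E) {a b : ℕ}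
    (hab : a < b) (hb : b ≤ n) :
    KS M x q w (T a) (T b) = ∑ k ∈ Finset.Ico a b, KS M x q w (T k) (T (k + 1)) :=
  ks_sum hab (fun k _ h => A.mono k (by omega)) (A.cut.sub (Nat.zero_le a) hb)

/-- the charge of an arc, seen from a later state -/
theorem ks_sub {E : Type} [AddCommMonoid E] (w : D → E) {a b s : ℕ} (h1 : s ≤ a) (h2 : s ≤ b) :
    KS M x ((stp M x)^[s] q) w (a - s) (b - s) = KS M x q w a b := by
  rw [ks_shift, show a - s + s = a by omega, show b - s + s = b by omega]

end cm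

/-! ### the strand of an open corridor on `cm0 hS` -/

section dc

variable {S : Finset ℂ} {χ : ℂ → ZMod 2} {hS : GP (S : Set ℂ)} {hχ : HullC S χ} {n : ℕ}
  {y z : ℕ → ℂ} {A B : ℕ → Set ℂ} {p : ℕ → D0 S}

/-- **the strand of the corridor**: start state `q`, gates `p (n - k)` at the times `T k`,
`0 < k < n`; the arc `k` is inside `B (n - 1 - k)`; the full arcs have the charges `ZZ` -/
theorem DCorr.strand (R : DCorr hS hχ n y z A B p) (n3 : 3 ≤ n)
    (hf : ∀ k, k < n → FA (cm0 hS) (xc hS hχ) (RD S (B k)) (p (k + 1)) (p k))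
    {Rs : Set (D0 S)} (hR : ∀ k, 0 < k → k + 1 < n → RD S (B k) ⊆ Rs) (h0 : p 0 ∉ Rs)
    (hn : p n ∉ Rs) :
    ∃ (q : D0 S) (N : ℕ) (T : ℕ → ℕ),
      Str (cm0 hS) (xc hS hχ) n Rs (fun k => p (n - k)) (fun k => RD S (B (n - 1 - k))) q N T ∧
      (∃ i, (stp (cm0 hS) (xc hS hχ))^[i] (p n) = q) ∧
      ∀ {E : Type} [AddCommMonoid E] (w : D0 S → E) (k : ℕ), 0 < k → k + 1 < n →
        KS (cm0 hS) (xc hS hχ) q w (T k) (T (k + 1)) =
          ZZ (cm0 hS) (xc hS hχ) w (RD S (B (n - 1 - k))) (p (n - k)) (p (n - 1 - k)) := by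
  obtain ⟨N, T, L, T0, TN, Tlt, Tp, TR, cut, hks⟩ := R.main_back hf
  obtain ⟨s, e, s0, s1, e1, e2, H⟩ := strand_of (M := cm0 hS) (x := xc hS hχ) (q := p n)
    (Rs := Rs) (p := fun k => p (n - k)) (R := fun k => RD S (B (n - 1 - k))) (T := T) n3 L T0 TN Tlt
    Tp TR cut (fun k h1 h2 => hR (n - 1 - k) (by omega) (by omega)) (by
      show p (n - 0) ∉ Rs
      rw [Nat.sub_zero]; exact hn) (by
      show p (n - n) ∉ Rs
      rw [Nat.sub_self]; exact h0)
  refine ⟨_, N, _, H, ⟨s, rfl⟩, fun w k h1 h2 => ?_⟩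
  have b : ∀ j, 0 < j → j < n → s ≤ T j := by
    intro j h3 h4
    have := mono_of (T := T) (a := 0) (b := n) (fun k _ h => (Tlt k h).le)
      (show 0 ≤ 1 by omega) (show 1 ≤ j by omega) h4.le
    omega
  show KS _ _ _ w (sT T n s e k - s) (sT T n s e (k + 1) - s) = _
  rw [sT_mid h1 (by omega), sT_mid (by omega) h2,
    ks_sub w (b k h1 (by omega)) (b (k + 1) (by omega) h2)]
  exact hks w k (by omega)

end dc

end Crest.Agent.R143.StrBx117
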