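import Crest.Agent.R143.Spt_832
import Crest.Agent.R143.Spt3_169
import Crest.Agent.R143.StrB_117

/-!
# Row 143 (S0194), CORE-C, box R6: spatial charges of the revealed strand on `cm0 hS` (helper832)

117's strand (`StrBx117.Str`: partial arcs at the two ends) with 169's regions.

* `reg_str` : `Reg` of the strand
* **`strand_q`** : the strand of a corridor with regions `Q l`: `Str`, `Reg`, `KS = ZZ` (gates in the
  normal order) on full arcs, `Vl l = VZ .. (n - 1 - l)` for `2 ≤ l`, `l + 2 < n`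
* `sum_rev` : the sum over the full tiles in the normal order of the indices
* **`window_VX`** : a window of the strand = sum of 713's functionals `VX f n B Q St j X` over the tiles
  `j ∈ [n + 2 - kb, n - 2 - ka)` (normal order) + the two sums `Ma`, `Mb` of at most four partial charges
-/

set_option autoImplicit false
set_option linter.all false

noncomputable section

open scoped Classical

namespace Crest.Agent.R143.Spt2x832

open Crest.Agent.R143.B0x346 Crest.Agent.R143.DelGx806 Crest.Agent.R143.DelRx806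
  Crest.Agent.R143.JColx54
open Crest.Agent.R143.Frame1x395 Crest.Agent.R143.Frame2x395 Crest.Agent.R143.Frame3x395
  Crest.Agent.R143.Frame4x395 Crest.Agent.R143.Frame8x395 Crest.Agent.R143.Frame9x395
  Crest.Agent.R143.Frame10x395 Crest.Agent.R143.Frame11x395
open Crest.Agent.R143.Frame5x395 (sd mem_sd th th_spec)
open Crest.Agent.R143.Splx117 Crest.Agent.R143.WLocx713 Crest.Agent.R143.RingDx117
  Crest.Agent.R143.CorrDx117 Crest.Agent.R143.Sptx169 Crest.Agent.R143.Sptx832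
open Crest.Agent.R143.StrBx117 (Str)

variable {S : Finset ℂ} {χ : ℂ → ZMod 2} {n m : ℕ} {B Q : ℕ → Set ℂ} {hS : GP (S : Set ℂ)}
  {hχ : HullC S χ} {y z : ℕ → ℂ} {A : ℕ → Set ℂ} {p : ℕ → D0 S}

/-- **169's regions of the gap darts of a strand** -/
theorem reg_str (H : QReg S n m B Q) {Rs : Set (D0 S)} {p' : ℕ → D0 S} {q : D0 S} {N : ℕ}
    {T : ℕ → ℕ} (R : Str (cm0 hS) (xc hS hχ) n Rs p' (fun k => RD S (B k)) q N T) :
    Reg (cm0 hS) (xc hS hχ) q T n m (FQ S m Q) where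
  mono := fun k _ hk => R.mono k hk
  cut := R.cut
  cov := fun i h1 h2 _ => by
    have hn : 0 < n := by
      have := R.n3
      omega
    obtain ⟨k, -, hk, a1, a2⟩ := arc_of (T := T) hn h1 h2.le
    obtain ⟨l, b1, -, -, b2⟩ := H.st hS hk (R.arc k hk i a1 a2)
    exact ⟨l, b1, b2⟩
  dis := fun i _ _ _ l l' a b => H.dis l l' a.1 b.1 _ a.2 b.2
  near := fun k hk i h1 h2 _ l hl => by
    obtain ⟨l', b1, b2, b3, b4⟩ := H.st hS hk (R.arc k hk i h1 h2.le)
    have e : l = l' := H.dis l l' hl.1 b4.1 _ hl.2 b4.2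
    rw [e]
    exact ⟨b2, b3⟩

/-- **the strand of a corridor with regions** -/
theorem strand_q (R : DCorr hS hχ n y z A B p) (n3 : 3 ≤ n) (H : QReg S n n B Q)
    (hf : ∀ k, k < n → FA (cm0 hS) (xc hS hχ) (RD S (B k)) (p (k + 1)) (p k))
    (hno : ∀ k, k < n → ¬ FA (cm0 hS) (xc hS hχ) (RD S (B k)) (p k) (p (k + 1)))
    {Rs : Set (D0 S)} (hR : ∀ k, 0 < k → k + 1 < n → RD S (B k) ⊆ Rs) (h0 : p 0 ∉ Rs)
    (hn : p n ∉ Rs) :
    ∃ (q : D0 S) (N : ℕ) (T : ℕ → ℕ),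
      Str (cm0 hS) (xc hS hχ) n Rs (fun k => p (n - k)) (fun k => RD S (B (n - 1 - k))) q N T ∧
      (∃ i, (stp (cm0 hS) (xc hS hχ))^[i] (p n) = q) ∧
      Reg (cm0 hS) (xc hS hχ) q T n n (FQ S n fun l => Q (n - 1 - l)) ∧
      (∀ {E : Type} [AddCommMonoid E] (w : D0 S → E) (k : ℕ), 0 < k → k + 1 < n →
        KS (cm0 hS) (xc hS hχ) q w (T k) (T (k + 1)) =
          ZZ (cm0 hS) (xc hS hχ) w (RD S (B (n - 1 - k))) (p (n - 1 - k)) (p (n - k))) ∧
      ∀ {E : Type} [AddCommMonoid E] (w : D0 S → E) (l : ℕ), 2 ≤ l → l + 2 < n →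
        Vl (cm0 hS) (xc hS hχ) q T n w (FQ S n fun l => Q (n - 1 - l)) l =
          VZ hS hχ n B p w (FQ S n Q (n - 1 - l)) (n - 1 - l) := by
  obtain ⟨q, N, T, h1, h2, h3⟩ := StrBx117.DCorr.strand R n3 hf hR h0 hn
  have hR := reg_str (B := fun k => B (n - 1 - k)) H.rev h1
  have h8' : ∀ {E : Type} [AddCommMonoid E] (w : D0 S → E) (k : ℕ), 0 < k → k + 1 < n →
      KS (cm0 hS) (xc hS hχ) q w (T k) (T (k + 1)) =
        ZZ (cm0 hS) (xc hS hχ) w (RD S (B (n - 1 - k))) (p (n - 1 - k)) (p (n - k)) := by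
    intro E _ w k hk0 hk
    rw [h3 w k hk0 hk]
    have a1 := hf (n - 1 - k) (by omega)
    have a2 := hno (n - 1 - k) (by omega)
    rw [show n - 1 - k + 1 = n - k by omega] at a1 a2
    exact zz_back a1 a2
  refine ⟨q, N, T, h1, h2, hR, h8', fun w l hl0 hl => ?_⟩
  rw [hR.vl_eq]
  have hG : FQ S n (fun l => Q (n - 1 - l)) l = FQ S n Q (n - 1 - l) := by
    ext e
    constructor
    · rintro ⟨-, h⟩
      exact ⟨by omega, h⟩
    · rintro ⟨-, h⟩
      exact ⟨by omega, h⟩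
  rw [hG]
  unfold VZ
  refine Finset.sum_bij' (fun k _ => n - 1 - k) (fun k _ => n - 1 - k) ?_ ?_ ?_ ?_ ?_
  · intro k hk
    rw [mem_near] at hk ⊢
    omega
  · intro k hk
    rw [mem_near] at hk ⊢
    omega
  · intro k hk
    rw [mem_near] at hk
    omega
  · intro k hk
    rw [mem_near] at hk
    omega
  · intro k hk
    rw [mem_near] at hk
    rw [h8' _ k (by omega) (by omega), show n - 1 - k + 1 = n - k by omega]

/-- the full tiles in the normal order -/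
theorem sum_rev {E : Type} [AddCommMonoid E] (f : ℕ → E) {ka kb : ℕ} (hkb : kb < n) :
    ∑ l ∈ Finset.Ico (ka + 2) (kb - 2), f (n - 1 - l) =
      ∑ j ∈ Finset.Ico (n + 2 - kb) (n - 2 - ka), f j := by
  refine Finset.sum_bij' (fun k _ => n - 1 - k) (fun k _ => n - 1 - k) ?_ ?_ ?_ ?_ ?_
  · intro k hk
    rw [Finset.mem_Ico] at hk ⊢
    omega
  · intro k hk
    rw [Finset.mem_Ico] at hk ⊢
    omega
  · intro k hk
    rw [Finset.mem_Ico] at hk
    omega
  · intro k hk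
    rw [Finset.mem_Ico] at hk
    omega
  · intro k _
    rfl

/-- **a window of the strand in terms of the spatial charges** -/
theorem window_VZ {q : D0 S} {T : ℕ → ℕ} {E : Type} [AddCommMonoid E] {w : D0 S → E}
    (hR : Reg (cm0 hS) (xc hS hχ) q T n n (FQ S n fun l => Q (n - 1 - l)))
    (hV : ∀ l, 2 ≤ l → l + 2 < n →
      Vl (cm0 hS) (xc hS hχ) q T n w (FQ S n fun l => Q (n - 1 - l)) l =
        VZ hS hχ n B p w (FQ S n Q (n - 1 - l)) (n - 1 - l))
    {a b ka kb : ℕ} (ha : T 0 ≤ a) (hab : a ≤ b) (hb : b ≤ T n) (ha1 : T ka ≤ a)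
    (ha2 : a ≤ T (ka + 1)) (hka : ka < n) (hb1 : T kb ≤ b) (hb2 : b ≤ T (kb + 1)) (hkb : kb < n) :
    KP (cm0 hS) (xc hS hχ) q w (T 0) (T n) a b =
      ∑ j ∈ Finset.Ico (n + 2 - kb) (n - 2 - ka), VZ hS hχ n B p w (FQ S n Q j) j +
      ∑ l ∈ Ma n ka, Wl (cm0 hS) (xc hS hχ) q T n w (FQ S n fun l => Q (n - 1 - l)) a b l +
      ∑ l ∈ Mb n ka kb, Wl (cm0 hS) (xc hS hχ) q T n w (FQ S n fun l => Q (n - 1 - l)) a b l := by
  rw [hR.split_form ha hab hb ha1 ha2 hka hb1 hb2 hkb le_rfl,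
    ← sum_rev (n := n) (fun j => VZ hS hχ n B p w (FQ S n Q j) j) hkb]
  congr 2
  refine Finset.sum_congr rfl fun l hl => ?_
  rw [Finset.mem_Ico] at hl
  exact hV l (by omega) (by omega)

/-- **a window of the strand in terms of functionals of the configuration** -/
theorem window_VX {X : Set (ℂ × Bool)} (hX : X.Finite) {hS : GP (sX X : Set ℂ)}
    {hχ : HullC (sX X) (cX X)} {p : ℕ → D0 (sX X)} (R : DCorr hS hχ n y z A B p)
    {St : ℕ → Set (ℂ × Bool) → ℂ × ℂ → Prop} (hSt : ∀ k, k ≤ n → St k X (p k).1)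
    (uSt : ∀ k, k ≤ n → ∀ r, St k X r → r = (p k).1) {f : ℂ × ℂ × ℂ → ℂ} {w : D0 (sX X) → ℂ}
    (hw : ∀ k, k < n → ∀ e : D0 (sX X), e.1.2 ∈ B k → th (sX X) e.1 ∈ B k →
      w e = f (e.1.2, th (sX X) e.1, e.1.1)) {q : D0 (sX X)} {T : ℕ → ℕ}
    (hR : Reg (cm0 hS) (xc hS hχ) q T n n (FQ (sX X) n fun l => Q (n - 1 - l)))
    (hV : ∀ l, 2 ≤ l → l + 2 < n →
      Vl (cm0 hS) (xc hS hχ) q T n w (FQ (sX X) n fun l => Q (n - 1 - l)) l =
        VZ hS hχ n B p w (FQ (sX X) n Q (n - 1 - l)) (n - 1 - l))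
    {a b ka kb : ℕ} (ha : T 0 ≤ a) (hab : a ≤ b) (hb : b ≤ T n) (ha1 : T ka ≤ a)
    (ha2 : a ≤ T (ka + 1)) (hka : ka < n) (hb1 : T kb ≤ b) (hb2 : b ≤ T (kb + 1)) (hkb : kb < n) :
    KP (cm0 hS) (xc hS hχ) q w (T 0) (T n) a b =
      ∑ j ∈ Finset.Ico (n + 2 - kb) (n - 2 - ka), VX f n B Q St j X +
      ∑ l ∈ Ma n ka, Wl (cm0 hS) (xc hS hχ) q T n w (FQ (sX X) n fun l => Q (n - 1 - l)) a b l +
      ∑ l ∈ Mb n ka kb,
        Wl (cm0 hS) (xc hS hχ) q T n w (FQ (sX X) n fun l => Q (n - 1 - l)) a b l := by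
  rw [window_VZ hR hV ha hab hb ha1 ha2 hka hb1 hb2 hkb]
  congr 2
  refine Finset.sum_congr rfl fun j hj => ?_
  rw [Finset.mem_Ico] at hj
  exact R.vz_VX hX hSt uSt hw (by omega)

end Crest.Agent.R143.Spt2x832
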