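import Crest.Agent.R143.CorH_713
import Crest.Agent.R143.OrientF_881
import Crest.Agent.R143.Spt2_832

/-!
# Row 143 (S0194), RIG, composition CorrI, part A (helper831): from `CorH` to the strand

* `bst` : enlarged strips `RR (19/2 η) (103/2 η) (100 η) W a`; `Rts` : the inner out strips
* `CorH.back` : all arcs are backward (one gate with five straight tiles)
* `CorH.h0`, `CorH.hn` : the first and the last gate are off the inner strips
* `CorH.strand` : 117's strand + 169's regions + spatial charges (832)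
-/

set_option autoImplicit false
set_option linter.all false

noncomputable section

open scoped Classical

namespace Crest.Agent.R143.CorrIx831

open Set
open Crest.Agent.R143.B0x346 Crest.Agent.R143.DelGx806 Crest.Agent.R143.DelRx806
  Crest.Agent.R143.JColx54
open Crest.Agent.R143.Frame1x395 Crest.Agent.R143.Frame2x395 Crest.Agent.R143.Frame3x395
  Crest.Agent.R143.Frame4x395 Crest.Agent.R143.Frame8x395 Crest.Agent.R143.Frame9x395
  Crest.Agent.R143.Frame10x395 Crest.Agent.R143.Frame11x395
open Crest.Agent.R143.Frame5x395 (sd mem_sd th th_spec)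
open Crest.Agent.R143.Locx922
open Crest.Agent.R143.Splx117 Crest.Agent.R143.WLocx713
open Crest.Agent.R143.Blkx838 (DE)
open Crest.Agent.R143.Neckx921 (Neck NeckD Tile Lk)
open Crest.Agent.R143.PP0x831 Crest.Agent.R143.FinMx609
open Crest.Agent.R143.RingDx117 (RD DRing StC StR)
open Crest.Agent.R143.CorrDx117 (DCorr)
open Crest.Agent.R143.TileRx228 Crest.Agent.R143.PathDx503 Crest.Agent.R143.PathGx503
open Crest.Agent.R143.RingPx503 Crest.Agent.R143.DCorGx713 Crest.Agent.R143.DCorFx713
open Crest.Agent.R143.CorHx713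
open Crest.Agent.R143.Sptx169 Crest.Agent.R143.Sptx832 Crest.Agent.R143.Spt2x832
open Crest.Agent.R143.StrBx117 (Str)

/-- enlarged strip of the tile `a` -/
abbrev bst (η : ℝ) (W : ℤ → ℤ × ℤ) (a : ℤ) : Set ℂ := RR (19 / 2 * η) (103 / 2 * η) (100 * η) W a

/-- the enlarged strips of the inner out tiles `o + 1, .., o + n - 2` -/
def Rts (η : ℝ) (W : ℤ → ℤ × ℤ) (o : ℤ) (n : ℕ) : Set ℂ :=
  {s | ∃ k : ℕ, 0 < k ∧ k + 1 < n ∧ s ∈ bst η W (o + k)}

variable {X : Set (ℂ × Bool)} {U : Set ℂ} {M : ℕ} {W : ℤ → ℤ × ℤ} {η d : ℝ} {o : ℤ} {n : ℕ}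

/-- **all arcs are backward** -/
theorem back (H : CorH X U M W η d o n) {r : ℕ} (hr : 2 ≤ r) (hrn : r + 2 < n)
    (hs : ∀ j, o + r - 2 ≤ j → j ≤ o + r + 2 → ge W (j + 1) = ge W j) :
    (∀ k : ℕ, k < n → FA (cm0 H.gp) (xc H.gp H.hull) (RD (sX X) (bst η W (o + k))) (H.p (k + 1))
      (H.p k)) ∧
      ∀ k : ℕ, k < n → ¬ FA (cm0 H.gp) (xc H.gp H.hull) (RD (sX X) (bst η W (o + k))) (H.p k)
        (H.p (k + 1)) := by
  have h1 := H.e0
  have D := H.corr
  have e1 : 19 / 2 * η = 9 * η + η / 2 := by ring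
  have e2 : 103 / 2 * η = 51 * η + η / 2 := by ring
  unfold bst
  rw [e1, e2] at D ⊢
  exact OrientFx881.back_path (b := 1) D H.evp H.path (by linarith) (by linarith) bX_iff bX_sub
    (by linarith) (by linarith) (by linarith) (by linarith) (k := r) (by omega) hs
    (fun j h2 h3 => ⟨by omega, by omega⟩) (by linarith) (by linarith) (by linarith) (by linarith)

/-- a site of a strip of the corridor is inner -/
theorem inn_bst (H : CorH X U M W η d o n) {a : ℤ} {v : ℂ} (hv : v ∈ bst η W a) :
    ¬ OnHull (sX X) v := by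
  have h1 := H.e0
  exact H.inn (H.sub_U (by linarith) (by linarith) a hv)

/-- the gates `0` and `n` are off the inner strips -/
theorem y_off (H : CorH X U M W η d o n) {j : ℕ} (hj : j = 0 ∨ j = n) :
    yy η W X (o + j) ∉ Rts η W o n := by
  rintro ⟨k, h1, h2, h3⟩
  exact H.corr.far k j (by omega) (by omega) (by omega) (by omega) h3

end Crest.Agent.R143.CorrIx831
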