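import Crest.Agent.R143.RcT_422
import Crest.Agent.R143.Uniq_323

/-!
# Row 143 (S0194), RIG, CorrI (d): transport sites <-> cells, part 2 (helper422)

* `ed_rc`, **`lk_rc`** (a link of sites is a `K33x137.Lk` of cells), `cn_rc` (a set of sites connected
  by links gives a connected zone), `rc_image`
* **`lnk_rc`** : the field `lnk` of `Sys` / `Good` from a path of sites from a right site of the strand
  to the hull which avoids the left sites and the white sites of `R`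
* `wr_white`, `wl_black`, colours of the cells of the strand
* **`col_rc`** : the field `col` of 323's `Strd` from a white path of sites in the window
* `ent_rc`, `ext_rc` : third cells of the faces behind the first state and of the exit face
-/

set_option autoImplicit false
set_option linter.unusedSectionVars false

noncomputable section

open scoped Classical

namespace Crest.Agent.R143.RcTx422

open Crest.Agent.R143.B0x346 Crest.Agent.R143.DelGx806 Crest.Agent.R143.DelRx806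
open Crest.Agent.R143.Frame1x395 Crest.Agent.R143.Frame2x395 Crest.Agent.R143.Frame3x395
  Crest.Agent.R143.Frame4x395 Crest.Agent.R143.Frame8x395 Crest.Agent.R143.Frame9x395
  Crest.Agent.R143.Frame10x395 Crest.Agent.R143.Frame11x395
open Crest.Agent.R143.Frame5x395 (sd mem_sd th th_spec)
open Crest.Agent.R143.NonXx592 (P Rc)
open Crest.Agent.R143.Gntx535 (wl wr mem_wl mem_wr)
open Crest.Agent.R143.Extx358 (Ad Ext Sep Zc)
open Crest.Agent.R143.FinCx811 (Cs rc0 cs rcol cell_mem cs_inj cs_surj)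
open Crest.Agent.R143.WLocx713 (HullC nx lift xc it_eq)
open Crest.Agent.R143.Blkx838 (DE)
open Crest.Agent.R143.Sepx686 (LS RS dart_mem)
open Crest.Agent.R143.K33x137 (Ed Cn)

variable {S : Finset ℂ} {hS : GP (S : Set ℂ)} {χ : ℂ → ZMod 2} {hχ : HullC S χ}

/-! ### links -/

theorem ed_of_ad {a b : Cs hS} (h : Ad (rc0 hS) a b) : Ed (rc0 hS) a b := by
  obtain ⟨d, -, e1, e2⟩ := h
  exact ⟨d, e1, e2⟩

/-- a Delaunay side is an edge of cells -/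
theorem ed_rc (h3 : 3 ≤ S.card) {u w : {v // v ∈ S}} (h : DE S u.1 w.1) :
    Ed (rc0 hS) (cs hS h3 u) (cs hS h3 w) := by
  rcases h with ⟨c, hc⟩ | ⟨c, hc⟩
  · exact ⟨⟨(u.1, w.1), mem_sd.2 ⟨c, hc⟩⟩, rfl, rfl⟩
  · exact Ed.symm ⟨⟨(w.1, u.1), mem_sd.2 ⟨c, hc⟩⟩, rfl, rfl⟩

/-- **a link of sites is a link of cells** -/
theorem lk_rc (h3 : 3 ≤ S.card) {A : Set ℂ} {A' : Set (Cs hS)}
    (hA : ∀ v : {v // v ∈ S}, v.1 ∈ A → cs hS h3 v ∈ A') {u w : {v // v ∈ S}}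
    (h : Neckx921.Lk S A u.1 w.1) : K33x137.Lk (rc0 hS) A' (cs hS h3 u) (cs hS h3 w) := by
  obtain ⟨w, hw⟩ := w
  obtain ⟨-, h⟩ := h
  simp only at h
  induction h with
  | refl => exact Relation.EqvGen.refl _
  | @tail a b _ h1 ih =>
    have ha := (de_mem h1.1).1
    exact (ih ha).trans' (K33x137.Lk.edge (hA ⟨a, ha⟩ h1.2.1) (hA ⟨b, hw⟩ h1.2.2)
      (ed_rc (u := ⟨a, ha⟩) (w := ⟨b, hw⟩) h3 h1.1))

/-- a set of sites connected by links gives a connected set of cells -/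
theorem cn_rc (h3 : 3 ≤ S.card) {A : Set ℂ} {A' : Set (Cs hS)}
    (hA : ∀ v : {v // v ∈ S}, v.1 ∈ A → cs hS h3 v ∈ A')
    (hA' : ∀ c ∈ A', ∃ v : {v // v ∈ S}, v.1 ∈ A ∧ c = cs hS h3 v)
    (hc : ∀ u ∈ S, u ∈ A → ∀ w ∈ S, w ∈ A → Neckx921.Lk S A u w) : Cn (rc0 hS) A' := by
  intro c hcA c' hcA'
  obtain ⟨u, hu, rfl⟩ := hA' c hcA
  obtain ⟨w, hw, rfl⟩ := hA' c' hcA'
  exact lk_rc h3 hA (hc u.1 u.2 hu w.1 w.2 hw)

/-- the cells of the sites of `A` -/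
def CS (hS : GP (S : Set ℂ)) (A : Set ℂ) : Set (Cs hS) := {c | ∃ v ∈ S, v ∈ A ∧ c.1 = Quot.mk _ v}

variable {A B : Set ℂ}

theorem mem_CS (h3 : 3 ≤ S.card) {v : {v // v ∈ S}} (h : v.1 ∈ A) : cs hS h3 v ∈ CS hS A :=
  ⟨v.1, v.2, h, rfl⟩

theorem CS_inner {c : Cs hS} {v : ℂ} (hv : ¬ OnHull S v) (e : c.1 = Quot.mk _ v) :
    c ∈ CS hS A ↔ v ∈ S ∧ v ∈ A := by
  constructor
  · rintro ⟨w, h1, h2, e'⟩
    rw [e] at e'
    have : w = v := quot_inner hS hv e'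
    exact this ▸ ⟨h1, h2⟩
  · rintro ⟨h1, h2⟩
    exact ⟨v, h1, h2, e⟩

theorem CS_hull (hA : ∃ v ∈ S, v ∈ A ∧ OnHull S v) {c : Cs hS} (h : c ∈ Hc hS) : c ∈ CS hS A := by
  obtain ⟨v, h1, h2, h4⟩ := hA
  obtain ⟨w, hw, e⟩ := h
  exact ⟨v, h1, h2, by rw [e, hull_one hS hw h4]⟩

theorem RC_sub_CS : RC hS A ⊆ CS hS A := fun _ ⟨v, h1, h2, _, h4⟩ => ⟨v, h1, h2, h4⟩

/-- zones of disjoint sets of sites are disjoint if one of them has no hull sites -/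
theorem CS_disj (hAB : ∀ v ∈ S, v ∈ A → v ∉ B) (hA : ∀ v ∈ S, v ∈ A → ¬ OnHull S v) :
    Disjoint (CS hS A) (CS hS B) := by
  rw [Set.disjoint_left]
  rintro c ⟨v, h1, h2, e⟩ hB
  exact hAB v h1 h2 ((CS_inner (hA v h1 h2) e).1 hB).2

theorem RC_disj (hAB : ∀ v ∈ S, v ∈ A → v ∉ B) : Disjoint (RC hS A) (CS hS B) := by
  rw [Set.disjoint_left]
  rintro c ⟨v, h1, h2, h4, e⟩ hB
  exact hAB v h1 h2 ((CS_inner h4 e).1 hB).2

theorem cn_CS (h3 : 3 ≤ S.card)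
    (hc : ∀ u ∈ S, u ∈ A → ∀ w ∈ S, w ∈ A → Neckx921.Lk S A u w) : Cn (rc0 hS) (CS hS A) :=
  cn_rc h3 (fun _ h => mem_CS h3 h) (fun _ ⟨v, h1, h2, e⟩ => ⟨⟨v, h1⟩, h2, Subtype.ext e⟩) hc

theorem cn_RC (h3 : 3 ≤ S.card) (hin : ∀ v ∈ S, v ∈ A → ¬ OnHull S v)
    (hc : ∀ u ∈ S, u ∈ A → ∀ w ∈ S, w ∈ A → Neckx921.Lk S A u w) : Cn (rc0 hS) (RC hS A) :=
  cn_rc h3 (fun v h => (mem_RC h3 (hin v.1 v.2 h)).2 h)
    (fun _ ⟨v, h1, h2, _, e⟩ => ⟨⟨v, h1⟩, h2, Subtype.ext e⟩) hc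

/-! ### colours of the strand -/

variable {q : D0 S} {m : ℕ} {R : Set (Cs hS)}

theorem LS_col (hq : xc hS hχ q = 1) {s : ℂ} (hs : s ∈ LS S χ q.1 m) : χ s = χ q.1.1 := by
  obtain ⟨j, hj, rfl⟩ := hs
  have h1 : (P (rc0 hS) (xc hS hχ) q j).1 = (nx S χ)^[j] q.1 := st_rc hq j
  have h2 : (rc0 hS).cell (P (rc0 hS) (xc hS hχ) q j) ∈ wl (rc0 hS) (cfg (rc0 hS) (rcol hS χ hχ)) q m :=
    mem_wl.2 ⟨j, hj, rfl⟩
  have h3 := Gntx535.wl_col (M := rc0 hS) (χ := rcol hS χ hχ) hq h2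
  rw [← h1]
  exact h3

theorem RS_col (hq : xc hS hχ q = 1) {s : ℂ} (hs : s ∈ RS S χ q.1 m) : χ s = χ q.1.2 := by
  obtain ⟨j, hj, rfl⟩ := hs
  have h1 : (P (rc0 hS) (xc hS hχ) q j).1 = (nx S χ)^[j] q.1 := st_rc hq j
  have h2 : Rc (rc0 hS) (P (rc0 hS) (xc hS hχ) q j) ∈
      wr (rc0 hS) (cfg (rc0 hS) (rcol hS χ hχ)) q m := mem_wr.2 ⟨j, hj, rfl⟩
  have h3 := Gntx535.wr_col (M := rc0 hS) (χ := rcol hS χ hχ) hq h2
  rw [← h1]
  have h4 : χ q.1.1 + χ q.1.2 = 1 := hq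
  have h5 : rcol hS χ hχ (Rc (rc0 hS) (P (rc0 hS) (xc hS hχ) q j)) =
      χ (P (rc0 hS) (xc hS hχ) q j).1.2 := rfl
  have h6 : rcol hS χ hχ ((rc0 hS).cell q) = χ q.1.1 := rfl
  rw [h5, h6] at h3
  rw [h3]
  have key : ∀ a b : ZMod 2, a + b = 1 → a + 1 = b := by decide
  exact key _ _ h4

/-! ### the link -/

/-- **the field `lnk`** : a path of sites from a right site of the strand to the hull -/
theorem lnk_rc (hq : xc hS hχ q = 1) {r w : ℂ} (hr : r ∈ RS S χ q.1 m) (hw : OnHull S w)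
    (hL : ∀ s ∈ LS S χ q.1 m, ¬ OnHull S s) (hRr : ∀ s ∈ RS S χ q.1 m, ¬ OnHull S s)
    (hR : ∀ c ∈ Hc hS, c ∉ R)
    (hp : Relation.ReflTransGen (fun a b => DE S a b ∧ b ∉ LS S χ q.1 m ∧
      ¬ (χ b = 0 ∧ ∃ c ∈ R, c.1 = Quot.mk _ b)) r w) :
    ∃ c₀ ∈ (wr (rc0 hS) (xc hS hχ) q m : Set (Cs hS)), ∃ e₀,
      Ext (rc0 hS) (Hc hS) (Zc (wl (rc0 hS) (xc hS hχ) q m : Set (Cs hS))
        (wr (rc0 hS) (xc hS hχ) q m) R (rcol hS χ hχ)) e₀ ∧ Ad (rc0 hS) e₀ c₀ := by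
  have h3 := dart3 hS q
  have hrS : r ∈ S := by
    obtain ⟨j, -, rfl⟩ := hr
    rw [← st_rc (hχ := hχ) hq j]
    exact (dart_mem _).2
  have hwS := hull_mem hw
  have hnl : ∀ v : {v // v ∈ S}, v.1 ∉ LS S χ q.1 m → cs hS h3 v ∉ wl (rc0 hS) (xc hS hχ) q m := by
    intro v hv hc
    obtain ⟨s, hs, e⟩ := (mem_wl_LS hq).1 hc
    have e' : (Quot.mk (hullE S) s : Quot (hullE S)) = Quot.mk _ v.1 := e.symm
    exact hv (quot_inner hS (hL s hs) e' ▸ hs)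
  have hp' := rtg_rc (hS := hS) h3 (u := ⟨r, hrS⟩) (w := ⟨w, hwS⟩)
    (Q := fun b => b ∉ LS S χ q.1 m ∧ ¬ (χ b = 0 ∧ ∃ c ∈ R, c.1 = Quot.mk _ b))
    (Q' := fun c => c ∉ (wl (rc0 hS) (xc hS hχ) q m : Set (Cs hS)) ∧
      ¬ (c ∈ R ∧ rcol hS χ hχ c = 0)) (fun v hv => ⟨fun hc => hnl v hv.1 (Finset.mem_coe.1 hc),
        fun hc => hv.2 ⟨hc.2, _, hc.1, rfl⟩⟩) hp
  refine Extx358.lnk_of_path (c := cs hS h3 ⟨r, hrS⟩) (h₀ := cs hS h3 ⟨w, hwS⟩)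
    (Finset.mem_coe.2 ((mem_wr_RS hq).2 ⟨r, hr, rfl⟩)) (cs_Hc h3 hw) ?_ hp'
  rintro ((hc | hc) | hc)
  · obtain ⟨s, hs, e⟩ := (mem_wl_LS hq).1 (Finset.mem_coe.1 hc)
    exact hL s hs (by
      have e' : (Quot.mk (hullE S) s : Quot (hullE S)) = Quot.mk _ w := e.symm
      have := quot_inner hS (hL s hs) e'
      exact this ▸ hw)
  · obtain ⟨s, hs, e⟩ := (mem_wr_RS hq).1 (Finset.mem_coe.1 hc)
    exact hRr s hs (by
      have e' : (Quot.mk (hullE S) s : Quot (hullE S)) = Quot.mk _ w := e.symm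
      have := quot_inner hS (hRr s hs) e'
      exact this ▸ hw)
  · exact hR _ (cs_Hc h3 hw) hc.1

/-! ### 323's `Strd` -/

/-- the cell behind the first state -/
theorem ent_val (hq : xc hS hχ q = 1) : ((rc0 hS).cell ((rc0 hS).rho ((rc0 hS).rho
    ((rc0 hS).iota q)))).1 = Quot.mk (hullE S) (th S (q.1.2, q.1.1)) := by
  have hl : q ∈ (rc0 hS).live := (cfg_isC (M := rc0 hS) (rcol hS χ hχ)).lv hq
  have hl' : (q.1.2, q.1.1) ∈ sd S := hl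
  rw [cell_rho2_val]
  show Quot.mk (hullE S) (th S (io0 q).1) = _
  rw [io0_live hl']

/-- the third cell of the exit face -/
theorem ext_val : ((rc0 hS).cell ((rc0 hS).rho ((rc0 hS).rho
    (P (rc0 hS) (xc hS hχ) q m)))).1 = Quot.mk (hullE S) (th S (P (rc0 hS) (xc hS hχ) q m).1) := rfl

theorem ext_val' (hq : xc hS hχ q = 1) : ((rc0 hS).cell ((rc0 hS).rho ((rc0 hS).rho
    (P (rc0 hS) (xc hS hχ) q m)))).1 = Quot.mk (hullE S) (th S ((nx S χ)^[m] q.1)) := by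
  rw [ext_val, st_rc hq]

/-- **323's strand from the planar walk**: `Z.R = RC hS B`, all sites of `B` inner -/
theorem strd_rc {Z : Uniqx323.Zn (rc0 hS)} (hB : ∀ v ∈ S, v ∈ B → ¬ OnHull S v)
    (hZ : Z.R = RC hS B) (hq : xc hS hχ q = 1) (hb : χ q.1.1 = 1)
    (hl : ∀ s ∈ LS S χ q.1 m, s ∈ B) (hr : ∀ s ∈ RS S χ q.1 m, s ∈ B)
    (he : (rc0 hS).cell ((rc0 hS).rho ((rc0 hS).rho ((rc0 hS).iota q))) ∈ Z.E)
    (hw : (rc0 hS).cell ((rc0 hS).rho ((rc0 hS).rho (P (rc0 hS) (xc hS hχ) q m))) ∈ Z.W)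
    {s t : ℂ} (hs : s ∈ RS S χ q.1 m) (htS : t ∈ S) {cT : Cs hS} (hcT : cT ∈ Z.T)
    (et : cT.1 = Quot.mk _ t) {Q : Set ℂ}
    (hQ : ∀ v : {v // v ∈ S}, v.1 ∈ Q → ∀ c : Cs hS, c.1 = Quot.mk _ v.1 →
      (c ∈ Z.K ∧ χ v.1 = 0) ∨ c ∈ Z.T)
    (hcol : Neckx921.Lk S Q s t) :
    Uniqx323.Strd (rc0 hS) Z 1 (rcol hS χ hχ) q m := by
  have h3 := dart3 hS q
  have hst : ∀ j, (P (rc0 hS) (xc hS hχ) q j).1 = (nx S χ)^[j] q.1 := fun j => st_rc hq j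
  have hsS : s ∈ S := by
    obtain ⟨j, -, rfl⟩ := hs
    rw [← hst j]
    exact (dart_mem _).2
  refine ⟨hb, hq, he, fun j hj => ?_, fun j hj => ?_, hw, ?_⟩
  · rw [hZ]
    refine (cell_RC hB (v := (P (rc0 hS) (xc hS hχ) q j).1.1) (dart_mem _).1 rfl).2 ?_
    exact hl _ ⟨j, hj, by rw [hst j]⟩
  · rw [hZ]
    refine (cell_RC hB (v := (P (rc0 hS) (xc hS hχ) q j).1.2) (dart_mem _).2 rfl).2 ?_
    exact hr _ ⟨j, hj, by rw [hst j]⟩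
  · obtain ⟨j, hj, es⟩ := hs
    refine ⟨j, hj, cT, hcT, ?_⟩
    have e1 : Rc (rc0 hS) (P (rc0 hS) (xc hS hχ) q j) = cs hS h3 ⟨s, hsS⟩ := by
      apply Subtype.ext
      show Quot.mk (hullE S) (P (rc0 hS) (xc hS hχ) q j).1.2 = Quot.mk _ s
      rw [hst j, es]
    have e2 : cT = cs hS h3 ⟨t, htS⟩ := Subtype.ext et
    show K33x137.Lk _ _ (Rc (rc0 hS) (P (rc0 hS) (xc hS hχ) q j)) _
    rw [e1, e2]
    refine lk_rc h3 (fun v hv => ?_) hcol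
    rcases hQ v hv (cs hS h3 v) rfl with ⟨h1, h2⟩ | h1
    · exact Or.inl ⟨h1, by
        show χ v.1 = 1 + 1
        rw [h2]; decide⟩
    · exact Or.inr h1

end Crest.Agent.R143.RcTx422
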