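import Crest.Agent.R143.R5q_166
import Crest.Agent.R143.Spt2_169

/-!
# Row 143 (S0194), RIG (helper166): field `close` of 970's `CorM` from the quenched closing theorem

* `fa`, `fb`, `fM`, `fM'`, `split3` : full tiles `[a, b)` between the touched arcs `ka`, `kb`, two
  partial parts with `‖M‖², ‖M'‖² ≤ 8 Σ ‖W l‖²`
* `Ex.kp` : the outer part of the closing is 169's `KP`
* `arcOf` : arc of a time
* `Ex.closeM` : **`V(β) = V(γ) + Σ_{l ∈ [a, b)} V l + M + M'`**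
* `Ex.hitA`, `Ex.hitB` : the touched cells are 395's static hits
* `Ex.idx` : the tiles `a`, `b` are the tiles of the hits, up to 3 (4)
-/

set_option autoImplicit false
set_option linter.unusedSectionVars false

noncomputable section

open scoped Classical

namespace Crest.Agent.R143.QuSx166

/-! ### full tiles and partial parts -/

section split

/-- first full tile -/
def fa (ka kb : ℕ) : ℕ := if ka + 4 ≤ kb then ka + 2 else ka

/-- end of the full tiles -/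
def fb (ka kb : ℕ) : ℕ := if ka + 4 ≤ kb then kb - 2 else ka

theorem fab {ka kb : ℕ} (h : ka ≤ kb) : fa ka kb ≤ fb ka kb ∧ fb ka kb ≤ kb ∧ ka ≤ fa ka kb ∧
    fa ka kb ≤ ka + 2 ∧ kb ≤ fb ka kb + 3 := by
  unfold fa fb
  split_ifs <;> omega

variable {E : Type} [AddCommGroup E]

/-- first partial part -/
def fM (W : ℕ → E) (m ka kb : ℕ) : E :=
  if ka + 4 ≤ kb then ∑ l ∈ (Finset.range m).filter fun l => l < ka + 2, W l
  else ∑ l ∈ Finset.range m, W l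

/-- second partial part -/
def fM' (W : ℕ → E) (m ka kb : ℕ) : E :=
  if ka + 4 ≤ kb then ∑ l ∈ (Finset.range m).filter fun l => kb - 2 ≤ l, W l else 0

theorem split3 {m ka kb : ℕ} {W V : ℕ → E} (h0 : ∀ l, m ≤ l → W l = 0)
    (hin : ∀ l, ka + 2 ≤ l → l + 2 < kb → W l = V l) :
    ∑ l ∈ Finset.range m, W l =
      ∑ l ∈ Finset.Ico (fa ka kb) (fb ka kb), V l + fM W m ka kb + fM' W m ka kb := by
  unfold fa fb fM fM'
  split_ifs with h
  · have e1 : ∑ l ∈ Finset.Ico (ka + 2) (kb - 2), V l =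
        ∑ l ∈ (Finset.range m).filter (fun l => ka + 2 ≤ l ∧ l < kb - 2), W l := by
      have e0 : ∑ l ∈ Finset.Ico (ka + 2) (kb - 2), V l =
          ∑ l ∈ Finset.Ico (ka + 2) (kb - 2), W l := Finset.sum_congr rfl fun l hl =>
        (hin l (Finset.mem_Ico.1 hl).1 (by have := (Finset.mem_Ico.1 hl).2; omega)).symm
      rw [e0]
      symm
      refine Finset.sum_subset (fun l hl => ?_) fun l hl hl' => ?_
      · exact Finset.mem_Ico.2 (Finset.mem_filter.1 hl).2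
      · refine h0 l ?_
        by_contra hc
        exact hl' (Finset.mem_filter.2 ⟨Finset.mem_range.2 (by omega), Finset.mem_Ico.1 hl⟩)
    rw [e1, Finset.sum_filter, Finset.sum_filter, Finset.sum_filter, ← Finset.sum_add_distrib,
      ← Finset.sum_add_distrib]
    refine Finset.sum_congr rfl fun l _ => ?_
    rcases Nat.lt_or_ge l (ka + 2) with c | c
    · rw [if_neg (by omega), if_pos c, if_neg (by omega), zero_add, add_zero]
    · rcases Nat.lt_or_ge l (kb - 2) with c' | c'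
      · rw [if_pos ⟨c, c'⟩, if_neg (by omega), if_neg (by omega), add_zero, add_zero]
      · rw [if_neg (by omega), if_neg (by omega), if_pos c', zero_add, zero_add]
  · rw [Finset.Ico_self, Finset.sum_empty, zero_add, add_zero]

end split

section sq

variable {W : ℕ → ℂ} {m ka kb : ℕ}

theorem sq_le {s : Finset ℕ} (hs : s ⊆ Finset.range m) {a : ℕ}
    (hw : ∀ l ∈ s, l < a ∨ a + 8 ≤ l → W l = 0) :
    ‖∑ l ∈ s, W l‖ ^ 2 ≤ 8 * ∑ l ∈ Finset.range m, ‖W l‖ ^ 2 := by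
  set t := s.filter fun l => a ≤ l ∧ l < a + 8 with ht
  have e1 : ∑ l ∈ s, W l = ∑ l ∈ t, W l := by
    symm
    refine Finset.sum_subset (Finset.filter_subset _ _) fun l hl hl' => hw l hl ?_
    by_contra hc
    exact hl' (Finset.mem_filter.2 ⟨hl, by omega⟩)
  have hcard : t.card ≤ 8 := by
    have h1 : t ⊆ Finset.Ico a (a + 8) := fun l hl =>
      Finset.mem_Ico.2 (Finset.mem_filter.1 hl).2
    have h2 := Finset.card_le_card h1
    rw [Nat.card_Ico] at h2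
    omega
  have h3 : (∑ l ∈ t, ‖W l‖) ^ 2 ≤ (t.card : ℝ) * ∑ l ∈ t, ‖W l‖ ^ 2 :=
    sq_sum_le_card_mul_sum_sq
  have h4 : ‖∑ l ∈ t, W l‖ ≤ ∑ l ∈ t, ‖W l‖ := norm_sum_le _ _
  have h5 : ∑ l ∈ t, ‖W l‖ ^ 2 ≤ ∑ l ∈ Finset.range m, ‖W l‖ ^ 2 :=
    Finset.sum_le_sum_of_subset_of_nonneg ((Finset.filter_subset _ _).trans hs)
      fun _ _ _ => by positivity
  have h6 : 0 ≤ ∑ l ∈ t, ‖W l‖ ^ 2 := Finset.sum_nonneg fun _ _ => by positivity
  have h7 : (t.card : ℝ) ≤ 8 := by exact_mod_cast hcard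
  rw [e1]
  calc ‖∑ l ∈ t, W l‖ ^ 2 ≤ (∑ l ∈ t, ‖W l‖) ^ 2 := by gcongr
    _ ≤ (t.card : ℝ) * ∑ l ∈ t, ‖W l‖ ^ 2 := h3
    _ ≤ 8 * ∑ l ∈ t, ‖W l‖ ^ 2 := by gcongr
    _ ≤ 8 * ∑ l ∈ Finset.range m, ‖W l‖ ^ 2 := by gcongr

theorem fM_sq (hk : ka ≤ kb) (hout : ∀ l, l + 2 < ka ∨ kb + 2 ≤ l → W l = 0) :
    ‖fM W m ka kb‖ ^ 2 ≤ 8 * ∑ l ∈ Finset.range m, ‖W l‖ ^ 2 := by
  unfold fM
  split_ifs with h
  · refine sq_le (a := ka - 2) (Finset.filter_subset _ _) fun l hl h1 => hout l ?_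
    have := (Finset.mem_filter.1 hl).2
    left
    omega
  · refine sq_le (a := ka - 2) subset_rfl fun l hl h1 => hout l ?_
    omega

theorem fM_sq' (hout : ∀ l, l + 2 < ka ∨ kb + 2 ≤ l → W l = 0) :
    ‖fM' W m ka kb‖ ^ 2 ≤ 8 * ∑ l ∈ Finset.range m, ‖W l‖ ^ 2 := by
  unfold fM'
  split_ifs with h
  · refine sq_le (a := kb - 2) (Finset.filter_subset _ _) fun l hl h1 => hout l ?_
    have := (Finset.mem_filter.1 hl).2
    right
    omega
  · rw [norm_zero]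
    have : 0 ≤ ∑ l ∈ Finset.range m, ‖W l‖ ^ 2 := Finset.sum_nonneg fun _ _ => by positivity
    nlinarith

end sq

/-! ### the closing -/

open Crest.Agent.R143.Frame1x395 Crest.Agent.R143.Frame2x395 Crest.Agent.R143.Frame3x395
  Crest.Agent.R143.Frame4x395 Crest.Agent.R143.Frame8x395 Crest.Agent.R143.Frame9x395
  Crest.Agent.R143.NonXx592 Crest.Agent.R143.Coarsex166 Crest.Agent.R143.Coarse2x166
  Crest.Agent.R143.Flipx166 Crest.Agent.R143.R5bx166 Crest.Agent.R143.R5qx166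

open Splx117 (Lp InK gp)
open C2SBx395 (Cq Root Free Rc Pin yv Hit)
open Sptx169 (KP Reg Wl Vl rst)

section close

variable {D C C' : Type} [Fintype D] {M : CMap D C} {σ μ : C → ZMod 2} {p : D}
  {N n r nn m : ℕ} {W : Set C} {i : ZMod 3} {T : ℕ → ℕ} {F : ℕ → Set D} {π : C → C'}
  {hπ : ClsCon M π}

/-- an arc of a time -/
def arcOf (T : ℕ → ℕ) (nn t : ℕ) : ℕ :=
  if h : ∃ k, k < nn ∧ T k ≤ t ∧ t ≤ T (k + 1) then Nat.find h else 0

theorem arcOf_spec {t : ℕ} (hnn : 0 < nn) (h0 : T 0 ≤ t) (h1 : t ≤ T nn) :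
    arcOf T nn t < nn ∧ T (arcOf T nn t) ≤ t ∧ t ≤ T (arcOf T nn t + 1) := by
  have h := Sptx169.exists_arc (T := T) hnn h0 h1
  unfold arcOf
  rw [dif_pos h]
  exact Nat.find_spec h

theorem arcOf_mono (R : ∀ k, k < nn → T k ≤ T (k + 1)) {s t : ℕ} (hnn : 0 < nn)
    (h0 : T 0 ≤ s) (hst : s ≤ t) (h1 : t ≤ T nn) : arcOf T nn s ≤ arcOf T nn t := by
  obtain ⟨a1, a2, a3⟩ := arcOf_spec (T := T) hnn h0 (hst.trans h1)
  obtain ⟨b1, b2, b3⟩ := arcOf_spec (T := T) hnn (h0.trans hst) h1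
  by_contra hc
  -- `s` lies in the arc of `t`
  have mo : T (arcOf T nn t + 1) ≤ T (arcOf T nn s) :=
    Splx117.mono_of (T := T) (a := 0) (b := nn) (fun k _ hk => R k hk) (Nat.zero_le _)
      (by omega) (by omega)
  have hs : s = T (arcOf T nn s) := by omega
  have ht : t = s := by omega
  rw [ht] at hc
  exact hc le_rfl

/-- the outer part of the closing is 169's `KP` -/
theorem kp_eq {E : Type} [AddCommMonoid E] (h0 : T 0 = 0) (hn : T nn = n) (v : D → E) :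
    ∑ j ∈ tG M σ μ p n r, v (gp M (cfg M σ) p j) =
      KP M (cfg M σ) p v (T 0) (T nn) (tB M μ p n r) (tA M μ p n r) := by
  rw [h0, hn]
  rfl

/-- charge of the region `l` between the touches -/
def Wr (M : CMap D C) (σ μ : C → ZMod 2) (p : D) (n r : ℕ) (T : ℕ → ℕ) (nn : ℕ) (w : D → ℂ)
    (F : ℕ → Set D) (l : ℕ) : ℂ :=
  Wl M (cfg M σ) p T nn w F (tB M μ p n r) (tA M μ p n r) l

/-- spatial tile charge (a function of the revealed colours) -/
def Vr (M : CMap D C) (σ : C → ZMod 2) (p : D) (T : ℕ → ℕ) (nn : ℕ) (w : D → ℂ)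
    (F : ℕ → Set D) (l : ℕ) : ℂ := Vl M (cfg M σ) p T nn w F l

/-- arcs of the two touches -/
def kaT (M : CMap D C) (μ : C → ZMod 2) (p : D) (n r : ℕ) (T : ℕ → ℕ) (nn : ℕ) : ℕ :=
  arcOf T nn (tB M μ p n r)

def kbT (M : CMap D C) (μ : C → ZMod 2) (p : D) (n r : ℕ) (T : ℕ → ℕ) (nn : ℕ) : ℕ :=
  arcOf T nn (tA M μ p n r)

theorem rst_add_norm (w : D → ℂ) (F : ℕ → Set D) (l : ℕ) (d : D) : ‖rst w (F l) d‖ ≤ ‖w d‖ :=
  Sptx169.norm_rst_le w (F l) d

/-- outside of the regions -/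
theorem wr_zero (R : Reg M (cfg M σ) p T nn m F) {w : D → ℂ} {a b l : ℕ} (ha : T 0 ≤ a)
    (hb : b ≤ T nn) (hl : m ≤ l) : Wl M (cfg M σ) p T nn w F a b l = 0 := by
  refine Sptx169.kp_zero fun j h1 h2 h3 => Sptx169.rst_not fun h4 => ?_
  obtain ⟨l', hl', h5⟩ := R.cov j (ha.trans h1) (h2.trans_le hb) h3
  have := R.dis j (ha.trans h1) (h2.trans_le hb) h3 l l' h4 h5
  omega

theorem _root_.Crest.Agent.R143.R5qx166.Ex.touch (X : Ex M σ p N n r W) (h0 : T 0 = 0) (hn : T nn = n) (hnn : 0 < nn)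
    (hE : ∀ c ∈ EE M (cfg M σ) p n W, μ c = σ c) (mono : ∀ k, k < nn → T k ≤ T (k + 1)) :
    kaT M μ p n r T nn ≤ kbT M μ p n r T nn ∧ kbT M μ p n r T nn < nn ∧
      T (kaT M μ p n r T nn) ≤ tB M μ p n r ∧ tB M μ p n r ≤ T (kaT M μ p n r T nn + 1) ∧
      T (kbT M μ p n r T nn) ≤ tA M μ p n r ∧ tA M μ p n r ≤ T (kbT M μ p n r T nn + 1) := by
  obtain ⟨h1, h2, h3⟩ := X.tA_spec hE
  obtain ⟨a1, a2, a3⟩ := arcOf_spec (T := T) hnn (t := tB M μ p n r) (by omega) (by omega)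
  obtain ⟨b1, b2, b3⟩ := arcOf_spec (T := T) hnn (t := tA M μ p n r) (by omega) (by omega)
  exact ⟨arcOf_mono mono hnn (by omega) (by omega) (by omega), b1, a2, a3, b2, b3⟩

/-- **970's field `close`**: `V(β) = V(γ) + Σ_{l ∈ [a, b)} V l + M + M'` -/
theorem _root_.Crest.Agent.R143.R5qx166.Ex.closeM (X : Ex M σ p N n r W) (Q : Cq π (AA M σ p n r W i)) (h0 : T 0 = 0)
    (hn : T nn = n) (hnn : 0 < nn) (R : Reg M (cfg M σ) p T nn m F)
    (hE : ∀ c ∈ EE M (cfg M σ) p n W, μ c = σ c) (w : D → ℂ) :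
    ∑ h ∈ blk M (cfg M μ) (gp M (cfg M σ) p r), w h =
      ∑ h ∈ (blk (coarse M π hπ) (cfg M (r0 W μ)) (gp M (cfg M σ) p r)).erase
          (gp M (cfg M σ) p r), w h +
      (∑ l ∈ Finset.Ico (fa (kaT M μ p n r T nn) (kbT M μ p n r T nn))
          (fb (kaT M μ p n r T nn) (kbT M μ p n r T nn)), Vr M σ p T nn w F l +
        fM (Wr M σ μ p n r T nn w F) m (kaT M μ p n r T nn) (kbT M μ p n r T nn) +
        fM' (Wr M σ μ p n r T nn w F) m (kaT M μ p n r T nn) (kbT M μ p n r T nn)) := by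
  have mono : ∀ k, k < nn → T k ≤ T (k + 1) := fun k hk => R.mono k (Nat.zero_le k) hk
  obtain ⟨t1, t2, t3⟩ := X.tA_spec hE
  obtain ⟨c1, c2, c3, c4, c5, c6⟩ := X.touch h0 hn hnn hE mono
  rw [X.close (hπ := hπ) Q hE w, kp_eq h0 hn w,
    R.wl_sum (w := w) (a := tB M μ p n r) (b := tA M μ p n r) (by omega) (by omega)]
  congr 1
  refine split3 (W := Wr M σ μ p n r T nn w F) (fun l hl => ?_) fun l h1 h2 => ?_
  · exact wr_zero R (by omega) (by omega) hl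
  · exact R.wl_in (by omega) (by omega) (by omega) c4 c5 c2 h1 h2

/-- the partial parts -/
theorem _root_.Crest.Agent.R143.R5qx166.Ex.partM (X : Ex M σ p N n r W) (h0 : T 0 = 0)
    (hn : T nn = n) (hnn : 0 < nn) (R : Reg M (cfg M σ) p T nn m F)
    (hE : ∀ c ∈ EE M (cfg M σ) p n W, μ c = σ c) (w : D → ℂ) :
    ‖fM (Wr M σ μ p n r T nn w F) m (kaT M μ p n r T nn) (kbT M μ p n r T nn)‖ ^ 2 ≤
        8 * ∑ l ∈ Finset.range m, ‖Wr M σ μ p n r T nn w F l‖ ^ 2 ∧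
      ‖fM' (Wr M σ μ p n r T nn w F) m (kaT M μ p n r T nn) (kbT M μ p n r T nn)‖ ^ 2 ≤
        8 * ∑ l ∈ Finset.range m, ‖Wr M σ μ p n r T nn w F l‖ ^ 2 := by
  have mono : ∀ k, k < nn → T k ≤ T (k + 1) := fun k hk => R.mono k (Nat.zero_le k) hk
  obtain ⟨t1, t2, t3⟩ := X.tA_spec hE
  obtain ⟨c1, c2, c3, c4, c5, c6⟩ := X.touch h0 hn hnn hE mono
  have hout : ∀ l, l + 2 < kaT M μ p n r T nn ∨ kbT M μ p n r T nn + 2 ≤ l →
      Wr M σ μ p n r T nn w F l = 0 := fun l h =>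
    R.wl_out (by omega) (by omega) c3 (by omega) c6 h
  exact ⟨fM_sq c1 hout, fM_sq' hout⟩

/-- **the charge of a region is the difference of the restricted sums** -/
theorem _root_.Crest.Agent.R143.R5qx166.Ex.wr_eq (X : Ex M σ p N n r W) (Q : Cq π (AA M σ p n r W i)) (h0 : T 0 = 0)
    (hn : T nn = n) (hE : ∀ c ∈ EE M (cfg M σ) p n W, μ c = σ c) (w : D → ℂ) (l : ℕ) :
    Wr M σ μ p n r T nn w F l =
      ∑ h ∈ blk M (cfg M μ) (gp M (cfg M σ) p r), rst w (F l) h -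
        ∑ h ∈ (blk (coarse M π hπ) (cfg M (r0 W μ)) (gp M (cfg M σ) p r)).erase
          (gp M (cfg M σ) p r), rst w (F l) h := by
  rw [X.close (hπ := hπ) Q hE (rst w (F l)), kp_eq h0 hn, add_sub_cancel_left]
  rfl

/-! ### the touched cells are the hits -/

theorem col_lift (X : Ex M σ p N n r W) (Q : Cq π (AA M σ p n r W i))
    (hE : ∀ c ∈ EE M (cfg M σ) p n W, μ c = σ c) :
    ∃ χ : C' → ZMod 2, (fun c => χ (π c)) = r0 W μ := by
  obtain ⟨c1, c2, c3⟩ := X.rc (i := i) hE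
  have key : ∀ c c', π c = π c' → r0 W μ c = r0 W μ c' := by
    intro c c' e
    rcases (Q.ker _ _).1 e with e | ⟨j, h1, h2⟩
    · rw [e]
    · rcases C2SBx395.z3c i j with rfl | rfl | rfl
      · rw [c2 _ h1, c2 _ h2]
      · rw [c1 _ h1, c1 _ h2]
      · rw [c3 _ h1, c3 _ h2]
  refine ⟨fun c' => r0 W μ (Function.surjInv Q.surj c'), funext fun c => ?_⟩
  exact key _ _ (Function.surjInv_eq Q.surj (π c))

/-- **the left cell at the last touch before `r` is the hit of `A i`**, the left cell at the first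
touch after `r` is the hit of `A (i+1)` (colours flipped) -/
theorem _root_.Crest.Agent.R143.R5qx166.Ex.hits (X : Ex M σ p N n r W) (Q : Cq π (AA M σ p n r W i))
    (hE : ∀ c ∈ EE M (cfg M σ) p n W, μ c = σ c) :
    (∃ k, Hit M (AA M σ p n r W i) i {c | μ c = 1} k ∧
      M.cell k = lc M (cfg M σ) p (tB M μ p n r)) ∧
    ∃ k, Hit M (AA M σ p n r W i) (i + 1) {c | μ c = 1}ᶜ k ∧
      M.cell k = lc M (cfg M σ) p (tA M μ p n r) := by
  have G := X.gi (i := i)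
  have Rt := X.root (i := i)
  have hπ : ClsCon M π := cls_of G Q
  obtain ⟨χ, hχ⟩ := col_lift X Q hE
  obtain ⟨c1, c2, c3⟩ := X.rc (i := i) hE
  have e : ∀ c, χ (π c) = r0 W μ c := fun c => congrFun hχ c
  obtain ⟨h1, h2⟩ := X.ends (hπ := hπ) Q hE
  have ec : cfg M (r0 W μ) = cfg (coarse M π hπ) χ := by rw [← hχ]; rfl
  rw [ec] at h1 h2
  have b0 : χ (π (M.cell (gp M (cfg M σ) p r))) = 1 := by rw [e]; exact c1 _ Rt.r0
  have b1 : χ (π (M.cell (M.rho (gp M (cfg M σ) p r)))) = 1 := by rw [e]; exact c2 _ Rt.r1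
  have b2 : χ (π (M.cell (M.rho (M.rho (gp M (cfg M σ) p r))))) = 0 := by
    rw [e]; exact c3 _ Rt.r2
  have k1 := C2SBx395.kB_hit (hπ := hπ) Rt Q G b0 b1 b2
  have k2 := C2SBx395.kA_hit (hπ := hπ) Rt Q G b0 b1 b2
  have hT : ∀ c, Free (AA M σ p n r W i) c → (c ∈ {c | χ (π c) = 1} ↔ c ∈ {c | μ c = 1}) := by
    intro c hc
    show χ (π c) = 1 ↔ μ c = 1
    have hW : c ∉ W := fun h => hc (i + 2) (by rw [AA_2]; exact h)
    rw [e, r0_F hW]
  refine ⟨⟨_, k1.congr hT, h2⟩, ⟨_, k2.congr fun c hc => ?_, h1⟩⟩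
  exact not_congr (hT c hc)

/-- **positions of the touches = positions of the static hits** -/
theorem _root_.Crest.Agent.R143.R5qx166.Ex.yv_eq (X : Ex M σ p N n r W) (Q : Cq π (AA M σ p n r W i))
    (hE : ∀ c ∈ EE M (cfg M σ) p n W, μ c = σ c) {E : Type} [Zero E] (z : C → E) :
    yv M (AA M σ p n r W i) i {c | μ c = 1} z = z (lc M (cfg M σ) p (tB M μ p n r)) ∧
      yv M (AA M σ p n r W i) (i + 1) {c | μ c = 1}ᶜ z =
        z (lc M (cfg M σ) p (tA M μ p n r)) := by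
  obtain ⟨⟨k, h1, h2⟩, k', h3, h4⟩ := X.hits Q hE
  have G := X.gi (i := i)
  exact ⟨by rw [C2SBx395.yv_eq G h1, h2], by rw [C2SBx395.yv_eq G h3, h4]⟩

/-- **index half of 970's field `near`**: `tl` = tile index of a left cell of the arc, up to one -/
theorem _root_.Crest.Agent.R143.R5qx166.Ex.idx (X : Ex M σ p N n r W) (Q : Cq π (AA M σ p n r W i)) (h0 : T 0 = 0)
    (hn : T nn = n) (hnn : 0 < nn) (mono : ∀ k, k < nn → T k ≤ T (k + 1))
    (hE : ∀ c ∈ EE M (cfg M σ) p n W, μ c = σ c) {tl : C → ℕ}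
    (htl : ∀ k, k < nn → ∀ u, T k ≤ u → u ≤ T (k + 1) →
      k ≤ tl (lc M (cfg M σ) p u) + 1 ∧ tl (lc M (cfg M σ) p u) ≤ k + 1) :
    (fa (kaT M μ p n r T nn) (kbT M μ p n r T nn) ≤
        yv M (AA M σ p n r W i) i {c | μ c = 1} tl + 3 ∧
      yv M (AA M σ p n r W i) i {c | μ c = 1} tl ≤
        fa (kaT M μ p n r T nn) (kbT M μ p n r T nn) + 1) ∧
    fb (kaT M μ p n r T nn) (kbT M μ p n r T nn) ≤
        yv M (AA M σ p n r W i) (i + 1) {c | μ c = 1}ᶜ tl + 1 ∧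
      yv M (AA M σ p n r W i) (i + 1) {c | μ c = 1}ᶜ tl ≤
        fb (kaT M μ p n r T nn) (kbT M μ p n r T nn) + 4 := by
  obtain ⟨e1, e2⟩ := X.yv_eq Q hE tl
  obtain ⟨c1, c2, c3, c4, c5, c6⟩ := X.touch h0 hn hnn hE mono
  have f1 := htl _ (by omega) _ c3 c4
  have f2 := htl _ c2 _ c5 c6
  obtain ⟨g1, g2, g3, g4, g5⟩ := fab c1
  rw [e1, e2]
  omega

end close

end Crest.Agent.R143.QuSx166
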