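import Crest.Agent.R143.Spt2_832
import Crest.Agent.R143.QuS_166
import Crest.Agent.R143.FinC_811

/-!
# Row 143 (S0194), CORE-C: from `cm0 hS` to `rc0 hS` (helper832)

117's and 169's objects on `M` and on `restr M` (the same map with finitely many cells, 302 / 811) are
the same; so the corridor and the strand, typed on `cm0 hS`, give the hypotheses of 166's / 778's
theorems on `rc0 hS`, whose colourings can be averaged.

* `lp_restr`, `lc_restr`, `ink_restr`, `ks_restr`, `kp_restr`, `cut_restr`, `zz_restr`, `reg_restr`,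
  `vl_restr`, `wl_restr`, `str_restr`
* `pc h3 σ` : planar colouring of a colouring `σ` of the cells; `pc_hull`, `lift_pc`, `cfg_pc`
* **`strand_rc0`** : the strand of a corridor on `rc0 hS`: `Str`, `Reg`, tile charges = `VX` of the
  configuration
* **`closeX`** : 166's closing theorem with these tile charges
-/

set_option autoImplicit false
set_option linter.all false

noncomputable section

open scoped Classical

namespace Crest.Agent.R143.Rstx832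

open Crest.Agent.R143.B0x346 Crest.Agent.R143.DelGx806 Crest.Agent.R143.DelRx806
  Crest.Agent.R143.JColx54
open Crest.Agent.R143.Frame1x395 Crest.Agent.R143.Frame2x395 Crest.Agent.R143.Frame3x395
  Crest.Agent.R143.Frame4x395 Crest.Agent.R143.Frame8x395 Crest.Agent.R143.Frame9x395
  Crest.Agent.R143.Frame10x395 Crest.Agent.R143.Frame11x395
open Crest.Agent.R143.Frame5x395 (sd mem_sd th th_spec)
open Crest.Agent.R143.Splx117 Crest.Agent.R143.WLocx713 Crest.Agent.R143.RingDx117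
  Crest.Agent.R143.CorrDx117 Crest.Agent.R143.Sptx169 Crest.Agent.R143.Sptx832
  Crest.Agent.R143.Spt2x832
open Crest.Agent.R143.StrBx117 (Str)
open Crest.Agent.R143.Mass3x302 (restr isC_restr)
open Crest.Agent.R143.FinCx811

/-! ### the same map with finitely many cells -/

section restr

variable {D C : Type} {M : CMap D C} {x : D → ZMod 2} {p : D} {N : ℕ} {T : ℕ → ℕ}

theorem lp_restr : Lp (restr M) x p N ↔ Lp M x p N :=
  ⟨fun L => ⟨isC_restr.1 L.even, L.occ, L.pos, L.per, L.inj⟩,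
    fun L => ⟨isC_restr.2 L.even, L.occ, L.pos, L.per, L.inj⟩⟩

theorem lc_restr {i j : ℕ} : lc (restr M) x p i = lc (restr M) x p j ↔ lc M x p i = lc M x p j :=
  ⟨fun h => congrArg Subtype.val h, fun h => Subtype.ext h⟩

theorem ink_restr {A B i : ℕ} : InK (restr M) x p A B i ↔ InK M x p A B i :=
  ⟨fun h => ⟨h.lo, h.hi, h.gap, fun j l h1 h2 h3 h4 e => h.sep j l h1 h2 h3 h4 (lc_restr.2 e)⟩,
    fun h => ⟨h.lo, h.hi, h.gap, fun j l h1 h2 h3 h4 e => h.sep j l h1 h2 h3 h4 (lc_restr.1 e)⟩⟩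

theorem inkP_restr (A B : ℕ) : InK (restr M) x p A B = InK M x p A B :=
  funext fun _ => propext ink_restr

theorem kp_restr {E : Type} [AddCommMonoid E] (w : D → E) (A B a b : ℕ) :
    KP (restr M) x p w A B a b = KP M x p w A B a b := by
  unfold KP
  refine Finset.sum_congr ?_ fun _ _ => rfl
  ext i
  rw [Finset.mem_filter, Finset.mem_filter, ink_restr]

theorem ks_restr {E : Type} [AddCommMonoid E] (w : D → E) (a b : ℕ) :
    KS (restr M) x p w a b = KS M x p w a b := kp_restr w a b a b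

theorem cut_restr {a b : ℕ} : Cut (restr M) x p T a b ↔ Cut M x p T a b := by
  constructor
  · intro h k k' h0 h1 h2 u v a1 a2 a3 a4 e
    obtain ⟨c1, c2⟩ := h k k' h0 h1 h2 u v a1 a2 a3 a4 (lc_restr.2 e)
    exact ⟨c1, lc_restr.1 c2⟩
  · intro h k k' h0 h1 h2 u v a1 a2 a3 a4 e
    obtain ⟨c1, c2⟩ := h k k' h0 h1 h2 u v a1 a2 a3 a4 (lc_restr.1 e)
    exact ⟨c1, lc_restr.2 c2⟩

theorem zz_restr {E : Type} [AddCommMonoid E] (w : D → E) (R : Set D) (a b : D) :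
    ZZ (restr M) x w R a b = ZZ M x w R a b := by
  unfold ZZ
  rw [ks_restr, ks_restr]
  rfl

theorem vl_restr {E : Type} [AddCommMonoid E] (n : ℕ) (w : D → E) (F : ℕ → Set D) (l : ℕ) :
    Vl (restr M) x p T n w F l = Vl M x p T n w F l := ks_restr _ _ _

theorem wl_restr {E : Type} [AddCommMonoid E] (n : ℕ) (w : D → E) (F : ℕ → Set D) (a b l : ℕ) :
    Wl (restr M) x p T n w F a b l = Wl M x p T n w F a b l := kp_restr _ _ _ _ _

theorem reg_restr {n m : ℕ} {F : ℕ → Set D} :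
    Reg (restr M) x p T n m F ↔ Reg M x p T n m F :=
  ⟨fun h => ⟨h.mono, cut_restr.1 h.cut, fun i h1 h2 h3 => h.cov i h1 h2 (ink_restr.2 h3),
    fun i h1 h2 h3 => h.dis i h1 h2 (ink_restr.2 h3),
    fun k hk i h1 h2 h3 => h.near k hk i h1 h2 (ink_restr.2 h3)⟩,
   fun h => ⟨h.mono, cut_restr.2 h.cut, fun i h1 h2 h3 => h.cov i h1 h2 (ink_restr.1 h3),
    fun i h1 h2 h3 => h.dis i h1 h2 (ink_restr.1 h3),
    fun k hk i h1 h2 h3 => h.near k hk i h1 h2 (ink_restr.1 h3)⟩⟩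

theorem str_restr {n : ℕ} {Rs : Set D} {P : ℕ → D} {R : ℕ → Set D} :
    Str (restr M) x n Rs P R p N T ↔ Str M x n Rs P R p N T :=
  ⟨fun h => { h with
      lp := lp_restr.1 h.lp
      cut := cut_restr.1 h.cut },
   fun h => { h with
      lp := lp_restr.2 h.lp
      cut := cut_restr.2 h.cut }⟩

end restr

/-! ### planar colourings -/

section pc

variable {S : Finset ℂ} {hS : GP (S : Set ℂ)}

/-- planar colouring of a colouring of the cells -/
def pc (h3 : 3 ≤ S.card) (σ : Cs hS → ZMod 2) (v : ℂ) : ZMod 2 :=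
  if hv : v ∈ S then σ (cs hS h3 ⟨v, hv⟩) else 0

theorem pc_mem (h3 : 3 ≤ S.card) (σ : Cs hS → ZMod 2) {v : ℂ} (hv : v ∈ S) :
    pc h3 σ v = σ (cs hS h3 ⟨v, hv⟩) := dif_pos hv

theorem pc_hull (h3 : 3 ≤ S.card) (σ : Cs hS → ZMod 2) : HullC S (pc h3 σ) := by
  intro a b hab
  obtain ⟨c, hc⟩ := hab.1
  have ha := (mem_delT.1 hc).1
  have hb := (mem_delT.1 hc).2.1
  rw [pc_mem h3 σ ha, pc_mem h3 σ hb, cs_hull hS h3 (v := ⟨a, ha⟩) (w := ⟨b, hb⟩) hab]

/-- **the configurations are the same** -/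
theorem cfg_pc (h3 : 3 ≤ S.card) (σ : Cs hS → ZMod 2) :
    xc hS (pc_hull h3 σ) = cfg (rc0 hS) σ := by
  funext e
  have h := mem_delT.1 (th_spec e.2)
  show pc h3 σ e.1.1 + pc h3 σ e.1.2 = _
  rw [pc_mem h3 σ h.1, pc_mem h3 σ h.2.1]
  exact (cfg_cells hS h3 σ e h.1 h.2.1).symm

/-- the planar colouring is constant along the hull -/
theorem cfg_rc {χ : ℂ → ZMod 2} (hχ : HullC S χ) : cfg (rc0 hS) (rcol hS χ hχ) = xc hS hχ := rfl

end pc

/-! ### the strand on `rc0 hS` -/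

/-- a sum over tiles in the opposite order -/
theorem sum_rev' {E : Type} [AddCommMonoid E] (f : ℕ → E) {n a b : ℕ} (hb : b ≤ n) :
    ∑ l ∈ Finset.Ico a b, f (n - 1 - l) = ∑ j ∈ Finset.Ico (n - b) (n - a), f j := by
  refine Finset.sum_bij' (fun k _ => n - 1 - k) (fun k _ => n - 1 - k) ?_ ?_ ?_ ?_ ?_
  · intro k hk
    rw [Finset.mem_Ico] at hk ⊢
    omega
  · intro k hk
    rw [Finset.mem_Ico] at hk ⊢
    omega
  · intro k hk
    rw [Finset.mem_Ico] at hk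
    omega
  · intro k hk
    rw [Finset.mem_Ico] at hk
    omega
  · intro k _
    rfl

section conf

variable {X : Set (ℂ × Bool)} {hS : GP (sX X : Set ℂ)} {hχ : HullC (sX X) (cX X)} {n : ℕ}
  {y z : ℕ → ℂ} {A B Q : ℕ → Set ℂ} {p : ℕ → D0 (sX X)}
  {St : ℕ → Set (ℂ × Bool) → ℂ × ℂ → Prop} {f : ℂ × ℂ × ℂ → ℂ} {w : D0 (sX X) → ℂ}

/-- the colours of the cells of a configuration which is constant along the hull -/
def sg (hχ : HullC (sX X) (cX X)) : Cs hS → ZMod 2 := rcol hS (cX X) hχ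

theorem cfg_sg : cfg (rc0 hS) (sg hχ) = xc hS hχ := rfl

/-- data of the strand: start state `q`, times `T` -/
structure StrR (hS : GP (sX X : Set ℂ)) (hχ : HullC (sX X) (cX X)) (n : ℕ) (Rs : Set (D0 (sX X)))
    (B Q : ℕ → Set ℂ) (p : ℕ → D0 (sX X)) (w : D0 (sX X) → ℂ) (V : ℕ → ℂ)
    (q : D0 (sX X)) (N : ℕ) (T : ℕ → ℕ) : Prop where
  str : Str (rc0 hS) (cfg (rc0 hS) (sg hχ)) n Rs (fun k => p (n - k))
    (fun k => RD (sX X) (B (n - 1 - k))) q N T
  reg : Reg (rc0 hS) (cfg (rc0 hS) (sg hχ)) q T n n (FQ (sX X) n fun l => Q (n - 1 - l))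
  val : ∀ l, 2 ≤ l → l + 2 < n → Vl (rc0 hS) (cfg (rc0 hS) (sg hχ)) q T n w
    (FQ (sX X) n fun l => Q (n - 1 - l)) l = V (n - 1 - l)

/-- **the strand of a corridor on `rc0 hS`** -/
theorem strand_rc0 (hX : X.Finite) (R : DCorr hS hχ n y z A B p) (n3 : 3 ≤ n)
    (H : QReg (sX X) n n B Q)
    (hf : ∀ k, k < n → FA (cm0 hS) (xc hS hχ) (RD (sX X) (B k)) (p (k + 1)) (p k))
    (hno : ∀ k, k < n → ¬ FA (cm0 hS) (xc hS hχ) (RD (sX X) (B k)) (p k) (p (k + 1)))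
    {Rs : Set (D0 (sX X))} (hR : ∀ k, 0 < k → k + 1 < n → RD (sX X) (B k) ⊆ Rs) (h0 : p 0 ∉ Rs)
    (hn : p n ∉ Rs) (hSt : ∀ k, k ≤ n → St k X (p k).1)
    (uSt : ∀ k, k ≤ n → ∀ r, St k X r → r = (p k).1)
    (hw : ∀ k, k < n → ∀ e : D0 (sX X), e.1.2 ∈ B k → th (sX X) e.1 ∈ B k →
      w e = f (e.1.2, th (sX X) e.1, e.1.1)) :
    ∃ (q : D0 (sX X)) (N : ℕ) (T : ℕ → ℕ),
      StrR hS hχ n Rs B Q p w (fun j => VX f n B Q St j X) q N T ∧
      ∃ i, (stp (cm0 hS) (xc hS hχ))^[i] (p n) = q := by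
  obtain ⟨q, N, T, h1, h2, h3, h4, h5⟩ := strand_q R n3 H hf hno hR h0 hn
  refine ⟨q, N, T, ⟨str_restr.2 h1, reg_restr.2 h3, fun l a1 a2 => ?_⟩, h2⟩
  have e1 := h5 w l a1 a2
  rw [R.vz_VX hX hSt uSt hw (by omega)] at e1
  rw [← e1]
  exact vl_restr n w _ l

variable {Rs : Set (D0 (sX X))} {V : ℕ → ℂ} {q : D0 (sX X)} {N : ℕ} {T : ℕ → ℕ}

open Crest.Agent.R143.R5qx166 Crest.Agent.R143.QuSx166 Crest.Agent.R143.Coarsex166
open C2SBx395 (Cq)

variable {C' : Type} {π : Cs hS → C'} {hπ : ClsCon (rc0 hS) π} {r : ℕ} {W : Set (Cs hS)}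
  {i : ZMod 3} {μ : Cs hS → ZMod 2}

/-- the tile charges of the full tiles, `j ∈ [n - fb, n - fa)` in the normal order -/
theorem vsum (H : StrR hS hχ n Rs B Q p w V q N T)
    (E : Ex (rc0 hS) (sg hχ) q N (T n) r W)
    (hE : ∀ c ∈ EE (rc0 hS) (cfg (rc0 hS) (sg hχ)) q (T n) W, μ c = sg hχ c) :
    ∑ l ∈ Finset.Ico (fa (kaT (rc0 hS) μ q (T n) r T n) (kbT (rc0 hS) μ q (T n) r T n))
      (fb (kaT (rc0 hS) μ q (T n) r T n) (kbT (rc0 hS) μ q (T n) r T n)),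
        Vr (rc0 hS) (sg hχ) q T n w (FQ (sX X) n fun l => Q (n - 1 - l)) l =
      ∑ j ∈ Finset.Ico
          (n - fb (kaT (rc0 hS) μ q (T n) r T n) (kbT (rc0 hS) μ q (T n) r T n))
          (n - fa (kaT (rc0 hS) μ q (T n) r T n) (kbT (rc0 hS) μ q (T n) r T n)), V j := by
  have hn3 := H.str.n3
  have hn : 0 < n := by omega
  have mono : ∀ k, k < n → T k ≤ T (k + 1) := fun k hk => H.str.mono k hk
  obtain ⟨c1, c2, -⟩ := E.touch H.str.T0 rfl hn hE mono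
  obtain ⟨g1, g2, g3, g4, g5⟩ := fab c1
  rw [← sum_rev' V (n := n) (by omega)]
  refine Finset.sum_congr rfl fun l hl => ?_
  rw [Finset.mem_Ico] at hl
  unfold fa fb at hl
  split_ifs at hl with h4
  · exact H.val l (by omega) (by omega)
  · omega

/-- **166's closing theorem with the tile charges of the configuration** -/
theorem closeX (H : StrR hS hχ n Rs B Q p w V q N T)
    (E : Ex (rc0 hS) (sg hχ) q N (T n) r W) (Cqq : Cq π (AA (rc0 hS) (sg hχ) q (T n) r W i))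
    (hE : ∀ c ∈ EE (rc0 hS) (cfg (rc0 hS) (sg hχ)) q (T n) W, μ c = sg hχ c) :
    ∑ h ∈ blk (rc0 hS) (cfg (rc0 hS) μ) (gp (rc0 hS) (cfg (rc0 hS) (sg hχ)) q r), w h =
      ∑ h ∈ @Finset.erase _ (fun a b => Classical.propDecidable (a = b))
          (blk (coarse (rc0 hS) π hπ) (cfg (rc0 hS) (r0 W μ))
          (gp (rc0 hS) (cfg (rc0 hS) (sg hχ)) q r))
          (gp (rc0 hS) (cfg (rc0 hS) (sg hχ)) q r), w h +
      (∑ j ∈ Finset.Ico
          (n - fb (kaT (rc0 hS) μ q (T n) r T n) (kbT (rc0 hS) μ q (T n) r T n))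
          (n - fa (kaT (rc0 hS) μ q (T n) r T n) (kbT (rc0 hS) μ q (T n) r T n)), V j +
        fM (Wr (rc0 hS) (sg hχ) μ q (T n) r T n w (FQ (sX X) n fun l => Q (n - 1 - l))) n
          (kaT (rc0 hS) μ q (T n) r T n) (kbT (rc0 hS) μ q (T n) r T n) +
        fM' (Wr (rc0 hS) (sg hχ) μ q (T n) r T n w (FQ (sX X) n fun l => Q (n - 1 - l))) n
          (kaT (rc0 hS) μ q (T n) r T n) (kbT (rc0 hS) μ q (T n) r T n)) := by
  have hn3 := H.str.n3
  rw [E.closeM (hπ := hπ) Cqq H.str.T0 rfl (by omega) H.reg hE w, vsum H E hE]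

/-- **the full tiles and the hits in the normal order**: `tl` = tile of a left cell, up to one -/
theorem idxX (H : StrR hS hχ n Rs B Q p w V q N T)
    (E : Ex (rc0 hS) (sg hχ) q N (T n) r W) (Cqq : Cq π (AA (rc0 hS) (sg hχ) q (T n) r W i))
    (hE : ∀ c ∈ EE (rc0 hS) (cfg (rc0 hS) (sg hχ)) q (T n) W, μ c = sg hχ c)
    {tl : Cs hS → ℕ} (htn : ∀ c, tl c < n)
    (htl : ∀ k, k < n → ∀ u, T k ≤ u → u ≤ T (k + 1) →
      n - 1 - k ≤ tl (lc (rc0 hS) (cfg (rc0 hS) (sg hχ)) q u) + 1 ∧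
        tl (lc (rc0 hS) (cfg (rc0 hS) (sg hχ)) q u) ≤ n - 1 - k + 1) :
    (tl (lc (rc0 hS) (cfg (rc0 hS) (sg hχ)) q (tA (rc0 hS) μ q (T n) r)) ≤
        n - fb (kaT (rc0 hS) μ q (T n) r T n) (kbT (rc0 hS) μ q (T n) r T n) ∧
      n - fb (kaT (rc0 hS) μ q (T n) r T n) (kbT (rc0 hS) μ q (T n) r T n) ≤
        tl (lc (rc0 hS) (cfg (rc0 hS) (sg hχ)) q (tA (rc0 hS) μ q (T n) r)) + 5) ∧
    (n - fa (kaT (rc0 hS) μ q (T n) r T n) (kbT (rc0 hS) μ q (T n) r T n) ≤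
        tl (lc (rc0 hS) (cfg (rc0 hS) (sg hχ)) q (tB (rc0 hS) μ q (T n) r)) + 2 ∧
      tl (lc (rc0 hS) (cfg (rc0 hS) (sg hχ)) q (tB (rc0 hS) μ q (T n) r)) ≤
        n - fa (kaT (rc0 hS) μ q (T n) r T n) (kbT (rc0 hS) μ q (T n) r T n) + 2) := by
  have hn3 := H.str.n3
  have hn : 0 < n := by omega
  have mono : ∀ k, k < n → T k ≤ T (k + 1) := fun k hk => H.str.mono k hk
  obtain ⟨c1, c2, c3, c4, c5, c6⟩ := E.touch H.str.T0 rfl hn hE mono
  obtain ⟨g1, g2, g3, g4, g5⟩ := fab c1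
  have a1 := htl _ (by omega) _ c3 c4
  have a2 := htl _ c2 _ c5 c6
  have b1 := htn (lc (rc0 hS) (cfg (rc0 hS) (sg hχ)) q (tA (rc0 hS) μ q (T n) r))
  have b2 := htn (lc (rc0 hS) (cfg (rc0 hS) (sg hχ)) q (tB (rc0 hS) μ q (T n) r))
  omega

end conf

end Crest.Agent.R143.Rstx832
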