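import Crest.Agent.R143.SpR_169
import Crest.Agent.R143.Spt_832

/-!
# Row 143 (S0194), CORE-C, box R6: the spatial regions of a corridor, with the ends (helper169)

`QX h W o n l` : region of the tile `l` of the corridor `o, .., o + n - 1`; the regions `0` and `n - 1` also
contain the region of the tile before / after the corridor. `qx_dis`, `qx_cov`, **`qx_qreg`** (832's `QReg`).
-/

set_option autoImplicit false

noncomputable section

open scoped Classical

namespace Crest.Agent.R143.SpRx169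

open Crest.Agent.R143.Gatex838 (X Y)
open Crest.Agent.R143.TileRx228 Crest.Agent.R143.Sptx832
open Crest.Agent.R143.Locx922 (Hol)

variable {A B h d : ℝ} {M : ℕ} {W : ℤ → ℤ × ℤ} {o : ℤ} {n l l' k : ℕ} {s t z : ℂ} {S : Finset ℂ}

/-- region of the tile `l` of the corridor -/
def QX (h : ℝ) (W : ℤ → ℤ × ℤ) (o : ℤ) (n l : ℕ) : Set ℂ :=
  Rg h W (o + l) ∪ ((if l = 0 then Rg h W (o - 1) else ∅) ∪
    (if l + 1 = n then Rg h W (o + n) else ∅))

theorem qx_full (h0 : 0 < l) (h1 : l + 1 < n) : QX h W o n l = Rg h W (o + l) := by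
  unfold QX
  rw [if_neg (by omega), if_neg (by omega)]
  simp

theorem qx_sub : Rg h W (o + l) ⊆ QX h W o n l := Set.subset_union_left

theorem qx_mem (hz : z ∈ QX h W o n l) : ∃ i : ℤ, z ∈ Rg h W (o + i) ∧
    (i = l ∨ (i = -1 ∧ l = 0) ∨ (i = n ∧ l + 1 = n)) := by
  rcases hz with hz | hz | hz
  · exact ⟨l, hz, Or.inl rfl⟩
  · by_cases h0 : l = 0
    · rw [if_pos h0] at hz
      exact ⟨-1, by rwa [← sub_eq_add_neg], Or.inr (Or.inl ⟨rfl, h0⟩)⟩
    · rw [if_neg h0] at hz
      exact absurd hz (Set.notMem_empty z)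
  · by_cases h0 : l + 1 = n
    · rw [if_pos h0] at hz
      exact ⟨n, hz, Or.inr (Or.inr ⟨rfl, h0⟩)⟩
    · rw [if_neg h0] at hz
      exact absurd hz (Set.notMem_empty z)

theorem dvd_small {a : ℤ} {m : ℕ} (hM : M = 0 ∨ m < M) (h : (M : ℤ) ∣ a) (ha : |a| ≤ m) :
    a = 0 := by
  rcases hM with hM | hM
  · rw [hM] at h
    simpa using h
  · by_contra hne
    have h5 := Int.le_of_dvd (abs_pos.2 hne) ((dvd_abs _ _).2 h)
    omega

/-- **disjoint** -/
theorem qx_dis (P : FPath M W) (hh : 0 < h) (hM : M = 0 ∨ n + 1 < M) (hl : l < n) (hl' : l' < n)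
    (h1 : z ∈ QX h W o n l) (h2 : z ∈ QX h W o n l') : l = l' := by
  obtain ⟨i, a1, a2⟩ := qx_mem h1
  obtain ⟨j, b1, b2⟩ := qx_mem h2
  have h3 := Rg_disj P hh a1 b1
  rw [show o + j - (o + i) = j - i by ring] at h3
  have h4 : j - i = 0 := by
    refine dvd_small (m := n + 1) hM h3 ?_
    rw [abs_le]
    push_cast
    omega
  omega

/-- **covering** -/
theorem qx_cov (P : FPath M W) (hA0 : 0 ≤ A) (hd : 0 ≤ d) (hA : A + d ≤ h / 2) (hB : B + d ≤ h)
    (hk : k < n) (ht : t ∈ RR A B h W (o + k)) (hz : ‖t - z‖ ≤ d) :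
    ∃ l, l < n ∧ k ≤ l + 1 ∧ l ≤ k + 1 ∧ z ∈ QX h W o n l := by
  rw [norm_sub_rev] at hz
  rcases Rg_cover' P hd hA0 hA hB ht hz with h2 | h2 | h2
  · by_cases h0 : k = 0
    · subst h0
      refine ⟨0, hk, by omega, by omega, Or.inr (Or.inl ?_)⟩
      rw [if_pos rfl]
      simpa using h2
    · refine ⟨k - 1, by omega, by omega, by omega, Or.inl ?_⟩
      have e : o + ((k - 1 : ℕ) : ℤ) = o + k - 1 := by
        rw [Nat.cast_sub (by omega)]
        push_cast
        ring
      rw [e]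
      exact h2
  · exact ⟨k, hk, by omega, by omega, Or.inl h2⟩
  · have e : o + ((k + 1 : ℕ) : ℤ) = o + k + 1 := by push_cast; ring
    by_cases h1 : k + 1 < n
    · refine ⟨k + 1, h1, by omega, by omega, Or.inl ?_⟩
      rw [e]
      exact h2
    · have h3 : k + 1 = n := by omega
      refine ⟨k, hk, by omega, by omega, Or.inr (Or.inr ?_)⟩
      rw [if_pos h3, ← h3, e]
      exact h2

/-- **832's regions of the corridor** -/
theorem qx_qreg (P : FPath M W) (hd : 0 < d) (hA0 : 0 ≤ A) (hA : A + d ≤ h / 2) (hB : B + d ≤ h)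
    (hM : M = 0 ∨ n + 1 < M) (hH : ∀ k, k < n → Hol (S : Set ℂ) (RR A B h W (o + k)) d) :
    QReg S n n (fun k => RR A B h W (o + k)) (QX h W o n) :=
  qreg_of_hol hd hH (fun l l' hl hl' z h1 h2 => qx_dis P (by linarith) hM hl hl' h1 h2)
    fun k hk a ha z hz => qx_cov P hA0 hd.le hA hB hk ha hz.le

theorem qx_meas (h : ℝ) (W : ℤ → ℤ × ℤ) (o : ℤ) (n l : ℕ) : MeasurableSet (QX h W o n l) := by
  unfold QX
  refine (Rg_meas _ _ _).union (MeasurableSet.union ?_ ?_)
  · split_ifs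
    · exact Rg_meas _ _ _
    · exact MeasurableSet.empty
  · split_ifs
    · exact Rg_meas _ _ _
    · exact MeasurableSet.empty

end Crest.Agent.R143.SpRx169
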