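import Crest.Agent.R143.CorM_970

/-!
# Spatial split => the hypotheses of `CorMx970.main_good` (helper168; 778's (QS), 169's `Spt2`)

`W l σ τ` = charge of `K[y→x]` in the region of the tile `l`: equal to the full tile charge `V l σ`
if `ka + c ≤ l`, `l + c < kb`, zero if `l + c < ka` or `kb + c ≤ l`.  Then
`∑_{l < n} W l = ∑_{l ∈ [ka + c, kb - c)} V l + M + M'`, `‖M‖² , ‖M'‖² ≤ 2 c ∑_{l < n} ‖W l‖²`.
-/

set_option autoImplicit false

noncomputable section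

open scoped Classical

namespace Crest.Agent.R143.SplEx168

open Crest.Agent.R143.CorMx970

section one

variable {n c ka kb : ℕ} {W V : ℕ → ℂ}

/-- the partial tiles at the first touch -/
def JM (n c ka : ℕ) : Finset ℕ := (Finset.range n).filter fun l => ka ≤ l + c ∧ l < ka + c

/-- the partial tiles at the last touch (not counted before) -/
def JM' (n c ka kb : ℕ) : Finset ℕ :=
  (Finset.range n).filter fun l => ka + c ≤ l ∧ kb ≤ l + c ∧ l < kb + c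

theorem card_JM : (JM n c ka).card ≤ 2 * c := by
  have h1 : JM n c ka ⊆ Finset.Ico (ka - c) (ka + c) := by
    intro l hl
    obtain ⟨-, h2, h3⟩ := Finset.mem_filter.1 hl
    rw [Finset.mem_Ico]; omega
  refine (Finset.card_le_card h1).trans ?_
  rw [Nat.card_Ico]; omega

theorem card_JM' : (JM' n c ka kb).card ≤ 2 * c := by
  have h1 : JM' n c ka kb ⊆ Finset.Ico (kb - c) (kb + c) := by
    intro l hl
    obtain ⟨-, -, h2, h3⟩ := Finset.mem_filter.1 hl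
    rw [Finset.mem_Ico]; omega
  refine (Finset.card_le_card h1).trans ?_
  rw [Nat.card_Ico]; omega

theorem split_one (hkb : kb ≤ n) (hWV : ∀ l < n, ka + c ≤ l → l + c < kb → W l = V l)
    (hW0 : ∀ l < n, l + c < ka ∨ kb + c ≤ l → W l = 0) :
    ∑ l ∈ Finset.range n, W l = ∑ l ∈ Finset.Ico (ka + c) (kb - c), V l +
      ∑ l ∈ JM n c ka, W l + ∑ l ∈ JM' n c ka kb, W l := by
  have e1 : ∑ l ∈ Finset.Ico (ka + c) (kb - c), V l = ∑ l ∈ Finset.range n,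
      if (ka + c ≤ l ∧ l + c < kb) then W l else 0 := by
    rw [← Finset.sum_filter]
    have e2 : (Finset.range n).filter (fun l => ka + c ≤ l ∧ l + c < kb) =
        Finset.Ico (ka + c) (kb - c) := by
      ext l
      rw [Finset.mem_filter, Finset.mem_range, Finset.mem_Ico]
      omega
    rw [← e2]
    refine Finset.sum_congr rfl fun l hl => ?_
    obtain ⟨h1, h2, h3⟩ := Finset.mem_filter.1 hl
    exact (hWV l (Finset.mem_range.1 h1) h2 h3).symm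
  unfold JM JM'
  rw [e1, Finset.sum_filter, Finset.sum_filter, ← Finset.sum_add_distrib,
    ← Finset.sum_add_distrib]
  refine Finset.sum_congr rfl fun l hl => ?_
  have h0 := hW0 l (Finset.mem_range.1 hl)
  by_cases h1 : ka + c ≤ l ∧ l + c < kb
  · rw [if_pos h1, if_neg (by omega), if_neg (by omega)]; ring
  by_cases h2 : ka ≤ l + c ∧ l < ka + c
  · rw [if_neg h1, if_pos h2, if_neg (by omega)]; ring
  by_cases h3 : ka + c ≤ l ∧ kb ≤ l + c ∧ l < kb + c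
  · rw [if_neg h1, if_neg h2, if_pos h3]; ring
  · rw [if_neg h1, if_neg h2, if_neg h3, h0 (by omega)]; ring

theorem norm_sum_sq {J : Finset ℕ} (hJ : J ⊆ Finset.range n) (hc : J.card ≤ 2 * c) :
    ‖∑ l ∈ J, W l‖ ^ 2 ≤ 2 * c * ∑ l ∈ Finset.range n, ‖W l‖ ^ 2 := by
  have h1 : ‖∑ l ∈ J, W l‖ ^ 2 ≤ (∑ l ∈ J, ‖W l‖) ^ 2 :=
    pow_le_pow_left₀ (norm_nonneg _) (norm_sum_le _ _) 2
  refine h1.trans (sq_sum_le_card_mul_sum_sq.trans ?_)
  have h2 : (J.card : ℝ) ≤ 2 * c := by exact_mod_cast hc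
  refine mul_le_mul h2 ?_ (Finset.sum_nonneg fun l _ => by positivity) (by positivity)
  exact Finset.sum_le_sum_of_subset_of_nonneg hJ fun l _ _ => by positivity

end one

variable {α β : Type*} {A : Finset α} {B : Finset β}

/-- the first partial term -/
def MM (n c : ℕ) (W : ℕ → α → β → ℂ) (ka : α → β → ℕ) (σ : α) (τ : β) : ℂ :=
  ∑ l ∈ JM n c (ka σ τ), W l σ τ

/-- the second partial term -/
def MM' (n c : ℕ) (W : ℕ → α → β → ℂ) (ka kb : α → β → ℕ) (σ : α) (τ : β) : ℂ :=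
  ∑ l ∈ JM' n c (ka σ τ) (kb σ τ), W l σ τ

theorem far_shift {r c : ℕ} {ka kb : α → β → ℕ} {a' b' : β → ℕ} {σ : α} {τ : β} :
    far (r + c) (fun σ τ => ka σ τ + c) (fun σ τ => kb σ τ - c) a' b' σ τ ≤
      far r ka kb a' b' σ τ := by
  unfold far
  by_cases h : (ka σ τ ≤ a' τ + r ∧ a' τ ≤ ka σ τ + r) ∧ kb σ τ ≤ b' τ + r ∧ b' τ ≤ kb σ τ + r
  · rw [if_pos h, if_pos (by dsimp only; omega)]
  · rw [if_neg h]; split_ifs <;> norm_num

/-- the second moments of the partial terms -/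
theorem av_part {n c : ℕ} {g : α → ℝ} (hg : ∀ σ ∈ A, 0 ≤ g σ) {W : ℕ → α → β → ℂ}
    {J : α → β → Finset ℕ} (hJ : ∀ σ τ, J σ τ ⊆ Finset.range n)
    (hc : ∀ σ τ, (J σ τ).card ≤ 2 * c) :
    av A (fun σ => g σ * av B fun τ => ‖∑ l ∈ J σ τ, W l σ τ‖ ^ 2) ≤
      2 * c * ∑ l ∈ Finset.range n, av A (fun σ => g σ * av B fun τ => ‖W l σ τ‖ ^ 2) := by
  have e : 2 * c * ∑ l ∈ Finset.range n, av A (fun σ => g σ * av B fun τ => ‖W l σ τ‖ ^ 2) =
      av A fun σ => g σ * av B fun τ => 2 * c * ∑ l ∈ Finset.range n, ‖W l σ τ‖ ^ 2 := by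
    rw [← av_sum, ← av_mulL']
    refine av_congr fun σ _ => ?_
    rw [av_mulL', av_sum, Finset.mul_sum, Finset.mul_sum, Finset.mul_sum]
    exact Finset.sum_congr rfl fun l _ => by ring
  rw [e]
  exact av_mono fun σ hσ => mul_le_mul_of_nonneg_left
    (av_mono fun τ _ => norm_sum_sq (hJ σ τ) (hc σ τ)) (hg σ hσ)

/-- **`CorMx970.main_good` for the spatial split** -/
theorem main_good_sp {n r c : ℕ} {t : ℂ} (ht : ‖t‖ = 1) (hB : B.Nonempty) {g : α → ℝ}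
    (hg : ∀ σ ∈ A, 0 ≤ g σ) {Vβ Vγ : α → β → ℂ} {TK : α → ℂ} {T : ℂ} {V : ℕ → α → ℂ}
    {W : ℕ → α → β → ℂ} {ka kb : α → β → ℕ} {a' b' : β → ℕ} (hb' : ∀ τ ∈ B, b' τ ≤ n)
    (hkb : ∀ σ ∈ A, 0 < g σ → ∀ τ ∈ B, kb σ τ ≤ n)
    (hWV : ∀ σ ∈ A, 0 < g σ → ∀ τ ∈ B, ∀ l < n, ka σ τ + c ≤ l → l + c < kb σ τ →
      W l σ τ = V l σ)
    (hW0 : ∀ σ ∈ A, 0 < g σ → ∀ τ ∈ B, ∀ l < n, l + c < ka σ τ ∨ kb σ τ + c ≤ l →
      W l σ τ = 0)
    (close : ∀ σ ∈ A, 0 < g σ → ∀ τ ∈ B, Vβ σ τ = Vγ σ τ + ∑ l ∈ Finset.range n, W l σ τ)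
    (fresh : ∀ σ ∈ A, 0 < g σ → av B (Vγ σ) = t * TK σ) {E1 a2 θ Q : ℝ}
    (small : av A (fun σ => g σ * av B fun τ => ‖Vβ σ τ‖) ≤ E1)
    (cont : ∀ σ ∈ A, 0 < g σ → ‖TK σ - T‖ ≤ a2)
    (hθ : ∀ σ ∈ A, 0 < g σ → av B (far r ka kb a' b' σ) ≤ θ)
    (hQ : ∑ l ∈ Finset.range n, av A (fun σ => g σ * av B fun τ => ‖W l σ τ‖ ^ 2) ≤ Q) :
    ‖t * ((av A g : ℝ) * T) + ∑ l ∈ Finset.range n,
      av A (fun σ => (g σ : ℂ) * V l σ) * (av B (on a' b' l) : ℝ)‖ ≤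
      E1 + av A g * a2 + (∑ l ∈ Finset.range n, av A (fun σ => g σ * ‖V l σ‖) *
        (av B (nr (r + c) a' l) + av B (nr (r + c) b' l) + θ) +
          √(av A g * (2 * c * Q)) + √(av A g * (2 * c * Q))) := by
  refine main_good (r := r + c) (a := fun σ τ => ka σ τ + c) (b := fun σ τ => kb σ τ - c)
    (M := MM n c W ka) (M' := MM' n c W ka kb) ht hB hg hb' ?_ ?_ fresh small cont ?_ ?_ ?_
  · intro σ hσ h0 τ hτ
    exact (Nat.sub_le _ _).trans (hkb σ hσ h0 τ hτ)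
  · intro σ hσ h0 τ hτ
    rw [close σ hσ h0 τ hτ, split_one (V := fun l => V l σ) (hkb σ hσ h0 τ hτ)
      (hWV σ hσ h0 τ hτ) (hW0 σ hσ h0 τ hτ)]
    rfl
  · intro σ hσ h0
    exact (av_mono fun τ _ => far_shift).trans (hθ σ hσ h0)
  · refine (av_part (n := n) (c := c) hg (J := fun σ τ => JM n c (ka σ τ))
      (fun σ τ => Finset.filter_subset _ _) fun σ τ => card_JM).trans ?_
    exact mul_le_mul_of_nonneg_left hQ (by positivity)
  · refine (av_part (n := n) (c := c) hg (J := fun σ τ => JM' n c (ka σ τ) (kb σ τ))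
      (fun σ τ => Finset.filter_subset _ _) fun σ τ => card_JM').trans ?_
    exact mul_le_mul_of_nonneg_left hQ (by positivity)

end Crest.Agent.R143.SplEx168
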