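import Crest.Agent.R143.RigC_654
import Crest.Agent.R143.EnvI_279
import Crest.Agent.R143.SplE_168
import Crest.Agent.R143.PolyM_346

/-!
# Row 143 (S0194), CORE-C, RIG: composition, part 2 (helper654)

* `rig_ends`, **`rig_env`** : the corridor data for 346's frozen polygons (`PolyMx346.m`) ⟹
  `POLY Poly.T Poly.T'` (= `FinCx894.Rig`)
* `Quen` : what is asked at ONE good environment (charges of the closed loop `Vβ`, of the fresh part
  `Vγ`, of the tiles `W l`; touches `ka`, `kb`), for colourings = subsets of the sites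
* `Quen.good` : 168's split + 970's `main_good`, in 279's quenched means
* **`main_of`** : field `main` of `CorMx970.Env`; `E2_int` : its error at bad environments
-/

set_option autoImplicit false

noncomputable section

open scoped Classical

namespace Crest.Agent.R143.RigDx654

open Complex Set Filter Topology MeasureTheory
open scoped ENNReal
open Crest.ProbabilityR.Voronoi
open Crest.Agent.R143.B0x346
open Crest.Agent.R143.AsmNx758 (POLY)
open Crest.Agent.R143.PolyQx854 Crest.Agent.R143.PolySx854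
open Crest.Agent.R143.CorMx970 Crest.Agent.R143.RigCx654 Crest.Agent.R143.EnvIx279
open Crest.Agent.R143.IndLocx279 Crest.Agent.R143.IndLoc2x279 Crest.Agent.R143.IndLoc3x279
open Crest.Agent.R143.PolyUx346 (Poly)

/-! ### the frozen end -/

theorem T_eq (u : Poly) (ε : ℝ) (ω : Sample) :
    u.T ε ω = 3 * ∑ i, omz i * PolyMx346.m u ε ω i := by
  rw [PolyMx346.T_eq]
  unfold PolyMx346.a
  ring

theorem T'_eq (u : Poly) (ε : ℝ) (ω : Sample) :
    u.T' ε ω = 3 * ∑ i, omz i * (starRingEnd ℂ) (PolyMx346.m u ε ω i) := by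
  have h := congrArg (starRingEnd ℂ) (PolyMx346.T'_eq (u := u) ε ω)
  rw [Complex.conj_conj] at h
  rw [h]
  unfold PolyMx346.b
  simp only [map_mul, map_neg, map_sum, map_pow, PolyMx346.conj_omz, Complex.conj_ofNat]
  have e : ∀ j : ZMod 3, (omz j ^ 2) ^ 2 = omz j := fun j => by
    linear_combination omz j * Alg4x133.omz_cube j
  simp only [e]
  ring

variable {I : Type}

/-- the frozen end, `L¹` form -/
theorem rig_ends {𝓁 : Filter I} [𝓁.NeBot] {κ : I → ℝ → ℂ} {e : Poly → I → ℝ → ℝ}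
    (he : ∀ u, DL 𝓁 (e u))
    (h : ∀ u, ∀ᶠ N in 𝓁, ∀ᶠ ε : ℝ in 𝓝[>] 0, ∀ i : ZMod 3, Lx om (κ N ε)
      (fun ω => tI (PolyMx346.m u ε ω) i) (fun ω => dI (PolyMx346.m u ε ω) i) (e u N ε)) :
    POLY Poly.T Poly.T' := by
  have h1 := poly_ends (m := fun u ε ω => PolyMx346.m u ε ω) he h
  have e1 : (Poly.T : Poly → ℝ → Sample → ℂ) =
      fun u ε ω => 3 * ∑ i, omz i * PolyMx346.m u ε ω i := by
    funext u ε ω; exact T_eq u ε ω
  have e2 : (Poly.T' : Poly → ℝ → Sample → ℂ) =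
      fun u ε ω => 3 * ∑ i, omz i * (starRingEnd ℂ) (PolyMx346.m u ε ω i) := by
    funext u ε ω; exact T'_eq u ε ω
  rw [e1, e2]
  exact h1

/-- **the frozen end** -/
theorem rig_env {𝓁 : Filter I} [𝓁.NeBot] {κ : I → ℝ → ℂ} {e : Poly → I → ℝ → ℝ}
    (he : ∀ u, DL 𝓁 (e u))
    (h : ∀ u, ∀ᶠ N in 𝓁, ∀ᶠ ε : ℝ in 𝓝[>] 0, ∀ i : ZMod 3, EnvX om (κ N ε)
      (fun ω => tI (PolyMx346.m u ε ω) i) (fun ω => dI (PolyMx346.m u ε ω) i) (e u N ε)) :
    POLY Poly.T Poly.T' := by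
  refine rig_ends (κ := κ) he fun u => ?_
  filter_upwards [h u] with N h1
  filter_upwards [h1] with ε h2 i
  exact (h2 i).lx

/-! ### one good environment -/

/-- quenched data at one environment: `S` = sites, `g` weight, `V l` tile charges, `a`, `b` tiles of
the touches of the polygon (functions of the coloured configuration); `Vβ`, `Vγ`, `W l` functions of
the two colourings (black sets `β` outside, `β'` inside); `TK β` = total of the explored region -/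
structure Quen (n r c : ℕ) (S : Finset ℂ) (g : Set (ℂ × Bool) → ℝ)
    (V : ℕ → Set (ℂ × Bool) → ℂ) (a b : Set (ℂ × Bool) → ℕ) (t T : ℂ) (E1 a2 θ Q : ℝ)
    (Vβ Vγ : Finset ℂ → Finset ℂ → ℂ) (TK : Finset ℂ → ℂ) (W : ℕ → Finset ℂ → Finset ℂ → ℂ)
    (ka kb : Finset ℂ → Finset ℂ → ℕ) : Prop where
  hb' : ∀ τ ∈ S.powerset, b (clr S τ) ≤ n
  hkb : ∀ σ ∈ S.powerset, 0 < g (clr S σ) → ∀ τ ∈ S.powerset, kb σ τ ≤ n
  hWV : ∀ σ ∈ S.powerset, 0 < g (clr S σ) → ∀ τ ∈ S.powerset, ∀ l < n,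
    ka σ τ + c ≤ l → l + c < kb σ τ → W l σ τ = V l (clr S σ)
  hW0 : ∀ σ ∈ S.powerset, 0 < g (clr S σ) → ∀ τ ∈ S.powerset, ∀ l < n,
    l + c < ka σ τ ∨ kb σ τ + c ≤ l → W l σ τ = 0
  close : ∀ σ ∈ S.powerset, 0 < g (clr S σ) → ∀ τ ∈ S.powerset,
    Vβ σ τ = Vγ σ τ + ∑ l ∈ Finset.range n, W l σ τ
  fresh : ∀ σ ∈ S.powerset, 0 < g (clr S σ) → av S.powerset (Vγ σ) = t * TK σ
  small : av S.powerset (fun σ => g (clr S σ) * av S.powerset fun τ => ‖Vβ σ τ‖) ≤ E1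
  cont : ∀ σ ∈ S.powerset, 0 < g (clr S σ) → ‖TK σ - T‖ ≤ a2
  hθ : ∀ σ ∈ S.powerset, 0 < g (clr S σ) →
    av S.powerset (far r ka kb (fun τ => a (clr S τ)) (fun τ => b (clr S τ)) σ) ≤ θ
  hQ : ∑ l ∈ Finset.range n,
    av S.powerset (fun σ => g (clr S σ) * av S.powerset fun τ => ‖W l σ τ‖ ^ 2) ≤ Q

/-- `main` at a good environment, in the quenched means of 279 -/
def Good (n r : ℕ) (S : Sample → Finset ℂ) (g : Set (ℂ × Bool) → ℝ)
    (V : ℕ → Set (ℂ × Bool) → ℂ) (a b : Set (ℂ × Bool) → ℕ) (t T : ℂ) (E1 a2 θ Q Q' : ℝ)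
    (ω : Sample) : Prop :=
  ‖t * ((qG S g ω : ℂ) * T) + ∑ l ∈ Finset.range n, qv S g V l ω * (qo S a b l ω : ℂ)‖ ≤
    E1 + qG S g ω * a2 + (∑ l ∈ Finset.range n, qw S g V l ω * (qn S r a l ω + qn S r b l ω + θ) +
      √(qG S g ω * Q) + √(qG S g ω * Q'))

section one

variable {n r c : ℕ} {S : Sample → Finset ℂ} {g : Set (ℂ × Bool) → ℝ}
  {V : ℕ → Set (ℂ × Bool) → ℂ} {a b : Set (ℂ × Bool) → ℕ} {t T : ℂ} {E1 a2 θ Q : ℝ}
  {Vβ Vγ : Finset ℂ → Finset ℂ → ℂ} {TK : Finset ℂ → ℂ} {W : ℕ → Finset ℂ → Finset ℂ → ℂ}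
  {ka kb : Finset ℂ → Finset ℂ → ℕ} {ω : Sample}

/-- **one good environment** -/
theorem Quen.good (ht : ‖t‖ = 1) (hg : ∀ X, 0 ≤ g X)
    (h : Quen n r c (S ω) g V a b t T E1 a2 θ Q Vβ Vγ TK W ka kb) :
    Good n (r + c) S g V a b t T E1 a2 θ (2 * c * Q) (2 * c * Q) ω := by
  have h1 := SplEx168.main_good_sp (A := (S ω).powerset) (B := (S ω).powerset) (n := n) (r := r)
    (c := c) (t := t) ht (Finset.powerset_nonempty _) (g := fun σ => g (clr (S ω) σ))
    (fun σ _ => hg _) (Vβ := Vβ) (Vγ := Vγ) (TK := TK) (T := T)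
    (V := fun l σ => V l (clr (S ω) σ)) (W := W) (ka := ka) (kb := kb)
    (a' := fun τ => a (clr (S ω) τ)) (b' := fun τ => b (clr (S ω) τ)) h.hb' h.hkb h.hWV h.hW0
    h.close h.fresh h.small h.cont h.hθ h.hQ
  unfold Good
  simp only [qG_av, qv_av, qo_av, qw_av, qn_av]
  exact h1

end one

/-! ### all environments -/

section all

variable {n r : ℕ} {S : Sample → Finset ℂ} {g : Set (ℂ × Bool) → ℝ}
  {V : ℕ → Set (ℂ × Bool) → ℂ} {a b : Set (ℂ × Bool) → ℕ} {t : ℂ} {a2 θ M : ℝ}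
  {bad : Set Sample} {Q Q' E1 : Sample → ℝ} {T : Sample → ℂ}

lemma norm_qv_le (hg : ∀ X, 0 ≤ g X) (l : ℕ) (ω : Sample) : ‖qv S g V l ω‖ ≤ qw S g V l ω := by
  rw [qv_av, qw_av]
  refine (norm_av_le _).trans (av_mono fun β _ => ?_)
  rw [norm_mul, Complex.norm_real, Real.norm_of_nonneg (hg _)]

/-- **field `main` of `CorMx970.Env`** -/
theorem main_of (ht : ‖t‖ = 1) (hg : ∀ X, 0 ≤ g X) (hg1 : ∀ X, g X ≤ 1) (ha2 : 0 ≤ a2)
    (hθ : 0 ≤ θ) (hE : ∀ ω, 0 ≤ E1 ω) (hT : ∀ ω, ‖T ω‖ ≤ M)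
    (good : ∀ᵐ ω ∂sampleLaw, ω ∉ bad → Good n r S g V a b t (T ω) (E1 ω) a2 θ (Q ω) (Q' ω) ω) :
    ∀ᵐ ω ∂sampleLaw, ‖t * ((qG S g ω : ℂ) * T ω) +
        ∑ l ∈ Finset.range n, qv S g V l ω * (qo S a b l ω : ℂ)‖ ≤
      E1 ω + (qG S g ω * a2 + bad.indicator (fun _ => M) ω) +
        (∑ l ∈ Finset.range n, qw S g V l ω * (qn S r a l ω + qn S r b l ω +
          bad.indicator 1 ω + θ) + √(qG S g ω * Q ω) + √(qG S g ω * Q' ω)) := by
  filter_upwards [good] with ω h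
  by_cases hb : ω ∈ bad
  · have h1 := main_bad (n := n) (t := t) ht (G := qG S g ω) (cav_nonneg hg _)
      (cav_le_one hg1 _) (T := T ω) (C := M) (hT ω) (v := fun l => qv S g V l ω)
      (w := fun l => qw S g V l ω) (o := fun l => qo S a b l ω)
      (x := fun l => qn S r a l ω + qn S r b l ω + 1 + θ) (Q := Q ω) (Q' := Q' ω)
      (fun l _ => norm_qv_le hg l ω)
      (fun l _ => ⟨cav_nonneg (fun X => (Inp.on_01 l X).1) _,
        cav_le_one (fun X => (Inp.on_01 l X).2) _⟩)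
      (fun l _ => by
        have h2 : 0 ≤ qn S r a l ω := Inp.n0' l ω
        have h3 : 0 ≤ qn S r b l ω := Inp.n0' l ω
        linarith)
    rw [indicator_of_mem hb, indicator_of_mem hb, Pi.one_apply]
    have h4 : 0 ≤ qG S g ω * a2 := mul_nonneg (cav_nonneg hg _) ha2
    have h5 := hE ω
    linarith
  · rw [indicator_of_notMem hb, indicator_of_notMem hb, add_zero]
    simp only [add_zero]
    exact h hb

/-- the second error -/
theorem E2_int {g0 ρ : ℝ} (hM : 0 ≤ M) (mbad : MeasurableSet bad)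
    (hbad : sampleLaw.real bad ≤ ρ * g0) (iG : Integrable (qG S g) sampleLaw)
    (eG : ∫ ω, qG S g ω ∂sampleLaw = g0) :
    Integrable (fun ω => qG S g ω * a2 + bad.indicator (fun _ => M) ω) sampleLaw ∧
      ∫ ω, (qG S g ω * a2 + bad.indicator (fun _ => M) ω) ∂sampleLaw ≤ (a2 + M * ρ) * g0 := by
  have : IsProbabilityMeasure sampleLaw := probS
  have i1 : Integrable (fun ω => qG S g ω * a2) sampleLaw := iG.mul_const _
  have i2 : Integrable (bad.indicator fun _ => M) sampleLaw :=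
    (integrable_const M).indicator mbad
  refine ⟨i1.add i2, ?_⟩
  rw [integral_add i1 i2, integral_mul_const, eG, integral_indicator_const _ mbad, smul_eq_mul]
  nlinarith

end all

end Crest.Agent.R143.RigDx654
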