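import Crest.Agent.R143.SysC_166
import Crest.Agent.R143.RigD_654
import Crest.Agent.R143.SmallA_304

/-!
# Row 143 (S0194), RIG (helper166): 654's `Quen` from 358's `Sys` on `rc0 hS`

Colourings of the cells from sets of black sites: 304's `chiS hS h3`.
* `av_chiS` : mean over the black sets = mean over the colourings of the cells
* `vb_vm` : `Vb` is 304's `Vm`
* `TKs` : total of the explored region, `fresh_av`
* **`quen_of`**
-/

set_option autoImplicit false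
set_option linter.unusedSectionVars false

noncomputable section

open scoped Classical

namespace Crest.Agent.R143.SysDx166

open Crest.Agent.R143.Frame1x395 Crest.Agent.R143.Frame2x395 Crest.Agent.R143.Frame3x395
  Crest.Agent.R143.Frame4x395 Crest.Agent.R143.Frame8x395 Crest.Agent.R143.Frame9x395
  Crest.Agent.R143.Frame10x395 Crest.Agent.R143.Coarse2x166
  Crest.Agent.R143.B0x346 Crest.Agent.R143.FinCx811 Crest.Agent.R143.DelGx806
  Crest.Agent.R143.SmallAx304 Crest.Agent.R143.OutSx358 Crest.Agent.R143.SysCx166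
  Crest.Agent.R143.CorMx970 Crest.Agent.R143.RigDx654

open C2SBx395 (Ez yv)
open IndLoc3x279 (clr)

section

variable {S : Finset ℂ} (hS : GP (S : Set ℂ)) (h3 : 3 ≤ S.card)

/-- mean over the sets of black sites -/
theorem av_chiS (F : (Cs hS → ZMod 2) → ℂ) :
    av S.powerset (fun β => F (chiS hS h3 β)) =
      (Fintype.card (Cs hS → ZMod 2) : ℂ)⁻¹ * ∑ χ, F χ := by
  unfold av
  rw [sum_chiS hS h3 F, Finset.card_powerset]
  have h := card_Cs_le hS h3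
  have e : (2 : ℂ) ^ S.card = 2 ^ (S.card - Fintype.card (Cs hS)) * 2 ^ Fintype.card (Cs hS) := by
    rw [← pow_add, Nat.sub_add_cancel h]
  have hc : (Fintype.card (Cs hS → ZMod 2) : ℂ) = 2 ^ Fintype.card (Cs hS) := by
    rw [Fintype.card_fun, ZMod.card]
    push_cast
    rfl
  rw [hc, nsmul_eq_mul, Complex.real_smul]
  push_cast
  rw [e, mul_inv]
  have t1 : (2 : ℂ) ^ (S.card - Fintype.card (Cs hS)) ≠ 0 := pow_ne_zero _ two_ne_zero
  field_simp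

variable {H R : Set (Cs hS)} {Q : Set (D0 S)} {ι : Type} {pa : ι → (Cs hS → ZMod 2) → D0 S}
  {na : ι → (Cs hS → ZMod 2) → ℕ} {Ev : ι → (Cs hS → ZMod 2) → Prop} {d₀ : D0 S} {k : ZMod 3}
  {nn m : ℕ} {F : ℕ → Set (D0 S)} {tl : Cs hS → ℕ}

/-- 304's `Vm` -/
theorem vb_vm (w : D0 S → ℂ) (σ τ : Cs hS → ZMod 2) :
    Vb (rc0 hS) H R Q pa na Ev d₀ w σ τ =
      Vm hS (OO (rc0 hS) H R pa na Ev) (fun σ _ => gR (rc0 hS) Q pa na Ev d₀ σ) w σ τ := by
  unfold Vb Vm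
  rw [blk_rc0]

/-- total of the explored region (654's `tI` of the mean end points) -/
def TKs (H R : Set (Cs hS)) (Q : Set (D0 S)) (pa : ι → (Cs hS → ZMod 2) → D0 S)
    (na : ι → (Cs hS → ZMod 2) → ℕ) (Ev : ι → (Cs hS → ZMod 2) → Prop) (k : ZMod 3)
    (z : Cs hS → ℂ) (σ : Cs hS → ZMod 2) : ℂ :=
  RigCx654.tI (fun j => Ez (rc0 hS) (gA (rc0 hS) H R Q pa na Ev k σ) j z) k

theorem fresh_av (Y : Sys (rc0 hS) H R Q pa na Ev) {σ : Cs hS → ZMod 2} (h : ∃ i, Ev i σ)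
    (z : Cs hS → ℂ) :
    av S.powerset (fun β => Vg (rc0 hS) H R Q pa na Ev k d₀ (zs (rc0 hS) om z) σ
      (chiS hS h3 β)) = om * TKs hS H R Q pa na Ev k z σ := by
  obtain ⟨i, hi⟩ := h
  have w1 : 1 + om + om ^ 2 = 0 := by
    rw [DefsNx346.om2_val, DefsNx346.om_val]; ring
  rw [av_chiS hS h3, Y.fresh hi RigCx654.om_cube w1 z]
  have hc : (Fintype.card (Cs hS → ZMod 2) : ℂ) ≠ 0 := by
    exact_mod_cast Fintype.card_ne_zero
  rw [← mul_assoc, inv_mul_cancel₀ hc, one_mul]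
  rfl

/-- **654's `Quen`** -/
theorem quen_of (Y : Sys (rc0 hS) H R Q pa na Ev) {n r : ℕ} {g : Set (ℂ × Bool) → ℝ}
    {V : ℕ → Set (ℂ × Bool) → ℂ} {a b : Set (ℂ × Bool) → ℕ} {T : ℂ} {E1 a2 θ Qq : ℝ}
    {z : Cs hS → ℂ} (hnn : 0 < nn) (hn : nn ≤ n) (hm : m ≤ n)
    (hg : ∀ σ ∈ S.powerset, 0 < g (clr S σ) → Hx (rc0 hS) pa na Ev nn m F tl (chiS hS h3 σ))
    (hV : ∀ σ ∈ S.powerset, 0 < g (clr S σ) → ∀ l, 2 ≤ l → l + 2 < nn →
      V l (clr S σ) = Vs (rc0 hS) pa na Ev (zs (rc0 hS) om z) F l (chiS hS h3 σ))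
    (hb' : ∀ τ ∈ S.powerset, b (clr S τ) ≤ n)
    (small : av S.powerset (fun σ => g (clr S σ) * av S.powerset fun τ =>
      ‖Vb (rc0 hS) H R Q pa na Ev d₀ (zs (rc0 hS) om z) (chiS hS h3 σ) (chiS hS h3 τ)‖) ≤ E1)
    (cont : ∀ σ ∈ S.powerset, 0 < g (clr S σ) →
      ‖TKs hS H R Q pa na Ev k z (chiS hS h3 σ) - T‖ ≤ a2)
    (hθ : ∀ σ ∈ S.powerset, 0 < g (clr S σ) → av S.powerset (far r
      (fun σ τ => ka (rc0 hS) H R Q pa na Ev nn m F tl (chiS hS h3 σ) (chiS hS h3 τ))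
      (fun σ τ => kb (rc0 hS) H R Q pa na Ev nn m F tl (chiS hS h3 σ) (chiS hS h3 τ))
      (fun τ => a (clr S τ)) (fun τ => b (clr S τ)) σ) ≤ θ)
    (hQ : ∑ l ∈ Finset.range n, av S.powerset (fun σ => g (clr S σ) * av S.powerset fun τ =>
      ‖Wd (rc0 hS) H R Q pa na Ev k d₀ (zs (rc0 hS) om z) F l (chiS hS h3 σ)
        (chiS hS h3 τ)‖ ^ 2) ≤ Qq) :
    Quen n r 2 S g V a b om T E1 a2 θ Qq
      (fun σ τ => Vb (rc0 hS) H R Q pa na Ev d₀ (zs (rc0 hS) om z) (chiS hS h3 σ)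
        (chiS hS h3 τ))
      (fun σ τ => Vg (rc0 hS) H R Q pa na Ev k d₀ (zs (rc0 hS) om z) (chiS hS h3 σ)
        (chiS hS h3 τ))
      (fun σ => TKs hS H R Q pa na Ev k z (chiS hS h3 σ))
      (fun l σ τ => Wd (rc0 hS) H R Q pa na Ev k d₀ (zs (rc0 hS) om z) F l (chiS hS h3 σ)
        (chiS hS h3 τ))
      (fun σ τ => ka (rc0 hS) H R Q pa na Ev nn m F tl (chiS hS h3 σ) (chiS hS h3 τ))
      (fun σ τ => kb (rc0 hS) H R Q pa na Ev nn m F tl (chiS hS h3 σ) (chiS hS h3 τ)) where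
  hb' := hb'
  hkb := fun σ hσ h0 τ _ => by
    have := (Y.fields k d₀ (hg σ hσ h0) hnn (zs (rc0 hS) om z) (chiS hS h3 τ)).1.2
    omega
  hWV := fun σ hσ h0 τ _ l _ h1 h2 => by
    have h5 := (Y.fields k d₀ (hg σ hσ h0) hnn (zs (rc0 hS) om z) (chiS hS h3 τ)).1.2
    rw [hV σ hσ h0 l (by omega) (by omega)]
    exact (Y.fields k d₀ (hg σ hσ h0) hnn (zs (rc0 hS) om z) (chiS hS h3 τ)).2.1 l h1 h2
  hW0 := fun σ hσ h0 τ _ l _ h1 =>
    (Y.fields k d₀ (hg σ hσ h0) hnn (zs (rc0 hS) om z) (chiS hS h3 τ)).2.2.1 l h1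
  close := fun σ hσ h0 τ _ => by
    obtain ⟨-, -, -, h1, h2⟩ :=
      Y.fields k d₀ (hg σ hσ h0) hnn (zs (rc0 hS) om z) (chiS hS h3 τ)
    rw [h2]
    congr 1
    refine Finset.sum_subset (fun l hl => ?_) fun l _ hl => ?_
    · exact Finset.mem_range.2 (lt_of_lt_of_le (Finset.mem_range.1 hl) hm)
    · exact h1 l (by simpa using hl)
  fresh := fun σ hσ h0 => by
    obtain ⟨x, hx⟩ := hg σ hσ h0
    exact fresh_av hS h3 Y ⟨x.1, hx.1⟩ z
  small := small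
  cont := cont
  hθ := hθ
  hQ := hQ

end

end Crest.Agent.R143.SysDx166
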