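import Crest.Agent.R143.ConfT_503

/-!
# Row 143 (S0194): the ring of tubes along a closed fine path (helper503)

* `Dsj` : tiles which are not neighbours on the path are disjoint
* `gpath_gen` : `GPath` with general windows
* `win_rr` : the window of a gate is inside both tiles
* `Evp` : gates (`NeckD`) and tile events (`Tile`) along the path
* **`Evp.ring`** : `DRing` of helper117 for the closed path
-/

set_option autoImplicit false

noncomputable section

open scoped Classical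

namespace Crest.Agent.R143.RingPx503

open Set
open Crest.Agent.R143.B0x346 Crest.Agent.R143.DelGx806 Crest.Agent.R143.DelRx806
open Crest.Agent.R143.Frame1x395 Crest.Agent.R143.Frame2x395 Crest.Agent.R143.Frame3x395
  Crest.Agent.R143.Frame8x395 Crest.Agent.R143.Frame10x395 Crest.Agent.R143.Frame11x395
open Crest.Agent.R143.Frame5x395 (sd mem_sd th th_spec)
open Crest.Agent.R143.Splx117 Crest.Agent.R143.WLocx713 Crest.Agent.R143.RingDx117
open Crest.Agent.R143.Blkx838 (DE)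
open Crest.Agent.R143.Circx63
open Crest.Agent.R143.Gatex838 (X Y X_turn Y_turn)
open Crest.Agent.R143.TileRx228 Crest.Agent.R143.PathDx503 Crest.Agent.R143.PathGx503
open Crest.Agent.R143.ConfTx503
open Crest.Agent.R143.Neckx921

variable {S V β : Finset ℂ} {χ : ℂ → ZMod 2} {h A B A' B' m m' τ κ bb : ℝ} {a0 a1 b0 b1 : ℝ}
  {M : ℕ} {W : ℤ → ℤ × ℤ} {b : ZMod 2}

/-- tiles which are not neighbours on the path are disjoint -/
def Dsj (A B h : ℝ) (M : ℕ) (W : ℤ → ℤ × ℤ) : Prop :=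
  ∀ a c : ℤ, ¬ (M : ℤ) ∣ c - a → ¬ (M : ℤ) ∣ c - a - 1 → ¬ (M : ℤ) ∣ c - a + 1 →
    Disjoint (RR A B h W a) (RR A B h W c)

/-- numbers of the windows: `κ` bounds the window, `bb` its height -/
structure Num (h A B κ bb a0 a1 b0 b1 m : ℝ) : Prop where
  A0 : 0 < A
  B0 : 0 < B
  m0 : 0 ≤ m
  l0 : -κ ≤ a0
  l1 : a1 ≤ κ
  l2 : a0 ≤ a1
  s0 : b0 ≤ -A
  s1 : A ≤ b1
  s2 : -bb ≤ b0
  s3 : b1 ≤ bb
  tot : κ + bb + m ≤ h / 2

theorem Num.Ab (N : Num h A B κ bb a0 a1 b0 b1 m) : A ≤ bb := N.s1.trans N.s3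

theorem Num.κ0 (N : Num h A B κ bb a0 a1 b0 b1 m) : 0 ≤ κ := by
  have := N.l0; have := N.l1; have := N.l2
  linarith

/-- the window of the gate `a` is on the left of the gate `a + 1` -/
theorem win_lt' (N : Num h A B κ bb a0 a1 b0 b1 m) (F : FPath M W) {a : ℤ} {s : ℂ}
    (hs : s ∈ Win (gz h W a) (ge W a) a0 a1 b0 b1) :
    X (gz h W (a + 1)) (ge W (a + 1)) s ≤ a0 := by
  obtain ⟨⟨h1, h2⟩, h3, h4⟩ := hs
  have e1 : X (gz h W (a + 1)) (ge W (a + 1)) s = X (cen h W a) (ge W (a + 1)) s - h / 2 := by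
    rw [Xc_r F]; ring
  rw [e1]
  have x1 := Xc_l (h := h) F a s
  have y1 := Yc_l (h := h) F a s
  have n1 := N.m0; have n2 := N.l0; have n3 := N.l1; have n4 := N.s2; have n5 := N.s3
  have n6 := N.tot; have n7 := N.κ0; have n8 := N.A0; have n9 := N.Ab
  rcases d4_cases (ge_d4 F a) (ge_d4 F (a + 1)) with h5 | h5 | h5 | h5
  · rw [h5]; linarith
  · exact absurd h5 (ge_ne F a)
  · rw [h5, X_turn]; linarith
  · rw [h5, X_neg, X_turn]; linarith

/-- the window of the gate `a + 1` is on the right of the gate `a` -/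
theorem win_gt' (N : Num h A B κ bb a0 a1 b0 b1 m) (F : FPath M W) {a : ℤ} {s : ℂ}
    (hs : s ∈ Win (gz h W (a + 1)) (ge W (a + 1)) a0 a1 b0 b1) :
    a1 ≤ X (gz h W a) (ge W a) s := by
  obtain ⟨⟨h1, h2⟩, h3, h4⟩ := hs
  have e1 : X (gz h W a) (ge W a) s = X (cen h W a) (ge W a) s + h / 2 := by
    rw [Xc_l F]; ring
  rw [e1]
  have x1 := Xc_r (h := h) F a s
  have y1 := Yc_r (h := h) F a s
  have hne : ge W a ≠ -ge W (a + 1) := by
    intro hc
    apply ge_ne F a
    rw [hc, neg_neg]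
  have n1 := N.m0; have n2 := N.l0; have n3 := N.l1; have n4 := N.s2; have n5 := N.s3
  have n6 := N.tot; have n7 := N.κ0; have n8 := N.A0; have n9 := N.Ab
  rcases d4_cases (ge_d4 F (a + 1)) (ge_d4 F a) with h5 | h5 | h5 | h5
  · rw [h5]; linarith
  · exact absurd h5 hne
  · rw [h5, X_turn]; linarith
  · rw [h5, X_neg, X_turn]; linarith

/-- **the geometry of gates and tiles along a fine path**, general windows -/
theorem gpath_gen {P : ℕ → Prop} (N : Num h A B κ bb a0 a1 b0 b1 m) (F : FPath M W) (o : ℤ)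
    (hstep : ∀ k : ℕ, P k → P (k + 1) → ∀ u v, DE S u v →
      (u ∈ RR A B h W (o + k) ∨ u ∈ RR A B h W (o + (k + 1 : ℕ))) →
      (v ∈ RR A B h W (o + k) ∨ v ∈ RR A B h W (o + (k + 1 : ℕ))) → ‖u - v‖ ≤ m)
    (hinn : ∀ k : ℕ, P k → ∀ s ∈ S, s ∈ RR A B h W (o + k) → ¬ OnHull S s) :
    GPath S P (fun k => gz h W (o + k)) (fun k => ge W (o + k)) (fun k => RR A B h W (o + k))
      a0 a1 b0 b1 m where
  e0 := fun k => (ge_d4 F _).ne0
  near := by
    intro k _ _ s _ hs h1 h2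
    have n2 := N.l0; have n3 := N.l1; have n4 := N.s0; have n5 := N.s1
    have n6 := N.tot; have n9 := N.Ab
    have h3 : |X (gz h W (o + (k + 1 : ℕ))) (ge W (o + (k + 1 : ℕ))) s| ≤ κ + m :=
      abs_le.2 ⟨by linarith, by linarith⟩
    have h4 : |Y (gz h W (o + (k + 1 : ℕ))) (ge W (o + (k + 1 : ℕ))) s| < A := by
      rcases hs with hs | hs
      · have e : o + ((k + 1 : ℕ) : ℤ) = o + (k : ℤ) + 1 := by push_cast; ring
        rw [e] at h3 ⊢
        exact near_l F (by linarith) hs h3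
      · exact near_r F (by linarith) hs h3
    rw [abs_lt] at h4
    exact ⟨by linarith [h4.1], by linarith [h4.2]⟩
  lt := by
    intro k _ s hs
    have e : o + ((k + 1 : ℕ) : ℤ) = o + (k : ℤ) + 1 := by push_cast; ring
    show X (gz h W (o + ((k + 1 : ℕ) : ℤ))) (ge W (o + ((k + 1 : ℕ) : ℤ))) s ≤ a0
    rw [e]
    exact win_lt' N F hs
  gt := by
    intro k _ s hs
    have e : o + ((k + 1 : ℕ) : ℤ) = o + (k : ℤ) + 1 := by push_cast; ring
    simp only [e] at hs
    exact win_gt' N F hs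
  step := fun k h1 h2 u v h3 h4 h5 =>
    (Crossx228.abs_X_sub _ (ge_d4 F _).norm u v).trans (hstep k h1 h2 u v h3 h4 h5)
  inn := hinn

/-- **the window of a gate is inside both tiles** -/
theorem win_rr (N : Num h A B κ bb a0 a1 b0 b1 m) (F : FPath M W) {a : ℤ} {s : ℂ} (hA : bb ≤ A')
    (hB : h / 2 + κ ≤ B') (hs : s ∈ Win (gz h W (a + 1)) (ge W (a + 1)) a0 a1 b0 b1) :
    s ∈ RR A' B' h W a ∧ s ∈ RR A' B' h W (a + 1) := by
  obtain ⟨⟨h1, h2⟩, h3, h4⟩ := hs
  have n1 := N.m0; have n2 := N.l0; have n3 := N.l1; have n4 := N.s2; have n5 := N.s3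
  have n6 := N.tot; have n7 := N.κ0; have n8 := N.A0; have n9 := N.Ab
  have hY : |Y (gz h W (a + 1)) (ge W (a + 1)) s| < A' := abs_lt.2 ⟨by linarith, by linarith⟩
  have e0 : cz (W (a + 1) - W a) = ge W (a + 1) := by
    unfold ge
    rw [show a + 1 - 1 = a by ring]
  constructor
  · right
    rw [e0]
    refine ⟨⟨?_, ?_⟩, ?_⟩
    · rw [Xc_r F]; linarith
    · rw [Xc_r F]; linarith
    · rw [Yc_r F]; exact hY
  · left
    have e1 : cz (W (a + 1 - 1) - W (a + 1)) = -ge W (a + 1) := by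
      unfold ge
      rw [cz_sub, cz_sub]
      ring
    rw [e1]
    refine ⟨⟨?_, ?_⟩, ?_⟩
    · rw [X_neg, Xc_l F]; linarith
    · rw [X_neg, Xc_l F]; linarith
    · rw [Y_neg, abs_neg, Yc_l F]; exact hY

/-! ### events -/

/-- **gates and tile events along the path**; `P a` : the tile `a` is in use -/
structure Evp (S V β : Finset ℂ) (h A B a0 a1 b0 b1 m' : ℝ) (W : ℤ → ℤ × ℤ) (P : ℤ → Prop)
    (y x : ℤ → ℂ) : Prop where
  gate : ∀ a, P a ∨ P (a - 1) → NeckD S (gz h W a) (ge W a) a0 a1 b0 b1 m' V β (y a) (x a)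
  tile : ∀ a, P a → Tile S V β (RR A B h W a) (y a) (x a) (y (a + 1)) (x (a + 1))

/-- environment in a region: short edges, no hull sites, covered by the triangles -/
structure Envr (S : Finset ℂ) (U : Set ℂ) (m : ℝ) : Prop where
  step : ∀ u v, DE S u v → u ∈ U → v ∈ U → ‖u - v‖ ≤ m
  inn : ∀ s ∈ S, s ∈ U → ¬ OnHull S s
  cov : ∀ z ∈ U, ∃ t ∈ delT S, z ∈ cT t

theorem white_stc {R : Set ℂ} (hβ : ∀ s ∈ V, χ s = b ↔ s ∈ β) {u v : ℂ}
    (hl : Lk S {s | (s ∈ V ∧ s ∉ β) ∧ s ∈ R} u v) :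
    Relation.ReflTransGen (StC S χ R) u v := by
  have key : ∀ b w : ZMod 2, w ≠ b → w = b + 1 := by decide
  exact lk_stc (b := b + 1) (fun s hs => key _ _ fun hc => hs.1.2 ((hβ s hs.1.1).1 hc))
    (fun _ hs => hs.2) hl

section

variable {P : ℤ → Prop} {y x : ℤ → ℂ} {U : Set ℂ}

theorem Evp.neck (E : Evp S V β h A B a0 a1 b0 b1 m' W P y x) {a : ℤ} (ha : P a) :
    NeckD S (gz h W a) (ge W a) a0 a1 b0 b1 m' V β (y a) (x a) := E.gate a (Or.inl ha)

theorem Evp.neck1 (E : Evp S V β h A B a0 a1 b0 b1 m' W P y x) {a : ℤ} (ha : P a) :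
    NeckD S (gz h W (a + 1)) (ge W (a + 1)) a0 a1 b0 b1 m' V β (y (a + 1)) (x (a + 1)) :=
  E.gate (a + 1) (Or.inr (by rw [add_sub_cancel_right]; exact ha))

/-- **confinement of the arc of a tile** -/
theorem Evp.conf (E : Evp S V β h A B a0 a1 b0 b1 m' W P y x) (N : Num h A B κ bb a0 a1 b0 b1 m)
    (F : FPath M W) (hS : GP (S : Set ℂ)) (hχ : HullC S χ) (hβ : ∀ s ∈ V, χ s = b ↔ s ∈ β)
    (hβV : β ⊆ V) (hE : Envr S U m) (hτ : m < τ) {a : ℤ} (ha : P a)
    (hU : RR (A + τ) (B + τ) h W a ⊆ U) {p q : D0 S} (hp : p.1 = (y a, x a))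
    (hq : q.1 = (y (a + 1), x (a + 1))) :
    FA (cm0 hS) (xc hS hχ) (RD S (RR (A + τ) (B + τ) h W a)) p q ∨
      FA (cm0 hS) (xc hS hχ) (RD S (RR (A + τ) (B + τ) h W a)) q p := by
  obtain ⟨t1, t2⟩ := E.tile a ha
  have n1 := N.m0
  have hsub : RR A B h W a ⊆ U := (rr_sub (by linarith) (by linarith) a).trans hU
  exact conf_tile hS hχ F a N.A0 N.B0 N.m0 hτ (fun z hz => hE.cov z (hU hz))
    (fun u v huv hu hv => hE.step u v huv (hsub hu) (hsub hv)) hp hq
    (neck_col hβ (E.neck ha)).2 t1.1.1.2 t2.1.1.2 t1.1.2.2 t2.1.2.2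
    (lk_stc (fun s hs => (hβ s (hβV hs.1)).2 hs.1) (fun _ hs => hs.2) t1)
    (white_stc hβ t2)

/-- gates and black links in the language of `PathD_503` (`a = o + k`) -/
theorem Evp.gts (E : Evp S V β h A B a0 a1 b0 b1 m' W P y x) (o : ℤ) :
    Gts S V β (fun k => P (o + k)) (fun k => gz h W (o + k)) (fun k => ge W (o + k))
      (fun k => RR A B h W (o + k)) a0 a1 b0 b1 m' (fun k => y (o + k)) (fun k => x (o + k)) where
  gate := by
    rintro k (hk | ⟨j, rfl, hj⟩)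
    · exact E.gate _ (Or.inl hk)
    · refine E.gate _ (Or.inr ?_)
      have e : o + ((j + 1 : ℕ) : ℤ) - 1 = o + j := by push_cast; ring
      rw [e]
      exact hj
  link := by
    intro k hk
    have e : o + ((k + 1 : ℕ) : ℤ) = o + (k : ℤ) + 1 := by push_cast; ring
    simp only [e]
    exact (E.tile _ hk).1

/-- the windows of far gates are disjoint from the tile -/
theorem far_win (N : Num h A B κ bb a0 a1 b0 b1 m) (F : FPath M W) (hA : bb ≤ A')
    (hB : h / 2 + κ ≤ B') (hD : Dsj A' B' h M W) {a c : ℤ} (h0 : ¬ (M : ℤ) ∣ c - a)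
    (h1 : ¬ (M : ℤ) ∣ c - a - 1) (h2 : ¬ (M : ℤ) ∣ c - a + 1 ∨ ¬ (M : ℤ) ∣ c - a - 2) 
    (h3 : (M : ℤ) ∣ c - a + 1 → ¬ (M : ℤ) ∣ c - 1 - a + 1) :
    Disjoint (Win (gz h W c) (ge W c) a0 a1 b0 b1) (RR A' B' h W a) := by
  rw [disjoint_left]
  intro s hs hs2
  have hc : c = c - 1 + 1 := by ring
  rw [hc] at hs
  obtain ⟨k1, k2⟩ := win_rr N F hA hB hs
  rw [← hc] at k2
  by_cases h4 : (M : ℤ) ∣ c - a + 1
  · have h5 := h3 h4
    exact disjoint_left.1 (hD a (c - 1) (fun h => h1 (by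
      have e : c - a - 1 = c - 1 - a := by ring
      rw [e]; exact h)) (fun h => by
        rcases h2 with h2 | h2
        · exact h2 h4
        · exact h2 (by
            have e : c - a - 2 = c - 1 - a - 1 := by ring
            rw [e]; exact h)) h5) hs2 k1
  · exact disjoint_left.1 (hD a c h0 h1 h4) hs2 k2

theorem dvd_nat {M : ℕ} {j : ℤ} (h : (M : ℤ) ∣ j) (h1 : 0 < j) : (M : ℤ) ≤ j := Int.le_of_dvd h1 h

theorem dsj_mono {A1 B1 A2 B2 : ℝ} (hA : A1 ≤ A2) (hB : B1 ≤ B2) (hD : Dsj A2 B2 h M W) :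
    Dsj A1 B1 h M W := fun a c h0 h1 h2 =>
  (hD a c h0 h1 h2).mono (rr_sub hA hB a) (rr_sub hA hB c)

/-- **the ring of tubes of a closed fine path** -/
theorem Evp.ring (E : Evp S V β h A B a0 a1 b0 b1 m' W (fun _ => True) y x)
    (N : Num h A B κ bb a0 a1 b0 b1 m) (F : FPath M W) (hS : GP (S : Set ℂ)) (hχ : HullC S χ)
    (hβ : ∀ s ∈ V, χ s = b ↔ s ∈ β) (hβV : β ⊆ V) (hE : Envr S U m) (hτ : m < τ) (M4 : 4 ≤ M)
    (pery : ∀ a, y (a + M) = y a) (perx : ∀ a, x (a + M) = x a)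
    (hU : ∀ a, RR (A + τ) (B + τ) h W a ⊆ U) (hA : bb ≤ A') (hB : h / 2 + κ ≤ B')
    (hA2 : A + τ ≤ A') (hB2 : B + τ ≤ B') (hD : Dsj A' B' h M W) (o : ℤ) :
    DRing hS hχ M (fun k : ℕ => y (o + k)) (fun k : ℕ => x (o + k))
      (fun k : ℕ => RR A B h W (o + k)) (fun k : ℕ => RR (A + τ) (B + τ) h W (o + k))
      (fun k : ℕ => ⟨(y (o + k), x (o + k)), neck_sd hχ hβ (E.neck trivial)⟩) := by
  have n1 := N.m0
  have hsub : ∀ a, RR A B h W a ⊆ U := fun a =>
    (rr_sub (by linarith) (by linarith) a).trans (hU a)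
  have hper : ∀ {A B : ℝ} (a : ℤ), RR A B h W (a + M) = RR A B h W a := by
    intro A B a
    unfold RR cen
    rw [F.per, show a + (M : ℤ) - 1 = a - 1 + M by ring, F.per,
      show a + (M : ℤ) + 1 = a + 1 + M by ring, F.per]
  have G := gpath_gen (S := S) (P := fun _ => True) N F o
    (fun k _ _ u v huv hu hv => hE.step u v huv
      (hu.elim (fun h => hsub _ h) (fun h => hsub _ h))
      (hv.elim (fun h => hsub _ h) (fun h => hsub _ h)))
    (fun k _ s hs hs2 => hE.inn s hs (hsub _ hs2))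
  have ecast : ∀ k j : ℕ, o + ((k + j : ℕ) : ℤ) = o + k + j := fun k j => by push_cast; ring
  refine Gts.ring (m' := m) hβ hβV G (E.gts o) (by omega) (fun k => ?_) (fun k => ?_) (fun k => ?_)
    (fun k => ?_) (fun k v hv hv2 => hE.inn v hv (hU _ hv2)) (fun k j h2 h3 => ?_)
    (fun k j h2 h3 => ?_) (fun k p q hp hq => ?_)
  · show y (o + ((k + M : ℕ) : ℤ)) = y (o + k)
    rw [ecast, pery]
  · show x (o + ((k + M : ℕ) : ℤ)) = x (o + k)
    rw [ecast, perx]
  · show RR A B h W (o + ((k + M : ℕ) : ℤ)) = RR A B h W (o + k)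
    rw [ecast, hper]
  · show RR (A + τ) (B + τ) h W (o + ((k + M : ℕ) : ℤ)) = RR (A + τ) (B + τ) h W (o + k)
    rw [ecast, hper]
  · show Disjoint (RR A B h W (o + k)) (RR A B h W (o + ((k + j : ℕ) : ℤ)))
    refine dsj_mono (by linarith) (by linarith) hD _ _ ?_ ?_ ?_
    · intro hd
      have := dvd_nat hd (by push_cast; omega)
      push_cast at this
      omega
    · intro hd
      have := dvd_nat hd (by push_cast; omega)
      push_cast at this
      omega
    · intro hd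
      have := dvd_nat hd (by push_cast; omega)
      push_cast at this
      omega
  · show Disjoint (Win (gz h W (o + ((k + j : ℕ) : ℤ))) (ge W (o + ((k + j : ℕ) : ℤ))) a0 a1 b0 b1)
      (RR (A + τ) (B + τ) h W (o + k))
    refine (far_win N F hA hB hD ?_ ?_ ?_ ?_).mono_right (rr_sub hA2 hB2 _)
    · intro hd
      have := dvd_nat hd (by push_cast; omega)
      push_cast at this
      omega
    · intro hd
      have := dvd_nat hd (by push_cast; omega)
      push_cast at this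
      omega
    · by_cases hd : (M : ℤ) ∣ o + ((k + j : ℕ) : ℤ) - (o + k) + 1
      · right
        intro hd2
        have e1 := dvd_nat hd (by push_cast; omega)
        push_cast at e1
        have hj : (j : ℤ) = M - 1 := by omega
        have := dvd_nat hd2 (by push_cast; omega)
        push_cast at this
        omega
      · exact Or.inl hd
    · intro _ hd
      have := dvd_nat hd (by push_cast; omega)
      push_cast at this
      omega
  · have e : o + ((k + 1 : ℕ) : ℤ) = o + (k : ℤ) + 1 := by push_cast; ring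
    simp only [e] at hq
    exact E.conf N F hS hχ hβ hβV hE hτ trivial (hU _) hp hq

end

end Crest.Agent.R143.RingPx503
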