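import Crest.Agent.R143.NetV_346

/-!
# Row 143 (S0194), RIG: the field `disp` of `PolyAx970.Cor` (helper798)

* `tel` : sum of the displacements of the straight tiles between two positions
* `exC_compl` : the mean over `T` is the mean over `V \ T`
* `Pos`, `one`, `one_of_lt` : positions of the two hit vertices in ONE colouring (`x` : hit of
  `i + 1` in `T`, `y` : hit of `i + 2` in the complementary colouring), tile indicator
* `disp` : `‖(Ey (i+1) - Ey (i+2)) - ∑ k ∈ J, zz k * E one k‖ ≤ (2 c + #corners) h`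
-/

set_option autoImplicit false

noncomputable section

open scoped Classical

namespace Crest.Agent.R143.Dispx798

open Crest.Agent.R143.B0x346 Crest.Agent.R143.K33x877 Crest.Agent.R143.NetUx346
  Crest.Agent.R143.NetVx346

/-! ### telescoping -/

/-- indicator of the tile `k` between the positions `a` and `b` -/
def btw (a b k : ℕ) : ℝ := if a ≤ k ∧ k < b then 1 else 0

theorem btw_nonneg (a b k : ℕ) : 0 ≤ btw a b k := by
  unfold btw; split_ifs <;> norm_num

theorem btw_le (a b k : ℕ) : btw a b k ≤ 1 := by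
  unfold btw; split_ifs <;> norm_num

theorem tel {g : ℕ → ℂ} {zz : ℕ → ℂ} {h : ℝ} {n : ℕ} {J : Finset ℕ} (hJ : J ⊆ Finset.range n)
    (hz : ∀ k ∈ J, zz k = g (k + 1) - g k) (hh : ∀ k < n, ‖g (k + 1) - g k‖ ≤ h)
    {a b : ℕ} (hab : a ≤ b) (hb : b ≤ n) :
    ‖(g b - g a) - ∑ k ∈ J, zz k * (btw a b k : ℂ)‖ ≤ ((Finset.range n \ J).card : ℝ) * h := by
  have e1 : g b - g a = ∑ k ∈ Finset.range n, (g (k + 1) - g k) * (btw a b k : ℂ) := by
    have e2 : ∑ k ∈ Finset.Ico a b, (g (k + 1) - g k) = g b - g a :=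
      Finset.sum_Ico_sub g hab
    rw [← e2]
    have e3 : Finset.Ico a b = (Finset.range n).filter fun k => a ≤ k ∧ k < b := by
      ext k
      simp only [Finset.mem_Ico, Finset.mem_filter, Finset.mem_range]
      constructor
      · rintro ⟨h1, h2⟩; exact ⟨by omega, h1, h2⟩
      · rintro ⟨_, h1, h2⟩; exact ⟨h1, h2⟩
    rw [e3, Finset.sum_filter]
    refine Finset.sum_congr rfl fun k _ => ?_
    unfold btw
    split_ifs <;> simp
  have e4 : ∑ k ∈ J, zz k * (btw a b k : ℂ) =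
      ∑ k ∈ J, (g (k + 1) - g k) * (btw a b k : ℂ) :=
    Finset.sum_congr rfl fun k hk => by rw [hz k hk]
  rw [e1, e4, ← Finset.sum_sdiff hJ, add_sub_cancel_right]
  refine (norm_sum_le _ _).trans ?_
  rw [← nsmul_eq_mul]
  refine Finset.sum_le_card_nsmul _ _ _ fun k hk => ?_
  have hk' := Finset.mem_range.1 (Finset.mem_sdiff.1 hk).1
  rw [norm_mul, Complex.norm_real, Real.norm_of_nonneg (btw_nonneg _ _ _)]
  have h1 := hh k hk'
  have h2 := btw_le a b k
  have h3 := btw_nonneg a b k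
  have h4 := norm_nonneg (g (k + 1) - g k)
  nlinarith

/-! ### complementary colourings -/

theorem exC_compl (V : Finset ℂ) (f : Finset ℂ → ℂ) :
    exC V (fun T => f (V \ T)) = exC V f := by
  unfold exC
  congr 1
  refine Finset.sum_nbij' (fun T => V \ T) (fun T => V \ T) ?_ ?_ ?_ ?_ ?_
  · intro T _
    exact Finset.mem_powerset.2 Finset.sdiff_subset
  · intro T _
    exact Finset.mem_powerset.2 Finset.sdiff_subset
  · intro T hT
    exact Finset.sdiff_sdiff_eq_self (Finset.mem_powerset.1 hT)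
  · intro T hT
    exact Finset.sdiff_sdiff_eq_self (Finset.mem_powerset.1 hT)
  · intro T _
    rfl

theorem exC_sum {ι : Type*} (V : Finset ℂ) (I : Finset ι) (f : ι → Finset ℂ → ℂ) :
    exC V (fun T => ∑ k ∈ I, f k T) = ∑ k ∈ I, exC V (f k) := by
  unfold exC
  rw [Finset.sum_comm, Finset.sum_div]

/-! ### the two hit vertices in one colouring -/

variable {S : Finset ℂ} {A : ZMod 3 → Set ℂ}

/-- hit vertex of `i + 1` in the colouring `T` -/
def xU (S : Finset ℂ) (A : ZMod 3 → Set ℂ) (i : ZMod 3) (T : Finset ℂ) : ℂ :=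
  hv S A (i + 1) (T : Set ℂ)

/-- hit vertex of `i + 2` in the complementary colouring -/
def yU (S : Finset ℂ) (A : ZMod 3 → Set ℂ) (i : ZMod 3) (T : Finset ℂ) : ℂ :=
  hv S A (i + 2) ((ff S A \ T : Finset ℂ) : Set ℂ)

theorem Ey_x (hX : Hex S A) (z : ℂ → ℂ) (i : ZMod 3) :
    Ey S A z (i + 1) = exC (ff S A) fun T => z (xU S A i T) :=
  Ey_eq hX z (i + 1)

theorem Ey_y (hX : Hex S A) (z : ℂ → ℂ) (i : ZMod 3) :
    Ey S A z (i + 2) = exC (ff S A) fun T => z (yU S A i T) := by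
  rw [Ey_eq hX z (i + 2), ← exC_compl]
  rfl

theorem xU_mem (hX : Hex S A) (i : ZMod 3) {T : Finset ℂ} (hT : T ⊆ ff S A) :
    xU S A i T ∈ A (i + 1) := hv_mem hX hT

theorem yU_mem (hX : Hex S A) (i : ZMod 3) (T : Finset ℂ) :
    yU S A i T ∈ A (i + 2) := hv_mem hX Finset.sdiff_subset

/-- **the displacement, one environment**: `px`, `py` = positions of the hit vertices, `y` first -/
theorem disp {g : ℕ → ℂ} {zz : ℕ → ℂ} {h c : ℝ} {n : ℕ} {J : Finset ℕ}
    (hJ : J ⊆ Finset.range n) (hz : ∀ k ∈ J, zz k = g (k + 1) - g k)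
    (hh : ∀ k < n, ‖g (k + 1) - g k‖ ≤ h) (hX : Hex S A) (i : ZMod 3)
    (px py : Finset ℂ → ℕ)
    (hp : ∀ T ⊆ ff S A, py T ≤ px T ∧ px T ≤ n ∧ ‖xU S A i T - g (px T)‖ ≤ c * h ∧
      ‖yU S A i T - g (py T)‖ ≤ c * h) :
    ‖(Ey S A id (i + 1) - Ey S A id (i + 2)) -
        ∑ k ∈ J, zz k * exC (ff S A) (fun T => ((btw (py T) (px T) k : ℝ) : ℂ))‖ ≤
      (2 * c + ((Finset.range n \ J).card : ℝ)) * h := by
  have e : (Ey S A id (i + 1) - Ey S A id (i + 2)) -
        ∑ k ∈ J, zz k * exC (ff S A) (fun T => ((btw (py T) (px T) k : ℝ) : ℂ)) =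
      exC (ff S A) fun T => (xU S A i T - yU S A i T) -
        ∑ k ∈ J, zz k * ((btw (py T) (px T) k : ℝ) : ℂ) := by
    rw [Ey_x hX, Ey_y hX, exC_sub, exC_sub, exC_sum]
    congr 1
    exact Finset.sum_congr rfl fun k _ => (exC_mul _ _ _).symm
  rw [e]
  refine norm_exC _ _ fun T hT => ?_
  obtain ⟨h1, h2, h3, h4⟩ := hp T hT
  have h5 := tel hJ hz hh h1 h2
  have e2 : (xU S A i T - yU S A i T) - ∑ k ∈ J, zz k * ((btw (py T) (px T) k : ℝ) : ℂ) =
      (xU S A i T - g (px T)) - (yU S A i T - g (py T)) +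
        ((g (px T) - g (py T)) - ∑ k ∈ J, zz k * ((btw (py T) (px T) k : ℝ) : ℂ)) := by ring
  rw [e2]
  refine (norm_add_le _ _).trans ?_
  have h6 := norm_sub_le (xU S A i T - g (px T)) (yU S A i T - g (py T))
  linarith

/-! ### the frozen form: `zV` -/

section zV

variable {V : Finset ℂ} {B : ZMod 3 → Set ℂ}

/-- mean end point on the class `j`, frozen form -/
def EV (S V : Finset ℂ) (B : ZMod 3 → Set ℂ) (z : ℂ → ℂ) (j : ZMod 3) : ℂ :=
  exC V fun T => zV S V B j (T : Set ℂ) z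

theorem TV_EV (z : ℂ → ℂ) : TV S V B z = 3 * ∑ i : ZMod 3, omz i * EV S V B z i := rfl

/-- end point on `w + 1` in the colouring `T` -/
def xV (S V : Finset ℂ) (B : ZMod 3 → Set ℂ) (w : ZMod 3) (T : Finset ℂ) : ℂ :=
  zV S V B (w + 1) (T : Set ℂ) id

/-- end point on `w + 2` in the complementary colouring -/
def yV (S V : Finset ℂ) (B : ZMod 3 → Set ℂ) (w : ZMod 3) (T : Finset ℂ) : ℂ :=
  zV S V B (w + 2) ((V \ T : Finset ℂ) : Set ℂ) id

theorem EV_x (w : ZMod 3) : EV S V B id (w + 1) = exC V (xV S V B w) := rfl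

theorem EV_y (w : ZMod 3) : EV S V B id (w + 2) = exC V (yV S V B w) := by
  unfold EV
  rw [← exC_compl]
  rfl

/-- mean of a bound which fails on `bad` colourings -/
theorem norm_exC_bad {f : Finset ℂ → ℂ} {e C : ℝ} (bad : Finset ℂ → Prop) (he : 0 ≤ e)
    (hC : 0 ≤ C) (h1 : ∀ T ⊆ V, ¬ bad T → ‖f T‖ ≤ e) (h2 : ∀ T ⊆ V, bad T → ‖f T‖ ≤ C) :
    ‖exC V f‖ ≤ e + C * ((∑ T ∈ V.powerset, if bad T then (1 : ℝ) else 0) / 2 ^ V.card) := by
  refine (norm_exC_le V f).trans ?_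
  have h3 : ∑ T ∈ V.powerset, ‖f T‖ ≤
      ∑ T ∈ V.powerset, (e + C * (if bad T then (1 : ℝ) else 0)) := by
    refine Finset.sum_le_sum fun T hT => ?_
    have hT' := Finset.mem_powerset.1 hT
    by_cases hb : bad T
    · rw [if_pos hb, mul_one]
      have := h2 T hT' hb
      linarith
    · rw [if_neg hb, mul_zero, add_zero]
      exact h1 T hT' hb
  have h4 : (0 : ℝ) < 2 ^ V.card := by positivity
  rw [div_le_iff₀ h4]
  refine h3.trans (le_of_eq ?_)
  rw [Finset.sum_add_distrib, Finset.sum_const, Finset.card_powerset, nsmul_eq_mul,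
    ← Finset.mul_sum]
  push_cast
  field_simp

/-- fraction of the bad colourings -/
def frac (V : Finset ℂ) (bad : Finset ℂ → Prop) : ℝ :=
  (∑ T ∈ V.powerset, if bad T then (1 : ℝ) else 0) / 2 ^ V.card

/-- **field `disp`, one environment**, white class `w`: `a'` = tile of the end point on `w + 2`
(complementary colouring), `b'` = tile of the end point on `w + 1`; `M` bounds everything off the
good colourings -/
theorem dispV {g : ℕ → ℂ} {zz : ℕ → ℂ} {h c M : ℝ} {n : ℕ} {J : Finset ℕ}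
    (hJ : J ⊆ Finset.range n) (hz : ∀ k ∈ J, zz k = g (k + 1) - g k)
    (hh : ∀ k < n, ‖g (k + 1) - g k‖ ≤ h) (hh0 : 0 ≤ h) (hc : 0 ≤ c) (hM : 0 ≤ M)
    (w : ZMod 3) (a' b' : Finset ℂ → ℕ) (bad : Finset ℂ → Prop)
    (hg : ∀ T ⊆ V, ¬ bad T → a' T ≤ b' T ∧ b' T ≤ n ∧ ‖xV S V B w T - g (b' T)‖ ≤ c * h ∧
      ‖yV S V B w T - g (a' T)‖ ≤ c * h)
    (hb : ∀ T ⊆ V, bad T → b' T ≤ n ∧ ‖xV S V B w T‖ ≤ M ∧ ‖yV S V B w T‖ ≤ M) :
    ‖(EV S V B id (w + 1) - EV S V B id (w + 2)) -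
        ∑ k ∈ J, zz k * exC V (fun T => ((btw (a' T) (b' T) k : ℝ) : ℂ))‖ ≤
      (2 * c + ((Finset.range n \ J).card : ℝ)) * h + (2 * M + n * h) * frac V bad := by
  have e : (EV S V B id (w + 1) - EV S V B id (w + 2)) -
        ∑ k ∈ J, zz k * exC V (fun T => ((btw (a' T) (b' T) k : ℝ) : ℂ)) =
      exC V fun T => (xV S V B w T - yV S V B w T) -
        ∑ k ∈ J, zz k * ((btw (a' T) (b' T) k : ℝ) : ℂ) := by
    rw [EV_x, EV_y, exC_sub, exC_sub, exC_sum]
    congr 1
    exact Finset.sum_congr rfl fun k _ => (exC_mul _ _ _).symm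
  rw [e]
  refine norm_exC_bad bad (by positivity) (by positivity) (fun T hT hn => ?_) fun T hT hn => ?_
  · obtain ⟨h1, h2, h3, h4⟩ := hg T hT hn
    have h5 := tel hJ hz hh h1 h2
    have e2 : (xV S V B w T - yV S V B w T) - ∑ k ∈ J, zz k * ((btw (a' T) (b' T) k : ℝ) : ℂ) =
        (xV S V B w T - g (b' T)) - (yV S V B w T - g (a' T)) +
          ((g (b' T) - g (a' T)) - ∑ k ∈ J, zz k * ((btw (a' T) (b' T) k : ℝ) : ℂ)) := by ring
    rw [e2]
    refine (norm_add_le _ _).trans ?_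
    have h6 := norm_sub_le (xV S V B w T - g (b' T)) (yV S V B w T - g (a' T))
    linarith
  · obtain ⟨_, h3, h4⟩ := hb T hT hn
    have h5 : ‖∑ k ∈ J, zz k * ((btw (a' T) (b' T) k : ℝ) : ℂ)‖ ≤ n * h := by
      refine (norm_sum_le _ _).trans ?_
      have h6 : ∑ k ∈ J, ‖zz k * ((btw (a' T) (b' T) k : ℝ) : ℂ)‖ ≤ ∑ k ∈ J, h := by
        refine Finset.sum_le_sum fun k hk => ?_
        rw [norm_mul, Complex.norm_real, Real.norm_of_nonneg (btw_nonneg _ _ _), hz k hk]
        have h7 := hh k (Finset.mem_range.1 (hJ hk))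
        have h8 := btw_le (a' T) (b' T) k
        have h9 := btw_nonneg (a' T) (b' T) k
        have h10 := norm_nonneg (g (k + 1) - g k)
        nlinarith
      refine h6.trans ?_
      rw [Finset.sum_const, nsmul_eq_mul]
      refine mul_le_mul_of_nonneg_right ?_ hh0
      have := Finset.card_le_card hJ
      rw [Finset.card_range] at this
      exact_mod_cast this
    have h6 := norm_sub_le (xV S V B w T - yV S V B w T)
      (∑ k ∈ J, zz k * ((btw (a' T) (b' T) k : ℝ) : ℂ))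
    have h7 := norm_sub_le (xV S V B w T) (yV S V B w T)
    linarith

end zV

end Crest.Agent.R143.Dispx798
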