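import Crest.Agent.R143.FinU_609
import Crest.Agent.R143.PolyU_346
import Crest.Agent.R143.LocU_700

/-!
# Row 143 (S0194), RIG: the totals `Poly.T`, `Poly.T'` of the frozen index are measurable (helper609)

* `isCompact_P`, `Wn u ε` : window `{infDist · P ≤ 100 √ε}`, bounded, closed; `S_eq : u.S = Ap ε Wn`
* `meas_Lab`; `meas_T`, `meas_T'`; `norm_T`
* `Tin u ε ω z` : the same with the points in `P` only; `meas_Tin`, `indep_Tin`, `T_eq_Tin` (holes)
* `fme_y` : the end points of the polygon `u` in the window `W`, for the colouring of `X`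
-/

set_option autoImplicit false
set_option linter.unusedSectionVars false

noncomputable section

open scoped Classical

namespace Crest.Agent.R143.MeasPx609

open MeasureTheory Set Filter Topology
open Crest.ProbabilityR.Voronoi
open Crest.Agent.R143.PP0x831 Crest.Agent.R143.Janx304 Crest.Agent.R143.Dblx609
open Crest.Agent.R143.Dbl2x609 Crest.Agent.R143.Prodx609 Crest.Agent.R143.FinMx609
open Crest.Agent.R143.FinTx609 Crest.Agent.R143.FinUx609
open Crest.Agent.R143.NetVx346 Crest.Agent.R143.PolyUx346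
open Crest.Agent.R143.Brkx478 (Bk cells cells_finite)
open Crest.Agent.R143.Tenx416 (Pg)
open Crest.Agent.R143.Locx922 (Hol)
open Crest.Agent.R143.LocUx700 (deep TU_local)
open Crest.Agent.R158.Sp896

variable {u : Poly} {ε : ℝ}

theorem isCompact_sq (s : ℝ) (q : V) : IsCompact (sq s q) := by
  refine Metric.isCompact_of_isClosed_isBounded (isClosed_sq s q) ?_
  rw [Metric.isBounded_iff]
  exact ⟨2 * s, fun z hz w hw => by rw [dist_eq_norm]; exact sq_dist hz hw⟩

theorem isCompact_P (u : Poly) : IsCompact u.P :=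
  (cells_finite u.U.finite_toSet).isCompact_biUnion fun q _ => isCompact_sq u.s q

theorem P_nonempty (u : Poly) : u.P.Nonempty := by
  have h := u.cyc.left 0
  obtain ⟨h1, -⟩ := pt_mem (s := u.s) u.s_pos (u.cyc.step 0)
  exact ⟨_, mem_biUnion h h1⟩

/-- the window of `Poly.S` -/
def Wn (u : Poly) (ε : ℝ) : Set ℂ := {x | Metric.infDist x u.P ≤ 100 * √ε}

theorem closed_Wn (u : Poly) (ε : ℝ) : IsClosed (Wn u ε) :=
  isClosed_le (Metric.continuous_infDist_pt _) continuous_const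

theorem bdd_Wn (u : Poly) (ε : ℝ) : Bornology.IsBounded (Wn u ε) := by
  obtain ⟨R, hR⟩ := (isCompact_P u).isBounded.subset_closedBall 0
  refine (Metric.isBounded_closedBall (x := (0 : ℂ)) (r := R + 100 * √ε)).subset fun x hx => ?_
  obtain ⟨y, hy, he⟩ := (isCompact_P u).exists_infDist_eq_dist (P_nonempty u) x
  have h1 : dist x y ≤ 100 * √ε := by rw [← he]; exact hx
  have h2 := hR hy
  rw [Metric.mem_closedBall] at h2 ⊢
  linarith [dist_triangle x y 0]

theorem P_sub_Wn (u : Poly) (ε : ℝ) : u.P ⊆ Wn u ε := fun x hx => by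
  show Metric.infDist x u.P ≤ 100 * √ε
  rw [Metric.infDist_zero_of_mem hx]
  positivity

theorem S_eq (u : Poly) (ε : ℝ) (ω : Sample) : u.S ε ω = Ap ε (Wn u ε) ω := rfl

/-! ### the label is Borel -/

theorem meas_near (u : Poly) (j : Fin 3) : MeasurableSet {x | u.Near x j} := by
  have e : {x | u.Near x j} = ⋂ i : Fin 3,
      {x | Metric.infDist x (u.Arc j) ≤ Metric.infDist x (u.Arc i)} := by
    ext x
    simp [Poly.Near]
  rw [e]
  exact MeasurableSet.iInter fun i => measurableSet_le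
    (Metric.continuous_infDist_pt _).measurable (Metric.continuous_infDist_pt _).measurable

theorem meas_Lab (u : Poly) (i : ZMod 3) : MeasurableSet {x | u.Lab x = i} := by
  have e : {x | u.Lab x = i} = ({x | u.Near x 0} ∩ {_x | (0 : ZMod 3) = i}) ∪
      ({x | u.Near x 0}ᶜ ∩ (({x | u.Near x 1} ∩ {_x | (1 : ZMod 3) = i}) ∪
        ({x | u.Near x 1}ᶜ ∩ {_x | (2 : ZMod 3) = i}))) := by
    ext x
    simp only [Poly.Lab, mem_ofPred_eq, mem_union, mem_inter_iff, mem_compl_iff]
    by_cases h0 : u.Near x 0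
    · simp [h0]
    · by_cases h1 : u.Near x 1
      · simp [h0, h1]
      · simp [h0, h1]
  rw [e]
  exact ((meas_near u 0).inter (MeasurableSet.const _)).union ((meas_near u 0).compl.inter
    (((meas_near u 1).inter (MeasurableSet.const _)).union
      ((meas_near u 1).compl.inter (MeasurableSet.const _))))

theorem meas_deep (u : Poly) (d : ℝ) : MeasurableSet {x | Metric.closedBall x (2 * d) ⊆ u.P} :=
  meas_ball_closed (isCompact_P u).isClosed

/-! ### the totals -/

theorem meas_TUu (hε : 0 < ε) (u : Poly) {z : ℂ → ℂ} (hz : Measurable z) :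
    Measurable fun ω : Sample => TU (u.S ε ω) u.P √ε u.Lab z :=
  meas_TU hε (bdd_Wn u ε) (closed_Wn u ε).measurableSet (meas_deep u _) (meas_Lab u) hz

/-- **`Poly.T` is measurable** -/
theorem meas_T (hε : 0 < ε) (u : Poly) : Measurable (u.T ε) := meas_TUu hε u measurable_id

/-- **`Poly.T'` is measurable** -/
theorem meas_T' (hε : 0 < ε) (u : Poly) : Measurable (u.T' ε) :=
  meas_TUu hε u Complex.continuous_conj.measurable

/-- the total of the points in `P` -/
def Tin (u : Poly) (ε : ℝ) (z : ℂ → ℂ) (ω : Sample) : ℂ := TU (Ap ε u.P ω) u.P √ε u.Lab z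

theorem meas_Tin (hε : 0 < ε) (u : Poly) {z : ℂ → ℂ} (hz : Measurable z) :
    Measurable (Tin u ε z) :=
  meas_TU hε (isCompact_P u).isBounded (isCompact_P u).isClosed.measurableSet (meas_deep u _)
    (meas_Lab u) hz

/-- **the total is independent of everything off `P`** -/
theorem indep_Tin (hε : 0 < ε) (u : Poly) {z : ℂ → ℂ} (hz : Measurable z) {C : Set ℂ}
    (hC : MeasurableSet C) (hbC : Bornology.IsBounded C) (hd : Disjoint C u.P) {Y : Type*}
    [MeasurableSpace Y] {F : Set (ℂ × (Bool × Bool)) → Y} (hF : FMe F) :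
    ProbabilityTheory.IndepFun (fun ω => F (dcf ε ω ∩ ovM _ C)) (Tin u ε z) sampleLaw :=
  indep_TU hε (isCompact_P u).isBounded (isCompact_P u).isClosed.measurableSet (meas_deep u _)
    (meas_Lab u) hz hC hbC hd hF

/-- without holes of radius `√ε` deep in `P` the total is a function of the points in `P` -/
theorem T_eq_Tin (hε : 0 < ε) (u : Poly) {ω : Sample}
    (h : Hol (points ε ω ∩ Wn u ε) (deep u.P √ε) √ε) (z : ℂ → ℂ) :
    TU (u.S ε ω) u.P √ε u.Lab z = Tin u ε z ω := by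
  unfold Tin
  rw [S_eq]
  refine TU_local (Real.sqrt_pos.2 hε) ?_ (fun x hx => ?_) (fun _ _ => rfl) z
  · rw [coe_Ap hε (bdd_Wn u ε)]
    exact h
  · have h1 : x ∈ (Ap ε (Wn u ε) ω : Set ℂ) ↔ x ∈ (Ap ε u.P ω : Set ℂ) := by
      rw [coe_Ap hε (bdd_Wn u ε), coe_Ap hε (isCompact_P u).isBounded]
      exact ⟨fun h => ⟨h.1, hx⟩, fun h => ⟨h.1, P_sub_Wn u ε hx⟩⟩
    exact h1

theorem norm_Tin (hε : 0 < ε) (u : Poly) {z : ℂ → ℂ} {b : ℝ} (h0 : 0 ≤ b)
    (h : ∀ v ∈ u.P, ‖z v‖ ≤ b) (ω : Sample) : ‖Tin u ε z ω‖ ≤ 9 * b :=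
  norm_TUω hε (isCompact_P u).isBounded h0 h ω

theorem norm_Tu (hε : 0 < ε) (u : Poly) {z : ℂ → ℂ} {b : ℝ} (h0 : 0 ≤ b)
    (h : ∀ v ∈ Wn u ε, ‖z v‖ ≤ b) (ω : Sample) : ‖TU (u.S ε ω) u.P √ε u.Lab z‖ ≤ 9 * b :=
  norm_TUω hε (bdd_Wn u ε) h0 h ω

/-! ### the end points -/

/-- the end point on the arc `i` of the polygon `u`, sites in `W`, black sites of `X` -/
def yP (u : Poly) (d : ℝ) (W : Set ℂ) (z : ℂ → ℂ) (i : ZMod 3) (X : Set (ℂ × Bool)) : ℂ :=
  zV (Sf W X) (Vin (Sf W X) u.P d) (NetVx346.Bl (Sf W X) (Vin (Sf W X) u.P d) u.Lab) i (bl X) z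

theorem fme_yP (u : Poly) (d : ℝ) {W : Set ℂ} (hW : MeasurableSet W) {z : ℂ → ℂ}
    (hz : Measurable z) (i : ZMod 3) : FMe (yP u d W z i) :=
  fme_yU hW (meas_deep u d) (meas_Lab u) i hz

end Crest.Agent.R143.MeasPx609
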