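import Crest.Agent.R143.EnvI_279
import Crest.Agent.R143.MeasP_609
import Crest.Agent.R143.Disp_798
import Crest.Agent.R143.Lay_416

/-!
# Row 143 (S0194), RIG: the tiles of the two touches of the polygon (helper58)

* `tlz g lo hi v` : least index in `[lo, hi]` whose gate `g a` is nearest to `v` (Borel in `v`)
* `fl` : colours flipped; `FMe.fl`, `LocalOn.fl`
* `loc_yP` : the end points are local on the window
* `ta`, `tb` : tile of the end point on the label `w + 2` (flipped colours; own arc `[0, r]`) and of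
  the end point on the label `w + 1` (own arc `[r, n]`), `w` = white label: `ta ≤ r ≤ tb ≤ n` for
  every configuration; `ta_loc`, `ta_meas`, `tb_loc`, `tb_meas` : fields of 279's `Inp`
* `yP_clr`, `yP_fl_clr` : the end points of a colouring = 798's `xV`, `yV`
* `ta_clr`, `tb_clr`, `qo_exC` : the means of 279 are the means of 798's `dispV`
-/

set_option autoImplicit false

noncomputable section

open scoped Classical

namespace Crest.Agent.R143.TlAx58

open MeasureTheory Set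
open Crest.ProbabilityR.Voronoi
open Crest.Agent.R143.PP0x831 Crest.Agent.R143.Janx304 Crest.Agent.R143.Prodx609
open Crest.Agent.R143.FinMx609 Crest.Agent.R143.FinTx609 Crest.Agent.R143.FinUx609
open Crest.Agent.R143.MeasPx609
open Crest.Agent.R143.NetUx346 Crest.Agent.R143.NetVx346 Crest.Agent.R143.PolyUx346
open Crest.Agent.R143.K33x877 (Clu)
open Crest.Agent.R143.IndLoc3x279 (fs clr cav)
open Crest.Agent.R143.TileRx228 Crest.Agent.R143.LayQx811 Crest.Agent.R143.Layx416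

/-! ### the nearest index of an interval -/

/-- `a` is nearest to `v` among the indices `lo, …, hi` -/
def NrI (g : ℕ → ℂ) (lo hi : ℕ) (v : ℂ) (a : ℕ) : Prop :=
  (lo ≤ a ∧ a ≤ hi) ∧ ∀ b, lo ≤ b → b ≤ hi → dist (g a) v ≤ dist (g b) v

/-- least nearest index -/
def tlz (g : ℕ → ℂ) (lo hi : ℕ) (v : ℂ) : ℕ := sInf {a | NrI g lo hi v a}

theorem exists_nrI (g : ℕ → ℂ) {lo hi : ℕ} (h : lo ≤ hi) (v : ℂ) : ∃ a, NrI g lo hi v a := by
  obtain ⟨a, ha, hm⟩ := Finset.exists_min_image (Finset.Icc lo hi) (fun b => dist (g b) v)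
    ⟨lo, Finset.mem_Icc.2 ⟨le_rfl, h⟩⟩
  exact ⟨a, Finset.mem_Icc.1 ha, fun b h1 h2 => hm b (Finset.mem_Icc.2 ⟨h1, h2⟩)⟩

theorem nrI_tlz (g : ℕ → ℂ) {lo hi : ℕ} (h : lo ≤ hi) (v : ℂ) :
    NrI g lo hi v (tlz g lo hi v) := Nat.sInf_mem (exists_nrI g h v)

theorem le_tlz (g : ℕ → ℂ) {lo hi : ℕ} (h : lo ≤ hi) (v : ℂ) : lo ≤ tlz g lo hi v :=
  (nrI_tlz g h v).1.1

theorem tlz_le (g : ℕ → ℂ) {lo hi : ℕ} (h : lo ≤ hi) (v : ℂ) : tlz g lo hi v ≤ hi :=
  (nrI_tlz g h v).1.2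

/-- the gate of `tlz` is nearest -/
theorem dist_tlz (g : ℕ → ℂ) {lo hi : ℕ} (v : ℂ) {b : ℕ} (h1 : lo ≤ b) (h2 : b ≤ hi) :
    dist (g (tlz g lo hi v)) v ≤ dist (g b) v := (nrI_tlz g (h1.trans h2) v).2 b h1 h2

theorem meas_nrI (g : ℕ → ℂ) (lo hi a : ℕ) : MeasurableSet {v | NrI g lo hi v a} := by
  have e : {v | NrI g lo hi v a} = {_v | lo ≤ a ∧ a ≤ hi} ∩ ⋂ b : ℕ, ⋂ (_ : lo ≤ b),
      ⋂ (_ : b ≤ hi), {v | dist (g a) v ≤ dist (g b) v} := by
    ext v
    simp only [NrI, mem_ofPred_eq, mem_inter_iff, mem_iInter]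
  rw [e]
  refine (MeasurableSet.const _).inter ?_
  refine MeasurableSet.iInter fun b => MeasurableSet.iInter fun _ => MeasurableSet.iInter fun _ => ?_
  exact measurableSet_le (measurable_const.dist measurable_id) (measurable_const.dist measurable_id)

/-- `tlz` is a Borel function of the point -/
theorem meas_tlz (g : ℕ → ℂ) (lo hi : ℕ) : Measurable (tlz g lo hi) := by
  by_cases h : lo ≤ hi
  · refine measurable_to_countable' fun n => ?_
    have e : tlz g lo hi ⁻¹' {n} = {v | NrI g lo hi v n} ∩ ⋂ m : ℕ, ⋂ (_ : m < n),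
        {v | NrI g lo hi v m}ᶜ := by
      ext v
      simp only [mem_preimage, mem_singleton_iff, mem_inter_iff, mem_ofPred_eq, mem_iInter,
        mem_compl_iff]
      constructor
      · rintro rfl
        exact ⟨nrI_tlz g h v, fun m hm hc => absurd (Nat.sInf_le hc) (not_le.2 hm)⟩
      · rintro ⟨h1, h2⟩
        refine le_antisymm (Nat.sInf_le h1) ?_
        by_contra hc
        exact h2 _ (not_le.1 hc) (nrI_tlz g h v)
    rw [e]
    exact (meas_nrI g lo hi n).inter (MeasurableSet.iInter fun m =>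
      MeasurableSet.iInter fun _ => (meas_nrI g lo hi m).compl)
  · have e : tlz g lo hi = fun _ => 0 := by
      funext v
      unfold tlz
      have : {a | NrI g lo hi v a} = ∅ := by
        ext a
        simp only [mem_ofPred_eq, mem_empty_iff_false, iff_false]
        intro ha
        exact h (ha.1.1.trans ha.1.2)
      rw [this, Nat.sInf_empty]
    rw [e]
    exact measurable_const

/-! ### flipped colours -/

/-- the configuration with flipped colours -/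
def fl (X : Set (ℂ × Bool)) : Set (ℂ × Bool) := {p | (p.1, !p.2) ∈ X}

theorem ps_fl (X : Set (ℂ × Bool)) : ps (fl X) = ps X := by
  ext x
  simp only [ps, fl, mem_image, mem_ofPred_eq, Prod.exists, exists_and_right, exists_eq_right]
  constructor
  · rintro ⟨b, h⟩
    exact ⟨_, h⟩
  · rintro ⟨b, h⟩
    exact ⟨!b, by simpa using h⟩

theorem fl_range {n : ℕ} (z : Fin n → ℂ × Bool) :
    fl (range z) = range fun i => ((z i).1, !(z i).2) := by
  ext ⟨x, b⟩
  simp only [fl, mem_ofPred_eq, mem_range, Prod.mk.injEq]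
  constructor
  · rintro ⟨i, hi⟩
    exact ⟨i, by rw [hi], by rw [hi]; simp⟩
  · rintro ⟨i, h1, h2⟩
    exact ⟨i, by rw [← h1, ← h2]; simp⟩

theorem fl_inter (X : Set (ℂ × Bool)) (W : Set ℂ) : fl (X ∩ ovr W) = fl X ∩ ovr W := rfl

theorem fme_fl {C : Type*} [MeasurableSpace C] {F : Set (ℂ × Bool) → C} (hF : FMe F) :
    FMe fun X => F (fl X) := by
  intro n
  have e : (fun z : Fin n → ℂ × Bool => (fun X => F (fl X)) (range z)) =
      (fun z : Fin n → ℂ × Bool => F (range z)) ∘ fun z i => ((z i).1, !(z i).2) := by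
    funext z
    show F (fl (range z)) = _
    rw [fl_range]
    rfl
  rw [e]
  refine (hF n).comp (measurable_pi_iff.2 fun i => ?_)
  have h1 : Measurable fun z : Fin n → ℂ × Bool => z i := measurable_pi_apply i
  have h2 : Measurable fun b : Bool => !b := measurable_of_countable _
  exact (measurable_fst.comp h1).prodMk (h2.comp (measurable_snd.comp h1))

theorem loc_fl {C : Type*} {W : Set ℂ} {F : Set (ℂ × Bool) → C} (hF : LocalOn W F) :
    LocalOn W fun X => F (fl X) := fun X => hF (fl X)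

/-! ### the end points are local -/

theorem mem_of_fs {P : Set ℂ} {x : ℂ} (h : x ∈ fs P) : x ∈ P := by
  unfold IndLoc3x279.fs at h
  split_ifs at h with hP
  · exact hP.mem_toFinset.1 h
  · exact absurd h (Finset.notMem_empty x)

theorem zV_congr {S V : Finset ℂ} {B : ZMod 3 → Set ℂ} {i : ZMod 3} {T T' : Set ℂ} {z : ℂ → ℂ}
    (h : ∀ x ∈ V, x ∈ T ↔ x ∈ T') : zV S V B i T z = zV S V B i T' z := by
  have e1 : {x | x ∈ V} ∩ T = {x | x ∈ V} ∩ T' := by
    ext x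
    simp only [mem_inter_iff, mem_ofPred_eq]
    exact and_congr_right fun hx => h x hx
  have e2 : {x | x ∈ V} \ T = {x | x ∈ V} \ T' := by
    ext x
    simp only [Set.mem_sdiff, mem_ofPred_eq]
    exact and_congr_right fun hx => not_congr (h x hx)
  have e : hitsV S V B i T = hitsV S V B i T' := by
    ext t
    rw [mem_hitsV, mem_hitsV]
    unfold HitV
    rw [e1, e2]
  unfold zV
  rw [e]

theorem Sf_ovr (W : Set ℂ) (X : Set (ℂ × Bool)) : Sf W (X ∩ ovr W) = Sf W X := by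
  unfold Sf
  congr 1
  ext x
  simp only [ps, ovr, mem_inter_iff, mem_image, mem_ofPred_eq]
  constructor
  · rintro ⟨⟨q, ⟨h1, h2⟩, rfl⟩, h3⟩; exact ⟨⟨q, h1, rfl⟩, h3⟩
  · rintro ⟨⟨q, h1, rfl⟩, h3⟩; exact ⟨⟨q, ⟨h1, h3⟩, rfl⟩, h3⟩

/-- **the end points are local on the window** -/
theorem loc_yP (u : Poly) (d : ℝ) (W : Set ℂ) (z : ℂ → ℂ) (i : ZMod 3) :
    LocalOn W (yP u d W z i) := by
  intro X
  show yP u d W z i X = yP u d W z i (X ∩ ovr W)
  unfold yP
  rw [Sf_ovr]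
  refine zV_congr fun x hx => ?_
  have hx1 : x ∈ Sf W X := (Finset.mem_filter.1 hx).1
  have hx2 : x ∈ W := (mem_of_fs hx1).2
  show (x, true) ∈ X ↔ (x, true) ∈ X ∩ ovr W
  exact ⟨fun h => ⟨h, hx2⟩, fun h => h.1⟩

/-! ### the tiles of the touches -/

section tiles

/-- gate `k` of the corridor of the white label `w` -/
def gt (h : ℝ) (W : ℤ → ℤ × ℤ) (A e : ℤ → ℤ) (w : ZMod 3) (k : ℕ) : ℂ := gz h W (al A e w + k)

/-- **tile of the end point on `w + 2`** (flipped colours), own arc -/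
def ta (u : Poly) (d h : ℝ) (Wd : Set ℂ) (W : ℤ → ℤ × ℤ) (A e : ℤ → ℤ) (w : ZMod 3)
    (X : Set (ℂ × Bool)) : ℕ :=
  tlz (gt h W A e w) 0 (rr A e w) (yP u d Wd id (w + 2) (fl X))

/-- **tile of the end point on `w + 1`**, own arc -/
def tb (u : Poly) (d h : ℝ) (Wd : Set ℂ) (W : ℤ → ℤ × ℤ) (A e : ℤ → ℤ) (w : ZMod 3)
    (X : Set (ℂ × Bool)) : ℕ :=
  tlz (gt h W A e w) (rr A e w) (nn A e w) (yP u d Wd id (w + 1) X)

variable (u : Poly) (d h : ℝ) (Wd : Set ℂ) {n M : ℕ} {m : ℤ} {p W : ℤ → ℤ × ℤ} {A e : ℤ → ℤ}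
  (w : ZMod 3) (X : Set (ℂ × Bool))

theorem ta_le : ta u d h Wd W A e w X ≤ rr A e w := tlz_le _ (Nat.zero_le _) _

theorem rr_le_nn (H : Lay n M m p W A e) : rr A e w ≤ nn A e w := by
  have := H.rr_lt w
  omega

theorem tb_ge (H : Lay n M m p W A e) : rr A e w ≤ tb u d h Wd W A e w X :=
  le_tlz _ (rr_le_nn w H) _

theorem tb_le (H : Lay n M m p W A e) : tb u d h Wd W A e w X ≤ nn A e w :=
  tlz_le _ (rr_le_nn w H) _

theorem ta_le_tb (H : Lay n M m p W A e) : ta u d h Wd W A e w X ≤ tb u d h Wd W A e w X :=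
  (ta_le u d h Wd w X).trans (tb_ge u d h Wd w X H)

theorem ta_le_nn (H : Lay n M m p W A e) : ta u d h Wd W A e w X ≤ nn A e w :=
  (ta_le u d h Wd w X).trans (rr_le_nn w H)

/-- the fields of `EnvIx279.Inp` -/
theorem ta_loc (W : ℤ → ℤ × ℤ) (A e : ℤ → ℤ) : LocalOn Wd (ta u d h Wd W A e w) := by
  intro X
  have h1 := loc_fl (loc_yP u d Wd id (w + 2)) X
  simp only at h1
  unfold ta
  rw [h1]

theorem tb_loc (W : ℤ → ℤ × ℤ) (A e : ℤ → ℤ) : LocalOn Wd (tb u d h Wd W A e w) := by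
  intro X
  unfold tb
  rw [loc_yP u d Wd id (w + 1) X]

theorem ta_meas (W : ℤ → ℤ × ℤ) (A e : ℤ → ℤ) (hWd : MeasurableSet Wd) :
    FinMeas (ta u d h Wd W A e w) := fun n =>
  (meas_tlz _ _ _).comp (fme_fl (fme_yP u d hWd measurable_id (w + 2)) n)

theorem tb_meas (W : ℤ → ℤ × ℤ) (A e : ℤ → ℤ) (hWd : MeasurableSet Wd) :
    FinMeas (tb u d h Wd W A e w) := fun n =>
  (meas_tlz _ _ _).comp (fme_yP u d hWd measurable_id (w + 1) n)

/-- larger windows -/
theorem LocalOn.mono {C : Type*} {W W' : Set ℂ} {F : Set (ℂ × Bool) → C} (hF : LocalOn W F)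
    (h : W ⊆ W') : LocalOn W' F := by
  intro X
  rw [hF X, hF (X ∩ {p | p.1 ∈ W'})]
  congr 1
  ext p
  simp only [mem_inter_iff, mem_ofPred_eq]
  exact ⟨fun hp => ⟨⟨hp.1, h hp.2⟩, hp.2⟩, fun hp => ⟨hp.1.1, hp.2⟩⟩

end tiles

/-! ### colourings -/

section colour

variable {u : Poly} {d h : ℝ} {Wd : Set ℂ} {S β : Finset ℂ} {z : ℂ → ℂ}

/-- sites, free sites and labels of the window -/
def Sw (Wd : Set ℂ) (S : Finset ℂ) : Finset ℂ := S.filter fun x => x ∈ Wd
def Vw (u : Poly) (d : ℝ) (Wd : Set ℂ) (S : Finset ℂ) : Finset ℂ := Vin (Sw Wd S) u.P d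
def Bw (u : Poly) (d : ℝ) (Wd : Set ℂ) (S : Finset ℂ) : ZMod 3 → Set ℂ :=
  NetVx346.Bl (Sw Wd S) (Vw u d Wd S) u.Lab

theorem Vw_sub : Vw u d Wd S ⊆ S :=
  (Finset.filter_subset _ _).trans (Finset.filter_subset _ _)

theorem Sf_clr' (Wd : Set ℂ) (S β : Finset ℂ) : Sf Wd (clr S β) = Sw Wd S := by
  rw [← Finset.coe_inj, Sf_coe (clr_fin S β), ps_clr]
  ext x
  simp [Sw]

theorem Sf_fl (Wd : Set ℂ) (X : Set (ℂ × Bool)) : Sf Wd (fl X) = Sf Wd X := by
  unfold Sf
  rw [ps_fl]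

/-- the end point of a colouring -/
theorem yP_clr (w : ZMod 3) (hβ : β ⊆ S) :
    yP u d Wd z w (clr S β) =
      zV (Sw Wd S) (Vw u d Wd S) (Bw u d Wd S) w ((β ∩ Vw u d Wd S : Finset ℂ) : Set ℂ) z := by
  unfold yP
  rw [Sf_clr', bl_clr hβ]
  refine zV_congr fun x hx => ?_
  rw [Finset.mem_coe, Finset.mem_coe, Finset.mem_inter]
  exact ⟨fun h => ⟨h, hx⟩, fun h => h.1⟩

/-- the end point of the complementary colouring -/
theorem yP_fl_clr (w : ZMod 3) :
    yP u d Wd z w (fl (clr S β)) =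
      zV (Sw Wd S) (Vw u d Wd S) (Bw u d Wd S) w
        ((Vw u d Wd S \ (β ∩ Vw u d Wd S) : Finset ℂ) : Set ℂ) z := by
  unfold yP
  rw [Sf_fl, Sf_clr']
  refine zV_congr fun x hx => ?_
  have hxS : x ∈ S := Vw_sub hx
  rw [Finset.mem_coe, Finset.mem_sdiff, Finset.mem_inter]
  show (x, !true) ∈ clr S β ↔ _
  unfold IndLoc3x279.clr
  simp only [mem_ofPred_eq, Bool.not_true, Bool.false_eq_true, false_iff]
  constructor
  · rintro ⟨_, h2⟩
    exact ⟨hx, fun h3 => h2 h3.1⟩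
  · rintro ⟨_, h2⟩
    exact ⟨hxS, fun h3 => h2 ⟨h3, hx⟩⟩

variable {W : ℤ → ℤ × ℤ} {A e : ℤ → ℤ}

/-- the tile of the touch as a function of the colouring of the free sites -/
def ca (u : Poly) (d h : ℝ) (Wd : Set ℂ) (S : Finset ℂ) (W : ℤ → ℤ × ℤ) (A e : ℤ → ℤ) (w : ZMod 3)
    (T : Finset ℂ) : ℕ :=
  tlz (gt h W A e w) 0 (rr A e w)
    (Dispx798.yV (Sw Wd S) (Vw u d Wd S) (Bw u d Wd S) w T)

def cb (u : Poly) (d h : ℝ) (Wd : Set ℂ) (S : Finset ℂ) (W : ℤ → ℤ × ℤ) (A e : ℤ → ℤ) (w : ZMod 3)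
    (T : Finset ℂ) : ℕ :=
  tlz (gt h W A e w) (rr A e w) (nn A e w)
    (Dispx798.xV (Sw Wd S) (Vw u d Wd S) (Bw u d Wd S) w T)

theorem ta_clr (w : ZMod 3) :
    ta u d h Wd W A e w (clr S β) = ca u d h Wd S W A e w (β ∩ Vw u d Wd S) := by
  unfold ta ca Dispx798.yV
  rw [yP_fl_clr (w + 2)]

theorem tb_clr (w : ZMod 3) (hβ : β ⊆ S) :
    tb u d h Wd W A e w (clr S β) = cb u d h Wd S W A e w (β ∩ Vw u d Wd S) := by
  unfold tb cb Dispx798.xV
  rw [yP_clr (w + 1) hβ]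

/-- the mean over the colourings of `S` of a function of the colouring of the free sites -/
theorem cav_exC {V : Finset ℂ} (hV : V ⊆ S) {F : Set (ℂ × Bool) → ℂ} {f : Finset ℂ → ℂ}
    (hF : ∀ β ⊆ S, F (clr S β) = f (β ∩ V)) : cav F S = exC V f := by
  have h1 : exC V f = exC V fun T => f (T ∩ V) := by
    unfold exC
    congr 1
    refine Finset.sum_congr rfl fun T hT => ?_
    show f T = f (T ∩ V)
    rw [Finset.inter_eq_left.2 (Finset.mem_powerset.1 hT)]
  rw [h1, exC_all hV (g := fun T => f (T ∩ V)) (fun β => by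
    simp only [Finset.inter_assoc, Finset.inter_self])]
  unfold IndLoc3x279.cav
  congr 1
  exact Finset.sum_congr rfl fun β hβ => hF β (Finset.mem_powerset.1 hβ)

theorem cav_ofReal (F : Set (ℂ × Bool) → ℝ) (S : Finset ℂ) :
    ((cav F S : ℝ) : ℂ) = cav (fun X => (F X : ℂ)) S := by
  unfold IndLoc3x279.cav
  rw [Complex.real_smul, smul_eq_mul]
  push_cast
  rfl

/-- **279's mean of the tile indicator is the mean of `dispV`** -/
theorem qo_exC (w : ZMod 3) (l : ℕ) (S : Sample → Finset ℂ) (ω : Sample) :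
    ((EnvIx279.qo S (ta u d h Wd W A e w) (tb u d h Wd W A e w) l ω : ℝ) : ℂ) =
      exC (Vw u d Wd (S ω)) fun T =>
        ((Dispx798.btw (ca u d h Wd (S ω) W A e w T) (cb u d h Wd (S ω) W A e w T) l : ℝ) : ℂ) := by
  unfold EnvIx279.qo
  rw [cav_ofReal]
  refine cav_exC Vw_sub fun β hβ => ?_
  show ((EnvIx279.onF _ _ l _ : ℝ) : ℂ) = _
  congr 1
  unfold EnvIx279.onF Dispx798.btw
  rw [ta_clr w, tb_clr w hβ]
  simp only [Finset.mem_Ico]

end colour

end Crest.Agent.R143.TlAx58
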