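import Crest.Agent.R143.CorrA_831
import Crest.Agent.R143.EvG_168
import Crest.Agent.R143.RcT2_422
import Crest.Agent.R143.Rst_832
import Crest.Agent.R143.SpR2_169
import Crest.Agent.R143.TlR_709
import Crest.Agent.R143.SysD_166

/-!
# Row 143 (S0194), RIG, composition CorrI, part B (helper831): `CorH` gives the out strand

All objects on `rc0 hS`, order of time (arc `k` = tile `n - 1 - k`).
* `vl_of` : 832's values of the spatial charges for a given strand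
* `Ft` : 169's regions in the order of time; `tlt` : 709's index; `Qk` : states of the tile `k₀`
* `Rws` : the white strips (closing tiles and the two end tiles)
* **`hx_of`** : `CorH` + zones, column, `Sep`, link ==> the event `EvA` of `sysA`, `Hv` of 166, values
-/

set_option autoImplicit false
set_option linter.all false

noncomputable section

open scoped Classical

namespace Crest.Agent.R143.CorrIx831

open Set
open Crest.Agent.R143.B0x346 Crest.Agent.R143.DelGx806 Crest.Agent.R143.DelRx806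
  Crest.Agent.R143.JColx54
open Crest.Agent.R143.Frame1x395 Crest.Agent.R143.Frame2x395 Crest.Agent.R143.Frame3x395
  Crest.Agent.R143.Frame4x395 Crest.Agent.R143.Frame8x395 Crest.Agent.R143.Frame9x395
  Crest.Agent.R143.Frame10x395 Crest.Agent.R143.Frame11x395
open Crest.Agent.R143.Frame5x395 (sd mem_sd th th_spec)
open Crest.Agent.R143.Locx922
open Crest.Agent.R143.Splx117 Crest.Agent.R143.WLocx713
open Crest.Agent.R143.Blkx838 (DE)
open Crest.Agent.R143.Neckx921 (Neck NeckD Tile)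
open Crest.Agent.R143.RingDx117 (RD DRing StC StR)
open Crest.Agent.R143.CorrDx117 (DCorr)
open Crest.Agent.R143.TileRx228 Crest.Agent.R143.PathDx503 Crest.Agent.R143.PathGx503
open Crest.Agent.R143.RingPx503 Crest.Agent.R143.DCorGx713 Crest.Agent.R143.DCorFx713
open Crest.Agent.R143.CorHx713
open Crest.Agent.R143.Sptx169 Crest.Agent.R143.Sptx832 Crest.Agent.R143.Spt2x832
  Crest.Agent.R143.SpRx169
open Crest.Agent.R143.StrBx117 (Str)
open Crest.Agent.R143.NonXx592 (P Rc)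
open Crest.Agent.R143.Gntx535 (wl wr)
open Crest.Agent.R143.Extx358 (Ad Ext Sep Zc)
open Crest.Agent.R143.OutSx358 (zc)
open Crest.Agent.R143.FinCx811 (Cs rc0 cs rcol)
open Crest.Agent.R143.Uniqx323 (Zn Strd)
open Crest.Agent.R143.EvGx117 (Rd)
open Crest.Agent.R143.SysAx168 (EvA)
open Crest.Agent.R143.SysCx166 (Hv Hx)

/-! ### values for a given strand -/

section vl

variable {S : Finset ℂ} {χ : ℂ → ZMod 2} {n : ℕ} {B Q : ℕ → Set ℂ} {hS : GP (S : Set ℂ)}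
  {hχ : HullC S χ} {y z : ℕ → ℂ} {A : ℕ → Set ℂ} {p : ℕ → D0 S} {q : D0 S} {T : ℕ → ℕ}

theorem vl_of (hf : ∀ k, k < n → FA (cm0 hS) (xc hS hχ) (RD S (B k)) (p (k + 1)) (p k))
    (hno : ∀ k, k < n → ¬ FA (cm0 hS) (xc hS hχ) (RD S (B k)) (p k) (p (k + 1)))
    (hR : Reg (cm0 hS) (xc hS hχ) q T n n (FQ S n fun l => Q (n - 1 - l)))
    {E : Type} [AddCommMonoid E] (w : D0 S → E)
    (h3 : ∀ (w : D0 S → E) (k : ℕ), 0 < k → k + 1 < n →
      KS (cm0 hS) (xc hS hχ) q w (T k) (T (k + 1)) =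
        ZZ (cm0 hS) (xc hS hχ) w (RD S (B (n - 1 - k))) (p (n - k)) (p (n - 1 - k)))
    (l : ℕ) (hl0 : 2 ≤ l) (hl : l + 2 < n) :
    Vl (cm0 hS) (xc hS hχ) q T n w (FQ S n fun l => Q (n - 1 - l)) l =
      VZ hS hχ n B p w (FQ S n Q (n - 1 - l)) (n - 1 - l) := by
  have h8' : ∀ (w : D0 S → E) (k : ℕ), 0 < k → k + 1 < n →
      KS (cm0 hS) (xc hS hχ) q w (T k) (T (k + 1)) =
        ZZ (cm0 hS) (xc hS hχ) w (RD S (B (n - 1 - k))) (p (n - 1 - k)) (p (n - k)) := by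
    intro w k hk0 hk
    rw [h3 w k hk0 hk]
    have a1 := hf (n - 1 - k) (by omega)
    have a2 := hno (n - 1 - k) (by omega)
    rw [show n - 1 - k + 1 = n - k by omega] at a1 a2
    exact zz_back a1 a2
  rw [hR.vl_eq]
  have hG : FQ S n (fun l => Q (n - 1 - l)) l = FQ S n Q (n - 1 - l) := by
    ext e
    constructor
    · rintro ⟨-, h⟩
      exact ⟨by omega, h⟩
    · rintro ⟨-, h⟩
      exact ⟨by omega, h⟩
  rw [hG]
  unfold VZ
  refine Finset.sum_bij' (fun k _ => n - 1 - k) (fun k _ => n - 1 - k) ?_ ?_ ?_ ?_ ?_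
  · intro k hk
    rw [mem_near] at hk ⊢
    omega
  · intro k hk
    rw [mem_near] at hk ⊢
    omega
  · intro k hk
    rw [mem_near] at hk
    omega
  · intro k hk
    rw [mem_near] at hk
    omega
  · intro k hk
    rw [mem_near] at hk
    rw [h8' _ k (by omega) (by omega), show n - 1 - k + 1 = n - k by omega]

end vl

/-! ### fixed data -/

/-- the white strips: closing tiles and the two end tiles -/
def Rws (η : ℝ) (W : ℤ → ℤ × ℤ) (o : ℤ) (n M : ℕ) : Set ℂ :=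
  {s | ∃ a : ℤ, o + n - 1 ≤ a ∧ a ≤ o + M ∧ s ∈ bst η W a}

/-- 169's regions in the order of time -/
def Ft (S : Finset ℂ) (η : ℝ) (W : ℤ → ℤ × ℤ) (o : ℤ) (n : ℕ) : ℕ → Set (D0 S) :=
  FQ S n fun l => QX (100 * η) W o n (n - 1 - l)

/-- the enlarged strip of the out tile `k` -/
def Bk (η : ℝ) (W : ℤ → ℤ × ℤ) (o : ℤ) (k : ℕ) : Set ℂ := bst η W (o + k)

/-- the selected dart of the gate `k` -/
def Stk (η : ℝ) (W : ℤ → ℤ × ℤ) (o : ℤ) (k : ℕ) : Set (ℂ × Bool) → ℂ × ℂ → Prop :=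
  LG (gA η W (o + k)) (QA η W (o + k))

/-- 709's index of a cell, order of time -/
def tlt {S : Finset ℂ} (hS : GP (S : Set ℂ)) (η : ℝ) (W : ℤ → ℤ × ℤ) (o : ℤ) (n : ℕ) :
    Cs hS → ℕ := TlRx709.tl hS (Bk η W o) n

variable {X : Set (ℂ × Bool)} {U : Set ℂ} {M : ℕ} {W : ℤ → ℤ × ℤ} {η d : ℝ} {o : ℤ} {n : ℕ}

/-- 169's regions are regions of the corridor -/
theorem qreg (H : CorH X U M W η d o n) :
    QReg (sX X) n n (Bk η W o) (QX (100 * η) W o n) := by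
  have h1 := H.e0
  have h2 := H.d0
  have h3 := H.de
  have h4 := H.nM
  refine qx_qreg H.path H.d0 (by linarith) (by linarith) (by linarith) (Or.inr (by omega)) ?_
  intro k hk
  exact H.holS.mono (H.sub_U (by linarith) (by linarith) _)

/-- the out strips are inner -/
theorem inn_Bk (H : CorH X U M W η d o n) (k : ℕ) : ∀ v ∈ sX X, v ∈ Bk η W o k →
    ¬ OnHull (sX X) v := fun v _ hv => inn_bst H hv

theorem inn_Rts (H : CorH X U M W η d o n) : ∀ v ∈ sX X, v ∈ Rts η W o n →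
    ¬ OnHull (sX X) v := by
  rintro v - ⟨k, -, -, hv⟩
  exact inn_bst H hv

theorem dis_Bk (H : CorH X U M W η d o n) (a b : ℕ) (h1 : a + 2 ≤ b) (h2 : b < n) :
    ∀ v ∈ sX X, v ∈ Bk η W o a → v ∉ Bk η W o b := by
  have h3 := H.e0
  have h4 := H.nM
  intro v _ hv
  exact TlRx709.rr_dis (A' := 10 * η) (B' := 52 * η) H.dsj (by linarith) (by linarith)
    (Or.inr (by omega)) o a b h1 h2 v hv

/-- **the out strand** -/
theorem hx_of (H : CorH X U M W η d o n) {r : ℕ} (hr : 2 ≤ r) (hrn : r + 2 < n)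
    (hs : ∀ j, o + r - 2 ≤ j → j ≤ o + r + 2 → ge W (j + 1) = ge W j)
    {Z : Zn (rc0 H.gp)} (hZ : Z.R = RcTx422.RC H.gp (Rts η W o n)) {Rw : Set (Cs H.gp)}
    {h₀ : Cs H.gp}
    (hE : ∀ d ∈ RD (sX X) (Bk η W o (n - 1)), ∀ c, (c = (rc0 H.gp).cell d ∨ c = Rc (rc0 H.gp) d) →
      c ∉ Z.R → c ∈ Z.E)
    (hW : ∀ d ∈ RD (sX X) (Bk η W o 0), ∀ c, (c = (rc0 H.gp).cell d ∨ c = Rc (rc0 H.gp) d) →
      c ∉ Z.R → c ∈ Z.W)
    (hcol : ∃ k, 0 < k ∧ k < n ∧ ∃ t ∈ Z.T, K33x137.Lk (rc0 H.gp)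
      ({c | c ∈ Z.K ∧ rcol H.gp (cX X) H.hull c = 0} ∪ Z.T) (Rc (rc0 H.gp) (H.p k)) t)
    (hsep : ∀ q N T, EvGx168.SD H.gp H.hull n (Rd (rc0 H.gp) Z.R) H.p (Bk η W o) q N T →
      Sep (rc0 H.gp) {h₀} (zc (rc0 H.gp) Rw q (T n) (rcol H.gp (cX X) H.hull))
        (wl (rc0 H.gp) (cfg (rc0 H.gp) (rcol H.gp (cX X) H.hull)) q (T n)))
    (hlnk : ∀ q N T, EvGx168.SD H.gp H.hull n (Rd (rc0 H.gp) Z.R) H.p (Bk η W o) q N T →
      ∃ c₀ ∈ (wr (rc0 H.gp) (cfg (rc0 H.gp) (rcol H.gp (cX X) H.hull)) q (T n) :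
        Set (Cs H.gp)), ∃ e₀,
        Ext (rc0 H.gp) {h₀} (zc (rc0 H.gp) Rw q (T n) (rcol H.gp (cX X) H.hull)) e₀ ∧
          Ad (rc0 H.gp) e₀ c₀) :
    ∃ (q : D0 (sX X)) (N : ℕ) (T : ℕ → ℕ),
      EvGx168.SD H.gp H.hull n (Rd (rc0 H.gp) Z.R) H.p (Bk η W o) q N T ∧
      Hv (rc0 H.gp) (fun (i : D0 (sX X) × ℕ) _ => i.1) (fun i _ => i.2)
        (EvA (rc0 H.gp) {h₀} Rw (RD (sX X) (Bk η W o (r - 1))) Z) n n (Ft (sX X) η W o n)
        (tlt H.gp η W o n) (rcol H.gp (cX X) H.hull) ((q, T n), T) ∧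
      ∀ {f : ℂ × ℂ × ℂ → ℂ} {w : D0 (sX X) → ℂ}, (∀ k, k < n → ∀ e : D0 (sX X),
          e.1.2 ∈ Bk η W o k → th (sX X) e.1 ∈ Bk η W o k →
            w e = f (e.1.2, th (sX X) e.1, e.1.1)) →
        ∀ l, 2 ≤ l → l + 2 < n →
          KS (rc0 H.gp) (cfg (rc0 H.gp) (rcol H.gp (cX X) H.hull)) q (rst w (Ft (sX X) η W o n l))
            0 (T n) = VX f n (Bk η W o) (QX (100 * η) W o n) (Stk η W o) (n - 1 - l) X := by
  have h4 := H.nM
  obtain ⟨bf, bn⟩ := back H hr hrn hs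
  have D : DCorr H.gp H.hull n (fun k : ℕ => yy η W X (o + k)) (fun k : ℕ => xx η W X (o + k))
      (fun k : ℕ => RR (9 * η) (51 * η) (100 * η) W (o + k)) (Bk η W o) H.p := H.corr
  have hRd : Rd (rc0 H.gp) Z.R = RD (sX X) (Rts η W o n) := by
    rw [hZ]
    exact RcTx422.rs2_rc (inn_Rts H)
  obtain ⟨q, N, T, hSD, hEv, -, -, -, hks⟩ := EvGx168.evA_of (B := Bk η W o) (k₀ := r - 1) D
    (by omega) bf (Z := Z) (by omega) (by omega) (Rw := Rw) (h₀ := h₀) (H.coly _)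
    (fun k h1 h2 => by
      rw [hRd]
      rintro e ⟨he1, he2⟩
      exact ⟨⟨k, h1, h2, he1⟩, ⟨k, h1, h2, he2⟩⟩)
    (by
      rw [hRd]
      rintro ⟨he, -⟩
      exact y_off H (Or.inl rfl) he)
    (by
      rw [hRd]
      rintro ⟨he, -⟩
      exact y_off H (Or.inr rfl) he) hE hW hcol hsep hlnk
  have hstr : Str (cm0 H.gp) (xc H.gp H.hull) n (Rd (rc0 H.gp) Z.R) (fun k => H.p (n - k))
      (fun k => RD (sX X) (Bk η W o (n - 1 - k))) q N T := Rstx832.str_restr.1 hSD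
  have hreg : Reg (cm0 H.gp) (xc H.gp H.hull) q T n n (Ft (sX X) η W o n) :=
    reg_str (B := fun k => Bk η W o (n - 1 - k)) (qreg H).rev hstr
  refine ⟨q, N, T, hSD, ⟨hEv, hstr.T0, rfl, Rstx832.reg_restr.2 hreg, ?_⟩, ?_⟩
  · exact TlRx709.htl (fun k _ => inn_Bk H k) (fun a b h1 h2 => dis_Bk H a b h1 h2) hstr.arc
  · intro f w hw l h1 h2
    have e1 := vl_of (B := Bk η W o) (Q := QX (100 * η) W o n) bf bn hreg w
      (fun w k a1 a2 => hks w k a1 a2) l h1 h2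
    rw [D.vz_VX (St := Stk η W o) H.fin (fun k _ => H.lg _) (fun k _ r hr => (H.lg _).uniq hr)
      hw (by omega)] at e1
    rw [← e1]
    have e2 := Rstx832.vl_restr (M := cm0 H.gp) (x := xc H.gp H.hull) (p := q) (T := T) n w
      (Ft (sX X) η W o n) l
    rw [show Vl (cm0 H.gp) (xc H.gp H.hull) q T n w (FQ (sX X) n fun l => QX (100 * η) W o n
      (n - 1 - l)) l = Vl (cm0 H.gp) (xc H.gp H.hull) q T n w (Ft (sX X) η W o n) l from rfl,
      ← e2]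
    unfold Vl
    rw [hstr.T0]
    rfl

end Crest.Agent.R143.CorrIx831
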