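import Crest.Agent.R143.ZnL_903
import Crest.Agent.R143.CorE_133
import Crest.Agent.R143.LnkG_372
import Crest.Agent.R143.OutP_571

/-!
# Row 143 (S0194), R4: the top of the columns (helper903)

`S = SU u ε ω` the sites of a good environment `CorEnv u ε d ..` (133), `LayU u m M p W A e` the layout
(416), `m (100 η) = u.s`, `100 d ≤ η`, gate `a` inside a coarse edge (`A k + 4 ≤ a`,
`a + 4 ≤ A (k + 1)`), `J` = any set of tiles which do not touch the gate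
(`b ∈ J → ¬ M ∣ a - b ∧ ¬ M ∣ a - (b + 1)`), `c0` = cell of a hull site.

* **`top_pth`** : every site of the window of the gate with `19/2 η ≤ Y ≤ 11 η` is joined to every
  hull site off all the strips and off the fat tiles of `J` (372's `top_T`)
* **`top_S`** : its cell is in `comp (rc0 hS) (clR hS (GT η d W J)) c0` (= `T` zone; only `S`, no
  colouring)
* **`htop`** : the same on `rc0 H.gp`, zone `zT H J c0`, any gate `a`;
  **`htop_r`** : gate `o + r` = hypothesis `htop` of `ZnLx903.col_of` literally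
* **`col_gate`**, **`col_S`** : the white column of any gate `a` (zone `clR hS (KS η W a)`)
* **`colU`** : `col_of` with `htop` discharged
* `hJ_ends` : the side condition for `J = {o, o + n - 1}`, `hJ_int` : for tiles of one period
-/

set_option autoImplicit false
set_option linter.unusedVariables false

noncomputable section

open scoped Classical

namespace Crest.Agent.R143.HTopx903

open Crest.ProbabilityR.Voronoi
open Crest.Agent.R143.B0x346 Crest.Agent.R143.DelGx806 Crest.Agent.R143.DelRx806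
open Crest.Agent.R143.TileRx228 Crest.Agent.R143.ZnGx903 Crest.Agent.R143.ZnLx903
open Crest.Agent.R143.Gatex838 (X Y)
open Crest.Agent.R143.RE0x723 (Pth)
open Crest.Agent.R143.Frame1x395 Crest.Agent.R143.Frame2x395 Crest.Agent.R143.Frame3x395
  Crest.Agent.R143.Frame8x395 Crest.Agent.R143.NonXx592
open Crest.Agent.R143.Frame10x395
open Crest.Agent.R143.FinCx811 Crest.Agent.R143.K33x137 Crest.Agent.R143.Uniqx323
open Crest.Agent.R143.Extx358 Crest.Agent.R143.SysAx168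
open Crest.Agent.R143.CorHx713 Crest.Agent.R143.WLocx713
open Crest.Agent.R143.PolyUx346 Crest.Agent.R143.LayUx416
open Crest.Agent.R143.CorEx133
open Crest.Agent.R143.Brkx478 (Bk cells)
open Crest.Agent.R143.OutCx571 (Far)

section env

variable {S : Finset ℂ} {hS : GP (S : Set ℂ)} {M : ℕ} {W : ℤ → ℤ × ℤ} {η d : ℝ}
  {J : Set ℤ} {u : Poly} {m : ℕ} {p : ℤ → ℤ × ℤ} {A e : ℤ → ℤ} {ε K1 c2 ρ0 : ℝ} {ω : Sample}

/-- far points are far from the polygon -/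
theorem far_of {r : ℝ} (hr : r ≤ 1) {z : ℂ} (hz : Rp u + 4 ≤ ‖z‖) :
    z ∈ Far u.s r (cells (u.U : Set Bk)) := by
  intro w hw
  have h1 : ‖w‖ ≤ Rp u := P_norm u hw
  have h2 := Complex.norm_le_abs_re_add_abs_im (z - w)
  have h3 := norm_add_le (z - w) w
  rw [sub_add_cancel] at h3
  rw [Complex.sub_re, Complex.sub_im] at h2
  have h4 := le_max_left |z.re - w.re| |z.im - w.im|
  have h5 := le_max_right |z.re - w.re| |z.im - w.im|
  linarith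

/-- **a site just above the strips at an inner gate is joined to every hull site off the strips** -/
theorem top_pth (C : CorEnv u ε d K1 c2 ρ0 ω) (L : LayU u m M p W A e)
    (hh : (m : ℝ) * (100 * η) = u.s) (hd : 100 * d ≤ η) {a k : ℤ} (h1 : A k + 4 ≤ a)
    (h2 : a + 4 ≤ A (k + 1)) (hJ : ∀ b ∈ J, ¬ (M : ℤ) ∣ a - b ∧ ¬ (M : ℤ) ∣ a - (b + 1))
    {x s : ℂ} (hx : OnHull (SU u ε ω) x) (hs : s ∈ SU u ε ω)
    (g1 : |X (gz (100 * η) W a) (ge W a) s| < η)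
    (g2 : 19 / 2 * η ≤ Y (gz (100 * η) W a) (ge W a) s)
    (g3 : Y (gz (100 * η) W a) (ge W a) s ≤ 11 * η) :
    Pth (SU u ε ω) {q | q ∈ SU u ε ω ∧ q ∈ GT η d W J} s x := by
  have hd0 := C.d0
  have he : 0 < η := by linarith
  have hle := h_le L hh
  have hm := L.m_pos
  have h0 := L.h_pos hh
  obtain ⟨y, hy⟩ := hx
  have e1 : (((m : ℕ) : ℤ) : ℝ) * (100 * η) = u.s := by
    rw [Int.cast_natCast]
    exact hh
  have key := LnkGx372.top_T (A' := 19 / 2 * η) (B' := 103 / 2 * η) (e := d) (A2 := 14 * η)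
    (B2 := 60 * η) L.fine h0 (by omega)
    (fun q hq q' hq' => OutPx571.con_compl u.con' q hq q' hq') h1 h2 C.dns (fun z hz => ?_)
    (by linarith) (by linarith) hd0.le (by linarith) (by linarith) (by linarith) (by linarith) hs
    (by linarith) g2 (by linarith) hy
  · refine key.2.mono ?_
    rintro q ⟨q1, q2, q3⟩
    exact ⟨q1, q2, fun b hb => q3 b (hJ b hb).1 (hJ b hb).2⟩
  · rw [e1]
    rw [sub_zero] at hz
    refine far_of (by linarith) ?_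
    have r1 := one_le_Rp u
    have r2 := C.d1
    unfold RU at hz
    linarith

/-- **the window of an inner gate above the strips is in the top zone** -/
theorem top_S (C : CorEnv u ε d K1 c2 ρ0 ω) (eS : S = SU u ε ω) (L : LayU u m M p W A e)
    (hh : (m : ℝ) * (100 * η) = u.s) (hd : 100 * d ≤ η) {a k : ℤ} (h1 : A k + 4 ≤ a)
    (h2 : a + 4 ≤ A (k + 1)) (hJ : ∀ b ∈ J, ¬ (M : ℤ) ∣ a - b ∧ ¬ (M : ℤ) ∣ a - (b + 1))
    {x : ℂ} (hx : OnHull S x) {c0 : Cs hS} (h0 : c0.1 = Quot.mk _ x) :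
    ∀ s ∈ S, |X (gz (100 * η) W a) (ge W a) s| < η →
      19 / 2 * η ≤ Y (gz (100 * η) W a) (ge W a) s →
      Y (gz (100 * η) W a) (ge W a) s ≤ 11 * η →
      ∀ c : Cs hS, c.1 = Quot.mk _ s → c ∈ comp (rc0 hS) (clR hS (GT η d W J)) c0 := by
  subst eS
  intro s hs g1 g2 g3 c hc
  have key := top_pth C L hh hd h1 h2 hJ hx hs g1 g2 g3
  have h3 : 3 ≤ (SU u ε ω).card := C.card
  have k1 : Lk (rc0 hS) (clR hS {q | q ∈ SU u ε ω ∧ q ∈ GT η d W J}) c c0 :=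
    lk_of_pth h3 key hs hc h0
  have k2 : clR hS {q | q ∈ SU u ε ω ∧ q ∈ GT η d W J} ⊆ clR hS (GT η d W J) :=
    clR_mono fun q hq => hq.2
  exact ⟨k2 ⟨s, hs, key.1, hc⟩, k1.mono k2⟩

end env

section cor

variable {Xs : Set (ℂ × Bool)} {U : Set ℂ} {M : ℕ} {W : ℤ → ℤ × ℤ} {η d : ℝ} {o : ℤ} {n r : ℕ}
  {J : Set ℤ} {u : Poly} {m : ℕ} {p : ℤ → ℤ × ℤ} {A e : ℤ → ℤ} {ε K1 c2 ρ0 : ℝ} {ω : Sample}

/-- **the window of an inner gate above the strips is in the top zone** -/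
theorem htop (H : CorH Xs U M W η d o n) (C : CorEnv u ε d K1 c2 ρ0 ω) (hS : sX Xs = SU u ε ω)
    (L : LayU u m M p W A e) (hh : (m : ℝ) * (100 * η) = u.s) {a k : ℤ} (h1 : A k + 4 ≤ a)
    (h2 : a + 4 ≤ A (k + 1)) (hJ : ∀ b ∈ J, ¬ (M : ℤ) ∣ a - b ∧ ¬ (M : ℤ) ∣ a - (b + 1))
    {x : ℂ} (hx : OnHull (sX Xs) x) {c0 : Cs H.gp} (h0 : c0.1 = Quot.mk _ x) :
    ∀ s ∈ sX Xs, |X (gz (100 * η) W a) (ge W a) s| < η →
      19 / 2 * η ≤ Y (gz (100 * η) W a) (ge W a) s →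
      Y (gz (100 * η) W a) (ge W a) s ≤ 11 * η →
      ∀ c : Cs H.gp, c.1 = Quot.mk _ s → c ∈ zT H J c0 :=
  top_S C hS L hh H.de h1 h2 hJ hx h0

/-- hypothesis `htop` of `col_of` -/
theorem htop_r (H : CorH Xs U M W η d o n) (C : CorEnv u ε d K1 c2 ρ0 ω) (hS : sX Xs = SU u ε ω)
    (L : LayU u m M p W A e) (hh : (m : ℝ) * (100 * η) = u.s) {k : ℤ} (h1 : A k + 4 ≤ o + r)
    (h2 : o + r + 4 ≤ A (k + 1))
    (hJ : ∀ b ∈ J, ¬ (M : ℤ) ∣ o + r - b ∧ ¬ (M : ℤ) ∣ o + r - (b + 1))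
    {x : ℂ} (hx : OnHull (sX Xs) x) {c0 : Cs H.gp} (h0 : c0.1 = Quot.mk _ x) :
    ∀ s ∈ sX Xs, |X (gz (100 * η) W (o + r)) (ge W (o + r)) s| < η →
      19 / 2 * η ≤ Y (gz (100 * η) W (o + r)) (ge W (o + r)) s →
      Y (gz (100 * η) W (o + r)) (ge W (o + r)) s ≤ 11 * η →
      ∀ c : Cs H.gp, c.1 = Quot.mk _ s → c ∈ zT H J c0 :=
  htop H C hS L hh h1 h2 hJ hx h0

/-- **the white column of the gate `a`** -/
theorem col_gate (H : CorH Xs U M W η d o n) {a : ℤ} {T : Set (Cs H.gp)} {χ : Cs H.gp → ZMod 2}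
    {b : ZMod 2} (hχ : ∀ s ∈ sX Xs, s ∉ bX Xs → ∀ c : Cs H.gp, c.1 = Quot.mk _ s → χ c = b)
    (htop : ∀ s ∈ sX Xs, |X (gz (100 * η) W a) (ge W a) s| < η →
      19 / 2 * η ≤ Y (gz (100 * η) W a) (ge W a) s →
      Y (gz (100 * η) W a) (ge W a) s ≤ 11 * η →
      ∀ c : Cs H.gp, c.1 = Quot.mk _ s → c ∈ T)
    {c : Cs H.gp} (hc : c.1 = Quot.mk _ (xx η W Xs a)) :
    ∃ t ∈ T, Lk (rc0 H.gp) ({c | c ∈ clR H.gp (KS η W a) ∧ χ c = b} ∪ T) c t := by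
  obtain ⟨up, dn, N, hx⟩ := H.neck a
  have he := H.e0
  have hup : ∀ s ∈ up, s ∈ sX Xs ∧ s ∉ bX Xs := N.cu
  have hwin : ∀ s ∈ up, |X (gz (100 * η) W a) (ge W a) s| < η ∧
      -(9 * η) < Y (gz (100 * η) W a) (ge W a) s ∧
      Y (gz (100 * η) W a) (ge W a) s ≤ 11 * η := by
    intro s hs
    obtain ⟨⟨g1, g2⟩, g3, g4⟩ := N.win s (List.mem_append_left _ hs)
    exact ⟨abs_lt.2 ⟨g1, g2⟩, N.upb s hs, by linarith⟩
  have hA : ∀ s ∈ up, ∀ c : Cs H.gp, c.1 = Quot.mk _ s →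
      c ∈ ({c | c ∈ clR H.gp (KS η W a) ∧ χ c = b} ∪ T : Set (Cs H.gp)) := by
    intro s hs c hc
    obtain ⟨g1, g2⟩ := hup s hs
    obtain ⟨g3, g4, g5⟩ := hwin s hs
    rcases lt_or_ge (Y (gz (100 * η) W a) (ge W a) s) (19 / 2 * η) with h | h
    · exact Or.inl ⟨⟨s, g1, ⟨g3, abs_lt.2 ⟨by linarith, h⟩⟩, hc⟩, hχ s g1 g2 c hc⟩
    · exact Or.inr (htop s g1 g3 h g5 c hc)
  have hhd : up.head N.nu ∈ up := List.head_mem _
  have hh := hwin _ hhd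
  have ht := N.top
  refine ⟨cv H.gp (card3 H) (up.head N.nu) (hup _ hhd).1,
    htop _ (hup _ hhd).1 hh.1 (by linarith) hh.2.2 _ rfl, ?_⟩
  refine Relation.EqvGen.symm _ _ (lk_list (hS := H.gp) (card3 H) up N.nu (fun p hp => ?_)
    (fun s hs => (hup s hs).1) hA _ _ rfl ?_)
  · have h1 := N.adj
    rw [← ToolWx838.isChain_iff_prs, List.isChain_append] at h1
    exact (ToolWx838.isChain_iff_prs _).1 h1.1 p hp
  · rw [hc, ← hx]

/-- the same at a fixed set of sites -/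
theorem col_S {S : Finset ℂ} {hS : GP (S : Set ℂ)} (eS : sX Xs = S) (H : CorH Xs U M W η d o n)
    {a : ℤ} {T : Set (Cs hS)} {χ : Cs hS → ZMod 2} {b : ZMod 2}
    (hχ : ∀ s ∈ S, s ∉ bX Xs → ∀ c : Cs hS, c.1 = Quot.mk _ s → χ c = b)
    (htop : ∀ s ∈ S, |X (gz (100 * η) W a) (ge W a) s| < η →
      19 / 2 * η ≤ Y (gz (100 * η) W a) (ge W a) s →
      Y (gz (100 * η) W a) (ge W a) s ≤ 11 * η →
      ∀ c : Cs hS, c.1 = Quot.mk _ s → c ∈ T)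
    {c : Cs hS} (hc : c.1 = Quot.mk _ (xx η W Xs a)) :
    ∃ t ∈ T, Lk (rc0 hS) ({c | c ∈ clR hS (KS η W a) ∧ χ c = b} ∪ T) c t := by
  subst eS
  exact col_gate H hχ htop hc

/-- **the column of an inner gate at a good environment** -/
theorem col_env {S : Finset ℂ} {hS : GP (S : Set ℂ)} (eX : sX Xs = S) (H : CorH Xs U M W η d o n)
    (C : CorEnv u ε d K1 c2 ρ0 ω) (eS : S = SU u ε ω) (L : LayU u m M p W A e)
    (hh : (m : ℝ) * (100 * η) = u.s) {a k : ℤ} (h1 : A k + 4 ≤ a) (h2 : a + 4 ≤ A (k + 1))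
    (hJ : ∀ b ∈ J, ¬ (M : ℤ) ∣ a - b ∧ ¬ (M : ℤ) ∣ a - (b + 1))
    {x : ℂ} (hx : OnHull S x) {c0 : Cs hS} (h0 : c0.1 = Quot.mk _ x)
    {χ : Cs hS → ZMod 2} {b : ZMod 2}
    (hχ : ∀ s ∈ S, s ∉ bX Xs → ∀ c : Cs hS, c.1 = Quot.mk _ s → χ c = b) {c : Cs hS}
    (hc : c.1 = Quot.mk _ (xx η W Xs a)) :
    ∃ t ∈ comp (rc0 hS) (clR hS (GT η d W J)) c0, Lk (rc0 hS)
      ({c | c ∈ clR hS (KS η W a) ∧ χ c = b} ∪ comp (rc0 hS) (clR hS (GT η d W J)) c0) c t :=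
  col_S eX H hχ (top_S C eS L hh H.de h1 h2 hJ hx h0) hc

/-- **the column of the mark gate** -/
theorem colU (H : CorH Xs U M W η d o n) (C : CorEnv u ε d K1 c2 ρ0 ω) (hS : sX Xs = SU u ε ω)
    (L : LayU u m M p W A e) (hh : (m : ℝ) * (100 * η) = u.s) {k : ℤ} (h1 : A k + 4 ≤ o + r)
    (h2 : o + r + 4 ≤ A (k + 1))
    (hJ : ∀ b ∈ J, ¬ (M : ℤ) ∣ o + r - b ∧ ¬ (M : ℤ) ∣ o + r - (b + 1))
    {x : ℂ} (hx : OnHull (sX Xs) x) {c0 : Cs H.gp} (h0 : c0.1 = Quot.mk _ x)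
    {χ : Cs H.gp → ZMod 2} {b : ZMod 2}
    (hχ : ∀ s ∈ sX Xs, s ∉ bX Xs → ∀ c : Cs H.gp, c.1 = Quot.mk _ s → χ c = b) {c : Cs H.gp}
    (hc : c.1 = Quot.mk _ (xx η W Xs (o + r))) :
    ∃ t ∈ zT H J c0, Lk (rc0 H.gp) ({c | c ∈ zK H r ∧ χ c = b} ∪ zT H J c0) c t :=
  col_of H hχ (htop_r H C hS L hh h1 h2 hJ hx h0) hc

/-! ### side conditions -/

theorem nd {M : ℕ} {z : ℤ} (z0 : z ≠ 0) (z1 : -(M : ℤ) < z) (z2 : z < M) : ¬ (M : ℤ) ∣ z := by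
  intro hz
  have := Int.eq_zero_of_abs_lt_dvd hz (abs_lt.2 ⟨z1, z2⟩)
  exact z0 this

/-- the end tiles do not touch an inner gate -/
theorem hJ_ends (H : CorH Xs U M W η d o n) (h1 : 2 ≤ r) (h2 : r + 1 < n) :
    ∀ b ∈ ({o, o + n - 1} : Set ℤ), ¬ (M : ℤ) ∣ o + r - b ∧ ¬ (M : ℤ) ∣ o + r - (b + 1) := by
  have hM := H.nM
  rintro b (rfl | rfl)
  · exact ⟨nd (by omega) (by omega) (by omega), nd (by omega) (by omega) (by omega)⟩
  · exact ⟨nd (by omega) (by omega) (by omega), nd (by omega) (by omega) (by omega)⟩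

/-- tiles of one period which do not touch the gate -/
theorem hJ_int {a : ℤ} (h : ∀ b ∈ J, o ≤ b ∧ b < o + M) (ha : o < a) (ha' : a < o + M)
    (h1 : ∀ b ∈ J, b ≠ a) (h2 : ∀ b ∈ J, b + 1 ≠ a) :
    ∀ b ∈ J, ¬ (M : ℤ) ∣ a - b ∧ ¬ (M : ℤ) ∣ a - (b + 1) := by
  intro b hb
  obtain ⟨g1, g2⟩ := h b hb
  have g3 := h1 b hb
  have g4 := h2 b hb
  exact ⟨nd (by omega) (by omega) (by omega), nd (by omega) (by omega) (by omega)⟩

end cor

end Crest.Agent.R143.HTopx903
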