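import Crest.Agent.R143.CorrC_831
import Crest.Agent.R143.ZnL_903
import Crest.Agent.R143.CorE_133

/-!
# Row 143 (S0194), RIG, CorrD: facts of the hull cell (helper40)

`h₀ ∈ Hc hS` : `h₀` is the hull cell of `rc0 hS` (422).

* `one`, `one_iff`, `exists_h` : there is exactly one hull cell; `col_h` : its colour
* `clR_RC`, `nRC`, `nclR`, `hR_of`, `hR_cl` : the hull cell is not in a region of inner sites (fields
  `hR` of `Sys`), `not_in`: for every set of cells of inner sites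
* `disj_h` : inner cells of disjoint regions
* `nac` (from `Strd`), `ac_sub`, `nac_sds` (from `SDS`): the hull cell is not a cell of the strand;
  `nzc`, `ext0` : it is in the exterior; `con0` : the exterior is connected (`H = {h₀}`)
* `env_inn`, `env_RC`, `env_nRC`, `env_h` : the same for the sites `SU u ε ω` and `B ⊆ UU u`
* `cor_inn`, `cor_Rts`, `cor_Rws` : the same for `CorH`
-/

set_option autoImplicit false
set_option linter.all false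

noncomputable section

open scoped Classical

namespace Crest.Agent.R143.HullCx40

open Set
open Crest.ProbabilityR.Voronoi
open Crest.Agent.R143.B0x346 Crest.Agent.R143.DelGx806 Crest.Agent.R143.DelRx806
open Crest.Agent.R143.Frame1x395 Crest.Agent.R143.Frame2x395 Crest.Agent.R143.Frame3x395
  Crest.Agent.R143.Frame4x395 Crest.Agent.R143.Frame8x395 Crest.Agent.R143.Frame9x395
  Crest.Agent.R143.Frame10x395 Crest.Agent.R143.Frame11x395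
open Crest.Agent.R143.Frame5x395 (sd mem_sd th th_spec)
open Crest.Agent.R143.RingDx117 (RD)
open Crest.Agent.R143.StrBx117 (Str)
open Crest.Agent.R143.NonXx592 (P Rc)
open Crest.Agent.R143.Gntx535 (wl wr mem_wl mem_wr)
open Crest.Agent.R143.Extx358 (Ad Ext Sep Zc)
open Crest.Agent.R143.OutSx358 (zc ac coe_ac Sys)
open Crest.Agent.R143.FinCx811 (Cs rc0 cs rcol cs_surj)
open Crest.Agent.R143.Uniqx323 (Zn Strd)
open Crest.Agent.R143.R5bx166 (CCon)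
open Crest.Agent.R143.WLocx713 (sX cX)
open Crest.Agent.R143.RcTx422 (Hc Hc_one Hc_eq Hc_RC exists_Hc hull_one RC con_rc)
open Crest.Agent.R143.ZnLx903 (clR)
open Crest.Agent.R143.CorHx713
open Crest.Agent.R143.CorrIx831 (SDS Bk Rts Rws)
open Crest.Agent.R143.CorEx133 (CorEnv SU UU)
open Crest.Agent.R143.PolyUx346 (Poly)

variable {S : Finset ℂ} {hS : GP (S : Set ℂ)} {B B' : Set ℂ} {h₀ : Cs hS}

/-! ### the hull cell -/

/-- **one cell** -/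
theorem one (h : h₀ ∈ Hc hS) {c : Cs hS} {v : ℂ} (hv : OnHull S v)
    (e : c.1 = Quot.mk (hullE S) v) : c = h₀ := Hc_one ⟨v, hv, e⟩ h

theorem one_iff (h : h₀ ∈ Hc hS) {c : Cs hS} {v : ℂ} (e : c.1 = Quot.mk (hullE S) v) :
    c = h₀ ↔ OnHull S v := by
  refine ⟨fun hc => ?_, fun hv => one h hv e⟩
  obtain ⟨w, hw, e'⟩ := h
  by_contra hv
  rw [← hc, e] at e'
  exact hv (quot_inner hS hv e' ▸ hw)

/-- **there is a hull cell** -/
theorem exists_h (hS : GP (S : Set ℂ)) (h3 : 3 ≤ S.card) : ∃ h₀ : Cs hS, h₀ ∈ Hc hS ∧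
    Hc hS = {h₀} ∧ (∀ (c : Cs hS) (v : ℂ), OnHull S v → c.1 = Quot.mk (hullE S) v → c = h₀) ∧
      ∀ B : Set ℂ, h₀ ∉ RC hS B := by
  obtain ⟨h₀, h⟩ := exists_Hc hS h3
  exact ⟨h₀, h, Hc_eq h, fun c v hv e => one h hv e, fun B => Hc_RC h⟩

theorem rep (h : h₀ ∈ Hc hS) : ∃ v, v ∈ S ∧ OnHull S v ∧ h₀.1 = Quot.mk (hullE S) v := by
  obtain ⟨v, hv, e⟩ := h
  exact ⟨v, RcTx422.hull_mem hv, hv, e⟩

/-! ### regions -/

/-- regions of inner sites: 903's cells and 422's cells -/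
theorem clR_RC (hin : ∀ v ∈ S, v ∈ B → ¬ OnHull S v) : clR hS B = RC hS B := by
  ext c
  exact ⟨fun ⟨v, h1, h2, e⟩ => ⟨v, h1, h2, hin v h1 h2, e⟩, fun ⟨v, h1, h2, _, e⟩ => ⟨v, h1, h2, e⟩⟩

theorem RC_clR : RC hS B ⊆ clR hS B := fun _ ⟨v, h1, h2, _, e⟩ => ⟨v, h1, h2, e⟩

/-- **the hull cell is not in a region** -/
theorem nRC (h : h₀ ∈ Hc hS) : h₀ ∉ RC hS B := Hc_RC h

theorem nclR (h : h₀ ∈ Hc hS) (hin : ∀ v ∈ S, v ∈ B → ¬ OnHull S v) : h₀ ∉ clR hS B := by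
  rw [clR_RC hin]
  exact Hc_RC h

/-- field `hR` of `Sys`, `H = {h₀}` -/
theorem hR_of (h : h₀ ∈ Hc hS) : ∀ c ∈ ({h₀} : Set (Cs hS)), c ∉ RC hS B := by
  rintro c rfl
  exact Hc_RC h

theorem hR_cl (h : h₀ ∈ Hc hS) (hin : ∀ v ∈ S, v ∈ B → ¬ OnHull S v) :
    ∀ c ∈ ({h₀} : Set (Cs hS)), c ∉ clR hS B := by
  rintro c rfl
  exact nclR h hin

/-- a set of cells of inner sites does not contain the hull cell -/
theorem not_in (h : h₀ ∈ Hc hS) {A : Set (Cs hS)}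
    (hA : ∀ c ∈ A, ∃ v, ¬ OnHull S v ∧ c.1 = Quot.mk (hullE S) v) : h₀ ∉ A := by
  intro h1
  obtain ⟨v, hv, e⟩ := hA _ h1
  exact hv ((one_iff h e).1 rfl)

/-- inner cells of disjoint regions are different -/
theorem disj_h (h : ∀ v ∈ S, v ∈ B → v ∉ B') (hin : ∀ v ∈ S, v ∈ B → ¬ OnHull S v) :
    ∀ c ∈ clR hS B, c ∉ clR hS B' := fun c hc hc' =>
  Set.disjoint_left.1 (ZnLx903.clR_disj h hin) hc hc'

/-! ### the strand -/

section strand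

variable {Z : Zn (rc0 hS)} {b : ZMod 2} {σ : Cs hS → ZMod 2} {q : D0 S} {n : ℕ}

/-- the cells of a strand are in its region -/
theorem ac_Z (hd : Strd (rc0 hS) Z b σ q n) : ∀ c ∈ ac (rc0 hS) q n σ, c ∈ Z.R := by
  intro c hc
  rcases Finset.mem_union.1 hc with h | h
  · exact hd.lR h
  · exact hd.rR h

/-- **the hull cell is not a cell of the strand** -/
theorem nac (h : h₀ ∈ Hc hS) (hZ : Z.R = RC hS B) (hd : Strd (rc0 hS) Z b σ q n) :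
    h₀ ∉ ac (rc0 hS) q n σ := fun h1 => by
  have h2 := ac_Z hd _ h1
  rw [hZ] at h2
  exact Hc_RC h h2

theorem nac' (hZ : h₀ ∉ Z.R) (hd : Strd (rc0 hS) Z b σ q n) : h₀ ∉ ac (rc0 hS) q n σ :=
  fun h1 => hZ (ac_Z hd _ h1)

theorem nwl (hn : h₀ ∉ ac (rc0 hS) q n σ) : h₀ ∉ wl (rc0 hS) (cfg (rc0 hS) σ) q n := fun h =>
  hn (Finset.mem_union.2 (Or.inl h))

theorem nwr (hn : h₀ ∉ ac (rc0 hS) q n σ) : h₀ ∉ wr (rc0 hS) (cfg (rc0 hS) σ) q n := fun h =>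
  hn (Finset.mem_union.2 (Or.inr h))

/-- the hull cell is not in the blocking set -/
theorem nzc {Rw : Set (Cs hS)} (hw : h₀ ∉ Rw) (hn : h₀ ∉ ac (rc0 hS) q n σ) :
    h₀ ∉ zc (rc0 hS) Rw q n σ := by
  rintro ((h | h) | ⟨h, -⟩)
  · exact nwl hn (Finset.mem_coe.1 h)
  · exact nwr hn (Finset.mem_coe.1 h)
  · exact hw h

/-- **the hull cell is in the exterior** -/
theorem ext0 {Rw : Set (Cs hS)} (hw : h₀ ∉ Rw) (hn : h₀ ∉ ac (rc0 hS) q n σ) :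
    Ext (rc0 hS) {h₀} (zc (rc0 hS) Rw q n σ) h₀ := Ext.hull rfl (nzc hw hn)

/-- the exterior is connected -/
theorem con0 (h : h₀ ∈ Hc hS) {A : Set (Cs hS)} :
    CCon (rc0 hS) {c | Ext (rc0 hS) {h₀} A c} := by
  have := con_rc (hS := hS) (Z := A)
  rwa [Hc_eq h] at this

/-- the states of the strand are in `RD S B`: its cells are in the region -/
theorem ac_sub {x : ℕ} (hm : ∀ i, i ≤ x → (stp (rc0 hS) (cfg (rc0 hS) σ))^[i] q ∈ RD S B) :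
    ∀ c ∈ ac (rc0 hS) q x σ, c ∈ clR hS B := by
  intro c hc
  rcases Finset.mem_union.1 hc with h | h
  · obtain ⟨j, hj, rfl⟩ := mem_wl.1 h
    exact ⟨_, (Sepx686.dart_mem (S := S) _).1, (hm j hj).1, ZnLx903.cell_val _⟩
  · obtain ⟨j, hj, rfl⟩ := mem_wr.1 h
    exact ⟨_, (Sepx686.dart_mem (S := S) _).2, (hm j hj).2, ZnLx903.rc_val _⟩

theorem nac_m (h : h₀ ∈ Hc hS) (hin : ∀ v ∈ S, v ∈ B → ¬ OnHull S v) {x : ℕ}
    (hm : ∀ i, i ≤ x → (stp (rc0 hS) (cfg (rc0 hS) σ))^[i] q ∈ RD S B) :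
    h₀ ∉ ac (rc0 hS) q x σ := fun h1 => nclR h hin (ac_sub hm _ h1)

end strand

/-! ### 831's strand -/

section sds

variable {s : Cs hS → ZMod 2} {η : ℝ} {W : ℤ → ℤ × ℤ} {o : ℤ} {n : ℕ} {p : ℕ → D0 S} {q : D0 S}
  {N : ℕ} {T : ℕ → ℕ}

theorem ac_sds (hd : SDS hS s η W o n p q N T) :
    ∀ c ∈ ac (rc0 hS) q (T n) s, c ∈ clR hS (Rts η W o n) := ac_sub hd.mem

/-- **the hull cell is not a cell of 831's strand** -/
theorem nac_sds (h : h₀ ∈ Hc hS) (hin : ∀ v ∈ S, v ∈ Rts η W o n → ¬ OnHull S v)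
    (hd : SDS hS s η W o n p q N T) : h₀ ∉ ac (rc0 hS) q (T n) s := nac_m h hin hd.mem

/-- **the hull cell is in the exterior of 831's strand** -/
theorem ext_sds (h : h₀ ∈ Hc hS) (hin : ∀ v ∈ S, v ∈ Rts η W o n → ¬ OnHull S v)
    {Rw : Set (Cs hS)} (hw : h₀ ∉ Rw) (hd : SDS hS s η W o n p q N T) :
    Ext (rc0 hS) {h₀} (zc (rc0 hS) Rw q (T n) s) h₀ := ext0 hw (nac_sds h hin hd)

end sds

/-! ### `CorH` -/

section cor

variable {X : Set (ℂ × Bool)} {U : Set ℂ} {M : ℕ} {W : ℤ → ℤ × ℤ} {η d : ℝ} {o : ℤ} {n : ℕ}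

theorem cor_inn (H : CorH X U M W η d o n) (hB : B ⊆ U) : ∀ v ∈ sX X, v ∈ B → ¬ OnHull (sX X) v :=
  fun _ _ h => H.inn (hB h)

theorem cor_bst (H : CorH X U M W η d o n) (a : ℤ) : CorrIx831.bst η W a ⊆ U := by
  have h1 := H.e0
  exact fun _ h => H.sub_U (by linarith) (by linarith) a h

theorem cor_Rts (H : CorH X U M W η d o n) : Rts η W o n ⊆ U := by
  rintro s ⟨k, -, -, h⟩
  exact cor_bst H _ h

theorem cor_Rws (H : CorH X U M W η d o n) {m : ℕ} : Rws η W o n m ⊆ U := by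
  rintro s ⟨a, -, -, h⟩
  exact cor_bst H _ h

end cor

/-! ### the environment -/

section env

variable {u : Poly} {ε d K1 c2 ρ0 : ℝ} {ω : Sample}

/-- sites of the disc are inner -/
theorem env_inn (C : CorEnv u ε d K1 c2 ρ0 ω) (hB : B ⊆ UU u) :
    ∀ v ∈ SU u ε ω, v ∈ B → ¬ OnHull (SU u ε ω) v := fun _ _ h => C.inn (hB h)

/-- **hull cell of the environment** -/
theorem env_h (C : CorEnv u ε d K1 c2 ρ0 ω) (hS : GP (SU u ε ω : Set ℂ)) :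
    ∃ h₀ : Cs hS, h₀ ∈ Hc hS ∧ Hc hS = {h₀} ∧
      (∀ (c : Cs hS) (v : ℂ), OnHull (SU u ε ω) v → c.1 = Quot.mk _ v → c = h₀) ∧
      (∀ B : Set ℂ, h₀ ∉ RC hS B) ∧ ∀ B : Set ℂ, B ⊆ UU u → clR hS B = RC hS B ∧ h₀ ∉ clR hS B := by
  obtain ⟨h₀, h1, h2, h3, h4⟩ := exists_h hS C.card
  exact ⟨h₀, h1, h2, h3, h4, fun B hB => ⟨clR_RC (env_inn C hB), nclR h1 (env_inn C hB)⟩⟩

theorem env_RC (C : CorEnv u ε d K1 c2 ρ0 ω) {hS : GP (SU u ε ω : Set ℂ)} (hB : B ⊆ UU u) :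
    clR hS B = RC hS B := clR_RC (env_inn C hB)

theorem env_nRC (C : CorEnv u ε d K1 c2 ρ0 ω) {hS : GP (SU u ε ω : Set ℂ)} {h₀ : Cs hS}
    (h : h₀ ∈ Hc hS) (hB : B ⊆ UU u) : h₀ ∉ RC hS B ∧ h₀ ∉ clR hS B :=
  ⟨Hc_RC h, nclR h (env_inn C hB)⟩

end env

end Crest.Agent.R143.HullCx40
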