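import Crest.Agent.R143.LnkM_927
import Crest.Agent.R143.CorrC_831

/-!
# Row 143 (S0194), R4 (3d): the link on a fixed set of sites (helper927)

**`hlnk_S`** : hypothesis `hlnk` of `CorrIx831.hx_S`, literally.
-/

set_option autoImplicit false
set_option linter.all false

noncomputable section

open scoped Classical

namespace Crest.Agent.R143.LnkLx927

open Set
open Crest.Agent.R158.Sp896 (V Con)
open Crest.Agent.R143.B0x346 Crest.Agent.R143.DelGx806 Crest.Agent.R143.DelRx806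
open Crest.Agent.R143.Frame1x395 Crest.Agent.R143.Frame8x395 Crest.Agent.R143.Frame9x395
  Crest.Agent.R143.Frame10x395 Crest.Agent.R143.Frame11x395
open Crest.Agent.R143.FinMx609 Crest.Agent.R143.WLocx713
open Crest.Agent.R143.TileRx228
open Crest.Agent.R143.Finex422 (Fine)
open Crest.Agent.R143.OutCx571 (Far)
open Crest.Agent.R143.CorHx713
open Crest.Agent.R143.FinCx811 (Cs rc0 cs rcol)
open Crest.Agent.R143.RcTx422
open Crest.Agent.R143.Gntx535 (wl wr)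
open Crest.Agent.R143.Extx358 (Ad Ext)
open Crest.Agent.R143.OutSx358 (zc)
open Crest.Agent.R143.EvGx168 (SD)
open Crest.Agent.R143.EvGx117 (Rd)
open Crest.Agent.R143.RingDx117 (RD)
open Crest.Agent.R143.CorrIx831

variable {S : Finset ℂ} {hS : GP (S : Set ℂ)} {X : Set (ℂ × Bool)} {U : Set ℂ} {M : ℕ}
  {W : ℤ → ℤ × ℤ} {η d : ℝ} {o : ℤ} {n : ℕ} {s : Cs hS → ZMod 2}
  {F : Set V} {nn m : ℕ} {v : ℤ → V} {A : ℤ → ℤ} {k : ℤ} {x₀ : ℂ}

/-- **the link on a fixed set of sites** -/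
theorem hlnk_S (H : CorH X U M W η d o n) (h3 : 3 ≤ S.card) (C : CorrIx831.Col hS X s)
    (hF : Fine F nn (m : ℤ) v M W A) (hFc : ∀ q ∉ F, ∀ q' ∉ F, Con Fᶜ q q') (m3 : 3 ≤ m) {r : ℕ}
    (r1 : 2 ≤ r) (r2 : r + 1 < n) (g1 : A k + 4 ≤ o + r) (g2 : o + r + 3 ≤ A (k + 1))
    (hh : OnHull S x₀) (hf : x₀ ∈ Far (m * (100 * η)) (100 * η + 19 / 2 * η + d) F)
    {p : ℕ → D0 S} (hp : ∀ k : ℕ, (p k).1 = (yy η W X (o + k), xx η W X (o + k)))
    {Rw : Set (Cs hS)} (hRw : ∀ c ∈ Rw, ∃ t ∈ S, t ∈ Clo2 η W M o n ∧ c.1 = Quot.mk _ t)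
    {h₀ : Cs hS} (hh₀ : h₀ ∈ Hc hS) (q : D0 S) (N : ℕ) (T : ℕ → ℕ)
    (St : SDS hS s η W o n p q N T) :
    ∃ c₀ ∈ (wr (rc0 hS) (cfg (rc0 hS) s) q (T n) : Set (Cs hS)), ∃ e₀,
      Ext (rc0 hS) {h₀} (zc (rc0 hS) Rw q (T n) s) e₀ ∧ Ad (rc0 hS) e₀ c₀ := by
  obtain rfl : sX X = S := C.e
  obtain rfl := col_eq H.hull h3 C
  have hpe : p = H.p := by
    funext k
    exact Subtype.ext (hp k)
  subst hpe
  have hRd : Rd (rc0 H.gp) (RC H.gp (Rts η W o n)) = RD (sX X) (Rts η W o n) :=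
    RcTx422.rs2_rc (inn_Rts H)
  refine lnk_sd H hF hFc m3 r1 r2 g1 g2 hh hf (ZR := RC H.gp (Rts η W o n)) ?_ hRw hh₀ q N T ?_
  · rintro c ⟨t, h1, ⟨a, -, -, h2⟩, -, h4⟩
    exact ⟨t, h1, ⟨_, h2⟩, h4⟩
  · unfold SDS at St
    rw [← hRd] at St
    exact St

end Crest.Agent.R143.LnkLx927
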