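import Crest.Agent.R143.LayU_416

/-!
# Row 143 (S0194), box R1f: the extreme gate (helper416)

* `ext_edge` : a coarse edge going down in the last column
* `LayU.ext_le` : all fine vertices are at most in the column of this part of the fine path
* **`LayU.extreme`** : a gate `a` with seven straight tiles `a - 3, …, a + 3` such that all tile regions
  (of half width `A'`) lie in `{Y < A'}` of the frame of `a` (for the index half of SEP, 927 / 686)
-/

set_option autoImplicit false
set_option linter.unusedSimpArgs false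

noncomputable section

open scoped Classical

namespace Crest.Agent.R143.LayUx416

open Crest.Agent.R143.TileRx228
open Crest.Agent.R143.LayQx811
open Crest.Agent.R143.Layx416
open Crest.Agent.R143.PolyUx346
open Crest.Agent.R143.Finex422 (Fine Cl ro)
open Crest.Agent.R143.Brkx478 (Bk cells Conn cells_finite)
open Crest.Agent.R158.Sp896 (V Adj lc rc)
open Crest.Agent.R143.Gatex838 (X Y)

/-- **a coarse edge in the last column, going down** -/
theorem ext_edge {F : Set V} {n : ℕ} {p : ℤ → V} (C : Cl F n p) (hf : F.Finite) :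
    ∃ k, p (k + 1) = ((p k).1, (p k).2 - 1) ∧ ∀ l, (p l).1 ≤ (p k).1 := by
  have hne : F.Nonempty := ⟨_, C.right 0⟩
  obtain ⟨q, hq, hmax⟩ := hf.exists_maximalFor (fun q : V => q.1) F hne
  have hmax' : ∀ c ∈ F, c.1 ≤ q.1 := fun c hc => by
    by_contra h
    exact absurd (hmax hc (by simp only; omega)) (by simp only; omega)
  obtain ⟨k, k1, k2⟩ := C.all (q.1 + 1, q.2 + 1) (q.1 + 1, q.2) (by unfold Adj; simp)
    (by
      have : rc (q.1 + 1, q.2 + 1) (q.1 + 1, q.2) = q := by
        unfold rc
        ext <;> simp only <;> omega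
      rw [this]
      exact hq)
    (by
      have : lc (q.1 + 1, q.2 + 1) (q.1 + 1, q.2) = (q.1 + 1, q.2) := by
        unfold lc
        ext <;> simp only <;> omega
      rw [this]
      intro h
      have := hmax' _ h
      simp only at this
      omega)
  refine ⟨k, ?_, fun l => ?_⟩
  · rw [k2, k1]
    ext <;> simp
  · rw [k1]
    have h1 := hmax' _ (C.right l)
    have h2 := C.step l
    unfold rc at h1
    unfold Adj at h2
    simp only at h1 ⊢
    omega

namespace LayU

variable {u : Poly} {m M : ℕ} {p W : ℤ → ℤ × ℤ} {A e : ℤ → ℤ}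

theorem exact_le (H : LayU u m M p W A e) {x : ℤ} (hx : ∀ l, (p l).1 ≤ x) (b : ℤ) :
    (W b).1 ≤ m * x + 1 := by
  obtain ⟨l, l1, l2⟩ := H.fine.loc b
  obtain ⟨t, t0, t1, hW⟩ := H.fine.exact l b l1 l2.le
  have hs := H.fine.cl.step l
  have h1 := hx l
  have h2 := hx (l + 1)
  have hm : (0 : ℤ) ≤ m := Int.natCast_nonneg m
  have hm1 := mul_le_mul_of_nonneg_left h1 hm
  have hm2 := mul_le_mul_of_nonneg_left h2 hm
  rw [hW]
  simp only [ro, Prod.fst_add, Prod.smul_fst, Prod.fst_sub, Prod.snd_sub, smul_eq_mul]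
  unfold Adj at hs
  rcases hs with ⟨a1, a2⟩ | ⟨a1, a2⟩ | ⟨a1, a2⟩ | ⟨a1, a2⟩
  · rw [a1] at hm2
    rw [a1, a2, show t * ((p l).1 + 1 - (p l).1) = t by ring]
    have : (m : ℤ) * ((p l).1 + 1) = m * (p l).1 + m := by ring
    omega
  · rw [a1, a2, show t * ((p l).1 - 1 - (p l).1) = -t by ring]
    omega
  · rw [a1, a2, show t * ((p l).1 - (p l).1) = 0 by ring]
    omega
  · rw [a1, a2, show t * ((p l).1 - (p l).1) = 0 by ring]
    omega

/-- tile regions left of the column `x` -/
theorem RR_le (H : LayU u m M p W A e) {x : ℤ} (hx : ∀ b, (W b).1 ≤ x) {h a' b' : ℝ} (hh : 0 < h)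
    (ha : 0 < a') (hb : b' ≤ h) {b : ℤ} {s : ℂ} (hs : s ∈ RR a' b' h W b) : s.re < h * x + a' := by
  have key : ∀ w : ℤ × ℤ, U4 (w - W b) → w.1 ≤ x → s ∈ Arm a' b' (cen h W b) (cz (w - W b)) →
      s.re < h * x + a' := by
    intro w hu hw hs
    rw [mem_arm hu] at hs
    obtain ⟨⟨h1, h2⟩, h3⟩ := hs
    simp only [Complex.sub_re, Complex.sub_im, FineDx576.cen_re, FineDx576.cen_im] at h1 h2 h3
    have e0 : h * (W b).1 ≤ h * x := by
      have : ((W b).1 : ℝ) ≤ x := by exact_mod_cast hx b
      exact mul_le_mul_of_nonneg_left this hh.le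
    rw [abs_lt] at h3
    rcases hu with hu | hu | hu | hu
    · rw [hu] at h1 h2 h3
      simp only [Int.cast_one, Int.cast_zero, one_mul, zero_mul, add_zero, sub_zero] at h1 h2 h3
      have e1 : h * ((W b).1 + 1) ≤ h * x := by
        have e2 : (w - W b).1 = 1 := by rw [hu]
        rw [Prod.fst_sub] at e2
        have : ((W b).1 + 1 : ℝ) ≤ x := by exact_mod_cast (show (W b).1 + 1 ≤ x by omega)
        exact mul_le_mul_of_nonneg_left this hh.le
      linarith
    · rw [hu] at h1 h2 h3
      simp only [Int.cast_one, Int.cast_zero, one_mul, zero_mul, zero_add, zero_sub] at h1 h2 h3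
      linarith
    · rw [hu] at h1 h2 h3
      simp only [Int.cast_one, Int.cast_zero, Int.cast_neg, one_mul, zero_mul, add_zero, sub_zero,
        zero_add, zero_sub, neg_mul] at h1 h2 h3
      linarith
    · rw [hu] at h1 h2 h3
      simp only [Int.cast_one, Int.cast_zero, Int.cast_neg, one_mul, zero_mul, add_zero, sub_zero,
        zero_add, zero_sub, neg_mul] at h1 h2 h3
      linarith
  rcases hs with hs | hs
  · exact key _ (FPath.step' H.lay.fp b) (hx _) hs
  · exact key _ (H.lay.fp.step b) (hx _) hs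

/-- **the extreme gate** -/
theorem extreme (H : LayU u m M p W A e) : ∃ a : ℤ,
    (∀ b, a - 3 ≤ b → b ≤ a + 4 → ge W b = -Complex.I) ∧
    (∀ b, a - 3 ≤ b → b ≤ a + 3 → ge W (b + 1) = ge W b) ∧
    (∀ b, (W b).1 ≤ (W a).1) ∧ (W (a - 1)).1 = (W a).1 ∧
    ∀ {h a' b' : ℝ}, 0 < h → 0 < a' → b' ≤ h → ∀ b, ∀ s ∈ RR a' b' h W b,
      Y (gz h W a) (ge W a) s < a' := by
  obtain ⟨k, k1, k2⟩ := ext_edge H.fine.cl (cells_finite u.U.finite_toSet)
  have hl := H.fine.Alen k
  have hm := H.m_pos
  have hD : p (k + 1) - p k = (0, -1) := by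
    rw [k1]
    ext <;> simp
  have hge : ∀ b, A k < b → b ≤ A (k + 1) → ge W b = -Complex.I := by
    intro b h1 h2
    have := H.fine.step k (b - 1) (by omega) (by omega)
    rw [sub_add_cancel, hD] at this
    unfold ge
    rw [this]
    apply Complex.ext <;> simp [cz]
  have hW : ∀ b, A k ≤ b → b ≤ A (k + 1) → (W b).1 = m * (p k).1 + 1 := by
    intro b h1 h2
    obtain ⟨t, t0, t1, hW⟩ := H.fine.exact k b h1 h2
    rw [hW, hD]
    simp [ro]
  have hle := H.exact_le k2
  refine ⟨A k + 4, fun b h1 h2 => hge b (by omega) (by omega), fun b h1 h2 => ?_, fun b => ?_, ?_, ?_⟩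
  · rw [hge b (by omega) (by omega), hge (b + 1) (by omega) (by omega)]
  · rw [hW (A k + 4) (by omega) (by omega)]
    exact hle b
  · rw [hW _ (by omega) (by omega), hW _ (by omega) (by omega)]
  · intro h a' b' hh ha hb b s hs
    have h1 := H.RR_le (x := m * (p k).1 + 1) hle hh ha hb hs
    have h2 : (gz h W (A k + 4)).re = h * ((m * (p k).1 + 1 : ℤ) : ℝ) := by
      have e1 := hW (A k + 4) (by omega) (by omega)
      have e2 := hW (A k + 4 - 1) (by omega) (by omega)
      unfold gz cz
      rw [e1, e2]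
      simp
    rw [hge _ (by omega) (by omega)]
    have h3 : Y (gz h W (A k + 4)) (-Complex.I) s = s.re - (gz h W (A k + 4)).re := by
      simp [Y, Complex.div_im, Complex.normSq]
    rw [h3, h2]
    linarith

end LayU

end Crest.Agent.R143.LayUx416
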