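import Crest.Agent.R143.Flip_166

/-!
# Row 143 (S0194), RIG box R5b (helper166): exact closing with three giants on one closed map

Loop `P 0 .. P (N-1)` of `x`; outer arc = times `0 .. n`; root gap `g₀` at the time `r` (`rho g₀ = P r`,
`out g₀ = P (r+1)`), no left cell of the times `≤ r` is a left cell of the times in `(r, n]` (`cut`).

* `Arc` ; `LA`, `LB` : left cells of the times in `(r, n]`, of the times `≤ r`
* `arc_in` : inner gap (time in `[n, N)`) : in the block of `g₀` in `M` iff in the coarse map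
* `arc_A`, `arc_B` : outer gaps: unpinched and before the first touch `tauA` (after the last touch
  `tauB`)
* `arc_sum` : **closing identity**
* `end_A`, `end_B` : the end cells of the root block of the coarse map are `lc tauA`, `lc tauB`
* `gm A B W` : the giants map; `CCon`, `gm_con`, `lc_ccon`, `rc_ccon`, `union_ccon`
* `closing` : everything for the giants map, `x = cfg M μ`
-/

set_option autoImplicit false

noncomputable section

open scoped Classical

namespace Crest.Agent.R143.R5bx166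

open Crest.Agent.R143.Frame1x395 Crest.Agent.R143.Frame2x395 Crest.Agent.R143.Frame3x395
  Crest.Agent.R143.Frame4x395 Crest.Agent.R143.Frame8x395 Crest.Agent.R143.Frame9x395
  Crest.Agent.R143.NonXx592 Crest.Agent.R143.Coarsex166 Crest.Agent.R143.Coarse2x166
  Crest.Agent.R143.Flipx166

variable {D C C' : Type} {M : CMap D C} {x : D → ZMod 2}

/-- left cells of the times in `(a, b]` -/
def LA (M : CMap D C) (x : D → ZMod 2) (p : D) (a b : ℕ) : Set C :=
  {c | ∃ u, a < u ∧ u ≤ b ∧ lc M x p u = c}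

/-- left cells of the times `≤ b` -/
def LB (M : CMap D C) (x : D → ZMod 2) (p : D) (b : ℕ) : Set C :=
  {c | ∃ u, u ≤ b ∧ lc M x p u = c}

/-- loop, outer arc, root gap -/
structure Arc (M : CMap D C) (x : D → ZMod 2) (p : D) (N n r : ℕ) (g₀ : D) : Prop where
  L : Loop M x p N
  rn : r < n
  nN : n < N
  gp : Gp M x g₀
  rg : M.rho g₀ = P M x p r
  cut : ∀ u, r < u → u ≤ n → ∀ v, v ≤ r → lc M x p u ≠ lc M x p v

variable {p g₀ : D} {N n r : ℕ}

theorem Arc.cellA (T : Arc M x p N n r g₀) : M.cell g₀ = lc M x p (r + 1) := by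
  rw [← cell_out T.L.c T.gp, out_eq T.L.c T.gp T.rg]

theorem Arc.cellB (T : Arc M x p N n r g₀) : M.cell (M.rho g₀) = lc M x p r := by
  rw [T.rg]

theorem Arc.disj (T : Arc M x p N n r g₀) : Disjoint (LA M x p r n) (LB M x p r) := by
  rw [Set.disjoint_left]
  rintro c ⟨u, h1, h2, rfl⟩ ⟨v, h3, h4⟩
  exact T.cut u h1 h2 v h3 h4.symm

/-- gaps related to a gap of the loop are on the loop -/
theorem loop_mem [Finite D] (L : Loop M x p N) (hN : 0 < N) {g k : D} (hg : Gp M x g)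
    (hk : Gp M x k) {a : ℕ} (ga : M.rho g = P M x p a) (H : Rel M x g k) :
    ∃ b, b < N ∧ M.rho k = P M x p b := by
  have key : ∃ q, (stp M x)^[q] (out M g) = M.rho k := by
    rcases H (M.cell g) with rfl | ⟨q, e, -⟩ | ⟨q, e, -⟩
    · refine ⟨N - 1, ?_⟩
      rw [out_eq L.c hg ga, ga]
      show P M x (P M x p (a + 1)) (N - 1) = _
      rw [← P_add, show N - 1 + (a + 1) = a + N by omega]
      exact P_per L.per a
    · exact ⟨q, e⟩
    · exact come_back L.c hk hg e
  obtain ⟨q, e⟩ := key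
  have e1 : M.rho k = P M x p (q + (a + 1)) := by
    rw [P_add, ← out_eq L.c hg ga]
    exact e.symm
  refine ⟨(q + (a + 1)) % N, Nat.mod_lt _ hN, ?_⟩
  rw [e1]
  conv_lhs => rw [← Nat.mod_add_div (q + (a + 1)) N]
  have : ∀ r, P M x p (N * r) = p := by
    intro r
    induction r with
    | zero => rfl
    | succ r ih => rw [Nat.mul_succ, P_add, L.per, ih]
  rw [P_add, this]

theorem loop_uniq (L : Loop M x p N) {a b : ℕ} (ha : a < N) (hb : b < N)
    (e : P M x p a = P M x p b) : a = b := by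
  rcases lt_trichotomy a b with h | h | h
  · exact absurd e (L.inj a b h hb)
  · exact h
  · exact absurd e.symm (L.inj b a h ha)

/-- the coarse map sees the giants `A = LA`, `B = LB` as the classes `a`, `b`; the other left cells
of the loop are alone in their classes among the left cells -/
structure Gi (M : CMap D C) (π : C → C') (x : D → ZMod 2) (p : D) (N n r : ℕ) (a b : C') :
    Prop where
  ab : a ≠ b
  iA : ∀ c, π c = a ↔ c ∈ LA M x p r n
  iB : ∀ c, π c = b ↔ c ∈ LB M x p r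
  one : ∀ u v, u < N → v < N → π (lc M x p u) = π (lc M x p v) → π (lc M x p u) ≠ a →
    π (lc M x p u) ≠ b → lc M x p u = lc M x p v

variable {π : C → C'} {hπ : ClsCon M π} {a b : C'}

theorem loop_coarse (L : Loop M x p N) (hx : IsC (coarse M π hπ) ∅ x) :
    Loop (coarse M π hπ) x p N := ⟨hx, L.occ, L.per, L.inj⟩

/-- **inner gaps** -/
theorem arc_in (T : Arc M x p N n r g₀) (hx : IsC (coarse M π hπ) ∅ x)
    (G : Gi M π x p N n r a b) {h : D} (hh : Gp M x h) {t : ℕ} (hnt : n ≤ t) (htN : t < N)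
    (ht : M.rho h = P M x p t) : Rel M x g₀ h ↔ Rel (coarse M π hπ) x g₀ h := by
  have hrn := T.rn
  refine ⟨fun H => ?_, rel_of_coarse⟩
  have H1 := (T.L.rel (by omega) htN T.gp hh T.rg ht).1 H
  refine ((loop_coarse T.L hx).rel (by omega) htN T.gp hh T.rg ht).2 ?_
  intro u hu1 hu2 v hv1 hv2 e
  have e' : π (lc M x p u) = π (lc M x p v) := e
  by_cases hA : π (lc M x p u) = a
  · obtain ⟨w, hw1, hw2, hw3⟩ := (G.iA _).1 (e' ▸ hA)
    exact H1 w hw1 (by omega) v hv1 hv2 hw3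
  · by_cases hB : π (lc M x p u) = b
    · obtain ⟨w, hw1, hw2⟩ := (G.iB _).1 hB
      exact H1 u hu1 hu2 w (by omega) (Or.inl hw1) hw2.symm
    · exact H1 u hu1 hu2 v hv1 hv2 (G.one u v (by omega) hv1 e' hA hB)

/-- an outer gap is not in the block of `g₀` in the coarse map -/
theorem arc_not (T : Arc M x p N n r g₀) (hx : IsC (coarse M π hπ) ∅ x)
    (G : Gi M π x p N n r a b) {h : D} (hh : Gp M x h) {t : ℕ} (htn : t < n) (htr : t ≠ r)
    (ht : M.rho h = P M x p t) : ¬ Rel (coarse M π hπ) x g₀ h := by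
  have hnN := T.nN
  have hA : ∀ u, r < u → u ≤ n → π (lc M x p u) = a := fun u h1 h2 =>
    (G.iA _).2 ⟨u, h1, h2, rfl⟩
  have hB : ∀ u, u ≤ r → π (lc M x p u) = b := fun u h1 => (G.iB _).2 ⟨u, h1, rfl⟩
  intro H
  rcases lt_or_gt_of_ne htr with c | c
  · have H' : Rel (coarse M π hπ) x h g₀ := fun e => (H e).symm
    have H1 := ((loop_coarse T.L hx).rel c (by have := T.rn; omega) hh T.gp ht T.rg).1 H'
    refine H1 (t + 1) (by omega) (by omega) t (by omega) (Or.inl le_rfl) ?_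
    show π (lc M x p (t + 1)) = π (lc M x p t)
    rw [hB _ (by omega), hB _ (by omega)]
  · have H1 := ((loop_coarse T.L hx).rel c (by omega) T.gp hh T.rg ht).1 H
    refine H1 t c le_rfl (t + 1) (by omega) (Or.inr (by omega)) ?_
    show π (lc M x p t) = π (lc M x p (t + 1))
    rw [hA _ c (by omega), hA _ (by omega) (by omega)]

/-! ### touches -/

/-- the left cell of the outer time `u` is touched by the inner arc (times in `[n, N]`) -/
def Tch (M : CMap D C) (x : D → ZMod 2) (p : D) (N n u : ℕ) : Prop :=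
  ∃ v, n ≤ v ∧ v ≤ N ∧ lc M x p v = lc M x p u

theorem ex_tauA (T : Arc M x p N n r g₀) : ∃ u, r < u ∧ u ≤ n ∧ Tch M x p N n u :=
  ⟨n, T.rn, le_rfl, n, le_rfl, T.nN.le, rfl⟩

/-- first touched time in `(r, n]` -/
def tauA (M : CMap D C) (x : D → ZMod 2) (p : D) (N n r : ℕ) : ℕ :=
  if h : ∃ u, r < u ∧ u ≤ n ∧ Tch M x p N n u then Nat.find h else n

theorem tauA_spec (T : Arc M x p N n r g₀) :
    r < tauA M x p N n r ∧ tauA M x p N n r ≤ n ∧ Tch M x p N n (tauA M x p N n r) := by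
  unfold tauA
  rw [dif_pos (ex_tauA T)]
  exact Nat.find_spec (ex_tauA T)

theorem tauA_le (T : Arc M x p N n r g₀) {u : ℕ} (h1 : r < u) (h2 : u ≤ n)
    (h3 : Tch M x p N n u) : tauA M x p N n r ≤ u := by
  unfold tauA
  rw [dif_pos (ex_tauA T)]
  exact Nat.find_min' (ex_tauA T) ⟨h1, h2, h3⟩

/-- last touched time in `[0, r]` -/
def tauB (M : CMap D C) (x : D → ZMod 2) (p : D) (N n r : ℕ) : ℕ :=
  Nat.findGreatest (Tch M x p N n) r

theorem tch_zero (T : Arc M x p N n r g₀) : Tch M x p N n 0 :=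
  ⟨N, T.nN.le, le_rfl, by rw [← Nat.zero_add N]; exact lc_add T.L 0⟩

theorem tauB_spec (T : Arc M x p N n r g₀) :
    tauB M x p N n r ≤ r ∧ Tch M x p N n (tauB M x p N n r) :=
  ⟨Nat.findGreatest_le r, Nat.findGreatest_spec (Nat.zero_le r) (tch_zero T)⟩

theorem le_tauB {u : ℕ} (h1 : u ≤ r) (h2 : Tch M x p N n u) : u ≤ tauB M x p N n r :=
  Nat.le_findGreatest h1 h2

/-- outer gaps after `g₀` -/
theorem arc_A (T : Arc M x p N n r g₀) {h : D} (hh : Gp M x h) {t : ℕ} (hrt : r < t)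
    (htn : t < n) (ht : M.rho h = P M x p t) :
    Rel M x g₀ h ↔ t < tauA M x p N n r ∧
      ∀ u, r < u → u ≤ t → ∀ v, t < v → v ≤ n → lc M x p u ≠ lc M x p v := by
  have hnN := T.nN
  rw [T.L.rel hrt (by omega) T.gp hh T.rg ht]
  constructor
  · intro H
    refine ⟨?_, fun u hu1 hu2 v hv1 hv2 => H u hu1 hu2 v (by omega) (Or.inr hv1)⟩
    by_contra hc
    obtain ⟨h1, h2, v, hv1, hv2, hv3⟩ := tauA_spec T
    rcases Nat.lt_or_ge v N with hl | hl
    · exact H _ h1 (by omega) v hl (Or.inr (by omega)) hv3.symm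
    · have hv : v = 0 + N := by omega
      rw [hv, lc_add T.L 0] at hv3
      exact T.cut _ h1 h2 0 (Nat.zero_le _) hv3.symm
  · rintro ⟨h1, h2⟩ u hu1 hu2 v hv1 hv2 e
    rcases hv2 with hv2 | hv2
    · exact T.cut u hu1 (by omega) v hv2 e
    · rcases le_or_gt v n with c | c
      · exact h2 u hu1 hu2 v hv2 c e
      · have := tauA_le T hu1 (by omega) ⟨v, c.le, by omega, e.symm⟩
        omega

/-- outer gaps before `g₀` -/
theorem arc_B (T : Arc M x p N n r g₀) {h : D} (hh : Gp M x h) {t : ℕ} (htr : t < r)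
    (ht : M.rho h = P M x p t) :
    Rel M x g₀ h ↔ tauB M x p N n r ≤ t ∧
      ∀ u, t < u → u ≤ r → ∀ v, v ≤ t → lc M x p u ≠ lc M x p v := by
  have hnN := T.nN
  have hrn := T.rn
  have hs : Rel M x g₀ h ↔ Rel M x h g₀ := ⟨fun H e => (H e).symm, fun H e => (H e).symm⟩
  rw [hs, T.L.rel htr (by omega) hh T.gp ht T.rg]
  constructor
  · intro H
    refine ⟨?_, fun u hu1 hu2 v hv => H u hu1 hu2 v (by omega) (Or.inl hv)⟩
    by_contra hc
    obtain ⟨h1, v, hv1, hv2, hv3⟩ := tauB_spec T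
    rcases Nat.lt_or_ge v N with hl | hl
    · exact H _ (by omega) h1 v hl (Or.inr (by omega)) hv3.symm
    · have hv : v = 0 + N := by omega
      rw [hv, lc_add T.L 0] at hv3
      exact H _ (by omega) h1 0 (by omega) (Or.inl (Nat.zero_le _)) hv3.symm
  · rintro ⟨h1, h2⟩ u hu1 hu2 v hv1 hv2 e
    rcases hv2 with hv2 | hv2
    · exact h2 u hu1 hu2 v hv2 e
    · rcases le_or_gt v n with c | c
      · exact T.cut v hv2 c u hu2 e.symm
      · have := le_tauB (M := M) (x := x) (p := p) (N := N) (n := n) (r := r) hu2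
          ⟨v, c.le, by omega, e.symm⟩
        omega

/-! ### the closing identity -/

section sum

variable [Fintype D]

/-- the unpinched outer gaps after `g₀`, before the first touch -/
def OA (M : CMap D C) (x : D → ZMod 2) (p : D) (N n r : ℕ) : Finset D :=
  Finset.univ.filter fun h => Gp M x h ∧ ∃ t, r < t ∧ t < n ∧ M.rho h = P M x p t ∧
    t < tauA M x p N n r ∧
      ∀ u, r < u → u ≤ t → ∀ v, t < v → v ≤ n → lc M x p u ≠ lc M x p v

/-- the unpinched outer gaps before `g₀`, after the last touch -/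
def OB (M : CMap D C) (x : D → ZMod 2) (p : D) (N n r : ℕ) : Finset D :=
  Finset.univ.filter fun h => Gp M x h ∧ ∃ t, t < r ∧ M.rho h = P M x p t ∧
    tauB M x p N n r ≤ t ∧ ∀ u, t < u → u ≤ r → ∀ v, v ≤ t → lc M x p u ≠ lc M x p v

/-- **closing identity**: sum over the plane block of `g₀` -/
theorem arc_sum (T : Arc M x p N n r g₀) (hx : IsC (coarse M π hπ) ∅ x)
    (G : Gi M π x p N n r a b) {A : Type} [AddCommMonoid A] (f : D → A) :
    ∑ h ∈ blk M x g₀, f h = f g₀ + ∑ h ∈ (blk (coarse M π hπ) x g₀).erase g₀, f h +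
      ∑ h ∈ OA M x p N n r, f h + ∑ h ∈ OB M x p N n r, f h := by
  have hnN := T.nN
  have hrn := T.rn
  have hN : 0 < N := by omega
  have huniq : ∀ {h : D} {s t : ℕ}, s < N → t < N → M.rho h = P M x p s →
      M.rho h = P M x p t → s = t := fun hs ht e1 e2 => loop_uniq T.L hs ht (e1.symm.trans e2)
  -- inner members
  have hin : ∀ h ∈ (blk (coarse M π hπ) x g₀).erase g₀, ∃ t, n ≤ t ∧ t < N ∧
      M.rho h = P M x p t := by
    intro h hh
    obtain ⟨h1, h2⟩ := Finset.mem_erase.1 hh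
    obtain ⟨h3, h4⟩ := mem_blk.1 h2
    obtain ⟨t, ht1, ht2⟩ := loop_mem T.L hN T.gp h3 T.rg (rel_of_coarse h4)
    refine ⟨t, ?_, ht1, ht2⟩
    by_contra hc
    refine arc_not T hx G h3 (by omega) ?_ ht2 h4
    rintro rfl
    exact h1 (rho_inj M (ht2.trans T.rg.symm))
  have hset : blk M x g₀ = insert g₀ (((blk (coarse M π hπ) x g₀).erase g₀ ∪
      OA M x p N n r) ∪ OB M x p N n r) := by
    ext h
    rw [Finset.mem_insert, Finset.mem_union, Finset.mem_union, Finset.mem_erase]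
    constructor
    · intro hh
      obtain ⟨h3, h4⟩ := mem_blk.1 hh
      obtain ⟨t, ht1, ht2⟩ := loop_mem T.L hN T.gp h3 T.rg h4
      by_cases h0 : h = g₀
      · exact Or.inl h0
      right
      have htr : t ≠ r := by
        rintro rfl
        exact h0 (rho_inj M (ht2.trans T.rg.symm))
      rcases Nat.lt_or_ge t n with c | c
      · rcases lt_or_gt_of_ne htr with c' | c'
        · right
          have := (arc_B T h3 c' ht2).1 h4
          exact Finset.mem_filter.2 ⟨Finset.mem_univ _, h3, t, c', ht2, this.1, this.2⟩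
        · left; right
          have := (arc_A T h3 c' c ht2).1 h4
          exact Finset.mem_filter.2 ⟨Finset.mem_univ _, h3, t, c', c, ht2, this.1, this.2⟩
      · left; left
        exact ⟨h0, mem_blk.2 ⟨h3, (arc_in T hx G h3 c ht1 ht2).1 h4⟩⟩
    · rintro (rfl | (⟨-, h2⟩ | h2) | h2)
      · exact self_mem T.gp
      · exact blk_coarse_sub h2
      · obtain ⟨-, h3, t, h4, h5, h6, h7, h8⟩ := Finset.mem_filter.1 h2
        exact mem_blk.2 ⟨h3, (arc_A T h3 h4 h5 h6).2 ⟨h7, h8⟩⟩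
      · obtain ⟨-, h3, t, h4, h5, h6, h7⟩ := Finset.mem_filter.1 h2
        exact mem_blk.2 ⟨h3, (arc_B T h3 h4 h5).2 ⟨h6, h7⟩⟩
  have hd1 : Disjoint ((blk (coarse M π hπ) x g₀).erase g₀) (OA M x p N n r) := by
    rw [Finset.disjoint_left]
    intro h h1 h2
    obtain ⟨t, ht1, ht2, ht3⟩ := hin h h1
    obtain ⟨-, -, s, hs1, hs2, hs3, -⟩ := Finset.mem_filter.1 h2
    have := huniq (by omega) ht2 hs3 ht3
    omega
  have hd2 : Disjoint ((blk (coarse M π hπ) x g₀).erase g₀ ∪ OA M x p N n r)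
      (OB M x p N n r) := by
    rw [Finset.disjoint_left]
    intro h h1 h2
    obtain ⟨-, -, s, hs1, hs2, -⟩ := Finset.mem_filter.1 h2
    rcases Finset.mem_union.1 h1 with h1 | h1
    · obtain ⟨t, ht1, ht2, ht3⟩ := hin h h1
      have := huniq (by omega) ht2 hs2 ht3
      omega
    · obtain ⟨-, -, t, ht1, ht2, ht3, -⟩ := Finset.mem_filter.1 h1
      have := huniq (by omega) (by omega) hs2 ht3
      omega
  have hd3 : g₀ ∉ ((blk (coarse M π hπ) x g₀).erase g₀ ∪ OA M x p N n r) ∪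
      OB M x p N n r := by
    intro h
    rcases Finset.mem_union.1 h with h | h
    · rcases Finset.mem_union.1 h with h | h
      · exact (Finset.mem_erase.1 h).1 rfl
      · obtain ⟨-, -, t, ht1, ht2, ht3, -⟩ := Finset.mem_filter.1 h
        have := huniq (h := g₀) (by omega) (by omega) T.rg ht3
        omega
    · obtain ⟨-, -, t, ht1, ht2, -⟩ := Finset.mem_filter.1 h
      have := huniq (h := g₀) (by omega) (by omega) T.rg ht2
      omega
  rw [hset, Finset.sum_insert hd3, Finset.sum_union hd2, Finset.sum_union hd1]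
  simp only [add_assoc]

/-- **the end cell on `A`** -/
theorem end_A (T : Arc M x p N n r g₀) (hx : IsC (coarse M π hπ) ∅ x)
    (G : Gi M π x p N n r a b) :
    M.cell (M.rho (kA (coarse M π hπ) x g₀)) = lc M x p (tauA M x p N n r) := by
  have hnN := T.nN
  have hrn := T.rn
  obtain ⟨h1, h2⟩ := kA_spec (M := coarse M π hπ) hx T.gp
  have h2' : π (M.cell (M.rho (kA (coarse M π hπ) x g₀))) = π (M.cell g₀) := h2
  have hga : π (M.cell g₀) = a := (G.iA _).2 ⟨r + 1, by omega, by omega, T.cellA.symm⟩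
  have hgb : π (M.cell (M.rho g₀)) = b := (G.iB _).2 ⟨r, le_rfl, T.cellB.symm⟩
  set k := kA (coarse M π hπ) x g₀ with hk
  obtain ⟨h3, h4⟩ := mem_blk.1 h1
  obtain ⟨t, ht1, ht2⟩ := loop_mem T.L (by omega) T.gp h3 T.rg (rel_of_coarse h4)
  have hkg : k ≠ g₀ := by
    intro e
    rw [e, hgb, hga] at h2'
    exact G.ab h2'.symm
  have hnt : n ≤ t := by
    by_contra hc
    refine arc_not T hx G h3 (by omega) ?_ ht2 h4
    rintro rfl
    exact hkg (rho_inj M (ht2.trans T.rg.symm))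
  have H := (T.L.rel (by omega) ht1 T.gp h3 T.rg ht2).1 (rel_of_coarse h4)
  have hct : M.cell (M.rho k) = lc M x p t := by rw [ht2]
  rw [hct]
  obtain ⟨w, hw1, hw2, hw3⟩ := (G.iA _).1 (show π (lc M x p t) = a by rw [← hct, h2', hga])
  obtain ⟨hu1, hu2, v, hv1, hv2, hv3⟩ := tauA_spec T
  have hvN : v < N := by
    rcases Nat.lt_or_ge v N with hl | hl
    · exact hl
    · exfalso
      have hv : v = 0 + N := by omega
      rw [hv, lc_add T.L 0] at hv3
      exact T.cut _ hu1 hu2 0 (Nat.zero_le _) hv3.symm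
  have hvt : v ≤ t := by
    by_contra hc
    exact H _ hu1 (by omega) v hvN (Or.inr (by omega)) hv3.symm
  have huw : tauA M x p N n r ≤ w := tauA_le T hw1 hw2 ⟨t, hnt, ht1.le, hw3.symm⟩
  rcases Nat.eq_or_lt_of_le huw with e | e
  · rw [e, hw3]
  rcases Nat.eq_or_lt_of_le hvt with e2 | e2
  · rw [← e2, hv3]
  rcases Nat.eq_or_lt_of_le (show w ≤ v by omega) with e3 | e3
  · rw [← hw3, e3, hv3]
  · have := T.L.nc (t1 := tauA M x p N n r) (t2 := w) (t3 := v) (t4 := t) e e3 e2 (by omega)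
      hv3.symm hw3
    rw [this, hw3]

/-- **the end cell on `B`** -/
theorem end_B (T : Arc M x p N n r g₀) (hx : IsC (coarse M π hπ) ∅ x)
    (G : Gi M π x p N n r a b) :
    M.cell (kB (coarse M π hπ) x g₀) = lc M x p (tauB M x p N n r) := by
  have hnN := T.nN
  have hrn := T.rn
  obtain ⟨h1, h2⟩ := kB_spec (M := coarse M π hπ) hx T.gp
  have h2' : π (M.cell (kB (coarse M π hπ) x g₀)) = π (M.cell (M.rho g₀)) := h2
  have hga : π (M.cell g₀) = a := (G.iA _).2 ⟨r + 1, by omega, by omega, T.cellA.symm⟩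
  have hgb : π (M.cell (M.rho g₀)) = b := (G.iB _).2 ⟨r, le_rfl, T.cellB.symm⟩
  set k := kB (coarse M π hπ) x g₀ with hk
  obtain ⟨h3, h4⟩ := mem_blk.1 h1
  obtain ⟨t, ht1, ht2⟩ := loop_mem T.L (by omega) T.gp h3 T.rg (rel_of_coarse h4)
  have hkg : k ≠ g₀ := by
    intro e
    rw [e, hgb, hga] at h2'
    exact G.ab h2'
  have hnt : n ≤ t := by
    by_contra hc
    refine arc_not T hx G h3 (by omega) ?_ ht2 h4
    rintro rfl
    exact hkg (rho_inj M (ht2.trans T.rg.symm))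
  have H := (T.L.rel (by omega) ht1 T.gp h3 T.rg ht2).1 (rel_of_coarse h4)
  have hct : M.cell k = lc M x p (t + 1) := by
    rw [← cell_out T.L.c h3, out_eq T.L.c h3 ht2]
  rw [hct]
  obtain ⟨w, hw1, hw2⟩ := (G.iB _).1 (show π (lc M x p (t + 1)) = b by rw [← hct, h2', hgb])
  obtain ⟨hu1, v, hv1, hv2, hv3⟩ := tauB_spec T
  have hvt : t + 1 ≤ v := by
    by_contra hc
    exact H v (by omega) (by omega) _ (by omega) (Or.inl hu1) hv3
  have huw : w ≤ tauB M x p N n r := le_tauB hw1 ⟨t + 1, by omega, by omega, hw2.symm⟩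
  rcases Nat.eq_or_lt_of_le huw with e | e
  · rw [← e, hw2]
  rcases Nat.eq_or_lt_of_le hvt with e2 | e2
  · rw [e2, hv3]
  by_cases e4 : v < w + N
  · have := T.L.nc (t1 := w) (t2 := tauB M x p N n r) (t3 := t + 1) (t4 := v) e (by omega) e2 e4
      hw2 hv3.symm
    rw [← hw2, this]
  · have hv : v = w + N := by omega
    rw [← hv3, hv, lc_add T.L w, hw2]

end sum

/-! ### the giants map -/

/-- adjacent through a live dart, inside `A` -/
def Nb (M : CMap D C) (A : Set C) (c c' : C) : Prop :=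
  c ∈ A ∧ c' ∈ A ∧ ∃ d ∈ M.live, M.cell d = c ∧ M.cell (M.rho d) = c'

/-- connected set of cells -/
def CCon (M : CMap D C) (A : Set C) : Prop :=
  ∀ c ∈ A, ∀ c' ∈ A, Relation.EqvGen (Nb M A) c c'

theorem nb_mono {A A' : Set C} (h : A ⊆ A') {c c' : C} (H : Relation.EqvGen (Nb M A) c c') :
    Relation.EqvGen (Nb M A') c c' := by
  induction H with
  | rel c c' h1 => exact Relation.EqvGen.rel _ _ ⟨h h1.1, h h1.2.1, h1.2.2⟩
  | refl c => exact Relation.EqvGen.refl _
  | symm c c' _ ih => exact Relation.EqvGen.symm _ _ ih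
  | trans c c' c'' _ _ ih1 ih2 => exact Relation.EqvGen.trans _ _ _ ih1 ih2

/-- a chain of cells -/
theorem chain_ccon {A : Set C} {f : ℕ → C} {a b : ℕ} (hA : ∀ u, a ≤ u → u ≤ b → f u ∈ A)
    (hf : ∀ u, a ≤ u → u < b → f u ∈ A → f (u + 1) ∈ A →
      Relation.EqvGen (Nb M A) (f u) (f (u + 1))) {u v : ℕ} (hau : a ≤ u) (huv : u ≤ v)
    (hvb : v ≤ b) : Relation.EqvGen (Nb M A) (f u) (f v) := by
  obtain ⟨k, rfl⟩ := Nat.exists_eq_add_of_le huv
  clear huv
  induction k with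
  | zero => exact Relation.EqvGen.refl _
  | succ k ih =>
    exact (ih (by omega)).trans _ _ _ (hf (u + k) (by omega) (by omega)
      (hA _ (by omega) (by omega)) (hA _ (by omega) (by omega)))

theorem step_nb {A : Set C} {d : D} (h1 : M.cell d ∈ A) (h2 : M.cell (M.rho d) ∈ A) :
    Relation.EqvGen (Nb M A) (M.cell d) (M.cell (M.rho d)) := by
  by_cases hd : d ∈ M.live
  · exact Relation.EqvGen.rel _ _ ⟨h1, h2, d, hd, rfl, rfl⟩
  · rw [M.dead d hd]
    exact Relation.EqvGen.refl _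

/-- consecutive left cells -/
theorem lc_step (hx : IsC M ∅ x) {p : D} (hp : x p = 1) {A : Set C} (u : ℕ)
    (h1 : lc M x p u ∈ A) (h2 : lc M x p (u + 1) ∈ A) :
    Relation.EqvGen (Nb M A) (lc M x p u) (lc M x p (u + 1)) := by
  by_cases e : M.cell (stp M x (P M x p u)) = M.cell (P M x p u)
  · have e1 : lc M x p (u + 1) = lc M x p u := by
      show M.cell (P M x p (u + 1)) = _
      rw [P_succ, e]
    rw [e1]
    exact Relation.EqvGen.refl _
  · obtain ⟨g, hg, e1, e2⟩ := gap_of_ne hx (P_occ hx hp u) e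
    have e3 : lc M x p (u + 1) = M.cell g := by
      show M.cell (P M x p (u + 1)) = _
      rw [P_succ, ← e2, cell_out hx hg]
    have e4 : lc M x p u = M.cell (M.rho g) := by rw [e1]
    rw [e4] at h1
    rw [e3] at h2
    rw [e3, e4]
    exact (step_nb h2 h1).symm _ _

/-- consecutive right cells -/
theorem rc_step (hx : IsC M ∅ x) {p : D} (hp : x p = 1) {A : Set C} (u : ℕ)
    (h1 : Rc M (P M x p u) ∈ A) (h2 : Rc M (P M x p (u + 1)) ∈ A) :
    Relation.EqvGen (Nb M A) (Rc M (P M x p u)) (Rc M (P M x p (u + 1))) := by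
  rcases right_cases hx hp u with ⟨-, e⟩ | ⟨-, e⟩
  · rw [e]
    exact Relation.EqvGen.refl _
  · rw [e] at h2 ⊢
    exact step_nb h1 h2

/-- the left cells of the times in `[a, b]` -/
theorem lc_ccon (hx : IsC M ∅ x) {p : D} (hp : x p = 1) (a b : ℕ) :
    CCon M {c | ∃ u, a ≤ u ∧ u ≤ b ∧ lc M x p u = c} := by
  rintro c ⟨u, hu1, hu2, rfl⟩ c' ⟨v, hv1, hv2, rfl⟩
  have key : ∀ u v, a ≤ u → u ≤ v → v ≤ b → Relation.EqvGen (Nb M {c | ∃ u, a ≤ u ∧ u ≤ b ∧
      lc M x p u = c}) (lc M x p u) (lc M x p v) := fun u v h1 h2 h3 =>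
    chain_ccon (A := {c | ∃ u, a ≤ u ∧ u ≤ b ∧ lc M x p u = c}) (f := fun u => lc M x p u)
      (a := a) (b := b) (fun w h4 h5 => ⟨w, h4, h5, rfl⟩)
      (fun w _ _ h4 h5 => lc_step hx hp w h4 h5) h1 h2 h3
  rcases le_total u v with h | h
  · exact key u v hu1 h hv2
  · exact (key v u hv1 h hu2).symm _ _

/-- the right cells of the times in `[a, b]` -/
theorem rc_ccon (hx : IsC M ∅ x) {p : D} (hp : x p = 1) (a b : ℕ) :
    CCon M {c | ∃ u, a ≤ u ∧ u ≤ b ∧ Rc M (P M x p u) = c} := by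
  rintro c ⟨u, hu1, hu2, rfl⟩ c' ⟨v, hv1, hv2, rfl⟩
  have key : ∀ u v, a ≤ u → u ≤ v → v ≤ b → Relation.EqvGen (Nb M {c | ∃ u, a ≤ u ∧ u ≤ b ∧
      Rc M (P M x p u) = c}) (Rc M (P M x p u)) (Rc M (P M x p v)) := fun u v h1 h2 h3 =>
    chain_ccon (A := {c | ∃ u, a ≤ u ∧ u ≤ b ∧ Rc M (P M x p u) = c})
      (a := a) (b := b) (f := fun u => Rc M (P M x p u)) (fun w h4 h5 => ⟨w, h4, h5, rfl⟩)
      (fun w _ _ h4 h5 => rc_step hx hp w h4 h5) h1 h2 h3
  rcases le_total u v with h | h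
  · exact key u v hu1 h hv2
  · exact (key v u hv1 h hu2).symm _ _

theorem la_ccon (hx : IsC M ∅ x) {p : D} (hp : x p = 1) (a b : ℕ) : CCon M (LA M x p a b) := by
  have e : LA M x p a b = {c | ∃ u, a + 1 ≤ u ∧ u ≤ b ∧ lc M x p u = c} := rfl
  rw [e]
  exact lc_ccon hx hp _ _

theorem lb_ccon (hx : IsC M ∅ x) {p : D} (hp : x p = 1) (b : ℕ) : CCon M (LB M x p b) := by
  have e : LB M x p b = {c | ∃ u, 0 ≤ u ∧ u ≤ b ∧ lc M x p u = c} := by
    ext c
    exact ⟨fun ⟨u, h1, h2⟩ => ⟨u, Nat.zero_le _, h1, h2⟩, fun ⟨u, _, h1, h2⟩ => ⟨u, h1, h2⟩⟩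
  rw [e]
  exact lc_ccon hx hp _ _

/-- two connected sets with a common cell -/
theorem union_ccon {A B : Set C} (hA : CCon M A) (hB : CCon M B) {c : C} (h1 : c ∈ A)
    (h2 : c ∈ B) : CCon M (A ∪ B) := by
  have key : ∀ b ∈ A ∪ B, Relation.EqvGen (Nb M (A ∪ B)) c b := by
    rintro b (h | h)
    · exact nb_mono Set.subset_union_left (hA c h1 b h)
    · exact nb_mono Set.subset_union_right (hB c h2 b h)
  exact fun a ha b hb => ((key a ha).symm _ _).trans _ _ _ (key b hb)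

/-- two connected sets with an edge in between -/
theorem union_ccon' {A B : Set C} (hA : CCon M A) (hB : CCon M B) {d : D} (h1 : M.cell d ∈ A)
    (h2 : M.cell (M.rho d) ∈ B) : CCon M (A ∪ B) := by
  have key : ∀ b ∈ A ∪ B, Relation.EqvGen (Nb M (A ∪ B)) (M.cell d) b := by
    rintro b (h | h)
    · exact nb_mono Set.subset_union_left (hA _ h1 b h)
    · have e1 : Relation.EqvGen (Nb M (A ∪ B)) (M.cell d) (M.cell (M.rho d)) :=
        step_nb (Or.inl h1) (Or.inr h2)
      exact e1.trans _ _ _ (nb_mono Set.subset_union_right (hB _ h2 b h))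
  exact fun a ha b hb => ((key a ha).symm _ _).trans _ _ _ (key b hb)

/-- cells of the giants map -/
abbrev GC (A B W : Set C) : Type := {c : C // c ∉ A ∧ c ∉ B ∧ c ∉ W} ⊕ Fin 3

/-- the giants map: `A ↦ 0`, `B ↦ 1`, `W ↦ 2`, the other cells are alone -/
def gm (A B W : Set C) (c : C) : GC A B W :=
  if hA : c ∈ A then Sum.inr 0 else if hB : c ∈ B then Sum.inr 1 else
    if hW : c ∈ W then Sum.inr 2 else Sum.inl ⟨c, hA, hB, hW⟩

variable {A B W : Set C}

theorem gm_A {c : C} (h : c ∈ A) : gm A B W c = Sum.inr 0 := dif_pos h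

theorem gm_B (hd : Disjoint A B) {c : C} (h : c ∈ B) : gm A B W c = Sum.inr 1 := by
  unfold gm
  rw [dif_neg (Set.disjoint_right.1 hd h), dif_pos h]

theorem gm_W (hA : Disjoint A W) (hB : Disjoint B W) {c : C} (h : c ∈ W) :
    gm A B W c = Sum.inr 2 := by
  unfold gm
  rw [dif_neg (Set.disjoint_right.1 hA h), dif_neg (Set.disjoint_right.1 hB h), dif_pos h]

theorem gm_F {c : C} (hA : c ∉ A) (hB : c ∉ B) (hW : c ∉ W) :
    gm A B W c = Sum.inl ⟨c, hA, hB, hW⟩ := by
  unfold gm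
  rw [dif_neg hA, dif_neg hB, dif_neg hW]

theorem gm_A_iff {c : C} : gm A B W c = Sum.inr 0 ↔ c ∈ A := by
  refine ⟨fun h => ?_, gm_A⟩
  by_contra hA
  unfold gm at h
  rw [dif_neg hA] at h
  split_ifs at h
  · exact absurd (Sum.inr.inj h) (by decide)
  · exact absurd (Sum.inr.inj h) (by decide)

theorem gm_B_iff (hd : Disjoint A B) {c : C} : gm A B W c = Sum.inr 1 ↔ c ∈ B := by
  refine ⟨fun h => ?_, gm_B hd⟩
  by_contra hB
  unfold gm at h
  split_ifs at h
  · exact absurd (Sum.inr.inj h) (by decide)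
  · exact absurd (Sum.inr.inj h) (by decide)

theorem gm_W_iff (hA : Disjoint A W) (hB : Disjoint B W) {c : C} :
    gm A B W c = Sum.inr 2 ↔ c ∈ W := by
  refine ⟨fun h => ?_, gm_W hA hB⟩
  by_contra hW
  unfold gm at h
  split_ifs at h
  · exact absurd (Sum.inr.inj h) (by decide)
  · exact absurd (Sum.inr.inj h) (by decide)

/-- the classes of the giants map -/
theorem gm_eq {c c' : C} (h : gm A B W c = gm A B W c') :
    c = c' ∨ (c ∈ A ∧ c' ∈ A) ∨ (c ∈ B ∧ c' ∈ B) ∨ (c ∈ W ∧ c' ∈ W) := by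
  unfold gm at h
  by_cases a1 : c ∈ A <;> by_cases a2 : c' ∈ A <;> by_cases b1 : c ∈ B <;> by_cases b2 : c' ∈ B <;>
    by_cases w1 : c ∈ W <;> by_cases w2 : c' ∈ W <;> simp_all

/-- **the giants map is a coarsening** -/
theorem gm_con (hAB : Disjoint A B) (hAW : Disjoint A W) (hBW : Disjoint B W)
    (hA : CCon M A) (hB : CCon M B) (hW : CCon M W) : ClsCon M (gm A B W) := by
  have key : ∀ G : Set C, CCon M G → (∀ c ∈ G, ∀ c' ∈ G, gm A B W c = gm A B W c') →
      ∀ c ∈ G, ∀ c' ∈ G, Relation.EqvGen (Adj M (gm A B W)) c c' := by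
    intro G hG he c hc c' hc'
    have h := hG c hc c' hc'
    clear hc hc'
    induction h with
    | rel c c' h => exact Relation.EqvGen.rel _ _ ⟨he _ h.1 _ h.2.1, h.2.2⟩
    | refl c => exact Relation.EqvGen.refl _
    | symm c c' _ ih => exact Relation.EqvGen.symm _ _ ih
    | trans c c' c'' _ _ ih1 ih2 => exact Relation.EqvGen.trans _ _ _ ih1 ih2
  intro d d' h
  rcases gm_eq h with e | ⟨h1, h2⟩ | ⟨h1, h2⟩ | ⟨h1, h2⟩
  · rw [e]
    exact Relation.EqvGen.refl _
  · exact key A hA (fun c hc c' hc' => by rw [gm_A hc, gm_A hc']) _ h1 _ h2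
  · exact key B hB (fun c hc c' hc' => by rw [gm_B hAB hc, gm_B hAB hc']) _ h1 _ h2
  · exact key W hW (fun c hc c' hc' => by rw [gm_W hAW hBW hc, gm_W hAW hBW hc']) _ h1 _ h2

/-! ### the closing for the giants map -/

section closing

variable {μ : C → ZMod 2}

/-- the left cells have one colour -/
theorem lc_col (L : Loop M x p N) (hμ : cfg M μ = x) (h1 : μ (lc M x p 0) = 1) (u : ℕ) :
    μ (lc M x p u) = 1 := by
  rw [← h1]
  refine it_col L.c L.occ (fun d hd => ?_) u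
  have h2 : μ (M.cell d) + μ (M.cell (M.rho d)) = 0 := by
    rw [← hd, ← hμ]
    rfl
  revert h2
  generalize μ (M.cell d) = a
  generalize μ (M.cell (M.rho d)) = b
  revert a b; decide

/-- the colouring is constant on the classes: the configuration lives on the giants map -/
theorem gm_isC {A B W : Set C} (hπ : ClsCon M (gm A B W)) (hx : IsC M ∅ x) (hμ : cfg M μ = x)
    (hA : ∀ c ∈ A, μ c = 1) (hB : ∀ c ∈ B, μ c = 1) (hW : ∀ c ∈ W, μ c = 0) :
    IsC (coarse M (gm A B W) hπ) ∅ x := by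
  refine isC_coarse.2 ⟨hx, fun d _ e => ?_⟩
  rw [← hμ]
  show μ (M.cell d) + μ (M.cell (M.rho d)) = 0
  rcases gm_eq e with e | ⟨h1, h2⟩ | ⟨h1, h2⟩ | ⟨h1, h2⟩
  · rw [e]; exact z_self _
  · rw [hA _ h1, hA _ h2]; decide
  · rw [hB _ h1, hB _ h2]; decide
  · rw [hW _ h1, hW _ h2]; decide

variable {W : Set C}

/-- left cells are not in the white giant -/
theorem lc_not (L : Loop M x p N) (hμ : cfg M μ = x) (h1 : μ (lc M x p 0) = 1)
    (hW : ∀ c ∈ W, μ c = 0) (u : ℕ) : lc M x p u ∉ W := by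
  intro h
  have h2 := lc_col L hμ h1 u
  rw [hW _ h] at h2
  exact absurd h2 (by decide)

/-- the giants map of an arc -/
abbrev gmA (M : CMap D C) (x : D → ZMod 2) (p : D) (n r : ℕ) (W : Set C) :
    C → GC (LA M x p r n) (LB M x p r) W := gm (LA M x p r n) (LB M x p r) W

/-- the giants map of an arc is a coarsening -/
theorem Arc.con (T : Arc M x p N n r g₀) (hμ : cfg M μ = x) (h1 : μ (lc M x p 0) = 1)
    (hW : ∀ c ∈ W, μ c = 0) (hWc : CCon M W) : ClsCon M (gmA M x p n r W) := by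
  refine gm_con T.disj ?_ ?_ (la_ccon T.L.c T.L.occ _ _) (lb_ccon T.L.c T.L.occ _) hWc
  · rw [Set.disjoint_left]
    rintro c ⟨u, -, -, rfl⟩ h
    exact lc_not T.L hμ h1 hW u h
  · rw [Set.disjoint_left]
    rintro c ⟨u, -, rfl⟩ h
    exact lc_not T.L hμ h1 hW u h

theorem Arc.isC (T : Arc M x p N n r g₀) (hμ : cfg M μ = x) (h1 : μ (lc M x p 0) = 1)
    (hW : ∀ c ∈ W, μ c = 0) (hπ : ClsCon M (gmA M x p n r W)) :
    IsC (coarse M (gmA M x p n r W) hπ) ∅ x := by
  refine gm_isC hπ T.L.c hμ ?_ ?_ hW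
  · rintro c ⟨u, -, -, rfl⟩
    exact lc_col T.L hμ h1 u
  · rintro c ⟨u, -, rfl⟩
    exact lc_col T.L hμ h1 u

theorem Arc.gi (T : Arc M x p N n r g₀) (hμ : cfg M μ = x) (h1 : μ (lc M x p 0) = 1)
    (hW : ∀ c ∈ W, μ c = 0) :
    Gi M (gmA M x p n r W) x p N n r (Sum.inr 0) (Sum.inr 1) := by
  refine ⟨fun h => absurd (Sum.inr.inj h) (by decide), fun c => gm_A_iff,
    fun c => gm_B_iff T.disj, fun u v _ _ e hA hB => ?_⟩
  rcases gm_eq e with e | ⟨h2, -⟩ | ⟨h2, -⟩ | ⟨h2, -⟩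
  · exact e
  · exact absurd (gm_A h2) hA
  · exact absurd (gm_B T.disj h2) hB
  · exact absurd h2 (lc_not T.L hμ h1 hW u)

/-- **closing**: with the giants `A = LA`, `B = LB`, `W` (any connected set of white cells) -/
theorem closing [Fintype D] (T : Arc M x p N n r g₀) (hμ : cfg M μ = x)
    (h1 : μ (lc M x p 0) = 1) (hW : ∀ c ∈ W, μ c = 0) (hπ : ClsCon M (gmA M x p n r W)) :
    (∀ {A : Type} [AddCommMonoid A] (f : D → A), ∑ h ∈ blk M x g₀, f h =
      f g₀ + ∑ h ∈ (blk (coarse M (gmA M x p n r W) hπ) x g₀).erase g₀, f h +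
      ∑ h ∈ OA M x p N n r, f h + ∑ h ∈ OB M x p N n r, f h) ∧
    M.cell (M.rho (kA (coarse M (gmA M x p n r W) hπ) x g₀)) = lc M x p (tauA M x p N n r) ∧
    M.cell (kB (coarse M (gmA M x p n r W) hπ) x g₀) = lc M x p (tauB M x p N n r) := by
  have hx := T.isC hμ h1 hW hπ
  have G := T.gi hμ h1 hW
  exact ⟨fun f => arc_sum T hx G f, end_A T hx G, end_B T hx G⟩

end closing

end Crest.Agent.R143.R5bx166
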