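import Crest.Agent.R143.Gnt_535
import Crest.Agent.R143.R5b_166
import Crest.Agent.R143.Resa_778

/-!
# Row 143 (S0194), RIG box R4: the revealed set `Out(σ)` of an out-arc (helper358; 311's note 3646)

`M` a closed map with darts `D` and cells `C`; `H` = hull cells, `R` = cells of the strips of the
white tiles, `A σ` = cells of the arc (left and right cells of the walker up to its stop).

* `Z A R σ = A σ ∪ {c ∈ R : σ c = 0}`; `Ext M H Z` = cells joined to `H` by cells which are not in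
  `Z` (any colours); `Bd M H Z` = cells of `Z` next to `Ext`; `Out M H R A σ = A σ ∪ Ext ∪ Bd`
* **(3a)** `stop` : if `A` is a stopping rule, `H ∩ R = ∅` : `τ = σ` on `Out σ` implies that `A`,
  `Ext`, `Bd`, `Out` are the same; `outF`, `outF_stop : Resax778.StopSet`, `outF_stp : Stp`,
  `ext_mem_adp` : the membership in `Ext` is revealed
* `Wt M H R AL AR σ = Ext ∪ Bd ∪ AR` (`A = AL ∪ AR`); **(3d)** `out_eq : Out = AL ∪ Wt`,
  `left_not : AL ∩ Wt = ∅`, `right_mem : AR ⊆ Wt`, `wt_con : CCon M Wt`, **(3c)** `wt_bd` : a cell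
  of `Wt` next to a cell off `Wt` is white; `ext_nb` : neighbours of `Ext` are in `Ext` or white and
  in `Out`; all under `Sep` (no left cell of the arc is next to `Ext`: the planar input) and `Lnk`
  (one right cell of the arc is next to `Ext`)
* `sep_of_path`, `sep_of_index` : `Sep` from a white closed chain `Cw ⊆ Z` (path form, index form of
  117's (3b)); `ext_index` : the index on `Ext` is the index of the hull (sites of `U` are not in
  `Ext`); `lnk_of_path` : `Lnk` from a path from a right cell of the arc to the hull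
* `walker_n`, `out_walker`, `walker_mu` : everything for the walker from `p` up to the stop set `B`
  (535's `Rw`), in the fields of 166's quenched theorem (R5q)
-/

set_option autoImplicit false

noncomputable section

open scoped Classical

namespace Crest.Agent.R143.Extx358

open Crest.Agent.R143.Frame1x395 Crest.Agent.R143.Frame2x395 Crest.Agent.R143.Frame3x395
  Crest.Agent.R143.Frame4x395 Crest.Agent.R143.Frame8x395 Crest.Agent.R143.Frame9x395
  Crest.Agent.R143.NonXx592 Crest.Agent.R143.CFramex358 Crest.Agent.R143.Gntx535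
  Crest.Agent.R143.R5bx166

variable {D C : Type} {M : CMap D C}

/-! ### adjacency, `Ext` -/

/-- adjacent cells (through a live dart) -/
def Ad (M : CMap D C) (c c' : C) : Prop := ∃ d ∈ M.live, M.cell d = c ∧ M.cell (M.rho d) = c'

theorem Ad.symm {c c' : C} (h : Ad M c c') : Ad M c' c := by
  obtain ⟨d, hd, rfl, rfl⟩ := h
  exact ⟨M.iota d, M.iota_live d hd, M.cell_iota d hd, cell_rho_iota M hd⟩

theorem nb_iff {W : Set C} {c c' : C} : Nb M W c c' ↔ c ∈ W ∧ c' ∈ W ∧ Ad M c c' := Iff.rfl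

/-- the cells which are joined to `H` by cells off `Z` -/
inductive Ext (M : CMap D C) (H Z : Set C) : C → Prop
  | hull {c : C} : c ∈ H → c ∉ Z → Ext M H Z c
  | step {c c' : C} : Ext M H Z c → Ad M c c' → c' ∉ Z → Ext M H Z c'

variable {H Z : Set C}

theorem Ext.off {c : C} (h : Ext M H Z c) : c ∉ Z := by
  cases h with
  | hull _ h => exact h
  | step _ _ h => exact h

theorem Ext.mono {Z' : Set C} (hZ : ∀ c, Ext M H Z c → c ∉ Z') {c : C} (h : Ext M H Z c) :
    Ext M H Z' c := by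
  induction h with
  | hull h1 h2 => exact Ext.hull h1 (hZ _ (Ext.hull h1 h2))
  | step h1 h2 h3 ih => exact Ext.step ih h2 (hZ _ (Ext.step h1 h2 h3))

/-- the cells of `Z` next to `Ext` -/
def Bd (M : CMap D C) (H Z : Set C) : Set C := {c | c ∈ Z ∧ ∃ e, Ext M H Z e ∧ Ad M e c}

/-- a neighbour of a cell of `Ext` is in `Ext` or in `Bd` -/
theorem ext_ad {c c' : C} (h : Ext M H Z c) (h' : Ad M c c') : Ext M H Z c' ∨ c' ∈ Bd M H Z := by
  by_cases hz : c' ∈ Z
  · exact Or.inr ⟨hz, c, h, h'⟩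
  · exact Or.inl (Ext.step h h' hz)

/-- **separation**: if `Y` contains the neighbours of `Ext` in it ... : a set `Y` of cells which
contains the hull cells and whose neighbours are in `Y` or in `Z` contains `Ext` -/
theorem ext_sub {Y : Set C} (h0 : ∀ c ∈ H, c ∉ Z → c ∈ Y)
    (h1 : ∀ c ∈ Y, ∀ c', Ad M c c' → c' ∉ Z → c' ∈ Y) {c : C} (h : Ext M H Z c) : c ∈ Y := by
  induction h with
  | hull h2 h3 => exact h0 _ h2 h3
  | step _ h3 h4 ih => exact h1 _ ih _ h3 h4

/-- `Ext` is connected if the hull cells are -/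
theorem ext_con (hH : ∀ c ∈ H, ∀ c' ∈ H, c ∉ Z → c' ∉ Z →
    Relation.EqvGen (Nb M {c | Ext M H Z c}) c c') : CCon M {c | Ext M H Z c} := by
  have key : ∀ c, Ext M H Z c → ∃ h ∈ H, h ∉ Z ∧
      Relation.EqvGen (Nb M {c | Ext M H Z c}) h c := by
    intro c hc
    induction hc with
    | hull h1 h2 => exact ⟨_, h1, h2, Relation.EqvGen.refl _⟩
    | step h1 h2 h3 ih =>
      obtain ⟨h, g1, g2, g3⟩ := ih
      exact ⟨h, g1, g2, g3.trans _ _ _ (Relation.EqvGen.rel _ _ ⟨h1, Ext.step h1 h2 h3, h2⟩)⟩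
  intro c hc c' hc'
  obtain ⟨h, g1, g2, g3⟩ := key c hc
  obtain ⟨h', g1', g2', g3'⟩ := key c' hc'
  exact (g3.symm _ _).trans _ _ _ ((hH h g1 h' g1' g2 g2').trans _ _ _ g3')

/-- one hull cell -/
theorem ext_con_one {h₀ : C} : CCon M {c | Ext M {h₀} Z c} :=
  ext_con fun c hc c' hc' _ _ => by
    rw [Set.mem_singleton_iff] at hc hc'
    rw [hc, hc']
    exact Relation.EqvGen.refl _

/-! ### `Out`, **(3a)** -/

/-- the blocking cells: the arc, and the white cells of the strips of the white tiles -/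
def Zs (A : (C → ZMod 2) → Set C) (R : Set C) (σ : C → ZMod 2) : Set C :=
  A σ ∪ {c | c ∈ R ∧ σ c = 0}

/-- the revealed set -/
def Out (M : CMap D C) (H R : Set C) (A : (C → ZMod 2) → Set C) (σ : C → ZMod 2) : Set C :=
  A σ ∪ ({c | Ext M H (Zs A R σ) c} ∪ Bd M H (Zs A R σ))

variable {R : Set C} {A : (C → ZMod 2) → Set C} {σ τ μ : C → ZMod 2}

theorem out_arc {c : C} (h : c ∈ A σ) : c ∈ Out M H R A σ := Or.inl h
theorem out_ext {c : C} (h : Ext M H (Zs A R σ) c) : c ∈ Out M H R A σ := Or.inr (Or.inl h)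
theorem out_bd {c : C} (h : c ∈ Bd M H (Zs A R σ)) : c ∈ Out M H R A σ := Or.inr (Or.inr h)

/-- stopping rule, set form -/
def StpS (A : (C → ZMod 2) → Set C) : Prop := ∀ σ τ, (∀ c ∈ A σ, τ c = σ c) → A τ = A σ

/-- **(3a)** : the colours on `Out σ` determine the arc, `Ext`, `Bd` and `Out`; form for two
colourings with the same arc -/
theorem stop_at (hH : ∀ c ∈ H, c ∉ R) (e1 : A τ = A σ) (h : ∀ c ∈ Out M H R A σ, τ c = σ c) :
    A τ = A σ ∧ (∀ c, Ext M H (Zs A R τ) c ↔ Ext M H (Zs A R σ) c) ∧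
      Bd M H (Zs A R τ) = Bd M H (Zs A R σ) ∧ Out M H R A τ = Out M H R A σ := by
  -- the blocking sets agree on `Out σ`
  have e2 : ∀ c, c ∈ Out M H R A σ → (c ∈ Zs A R τ ↔ c ∈ Zs A R σ) := by
    intro c hc
    have h1 := h c hc
    constructor
    · rintro (h2 | ⟨h2, h3⟩)
      · exact Or.inl (e1 ▸ h2)
      · exact Or.inr ⟨h2, h1 ▸ h3⟩
    · rintro (h2 | ⟨h2, h3⟩)
      · exact Or.inl (e1.symm ▸ h2)
      · exact Or.inr ⟨h2, h1.trans h3⟩
  have e3 : ∀ c, Ext M H (Zs A R τ) c → Ext M H (Zs A R σ) c := by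
    intro c hc
    induction hc with
    | hull h1 h2 =>
      refine Ext.hull h1 fun h3 => h2 ?_
      rcases h3 with h3 | ⟨h3, -⟩
      · exact Or.inl (e1.symm ▸ h3)
      · exact absurd h3 (hH _ h1)
    | step h1 h2 h3 ih =>
      rcases ext_ad ih h2 with h4 | h4
      · exact h4
      · exact absurd ((e2 _ (out_bd h4)).2 h4.1) h3
  have e4 : ∀ c, Ext M H (Zs A R σ) c → Ext M H (Zs A R τ) c := fun c hc =>
    hc.mono fun c' hc' h5 => hc'.off ((e2 _ (out_ext hc')).1 h5)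
  have e5 : Bd M H (Zs A R τ) = Bd M H (Zs A R σ) := by
    ext c
    constructor
    · rintro ⟨h1, e, h2, h3⟩
      rcases ext_ad (e3 _ h2) h3 with h4 | h4
      · exact absurd h1 fun h5 => h4.off ((e2 _ (out_ext h4)).1 h5)
      · exact h4
    · rintro ⟨h1, e, h2, h3⟩
      exact ⟨(e2 _ (out_bd ⟨h1, e, h2, h3⟩)).2 h1, e, e4 _ h2, h3⟩
  refine ⟨e1, fun c => ⟨e3 c, e4 c⟩, e5, ?_⟩
  unfold Out
  rw [e1, e5]
  congr 2
  ext c
  exact ⟨e3 c, e4 c⟩

/-- **(3a)** for a stopping rule `A` -/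
theorem stop (hH : ∀ c ∈ H, c ∉ R) (hA : StpS A) (h : ∀ c ∈ Out M H R A σ, τ c = σ c) :
    A τ = A σ ∧ (∀ c, Ext M H (Zs A R τ) c ↔ Ext M H (Zs A R σ) c) ∧
      Bd M H (Zs A R τ) = Bd M H (Zs A R σ) ∧ Out M H R A τ = Out M H R A σ :=
  stop_at hH (hA σ τ fun c hc => h c (out_arc hc)) h

/-! ### finiteness; the revealed set as a `Finset` -/

/-- the cells of `Ext` and `Bd` are hull cells or cells of darts -/
theorem ext_fin [Finite D] (hH : H.Finite) : ({c | Ext M H Z c} ∪ Bd M H Z).Finite := by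
  refine (hH.union (Set.finite_range M.cell)).subset ?_
  rintro c (h | ⟨-, e, -, d, -, -, h⟩)
  · have h : Ext M H Z c := h
    cases h with
    | hull h _ => exact Or.inl h
    | step _ h _ =>
      obtain ⟨d, -, -, h⟩ := h
      exact Or.inr ⟨_, h⟩
  · exact Or.inr ⟨_, h⟩

theorem out_fin [Finite D] (hH : H.Finite) (hA : (A σ).Finite) : (Out M H R A σ).Finite :=
  hA.union (ext_fin hH)

/-- the revealed set as a `Finset` -/
def outF (M : CMap D C) (H R : Set C) (A : (C → ZMod 2) → Finset C) (σ : C → ZMod 2) : Finset C :=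
  if h : (Out M H R (fun σ => (A σ : Set C)) σ).Finite then h.toFinset else ∅

section fin

variable [Finite D] {F : (C → ZMod 2) → Finset C}

theorem coe_outF (hH : H.Finite) :
    (outF M H R F σ : Set C) = Out M H R (fun σ => (F σ : Set C)) σ := by
  have h : (Out M H R (fun σ => (F σ : Set C)) σ).Finite := out_fin hH (F σ).finite_toSet
  unfold outF
  rw [dif_pos h, Set.Finite.coe_toFinset]

theorem mem_outF (hH : H.Finite) {c : C} :
    c ∈ outF M H R F σ ↔ c ∈ Out M H R (fun σ => (F σ : Set C)) σ := by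
  rw [← coe_outF hH, Finset.mem_coe]

omit [Finite D] in
theorem stpS_of (h : Stp F) : StpS fun σ => (F σ : Set C) := by
  intro σ τ ha
  show (F τ : Set C) = (F σ : Set C)
  rw [h σ τ fun c hc => ha c (Finset.mem_coe.2 hc)]

/-- **(3a)** as a stopping rule of the frame -/
theorem outF_stp (hf : H.Finite) (hH : ∀ c ∈ H, c ∉ R) (hF : Stp F) : Stp (outF M H R F) := by
  intro σ τ ha
  have h := (stop (M := M) hH (stpS_of hF) (σ := σ) (τ := τ)
    fun c hc => ha c ((mem_outF hf).2 hc)).2.2.2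
  apply Finset.coe_injective
  rw [coe_outF hf, coe_outF hf, h]

/-- **(3a)** in the form of 778 -/
theorem outF_stop [Fintype C] (hf : H.Finite) (hH : ∀ c ∈ H, c ∉ R) (hF : Stp F) :
    Resax778.StopSet (outF M H R F) := fun σ τ h => outF_stp hf hH hF σ τ h

/-- `Ext`, `Bd` and the arc are functions of the revealed colours -/
theorem outF_adp (hf : H.Finite) (hH : ∀ c ∈ H, c ∉ R) (hF : Stp F)
    (h : ∀ c ∈ outF M H R F σ, τ c = σ c) :
    F τ = F σ ∧ (∀ c, Ext M H (Zs (fun σ => (F σ : Set C)) R τ) c ↔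
      Ext M H (Zs (fun σ => (F σ : Set C)) R σ) c) ∧
      Bd M H (Zs (fun σ => (F σ : Set C)) R τ) = Bd M H (Zs (fun σ => (F σ : Set C)) R σ) := by
  have h' := stop (M := M) hH (stpS_of hF) (σ := σ) (τ := τ)
    fun c hc => h c ((mem_outF hf).2 hc)
  exact ⟨Finset.coe_injective h'.1, h'.2.1, h'.2.2.1⟩

end fin

/-! ### **(3c)**, **(3d)** : the white giant -/

/-- the white giant: `Ext`, the cells of `Z` next to it, the right cells of the arc -/
def Wg (M : CMap D C) (H : Set C) (Z AR : Set C) : Set C := {c | Ext M H Z c} ∪ Bd M H Z ∪ AR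

variable {AL AR : Set C}

/-- `Z` = left cells ∪ right cells ∪ white cells of `R` -/
def Zc (AL AR R : Set C) (σ : C → ZMod 2) : Set C := (AL ∪ AR) ∪ {c | c ∈ R ∧ σ c = 0}

/-- **planar input** : no left cell of the arc is next to `Ext` -/
def Sep (M : CMap D C) (H Z AL : Set C) : Prop := ∀ c ∈ AL, ∀ e, Ext M H Z e → ¬ Ad M e c

theorem right_mem {c : C} (h : c ∈ AR) : c ∈ Wg M H Z AR := Or.inr h

theorem ext_mem {c : C} (h : Ext M H Z c) : c ∈ Wg M H Z AR := Or.inl (Or.inl h)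

theorem bd_mem {c : C} (h : c ∈ Bd M H Z) : c ∈ Wg M H Z AR := Or.inl (Or.inr h)

/-- the left cells of the arc are not in the white giant -/
theorem left_not (hz : AL ⊆ Z) (hs : Sep M H Z AL) (hd : ∀ c ∈ AL, c ∉ AR) {c : C}
    (hc : c ∈ AL) : c ∉ Wg M H Z AR := by
  rintro ((h | ⟨-, e, h1, h2⟩) | h)
  · exact h.off (hz hc)
  · exact hs c hc e h1 h2
  · exact hd c hc h

/-- `Out = A ∪ B ∪ W` -/
theorem out_eq' : (AL ∪ AR) ∪ ({c | Ext M H Z c} ∪ Bd M H Z) = AL ∪ Wg M H Z AR := by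
  ext c
  unfold Wg
  simp only [Set.mem_union]
  tauto

/-- the cells of `Bd` are white -/
theorem bd_white (hs : Sep M H (Zc AL AR R σ) AL) (hr : ∀ c ∈ AR, σ c = 0) {c : C}
    (h : c ∈ Bd M H (Zc AL AR R σ)) : σ c = 0 := by
  obtain ⟨(h1 | h1) | ⟨-, h1⟩, e, h2, h3⟩ := h
  · exact absurd h3 (hs c h1 e h2)
  · exact hr c h1
  · exact h1

/-- **(3c)** : a neighbour of `Ext` is in `Ext` or it is white and revealed -/
theorem ext_nb (hs : Sep M H (Zc AL AR R σ) AL) (hr : ∀ c ∈ AR, σ c = 0) {c c' : C}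
    (h : Ext M H (Zc AL AR R σ) c) (h' : Ad M c c') :
    Ext M H (Zc AL AR R σ) c' ∨ c' ∈ Wg M H (Zc AL AR R σ) AR ∧ σ c' = 0 := by
  rcases ext_ad h h' with h1 | h1
  · exact Or.inl h1
  · exact Or.inr ⟨bd_mem h1, bd_white hs hr h1⟩

/-- **(3d)** : a cell of the white giant with a neighbour off it is white -/
theorem wg_bd (hs : Sep M H (Zc AL AR R σ) AL) (hr : ∀ c ∈ AR, σ c = 0) {c c' : C}
    (hc : c ∈ Wg M H (Zc AL AR R σ) AR) (h' : Ad M c c')
    (hc' : c' ∉ Wg M H (Zc AL AR R σ) AR) : σ c = 0 := by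
  rcases hc with (h | h) | h
  · rcases ext_ad h h' with h1 | h1
    · exact absurd (ext_mem h1) hc'
    · exact absurd (bd_mem h1) hc'
  · exact bd_white hs hr h
  · exact hr c h

/-- **(3d)** : the white giant is connected -/
theorem wg_con (hE : CCon M {c | Ext M H Z c}) (hR : CCon M AR) {c₀ e₀ : C} (h1 : c₀ ∈ AR)
    (h2 : Ext M H Z e₀) (h3 : Ad M e₀ c₀) : CCon M (Wg M H Z AR) := by
  have key : ∀ c ∈ Wg M H Z AR, Relation.EqvGen (Nb M (Wg M H Z AR)) e₀ c := by
    have hsub : {c | Ext M H Z c} ⊆ Wg M H Z AR := fun c hc => ext_mem hc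
    rintro c ((h | ⟨h4, e, h5, h6⟩) | h)
    · exact nb_mono hsub (hE e₀ h2 c h)
    · exact (nb_mono hsub (hE e₀ h2 e h5)).trans _ _ _
        (Relation.EqvGen.rel _ _ ⟨ext_mem h5, bd_mem ⟨h4, e, h5, h6⟩, h6⟩)
    · exact (Relation.EqvGen.rel _ _ ⟨ext_mem h2, right_mem h1, h3⟩ :
        Relation.EqvGen (Nb M (Wg M H Z AR)) e₀ c₀).trans _ _ _
        (nb_mono (fun c hc => right_mem hc) (hR c₀ h1 c h))
  exact fun c hc c' hc' => ((key c hc).symm _ _).trans _ _ _ (key c' hc')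

/-! ### the planar input: `Sep`, `Lnk` -/

/-- a path of cells from `c` to `h`; the cells after `c` are not in `Cw` -/
def Rch (M : CMap D C) (Cw : Set C) (c h : C) : Prop :=
  Relation.ReflTransGen (fun a b => Ad M a b ∧ b ∉ Cw) c h

/-- from a cell of `Ext` there is a path off `Z` to a hull cell -/
theorem ext_path {c : C} (h : Ext M H Z c) : ∃ h₀ ∈ H, h₀ ∉ Z ∧ Rch M Z c h₀ := by
  induction h with
  | hull h1 h2 => exact ⟨_, h1, h2, Relation.ReflTransGen.refl⟩
  | step h1 h2 h3 ih =>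
    obtain ⟨h₀, g1, g2, g3⟩ := ih
    exact ⟨h₀, g1, g2, Relation.ReflTransGen.head ⟨h2.symm, h1.off⟩ g3⟩

theorem Rch.mono {Cw Cw' : Set C} (hC : Cw ⊆ Cw') {c h : C} (H' : Rch M Cw' c h) :
    Rch M Cw c h := by
  induction H' with
  | refl => exact Relation.ReflTransGen.refl
  | tail _ h1 ih => exact Relation.ReflTransGen.tail ih ⟨h1.1, fun h2 => h1.2 (hC h2)⟩

/-- **(3b), path form** : no path off `Cw ⊆ Z` from a left cell of the arc to the hull -/
theorem sep_of_path {Cw : Set C} (hC : Cw ⊆ Z) (h : ∀ c ∈ AL, ∀ h₀ ∈ H, ¬ Rch M Cw c h₀) :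
    Sep M H Z AL := by
  intro c hc e he ha
  obtain ⟨h₀, g1, -, g3⟩ := ext_path he
  exact h c hc h₀ g1 (Relation.ReflTransGen.head ⟨ha.symm, fun h2 => he.off (hC h2)⟩ (g3.mono hC))

/-- the index on `Ext` is the index of the hull cells -/
theorem ext_index {X : Type*} {I : C → X} {i₀ : X} {Cw : Set C} (hC : Cw ⊆ Z)
    (hI : ∀ c c', Ad M c c' → c ∉ Cw → c' ∉ Cw → I c = I c') (h0 : ∀ c ∈ H, c ∉ Cw → I c = i₀)
    {c : C} (h : Ext M H Z c) : I c = i₀ := by
  induction h with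
  | hull h1 h2 => exact h0 _ h1 fun h3 => h2 (hC h3)
  | step h1 h2 h3 ih =>
    rw [← ih]
    exact (hI _ _ h2 (fun h4 => h1.off (hC h4)) fun h4 => h3 (hC h4)).symm

/-- **(3b), index form** : `I` is constant along the edges off `Cw`, `i₀` on the hull, not `i₀` on
the left cells of the arc -/
theorem sep_of_index {X : Type*} {I : C → X} {i₀ : X} {Cw : Set C} (hC : Cw ⊆ Z)
    (hI : ∀ c c', Ad M c c' → c ∉ Cw → c' ∉ Cw → I c = I c') (h0 : ∀ c ∈ H, c ∉ Cw → I c = i₀)
    (h1 : ∀ c ∈ AL, c ∉ Cw ∧ I c ≠ i₀) : Sep M H Z AL := by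
  intro c hc e he ha
  apply (h1 c hc).2
  rw [← ext_index hC hI h0 he]
  exact hI _ _ ha.symm (h1 c hc).1 fun h4 => he.off (hC h4)

/-- **(3d), the link** : a path from a right cell `c` of the arc to a hull cell off the arc whose
cells are neither left cells of the arc nor white cells of `R` -/
theorem lnk_of_path {c h₀ : C} (hc : c ∈ AR) (hh : h₀ ∈ H) (hn : h₀ ∉ Zc AL AR R σ)
    (hp : Relation.ReflTransGen (fun a b => Ad M a b ∧ b ∉ AL ∧ ¬ (b ∈ R ∧ σ b = 0)) c h₀) :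
    ∃ c₀ ∈ AR, ∃ e₀, Ext M H (Zc AL AR R σ) e₀ ∧ Ad M e₀ c₀ := by
  -- a cell of the path is in `Ext`, or there is a link
  have key : Ext M H (Zc AL AR R σ) c ∨
      ∃ c₀ ∈ AR, ∃ e₀, Ext M H (Zc AL AR R σ) e₀ ∧ Ad M e₀ c₀ := by
    have hc' : c ∉ AL ∧ ¬ (c ∈ R ∧ σ c = 0) ∨ c ∈ AR := Or.inr hc
    clear hc
    induction hp using Relation.ReflTransGen.head_induction_on with
    | refl => exact Or.inl (Ext.hull hh hn)
    | head h1 _ ih =>
      rename_i a b _
      rcases ih (Or.inl h1.2) with h2 | h2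
      · rcases ext_ad h2 h1.1.symm with h3 | h3
        · exact Or.inl h3
        · rcases h3.1 with (h4 | h4) | h4
          · rcases hc' with h5 | h5
            · exact absurd h4 h5.1
            · exact Or.inr ⟨a, h5, b, h2, h1.1.symm⟩
          · exact Or.inr ⟨a, h4, b, h2, h1.1.symm⟩
          · rcases hc' with h5 | h5
            · exact absurd h4 h5.2
            · exact Or.inr ⟨a, h5, b, h2, h1.1.symm⟩
      · exact Or.inr h2
  rcases key with h | h
  · exact absurd (Or.inl (Or.inr hc)) h.off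
  · exact h

/-! ### the walker -/

section walker

variable {p : D} {n : ℕ}

/-- the cells of the arc are its left and right cells -/
theorem mem_wl' {x : D → ZMod 2} {c : C} :
    c ∈ (wl M x p n : Set C) ↔ ∃ u ≤ n, M.cell (P M x p u) = c := by
  rw [Finset.mem_coe, mem_wl]

theorem mem_wr' {x : D → ZMod 2} {c : C} :
    c ∈ (wr M x p n : Set C) ↔ ∃ u ≤ n, Rc M (P M x p u) = c := by
  rw [Finset.mem_coe, mem_wr]

theorem wr_ccon {x : D → ZMod 2} (hx : IsC M ∅ x) (hp : x p = 1) :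
    CCon M (wr M x p n : Set C) := fun c hc c' hc' => by
  have h := wr_con hx hp (Finset.mem_coe.1 hc) (Finset.mem_coe.1 hc')
  clear hc hc'
  induction h with
  | rel a b h1 =>
    exact Relation.EqvGen.rel _ _ ⟨Finset.mem_coe.2 h1.1, Finset.mem_coe.2 h1.2.1, h1.2.2⟩
  | refl a => exact Relation.EqvGen.refl _
  | symm a b _ ih => exact Relation.EqvGen.symm _ _ ih
  | trans a b c _ _ ih1 ih2 => exact Relation.EqvGen.trans _ _ _ ih1 ih2

variable [Fintype D]

/-- the white giant of the walker -/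
def Ww (M : CMap D C) (H R : Set C) (p : D) (n : ℕ) (σ : C → ZMod 2) : Set C :=
  Wg M H (Zc (wl M (cfg M σ) p n) (wr M (cfg M σ) p n) R σ) (wr M (cfg M σ) p n)

/-- **the white giant of an arc** `0 .. n` (left cells black): the fields of 166's `Ex` (R5q) -/
theorem walker_n (h1 : σ (M.cell p) = 1) (hp : cfg M σ p = 1) (hf : H.Finite)
    (hE : CCon M {c | Ext M H (Zc (wl M (cfg M σ) p n) (wr M (cfg M σ) p n) R σ) c})
    (hs : Sep M H (Zc (wl M (cfg M σ) p n) (wr M (cfg M σ) p n) R σ) (wl M (cfg M σ) p n))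
    (hl : ∃ c₀ ∈ (wr M (cfg M σ) p n : Set C), ∃ e₀,
      Ext M H (Zc (wl M (cfg M σ) p n) (wr M (cfg M σ) p n) R σ) e₀ ∧ Ad M e₀ c₀) :
    (Ww M H R p n σ).Finite ∧ CCon M (Ww M H R p n σ) ∧
    (∀ u ≤ n, Rc M (P M (cfg M σ) p u) ∈ Ww M H R p n σ) ∧
    (∀ u ≤ n, M.cell (P M (cfg M σ) p u) ∉ Ww M H R p n σ) ∧
    (∀ c ∈ Ww M H R p n σ, ∀ c' ∉ Ww M H R p n σ, Ad M c c' → σ c = 0) := by
  have hl0 : ∀ c ∈ (wl M (cfg M σ) p n : Set C), σ c = 1 := fun c hc => by
    rw [wl_col hp (Finset.mem_coe.1 hc), h1]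
  have hr0 : ∀ c ∈ (wr M (cfg M σ) p n : Set C), σ c = 0 := fun c hc => by
    rw [wr_col hp (Finset.mem_coe.1 hc), h1]
    decide
  refine ⟨(ext_fin hf).union (Finset.finite_toSet _), ?_, fun u hu => right_mem ?_,
    fun u hu => left_not (fun c hc => Or.inl (Or.inl hc)) hs (fun c hc h => ?_) ?_, ?_⟩
  · obtain ⟨c₀, g1, e₀, g2, g3⟩ := hl
    exact wg_con hE (wr_ccon (cfg_isC σ) hp) g1 g2 g3
  · exact mem_wr'.2 ⟨u, hu, rfl⟩
  · have h2 := hl0 c hc
    rw [hr0 c h] at h2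
    exact absurd h2 (by decide)
  · exact mem_wl'.2 ⟨u, hu, rfl⟩
  · exact fun c hc c' hc' ha => wg_bd hs hr0 hc ha hc'

variable {B : Set D}

omit [Fintype D] in
/-- the arc of the walker with the stop set `B` -/
theorem Rw_eq (hp : cfg M σ p = 1) : (Rw M p B σ : Set C) =
    (wl M (cfg M σ) p (hit M (cfg M σ) p B) : Set C) ∪ wr M (cfg M σ) p (hit M (cfg M σ) p B) := by
  unfold Rw
  rw [if_pos hp, Finset.coe_union]

omit [Fintype D] in
theorem Zs_eq (hp : cfg M σ p = 1) : Zs (fun σ => (Rw M p B σ : Set C)) R σ =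
    Zc (wl M (cfg M σ) p (hit M (cfg M σ) p B)) (wr M (cfg M σ) p (hit M (cfg M σ) p B)) R σ := by
  unfold Zs Zc
  beta_reduce
  rw [Rw_eq hp]

/-- **the revealed set of the walker is `A ∪ B ∪ W`** -/
theorem out_walker (hp : cfg M σ p = 1) (hf : H.Finite) :
    (outF M H R (Rw M p B) σ : Set C) =
      {c | ∃ u ≤ hit M (cfg M σ) p B, M.cell (P M (cfg M σ) p u) = c} ∪
        Ww M H R p (hit M (cfg M σ) p B) σ := by
  rw [coe_outF hf]
  unfold Out
  rw [Zs_eq hp]
  show (Rw M p B σ : Set C) ∪ _ = _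
  rw [Rw_eq hp, out_eq']
  congr 1
  ext c
  exact mem_wl'

omit [Fintype D] in
/-- the white giant with the blocking set `Zs` -/
theorem ww_eq (hp : cfg M σ p = 1) : Ww M H R p (hit M (cfg M σ) p B) σ =
    {c | Ext M H (Zs (fun σ => (Rw M p B σ : Set C)) R σ) c} ∪
      Bd M H (Zs (fun σ => (Rw M p B σ : Set C)) R σ) ∪
      (wr M (cfg M σ) p (hit M (cfg M σ) p B) : Set C) := by
  rw [Zs_eq hp]
  rfl

/-- **everything is a function of the revealed colours** : for `μ = σ` on the revealed set -/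
theorem walker_mu (hB : p ∈ B) (hp : cfg M σ p = 1) (hf : H.Finite) (hH : ∀ c ∈ H, c ∉ R)
    (ha : ∀ c ∈ outF M H R (Rw M p B) σ, μ c = σ c) :
    cfg M μ p = 1 ∧ hit M (cfg M μ) p B = hit M (cfg M σ) p B ∧
    (∀ j ≤ hit M (cfg M σ) p B, P M (cfg M μ) p j = P M (cfg M σ) p j) ∧
    outF M H R (Rw M p B) μ = outF M H R (Rw M p B) σ ∧
    Ww M H R p (hit M (cfg M μ) p B) μ = Ww M H R p (hit M (cfg M σ) p B) σ := by
  have hF : Stp (Rw M p B) := Rw_stp hB
  obtain ⟨h1, h2, h3⟩ := hit_agree hB hp fun c hc => ha c ((mem_outF hf).2 (out_arc hc))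
  obtain ⟨-, g2, g3⟩ := outF_adp hf hH hF ha
  refine ⟨h1, h2, h3, outF_stp hf hH hF σ μ ha, ?_⟩
  rw [ww_eq h1, ww_eq hp, g3, h2]
  have e1 : {c | Ext M H (Zs (fun σ => (Rw M p B σ : Set C)) R μ) c} =
      {c | Ext M H (Zs (fun σ => (Rw M p B σ : Set C)) R σ) c} := by
    ext c
    exact g2 c
  have e2 : wr M (cfg M μ) p (hit M (cfg M σ) p B) = wr M (cfg M σ) p (hit M (cfg M σ) p B) := by
    ext c
    rw [mem_wr, mem_wr]
    exact ⟨fun ⟨j, hj, e⟩ => ⟨j, hj, by rw [← h3 j hj]; exact e⟩,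
      fun ⟨j, hj, e⟩ => ⟨j, hj, by rw [h3 j hj]; exact e⟩⟩
  rw [e1, e2]

end walker

end Crest.Agent.R143.Extx358
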