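import Crest.Agent.R143.Idx_927
import Crest.Agent.R143.Ext_358
import Crest.Agent.R143.Frame10_395

/-!
# Row 143 (S0194), R4 / SEP: from the index of a closed white chain to `Sep` of `Ext_358` on `cm0 hS`
(helper927)

* `iq` : index of the cells of `cm0 hS` (total angle of the closed chain `c`; `0` on the hull)
* `ad_de`, `iq_ad` : constant along edges off the chain
* `left_step`, `left_all` : the left cells of a walker are black and have the index of the first one
* `sep_end`, `sep_walk` : `Sep (cm0 hS) (hc S) Z AL`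
* `not_ext` : a site of non zero index is not in `Ext`; `ext_iq`
* `asum_black` : the index is constant along black chains
-/

set_option autoImplicit false

noncomputable section

open scoped Classical

namespace Crest.Agent.R143.SepEx927

open Crest.Agent.R143.B0x346 Crest.Agent.R143.DelGx806 Crest.Agent.R143.DelRx806
open Crest.Agent.R143.ToolWx838 Crest.Agent.R143.Blkx838 Crest.Agent.R143.Idxx927
open Crest.Agent.R143.Frame1x395 Crest.Agent.R143.Frame8x395 Crest.Agent.R143.Frame10x395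
open Crest.Agent.R143.Frame5x395 (sd mem_sd)
open Crest.Agent.R143.Extx358 Crest.Agent.R143.Gatex838

variable {S : Finset ℂ}

/-- the hull cells -/
def hc (S : Finset ℂ) : Set (Quot (hullE S)) := {q | ∃ h, OnHull S h ∧ q = Quot.mk _ h}

/-- index of a cell -/
def iq (hS : GP (S : Set ℂ)) {c : List ℂ} (hh : ∀ h, OnHull S h → asum h c = 0) :
    Quot (hullE S) → ℝ :=
  Quot.lift (fun s => asum s c) (by
    intro a b hab
    show asum a c = asum b c
    rw [hh a (onHull_left hS hab), hh b ⟨a, hab⟩])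

@[simp] theorem iq_mk (hS : GP (S : Set ℂ)) {c : List ℂ} (hh : ∀ h, OnHull S h → asum h c = 0)
    (s : ℂ) : iq hS hh (Quot.mk _ s) = asum s c := rfl

theorem iq_hull (hS : GP (S : Set ℂ)) {c : List ℂ} (hh : ∀ h, OnHull S h → asum h c = 0)
    {q : Quot (hullE S)} (hq : q ∈ hc S) : iq hS hh q = 0 := by
  obtain ⟨h, h1, rfl⟩ := hq
  exact hh h h1

/-- adjacent cells have adjacent sites -/
theorem ad_de (hS : GP (S : Set ℂ)) {q q' : Quot (hullE S)} (h : Ad (cm0 hS) q q') :
    ∃ a b, q = Quot.mk _ a ∧ q' = Quot.mk _ b ∧ DE S a b := by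
  obtain ⟨d, hd, rfl, rfl⟩ := h
  obtain ⟨c, hc⟩ := mem_sd.1 d.2
  exact ⟨d.1.1, d.1.2, rfl, rfl, Or.inl ⟨c, hc⟩⟩

/-- cells of a closed chain -/
def cw (S : Finset ℂ) (c : List ℂ) : Set (Quot (hullE S)) := {q | ∃ s ∈ c, q = Quot.mk _ s}

/-- the index is constant along the edges off the chain -/
theorem iq_ad (hS : GP (S : Set ℂ)) {c : List ℂ} (hl : Loop S c)
    (hh : ∀ h, OnHull S h → asum h c = 0) {q q' : Quot (hullE S)} (h : Ad (cm0 hS) q q')
    (h1 : q ∉ cw S c) (h2 : q' ∉ cw S c) : iq hS hh q = iq hS hh q' := by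
  obtain ⟨a, b, rfl, rfl, hab⟩ := ad_de hS h
  have ha : a ∉ c := fun h3 => h1 ⟨a, h3, rfl⟩
  have hb : b ∉ c := fun h3 => h2 ⟨b, h3, rfl⟩
  exact (asum_off hS hl ha (Relation.ReflTransGen.single ⟨hab, hb⟩)).1

/-- **SEP** from the index -/
theorem sep_end (hS : GP (S : Set ℂ)) {c : List ℂ} (hl : Loop S c)
    (hh : ∀ h, OnHull S h → asum h c = 0) {Z AL : Set (Quot (hullE S))} (hZ : cw S c ⊆ Z)
    (hA : ∀ q ∈ AL, q ∉ cw S c ∧ iq hS hh q ≠ 0) : Sep (cm0 hS) (hc S) Z AL :=
  sep_of_index (i₀ := (0 : ℝ)) hZ (fun _ _ h h1 h2 => iq_ad hS hl hh h h1 h2)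
    (fun _ hq _ => iq_hull hS hh hq) hA

/-- the index is `0` on `Ext` -/
theorem ext_iq (hS : GP (S : Set ℂ)) {c : List ℂ} (hl : Loop S c)
    (hh : ∀ h, OnHull S h → asum h c = 0) {Z : Set (Quot (hullE S))} (hZ : cw S c ⊆ Z)
    {q : Quot (hullE S)} (hq : Ext (cm0 hS) (hc S) Z q) : iq hS hh q = 0 :=
  ext_index hZ (fun _ _ h h1 h2 => iq_ad hS hl hh h h1 h2) (fun _ hq _ => iq_hull hS hh hq) hq

/-- a site of non zero index is not in `Ext` -/
theorem not_ext (hS : GP (S : Set ℂ)) {c : List ℂ} (hl : Loop S c)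
    (hh : ∀ h, OnHull S h → asum h c = 0) {Z : Set (Quot (hullE S))} (hZ : cw S c ⊆ Z)
    {u : ℂ} (hu : asum u c ≠ 0) : ¬ Ext (cm0 hS) (hc S) Z (Quot.mk _ u) :=
  fun h => hu (ext_iq hS hl hh hZ h)

/-! ### left cells -/

section walker

variable {D C : Type} [Fintype D] {M : CMap D C} {χ : C → ZMod 2}

/-- one step: the left cell does not move or moves to a neighbour; it stays black -/
theorem left_step {p : D} (hp : cfg M χ p = 1) (hc : χ (M.cell p) = 1) :
    cfg M χ (stp M (cfg M χ) p) = 1 ∧ χ (M.cell (stp M (cfg M χ) p)) = 1 ∧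
      (M.cell (stp M (cfg M χ) p) = M.cell p ∨
        Ad M (M.cell p) (M.cell (stp M (cfg M χ) p))) := by
  have hC := cfg_isC (M := M) χ
  have h0 := stp_occ hC hp (Set.notMem_empty p)
  have hr : χ (M.cell (M.rho p)) = 0 := by
    have h1 : χ (M.cell p) + χ (M.cell (M.rho p)) = 1 := hp
    rw [hc] at h1
    revert h1
    generalize χ (M.cell (M.rho p)) = u
    revert u; decide
  rcases stp_cases hC hp (Set.notMem_empty p) with ⟨h1, h2, e⟩ | ⟨h1, h2, e⟩
  · -- the left cell moves to the third cell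
    have hlv : M.rho p ∈ M.live := hC.lv h1
    have e1 : M.cell (stp M (cfg M χ) p) = M.cell (M.rho (M.rho p)) := by
      rw [e]; exact M.cell_iota _ hlv
    have hb : χ (M.cell (M.rho (M.rho p))) = 1 := by
      have h3 : χ (M.cell (M.rho p)) + χ (M.cell (M.rho (M.rho p))) = 1 := h1
      rw [hr, zero_add] at h3
      exact h3
    refine ⟨h0, by rw [e1]; exact hb, ?_⟩
    rw [e1]
    by_cases hl : M.rho (M.rho p) ∈ M.live
    · right
      have h4 : Ad M (M.cell (M.rho (M.rho p))) (M.cell p) :=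
        ⟨M.rho (M.rho p), hl, rfl, by rw [M.rho3]⟩
      exact h4.symm
    · left
      rw [M.dead _ hl, M.rho3]
  · have hlv : M.rho (M.rho p) ∈ M.live := hC.lv h2
    have e1 : M.cell (stp M (cfg M χ) p) = M.cell p := by
      rw [e, M.cell_iota _ hlv, M.rho3]
    exact ⟨h0, by rw [e1]; exact hc, Or.inl e1⟩

/-- all the left cells are black and joined by black cells -/
theorem left_all {p : D} (hp : cfg M χ p = 1) (hc : χ (M.cell p) = 1) (i : ℕ) :
    cfg M χ ((stp M (cfg M χ))^[i] p) = 1 ∧ χ (M.cell ((stp M (cfg M χ))^[i] p)) = 1 := by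
  induction i with
  | zero => exact ⟨hp, hc⟩
  | succ i ih =>
    rw [Function.iterate_succ_apply']
    have h := left_step ih.1 ih.2
    exact ⟨h.1, h.2.1⟩

/-- a function which is constant along the edges between black cells is constant on the left cells -/
theorem left_const {X : Type*} {I : C → X}
    (hI : ∀ c c', Ad M c c' → χ c = 1 → χ c' = 1 → I c = I c') {p : D} (hp : cfg M χ p = 1)
    (hc : χ (M.cell p) = 1) (i : ℕ) : I (M.cell ((stp M (cfg M χ))^[i] p)) = I (M.cell p) := by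
  induction i with
  | zero => rfl
  | succ i ih =>
    rw [Function.iterate_succ_apply', ← ih]
    have h1 := left_all hp hc i
    rcases left_step h1.1 h1.2 with ⟨-, h3, h4 | h4⟩
    · rw [h4]
    · exact (hI _ _ h4 h1.2 h3).symm

end walker

/-- the left cells of the walker: off the white chain, index of the first one -/
theorem iq_left (hS : GP (S : Set ℂ)) {c : List ℂ} (hl : Loop S c)
    (hh : ∀ h, OnHull S h → asum h c = 0) {χ : Quot (hullE S) → ZMod 2}
    (hw : ∀ s ∈ c, χ (Quot.mk _ s) = 0) {p : D0 S} (hp : cfg (cm0 hS) χ p = 1)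
    (hc : χ ((cm0 hS).cell p) = 1) (i : ℕ) :
    (cm0 hS).cell ((stp (cm0 hS) (cfg (cm0 hS) χ))^[i] p) ∉ cw S c ∧
      iq hS hh ((cm0 hS).cell ((stp (cm0 hS) (cfg (cm0 hS) χ))^[i] p)) =
        iq hS hh ((cm0 hS).cell p) := by
  have hb : ∀ q : Quot (hullE S), χ q = 1 → q ∉ cw S c := by
    rintro q hq ⟨s, hs, rfl⟩
    rw [hw s hs] at hq
    exact absurd hq (by decide)
  refine ⟨hb _ (left_all hp hc i).2, left_const (fun q q' h h1 h2 => ?_) hp hc i⟩
  exact iq_ad hS hl hh h (hb q h1) (hb q' h2)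

/-- **SEP for the left cells of a walker**: one left cell has non zero index -/
theorem sep_walk (hS : GP (S : Set ℂ)) {c : List ℂ} (hl : Loop S c)
    (hh : ∀ h, OnHull S h → asum h c = 0) {χ : Quot (hullE S) → ZMod 2}
    (hw : ∀ s ∈ c, χ (Quot.mk _ s) = 0) {p : D0 S} (hp : cfg (cm0 hS) χ p = 1)
    (hc1 : χ ((cm0 hS).cell p) = 1) (hi : asum p.1.1 c ≠ 0) {Z AL : Set (Quot (hullE S))}
    (hZ : cw S c ⊆ Z)
    (hA : ∀ q ∈ AL, ∃ i, q = (cm0 hS).cell ((stp (cm0 hS) (cfg (cm0 hS) χ))^[i] p)) :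
    Sep (cm0 hS) (hc S) Z AL := by
  refine sep_end hS hl hh hZ fun q hq => ?_
  obtain ⟨i, rfl⟩ := hA q hq
  have h := iq_left hS hl hh hw hp hc1 i
  refine ⟨h.1, ?_⟩
  rw [h.2]
  exact hi

/-- black chains carry the index to the neck -/
theorem asum_black (hS : GP (S : Set ℂ)) {c : List ℂ} (hl : Loop S c) {B : Set ℂ}
    (hB : ∀ s ∈ B, s ∉ c) {u v : ℂ} (hu : u ∈ B)
    (h : Relation.ReflTransGen (fun a b => DE S a b ∧ b ∈ B) u v) : asum u c = asum v c :=
  (asum_off hS hl (hB u hu) (Relation.ReflTransGen.mono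
    (fun _ _ h => ⟨h.1, hB _ h.2⟩) _ _ h)).1

end Crest.Agent.R143.SepEx927
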