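import Crest.Agent.R143.RegE_523
import Crest.Agent.R143.LayX_416
import Crest.Agent.R143.SepL_686

/-!
# Row 143 (S0194), CORE-C, RIG: geometry of the separation from the layout (helper523)

`K0 h A u` : the points at sup distance `≤ h - A` from `u.P`.
* `K0_pre`, `K0_off`, `K0_bot`, `P_sub` : preconnected, off all tiles `RR A B`, contains the bottom
  points of all gates and `u.P`
* **`sgeo`** : 686's `SGeo` for the corridor of the label `i`, inner gate `rr i`, some extreme gate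
-/

set_option autoImplicit false

noncomputable section

open scoped Classical

namespace Crest.Agent.R143.RegSx523

open Set
open Crest.Agent.R143.B0x346 Crest.Agent.R143.DelGx806 Crest.Agent.R143.DelRx806
open Crest.Agent.R143.ToolWx838 Crest.Agent.R143.Blkx838
open Crest.Agent.R143.ToolW3x838 Crest.Agent.R143.Neckx921 Crest.Agent.R143.Frame10x395
open Crest.Agent.R143.Gatex838 (X Y)
open Crest.Agent.R143.TileRx228 (U4 cz cen gz ge Arm RR FPath)
open Crest.Agent.R143.RegBx523 Crest.Agent.R143.RegEx523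
open Crest.Agent.R143.Tenx416 (Pg)
open Crest.Agent.R143.Brkx478 (Bk cells Conn con_cells)
open Crest.Agent.R143.PolyUx346
open Crest.Agent.R143.Layx416 Crest.Agent.R143.LayUx416
open Crest.Agent.R143.Idxx927 (wl)

variable {u : Poly} {mm M : ℕ} {p W : ℤ → ℤ × ℤ} {aa e : ℤ → ℤ} {h A B : ℝ}

/-- the inner side -/
def K0 (h A : ℝ) (u : Poly) : Set ℂ := Kin (h - A) u.P

theorem P_pre (u : Poly) : IsPreconnected u.P := by
  have : u.P = Pg u.s (cells (u.U : Set Bk)) := rfl
  rw [this]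
  exact Pg_preconn u.s_pos (con_cells u.con)

theorem K0_pre (h A : ℝ) (u : Poly) : IsPreconnected (K0 h A u) := Kin_preconn (P_pre u)

theorem P_sub (hA : A ≤ h) : u.P ⊆ K0 h A u := sub_Kin (by linarith)

theorem K0_off (H : LayU u mm M p W aa e) (hh : (mm : ℝ) * h = u.s) (hB : 0 ≤ B) (hBh : B ≤ h) :
    ∀ w ∈ K0 h A u, ∀ a, w ∉ RR A B h W a := by
  intro w hw a ha
  refine RR_Kin H.fine (by have := H.m_pos; omega) (H.h_pos hh) hB hBh le_rfl ha ?_
  rw [← LayU.P_eq u hh]
  exact hw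

theorem K0_bot (H : LayU u mm M p W aa e) (hh : (mm : ℝ) * h = u.s) (_hA : 0 ≤ A)
    (hA2 : 2 * A ≤ h) (a : ℤ) : wl (gz h W a) (ge W a) (-A) ∈ K0 h A u := by
  have h0 := H.h_pos hh
  unfold K0
  rw [LayU.P_eq u hh]
  exact wl_bot H.fine (by have := H.m_pos; omega) h0 a (by linarith) (by linarith) (by linarith)

/-- the points below a gate -/
theorem K0_below (H : LayU u mm M p W aa e) (hh : (mm : ℝ) * h = u.s) {a : ℤ} {s : ℂ}
    (hX : |X (gz h W a) (ge W a) s| ≤ h / 2 - A) (hY0 : -h ≤ Y (gz h W a) (ge W a) s)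
    (hY : Y (gz h W a) (ge W a) s ≤ -A) : s ∈ K0 h A u := by
  have h0 := H.h_pos hh
  unfold K0
  rw [LayU.P_eq u hh]
  refine bot H.fine (by have := H.m_pos; omega) h0 (a := a) (by linarith) ?_ (by linarith)
  have : 0 ≤ h * (mm : ℝ) := by positivity
  linarith

/-- **the geometry of the separation** -/
theorem sgeo (H : LayU u mm M p W aa e) (hh : (mm : ℝ) * h = u.s) {S : Finset ℂ}
    {b1 m ρ τ κ : ℝ} (hA : 0 < A) (hAB : A ≤ B) (hB : h / 2 < B) (hb1 : A ≤ b1) (hm : 0 ≤ m)
    (hρ : 0 ≤ ρ) (hρτ : ρ < τ) (hτκ : τ < κ) (hbκ : b1 + m < A + κ) (hK : A + B + 2 * κ < h)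
    (edge : ∀ a u v, DE S u v → u ∈ RR (A + ρ) (B + ρ) h W a → v ∈ RR (A + ρ) (B + ρ) h W a →
      ‖v - u‖ ≤ τ - ρ)
    (inn : ∀ a, ∀ s ∈ S, s ∈ RR (A + ρ) (B + ρ) h W a → ¬ OnHull S s) (i : ZMod 3) :
    ∃ k1, SepLx686.SGeo S M (nn aa e i) (rr aa e i) k1 W A B h b1 m ρ τ κ (al aa e i)
      (K0 h (A + τ) u) := by
  obtain ⟨a, x1, x2, x3, x4, x5⟩ := H.extreme
  have h0 := H.h_pos hh
  have hM := H.lay.M_pos
  have hfp := H.lay.fp
  obtain ⟨c, c1, c2, c3⟩ := rep (show 0 < M by omega) (al aa e i) (a - 1)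
  obtain ⟨k1, hk1⟩ : ∃ k1 : ℕ, c = al aa e i + k1 := ⟨(c - al aa e i).toNat, by omega⟩
  have e1 : (M : ℤ) ∣ (al aa e i + k1 + 1) - a := by
    have := dvd_neg.2 c3
    rwa [hk1, show -(a - 1 - (al aa e i + (k1 : ℤ))) = al aa e i + k1 + 1 - a by ring] at this
  have g1 := RegBx523.ge_cong hfp e1
  have g0 := RegBx523.ge_cong hfp (a := a - 1) (b := al aa e i + k1)
    (by rwa [show al aa e i + (k1 : ℤ) - (a - 1) = al aa e i + k1 + 1 - a by ring])
  have g2 := RegBx523.ge_cong hfp (a := a + 1) (b := al aa e i + k1 + 1 + 1)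
    (by rwa [show al aa e i + (k1 : ℤ) + 1 + 1 - (a + 1) = al aa e i + k1 + 1 - a by ring])
  have z1 := RegBx523.gz_cong (h := h) hfp e1
  have q1 := H.lay.rr_pos i
  have q2 := H.lay.rr_lt i
  have q3 := H.lay.nn_lt i
  have q4 := H.lay.rr_eq i
  have hA2 : 2 * (A + τ) ≤ h := by linarith
  exact ⟨k1,
    { fp := hfp
      A0 := hA
      AB := hAB
      Bh := hB
      b1A := hb1
      m0 := hm
      ρ0 := hρ
      ρτ := hρτ
      τκ := hτκ
      b1κ := hbκ
      hh := hK
      edge := edge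
      inn := inn
      k3 := by omega
      kn := by omega
      nM := by omega
      st := fun b hb1 hb2 => (H.lay.run_mi i (by omega) (by omega)).1
      k1M := by omega
      st1 := by
        rw [g1, g0]
        have := x2 (a - 1) (by omega) (by omega)
        rwa [sub_add_cancel] at this
      st2 := by
        rw [g1, g2]
        exact x2 a (by omega) (by omega)
      ext := fun b s hs => by
        rw [g1, z1]
        exact x5 h0 (by linarith) (by linarith) b s hs
      K0pre := K0_pre _ _ _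
      K0off := K0_off H hh (by linarith) (by linarith)
      K0k := K0_bot H hh (by linarith) hA2 _
      K0e := K0_bot H hh (by linarith) hA2 _ }⟩

end Crest.Agent.R143.RegSx523
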