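import Crest.Agent.R143.SepH_697
import Crest.Agent.R143.RegS_523
import Crest.Agent.R143.CorrA_831

/-!
# Row 143 (S0194), RIG, CorrI (b): SEPARATION for the corridor of the label `i` of a layout (helper697)

`L : LayU u mm M p W aa e` (416), `mm * 100 η = u.s`, `H : CorH X U M W η d (al aa e i) (nn aa e i)`.
* `geoU` : 686's geometry (523's `sgeo`); `backU` : all arcs backward (831 / 881)
* **`sepU`** : `Extx358.Sep` on `rc0`, the sites of `K0 (100 η) (10 η) u ⊇ u.P` and the gates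
  `yy (al + k)` are not in `Ext`
-/

set_option autoImplicit false

noncomputable section

open scoped Classical

namespace Crest.Agent.R143.SepUx697

open Crest.Agent.R143.B0x346 Crest.Agent.R143.DelGx806 Crest.Agent.R143.DelRx806
open Crest.Agent.R143.Frame1x395 Crest.Agent.R143.Frame2x395
  Crest.Agent.R143.Frame4x395 Crest.Agent.R143.Frame10x395
open Crest.Agent.R143.Splx117 Crest.Agent.R143.WLocx713 Crest.Agent.R143.RingDx117
open Crest.Agent.R143.TileRx228
open Crest.Agent.R143.Frame8x395 (cfg)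
open Crest.Agent.R143.CorHx713
open Crest.Agent.R143.RcTx422
open Crest.Agent.R143.FinCx811 (rc0 Cs rcol cs)
open Crest.Agent.R143.OutSx358 (zc)
open Crest.Agent.R143.Gntx535 (wl wr)
open Crest.Agent.R143.PolyUx346 Crest.Agent.R143.Layx416 Crest.Agent.R143.LayUx416
open Crest.Agent.R143.RegSx523 (K0)
open Crest.Agent.R143.SepHx697

variable {X : Set (ℂ × Bool)} {U : Set ℂ} {u : Poly} {mm M : ℕ} {p W : ℤ → ℤ × ℤ} {aa e : ℤ → ℤ}
  {η d : ℝ} {i : ZMod 3}

/-- the geometry -/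
theorem geoU (L : LayU u mm M p W aa e) (hh : (mm : ℝ) * (100 * η) = u.s)
    (H : CorH X U M W η d (al aa e i) (nn aa e i)) :
    ∃ k1, Geo (sX X) M (nn aa e i) (rr aa e i) k1 W η (al aa e i) (K0 (100 * η) (9 * η + η) u) := by
  have h0 := H.e0
  exact RegSx523.sgeo L hh (by linarith) (by linarith) (by linarith) (by linarith) (by linarith)
    (by linarith) (by linarith) (by linarith) (by linarith) (by linarith) (edge_of H) (inn_of H) i

/-- **all arcs are backward** -/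
theorem backU (L : LayU u mm M p W aa e) (H : CorH X U M W η d (al aa e i) (nn aa e i)) :
    (∀ k : ℕ, k < nn aa e i → FA (cm0 H.gp) (xc H.gp H.hull)
      (RD (sX X) (RR (19 / 2 * η) (103 / 2 * η) (100 * η) W (al aa e i + k))) (H.p (k + 1)) (H.p k)) ∧
      ∀ k : ℕ, k < nn aa e i → ¬ FA (cm0 H.gp) (xc H.gp H.hull)
        (RD (sX X) (RR (19 / 2 * η) (103 / 2 * η) (100 * η) W (al aa e i + k))) (H.p k)
          (H.p (k + 1)) := by
  have q1 := L.lay.rr_pos i
  have q2 := L.lay.rr_lt i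
  have q4 := L.lay.rr_eq i
  exact CorrIx831.back H (r := rr aa e i) (by omega) (by omega) fun b hb1 hb2 =>
    (L.lay.run_mi i (by omega) (by omega)).1

/-- **SEPARATION for the corridor of the label `i`** -/
theorem sepU (L : LayU u mm M p W aa e) (hh : (mm : ℝ) * (100 * η) = u.s)
    {H : CorH X U M W η d (al aa e i) (nn aa e i)} {Rs : Set (D0 (sX X))} {q : D0 (sX X)} {N : ℕ}
    {T : ℕ → ℕ} (St : StH H Rs q N T) {R : Set (Cs H.gp)}
    (hR : ∀ s ∈ sX X, s ∈ BR η W M (al aa e i) (nn aa e i) → ∃ c ∈ R, c.1 = Quot.mk _ s) :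
    Extx358.Sep (rc0 H.gp) (Hc H.gp)
        (zc (rc0 H.gp) R q (T (nn aa e i)) (rcol H.gp (cX X) H.hull))
        (wl (rc0 H.gp) (cfg (rc0 H.gp) (rcol H.gp (cX X) H.hull)) q (T (nn aa e i))) ∧
      (∀ v ∈ K0 (100 * η) (10 * η) u, ∀ c : Cs H.gp, c.1 = Quot.mk _ v →
        ¬ Extx358.Ext (rc0 H.gp) (Hc H.gp)
          (zc (rc0 H.gp) R q (T (nn aa e i)) (rcol H.gp (cX X) H.hull)) c) ∧
      (∀ v ∈ u.P, ∀ c : Cs H.gp, c.1 = Quot.mk _ v →
        ¬ Extx358.Ext (rc0 H.gp) (Hc H.gp)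
          (zc (rc0 H.gp) R q (T (nn aa e i)) (rcol H.gp (cX X) H.hull)) c) ∧
      (∀ k : ℕ, k ≤ nn aa e i → ∀ c : Cs H.gp, c.1 = Quot.mk _ (yy η W X (al aa e i + k)) →
        ¬ Extx358.Ext (rc0 H.gp) (Hc H.gp)
          (zc (rc0 H.gp) R q (T (nn aa e i)) (rcol H.gp (cX X) H.hull)) c) := by
  have h0 := H.e0
  obtain ⟨k1, G⟩ := geoU L hh H
  obtain ⟨h1, h2, h3⟩ := sepH St G (backU L H).1 hR
  rw [show 9 * η + η = 10 * η by ring] at h2
  exact ⟨h1, h2, fun v hv => h2 v (RegSx523.P_sub (by linarith) hv), h3⟩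

end Crest.Agent.R143.SepUx697
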