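import Crest.Agent.R143.CorrC_831
import Crest.Agent.R143.HTop_903
import Crest.Agent.R143.SepU_697
import Crest.Agent.R143.LnkN_927
import Crest.Agent.R143.HullC_40

/-!
# Row 143 (S0194), RIG, composition CorrI, zones of one environment (helper831)

* `ZS` : 903's zones on a fixed set of sites (ONE `Z` for all colourings), `exists_zs`
* `str_cm0` : strands of `rc0` are strands of `cm0`
* `hE_S`, `hW_S`, `hcol_S`, `hsep_S` : the hypotheses of `CorrIx831.hx_S`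
* **`ZE`** : the zones of the out strand of one environment, and the strand of every colouring
* **`exists_ze`** : they exist, for the label `i` of a layout in a good environment
-/

set_option autoImplicit false
set_option linter.all false

noncomputable section

open scoped Classical

namespace Crest.Agent.R143.CorrZx831

open Set
open Crest.ProbabilityR.Voronoi
open Crest.Agent.R143.B0x346 Crest.Agent.R143.DelGx806 Crest.Agent.R143.DelRx806
  Crest.Agent.R143.JColx54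
open Crest.Agent.R143.Frame1x395 Crest.Agent.R143.Frame2x395 Crest.Agent.R143.Frame3x395
  Crest.Agent.R143.Frame4x395 Crest.Agent.R143.Frame8x395 Crest.Agent.R143.Frame9x395
  Crest.Agent.R143.Frame10x395 Crest.Agent.R143.Frame11x395
open Crest.Agent.R143.Frame5x395 (sd mem_sd th th_spec)
open Crest.Agent.R143.Locx922
open Crest.Agent.R143.Splx117 Crest.Agent.R143.WLocx713
open Crest.Agent.R143.TileRx228
open Crest.Agent.R143.FinMx609
open Crest.Agent.R143.CorHx713 Crest.Agent.R143.CorrIx831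
open Crest.Agent.R143.RingDx117 (RD)
open Crest.Agent.R143.Sptx169 Crest.Agent.R143.Sptx832 Crest.Agent.R143.Spt2x832
  Crest.Agent.R143.SpRx169
open Crest.Agent.R143.StrBx117 (Str)
open Crest.Agent.R143.NonXx592 (P Rc)
open Crest.Agent.R143.Gntx535 (wl wr)
open Crest.Agent.R143.Extx358 (Ad Ext Sep Zc)
open Crest.Agent.R143.OutSx358 (zc Sys ac)
open Crest.Agent.R143.K33x137 (Lk Cn)
open Crest.Agent.R143.FinCx811 (Cs rc0 cs rcol cs_surj)
open Crest.Agent.R143.Uniqx323 (Zn Strd)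
open Crest.Agent.R143.SysAx168 (EvA sysA)
open Crest.Agent.R143.SysCx166 (Hv Hx Vs)
open Crest.Agent.R143.ZnLx903 (clR comp RtS F0 F1 GT coreS coreS_mem core ex_core cv zn zR zE zW zT
  zK zone_E zone_W)
open Crest.Agent.R143.LnkLx927 (Clo2)
open Crest.Agent.R143.RcTx422 (RC Hc)
open Crest.Agent.R143.EvGx168 (SD lc_rc0 cfg_rc0)
open Crest.Agent.R143.PolyUx346 (Poly)
open Crest.Agent.R143.Layx416 Crest.Agent.R143.LayUx416
open Crest.Agent.R143.CorEx133 (Rp RU UU SU CorEnv)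

/-! ### zones on a fixed set of sites -/

/-- the site of the centre of the tile `a` -/
def coreSS (S : Finset ℂ) (η : ℝ) (W : ℤ → ℤ × ℤ) (a : ℤ) : ℂ :=
  if h : ∃ s ∈ S, cen (100 * η) W a ∈ voronoiCell (S : Set ℂ) s then h.choose else 0

section cor

variable {X : Set (ℂ × Bool)} {U : Set ℂ} {M : ℕ} {W : ℤ → ℤ × ℤ} {η d : ℝ} {o : ℤ} {n : ℕ}

theorem coreSS_eq (H : CorH X U M W η d o n) (a : ℤ) : coreSS (sX X) η W a = coreS H a := by
  unfold coreSS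
  rw [dif_pos (ex_core H a)]
  rfl

/-- **903's zones on a fixed set of sites** -/
structure ZS {S : Finset ℂ} (hS : GP (S : Set ℂ)) (W : ℤ → ℤ × ℤ) (η d : ℝ) (o : ℤ) (n r : ℕ)
    (h₀ : Cs hS) (Z : Zn (rc0 hS)) : Prop where
  gR : Z.R = clR hS (RtS η W o n)
  gK : Z.K = clR hS (Crest.Agent.R143.ZnLx903.KS η W (o + r))
  gE : ∃ c : Cs hS, c.1 = Quot.mk (hullE S) (coreSS S η W (o + n - 1)) ∧
    Z.E = comp (rc0 hS) (clR hS (F1 η d W (o + n - 1))) c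
  gW : ∃ c : Cs hS, c.1 = Quot.mk (hullE S) (coreSS S η W o) ∧
    Z.W = comp (rc0 hS) (clR hS (F0 η d W o)) c
  gT : Z.T = comp (rc0 hS) (clR hS (GT η d W {o, o + n - 1})) h₀

theorem exists_zs {S : Finset ℂ} {hS : GP (S : Set ℂ)} (e : sX X = S) (H : CorH X U M W η d o n)
    {r : ℕ} (h0 : 0 < r) (h1 : r + 1 < n) (h₀ : Cs hS) :
    ∃ Z : Zn (rc0 hS), ZS hS W η d o n r h₀ Z := by
  subst e
  refine ⟨zn H (J := {o, o + n - 1}) (by omega) h0 h1 (by simp) (by simp) h₀, ?_⟩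
  refine ⟨rfl, rfl, ⟨core H (o + n - 1), ?_, rfl⟩, ⟨core H o, ?_, rfl⟩, rfl⟩
  · rw [coreSS_eq H]
    rfl
  · rw [coreSS_eq H]
    rfl

section zs

variable {S : Finset ℂ} {hS : GP (S : Set ℂ)} {r : ℕ} {h₀ : Cs hS} {Z : Zn (rc0 hS)}

theorem hE_S (G : ZS hS W η d o n r h₀ Z) (e : sX X = S) (H : CorH X U M W η d o n) (hn : 3 ≤ n) :
    ∀ x ∈ RD S (Bk η W o (n - 1)), ∀ c, (c = (rc0 hS).cell x ∨ c = Rc (rc0 hS) x) →
      c ∉ Z.R → c ∈ Z.E := by
  subst e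
  intro x hx c hc hR
  obtain ⟨c1, h1, h2⟩ := G.gE
  have e1 : c1 = core H (o + n - 1) := by
    refine Subtype.ext ?_
    rw [h1, coreSS_eq H]
    rfl
  have hB : Bk η W o (n - 1) = RR (19 / 2 * η) (103 / 2 * η) (100 * η) W (o + n - 1) := by
    unfold Bk
    rw [show o + ((n - 1 : ℕ) : ℤ) = o + n - 1 by omega]
  rw [hB] at hx
  rw [G.gR] at hR
  rw [h2, e1]
  exact zone_E H hn hx hc hR

theorem hW_S (G : ZS hS W η d o n r h₀ Z) (e : sX X = S) (H : CorH X U M W η d o n) (hn : 3 ≤ n) :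
    ∀ x ∈ RD S (Bk η W o 0), ∀ c, (c = (rc0 hS).cell x ∨ c = Rc (rc0 hS) x) →
      c ∉ Z.R → c ∈ Z.W := by
  subst e
  intro x hx c hc hR
  obtain ⟨c1, h1, h2⟩ := G.gW
  have e1 : c1 = core H o := by
    refine Subtype.ext ?_
    rw [h1, coreSS_eq H]
    rfl
  have hB : Bk η W o 0 = RR (19 / 2 * η) (103 / 2 * η) (100 * η) W o := by
    unfold Bk
    rw [show o + ((0 : ℕ) : ℤ) = o by simp]
  rw [hB] at hx
  rw [G.gR] at hR
  rw [h2, e1]
  exact zone_W H hn hx hc hR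

/-- the region of the strand, 422's form -/
theorem zR_S (G : ZS hS W η d o n r h₀ Z)
    (hin : ∀ v ∈ S, v ∈ Rts η W o n → ¬ OnHull S v) : Z.R = RC hS (Rts η W o n) := by
  rw [G.gR]
  exact HullCx40.clR_RC hin

end zs

/-- strands of `rc0` are strands of `cm0` -/
theorem str_cm0 {S : Finset ℂ} {χ : ℂ → ZMod 2} {hS : GP (S : Set ℂ)} {hχ : HullC S χ}
    {Rs : Set (D0 S)} {pp : ℕ → D0 S} {R : ℕ → Set (D0 S)} {q : D0 S} {N : ℕ} {T : ℕ → ℕ}
    (H : Str (rc0 hS) (cfg (rc0 hS) (rcol hS χ hχ)) n Rs pp R q N T) :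
    Str (cm0 hS) (xc hS hχ) n Rs pp R q N T where
  n3 := H.n3
  lp := ⟨cfg_isC _, H.lp.occ, H.lp.pos, H.lp.per, H.lp.inj⟩
  T0 := H.T0
  TN := H.TN
  mono := H.mono
  lt := H.lt
  at_ := H.at_
  arc := H.arc
  mem := H.mem
  bef := H.bef
  aft := H.aft
  befR := H.befR
  aftR := H.aftR
  cut := fun k k' h1 h2 h3 u v a1 a2 a3 a4 e => by
    obtain ⟨b1, b2⟩ := H.cut k k' h1 h2 h3 u v a1 a2 a3 a4 (lc_rc0.2 e)
    exact ⟨b1, lc_rc0.1 b2⟩

/-! ### the hypotheses of `hx_S` -/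

/-- **the column** -/
theorem hcol_S {S : Finset ℂ} {hS : GP (S : Set ℂ)} {s : Cs hS → ZMod 2} {r : ℕ} {h₀ : Cs hS}
    {Z : Zn (rc0 hS)} (G : ZS hS W η d o n r h₀ Z) (h3 : 3 ≤ S.card) (Cc : Col hS X s)
    (H : CorH X U M W η d o n) {u : Poly} {m : ℕ} {v : ℤ → ℤ × ℤ} {A e : ℤ → ℤ}
    {ε K1 c2 ρ0 : ℝ} {ω : Sample} (C : CorEnv u ε d K1 c2 ρ0 ω) (eS : S = SU u ε ω)
    (L : LayU u m M v W A e) (hh : (m : ℝ) * (100 * η) = u.s) {k : ℤ} (h1 : A k + 4 ≤ o + r)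
    (h2 : o + r + 4 ≤ A (k + 1)) (r1 : 2 ≤ r) (r2 : r + 1 < n) (h0 : h₀ ∈ Hc hS)
    {p : ℕ → D0 S} (hp : ∀ k : ℕ, (p k).1 = (yy η W X (o + k), xx η W X (o + k))) :
    ∃ k, 0 < k ∧ k < n ∧ ∃ t ∈ Z.T, Lk (rc0 hS) ({c | c ∈ Z.K ∧ s c = 0} ∪ Z.T)
      (Rc (rc0 hS) (p k)) t := by
  obtain ⟨x, hxS, hx, e0⟩ := HullCx40.rep h0
  refine ⟨r, by omega, by omega, ?_⟩
  rw [G.gT, G.gK]
  refine HTopx903.col_env Cc.e H C eS L hh h1 h2 (HTopx903.hJ_ends H r1 r2) hx e0 (b := 0)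
    (χ := s) ?_ ?_
  · intro t ht hb c hc
    have h4 : c = cs hS h3 ⟨t, ht⟩ := Subtype.ext hc
    rw [h4, Cc.c h3 t ht]
    have h5 : t ∈ sX X := by rw [Cc.e]; exact ht
    have h6 : cX X t ≠ 1 := fun h => hb (Finset.mem_filter.2 ⟨h5, h⟩)
    unfold cX at h6 ⊢
    split_ifs at h6 ⊢ with h7
    · exact absurd rfl h6
    · rfl
  · show Quot.mk (hullE S) (p r).1.2 = _
    rw [hp r]

/-- **the separation** -/
theorem hsep_S {S : Finset ℂ} {hS : GP (S : Set ℂ)} {s : Cs hS → ZMod 2} {h₀ : Cs hS}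
    (h3 : 3 ≤ S.card) (Cc : Col hS X s) {u : Poly} {m : ℕ} {v : ℤ → ℤ × ℤ} {A e : ℤ → ℤ}
    {i : ZMod 3} (H : CorH X U M W η d (al A e i) (nn A e i)) (L : LayU u m M v W A e)
    (hh : (m : ℝ) * (100 * η) = u.s) (h0 : h₀ ∈ Hc hS) {p : ℕ → D0 S}
    (hp : ∀ k : ℕ, (p k).1 = (yy η W X (al A e i + k), xx η W X (al A e i + k)))
    {Rw : Set (Cs hS)}
    (hRw : ∀ t ∈ S, t ∈ Clo2 η W M (al A e i) (nn A e i) → ∃ c ∈ Rw, c.1 = Quot.mk (hullE S) t)
    (q : D0 S) (N : ℕ) (T : ℕ → ℕ) (St : SDS hS s η W (al A e i) (nn A e i) p q N T) :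
    Sep (rc0 hS) {h₀} (zc (rc0 hS) Rw q (T (nn A e i)) s)
      (wl (rc0 hS) (cfg (rc0 hS) s) q (T (nn A e i))) := by
  obtain rfl : sX X = S := Cc.e
  obtain rfl := col_eq H.hull h3 Cc
  have hpe : p = H.p := by
    funext k
    exact Subtype.ext (hp k)
  subst hpe
  have h1 := (SepUx697.sepU L hh (H := H) (R := Rw) (str_cm0 (hχ := H.hull) St) (by
    rintro t ht ⟨a, a1, a2, a3⟩
    exact hRw t ht ⟨a, ⟨a1, a2⟩, a3⟩)).1
  rwa [RcTx422.Hc_eq h0] at h1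

end cor

/-! ### the zones of one environment -/

/-- pair of an arc: first state, length -/
abbrev pa {S : Finset ℂ} (hS : GP (S : Set ℂ)) : D0 S × ℕ → (Cs hS → ZMod 2) → D0 S :=
  fun i _ => i.1

abbrev na {S : Finset ℂ} (hS : GP (S : Set ℂ)) : D0 S × ℕ → (Cs hS → ZMod 2) → ℕ :=
  fun i _ => i.2

/-- the root gaps: tile `r - 1` -/
def QR (S : Finset ℂ) (η : ℝ) (W : ℤ → ℤ × ℤ) (o : ℤ) (r : ℕ) : Set (D0 S) :=
  RD S (Bk η W o (r - 1))

/-- the cells of the closing and end strips -/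
def RwD {S : Finset ℂ} (hS : GP (S : Set ℂ)) (η : ℝ) (W : ℤ → ℤ × ℤ) (M : ℕ) (o : ℤ) (n : ℕ) :
    Set (Cs hS) := RC hS (Clo2 η W M o n)

/-- the event of the strand -/
abbrev EvD {S : Finset ℂ} (hS : GP (S : Set ℂ)) (η : ℝ) (W : ℤ → ℤ × ℤ) (M : ℕ) (o : ℤ) (n r : ℕ)
    (h₀ : Cs hS) (Z : Zn (rc0 hS)) : D0 S × ℕ → (Cs hS → ZMod 2) → Prop :=
  EvA (rc0 hS) {h₀} (RwD hS η W M o n) (QR S η W o r) Z

/-- the strand of one colouring: conclusion of `hx_S` -/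
def Out {S : Finset ℂ} (hS : GP (S : Set ℂ)) (η : ℝ) (W : ℤ → ℤ × ℤ) (M : ℕ) (o : ℤ) (n r : ℕ)
    (h₀ : Cs hS) (Z : Zn (rc0 hS)) (X : Set (ℂ × Bool)) (s : Cs hS → ZMod 2) (p : ℕ → D0 S) :
    Prop :=
  ∃ (q : D0 S) (N : ℕ) (T : ℕ → ℕ), SDS hS s η W o n p q N T ∧
    Hv (rc0 hS) (pa hS) (na hS) (EvD hS η W M o n r h₀ Z) n n (Ft S η W o n)
      (tlt hS η W o n) s ((q, T n), T) ∧
    ∀ {f : ℂ × ℂ × ℂ → ℂ} {w : D0 S → ℂ}, (∀ k, k < n → ∀ e : D0 S,
        e.1.2 ∈ Bk η W o k → th S e.1 ∈ Bk η W o k →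
          w e = f (e.1.2, th S e.1, e.1.1)) →
      ∀ l, 2 ≤ l → l + 2 < n →
        Vs (rc0 hS) (pa hS) (na hS) (EvD hS η W M o n r h₀ Z) w (Ft S η W o n) l s =
            VX f n (Bk η W o) (QX (100 * η) W o n) (Stk η W o) (n - 1 - l) X

/-- **the zones of the out strand of one environment** -/
structure ZE {S : Finset ℂ} (hS : GP (S : Set ℂ)) (U : Set ℂ) (M : ℕ) (W : ℤ → ℤ × ℤ)
    (η d : ℝ) (o : ℤ) (n r : ℕ) (h₀ : Cs hS) (Z : Zn (rc0 hS)) : Prop where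
  h0 : h₀ ∈ Hc hS
  /-- no hull site in the strips -/
  inn : ∀ v ∈ S, (∃ a, v ∈ RR (10 * η) (52 * η) (100 * η) W a) → ¬ OnHull S v
  zR : Z.R = RC hS (Rts η W o n)
  zK : Z.K ⊆ clR hS (Crest.Agent.R143.ZnLx903.KS η W (o + r))
  zE : Z.E ⊆ clR hS (F1 η d W (o + n - 1))
  zW : Z.W ⊆ clR hS (F0 η d W o)
  zT : Z.T ⊆ comp (rc0 hS) (clR hS (GT η d W {o, o + n - 1})) h₀
  hK : ∀ c ∈ Z.K, c ∉ RwD hS η W M o n
  hT : ∀ t ∈ Z.T, Ext (rc0 hS) {h₀} (Z.R ∪ RwD hS η W M o n) t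
  zs : ∀ X, sX X = S → CorH X U M W η d o n → ZS hS W η d o n r h₀ Z
  out : ∀ (X : Set (ℂ × Bool)) (s : Cs hS → ZMod 2), Col hS X s → CorH X U M W η d o n →
    ∀ p : ℕ → D0 S, (∀ k : ℕ, (p k).1 = (yy η W X (o + k), xx η W X (o + k))) →
      Out hS η W M o n r h₀ Z X s p

section cor2

variable {X : Set (ℂ × Bool)} {U : Set ℂ} {M : ℕ} {W : ℤ → ℤ × ℤ} {η d : ℝ} {o : ℤ} {n : ℕ}

/-- the top zone is in the exterior -/
theorem t_ext_S {S : Finset ℂ} {hS : GP (S : Set ℂ)} (e : sX X = S) (H : CorH X U M W η d o n)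
    {J : Set ℤ} {c0 : Cs hS} {x : ℂ} (hx : OnHull S x) (h0 : c0.1 = Quot.mk (hullE S) x)
    {Rw : Set (Cs hS)} (hR : Rw ⊆ clR hS {q | ∃ a, q ∈ Crest.Agent.R143.ZnLx903.BB η W a})
    {t : Cs hS} (ht : t ∈ comp (rc0 hS) (clR hS (GT η d W J)) c0) :
    Ext (rc0 hS) {c0} (clR hS (RtS η W o n) ∪ Rw) t := by
  subst e
  exact ZnLx903.t_ext H hx h0 hR ht

/-- the mark gate is off the closing and end strips -/
theorem k_off_S {S : Finset ℂ} {hS : GP (S : Set ℂ)} (e : sX X = S) (H : CorH X U M W η d o n)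
    {r : ℕ} (h1 : 2 ≤ r) (h2 : r + 1 < n) : ∀ c ∈ clR hS (Crest.Agent.R143.ZnLx903.KS η W (o + r)),
      c ∉ RwD hS η W M o n := by
  subst e
  have hM := H.nM
  intro c hc hc'
  refine Set.disjoint_left.1 (ZnLx903.clR_disj (hS := hS)
    (F := Crest.Agent.R143.ZnLx903.KS η W (o + r)) (G := Clo2 η W M o n) (fun z _ h h' => ?_)
    fun z _ h => ?_) hc (HullCx40.RC_clR hc')
  · obtain ⟨a, ⟨a1, a2⟩, ha⟩ := h'
    refine ZnLx903.KS_off H (a := o + r) (b := a) ?_ ?_ h ha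
    · exact HTopx903.nd (by omega) (by omega) (by omega)
    · exact HTopx903.nd (by omega) (by omega) (by omega)
  · exact H.inn (ZnLx903.Rt_U H (ZnLx903.KS_Rt H (by omega) h2 h))

end cor2

/-- the trivial zones -/
def z0 {S : Finset ℂ} (hS : GP (S : Set ℂ)) (R : Set (Cs hS)) : Zn (rc0 hS) where
  R := R
  K := ∅
  E := ∅
  W := ∅
  T := ∅
  KR := Set.empty_subset _
  cE := fun _ h => absurd h (Set.notMem_empty _)
  cW := fun _ h => absurd h (Set.notMem_empty _)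
  cT := fun _ h => absurd h (Set.notMem_empty _)
  RE := Set.disjoint_empty _
  RW := Set.disjoint_empty _
  RT := Set.disjoint_empty _
  EW := Set.disjoint_empty _
  ET := Set.disjoint_empty _
  WT := Set.disjoint_empty _

section env

variable {u : Poly} {m M : ℕ} {v W : ℤ → ℤ × ℤ} {A e : ℤ → ℤ} {η d ε K1 c2 ρ0 : ℝ} {ω : Sample}

/-- no hull site in the strips -/
theorem inn_env {S : Finset ℂ} (C : CorEnv u ε d K1 c2 ρ0 ω) (eS : S = SU u ε ω)
    (L : LayU u m M v W A e) (hh : (m : ℝ) * (100 * η) = u.s) {z : ℂ}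
    (hz : ∃ a, z ∈ RR (10 * η) (52 * η) (100 * η) W a) : ¬ OnHull S z := by
  obtain ⟨a, ha⟩ := hz
  have h0 := L.h_pos hh
  subst eS
  exact C.inn (CorEx133.RR_sub L hh (by linarith) (by linarith) (by linarith) (by linarith) a ha)

/-- smaller strips -/
theorem sub_big (hη : 0 < η) {B : Set ℂ} (hB : B ⊆ {z | ∃ a : ℤ, z ∈ bst η W a}) {z : ℂ}
    (hz : z ∈ B) : ∃ a, z ∈ RR (10 * η) (52 * η) (100 * η) W a := by
  obtain ⟨a, ha⟩ := hB hz
  exact ⟨a, RR_mono (by linarith) (by linarith) _ _ _ ha⟩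

/-- **the zones exist** -/
theorem exists_ze {S : Finset ℂ} (C : CorEnv u ε d K1 c2 ρ0 ω) (eS : S = SU u ε ω)
    (L : LayU u m M v W A e) (hh : (m : ℝ) * (100 * η) = u.s) (i : ZMod 3)
    (hS : GP (S : Set ℂ)) (U : Set ℂ) {h₀ : Cs hS} (h0 : h₀ ∈ Hc hS) :
    ∃ Z : Zn (rc0 hS), ZE hS U M W η d (al A e i) (nn A e i) (rr A e i) h₀ Z := by
  have hp := L.h_pos hh
  have hη : 0 < η := by linarith
  have h3 : 3 ≤ S.card := by rw [eS]; exact C.card
  have q1 := L.lay.rr_pos i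
  have q2 := L.lay.rr_lt i
  have q3 := L.lay.nn_lt i
  have q4 := L.lay.rr_eq i
  have hin : ∀ z ∈ S, (∃ a, z ∈ RR (10 * η) (52 * η) (100 * η) W a) → ¬ OnHull S z :=
    fun z _ hz => inn_env C eS L hh hz
  have hRt : ∀ z ∈ S, z ∈ Rts η W (al A e i) (nn A e i) → ¬ OnHull S z := by
    rintro z hz ⟨k, -, -, hk⟩
    exact hin z hz ⟨_, RR_mono (by linarith) (by linarith) _ _ _ hk⟩
  have hCl : ∀ z ∈ S, z ∈ Clo2 η W M (al A e i) (nn A e i) → ¬ OnHull S z := by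
    rintro z hz ⟨a, -, hk⟩
    exact hin z hz ⟨_, RR_mono (by linarith) (by linarith) _ _ _ hk⟩
  by_cases hX : ∃ X : Set (ℂ × Bool), sX X = S ∧ CorH X U M W η d (al A e i) (nn A e i)
  · obtain ⟨X0, e0, H0⟩ := hX
    obtain ⟨Z, G⟩ := exists_zs (hS := hS) e0 H0 (r := rr A e i) (by omega) (by omega) h₀
    have zR := zR_S G hRt
    refine ⟨Z, h0, hin, zR, G.gK.le, ?_, ?_, G.gT.le, ?_, ?_, ?_, ?_⟩
    · obtain ⟨c, -, h⟩ := G.gE
      rw [h]
      exact ZnLx903.comp_sub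
    · obtain ⟨c, -, h⟩ := G.gW
      rw [h]
      exact ZnLx903.comp_sub
    · rw [G.gK]
      exact k_off_S e0 H0 (by omega) (by omega)
    · obtain ⟨x, hxS, hx, ex⟩ := HullCx40.rep h0
      intro t ht
      rw [G.gT] at ht
      rw [G.gR]
      refine t_ext_S e0 H0 hx ex (fun c hc => ?_) ht
      obtain ⟨z, z1, ⟨a, -, ha⟩, -, z3⟩ := hc
      exact ⟨z, z1, ⟨a, ha⟩, z3⟩
    · exact fun _ _ _ => G
    · intro X s Cc H p hp
      obtain ⟨x, hxS, hx, ex⟩ := HullCx40.rep h0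
      obtain ⟨g1, g2⟩ := (L.lay.g_mem (jj i + 2)).2.2
      have g3 : al A e i + rr A e i = g A e (jj i + 2) := q4
      refine hx_S H h3 Cc (by omega) (by omega) (fun j j1 j2 => (L.lay.run_mi i (by omega)
        (by omega)).1) hp zR (hE_S G Cc.e H (by omega)) (hW_S G Cc.e H (by omega))
        (hcol_S G h3 Cc H C eS L hh (k := e (jj i + 2)) (by omega) (by omega) (by omega)
          (by omega) h0 hp) (fun q N T St => ?_) fun q N T St => ?_
      · refine hsep_S h3 Cc H L hh h0 hp (fun t t1 t2 => ?_) q N T St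
        exact ⟨cs hS h3 ⟨t, t1⟩, ⟨t, t1, t2, hCl t t1 t2, rfl⟩, rfl⟩
      · refine LnkLx927.hlnk_S H h3 Cc L.fine (fun q hq q' hq' => OutPx571.con_compl u.con' q hq
          q' hq') (by have := L.m_pos; omega) (r := rr A e i) (k := e (jj i + 2)) (by omega)
          (by omega) (by omega) (by omega) hx ?_ hp (fun c hc => ?_) h0 q N T St
        · rw [hh]
          refine HTopx903.far_of ?_ ?_
          · have := CorEx133.h_le L hh
            have := C.d1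
            linarith
          · subst eS
            have := C.hull_far hx
            have := CorEx133.one_le_Rp u
            have := C.d1
            unfold RU at *
            linarith
        · obtain ⟨t, t1, t2, -, t4⟩ := hc
          exact ⟨t, t1, t2, t4⟩
  · push Not at hX
    refine ⟨z0 hS (RC hS (Rts η W (al A e i) (nn A e i))), h0, hin, rfl, ?_, ?_, ?_, ?_, ?_, ?_,
      fun X e1 H => absurd H (hX X e1), fun X s Cc H => absurd H (hX X Cc.e)⟩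
    all_goals
      first
        | exact Set.empty_subset _
        | exact fun _ h => absurd h (Set.notMem_empty _)

end env

end Crest.Agent.R143.CorrZx831

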