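import Crest.Agent.R143.B0_346

/-!
# R143 (helper126): relabelling invariance of the networks

* `NIso N N' φ` : the bijection `φ` of the vertices maps the network `N` onto `N'`
* `NIso.joins_card`, `NIso.hj_card`, `NIso.cnt`, `NIso.Fob`, `NIso.F`, `NIso.triA`, `NIso.Q`
-/

set_option autoImplicit false
set_option linter.unusedSectionVars false

noncomputable section

open scoped Classical

namespace Crest.Agent.R143.CovAx126

open Crest.Agent.R143.B0x346

variable {V W : Type}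

/-- action on directed edges -/
def mE (φ : V ≃ W) (p : V × V) : W × W := (φ p.1, φ p.2)

/-- action on triples -/
def mT (φ : V ≃ W) (t : V × V × V) : W × W × W := (φ t.1, φ t.2.1, φ t.2.2)

lemma mE_inj (φ : V ≃ W) {p q : V × V} : mE φ p = mE φ q ↔ p = q := by
  obtain ⟨a, b⟩ := p
  obtain ⟨c, d⟩ := q
  simp [mE]

lemma mT_inj (φ : V ≃ W) {p q : V × V × V} : mT φ p = mT φ q ↔ p = q := by
  obtain ⟨a, b, c⟩ := p
  obtain ⟨a', b', c'⟩ := q
  simp [mT]

/-- action on edges as an equivalence -/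
def mEe (φ : V ≃ W) : V × V ≃ W × W := φ.prodCongr φ

lemma mEe_apply (φ : V ≃ W) (p : V × V) : mEe φ p = mE φ p := rfl

lemma mEe_symm (φ : V ≃ W) (p : W × W) : (mEe φ).symm p = (φ.symm p.1, φ.symm p.2) := rfl

/-- action on sets of edges -/
def mJ (φ : V ≃ W) : Finset (V × V) ≃ Finset (W × W) := (mEe φ).finsetCongr

lemma mem_mJ (φ : V ≃ W) (J : Finset (V × V)) (p : V × V) : mE φ p ∈ mJ φ J ↔ p ∈ J := by
  rw [mJ, Equiv.finsetCongr_apply, ← mEe_apply, Finset.mem_map_equiv, Equiv.symm_apply_apply]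

lemma mem_mJ' (φ : V ≃ W) (J : Finset (V × V)) (a b : V) : (φ a, φ b) ∈ mJ φ J ↔ (a, b) ∈ J :=
  mem_mJ φ J (a, b)

/-- isomorphism of triangulations -/
structure TIso (G : Trg V) (G' : Trg W) (φ : V ≃ W) : Prop where
  tri : ∀ a b c : V, (φ a, φ b, φ c) ∈ G'.T ↔ (a, b, c) ∈ G.T

/-- isomorphism of networks -/
structure NIso (N : Net V) (N' : Net W) (φ : V ≃ W) : Prop extends
    TIso N.toTrg N'.toTrg φ where
  kil : ∀ a b : V, (φ a, φ b) ∈ N'.kl ↔ (a, b) ∈ N.kl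
  exx : ∀ k, N'.ex k = mE φ (N.ex k)

theorem mem_E {G : Trg V} {p : V × V} : p ∈ G.E ↔
    (∃ c, (p.1, p.2, c) ∈ G.T) ∨ ∃ c, (p.2, p.1, c) ∈ G.T := by
  unfold Trg.E
  simp only [Finset.mem_union, Finset.mem_image]
  constructor
  · rintro (⟨⟨a, b, c⟩, h, rfl⟩ | ⟨⟨a, b, c⟩, h, rfl⟩)
    · exact Or.inl ⟨c, h⟩
    · exact Or.inr ⟨c, h⟩
  · rintro (⟨c, h⟩ | ⟨c, h⟩)
    · exact Or.inl ⟨_, h, rfl⟩
    · exact Or.inr ⟨_, h, rfl⟩

variable {G : Trg V} {G' : Trg W} {φ : V ≃ W}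

theorem TIso.exi (h : TIso G G' φ) (a b : V) : (∃ c, (φ a, φ b, c) ∈ G'.T) ↔
    ∃ c, (a, b, c) ∈ G.T := by
  constructor
  · rintro ⟨c, hc⟩
    refine ⟨φ.symm c, ?_⟩
    rw [← h.tri, Equiv.apply_symm_apply]
    exact hc
  · rintro ⟨c, hc⟩
    exact ⟨φ c, (h.tri _ _ _).2 hc⟩

theorem TIso.all (h : TIso G G' φ) (a b : V) : (∀ c, (φ a, φ b, c) ∉ G'.T) ↔
    ∀ c, (a, b, c) ∉ G.T := by
  have := h.exi a b
  constructor
  · intro h1 c hc
    obtain ⟨c', hc'⟩ := this.2 ⟨c, hc⟩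
    exact h1 c' hc'
  · intro h1 c hc
    obtain ⟨c', hc'⟩ := this.1 ⟨c, hc⟩
    exact h1 c' hc'

theorem TIso.E (h : TIso G G' φ) (p : V × V) : mE φ p ∈ G'.E ↔ p ∈ G.E := by
  rw [mem_E, mem_E]
  exact or_congr (h.exi p.1 p.2) (h.exi p.2 p.1)

/-- every edge of `W` is an image -/
lemma forall_W {P : W → Prop} (φ : V ≃ W) : (∀ w, P w) ↔ ∀ v, P (φ v) :=
  ⟨fun h v => h _, fun h w => by simpa using h (φ.symm w)⟩

section join

variable {kl : Set (V × V)} {kl' : Set (W × W)} {O : Set (V × V × V)} {O' : Set (W × W × W)}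
  {D : Set (V × V)} {D' : Set (W × W)}

/-- **joins are moved to joins** -/
theorem isJoin_iff (h : TIso G G' φ) (hk : ∀ a b, (φ a, φ b) ∈ kl' ↔ (a, b) ∈ kl)
    (hO : ∀ a b c, (φ a, φ b, φ c) ∈ O' ↔ (a, b, c) ∈ O)
    (hD : ∀ a b, (φ a, φ b) ∈ D' ↔ (a, b) ∈ D) (J : Finset (V × V)) :
    IsJoin G' kl' O' D' (mJ φ J) ↔ IsJoin G kl O D J := by
  constructor
  · intro H
    refine ⟨?_, ?_, ?_, ?_, ?_, ?_⟩
    · intro p hp
      rw [← h.E]
      exact H.sub ((mem_mJ φ J p).2 hp)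
    · intro a b h1 h2
      have := H.sym (φ a) (φ b) (by rwa [hD]) (by rwa [hD])
      rwa [mem_mJ', mem_mJ'] at this
    · intro a b h1
      have := H.mark (φ a) (φ b) (by rwa [hD])
      rwa [mem_mJ', mem_mJ'] at this
    · intro a b h1 h2
      have := H.bdr (φ a) (φ b) (by rwa [h.all]) (by rwa [hD])
      rwa [mem_mJ', mem_mJ'] at this
    · intro a b h1 h2 h3
      have := H.kill (φ a) (φ b) (by rwa [hk]) (by rwa [hD]) (by rwa [hD])
      rwa [mem_mJ', mem_mJ'] at this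
    · intro a b c h1
      have := H.par (φ a) (φ b) (φ c) (by rwa [h.tri])
      simpa only [mem_mJ', hO] using this
  · intro H
    refine ⟨?_, ?_, ?_, ?_, ?_, ?_⟩
    · intro p hp
      have e1 : p = mE φ (φ.symm p.1, φ.symm p.2) := by simp [mE]
      rw [e1] at hp ⊢
      rw [h.E]
      exact H.sub ((mem_mJ φ J _).1 hp)
    · rw [forall_W φ]; intro a
      rw [forall_W φ]; intro b
      rw [hD, hD, mem_mJ', mem_mJ']
      exact H.sym a b
    · rw [forall_W φ]; intro a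
      rw [forall_W φ]; intro b
      rw [hD, mem_mJ', mem_mJ']
      exact H.mark a b
    · rw [forall_W φ]; intro a
      rw [forall_W φ]; intro b
      rw [h.all, hD, mem_mJ', mem_mJ']
      exact H.bdr a b
    · rw [forall_W φ]; intro a
      rw [forall_W φ]; intro b
      rw [hk, hD, hD, mem_mJ', mem_mJ']
      exact H.kill a b
    · rw [forall_W φ]; intro a
      rw [forall_W φ]; intro b
      rw [forall_W φ]; intro c
      rw [h.tri]
      simp only [mem_mJ', hO]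
      exact H.par a b c

theorem mem_joins_iff {J : Finset (V × V)} : J ∈ joins G kl O D ↔ IsJoin G kl O D J := by
  unfold joins
  rw [Finset.mem_filter, Finset.mem_powerset]
  exact ⟨fun h => h.2, fun h => ⟨h.sub, h⟩⟩

theorem joins_iff (h : TIso G G' φ) (hk : ∀ a b, (φ a, φ b) ∈ kl' ↔ (a, b) ∈ kl)
    (hO : ∀ a b c, (φ a, φ b, φ c) ∈ O' ↔ (a, b, c) ∈ O)
    (hD : ∀ a b, (φ a, φ b) ∈ D' ↔ (a, b) ∈ D) (J : Finset (V × V)) :
    mJ φ J ∈ joins G' kl' O' D' ↔ J ∈ joins G kl O D := by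
  rw [mem_joins_iff, mem_joins_iff]
  exact isJoin_iff h hk hO hD J

/-- counting joins with a property -/
theorem joins_card_filter (h : TIso G G' φ) (hk : ∀ a b, (φ a, φ b) ∈ kl' ↔ (a, b) ∈ kl)
    (hO : ∀ a b c, (φ a, φ b, φ c) ∈ O' ↔ (a, b, c) ∈ O)
    (hD : ∀ a b, (φ a, φ b) ∈ D' ↔ (a, b) ∈ D) {P : Finset (V × V) → Prop}
    {P' : Finset (W × W) → Prop} (hP : ∀ J, P' (mJ φ J) ↔ P J) :
    ((joins G' kl' O' D').filter P').card = ((joins G kl O D).filter P).card := by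
  refine (Finset.card_equiv (mJ φ) fun J => ?_).symm
  rw [Finset.mem_filter, Finset.mem_filter, joins_iff h hk hO hD, hP]

theorem joins_card (h : TIso G G' φ) (hk : ∀ a b, (φ a, φ b) ∈ kl' ↔ (a, b) ∈ kl)
    (hO : ∀ a b c, (φ a, φ b, φ c) ∈ O' ↔ (a, b, c) ∈ O)
    (hD : ∀ a b, (φ a, φ b) ∈ D' ↔ (a, b) ∈ D) :
    (joins G' kl' O' D').card = (joins G kl O D).card := by
  refine (Finset.card_equiv (mJ φ) fun J => ?_).symm
  rw [joins_iff h hk hO hD]

/-- steps of the walker -/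
theorem step_iff (h : TIso G G' φ)
    (hO : ∀ a b c, (φ a, φ b, φ c) ∈ O' ↔ (a, b, c) ∈ O)
    (hD : ∀ a b, (φ a, φ b) ∈ D' ↔ (a, b) ∈ D) (J : Finset (V × V)) (p q : V × V) :
    Step G' O' D' (mJ φ J) (mE φ p) (mE φ q) ↔ Step G O D J p q := by
  unfold Step
  constructor
  · rintro ⟨c, h1, h2, h3, h4⟩
    obtain ⟨c, rfl⟩ := φ.surjective c
    refine ⟨c, (h.tri _ _ _).1 h1, fun h' => h2 ((hO _ _ _).2 h'), fun h' => h3 ((hD _ _).2 h'), ?_⟩
    rcases h4 with ⟨h5, h6⟩ | ⟨h5, h5', h6⟩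
    · left
      refine ⟨(mem_mJ' φ J _ _).1 h5, ?_⟩
      have : mE φ q = mE φ (c, p.2) := h6
      exact (mE_inj φ).1 this
    · right
      refine ⟨(mem_mJ' φ J _ _).1 h5, fun h' => h5' ((mem_mJ' φ J _ _).2 h'), ?_⟩
      have : mE φ q = mE φ (p.1, c) := h6
      exact (mE_inj φ).1 this
  · rintro ⟨c, h1, h2, h3, h4⟩
    refine ⟨φ c, (h.tri _ _ _).2 h1, fun h' => h2 ((hO _ _ _).1 h'), fun h' => h3 ((hD _ _).1 h'), ?_⟩
    rcases h4 with ⟨h5, h6⟩ | ⟨h5, h5', h6⟩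
    · left
      refine ⟨(mem_mJ' φ J _ _).2 h5, ?_⟩
      rw [h6]; rfl
    · right
      refine ⟨(mem_mJ' φ J _ _).2 h5, fun h' => h5' ((mem_mJ' φ J _ _).1 h'), ?_⟩
      rw [h6]; rfl

theorem leads_iff (h : TIso G G' φ)
    (hO : ∀ a b c, (φ a, φ b, φ c) ∈ O' ↔ (a, b, c) ∈ O)
    (hD : ∀ a b, (φ a, φ b) ∈ D' ↔ (a, b) ∈ D) (J : Finset (V × V)) (p q : V × V) :
    Leads G' O' D' (mJ φ J) (mE φ p) (mE φ q) ↔ Leads G O D J p q := by
  unfold Leads
  constructor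
  · intro H
    have key : ∀ x y : W × W, Relation.ReflTransGen (Step G' O' D' (mJ φ J)) x y →
        Relation.ReflTransGen (Step G O D J) ((mEe φ).symm x) ((mEe φ).symm y) := by
      intro x y hxy
      induction hxy with
      | refl => exact Relation.ReflTransGen.refl
      | tail _ hs ih =>
        refine ih.tail ?_
        rw [← step_iff h hO hD]
        convert hs using 1
        · exact (mEe φ).apply_symm_apply _
        · exact (mEe φ).apply_symm_apply _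
    have := key _ _ H
    rwa [← mEe_apply, ← mEe_apply, Equiv.symm_apply_apply, Equiv.symm_apply_apply] at this
  · intro H
    induction H with
    | refl => exact Relation.ReflTransGen.refl
    | tail _ hs ih => exact ih.tail ((step_iff h hO hD J _ _).2 hs)

theorem ends_iff (h : TIso G G' φ)
    (hO : ∀ a b c, (φ a, φ b, φ c) ∈ O' ↔ (a, b, c) ∈ O)
    (hD : ∀ a b, (φ a, φ b) ∈ D' ↔ (a, b) ∈ D) (J : Finset (V × V)) (p x : V × V) :
    Ends G' O' D' (mJ φ J) (mE φ p) (mE φ x) ↔ Ends G O D J p x :=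
  leads_iff h hO hD J p (x.2, x.1)

end join

variable {N : Net V} {N' : Net W}

namespace NIso

theorem mem_exS (h : NIso N N' φ) (a b : V) : (φ a, φ b) ∈ N'.exS ↔ (a, b) ∈ N.exS := by
  unfold Net.exS
  simp only [Set.mem_range]
  refine exists_congr fun k => ?_
  rw [h.exx]
  exact mE_inj φ (p := N.ex k) (q := (a, b))

theorem mem_D (h : NIso N N' φ) (x y a b : V) :
    (φ a, φ b) ∈ N'.exS ∪ {(φ x, φ y)} ↔ (a, b) ∈ N.exS ∪ {(x, y)} := by
  simp only [Set.mem_union, Set.mem_singleton_iff, h.mem_exS, Prod.mk.injEq,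
    EmbeddingLike.apply_eq_iff_eq]

theorem hj_card (h : NIso N N' φ) (a b : V) : (N'.hj (φ a) (φ b)).card = (N.hj a b).card :=
  joins_card h.toTIso h.kil (by simp) (h.mem_D a b)

theorem cnt (h : NIso N N' φ) (a b : V) (k : ZMod 3) : N'.cnt (φ a) (φ b) k = N.cnt a b k := by
  unfold Net.cnt Net.hj
  refine joins_card_filter h.toTIso h.kil (by simp) (h.mem_D a b) fun J => ?_
  rw [h.exx]
  exact ends_iff h.toTIso (by simp) (h.mem_D a b) J (a, b) (N.ex k)

theorem Fob (h : NIso N N' φ) (a b : V) : N'.Fob (φ a) (φ b) = N.Fob a b := by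
  unfold Net.Fob
  simp only [h.cnt, h.hj_card]

theorem F (h : NIso N N' φ) (a b : V) : N'.F (φ a) (φ b) = N.F a b := by
  have hp : (fun k => N'.ex k = (φ a, φ b) ∨ N'.ex k = (φ b, φ a)) =
      fun k => N.ex k = (a, b) ∨ N.ex k = (b, a) := by
    funext k
    have e1 : (N'.ex k = (φ a, φ b)) ↔ N.ex k = (a, b) := by
      rw [h.exx]; exact mE_inj φ (p := N.ex k) (q := (a, b))
    have e2 : (N'.ex k = (φ b, φ a)) ↔ N.ex k = (b, a) := by
      rw [h.exx]; exact mE_inj φ (p := N.ex k) (q := (b, a))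
    rw [e1, e2]
  have key : ∀ (P P' : ZMod 3 → Prop) (_ : P' = P) (x : ℂ) (_ : Decidable (∃ k, P' k))
      (_ : Decidable (∃ k, P k)), (if hh : ∃ k, P' k then omz hh.choose else x) =
        if hh : ∃ k, P k then omz hh.choose else x := by
    intro P P' hPP x i1 i2
    subst hPP
    by_cases hh : ∃ k, P' k
    · rw [dif_pos hh, dif_pos hh]
    · rw [dif_neg hh, dif_neg hh]
  unfold Net.F
  rw [h.Fob]
  exact key _ _ hp _ _ _

/-- membership in the rotations of a triangle -/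
theorem mem_rots (φ : V ≃ W) (t : V × V × V) (a b c : V) :
    (φ a, φ b, φ c) ∈ rots (mT φ t) ↔ (a, b, c) ∈ rots t := by
  unfold rots mT
  obtain ⟨x, y, z⟩ := t
  simp

theorem tj_card (h : NIso N N' φ) (t : V × V × V) : (N'.tj (mT φ t)).card = (N.tj t).card :=
  joins_card h.toTIso h.kil (mem_rots φ t) h.mem_exS

theorem tri3 (h : NIso N N' φ) (t : V × V × V) (k : ZMod 3) (J : Finset (V × V)) :
    N'.Tri3 (mT φ t) k (mJ φ J) ↔ N.Tri3 t k J := by
  unfold Net.Tri3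
  have e1 : ∀ a b : V, (φ a, φ b) ∈ mJ φ J ↔ (a, b) ∈ J := mem_mJ' φ J
  have e2 : ∀ (a b : V) (j : ZMod 3), Ends N'.toTrg (rots (mT φ t)) N'.exS (mJ φ J) (φ a, φ b)
      (N'.ex j) ↔ Ends N.toTrg (rots t) N.exS J (a, b) (N.ex j) := by
    intro a b j
    rw [h.exx]
    exact ends_iff h.toTIso (mem_rots φ t) h.mem_exS J (a, b) (N.ex j)
  exact and_congr (e1 _ _) (and_congr (e1 _ _) (and_congr (e1 _ _)
    (and_congr (e2 _ _ _) (and_congr (e2 _ _ _) (e2 _ _ _)))))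

theorem triA (h : NIso N N' φ) (t : V × V × V) (k : ZMod 3) : N'.triA (mT φ t) k = N.triA t k := by
  unfold Net.triA
  rw [h.tj_card]
  congr 2
  unfold Net.tj
  exact joins_card_filter h.toTIso h.kil (mem_rots φ t) h.mem_exS (h.tri3 t k)

/-- the spin one amplitude is invariant -/
theorem Q (h : NIso N N' φ) (t : V × V × V) : N'.Q (mT φ t) = N.Q t := by
  unfold Net.Q
  simp only [h.triA]

end NIso

end Crest.Agent.R143.CovAx126
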