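import Crest.Agent.R143.Law_831

/-!
# R143 (helper126), leaf Y1: symmetries of the sample law

* `reidx_mp` : reindexing a countable product and moving every coordinate preserves the product law
* `rho`, `rm`, `rpb` : the rotation by `90` degrees on cells, marks in a cell, blocks
* `Iso2` : a symmetry of the lattice of unit cells: cells `sg`, marks `mm`, motion `z ↦ e z + b`
* `Iso2.S`, `Iso2.P`, `Iso2.C` : the action on samples, positions, colours; measure preserving
* `Iso2.SK`, ... : the same on the cells of an invariant set `K` only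
* `rotI m` : rotation by `90` degrees about the lattice corner `m`; `trI m` : translation
* `fr` : frozen outside
-/

set_option autoImplicit false
set_option linter.unusedSectionVars false

noncomputable section

namespace Crest.Agent.R143.Y1x126

open MeasureTheory Set
open Crest.ProbabilityR.Voronoi
open Crest.Agent.R143.Lawx831 Crest.Agent.R143.PP0x831
open scoped ENNReal

theorem prob_sampleLaw : IsProbabilityMeasure sampleLaw := by
  unfold sampleLaw
  infer_instance

attribute [local instance] prob_sampleLaw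

/-! ### products -/

/-- reindexing a product and moving every coordinate -/
theorem reidx_mp {I X : Type*} [MeasurableSpace X] (G : Measure X) [IsProbabilityMeasure G]
    (e : I ≃ I) (f : I → X → X) (hf : ∀ i, MeasurePreserving (f i) G G) :
    MeasurePreserving (fun (x : I → X) (i : I) => f i (x (e i)))
      (Measure.infinitePi fun _ : I => G) (Measure.infinitePi fun _ : I => G) := by
  have h1 : MeasurePreserving (fun (x : I → X) (i : I) => x (e i))
      (Measure.infinitePi fun _ : I => G) (Measure.infinitePi fun _ : I => G) := by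
    refine ⟨by fun_prop, ?_⟩
    have := Measure.map_infinitePi_infinitePi_of_inj (P := fun _ : I => G) e.injective
    simpa using this
  have h2 : MeasurePreserving (fun (x : I → X) (i : I) => f i (x i))
      (Measure.infinitePi fun _ : I => G) (Measure.infinitePi fun _ : I => G) := by
    refine ⟨?_, ?_⟩
    · rw [measurable_pi_iff]
      intro i
      exact (hf i).measurable.comp (measurable_pi_apply i)
    · rw [Measure.infinitePi_map_pi (fun _ : I => G) (f := f) (fun i => (hf i).measurable)]
      simp only [(hf _).map_eq]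
  exact h2.comp h1

/-! ### symmetries of the lattice of unit cells -/

/-- symmetry of the lattice of unit cells -/
structure Iso2 where
  /-- cells -/
  sg : ℤ × ℤ ≃ ℤ × ℤ
  /-- marks inside a cell -/
  mm : unitInterval × unitInterval ≃ᵐ unitInterval × unitInterval
  mp : MeasurePreserving mm ((volume : Measure unitInterval).prod volume)
    ((volume : Measure unitInterval).prod volume)
  /-- rotation part -/
  e : ℂ
  /-- translation part -/
  b : ℂ
  he : ‖e‖ = 1
  pos : ∀ (k : ℤ × ℤ) (u : unitInterval × unitInterval),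
    ((((sg k).1 : ℝ) + ((mm u).1 : ℝ) : ℝ) : ℂ) + ((((sg k).2 : ℝ) + ((mm u).2 : ℝ) : ℝ) : ℂ) *
      Complex.I = e * ((((k.1 : ℝ) + (u.1 : ℝ) : ℝ) : ℂ) + (((k.2 : ℝ) + (u.2 : ℝ) : ℝ) : ℂ) *
        Complex.I) + b

/-- mark map on three marks -/
def m3 (g : unitInterval × unitInterval → unitInterval × unitInterval) (m : Fin 3 → unitInterval) :
    Fin 3 → unitInterval :=
  ![(g (m 0, m 1)).1, (g (m 0, m 1)).2, m 2]

lemma m3_mp {g : unitInterval × unitInterval → unitInterval × unitInterval}
    (hg : MeasurePreserving g ((volume : Measure unitInterval).prod volume)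
      ((volume : Measure unitInterval).prod volume)) :
    MeasurePreserving (m3 g) (Measure.pi fun _ : Fin 3 => (volume : Measure unitInterval))
      (Measure.pi fun _ : Fin 3 => (volume : Measure unitInterval)) := by
  have h1 : MeasurePreserving (fun q : (unitInterval × unitInterval) × unitInterval =>
      v3 (g q.1, q.2)) (((volume : Measure unitInterval).prod volume).prod volume)
      (Measure.pi fun _ : Fin 3 => (volume : Measure unitInterval)) :=
    v3_mp.comp (hg.prod (MeasurePreserving.id _))
  refine mp_of_comp v3_mp ?_ ?_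
  · rw [measurable_pi_iff]
    have hm : Measurable fun m : Fin 3 → unitInterval => g (m 0, m 1) :=
      hg.measurable.comp ((measurable_pi_apply 0).prodMk (measurable_pi_apply 1))
    intro i
    fin_cases i
    · exact measurable_fst.comp hm
    · exact measurable_snd.comp hm
    · exact measurable_pi_apply 2
  · exact h1

/-- a map on blocks of positions -/
def bP (g : unitInterval × unitInterval → unitInterval × unitInterval) (x : PB) : PB :=
  (x.1, fun j => g (x.2 j))

lemma bP_mp {g : unitInterval × unitInterval → unitInterval × unitInterval}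
    (hg : MeasurePreserving g ((volume : Measure unitInterval).prod volume)
      ((volume : Measure unitInterval).prod volume)) : MeasurePreserving (bP g) pbLaw pbLaw :=
  (MeasurePreserving.id _).prod (pi_mp (I := ℕ) hg)

namespace Iso2

variable (g : Iso2)

/-- action on samples -/
def S (ω : Sample) : Sample :=
  (fun k => ω.1 (g.sg.symm k), fun k j => m3 g.mm (ω.2 (g.sg.symm k) j))

/-- action on positions -/
def P (p : Pos) : Pos := fun k => bP g.mm (p (g.sg.symm k))

/-- action on colours -/
def C (c : Col) : Col := fun q => c (g.sg.symm q.1, q.2)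

lemma measurable_m3 {g : unitInterval × unitInterval → unitInterval × unitInterval}
    (hg : Measurable g) : Measurable (m3 g) := by
  rw [measurable_pi_iff]
  have hm : Measurable fun m : Fin 3 → unitInterval => g (m 0, m 1) :=
    hg.comp ((measurable_pi_apply 0).prodMk (measurable_pi_apply 1))
  intro i
  fin_cases i
  · exact measurable_fst.comp hm
  · exact measurable_snd.comp hm
  · exact measurable_pi_apply 2

lemma m3_m3 {g g' : unitInterval × unitInterval → unitInterval × unitInterval}
    (h : ∀ u, g (g' u) = u) (m : Fin 3 → unitInterval) : m3 g (m3 g' m) = m := by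
  have h1 := h (m 0, m 1)
  have h2 : ((g' (m 0, m 1)).1, (g' (m 0, m 1)).2) = g' (m 0, m 1) := rfl
  unfold m3
  funext i
  fin_cases i
  · simp [h1]
  · simp [h1]
  · simp

/-- the action on samples as a measurable equivalence -/
def Se : Sample ≃ᵐ Sample where
  toFun := g.S
  invFun ω := (fun k => ω.1 (g.sg k), fun k j => m3 g.mm.symm (ω.2 (g.sg k) j))
  left_inv ω := by
    unfold S
    refine Prod.ext ?_ ?_
    · funext k; simp
    · funext k j
      simp only [Equiv.symm_apply_apply]
      exact m3_m3 (fun u => g.mm.symm_apply_apply u) _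
  right_inv ω := by
    unfold S
    refine Prod.ext ?_ ?_
    · funext k; simp
    · funext k j
      simp only [Equiv.apply_symm_apply]
      exact m3_m3 (fun u => g.mm.apply_symm_apply u) _
  measurable_toFun := by
    refine Measurable.prodMk ?_ ?_
    · rw [measurable_pi_iff]; intro k
      exact (measurable_pi_apply _).comp measurable_fst
    · rw [measurable_pi_iff]; intro k
      rw [measurable_pi_iff]; intro j
      exact (measurable_m3 g.mm.measurable).comp
        ((measurable_pi_apply j).comp ((measurable_pi_apply _).comp measurable_snd))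
  measurable_invFun := by
    refine Measurable.prodMk ?_ ?_
    · rw [measurable_pi_iff]; intro k
      exact (measurable_pi_apply _).comp measurable_fst
    · rw [measurable_pi_iff]; intro k
      rw [measurable_pi_iff]; intro j
      exact (measurable_m3 g.mm.symm.measurable).comp
        ((measurable_pi_apply j).comp ((measurable_pi_apply _).comp measurable_snd))

lemma coe_Se : ⇑g.Se = g.S := rfl

lemma emb : MeasurableEmbedding g.S := g.Se.measurableEmbedding

lemma mk_PC (p : Pos) (c : Col) : Lawx831.mk (g.P p) (g.C c) = g.S (Lawx831.mk p c) := by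
  unfold Lawx831.mk S P C bP m3
  rfl

theorem S_mp : MeasurePreserving g.S sampleLaw sampleLaw := by
  have h1 := reidx_mp (ProbabilityTheory.poissonMeasure 1) g.sg.symm (fun _ => id)
    (fun _ => MeasurePreserving.id _)
  have h2 := reidx_mp (Measure.infinitePi fun _ : ℕ =>
      Measure.pi fun _ : Fin 3 => (volume : Measure unitInterval)) g.sg.symm
      (fun _ u j => m3 g.mm (u j)) (fun _ => pi_mp (I := ℕ) (m3_mp g.mp))
  exact h1.prod h2

theorem P_mp : MeasurePreserving g.P posLaw posLaw :=
  reidx_mp pbLaw g.sg.symm (fun _ => bP g.mm) (fun _ => bP_mp g.mp)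

theorem C_mp : MeasurePreserving g.C colLaw colLaw :=
  reidx_mp (volume : Measure unitInterval) (g.sg.symm.prodCongr (Equiv.refl ℕ)) (fun _ => id)
    (fun _ => MeasurePreserving.id _)

/-- the motion at scale `ε` -/
def mo (ε : ℝ) (z : ℂ) : ℂ := g.e * z + ε * g.b

lemma point_S (ε : ℝ) (ω : Sample) (k : ℤ × ℤ) (j : ℕ) :
    point ε (g.S ω) (g.sg k) j = g.mo ε (point ε ω k j) := by
  have h := g.pos k (ω.2 k j 0, ω.2 k j 1)
  unfold point mo S m3
  simp only [Equiv.symm_apply_apply, Matrix.cons_val_zero, Matrix.cons_val_one]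
  rw [h]
  ring

lemma point_S' (ε : ℝ) (ω : Sample) (k : ℤ × ℤ) (j : ℕ) :
    point ε (g.S ω) k j = g.mo ε (point ε ω (g.sg.symm k) j) := by
  rw [← g.point_S, Equiv.apply_symm_apply]

lemma col_S (ω : Sample) (k : ℤ × ℤ) (j : ℕ) : col (g.S ω) (g.sg k) j = col ω k j := by
  unfold col S m3
  simp

lemma present_S (ω : Sample) (k : ℤ × ℤ) (j : ℕ) :
    ((g.sg k).1, (g.sg k).2, j) ∈ present (g.S ω) ↔ (k.1, k.2, j) ∈ present ω := by
  simp [present, S]

/-- **the points move by the motion** -/
theorem points_S (ε : ℝ) (ω : Sample) : points ε (g.S ω) = g.mo ε '' points ε ω := by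
  ext z
  simp only [points, mem_image]
  constructor
  · rintro ⟨⟨k1, k2, j⟩, hp, rfl⟩
    refine ⟨_, ⟨((g.sg.symm (k1, k2)).1, (g.sg.symm (k1, k2)).2, j), ?_, rfl⟩, ?_⟩
    · rw [← g.present_S]
      simpa using hp
    · rw [← g.point_S]
      simp
  · rintro ⟨_, ⟨⟨k1, k2, j⟩, hp, rfl⟩, rfl⟩
    refine ⟨((g.sg (k1, k2)).1, (g.sg (k1, k2)).2, j), (g.present_S ω (k1, k2) j).2 hp, ?_⟩
    exact g.point_S ε ω (k1, k2) j

/-- the coloured points move by the motion -/
theorem cfg_S (ε : ℝ) (ω : Sample) :
    cfg ε (g.S ω) = (fun p : ℂ × Bool => (g.mo ε p.1, p.2)) '' cfg ε ω := by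
  ext z
  simp only [cfg, mem_image]
  constructor
  · rintro ⟨⟨k1, k2, j⟩, hp, rfl⟩
    refine ⟨_, ⟨((g.sg.symm (k1, k2)).1, (g.sg.symm (k1, k2)).2, j), ?_, rfl⟩, ?_⟩
    · rw [← g.present_S]
      simpa using hp
    · simp only [Prod.mk.eta]
      rw [← g.point_S, ← g.col_S]
      simp
  · rintro ⟨_, ⟨⟨k1, k2, j⟩, hp, rfl⟩, rfl⟩
    refine ⟨((g.sg (k1, k2)).1, (g.sg (k1, k2)).2, j), (g.present_S ω (k1, k2) j).2 hp, ?_⟩
    simp only [Prod.mk.eta]
    rw [g.point_S, g.col_S]

/-! #### the action on the cells of an invariant set -/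

open Classical in
/-- the permutation of the cells, only on `K` -/
def sgK (K : Set (ℤ × ℤ)) (hK : ∀ k, g.sg k ∈ K ↔ k ∈ K) : ℤ × ℤ ≃ ℤ × ℤ where
  toFun k := if k ∈ K then g.sg k else k
  invFun k := if k ∈ K then g.sg.symm k else k
  left_inv k := by
    by_cases h : k ∈ K
    · simp [h, (hK k).2 h]
    · simp [h]
  right_inv k := by
    by_cases h : k ∈ K
    · have h' : g.sg.symm k ∈ K := by rw [← hK, Equiv.apply_symm_apply]; exact h
      simp [h, h']
    · simp [h]

open Classical in
/-- action on the samples, only on the cells of `K` -/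
def SK (K : Set (ℤ × ℤ)) (ω : Sample) : Sample :=
  (fun k => if k ∈ K then ω.1 (g.sg.symm k) else ω.1 k,
    fun k j => if k ∈ K then m3 g.mm (ω.2 (g.sg.symm k) j) else ω.2 k j)

open Classical in
/-- action on the positions, only on the cells of `K` -/
def PK (K : Set (ℤ × ℤ)) (p : Pos) : Pos :=
  fun k => if k ∈ K then bP g.mm (p (g.sg.symm k)) else p k

open Classical in
/-- action on the colours, only on the cells of `K` -/
def CK (K : Set (ℤ × ℤ)) (c : Col) : Col :=
  fun q => if q.1 ∈ K then c (g.sg.symm q.1, q.2) else c q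

lemma mk_PKCK (K : Set (ℤ × ℤ)) (p : Pos) (c : Col) :
    Lawx831.mk (g.PK K p) (g.CK K c) = g.SK K (Lawx831.mk p c) := by
  unfold Lawx831.mk SK PK CK bP m3
  refine Prod.ext ?_ ?_
  · funext k
    by_cases h : k ∈ K <;> simp [h]
  · funext k j
    by_cases h : k ∈ K <;> simp [h]

theorem SK_mp {K : Set (ℤ × ℤ)} (hK : ∀ k, g.sg k ∈ K ↔ k ∈ K) :
    MeasurePreserving (g.SK K) sampleLaw sampleLaw := by
  classical
  have h1 := reidx_mp (ProbabilityTheory.poissonMeasure 1) (g.sgK K hK).symm (fun _ => id)
    (fun _ => MeasurePreserving.id _)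
  have h2 := reidx_mp (Measure.infinitePi fun _ : ℕ =>
      Measure.pi fun _ : Fin 3 => (volume : Measure unitInterval)) (g.sgK K hK).symm
      (fun k u j => if k ∈ K then m3 g.mm (u j) else u j) (fun k => by
        by_cases h : k ∈ K
        · simp only [h, if_true]; exact pi_mp (I := ℕ) (m3_mp g.mp)
        · simp only [h, if_false]; exact MeasurePreserving.id _)
  have h3 : g.SK K = Prod.map (fun (x : ℤ × ℤ → ℕ) i => id (x ((g.sgK K hK).symm i)))
      (fun (x : ℤ × ℤ → ℕ → Fin 3 → unitInterval) i =>
        (fun k u j => if k ∈ K then m3 g.mm (u j) else u j) i (x ((g.sgK K hK).symm i))) := by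
    funext ω
    refine Prod.ext ?_ ?_
    · funext k
      by_cases h : k ∈ K <;> simp [SK, sgK, h]
    · funext k j
      by_cases h : k ∈ K <;> simp [SK, sgK, h]
  rw [h3]
  exact h1.prod h2

theorem PK_mp {K : Set (ℤ × ℤ)} (hK : ∀ k, g.sg k ∈ K ↔ k ∈ K) :
    MeasurePreserving (g.PK K) posLaw posLaw := by
  classical
  have h1 := reidx_mp pbLaw (g.sgK K hK).symm (fun k => if k ∈ K then bP g.mm else id) (fun k => by
    by_cases h : k ∈ K
    · simp only [h, if_true]; exact bP_mp g.mp
    · simp only [h, if_false]; exact MeasurePreserving.id _)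
  have h3 : g.PK K = fun (x : Pos) i => (if i ∈ K then bP g.mm else id)
      (x ((g.sgK K hK).symm i)) := by
    funext p k
    by_cases h : k ∈ K <;> simp [PK, sgK, h]
  rw [h3]
  exact h1

theorem CK_mp {K : Set (ℤ × ℤ)} (hK : ∀ k, g.sg k ∈ K ↔ k ∈ K) :
    MeasurePreserving (g.CK K) colLaw colLaw := by
  classical
  have h1 := reidx_mp (volume : Measure unitInterval)
    ((g.sgK K hK).symm.prodCongr (Equiv.refl ℕ)) (fun _ => id) (fun _ => MeasurePreserving.id _)
  have h3 : g.CK K = fun (x : Col) i => id (x (((g.sgK K hK).symm.prodCongr (Equiv.refl ℕ)) i)) := by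
    funext c q
    obtain ⟨k, j⟩ := q
    by_cases h : k ∈ K <;> simp [CK, sgK, h]
  rw [h3]
  exact h1

end Iso2

/-! ### frozen outside -/

open Classical in
/-- the sample `ω` in the cells of `K`, the sample `ω₀` in the other cells -/
def fr (K : Set (ℤ × ℤ)) (ω ω₀ : Sample) : Sample :=
  (fun k => if k ∈ K then ω.1 k else ω₀.1 k, fun k j => if k ∈ K then ω.2 k j else ω₀.2 k j)

lemma fr_self (K : Set (ℤ × ℤ)) (ω : Sample) : fr K ω ω = ω := by
  unfold fr
  simp

lemma fr_fr (K : Set (ℤ × ℤ)) (ω ω₀ ω₁ : Sample) : fr K (fr K ω ω₀) ω₁ = fr K ω ω₁ := by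
  unfold fr
  refine Prod.ext ?_ ?_
  · funext k
    by_cases h : k ∈ K <;> simp [h]
  · funext k j
    by_cases h : k ∈ K <;> simp [h]

lemma SK_eq (g : Iso2) (K : Set (ℤ × ℤ)) (ω : Sample) : g.SK K ω = fr K (g.S ω) ω := rfl

/-- rotating everything -/
lemma S_fr (g : Iso2) {K : Set (ℤ × ℤ)} (hK : ∀ k, g.sg k ∈ K ↔ k ∈ K) (ω ω₀ : Sample) :
    fr K (g.S ω) (g.S ω₀) = g.S (fr K ω ω₀) := by
  have h' : ∀ k, g.sg.symm k ∈ K ↔ k ∈ K := fun k => by rw [← hK, Equiv.apply_symm_apply]
  unfold fr Iso2.S
  refine Prod.ext ?_ ?_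
  · funext k
    by_cases h : k ∈ K <;> simp [h, h']
  · funext k j
    by_cases h : k ∈ K <;> simp [h, h']

lemma measurable_fr (K : Set (ℤ × ℤ)) : Measurable fun p : Sample × Sample => fr K p.1 p.2 := by
  classical
  unfold fr
  refine Measurable.prodMk ?_ ?_
  · rw [measurable_pi_iff]
    intro k
    by_cases h : k ∈ K
    · simp only [h, if_true]; fun_prop
    · simp only [h, if_false]; fun_prop
  · rw [measurable_pi_iff]
    intro k
    rw [measurable_pi_iff]
    intro j
    by_cases h : k ∈ K
    · simp only [h, if_true]; fun_prop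
    · simp only [h, if_false]; fun_prop

/-- **frozen outside, rotated inside**: the law of the inside is invariant (no measurability) -/
theorem integral_fr (g : Iso2) {K : Set (ℤ × ℤ)} (hK : ∀ k, g.sg k ∈ K ↔ k ∈ K) (ω₀ : Sample)
    {E : Type*} [NormedAddCommGroup E] [NormedSpace ℝ E] (f : Sample → E) :
    ∫ ω, f (fr K ω (g.S ω₀)) ∂sampleLaw = ∫ ω, f (g.S (fr K ω ω₀)) ∂sampleLaw := by
  rw [← g.S_mp.integral_comp g.emb fun ω => f (fr K ω (g.S ω₀))]
  refine integral_congr_ae (Filter.Eventually.of_forall fun ω => ?_)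
  simp only
  rw [S_fr g hK]

/-- the same for lower integrals -/
theorem lintegral_fr (g : Iso2) {K : Set (ℤ × ℤ)} (hK : ∀ k, g.sg k ∈ K ↔ k ∈ K) (ω₀ : Sample)
    (f : Sample → ℝ≥0∞) :
    ∫⁻ ω, f (fr K ω (g.S ω₀)) ∂sampleLaw = ∫⁻ ω, f (g.S (fr K ω ω₀)) ∂sampleLaw := by
  rw [← g.S_mp.lintegral_comp_emb g.emb fun ω => f (fr K ω (g.S ω₀))]
  refine lintegral_congr fun ω => ?_
  rw [S_fr g hK]

open Classical in
/-- resampling the coordinates off a set `K` -/
theorem mp_pieceS {I X : Type*} [MeasurableSpace X] (G : Measure X) [IsProbabilityMeasure G]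
    (K : Set I) :
    MeasurePreserving (fun (p : (I → X) × (I → X)) (i : I) => if i ∈ K then p.1 i else p.2 i)
      ((Measure.infinitePi fun _ : I => G).prod (Measure.infinitePi fun _ : I => G))
      (Measure.infinitePi fun _ : I => G) := by
  have hm : Measurable (fun (p : (I → X) × (I → X)) (i : I) =>
      if i ∈ K then p.1 i else p.2 i) := by
    rw [measurable_pi_iff]
    intro i
    by_cases hi : i ∈ K
    · simp only [hi, if_true]; fun_prop
    · simp only [hi, if_false]; fun_prop
  refine ⟨hm, ?_⟩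
  apply Measure.eq_infinitePi
  intro u A hA
  have hpi : MeasurableSet (Set.pi (u : Set I) A) :=
    MeasurableSet.pi u.countable_toSet fun j _ => hA j
  rw [Measure.map_apply hm hpi]
  have h1 : (fun (p : (I → X) × (I → X)) (i : I) => if i ∈ K then p.1 i else p.2 i) ⁻¹'
      (Set.pi (u : Set I) A) =
      (Set.pi ((u.filter (· ∈ K) : Finset I) : Set I) A) ×ˢ
        (Set.pi ((u.filter (¬ · ∈ K) : Finset I) : Set I) A) := by
    ext p
    simp only [Set.mem_preimage, Set.mem_pi, Finset.mem_coe, Set.mem_prod, Finset.mem_filter]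
    constructor
    · intro h
      refine ⟨fun j hj => ?_, fun j hj => ?_⟩
      · have := h j hj.1
        rwa [if_pos hj.2] at this
      · have := h j hj.1
        rwa [if_neg hj.2] at this
    · rintro ⟨h, h'⟩ j hj
      by_cases hjs : j ∈ K
      · rw [if_pos hjs]; exact h j ⟨hj, hjs⟩
      · rw [if_neg hjs]; exact h' j ⟨hj, hjs⟩
  rw [h1, Measure.prod_prod, Measure.infinitePi_pi (fun _ : I => G) (fun j _ => hA j),
    Measure.infinitePi_pi (fun _ : I => G) (fun j _ => hA j), Finset.prod_filter_mul_prod_filter_not]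

/-- **freezing and averaging**: the sample with the cells of `K` taken from a sample and the other
cells from an independent one has the sample law -/
theorem mp_fr (K : Set (ℤ × ℤ)) : MeasurePreserving (fun p : Sample × Sample => fr K p.1 p.2)
    (sampleLaw.prod sampleLaw) sampleLaw := by
  classical
  set Q : Measure (ℕ → Fin 3 → unitInterval) := Measure.infinitePi fun _ : ℕ =>
    Measure.pi fun _ : Fin 3 => (volume : Measure unitInterval) with hQ
  set B : Measure (ℕ × (ℕ → Fin 3 → unitInterval)) :=
    (ProbabilityTheory.poissonMeasure 1).prod Q with hB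
  have hz : MeasurePreserving (fun (p : Sample) (k : ℤ × ℤ) => (p.1 k, p.2 k)) sampleLaw
      (Measure.infinitePi fun _ : ℤ × ℤ => B) :=
    zip_mp (I := ℤ × ℤ) (ProbabilityTheory.poissonMeasure 1) Q
  have hu : MeasurePreserving (fun x : ℤ × ℤ → ℕ × (ℕ → Fin 3 → unitInterval) =>
      (((fun k => (x k).1), (fun k => (x k).2)) : Sample))
      (Measure.infinitePi fun _ : ℤ × ℤ => B) sampleLaw := by
    refine mp_of_comp hz ?_ (MeasurePreserving.id _)
    refine Measurable.prodMk ?_ ?_ <;> rw [measurable_pi_iff] <;> intro k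
    · exact measurable_fst.comp (measurable_pi_apply k)
    · exact measurable_snd.comp (measurable_pi_apply k)
  have h := hu.comp ((mp_pieceS B K).comp (hz.prod hz))
  have h' : (fun p : Sample × Sample => fr K p.1 p.2) = ((fun x : ℤ × ℤ → ℕ × (ℕ → Fin 3 →
      unitInterval) => (((fun k => (x k).1), (fun k => (x k).2)) : Sample)) ∘
      ((fun (p : (ℤ × ℤ → ℕ × (ℕ → Fin 3 → unitInterval)) ×
        (ℤ × ℤ → ℕ × (ℕ → Fin 3 → unitInterval))) (i : ℤ × ℤ) =>
          if i ∈ K then p.1 i else p.2 i) ∘
        Prod.map (fun (p : Sample) (k : ℤ × ℤ) => (p.1 k, p.2 k))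
          (fun (p : Sample) (k : ℤ × ℤ) => (p.1 k, p.2 k)))) := by
    funext p
    unfold fr
    refine Prod.ext ?_ ?_
    · funext k
      by_cases hk : k ∈ K <;> simp [hk]
    · funext k j
      by_cases hk : k ∈ K <;> simp [hk]
  rw [h']
  exact h

/-- Fubini: almost every frozen outside is good for a property which is almost sure -/
theorem ae_fr (K : Set (ℤ × ℤ)) {p : Sample → Prop} (hp : ∀ᵐ ω ∂sampleLaw, p ω) :
    ∀ᵐ ω₀ ∂sampleLaw, ∀ᵐ ω ∂sampleLaw, p (fr K ω ω₀) := by
  have h1 : ∀ᵐ q ∂(sampleLaw.prod sampleLaw), p (fr K q.1 q.2) :=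
    (mp_fr K).quasiMeasurePreserving.ae hp
  have h2 : ∀ᵐ q ∂(sampleLaw.prod sampleLaw), p (fr K q.2 q.1) :=
    (Measure.measurePreserving_swap (μ := sampleLaw) (ν := sampleLaw)).quasiMeasurePreserving.ae h1
  exact Measure.ae_ae_of_ae_prod h2

/-! ### rotation by 90 degrees and translations -/

/-- rotation of the cells about the corner `m` -/
def rho (m : ℤ × ℤ) : ℤ × ℤ ≃ ℤ × ℤ where
  toFun k := (m.1 - (k.2 - m.2) - 1, m.2 + (k.1 - m.1))
  invFun k := (m.1 + (k.2 - m.2), m.2 - (k.1 - m.1) - 1)
  left_inv k := by ext <;> simp only <;> ring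
  right_inv k := by ext <;> simp only <;> ring

/-- rotation of the marks of a cell -/
def rm : unitInterval × unitInterval ≃ᵐ unitInterval × unitInterval where
  toFun u := (unitInterval.symm u.2, u.1)
  invFun u := (u.2, unitInterval.symm u.1)
  left_inv u := by simp
  right_inv u := by simp
  measurable_toFun :=
    (unitInterval.measurable_symm.comp measurable_snd).prodMk measurable_fst
  measurable_invFun :=
    measurable_snd.prodMk (unitInterval.measurable_symm.comp measurable_fst)

lemma rm_apply (u : unitInterval × unitInterval) : rm u = (unitInterval.symm u.2, u.1) := rfl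

lemma rm_mp : MeasurePreserving rm ((volume : Measure unitInterval).prod volume)
    ((volume : Measure unitInterval).prod volume) := by
  have h1 : MeasurePreserving (Prod.swap : unitInterval × unitInterval → _)
      ((volume : Measure unitInterval).prod volume)
      ((volume : Measure unitInterval).prod volume) := Measure.measurePreserving_swap
  exact (unitInterval.measurePreserving_symm.prod (MeasurePreserving.id _)).comp h1

/-- **rotation by 90 degrees about the lattice corner `m`** -/
def rotI (m : ℤ × ℤ) : Iso2 where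
  sg := rho m
  mm := rm
  mp := rm_mp
  e := Complex.I
  b := ((m.1 : ℂ) + (m.2 : ℂ) * Complex.I) - Complex.I * ((m.1 : ℂ) + (m.2 : ℂ) * Complex.I)
  he := Complex.norm_I
  pos k u := by
    apply Complex.ext
    · simp [rho, rm_apply, unitInterval.coe_symm_eq]
      ring
    · simp [rho, rm_apply, unitInterval.coe_symm_eq]
      ring

/-- translation of the cells -/
def tau (m : ℤ × ℤ) : ℤ × ℤ ≃ ℤ × ℤ where
  toFun k := (k.1 + m.1, k.2 + m.2)
  invFun k := (k.1 - m.1, k.2 - m.2)
  left_inv k := by ext <;> simp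
  right_inv k := by ext <;> simp

/-- **lattice translation by `m`** -/
def trI (m : ℤ × ℤ) : Iso2 where
  sg := tau m
  mm := MeasurableEquiv.refl _
  mp := MeasurePreserving.id _
  e := 1
  b := (m.1 : ℂ) + (m.2 : ℂ) * Complex.I
  he := by simp
  pos k u := by
    apply Complex.ext
    · simp [tau]
      ring
    · simp [tau]
      ring

/-- the motion of the rotation fixes the corner -/
lemma mo_rotI (m : ℤ × ℤ) (ε : ℝ) (z : ℂ) : (rotI m).mo ε z =
    ε * ((m.1 : ℂ) + (m.2 : ℂ) * Complex.I) +
      Complex.I * (z - ε * ((m.1 : ℂ) + (m.2 : ℂ) * Complex.I)) := by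
  simp only [Iso2.mo, rotI]
  ring

lemma mo_trI (m : ℤ × ℤ) (ε : ℝ) (z : ℂ) : (trI m).mo ε z =
    z + ε * ((m.1 : ℂ) + (m.2 : ℂ) * Complex.I) := by
  simp only [Iso2.mo, trI]
  ring

/-- the square of cells around the corner `m` is invariant -/
lemma rho_sq (m : ℤ × ℤ) (n : ℤ) (k : ℤ × ℤ) :
    rho m k ∈ (Ico (m.1 - n) (m.1 + n) ×ˢ Ico (m.2 - n) (m.2 + n) : Set (ℤ × ℤ)) ↔
      k ∈ (Ico (m.1 - n) (m.1 + n) ×ˢ Ico (m.2 - n) (m.2 + n) : Set (ℤ × ℤ)) := by
  simp only [rho, Equiv.coe_fn_mk, mem_prod, mem_Ico]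
  constructor <;> rintro ⟨⟨h1, h2⟩, h3, h4⟩ <;> refine ⟨⟨?_, ?_⟩, ?_, ?_⟩ <;> linarith

end Crest.Agent.R143.Y1x126
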