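import Crest.Agent.R143.CovB_126
import Crest.Agent.R143.Y1_126
import Crest.Agent.R143.PoisM3_930
import Crest.Agent.R143.DomA_722
import Crest.Agent.R143.Asm_336

/-!
# R143 (helper126): rotated environments

* `Mo.ok` : the moved domain is admissible
* `umark` : uniqueness of the ray marks when no site is on the three rays; `ae_umark`
* `moe g ε` : the motion of the lattice symmetry `g` at scale `ε`
* `h_rot` : `(D.mv φ e).h ε (g.S ω) (φ z) = D.h ε ω z`
* `Sb_mv`, `Db_mv` : the mollified derivatives of the rotated observable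
* `integral_Sb_mv`, `integral_Db_mv` : expectations with frozen outside
-/

set_option autoImplicit false
set_option linter.unusedSectionVars false

noncomputable section

open scoped Classical

namespace Crest.Agent.R143.CovCx126

open MeasureTheory Filter
open Crest.ProbabilityR.Voronoi
open Crest.Agent.R143.B0x346 Crest.Agent.R143.B0Dx346 Crest.Agent.R143.CovAx126
open Crest.Agent.R143.DelGx806 Crest.Agent.R143.CovBx126 Crest.Agent.R143.Y1x126
open Crest.Agent.R143.DomAx722 Crest.Agent.R143.DelRx806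
open Crest.Agent.R143.BC0x336 Crest.Agent.R143.EndAx336 Crest.Agent.R143.EndBx336
open Crest.Agent.R143.Mollx887 Crest.Agent.R143.Asmx336

variable {φ : ℂ ≃ ℂ} {e : ℂ}

theorem Mo.symm (h : Mo φ e) : Mo φ.symm e⁻¹ := by
  have hne : e ≠ 0 := by
    intro h0
    have := h.ne
    rw [h0, norm_zero] at this
    exact zero_ne_one this
  refine ⟨by rw [norm_inv, h.ne, inv_one], fun z w => ?_⟩
  have h1 := h.sub (φ.symm z) (φ.symm w)
  rw [Equiv.apply_symm_apply, Equiv.apply_symm_apply] at h1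
  rw [h1, inv_mul_cancel_left₀ hne]

theorem Mo.env_iff (h : Mo φ e) {ε d M : ℝ} {c : ℂ} {L : ℝ} {ω ω' : Sample}
    (hp : points ε ω' = φ '' points ε ω) : Env ε d M (φ c) L ω' ↔ Env ε d M c L ω := by
  refine ⟨fun H => ?_, fun H => h.env hp H⟩
  have hp' : points ε ω = φ.symm '' points ε ω' := by
    rw [hp, φ.symm_image_image]
  have := (Mo.symm h).env hp' H
  rwa [Equiv.symm_apply_apply] at this

/-! ### admissible domains -/

theorem Mo.isometry (h : Mo φ e) : Isometry φ := by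
  refine Isometry.of_dist_eq fun z w => ?_
  rw [dist_eq_norm, dist_eq_norm, h.norm]

theorem Mo.continuous (h : Mo φ e) : Continuous φ := (Mo.isometry h).continuous

theorem Mo.isometry_symm (h : Mo φ e) : Isometry φ.symm := by
  refine Isometry.of_dist_eq fun z w => ?_
  rw [dist_eq_norm, dist_eq_norm, ← h.norm, Equiv.apply_symm_apply, Equiv.apply_symm_apply]

theorem Mo.isOpen (h : Mo φ e) {s : Set ℂ} (hs : IsOpen s) : IsOpen (φ '' s) := by
  rw [φ.image_eq_preimage_symm]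
  exact hs.preimage (Mo.isometry_symm h).continuous

theorem Mo.add (h : Mo φ e) (c w : ℂ) : φ (c + w) = φ c + e * w := by
  rw [h.eq_add (c + w) c]; ring

theorem Mo.ok (h : Mo φ e) {D : Dom} {δ : ℝ} (hD : D.OK δ) : (D.mv φ e).OK δ := by
  refine ⟨hD.Lpos, hD.dpos, fun i => Mo.isOpen h (hD.opn i),
    fun i => (hD.con i).image _ (Mo.continuous h).continuousOn, ?_, ?_, ?_, ?_⟩
  · intro k
    show ‖e * D.q k‖ = 1
    rw [norm_mul, h.ne, hD.qn, one_mul]
  · rintro i j hij _ ⟨z, hz, rfl⟩ _ ⟨w, hw, rfl⟩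
    rw [h.norm]
    exact hD.far i j hij z hz w hw
  · intro z hz
    obtain ⟨z, rfl⟩ := φ.surjective z
    change D.L / 2 < ‖φ z - φ D.c‖ at hz
    rw [h.norm] at hz
    have h1 := hD.tent z hz
    have e1 : (∀ i, φ z ∉ (D.mv φ e).R i) ↔ ∀ i, z ∉ D.R i :=
      forall_congr' fun i => not_congr (φ.injective.mem_set_image)
    rw [e1, h1]
    refine exists_congr fun k => exists_congr fun t => and_congr_right fun _ => ?_
    show _ ↔ ‖φ z - (φ D.c + t * (e * D.q k))‖ ≤ δ / D.L * ‖φ z - φ D.c‖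
    rw [← h.ray, h.norm, h.norm]
  · intro k r hr
    obtain ⟨e', he', h1⟩ := hD.sect k r hr
    refine ⟨e', he', fun ψ h2 h3 => ?_⟩
    obtain ⟨h4, h5⟩ := h1 ψ h2 h3
    refine ⟨⟨_, h4, ?_⟩, ⟨_, h5, ?_⟩⟩
    · rw [Mo.add h]
      show _ = φ D.c + r * (e * D.q k * Complex.exp (ψ * Complex.I))
      ring
    · rw [Mo.add h]
      show _ = φ D.c + r * (e * D.q k * Complex.exp (-(ψ * Complex.I)))
      ring

/-! ### uniqueness of the marks -/

variable {S : Finset ℂ}

theorem crossRay_unique {c : ℂ} {L d : ℝ} (hD : Dns S c L d) {q : ℂ}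
    (hn : ∀ s ∈ S, ∀ t : ℝ, 0 ≤ t → s ≠ c + t * q) {p p' : ℂ × ℂ} (hp : crossRay S c q p)
    (hp' : crossRay S c q p') : p = p' := by
  -- strictly before
  have key : ∀ p p' : ℂ × ℂ, hullE S p.1 p.2 → hullE S p'.1 p'.2 → ∀ t t' : ℝ, 0 ≤ t → t < t' →
      c + t * q ∈ segment ℝ p.1 p.2 → c + t' * q ∈ segment ℝ p'.1 p'.2 → False := by
    rintro ⟨a, b⟩ ⟨a', b'⟩ hh hh' t t' ht htt hx hx'
    simp only at hh hh' hx hx'
    have hL := hD.dL
    have hd := hD.dpos
    have hab : b - a ≠ 0 := sub_ne_zero.2 (hullE.ne hh).symm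
    have hn : 0 < ‖b - a‖ := norm_pos_iff.2 hab
    have hc : 0 < cr (b - a) (c - a) :=
      lt_of_lt_of_le (mul_pos (by linarith) hn) (edge_dist hD hh)
    have e1 : ∀ s : ℝ, cr (b - a) (c + s * q - a) = cr (b - a) (c - a) + s * cr (b - a) q := by
      intro s
      rw [show c + s * q - a = (c - a) + s * q by ring, cr_add_right, cr_smul_right]
    have hconv : Convex ℝ {y : ℂ | 0 ≤ cr (b - a) (y - a)} := by
      intro y hy z hz s t hs ht hst
      simp only [Set.mem_ofPred_eq, cr_sub] at hy hz ⊢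
      simp only [Complex.add_re, Complex.add_im, Complex.real_smul, Complex.mul_re,
        Complex.mul_im, Complex.ofReal_re, Complex.ofReal_im]
      have hs1 : s = 1 - t := by linarith
      subst hs1
      have := mul_nonneg hs hy
      have := mul_nonneg ht hz
      nlinarith
    obtain ⟨⟨c1, hc1⟩, -⟩ := id hh'
    obtain ⟨o1, hT1⟩ := mem_delT_iff.1 hc1
    have f1 : 0 ≤ cr (b - a) (c + t' * q - a) :=
      hconv.segment_subset (hull_side hh a' hT1.ma) (hull_side hh b' hT1.mb) hx'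
    have f0 : cr (b - a) (c + t * q - a) = 0 := by
      rw [segment_eq_image] at hx
      obtain ⟨s, -, hs⟩ := hx
      simp only at hs
      rw [← hs]
      have : (1 - s) • a + s • b - a = s * (b - a) := by
        simp only [Complex.real_smul, Complex.ofReal_sub, Complex.ofReal_one]
        ring
      rw [this, cr_smul_right, cr_self, mul_zero]
    rw [e1] at f0 f1
    have ht0 : 0 < t := by
      rcases ht.lt_or_eq with h | h
      · exact h
      · rw [← h] at f0; linarith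
    nlinarith
  obtain ⟨h1, t, ht, hx⟩ := hp
  obtain ⟨h2, t', ht', hx'⟩ := hp'
  have htt : t = t' := by
    rcases lt_trichotomy t t' with h | h | h
    · exact (key p p' h1 h2 t t' ht h hx hx').elim
    · exact h
    · exact (key p' p h2 h1 t' t ht' h hx' hx).elim
  subst htt
  obtain ⟨a, b⟩ := p
  obtain ⟨a', b'⟩ := p'
  simp only at h1 h2 hx hx'
  obtain ⟨⟨c1, hc1⟩, hno⟩ := id h2
  obtain ⟨o1, hT1⟩ := mem_delT_iff.1 hc1
  obtain ⟨⟨c0, hc0⟩, hno0⟩ := id h1
  obtain ⟨o0, hT0⟩ := mem_delT_iff.1 hc0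
  have f0 : cr (b - a) (c + t * q - a) = 0 := by
    rw [segment_eq_image] at hx
    obtain ⟨s, -, hs⟩ := hx
    simp only at hs
    rw [← hs]
    have : (1 - s) • a + s • b - a = s * (b - a) := by
      simp only [Complex.real_smul, Complex.ofReal_sub, Complex.ofReal_one]
      ring
    rw [this, cr_smul_right, cr_self, mul_zero]
  rw [segment_eq_image] at hx'
  obtain ⟨s, hs, hse⟩ := hx'
  simp only at hse
  have hse' : c + t * q - a = ((1 - s : ℝ) : ℂ) * (a' - a) + (s : ℂ) * (b' - a) := by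
    rw [← hse]
    simp only [Complex.real_smul, Complex.ofReal_sub, Complex.ofReal_one]
    ring
  rw [hse', cr_add_right, cr_smul_right, cr_smul_right] at f0
  have g1 := hull_side h1 a' hT1.ma
  have g2 := hull_side h1 b' hT1.mb
  have hs0 : 0 < s := by
    rcases hs.1.lt_or_eq with h | h
    · exact h
    · exfalso
      refine hn a' hT1.ma t ht ?_
      rw [← hse, ← h]; simp
  have hs1 : 0 < 1 - s := by
    rcases hs.2.lt_or_eq with h | h
    · linarith
    · exfalso
      refine hn b' hT1.mb t ht ?_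
      rw [← hse, h]; simp
  have z1 : cr (b - a) (a' - a) = 0 := by nlinarith [mul_nonneg hs1.le g1, mul_nonneg hs0.le g2]
  have z2 : cr (b - a) (b' - a) = 0 := by nlinarith [mul_nonneg hs1.le g1, mul_nonneg hs0.le g2]
  have m1 : a' = a ∨ a' = b := by
    by_contra hcon
    push Not at hcon
    have := hull_side_lt hD.gp h1 hT1.ma hcon.1.symm hcon.2.symm
    linarith
  have m2 : b' = a ∨ b' = b := by
    by_contra hcon
    push Not at hcon
    have := hull_side_lt hD.gp h1 hT1.mb hcon.1.symm hcon.2.symm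
    linarith
  have hne := hT1.ne.1
  rcases m1 with rfl | rfl
  · rcases m2 with rfl | rfl
    · exact (hne rfl).elim
    · rfl
  · rcases m2 with rfl | rfl
    · exact (hno0 c1 hc1).elim
    · exact (hne rfl).elim

/-- **the ray marks are unique** -/
theorem umark {D : Dom} {d : ℝ} (hD : Dns S D.c D.L d) (hq : ∀ k, ‖D.q k‖ = 1)
    (hn : ∀ k, ∀ s ∈ S, ∀ t : ℝ, 0 ≤ t → s ≠ D.c + t * D.q k) : UMark D S := by
  intro k
  obtain ⟨p, hp⟩ := crossRay_exists hD (hq k)
  exact ⟨p, hp, fun p' hp' => crossRay_unique hD (hn k) hp' hp⟩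

/-- almost surely no point of the sample is in a given null set -/
theorem ae_notMem {ε : ℝ} (hε : 0 < ε) {B : Set ℂ} (hB : volume B = 0) :
    ∀ᵐ ω ∂sampleLaw, ∀ z ∈ points ε ω, z ∉ B := by
  have h1 : ∀ᵐ x ∂PoisM3x930.nu, ∀ i : PoisM3x930.Ix, PoisM3x930.q ε x i ∉ B := by
    rw [ae_all_iff]
    intro i
    have h2 := PoisM3x930.pos_null hε i.1 hB
    have h3 : MeasurePreserving (fun x : PoisM3x930.Ix → Janx304.Mk => x i) PoisM3x930.nu
        Janx304.mk3 := measurePreserving_eval_infinitePi _ i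
    have h4 : ∀ᵐ m ∂Janx304.mk3, Janx304.pos ε i.1 (m 0, m 1) ∉ B := by
      rw [ae_iff]
      simpa using h2
    exact h3.quasiMeasurePreserving.ae h4
  filter_upwards [PoisM3x930.marks_ae h1] with ω hω
  rintro _ ⟨⟨k1, k2, j⟩, -, rfl⟩
  exact hω ((k1, k2), j)

/-- almost surely no site is on a given ray -/
theorem ae_ray {ε : ℝ} (hε : 0 < ε) (c : ℂ) {q : ℂ} (hq : q ≠ 0) :
    ∀ᵐ ω ∂sampleLaw, ∀ s ∈ points ε ω, ∀ t : ℝ, s ≠ c + t * q := by
  filter_upwards [ae_notMem hε (PoisM3x930.line_null hq c)] with ω hω s hs t hst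
  refine hω s hs ?_
  show cr q (s - c) = 0
  rw [hst, show c + t * q - c = t * q by ring, cr_smul_right, cr_self, mul_zero]

/-- **almost surely the marks of a dense domain are unique** -/
theorem ae_umark {D : Dom} (hq : ∀ k, ‖D.q k‖ = 1) {ε : ℝ} (hε : 0 < ε) :
    ∀ᵐ ω ∂sampleLaw, ∀ d : ℝ, Dns (D.sites ε ω) D.c D.L d → UMark D (D.sites ε ω) := by
  have h1 : ∀ᵐ ω ∂sampleLaw, ∀ k : ZMod 3, ∀ s ∈ points ε ω, ∀ t : ℝ, s ≠ D.c + t * D.q k := by
    rw [ae_all_iff]
    intro k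
    refine ae_ray hε D.c ?_
    intro h0
    have := hq k
    rw [h0, norm_zero] at this
    exact zero_ne_one this
  filter_upwards [h1] with ω hω d hd
  refine umark hd hq fun k s hs t _ => hω k s ?_ t
  unfold Dom.sites at hs
  split_ifs at hs with hf
  · rw [Set.Finite.mem_toFinset] at hs
    exact hs.1
  · simp at hs

/-! ### lattice symmetries -/

/-- the motion of the lattice symmetry `g` at scale `ε`, as a bijection of the plane -/
def moe (g : Iso2) (ε : ℝ) : ℂ ≃ ℂ where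
  toFun z := g.e * z + ε * g.b
  invFun z := g.e⁻¹ * (z - ε * g.b)
  left_inv z := by
    have hne : g.e ≠ 0 := by
      intro h0
      have := g.he
      rw [h0, norm_zero] at this
      exact zero_ne_one this
    show g.e⁻¹ * (g.e * z + ε * g.b - ε * g.b) = z
    rw [add_sub_cancel_right, inv_mul_cancel_left₀ hne]
  right_inv z := by
    have hne : g.e ≠ 0 := by
      intro h0
      have := g.he
      rw [h0, norm_zero] at this
      exact zero_ne_one this
    show g.e * (g.e⁻¹ * (z - ε * g.b)) + ε * g.b = z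
    rw [mul_inv_cancel_left₀ hne, sub_add_cancel]

theorem moe_apply (g : Iso2) (ε : ℝ) (z : ℂ) : moe g ε z = g.mo ε z := rfl

theorem mo_moe (g : Iso2) (ε : ℝ) : Mo (moe g ε) g.e :=
  ⟨g.he, fun z w => by show (g.e * z + ε * g.b) - (g.e * w + ε * g.b) = _; ring⟩

theorem points_moe (g : Iso2) (ε : ℝ) (ω : Sample) :
    points ε (g.S ω) = moe g ε '' points ε ω := g.points_S ε ω

/-- the moved domain -/
def mvD (g : Iso2) (ε : ℝ) (D : Dom) : Dom := D.mv (moe g ε) g.e

/-- **the observable of the moved domain, moved sample, at the moved point** -/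
theorem h_rot (g : Iso2) {D : Dom} {ε : ℝ} {ω : Sample} (hS : GP (D.sites ε ω : Set ℂ))
    (hu : UMark D (D.sites ε ω)) (z : ℂ) :
    (mvD g ε D).h ε (g.S ω) (moe g ε z) = D.h ε ω z :=
  (mo_moe g ε).h (points_moe g ε ω) hS hu z

/-! ### mollified derivatives -/

theorem inv_norm {e : ℂ} (he : ‖e‖ = 1) : ‖e⁻¹‖ = 1 := by rw [norm_inv, he, inv_one]

theorem Sb_mo (h : Mo φ e) {f f' : ℂ → ℂ} (hf : ∀ z, f' (φ z) = f z) (r : ℝ) (z₀ : ℂ) :
    Sb r f' (φ z₀) = e * Sb r f z₀ := by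
  have hne : e ≠ 0 := by
    intro h0
    have := h.ne
    rw [h0, norm_zero] at this
    exact zero_ne_one this
  have h1 := Sb_rot_ker (inv_norm h.ne) f r z₀
  rw [inv_inv] at h1
  rw [← h1, Sb]
  refine integral_congr_ae (Eventually.of_forall fun z => ?_)
  simp only
  rw [← hf, Mo.add h, mul_inv_cancel_left₀ hne]

theorem conj_eq_inv {e : ℂ} (he : ‖e‖ = 1) : (starRingEnd ℂ) e = e⁻¹ := by
  have he0 : e ≠ 0 := by intro h0; rw [h0, norm_zero] at he; exact zero_ne_one he
  have h3 : e * (starRingEnd ℂ) e = 1 := by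
    rw [Complex.mul_conj, Complex.normSq_eq_norm_sq, he]; norm_num
  field_simp
  linear_combination h3

theorem Db_mo (h : Mo φ e) {f f' : ℂ → ℂ} (hf : ∀ z, f' (φ z) = f z) (r : ℝ) (z₀ : ℂ) :
    Db r f' (φ z₀) = e⁻¹ * Db r f z₀ := by
  have h1 := Sb_mo h (f := EndBx336.cj f) (f' := EndBx336.cj f')
    (fun z => by simp only [EndBx336.cj, hf]) r z₀
  rw [Db, h1, map_mul, conj_eq_inv h.ne, Db]

/-- **quenched**: the mollified derivatives of the moved observable -/
theorem Sb_mv (g : Iso2) {D : Dom} {ε : ℝ} {ω : Sample} (hS : GP (D.sites ε ω : Set ℂ))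
    (hu : UMark D (D.sites ε ω)) (r : ℝ) (z₀ : ℂ) :
    Sb r ((mvD g ε D).h ε (g.S ω)) (moe g ε z₀) = g.e * Sb r (D.h ε ω) z₀ :=
  Sb_mo (mo_moe g ε) (h_rot g hS hu) r z₀

theorem Db_mv (g : Iso2) {D : Dom} {ε : ℝ} {ω : Sample} (hS : GP (D.sites ε ω : Set ℂ))
    (hu : UMark D (D.sites ε ω)) (r : ℝ) (z₀ : ℂ) :
    Db r ((mvD g ε D).h ε (g.S ω)) (moe g ε z₀) = g.e⁻¹ * Db r (D.h ε ω) z₀ :=
  Db_mo (mo_moe g ε) (h_rot g hS hu) r z₀

/-- environments for which the observable of `D` is well defined -/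
def Wd (D : Dom) (ε : ℝ) (ω : Sample) : Prop :=
  GP (D.sites ε ω : Set ℂ) ∧ UMark D (D.sites ε ω)

/-- **annealed, frozen outside** (no measurability needed): `K` invariant set of cells, `ω₀` frozen
sample, `G` any set of good samples. The expectation for the moved domain with the moved outside
and the SAME inside law -/
theorem integral_Sb_mv (g : Iso2) {K : Set (ℤ × ℤ)} (hK : ∀ k, g.sg k ∈ K ↔ k ∈ K) (ω₀ : Sample)
    {D : Dom} {ε : ℝ} (G : Sample → Prop) (hG : ∀ ω, G (fr K ω ω₀) → Wd D ε (fr K ω ω₀))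
    (G' : Sample → Prop) (hG' : ∀ ω, G' (g.S (fr K ω ω₀)) ↔ G (fr K ω ω₀)) (r : ℝ) (z₀ : ℂ) :
    ∫ ω, (if G' (fr K ω (g.S ω₀)) then
        Sb r ((mvD g ε D).h ε (fr K ω (g.S ω₀))) (moe g ε z₀) else 0) ∂sampleLaw =
      g.e * ∫ ω, (if G (fr K ω ω₀) then Sb r (D.h ε (fr K ω ω₀)) z₀ else 0) ∂sampleLaw := by
  rw [integral_fr g hK ω₀ fun ω => if G' ω then Sb r ((mvD g ε D).h ε ω) (moe g ε z₀) else 0,
    ← integral_const_mul]
  refine integral_congr_ae (Eventually.of_forall fun ω => ?_)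
  simp only
  by_cases h : G (fr K ω ω₀)
  · rw [if_pos ((hG' ω).2 h), if_pos h]
    exact Sb_mv g (hG ω h).1 (hG ω h).2 r z₀
  · rw [if_neg (fun h' => h ((hG' ω).1 h')), if_neg h, mul_zero]

theorem integral_Db_mv (g : Iso2) {K : Set (ℤ × ℤ)} (hK : ∀ k, g.sg k ∈ K ↔ k ∈ K) (ω₀ : Sample)
    {D : Dom} {ε : ℝ} (G : Sample → Prop) (hG : ∀ ω, G (fr K ω ω₀) → Wd D ε (fr K ω ω₀))
    (G' : Sample → Prop) (hG' : ∀ ω, G' (g.S (fr K ω ω₀)) ↔ G (fr K ω ω₀)) (r : ℝ) (z₀ : ℂ) :
    ∫ ω, (if G' (fr K ω (g.S ω₀)) then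
        Db r ((mvD g ε D).h ε (fr K ω (g.S ω₀))) (moe g ε z₀) else 0) ∂sampleLaw =
      g.e⁻¹ * ∫ ω, (if G (fr K ω ω₀) then Db r (D.h ε (fr K ω ω₀)) z₀ else 0) ∂sampleLaw := by
  rw [integral_fr g hK ω₀ fun ω => if G' ω then Db r ((mvD g ε D).h ε ω) (moe g ε z₀) else 0,
    ← integral_const_mul]
  refine integral_congr_ae (Eventually.of_forall fun ω => ?_)
  simp only
  by_cases h : G (fr K ω ω₀)
  · rw [if_pos ((hG' ω).2 h), if_pos h]
    exact Db_mv g (hG ω h).1 (hG ω h).2 r z₀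
  · rw [if_neg (fun h' => h ((hG' ω).1 h')), if_neg h, mul_zero]

end Crest.Agent.R143.CovCx126
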