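import Crest.Agent.R143.CovC_126
import Crest.Agent.R143.Ad_422

/-!
# Row 143 (S0194), block Y: motions and weakly admissible domains (helper126)
-/

set_option autoImplicit false

noncomputable section

open scoped Classical

namespace Crest.Agent.R143.CovWx126

open MeasureTheory Filter
open Crest.ProbabilityR.Voronoi
open Crest.Agent.R143.B0x346 Crest.Agent.R143.B0Dx346 Crest.Agent.R143.CovAx126
open Crest.Agent.R143.DelGx806 Crest.Agent.R143.CovBx126 Crest.Agent.R143.CovCx126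

variable {φ : ℂ ≃ ℂ} {e : ℂ}

/-- the moved domain is weakly admissible -/
theorem Mo.w (h : Mo φ e) {D : Dom} {δ : ℝ} (hD : D.W δ) : (D.mv φ e).W δ where
  Lpos := hD.Lpos
  dpos := hD.dpos
  lt := hD.lt
  opn i := Mo.isOpen h (hD.opn i)
  qn k := by
    show ‖e * D.q k‖ = 1
    rw [norm_mul, h.ne, hD.qn, one_mul]
  far := by
    rintro i j hij _ ⟨z, hz, rfl⟩ _ ⟨w, hw, rfl⟩
    rw [h.norm]
    exact hD.far i j hij z hz w hw
  tent := by
    intro z hz hc i hi
    obtain ⟨z, rfl⟩ := φ.surjective z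
    change D.L / 2 < ‖φ z - φ D.c‖ at hz
    rw [h.norm] at hz
    obtain ⟨k, t, ht, hk⟩ := hc
    change ‖φ z - (φ D.c + t * (e * D.q k))‖ ≤ δ / D.L * ‖φ z - φ D.c‖ at hk
    rw [← h.ray, h.norm, h.norm] at hk
    exact hD.tent z hz ⟨k, t, ht, hk⟩ i ((φ.injective.mem_set_image).1 hi)
  sep := by
    intro i j hij
    show 2 * (δ / D.L) ≤ ‖e * D.q i - e * D.q j‖
    rw [← mul_sub, norm_mul, h.ne, one_mul]
    exact hD.sep i j hij
  ccw := by
    show 0 < cr (e * D.q 1 - e * D.q 0) (e * D.q 2 - e * D.q 0)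
    rw [← mul_sub, ← mul_sub, CovBx126.cr_mul h.ne]
    exact hD.ccw

end Crest.Agent.R143.CovWx126
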