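import Mathlib

/-!
# Row 143: the `L²` toolkit of the rigidity step (helper705)

`X + Y` small in `L²`, `X` and `Y` independent (or conditionally independent) ⟹ `X` is close to a
constant (to a function of the conditioning).  Everything is in `lintegral` form: no
integrability hypotheses.

* `exists_const_prod` : product space, events `S` (for `X`), `T` (for `Y`), any exponent `p`
* `exists_const_indep` : the same for `IndepFun`
* `mean_min` : the mean minimises `∫⁻ ‖X - m‖²`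
* `mean_prod` : mean form of `exists_const_prod`
* `cond_prod`, `cond_indep3` : conditional form, three independent coordinates, measurable `m`
* `enorm_sub_sq_mul_le` : two constants close to the same variable on a common event
* `add_err` : adding a third term
-/

set_option autoImplicit false

noncomputable section

namespace Crest.Agent.R143.L2Indx705

open MeasureTheory ProbabilityTheory Set
open scoped ENNReal NNReal

variable {A B C Ω : Type*} [MeasurableSpace A] [MeasurableSpace B] [MeasurableSpace C]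
  [MeasurableSpace Ω]

/-! ### elementary inequalities -/

/-- `‖x + y‖² ≤ 2 ‖x‖² + 2 ‖y‖²` in `ℝ≥0∞` -/
theorem enorm_add_sq_le {E : Type*} [NormedAddCommGroup E] (x y : E) :
    ‖x + y‖ₑ ^ 2 ≤ 2 * ‖x‖ₑ ^ 2 + 2 * ‖y‖ₑ ^ 2 := by
  have h0 : ‖x + y‖₊ ≤ ‖x‖₊ + ‖y‖₊ := nnnorm_add_le x y
  have h1 : ‖x + y‖₊ ^ 2 ≤ 2 * ‖x‖₊ ^ 2 + 2 * ‖y‖₊ ^ 2 := by
    have h2 : ((‖x + y‖₊ : ℝ≥0) : ℝ) ^ 2 ≤ 2 * ((‖x‖₊ : ℝ≥0) : ℝ) ^ 2 + 2 * ((‖y‖₊ : ℝ≥0) : ℝ) ^ 2 := by
      have h3 : ((‖x + y‖₊ : ℝ≥0) : ℝ) ≤ (‖x‖₊ : ℝ) + (‖y‖₊ : ℝ) := by exact_mod_cast h0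
      have h4 : (0 : ℝ) ≤ ((‖x + y‖₊ : ℝ≥0) : ℝ) := NNReal.coe_nonneg _
      nlinarith [sq_nonneg ((‖x‖₊ : ℝ) - (‖y‖₊ : ℝ)), NNReal.coe_nonneg ‖x‖₊,
        NNReal.coe_nonneg ‖y‖₊]
    exact_mod_cast h2
  simp only [enorm_eq_nnnorm]
  exact_mod_cast h1

theorem enorm_sub_sq_le {E : Type*} [NormedAddCommGroup E] (x y z : E) :
    ‖x - z‖ₑ ^ 2 ≤ 2 * ‖x - y‖ₑ ^ 2 + 2 * ‖y - z‖ₑ ^ 2 := by
  have h := enorm_add_sq_le (x - y) (y - z)
  rwa [sub_add_sub_cancel] at h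

/-- adding a third term -/
theorem add_err {E : Type*} [NormedAddCommGroup E] (μ : Measure Ω) (X Y Z : Ω → E)
    (hZ : AEMeasurable (fun ω => ‖Z ω‖ₑ ^ 2) μ) :
    ∫⁻ ω, ‖X ω + Y ω‖ₑ ^ 2 ∂μ ≤
      2 * ∫⁻ ω, ‖X ω + Y ω + Z ω‖ₑ ^ 2 ∂μ + 2 * ∫⁻ ω, ‖Z ω‖ₑ ^ 2 ∂μ := by
  rw [← lintegral_const_mul' _ _ (by norm_num), ← lintegral_const_mul' _ _ (by norm_num),
    ← lintegral_add_right' _ (hZ.const_mul 2)]
  refine lintegral_mono fun ω => ?_
  have h := enorm_sub_sq_le (X ω + Y ω + Z ω) (Z ω) 0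
  have h1 := enorm_add_sq_le (X ω + Y ω + Z ω) (-Z ω)
  simp only [enorm_neg] at h1
  have h2 : X ω + Y ω + Z ω + -Z ω = X ω + Y ω := by abel
  rwa [h2] at h1

/-! ### two constants -/

/-- two constants close to the same variable -/
theorem enorm_sub_sq_mul_le {E : Type*} [NormedAddCommGroup E] (μ : Measure Ω) (X : Ω → E)
    (m m' : E) (hX : AEMeasurable (fun ω => ‖X ω - m'‖ₑ ^ 2) μ) :
    ‖m - m'‖ₑ ^ 2 * μ univ ≤
      2 * ∫⁻ ω, ‖X ω - m‖ₑ ^ 2 ∂μ + 2 * ∫⁻ ω, ‖X ω - m'‖ₑ ^ 2 ∂μ := by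
  rw [← lintegral_const_mul' _ _ (by norm_num), ← lintegral_const_mul' _ _ (by norm_num),
    ← lintegral_add_right' _ (hX.const_mul 2), ← lintegral_const]
  refine lintegral_mono fun ω => ?_
  have h := enorm_sub_sq_le m (X ω) m'
  rwa [← enorm_neg (m - X ω), neg_sub] at h

/-- two constants close to the same variable on events `S`, `S'`; `G ⊆ S ∩ S'`, `X = X'` on `G` -/
theorem consts_close {E : Type*} [NormedAddCommGroup E] (μ : Measure Ω) (X X' : Ω → E)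
    (m m' : E) {S S' G : Set Ω} (hG : MeasurableSet G) (hS : G ⊆ S) (hS' : G ⊆ S')
    (hXX : ∀ ω ∈ G, X ω = X' ω)
    (hX : AEMeasurable (fun ω => ‖X' ω - m'‖ₑ ^ 2) (μ.restrict G)) :
    ‖m - m'‖ₑ ^ 2 * μ G ≤
      2 * ∫⁻ ω in S, ‖X ω - m‖ₑ ^ 2 ∂μ + 2 * ∫⁻ ω in S', ‖X' ω - m'‖ₑ ^ 2 ∂μ := by
  have h0 : AEMeasurable (fun ω => ‖X ω - m'‖ₑ ^ 2) (μ.restrict G) := by
    refine hX.congr ?_
    filter_upwards [ae_restrict_mem hG] with ω hω
    rw [hXX ω hω]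
  have h1 := enorm_sub_sq_mul_le (μ.restrict G) X m m' h0
  rw [Measure.restrict_apply_univ] at h1
  refine h1.trans (add_le_add ?_ ?_)
  · gcongr
  · gcongr 2 * ?_
    calc ∫⁻ ω in G, ‖X ω - m'‖ₑ ^ 2 ∂μ = ∫⁻ ω in G, ‖X' ω - m'‖ₑ ^ 2 ∂μ :=
          setLIntegral_congr_fun hG fun ω hω => by rw [hXX ω hω]
      _ ≤ ∫⁻ ω in S', ‖X' ω - m'‖ₑ ^ 2 ∂μ := lintegral_mono_set hS'

/-! ### independence -/

/-- `X(a) + Y(b)` small on `S ×ˢ T` ⟹ `X` close to a constant on `S` -/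
theorem exists_const_prod {E : Type*} [NormedAddCommGroup E] (μ : Measure A) (ν : Measure B)
    [SFinite μ] [IsFiniteMeasure ν] (X : A → E) (Y : B → E) (S : Set A) (T : Set B)
    (h : AEMeasurable (fun z : A × B => ‖X z.1 + Y z.2‖ₑ ^ 2)
      ((μ.restrict S).prod (ν.restrict T))) :
    ∃ m : E, ν T * ∫⁻ a in S, ‖X a - m‖ₑ ^ 2 ∂μ ≤
      ∫⁻ z in S ×ˢ T, ‖X z.1 + Y z.2‖ₑ ^ 2 ∂(μ.prod ν) := by
  by_cases hT : ν T = 0
  · exact ⟨0, by rw [hT, zero_mul]; exact zero_le⟩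
  have h1 : ∫⁻ z in S ×ˢ T, ‖X z.1 + Y z.2‖ₑ ^ 2 ∂(μ.prod ν) =
      ∫⁻ b in T, ∫⁻ a in S, ‖X a + Y b‖ₑ ^ 2 ∂μ ∂ν := by
    rw [← Measure.prod_restrict, lintegral_prod_symm _ h]
  have h2 : AEMeasurable (fun b => ∫⁻ a in S, ‖X a + Y b‖ₑ ^ 2 ∂μ) (ν.restrict T) :=
    h.lintegral_prod_left'
  obtain ⟨b, -, hb⟩ := exists_le_setLAverage (μ := ν) hT (measure_ne_top ν T) h2
  refine ⟨-Y b, ?_⟩
  rw [h1]
  rw [setLAverage_eq] at hb
  have h3 : ∫⁻ a in S, ‖X a - -Y b‖ₑ ^ 2 ∂μ = ∫⁻ a in S, ‖X a + Y b‖ₑ ^ 2 ∂μ := by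
    simp only [sub_neg_eq_add]
  rw [h3, mul_comm]
  exact (ENNReal.le_div_iff_mul_le (Or.inl hT) (Or.inl (measure_ne_top ν T))).1 hb

/-- `IndepFun` form: `X(a ω) + Y(b ω)` small on `{a ∈ S} ∩ {b ∈ T}` ⟹ `X(a ω)` close to a
constant on `{a ∈ S}` -/
theorem exists_const_indep {E : Type*} [NormedAddCommGroup E] [MeasurableSpace E] [BorelSpace E]
    [SecondCountableTopology E]
    (P : Measure Ω) [IsProbabilityMeasure P] {a : Ω → A} {b : Ω → B} (ha : Measurable a)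
    (hb : Measurable b) (hab : IndepFun a b P) (X : A → E) (Y : B → E) (hX : Measurable X)
    (hY : Measurable Y) {S : Set A} {T : Set B} (hS : MeasurableSet S) (hT : MeasurableSet T) :
    ∃ m : E, P (b ⁻¹' T) * ∫⁻ ω in a ⁻¹' S, ‖X (a ω) - m‖ₑ ^ 2 ∂P ≤
      ∫⁻ ω in a ⁻¹' S ∩ b ⁻¹' T, ‖X (a ω) + Y (b ω)‖ₑ ^ 2 ∂P := by
  have := Measure.isProbabilityMeasure_map (μ := P) ha.aemeasurable
  have := Measure.isProbabilityMeasure_map (μ := P) hb.aemeasurable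
  have hmeas : Measurable (fun z : A × B => ‖X z.1 + Y z.2‖ₑ ^ 2) :=
    (((hX.comp measurable_fst).add (hY.comp measurable_snd)).enorm).pow_const 2
  obtain ⟨m, hm⟩ := exists_const_prod (P.map a) (P.map b) X Y S T hmeas.aemeasurable
  refine ⟨m, ?_⟩
  rw [Measure.map_apply hb hT, ← (indepFun_iff_map_prod_eq_prod_map_map ha.aemeasurable
    hb.aemeasurable).1 hab, setLIntegral_map (hS.prod hT) hmeas (ha.prodMk hb)] at hm
  have h1 : ∫⁻ x in S, ‖X x - m‖ₑ ^ 2 ∂(P.map a) = ∫⁻ ω in a ⁻¹' S, ‖X (a ω) - m‖ₑ ^ 2 ∂P :=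
    setLIntegral_map hS (((hX.sub_const m).enorm).pow_const 2) ha
  rw [h1] at hm
  exact hm

/-! ### the mean -/

/-- the mean minimises `∫⁻ ‖X - m‖²` -/
theorem mean_min (μ : Measure A) [IsFiniteMeasure μ] (X : A → ℂ)
    (hX : AEStronglyMeasurable X μ) (m₀ : ℂ) :
    ∫⁻ a, ‖X a - ⨍ x, X x ∂μ‖ₑ ^ 2 ∂μ ≤ ∫⁻ a, ‖X a - m₀‖ₑ ^ 2 ∂μ := by
  by_cases hμ : μ = 0
  · subst hμ; simp
  have : NeZero μ := ⟨hμ⟩
  by_cases hfin : ∫⁻ a, ‖X a - m₀‖ₑ ^ 2 ∂μ = ∞
  · rw [hfin]; exact le_top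
  have hL2' : MemLp (fun a => X a - m₀) 2 μ := by
    refine ⟨hX.sub aestronglyMeasurable_const, ?_⟩
    rw [eLpNorm_lt_top_iff_lintegral_rpow_enorm_lt_top (by norm_num) (by norm_num)]
    have : ∀ a, ‖X a - m₀‖ₑ ^ (2 : ℝ≥0∞).toReal = ‖X a - m₀‖ₑ ^ 2 := fun a => by
      rw [show (2 : ℝ≥0∞).toReal = ((2 : ℕ) : ℝ) by norm_num, ENNReal.rpow_natCast]
    simp only [this]
    exact lt_of_le_of_ne le_top hfin
  have hL2 : MemLp X 2 μ := by
    have := hL2'.add (memLp_const m₀)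
    refine this.congr_norm hX (ae_of_all _ fun a => ?_)
    simp
  have hint : Integrable X μ := hL2.integrable (by norm_num)
  set mb : ℂ := ⨍ x, X x ∂μ with hmb
  have hL2b : MemLp (fun a => X a - mb) 2 μ := hL2.sub (memLp_const mb)
  have hsq : ∀ m : ℂ, MemLp (fun a => X a - m) 2 μ →
      ∫⁻ a, ‖X a - m‖ₑ ^ 2 ∂μ = ENNReal.ofReal (∫ a, ‖X a - m‖ ^ 2 ∂μ) := by
    intro m hm
    rw [ofReal_integral_eq_lintegral_ofReal (hm.integrable_norm_pow (by norm_num))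
      (ae_of_all _ fun a => by positivity)]
    refine lintegral_congr fun a => ?_
    rw [ENNReal.ofReal_pow (norm_nonneg _), ofReal_norm]
  rw [hsq mb hL2b, hsq m₀ hL2']
  refine ENNReal.ofReal_le_ofReal ?_
  have hz : ∫ a, (X a - mb) ∂μ = 0 := by
    rw [integral_sub hint (integrable_const _), integral_const, hmb, average_eq]
    rw [smul_smul]
    have hne : μ.real univ ≠ 0 := by
      rw [measureReal_def]
      exact ENNReal.toReal_ne_zero.2 ⟨by simpa using hμ, measure_ne_top _ _⟩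
    rw [mul_inv_cancel₀ hne, one_smul, sub_self]
  have hpt : ∀ a, ‖X a - m₀‖ ^ 2 = ‖X a - mb‖ ^ 2 +
      2 * ((X a - mb) * (starRingEnd ℂ) (mb - m₀)).re + ‖mb - m₀‖ ^ 2 := by
    intro a
    have e1 : ∀ w : ℂ, ‖w‖ ^ 2 = w.re * w.re + w.im * w.im := fun w => by
      rw [← Complex.normSq_eq_norm_sq, Complex.normSq_apply]
    rw [e1, e1, e1]
    simp only [Complex.sub_re, Complex.sub_im, Complex.mul_re, Complex.conj_re, Complex.conj_im]
    ring
  have hi1 : Integrable (fun a => ‖X a - mb‖ ^ 2) μ := hL2b.integrable_norm_pow (by norm_num)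
  have hi2 : Integrable (fun a => 2 * ((X a - mb) * (starRingEnd ℂ) (mb - m₀)).re) μ := by
    have h1 : Integrable (fun a => (X a - mb) * (starRingEnd ℂ) (mb - m₀)) μ :=
      (hint.sub (integrable_const _)).mul_const _
    exact h1.re.const_mul 2
  have hc : ∫ a, 2 * ((X a - mb) * (starRingEnd ℂ) (mb - m₀)).re ∂μ = 0 := by
    rw [integral_const_mul]
    have h1 : Integrable (fun a => (X a - mb) * (starRingEnd ℂ) (mb - m₀)) μ :=
      (hint.sub (integrable_const _)).mul_const _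
    have h2 : ∫ a, ((X a - mb) * (starRingEnd ℂ) (mb - m₀)).re ∂μ =
        (∫ a, (X a - mb) * (starRingEnd ℂ) (mb - m₀) ∂μ).re := integral_re h1
    rw [h2, integral_mul_const, hz, zero_mul]
    simp
  have hsum : ∫ a, ‖X a - m₀‖ ^ 2 ∂μ = ∫ a, ‖X a - mb‖ ^ 2 ∂μ + ∫ a, ‖mb - m₀‖ ^ 2 ∂μ := by
    calc ∫ a, ‖X a - m₀‖ ^ 2 ∂μ
        = ∫ a, (‖X a - mb‖ ^ 2 + 2 * ((X a - mb) * (starRingEnd ℂ) (mb - m₀)).re +
            ‖mb - m₀‖ ^ 2) ∂μ := integral_congr_ae (ae_of_all _ hpt)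
      _ = ∫ a, (‖X a - mb‖ ^ 2 + 2 * ((X a - mb) * (starRingEnd ℂ) (mb - m₀)).re) ∂μ +
            ∫ a, ‖mb - m₀‖ ^ 2 ∂μ := integral_add (hi1.add hi2) (integrable_const _)
      _ = ∫ a, ‖X a - mb‖ ^ 2 ∂μ + ∫ a, ‖mb - m₀‖ ^ 2 ∂μ := by
            rw [integral_add hi1 hi2, hc, add_zero]
  rw [hsum]
  have : 0 ≤ ∫ a, ‖mb - m₀‖ ^ 2 ∂μ := integral_nonneg fun a => by positivity
  linarith

/-- mean form of `exists_const_prod` -/
theorem mean_prod (μ : Measure A) (ν : Measure B) [IsFiniteMeasure μ] [IsFiniteMeasure ν]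
    (X : A → ℂ) (Y : B → ℂ) (hX : Measurable X) (hY : Measurable Y) (S : Set A) (T : Set B) :
    ν T * ∫⁻ a in S, ‖X a - ⨍ x in S, X x ∂μ‖ₑ ^ 2 ∂μ ≤
      ∫⁻ a in S, ∫⁻ b in T, ‖X a + Y b‖ₑ ^ 2 ∂ν ∂μ := by
  have hmeas : Measurable (fun z : A × B => ‖X z.1 + Y z.2‖ₑ ^ 2) :=
    (((hX.comp measurable_fst).add (hY.comp measurable_snd)).enorm).pow_const 2
  obtain ⟨m, hm⟩ := exists_const_prod μ ν X Y S T hmeas.aemeasurable
  rw [← Measure.prod_restrict, lintegral_prod _ hmeas.aemeasurable] at hm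
  refine le_trans ?_ hm
  gcongr ν T * ?_
  exact mean_min (μ.restrict S) X hX.aestronglyMeasurable m

/-! ### conditional form -/

/-- conditional form: `A × C`, `B × C`, `c` fixed.  `m c` is the mean of `X(·, c)` on the section
`S_c` -/
def cmean (μ : Measure A) (X : A × C → ℂ) (S : Set (A × C)) (c : C) : ℂ :=
  ⨍ a in {a | (a, c) ∈ S}, X (a, c) ∂μ

theorem cmean_measurable (μ : Measure A) [SFinite μ] {X : A × C → ℂ} (hX : Measurable X)
    {S : Set (A × C)} (hS : MeasurableSet S) : Measurable (cmean μ X S) := by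
  have h1 : Measurable fun c : C => ∫ a, S.indicator X (a, c) ∂μ :=
    ((hX.indicator hS).stronglyMeasurable.integral_prod_left' (μ := μ)).measurable
  have h2 : Measurable fun c : C => μ {a | (a, c) ∈ S} := measurable_measure_prodMk_right hS
  have h3 : cmean μ X S = fun c => (μ {a | (a, c) ∈ S}).toReal⁻¹ • ∫ a, S.indicator X (a, c) ∂μ := by
    funext c
    rw [cmean, setAverage_eq, measureReal_def]
    congr 1
    have hSc : MeasurableSet {a | (a, c) ∈ S} := measurable_prodMk_right hS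
    rw [← integral_indicator hSc]
    refine integral_congr_ae (ae_of_all _ fun a => ?_)
    by_cases ha : (a, c) ∈ S
    · simp [indicator, ha]
    · simp [indicator, ha]
  rw [h3]
  exact (h2.ennreal_toReal.inv).smul h1

theorem cond_prod (μ : Measure A) (ν : Measure B) (ρ : Measure C) [IsFiniteMeasure μ]
    [IsFiniteMeasure ν] {X : A × C → ℂ} {Y : B × C → ℂ} (hX : Measurable X) (hY : Measurable Y)
    (S : Set (A × C)) (T : Set (B × C)) :
    ∫⁻ c, ν {b | (b, c) ∈ T} * ∫⁻ a in {a | (a, c) ∈ S}, ‖X (a, c) - cmean μ X S c‖ₑ ^ 2 ∂μ ∂ρ ≤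
      ∫⁻ c, ∫⁻ a in {a | (a, c) ∈ S}, ∫⁻ b in {b | (b, c) ∈ T},
        ‖X (a, c) + Y (b, c)‖ₑ ^ 2 ∂ν ∂μ ∂ρ := by
  refine lintegral_mono fun c => ?_
  exact mean_prod μ ν (fun a => X (a, c)) (fun b => Y (b, c)) (hX.comp measurable_prodMk_right)
    (hY.comp measurable_prodMk_right) _ _

/-- **conditional form, three independent coordinates** `a, b, c`: `X` depends on `(a, c)`, `Y` on
`(b, c)`, the events `{(a, c) ∈ S}`, `{(b, c) ∈ T}`; then `X` is close to a measurable function of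
`c` on the common event. -/
theorem cond_indep3 (P : Measure Ω) [IsProbabilityMeasure P] {a : Ω → A} {b : Ω → B} {c : Ω → C}
    (ha : Measurable a) (hb : Measurable b) (hc : Measurable c)
    (h : P.map (fun ω => (c ω, a ω, b ω)) = (P.map c).prod ((P.map a).prod (P.map b)))
    {X : A × C → ℂ} {Y : B × C → ℂ} (hX : Measurable X) (hY : Measurable Y)
    {S : Set (A × C)} {T : Set (B × C)} (hS : MeasurableSet S) (hT : MeasurableSet T) :
    ∃ m : C → ℂ, Measurable m ∧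
      ∫⁻ ω in {ω | (a ω, c ω) ∈ S ∧ (b ω, c ω) ∈ T}, ‖X (a ω, c ω) - m (c ω)‖ₑ ^ 2 ∂P ≤
        ∫⁻ ω in {ω | (a ω, c ω) ∈ S ∧ (b ω, c ω) ∈ T}, ‖X (a ω, c ω) + Y (b ω, c ω)‖ₑ ^ 2 ∂P := by
  have := Measure.isProbabilityMeasure_map (μ := P) ha.aemeasurable
  have := Measure.isProbabilityMeasure_map (μ := P) hb.aemeasurable
  have := Measure.isProbabilityMeasure_map (μ := P) hc.aemeasurable
  set μ := P.map a
  set ν := P.map b
  set ρ := P.map c
  refine ⟨cmean μ X S, cmean_measurable μ hX hS, ?_⟩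
  have hm := cmean_measurable μ hX hS
  set G : Set (C × A × B) := {z | (z.2.1, z.1) ∈ S ∧ (z.2.2, z.1) ∈ T} with hG
  have hGm : MeasurableSet G :=
    (hS.preimage ((measurable_fst.comp measurable_snd).prodMk measurable_fst)).inter
      (hT.preimage ((measurable_snd.comp measurable_snd).prodMk measurable_fst))
  have htr : Measurable fun ω => (c ω, a ω, b ω) := hc.prodMk (ha.prodMk hb)
  have key : ∀ f : C × A × B → ℝ≥0∞, Measurable f →
      ∫⁻ ω in {ω | (a ω, c ω) ∈ S ∧ (b ω, c ω) ∈ T}, f (c ω, a ω, b ω) ∂P =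
        ∫⁻ z, ∫⁻ x in {a | (a, z) ∈ S}, ∫⁻ y in {b | (b, z) ∈ T}, f (z, x, y) ∂ν ∂μ ∂ρ := by
    intro f hf
    have e1 : ∫⁻ ω in {ω | (a ω, c ω) ∈ S ∧ (b ω, c ω) ∈ T}, f (c ω, a ω, b ω) ∂P =
        ∫⁻ z in G, f z ∂(P.map fun ω => (c ω, a ω, b ω)) :=
      (setLIntegral_map hGm hf htr).symm
    rw [e1, h, ← lintegral_indicator hGm, lintegral_prod _ (hf.indicator hGm).aemeasurable]
    refine lintegral_congr fun z => ?_
    have hSz : MeasurableSet {a | (a, z) ∈ S} := measurable_prodMk_right hS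
    have hTz : MeasurableSet {b | (b, z) ∈ T} := measurable_prodMk_right hT
    have hfz : Measurable fun y : A × B => G.indicator f (z, y) :=
      (hf.indicator hGm).comp measurable_prodMk_left
    rw [lintegral_prod _ hfz.aemeasurable, ← lintegral_indicator hSz]
    refine lintegral_congr fun x => ?_
    by_cases hx : (x, z) ∈ S
    · rw [indicator_of_mem (show x ∈ {a | (a, z) ∈ S} from hx), ← lintegral_indicator hTz]
      refine lintegral_congr fun y => ?_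
      by_cases hy : (y, z) ∈ T
      · rw [indicator_of_mem (show y ∈ {b | (b, z) ∈ T} from hy),
          indicator_of_mem (show (z, x, y) ∈ G from ⟨hx, hy⟩)]
      · rw [indicator_of_notMem (show y ∉ {b | (b, z) ∈ T} from hy),
          indicator_of_notMem (show (z, x, y) ∉ G from fun hh => hy hh.2)]
    · rw [indicator_of_notMem (show x ∉ {a | (a, z) ∈ S} from hx)]
      rw [← lintegral_zero (μ := ν)]
      refine lintegral_congr fun y => ?_
      rw [indicator_of_notMem (show (z, x, y) ∉ G from fun hh => hx hh.1)]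
  have hf1 : Measurable fun z : C × A × B => ‖X (z.2.1, z.1) - cmean μ X S z.1‖ₑ ^ 2 :=
    (((hX.comp ((measurable_fst.comp measurable_snd).prodMk measurable_fst)).sub
      (hm.comp measurable_fst)).enorm).pow_const 2
  have hf2 : Measurable fun z : C × A × B => ‖X (z.2.1, z.1) + Y (z.2.2, z.1)‖ₑ ^ 2 :=
    (((hX.comp ((measurable_fst.comp measurable_snd).prodMk measurable_fst)).add
      (hY.comp ((measurable_snd.comp measurable_snd).prodMk measurable_fst))).enorm).pow_const 2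
  have k1 := key _ hf1
  have k2 := key _ hf2
  simp only at k1 k2
  rw [k1, k2]
  refine le_trans (le_of_eq ?_) (cond_prod μ ν ρ hX hY S T)
  refine lintegral_congr fun z => ?_
  have hfz : Measurable fun x => ‖X (x, z) - cmean μ X S z‖ₑ ^ 2 :=
    ((hX.comp measurable_prodMk_right).sub_const _).enorm.pow_const 2
  rw [← lintegral_const_mul _ hfz]
  refine lintegral_congr fun x => ?_
  rw [setLIntegral_const, mul_comm]

end Crest.Agent.R143.L2Indx705
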