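import Crest.Agent.R143.IndLoc_279
import Crest.Agent.R143.L2Ind_705

/-!
# R143 (helper279): independence over disjoint regions, part 2

* `lint_law_union` : the law in `B ∪ B'` as a product; `ae_st` : `st x ⊆ ovr B` almost surely
* `lint_three`, `map_three` : TRANSFER for three disjoint regions `B0, B1, B2`
* `lint_prod`, `meas_biInter` : finite families of pairwise disjoint regions
* `sig ε B` : the (explicit) sigma-algebra of the events local on `B`; `sig_le`, `sig_mono`,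
  `meas_sig`, `indep_sig`
* `inter_meas2`, `FinMeas_inter`, `local_inter` : restriction to a Borel set
* `cm`, `rig3` : the rigidity inequality: `X` local on `B0 ∪ B1`, `Y` local on `B0 ∪ B2`, events `S` local on
  `B0 ∪ B1`, `T` local on `B0 ∪ B2`
-/

set_option autoImplicit false

noncomputable section

namespace Crest.Agent.R143.IndLoc2x279

open MeasureTheory Set ProbabilityTheory
open Crest.ProbabilityR.Voronoi
open Crest.Agent.R143.PP0x831 Crest.Agent.R143.Poisx304 Crest.Agent.R143.Janx304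
open Crest.Agent.R143.IndLocx279
open scoped ENNReal Nat

variable {ε : ℝ}

lemma lint_law_union (hε : 0 < ε) {B B' : Set ℂ} (hb : Bornology.IsBounded B)
    (hB' : MeasurableSet B') (hb' : Bornology.IsBounded B') (hd : Disjoint B B')
    {G : Set (ℂ × Bool) → ℝ≥0∞} (hm : FM G) :
    ∫⁻ y, G (st y) ∂(law ε (B ∪ B')) = ∫⁻ x, ∫⁻ y, G (st x ∪ st y) ∂(law ε B') ∂(law ε B) := by
  have := finite_mu' hε hb
  have := finite_mu' hε hb'
  unfold law
  rw [lint_PP _ hm, mu_union hε hB' hb hb' hd, J_add _ _ hm, ← lint_PP (mu ε B) hm.J]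
  refine lintegral_congr fun x => ?_
  rw [← lint_PP (mu ε B')]
  intro n
  obtain ⟨k, z⟩ := x
  exact hm.union_range z n

lemma ae_st (hε : 0 < ε) {B : Set ℂ} (hB : MeasurableSet B) (hb : Bornology.IsBounded B) :
    ∀ᵐ x ∂(law ε B), st x ⊆ ovr B := by
  have := finite_mu' hε hb
  have hA : MeasurableSet (ovr B) := by
    rw [ovr_eq]; exact hB.prod MeasurableSet.univ
  have hms : ∀ n : ℕ, MeasurableSet {z : Fin n → ℂ × Bool | range z ⊆ ovr B} := by
    intro n
    have : {z : Fin n → ℂ × Bool | range z ⊆ ovr B} = ⋂ i, {z | z i ∈ ovr B} := by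
      ext z; simp [range_subset_iff]
    rw [this]
    exact MeasurableSet.iInter fun i => (measurable_pi_apply i) hA
  unfold law PP
  rw [Measure.ae_sum_iff]
  intro n
  refine Measure.ae_smul_measure ?_ _
  rw [ae_map_iff (measurable_mk n).aemeasurable]
  · have h : ∀ᵐ z ∂(Measure.pi fun _ : Fin n => mu ε B), ∀ i, z i ∈ ovr B := by
      rw [ae_all_iff]
      intro i
      exact (Measure.quasiMeasurePreserving_eval (fun _ : Fin n => mu ε B) i).ae (mu_ae hε hB hb)
    filter_upwards [h] with z hz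
    rintro _ ⟨i, rfl⟩
    exact hz i
  · exact meas_iff.2 fun m => hms m

lemma union_meas3 {X : Type*} [MeasurableSpace X] {f : Set (ℂ × Bool) → X} (hm : FinMeas f)
    (j k m : ℕ) : Measurable fun p : (Fin j → ℂ × Bool) × (Fin k → ℂ × Bool) × (Fin m → ℂ × Bool) =>
      f (range p.1 ∪ (range p.2.1 ∪ range p.2.2)) := by
  have h := (hm (j + (k + m))).comp
    ((measurable_app (E := ℂ × Bool) (k := j) (m := k + m)).comp
      (measurable_fst.prodMk ((measurable_app (E := ℂ × Bool) (k := k) (m := m)).comp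
        measurable_snd)))
  simpa only [Function.comp_def, range_app] using h

lemma emb (n : ℕ) {E : Type*} [MeasurableSpace E] :
    MeasurableEmbedding (mk n : (Fin n → E) → Cn E) := by
  have hi : Function.Injective (mk n : (Fin n → E) → Cn E) := fun a b h => by
    have h' : (⟨n, a⟩ : Cn E) = ⟨n, b⟩ := h
    simpa using h'
  refine ⟨hi, measurable_mk n, ?_⟩
  intro t ht
  refine meas_iff.2 fun j => ?_
  by_cases hj : j = n
  · subst hj
    rw [preimage_image_eq _ hi]; exact ht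
  · have : mk j ⁻¹' (mk n '' t : Set (Cn E)) = ∅ := by
      ext z
      simp only [mem_preimage, mem_image, mem_empty_iff_false, iff_false]
      rintro ⟨w, -, hw⟩
      exact hj (congrArg Sigma.fst hw).symm
    rw [this]; exact MeasurableSet.empty

lemma meas_st3 {X : Type*} [MeasurableSpace X] {f : Set (ℂ × Bool) → X} (hm : FinMeas f) :
    Measurable fun p : Cn (ℂ × Bool) × Cn (ℂ × Bool) × Cn (ℂ × Bool) =>
      f (st p.1 ∪ (st p.2.1 ∪ st p.2.2)) := by
  intro s hs
  have h1 : (fun p : Cn (ℂ × Bool) × Cn (ℂ × Bool) × Cn (ℂ × Bool) =>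
      f (st p.1 ∪ (st p.2.1 ∪ st p.2.2))) ⁻¹' s = ⋃ j : ℕ, ⋃ k : ℕ, ⋃ m : ℕ,
      (fun z : (Fin j → ℂ × Bool) × (Fin k → ℂ × Bool) × (Fin m → ℂ × Bool) =>
        ((mk j z.1, mk k z.2.1, mk m z.2.2) : Cn (ℂ × Bool) × Cn (ℂ × Bool) × Cn (ℂ × Bool))) ''
        ((fun z : (Fin j → ℂ × Bool) × (Fin k → ℂ × Bool) × (Fin m → ℂ × Bool) =>
          f (range z.1 ∪ (range z.2.1 ∪ range z.2.2))) ⁻¹' s) := by
    ext ⟨⟨j, x⟩, ⟨k, y⟩, ⟨m, w⟩⟩
    simp only [mem_preimage, mem_iUnion, mem_image]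
    constructor
    · intro hx
      exact ⟨j, k, m, (x, y, w), hx, rfl⟩
    · rintro ⟨j', k', m', z, hz, he⟩
      have e1 : mk j' z.1 = (⟨j, x⟩ : Cn (ℂ × Bool)) := congrArg Prod.fst he
      have e2 : mk k' z.2.1 = (⟨k, y⟩ : Cn (ℂ × Bool)) := congrArg (fun p => p.2.1) he
      have e3 : mk m' z.2.2 = (⟨m, w⟩ : Cn (ℂ × Bool)) := congrArg (fun p => p.2.2) he
      rw [← e1, ← e2, ← e3]; exact hz
  rw [h1]
  refine MeasurableSet.iUnion fun j => MeasurableSet.iUnion fun k => MeasurableSet.iUnion fun m => ?_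
  have e : MeasurableEmbedding
      (fun z : (Fin j → ℂ × Bool) × (Fin k → ℂ × Bool) × (Fin m → ℂ × Bool) =>
        ((mk j z.1, mk k z.2.1, mk m z.2.2) :
          Cn (ℂ × Bool) × Cn (ℂ × Bool) × Cn (ℂ × Bool))) :=
    (emb j).prodMap ((emb k).prodMap (emb m))
  exact e.measurableSet_image.2 (union_meas3 hm j k m hs)

/-- **TRANSFER, three regions** (`lintegral` form) -/
theorem lint_three (hε : 0 < ε) {B0 B1 B2 : Set ℂ} (hB0 : MeasurableSet B0)
    (hb0 : Bornology.IsBounded B0) (hB1 : MeasurableSet B1) (hb1 : Bornology.IsBounded B1)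
    (hB2 : MeasurableSet B2) (hb2 : Bornology.IsBounded B2) (h01 : Disjoint B0 B1)
    (h02 : Disjoint B0 B2) (h12 : Disjoint B1 B2) {F : Set (ℂ × Bool) → ℝ≥0∞}
    (hF : LocalOn (B0 ∪ (B1 ∪ B2)) F) (hm : FinMeas F) :
    ∫⁻ ω, F (cfg ε ω) ∂sampleLaw = ∫⁻ x, ∫⁻ y, ∫⁻ z, F (st x ∪ (st y ∪ st z))
      ∂(law ε B2) ∂(law ε B1) ∂(law ε B0) := by
  rw [lint_two hε hB0 hb0 (hB1.union hB2) (hb1.union hb2) (h01.union_right h02) hF hm]
  refine lintegral_congr fun x => ?_
  obtain ⟨k, z⟩ := x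
  have hm' : FM F := hm
  exact lint_law_union hε hb1 hB2 hb2 h12 (hm'.union_range z)

/-- **TRANSFER, three regions** -/
theorem map_three {X : Type*} [MeasurableSpace X] (hε : 0 < ε) {B0 B1 B2 : Set ℂ}
    (hB0 : MeasurableSet B0) (hb0 : Bornology.IsBounded B0) (hB1 : MeasurableSet B1)
    (hb1 : Bornology.IsBounded B1) (hB2 : MeasurableSet B2) (hb2 : Bornology.IsBounded B2)
    (h01 : Disjoint B0 B1) (h02 : Disjoint B0 B2) (h12 : Disjoint B1 B2)
    {f : Set (ℂ × Bool) → X} (hf : LocalOn (B0 ∪ (B1 ∪ B2)) f) (hm : FinMeas f) :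
    sampleLaw.map (fun ω => f (cfg ε ω)) =
      ((law ε B0).prod ((law ε B1).prod (law ε B2))).map
        fun p => f (st p.1 ∪ (st p.2.1 ∪ st p.2.2)) := by
  have := prob_law hε hb0
  have := prob_law hε hb1
  have := prob_law hε hb2
  ext s hs
  have h1 : FinMeas fun S => s.indicator (fun _ => (1 : ℝ≥0∞)) (f S) :=
    fun n => (measurable_const.indicator hs).comp (hm n)
  have h2 := lint_three hε hB0 hb0 hB1 hb1 hB2 hb2 h01 h02 h12
    (F := fun S => s.indicator (fun _ => (1 : ℝ≥0∞)) (f S)) (LocalOn.comp hf _) h1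
  have h3 : ∀ {Y : Type} [MeasurableSpace Y] (ν : Measure Y) (g : Y → X), Measurable g →
      ∫⁻ y, s.indicator (fun _ => (1 : ℝ≥0∞)) (g y) ∂ν = ν.map g s := by
    intro Y _ ν g hg
    rw [Measure.map_apply hg hs, ← lintegral_indicator_one (hg hs)]
    rfl
  have hM := meas_st3 h1
  have h4 : ∫⁻ p, s.indicator (fun _ => (1 : ℝ≥0∞)) (f (st p.1 ∪ (st p.2.1 ∪ st p.2.2)))
      ∂((law ε B0).prod ((law ε B1).prod (law ε B2))) =
      ∫⁻ x, ∫⁻ y, ∫⁻ z, s.indicator (fun _ => (1 : ℝ≥0∞)) (f (st x ∪ (st y ∪ st z)))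
        ∂(law ε B2) ∂(law ε B1) ∂(law ε B0) := by
    rw [lintegral_prod _ hM.aemeasurable]
    refine lintegral_congr fun x => ?_
    exact lintegral_prod _ (hM.comp measurable_prodMk_left).aemeasurable
  rw [← h4, h3 _ _ (meas_fun hε (hB0.union (hB1.union hB2)) (hb0.union (hb1.union hb2)) hf hm),
    h3 _ _ (meas_st3 hm)] at h2
  exact h2

/-! ## finite families -/

lemma local_biUnion {ι : Type*} {s : Finset ι} {B : ι → Set ℂ} {F : ι → Set (ℂ × Bool) → ℝ≥0∞}
    (hF : ∀ i ∈ s, LocalOn (B i) (F i)) :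
    LocalOn (⋃ i ∈ s, B i) fun S => ∏ i ∈ s, F i S := by
  intro S
  refine Finset.prod_congr rfl fun i hi => ?_
  exact LocalOn.mono (subset_biUnion_of_mem (u := fun i => B i) hi) (hF i hi) S

/-- **INDEP**, finite families (`lintegral` form) -/
theorem lint_prod (hε : 0 < ε) {ι : Type*} (s : Finset ι) {B : ι → Set ℂ}
    (hB : ∀ i ∈ s, MeasurableSet (B i)) (hb : ∀ i ∈ s, Bornology.IsBounded (B i))
    (hd : ∀ i ∈ s, ∀ j ∈ s, i ≠ j → Disjoint (B i) (B j))
    {F : ι → Set (ℂ × Bool) → ℝ≥0∞} (hF : ∀ i ∈ s, LocalOn (B i) (F i))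
    (hm : ∀ i ∈ s, FinMeas (F i)) :
    ∫⁻ ω, ∏ i ∈ s, F i (cfg ε ω) ∂sampleLaw = ∏ i ∈ s, ∫⁻ ω, F i (cfg ε ω) ∂sampleLaw := by
  classical
  induction s using Finset.induction_on with
  | empty =>
    simp only [Finset.prod_empty]
    have h1 : FinMeas (fun _ : Set (ℂ × Bool) => (1 : ℝ≥0∞)) := fun n => measurable_const
    rw [lint_one hε MeasurableSet.empty Bornology.isBounded_empty (B := ∅)
      (F := fun _ => (1 : ℝ≥0∞)) (fun _ => rfl) h1]
    have := finite_mu' hε (B := ∅) Bornology.isBounded_empty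
    exact J_const _ _
  | insert a t ha ih =>
    simp only [Finset.prod_insert ha]
    have h1 := lint_mul hε (hB a (Finset.mem_insert_self a t)) (hb a (Finset.mem_insert_self a t))
      (B' := ⋃ i ∈ t, B i) (Finset.measurableSet_biUnion t fun i hi =>
        hB i (Finset.mem_insert_of_mem hi))
      ((Bornology.isBounded_biUnion_finset t).2 fun i hi => hb i (Finset.mem_insert_of_mem hi))
      (by
        rw [Set.disjoint_iUnion₂_right]
        intro i hi
        exact hd a (Finset.mem_insert_self a t) i (Finset.mem_insert_of_mem hi)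
          (fun h => ha (h ▸ hi)))
      (F := F a) (G := fun S => ∏ i ∈ t, F i S) (hF a (Finset.mem_insert_self a t))
      (local_biUnion fun i hi => hF i (Finset.mem_insert_of_mem hi))
      (hm a (Finset.mem_insert_self a t))
      (fun n => Finset.measurable_fun_prod t fun i hi => hm i (Finset.mem_insert_of_mem hi) n)
    rw [h1, ih (fun i hi => hB i (Finset.mem_insert_of_mem hi))
      (fun i hi => hb i (Finset.mem_insert_of_mem hi))
      (fun i hi j hj => hd i (Finset.mem_insert_of_mem hi) j (Finset.mem_insert_of_mem hj))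
      (fun i hi => hF i (Finset.mem_insert_of_mem hi))
      (fun i hi => hm i (Finset.mem_insert_of_mem hi))]

/-- **INDEP**, finite families of events -/
theorem meas_biInter (hε : 0 < ε) {ι : Type*} (s : Finset ι) {B : ι → Set ℂ}
    (hB : ∀ i ∈ s, MeasurableSet (B i)) (hb : ∀ i ∈ s, Bornology.IsBounded (B i))
    (hd : ∀ i ∈ s, ∀ j ∈ s, i ≠ j → Disjoint (B i) (B j))
    {p : ι → Set (ℂ × Bool) → Prop} (hp : ∀ i ∈ s, LocalOn (B i) (p i))
    (hm : ∀ i ∈ s, FinMeas (p i)) :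
    sampleLaw {ω | ∀ i ∈ s, p i (cfg ε ω)} = ∏ i ∈ s, sampleLaw {ω | p i (cfg ε ω)} := by
  classical
  have hF : ∀ i ∈ s, LocalOn (B i) fun S => if p i S then (1 : ℝ≥0∞) else 0 := by
    intro i hi S
    have := hp i hi S
    simp only [this]
  have hM : ∀ i ∈ s, FinMeas fun S => if p i S then (1 : ℝ≥0∞) else 0 := by
    intro i hi n
    refine Measurable.ite ?_ measurable_const measurable_const
    exact measurableSet_setOfPred.2 (hm i hi n)
  have h := lint_prod hε s hB hb hd hF hM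
  have e1 : ∀ i ∈ s, ∫⁻ ω, (if p i (cfg ε ω) then (1 : ℝ≥0∞) else 0) ∂sampleLaw =
      sampleLaw {ω | p i (cfg ε ω)} := by
    intro i hi
    have hs : MeasurableSet {ω : Sample | p i (cfg ε ω)} :=
      measurableSet_setOfPred.2 (meas_fun hε (hB i hi) (hb i hi) (hp i hi) (hm i hi))
    rw [← lintegral_indicator_one hs]
    refine lintegral_congr fun ω => ?_
    simp [Set.indicator_apply]
  have hs : MeasurableSet {ω : Sample | ∀ i ∈ s, p i (cfg ε ω)} := by
    have : {ω : Sample | ∀ i ∈ s, p i (cfg ε ω)} = ⋂ i ∈ s, {ω | p i (cfg ε ω)} := by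
      ext ω; simp
    rw [this]
    exact Finset.measurableSet_biInter s fun i hi =>
      measurableSet_setOfPred.2 (meas_fun hε (hB i hi) (hb i hi) (hp i hi) (hm i hi))
  rw [← lintegral_indicator_one hs, ← Finset.prod_congr rfl e1, ← h]
  refine lintegral_congr fun ω => ?_
  rw [Finset.prod_ite_zero, Set.indicator_apply]
  simp

/-! ## the sigma-algebra of the events local on `B` -/

/-- events local on `B` -/
@[instance_reducible] def sig (ε : ℝ) (B : Set ℂ) : MeasurableSpace Sample where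
  MeasurableSet' A := ∃ p : Set (ℂ × Bool) → Prop, LocalOn B p ∧ FinMeas p ∧
    A = {ω | p (cfg ε ω)}
  measurableSet_empty := ⟨fun _ => False, fun _ => rfl, fun _ => measurable_const, by simp⟩
  measurableSet_compl := by
    rintro A ⟨p, hp, hm, rfl⟩
    refine ⟨fun S => ¬ p S, fun S => congrArg Not (hp S), fun n => (hm n).not, ?_⟩
    ext ω; simp
  measurableSet_iUnion := by
    intro A hA
    choose p hp hm he using hA
    refine ⟨fun S => ∃ n, p n S, fun S => ?_, fun n => Measurable.exists fun k => hm k n, ?_⟩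
    · simp only [eq_iff_iff]
      exact exists_congr fun n => iff_of_eq (hp n S)
    · ext ω
      simp only [mem_iUnion, he]
      rfl

lemma sig_le (hε : 0 < ε) {B : Set ℂ} (hB : MeasurableSet B) (hb : Bornology.IsBounded B) :
    sig ε B ≤ (inferInstance : MeasurableSpace Sample) := by
  rintro A ⟨p, hp, hm, rfl⟩
  exact measurableSet_setOfPred.2 (meas_fun hε hB hb hp hm)

lemma sig_mono {B B' : Set ℂ} (h : B ⊆ B') : sig ε B ≤ sig ε B' := by
  rintro A ⟨p, hp, hm, rfl⟩
  exact ⟨p, LocalOn.mono h hp, hm, rfl⟩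

lemma meas_sig {X : Type*} [MeasurableSpace X] {B : Set ℂ} {f : Set (ℂ × Bool) → X}
    (hf : LocalOn B f) (hm : FinMeas f) : Measurable[sig ε B] fun ω : Sample => f (cfg ε ω) := by
  intro s hs
  refine ⟨fun S => f S ∈ s, fun S => ?_, fun n => ?_, rfl⟩
  · simp only [← hf S]
  · exact measurableSet_setOfPred.1 (hm n hs)

/-- **INDEP** for the sigma-algebras -/
theorem indep_sig (hε : 0 < ε) {B B' : Set ℂ} (hB : MeasurableSet B)
    (hb : Bornology.IsBounded B) (hB' : MeasurableSet B') (hb' : Bornology.IsBounded B')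
    (hd : Disjoint B B') : Indep (sig ε B) (sig ε B') sampleLaw := by
  rw [Indep_iff]
  rintro A A' ⟨p, hp, hm, rfl⟩ ⟨q, hq, hm', rfl⟩
  exact meas_inter hε hB hb hB' hb' hd hp hq hm hm'

/-! ## restriction to a Borel set -/

/-- two sets of points, the first one restricted to a Borel set -/
theorem inter_meas2 {X : Type*} [MeasurableSpace X] {f : Set (ℂ × Bool) → X} (hm : FinMeas f)
    {B : Set ℂ} (hB : MeasurableSet B) (n k : ℕ) :
    Measurable fun q : (Fin n → ℂ × Bool) × (Fin k → ℂ × Bool) =>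
      f ((range q.1 ∩ ovr B) ∪ range q.2) := by
  classical
  intro s hs
  have hA : MeasurableSet (ovr B) := by
    rw [ovr_eq]; exact hB.prod MeasurableSet.univ
  have h1 : (fun q : (Fin n → ℂ × Bool) × (Fin k → ℂ × Bool) =>
      f ((range q.1 ∩ ovr B) ∪ range q.2)) ⁻¹' s =
      ⋃ I : Finset (Fin n), ((Prod.fst ⁻¹' {z : Fin n → ℂ × Bool | ∀ i, z i ∈ ovr B ↔ i ∈ I}) ∩
        (fun q : (Fin n → ℂ × Bool) × (Fin k → ℂ × Bool) =>
          f (range (fun j : Fin I.card => q.1 (I.orderEmbOfFin rfl j)) ∪ range q.2)) ⁻¹' s) := by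
    ext q
    simp only [mem_preimage, mem_iUnion, mem_inter_iff, mem_ofPred_eq]
    have key : ∀ I : Finset (Fin n), (∀ i, q.1 i ∈ ovr B ↔ i ∈ I) →
        range q.1 ∩ ovr B = range fun j : Fin I.card => q.1 (I.orderEmbOfFin rfl j) := by
      intro I hI
      ext p
      simp only [mem_inter_iff, mem_range]
      constructor
      · rintro ⟨⟨i, rfl⟩, hp⟩
        have hi : i ∈ I := (hI i).1 hp
        have : i ∈ Set.range (I.orderEmbOfFin rfl) := by
          rw [Finset.range_orderEmbOfFin]; exact hi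
        obtain ⟨j, hj⟩ := this
        exact ⟨j, by rw [hj]⟩
      · rintro ⟨j, rfl⟩
        refine ⟨⟨_, rfl⟩, ?_⟩
        exact (hI _).2 (Finset.orderEmbOfFin_mem I rfl j)
    constructor
    · intro hz
      refine ⟨Finset.univ.filter fun i => q.1 i ∈ ovr B, by simp, ?_⟩
      rw [← key _ (by simp)]
      exact hz
    · rintro ⟨I, hI, hz⟩
      rw [key I hI]
      exact hz
  rw [h1]
  refine MeasurableSet.iUnion fun I => MeasurableSet.inter (measurable_fst ?_) ?_
  · have : {z : Fin n → ℂ × Bool | ∀ i, z i ∈ ovr B ↔ i ∈ I} =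
        ⋂ i, {z | z i ∈ ovr B ↔ i ∈ I} := by
      ext z; simp
    rw [this]
    refine MeasurableSet.iInter fun i => ?_
    by_cases hi : i ∈ I
    · have : {z : Fin n → ℂ × Bool | z i ∈ ovr B ↔ i ∈ I} = (fun z => z i) ⁻¹' ovr B := by
        ext z; simp [hi]
      rw [this]
      exact (measurable_pi_apply i) hA
    · have : {z : Fin n → ℂ × Bool | z i ∈ ovr B ↔ i ∈ I} = (fun z => z i) ⁻¹' (ovr B)ᶜ := by
        ext z; simp [hi]
      rw [this]
      exact (measurable_pi_apply i) hA.compl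
  · have h2 : Measurable fun q : (Fin n → ℂ × Bool) × (Fin k → ℂ × Bool) =>
        ((fun j : Fin I.card => q.1 (I.orderEmbOfFin rfl j)), q.2) :=
      (measurable_pi_iff.2 fun j => (measurable_pi_apply _).comp measurable_fst).prodMk
        measurable_snd
    exact ((union_meas' hm I.card k).comp h2) hs

/-- `FinMeas` is stable under the restriction to a Borel set -/
theorem FinMeas_inter {X : Type*} [MeasurableSpace X] {f : Set (ℂ × Bool) → X} (hm : FinMeas f)
    {B : Set ℂ} (hB : MeasurableSet B) : FinMeas fun S => f (S ∩ ovr B) := by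
  intro n
  have h := (inter_meas2 hm hB n 0).comp
    (measurable_id.prodMk (measurable_const (a := (Fin.elim0 : Fin 0 → ℂ × Bool))))
  have e : ∀ S : Set (ℂ × Bool), S ∪ range (Fin.elim0 : Fin 0 → ℂ × Bool) = S := by
    intro S; rw [range_eq_empty, union_empty]
  simpa only [Function.comp_def, e, id] using h

lemma local_inter {X : Type*} (f : Set (ℂ × Bool) → X) (B : Set ℂ) :
    LocalOn B fun S => f (S ∩ ovr B) := by
  intro S
  have : (S ∩ {p | p.1 ∈ B}) ∩ ovr B = S ∩ ovr B := by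
    ext p
    simp only [ovr, mem_inter_iff, mem_ofPred_eq]
    tauto
  simp only [this]

/-! ## the rigidity inequality -/

lemma measurable_cn1 {E X Y : Type*} [MeasurableSpace E] [MeasurableSpace X] [MeasurableSpace Y]
    {f : Cn E × Y → X} (h : ∀ k : ℕ, Measurable fun z : (Fin k → E) × Y => f (mk k z.1, z.2)) :
    Measurable f := by
  intro s hs
  have h1 : f ⁻¹' s = ⋃ k : ℕ, (fun z : (Fin k → E) × Y => ((mk k z.1, z.2) : Cn E × Y)) ''
      ((fun z : (Fin k → E) × Y => f (mk k z.1, z.2)) ⁻¹' s) := by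
    ext ⟨⟨k, x⟩, y⟩
    simp only [mem_preimage, mem_iUnion, mem_image]
    constructor
    · intro hx
      exact ⟨k, (x, y), hx, rfl⟩
    · rintro ⟨k', z, hz, he⟩
      have e1 : mk k' z.1 = (⟨k, x⟩ : Cn E) := congrArg Prod.fst he
      have e2 : z.2 = y := congrArg Prod.snd he
      rw [← e1, ← e2]; exact hz
  rw [h1]
  refine MeasurableSet.iUnion fun k => ?_
  have e : MeasurableEmbedding (fun z : (Fin k → E) × Y => ((mk k z.1, z.2) : Cn E × Y)) :=
    (emb k).prodMap MeasurableEmbedding.id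
  exact e.measurableSet_image.2 (h k hs)

/-- conditional mean over the region `B1`, given the region `B0` -/
def cm (ε : ℝ) (B0 B1 : Set ℂ) (X : Set (ℂ × Bool) → ℂ) (p : Set (ℂ × Bool) → Prop)
    (S : Set (ℂ × Bool)) : ℂ :=
  ⨍ y in {y | p ((S ∩ ovr B0) ∪ st y)}, X ((S ∩ ovr B0) ∪ st y) ∂(law ε B1)

lemma cm_local (ε : ℝ) (B0 B1 : Set ℂ) (X : Set (ℂ × Bool) → ℂ) (p : Set (ℂ × Bool) → Prop) :
    LocalOn B0 (cm ε B0 B1 X p) := by
  intro S
  have : (S ∩ {p | p.1 ∈ B0}) ∩ ovr B0 = S ∩ ovr B0 := by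
    ext p
    simp only [ovr, mem_inter_iff, mem_ofPred_eq]
    tauto
  unfold cm
  simp only [this]

lemma cm_meas (hε : 0 < ε) {B0 B1 : Set ℂ} (hB0 : MeasurableSet B0)
    (hb1 : Bornology.IsBounded B1) {X : Set (ℂ × Bool) → ℂ} {p : Set (ℂ × Bool) → Prop}
    (hX : FinMeas X) (hp : FinMeas p) : FinMeas (cm ε B0 B1 X p) := by
  have := prob_law hε hb1
  intro n
  have hX' : Measurable fun q : Cn (ℂ × Bool) × (Fin n → ℂ × Bool) =>
      X ((range q.2 ∩ ovr B0) ∪ st q.1) :=
    measurable_cn1 fun k => (inter_meas2 hX hB0 n k).comp measurable_swap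
  have hp' : Measurable fun q : Cn (ℂ × Bool) × (Fin n → ℂ × Bool) =>
      p ((range q.2 ∩ ovr B0) ∪ st q.1) :=
    measurable_cn1 fun k => (inter_meas2 hp hB0 n k).comp measurable_swap
  exact L2Indx705.cmean_measurable (law ε B1) hX' (S := {q | p ((range q.2 ∩ ovr B0) ∪ st q.1)})
    (measurableSet_setOfPred.2 hp')

lemma loc_add {X : Type*} {B0 B1 B2 : Set ℂ} {f : Set (ℂ × Bool) → X}
    (hf : LocalOn (B0 ∪ B1) f) (h02 : Disjoint B0 B2) (h12 : Disjoint B1 B2)
    {S T : Set (ℂ × Bool)} (hT : T ⊆ ovr B2) : f (S ∪ T) = f S := by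
  rw [hf (S ∪ T), hf S]
  congr 1
  ext p
  simp only [mem_inter_iff, mem_union, mem_ofPred_eq]
  constructor
  · rintro ⟨h | h, h'⟩
    · exact ⟨h, h'⟩
    · exact absurd (hT h) (fun h2 => h'.elim (fun h0 => Set.disjoint_left.1 h02 h0 h2)
        (fun h1 => Set.disjoint_left.1 h12 h1 h2))
  · rintro ⟨h, h'⟩; exact ⟨Or.inl h, h'⟩

/-- **rigidity inequality**: `X` and the event `p` local on `B0 ∪ B1`, `Y` and the event `q` local on
`B0 ∪ B2` (disjoint bounded Borel sets): on the event `p ∧ q`, `X` is close in `L²` to the function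
`cm` of the configuration in `B0`, the error being at most `E[|X + Y|²; p ∧ q]` -/
theorem rig3 (hε : 0 < ε) {B0 B1 B2 : Set ℂ} (hB0 : MeasurableSet B0)
    (hb0 : Bornology.IsBounded B0) (hB1 : MeasurableSet B1) (hb1 : Bornology.IsBounded B1)
    (hB2 : MeasurableSet B2) (hb2 : Bornology.IsBounded B2) (h01 : Disjoint B0 B1)
    (h02 : Disjoint B0 B2) (h12 : Disjoint B1 B2) {X Y : Set (ℂ × Bool) → ℂ}
    {p q : Set (ℂ × Bool) → Prop} (hX : LocalOn (B0 ∪ B1) X) (hXm : FinMeas X)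
    (hY : LocalOn (B0 ∪ B2) Y) (hYm : FinMeas Y) (hp : LocalOn (B0 ∪ B1) p) (hpm : FinMeas p)
    (hq : LocalOn (B0 ∪ B2) q) (hqm : FinMeas q) :
    ∫⁻ ω in {ω | p (cfg ε ω) ∧ q (cfg ε ω)},
        ‖X (cfg ε ω) - cm ε B0 B1 X p (cfg ε ω)‖ₑ ^ 2 ∂sampleLaw ≤
      ∫⁻ ω in {ω | p (cfg ε ω) ∧ q (cfg ε ω)}, ‖X (cfg ε ω) + Y (cfg ε ω)‖ₑ ^ 2 ∂sampleLaw := by
  classical
  have := prob_law hε hb0
  have := prob_law hε hb1
  have := prob_law hε hb2
  have hcm := cm_meas hε hB0 hb1 hXm hpm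
  have hcl := cm_local ε B0 B1 X p
  have s1 : B0 ∪ B1 ⊆ B0 ∪ (B1 ∪ B2) := union_subset_union_right _ subset_union_left
  have s2 : B0 ∪ B2 ⊆ B0 ∪ (B1 ∪ B2) := union_subset_union_right _ subset_union_right
  have s0 : B0 ⊆ B0 ∪ (B1 ∪ B2) := subset_union_left
  have hBu := hB0.union (hB1.union hB2)
  have hbu := hb0.union (hb1.union hb2)
  -- the event
  have hE : MeasurableSet {ω : Sample | p (cfg ε ω) ∧ q (cfg ε ω)} :=
    (measurableSet_setOfPred.2 (meas_fun hε hBu hbu (LocalOn.mono s1 hp) hpm)).inter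
      (measurableSet_setOfPred.2 (meas_fun hε hBu hbu (LocalOn.mono s2 hq) hqm))
  rw [← lintegral_indicator hE, ← lintegral_indicator hE]
  -- functionals
  set F1 : Set (ℂ × Bool) → ℝ≥0∞ := fun S =>
    if p S ∧ q S then ‖X S - cm ε B0 B1 X p S‖ₑ ^ 2 else 0 with hF1
  set F2 : Set (ℂ × Bool) → ℝ≥0∞ := fun S => if p S ∧ q S then ‖X S + Y S‖ₑ ^ 2 else 0 with hF2
  have l1 : LocalOn (B0 ∪ (B1 ∪ B2)) F1 := by
    intro S
    have e1 := LocalOn.mono s1 hp S
    have e2 := LocalOn.mono s2 hq S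
    have e3 := LocalOn.mono s1 hX S
    have e4 := LocalOn.mono s0 hcl S
    simp only [hF1]
    rw [e1, e2, e3, e4]
  have l2 : LocalOn (B0 ∪ (B1 ∪ B2)) F2 := by
    intro S
    have e1 := LocalOn.mono s1 hp S
    have e2 := LocalOn.mono s2 hq S
    have e3 := LocalOn.mono s1 hX S
    have e4 := LocalOn.mono s2 hY S
    simp only [hF2]
    rw [e1, e2, e3, e4]
  have hpq : ∀ n : ℕ, MeasurableSet {z : Fin n → ℂ × Bool | p (range z) ∧ q (range z)} :=
    fun n => (measurableSet_setOfPred.2 (hpm n)).inter (measurableSet_setOfPred.2 (hqm n))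
  have m1 : FinMeas F1 := fun n =>
    Measurable.ite (hpq n) (((hXm n).sub (hcm n)).enorm.pow_const 2) measurable_const
  have m2 : FinMeas F2 := fun n =>
    Measurable.ite (hpq n) (((hXm n).add (hYm n)).enorm.pow_const 2) measurable_const
  have t1 := lint_three hε hB0 hb0 hB1 hb1 hB2 hb2 h01 h02 h12 l1 m1
  have t2 := lint_three hε hB0 hb0 hB1 hb1 hB2 hb2 h01 h02 h12 l2 m2
  have i1 : ∫⁻ ω, {ω : Sample | p (cfg ε ω) ∧ q (cfg ε ω)}.indicator
      (fun ω => ‖X (cfg ε ω) - cm ε B0 B1 X p (cfg ε ω)‖ₑ ^ 2) ω ∂sampleLaw =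
      ∫⁻ ω, F1 (cfg ε ω) ∂sampleLaw := by
    refine lintegral_congr fun ω => ?_
    simp only [hF1, Set.indicator_apply, mem_ofPred_eq]
  have i2 : ∫⁻ ω, {ω : Sample | p (cfg ε ω) ∧ q (cfg ε ω)}.indicator
      (fun ω => ‖X (cfg ε ω) + Y (cfg ε ω)‖ₑ ^ 2) ω ∂sampleLaw =
      ∫⁻ ω, F2 (cfg ε ω) ∂sampleLaw := by
    refine lintegral_congr fun ω => ?_
    simp only [hF2, Set.indicator_apply, mem_ofPred_eq]
  rw [i1, i2, t1, t2]
  -- the product form
  have hX2 : Measurable fun a : Cn (ℂ × Bool) × Cn (ℂ × Bool) => X (st a.2 ∪ st a.1) :=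
    (meas_st2 hXm).comp measurable_swap
  have hY2 : Measurable fun a : Cn (ℂ × Bool) × Cn (ℂ × Bool) => Y (st a.2 ∪ st a.1) :=
    (meas_st2 hYm).comp measurable_swap
  have hp2 : Measurable fun a : Cn (ℂ × Bool) × Cn (ℂ × Bool) => p (st a.2 ∪ st a.1) :=
    (meas_st2 hpm).comp measurable_swap
  have hq2 : Measurable fun a : Cn (ℂ × Bool) × Cn (ℂ × Bool) => q (st a.2 ∪ st a.1) :=
    (meas_st2 hqm).comp measurable_swap
  have key := L2Indx705.cond_prod (law ε B1) (law ε B2) (law ε B0) hX2 hY2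
    {a | p (st a.2 ∪ st a.1)} {a | q (st a.2 ∪ st a.1)}
  have a0 := ae_st hε hB0 hb0
  have a1 := ae_st hε hB1 hb1
  have a2 := ae_st hε hB2 hb2
  have hpx : ∀ x : Cn (ℂ × Bool), MeasurableSet {y : Cn (ℂ × Bool) | p (st x ∪ st y)} :=
    fun x => measurableSet_setOfPred.2 (hp2.comp (measurable_id.prodMk measurable_const))
  have hqx : ∀ x : Cn (ℂ × Bool), MeasurableSet {z : Cn (ℂ × Bool) | q (st x ∪ st z)} :=
    fun x => measurableSet_setOfPred.2 (hq2.comp (measurable_id.prodMk measurable_const))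
  have id1 : ∫⁻ x, ∫⁻ y, ∫⁻ z, F1 (st x ∪ (st y ∪ st z)) ∂(law ε B2) ∂(law ε B1) ∂(law ε B0) =
      ∫⁻ c, (law ε B2) {b | (b, c) ∈ {a : Cn (ℂ × Bool) × Cn (ℂ × Bool) | q (st a.2 ∪ st a.1)}} *
        ∫⁻ a in {a | (a, c) ∈ {a : Cn (ℂ × Bool) × Cn (ℂ × Bool) | p (st a.2 ∪ st a.1)}},
          ‖X (st (a, c).2 ∪ st (a, c).1) - L2Indx705.cmean (law ε B1)
            (fun a : Cn (ℂ × Bool) × Cn (ℂ × Bool) => X (st a.2 ∪ st a.1))
            {a | p (st a.2 ∪ st a.1)} c‖ₑ ^ 2 ∂(law ε B1) ∂(law ε B0) := by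
    refine lintegral_congr_ae ?_
    filter_upwards [a0] with x hx
    have hc : ∀ y z : Cn (ℂ × Bool), st y ⊆ ovr B1 → st z ⊆ ovr B2 →
        cm ε B0 B1 X p (st x ∪ (st y ∪ st z)) = L2Indx705.cmean (law ε B1)
          (fun a : Cn (ℂ × Bool) × Cn (ℂ × Bool) => X (st a.2 ∪ st a.1))
          {a | p (st a.2 ∪ st a.1)} x := by
      intro y z hy hz
      have : (st x ∪ (st y ∪ st z)) ∩ ovr B0 = st x := by
        ext e
        simp only [mem_inter_iff, mem_union]
        constructor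
        · rintro ⟨h | h | h, h0⟩
          · exact h
          · exact absurd (hy h) (fun h1 => Set.disjoint_left.1 h01 h0 h1)
          · exact absurd (hz h) (fun h1 => Set.disjoint_left.1 h02 h0 h1)
        · intro h; exact ⟨Or.inl h, hx h⟩
      unfold cm L2Indx705.cmean
      simp only [this, mem_ofPred_eq]
    have e1 : ∀ᵐ y ∂(law ε B1), ∫⁻ z, F1 (st x ∪ (st y ∪ st z)) ∂(law ε B2) =
        (law ε B2) {z | q (st x ∪ st z)} * {y : Cn (ℂ × Bool) | p (st x ∪ st y)}.indicator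
          (fun y => ‖X (st x ∪ st y) - L2Indx705.cmean (law ε B1)
            (fun a : Cn (ℂ × Bool) × Cn (ℂ × Bool) => X (st a.2 ∪ st a.1))
            {a | p (st a.2 ∪ st a.1)} x‖ₑ ^ 2) y := by
      filter_upwards [a1] with y hy
      rw [mul_comm, ← lintegral_indicator_one (hqx x), ← lintegral_const_mul _
        (measurable_one.indicator (hqx x))]
      refine lintegral_congr_ae ?_
      filter_upwards [a2] with z hz
      have ep : p (st x ∪ (st y ∪ st z)) = p (st x ∪ st y) := by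
        rw [← union_assoc]; exact loc_add hp h02 h12 hz
      have eX : X (st x ∪ (st y ∪ st z)) = X (st x ∪ st y) := by
        rw [← union_assoc]; exact loc_add hX h02 h12 hz
      have eq' : q (st x ∪ (st y ∪ st z)) = q (st x ∪ st z) := by
        have : st x ∪ (st y ∪ st z) = (st x ∪ st z) ∪ st y := by
          ext e; simp only [mem_union]; tauto
        rw [this]; exact loc_add hq h01 h12.symm hy
      simp only [hF1]
      rw [ep, eq', eX, hc y z hy hz]
      by_cases h1 : p (st x ∪ st y) <;> by_cases h2 : q (st x ∪ st z) <;>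
        simp [Set.indicator_apply, h1, h2]
    rw [lintegral_congr_ae e1, lintegral_const_mul' _ _ (measure_ne_top _ _),
      lintegral_indicator (hpx x)]
  have id2 : ∫⁻ x, ∫⁻ y, ∫⁻ z, F2 (st x ∪ (st y ∪ st z)) ∂(law ε B2) ∂(law ε B1) ∂(law ε B0) =
      ∫⁻ c, ∫⁻ a in {a | (a, c) ∈ {a : Cn (ℂ × Bool) × Cn (ℂ × Bool) | p (st a.2 ∪ st a.1)}},
        ∫⁻ b in {b | (b, c) ∈ {a : Cn (ℂ × Bool) × Cn (ℂ × Bool) | q (st a.2 ∪ st a.1)}},
          ‖X (st (a, c).2 ∪ st (a, c).1) + Y (st (b, c).2 ∪ st (b, c).1)‖ₑ ^ 2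
            ∂(law ε B2) ∂(law ε B1) ∂(law ε B0) := by
    refine lintegral_congr_ae ?_
    filter_upwards [a0] with x hx
    have e1 : ∀ᵐ y ∂(law ε B1), ∫⁻ z, F2 (st x ∪ (st y ∪ st z)) ∂(law ε B2) =
        {y : Cn (ℂ × Bool) | p (st x ∪ st y)}.indicator
          (fun y => ∫⁻ z in {z : Cn (ℂ × Bool) | q (st x ∪ st z)},
            ‖X (st x ∪ st y) + Y (st x ∪ st z)‖ₑ ^ 2 ∂(law ε B2)) y := by
      filter_upwards [a1] with y hy
      have e2 : ∫⁻ z, F2 (st x ∪ (st y ∪ st z)) ∂(law ε B2) =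
          ∫⁻ z, {z : Cn (ℂ × Bool) | q (st x ∪ st z)}.indicator (fun z =>
            if p (st x ∪ st y) then ‖X (st x ∪ st y) + Y (st x ∪ st z)‖ₑ ^ 2 else 0) z
            ∂(law ε B2) := by
        refine lintegral_congr_ae ?_
        filter_upwards [a2] with z hz
        have ep : p (st x ∪ (st y ∪ st z)) = p (st x ∪ st y) := by
          rw [← union_assoc]; exact loc_add hp h02 h12 hz
        have eX : X (st x ∪ (st y ∪ st z)) = X (st x ∪ st y) := by
          rw [← union_assoc]; exact loc_add hX h02 h12 hz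
        have e3 : st x ∪ (st y ∪ st z) = (st x ∪ st z) ∪ st y := by
          ext e; simp only [mem_union]; tauto
        have eq' : q (st x ∪ (st y ∪ st z)) = q (st x ∪ st z) := by
          rw [e3]; exact loc_add hq h01 h12.symm hy
        have eY : Y (st x ∪ (st y ∪ st z)) = Y (st x ∪ st z) := by
          rw [e3]; exact loc_add hY h01 h12.symm hy
        simp only [hF2]
        rw [ep, eq', eX, eY]
        by_cases h1 : p (st x ∪ st y) <;> by_cases h2 : q (st x ∪ st z) <;>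
          simp [Set.indicator_apply, h1, h2]
      rw [e2, lintegral_indicator (hqx x)]
      by_cases h1 : p (st x ∪ st y) <;> simp [Set.indicator_apply, h1]
    rw [lintegral_congr_ae e1, lintegral_indicator (hpx x)]
  rw [id1, id2]
  exact key

end Crest.Agent.R143.IndLoc2x279
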