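import Crest.Agent.R143.PP0_831

/-!
# Row 143 (S0194), block N3: annealed RSW (Tassion), interface (helper372)

Everything at scale `1` (`cfg 1 ω`).  No E3, no ZF.

* `Bk X` : closed black region of the coloured configuration `X` (union of the closed Voronoi cells of
  the black points)
* `Jn W K A B` : a path connected subset of `W ∩ K` meets `A` and `B`
* `ev K A B`, `Hc`, `Vc` (crossings of rectangles), `Ring`
* `IncEv E` : black-increasing events which are local up to small probability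
* leaves `FKG`, `CRI`, `SYM`, `SQ`, `QI`, `POS`; result `RSW`
-/

set_option autoImplicit false

noncomputable section

namespace Crest.Agent.R143.TasIx372

open MeasureTheory Set Filter Topology
open Crest.ProbabilityR.Voronoi
open Crest.Agent.R143.PP0x831

/-- closed black region of a coloured configuration -/
def Bk (X : Set (ℂ × Bool)) : Set ℂ :=
  {z | ∃ b : ℂ, (b, true) ∈ X ∧ ∀ p ∈ X, ‖z - b‖ ≤ ‖z - p.1‖}

/-- exchange of the colours -/
def flipc (X : Set (ℂ × Bool)) : Set (ℂ × Bool) := (fun p => (p.1, !p.2)) '' X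

/-- a path connected subset of `W ∩ K` meets `A` and `B` -/
def Jn (W K A B : Set ℂ) : Prop :=
  ∃ S : Set ℂ, IsPathConnected S ∧ S ⊆ W ∩ K ∧ (S ∩ A).Nonempty ∧ (S ∩ B).Nonempty

/-- closed rectangle -/
def Rc (x0 x1 y0 y1 : ℝ) : Set ℂ := {z | x0 ≤ z.re ∧ z.re ≤ x1 ∧ y0 ≤ z.im ∧ z.im ≤ y1}

/-- crossing event -/
def ev (K A B : Set ℂ) : Set Sample := {ω | Jn (Bk (cfg 1 ω)) K A B}

/-- horizontal black crossing of a rectangle -/
def Hc (x0 x1 y0 y1 : ℝ) : Set Sample := ev (Rc x0 x1 y0 y1) {z | z.re = x0} {z | z.re = x1}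

/-- vertical black crossing of a rectangle -/
def Vc (x0 x1 y0 y1 : ℝ) : Set Sample := ev (Rc x0 x1 y0 y1) {z | z.im = y0} {z | z.im = y1}

/-- four long crossings around `z` between the squares of half side `r` and `2 r` -/
def Ring (z : ℂ) (r : ℝ) : Set Sample :=
  Hc (z.re - 2 * r) (z.re + 2 * r) (z.im + r) (z.im + 2 * r) ∩
  Hc (z.re - 2 * r) (z.re + 2 * r) (z.im - 2 * r) (z.im - r) ∩
  Vc (z.re - 2 * r) (z.re - r) (z.im - 2 * r) (z.im + 2 * r) ∩
  Vc (z.re + r) (z.re + 2 * r) (z.im - 2 * r) (z.im + 2 * r)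

/-- increasing in the black points, decreasing in the white points (finite configurations) -/
def Inc (P : Set (ℂ × Bool) → Prop) : Prop := ∀ X Y : Set (ℂ × Bool), X.Finite → Y.Finite →
  (∀ z : ℂ, (z, true) ∈ X → (z, true) ∈ Y) → (∀ z : ℂ, (z, false) ∈ Y → (z, false) ∈ X) → P X → P Y

/-- black-increasing events, local up to small probability -/
def IncEv (E : Set Sample) : Prop := ∀ δ : ENNReal, 0 < δ → ∃ B : Set ℂ, MeasurableSet B ∧
  Bornology.IsBounded B ∧ ∃ P : Set (ℂ × Bool) → Prop, Inc P ∧ LocalOn B P ∧ FinMeas P ∧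
    sampleLaw (symmDiff E {ω | P (cfg 1 ω)}) ≤ δ

/-- (FKG) positive association of the annealed model -/
def FKG : Prop := ∀ E F : Set Sample, IncEv E → IncEv F →
  IncEv (E ∩ F) ∧ sampleLaw E * sampleLaw F ≤ sampleLaw (E ∩ F)

/-- (CRI) crossing events are increasing and nearly local -/
def CRI : Prop := ∀ K A B : Set ℂ, IsCompact K → Convex ℝ K → IsClosed A → IsClosed B →
  IncEv (ev K A B)

/-- (SYM) invariance under the isometries of the plane -/
def SYM : Prop := ∀ g : ℂ ≃ᵢ ℂ, ∀ K A B : Set ℂ, IsCompact K → Convex ℝ K → IsClosed A →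
  IsClosed B → sampleLaw (ev (g '' K) (g '' A) (g '' B)) = sampleLaw (ev K A B)

/-- (SQ) crossing of squares (duality) -/
def SQ : Prop := ∀ s : ℝ, 0 < s → (2 : ENNReal)⁻¹ ≤ sampleLaw (Hc 0 s 0 s)

/-- (QI) near independence of rings at different scales -/
def QI : Prop := ∃ η : ℝ → ℝ, Tendsto η atTop (𝓝 0) ∧ ∀ (z : ℂ) (r : ℝ) (k : ℕ), 0 < r →
  (sampleLaw (⋂ i ∈ Finset.range k, (Ring z (4 ^ i * r))ᶜ)).toReal ≤
    ∏ i ∈ Finset.range k, (1 - (sampleLaw (Ring z (4 ^ i * r))).toReal + η (4 ^ i * r))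

/-- (POS) crossings have positive probability -/
def POS : Prop := ∀ r : ℝ, 0 < r → 0 < sampleLaw (Hc 0 (4 * r) 0 r)

/-- (RSW) crossings of rectangles of all aspect ratios -/
def RSW : Prop := ∀ ρ : ℝ, 1 ≤ ρ → ∃ c : ENNReal, 0 < c ∧ ∃ s0 : ℝ, 0 < s0 ∧ ∀ s : ℝ, s0 ≤ s →
  c ≤ sampleLaw (Hc 0 (ρ * s) 0 s)

/-- the official black region -/
theorem black_eq (ε : ℝ) (ω : Sample) : blackRegion ε ω = Bk (cfg ε ω) := by
  ext z
  simp only [blackRegion, Bk, cfg, points, voronoiCell, mem_iUnion, mem_ofPred_eq, exists_prop]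
  constructor
  · rintro ⟨p, ⟨hp, hc⟩, hz⟩
    refine ⟨point ε ω (p.1, p.2.1) p.2.2, ⟨p, hp, ?_⟩, ?_⟩
    · simpa [col] using hc
    · rintro _ ⟨q, hq, rfl⟩
      exact hz _ ⟨q, hq, rfl⟩
  · rintro ⟨b, ⟨p, hp, hb⟩, hz⟩
    simp only [Prod.mk.injEq] at hb
    refine ⟨p, ⟨hp, ?_⟩, ?_⟩
    · have := hb.2
      simpa [col] using this
    · rintro _ ⟨q, hq, rfl⟩
      rw [hb.1]
      exact hz _ ⟨q, hq, rfl⟩

end Crest.Agent.R143.TasIx372
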