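import Crest.Agent.R143.G6T_408
import Crest.Agent.R143.TasI_372
import Crest.Agent.R202.Miranda

/-!
# Row 143 (S0194), block N3: duality in a rectangle (helper897)

* `rect_dual` : a rectangle covered by two closed sets has a left-right preconnected subset in the
  first one or a bottom-top preconnected subset in the second one
* `jn_of_preconn` : a preconnected subset of a finite union of closed convex sets inside a convex set
  gives a path connected one
-/

set_option autoImplicit false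

noncomputable section

namespace Crest.Agent.R143.TasDualx897

open Set Filter Topology Metric
open Crest.Agent.R143.G6Tx408 Crest.Agent.R143.TasIx372

theorem isCompact_Rc (x0 x1 y0 y1 : ℝ) : IsCompact (Rc x0 x1 y0 y1) := by
  have h : Rc x0 x1 y0 y1 = Complex.equivRealProdCLM ⁻¹' (Icc x0 x1 ×ˢ Icc y0 y1) := by
    ext z
    simp only [Rc, mem_ofPred_eq, mem_preimage, mem_prod, mem_Icc]
    constructor
    · rintro ⟨a, b, c, d⟩; exact ⟨⟨a, b⟩, ⟨c, d⟩⟩
    · rintro ⟨⟨a, b⟩, ⟨c, d⟩⟩; exact ⟨a, b, c, d⟩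
  rw [h]
  exact Complex.equivRealProdCLM.toHomeomorph.isCompact_preimage.2
    (isCompact_Icc.prod isCompact_Icc)

theorem convex_Rc (x0 x1 y0 y1 : ℝ) : Convex ℝ (Rc x0 x1 y0 y1) := by
  intro z hz w hw a b ha hb hab
  obtain ⟨z1, z2, z3, z4⟩ := hz
  obtain ⟨w1, w2, w3, w4⟩ := hw
  have e1 : (a • z + b • w).re = a * z.re + b * w.re := by simp
  have e2 : (a • z + b • w).im = a * z.im + b * w.im := by simp
  have hb' : b = 1 - a := by linarith
  subst hb'
  refine ⟨?_, ?_, ?_, ?_⟩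
  · rw [e1]; nlinarith
  · rw [e1]; nlinarith
  · rw [e2]; nlinarith
  · rw [e2]; nlinarith

/-- **duality in a rectangle** -/
theorem rect_dual {x0 x1 y0 y1 : ℝ} (hx : x0 < x1) (hy : y0 < y1) {F1 F2 : Set ℂ}
    (h1 : IsClosed F1) (h2 : IsClosed F2) (hc : Rc x0 x1 y0 y1 ⊆ F1 ∪ F2) :
    (∃ S ⊆ Rc x0 x1 y0 y1 ∩ F1, IsPreconnected S ∧ (S ∩ {z | z.re = x0}).Nonempty ∧
      (S ∩ {z | z.re = x1}).Nonempty) ∨
    (∃ S ⊆ Rc x0 x1 y0 y1 ∩ F2, IsPreconnected S ∧ (S ∩ {z | z.im = y0}).Nonempty ∧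
      (S ∩ {z | z.im = y1}).Nonempty) := by
  by_contra hcon
  push Not at hcon
  obtain ⟨c1, c2⟩ := hcon
  set K := Rc x0 x1 y0 y1 with hK
  have hKc : IsCompact K := isCompact_Rc _ _ _ _
  have clre : ∀ t : ℝ, IsClosed {z : ℂ | z.re = t} := fun t =>
    isClosed_eq Complex.continuous_re continuous_const
  have clim : ∀ t : ℝ, IsClosed {z : ℂ | z.im = t} := fun t =>
    isClosed_eq Complex.continuous_im continuous_const
  obtain ⟨W, W', hW, hW', hWW, hWd, hWL, hWR⟩ := cut (hKc.inter_right h1) (clre x0) (clre x1)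
    (fun S hS hSc hS1 => by
      rw [Set.not_nonempty_iff_eq_empty]
      exact c1 S hS hSc hS1)
  obtain ⟨V, V', hV, hV', hVV, hVd, hVB, hVT⟩ := cut (hKc.inter_right h2) (clim y0) (clim y1)
    (fun S hS hSc hS1 => by
      rw [Set.not_nonempty_iff_eq_empty]
      exact c2 S hS hSc hS1)
  have hWK : W ⊆ K ∩ F1 := hWW ▸ subset_union_left
  have hWK' : W' ⊆ K ∩ F1 := hWW ▸ subset_union_right
  have hVK : V ⊆ K ∩ F2 := hVV ▸ subset_union_left
  have hVK' : V' ⊆ K ∩ F2 := hVV ▸ subset_union_right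
  set A : Set ℂ := W ∪ K ∩ {z | z.re = x0} with hA
  set A' : Set ℂ := W' ∪ K ∩ {z | z.re = x1} with hA'
  set B : Set ℂ := V ∪ K ∩ {z | z.im = y0} with hB
  set B' : Set ℂ := V' ∪ K ∩ {z | z.im = y1} with hB'
  have hAc : IsClosed A := hW.isClosed.union (hKc.inter_right (clre x0)).isClosed
  have hAc' : IsClosed A' := hW'.isClosed.union (hKc.inter_right (clre x1)).isClosed
  have hBc : IsClosed B := hV.isClosed.union (hKc.inter_right (clim y0)).isClosed
  have hBc' : IsClosed B' := hV'.isClosed.union (hKc.inter_right (clim y1)).isClosed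
  have hAd : Disjoint A A' := by
    rw [Set.disjoint_left]
    rintro z (hz | hz) (hz' | hz')
    · exact Set.disjoint_left.1 hWd hz hz'
    · exact Set.disjoint_left.1 hWd hz (hWR ⟨hWK hz, hz'.2⟩)
    · exact Set.disjoint_left.1 hWd (hWL ⟨hWK' hz', hz.2⟩) hz'
    · have e1 : z.re = x0 := hz.2
      have e2 : z.re = x1 := hz'.2
      linarith
  have hBd : Disjoint B B' := by
    rw [Set.disjoint_left]
    rintro z (hz | hz) (hz' | hz')
    · exact Set.disjoint_left.1 hVd hz hz'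
    · exact Set.disjoint_left.1 hVd hz (hVT ⟨hVK hz, hz'.2⟩)
    · exact Set.disjoint_left.1 hVd (hVB ⟨hVK' hz', hz.2⟩) hz'
    · have e1 : z.im = y0 := hz.2
      have e2 : z.im = y1 := hz'.2
      linarith
  have hK00 : (⟨x0, y0⟩ : ℂ) ∈ K := ⟨le_refl _, hx.le, le_refl _, hy.le⟩
  have hK11 : (⟨x1, y1⟩ : ℂ) ∈ K := ⟨hx.le, le_refl _, hy.le, le_refl _⟩
  have hAn : A.Nonempty := ⟨⟨x0, y0⟩, Or.inr ⟨hK00, rfl⟩⟩
  have hAn' : A'.Nonempty := ⟨⟨x1, y1⟩, Or.inr ⟨hK11, rfl⟩⟩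
  have hBn : B.Nonempty := ⟨⟨x0, y0⟩, Or.inr ⟨hK00, rfl⟩⟩
  have hBn' : B'.Nonempty := ⟨⟨x1, y1⟩, Or.inr ⟨hK11, rfl⟩⟩
  set g : (Fin 2 → ℝ) → ℂ := fun x =>
    ⟨x0 + (x1 - x0) * ((x 0 + 1) / 2), y0 + (y1 - y0) * ((x 1 + 1) / 2)⟩ with hg
  have hgc : Continuous g := by
    rw [hg]
    refine Complex.equivRealProdCLM.symm.continuous.comp
      (f := fun x : Fin 2 → ℝ => ((x0 + (x1 - x0) * ((x 0 + 1) / 2),
        y0 + (y1 - y0) * ((x 1 + 1) / 2)) : ℝ × ℝ)) ?_
    fun_prop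
  have hgK : ∀ x ∈ Set.pi (Set.univ : Set (Fin 2)) (fun _ => Set.Icc (-1 : ℝ) 1), g x ∈ K := by
    intro x hx'
    have a0 := hx' 0 (mem_univ _)
    have a1 := hx' 1 (mem_univ _)
    rw [mem_Icc] at a0 a1
    refine ⟨?_, ?_, ?_, ?_⟩
    · show x0 ≤ x0 + (x1 - x0) * ((x 0 + 1) / 2)
      have : 0 ≤ (x1 - x0) * ((x 0 + 1) / 2) := mul_nonneg (by linarith) (by linarith)
      linarith
    · show x0 + (x1 - x0) * ((x 0 + 1) / 2) ≤ x1
      have : (x1 - x0) * ((x 0 + 1) / 2) ≤ (x1 - x0) * 1 :=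
        mul_le_mul_of_nonneg_left (by linarith) (by linarith)
      linarith
    · show y0 ≤ y0 + (y1 - y0) * ((x 1 + 1) / 2)
      have : 0 ≤ (y1 - y0) * ((x 1 + 1) / 2) := mul_nonneg (by linarith) (by linarith)
      linarith
    · show y0 + (y1 - y0) * ((x 1 + 1) / 2) ≤ y1
      have : (y1 - y0) * ((x 1 + 1) / 2) ≤ (y1 - y0) * 1 :=
        mul_le_mul_of_nonneg_left (by linarith) (by linarith)
      linarith
  set f : (Fin 2 → ℝ) → Fin 2 → ℝ := fun x => ![infDist (g x) A - infDist (g x) A',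
    infDist (g x) B - infDist (g x) B'] with hf
  have hfc : Continuous f := by
    refine continuous_pi fun i => ?_
    fin_cases i
    · exact ((continuous_infDist_pt A).comp hgc).sub ((continuous_infDist_pt A').comp hgc)
    · exact ((continuous_infDist_pt B).comp hgc).sub ((continuous_infDist_pt B').comp hgc)
  obtain ⟨x, hxp, hx0⟩ := Crest.Agent.R202.poincare_miranda f hfc.continuousOn
    (by
      intro x hx' i hi
      fin_cases i
      · have hz : infDist (g x) A' = 0 := infDist_zero_of_mem (Or.inr ⟨hgK x hx', by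
          show x0 + (x1 - x0) * ((x 0 + 1) / 2) = x1
          have hi' : x 0 = 1 := hi
          rw [hi']; ring⟩)
        show 0 ≤ infDist (g x) A - infDist (g x) A'
        rw [hz, sub_zero]; exact infDist_nonneg
      · have hz : infDist (g x) B' = 0 := infDist_zero_of_mem (Or.inr ⟨hgK x hx', by
          show y0 + (y1 - y0) * ((x 1 + 1) / 2) = y1
          have hi' : x 1 = 1 := hi
          rw [hi']; ring⟩)
        show 0 ≤ infDist (g x) B - infDist (g x) B'
        rw [hz, sub_zero]; exact infDist_nonneg)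
    (by
      intro x hx' i hi
      fin_cases i
      · have hz : infDist (g x) A = 0 := infDist_zero_of_mem (Or.inr ⟨hgK x hx', by
          show x0 + (x1 - x0) * ((x 0 + 1) / 2) = x0
          have hi' : x 0 = -1 := hi
          rw [hi']; ring⟩)
        show infDist (g x) A - infDist (g x) A' ≤ 0
        rw [hz, zero_sub, neg_nonpos]; exact infDist_nonneg
      · have hz : infDist (g x) B = 0 := infDist_zero_of_mem (Or.inr ⟨hgK x hx', by
          show y0 + (y1 - y0) * ((x 1 + 1) / 2) = y0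
          have hi' : x 1 = -1 := hi
          rw [hi']; ring⟩)
        show infDist (g x) B - infDist (g x) B' ≤ 0
        rw [hz, zero_sub, neg_nonpos]; exact infDist_nonneg)
  have e0 : infDist (g x) A - infDist (g x) A' = 0 := hx0 0
  have e1 : infDist (g x) B - infDist (g x) B' = 0 := hx0 1
  have hgx := hgK x hxp
  rcases hc hgx with h | h
  · have : g x ∈ W ∪ W' := by rw [hWW]; exact ⟨hgx, h⟩
    rcases this with h' | h'
    · have z0 : infDist (g x) A = 0 := infDist_zero_of_mem (Or.inl h')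
      rw [z0, zero_sub, neg_eq_zero] at e0
      exact Set.disjoint_left.1 hAd (Or.inl h') ((hAc'.mem_iff_infDist_zero hAn').2 e0)
    · have z0 : infDist (g x) A' = 0 := infDist_zero_of_mem (Or.inl h')
      rw [z0, sub_zero] at e0
      exact Set.disjoint_left.1 hAd ((hAc.mem_iff_infDist_zero hAn).2 e0) (Or.inl h')
  · have : g x ∈ V ∪ V' := by rw [hVV]; exact ⟨hgx, h⟩
    rcases this with h' | h'
    · have z0 : infDist (g x) B = 0 := infDist_zero_of_mem (Or.inl h')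
      rw [z0, zero_sub, neg_eq_zero] at e1
      exact Set.disjoint_left.1 hBd (Or.inl h') ((hBc'.mem_iff_infDist_zero hBn').2 e1)
    · have z0 : infDist (g x) B' = 0 := infDist_zero_of_mem (Or.inl h')
      rw [z0, sub_zero] at e1
      exact Set.disjoint_left.1 hBd ((hBc.mem_iff_infDist_zero hBn).2 e1) (Or.inl h')

/-- a preconnected subset of a finite union of closed convex sets, inside the convex set `K`, gives a
path connected one -/
theorem jn_of_preconn {ι : Type*} {s : Set ι} (hs : s.Finite) {F : ι → Set ℂ}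
    (hF : ∀ i ∈ s, IsClosed (F i)) (hFc : ∀ i ∈ s, Convex ℝ (F i)) {K W A B S : Set ℂ}
    (hK : Convex ℝ K) (hFW : ∀ i ∈ s, F i ∩ K ⊆ W) (hS : IsPreconnected S) (hSK : S ⊆ K)
    (hSF : S ⊆ ⋃ i ∈ s, F i) (hA : (S ∩ A).Nonempty) (hB : (S ∩ B).Nonempty) : Jn W K A B := by
  obtain ⟨x, hxS, hxA⟩ := hA
  obtain ⟨y, hyS, hyB⟩ := hB
  obtain ⟨i, hi, hxi⟩ := mem_iUnion₂.1 (hSF hxS)
  obtain ⟨j, hj, hyj⟩ := mem_iUnion₂.1 (hSF hyS)
  have hch := chain_of_cover hs hF hS hSF hi hj ⟨x, hxS, hxi⟩ ⟨y, hyS, hyj⟩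
  have hpc : ∀ k ∈ s, (F k ∩ K).Nonempty → IsPathConnected (F k ∩ K) := fun k hk hne =>
    ((hFc k hk).inter hK).isPathConnected hne
  have key : ∀ k, Relation.ReflTransGen
      (fun a b => a ∈ s ∧ b ∈ s ∧ (F a ∩ F b ∩ S).Nonempty) i k →
      ∃ T : Set ℂ, IsPathConnected T ∧ T ⊆ W ∩ K ∧ x ∈ T ∧ F k ∩ K ⊆ T := by
    intro k hk
    induction hk with
    | refl => exact ⟨F i ∩ K, hpc i hi ⟨x, hxi, hSK hxS⟩, fun z hz => ⟨hFW i hi hz, hz.2⟩,
        ⟨hxi, hSK hxS⟩, subset_refl _⟩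
    | @tail b c hb hbc ih =>
      obtain ⟨T, hT, hTW, hxT, hbT⟩ := ih
      obtain ⟨-, hcs, w, ⟨hw1, hw2⟩, hwS⟩ := hbc
      refine ⟨T ∪ F c ∩ K, hT.union (hpc c hcs ⟨w, hw2, hSK hwS⟩) ⟨w, hbT ⟨hw1, hSK hwS⟩,
        ⟨hw2, hSK hwS⟩⟩, ?_, Or.inl hxT, subset_union_right⟩
      rintro z (hz | hz)
      · exact hTW hz
      · exact ⟨hFW c hcs hz, hz.2⟩
  obtain ⟨T, hT, hTW, hxT, hjT⟩ := key j hch
  exact ⟨T, hT, hTW, ⟨x, hxT, hxA⟩, ⟨y, hjT ⟨hyj, hSK hyS⟩, hyB⟩⟩

end Crest.Agent.R143.TasDualx897
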