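import Crest.Agent.R143.Neck1_921
import Crest.Agent.R143.TasDual_897
import Crest.Agent.R143.G6W_723

/-!
# Row 143, CORE-C, block V, leaf V4: probability of the neck gate (helper921)

`w ⊆ V` = white sites, `V \ w` = black sites. The white cluster of a horizontal band of seeds is explored;
two black walls confine it; a fresh white vertical chain first meets the explored set in a black site `y`.

* `Lc`, `Lc.lv` : level of the seeds: `b0` in the gate window `(a0, a1)`, `p0` outside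
* `Kl` : cluster of the seeds; `Jn` : explored set (with the whole lower part outside the gate window)
* `Dd` : the cluster does not come near the level `l1`; `Cf` : confinement to the window `(a0, a1)`
* `HB` : long black crossing; `dual_hc` : its existence, by duality
-/

set_option autoImplicit false

noncomputable section

open scoped Classical

namespace Crest.Agent.R143.Neckx921

open Crest.ProbabilityR.Voronoi (voronoiCell)
open Crest.Agent.R143.B0x346 Crest.Agent.R143.DelGx806 Crest.Agent.R143.DelRx806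
open Crest.Agent.R143.ToolWx838 Crest.Agent.R143.Blkx838 Crest.Agent.R143.ToolW2x838
open Crest.Agent.R143.ToolW3x838 Crest.Agent.R143.Circ4x838 Crest.Agent.R143.Harx315
open Crest.Agent.R143.RB0x838 Crest.Agent.R143.CircPx838 Crest.Agent.R143.Gatex838

variable {S V w w' w0 : Finset ℂ} {z0 e : ℂ}

/-- level of the seeds: `b0` in the gate window `(a0, a1)`, `p0` outside -/
structure Lc where
  a0 : ℝ
  a1 : ℝ
  t0 : ℝ
  b0 : ℝ
  p0 : ℝ
  l1 : ℝ
  cB : ℝ
  tb : t0 ≤ b0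
  bp : b0 ≤ p0
  pl : p0 < l1
  lB : l1 ≤ cB

/-- level of the seeds at the first coordinate `u` -/
def Lc.lv (L : Lc) (u : ℝ) : ℝ := if L.a0 < u ∧ u < L.a1 then L.b0 else L.p0

theorem Lc.lv_in (L : Lc) {u : ℝ} (h0 : L.a0 < u) (h1 : u < L.a1) : L.lv u = L.b0 := by
  unfold Lc.lv; rw [if_pos ⟨h0, h1⟩]

theorem Lc.lv_out (L : Lc) {u : ℝ} (h : u ≤ L.a0 ∨ L.a1 ≤ u) : L.lv u = L.p0 := by
  unfold Lc.lv
  rw [if_neg]
  rintro ⟨h1, h2⟩
  rcases h with h | h <;> linarith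

theorem Lc.lv_ge (L : Lc) (u : ℝ) : L.b0 ≤ L.lv u := by
  unfold Lc.lv; split_ifs
  · exact le_rfl
  · exact L.bp

theorem Lc.lv_le (L : Lc) (u : ℝ) : L.lv u ≤ L.p0 := by
  unfold Lc.lv; split_ifs
  · exact L.bp
  · exact le_rfl

variable {L : Lc}

/-- seeds -/
def sd (V : Finset ℂ) (z0 e : ℂ) (x0 x1 : ℝ) (L : Lc) : Finset ℂ :=
  V.filter fun s => (x0 < X z0 e s ∧ X z0 e s < x1) ∧ L.t0 ≤ Y z0 e s ∧ Y z0 e s ≤ L.lv (X z0 e s)

/-- allowed sites -/
def us (V : Finset ℂ) (z0 e : ℂ) (x0 x1 : ℝ) (L : Lc) : Finset ℂ :=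
  V.filter fun s => (x0 < X z0 e s ∧ X z0 e s < x1) ∧ L.lv (X z0 e s) < Y z0 e s ∧ Y z0 e s < L.l1

/-- always explored: the lower part outside the gate window -/
def bs (V : Finset ℂ) (z0 e : ℂ) (L : Lc) : Finset ℂ :=
  V.filter fun s => ¬ (L.a0 < X z0 e s ∧ X z0 e s < L.a1) ∧ Y z0 e s < L.cB

/-- cluster of the seeds -/
def Kl (S V : Finset ℂ) (z0 e : ℂ) (x0 x1 : ℝ) (L : Lc) (w : Finset ℂ) (s : ℂ) : Prop :=
  Cl (DE S) (sd V z0 e x0 x1 L) (us V z0 e x0 x1 L) w s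

/-- explored set -/
def Jn (S V : Finset ℂ) (z0 e : ℂ) (x0 x1 : ℝ) (L : Lc) : Finset ℂ → Finset ℂ :=
  JC (DE S) (sd V z0 e x0 x1 L) (bs V z0 e L) (us V z0 e x0 x1 L) V

variable {x0 x1 q0 q1 r0 r1 a0 a1 g0 g1 g2 g3 k0 k1 tw t0 v0 b0 p0 l0 l1 v1 p1 cB c0 c1 b1 m mN : ℝ}
  {s x y : ℂ}

theorem mem_sd' : s ∈ sd V z0 e x0 x1 L ↔ s ∈ V ∧ (x0 < X z0 e s ∧ X z0 e s < x1) ∧
    L.t0 ≤ Y z0 e s ∧ Y z0 e s ≤ L.lv (X z0 e s) := by unfold sd; simp

theorem mem_us' : s ∈ us V z0 e x0 x1 L ↔ s ∈ V ∧ (x0 < X z0 e s ∧ X z0 e s < x1) ∧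
    L.lv (X z0 e s) < Y z0 e s ∧ Y z0 e s < L.l1 := by unfold us; simp

theorem mem_bs' : s ∈ bs V z0 e L ↔ s ∈ V ∧ ¬ (L.a0 < X z0 e s ∧ X z0 e s < L.a1) ∧
    Y z0 e s < L.cB := by unfold bs; simp

theorem us_sub : us V z0 e x0 x1 L ⊆ V := Finset.filter_subset _ _

theorem kl_bd (h : Kl S V z0 e x0 x1 L w s) :
    s ∈ V ∧ (x0 < X z0 e s ∧ X z0 e s < x1) ∧ L.t0 ≤ Y z0 e s ∧ Y z0 e s < L.l1 := by
  have k1 := L.lv_le (X z0 e s)
  have k2 := L.lv_ge (X z0 e s)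
  have k3 := L.pl
  have k4 := L.tb
  rcases Cl.mem h with h | ⟨h, -⟩
  · rw [mem_sd'] at h
    exact ⟨h.1, h.2.1, h.2.2.1, by linarith [h.2.2.2]⟩
  · rw [mem_us'] at h
    exact ⟨h.1, h.2.1, by linarith [h.2.2.1], h.2.2.2⟩

theorem kl_jn (h : Kl S V z0 e x0 x1 L w s) : s ∈ Jn S V z0 e x0 x1 L w := by
  unfold Jn
  rw [mem_JC]
  refine ⟨?_, Or.inr (Or.inl h)⟩
  rcases Cl.mem h with h | ⟨h, -⟩
  · exact (mem_sd'.1 h).1
  · exact (mem_us'.1 h).1

theorem nb_jn (h : Kl S V z0 e x0 x1 L w x) (hxy : DE S x y)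
    (hy : y ∈ us V z0 e x0 x1 L) : y ∈ Jn S V z0 e x0 x1 L w := by
  unfold Jn
  rw [mem_JC]
  exact ⟨us_sub hy, Or.inr (Or.inr ⟨hy, x, h, hxy⟩)⟩

theorem bs_jn (h : s ∈ bs V z0 e L) : s ∈ Jn S V z0 e x0 x1 L w := by
  unfold Jn
  rw [mem_JC]
  exact ⟨(mem_bs'.1 h).1, Or.inl h⟩

theorem jn_cases (h : y ∈ Jn S V z0 e x0 x1 L w) : y ∈ bs V z0 e L ∨ Kl S V z0 e x0 x1 L w y ∨
    (y ∈ us V z0 e x0 x1 L ∧ ∃ x, Kl S V z0 e x0 x1 L w x ∧ DE S x y) := by
  unfold Jn at h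
  rw [mem_JC] at h
  exact h.2

theorem jn_lt (h : y ∈ Jn S V z0 e x0 x1 L w) : Y z0 e y < L.cB := by
  have := L.lB
  rcases jn_cases h with h | h | ⟨h, -⟩
  · exact (mem_bs'.1 h).2.2
  · linarith [(kl_bd h).2.2.2]
  · linarith [(mem_us'.1 h).2.2.2]

theorem jn_stop : IsStop V (Jn S V z0 e x0 x1 L) := jc_stop us_sub

/-- transfer of the cluster -/
theorem kl_tr {y0 y1 : ℝ} (h0 : x0 ≤ y0) (h1 : y1 ≤ x1)
    (hw : ∀ s ∈ Jn S V z0 e x0 x1 L w, s ∈ w → s ∈ w')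
    (h : Kl S V z0 e y0 y1 L w x) :
    Kl S V z0 e y0 y1 L w' x ∧ Kl S V z0 e x0 x1 L w x := by
  unfold Kl at h
  induction h with
  | seed hx =>
    refine ⟨Cl.seed hx, Cl.seed ?_⟩
    rw [mem_sd'] at hx ⊢
    exact ⟨hx.1, ⟨lt_of_le_of_lt h0 hx.2.1.1, lt_of_lt_of_le hx.2.1.2 h1⟩, hx.2.2⟩
  | @step x' y' hx hr hyU hyw ih =>
    have hyU' : y' ∈ us V z0 e x0 x1 L := by
      have := mem_us'.1 hyU
      exact mem_us'.2 ⟨this.1, ⟨lt_of_le_of_lt h0 this.2.1.1, lt_of_lt_of_le this.2.1.2 h1⟩, this.2.2⟩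
    exact ⟨Cl.step ih.1 hr hyU (hw _ (nb_jn ih.2 hr hyU') hyw), Cl.step ih.2 hr hyU' hyw⟩

/-- the cluster does not come near the level `l1` -/
def Dd (S V : Finset ℂ) (z0 e : ℂ) (q0 q1 : ℝ) (L : Lc) (w : Finset ℂ) : Prop :=
  ∀ x y, Kl S V z0 e q0 q1 L w x → DE S x y → q0 < X z0 e y → X z0 e y < q1 → Y z0 e y < L.l1

/-- the part of the cluster near the window `(k0, k1)` is connected to the seeds inside `(a0, a1)` -/
def Cf (S V : Finset ℂ) (z0 e : ℂ) (q0 q1 k0 k1 : ℝ) (L : Lc) (w : Finset ℂ) : Prop :=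
  ∀ x y, Kl S V z0 e q0 q1 L w x → DE S x y → k0 < X z0 e y → X z0 e y < k1 →
    L.t0 ≤ Y z0 e y → Y z0 e y < L.l1 → Kl S V z0 e L.a0 L.a1 L w x

theorem isChain_snoc {l : List ℂ} (hl : l ≠ []) (h : l.IsChain (DE S)) (hy : DE S (l.getLast hl) y) :
    (l ++ [y]).IsChain (DE S) := by
  rw [List.isChain_append]
  refine ⟨h, by simp, ?_⟩
  intro u hu v hv
  simp only [List.head?_cons, Option.mem_def, Option.some.injEq] at hv
  subst hv
  rw [List.getLast?_eq_some_getLast hl] at hu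
  simp only [Option.mem_def, Option.some.injEq] at hu
  rw [← hu]
  exact hy

theorem dd_of (hS : GP (S : Set ℂ)) (he : e ≠ 0) (hb : L.p0 ≤ l0)
    {h : List ℂ} (hh : HC S z0 e q0 q1 l0 L.l1 m (V \ w) h) : Dd S V z0 e q0 q1 L w := by
  intro x y hx hxy hy0 hy1
  by_contra hcon
  push Not at hcon
  obtain ⟨a, c, ha, hc, hlast, hcs⟩ := Cl.chain hx
  have hab : Y z0 e a ≤ l0 := ((mem_sd'.1 ha).2.2.2).trans ((L.lv_le _).trans hb)
  have hbd : ∀ s ∈ a :: c, q0 < X z0 e s ∧ X z0 e s < q1 := by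
    intro s hs
    rcases List.mem_cons.1 hs with h | h
    · rw [h]; exact (mem_sd'.1 ha).2.1
    · exact (mem_us'.1 (hcs s h).1).2.1
  have hQ : ((a :: c) ++ [y]).IsChain (DE S) := isChain_snoc (by simp) hc (by rw [hlast]; exact hxy)
  obtain ⟨t, ht1, ht2⟩ := cross_e hS he hh.ne (Q := (a :: c) ++ [y]) (by simp) hh.adj
    ((isChain_iff_prs _).1 hQ) hh.strip
    (x0 := q0) (x1 := q1) (by
      intro s hs
      rcases List.mem_append.1 hs with hs | hs
      · exact hbd s hs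
      · rw [List.mem_singleton] at hs
        rw [hs]; exact ⟨hy0, hy1⟩) hh.left hh.right (by
      simp only [List.cons_append, List.head_cons]
      exact hab) (by
      simp only [List.getLast_append_of_ne_nil _ (List.cons_ne_nil y []), List.getLast_singleton]
      exact hcon)
  have hts := hh.strip t ht1
  have htc := hh.col t ht1
  rw [Finset.mem_sdiff] at htc
  rcases List.mem_append.1 ht2 with h2 | h2
  · rcases List.mem_cons.1 h2 with h2 | h2
    · rw [h2] at hts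
      linarith [hts.1]
    · exact htc.2 (hcs t h2).2
  · rw [List.mem_singleton] at h2
    rw [h2] at hts
    linarith [hts.2]

theorem cf_of (hS : GP (S : Set ℂ)) (he : e ≠ 0) (htw : tw < L.t0)
    (hag : L.a0 ≤ g0) (hgk : g1 ≤ k0) (hkg : k1 ≤ g2) (hga : g3 ≤ L.a1)
    {lL lR : List ℂ} (hL : VC S z0 e g0 g1 tw L.l1 m (V \ w) lL)
    (hR : VC S z0 e g2 g3 tw L.l1 m (V \ w) lR) : Cf S V z0 e q0 q1 k0 k1 L w := by
  intro x y hx hxy hy0 hy1 hy2 hy3
  obtain ⟨a, c, ha, hc, hlast, hcs⟩ := Cl.chain hx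
  have L1 := L.tb
  have L2 := L.bp
  have L3 := L.pl
  have hYb : ∀ s ∈ a :: c, tw < Y z0 e s ∧ Y z0 e s < L.l1 := by
    intro s hs
    rcases List.mem_cons.1 hs with h | h
    · rw [h]
      have := (mem_sd'.1 ha).2.2
      have k := L.lv_le (X z0 e a)
      exact ⟨lt_of_lt_of_le htw this.1, by linarith [this.2]⟩
    · have := (mem_us'.1 (hcs s h).1).2.2
      have k := L.lv_ge (X z0 e s)
      exact ⟨by linarith [this.1], this.2⟩
  have hQ : ((a :: c) ++ [y]).IsChain (DE S) := isChain_snoc (by simp) hc (by rw [hlast]; exact hxy)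
  -- every site of the chain is in the window
  have key : ∀ s ∈ a :: c, L.a0 < X z0 e s ∧ X z0 e s < L.a1 := by
    intro s hs
    obtain ⟨l1', l2, hsp⟩ := List.append_of_mem hs
    have hl2 : ∀ t ∈ l2, t ∈ c := by
      intro t ht
      cases l1' with
      | nil =>
        simp only [List.nil_append, List.cons.injEq] at hsp
        rw [hsp.2]; exact ht
      | cons b l1' =>
        simp only [List.cons_append, List.cons.injEq] at hsp
        rw [hsp.2]
        exact List.mem_append_right _ (List.mem_cons_of_mem _ ht)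
    have hP : (s :: (l2 ++ [y])).IsChain (DE S) := by
      rw [hsp, List.append_assoc, List.isChain_append] at hQ
      exact hQ.2.1
    have hPd := (isChain_iff_prs _).1 hP
    have hPY : ∀ t ∈ s :: (l2 ++ [y]), tw < Y z0 e t ∧ Y z0 e t < L.l1 := by
      intro t ht
      rcases List.mem_cons.1 ht with h | h
      · rw [h]; exact hYb s hs
      · rcases List.mem_append.1 h with h | h
        · exact hYb t (List.mem_cons_of_mem _ (hl2 t h))
        · rw [List.mem_singleton] at h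
          rw [h]; exact ⟨lt_of_lt_of_le htw hy2, hy3⟩
    have hin : ∀ t ∈ s :: (l2 ++ [y]), t ≠ s → t ≠ y → t ∈ w := by
      intro t ht h1 h2
      rcases List.mem_cons.1 ht with h | h
      · exact absurd h h1
      · rcases List.mem_append.1 h with h | h
        · exact (hcs t (hl2 t h)).2
        · rw [List.mem_singleton] at h
          exact absurd h h2
    constructor
    · by_contra hcon
      push Not at hcon
      obtain ⟨t, ht1, ht2⟩ := cross_e hS he (P := s :: (l2 ++ [y])) (by simp) hL.ne hPd hL.adj hPY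
        hL.strip (by simpa using hcon.trans hag) (by
          rw [List.getLast_cons (by simp), List.getLast_append_of_ne_nil _ (by simp)]
          simp only [List.getLast_singleton]
          exact hgk.trans hy0.le) hL.left hL.right
      have hs' := hL.strip t ht2
      refine (Finset.mem_sdiff.1 (hL.col t ht2)).2 (hin t ht1 ?_ ?_)
      · rintro rfl; linarith [hs'.1]
      · rintro rfl; linarith [hs'.2]
    · by_contra hcon
      push Not at hcon
      have hn : (s :: (l2 ++ [y])).reverse ≠ [] := by simp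
      obtain ⟨t, ht1, ht2⟩ := cross_e hS he (P := (s :: (l2 ++ [y])).reverse) hn hR.ne (by
          intro p hp
          rw [prs_reverse, List.mem_reverse, List.mem_map] at hp
          obtain ⟨q, hq, rfl⟩ := hp
          exact (hPd q hq).symm) hR.adj
        (fun t ht => hPY t (by rwa [List.mem_reverse] at ht)) hR.strip (by
          rw [List.head_reverse, List.getLast_cons (by simp),
            List.getLast_append_of_ne_nil _ (by simp)]
          simp only [List.getLast_singleton]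
          exact hy1.le.trans hkg) (by
          rw [List.getLast_reverse]
          simpa using hga.trans hcon) hR.left hR.right
      rw [List.mem_reverse] at ht1
      have hs' := hR.strip t ht2
      refine (Finset.mem_sdiff.1 (hR.col t ht2)).2 (hin t ht1 ?_ ?_)
      · rintro rfl; linarith [hs'.2]
      · rintro rfl; linarith [hs'.1]
  have k1 : ∀ s ∈ a :: c, s ∈ sd V z0 e L.a0 L.a1 L ∨ (s ∈ us V z0 e L.a0 L.a1 L ∧ s ∈ w) := by
    intro s hs
    have h1 := key s hs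
    rcases List.mem_cons.1 hs with h | h
    · left
      rw [h] at h1 ⊢
      have := mem_sd'.1 ha
      exact mem_sd'.2 ⟨this.1, h1, this.2.2⟩
    · right
      have := mem_us'.1 (hcs s h).1
      exact ⟨mem_us'.2 ⟨this.1, h1, this.2.2⟩, (hcs s h).2⟩
  have k2 := cl_of_chain (R := DE S) (A := sd V z0 e L.a0 L.a1 L) (U := us V z0 e L.a0 L.a1 L)
    (β := w) (l := a :: c) (by simp) (by
      simp only [List.head_cons]
      rcases k1 a (by simp) with h | h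
      · exact Cl.seed h
      · exfalso
        linarith [(mem_us'.1 h.1).2.2.1, (mem_sd'.1 ha).2.2.2]) hc k1 x (by
      rw [← hlast]; exact List.getLast_mem _)
  exact k2

/-- the exploration event; `lR0 lR1`, `lL0 lL1` = landing zones -/
def E2 (S V : Finset ℂ) (z0 e : ℂ) (q0 q1 k0 k1 lR0 lR1 lL0 lL1 p1 m : ℝ) (L : Lc) (w : Finset ℂ) :
    Prop :=
  (Dd S V z0 e q0 q1 L w ∧ Cf S V z0 e q0 q1 k0 k1 L w) ∧
    (∃ Q, VC S z0 e lR0 lR1 L.p0 p1 m (V \ w) Q) ∧ ∃ Q, VC S z0 e lL0 lL1 L.p0 p1 m (V \ w) Q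

variable {lR0 lR1 lL0 lL1 : ℝ}

theorem e2_dec (h0 : q0 ≤ L.a0) (h1 : L.a1 ≤ q1) (hR : L.a1 ≤ lR0) (hL : lL1 ≤ L.a0)
    (hp : p1 + m < L.cB) :
    Decided V (Jn S V z0 e q0 q1 L) (E2 S V z0 e q0 q1 k0 k1 lR0 lR1 lL0 lL1 p1 m L) := by
  have key : ∀ w w', w ⊆ V → w' ⊆ V →
      w ∩ Jn S V z0 e q0 q1 L w = w' ∩ Jn S V z0 e q0 q1 L w →
      E2 S V z0 e q0 q1 k0 k1 lR0 lR1 lL0 lL1 p1 m L w →
      E2 S V z0 e q0 q1 k0 k1 lR0 lR1 lL0 lL1 p1 m L w' := by
    intro w w' hw hw' heq hE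
    have hJ := jn_stop.stop w w' hw hw' heq
    have t1 : ∀ s ∈ Jn S V z0 e q0 q1 L w, s ∈ w → s ∈ w' := by
      intro s hs hsw
      have : s ∈ w ∩ Jn S V z0 e q0 q1 L w := Finset.mem_inter.2 ⟨hsw, hs⟩
      rw [heq] at this
      exact (Finset.mem_inter.1 this).1
    have t2 : ∀ s ∈ Jn S V z0 e q0 q1 L w', s ∈ w' → s ∈ w := by
      intro s hs hsw
      rw [hJ] at hs
      have : s ∈ w' ∩ Jn S V z0 e q0 q1 L w := Finset.mem_inter.2 ⟨hsw, hs⟩
      rw [← heq] at this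
      exact (Finset.mem_inter.1 this).1
    have t3 : ∀ s ∈ bs V z0 e L, s ∈ V \ w → s ∈ V \ w' := by
      intro s hs hsw
      rw [Finset.mem_sdiff] at hsw ⊢
      exact ⟨hsw.1, fun hc => hsw.2 (t2 s (bs_jn hs) hc)⟩
    refine ⟨⟨fun x y hx hxy hy0 hy1 => hE.1.1 x y (kl_tr le_rfl le_rfl t2 hx).1 hxy hy0 hy1,
      fun x y hx hxy hy0 hy1 hy2 hy3 => ?_⟩, ?_, ?_⟩
    · exact (kl_tr h0 h1 t1 (hE.1.2 x y (kl_tr le_rfl le_rfl t2 hx).1 hxy hy0 hy1 hy2 hy3)).1
    · obtain ⟨Q, hQ⟩ := hE.2.1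
      refine ⟨Q, hQ.ne, hQ.adj, fun s hs => t3 s (mem_bs'.2 ⟨(Finset.mem_sdiff.1 (hQ.col s hs)).1,
        fun hc => ?_, ?_⟩) (hQ.col s hs), hQ.strip, hQ.loc, hQ.left, hQ.right⟩
      · linarith [hc.2, (hQ.strip s hs).1]
      · linarith [(hQ.loc s hs).2]
    · obtain ⟨Q, hQ⟩ := hE.2.2
      refine ⟨Q, hQ.ne, hQ.adj, fun s hs => t3 s (mem_bs'.2 ⟨(Finset.mem_sdiff.1 (hQ.col s hs)).1,
        fun hc => ?_, ?_⟩) (hQ.col s hs), hQ.strip, hQ.loc, hQ.left, hQ.right⟩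
      · linarith [hc.1, (hQ.strip s hs).2]
      · linarith [(hQ.loc s hs).2]
  intro w w' hw hw' h
  have hJ := jn_stop.stop w w' hw hw' h
  exact ⟨key w w' hw hw' h, key w' w hw' hw (by rw [hJ]; exact h.symm)⟩

/-! ### duality -/

/-- a chain of cells along a preconnected set, as a list of sites -/
theorem list_of_rtg {r : ℂ → ℂ → Prop} {a b : ℂ} (h : Relation.ReflTransGen r a b) :
    ∃ l : List ℂ, ∃ hl : l ≠ [], l.head hl = a ∧ l.getLast hl = b ∧ l.IsChain r := by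
  obtain ⟨l, h1, h2⟩ := List.exists_isChain_cons_of_relationReflTransGen h
  exact ⟨a :: l, by simp, rfl, h2, h1⟩

/-- long black crossing: above `b0`, outside the window `(a0, a1)` above `p0`, short horizontal steps -/
structure HB (S : Finset ℂ) (z0 e : ℂ) (x0 x1 a0 a1 b0 p0 p1 m : ℝ) (β : Finset ℂ) (l : List ℂ) :
    Prop where
  ne : l ≠ []
  adj : ∀ p ∈ prs l, DE S p.1 p.2
  col : ∀ s ∈ l, s ∈ β
  strip : ∀ s ∈ l, b0 < Y z0 e s ∧ Y z0 e s < p1
  out : ∀ s ∈ l, (X z0 e s ≤ a0 ∨ a1 ≤ X z0 e s) → p0 < Y z0 e s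
  loc : ∀ s ∈ l, x0 - m ≤ X z0 e s ∧ X z0 e s ≤ x1 + m
  left : X z0 e (l.head ne) ≤ x0
  right : x1 ≤ X z0 e (l.getLast ne)
  step : ∀ p ∈ prs l, |X z0 e p.1 - X z0 e p.2| ≤ m

/-- **black crossing of the long window** -/
theorem dual_hc (hS : GP (S : Set ℂ)) (h3 : 3 ≤ S.card) (he : e ≠ 0) (hm : 0 < m)
    (hq0 : q0 < r0 - m) (hq1 : r1 + m < q1) (hr : r0 < r1) (hv : v0 < v1) (htv : L.t0 ≤ v0 - m)
    (hvb : v0 + m ≤ L.b0) (hlv : L.l1 ≤ v1 - m) (hvp : v1 + m < p1)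
    (reg : ∀ s ∈ S, r0 - m ≤ X z0 e s → X z0 e s ≤ r1 + m → v0 - m ≤ Y z0 e s →
      Y z0 e s ≤ v1 + m → s ∈ V)
    (near : ∀ s ∈ S, ∀ z ∈ voronoiCell (S : Set ℂ) s, r0 ≤ X z0 e z → X z0 e z ≤ r1 →
      v0 ≤ Y z0 e z → Y z0 e z ≤ v1 → |X z0 e s - X z0 e z| ≤ m ∧ |Y z0 e s - Y z0 e z| ≤ m)
    (hD : Dd S V z0 e q0 q1 L w0)
    (h1 : ∀ s ∈ Jn S V z0 e q0 q1 L w0, (s ∈ w ↔ s ∈ w0)) :
    ∃ P, HB S z0 e (r0 + m) (r1 - m) L.a0 L.a1 L.b0 L.p0 p1 (2 * m) (V \ w) P := by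
  have hSn : S.Nonempty := Finset.card_pos.1 (by omega)
  set φ : ℂ → ℂ := fun ζ => z0 + e * ζ with hφ
  have hφc : Continuous φ := by rw [hφ]; fun_prop
  have hX : ∀ ζ, X z0 e (φ ζ) = ζ.re := by
    intro ζ; unfold X; rw [hφ]; simp only [add_sub_cancel_left]; rw [mul_div_cancel_left₀ _ he]
  have hY : ∀ ζ, Y z0 e (φ ζ) = ζ.im := by
    intro ζ; unfold Y; rw [hφ]; simp only [add_sub_cancel_left]; rw [mul_div_cancel_left₀ _ he]
  set B : Finset ℂ := V.filter fun s => s ∉ w ∧ s ∉ sd V z0 e q0 q1 L with hB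
  set W : Finset ℂ := V.filter fun s => s ∈ w ∨ s ∈ sd V z0 e q0 q1 L with hW
  set F1 : Set ℂ := ⋃ s ∈ ((S ∩ B : Finset ℂ) : Set ℂ), φ ⁻¹' (voronoiCell (S : Set ℂ) s) with hF1
  set F2 : Set ℂ := ⋃ s ∈ ((S ∩ W : Finset ℂ) : Set ℂ), φ ⁻¹' (voronoiCell (S : Set ℂ) s) with hF2
  have c1 : IsClosed F1 := (Finset.finite_toSet _).isClosed_biUnion fun s _ =>
    (G6Vx408.isClosed_cell _ _).preimage hφc
  have c2 : IsClosed F2 := (Finset.finite_toSet _).isClosed_biUnion fun s _ =>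
    (G6Vx408.isClosed_cell _ _).preimage hφc
  have nr : ∀ s ∈ S, ∀ ζ ∈ TasIx372.Rc r0 r1 v0 v1, φ ζ ∈ voronoiCell (S : Set ℂ) s →
      (r0 - m ≤ X z0 e s ∧ X z0 e s ≤ r1 + m) ∧ v0 - m ≤ Y z0 e s ∧ Y z0 e s ≤ v1 + m ∧
      |X z0 e s - ζ.re| ≤ m ∧ |Y z0 e s - ζ.im| ≤ m := by
    intro s hs ζ hζ hc
    obtain ⟨z1, z2, z3, z4⟩ := hζ
    have := near s hs (φ ζ) hc (by rw [hX]; exact z1) (by rw [hX]; exact z2) (by rw [hY]; exact z3)
      (by rw [hY]; exact z4)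
    rw [hX, hY] at this
    have k1 := abs_le.1 this.1
    have k2 := abs_le.1 this.2
    exact ⟨⟨by linarith, by linarith⟩, by linarith, by linarith, this⟩
  have hcov : TasIx372.Rc r0 r1 v0 v1 ⊆ F1 ∪ F2 := by
    intro ζ hζ
    obtain ⟨s, hs, hc⟩ := G6Wx723.exists_cell hSn (φ ζ)
    have k := nr s hs ζ hζ hc
    have hsV := reg s hs k.1.1 k.1.2 k.2.1 k.2.2.1
    by_cases hsw : s ∈ w ∨ s ∈ sd V z0 e q0 q1 L
    · right
      exact Set.mem_biUnion (x := s) (by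
        rw [Finset.mem_coe, Finset.mem_inter]; exact ⟨hs, Finset.mem_filter.2 ⟨hsV, hsw⟩⟩) hc
    · left
      rw [not_or] at hsw
      exact Set.mem_biUnion (x := s) (by
        rw [Finset.mem_coe, Finset.mem_inter]; exact ⟨hs, Finset.mem_filter.2 ⟨hsV, hsw⟩⟩) hc
  rcases TasDualx897.rect_dual hr hv c1 c2 hcov with ⟨C, hC1, hC2, ⟨ζ0, hζ0, e0⟩, ⟨ζ1, hζ1, e1⟩⟩ |
    ⟨C, hC1, hC2, ⟨ζ0, hζ0, e0⟩, ⟨ζ1, hζ1, e1⟩⟩
  · -- left - right crossing
    have f0 := (hC1 hζ0).2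
    have f1 := (hC1 hζ1).2
    rw [hF1, Set.mem_iUnion₂] at f0 f1
    obtain ⟨s0, hs0, hc0⟩ := f0
    obtain ⟨s1, hs1, hc1⟩ := f1
    have hch := G6Tx408.chain_of_cover (s := ((S ∩ B : Finset ℂ) : Set ℂ)) (Finset.finite_toSet _)
      (F := fun s => φ ⁻¹' (voronoiCell (S : Set ℂ) s)) (fun s _ => (G6Vx408.isClosed_cell _ _).preimage hφc)
      hC2 (fun z hz => (hC1 hz).2) hs0 hs1 ⟨ζ0, hζ0, hc0⟩ ⟨ζ1, hζ1, hc1⟩
    set A : Set ℂ := {s | (s ∈ S ∧ s ∈ B) ∧ ∃ ζ ∈ TasIx372.Rc r0 r1 v0 v1, φ ζ ∈ voronoiCell (S : Set ℂ) s}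
      with hA
    have hch2 : Relation.ReflTransGen (fun a b => (DE S a b ∧ |X z0 e a - X z0 e b| ≤ 2 * m) ∧
        a ∈ A ∧ b ∈ A) s0 s1 := by
      clear hc1 hs1 e1 hζ1
      induction hch with
      | refl => exact .refl
      | @tail u v _ h5 ih =>
        obtain ⟨hu, hv', ζ, ⟨hzu, hzv⟩, hzC⟩ := h5
        have hR := (hC1 hzC).1
        rw [Finset.mem_coe, Finset.mem_inter] at hu hv'
        by_cases huv : u = v
        · rw [← huv]; exact ih
        · have n1 := abs_le.1 (nr u hu.1 ζ hR hzu).2.2.2.1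
          have n2 := abs_le.1 (nr v hv'.1 ζ hR hzv).2.2.2.1
          exact ih.tail ⟨⟨G6Wx723.adj_of_mem hS h3 hu.1 hv'.1 huv hzu hzv,
            abs_le.2 ⟨by linarith [n1.1, n2.2], by linarith [n1.2, n2.1]⟩⟩, ⟨hu, ζ, hR, hzu⟩,
            ⟨hv', ζ, hR, hzv⟩⟩
    rw [Finset.mem_coe, Finset.mem_inter] at hs0 hs1
    have hA0 : s0 ∈ A := ⟨hs0, ζ0, (hC1 hζ0).1, hc0⟩
    obtain ⟨l, hl, hh, hla, hlc⟩ := list_of_rtg hch2
    have hmem : ∀ s ∈ l, s ∈ A := by
      intro s hs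
      cases l with
      | nil => simp at hs
      | cons a l =>
        cases l with
        | nil =>
          rw [List.mem_singleton] at hs
          rw [hs]
          simp only [List.head_cons] at hh
          rw [hh]; exact hA0
        | cons b l =>
          have key : ∀ (l : List ℂ) (a b : ℂ), (a :: b :: l).IsChain
              (fun a b => (DE S a b ∧ |X z0 e a - X z0 e b| ≤ 2 * m) ∧ a ∈ A ∧ b ∈ A) →
              ∀ s ∈ a :: b :: l, s ∈ A := by
            intro l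
            induction l with
            | nil =>
              intro a b h s hs
              rw [List.isChain_cons_cons] at h
              rcases List.mem_cons.1 hs with h' | h'
              · rw [h']; exact h.1.2.1
              · rw [List.mem_singleton] at h'
                rw [h']; exact h.1.2.2
            | cons c l ih =>
              intro a b h s hs
              rw [List.isChain_cons_cons] at h
              rcases List.mem_cons.1 hs with h' | h'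
              · rw [h']; exact h.1.2.1
              · exact ih b c h.2 s h'
          exact key l a b hlc s hs
    have hd : ∀ p ∈ prs l, DE S p.1 p.2 ∧ |X z0 e p.1 - X z0 e p.2| ≤ 2 * m :=
      (isChain_iff_prs (R := fun a b => DE S a b ∧ |X z0 e a - X z0 e b| ≤ 2 * m) _).1
        (hlc.imp fun _ _ h => h.1)
    have info : ∀ s ∈ l, (s ∈ V ∧ s ∉ w ∧ s ∉ sd V z0 e q0 q1 L) ∧
        (r0 - m ≤ X z0 e s ∧ X z0 e s ≤ r1 + m) ∧ v0 - m ≤ Y z0 e s ∧ Y z0 e s ≤ v1 + m := by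
      intro s hs
      obtain ⟨⟨hsS, hsB⟩, ζ, hζ, hc⟩ := hmem s hs
      have k := nr s hsS ζ hζ hc
      rw [hB, Finset.mem_filter] at hsB
      exact ⟨⟨hsB.1, hsB.2⟩, k.1, k.2.1, k.2.2.1⟩
    have lvl : ∀ s ∈ l, L.lv (X z0 e s) < Y z0 e s := by
      intro s hs
      obtain ⟨⟨i1, -, i2⟩, i3, i4, i5⟩ := info s hs
      by_contra hcon
      push Not at hcon
      exact i2 (mem_sd'.2 ⟨i1, ⟨by linarith [i3.1], by linarith [i3.2]⟩, by linarith, hcon⟩)
    refine ⟨l, hl, fun p hp => (hd p hp).1, fun s hs => ?_, fun s hs => ?_, fun s hs ho => ?_,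
      fun s hs => ?_, ?_, ?_, fun p hp => (hd p hp).2⟩
    · have := (info s hs).1
      exact Finset.mem_sdiff.2 ⟨this.1, this.2.1⟩
    · exact ⟨lt_of_le_of_lt (L.lv_ge _) (lvl s hs), by linarith [(info s hs).2.2.2]⟩
    · have := lvl s hs
      rwa [L.lv_out ho] at this
    · have := (info s hs).2.1
      constructor <;> linarith [this.1, this.2]
    · have k := nr s0 hs0.1 ζ0 (hC1 hζ0).1 hc0
      have := (abs_le.1 k.2.2.2.1).2
      rw [hh]
      have e0' : ζ0.re = r0 := e0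
      linarith
    · have k := nr s1 hs1.1 ζ1 (hC1 hζ1).1 hc1
      have := (abs_le.1 k.2.2.2.1).1
      rw [hla]
      have e1' : ζ1.re = r1 := e1
      linarith
  · -- bottom - top crossing: impossible
    exfalso
    have f0 := (hC1 hζ0).2
    have f1 := (hC1 hζ1).2
    rw [hF2, Set.mem_iUnion₂] at f0 f1
    obtain ⟨s0, hs0, hc0⟩ := f0
    obtain ⟨s1, hs1, hc1⟩ := f1
    have hch := G6Tx408.chain_of_cover (s := ((S ∩ W : Finset ℂ) : Set ℂ)) (Finset.finite_toSet _)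
      (F := fun s => φ ⁻¹' (voronoiCell (S : Set ℂ) s)) (fun s _ => (G6Vx408.isClosed_cell _ _).preimage hφc)
      hC2 (fun z hz => (hC1 hz).2) hs0 hs1 ⟨ζ0, hζ0, hc0⟩ ⟨ζ1, hζ1, hc1⟩
    have hK : Kl S V z0 e q0 q1 L w0 s1 := by
      have hs0' := hs0
      rw [Finset.mem_coe, Finset.mem_inter] at hs0'
      have k0 := nr s0 hs0'.1 ζ0 (hC1 hζ0).1 hc0
      have k0' := abs_le.1 k0.2.2.2.2
      have e0' : ζ0.im = v0 := e0
      have hV0 := reg s0 hs0'.1 k0.1.1 k0.1.2 k0.2.1 k0.2.2.1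
      have kl := L.lv_ge (X z0 e s0)
      have hstart : Kl S V z0 e q0 q1 L w0 s0 := Cl.seed (mem_sd'.2 ⟨hV0,
        ⟨by linarith [k0.1.1], by linarith [k0.1.2]⟩, by linarith [k0.2.1], by linarith [k0'.2]⟩)
      clear hc1 hs1 e1 hζ1
      induction hch with
      | refl => exact hstart
      | @tail u v _ h5 ih =>
        obtain ⟨hu, hv', ζ, ⟨hzu, hzv⟩, hzC⟩ := h5
        have hR := (hC1 hzC).1
        rw [Finset.mem_coe, Finset.mem_inter] at hu hv'
        by_cases huv : u = v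
        · rw [← huv]; exact ih
        · have hde : DE S u v := G6Wx723.adj_of_mem hS h3 hu.1 hv'.1 huv hzu hzv
          have k := nr v hv'.1 ζ hR hzv
          have hVv := reg v hv'.1 k.1.1 k.1.2 k.2.1 k.2.2.1
          have hx0 : q0 < X z0 e v := by linarith [k.1.1]
          have hx1 : X z0 e v < q1 := by linarith [k.1.2]
          have hYv := hD u v ih hde hx0 hx1
          rcases le_or_gt (Y z0 e v) (L.lv (X z0 e v)) with hb | hb
          · exact Cl.seed (mem_sd'.2 ⟨hVv, ⟨hx0, hx1⟩, by linarith [k.2.1], hb⟩)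
          · have hvU : v ∈ us V z0 e q0 q1 L := mem_us'.2 ⟨hVv, ⟨hx0, hx1⟩, hb, hYv⟩
            have hvW := hv'.2
            rw [hW, Finset.mem_filter] at hvW
            have hvw : v ∈ w := by
              rcases hvW.2 with h | h
              · exact h
              · exact absurd (mem_sd'.1 h).2.2.2 (not_le.2 hb)
            exact Cl.step ih hde hvU ((h1 v (nb_jn ih hde hvU)).1 hvw)
    have hs1' := hs1
    rw [Finset.mem_coe, Finset.mem_inter] at hs1'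
    have k1 := nr s1 hs1'.1 ζ1 (hC1 hζ1).1 hc1
    have k1' := abs_le.1 k1.2.2.2.2
    have e1' : ζ1.im = v1 := e1
    have := (kl_bd hK).2.2.2
    linarith [k1'.1]

end Crest.Agent.R143.Neckx921
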