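import Crest.Agent.R143.WLoc11_713
import Crest.Agent.R143.IndLoc2_279
import Crest.Agent.R143.Neck2_921

/-!
# Row 143 (S0194), CORE-C block V, V4 / R1d: crossing events of a configuration (helper828)

Asked by helper921; objects of `WLoc10_713` (`sX`, `bX`, `GInv`, `PIso`), `Lk` of `Neck1_921`.

* `Lr S C ρ u v` : a chain of Delaunay neighbours inside `C` with steps in `ρ`; `lr_iff` : `ρ` trivial
  = `Lk`; `Cr S C ρ A0 A1` : such a chain from `A0` to `A1`; `cr_list` : with lists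
* `vc_iff`, `hc_iff`, `hb_iff` : `∃ l, VC ..`, `∃ l, HC ..`, `∃ l, HB ..` are `Cr`
* `kX b X` : black (`b = true`) / white sites; `CrX b A A0 A1 ρ X` : crossing event,
  `CrS b A St A1 ρ X` : from the selected site, `CrL b A A0 A1 ρ R St X` : a crossing which is linked
  to the selected site inside `R`
* `_fme` : measurable; `_cut` : decided by `X ∩ ovr R'`; `_mv` : covariant under rigid motions
* `ind P B` : `ℝ≥0∞` valued indicator of `P` at `X ∩ ovr B`: `ind_fm`, `ind_loc`, `ind_le`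
-/

set_option autoImplicit false
set_option linter.all false

noncomputable section

open scoped Classical

namespace Crest.Agent.R143.CrFLx828

open Set MeasureTheory
open Crest.Agent.R143.B0x346 Crest.Agent.R143.DelGx806 Crest.Agent.R143.DelRx806
open Crest.Agent.R143.Locx922
open Crest.Agent.R143.Blkx838 (DE)
open Crest.Agent.R143.ToolWx838 (prs)
open Crest.Agent.R143.Gatex838 (HC VC)
open Crest.Agent.R143.Neckx921 (Neck NeckD Tile Lk HB list_of_rtg)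
open Crest.Agent.R143.PP0x831 Crest.Agent.R143.Poisx304 Crest.Agent.R143.Janx304
open Crest.Agent.R143.Prodx609 Crest.Agent.R143.FinMx609 Crest.Agent.R143.FinM2x609
open Crest.Agent.R143.CovBx126 (Mo)
open Crest.Agent.R143.WLocx713
open scoped ENNReal

/-! ### chains between sets -/

section chains

variable {S : Finset ℂ} {z0 e : ℂ} {C A0 A1 : Set ℂ} {ρ : ℂ → ℂ → Prop} {u v : ℂ}

/-- a chain of Delaunay neighbours inside `C` with steps in `ρ` -/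
def Lr (S : Finset ℂ) (C : Set ℂ) (ρ : ℂ → ℂ → Prop) (u v : ℂ) : Prop :=
  (u ∈ C ∧ v ∈ C) ∧ Relation.ReflTransGen (fun p q => (DE S p q ∧ ρ p q) ∧ p ∈ C ∧ q ∈ C) u v

/-- no condition on the steps -/
def r1 : ℂ → ℂ → Prop := fun _ _ => True

theorem lr_iff : Lr S C r1 u v ↔ Lk S C u v := by
  have e : (fun p q => (DE S p q ∧ r1 p q) ∧ p ∈ C ∧ q ∈ C) =
      fun p q => DE S p q ∧ p ∈ C ∧ q ∈ C := by
    funext p q
    exact propext ⟨fun h => ⟨h.1.1, h.2⟩, fun h => ⟨⟨h.1, trivial⟩, h.2⟩⟩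
  unfold Lr Neckx921.Lk
  rw [e]

theorem Lr.lk (h : Lr S C ρ u v) : Lk S C u v :=
  ⟨h.1, Relation.ReflTransGen.mono (fun _ _ h => ⟨h.1.1, h.2⟩) _ _ h.2⟩

/-- a chain inside `C` from `A0` to `A1` -/
def Cr (S : Finset ℂ) (C : Set ℂ) (ρ : ℂ → ℂ → Prop) (A0 A1 : Set ℂ) : Prop :=
  ∃ u v, u ∈ A0 ∧ v ∈ A1 ∧ Lr S C ρ u v

theorem cr_iff : Cr S C r1 A0 A1 ↔ ∃ u ∈ A0, ∃ v ∈ A1, Lk S C u v := by
  constructor
  · rintro ⟨u, v, hu, hv, h⟩
    exact ⟨u, hu, v, hv, lr_iff.1 h⟩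
  · rintro ⟨u, hu, v, hv, h⟩
    exact ⟨u, v, hu, hv, lr_iff.2 h⟩

theorem chain_all {r : ℂ → ℂ → Prop} {P : ℂ → Prop} (hr : ∀ a b, r a b → P b) :
    ∀ (l : List ℂ) (hl : l ≠ []), P (l.head hl) → l.IsChain r → ∀ s ∈ l, P s := by
  intro l
  induction l with
  | nil => intro hl; exact absurd rfl hl
  | cons a l ih =>
    intro _ ha hc s hs
    rcases List.mem_cons.1 hs with rfl | hs
    · exact ha
    · cases l with
      | nil => simp at hs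
      | cons b l =>
        rw [List.isChain_cons_cons] at hc
        exact ih (by simp) (hr _ _ hc.1) hc.2 s hs

theorem lr_of_list : ∀ (l : List ℂ) (hl : l ≠ []), (∀ p ∈ prs l, DE S p.1 p.2 ∧ ρ p.1 p.2) →
    (∀ s ∈ l, s ∈ C) → Lr S C ρ (l.head hl) (l.getLast hl) := by
  intro l
  induction l with
  | nil => intro hl; exact absurd rfl hl
  | cons a l ih =>
    intro _ hp hC
    cases l with
    | nil => exact ⟨⟨hC a (by simp), hC a (by simp)⟩, .refl⟩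
    | cons b l =>
      have h1 := ih (by simp) (fun p h => hp p (by rw [prs]; exact List.mem_cons_of_mem _ h))
        fun s hs => hC s (List.mem_cons_of_mem _ hs)
      have h2 := hp (a, b) (by rw [prs]; simp)
      refine ⟨⟨hC a (by simp), ?_⟩, ?_⟩
      · rw [List.getLast_cons (by simp)]
        exact h1.1.2
      · rw [List.getLast_cons (by simp)]
        exact .head ⟨h2, hC a (by simp), hC b (by simp)⟩ h1.2

/-- **crossings as lists** -/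
theorem cr_list : Cr S C ρ A0 A1 ↔ ∃ (l : List ℂ) (h : l ≠ []),
    (∀ p ∈ prs l, DE S p.1 p.2 ∧ ρ p.1 p.2) ∧ (∀ s ∈ l, s ∈ C) ∧ l.head h ∈ A0 ∧
      l.getLast h ∈ A1 := by
  constructor
  · rintro ⟨u, v, hu, hv, h1, h2⟩
    obtain ⟨l, hl, e1, e2, hc⟩ := list_of_rtg h2
    refine ⟨l, hl, ?_, ?_, e1 ▸ hu, e2 ▸ hv⟩
    · have h3 := (Crest.Agent.R143.ToolWx838.isChain_iff_prs
        (R := fun p q => (DE S p q ∧ ρ p q) ∧ p ∈ C ∧ q ∈ C) l).1 hc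
      exact fun p hp => (h3 p hp).1
    · exact chain_all (fun a b h => h.2.2) l hl (e1 ▸ h1.1) hc
  · rintro ⟨l, h, hp, hC, h0, h1⟩
    exact ⟨_, _, h0, h1, lr_of_list l h hp hC⟩

/-- region of a vertical crossing -/
def vA (z0 e : ℂ) (x0 x1 y0 y1 m : ℝ) : Set ℂ :=
  {s | (x0 < Gatex838.X z0 e s ∧ Gatex838.X z0 e s < x1) ∧
    y0 - m ≤ Gatex838.Y z0 e s ∧ Gatex838.Y z0 e s ≤ y1 + m}

/-- region of a horizontal crossing -/
def hA (z0 e : ℂ) (x0 x1 y0 y1 m : ℝ) : Set ℂ :=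
  {s | (y0 < Gatex838.Y z0 e s ∧ Gatex838.Y z0 e s < y1) ∧
    x0 - m ≤ Gatex838.X z0 e s ∧ Gatex838.X z0 e s ≤ x1 + m}

/-- region of the long black crossing -/
def bA (z0 e : ℂ) (x0 x1 a0 a1 b0 p0 p1 m : ℝ) : Set ℂ :=
  {s | ((b0 < Gatex838.Y z0 e s ∧ Gatex838.Y z0 e s < p1) ∧
    ((Gatex838.X z0 e s ≤ a0 ∨ a1 ≤ Gatex838.X z0 e s) → p0 < Gatex838.Y z0 e s)) ∧
    x0 - m ≤ Gatex838.X z0 e s ∧ Gatex838.X z0 e s ≤ x1 + m}

/-- half planes -/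
def Yl (z0 e : ℂ) (y : ℝ) : Set ℂ := {s | Gatex838.Y z0 e s ≤ y}
def Yg (z0 e : ℂ) (y : ℝ) : Set ℂ := {s | y ≤ Gatex838.Y z0 e s}
def Xl (z0 e : ℂ) (x : ℝ) : Set ℂ := {s | Gatex838.X z0 e s ≤ x}
def Xg (z0 e : ℂ) (x : ℝ) : Set ℂ := {s | x ≤ Gatex838.X z0 e s}

/-- short horizontal steps -/
def rs (z0 e : ℂ) (m : ℝ) (p q : ℂ) : Prop := |Gatex838.X z0 e p - Gatex838.X z0 e q| ≤ m

variable {x0 x1 y0 y1 a0 a1 b0 p0 p1 m : ℝ} {β : Finset ℂ}

theorem vc_iff : (∃ l, VC S z0 e x0 x1 y0 y1 m β l) ↔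
    Cr S {s | s ∈ β ∧ s ∈ vA z0 e x0 x1 y0 y1 m} r1 (Yl z0 e y0) (Yg z0 e y1) := by
  rw [cr_list]
  constructor
  · rintro ⟨l, h⟩
    exact ⟨l, h.ne, fun p hp => ⟨h.adj p hp, trivial⟩,
      fun s hs => ⟨h.col s hs, h.strip s hs, h.loc s hs⟩, h.left, h.right⟩
  · rintro ⟨l, h, h1, h2, h3, h4⟩
    exact ⟨l, h, fun p hp => (h1 p hp).1, fun s hs => (h2 s hs).1, fun s hs => (h2 s hs).2.1,
      fun s hs => (h2 s hs).2.2, h3, h4⟩

theorem hc_iff : (∃ l, HC S z0 e x0 x1 y0 y1 m β l) ↔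
    Cr S {s | s ∈ β ∧ s ∈ hA z0 e x0 x1 y0 y1 m} r1 (Xl z0 e x0) (Xg z0 e x1) := by
  rw [cr_list]
  constructor
  · rintro ⟨l, h⟩
    exact ⟨l, h.ne, fun p hp => ⟨h.adj p hp, trivial⟩,
      fun s hs => ⟨h.col s hs, h.strip s hs, h.loc s hs⟩, h.left, h.right⟩
  · rintro ⟨l, h, h1, h2, h3, h4⟩
    exact ⟨l, h, fun p hp => (h1 p hp).1, fun s hs => (h2 s hs).1, fun s hs => (h2 s hs).2.1,
      fun s hs => (h2 s hs).2.2, h3, h4⟩

theorem hb_iff : (∃ l, HB S z0 e x0 x1 a0 a1 b0 p0 p1 m β l) ↔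
    Cr S {s | s ∈ β ∧ s ∈ bA z0 e x0 x1 a0 a1 b0 p0 p1 m} (rs z0 e m) (Xl z0 e x0)
      (Xg z0 e x1) := by
  rw [cr_list]
  constructor
  · rintro ⟨l, h⟩
    exact ⟨l, h.ne, fun p hp => ⟨h.adj p hp, h.step p hp⟩,
      fun s hs => ⟨h.col s hs, ⟨h.strip s hs, h.out s hs⟩, h.loc s hs⟩, h.left, h.right⟩
  · rintro ⟨l, h, h1, h2, h3, h4⟩
    exact ⟨l, h, fun p hp => (h1 p hp).1, fun s hs => (h2 s hs).1, fun s hs => (h2 s hs).2.1.1,
      fun s hs => (h2 s hs).2.1.2, fun s hs => (h2 s hs).2.2, h3, h4, fun p hp => (h1 p hp).2⟩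

theorem vA_meas : MeasurableSet (vA z0 e x0 x1 y0 y1 m) := by
  have hX := meas_X (z0 := z0) (e := e)
  have hY := meas_Y (z0 := z0) (e := e)
  exact ((measurableSet_lt measurable_const hX).inter (measurableSet_lt hX measurable_const)).inter
    ((measurableSet_le measurable_const hY).inter (measurableSet_le hY measurable_const))

theorem hA_meas : MeasurableSet (hA z0 e x0 x1 y0 y1 m) := by
  have hX := meas_X (z0 := z0) (e := e)
  have hY := meas_Y (z0 := z0) (e := e)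
  exact ((measurableSet_lt measurable_const hY).inter (measurableSet_lt hY measurable_const)).inter
    ((measurableSet_le measurable_const hX).inter (measurableSet_le hX measurable_const))

theorem bA_meas : MeasurableSet (bA z0 e x0 x1 a0 a1 b0 p0 p1 m) := by
  have hX := meas_X (z0 := z0) (e := e)
  have hY := meas_Y (z0 := z0) (e := e)
  have e1 : {s | (Gatex838.X z0 e s ≤ a0 ∨ a1 ≤ Gatex838.X z0 e s) → p0 < Gatex838.Y z0 e s} =
      ({s | Gatex838.X z0 e s ≤ a0} ∪ {s | a1 ≤ Gatex838.X z0 e s})ᶜ ∪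
        {s | p0 < Gatex838.Y z0 e s} := by
    ext s
    simp only [mem_ofPred_eq, mem_union, mem_compl_iff]
    exact imp_iff_not_or
  have h1 : MeasurableSet {s | (Gatex838.X z0 e s ≤ a0 ∨ a1 ≤ Gatex838.X z0 e s) →
      p0 < Gatex838.Y z0 e s} := by
    rw [e1]
    exact (((measurableSet_le hX measurable_const).union
      (measurableSet_le measurable_const hX)).compl).union (measurableSet_lt measurable_const hY)
  exact ((((measurableSet_lt measurable_const hY).inter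
    (measurableSet_lt hY measurable_const))).inter h1).inter
    ((measurableSet_le measurable_const hX).inter (measurableSet_le hX measurable_const))

theorem Yl_meas (y : ℝ) : MeasurableSet (Yl z0 e y) := measurableSet_le meas_Y measurable_const
theorem Yg_meas (y : ℝ) : MeasurableSet (Yg z0 e y) := measurableSet_le measurable_const meas_Y
theorem Xl_meas (y : ℝ) : MeasurableSet (Xl z0 e y) := measurableSet_le meas_X measurable_const
theorem Xg_meas (y : ℝ) : MeasurableSet (Xg z0 e y) := measurableSet_le measurable_const meas_X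

theorem r1_meas : MeasurableSet {t : ℂ × ℂ × ℂ | r1 t.1 t.2.1} := by
  have : {t : ℂ × ℂ × ℂ | r1 t.1 t.2.1} = univ := by
    ext t
    simp [r1]
  rw [this]
  exact MeasurableSet.univ

theorem rs_meas : MeasurableSet {t : ℂ × ℂ × ℂ | rs z0 e m t.1 t.2.1} := by
  have hX := meas_X (z0 := z0) (e := e)
  have h : Measurable fun t : ℂ × ℂ × ℂ =>
      |Gatex838.X z0 e t.1 - Gatex838.X z0 e t.2.1| := by
    have h1 := hX.comp (measurable_fst : Measurable fun t : ℂ × ℂ × ℂ => t.1)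
    have h2 := hX.comp (measurable_fst.comp measurable_snd : Measurable fun t : ℂ × ℂ × ℂ => t.2.1)
    exact continuous_abs.measurable.comp (h1.sub h2)
  exact measurableSet_le h measurable_const

end chains

/-! ### transport -/

/-- sites of one colour -/
def kX (b : Bool) (X : Set (ℂ × Bool)) : Finset ℂ := if b then bX X else sX X \ bX X

theorem kX_true (X : Set (ℂ × Bool)) : kX true X = bX X := if_pos rfl
theorem kX_false (X : Set (ℂ × Bool)) : kX false X = sX X \ bX X := if_neg (by decide)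

theorem kX_ps {X : Set (ℂ × Bool)} (hX : X.Finite) {b : Bool} {v : ℂ} (h : v ∈ kX b X) :
    v ∈ ps X := by
  cases b with
  | true =>
    rw [kX_true] at h
    exact ((mem_bX hX).1 h).1
  | false =>
    rw [kX_false, Finset.mem_sdiff] at h
    exact (mem_sX hX).1 h.1

/-- the site of the gate dart with the colour `b` -/
def ds (b : Bool) (p : ℂ × ℂ) : ℂ := if b then p.1 else p.2

theorem ds_mp (b : Bool) (f : ℂ → ℂ) (p : ℂ × ℂ) : ds b (mp f p) = f (ds b p) := by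
  cases b <;> rfl

section transport

variable {ι κ : Type*} [Finite ι] [Finite κ] {U : ι → Set ℂ} {R : κ → ℂ × ℂ × ℂ → Prop}
  {X X' : Set (ℂ × Bool)} {f : ℂ → ℂ} {b : Bool}

theorem iso_kX (hX : X.Finite) (hX' : X'.Finite) (he : PIso U R X X' f) {v : ℂ}
    (h : v ∈ kX b X) : f v ∈ kX b X' := by
  have hv := kX_ps hX h
  cases b with
  | true =>
    rw [kX_true] at h ⊢
    exact (iso_bX hX hX' he hv).1 h
  | false =>
    rw [kX_false, Finset.mem_sdiff] at h ⊢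
    exact ⟨(iso_sX hX hX' he hv).1 h.1, fun h1 => h.2 ((iso_bX hX hX' he hv).2 h1)⟩

/-- chains are transported -/
theorem iso_lr (hX : X.Finite) (hX' : X'.Finite) (he : PIso U R X X' f) {A A' : Set ℂ}
    (hA : ∀ s ∈ ps X, s ∈ A → f s ∈ A') {ρ ρ' : ℂ → ℂ → Prop}
    (hρ : ∀ s ∈ ps X, ∀ t ∈ ps X, ρ s t → ρ' (f s) (f t)) {u v : ℂ}
    (h : Lr (sX X) {s | s ∈ kX b X ∧ s ∈ A} ρ u v) :
    Lr (sX X') {s | s ∈ kX b X' ∧ s ∈ A'} ρ' (f u) (f v) := by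
  obtain ⟨⟨h1, h2⟩, h⟩ := h
  have hm : ∀ s, s ∈ {s | s ∈ kX b X ∧ s ∈ A} → f s ∈ {s | s ∈ kX b X' ∧ s ∈ A'} :=
    fun s hs => ⟨iso_kX hX hX' he hs.1, hA s (kX_ps hX hs.1) hs.2⟩
  refine ⟨⟨hm u h1, hm v h2⟩, ?_⟩
  clear h2
  induction h with
  | refl => exact .refl
  | tail _ h ih =>
    obtain ⟨⟨h3, h6⟩, h4, h5⟩ := h
    exact ih.tail ⟨⟨iso_de hX hX' he h3, hρ _ (kX_ps hX h4.1) _ (kX_ps hX h5.1) h6⟩,
      hm _ h4, hm _ h5⟩

theorem iso_lk' (hX : X.Finite) (hX' : X'.Finite) (he : PIso U R X X' f) {A A' : Set ℂ}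
    (hA : ∀ s ∈ ps X, s ∈ A → f s ∈ A') {u v : ℂ}
    (h : Lk (sX X) {s | s ∈ kX b X ∧ s ∈ A} u v) :
    Lk (sX X') {s | s ∈ kX b X' ∧ s ∈ A'} (f u) (f v) :=
  lr_iff.1 (iso_lr hX hX' he hA (ρ := r1) (ρ' := r1) (fun _ _ _ _ _ => trivial) (lr_iff.2 h))

end transport

/-! ### the events -/

section events

variable {X : Set (ℂ × Bool)} {b : Bool} {A A0 A1 B : Set ℂ} {ρ : ℂ → ℂ → Prop}
  {St : Set (ℂ × Bool) → ℂ × ℂ → Prop}

/-- **crossing event**: a chain of the colour `b` inside `A` from `A0` to `A1` -/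
def CrX (b : Bool) (A A0 A1 : Set ℂ) (ρ : ℂ → ℂ → Prop) (X : Set (ℂ × Bool)) : Prop :=
  X.Finite ∧ Cr (sX X) {s | s ∈ kX b X ∧ s ∈ A} ρ A0 A1

/-- a chain of the colour `b` inside `A` from the selected site to `A1` -/
def CrS (b : Bool) (A A1 : Set ℂ) (ρ : ℂ → ℂ → Prop) (St : Set (ℂ × Bool) → ℂ × ℂ → Prop)
    (X : Set (ℂ × Bool)) : Prop :=
  X.Finite ∧ ∃ p, St X p ∧ ∃ v, v ∈ A1 ∧ Lr (sX X) {s | s ∈ kX b X ∧ s ∈ A} ρ (ds b p) v

/-- a crossing which is linked to the selected site inside `B` -/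
def CrL (b : Bool) (A A0 A1 : Set ℂ) (ρ : ℂ → ℂ → Prop) (B : Set ℂ)
    (St : Set (ℂ × Bool) → ℂ × ℂ → Prop) (X : Set (ℂ × Bool)) : Prop :=
  X.Finite ∧ ∃ p, St X p ∧ ∃ u v, u ∈ A0 ∧ v ∈ A1 ∧
    Lr (sX X) {s | s ∈ kX b X ∧ s ∈ A} ρ u v ∧ Lk (sX X) {s | s ∈ kX b X ∧ s ∈ B} (ds b p) u

/-! #### measurability -/

theorem CrX_fme (hA : MeasurableSet A) (hA0 : MeasurableSet A0) (hA1 : MeasurableSet A1)
    (hρ : MeasurableSet {t : ℂ × ℂ × ℂ | ρ t.1 t.2.1}) : FMe (CrX b A A0 A1 ρ) := by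
  refine finMeas_iso (U := ![A, A0, A1]) (R := fun (_ : Unit) t => ρ t.1 t.2.1)
    (P := CrX b A A0 A1 ρ) ?_ (fun _ => hρ) ?_
  · intro i
    fin_cases i
    · exact hA
    · exact hA0
    · exact hA1
  · rintro X X' hX hX' e he ⟨-, u, v, hu, hv, h⟩
    have m1 := kX_ps hX h.1.1.1
    have m2 := kX_ps hX h.1.2.1
    exact ⟨hX', e u, e v, (he.loc u m1 1).1 hu, (he.loc v m2 2).1 hv,
      iso_lr hX hX' he (fun s hs h => (he.loc s hs 0).1 h)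
        (fun s hs t ht h => (he.rel s hs t ht t ht ()).1 h) h⟩

variable {ι κ : Type*} [Finite ι] [Finite κ] {U : ι → Set ℂ} {R : κ → ℂ × ℂ × ℂ → Prop}

theorem CrS_fme (hU : ∀ a, MeasurableSet (U a)) (hR : ∀ a, MeasurableSet {t | R a t})
    (hSt : GInv U R St) (a a1 : ι) (hρ : ρ = r1 ∨ ∃ k, ∀ t, R k t ↔ ρ t.1 t.2.1) :
    FMe (CrS b (U a) (U a1) ρ St) := by
  refine finMeas_iso hU hR (P := CrS b (U a) (U a1) ρ St) ?_
  rintro X X' hX hX' e he ⟨-, p, hp, v, hv, h⟩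
  refine ⟨hX', mp e p, hSt.tr X X' hX hX' e he p hp, e v, (he.loc v (kX_ps hX h.1.2.1) a1).1 hv, ?_⟩
  rw [ds_mp]
  refine iso_lr hX hX' he (fun s hs h => (he.loc s hs a).1 h) (fun s hs t ht h => ?_) h
  rcases hρ with rfl | ⟨k, hk⟩
  · trivial
  · exact (hk (e s, e t, e t)).1 ((he.rel s hs t ht t ht k).1 ((hk (s, t, t)).2 h))

theorem CrL_fme (hU : ∀ a, MeasurableSet (U a)) (hR : ∀ a, MeasurableSet {t | R a t})
    (hSt : GInv U R St) (a a0 a1 c : ι) (hρ : ρ = r1 ∨ ∃ k, ∀ t, R k t ↔ ρ t.1 t.2.1) :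
    FMe (CrL b (U a) (U a0) (U a1) ρ (U c) St) := by
  refine finMeas_iso hU hR (P := CrL b (U a) (U a0) (U a1) ρ (U c) St) ?_
  rintro X X' hX hX' e he ⟨-, p, hp, u, v, hu, hv, h, h'⟩
  refine ⟨hX', mp e p, hSt.tr X X' hX hX' e he p hp, e u, e v,
    (he.loc u (kX_ps hX h.1.1.1) a0).1 hu, (he.loc v (kX_ps hX h.1.2.1) a1).1 hv, ?_, ?_⟩
  · refine iso_lr hX hX' he (fun s hs h => (he.loc s hs a).1 h) (fun s hs t ht h => ?_) h
    rcases hρ with rfl | ⟨k, hk⟩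
    · trivial
    · exact (hk (e s, e t, e t)).1 ((he.rel s hs t ht t ht k).1 ((hk (s, t, t)).2 h))
  · rw [ds_mp]
    exact iso_lk' hX hX' he (fun s hs h => (he.loc s hs c).1 h) h'

/-! #### locality -/

theorem lr_congr {S S' : Finset ℂ} {B B' : Set ℂ}
    (h : ∀ u v, (DE S u v ∧ u ∈ B ∧ v ∈ B) ↔ (DE S' u v ∧ u ∈ B' ∧ v ∈ B'))
    (hB : ∀ u, u ∈ B ↔ u ∈ B') {u v : ℂ} : Lr S B ρ u v ↔ Lr S' B' ρ u v := by
  have e : (fun u v => (DE S u v ∧ ρ u v) ∧ u ∈ B ∧ v ∈ B) =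
      fun u v => (DE S' u v ∧ ρ u v) ∧ u ∈ B' ∧ v ∈ B' := by
    funext a b
    refine propext ⟨fun g => ?_, fun g => ?_⟩
    · have := (h a b).1 ⟨g.1.1, g.2⟩
      exact ⟨⟨this.1, g.1.2⟩, this.2⟩
    · have := (h a b).2 ⟨g.1.1, g.2⟩
      exact ⟨⟨this.1, g.1.2⟩, this.2⟩
  unfold Lr
  rw [e, hB u, hB v]

/-- **chains inside `A` are decided by `X ∩ ovr R'`** -/
theorem lr_cut {d : ℝ} (hX : X.Finite) (hd : 0 < d) (hH : Hol (ps X) A d) {R' : Set ℂ}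
    (hR : ∀ w ∈ A, ∀ s, ‖s - w‖ < 2 * d → s ∈ R') {u v : ℂ} :
    Lr (sX (X ∩ ovr R')) {s | s ∈ kX b (X ∩ ovr R') ∧ s ∈ A} ρ u v ↔
      Lr (sX X) {s | s ∈ kX b X ∧ s ∈ A} ρ u v := by
  have hY : (X ∩ ovr R').Finite := hX.subset inter_subset_left
  have hc : (sX (X ∩ ovr R') : Set ℂ) = ps X ∩ R' := by rw [coe_sX hY, ps_inter]
  have hH' : Hol (sX X : Set ℂ) A d := by rw [coe_sX hX]; exact hH
  have hA : Agr (sX X : Set ℂ) (sX (X ∩ ovr R') : Set ℂ) A (2 * d) := by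
    intro w hw s hs
    rw [hc, coe_sX hX]
    exact ⟨fun h => ⟨h, hR w hw s hs⟩, fun h => h.1⟩
  have hwR : ∀ s ∈ A, s ∈ R' := fun s hs => hR s hs s (by simpa using hd)
  have mS : ∀ s ∈ A, (s ∈ sX X ↔ s ∈ sX (X ∩ ovr R')) := by
    intro s hs
    rw [mem_sX hX, mem_sX hY, ps_inter]
    exact ⟨fun h => ⟨h, hwR s hs⟩, fun h => h.1⟩
  have mB : ∀ s ∈ A, (s ∈ bX X ↔ s ∈ bX (X ∩ ovr R')) := by
    intro s hs
    rw [mem_bX hX, mem_bX hY, ps_inter, cX_inter (hwR s hs)]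
    exact ⟨fun h => ⟨⟨h.1, hwR s hs⟩, h.2⟩, fun h => ⟨h.1.1, h.2⟩⟩
  have mK : ∀ s ∈ A, (s ∈ kX b X ↔ s ∈ kX b (X ∩ ovr R')) := by
    intro s hs
    cases b with
    | true => rw [kX_true, kX_true]; exact mB s hs
    | false =>
      rw [kX_false, kX_false, Finset.mem_sdiff, Finset.mem_sdiff, mS s hs, mB s hs]
  have hB : ∀ u, u ∈ {s | s ∈ kX b X ∧ s ∈ A} ↔ u ∈ {s | s ∈ kX b (X ∩ ovr R') ∧ s ∈ A} := by
    intro u
    constructor
    · rintro ⟨h1, h2⟩; exact ⟨(mK u h2).1 h1, h2⟩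
    · rintro ⟨h1, h2⟩; exact ⟨(mK u h2).2 h1, h2⟩
  refine (lr_congr (fun a c => ?_) hB).symm
  constructor
  · rintro ⟨h1, h2, h3⟩
    exact ⟨(de_loc hd hH' hA h2.2).1 h1, (hB a).1 h2, (hB c).1 h3⟩
  · rintro ⟨h1, h2, h3⟩
    exact ⟨(de_loc hd hH' hA h2.2).2 h1, (hB a).2 h2, (hB c).2 h3⟩

theorem lk_cut {d : ℝ} (hX : X.Finite) (hd : 0 < d) (hH : Hol (ps X) A d) {R' : Set ℂ}
    (hR : ∀ w ∈ A, ∀ s, ‖s - w‖ < 2 * d → s ∈ R') {u v : ℂ} :
    Lk (sX (X ∩ ovr R')) {s | s ∈ kX b (X ∩ ovr R') ∧ s ∈ A} u v ↔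
      Lk (sX X) {s | s ∈ kX b X ∧ s ∈ A} u v := by
  rw [← lr_iff, ← lr_iff]
  exact lr_cut hX hd hH hR

theorem CrX_cut {d : ℝ} (hX : X.Finite) (hd : 0 < d) (hH : Hol (ps X) A d) {R' : Set ℂ}
    (hR : ∀ w ∈ A, ∀ s, ‖s - w‖ < 2 * d → s ∈ R') :
    CrX b A A0 A1 ρ (X ∩ ovr R') ↔ CrX b A A0 A1 ρ X := by
  have hY : (X ∩ ovr R').Finite := hX.subset inter_subset_left
  constructor
  · rintro ⟨-, u, v, hu, hv, h⟩
    exact ⟨hX, u, v, hu, hv, (lr_cut hX hd hH hR).1 h⟩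
  · rintro ⟨-, u, v, hu, hv, h⟩
    exact ⟨hY, u, v, hu, hv, (lr_cut hX hd hH hR).2 h⟩

theorem CrS_cut {d : ℝ} (hX : X.Finite) (hd : 0 < d) (hH : Hol (ps X) A d) {R' : Set ℂ}
    (hR : ∀ w ∈ A, ∀ s, ‖s - w‖ < 2 * d → s ∈ R') (hSt : ∀ p, St (X ∩ ovr R') p ↔ St X p) :
    CrS b A A1 ρ St (X ∩ ovr R') ↔ CrS b A A1 ρ St X := by
  have hY : (X ∩ ovr R').Finite := hX.subset inter_subset_left
  constructor
  · rintro ⟨-, p, hp, v, hv, h⟩
    exact ⟨hX, p, (hSt p).1 hp, v, hv, (lr_cut hX hd hH hR).1 h⟩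
  · rintro ⟨-, p, hp, v, hv, h⟩
    exact ⟨hY, p, (hSt p).2 hp, v, hv, (lr_cut hX hd hH hR).2 h⟩

theorem CrL_cut {d : ℝ} (hX : X.Finite) (hd : 0 < d) (hH : Hol (ps X) (A ∪ B) d) {R' : Set ℂ}
    (hR : ∀ w ∈ A ∪ B, ∀ s, ‖s - w‖ < 2 * d → s ∈ R') (hSt : ∀ p, St (X ∩ ovr R') p ↔ St X p) :
    CrL b A A0 A1 ρ B St (X ∩ ovr R') ↔ CrL b A A0 A1 ρ B St X := by
  have hY : (X ∩ ovr R').Finite := hX.subset inter_subset_left
  have hHA : Hol (ps X) A d := fun w hw => hH w (Or.inl hw)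
  have hHB : Hol (ps X) B d := fun w hw => hH w (Or.inr hw)
  have hRA : ∀ w ∈ A, ∀ s, ‖s - w‖ < 2 * d → s ∈ R' := fun w hw => hR w (Or.inl hw)
  have hRB : ∀ w ∈ B, ∀ s, ‖s - w‖ < 2 * d → s ∈ R' := fun w hw => hR w (Or.inr hw)
  constructor
  · rintro ⟨-, p, hp, u, v, hu, hv, h, h'⟩
    exact ⟨hX, p, (hSt p).1 hp, u, v, hu, hv, (lr_cut hX hd hHA hRA).1 h,
      (lk_cut hX hd hHB hRB).1 h'⟩
  · rintro ⟨-, p, hp, u, v, hu, hv, h, h'⟩
    exact ⟨hY, p, (hSt p).2 hp, u, v, hu, hv, (lr_cut hX hd hHA hRA).2 h,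
      (lk_cut hX hd hHB hRB).2 h'⟩

end events

/-! ### covariance -/

section mv

variable {X : Set (ℂ × Bool)} {b : Bool} {A A0 A1 A' A0' A1' : Set ℂ} {ρ ρ' : ℂ → ℂ → Prop}
  {φ : ℂ ≃ ℂ} {c : ℂ}

theorem CrX_mv_imp {X : Set (ℂ × Bool)} {φ : ℂ ≃ ℂ} {c : ℂ} (h : Mo φ c)
    {A A0 A1 A' A0' A1' : Set ℂ} {ρ ρ' : ℂ → ℂ → Prop} (hA : ∀ s, φ s ∈ A' ↔ s ∈ A)
    (h0 : ∀ s, φ s ∈ A0' ↔ s ∈ A0) (h1 : ∀ s, φ s ∈ A1' ↔ s ∈ A1)
    (hρ : ∀ s t, ρ' (φ s) (φ t) ↔ ρ s t) (H : CrX b A A0 A1 ρ X) :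
    CrX b A' A0' A1' ρ' (mvX φ X) := by
  obtain ⟨hX, u, v, hu, hv, g⟩ := H
  exact ⟨hX.image _, φ u, φ v, (h0 u).2 hu, (h1 v).2 hv,
    iso_lr hX (hX.image _) (piso_mv h) (fun s _ hs => (hA s).2 hs)
      (fun s _ t _ h => (hρ s t).2 h) g⟩

theorem CrX_mv (h : Mo φ c) (hA : ∀ s, φ s ∈ A' ↔ s ∈ A) (h0 : ∀ s, φ s ∈ A0' ↔ s ∈ A0)
    (h1 : ∀ s, φ s ∈ A1' ↔ s ∈ A1) (hρ : ∀ s t, ρ' (φ s) (φ t) ↔ ρ s t) :
    CrX b A' A0' A1' ρ' (mvX φ X) ↔ CrX b A A0 A1 ρ X := by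
  refine ⟨fun H => ?_, CrX_mv_imp h hA h0 h1 hρ⟩
  have := CrX_mv_imp (mo_symm h) (A' := A) (A0' := A0) (A1' := A1) (ρ' := ρ)
    (fun s => by rw [← hA, φ.apply_symm_apply]) (fun s => by rw [← h0, φ.apply_symm_apply])
    (fun s => by rw [← h1, φ.apply_symm_apply])
    (fun s t => by rw [← hρ, φ.apply_symm_apply, φ.apply_symm_apply]) H
  rwa [mvX_symm] at this

end mv

/-! ### indicators -/

section ind

variable {P Q : Set (ℂ × Bool) → Prop} {B : Set ℂ}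

/-- indicator of the event `P` of the configuration in `B` -/
def ind (P : Set (ℂ × Bool) → Prop) (B : Set ℂ) (X : Set (ℂ × Bool)) : ℝ≥0∞ :=
  if P (X ∩ ovr B) then 1 else 0

theorem ind_le (X : Set (ℂ × Bool)) : ind P B X ≤ 1 := by
  unfold ind
  split_ifs
  · exact le_rfl
  · exact zero_le_one

theorem ind_fm (hP : FMe P) (hB : MeasurableSet B) : FinMeas (ind P B) := by
  intro n
  have h := (IndLoc2x279.FinMeas_inter (f := P) hP hB) n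
  have h1 : MeasurableSet {z : Fin n → ℂ × Bool | P (range z ∩ ovr B)} :=
    measurableSet_setOfPred.2 h
  exact Measurable.ite h1 measurable_const measurable_const

theorem ind_loc : LocalOn B (ind P B) :=
  IndLoc2x279.local_inter (fun X => if P X then (1 : ℝ≥0∞) else 0) B

theorem fme_and (hP : FMe P) (hQ : FMe Q) : FMe fun X => P X ∧ Q X := fun n =>
  (measurableSet_setOfPred.1 ((measurableSet_setOfPred.2 (hP n)).inter
    (measurableSet_setOfPred.2 (hQ n))))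

theorem fme_or (hP : FMe P) (hQ : FMe Q) : FMe fun X => P X ∨ Q X := fun n =>
  (measurableSet_setOfPred.1 ((measurableSet_setOfPred.2 (hP n)).union
    (measurableSet_setOfPred.2 (hQ n))))

theorem fme_not (hP : FMe P) : FMe fun X => ¬ P X := fun n =>
  (measurableSet_setOfPred.1 (measurableSet_setOfPred.2 (hP n)).compl)

end ind

end Crest.Agent.R143.CrFLx828
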