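import Crest.Agent.R143.Cross2_228
import Crest.Agent.R143.Neck1_921

/-!
# Row 143 (S0194), part B without E3: CROSS for 921's necks (helper228)

* `Neck.cross`, `NeckD.cross` : a path of the colour of the neck site inside the corridor from one side
  of the window to the other one passes the neck site
* `NeckD.cross_union` : literal form of `DRing.cross`
-/

set_option autoImplicit false

noncomputable section

open scoped Classical

namespace Crest.Agent.R143.Crossx228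

open Crest.Agent.R143.B0x346 Crest.Agent.R143.DelGx806 Crest.Agent.R143.DelRx806
open Crest.Agent.R143.ToolWx838 Crest.Agent.R143.Blkx838
open Crest.Agent.R143.Gatex838 Crest.Agent.R143.RingDx117 Crest.Agent.R143.Neckx921

variable {S V β : Finset ℂ} {χ : ℂ → ZMod 2} {z0 e : ℂ} {a0 a1 b0 b1 m m' : ℝ} {up dn : List ℂ}
  {x y : ℂ}

/-- **CROSS** for a neck; `s`, `t` on different sides of the window, in any order -/
theorem neck_cross (h : Neck S z0 e a0 a1 b0 b1 m' V β up y dn) (hS : GP (S : Set ℂ)) (he : e ≠ 0)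
    (hχ : ∀ s ∈ V, χ s = χ y ↔ s ∈ β) {Cor : Set ℂ}
    (hC : ∀ s ∈ S, s ∈ Cor → a0 - m ≤ X z0 e s → X z0 e s ≤ a1 + m →
      b0 < Y z0 e s ∧ Y z0 e s < b1)
    (hm : ∀ u v, DE S u v → u ∈ Cor → v ∈ Cor → |X z0 e u - X z0 e v| ≤ m) {s t : ℂ}
    (hst : χ s = χ y)
    (hx : (X z0 e s ≤ a0 ∧ a1 ≤ X z0 e t) ∨ (a1 ≤ X z0 e s ∧ X z0 e t ≤ a0)) :
    ¬ Relation.ReflTransGen (StR S χ Cor y) s t := by
  have cu : ∀ s ∈ up, χ s ≠ χ y := fun s hs hc => (h.cu s hs).2 ((hχ s (h.cu s hs).1).1 hc)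
  have cd : ∀ s ∈ dn, b0 < Y z0 e s → χ s ≠ χ y := fun s hs hY hc =>
    (h.cd s hs hY).2 ((hχ s (h.cd s hs hY).1).1 hc)
  rcases hx with ⟨h1, h2⟩ | ⟨h1, h2⟩
  · exact cross_str hS he h.nu h.nd h.adj cu cd (fun s hs => (h.win s hs).1) h.top h.bot hC hm hst
      h1 h2
  · exact cross_str' hS he h.nu h.nd h.adj cu cd (fun s hs => (h.win s hs).1) h.top h.bot hC hm
      hst h1 h2

/-- **CROSS** for the gate predicate -/
theorem neckD_cross (h : NeckD S z0 e a0 a1 b0 b1 m' V β y x) (hS : GP (S : Set ℂ)) (he : e ≠ 0)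
    (hχ : ∀ s ∈ V, χ s = χ y ↔ s ∈ β) {Cor : Set ℂ}
    (hC : ∀ s ∈ S, s ∈ Cor → a0 - m ≤ X z0 e s → X z0 e s ≤ a1 + m →
      b0 < Y z0 e s ∧ Y z0 e s < b1)
    (hm : ∀ u v, DE S u v → u ∈ Cor → v ∈ Cor → |X z0 e u - X z0 e v| ≤ m) {s t : ℂ}
    (hst : χ s = χ y)
    (hx : (X z0 e s ≤ a0 ∧ a1 ≤ X z0 e t) ∨ (a1 ≤ X z0 e s ∧ X z0 e t ≤ a0)) :
    ¬ Relation.ReflTransGen (StR S χ Cor y) s t := by
  obtain ⟨up, dn, h, -⟩ := h
  exact neck_cross h hS he hχ hC hm hst hx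

/-- **CROSS**, literally `DRing.cross`: the neck site `y1` between the regions `A0` and `A1` -/
theorem neckD_cross_union {y0 y1 y2 : ℂ} {A0 A1 : Set ℂ}
    (h : NeckD S z0 e a0 a1 b0 b1 m' V β y1 x) (hS : GP (S : Set ℂ)) (he : e ≠ 0)
    (hχ : ∀ s ∈ V, χ s = χ y1 ↔ s ∈ β)
    (hC0 : ∀ s ∈ S, s ∈ A0 → a0 - m ≤ X z0 e s → X z0 e s ≤ a1 + m →
      b0 < Y z0 e s ∧ Y z0 e s < b1)
    (hC1 : ∀ s ∈ S, s ∈ A1 → a0 - m ≤ X z0 e s → X z0 e s ≤ a1 + m →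
      b0 < Y z0 e s ∧ Y z0 e s < b1)
    (hm : ∀ u v, DE S u v → (u ∈ A0 ∨ u ∈ A1) → (v ∈ A0 ∨ v ∈ A1) → |X z0 e u - X z0 e v| ≤ m)
    (hc : χ y0 = χ y1)
    (hx : (X z0 e y0 ≤ a0 ∧ a1 ≤ X z0 e y2) ∨ (a1 ≤ X z0 e y0 ∧ X z0 e y2 ≤ a0)) :
    ¬ Relation.ReflTransGen (StR S χ (A0 ∪ A1) y1) y0 y2 :=
  neckD_cross h hS he hχ
    (fun s hs hs' => hs'.elim (fun h => hC0 s hs h) (fun h => hC1 s hs h)) hm hc hx

/-- coordinates of a short edge -/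
theorem abs_X_sub (z0 : ℂ) {e : ℂ} (he : ‖e‖ = 1) (u v : ℂ) :
    |X z0 e u - X z0 e v| ≤ ‖u - v‖ := by
  have h : X z0 e u - X z0 e v = ((u - v) / e).re := by
    unfold X
    rw [← Complex.sub_re, ← sub_div]
    congr 2
    ring
  rw [h]
  refine (Complex.abs_re_le_norm _).trans ?_
  rw [norm_div, he, div_one]

theorem abs_Y_sub (z0 : ℂ) {e : ℂ} (he : ‖e‖ = 1) (u v : ℂ) :
    |Y z0 e u - Y z0 e v| ≤ ‖u - v‖ := by
  have h : Y z0 e u - Y z0 e v = ((u - v) / e).im := by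
    unfold Y
    rw [← Complex.sub_im, ← sub_div]
    congr 2
    ring
  rw [h]
  refine (Complex.abs_im_le_norm _).trans ?_
  rw [norm_div, he, div_one]

end Crest.Agent.R143.Crossx228
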