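import Crest.Agent.R143.JCol2_54

/-!
# Row 143, block P (P2b), file 1: four marks on the hull (helper117)

* `Chn S σ a b` : chain of Delaunay neighbours of one colour
* `leg_sites` : the left sites of a leg form a chain, the right sites too
* `leg_col` : a leg from a hull mark is the boundary of a colouring `χ`; on the hull `χ` changes
  exactly at the two ends
* `hm w i` : the hull edge `(w i, w (i + 1))`; `M4 S n w i0 i1 i2 i3` : four marks in cyclic order
* `cross4` : the colouring `σ` changes on the hull exactly at the four marks: the leg from `hm i1`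
  ends at `hm i2` iff there is a chain from the arc `(i0, i1]` to the arc `(i2, i3]`, and ends at
  `hm i0` iff there is a chain from the arc `(i1, i2]` to the arc `(i3, i0 + n]`
-/

set_option autoImplicit false

noncomputable section

open scoped Classical

namespace Crest.Agent.R143.Crsx117

open Crest.Agent.R143.B0x346 Crest.Agent.R143.DelGx806 Crest.Agent.R143.DelRx806
  Crest.Agent.R143.B0Dx346 Crest.Agent.R143.JColx54 Crest.Agent.R143.JCol2x54
  Crest.Agent.R143.JWalkx872

variable {S : Finset ℂ} {G : Trg ℂ} {kl : Set (ℂ × ℂ)} {D : Set (ℂ × ℂ)} {J : Finset (ℂ × ℂ)}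

/-- chain of neighbouring sites of the same colour -/
def Chn (S : Finset ℂ) (σ : ℂ → Bool) (a b : ℂ) : Prop :=
  Relation.ReflTransGen (fun x y => Adj S x y ∧ σ x = σ y) a b

theorem Chn.refl (σ : ℂ → Bool) (a : ℂ) : Chn S σ a a := Relation.ReflTransGen.refl

theorem Chn.trans {σ : ℂ → Bool} {a b c : ℂ} (h : Chn S σ a b) (h' : Chn S σ b c) :
    Chn S σ a c := Relation.ReflTransGen.trans h h'

theorem Chn.symm {σ : ℂ → Bool} {a b : ℂ} (h : Chn S σ a b) : Chn S σ b a := by
  induction h with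
  | refl => exact Relation.ReflTransGen.refl
  | tail _ h ih => exact Relation.ReflTransGen.head ⟨h.1.symm, h.2.symm⟩ ih

theorem Chn.col {σ : ℂ → Bool} {a b : ℂ} (h : Chn S σ a b) : σ a = σ b := by
  induction h with
  | refl => rfl
  | tail _ h ih => exact ih.trans h.2

theorem Chn.single {σ : ℂ → Bool} {a b : ℂ} (h : Adj S a b) (h' : σ a = σ b) : Chn S σ a b :=
  Relation.ReflTransGen.single ⟨h, h'⟩

/-- `σ` is a colouring of the sites with boundary `J` -/
def Bd (S : Finset ℂ) (J : Finset (ℂ × ℂ)) (σ : ℂ → Bool) : Prop :=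
  ∀ a b, Adj S a b → (σ a ≠ σ b ↔ ((a, b) ∈ J ∨ (b, a) ∈ J))

theorem Bd.ne {σ : ℂ → Bool} (h : Bd S J σ) (hG : G.T = delT S) (hJ : IsJoin G kl ∅ D J)
    {a b : ℂ} (hab : (a, b) ∈ J) : σ a ≠ σ b :=
  (h a b ((mem_E hG).1 (hJ.sub hab))).2 (Or.inl hab)

/-- the sites on the two sides of one step -/
theorem step_sites {σ : ℂ → Bool} (hS : GP (S : Set ℂ)) (hσ : Bd S J σ) (hG : G.T = delT S)
    (hJ : IsJoin G kl ∅ D J) {p q : ℂ × ℂ} (hp : p ∈ J) (h : Step G ∅ D J p q) :
    Chn S σ p.1 q.1 ∧ Chn S σ p.2 q.2 := by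
  obtain ⟨l, r⟩ := p
  obtain ⟨c, hc, -, -, h⟩ := h
  dsimp only at hc h ⊢
  rw [hG] at hc
  have h1 : σ l ≠ σ r := hσ.ne hG hJ hp
  rcases h with ⟨h2, rfl⟩ | ⟨h2, -, rfl⟩
  · have h3 : σ r ≠ σ c := hσ.ne hG hJ h2
    refine ⟨Chn.single (adj_tri'' hS hc).symm ?_, Chn.refl _ _⟩
    revert h1 h3
    generalize σ l = x, σ r = y, σ c = z
    revert x y z
    decide
  · have h3 : σ c ≠ σ l := hσ.ne hG hJ h2
    refine ⟨Chn.refl _ _, Chn.single (adj_tri' hS hc) ?_⟩
    revert h1 h3
    generalize σ l = x, σ r = y, σ c = z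
    revert x y z
    decide

/-- **the sites on the two sides of a leg** -/
theorem leg_sites {σ : ℂ → Bool} (hS : GP (S : Set ℂ)) (hσ : Bd S J σ) (hG : G.T = delT S)
    (hJ : IsJoin G kl ∅ D J) {s q : ℂ × ℂ} (hs : s ∈ J) (h : Leads G ∅ D J s q) :
    Chn S σ s.1 q.1 ∧ Chn S σ s.2 q.2 := by
  induction h with
  | refl => exact ⟨Chn.refl _ _, Chn.refl _ _⟩
  | tail h1 h2 ih =>
    have h3 := step_sites hS hσ hG hJ (leads_step_mem hJ hs h1 h2) h2
    exact ⟨ih.1.trans h3.1, ih.2.trans h3.2⟩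

/-- the walk from `s` visits the edge `{a, b}` -/
def Vis (G : Trg ℂ) (D : Set (ℂ × ℂ)) (J : Finset (ℂ × ℂ)) (s : ℂ × ℂ) (a b : ℂ) : Prop :=
  Leads G ∅ D J s (a, b) ∨ Leads G ∅ D J s (b, a)

theorem Vis.symm {s : ℂ × ℂ} {a b : ℂ} (h : Vis G D J s a b) : Vis G D J s b a := Or.symm h

/-- visited edges are occupied -/
theorem Vis.occ {s : ℂ × ℂ} {a b : ℂ} (hJ : IsJoin G kl ∅ D J) (hs : s ∈ J)
    (h : Vis G D J s a b) : (a, b) ∈ J ∨ (b, a) ∈ J := by
  rcases h with h | h
  · rcases leads_mem hJ hs h with h' | h'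
    · exact Or.inl h'
    · exact Or.inr (hJ.mark _ _ h').1
  · rcases leads_mem hJ hs h with h' | h'
    · exact Or.inr h'
    · exact Or.inl (hJ.mark _ _ h').1

/-- the walk which visits one side of a triangle visits another side -/
theorem vis_other (_hS : GP (S : Set ℂ)) (hG : G.T = delT S) (hD : HullM S D)
    (hJ : IsJoin G kl ∅ D J) {s : ℂ × ℂ} (hs : s ∈ D) {a b c : ℂ} (ht : (a, b, c) ∈ delT S)
    (h : Vis G D J s a b) : Vis G D J s b c ∨ Vis G D J s c a := by
  have hsJ : s ∈ J := (hJ.mark s.1 s.2 hs).1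
  rcases h with h | h
  · -- the walker enters the triangle
    have hbaD : (b, a) ∉ D := fun h' => hD _ _ h' c ht
    have hJab : (a, b) ∈ J := by
      rcases leads_mem hJ hsJ h with h' | h'
      · exact h'
      · exact absurd h' hbaD
    have hpar := hJ.par a b c (by rw [hG]; exact ht)
    rw [if_neg (Set.notMem_empty _)] at hpar
    have hc : (a, b, c) ∈ G.T := by rw [hG]; exact ht
    by_cases h1 : (b, c) ∈ J
    · left; right
      exact h.tail ⟨c, hc, Set.notMem_empty _, hbaD, Or.inl ⟨h1, rfl⟩⟩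
    · by_cases h2 : (c, a) ∈ J
      · right; right
        exact h.tail ⟨c, hc, Set.notMem_empty _, hbaD, Or.inr ⟨h2, h1, rfl⟩⟩
      · simp only [hJab, h1, h2, if_true, if_false] at hpar
        omega
  · -- the walker has left the triangle through `{a, b}`
    rcases Relation.ReflTransGen.cases_tail h with h1 | ⟨p, h1, h2⟩
    · exfalso
      have : (b, a) ∈ D := by rw [h1]; exact hs
      exact hD _ _ this c ht
    · obtain ⟨l, r⟩ := p
      obtain ⟨x, hx, -, -, h3⟩ := h2
      dsimp only at hx h3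
      have hc : (a, b, c) ∈ G.T := by rw [hG]; exact ht
      rcases h3 with ⟨-, h3⟩ | ⟨-, -, h3⟩
      · rw [Prod.mk.injEq] at h3
        obtain ⟨rfl, rfl⟩ := h3
        -- triangle (l, a, b), rotated: (a, b, l)
        have h4 := G.uniq hc (G.rot hx)
        subst h4
        right; left
        exact h1
      · rw [Prod.mk.injEq] at h3
        obtain ⟨rfl, rfl⟩ := h3
        -- triangle (b, r, a), rotated: (a, b, r)
        have h4 := G.uniq hc (G.rot (G.rot hx))
        subst h4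
        left; left
        exact h1

/-- **a leg is the boundary of a colouring** -/
theorem leg_col (hS : GP (S : Set ℂ)) (hG : G.T = delT S) (hD : HullM S D)
    (hJ : IsJoin G kl ∅ D J) {s : ℂ × ℂ} (hs : s ∈ D) :
    ∃ χ : ℂ → Bool, ∀ a b, Adj S a b → (χ a ≠ χ b ↔ Vis G D J s a b) := by
  have hsJ : s ∈ J := (hJ.mark s.1 s.2 hs).1
  obtain ⟨χ, hχ⟩ := exact hS (A := ZMod 2)
    (f := fun a b => if Vis G D J s a b then 1 else 0)
    (by
      intro a b _
      have e : Vis G D J s b a ↔ Vis G D J s a b := ⟨Vis.symm, Vis.symm⟩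
      simp only [e]
      split_ifs <;> decide)
    (by
      intro a b c h
      have hG' : (a, b, c) ∈ G.T := by rw [hG]; exact h
      have r1 := delT_rot hS h
      have r2 := delT_rot hS r1
      have o1 := occ_iff hG hD hJ h
      have o2 := occ_iff hG hD hJ r1
      have o3 := occ_iff hG hD hJ r2
      have hp := hJ.par a b c hG'
      rw [if_neg (Set.notMem_empty _)] at hp
      have v1 : Vis G D J s a b → (a, b) ∈ J := fun h' => o1.1 (h'.occ hJ hsJ)
      have v2 : Vis G D J s b c → (b, c) ∈ J := fun h' => o2.1 (h'.occ hJ hsJ)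
      have v3 : Vis G D J s c a → (c, a) ∈ J := fun h' => o3.1 (h'.occ hJ hsJ)
      have w1 := vis_other hS hG hD hJ hs h
      have w2 := vis_other hS hG hD hJ hs r1
      have w3 := vis_other hS hG hD hJ hs r2
      by_cases x1 : Vis G D J s a b <;> by_cases x2 : Vis G D J s b c <;>
        by_cases x3 : Vis G D J s c a <;> simp only [x1, x2, x3, if_true, if_false] <;>
        first
        | decide
        | (exfalso
           have y1 := v1 x1
           have y2 := v2 x2
           have y3 := v3 x3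
           simp only [y1, y2, y3, if_true] at hp
           omega)
        | (exfalso
           simp only [x1, x2, x3, true_implies, or_self, or_false, or_true,
             false_implies] at w1 w2 w3))
  refine ⟨fun a => decide (χ a = 1), fun a b hab => ?_⟩
  have h := hχ a b hab
  by_cases hx : Vis G D J s a b
  · simp only [hx, if_true] at h
    simp only [hx, iff_true, ne_eq, decide_eq_decide]
    generalize χ a = u at h
    generalize χ b = v at h
    revert u v
    decide
  · simp only [hx, if_false] at h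
    simp only [hx, iff_false, ne_eq, not_not, decide_eq_decide]
    generalize χ a = u at h
    generalize χ b = v at h
    revert u v
    decide

/-- the hull edges which are visited are the two ends of the leg -/
theorem vis_hull (hG : G.T = delT S) {s m : ℂ × ℂ} (hm : m ∈ D)
    (hend : Ends G ∅ D J s m) {a b : ℂ} (h : hullE S a b) :
    Vis G D J s a b ↔ (a, b) = s ∨ (a, b) = m := by
  constructor
  · rintro (h1 | h1)
    · rcases Relation.ReflTransGen.cases_tail h1 with h2 | ⟨p, _, h3⟩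
      · exact Or.inl h2
      · exfalso
        obtain ⟨l, r⟩ := p
        obtain ⟨x, hx, -, -, h4⟩ := h3
        dsimp only at hx h4
        rcases h4 with ⟨-, h4⟩ | ⟨-, -, h4⟩
        · rw [Prod.mk.injEq] at h4
          obtain ⟨rfl, rfl⟩ := h4
          have := G.rot hx
          rw [hG] at this
          exact h.2 _ this
        · rw [Prod.mk.injEq] at h4
          obtain ⟨rfl, rfl⟩ := h4
          have := G.rot (G.rot hx)
          rw [hG] at this
          exact h.2 _ this
    · right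
      -- `(b, a)` is on the walk, and there is no triangle on its left: it is the end
      have U : Relator.RightUnique (Step G ∅ D J) := fun _ _ _ h1 h2 => step_det h1 h2
      have hT : Term G ∅ D J (m.2, m.1) := Or.inl hm
      rcases Relation.ReflTransGen.total_of_right_unique U h1 hend with h2 | h2
      · rcases Relation.ReflTransGen.cases_head h2 with h3 | ⟨q, hq, _⟩
        · rw [Prod.mk.injEq] at h3
          exact Prod.ext h3.2 h3.1
        · exfalso
          obtain ⟨x, hx, _⟩ := hq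
          rw [hG] at hx
          exact h.2 _ hx
      · have h3 := term_leads hT h2
        rw [Prod.mk.injEq] at h3
        exact Prod.ext h3.2 h3.1
  · rintro (h1 | h1)
    · left
      rw [h1]
      exact Relation.ReflTransGen.refl
    · right
      have e1 : a = m.1 := congrArg Prod.fst h1
      have e2 : b = m.2 := congrArg Prod.snd h1
      rw [e1, e2]
      exact hend

/-- `χ` is constant along the chains of `σ` -/
theorem chn_const {σ χ : ℂ → Bool} (hσ : Bd S J σ) (hJ : IsJoin G kl ∅ D J) {s : ℂ × ℂ}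
    (hs : s ∈ D) (hχ : ∀ a b, Adj S a b → (χ a ≠ χ b ↔ Vis G D J s a b)) {a b : ℂ}
    (h : Chn S σ a b) : χ a = χ b := by
  have hsJ : s ∈ J := (hJ.mark s.1 s.2 hs).1
  induction h with
  | refl => rfl
  | tail _ h ih =>
    rename_i x y _
    refine ih.trans ?_
    by_contra hne
    have h1 := ((hχ x y h.1).1 hne).occ hJ hsJ
    exact (hσ x y h.1).2 h1 h.2

/-! ### marks on the hull cycle -/

/-- the hull edge number `i` -/
def hm (w : ℤ → ℂ) (i : ℤ) : ℂ × ℂ := (w i, w (i + 1))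

/-- four marks in cyclic order on the hull -/
structure M4 (S : Finset ℂ) (n : ℕ) (w : ℤ → ℂ) (i0 i1 i2 i3 : ℤ) : Prop where
  cyc : HullCyc S n w
  h01 : i0 < i1
  h12 : i1 < i2
  h23 : i2 < i3
  h30 : i3 < i0 + n

/-- the four marks -/
def D4 (w : ℤ → ℂ) (i0 i1 i2 i3 : ℤ) : Set (ℂ × ℂ) := {hm w i0, hm w i1, hm w i2, hm w i3}

theorem w_inj {n : ℕ} {w : ℤ → ℂ} (h : HullCyc S n w) {i j : ℤ} (hij : i ≤ j) (hj : j < i + n)
    (e : w i = w j) : i = j := by
  have hn : (0 : ℤ) < n := by exact_mod_cast h.pos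
  have h1 := mod_per h.pos h.per i
  have h2 := mod_per h.pos h.per j
  have h3 : i % n = j % n := h.inj _ _ (Int.emod_nonneg _ hn.ne') (Int.emod_lt_of_pos _ hn)
    (Int.emod_nonneg _ hn.ne') (Int.emod_lt_of_pos _ hn) (by rw [h1, h2, e])
  have h4 : ((n : ℕ) : ℤ) ∣ (j - i) := Int.ModEq.dvd h3
  obtain ⟨k, hk⟩ := h4
  have h5 : 0 ≤ (n : ℤ) * k := by rw [← hk]; linarith
  have h6 : (n : ℤ) * k < n := by rw [← hk]; linarith
  have h7 : k = 0 := by
    by_contra hk0
    rcases lt_or_gt_of_ne hk0 with h | h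
    · nlinarith
    · nlinarith
  rw [h7] at hk
  linarith

theorem hm_ne {n : ℕ} {w : ℤ → ℂ} (h : HullCyc S n w) {i j : ℤ} (hij : i < j) (hj : j < i + n) :
    hm w i ≠ hm w j := fun e => hij.ne (w_inj h hij.le hj (congrArg Prod.fst e))

theorem w_const {X : Type} {w : ℤ → ℂ} {χ : ℂ → X} {a b : ℤ} (hab : a ≤ b)
    (h : ∀ k, a ≤ k → k < b → χ (w k) = χ (w (k + 1))) : χ (w a) = χ (w b) := by
  obtain ⟨m, rfl⟩ := Int.le.dest hab
  induction m with
  | zero => simp
  | succ m ih =>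
    have h1 := ih (by linarith) (fun k h1 h2 => h k h1 (by push_cast; linarith))
    rw [h1, h (a + m) (by linarith) (by push_cast; linarith)]
    congr 2
    push_cast
    ring

theorem chn_arc {n : ℕ} {w : ℤ → ℂ} (hc : HullCyc S n w) {σ : ℂ → Bool} {a b : ℤ} (hab : a ≤ b)
    (h : ∀ k, a ≤ k → k < b → σ (w k) = σ (w (k + 1))) : Chn S σ (w a) (w b) := by
  obtain ⟨m, rfl⟩ := Int.le.dest hab
  induction m with
  | zero => simp [Chn.refl]
  | succ m ih =>
    have h1 := ih (by linarith) (fun k h1 h2 => h k h1 (by push_cast; linarith))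
    refine h1.trans ?_
    have h2 := h (a + m) (by linarith) (by push_cast; linarith)
    have e : a + ((m + 1 : ℕ) : ℤ) = a + m + 1 := by push_cast; ring
    rw [e]
    exact Chn.single (Or.inl (hc.edge (a + m)).1) h2

namespace M4

variable {n : ℕ} {w : ℤ → ℂ} {i0 i1 i2 i3 : ℤ}

/-- the other hull edges are not marks -/
theorem not_mem (h : M4 S n w i0 i1 i2 i3) {k : ℤ} (h1 : i0 ≤ k) (h2 : k < i0 + n)
    (k0 : k ≠ i0) (k1 : k ≠ i1) (k2 : k ≠ i2) (k3 : k ≠ i3) : hm w k ∉ D4 w i0 i1 i2 i3 := by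
  have := h.h01
  have := h.h12
  have := h.h23
  have := h.h30
  have key : ∀ i, i0 ≤ i → i < i0 + n → k ≠ i → hm w k ≠ hm w i := by
    intro i hi hi' hne
    rcases lt_or_gt_of_ne hne with h3 | h3
    · exact hm_ne h.cyc h3 (by linarith)
    · exact (hm_ne h.cyc h3 (by linarith)).symm
  rintro (h3 | h3 | h3 | h3)
  · exact key i0 (by linarith) (by linarith) k0 h3
  · exact key i1 (by linarith) (by linarith) k1 h3
  · exact key i2 (by linarith) (by linarith) k2 h3
  · exact key i3 (by linarith) (by linarith) k3 h3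

theorem hull (h : M4 S n w i0 i1 i2 i3) {a b : ℂ} (hab : (a, b) ∈ D4 w i0 i1 i2 i3) :
    hullE S a b := by
  rcases hab with h3 | h3 | h3 | h3 <;>
    (have e1 := congrArg Prod.fst h3; have e2 := congrArg Prod.snd h3
     simp only [hm] at e1 e2; rw [e1, e2]; exact h.cyc.edge _)

theorem hullM (h : M4 S n w i0 i1 i2 i3) : HullM S (D4 w i0 i1 i2 i3) :=
  fun _ _ hab => (h.hull hab).2

variable {σ : ℂ → Bool}

theorem col_step (h : M4 S n w i0 i1 i2 i3) (hσ : IsCol S kl (D4 w i0 i1 i2 i3) σ) {k : ℤ}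
    (h1 : i0 ≤ k) (h2 : k < i0 + n) (k0 : k ≠ i0) (k1 : k ≠ i1) (k2 : k ≠ i2) (k3 : k ≠ i3) :
    σ (w k) = σ (w (k + 1)) :=
  hσ.hull _ _ (h.cyc.edge k) (h.not_mem h1 h2 k0 k1 k2 k3)

theorem arc0 (h : M4 S n w i0 i1 i2 i3) (hσ : IsCol S kl (D4 w i0 i1 i2 i3) σ) {a b : ℤ}
    (ha : i0 < a) (hab : a ≤ b) (hb : b ≤ i1) : Chn S σ (w a) (w b) := by
  have := h.h12
  have := h.h23
  have := h.h30
  exact chn_arc h.cyc hab fun k h1 h2 => h.col_step hσ (by linarith) (by linarith)
    (by omega) (by omega) (by omega) (by omega)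

theorem arc1 (h : M4 S n w i0 i1 i2 i3) (hσ : IsCol S kl (D4 w i0 i1 i2 i3) σ) {a b : ℤ}
    (ha : i1 < a) (hab : a ≤ b) (hb : b ≤ i2) : Chn S σ (w a) (w b) := by
  have := h.h01
  have := h.h23
  have := h.h30
  exact chn_arc h.cyc hab fun k h1 h2 => h.col_step hσ (by linarith) (by linarith)
    (by omega) (by omega) (by omega) (by omega)

theorem arc2 (h : M4 S n w i0 i1 i2 i3) (hσ : IsCol S kl (D4 w i0 i1 i2 i3) σ) {a b : ℤ}
    (ha : i2 < a) (hab : a ≤ b) (hb : b ≤ i3) : Chn S σ (w a) (w b) := by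
  have := h.h01
  have := h.h12
  have := h.h30
  exact chn_arc h.cyc hab fun k h1 h2 => h.col_step hσ (by linarith) (by linarith)
    (by omega) (by omega) (by omega) (by omega)

theorem arc3 (h : M4 S n w i0 i1 i2 i3) (hσ : IsCol S kl (D4 w i0 i1 i2 i3) σ) {a b : ℤ}
    (ha : i3 < a) (hab : a ≤ b) (hb : b ≤ i0 + n) : Chn S σ (w a) (w b) := by
  have := h.h01
  have := h.h12
  have := h.h23
  exact chn_arc h.cyc hab fun k h1 h2 => h.col_step hσ (by linarith) (by linarith)
    (by omega) (by omega) (by omega) (by omega)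

/-- colour changes at the marks -/
theorem change (hσ : IsCol S kl (D4 w i0 i1 i2 i3) σ) {i : ℤ}
    (hi : hm w i ∈ D4 w i0 i1 i2 i3) : σ (w i) ≠ σ (w (i + 1)) := hσ.mark _ _ hi

theorem m0 : hm w i0 ∈ D4 w i0 i1 i2 i3 := Or.inl rfl
theorem m1 : hm w i1 ∈ D4 w i0 i1 i2 i3 := Or.inr (Or.inl rfl)
theorem m2 : hm w i2 ∈ D4 w i0 i1 i2 i3 := Or.inr (Or.inr (Or.inl rfl))
theorem m3 : hm w i3 ∈ D4 w i0 i1 i2 i3 := Or.inr (Or.inr (Or.inr rfl))

/-- the colours of the four arcs alternate -/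
theorem cols (h : M4 S n w i0 i1 i2 i3) (hσ : IsCol S kl (D4 w i0 i1 i2 i3) σ) :
    σ (w (i0 + 1)) = σ (w i1) ∧ σ (w (i1 + 1)) = σ (w i2) ∧ σ (w (i2 + 1)) = σ (w i3) ∧
    σ (w (i3 + 1)) = σ (w i0) ∧ σ (w i1) ≠ σ (w i2) ∧ σ (w i3) = σ (w i1) ∧ σ (w i0) = σ (w i2) := by
  have a0 := (h.arc0 hσ (a := i0 + 1) (b := i1) (by linarith) (by have := h.h01; linarith) le_rfl).col
  have a1 := (h.arc1 hσ (a := i1 + 1) (b := i2) (by linarith) (by have := h.h12; linarith) le_rfl).col
  have a2 := (h.arc2 hσ (a := i2 + 1) (b := i3) (by linarith) (by have := h.h23; linarith) le_rfl).col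
  have a3 := (h.arc3 hσ (a := i3 + 1) (b := i0 + n) (by linarith) (by have := h.h30; linarith)
    le_rfl).col
  rw [h.cyc.per] at a3
  have c0 := M4.change hσ (i := i0) m0
  have c1 := M4.change hσ (i := i1) m1
  have c2 := M4.change hσ (i := i2) m2
  have c3 := M4.change hσ (i := i3) m3
  refine ⟨a0, a1, a2, a3, ?_, ?_, ?_⟩
  · rw [← a1]; exact c1
  · rw [a1] at c1
    rw [a2] at c2
    revert c1 c2
    generalize σ (w i1) = x, σ (w i2) = y, σ (w i3) = z
    revert x y z
    decide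
  · rw [a0] at c0
    rw [a1] at c1
    revert c0 c1
    generalize σ (w i0) = x, σ (w i1) = y, σ (w i2) = z
    revert x y z
    decide

end M4

/-- the colouring of the join `colJ` -/
theorem bd_colJ (hG : G.T = delT S) (hD : ∀ a b, (a, b) ∈ D → hullE S a b) {σ : ℂ → Bool} :
    Bd S (colJ G D σ) σ := by
  intro a b hab
  unfold colJ
  rw [Finset.mem_filter, Finset.mem_filter, mem_E hG, mem_E hG]
  constructor
  · intro h
    by_cases h1 : (b, a) ∈ D
    · right
      refine ⟨hab.symm, h.symm, ?_⟩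
      intro h2
      obtain ⟨⟨c, hc⟩, -⟩ := hD _ _ h2
      exact (hD _ _ h1).2 c hc
    · exact Or.inl ⟨hab, h, h1⟩
  · rintro (h | h)
    · exact h.2.1
    · exact h.2.1.symm

section cross

variable {n : ℕ} {w : ℤ → ℂ} {i0 i1 i2 i3 : ℤ} {σ : ℂ → Bool}

/-- the leg from the mark `i1` ends at the mark `i2` or at the mark `i0` -/
theorem cross_ends (hS : GP (S : Set ℂ)) (hG : G.T = delT S)
    (hkl : ∀ a b, (a, b) ∈ kl → (b, a) ∈ kl) (h : M4 S n w i0 i1 i2 i3)
    (hσ : IsCol S kl (D4 w i0 i1 i2 i3) σ) :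
    Ends G ∅ (D4 w i0 i1 i2 i3) (colJ G (D4 w i0 i1 i2 i3) σ) (hm w i1) (hm w i2) ∨
    Ends G ∅ (D4 w i0 i1 i2 i3) (colJ G (D4 w i0 i1 i2 i3) σ) (hm w i1) (hm w i0) := by
  have hD : ∀ a b, (a, b) ∈ D4 w i0 i1 i2 i3 → hullE S a b := fun _ _ => h.hull
  have hJ := colJ_isJoin hS hG hD hkl hσ
  have hb : Bd S (colJ G (D4 w i0 i1 i2 i3) σ) σ := bd_colJ hG hD
  have h1D : hm w i1 ∈ D4 w i0 i1 i2 i3 := M4.m1
  have h1J := (hJ.mark _ _ h1D).1
  obtain ⟨e, he, hT⟩ := exists_end hJ rotInv_empty h1J (fun p _ => mark_pre hJ h1D p)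
  have hc := h.cols hσ
  have hsit := leg_sites hS hb hG hJ h1J he
  rcases hT with hT | ⟨_, c, _, hc'⟩
  · have hne : e ≠ ((hm w i1).2, (hm w i1).1) := by
      rintro rfl
      exact not_leads_swap hJ rotInv_empty h1J he
    have e1 : σ (w i1) = σ e.1 := hsit.1.col
    rcases hT with h3 | h3 | h3 | h3
    · right
      have e' : e = ((hm w i0).2, (hm w i0).1) := by
        rw [← h3]
      unfold Ends
      rw [← e']; exact he
    · exfalso
      apply hne
      rw [← h3]
    · left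
      have e' : e = ((hm w i2).2, (hm w i2).1) := by
        rw [← h3]
      unfold Ends
      rw [← e']; exact he
    · exfalso
      have e' : e.1 = w (i3 + 1) := congrArg Prod.snd h3
      rw [e', hc.2.2.2.1, hc.2.2.2.2.2.2] at e1
      exact hc.2.2.2.2.1 e1
  · exact absurd hc' (Set.notMem_empty _)

/-- **crossing**: the leg from `i1` ends at `i2` iff there is a chain from the arc `(i0, i1]` to the
arc `(i2, i3]` -/
theorem cross_iff (hS : GP (S : Set ℂ)) (hG : G.T = delT S)
    (hkl : ∀ a b, (a, b) ∈ kl → (b, a) ∈ kl) (h : M4 S n w i0 i1 i2 i3)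
    (hσ : IsCol S kl (D4 w i0 i1 i2 i3) σ) :
    (Ends G ∅ (D4 w i0 i1 i2 i3) (colJ G (D4 w i0 i1 i2 i3) σ) (hm w i1) (hm w i2) ↔
      Chn S σ (w i1) (w i3)) ∧
    (Ends G ∅ (D4 w i0 i1 i2 i3) (colJ G (D4 w i0 i1 i2 i3) σ) (hm w i1) (hm w i0) ↔
      Chn S σ (w i2) (w i0)) := by
  have hD : ∀ a b, (a, b) ∈ D4 w i0 i1 i2 i3 → hullE S a b := fun _ _ => h.hull
  have hDM := h.hullM
  have hJ := colJ_isJoin hS hG hD hkl hσ
  have hb : Bd S (colJ G (D4 w i0 i1 i2 i3) σ) σ := bd_colJ hG hD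
  have h1D : hm w i1 ∈ D4 w i0 i1 i2 i3 := M4.m1
  have h1J := (hJ.mark _ _ h1D).1
  have hc := h.cols hσ
  have q01 := h.h01
  have q12 := h.h12
  have q23 := h.h23
  have q30 := h.h30
  have key2 : Ends G ∅ (D4 w i0 i1 i2 i3) (colJ G (D4 w i0 i1 i2 i3) σ) (hm w i1) (hm w i2) →
      Chn S σ (w i1) (w i3) := by
    intro he
    have h1 : Chn S σ (w i1) (w (i2 + 1)) := (leg_sites hS hb hG hJ h1J he).1
    exact h1.trans (h.arc2 hσ (by linarith) (by linarith) le_rfl)
  have key0 : Ends G ∅ (D4 w i0 i1 i2 i3) (colJ G (D4 w i0 i1 i2 i3) σ) (hm w i1) (hm w i0) →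
      Chn S σ (w i2) (w i0) := by
    intro he
    have h1 : Chn S σ (w (i1 + 1)) (w i0) := (leg_sites hS hb hG hJ h1J he).2
    exact (h.arc1 hσ (by linarith) (by linarith) le_rfl).symm.trans h1
  -- the two chains exclude each other with the wrong leg
  have ex2 : Ends G ∅ (D4 w i0 i1 i2 i3) (colJ G (D4 w i0 i1 i2 i3) σ) (hm w i1) (hm w i0) →
      ¬ Chn S σ (w i1) (w i3) := by
    intro he hch
    obtain ⟨χ, hχ⟩ := leg_col hS hG hDM hJ h1D
    have v : ∀ k, χ (w k) ≠ χ (w (k + 1)) ↔ (hm w k = hm w i1 ∨ hm w k = hm w i0) := by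
      intro k
      rw [hχ _ _ (Or.inl (h.cyc.edge k).1), vis_hull hG M4.m0 he (h.cyc.edge k)]
      rfl
    have c1 : χ (w i1) ≠ χ (w (i1 + 1)) := (v i1).2 (Or.inl rfl)
    have c2 : χ (w (i1 + 1)) = χ (w i3) := by
      refine w_const (by linarith) fun k h1 h2 => ?_
      by_contra hne
      rcases (v k).1 hne with h3 | h3
      · exact hm_ne h.cyc (i := i1) (j := k) (by linarith) (by linarith) h3.symm
      · exact hm_ne h.cyc (i := i0) (j := k) (by linarith) (by linarith) h3.symm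
    exact c1 ((chn_const hb hJ h1D hχ hch).trans c2.symm)
  have ex0 : Ends G ∅ (D4 w i0 i1 i2 i3) (colJ G (D4 w i0 i1 i2 i3) σ) (hm w i1) (hm w i2) →
      ¬ Chn S σ (w i2) (w i0) := by
    intro he hch
    obtain ⟨χ, hχ⟩ := leg_col hS hG hDM hJ h1D
    have v : ∀ k, χ (w k) ≠ χ (w (k + 1)) ↔ (hm w k = hm w i1 ∨ hm w k = hm w i2) := by
      intro k
      rw [hχ _ _ (Or.inl (h.cyc.edge k).1), vis_hull hG M4.m2 he (h.cyc.edge k)]
      rfl
    have c1 : χ (w i2) ≠ χ (w (i2 + 1)) := (v i2).2 (Or.inr rfl)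
    have c2 : χ (w (i2 + 1)) = χ (w (i0 + n)) := by
      refine w_const (by linarith) fun k h1 h2 => ?_
      by_contra hne
      rcases (v k).1 hne with h3 | h3
      · exact hm_ne h.cyc (i := i1) (j := k) (by linarith) (by linarith) h3.symm
      · exact hm_ne h.cyc (i := i2) (j := k) (by linarith) (by linarith) h3.symm
    rw [h.cyc.per] at c2
    exact c1 ((chn_const hb hJ h1D hχ hch).trans c2.symm)
  have hor := cross_ends hS hG hkl h hσ
  refine ⟨⟨key2, fun hch => ?_⟩, ⟨key0, fun hch => ?_⟩⟩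
  · rcases hor with h1 | h1
    · exact h1
    · exact absurd hch (ex2 h1)
  · rcases hor with h1 | h1
    · exact absurd hch (ex0 h1)
    · exact h1

end cross

end Crest.Agent.R143.Crsx117
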