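import Crest.Agent.R143.Crs1_117
import Crest.Agent.R143.Planar_54
import Crest.Agent.R143.Sides_697

/-!
# Row 143, block P (P2b), file 2: arc edges (helper117)

* `p1all` : the planarity statement in the form of `J1_872`
* `half_killed` : joins with a half edge at a killed side of `t` = joins with the odd triangle `t`
* `F_killed` : `(y, z)` killed, left triangle `(y, z, x)`, `(x, y)` live: `F x y` is the mean of
  `om ^ k` over the joins with a half edge at `(y, z)`
* `Exit S N y z f P` : dual path `P` of killed edges from `(z, y)` to the hull edge `f`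
* `cnt_exit`, `card_exit` : joins with a half edge at `(y, z)` = colourings with the additional mark
  `f` which change on `P`
-/

set_option autoImplicit false

noncomputable section

open scoped Classical

namespace Crest.Agent.R143.Crsx117

open Crest.Agent.R143.B0x346 Crest.Agent.R143.DelGx806 Crest.Agent.R143.DelRx806
  Crest.Agent.R143.B0Dx346 Crest.Agent.R143.JColx54 Crest.Agent.R143.JCol2x54
  Crest.Agent.R143.JWalkx872 Crest.Agent.R143.JCardx872

/-- P1 in the form of `J1_872` -/
theorem p1all : J1x872.P1all := by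
  intro N S h t ht J hJ hall e he
  have h1 : ∀ i, (Planarx54.vt t i, Planarx54.vt t (i + 1)) = J1x872.sd t i := by
    intro i
    obtain ⟨a, b, c⟩ := t
    rcases J1x872.cases_z3 i with rfl | rfl | rfl
    · rw [J1x872.sd0]; rfl
    · rw [J1x872.sd1]; rfl
    · rw [J1x872.sd2]; rfl
  have h2 : ∀ i, Planarx54.st t i = J1x872.sw (J1x872.sd t i) := by
    intro i
    rw [← h1 i]
    rfl
  obtain ⟨k, hk⟩ := Planarx54.P1 h ht (J := J) (mem_joins.2 hJ) (π := e)
    (fun i => by rw [h1]; exact hall i)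
    (fun i => by rw [h2]; exact he i)
  rw [hk 0, hk 1, hk 2]
  constructor <;> ring

section half

variable {V : Type} {G : Trg V} {kl : Set (V × V)} {D : Set (V × V)} {y z x : V}
  {J : Finset (V × V)}

theorem mem_rots (a b c : V) : (a, b, c) ∈ rots (a, b, c) := by simp [rots]

/-- a triangle with the side `(y, z)` on its boundary (in this direction) is `(y, z, x)` -/
theorem rots_of_side (ht : (y, z, x) ∈ G.T) {a b c : V} (h : (a, b, c) ∈ G.T)
    (hs : (a, b) = (y, z) ∨ (b, c) = (y, z) ∨ (c, a) = (y, z)) : (a, b, c) ∈ rots (y, z, x) := by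
  rcases hs with hs | hs | hs
  · rw [Prod.mk.injEq] at hs
    obtain ⟨rfl, rfl⟩ := hs
    rw [G.uniq h ht]
    simp [rots]
  · rw [Prod.mk.injEq] at hs
    obtain ⟨rfl, rfl⟩ := hs
    rw [G.uniq ht (G.rot h)]
    simp [rots]
  · rw [Prod.mk.injEq] at hs
    obtain ⟨rfl, rfl⟩ := hs
    rw [G.uniq ht (G.rot (G.rot h))]
    simp [rots]

theorem side_of_rots (ht : (y, z, x) ∈ G.T) {a b c : V} (h : (a, b, c) ∈ rots (y, z, x)) :
    ((a, b) = (y, z) ∧ (b, c) ≠ (y, z) ∧ (c, a) ≠ (y, z)) ∨
    ((a, b) ≠ (y, z) ∧ (b, c) = (y, z) ∧ (c, a) ≠ (y, z)) ∨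
    ((a, b) ≠ (y, z) ∧ (b, c) ≠ (y, z) ∧ (c, a) = (y, z)) := by
  have n1 := G.ne ht
  have n2 := G.ne (G.rot ht)
  have n3 := G.ne (G.rot (G.rot ht))
  unfold rots at h
  simp only [Set.mem_insert_iff, Set.mem_singleton_iff, Prod.mk.injEq] at h
  rcases h with ⟨rfl, rfl, rfl⟩ | ⟨rfl, rfl, rfl⟩ | ⟨rfl, rfl, rfl⟩
  · left
    refine ⟨rfl, ?_, ?_⟩
    · intro e; rw [Prod.mk.injEq] at e; exact n1 e.1.symm
    · intro e; rw [Prod.mk.injEq] at e; exact n3 e.1
  · right; right
    refine ⟨?_, ?_, rfl⟩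
    · intro e; rw [Prod.mk.injEq] at e; exact n1 e.1.symm
    · intro e; rw [Prod.mk.injEq] at e; exact n3 e.1
  · right; left
    refine ⟨?_, rfl, ?_⟩
    · intro e; rw [Prod.mk.injEq] at e; exact n3 e.1
    · intro e; rw [Prod.mk.injEq] at e; exact n1 e.1.symm

/-- remove the half edge at a killed side -/
theorem half_erase (ht : (y, z, x) ∈ G.T) (hD : (y, z) ∉ D) (hD' : (z, y) ∉ D)
    (hJ : IsJoin G kl ∅ (D ∪ {(y, z)}) J) :
    IsJoin G kl (rots (y, z, x)) D (J.erase (y, z)) := by
  have hm := hJ.mark y z (Or.inr rfl)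
  have hyz := G.ne ht
  have mem : ∀ p, p ∈ J.erase (y, z) ↔ p ≠ (y, z) ∧ p ∈ J := fun p => Finset.mem_erase
  refine ⟨(Finset.erase_subset _ _).trans hJ.sub, ?_, ?_, ?_, ?_, ?_⟩
  · intro a b h1 h2
    rw [mem, mem]
    by_cases e1 : (a, b) = (y, z)
    · rw [Prod.mk.injEq] at e1
      obtain ⟨rfl, rfl⟩ := e1
      constructor
      · intro h; exact absurd rfl h.1
      · intro h; exact absurd h.2 hm.2
    · by_cases e2 : (b, a) = (y, z)
      · rw [Prod.mk.injEq] at e2
        obtain ⟨rfl, rfl⟩ := e2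
        constructor
        · intro h; exact absurd h.2 hm.2
        · intro h; exact absurd rfl h.1
      · have := hJ.sym a b (by rintro (h | h); exacts [h1 h, e1 h])
          (by rintro (h | h); exacts [h2 h, e2 h])
        rw [this]
        exact ⟨fun h => ⟨e2, h.2⟩, fun h => ⟨e1, h.2⟩⟩
  · intro a b h
    have := hJ.mark a b (Or.inl h)
    rw [mem, mem]
    refine ⟨⟨?_, this.1⟩, fun h' => this.2 h'.2⟩
    rintro e
    rw [e] at h
    exact hD h
  · intro a b h1 h2
    rw [mem, mem]
    by_cases e1 : (a, b) = (y, z)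
    · rw [Prod.mk.injEq] at e1
      obtain ⟨rfl, rfl⟩ := e1
      exact ⟨fun h => h.1 rfl, fun h => hm.2 h.2⟩
    · have := hJ.bdr a b h1 (by rintro (h | h); exacts [h2 h, e1 h])
      exact ⟨fun h => this.1 h.2, fun h => this.2 h.2⟩
  · intro a b h1 h2 h3
    rw [mem, mem]
    by_cases e1 : (a, b) = (y, z)
    · rw [Prod.mk.injEq] at e1
      obtain ⟨rfl, rfl⟩ := e1
      exact ⟨fun h => h.1 rfl, fun h => hm.2 h.2⟩
    · by_cases e2 : (b, a) = (y, z)
      · rw [Prod.mk.injEq] at e2
        obtain ⟨rfl, rfl⟩ := e2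
        exact ⟨fun h => hm.2 h.2, fun h => h.1 rfl⟩
      · have := hJ.kill a b h1 (by rintro (h | h); exacts [h2 h, e1 h])
          (by rintro (h | h); exacts [h3 h, e2 h])
        exact ⟨fun h => this.1 h.2, fun h => this.2 h.2⟩
  · intro a b c h
    have hp := hJ.par a b c h
    rw [if_neg (Set.notMem_empty _)] at hp
    simp only [mem]
    by_cases hO : (a, b, c) ∈ rots (y, z, x)
    · rw [if_pos hO]
      rcases side_of_rots ht hO with ⟨e1, e2, e3⟩ | ⟨e1, e2, e3⟩ | ⟨e1, e2, e3⟩
      · have : (a, b) ∈ J := by rw [e1]; exact hm.1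
        simp only [this, if_true] at hp
        simp only [e1, ne_eq, not_true, false_and, if_false, e2, not_false_iff, true_and, e3]
        omega
      · have : (b, c) ∈ J := by rw [e2]; exact hm.1
        simp only [this, if_true] at hp
        simp only [e1, ne_eq, not_true, false_and, if_false, e2, not_false_iff, true_and, e3]
        omega
      · have : (c, a) ∈ J := by rw [e3]; exact hm.1
        simp only [this, if_true] at hp
        simp only [e1, ne_eq, not_true, false_and, if_false, e2, not_false_iff, true_and, e3]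
        omega
    · rw [if_neg hO]
      have e1 : (a, b) ≠ (y, z) := fun e => hO (rots_of_side ht h (Or.inl e))
      have e2 : (b, c) ≠ (y, z) := fun e => hO (rots_of_side ht h (Or.inr (Or.inl e)))
      have e3 : (c, a) ≠ (y, z) := fun e => hO (rots_of_side ht h (Or.inr (Or.inr e)))
      simp only [ne_eq, e1, e2, e3, not_false_iff, true_and]
      exact hp

/-- insert the half edge at a killed side -/
theorem half_insert (ht : (y, z, x) ∈ G.T) (hk : (y, z) ∈ kl) (hD : (y, z) ∉ D) (hD' : (z, y) ∉ D)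
    (hJ : IsJoin G kl (rots (y, z, x)) D J) :
    IsJoin G kl ∅ (D ∪ {(y, z)}) (insert (y, z) J) ∧ (y, z) ∉ J := by
  have hm := hJ.kill y z hk hD hD'
  have hyz := G.ne ht
  have hne : (z, y) ≠ (y, z) := by
    intro e; rw [Prod.mk.injEq] at e; exact hyz e.2
  have mem : ∀ p, p ∈ insert (y, z) J ↔ p = (y, z) ∨ p ∈ J := fun p => Finset.mem_insert
  have hE : (y, z) ∈ G.E := by
    unfold Trg.E
    rw [Finset.mem_union, Finset.mem_image]
    exact Or.inl ⟨_, ht, rfl⟩
  refine ⟨⟨?_, ?_, ?_, ?_, ?_, ?_⟩, hm.1⟩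
  · intro p hp
    rcases (mem p).1 hp with rfl | h
    · exact hE
    · exact hJ.sub h
  · intro a b h1 h2
    have e1 : (a, b) ≠ (y, z) := fun e => h1 (Or.inr e)
    have e2 : (b, a) ≠ (y, z) := fun e => h2 (Or.inr e)
    have := hJ.sym a b (fun h => h1 (Or.inl h)) (fun h => h2 (Or.inl h))
    rw [mem, mem]
    tauto
  · intro a b h
    rcases h with h | h
    · have := hJ.mark a b h
      rw [mem, mem]
      refine ⟨Or.inr this.1, ?_⟩
      rintro (h' | h')
      · rw [Prod.mk.injEq] at h'
        obtain ⟨rfl, rfl⟩ := h'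
        exact hD' h
      · exact this.2 h'
    · have h : (a, b) = (y, z) := h
      rw [Prod.mk.injEq] at h
      obtain ⟨rfl, rfl⟩ := h
      rw [mem, mem]
      refine ⟨Or.inl rfl, ?_⟩
      rintro (h' | h')
      · exact hne h'
      · exact hm.2 h'
  · intro a b h1 h2
    have e1 : (a, b) ≠ (y, z) := fun e => h2 (Or.inr e)
    have := hJ.bdr a b h1 (fun h => h2 (Or.inl h))
    rw [mem, mem]
    refine ⟨?_, ?_⟩
    · rintro (h | h)
      · exact e1 h
      · exact this.1 h
    · rintro (h | h)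
      · rw [Prod.mk.injEq] at h
        obtain ⟨rfl, rfl⟩ := h
        exact h1 _ ht
      · exact this.2 h
  · intro a b h1 h2 h3
    have e1 : (a, b) ≠ (y, z) := fun e => h2 (Or.inr e)
    have e2 : (b, a) ≠ (y, z) := fun e => h3 (Or.inr e)
    have := hJ.kill a b h1 (fun h => h2 (Or.inl h)) (fun h => h3 (Or.inl h))
    rw [mem, mem]
    tauto
  · intro a b c h
    have hp := hJ.par a b c h
    rw [if_neg (Set.notMem_empty _)]
    simp only [mem]
    by_cases hO : (a, b, c) ∈ rots (y, z, x)
    · rw [if_pos hO] at hp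
      rcases side_of_rots ht hO with ⟨e1, e2, e3⟩ | ⟨e1, e2, e3⟩ | ⟨e1, e2, e3⟩
      · have : (a, b) ∉ J := by rw [e1]; exact hm.1
        simp only [this, if_false] at hp
        simp only [e1, true_or, if_true, e2, false_or, e3]
        omega
      · have : (b, c) ∉ J := by rw [e2]; exact hm.1
        simp only [this, if_false] at hp
        simp only [e1, true_or, if_true, e2, false_or, e3]
        omega
      · have : (c, a) ∉ J := by rw [e3]; exact hm.1
        simp only [this, if_false] at hp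
        simp only [e1, true_or, if_true, e2, false_or, e3]
        omega
    · rw [if_neg hO] at hp
      have e1 : (a, b) ≠ (y, z) := fun e => hO (rots_of_side ht h (Or.inl e))
      have e2 : (b, c) ≠ (y, z) := fun e => hO (rots_of_side ht h (Or.inr (Or.inl e)))
      have e3 : (c, a) ≠ (y, z) := fun e => hO (rots_of_side ht h (Or.inr (Or.inr e)))
      simp only [e1, e2, e3, false_or]
      exact hp

/-- joins with a half edge at a killed side = joins with an odd triangle -/
theorem card_half_killed (ht : (y, z, x) ∈ G.T) (hk : (y, z) ∈ kl) (hD : (y, z) ∉ D)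
    (hD' : (z, y) ∉ D) (P Q : Finset (V × V) → Prop)
    (hPQ : ∀ J, IsJoin G kl (rots (y, z, x)) D J → (y, z) ∉ J → (Q J ↔ P (insert (y, z) J))) :
    ((joins G kl ∅ (D ∪ {(y, z)})).filter P).card =
      ((joins G kl (rots (y, z, x)) D).filter Q).card := by
  refine Finset.card_bij' (fun J _ => J.erase (y, z)) (fun J _ => insert (y, z) J) ?_ ?_ ?_ ?_
  · intro J hJ
    rw [Finset.mem_filter, mem_joins] at hJ
    have h := half_erase ht hD hD' hJ.1
    have hm := hJ.1.mark y z (Or.inr rfl)
    rw [Finset.mem_filter, mem_joins]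
    refine ⟨h, (hPQ _ h (Finset.notMem_erase _ _)).2 ?_⟩
    rw [Finset.insert_erase hm.1]
    exact hJ.2
  · intro J hJ
    rw [Finset.mem_filter, mem_joins] at hJ
    have h := half_insert ht hk hD hD' hJ.1
    rw [Finset.mem_filter, mem_joins]
    exact ⟨h.1, (hPQ _ hJ.1 h.2).1 hJ.2⟩
  · intro J hJ
    rw [Finset.mem_filter, mem_joins] at hJ
    exact Finset.insert_erase (hJ.1.mark y z (Or.inr rfl)).1
  · intro J hJ
    rw [Finset.mem_filter, mem_joins] at hJ
    exact Finset.erase_insert (half_insert ht hk hD hD' hJ.1).2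

end half

/-- **the observable at the live sides of a triangle with a killed side** -/
theorem F_killed {S : Finset ℂ} {N : Net ℂ} (h : HNet S N) {x y z : ℂ}
    (ht : (y, z, x) ∈ delT S) (hk : (y, z) ∈ N.kl) (hxy : (x, y) ∉ N.kl)
    (hex : (x, y) ∉ N.exS) :
    N.F x y = (∑ k : ZMod 3, (N.cnt y z k : ℂ) * omz k) / ((N.hj y z).card : ℂ) := by
  have hg := J1x872.good_of_hnet h
  have ht' : (y, z, x) ∈ N.T := by rw [h.tri]; exact ht
  have ht2 : (x, y, z) ∈ N.T := N.rot (N.rot ht')
  have hP : J1x872.P1 N (x, y, z) := p1all N S h _ (by rw [← h.tri]; exact ht2)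
  have hP' : J1x872.P1 N (y, z, x) := p1all N S h _ ht
  have hyz : (y, z) ∉ N.exS := by
    rintro ⟨k, hk'⟩
    exact hg.live k (hk' ▸ hk)
  have hzy : (z, y) ∉ N.exS := by
    rintro ⟨k, hk'⟩
    exact hg.live k (hk' ▸ N.klsym _ _ hk)
  have e1 := J1x872.F_side (t := (x, y, z)) hg ht2 hP hxy
    (fun h' => hxy (N.klsym _ _ h')) (Or.inr hex)
  have e2 : N.Q (y, z, x) = 0 := J1x872.q_killed hg ht' hk
  have e3 : N.Q (x, y, z) = 0 := by
    rw [J1x872.q_rot z x y, J1x872.q_rot y z x, e2]
    simp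
  have e4 := J1x872.hh_rot (N := N) x y z
  have e5 := J1x872.sum_qk (N := N) (t := (y, z, x))
  have hsd : J1x872.sd (y, z, x) 0 = (y, z) := J1x872.sd0 _
  have c1 : ∀ k, N.cnt y z k = ((N.tj (y, z, x)).filter fun J => J1x872.qk N (y, z, x) J k).card := by
    intro k
    unfold Net.cnt Net.hj Net.tj
    refine card_half_killed ht' hk hyz hzy _ _ ?_
    intro J hJ hn
    have := J1x872.left_half hg ht' hJ hP' (by rw [hsd]; exact hn) k
    rw [hsd] at this
    exact this
  have c2 : (N.hj y z).card = (N.tj (y, z, x)).card := by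
    have := card_half_killed (G := N.toTrg) (kl := N.kl) (D := N.exS) ht' hk hyz hzy
      (fun _ => True) (fun _ => True) (fun _ _ _ => Iff.rfl)
    simp only [Finset.filter_true] at this
    exact this
  rw [e1, e3, ← e4, add_zero, c2]
  rw [e2, add_zero] at e5
  rw [← e5]
  simp only [c1]

end Crest.Agent.R143.Crsx117
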