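import Crest.Agent.R143.Crs2_117

/-!
# Row 143, block P (P2b), file 3: an exit turns an arc edge into a fourth hull mark (helper117)

* `Exit S N y z f P` : dual path `P` of killed edges from `(z, y)` to the hull edge `f`
* `Exit.union` : `J ∈ hj y z` gives the join `J ∪ P` with the marks `exS ∪ {f}`
* `Exit.diff` : the inverse
* `Exit.ends` : the leg of `J` from `(y, z)` and the leg of `J ∪ P` from `f` end at the same mark
* `Exit.card_cnt`, `Exit.card_hj` : numbers
-/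

set_option autoImplicit false

noncomputable section

open scoped Classical

namespace Crest.Agent.R143.Crsx117

open Crest.Agent.R143.B0x346 Crest.Agent.R143.DelGx806 Crest.Agent.R143.DelRx806
  Crest.Agent.R143.B0Dx346 Crest.Agent.R143.JColx54 Crest.Agent.R143.JCol2x54
  Crest.Agent.R143.JWalkx872 Crest.Agent.R143.JCardx872

variable {S : Finset ℂ} {N : Net ℂ}

/-- dual path of killed edges from `(z, y)` to the hull edge `f` -/
structure Exit (S : Finset ℂ) (N : Net ℂ) (y z : ℂ) (f : ℂ × ℂ) (P : Finset (ℂ × ℂ)) : Prop where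
  hull : hullE S f.1 f.2
  fex : f ∉ N.exS
  kil : ∀ p ∈ P, p ∈ N.kl ∨ p = f
  yz : (y, z) ∈ N.kl
  join : IsJoin N.toTrg ∅ ∅ ({f, (z, y)} : Set (ℂ × ℂ)) P

/-- killed edges outside `P` -/
def klx (N : Net ℂ) (P : Finset (ℂ × ℂ)) : Set (ℂ × ℂ) :=
  {p | p ∈ N.kl ∧ p ∉ P ∧ (p.2, p.1) ∉ P}

theorem klx_symm {P : Finset (ℂ × ℂ)} (a b : ℂ) (h : (a, b) ∈ klx N P) : (b, a) ∈ klx N P :=
  ⟨N.klsym _ _ h.1, h.2.2, h.2.1⟩

theorem exS_hull (h : HNet S N) {a b : ℂ} (hab : (a, b) ∈ N.exS) : hullE S a b := by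
  obtain ⟨k, hk⟩ := hab
  have := h.hex k
  rw [hk] at this
  exact this

theorem exS_live (h : HNet S N) {a b : ℂ} (hab : (a, b) ∈ N.exS) : (a, b) ∉ N.kl := by
  obtain ⟨k, hk⟩ := hab
  have := h.live k
  rw [hk] at this
  exact this

theorem hullE_asymm {a b : ℂ} (h : hullE S a b) : ¬ hullE S b a := fun h' => by
  obtain ⟨⟨c, hc⟩, -⟩ := h'
  exact h.2 c hc

namespace Exit

variable {y z x : ℂ} {f : ℂ × ℂ} {P : Finset (ℂ × ℂ)}

theorem f_mem (E : Exit S N y z f P) : f ∈ P ∧ (f.2, f.1) ∉ P :=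
  E.join.mark f.1 f.2 (Or.inl rfl)

theorem zy_mem (E : Exit S N y z f P) : (z, y) ∈ P ∧ (y, z) ∉ P :=
  E.join.mark z y (Or.inr rfl)

theorem f_ne_yz (E : Exit S N y z f P) : f ≠ (y, z) := by
  intro e
  exact E.zy_mem.2 (e ▸ E.f_mem.1)

theorem f_ne_zy (E : Exit S N y z f P) (hx : (y, z, x) ∈ delT S) : f ≠ (z, y) := by
  intro e
  have := E.hull.2 x
  rw [e] at this
  exact this hx

theorem rf_ne_yz (E : Exit S N y z f P) : (f.2, f.1) ≠ (z, y) := by
  intro e
  exact E.f_mem.2 (e ▸ E.zy_mem.1)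

/-- `(z, y)` has a triangle on its left -/
theorem zy_tri (h : HNet S N) (E : Exit S N y z f P) : ∃ c, (z, y, c) ∈ delT S := by
  by_contra hn
  push Not at hn
  have h1 := E.join.bdr y z (by rw [h.tri]; exact hn) (by
    rintro (h1 | h1)
    · exact E.f_ne_yz h1.symm
    · have h1 : (y, z) = (z, y) := h1
      rw [Prod.mk.injEq] at h1
      have h2 := E.zy_mem
      rw [h1.1] at h2
      exact h2.2 h2.1)
  exact h1.2 E.zy_mem.1

/-- symmetry of `P` away from its two ends -/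
theorem sym (E : Exit S N y z f P) {a b : ℂ} (h1 : (a, b) ≠ f) (h2 : (a, b) ≠ (z, y))
    (h3 : (b, a) ≠ f) (h4 : (b, a) ≠ (z, y)) : (a, b) ∈ P ↔ (b, a) ∈ P :=
  E.join.sym a b (by rintro (h | h); exacts [h1 h, h2 h]) (by rintro (h | h); exacts [h3 h, h4 h])

/-- edges of `P` are no marks -/
theorem not_ex (h : HNet S N) (E : Exit S N y z f P) {a b : ℂ} (hab : (a, b) ∈ P) :
    (a, b) ∉ N.exS ∧ (b, a) ∉ N.exS := by
  rcases E.kil _ hab with h1 | h1
  · exact ⟨fun h' => exS_live h h' h1, fun h' => exS_live h h' (N.klsym _ _ h1)⟩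
  · refine ⟨fun h' => E.fex (h1 ▸ h'), fun h' => ?_⟩
    have h2 := exS_hull h h'
    have h3 := E.hull
    rw [← h1] at h3
    exact hullE_asymm h2 h3

theorem yz_ex (h : HNet S N) (E : Exit S N y z f P) : (y, z) ∉ N.exS ∧ (z, y) ∉ N.exS :=
  ⟨(E.not_ex h E.zy_mem.1).2, (E.not_ex h E.zy_mem.1).1⟩

section union

variable {J : Finset (ℂ × ℂ)}

theorem f_bdr (h : HNet S N) (E : Exit S N y z f P)
    (hJ : IsJoin N.toTrg N.kl ∅ (N.exS ∪ {(y, z)}) J) : f ∉ J ∧ (f.2, f.1) ∉ J :=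
  hJ.bdr f.1 f.2 (by rw [h.tri]; exact E.hull.2) (by
    rintro (h1 | h1)
    · exact E.fex h1
    · exact E.f_ne_yz h1)

/-- `J` and `P` are disjoint -/
theorem disj (h : HNet S N) (E : Exit S N y z f P)
    (hJ : IsJoin N.toTrg N.kl ∅ (N.exS ∪ {(y, z)}) J) {a b : ℂ} (hab : (a, b) ∈ P) :
    (a, b) ∉ J := by
  have hn := E.not_ex h hab
  rcases E.kil _ hab with h1 | h1
  · by_cases e1 : (b, a) = (y, z)
    · rw [Prod.mk.injEq] at e1
      obtain ⟨rfl, rfl⟩ := e1
      exact (hJ.mark _ _ (Or.inr rfl)).2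
    · refine (hJ.kill a b h1 ?_ ?_).1
      · rintro (h2 | h2)
        · exact hn.1 h2
        · have h2 : (a, b) = (y, z) := h2
          rw [h2] at hab
          exact E.zy_mem.2 hab
      · rintro (h2 | h2)
        · exact hn.2 h2
        · exact e1 h2
  · rw [h1]
    exact (E.f_bdr h hJ).1

theorem union (h : HNet S N) (hx : (y, z, x) ∈ delT S) (E : Exit S N y z f P)
    (hJ : IsJoin N.toTrg N.kl ∅ (N.exS ∪ {(y, z)}) J) :
    IsJoin N.toTrg (klx N P) ∅ (N.exS ∪ {f}) (J ∪ P) := by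
  have mem : ∀ p, p ∈ J ∪ P ↔ p ∈ J ∨ p ∈ P := fun p => Finset.mem_union
  have hm := hJ.mark y z (Or.inr rfl)
  have hf := E.f_bdr h hJ
  have hfP := E.f_mem
  have hzP := E.zy_mem
  refine ⟨?_, ?_, ?_, ?_, ?_, ?_⟩
  · exact Finset.union_subset hJ.sub E.join.sub
  · intro a b h1 h2
    have a1 : (a, b) ∉ N.exS := fun h' => h1 (Or.inl h')
    have a2 : (a, b) ≠ f := fun h' => h1 (Or.inr h')
    have b1 : (b, a) ∉ N.exS := fun h' => h2 (Or.inl h')
    have b2 : (b, a) ≠ f := fun h' => h2 (Or.inr h')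
    rw [mem, mem]
    by_cases e1 : (a, b) = (y, z)
    · rw [Prod.mk.injEq] at e1
      obtain ⟨rfl, rfl⟩ := e1
      exact ⟨fun _ => Or.inr hzP.1, fun _ => Or.inl hm.1⟩
    · by_cases e2 : (b, a) = (y, z)
      · rw [Prod.mk.injEq] at e2
        obtain ⟨rfl, rfl⟩ := e2
        exact ⟨fun _ => Or.inl hm.1, fun _ => Or.inr hzP.1⟩
      · have hJs := hJ.sym a b (by rintro (h' | h'); exacts [a1 h', e1 h'])
          (by rintro (h' | h'); exacts [b1 h', e2 h'])
        have hPs := E.sym (a := a) (b := b) a2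
          (by intro e; apply e2; rw [Prod.mk.injEq] at e ⊢; exact ⟨e.2, e.1⟩) b2
          (by intro e; apply e1; rw [Prod.mk.injEq] at e ⊢; exact ⟨e.2, e.1⟩)
        rw [hJs, hPs]
  · intro a b h1
    rw [mem, mem]
    rcases h1 with h1 | h1
    · have h2 := hJ.mark a b (Or.inl h1)
      refine ⟨Or.inl h2.1, ?_⟩
      rintro (h3 | h3)
      · exact h2.2 h3
      · exact (E.not_ex h h3).2 h1
    · have h1 : (a, b) = f := h1
      subst h1
      refine ⟨Or.inr hfP.1, ?_⟩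
      rintro (h3 | h3)
      · exact hf.2 h3
      · exact hfP.2 h3
  · intro a b h1 h2
    have a1 : (a, b) ∉ N.exS := fun h' => h2 (Or.inl h')
    have a2 : (a, b) ≠ f := fun h' => h2 (Or.inr h')
    have h1' : ∀ c, (b, a, c) ∉ delT S := by rw [← h.tri]; exact h1
    have e1 : (a, b) ≠ (y, z) := by
      intro e
      obtain ⟨c, hc⟩ := E.zy_tri h
      rw [Prod.mk.injEq] at e
      obtain ⟨rfl, rfl⟩ := e
      exact h1' c hc
    have e2 : (a, b) ≠ (z, y) := by
      intro e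
      rw [Prod.mk.injEq] at e
      obtain ⟨rfl, rfl⟩ := e
      exact h1' x hx
    have k1 := hJ.bdr a b h1 (by rintro (h' | h'); exacts [a1 h', e1 h'])
    have k2 := E.join.bdr a b h1 (by rintro (h' | h'); exacts [a2 h', e2 h'])
    rw [mem, mem]
    tauto
  · intro a b h1 h2 h3
    have a1 : (a, b) ∉ N.exS := fun h' => h2 (Or.inl h')
    have b1 : (b, a) ∉ N.exS := fun h' => h3 (Or.inl h')
    have e1 : (a, b) ≠ (y, z) := by
      intro e
      rw [Prod.mk.injEq] at e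
      obtain ⟨rfl, rfl⟩ := e
      exact h1.2.2 hzP.1
    have e2 : (b, a) ≠ (y, z) := by
      intro e
      rw [Prod.mk.injEq] at e
      obtain ⟨rfl, rfl⟩ := e
      exact h1.2.1 hzP.1
    have k1 := hJ.kill a b h1.1 (by rintro (h' | h'); exacts [a1 h', e1 h'])
      (by rintro (h' | h'); exacts [b1 h', e2 h'])
    rw [mem, mem]
    exact ⟨fun h' => h'.elim k1.1 h1.2.1, fun h' => h'.elim k1.2 h1.2.2⟩
  · intro a b c ht
    have p1 := hJ.par a b c ht
    have p2 := E.join.par a b c ht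
    rw [if_neg (Set.notMem_empty _)] at p1 p2 ⊢
    have d1 : (a, b) ∈ P → (a, b) ∉ J := fun h' => E.disj h hJ h'
    have d2 : (b, c) ∈ P → (b, c) ∉ J := fun h' => E.disj h hJ h'
    have d3 : (c, a) ∈ P → (c, a) ∉ J := fun h' => E.disj h hJ h'
    have key : ∀ p : ℂ × ℂ, (p ∈ P → p ∉ J) →
        (if p ∈ J ∪ P then 1 else 0 : ℕ) = (if p ∈ J then 1 else 0) + (if p ∈ P then 1 else 0) := by
      intro p hp
      by_cases q1 : p ∈ J <;> by_cases q2 : p ∈ P
      · exact absurd q1 (hp q2)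
      · simp [q1, q2]
      · simp [q1, q2]
      · simp [q1, q2]
    rw [key _ d1, key _ d2, key _ d3]
    omega

/-- the inverse -/
theorem diff (h : HNet S N) (hx : (y, z, x) ∈ delT S) (E : Exit S N y z f P)
    (hJ : IsJoin N.toTrg (klx N P) ∅ (N.exS ∪ {f}) J) (hP : P ⊆ J) :
    IsJoin N.toTrg N.kl ∅ (N.exS ∪ {(y, z)}) (J \ P) := by
  have mem : ∀ p, p ∈ J \ P ↔ p ∈ J ∧ p ∉ P := fun p => Finset.mem_sdiff
  have hfJ := hJ.mark f.1 f.2 (Or.inr rfl)
  have hfP := E.f_mem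
  have hzP := E.zy_mem
  have hyzex := E.yz_ex h
  have hyzJ : (y, z) ∈ J := by
    refine (hJ.sym z y ?_ ?_).1 (hP hzP.1)
    · rintro (h' | h')
      · exact hyzex.2 h'
      · exact E.f_ne_zy hx (Eq.symm h')
    · rintro (h' | h')
      · exact hyzex.1 h'
      · exact E.f_ne_yz (Eq.symm h')
  refine ⟨Finset.sdiff_subset.trans hJ.sub, ?_, ?_, ?_, ?_, ?_⟩
  · intro a b h1 h2
    have a1 : (a, b) ∉ N.exS := fun h' => h1 (Or.inl h')
    have a2 : (a, b) ≠ (y, z) := fun h' => h1 (Or.inr h')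
    have b1 : (b, a) ∉ N.exS := fun h' => h2 (Or.inl h')
    have b2 : (b, a) ≠ (y, z) := fun h' => h2 (Or.inr h')
    rw [mem, mem]
    by_cases e1 : (a, b) = f
    · subst e1
      exact ⟨fun h' => absurd hfP.1 h'.2, fun h' => absurd h'.1 hfJ.2⟩
    · by_cases e2 : (b, a) = f
      · subst e2
        exact ⟨fun h' => absurd h'.1 hfJ.2, fun h' => absurd hfP.1 h'.2⟩
      · have hJs := hJ.sym a b (by rintro (h' | h'); exacts [a1 h', e1 h'])
          (by rintro (h' | h'); exacts [b1 h', e2 h'])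
        have hPs := E.sym (a := a) (b := b) e1
          (by intro e; apply b2; rw [Prod.mk.injEq] at e ⊢; exact ⟨e.2, e.1⟩) e2
          (by intro e; apply a2; rw [Prod.mk.injEq] at e ⊢; exact ⟨e.2, e.1⟩)
        rw [hJs, hPs]
  · intro a b h1
    rw [mem, mem]
    rcases h1 with h1 | h1
    · have h2 := hJ.mark a b (Or.inl h1)
      exact ⟨⟨h2.1, fun h3 => (E.not_ex h h3).1 h1⟩, fun h3 => h2.2 h3.1⟩
    · have h1 : (a, b) = (y, z) := h1
      rw [Prod.mk.injEq] at h1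
      obtain ⟨rfl, rfl⟩ := h1
      exact ⟨⟨hyzJ, hzP.2⟩, fun h3 => h3.2 hzP.1⟩
  · intro a b h1 h2
    have a1 : (a, b) ∉ N.exS := fun h' => h2 (Or.inl h')
    rw [mem, mem]
    by_cases e1 : (a, b) = f
    · subst e1
      exact ⟨fun h' => h'.2 hfP.1, fun h' => hfJ.2 h'.1⟩
    · have k1 := hJ.bdr a b h1 (by rintro (h' | h'); exacts [a1 h', e1 h'])
      exact ⟨fun h' => k1.1 h'.1, fun h' => k1.2 h'.1⟩
  · intro a b h1 h2 h3
    have a1 : (a, b) ∉ N.exS := fun h' => h2 (Or.inl h')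
    have b1 : (b, a) ∉ N.exS := fun h' => h3 (Or.inl h')
    have a2 : (a, b) ≠ (y, z) := fun h' => h2 (Or.inr h')
    have b2 : (b, a) ≠ (y, z) := fun h' => h3 (Or.inr h')
    rw [mem, mem]
    by_cases e1 : (a, b) = f
    · subst e1
      exact ⟨fun h' => h'.2 hfP.1, fun h' => hfJ.2 h'.1⟩
    · by_cases e2 : (b, a) = f
      · subst e2
        exact ⟨fun h' => hfJ.2 h'.1, fun h' => h'.2 hfP.1⟩
      · have hPs := E.sym (a := a) (b := b) e1
          (by intro e; apply b2; rw [Prod.mk.injEq] at e ⊢; exact ⟨e.2, e.1⟩) e2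
          (by intro e; apply a2; rw [Prod.mk.injEq] at e ⊢; exact ⟨e.2, e.1⟩)
        by_cases q : (a, b) ∈ P
        · exact ⟨fun h' => h'.2 q, fun h' => h'.2 (hPs.1 q)⟩
        · have q' : (b, a) ∉ P := fun h' => q (hPs.2 h')
          have k1 := hJ.kill a b ⟨h1, q, q'⟩ (by rintro (h' | h'); exacts [a1 h', e1 h'])
            (by rintro (h' | h'); exacts [b1 h', e2 h'])
          exact ⟨fun h' => k1.1 h'.1, fun h' => k1.2 h'.1⟩
  · intro a b c ht
    have p1 := hJ.par a b c ht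
    have p2 := E.join.par a b c ht
    rw [if_neg (Set.notMem_empty _)] at p1 p2 ⊢
    have key : ∀ p : ℂ × ℂ,
        (if p ∈ J \ P then 1 else 0 : ℕ) + (if p ∈ P then 1 else 0) = (if p ∈ J then 1 else 0) := by
      intro p
      by_cases q1 : p ∈ J <;> by_cases q2 : p ∈ P
      · simp [q1, q2]
      · simp [q1, q2]
      · exact absurd (hP q2) q1
      · simp [q1, q2]
    have k1 := key (a, b)
    have k2 := key (b, c)
    have k3 := key (c, a)
    omega

/-- the walk of `P` in `J ∪ P` -/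
theorem leads_P (h : HNet S N) (_hx : (y, z, x) ∈ delT S) (E : Exit S N y z f P)
    (hJ : IsJoin N.toTrg N.kl ∅ (N.exS ∪ {(y, z)}) J) :
    Leads N.toTrg ∅ (N.exS ∪ {f}) (J ∪ P) f (y, z) := by
  have hfP := E.f_mem
  obtain ⟨e, he, hT⟩ := exists_end E.join rotInv_empty hfP.1
    (fun p _ => mark_pre E.join (Or.inl rfl) p)
  have he' : e = (y, z) := by
    rcases hT with (hT | hT) | ⟨_, c, _, hc⟩
    · exfalso
      have e1 : e = (f.2, f.1) := by
        rw [← hT]
      rw [e1] at he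
      exact not_leads_swap E.join rotInv_empty hfP.1 he
    · have hT : (e.2, e.1) = (z, y) := hT
      rw [Prod.mk.injEq] at hT
      exact Prod.ext hT.2 hT.1
    · exact absurd hc (Set.notMem_empty _)
  rw [he'] at he
  refine leads_mono E.join ?_ hfP.1 he
  rintro ⟨l, r⟩ q hp ⟨c, hc, -, -, hq⟩
  dsimp only at hc hq
  have hc' : (l, r, c) ∈ delT S := by rw [← h.tri]; exact hc
  have p1 := hJ.par l r c hc
  rw [if_neg (Set.notMem_empty _)] at p1
  have dl := E.disj h hJ hp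
  refine ⟨c, hc, Set.notMem_empty _, ?_, ?_⟩
  · rintro (h' | h')
    · exact (exS_hull h h').2 c hc'
    · have h' : (r, l) = f := h'
      have := E.hull.2 c
      rw [← h'] at this
      exact this hc'
  · dsimp only
    rcases hq with ⟨h1, h2⟩ | ⟨h1, h1', h2⟩
    · exact Or.inl ⟨Finset.mem_union_right _ h1, h2⟩
    · refine Or.inr ⟨Finset.mem_union_right _ h1, ?_, h2⟩
      intro h3
      rcases Finset.mem_union.1 h3 with h3 | h3
      · have dc := E.disj h hJ h1
        simp only [dl, dc, h3, if_true, if_false] at p1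
        omega
      · exact h1' h3

/-- the walk of `J` in `J ∪ P` -/
theorem leads_J (h : HNet S N) (E : Exit S N y z f P)
    (hJ : IsJoin N.toTrg N.kl ∅ (N.exS ∪ {(y, z)}) J) {s e : ℂ × ℂ} (hs : s ∈ J)
    (he : Leads N.toTrg ∅ (N.exS ∪ {(y, z)}) J s e) :
    Leads N.toTrg ∅ (N.exS ∪ {f}) (J ∪ P) s e := by
  refine leads_mono hJ ?_ hs he
  rintro ⟨l, r⟩ q hp ⟨c, hc, -, -, hq⟩
  dsimp only at hc hq
  have hc' : (l, r, c) ∈ delT S := by rw [← h.tri]; exact hc
  have p1 := E.join.par l r c hc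
  rw [if_neg (Set.notMem_empty _)] at p1
  have dl : (l, r) ∉ P := fun h' => E.disj h hJ h' hp
  refine ⟨c, hc, Set.notMem_empty _, ?_, ?_⟩
  · rintro (h' | h')
    · exact (exS_hull h h').2 c hc'
    · have h' : (r, l) = f := h'
      have := E.hull.2 c
      rw [← h'] at this
      exact this hc'
  · dsimp only
    rcases hq with ⟨h1, h2⟩ | ⟨h1, h1', h2⟩
    · exact Or.inl ⟨Finset.mem_union_left _ h1, h2⟩
    · refine Or.inr ⟨Finset.mem_union_left _ h1, ?_, h2⟩
      intro h3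
      rcases Finset.mem_union.1 h3 with h3 | h3
      · exact h1' h3
      · have dc : (c, l) ∉ P := fun h' => E.disj h hJ h' h1
        simp only [dl, dc, h3, if_true, if_false] at p1
        omega

/-- **the legs** -/
theorem ends (h : HNet S N) (hx : (y, z, x) ∈ delT S) (E : Exit S N y z f P)
    (hJ : IsJoin N.toTrg N.kl ∅ (N.exS ∪ {(y, z)}) J) (k : ZMod 3) :
    Ends N.toTrg ∅ (N.exS ∪ {(y, z)}) J (y, z) (N.ex k) ↔
      Ends N.toTrg ∅ (N.exS ∪ {f}) (J ∪ P) f (N.ex k) := by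
  have hyz := (hJ.mark y z (Or.inr rfl)).1
  have key : ∀ k, Ends N.toTrg ∅ (N.exS ∪ {(y, z)}) J (y, z) (N.ex k) →
      Ends N.toTrg ∅ (N.exS ∪ {f}) (J ∪ P) f (N.ex k) := fun k hk =>
    (E.leads_P h hx hJ).trans (E.leads_J h hJ hyz hk)
  refine ⟨key k, fun hk => ?_⟩
  obtain ⟨e, he, hT⟩ := exists_end hJ rotInv_empty hyz
    (fun p _ => mark_pre hJ (Or.inr rfl) p)
  rcases hT with (hT | hT) | ⟨_, c, _, hc⟩
  · obtain ⟨k', hk'⟩ := hT
    have e1 : e = ((N.ex k').2, (N.ex k').1) := by rw [hk']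
    rw [e1] at he
    have h1 := key k' he
    have h2 := J1x872.ends_unique (J1x872.good_of_hnet h)
      (D := N.exS ∪ {f}) (Set.subset_union_left) hk h1
    rw [h2]
    exact he
  · exfalso
    have hT : (e.2, e.1) = (y, z) := hT
    have e1 : e = ((y, z) : ℂ × ℂ).swap := by
      rw [Prod.mk.injEq] at hT
      exact Prod.ext hT.2 hT.1
    rw [e1] at he
    exact not_leads_swap hJ rotInv_empty hyz he
  · exact absurd hc (Set.notMem_empty _)

end union

/-- **numbers**: joins with a half edge at `(y, z)` = joins with the mark `f` which contain `P` -/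
theorem card_gen (h : HNet S N) (hx : (y, z, x) ∈ delT S) (E : Exit S N y z f P)
    (A B : Finset (ℂ × ℂ) → Prop)
    (hAB : ∀ J, IsJoin N.toTrg N.kl ∅ (N.exS ∪ {(y, z)}) J → (A J ↔ B (J ∪ P))) :
    ((N.hj y z).filter A).card =
      ((joins N.toTrg (klx N P) ∅ (N.exS ∪ {f})).filter fun J => P ⊆ J ∧ B J).card := by
  unfold Net.hj
  refine Finset.card_bij' (fun J _ => J ∪ P) (fun J _ => J \ P) ?_ ?_ ?_ ?_
  · intro J hJ
    rw [Finset.mem_filter, mem_joins] at hJ
    rw [Finset.mem_filter, mem_joins]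
    exact ⟨E.union h hx hJ.1, Finset.subset_union_right, (hAB J hJ.1).1 hJ.2⟩
  · intro J hJ
    rw [Finset.mem_filter, mem_joins] at hJ
    have h1 := E.diff h hx hJ.1 hJ.2.1
    rw [Finset.mem_filter, mem_joins]
    refine ⟨h1, (hAB _ h1).2 ?_⟩
    rw [Finset.sdiff_union_of_subset hJ.2.1]
    exact hJ.2.2
  · intro J hJ
    rw [Finset.mem_filter, mem_joins] at hJ
    apply Finset.union_sdiff_cancel_right
    rw [Finset.disjoint_left]
    rintro ⟨a, b⟩ h1 h2
    exact E.disj h hJ.1 h2 h1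
  · intro J hJ
    rw [Finset.mem_filter] at hJ
    exact Finset.sdiff_union_of_subset hJ.2.1

theorem card_cnt (h : HNet S N) (hx : (y, z, x) ∈ delT S) (E : Exit S N y z f P) (k : ZMod 3) :
    N.cnt y z k = ((joins N.toTrg (klx N P) ∅ (N.exS ∪ {f})).filter fun J =>
      P ⊆ J ∧ Ends N.toTrg ∅ (N.exS ∪ {f}) J f (N.ex k)).card :=
  E.card_gen h hx _ _ fun _ hJ => E.ends h hx hJ k

theorem card_hj (h : HNet S N) (hx : (y, z, x) ∈ delT S) (E : Exit S N y z f P) :
    (N.hj y z).card = ((joins N.toTrg (klx N P) ∅ (N.exS ∪ {f})).filter fun J => P ⊆ J).card := by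
  have := E.card_gen h hx (fun _ => True) (fun _ => True) fun _ _ => Iff.rfl
  simpa using this

end Exit

end Crest.Agent.R143.Crsx117
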