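import Crest.Agent.R143.Crs3_117

/-!
# Row 143, block P (P2b), file 4: counting by colourings (helper117)

* `PX S N f P` : `f` = hull edge, no mark, `P` = set of killed edges on which the colouring changes
  (`P = ∅` for a position on the hull)
* `VC S N f P` : valid sets of black sites with the four marks `exS ∪ {f}`
* `Free S N In` : the inner sites; all other sites are joined to the hull arcs by walls
* `card_free` : the valid colourings with `v0` black are `B0 ∪ T`, `T ⊆ In`
-/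

set_option autoImplicit false

noncomputable section

open scoped Classical

namespace Crest.Agent.R143.Crsx117

open Crest.Agent.R143.B0x346 Crest.Agent.R143.DelGx806 Crest.Agent.R143.DelRx806
  Crest.Agent.R143.B0Dx346 Crest.Agent.R143.JColx54 Crest.Agent.R143.JCol2x54
  Crest.Agent.R143.JWalkx872 Crest.Agent.R143.JCardx872

variable {S : Finset ℂ} {N : Net ℂ} {f : ℂ × ℂ} {P : Finset (ℂ × ℂ)}

theorem mem_colJ' {G : Trg ℂ} {D : Set (ℂ × ℂ)} {σ : ℂ → Bool} (hG : G.T = delT S) {a b : ℂ} :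
    (a, b) ∈ colJ G D σ ↔ Adj S a b ∧ σ a ≠ σ b ∧ (b, a) ∉ D := by
  unfold colJ
  rw [Finset.mem_filter, mem_E hG]

/-- additional hull mark `f` with a set `P` of forced changes -/
structure PX (S : Finset ℂ) (N : Net ℂ) (f : ℂ × ℂ) (P : Finset (ℂ × ℂ)) : Prop where
  hull : hullE S f.1 f.2
  fex : f ∉ N.exS
  kil : ∀ p ∈ P, p ∈ N.kl ∨ p = f
  rf : (f.2, f.1) ∉ P
  adj : ∀ p ∈ P, Adj S p.1 p.2

theorem PX.empty (hf : hullE S f.1 f.2) (hx : f ∉ N.exS) : PX S N f ∅ where
  hull := hf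
  fex := hx
  kil := by simp
  rf := by simp
  adj := by simp

theorem Exit.px (h : HNet S N) {y z : ℂ} (E : Exit S N y z f P) : PX S N f P where
  hull := E.hull
  fex := E.fex
  kil := E.kil
  rf := E.f_mem.2
  adj := fun p hp => (mem_E h.tri).1 (E.join.sub hp)

/-- the four marks -/
abbrev DD (N : Net ℂ) (f : ℂ × ℂ) : Set (ℂ × ℂ) := N.exS ∪ {f}

/-- valid sets of black sites -/
def VC (S : Finset ℂ) (N : Net ℂ) (f : ℂ × ℂ) (P : Finset (ℂ × ℂ)) : Finset (Finset ℂ) :=
  (cols S (klx N P) (DD N f)).filter fun B => ∀ p ∈ P, decide (p.1 ∈ B) ≠ decide (p.2 ∈ B)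

/-- the colouring of a set of black sites -/
abbrev blk (B : Finset ℂ) : ℂ → Bool := fun s => decide (s ∈ B)

namespace PX

theorem not_ex (h : HNet S N) (E : PX S N f P) {a b : ℂ} (hab : (a, b) ∈ P) :
    (a, b) ∉ N.exS ∧ (b, a) ∉ N.exS := by
  rcases E.kil _ hab with h1 | h1
  · exact ⟨fun h' => exS_live h h' h1, fun h' => exS_live h h' (N.klsym _ _ h1)⟩
  · refine ⟨fun h' => E.fex (h1 ▸ h'), fun h' => ?_⟩
    have h2 := exS_hull h h'
    have h3 := E.hull
    rw [← h1] at h3
    exact hullE_asymm h2 h3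

theorem hD (h : HNet S N) (E : PX S N f P) : ∀ a b, (a, b) ∈ DD N f → hullE S a b := by
  rintro a b (h1 | h1)
  · exact exS_hull h h1
  · have h1 : (a, b) = f := h1
    have h3 := E.hull
    rw [← h1] at h3
    exact h3

theorem mem_VC {B : Finset ℂ} : B ∈ VC S N f P ↔ B ⊆ S ∧ IsCol S (klx N P) (DD N f) (blk B) ∧
    ∀ p ∈ P, blk B p.1 ≠ blk B p.2 := by
  unfold VC cols
  rw [Finset.mem_filter, Finset.mem_filter, Finset.mem_powerset]
  tauto

theorem sub_setJ (h : HNet S N) (E : PX S N f P) {B : Finset ℂ} :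
    P ⊆ setJ N.toTrg (DD N f) B ↔ ∀ p ∈ P, decide (p.1 ∈ B) ≠ decide (p.2 ∈ B) := by
  constructor
  · intro h1 p hp
    exact ((mem_colJ' h.tri).1 (h1 hp)).2.1
  · rintro h1 ⟨a, b⟩ hp
    refine (mem_colJ' h.tri).2 ⟨E.adj _ hp, h1 _ hp, ?_⟩
    rintro (h2 | h2)
    · exact (E.not_ex h hp).2 h2
    · have h2 : (b, a) = f := h2
      apply E.rf
      rw [← h2]
      exact hp

/-- joins = colourings, with an arbitrary predicate -/
theorem card_VC (h : HNet S N) (E : PX S N f P) (A : Finset (ℂ × ℂ) → Prop) :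
    ((VC S N f P).filter fun B => A (setJ N.toTrg (DD N f) B)).card =
      2 * ((joins N.toTrg (klx N P) ∅ (DD N f)).filter fun J => P ⊆ J ∧ A J).card := by
  have e := card_cols h.gp (Sidesx697.card3 h) h.tri (E.hD h) (klx_symm (N := N) (P := P))
    (fun J => P ⊆ J ∧ A J)
  have e1 : (VC S N f P).filter (fun B => A (setJ N.toTrg (DD N f) B)) =
      (cols S (klx N P) (DD N f)).filter (fun B => P ⊆ setJ N.toTrg (DD N f) B ∧
        A (setJ N.toTrg (DD N f) B)) := by
    ext B
    unfold VC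
    simp only [Finset.mem_filter, E.sub_setJ h]
    tauto
  rw [e1]
  refine (Eq.trans ?_ e).trans ?_
  · apply congrArg Finset.card
    ext B
    simp only [Finset.mem_filter]
  · apply congrArg (fun s : Finset (Finset (ℂ × ℂ)) => 2 * s.card)
    ext J
    simp only [Finset.mem_filter]

theorem compl_VC (h : HNet S N) (E : PX S N f P) {B : Finset ℂ} (hB : B ∈ VC S N f P) :
    S \ B ∈ VC S N f P := by
  unfold VC at hB ⊢
  rw [Finset.mem_filter] at hB ⊢
  refine ⟨compl_mem_cols (E.hD h) hB.1, fun p hp => ?_⟩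
  have h1 := hB.2 p hp
  have h2 := (E.adj p hp).mem
  by_cases q1 : p.1 ∈ B <;> by_cases q2 : p.2 ∈ B <;> simp [q1, q2, h2.1, h2.2] at h1 ⊢

/-- half of the colourings have `v0` black -/
theorem card_black (h : HNet S N) (E : PX S N f P) {v0 : ℂ} (hv : v0 ∈ S)
    (Q : Finset ℂ → Prop) (hQ : ∀ B ∈ VC S N f P, Q B ↔ Q (S \ B)) :
    ((VC S N f P).filter Q).card = 2 * ((VC S N f P).filter fun B => v0 ∈ B ∧ Q B).card := by
  have e1 : ((VC S N f P).filter Q).card = ((VC S N f P).filter fun B => v0 ∈ B ∧ Q B).card +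
      ((VC S N f P).filter fun B => v0 ∉ B ∧ Q B).card := by
    rw [← Finset.card_union_of_disjoint]
    · congr 1
      ext B
      simp only [Finset.mem_union, Finset.mem_filter]
      tauto
    · rw [Finset.disjoint_filter]
      rintro B _ ⟨h1, _⟩ ⟨h2, _⟩
      exact h2 h1
  have e2 : ((VC S N f P).filter fun B => v0 ∉ B ∧ Q B).card =
      ((VC S N f P).filter fun B => v0 ∈ B ∧ Q B).card := by
    have hss : ∀ B ∈ VC S N f P, S \ (S \ B) = B := fun B hB =>
      Finset.sdiff_sdiff_eq_self (mem_VC.1 hB).1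
    refine Finset.card_bij' (fun B _ => S \ B) (fun B _ => S \ B) ?_ ?_ ?_ ?_
    · intro B hB
      rw [Finset.mem_filter] at hB ⊢
      exact ⟨E.compl_VC h hB.1, Finset.mem_sdiff.2 ⟨hv, hB.2.1⟩, (hQ B hB.1).1 hB.2.2⟩
    · intro B hB
      rw [Finset.mem_filter] at hB ⊢
      exact ⟨E.compl_VC h hB.1, fun h' => (Finset.mem_sdiff.1 h').2 hB.2.1,
        (hQ B hB.1).1 hB.2.2⟩
    · intro B hB
      exact hss B (Finset.mem_filter.1 hB).1
    · intro B hB
      exact hss B (Finset.mem_filter.1 hB).1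
  rw [e1, e2]
  ring

end PX

/-- the inner sites -/
structure Free (S : Finset ℂ) (N : Net ℂ) (In : Finset ℂ) : Prop where
  sub : In ⊆ S
  live : ∀ a ∈ In, ∀ b, Adj S a b → (a, b) ∉ N.kl
  nh : ∀ a ∈ In, ∀ b, ¬ hullE S a b ∧ ¬ hullE S b a
  out : ∀ v ∈ S, v ∉ In → ∃ i, Sidesx697.Side N i v

section free

variable {In : Finset ℂ}

/-- two valid colourings change simultaneously along walls -/
theorem xor_wall (h : HNet S N) (_E : PX S N f P) {B B' : Finset ℂ} (hB : B ∈ VC S N f P)
    (hB' : B' ∈ VC S N f P) {u v : ℂ} (hw : Sidesx697.Wall N u v) :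
    (xor (blk B u) (blk B' u)) = xor (blk B v) (blk B' v) := by
  rw [PX.mem_VC] at hB hB'
  obtain ⟨h1, h2, h3, h4⟩ := hw
  have hadj : Adj S u v := (mem_E h.tri).1 h1
  have both : ∀ {a b : Bool} {a' b' : Bool}, (a ≠ b) → (a' ≠ b') → xor a a' = xor b b' := by decide
  have hull : ∀ a b, hullE S a b → (a, b) ∉ N.exS → (xor (blk B a) (blk B' a)) =
      xor (blk B b) (blk B' b) := by
    intro a b hab hn
    by_cases hf : (a, b) = f
    · exact both (hB.2.1.mark a b (Or.inr hf)) (hB'.2.1.mark a b (Or.inr hf))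
    · have hn' : (a, b) ∉ DD N f := by
        rintro (h' | h')
        · exact hn h'
        · exact hf h'
      rw [hB.2.1.hull a b hab hn', hB'.2.1.hull a b hab hn']
  rcases h4 with h4 | h4 | h4
  · by_cases q1 : (u, v) ∈ P
    · exact both (hB.2.2 _ q1) (hB'.2.2 _ q1)
    · by_cases q2 : (v, u) ∈ P
      · exact both (hB.2.2 _ q2).symm (hB'.2.2 _ q2).symm
      · by_cases q3 : (u, v) = f
        · exact both (hB.2.1.mark u v (Or.inr q3)) (hB'.2.1.mark u v (Or.inr q3))
        · by_cases q4 : (v, u) = f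
          · exact both (hB.2.1.mark v u (Or.inr q4)).symm (hB'.2.1.mark v u (Or.inr q4)).symm
          · have k1 : (u, v) ∉ DD N f := by
              rintro (h' | h')
              · exact h2 h'
              · exact q3 h'
            have k2 : (v, u) ∉ DD N f := by
              rintro (h' | h')
              · exact h3 h'
              · exact q4 h'
            rw [hB.2.1.kill u v hadj ⟨h4, q1, q2⟩ k1 k2, hB'.2.1.kill u v hadj ⟨h4, q1, q2⟩ k1 k2]
  · rw [h.tri] at h4
    rcases hadj with h5 | ⟨c, h5⟩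
    · exact hull u v ⟨h5, h4⟩ h2
    · exact absurd h5 (h4 c)
  · rw [h.tri] at h4
    rcases hadj with ⟨c, h5⟩ | h5
    · exact absurd h5 (h4 c)
    · exact (hull v u ⟨h5, h4⟩ h3).symm

theorem xor_hull (_E : PX S N f P) {B B' : Finset ℂ} (hB : B ∈ VC S N f P)
    (hB' : B' ∈ VC S N f P) {a b : ℂ} (hab : hullE S a b) :
    (xor (blk B a) (blk B' a)) = xor (blk B b) (blk B' b) := by
  rw [PX.mem_VC] at hB hB'
  have both : ∀ {a b : Bool} {a' b' : Bool}, (a ≠ b) → (a' ≠ b') → xor a a' = xor b b' := by decide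
  by_cases hf : (a, b) ∈ DD N f
  · exact both (hB.2.1.mark a b hf) (hB'.2.1.mark a b hf)
  · rw [hB.2.1.hull a b hab hf, hB'.2.1.hull a b hab hf]

/-- valid colourings with the same colour at one hull site agree outside the inner sites -/
theorem agree (h : HNet S N) (E : PX S N f P) (F : Free S N In) {B B' : Finset ℂ}
    (hB : B ∈ VC S N f P) (hB' : B' ∈ VC S N f P) {v0 c0 : ℂ} (hv0 : hullE S v0 c0)
    (h0 : v0 ∈ B) (h0' : v0 ∈ B') {v : ℂ} (hv : v ∈ S) (hvI : v ∉ In) : v ∈ B ↔ v ∈ B' := by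
  obtain ⟨n, w, H⟩ := hull_cycle h.gp (Sidesx697.card3 h)
  set g : ℂ → Bool := fun s => xor (blk B s) (blk B' s) with hg
  have hgc : ∀ i j : ℤ, i ≤ j → g (w i) = g (w j) := fun i j hij =>
    w_const hij fun k _ _ => xor_hull E hB hB' (H.edge k)
  have hga : ∀ i j : ℤ, g (w i) = g (w j) := fun i j => by
    rcases le_total i j with h' | h'
    · exact hgc i j h'
    · exact (hgc j i h').symm
  obtain ⟨i0, -, -, hi0, -⟩ := H.all _ _ hv0
  have hg0 : g v0 = false := by
    simp [hg, blk, h0, h0']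
  obtain ⟨i, hi⟩ := F.out v hv hvI
  have h1 : g (N.ex i).2 = g v := by
    clear hvI hv
    unfold Sidesx697.Side at hi
    induction hi with
    | refl => rfl
    | tail _ hs ih => rw [ih, hg]; exact xor_wall h E hB hB' hs
  obtain ⟨k, -, -, hk1, hk2⟩ := H.all _ _ (h.hex i)
  have h2 : g v = false := by
    rw [← h1, ← hk2, hga (k + 1) i0, hi0, hg0]
  simp only [hg, blk] at h2
  by_cases q1 : v ∈ B <;> by_cases q2 : v ∈ B' <;> simp [q1, q2] at h2 ⊢

/-- the inner sites are free -/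
theorem free_mem (h : HNet S N) (E : PX S N f P) (F : Free S N In) {B : Finset ℂ}
    (hB : B ∈ VC S N f P) {T : Finset ℂ} (hT : T ⊆ In) : (B \ In) ∪ T ∈ VC S N f P := by
  rw [PX.mem_VC] at hB ⊢
  have key : ∀ a, a ∉ In → blk ((B \ In) ∪ T) a = blk B a := by
    intro a ha
    have ha' : a ∉ T := fun h' => ha (hT h')
    simp [blk, ha, ha']
  have hin : ∀ a b, hullE S a b → a ∉ In ∧ b ∉ In := fun a b hab =>
    ⟨fun h' => (F.nh a h' b).1 hab, fun h' => (F.nh b h' a).2 hab⟩
  have kin : ∀ a b, Adj S a b → (a, b) ∈ N.kl → a ∉ In ∧ b ∉ In := fun a b hab hk =>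
    ⟨fun h' => F.live a h' b hab hk, fun h' => F.live b h' a hab.symm (N.klsym _ _ hk)⟩
  refine ⟨Finset.union_subset (Finset.sdiff_subset.trans hB.1) (hT.trans F.sub), ⟨?_, ?_, ?_⟩, ?_⟩
  · intro a b h1 h2 h3 h4
    have := kin a b h1 h2.1
    rw [key a this.1, key b this.2]
    exact hB.2.1.kill a b h1 h2 h3 h4
  · intro a b h1 h2
    have := hin a b h1
    rw [key a this.1, key b this.2]
    exact hB.2.1.hull a b h1 h2
  · intro a b h1
    have := hin a b (E.hD h a b h1)
    rw [key a this.1, key b this.2]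
    exact hB.2.1.mark a b h1
  · rintro ⟨a, b⟩ hp
    have : a ∉ In ∧ b ∉ In := by
      rcases E.kil _ hp with h1 | h1
      · exact kin a b (E.adj _ hp) h1
      · have h3 := E.hull
        rw [← h1] at h3
        exact hin a b h3
    show blk _ a ≠ blk _ b
    rw [key a this.1, key b this.2]
    exact hB.2.2 _ hp

/-- **the valid colourings with `v0` black** are `B0 ∪ T`, `T ⊆ In` -/
theorem card_free (h : HNet S N) (E : PX S N f P) (F : Free S N In) {B1 : Finset ℂ}
    (hB1 : B1 ∈ VC S N f P) {v0 c0 : ℂ} (hv0 : hullE S v0 c0) (h01 : v0 ∈ B1)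
    (Q : Finset ℂ → Prop) :
    ((VC S N f P).filter fun B => v0 ∈ B ∧ Q B).card =
      (In.powerset.filter fun T => Q ((B1 \ In) ∪ T)).card := by
  have hvI : v0 ∉ In := fun h' => (F.nh v0 h' c0).1 hv0
  refine Finset.card_bij' (fun B _ => B ∩ In) (fun T _ => (B1 \ In) ∪ T) ?_ ?_ ?_ ?_
  · intro B hB
    rw [Finset.mem_filter] at hB
    have e : (B1 \ In) ∪ (B ∩ In) = B := by
      ext v
      rw [Finset.mem_union, Finset.mem_sdiff, Finset.mem_inter]
      by_cases hv : v ∈ In
      · tauto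
      · constructor
        · rintro (h1 | h1)
          · have hvS := (PX.mem_VC.1 hB1).1 h1.1
            exact (agree h E F hB1 hB.1 hv0 h01 hB.2.1 hvS hv).1 h1.1
          · exact h1.1
        · intro h1
          have hvS := (PX.mem_VC.1 hB.1).1 h1
          exact Or.inl ⟨(agree h E F hB1 hB.1 hv0 h01 hB.2.1 hvS hv).2 h1, hv⟩
    rw [Finset.mem_filter, Finset.mem_powerset]
    refine ⟨Finset.inter_subset_right, ?_⟩
    rw [e]
    exact hB.2.2
  · intro T hT
    rw [Finset.mem_filter, Finset.mem_powerset] at hT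
    rw [Finset.mem_filter]
    exact ⟨free_mem h E F hB1 hT.1,
      Finset.mem_union_left _ (Finset.mem_sdiff.2 ⟨h01, hvI⟩), hT.2⟩
  · intro B hB
    rw [Finset.mem_filter] at hB
    ext v
    rw [Finset.mem_union, Finset.mem_sdiff, Finset.mem_inter]
    by_cases hv : v ∈ In
    · tauto
    · constructor
      · rintro (h1 | h1)
        · have hvS := (PX.mem_VC.1 hB1).1 h1.1
          exact (agree h E F hB1 hB.1 hv0 h01 hB.2.1 hvS hv).1 h1.1
        · exact h1.1
      · intro h1
        have hvS := (PX.mem_VC.1 hB.1).1 h1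
        exact Or.inl ⟨(agree h E F hB1 hB.1 hv0 h01 hB.2.1 hvS hv).2 h1, hv⟩
  · intro T hT
    rw [Finset.mem_filter, Finset.mem_powerset] at hT
    ext v
    rw [Finset.mem_inter, Finset.mem_union, Finset.mem_sdiff]
    constructor
    · rintro ⟨h1 | h1, h2⟩
      · exact absurd h2 h1.2
      · exact h1
    · intro h1
      exact ⟨Or.inr h1, hT.1 h1⟩

end free

end Crest.Agent.R143.Crsx117
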