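import Crest.Agent.R143.Crs4_117

/-!
# Row 143, block P (P2b), file 5: the formula for the observable at an arc position (helper117)

* `F_dead` : triangle `(y, z, x)` whose side `(y, z)` is dead (killed or on the hull, no mark)
* `main` : numbers of joins with the fourth mark `f = hm w j1`, `m i < j1 < m (i + 1)`
* `F_hull` : position on the hull: `F x (w j1) = (1 - p) om ^ i + p om ^ (i + 1)`
* `F_exit` : position inside, with an exit
  `p` = proportion of the subsets `T` of the inner sites such that `B0 ∪ T` contains a chain from the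
  hull arc `(ex i, f)` to the hull arc `(ex (i + 1), ex (i + 2))`
-/

set_option autoImplicit false

noncomputable section

open scoped Classical

namespace Crest.Agent.R143.Crsx117

open Crest.Agent.R143.B0x346 Crest.Agent.R143.DelGx806 Crest.Agent.R143.DelRx806
  Crest.Agent.R143.B0Dx346 Crest.Agent.R143.JColx54 Crest.Agent.R143.JCol2x54
  Crest.Agent.R143.JWalkx872 Crest.Agent.R143.JCardx872

section dead

variable {V : Type} {G : Trg V} {kl kl' : Set (V × V)} {D : Set (V × V)} {O : Set (V × V × V)}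
  {y z x : V} {J : Finset (V × V)}

theorem kl_weak (hk : kl ⊆ kl') (hJ : IsJoin G kl' O D J) : IsJoin G kl O D J :=
  { hJ with kill := fun a b h1 h2 h3 => hJ.kill a b (hk h1) h2 h3 }

theorem kl_add (hJ : IsJoin G kl O D J) (h1 : (y, z) ∉ J) (h2 : (z, y) ∉ J) :
    IsJoin G (kl ∪ {(y, z), (z, y)}) O D J :=
  { hJ with
    kill := by
      rintro a b (h | h | h) h3 h4
      · exact hJ.kill a b h h3 h4
      · rw [Prod.mk.injEq] at h
        obtain ⟨rfl, rfl⟩ := h
        exact ⟨h1, h2⟩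
      · have h : (a, b) = (z, y) := h
        rw [Prod.mk.injEq] at h
        obtain ⟨rfl, rfl⟩ := h
        exact ⟨h2, h1⟩ }

/-- joins with a half edge at a dead side = joins with an odd triangle -/
theorem card_half_dead (ht : (y, z, x) ∈ G.T)
    (hd : ∀ J, IsJoin G kl (rots (y, z, x)) D J → (y, z) ∉ J ∧ (z, y) ∉ J) (hD : (y, z) ∉ D)
    (hD' : (z, y) ∉ D) (P Q : Finset (V × V) → Prop)
    (hPQ : ∀ J, IsJoin G kl (rots (y, z, x)) D J → (y, z) ∉ J → (Q J ↔ P (insert (y, z) J))) :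
    ((joins G kl ∅ (D ∪ {(y, z)})).filter P).card =
      ((joins G kl (rots (y, z, x)) D).filter Q).card := by
  have ins : ∀ J, IsJoin G kl (rots (y, z, x)) D J →
      IsJoin G kl ∅ (D ∪ {(y, z)}) (insert (y, z) J) := fun J hJ =>
    kl_weak Set.subset_union_left
      (half_insert (kl := kl ∪ {(y, z), (z, y)}) ht (Or.inr (Or.inl rfl)) hD hD'
        (kl_add hJ (hd J hJ).1 (hd J hJ).2)).1
  refine Finset.card_bij' (fun J _ => J.erase (y, z)) (fun J _ => insert (y, z) J) ?_ ?_ ?_ ?_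
  · intro J hJ
    rw [Finset.mem_filter, mem_joins] at hJ
    have h := half_erase ht hD hD' hJ.1
    have hm := hJ.1.mark y z (Or.inr rfl)
    rw [Finset.mem_filter, mem_joins]
    refine ⟨h, (hPQ _ h (Finset.notMem_erase _ _)).2 ?_⟩
    rw [Finset.insert_erase hm.1]
    exact hJ.2
  · intro J hJ
    rw [Finset.mem_filter, mem_joins] at hJ
    rw [Finset.mem_filter, mem_joins]
    exact ⟨ins J hJ.1, (hPQ _ hJ.1 (hd J hJ.1).1).1 hJ.2⟩
  · intro J hJ
    rw [Finset.mem_filter, mem_joins] at hJ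
    exact Finset.insert_erase (hJ.1.mark y z (Or.inr rfl)).1
  · intro J hJ
    rw [Finset.mem_filter, mem_joins] at hJ
    exact Finset.erase_insert (hd J hJ.1).1

end dead

/-- **the observable at the live sides of a triangle with a dead side** -/
theorem F_dead {S : Finset ℂ} {N : Net ℂ} (h : HNet S N) {x y z : ℂ}
    (ht : (y, z, x) ∈ delT S)
    (hd : ∀ J, IsJoin N.toTrg N.kl (rots (y, z, x)) N.exS J → (y, z) ∉ J ∧ (z, y) ∉ J)
    (hyz : (y, z) ∉ N.exS) (hzy : (z, y) ∉ N.exS) :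
    ((x, y) ∉ N.kl → (x, y) ∉ N.exS →
      N.F x y = (∑ k : ZMod 3, (N.cnt y z k : ℂ) * omz k) / ((N.hj y z).card : ℂ)) ∧
    ((z, x) ∉ N.kl → (z, x) ∉ N.exS →
      N.F z x = (∑ k : ZMod 3, (N.cnt y z k : ℂ) * omz k) / ((N.hj y z).card : ℂ)) := by
  have hg := J1x872.good_of_hnet h
  have ht' : (y, z, x) ∈ N.T := by rw [h.tri]; exact ht
  have ht2 : (x, y, z) ∈ N.T := N.rot (N.rot ht')
  have ht3 : (z, x, y) ∈ N.T := N.rot ht'
  have hP : J1x872.P1 N (x, y, z) := p1all N S h _ (by rw [← h.tri]; exact ht2)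
  have hP3 : J1x872.P1 N (z, x, y) := p1all N S h _ (by rw [← h.tri]; exact ht3)
  have hP' : J1x872.P1 N (y, z, x) := p1all N S h _ ht
  have e2 : N.Q (y, z, x) = 0 := by
    unfold Net.Q Net.triA
    apply Finset.sum_eq_zero
    intro k _
    have : (N.tj (y, z, x)).filter (N.Tri3 (y, z, x) k) = ∅ := by
      rw [Finset.filter_eq_empty_iff]
      intro J hJ h3
      exact (hd J (mem_joins.1 hJ)).1 h3.1
    rw [this]
    simp
  have e3 : N.Q (x, y, z) = 0 := by
    rw [J1x872.q_rot z x y, J1x872.q_rot y z x, e2]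
    simp
  have e3' : N.Q (z, x, y) = 0 := by
    rw [J1x872.q_rot y z x, e2]
    simp
  have e4 := J1x872.hh_rot (N := N) x y z
  have e4' := J1x872.hh_rot (N := N) z x y
  have e5 := J1x872.sum_qk (N := N) (t := (y, z, x))
  have hsd : J1x872.sd (y, z, x) 0 = (y, z) := J1x872.sd0 _
  have c1 : ∀ k, N.cnt y z k = ((N.tj (y, z, x)).filter fun J => J1x872.qk N (y, z, x) J k).card := by
    intro k
    unfold Net.cnt Net.hj Net.tj
    refine card_half_dead ht' hd hyz hzy _ _ ?_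
    intro J hJ hn
    have := J1x872.left_half hg ht' hJ hP' (by rw [hsd]; exact hn) k
    rw [hsd] at this
    exact this
  have c2 : (N.hj y z).card = (N.tj (y, z, x)).card := by
    have := card_half_dead (G := N.toTrg) (kl := N.kl) (D := N.exS) ht' hd hyz hzy
      (fun _ => True) (fun _ => True) (fun _ _ _ => Iff.rfl)
    simp only [Finset.filter_true] at this
    exact this
  rw [e2, add_zero] at e5
  constructor
  · intro hxy hex
    have e1 := J1x872.F_side (t := (x, y, z)) hg ht2 hP hxy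
      (fun h' => hxy (N.klsym _ _ h')) (Or.inr hex)
    rw [e1, e3, ← e4, add_zero, c2, ← e5]
    simp only [c1]
  · intro hzx hex
    have e1 := J1x872.F_side (t := (z, x, y)) hg ht3 hP3 hzx
      (fun h' => hzx (N.klsym _ _ h')) (Or.inr hex)
    rw [e1, e3', ← e4', ← e4, add_zero, c2, ← e5]
    simp only [c1]

variable {S : Finset ℂ} {N : Net ℂ} {P : Finset (ℂ × ℂ)} {In : Finset ℂ} {n : ℕ} {w : ℤ → ℂ}
  {m : ℤ → ℤ} {i j1 : ℤ}

theorem m4_of (H : HullCyc S n w) (Pm : Sidesx697.Pos N n w m) (h1 : m i < j1)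
    (h2 : j1 < m (i + 1)) : M4 S n w (m i) j1 (m (i + 1)) (m (i + 2)) where
  cyc := H
  h01 := h1
  h12 := h2
  h23 := Pm.mono (by linarith)
  h30 := by
    rw [← Pm.per]
    exact Pm.mono (by linarith)

theorem z3_cast (i : ℤ) (k : ZMod 3) : k = (i : ZMod 3) ∨ k = ((i + 1 : ℤ) : ZMod 3) ∨
    k = ((i + 2 : ℤ) : ZMod 3) := by
  push_cast
  generalize (i : ZMod 3) = a
  revert a k
  decide

theorem dd_eq (Pm : Sidesx697.Pos N n w m) :
    DD N (hm w j1) = D4 w (m i) j1 (m (i + 1)) (m (i + 2)) := by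
  ext p
  constructor
  · rintro (⟨k, hk⟩ | hk)
    · rcases z3_cast i k with rfl | rfl | rfl
      · rw [Pm.ex] at hk
        exact Or.inl hk.symm
      · rw [Pm.ex] at hk
        exact Or.inr (Or.inr (Or.inl hk.symm))
      · rw [Pm.ex] at hk
        exact Or.inr (Or.inr (Or.inr hk.symm))
    · exact Or.inr (Or.inl hk)
  · rintro (hk | hk | hk | hk)
    · exact Or.inl ⟨((i : ℤ) : ZMod 3), by rw [Pm.ex]; exact hk.symm⟩
    · exact Or.inr hk
    · exact Or.inl ⟨((i + 1 : ℤ) : ZMod 3), by rw [Pm.ex]; exact hk.symm⟩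
    · exact Or.inl ⟨((i + 2 : ℤ) : ZMod 3), by rw [Pm.ex]; exact hk.symm⟩

theorem chn_compl {B : Finset ℂ} {a b : ℂ} : Chn S (blk (S \ B)) a b ↔ Chn S (blk B) a b := by
  unfold Chn
  have : ∀ x y, (Adj S x y ∧ blk (S \ B) x = blk (S \ B) y) ↔ (Adj S x y ∧ blk B x = blk B y) := by
    intro x y
    constructor
    · rintro ⟨h1, h2⟩
      refine ⟨h1, ?_⟩
      have := h1.mem
      by_cases q1 : x ∈ B <;> by_cases q2 : y ∈ B <;> simp [blk, q1, q2, this.1, this.2] at h2 ⊢
    · rintro ⟨h1, h2⟩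
      refine ⟨h1, ?_⟩
      have := h1.mem
      by_cases q1 : x ∈ B <;> by_cases q2 : y ∈ B <;> simp [blk, q1, q2, this.1, this.2] at h2 ⊢
  simp only [this]

/-- the crossing sets of inner sites: with the boundary values `B0`, a chain from `a` to `b` -/
def crossT (S : Finset ℂ) (In B0 : Finset ℂ) (a b : ℂ) : Finset (Finset ℂ) :=
  In.powerset.filter fun T => Chn S (blk (B0 ∪ T)) a b

/-- the crossing proportion -/
def crossP (S : Finset ℂ) (In B0 : Finset ℂ) (a b : ℂ) : ℝ :=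
  ((crossT S In B0 a b).card : ℝ) / 2 ^ In.card

theorem crossP_nonneg (S In B0 : Finset ℂ) (a b : ℂ) : 0 ≤ crossP S In B0 a b := by
  unfold crossP; positivity

theorem crossP_le (S In B0 : Finset ℂ) (a b : ℂ) : crossP S In B0 a b ≤ 1 := by
  unfold crossP
  rw [div_le_one (by positivity)]
  have h1 : (crossT S In B0 a b).card ≤ In.powerset.card := Finset.card_filter_le _ _
  rw [Finset.card_powerset] at h1
  exact_mod_cast h1

/-- **numbers of joins with the fourth mark `hm w j1`** -/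
theorem main (h : HNet S N) (H : HullCyc S n w) (Pm : Sidesx697.Pos N n w m) (h1 : m i < j1)
    (h2 : j1 < m (i + 1)) (E : PX S N (hm w j1) P) (F : Free S N In) {c : ZMod 3 → ℕ} {Hn : ℕ}
    (hc : ∀ k, c k = ((joins N.toTrg (klx N P) ∅ (DD N (hm w j1))).filter fun J =>
      P ⊆ J ∧ Ends N.toTrg ∅ (DD N (hm w j1)) J (hm w j1) (N.ex k)).card)
    (hH : Hn = ((joins N.toTrg (klx N P) ∅ (DD N (hm w j1))).filter fun J => P ⊆ J).card)
    (hpos : 0 < Hn) :
    ∃ B0 : Finset ℂ, B0 ∈ VC S N (hm w j1) P ∧ Disjoint B0 In ∧ w j1 ∈ B0 ∧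
      (∀ B ∈ VC S N (hm w j1) P, w j1 ∈ B → B \ In = B0) ∧
      (∑ k : ZMod 3, (c k : ℂ) * omz k) / (Hn : ℂ) =
        ((1 - crossP S In B0 (w j1) (w (m (i + 2))) : ℝ) : ℂ) * omz (i : ZMod 3) +
        ((crossP S In B0 (w j1) (w (m (i + 2))) : ℝ) : ℂ) * omz ((i : ZMod 3) + 1) := by
  have M := m4_of H Pm h1 h2
  have hDD := dd_eq (j1 := j1) (i := i) Pm
  have hT := h.tri
  have hks := klx_symm (N := N) (P := P)
  have ex0 : N.ex (i : ZMod 3) = hm w (m i) := Pm.ex i
  have ex1 : N.ex ((i : ZMod 3) + 1) = hm w (m (i + 1)) := by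
    have := Pm.ex (i + 1)
    push_cast at this
    exact this
  have hull0 : hullE S (w j1) (w (j1 + 1)) := H.edge j1
  have hv0 : w j1 ∈ S := (hullE.mem hull0).1
  -- the ends
  have crossI : ∀ B ∈ VC S N (hm w j1) P,
      (Ends N.toTrg ∅ (DD N (hm w j1)) (setJ N.toTrg (DD N (hm w j1)) B) (hm w j1)
        (N.ex ((i : ZMod 3) + 1)) ↔ Chn S (blk B) (w j1) (w (m (i + 2)))) := by
    intro B hB
    have hcol := (PX.mem_VC.1 hB).2.1
    rw [hDD] at hcol ⊢
    rw [ex1]
    exact (cross_iff h.gp hT hks M hcol).1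
  have ends2 : ∀ B ∈ VC S N (hm w j1) P,
      Ends N.toTrg ∅ (DD N (hm w j1)) (setJ N.toTrg (DD N (hm w j1)) B) (hm w j1)
        (N.ex ((i : ZMod 3) + 1)) ∨
      Ends N.toTrg ∅ (DD N (hm w j1)) (setJ N.toTrg (DD N (hm w j1)) B) (hm w j1)
        (N.ex (i : ZMod 3)) := by
    intro B hB
    have hcol := (PX.mem_VC.1 hB).2.1
    rw [hDD] at hcol ⊢
    rw [ex1, ex0]
    exact cross_ends h.gp hT hks M hcol
  have uniq : ∀ (B : Finset ℂ) (k k' : ZMod 3),
      Ends N.toTrg ∅ (DD N (hm w j1)) (setJ N.toTrg (DD N (hm w j1)) B) (hm w j1) (N.ex k) →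
      Ends N.toTrg ∅ (DD N (hm w j1)) (setJ N.toTrg (DD N (hm w j1)) B) (hm w j1) (N.ex k') →
      k = k' := fun B k k' q1 q2 =>
    J1x872.ends_unique (J1x872.good_of_hnet h) Set.subset_union_left q1 q2
  -- the numbers
  have n1 : ∀ k, ((VC S N (hm w j1) P).filter fun B =>
      Ends N.toTrg ∅ (DD N (hm w j1)) (setJ N.toTrg (DD N (hm w j1)) B) (hm w j1)
        (N.ex k)).card = 2 * c k := by
    intro k
    rw [hc k]
    exact E.card_VC h fun J => Ends N.toTrg ∅ (DD N (hm w j1)) J (hm w j1) (N.ex k)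
  have n2 : (VC S N (hm w j1) P).card = 2 * Hn := by
    rw [hH]
    have := E.card_VC h fun _ => True
    simpa using this
  obtain ⟨B2, hB2⟩ : (VC S N (hm w j1) P).Nonempty := by
    rw [← Finset.card_pos, n2]; omega
  obtain ⟨B1, hB1, h01⟩ : ∃ B1 ∈ VC S N (hm w j1) P, w j1 ∈ B1 := by
    by_cases q : w j1 ∈ B2
    · exact ⟨B2, hB2, q⟩
    · exact ⟨S \ B2, E.compl_VC h hB2, Finset.mem_sdiff.2 ⟨hv0, q⟩⟩
  set p : ℝ := crossP S In (B1 \ In) (w j1) (w (m (i + 2))) with hp
  have n3 : Hn = 2 ^ In.card := by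
    have k1 := E.card_black h hv0 (fun _ => True) (fun _ _ => Iff.rfl)
    have k2 := card_free h E F hB1 hull0 h01 (fun _ => True)
    rw [k2] at k1
    simp only [Finset.filter_true, Finset.card_powerset] at k1
    rw [n2] at k1
    omega
  have n4 : c ((i : ZMod 3) + 1) = (crossT S In (B1 \ In) (w j1) (w (m (i + 2)))).card := by
    have k0 := n1 ((i : ZMod 3) + 1)
    have k1 := E.card_black h hv0 (fun B => Chn S (blk B) (w j1) (w (m (i + 2))))
      (fun B _ => chn_compl.symm)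
    have k2 := card_free h E F hB1 hull0 h01 (fun B => Chn S (blk B) (w j1) (w (m (i + 2))))
    rw [k2] at k1
    have k3 : ((VC S N (hm w j1) P).filter fun B =>
      Ends N.toTrg ∅ (DD N (hm w j1)) (setJ N.toTrg (DD N (hm w j1)) B) (hm w j1)
        (N.ex ((i : ZMod 3) + 1))) = (VC S N (hm w j1) P).filter fun B =>
          Chn S (blk B) (w j1) (w (m (i + 2))) := Finset.filter_congr fun B hB => crossI B hB
    rw [k3, k1] at k0
    unfold crossT
    omega
  have n5 : c (i : ZMod 3) + c ((i : ZMod 3) + 1) = Hn := by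
    have k0 := n1 (i : ZMod 3)
    have k1 := n1 ((i : ZMod 3) + 1)
    have k2 : ((VC S N (hm w j1) P).filter fun B =>
      Ends N.toTrg ∅ (DD N (hm w j1)) (setJ N.toTrg (DD N (hm w j1)) B) (hm w j1)
        (N.ex (i : ZMod 3))) = (VC S N (hm w j1) P).filter fun B => ¬
      Ends N.toTrg ∅ (DD N (hm w j1)) (setJ N.toTrg (DD N (hm w j1)) B) (hm w j1)
        (N.ex ((i : ZMod 3) + 1)) := by
      apply Finset.filter_congr
      intro B hB
      constructor
      · intro q1 q2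
        have := uniq B _ _ q1 q2
        simp at this
      · intro q
        rcases ends2 B hB with q1 | q1
        · exact absurd q1 q
        · exact q1
    have k3 := Finset.card_filter_add_card_filter_not (s := VC S N (hm w j1) P) (fun B =>
      Ends N.toTrg ∅ (DD N (hm w j1)) (setJ N.toTrg (DD N (hm w j1)) B) (hm w j1)
        (N.ex ((i : ZMod 3) + 1)))
    rw [k2] at k0
    omega
  have n6 : c ((i : ZMod 3) + 2) = 0 := by
    have k0 := n1 ((i : ZMod 3) + 2)
    have k1 : ((VC S N (hm w j1) P).filter fun B =>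
      Ends N.toTrg ∅ (DD N (hm w j1)) (setJ N.toTrg (DD N (hm w j1)) B) (hm w j1)
        (N.ex ((i : ZMod 3) + 2))) = ∅ := by
      rw [Finset.filter_eq_empty_iff]
      intro B hB q
      rcases ends2 B hB with q1 | q1
      · have := uniq B _ _ q q1
        rw [add_right_inj] at this
        revert this
        decide
      · have := uniq B _ _ q q1
        have h2 : (2 : ZMod 3) = 0 := by
          have h3 : (i : ZMod 3) + 2 = (i : ZMod 3) + 0 := by rw [add_zero]; exact this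
          exact add_left_cancel h3
        revert h2
        decide
    rw [k1, Finset.card_empty] at k0
    omega
  refine ⟨B1 \ In, ?_, Finset.sdiff_disjoint, ?_, ?_, ?_⟩
  · have := free_mem h E F hB1 (T := ∅) (by simp)
    simpa using this
  · exact Finset.mem_sdiff.2 ⟨h01, fun h' => (F.nh _ h' _).1 hull0⟩
  · intro B hB hBj
    ext v
    rw [Finset.mem_sdiff, Finset.mem_sdiff]
    constructor
    · rintro ⟨q1, q2⟩
      exact ⟨(agree h E F hB hB1 hull0 hBj h01 ((PX.mem_VC.1 hB).1 q1) q2).1 q1, q2⟩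
    · rintro ⟨q1, q2⟩
      exact ⟨(agree h E F hB hB1 hull0 hBj h01 ((PX.mem_VC.1 hB1).1 q1) q2).2 q1, q2⟩
  · have s1 : (∑ k : ZMod 3, (c k : ℂ) * omz k) = (c (i : ZMod 3) : ℂ) * omz (i : ZMod 3) +
        (c ((i : ZMod 3) + 1) : ℂ) * omz ((i : ZMod 3) + 1) +
        (c ((i : ZMod 3) + 2) : ℂ) * omz ((i : ZMod 3) + 2) := by
      have : ∀ (a : ZMod 3) (g : ZMod 3 → ℂ), (∑ k : ZMod 3, g k) = g a + g (a + 1) + g (a + 2) := by
        intro a g
        rw [← Equiv.sum_comp (Equiv.addLeft a) g]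
        simp only [Equiv.coe_addLeft]
        have h3 : ∀ g' : ZMod 3 → ℂ, (∑ k : ZMod 3, g' k) = g' 0 + g' 1 + g' 2 := fun g' =>
          Fin.sum_univ_three (M := ℂ) g'
        rw [h3 (fun k => g (a + k))]
        simp only [add_zero]
      exact this _ _
    have hH0 : (Hn : ℂ) ≠ 0 := by
      exact_mod_cast hpos.ne'
    have hpc : (p : ℂ) = (c ((i : ZMod 3) + 1) : ℂ) / (Hn : ℂ) := by
      rw [hp]
      unfold crossP
      rw [n4, n3]
      push_cast
      rfl
    have hpc' : ((1 - p : ℝ) : ℂ) = (c (i : ZMod 3) : ℂ) / (Hn : ℂ) := by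
      push_cast
      rw [hpc, eq_div_iff hH0, sub_mul, one_mul, div_mul_cancel₀ _ hH0]
      have : ((c (i : ZMod 3) + c ((i : ZMod 3) + 1) : ℕ) : ℂ) = (Hn : ℂ) := by rw [n5]
      push_cast at this
      rw [← this]
      ring
    rw [hpc', hpc, s1, n6]
    field_simp
    push_cast
    ring

/-- **position inside, with an exit** -/
theorem F_exit (h : HNet S N) (H : HullCyc S n w) (Pm : Sidesx697.Pos N n w m) (h1 : m i < j1)
    (h2 : j1 < m (i + 1)) {x y z : ℂ} (ht : (y, z, x) ∈ delT S)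
    (E : Exit S N y z (hm w j1) P) (F : Free S N In) (hne : (N.hj y z).Nonempty) :
    ∃ B0 : Finset ℂ, B0 ∈ VC S N (hm w j1) P ∧ Disjoint B0 In ∧ w j1 ∈ B0 ∧
      (∀ B ∈ VC S N (hm w j1) P, w j1 ∈ B → B \ In = B0) ∧
      ∀ e : ℂ × ℂ, e = (x, y) ∨ e = (z, x) → e ∉ N.kl → e ∉ N.exS → N.F e.1 e.2 =
        ((1 - crossP S In B0 (w j1) (w (m (i + 2))) : ℝ) : ℂ) * omz (i : ZMod 3) +
        ((crossP S In B0 (w j1) (w (m (i + 2))) : ℝ) : ℂ) * omz ((i : ZMod 3) + 1) := by
  obtain ⟨B0, g1, g2, g3, g4, g5⟩ := main h H Pm h1 h2 (E.px h) F (fun k => E.card_cnt h ht k)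
    (E.card_hj h ht) (Finset.card_pos.2 hne)
  have hex := E.yz_ex h
  have hF := F_dead h ht (fun J hJ => hJ.kill y z E.yz hex.1 hex.2) hex.1 hex.2
  refine ⟨B0, g1, g2, g3, g4, ?_⟩
  rintro e (rfl | rfl) he he'
  · rw [← g5]; exact hF.1 he he'
  · rw [← g5]; exact hF.2 he he'

/-- **position on the hull** -/
theorem F_hull (h : HNet S N) (H : HullCyc S n w) (Pm : Sidesx697.Pos N n w m) (h1 : m i < j1)
    (h2 : j1 < m (i + 1)) {x : ℂ} (ht : (w j1, w (j1 + 1), x) ∈ delT S) (F : Free S N In)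
    (hne : (N.hj (w j1) (w (j1 + 1))).Nonempty) :
    ∃ B0 : Finset ℂ, B0 ∈ VC S N (hm w j1) ∅ ∧ Disjoint B0 In ∧ w j1 ∈ B0 ∧
      (∀ B ∈ VC S N (hm w j1) ∅, w j1 ∈ B → B \ In = B0) ∧
      ∀ e : ℂ × ℂ, e = (x, w j1) ∨ e = (w (j1 + 1), x) → e ∉ N.kl → e ∉ N.exS → N.F e.1 e.2 =
        ((1 - crossP S In B0 (w j1) (w (m (i + 2))) : ℝ) : ℂ) * omz (i : ZMod 3) +
        ((crossP S In B0 (w j1) (w (m (i + 2))) : ℝ) : ℂ) * omz ((i : ZMod 3) + 1) := by
  have M := m4_of H Pm h1 h2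
  have hull0 : hullE S (w j1) (w (j1 + 1)) := H.edge j1
  have hfx : hm w j1 ∉ N.exS := by
    rintro ⟨k, hk⟩
    have := M.h01
    have := M.h12
    have := M.h23
    have := M.h30
    rcases z3_cast i k with rfl | rfl | rfl
    · rw [Pm.ex] at hk
      exact hm_ne H (by linarith) (by linarith) hk
    · rw [Pm.ex] at hk
      exact hm_ne H (by linarith) (by linarith) hk.symm
    · rw [Pm.ex] at hk
      exact hm_ne H (by linarith) (by linarith) hk.symm
  have hfx' : (w (j1 + 1), w j1) ∉ N.exS := fun h' => hullE_asymm hull0 (exS_hull h h')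
  have E : PX S N (hm w j1) ∅ := PX.empty hull0 hfx
  have hkl : klx N ∅ = N.kl := by
    ext p
    simp [klx]
  obtain ⟨B0, g1, g2, g3, g4, g5⟩ := main h H Pm h1 h2 E F
    (c := fun k => N.cnt (w j1) (w (j1 + 1)) k) (Hn := (N.hj (w j1) (w (j1 + 1))).card)
    (fun k => by
      rw [hkl]
      unfold Net.cnt Net.hj
      simp only [Finset.empty_subset, true_and]
      rfl)
    (by
      rw [hkl]
      unfold Net.hj
      simp only [Finset.empty_subset, Finset.filter_true]
      rfl)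
    (Finset.card_pos.2 hne)
  have hF := F_dead h ht (fun J hJ => hJ.bdr _ _ (by rw [h.tri]; exact hull0.2) hfx) hfx hfx'
  refine ⟨B0, g1, g2, g3, g4, ?_⟩
  rintro e (rfl | rfl) he he'
  · rw [← g5]; exact hF.1 he he'
  · rw [← g5]; exact hF.2 he he'

end Crest.Agent.R143.Crsx117
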