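import Crest.Agent.R143.TileR1_228

/-!
# Row 143 (S0194), CORE-C, Q2, LOCX: tiles as connected sets, axis of a straight stretch (helper496)

For 776. `P : FPath M W`, regions `RR A B h W a`.
* `arm_convex`, `rr_pre`, `gate_mem` : a tile is preconnected, the gate point is in both tiles
* `tiles_pre` : the union of consecutive tiles is preconnected
* `thick`, `X_lip`, `Y_lip` : the `t`-neighbourhood of a tile is in the tile with `A + t`, `B + t`
* `sep`, `sep'` : two tiles with a common point (points at distance `< g`) are equal or neighbours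
* `ax` : the axis of the gate `k`; `ge_str`, `cen_str`, `ax_mem` (general straight stretch)
* `ax_m2`, `ax_m3`, `ax_1`, `ax_2` : the axis in the tiles `k - 2`, `k - 3`, `k + 1`, `k + 2`
* `cin_pre`, `cout_pre` : tiles and a piece of the axis are preconnected
-/

set_option autoImplicit false

noncomputable section

open scoped Classical

namespace Crest.Agent.R143.TilUx496

open Crest.Agent.R143.Gatex838 (X Y)
open Crest.Agent.R143.TileRx228

variable {A B h g t : ℝ} {M : ℕ} {W : ℤ → ℤ × ℤ} {a b k i : ℤ} {c u w z : ℂ}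

/-! ### arms -/

theorem X_comb (c e u v : ℂ) {r s : ℝ} (h : r + s = 1) :
    X c e (r • u + s • v) = r * X c e u + s * X c e v := by
  have h1 : r • u + s • v - c = (r : ℂ) * (u - c) + (s : ℂ) * (v - c) := by
    have : (r : ℂ) + s = 1 := by exact_mod_cast h
    simp only [Complex.real_smul]
    linear_combination c * this
  unfold X
  rw [h1, add_div, mul_div_assoc, mul_div_assoc, Complex.add_re, Complex.re_ofReal_mul,
    Complex.re_ofReal_mul]

theorem Y_comb (c e u v : ℂ) {r s : ℝ} (h : r + s = 1) :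
    Y c e (r • u + s • v) = r * Y c e u + s * Y c e v := by
  have h1 : r • u + s • v - c = (r : ℂ) * (u - c) + (s : ℂ) * (v - c) := by
    have : (r : ℂ) + s = 1 := by exact_mod_cast h
    simp only [Complex.real_smul]
    linear_combination c * this
  unfold Y
  rw [h1, add_div, mul_div_assoc, mul_div_assoc, Complex.add_im, Complex.im_ofReal_mul,
    Complex.im_ofReal_mul]

theorem cv_lt {r s x y d : ℝ} (hr : 0 ≤ r) (hs : 0 ≤ s) (hrs : r + s = 1) (hx : x < d)
    (hy : y < d) : r * x + s * y < d := by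
  rcases eq_or_lt_of_le hr with h | h
  · subst h
    rw [zero_add] at hrs
    subst hrs
    linarith
  · have h1 : r * x < r * d := mul_lt_mul_of_pos_left hx h
    have h2 : s * y ≤ s * d := mul_le_mul_of_nonneg_left hy.le hs
    have h3 : r * d + s * d = d := by rw [← add_mul, hrs, one_mul]
    linarith

theorem cv_gt {r s x y d : ℝ} (hr : 0 ≤ r) (hs : 0 ≤ s) (hrs : r + s = 1) (hx : d < x)
    (hy : d < y) : d < r * x + s * y := by
  have := cv_lt (x := -x) (y := -y) (d := -d) hr hs hrs (by linarith) (by linarith)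
  linarith

theorem arm_convex (A B : ℝ) (c u : ℂ) : Convex ℝ (Arm A B c u) := by
  intro x hx y hy r s hr hs hrs
  obtain ⟨⟨h1, h2⟩, h3⟩ := hx
  obtain ⟨⟨h4, h5⟩, h6⟩ := hy
  rw [abs_lt] at h3 h6
  refine ⟨⟨?_, ?_⟩, abs_lt.2 ⟨?_, ?_⟩⟩
  · rw [X_comb _ _ _ _ hrs]; exact cv_gt hr hs hrs h1 h4
  · rw [X_comb _ _ _ _ hrs]; exact cv_lt hr hs hrs h2 h5
  · rw [Y_comb _ _ _ _ hrs]; exact cv_gt hr hs hrs h3.1 h6.1
  · rw [Y_comb _ _ _ _ hrs]; exact cv_lt hr hs hrs h3.2 h6.2

theorem cen_arm (hA : 0 < A) (hB : 0 < B) (c u : ℂ) : c ∈ Arm A B c u := by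
  have h1 : X c u c = 0 := by simp [X]
  have h2 : Y c u c = 0 := by simp [Y]
  refine ⟨⟨?_, ?_⟩, ?_⟩
  · rw [h1]; linarith
  · rw [h1]; exact hB
  · rw [h2, abs_zero]; exact hA

theorem cen_RR (hA : 0 < A) (hB : 0 < B) (h : ℝ) (W : ℤ → ℤ × ℤ) (a : ℤ) :
    cen h W a ∈ RR A B h W a := Or.inl (cen_arm hA hB _ _)

/-- (1) **a tile is preconnected** -/
theorem rr_pre (hA : 0 < A) (hB : 0 < B) (h : ℝ) (W : ℤ → ℤ × ℤ) (a : ℤ) :
    IsPreconnected (RR A B h W a) :=
  IsPreconnected.union (cen h W a) (cen_arm hA hB _ _) (cen_arm hA hB _ _)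
    (arm_convex _ _ _ _).isPreconnected (arm_convex _ _ _ _).isPreconnected

/-- (1) **the gate point is in both tiles** -/
theorem gate_mem (P : FPath M W) (hA : 0 < A) (hB' : h / 2 < B) (hB : B ≤ h) (a : ℤ) :
    gz h W (a + 1) ∈ RR A B h W a ∧ gz h W (a + 1) ∈ RR A B h W (a + 1) := by
  have h1 : X (gz h W (a + 1)) (ge W (a + 1)) (gz h W (a + 1)) = 0 := by simp [X]
  have h2 : Y (gz h W (a + 1)) (ge W (a + 1)) (gz h W (a + 1)) = 0 := by simp [Y]
  refine ⟨win_left P hA hB ?_ ?_, win_right P hA hB ?_ ?_⟩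
  · rw [h1, abs_zero]; linarith
  · rw [h2, abs_zero]; exact hA
  · rw [h1, abs_zero]; linarith
  · rw [h2, abs_zero]; exact hA

/-- (2) **consecutive tiles** -/
theorem tiles_pre (P : FPath M W) (hA : 0 < A) (hB0 : 0 < B) (hB' : h / 2 < B) (hB : B ≤ h)
    (hab : a ≤ b) : IsPreconnected (⋃ j ∈ Set.Icc a b, RR A B h W j) := by
  induction b, hab using Int.leInduction with
  | base =>
    rw [Set.Icc_self]
    simp only [Set.mem_singleton_iff, Set.iUnion_iUnion_eq_left]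
    exact rr_pre hA hB0 h W a
  | succ b hab ih =>
    have e : (⋃ j ∈ Set.Icc a (b + 1), RR A B h W j) =
        (⋃ j ∈ Set.Icc a b, RR A B h W j) ∪ RR A B h W (b + 1) := by
      ext s
      simp only [Set.mem_iUnion, Set.mem_Icc, Set.mem_union, exists_prop]
      constructor
      · rintro ⟨j, ⟨h1, h2⟩, h3⟩
        rcases eq_or_lt_of_le h2 with h4 | h4
        · exact Or.inr (h4 ▸ h3)
        · exact Or.inl ⟨j, ⟨h1, by omega⟩, h3⟩
      · rintro (⟨j, ⟨h1, h2⟩, h3⟩ | h3)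
        · exact ⟨j, ⟨h1, by omega⟩, h3⟩
        · exact ⟨b + 1, ⟨by omega, le_rfl⟩, h3⟩
    rw [e]
    obtain ⟨h1, h2⟩ := gate_mem P hA hB' hB b
    refine IsPreconnected.union (gz h W (b + 1)) ?_ h2 ih (rr_pre hA hB0 h W (b + 1))
    simp only [Set.mem_iUnion, Set.mem_Icc, exists_prop]
    exact ⟨b, ⟨hab, le_rfl⟩, h1⟩

/-! ### thickening, separation -/

theorem X_lip (c : ℂ) {e : ℂ} (he : ‖e‖ = 1) (u w : ℂ) : |X c e u - X c e w| ≤ ‖u - w‖ := by
  have : X c e u - X c e w = ((u - w) / e).re := by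
    unfold X
    rw [← Complex.sub_re, ← sub_div]
    congr 2
    ring
  rw [this]
  refine (Complex.abs_re_le_norm _).trans ?_
  rw [norm_div, he, div_one]

theorem Y_lip (c : ℂ) {e : ℂ} (he : ‖e‖ = 1) (u w : ℂ) : |Y c e u - Y c e w| ≤ ‖u - w‖ := by
  have : Y c e u - Y c e w = ((u - w) / e).im := by
    unfold Y
    rw [← Complex.sub_im, ← sub_div]
    congr 2
    ring
  rw [this]
  refine (Complex.abs_im_le_norm _).trans ?_
  rw [norm_div, he, div_one]

theorem arm_thick {e : ℂ} (he : ‖e‖ = 1) (hw : w ∈ Arm A B c e) (hu : ‖u - w‖ ≤ t) :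
    u ∈ Arm (A + t) (B + t) c e := by
  obtain ⟨⟨h1, h2⟩, h3⟩ := hw
  have h4 := abs_le.1 ((X_lip c he u w).trans hu)
  have h5 := abs_le.1 ((Y_lip c he u w).trans hu)
  rw [abs_lt] at h3
  exact ⟨⟨by linarith [h4.1], by linarith [h4.2]⟩,
    abs_lt.2 ⟨by linarith [h5.1, h3.1], by linarith [h5.2, h3.2]⟩⟩

/-- (3) **thickening** -/
theorem thick (P : FPath M W) (hw : w ∈ RR A B h W a) (hu : ‖u - w‖ ≤ t) :
    u ∈ RR (A + t) (B + t) h W a := by
  rcases hw with hw | hw
  · exact Or.inl (arm_thick (norm_cz (P.step' a)) hw hu)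
  · exact Or.inr (arm_thick (norm_cz (P.step a)) hw hu)

/-- (4) **tiles with a common point** -/
theorem sep (P : FPath M W) (hA : 0 < A) (hAB : A ≤ B) (hh : A + B < h) (ha : z ∈ RR A B h W a)
    (hb : z ∈ RR A B h W b) :
    (M : ℤ) ∣ b - a ∨ (M : ℤ) ∣ b - (a + 1) ∨ (M : ℤ) ∣ b - (a - 1) := by
  by_contra hc
  push Not at hc
  exact Set.disjoint_left.1 (disj P hA hAB hh hc.1 hc.2.1 hc.2.2) ha hb

/-- (4) **tiles with points at distance `< g`** -/
theorem sep' (P : FPath M W) (hA : 0 < A) (hAB : A ≤ B) (hh : A + B + g ≤ h)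
    (ha : z ∈ RR A B h W a) (hb : w ∈ RR A B h W b) (hg : ‖z - w‖ < g) :
    (M : ℤ) ∣ b - a ∨ (M : ℤ) ∣ b - (a + 1) ∨ (M : ℤ) ∣ b - (a - 1) := by
  by_contra hc
  push Not at hc
  have := gap P hA hAB ((norm_nonneg _).trans hg.le) hh hc.1 hc.2.1 hc.2.2 ha hb
  linarith

/-! ### the axis -/

/-- point of the axis of the gate `k` with the coordinate `x` -/
def ax (h : ℝ) (W : ℤ → ℤ × ℤ) (k : ℤ) (x : ℝ) : ℂ := gz h W k + ge W k * x

theorem ge_norm (P : FPath M W) (k : ℤ) : ‖ge W k‖ = 1 := norm_cz (U4_ge P k)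

theorem ge_ne (P : FPath M W) (k : ℤ) : ge W k ≠ 0 := cz_ne (U4_ge P k)

theorem X_ax (P : FPath M W) (h : ℝ) (k : ℤ) (x : ℝ) : X (gz h W k) (ge W k) (ax h W k x) = x := by
  unfold X ax
  rw [add_sub_cancel_left, mul_div_cancel_left₀ _ (ge_ne P k), Complex.ofReal_re]

theorem Y_ax (P : FPath M W) (h : ℝ) (k : ℤ) (x : ℝ) : Y (gz h W k) (ge W k) (ax h W k x) = 0 := by
  unfold Y ax
  rw [add_sub_cancel_left, mul_div_cancel_left₀ _ (ge_ne P k), Complex.ofReal_im]

theorem ax_sub (h : ℝ) (W : ℤ → ℤ × ℤ) (k : ℤ) (x y : ℝ) :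
    ax h W k x - ax h W k y = ge W k * ((x - y : ℝ) : ℂ) := by
  unfold ax
  push_cast
  ring

theorem ax_dist (P : FPath M W) (h : ℝ) (k : ℤ) (x y : ℝ) :
    ‖ax h W k x - ax h W k y‖ = |x - y| := by
  rw [ax_sub, norm_mul, ge_norm P k, one_mul, Complex.norm_real, Real.norm_eq_abs]

/-- a piece of the axis is preconnected -/
theorem ax_pre (h : ℝ) (W : ℤ → ℤ × ℤ) (k : ℤ) (x y : ℝ) :
    IsPreconnected {z | ∃ r, x ≤ r ∧ r ≤ y ∧ z = ax h W k r} := by
  have e : {z | ∃ r, x ≤ r ∧ r ≤ y ∧ z = ax h W k r} = ax h W k '' Set.Icc x y := by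
    ext z
    simp only [Set.mem_ofPred_eq, Set.mem_image, Set.mem_Icc]
    constructor
    · rintro ⟨r, h1, h2, rfl⟩
      exact ⟨r, ⟨h1, h2⟩, rfl⟩
    · rintro ⟨r, ⟨h1, h2⟩, rfl⟩
      exact ⟨r, h1, h2, rfl⟩
  rw [e]
  refine isPreconnected_Icc.image _ (Continuous.continuousOn ?_)
  unfold ax
  fun_prop

/-- directions on a straight stretch -/
theorem ge_str (hs : ∀ j, a ≤ j → j < b → ge W (j + 1) = ge W j) (h1 : a ≤ i) (h2 : i ≤ b) :
    ge W i = ge W a := by
  induction i, h1 using Int.leInduction with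
  | base => rfl
  | succ i h1 ih => rw [hs i h1 (by omega), ih (by omega)]

theorem ge_str' (hs : ∀ j, a ≤ j → j < b → ge W (j + 1) = ge W j) (h1 : a ≤ i) (h2 : i ≤ b)
    (h3 : a ≤ k) (h4 : k ≤ b) : ge W i = ge W k := by
  rw [ge_str hs h1 h2, ge_str hs h3 h4]

theorem cen_succ (h : ℝ) (W : ℤ → ℤ × ℤ) (i : ℤ) :
    cen h W i = cen h W (i - 1) + h * ge W i := by
  unfold cen ge
  rw [cz_sub]
  ring

theorem cen_gz (h : ℝ) (W : ℤ → ℤ × ℤ) (k : ℤ) :
    cen h W k = gz h W k + ge W k * ((h / 2 : ℝ) : ℂ) := by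
  unfold cen gz ge
  rw [cz_sub]
  push_cast
  ring

/-- vertices on a straight stretch (gates `a … b` have the same direction) -/
theorem cen_str (hs : ∀ j, a ≤ j → j < b → ge W (j + 1) = ge W j) (h3 : a ≤ k) (h4 : k ≤ b)
    (h1 : a - 1 ≤ i) (h2 : i ≤ b) (h : ℝ) :
    cen h W i = gz h W k + ge W k * ((h * (i - k) + h / 2 : ℝ) : ℂ) := by
  rcases le_total k i with hk | hk
  · induction i, hk using Int.leInduction with
    | base =>
      rw [cen_gz h W k]
      congr 3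
      ring
    | succ i hk ih =>
      rw [cen_succ h W (i + 1), add_sub_cancel_right, ih (by omega) (by omega),
        ge_str' hs (i := i + 1) (k := k) (by omega) h2 h3 h4]
      push_cast
      ring
  · induction i, hk using Int.leInductionDown with
    | base =>
      rw [cen_gz h W k]
      congr 3
      ring
    | pred i hk ih =>
      have e := cen_succ h W i
      rw [ih (by omega) (by omega), ge_str' hs (i := i) (k := k) (by omega) (by omega) h3 h4] at e
      have e' : cen h W (i - 1) = gz h W k + ge W k * ((h * (i - k) + h / 2 : ℝ) : ℂ)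
          - h * ge W k := by
        rw [e]; ring
      rw [e']
      push_cast
      ring

/-- **the axis in a tile of a straight stretch** -/
theorem ax_mem (P : FPath M W) (hA : 0 < A) (hs : ∀ j, a ≤ j → j < b → ge W (j + 1) = ge W j)
    (h3 : a ≤ k) (h4 : k ≤ b) (h1 : a ≤ i) (h2 : i < b) {x : ℝ}
    (hx : |x - (h * (i - k) + h / 2)| < B) : ax h W k x ∈ RR A B h W i := by
  have e1 : cz (W (i + 1) - W i) = ge W k := by
    rw [← ge_str' hs (i := i + 1) (k := k) (by omega) (by omega) h3 h4]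
    unfold ge
    rw [add_sub_cancel_right]
  have e2 : cz (W (i - 1) - W i) = -ge W k := by
    rw [← ge_str' hs (i := i) (k := k) (by omega) (by omega) h3 h4]
    unfold ge
    rw [← cz_neg, neg_sub]
  have e3 : ax h W k x - cen h W i = ge W k * ((x - (h * (i - k) + h / 2) : ℝ) : ℂ) := by
    rw [cen_str hs h3 h4 (by omega) h2.le h]
    unfold ax
    push_cast
    ring
  have hX : X (cen h W i) (ge W k) (ax h W k x) = x - (h * (i - k) + h / 2) := by
    unfold X
    rw [e3, mul_div_cancel_left₀ _ (ge_ne P k), Complex.ofReal_re]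
  have hY : Y (cen h W i) (ge W k) (ax h W k x) = 0 := by
    unfold Y
    rw [e3, mul_div_cancel_left₀ _ (ge_ne P k), Complex.ofReal_im]
  rw [abs_lt] at hx
  rcases le_total 0 (x - (h * (i - k) + h / 2)) with h5 | h5
  · refine Or.inr ?_
    rw [e1]
    refine ⟨⟨?_, ?_⟩, ?_⟩
    · rw [hX]; linarith
    · rw [hX]; exact hx.2
    · rw [hY, abs_zero]; exact hA
  · refine Or.inl ?_
    rw [e2]
    refine ⟨⟨?_, ?_⟩, ?_⟩
    · rw [(XY_neg _ _ _).1, hX]; linarith
    · rw [(XY_neg _ _ _).1, hX]; linarith [hx.1]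
    · rw [(XY_neg _ _ _).2, hY, neg_zero, abs_zero]; exact hA

/-! ### (5) six straight tiles around a gate -/

/-- the tiles `k - 3, …, k + 2` are straight -/
def Str6 (W : ℤ → ℤ × ℤ) (k : ℤ) : Prop := ∀ j, k - 3 ≤ j → j ≤ k + 2 → ge W (j + 1) = ge W j

theorem Str6.lt (H : Str6 W k) : ∀ j, k - 3 ≤ j → j < k + 3 → ge W (j + 1) = ge W j :=
  fun j h1 h2 => H j h1 (by omega)

theorem Str6.ge (H : Str6 W k) (h1 : k - 3 ≤ i) (h2 : i ≤ k + 3) : ge W i = ge W k :=
  ge_str' H.lt h1 h2 (by omega) (by omega)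

theorem Str6.mem (P : FPath M W) (H : Str6 W k) (hA : 0 < A) (h1 : k - 3 ≤ i) (h2 : i ≤ k + 2)
    {x : ℝ} (hx : |x - (h * (i - k) + h / 2)| < B) : ax h W k x ∈ RR A B h W i :=
  ax_mem P hA H.lt (by omega) (by omega) h1 (by omega) hx

/-- the axis in the tile `k - 2` -/
theorem ax_m2 (P : FPath M W) (H : Str6 W k) (hA : 0 < A) {x : ℝ}
    (h1 : -2 * h - (B - h / 2) < x) (h2 : x < -h + (B - h / 2)) :
    ax h W k x ∈ RR A B h W (k - 2) := by
  refine H.mem P hA (by omega) (by omega) ?_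
  push_cast
  rw [abs_lt]
  constructor <;> nlinarith

/-- the axis in the tile `k - 3` -/
theorem ax_m3 (P : FPath M W) (H : Str6 W k) (hA : 0 < A) (hh : 0 < h) {r : ℝ}
    (h1 : |r| < B - h / 2) : ax h W k (-2 * h + r) ∈ RR A B h W (k - 3) := by
  refine H.mem P hA (by omega) (by omega) ?_
  push_cast
  rw [abs_lt] at h1 ⊢
  constructor <;> nlinarith [h1.1, h1.2]

/-- the axis in the tile `k + 1` -/
theorem ax_1 (P : FPath M W) (H : Str6 W k) (hA : 0 < A) {x : ℝ}
    (h1 : h - (B - h / 2) < x) (h2 : x < 2 * h + (B - h / 2)) :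
    ax h W k x ∈ RR A B h W (k + 1) := by
  refine H.mem P hA (by omega) (by omega) ?_
  push_cast
  rw [abs_lt]
  constructor <;> nlinarith

/-- the axis in the tile `k + 2` -/
theorem ax_2 (P : FPath M W) (H : Str6 W k) (hA : 0 < A) (hh : 0 < h) {r : ℝ}
    (h1 : |r| < B - h / 2) : ax h W k (2 * h + r) ∈ RR A B h W (k + 2) := by
  refine H.mem P hA (by omega) (by omega) ?_
  push_cast
  rw [abs_lt] at h1 ⊢
  constructor <;> nlinarith [h1.1, h1.2]

/-- **(5) the inner set** -/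
theorem cin_pre (P : FPath M W) (H : Str6 W k) (hA : 0 < A) (hB' : h / 2 < B) (hB : B ≤ h)
    (hh : 0 < h) (ha : a ≤ k - 3) {c : ℝ} (hc : c ≤ h) :
    IsPreconnected ((⋃ j ∈ Set.Icc a (k - 3), RR A B h W j) ∪
      {z | ∃ x, -2 * h ≤ x ∧ x ≤ -h - c ∧ z = ax h W k x}) := by
  refine IsPreconnected.union (ax h W k (-2 * h)) ?_ ⟨-2 * h, le_rfl, by linarith, rfl⟩
    (tiles_pre P hA (by linarith) hB' hB ha) (ax_pre h W k _ _)
  simp only [Set.mem_iUnion, Set.mem_Icc, exists_prop]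
  refine ⟨k - 3, ⟨ha, le_rfl⟩, ?_⟩
  have := ax_m3 P H hA hh (r := 0) (B := B) (by rw [abs_zero]; linarith)
  rwa [add_zero] at this

/-- **(5) the outer set** -/
theorem cout_pre (P : FPath M W) (H : Str6 W k) (hA : 0 < A) (hB' : h / 2 < B) (hB : B ≤ h)
    (hh : 0 < h) (hb : k + 2 ≤ b) {c : ℝ} (hc : c ≤ h) :
    IsPreconnected ((⋃ j ∈ Set.Icc (k + 2) b, RR A B h W j) ∪
      {z | ∃ x, h + c ≤ x ∧ x ≤ 2 * h ∧ z = ax h W k x}) := by
  refine IsPreconnected.union (ax h W k (2 * h)) ?_ ⟨2 * h, by linarith, le_rfl, rfl⟩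
    (tiles_pre P hA (by linarith) hB' hB hb) (ax_pre h W k _ _)
  simp only [Set.mem_iUnion, Set.mem_Icc, exists_prop]
  refine ⟨k + 2, ⟨le_rfl, hb⟩, ?_⟩
  have := ax_2 P H hA hh (r := 0) (B := B) (by rw [abs_zero]; linarith)
  rwa [add_zero] at this

end Crest.Agent.R143.TilUx496
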