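import Crest.Agent.R143.LocD_776
import Crest.Agent.R143.TilU_496
import Crest.Agent.R143.TileR2_228
import Crest.Agent.R143.RegB_523

/-!
# Row 143 (S0194), RIG, LOCX: the geometric fields of 776's closed curtain (helper496)

Separator gates `gL`, `gR` of a fine path, six straight tiles around each, `gL + 6 ≤ gR`,
`gR + 6 ≤ gL + M`. Regions `RR A B h W j`, margin `κ` (`A + B + 2 κ < h`), short edges `δ ≤ κ`.

* `Short`, `short_of_hol` : a Delaunay edge which meets a tile is short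
* `off5` : the long window of a gate (`|X| < 3 h / 2`, `|Y| < A + κ`) is off the tiles which are not
  `g - 2, …, g + 1`
* `Ci`, `Co` : inner / outer tiles with a piece of the axis of `gR`
* `Win`, `WinN`, `Off` : long window, its lower part, sites off all tiles
* **`cur`** : the structure `Cur`, from the four links and `VR ⊆ Win gR`, `VL ⊆ Win gL`, `VF ⊆ Off`,
  `VK ⊆ Off ∪ WinN gL ∪ WinN gR`
-/

set_option autoImplicit false

noncomputable section

open scoped Classical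

namespace Crest.Agent.R143.CurGx496

open Crest.Agent.R143.B0x346 Crest.Agent.R143.DelGx806 Crest.Agent.R143.DelRx806
open Crest.Agent.R143.Blkx838 (DE)
open Crest.Agent.R143.Neckx921 (Lk)
open Crest.Agent.R143.Gatex838 (X Y)
open Crest.Agent.R143.TileRx228
open Crest.Agent.R143.TilUx496 (Str6 cin_pre cout_pre sep)
open Crest.Agent.R143.LocDx776 (Cur)
open Crest.Agent.R143.Locx922 (Hol InD del_small)

variable {S : Finset ℂ} {M : ℕ} {W : ℤ → ℤ × ℤ} {A B h κ δ d : ℝ} {g gL gR i j : ℤ} {u v w z : ℂ}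

/-! ### short edges -/

/-- the Delaunay edges which meet a tile are short -/
def Short (S : Finset ℂ) (A B h : ℝ) (W : ℤ → ℤ × ℤ) (δ : ℝ) : Prop :=
  ∀ u v, DE S u v → ∀ w ∈ segment ℝ u v, ∀ j, w ∈ RR A B h W j → ‖u - w‖ ≤ δ ∧ ‖v - w‖ ≤ δ

theorem inD_seg {a b c : ℂ} (hw : w ∈ segment ℝ a b) : InD w a b c := by
  intro o h1 _
  obtain ⟨r, s, hr, hs, hrs, rfl⟩ := hw
  have e : r • a + s • b - o = r • (a - o) + s • (b - o) := by
    have : o = (r + s) • o := by rw [hrs, one_smul]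
    conv_lhs => rw [this]
    rw [add_smul, smul_sub, smul_sub]
    abel
  rw [e]
  refine (norm_add_le _ _).trans ?_
  rw [norm_smul, norm_smul, Real.norm_of_nonneg hr, Real.norm_of_nonneg hs, h1, ← add_mul, hrs,
    one_mul]

theorem short_of_hol (hd : 0 < d) (hH : Hol (S : Set ℂ) (⋃ j : ℤ, RR A B h W j) d) :
    Short S A B h W (2 * d) := by
  intro u v huv w hw j hj
  have hwm : w ∈ ⋃ j : ℤ, RR A B h W j := Set.mem_iUnion.2 ⟨j, hj⟩
  rcases huv with ⟨x, hx⟩ | ⟨x, hx⟩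
  · obtain ⟨o, -, -, -, -, -, h1, h2, -⟩ := del_small hd hH hwm (inD_seg hw) (mem_delT.1 hx)
    exact ⟨h1.le, h2.le⟩
  · rw [segment_symm] at hw
    obtain ⟨o, -, -, -, -, -, h1, h2, -⟩ := del_small hd hH hwm (inD_seg hw) (mem_delT.1 hx)
    exact ⟨h2.le, h1.le⟩

/-! ### frames -/

/-- the straight tiles in the frame of the gate -/
theorem str_frame (P : FPath M W) (H : Str6 W g) (h1 : g - 3 ≤ i) (h2 : i ≤ g + 2) (hA : 0 < A)
    (hAB : A ≤ B) : z ∈ RR A B h W i ↔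
      (h * (i - g) + h / 2 - B < X (gz h W g) (ge W g) z ∧
        X (gz h W g) (ge W g) z < h * (i - g) + h / 2 + B) ∧ |Y (gz h W g) (ge W g) z| < A := by
  have e1 : ge W (i + 1) = ge W i := H i h1 h2
  have e2 : ge W i = ge W g := H.ge h1 (by omega)
  have e3 : gz h W i = gz h W g + ge W g * ((h * (i - g) : ℝ) : ℂ) := by
    have h3 := TilUx496.cen_str H.lt (k := g) (i := i) (by omega) (by omega) (by omega) (by omega) h
    have h4 := TilUx496.cen_gz h W i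
    rw [h3, e2] at h4
    have h5 : gz h W i = gz h W g + ge W g * ((h * (i - g) + h / 2 : ℝ) : ℂ) -
        ge W g * ((h / 2 : ℝ) : ℂ) := by rw [h4]; ring
    rw [h5]
    push_cast
    ring
  have hX : X (gz h W i) (ge W i) z = X (gz h W g) (ge W g) z - h * (i - g) := by
    unfold X
    rw [e2, e3]
    have : (z - (gz h W g + ge W g * ((h * (i - g) : ℝ) : ℂ))) / ge W g =
        (z - gz h W g) / ge W g - ((h * (i - g) : ℝ) : ℂ) := by
      have := ge_ne P g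
      field_simp
      ring
    rw [this, Complex.sub_re, Complex.ofReal_re]
  have hY : Y (gz h W i) (ge W i) z = Y (gz h W g) (ge W g) z := by
    unfold Y
    rw [e2, e3]
    have : (z - (gz h W g + ge W g * ((h * (i - g) : ℝ) : ℂ))) / ge W g =
        (z - gz h W g) / ge W g - ((h * (i - g) : ℝ) : ℂ) := by
      have := ge_ne P g
      field_simp
      ring
    rw [this, Complex.sub_im, Complex.ofReal_im, sub_zero]
  rw [frame_S P hA hAB e1, hX, hY]
  constructor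
  · rintro ⟨⟨a1, a2⟩, a3⟩
    exact ⟨⟨by linarith, by linarith⟩, a3⟩
  · rintro ⟨⟨a1, a2⟩, a3⟩
    exact ⟨⟨by linarith, by linarith⟩, a3⟩

/-- long window -/
def Win (h : ℝ) (W : ℤ → ℤ × ℤ) (A κ : ℝ) (g : ℤ) : Set ℂ :=
  {z | |X (gz h W g) (ge W g) z| < 3 * h / 2 ∧ |Y (gz h W g) (ge W g) z| < A + κ}

/-- lower part of the long window -/
def WinN (h : ℝ) (W : ℤ → ℤ × ℤ) (A κ : ℝ) (g : ℤ) : Set ℂ :=
  {z | |X (gz h W g) (ge W g) z| < 3 * h / 2 ∧ -(A + κ) < Y (gz h W g) (ge W g) z ∧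
    Y (gz h W g) (ge W g) z < 0}

/-- off all tiles -/
def Off (A B h : ℝ) (W : ℤ → ℤ × ℤ) (δ : ℝ) : Set ℂ := {z | ∀ j, z ∉ RR (A + δ) (B + δ) h W j}

theorem winN_sub (hA : 0 < A + κ) : WinN h W A κ g ⊆ Win h W A κ g := fun _ hz =>
  ⟨hz.1, abs_lt.2 ⟨hz.2.1, hz.2.2.trans hA⟩⟩

theorem win_seg (hu : u ∈ Win h W A κ g) (hv : v ∈ Win h W A κ g) (hw : w ∈ segment ℝ u v) :
    w ∈ Win h W A κ g := by
  obtain ⟨r, s, hr, hs, hrs, rfl⟩ := hw
  obtain ⟨u1, u2⟩ := hu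
  obtain ⟨v1, v2⟩ := hv
  rw [abs_lt] at u1 u2 v1 v2
  refine ⟨abs_lt.2 ⟨?_, ?_⟩, abs_lt.2 ⟨?_, ?_⟩⟩
  · rw [TilUx496.X_comb _ _ _ _ hrs]; exact TilUx496.cv_gt hr hs hrs u1.1 v1.1
  · rw [TilUx496.X_comb _ _ _ _ hrs]; exact TilUx496.cv_lt hr hs hrs u1.2 v1.2
  · rw [TilUx496.Y_comb _ _ _ _ hrs]; exact TilUx496.cv_gt hr hs hrs u2.1 v2.1
  · rw [TilUx496.Y_comb _ _ _ _ hrs]; exact TilUx496.cv_lt hr hs hrs u2.2 v2.2

theorem neg_seg (hu : Y (gz h W g) (ge W g) u < 0) (hv : Y (gz h W g) (ge W g) v < 0)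
    (hw : w ∈ segment ℝ u v) : Y (gz h W g) (ge W g) w < 0 := by
  obtain ⟨r, s, hr, hs, hrs, rfl⟩ := hw
  rw [TilUx496.Y_comb _ _ _ _ hrs]
  exact TilUx496.cv_lt hr hs hrs hu hv

/-- a point of the long window is in one of the four tiles (enlarged) -/
theorem win_tile (P : FPath M W) (H : Str6 W g) (hA : 0 < A) (hκ : 0 ≤ κ) (hAB : A ≤ B)
    (hB : h / 2 < B) (hz : z ∈ Win h W A κ g) :
    ∃ i, g - 2 ≤ i ∧ i ≤ g + 1 ∧ z ∈ RR (A + κ) (B + κ) h W i := by
  obtain ⟨h1, h2⟩ := hz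
  have h1' := abs_lt.1 h1
  set x := X (gz h W g) (ge W g) z with hx
  have key : ∀ i : ℤ, g - 2 ≤ i → i ≤ g + 1 → h * (i - g) + h / 2 - (B + κ) < x →
      x < h * (i - g) + h / 2 + (B + κ) → ∃ i, g - 2 ≤ i ∧ i ≤ g + 1 ∧
        z ∈ RR (A + κ) (B + κ) h W i := fun i a1 a2 a3 a4 =>
    ⟨i, a1, a2, (str_frame P H (by omega) (by omega) (by linarith) (by linarith)).2
      ⟨⟨a3, a4⟩, h2⟩⟩
  rcases lt_or_ge x (-h) with c1 | c1
  · exact key (g - 2) (by omega) (by omega) (by push_cast; linarith) (by push_cast; linarith)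
  rcases lt_or_ge x 0 with c2 | c2
  · exact key (g - 1) (by omega) (by omega) (by push_cast; linarith) (by push_cast; linarith)
  rcases lt_or_ge x h with c3 | c3
  · exact key g (by omega) (by omega) (by linarith) (by linarith)
  · exact key (g + 1) (by omega) (by omega) (by push_cast; linarith) (by push_cast; linarith)

/-- **the long window of a gate is off the far tiles** -/
theorem off5 (P : FPath M W) (H : Str6 W g) (hA : 0 < A) (hκ : 0 ≤ κ) (hAB : A ≤ B)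
    (hB : h / 2 < B) (hh : A + B + 2 * κ < h) (hz : z ∈ Win h W A κ g)
    (hj : ∀ i, g - 2 ≤ i → i ≤ g + 1 → ¬ (M : ℤ) ∣ j - i) : z ∉ RR A B h W j := by
  intro hzj
  obtain ⟨i, i1, i2, hi⟩ := win_tile P H hA hκ hAB hB hz
  have h0 : z ∈ RR (A + κ) (B + κ) h W j := RR_mono (by linarith) (by linarith) h W j hzj
  obtain ⟨h1, h2⟩ := hz
  rw [abs_lt] at h1
  rcases sep P (by linarith) (by linarith) (by linarith) hi h0 with h3 | h3 | h3
  · exact hj i i1 i2 h3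
  · rcases eq_or_lt_of_le i2 with h4 | h4
    · have h5 : z ∈ RR A B h W (g + 2) := by
        rw [RegBx523.RR_cong P (a := g + 2) (b := j) (by rwa [h4, show g + 1 + 1 = g + 2 by ring] at h3)] at hzj
        exact hzj
      have h6 := ((str_frame P H (by omega) (by omega) hA hAB).1 h5).1.1
      push_cast at h6
      linarith
    · exact hj (i + 1) (by omega) (by omega) h3
  · rcases eq_or_lt_of_le i1 with h4 | h4
    · have h5 : z ∈ RR A B h W (g - 3) := by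
        rw [RegBx523.RR_cong P (a := g - 3) (b := j) (by rwa [← h4, show g - 2 - 1 = g - 3 by ring] at h3)] at hzj
        exact hzj
      have h6 := ((str_frame P H (by omega) (by omega) hA hAB).1 h5).1.2
      push_cast at h6
      linarith
    · exact hj (i - 1) (by omega) (by omega) h3

/-! ### the sets -/

/-- inner set -/
def Ci (A B h : ℝ) (W : ℤ → ℤ × ℤ) (gL gR : ℤ) : Set ℂ :=
  (⋃ j ∈ Set.Icc (gL + 2) (gR - 3), RR A B h W j) ∪
    {z | ∃ x, -2 * h ≤ x ∧ x ≤ -h - h / 2 ∧ z = TilUx496.ax h W gR x}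

/-- outer set -/
def Co (A B h : ℝ) (W : ℤ → ℤ × ℤ) (M : ℕ) (gL gR : ℤ) : Set ℂ :=
  (⋃ j ∈ Set.Icc (gR + 2) (gL - 3 + M), RR A B h W j) ∪
    {z | ∃ x, h + h / 2 ≤ x ∧ x ≤ 2 * h ∧ z = TilUx496.ax h W gR x}

/-- the parameters -/
structure Geo (S : Finset ℂ) (M : ℕ) (W : ℤ → ℤ × ℤ) (A B h κ δ : ℝ) (gL gR : ℤ) : Prop where
  fp : FPath M W
  A0 : 0 < A
  AB : A ≤ B
  Bh : h / 2 < B
  δ0 : 0 ≤ δ
  δκ : δ ≤ κ
  hh : A + B + 2 * κ < h
  sL : Str6 W gL
  sR : Str6 W gR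
  g1 : gL + 6 ≤ gR
  g2 : gR + 6 ≤ gL + M
  short : Short S A B h W δ

theorem ndvd_of {x : ℤ} (h1 : 0 < x) (h2 : x < M) : ¬ (M : ℤ) ∣ x := fun h =>
  absurd (Int.le_of_dvd h1 h) (not_le.2 h2)

theorem ndvd_of' {x : ℤ} (h1 : x < 0) (h2 : -(M : ℤ) < x) : ¬ (M : ℤ) ∣ x := by
  intro h
  have := (dvd_neg (a := (M : ℤ)) (b := x)).2 h
  exact absurd (Int.le_of_dvd (by omega) this) (by omega)

variable (G : Geo S M W A B h κ δ gL gR)

include G

theorem Geo.hpos : 0 < h := by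
  have := G.A0
  have := G.AB
  have := G.δ0
  have := G.δκ
  have := G.hh
  linarith

theorem Geo.Bh' : B ≤ h := by
  have := G.A0
  have := G.δ0
  have := G.δκ
  have := G.hh
  linarith

/-- a point of the axis of `gR` is in a tile `gR - 2, …, gR + 1` -/
theorem Geo.ax_tile {x : ℝ} (h1 : -2 * h ≤ x) (h2 : x ≤ 2 * h) :
    ∃ i, gR - 2 ≤ i ∧ i ≤ gR + 1 ∧ TilUx496.ax h W gR x ∈ RR A B h W i := by
  have hh := G.hpos
  have hB := G.Bh
  have key : ∀ i : ℤ, gR - 2 ≤ i → i ≤ gR + 1 → |x - (h * (i - gR) + h / 2)| < B →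
      ∃ i, gR - 2 ≤ i ∧ i ≤ gR + 1 ∧ TilUx496.ax h W gR x ∈ RR A B h W i := fun i a1 a2 a3 =>
    ⟨i, a1, a2, G.sR.mem G.fp G.A0 (by omega) (by omega) a3⟩
  rcases lt_or_ge x (-h) with c1 | c1
  · exact key (gR - 2) (by omega) (by omega) (by push_cast; rw [abs_lt]; constructor <;> linarith)
  rcases lt_or_ge x 0 with c2 | c2
  · exact key (gR - 1) (by omega) (by omega) (by push_cast; rw [abs_lt]; constructor <;> linarith)
  rcases lt_or_ge x h with c3 | c3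
  · exact key gR (by omega) (by omega) (by rw [abs_lt]; constructor <;> linarith)
  · exact key (gR + 1) (by omega) (by omega) (by push_cast; rw [abs_lt]; constructor <;> linarith)

/-- every point of `Ci`, `Co` and of the wall is in a tile -/
theorem Geo.tile_of (hw : w ∈ Ci A B h W gL gR ∨ w ∈ Co A B h W M gL gR ∨
    ∃ x, -(3 * h / 2) ≤ x ∧ x ≤ 3 * h / 2 ∧ w = TilUx496.ax h W gR x) : ∃ j, w ∈ RR A B h W j := by
  have hh := G.hpos
  rcases hw with (hw | ⟨x, h1, h2, rfl⟩) | (hw | ⟨x, h1, h2, rfl⟩) | ⟨x, h1, h2, rfl⟩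
  · simp only [Set.mem_iUnion, exists_prop] at hw
    obtain ⟨j, -, hj⟩ := hw
    exact ⟨j, hj⟩
  · obtain ⟨i, -, -, hi⟩ := G.ax_tile (x := x) h1 (by linarith)
    exact ⟨i, hi⟩
  · simp only [Set.mem_iUnion, exists_prop] at hw
    obtain ⟨j, -, hj⟩ := hw
    exact ⟨j, hj⟩
  · obtain ⟨i, -, -, hi⟩ := G.ax_tile (x := x) (by linarith) h2
    exact ⟨i, hi⟩
  · obtain ⟨i, -, -, hi⟩ := G.ax_tile (x := x) (by linarith) (by linarith)
    exact ⟨i, hi⟩

/-- the tiles of `Ci`, `Co`, and the axis of `gR` are off the long window of `gL` -/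
theorem Geo.offL (hw : w ∈ Ci A B h W gL gR ∨ w ∈ Co A B h W M gL gR ∨
    ∃ x, -(3 * h / 2) ≤ x ∧ x ≤ 3 * h / 2 ∧ w = TilUx496.ax h W gR x) :
    w ∉ Win h W A κ gL := by
  have hh := G.hpos
  have hκ : 0 ≤ κ := G.δ0.trans G.δκ
  have g1 := G.g1
  have g2 := G.g2
  have ax : ∀ x, -2 * h ≤ x → x ≤ 2 * h → TilUx496.ax h W gR x ∉ Win h W A κ gL := by
    intro x h1 h2 hc
    obtain ⟨i, i1, i2, hi⟩ := G.ax_tile (x := x) h1 h2
    exact off5 G.fp G.sL G.A0 hκ G.AB G.Bh G.hh hc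
      (fun k k1 k2 => ndvd_of (by omega) (by omega)) hi
  rcases hw with (hw | ⟨x, h1, h2, rfl⟩) | (hw | ⟨x, h1, h2, rfl⟩) | ⟨x, h1, h2, rfl⟩
  · simp only [Set.mem_iUnion, Set.mem_Icc, exists_prop] at hw
    obtain ⟨j, ⟨j1, j2⟩, hj⟩ := hw
    exact fun hc => off5 G.fp G.sL G.A0 hκ G.AB G.Bh G.hh hc
      (fun k k1 k2 => ndvd_of (by omega) (by omega)) hj
  · exact ax x h1 (by linarith)
  · simp only [Set.mem_iUnion, Set.mem_Icc, exists_prop] at hw
    obtain ⟨j, ⟨j1, j2⟩, hj⟩ := hw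
    exact fun hc => off5 G.fp G.sL G.A0 hκ G.AB G.Bh G.hh hc
      (fun k k1 k2 => ndvd_of (by omega) (by omega)) hj
  · exact ax x (by linarith) h2
  · exact ax x (by linarith) (by linarith)

/-- `Ci`, `Co` are off the long window of `gR` -/
theorem Geo.offR (hw : w ∈ Ci A B h W gL gR ∨ w ∈ Co A B h W M gL gR) : w ∉ Win h W A κ gR := by
  have hh := G.hpos
  have hκ : 0 ≤ κ := G.δ0.trans G.δκ
  have g1 := G.g1
  have g2 := G.g2
  rcases hw with (hw | ⟨x, h1, h2, rfl⟩) | (hw | ⟨x, h1, h2, rfl⟩)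
  · simp only [Set.mem_iUnion, Set.mem_Icc, exists_prop] at hw
    obtain ⟨j, ⟨j1, j2⟩, hj⟩ := hw
    exact fun hc => off5 G.fp G.sR G.A0 hκ G.AB G.Bh G.hh hc
      (fun k k1 k2 => ndvd_of' (by omega) (by omega)) hj
  · intro hc
    have := hc.1
    rw [TilUx496.X_ax G.fp, abs_lt] at this
    linarith [this.1]
  · simp only [Set.mem_iUnion, Set.mem_Icc, exists_prop] at hw
    obtain ⟨j, ⟨j1, j2⟩, hj⟩ := hw
    exact fun hc => off5 G.fp G.sR G.A0 hκ G.AB G.Bh G.hh hc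
      (fun k k1 k2 => ndvd_of (by omega) (by omega)) hj
  · intro hc
    have := hc.1
    rw [TilUx496.X_ax G.fp, abs_lt] at this
    linarith [this.2]

/-- an edge with an end off all tiles does not meet the tiles -/
theorem Geo.off_edge (huv : DE S u v) (ho : u ∈ Off A B h W δ ∨ v ∈ Off A B h W δ)
    (hw : ∃ j, w ∈ RR A B h W j) : w ∉ segment ℝ u v := by
  intro hs
  obtain ⟨j, hj⟩ := hw
  obtain ⟨h1, h2⟩ := G.short u v huv w hs j hj
  rcases ho with ho | ho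
  · exact ho j (TilUx496.thick G.fp hj h1)
  · exact ho j (TilUx496.thick G.fp hj h2)

/-- no tile is near both long windows -/
theorem Geo.no_both (huv : DE S u v) (hu : u ∈ Win h W A κ gL) (hv : v ∈ Win h W A κ gR)
    (hw : ∃ j, w ∈ RR A B h W j) : w ∉ segment ℝ u v := by
  intro hs
  obtain ⟨j, hj⟩ := hw
  have hκ : 0 ≤ κ := G.δ0.trans G.δκ
  have hδ := G.δκ
  have hh := G.hh
  have g1 := G.g1
  have g2 := G.g2
  have hA := G.A0
  have hAB := G.AB
  obtain ⟨h1, h2⟩ := G.short u v huv w hs j hj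
  have k1 : u ∈ RR (A + κ) (B + κ) h W j := TilUx496.thick G.fp hj (h1.trans hδ)
  have k2 : v ∈ RR (A + κ) (B + κ) h W j := TilUx496.thick G.fp hj (h2.trans hδ)
  obtain ⟨i, i1, i2, hi⟩ := win_tile G.fp G.sL G.A0 hκ G.AB G.Bh hu
  obtain ⟨l, l1, l2, hl⟩ := win_tile G.fp G.sR G.A0 hκ G.AB G.Bh hv
  have s1 := sep G.fp (by linarith) (by linarith) (by linarith) hi k1
  have s2 := sep G.fp (by linarith) (by linarith) (by linarith) hl k2
  -- `l - i` is within `2` of a multiple of `M`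
  have e : ∃ t : ℤ, -2 ≤ t ∧ t ≤ 2 ∧ (M : ℤ) ∣ l - i + t := by
    have key : ∀ p q t : ℤ, (M : ℤ) ∣ p → (M : ℤ) ∣ q → p - q = l - i + t →
        (M : ℤ) ∣ l - i + t := fun p q t hp hq e => e ▸ dvd_sub hp hq
    rcases s1 with s1 | s1 | s1 <;> rcases s2 with s2 | s2 | s2
    · exact ⟨0, by omega, by omega, key _ _ _ s1 s2 (by ring)⟩
    · exact ⟨1, by omega, by omega, key _ _ _ s1 s2 (by ring)⟩
    · exact ⟨-1, by omega, by omega, key _ _ _ s1 s2 (by ring)⟩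
    · exact ⟨-1, by omega, by omega, key _ _ _ s1 s2 (by ring)⟩
    · exact ⟨0, by omega, by omega, key _ _ _ s1 s2 (by ring)⟩
    · exact ⟨-2, by omega, by omega, key _ _ _ s1 s2 (by ring)⟩
    · exact ⟨1, by omega, by omega, key _ _ _ s1 s2 (by ring)⟩
    · exact ⟨2, by omega, by omega, key _ _ _ s1 s2 (by ring)⟩
    · exact ⟨0, by omega, by omega, key _ _ _ s1 s2 (by ring)⟩
  obtain ⟨t, t1, t2, ht⟩ := e
  exact ndvd_of (by omega) (by omega) ht

/-- **the closed curtain** -/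
theorem Geo.cur {VR VF VL VK : Set ℂ} {a b b' a' : ℂ} (lR : Lk S VR a b) (lF : Lk S VF b b')
    (lL : Lk S VL b' a') (lK : Lk S VK a' a) (hR : VR ⊆ Win h W A κ gR)
    (hL : VL ⊆ Win h W A κ gL) (hF : VF ⊆ Off A B h W δ)
    (hK : ∀ s ∈ VK, s ∈ Off A B h W δ ∨ s ∈ WinN h W A κ gL ∨ s ∈ WinN h W A κ gR)
    (ha : Y (gz h W gR) (ge W gR) a < 0) (hb : 0 < Y (gz h W gR) (ge W gR) b) :
    Cur S (gz h W gR) (ge W gR) (-(3 * h / 2)) (3 * h / 2) VR VF VL VK (Ci A B h W gL gR)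
      (Co A B h W M gL gR) a b b' a' := by
  have hh := G.hpos
  have hκ : 0 ≤ κ := G.δ0.trans G.δκ
  have hAκ : 0 < A + κ := by linarith [G.A0]
  have g1 := G.g1
  have g2 := G.g2
  -- the pairs of `VK`
  have hKK : ∀ u v, DE S u v → u ∈ VK → v ∈ VK → ∀ w, (w ∈ Ci A B h W gL gR ∨
      w ∈ Co A B h W M gL gR ∨ ∃ x, -(3 * h / 2) ≤ x ∧ x ≤ 3 * h / 2 ∧ w = TilUx496.ax h W gR x) →
      w ∉ segment ℝ u v := by
    intro u v huv hu hv w hw
    have ht := G.tile_of hw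
    rcases hK u hu with h1 | h1 | h1
    · exact G.off_edge huv (Or.inl h1) ht
    · rcases hK v hv with h2 | h2 | h2
      · exact G.off_edge huv (Or.inr h2) ht
      · exact fun hs => G.offL hw (win_seg (winN_sub hAκ h1) (winN_sub hAκ h2) hs)
      · exact G.no_both huv (winN_sub hAκ h1) (winN_sub hAκ h2) ht
    · rcases hK v hv with h2 | h2 | h2
      · exact G.off_edge huv (Or.inr h2) ht
      · rw [segment_symm]
        exact G.no_both huv.symm (winN_sub hAκ h2) (winN_sub hAκ h1) ht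
      · intro hs
        have h3 := win_seg (winN_sub hAκ h1) (winN_sub hAκ h2) hs
        rcases hw with hw | hw | ⟨x, -, -, rfl⟩
        · exact G.offR (Or.inl hw) h3
        · exact G.offR (Or.inr hw) h3
        · have h4 := neg_seg h1.2.2 h2.2.2 hs
          rw [TilUx496.Y_ax G.fp] at h4
          exact lt_irrefl _ h4
  have hFF : ∀ u v, DE S u v → u ∈ VF → ∀ w, (w ∈ Ci A B h W gL gR ∨
      w ∈ Co A B h W M gL gR ∨ ∃ x, -(3 * h / 2) ≤ x ∧ x ≤ 3 * h / 2 ∧ w = TilUx496.ax h W gR x) →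
      w ∉ segment ℝ u v := fun u v huv hu w hw =>
    G.off_edge huv (Or.inl (hF hu)) (G.tile_of hw)
  have hLL : ∀ u v, u ∈ VL → v ∈ VL → ∀ w, (w ∈ Ci A B h W gL gR ∨
      w ∈ Co A B h W M gL gR ∨ ∃ x, -(3 * h / 2) ≤ x ∧ x ≤ 3 * h / 2 ∧ w = TilUx496.ax h W gR x) →
      w ∉ segment ℝ u v := fun u v hu hv w hw hs => G.offL hw (win_seg (hL hu) (hL hv) hs)
  refine
    { he := ge_ne G.fp gR
      lR := lR
      lF := lF
      lL := lL
      lK := lK
      h01 := by linarith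
      hRx := fun s hs => abs_lt.1 (hR hs).1
      ha := ha
      hb := hb
      hw := ?_
      hCi := ?_
      hCo := ?_
      hi := ?_
      ho := ?_
      hC := ?_ }
  · intro u v huv hc x h1 h2
    have hw : TilUx496.ax h W gR x ∈ Ci A B h W gL gR ∨ TilUx496.ax h W gR x ∈ Co A B h W M gL gR ∨
        ∃ y, -(3 * h / 2) ≤ y ∧ y ≤ 3 * h / 2 ∧ TilUx496.ax h W gR x = TilUx496.ax h W gR y :=
      Or.inr (Or.inr ⟨x, h1, h2, rfl⟩)
    rcases hc with ⟨hu, hv⟩ | ⟨hu, hv⟩ | ⟨hu, hv⟩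
    · exact hFF u v huv hu _ hw
    · exact hLL u v hu hv _ hw
    · exact hKK u v huv hu hv _ hw
  · exact cin_pre G.fp G.sR G.A0 G.Bh G.Bh' hh (by omega) (by linarith)
  · exact cout_pre G.fp G.sR G.A0 G.Bh G.Bh' hh (by omega) (by linarith)
  · exact Or.inr ⟨-(3 * h / 2), by linarith, by linarith, rfl⟩
  · exact Or.inr ⟨3 * h / 2, by linarith, by linarith, rfl⟩
  · intro w hw u v huv hc
    have hw' : w ∈ Ci A B h W gL gR ∨ w ∈ Co A B h W M gL gR ∨
        ∃ x, -(3 * h / 2) ≤ x ∧ x ≤ 3 * h / 2 ∧ w = TilUx496.ax h W gR x :=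
      hw.imp_right Or.inl
    rcases hc with ⟨hu, hv⟩ | ⟨hu, hv⟩ | ⟨hu, hv⟩ | ⟨hu, hv⟩
    · exact fun hs => G.offR hw (win_seg (hR hu) (hR hv) hs)
    · exact hFF u v huv hu _ hw'
    · exact hLL u v hu hv _ hw'
    · exact hKK u v huv hu hv _ hw'

end Crest.Agent.R143.CurGx496
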