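import Crest.Agent.R143.OutC_571
import Crest.Agent.R143.Fine3_422
import Crest.Agent.R143.FineD_576

/-!
# Row 143 (S0194), R4 (3d) of note 3646: the column of a gate reaches the hull off the strips,
geometric half (helper927)

* `far_of_cell` : a point deep inside an outer cell is in `Far`
* `edge_near`, `rr_near` : the regions `RR A B h W a` are within sup distance `h + A` of the polygon
  (sharp form of `RR_near` of helper576)
* `gate_far` : a point above a gate inside a straight run is in `Far`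
* `Sml` : cells of radius `< d` at the sites of the strips (`sml_of_hol`: from `Hol` of 922)
* `off_of_far` : a site whose cell meets `Far (m h) (h + A' + d)` is off all strips `RR A' B' h W c`
* **`out_path`**, **`gate_out`** : path of sites off all strips from a site above the gate (at height
  `> A' + d`) to a far site; `hull_dist`, `hull_far` : hull sites are far
-/

set_option autoImplicit false
set_option linter.unusedVariables false

noncomputable section

open scoped Classical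

namespace Crest.Agent.R143.LnkGx927

open Set
open Crest.ProbabilityR.Voronoi
open Crest.Agent.R158.Sp896
open Crest.Agent.R143.B0x346
open Crest.Agent.R143.RE0x723 (Pth)
open Crest.Agent.R143.Tenx416 (Pg)
open Crest.Agent.R143.OutCx571 Crest.Agent.R143.TileRx228
open Crest.Agent.R143.Gatex838 (X Y)
open Crest.Agent.R143.Finex422 (Fine ro adj_un)

variable {δ ρ h : ℝ} {F : Set V}

/-- a point of the outer cell `q` at distance more than `ρ` from the sides of `q` is in `Far` -/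
theorem far_of_cell (hδ : 0 ≤ δ) {q : V} (hq : q ∉ F) {s : ℂ} (h1 : δ * q.1 + ρ < s.re)
    (h2 : s.re < δ * (q.1 + 1) - ρ) (h3 : δ * q.2 + ρ < s.im) (h4 : s.im < δ * (q.2 + 1) - ρ) :
    s ∈ Far δ ρ F := by
  intro w hw
  obtain ⟨f, hf, b1, b2, b3, b4⟩ := mem_pg.1 hw
  have hne : f ≠ q := fun e => hq (e ▸ hf)
  by_contra hcon
  push Not at hcon
  have c1 := (abs_le.1 ((le_max_left _ _).trans hcon))
  have c2 := (abs_le.1 ((le_max_right _ _).trans hcon))
  have e1 : f.1 = q.1 := by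
    rcases lt_trichotomy f.1 q.1 with h | h | h
    · exfalso
      have h' : (f.1 : ℝ) + 1 ≤ q.1 := by exact_mod_cast h
      have := mul_le_mul_of_nonneg_left h' hδ
      linarith [c1.1, c1.2]
    · exact h
    · exfalso
      have h' : (q.1 : ℝ) + 1 ≤ f.1 := by exact_mod_cast h
      have := mul_le_mul_of_nonneg_left h' hδ
      linarith [c1.1, c1.2]
  have e2 : f.2 = q.2 := by
    rcases lt_trichotomy f.2 q.2 with h | h | h
    · exfalso
      have h' : (f.2 : ℝ) + 1 ≤ q.2 := by exact_mod_cast h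
      have := mul_le_mul_of_nonneg_left h' hδ
      linarith [c2.1, c2.2]
    · exact h
    · exfalso
      have h' : (q.2 : ℝ) + 1 ≤ f.2 := by exact_mod_cast h
      have := mul_le_mul_of_nonneg_left h' hδ
      linarith [c2.1, c2.2]
  exact hne (Prod.ext e1 e2)

variable {n m M : ℕ} {p : ℤ → V} {W : ℤ → V} {A : ℤ → ℤ}

/-- clamp -/
theorem clamp {s : ℝ} {m : ℝ} (hm : 0 ≤ m) (h1 : -1 ≤ s) (h2 : s ≤ m + 1) :
    ∃ u : ℝ, 0 ≤ u ∧ u ≤ m ∧ |s - u| ≤ 1 := by
  refine ⟨max 0 (min s m), le_max_left _ _, max_le hm (min_le_right _ _), ?_⟩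
  rcases le_total s m with g1 | g1
  · rw [min_eq_left g1]
    rcases le_total 0 s with g2 | g2
    · rw [max_eq_right g2, sub_self, abs_zero]; norm_num
    · rw [max_eq_left g2, abs_le]; constructor <;> linarith
  · rw [min_eq_right g1, max_eq_right hm, abs_le]; constructor <;> linarith

/-- **the edges of the parallel curve are within sup distance `1` of the polygon** -/
theorem edge_near (hF : Fine F n (m : ℤ) p M W A) (b : ℤ) {τ : ℝ} (t0 : 0 ≤ τ) (t1 : τ ≤ 1) :
    ∃ c ∈ F, ∃ y1 y2 : ℝ, ((m : ℝ) * c.1 ≤ y1 ∧ y1 ≤ m * (c.1 + 1)) ∧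
      ((m : ℝ) * c.2 ≤ y2 ∧ y2 ≤ m * (c.2 + 1)) ∧
      |((W b).1 : ℝ) + τ * ((W (b + 1) - W b).1 : ℤ) - y1| ≤ 1 ∧
      |((W b).2 : ℝ) + τ * ((W (b + 1) - W b).2 : ℤ) - y2| ≤ 1 := by
  obtain ⟨k, h1, h2⟩ := hF.loc b
  obtain ⟨t, g1, g2, g3⟩ := hF.exact k b h1 h2.le
  obtain ⟨t', g1', g2', g3'⟩ := hF.exact k (b + 1) (by omega) (by omega)
  have hst := hF.step k b h1 h2
  have hd := adj_un (hF.cl.step k)
  have hr := hF.cl.right k
  have e0 : p (k + 1) = p k + (p (k + 1) - p k) := by abel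
  rw [e0] at hr
  rw [hst]
  generalize p (k + 1) - p k = D at *
  have ht' : t' = t + 1 := by
    rw [g3, g3'] at hst
    have e1 := congrArg Prod.fst hst
    have e2 := congrArg Prod.snd hst
    rcases hd with rfl | rfl | rfl | rfl <;> simp [ro] at e1 e2 <;> omega
  have hm : (0 : ℝ) ≤ m := Nat.cast_nonneg m
  have r1 : (-1 : ℝ) ≤ t := by exact_mod_cast g1
  have r2 : (t : ℝ) + 1 ≤ m + 1 := by
    have : t + 1 ≤ (m : ℤ) + 1 := by omega
    exact_mod_cast this
  obtain ⟨u, u0, u1, u2⟩ := clamp (s := t + τ) hm (by linarith) (by linarith)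
  rw [abs_le] at u2
  refine ⟨_, hr, ?_⟩
  rw [g3]
  generalize p k = P at *
  obtain ⟨x, y⟩ := P
  rcases hd with rfl | rfl | rfl | rfl
  · have e : rc (x, y) ((x, y) + (1, 0)) = (x, y - 1) := by
      simp only [rc, Prod.mk_add_mk, Prod.mk.injEq]; omega
    rw [e]
    refine ⟨m * x + u, m * y, ⟨?_, ?_⟩, ⟨?_, ?_⟩, ?_, ?_⟩ <;>
      simp only [ro, Prod.fst_add, Prod.snd_add, Prod.smul_fst, Prod.smul_snd, smul_eq_mul] <;>
      push_cast <;> first | (rw [abs_le]; constructor <;> nlinarith) | nlinarith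
  · have e : rc (x, y) ((x, y) + (0, 1)) = (x, y) := by
      simp only [rc, Prod.mk_add_mk, Prod.mk.injEq]; omega
    rw [e]
    refine ⟨m * x, m * y + u, ⟨?_, ?_⟩, ⟨?_, ?_⟩, ?_, ?_⟩ <;>
      simp only [ro, Prod.fst_add, Prod.snd_add, Prod.smul_fst, Prod.smul_snd, smul_eq_mul] <;>
      push_cast <;> first | (rw [abs_le]; constructor <;> nlinarith) | nlinarith
  · have e : rc (x, y) ((x, y) + (-1, 0)) = (x - 1, y) := by
      simp only [rc, Prod.mk_add_mk, Prod.mk.injEq]; omega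
    rw [e]
    refine ⟨m * x - u, m * y, ⟨?_, ?_⟩, ⟨?_, ?_⟩, ?_, ?_⟩ <;>
      simp only [ro, Prod.fst_add, Prod.snd_add, Prod.smul_fst, Prod.smul_snd, smul_eq_mul] <;>
      push_cast <;> first | (rw [abs_le]; constructor <;> nlinarith) | nlinarith
  · have e : rc (x, y) ((x, y) + (0, -1)) = (x - 1, y - 1) := by
      simp only [rc, Prod.mk_add_mk, Prod.mk.injEq]; omega
    rw [e]
    refine ⟨m * x, m * y - u, ⟨?_, ?_⟩, ⟨?_, ?_⟩, ?_, ?_⟩ <;>
      simp only [ro, Prod.fst_add, Prod.snd_add, Prod.smul_fst, Prod.smul_snd, smul_eq_mul] <;>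
      push_cast <;> first | (rw [abs_le]; constructor <;> nlinarith) | nlinarith

/-- **(D3), sharp form** : a tile region is within sup distance `h + A'` of the polygon -/
theorem rr_near (hF : Fine F n (m : ℤ) p M W A) (hh : 0 < h) {A' B' : ℝ} (hB : 0 ≤ B')
    (hBh : B' ≤ h) {a : ℤ} {s : ℂ} (hs : s ∈ RR A' B' h W a) :
    ∃ x ∈ Pg (m * h) F, |s.re - x.re| ≤ h + A' ∧ |s.im - x.im| ≤ h + A' := by
  -- the foot point
  have key : ∃ (b : ℤ) (τ : ℝ), 0 ≤ τ ∧ τ ≤ 1 ∧
      |s.re - h * (((W b).1 : ℝ) + τ * ((W (b + 1) - W b).1 : ℤ))| ≤ A' ∧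
      |s.im - h * (((W b).2 : ℝ) + τ * ((W (b + 1) - W b).2 : ℤ))| ≤ A' := by
    rcases hs with hs | hs
    · have hu : U4 (W (a - 1) - W a) := by
        have := hF.un (a - 1)
        rw [sub_add_cancel] at this
        have h2 := FineDx576.U4.neg this
        rwa [neg_sub] at h2
      obtain ⟨t, t0, t1, t2, t3⟩ := FineDx576.arm_pt hB hu hs
      have k1 : t / h ≤ 1 := by rw [div_le_one hh]; exact t1.trans hBh
      have k0 : 0 ≤ t / h := by positivity
      have k2 : h * (t / h) = t := by field_simp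
      refine ⟨a - 1, 1 - t / h, by linarith, by linarith, ?_, ?_⟩
      · rw [FineDx576.cen_re] at t2
        convert t2 using 2
        rw [sub_add_cancel]
        simp only [Prod.fst_sub]
        push_cast
        have : h * ((W (a - 1)).1 + (1 - t / h) * (((W a).1 : ℝ) - (W (a - 1)).1)) =
          h * (W a).1 + (h * (t / h)) * ((W (a - 1)).1 - (W a).1) := by ring
        rw [this, k2]
      · rw [FineDx576.cen_im] at t3
        convert t3 using 2
        rw [sub_add_cancel]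
        simp only [Prod.snd_sub]
        push_cast
        have : h * ((W (a - 1)).2 + (1 - t / h) * (((W a).2 : ℝ) - (W (a - 1)).2)) =
          h * (W a).2 + (h * (t / h)) * ((W (a - 1)).2 - (W a).2) := by ring
        rw [this, k2]
    · obtain ⟨t, t0, t1, t2, t3⟩ := FineDx576.arm_pt hB (hF.un a) hs
      have k1 : t / h ≤ 1 := by rw [div_le_one hh]; exact t1.trans hBh
      have k0 : 0 ≤ t / h := by positivity
      have k2 : h * (t / h) = t := by field_simp
      refine ⟨a, t / h, k0, k1, ?_, ?_⟩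
      · rw [FineDx576.cen_re] at t2
        convert t2 using 2
        rw [mul_add, ← mul_assoc, k2]
      · rw [FineDx576.cen_im] at t3
        convert t3 using 2
        rw [mul_add, ← mul_assoc, k2]
  obtain ⟨b, τ, t0, t1, k1, k2⟩ := key
  obtain ⟨c, hc, y1, y2, ⟨a1, a2⟩, ⟨a3, a4⟩, a5, a6⟩ := edge_near hF b t0 t1
  refine ⟨⟨h * y1, h * y2⟩, mem_pg.2 ⟨c, hc, ?_, ?_, ?_, ?_⟩, ?_, ?_⟩
  · show (m * h) * c.1 ≤ h * y1
    nlinarith
  · show h * y1 ≤ (m * h) * (c.1 + 1)
    nlinarith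
  · show (m * h) * c.2 ≤ h * y2
    nlinarith
  · show h * y2 ≤ (m * h) * (c.2 + 1)
    nlinarith
  · show |s.re - h * y1| ≤ h + A'
    generalize ((W b).1 : ℝ) + τ * ((W (b + 1) - W b).1 : ℤ) = z at *
    have e : s.re - h * y1 = (s.re - h * z) + h * (z - y1) := by ring
    rw [e]
    refine (abs_add_le _ _).trans ?_
    rw [abs_mul, abs_of_pos hh]
    nlinarith
  · show |s.im - h * y2| ≤ h + A'
    generalize ((W b).2 : ℝ) + τ * ((W (b + 1) - W b).2 : ℤ) = z at *
    have e : s.im - h * y2 = (s.im - h * z) + h * (z - y2) := by ring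
    rw [e]
    refine (abs_add_le _ _).trans ?_
    rw [abs_mul, abs_of_pos hh]
    nlinarith

/-- **a point above a gate inside a straight run is far from the polygon** -/
theorem gate_far (hF : Fine F n (m : ℤ) p M W A) (hh : 0 < h) {k a : ℤ} (h1 : A k + 4 ≤ a)
    (h2 : a + 3 ≤ A (k + 1)) {s : ℂ} (hx : |X (gz h W a) (ge W a) s| < 5 / 2 * h - ρ)
    (hy1 : ρ - h < Y (gz h W a) (ge W a) s) (hy2 : Y (gz h W a) (ge W a) s < (m - 1) * h - ρ) :
    s ∈ Far (m * h) ρ F := by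
  have hm : (0 : ℝ) ≤ m := Nat.cast_nonneg m
  obtain ⟨t, g1, g2, g3⟩ := hF.exact k (a - 1) (by omega) (by omega)
  have hst := hF.step k (a - 1) (by omega) (by omega)
  rw [sub_add_cancel] at hst
  have sg1 := hF.seg k (a - 1) (by omega) (by omega)
  have sg2 := hF.seg k (A (k + 1)) (by omega) le_rfl
  have v1 := hF.vert k
  have v2 := hF.vert (k + 1)
  have hd := adj_un (hF.cl.step k)
  have hl := hF.cl.left k
  have e0 : p (k + 1) = p k + (p (k + 1) - p k) := by abel
  -- bounds of `t`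
  have hW : W a = W (a - 1) + (p (k + 1) - p k) := by rw [← hst]; abel
  have ge' : ge W a = cz (p (k + 1) - p k) := by rw [ge, hst]
  have gzr : (gz h W a).re = h * (((W (a - 1)).1 : ℝ) + (p (k + 1) - p k).1 / 2) := by
    have : (cz (W a)).re = ((W (a - 1)).1 : ℝ) + (p (k + 1) - p k).1 := by
      rw [hW]; simp [cz]
    have h3 : (gz h W a).re = h * (((cz (W (a - 1))).re + (cz (W a)).re) / 2) := by
      simp [gz]
    rw [h3, this]
    simp only [cz]
    ring
  have gzi : (gz h W a).im = h * (((W (a - 1)).2 : ℝ) + (p (k + 1) - p k).2 / 2) := by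
    have : (cz (W a)).im = ((W (a - 1)).2 : ℝ) + (p (k + 1) - p k).2 := by
      rw [hW]; simp [cz]
    have h3 : (gz h W a).im = h * (((cz (W (a - 1))).im + (cz (W a)).im) / 2) := by
      simp [gz]
    rw [h3, this]
    simp only [cz]
    ring
  rw [ge', FineDx576.X_eq hd] at hx
  rw [ge', FineDx576.Y_eq hd] at hy1 hy2
  rw [gzr, gzi] at hx hy1 hy2
  rw [sg2] at v2
  rw [g3] at sg1
  rw [g3] at hx hy1 hy2
  rw [e0] at hl v2
  simp only [abs_le] at v1 v2
  rw [abs_lt] at hx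
  generalize p (k + 1) - p k = D at *
  generalize W (A k) = w at *
  generalize p k = P at *
  obtain ⟨x, y⟩ := P
  obtain ⟨w1, w2⟩ := w
  rw [Prod.ext_iff] at sg1
  obtain ⟨s1, s2⟩ := sg1
  clear hW ge' gzr gzi hst g3 e0 sg2
  rcases hd with rfl | rfl | rfl | rfl
  · have e : lc (x, y) ((x, y) + (1, 0)) = (x, y) := by
      simp only [lc, Prod.mk_add_mk, Prod.mk.injEq]; omega
    rw [e] at hl
    simp [ro] at s1 s2 v1 v2 hx hy1 hy2
    have t2 : 2 ≤ t := by linarith [v1.1.1, v1.1.2, v1.2.1, v1.2.2]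
    have t3 : t ≤ m - 3 := by linarith [v2.1.1, v2.1.2, v2.2.1, v2.2.2]
    have t2' : (2 : ℝ) ≤ t := by exact_mod_cast t2
    have t3' : (t : ℝ) ≤ m - 3 := by exact_mod_cast t3
    have q1 : h * 2 ≤ h * t := mul_le_mul_of_nonneg_left t2' hh.le
    have q2 : h * t ≤ h * (m - 3) := mul_le_mul_of_nonneg_left t3' hh.le
    refine far_of_cell (by positivity) hl ?_ ?_ ?_ ?_ <;> push_cast <;>
      linarith [hx.1, hx.2]
  · have e : lc (x, y) ((x, y) + (0, 1)) = (x - 1, y) := by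
      simp only [lc, Prod.mk_add_mk, Prod.mk.injEq]; omega
    rw [e] at hl
    simp [ro] at s1 s2 v1 v2 hx hy1 hy2
    have t2 : 2 ≤ t := by linarith [v1.1.1, v1.1.2, v1.2.1, v1.2.2]
    have t3 : t ≤ m - 3 := by linarith [v2.1.1, v2.1.2, v2.2.1, v2.2.2]
    have t2' : (2 : ℝ) ≤ t := by exact_mod_cast t2
    have t3' : (t : ℝ) ≤ m - 3 := by exact_mod_cast t3
    have q1 : h * 2 ≤ h * t := mul_le_mul_of_nonneg_left t2' hh.le
    have q2 : h * t ≤ h * (m - 3) := mul_le_mul_of_nonneg_left t3' hh.le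
    refine far_of_cell (by positivity) hl ?_ ?_ ?_ ?_ <;> push_cast <;>
      linarith [hx.1, hx.2]
  · have e : lc (x, y) ((x, y) + (-1, 0)) = (x - 1, y - 1) := by
      simp only [lc, Prod.mk_add_mk, Prod.mk.injEq]; omega
    rw [e] at hl
    simp [ro] at s1 s2 v1 v2 hx hy1 hy2
    have t2 : 2 ≤ t := by linarith [v1.1.1, v1.1.2, v1.2.1, v1.2.2]
    have t3 : t ≤ m - 3 := by linarith [v2.1.1, v2.1.2, v2.2.1, v2.2.2]
    have t2' : (2 : ℝ) ≤ t := by exact_mod_cast t2
    have t3' : (t : ℝ) ≤ m - 3 := by exact_mod_cast t3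
    have q1 : h * 2 ≤ h * t := mul_le_mul_of_nonneg_left t2' hh.le
    have q2 : h * t ≤ h * (m - 3) := mul_le_mul_of_nonneg_left t3' hh.le
    refine far_of_cell (by positivity) hl ?_ ?_ ?_ ?_ <;> push_cast <;>
      linarith [hx.1, hx.2]
  · have e : lc (x, y) ((x, y) + (0, -1)) = (x, y - 1) := by
      simp only [lc, Prod.mk_add_mk, Prod.mk.injEq]; omega
    rw [e] at hl
    simp [ro] at s1 s2 v1 v2 hx hy1 hy2
    have t2 : 2 ≤ t := by linarith [v1.1.1, v1.1.2, v1.2.1, v1.2.2]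
    have t3 : t ≤ m - 3 := by linarith [v2.1.1, v2.1.2, v2.2.1, v2.2.2]
    have t2' : (2 : ℝ) ≤ t := by exact_mod_cast t2
    have t3' : (t : ℝ) ≤ m - 3 := by exact_mod_cast t3
    have q1 : h * 2 ≤ h * t := mul_le_mul_of_nonneg_left t2' hh.le
    have q2 : h * t ≤ h * (m - 3) := mul_le_mul_of_nonneg_left t3' hh.le
    refine far_of_cell (by positivity) hl ?_ ?_ ?_ ?_ <;> push_cast <;>
      linarith [hx.1, hx.2]

/-! ### the path -/

variable {S : Finset ℂ} {A' B' d : ℝ}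

/-- small cells at the sites of the strips -/
def Sml (S : Finset ℂ) (A' B' h d : ℝ) (W : ℤ → V) : Prop :=
  ∀ c : ℤ, ∀ v ∈ S, v ∈ RR A' B' h W c → ∀ z ∈ voronoiCell (S : Set ℂ) v, ‖z - v‖ < d

theorem sml_of_hol (hd : 0 < d) (hH : Locx922.Hol (S : Set ℂ) (⋃ c : ℤ, RR A' B' h W c) d) :
    Sml S A' B' h d W := fun c v _ hv z hz =>
  Locx922.cell_sub_ball hd hH (mem_iUnion.2 ⟨c, hv⟩) hz

/-- **sites whose cell meets the far zone are off the strips** -/
theorem off_of_far (hF : Fine F n (m : ℤ) p M W A) (hh : 0 < h) (hB : 0 ≤ B') (hBh : B' ≤ h)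
    (hsm : Sml S A' B' h d W) {v : ℂ} (hv : v ∈ S)
    (hC : (Far (m * h) (h + A' + d) F ∩ voronoiCell (S : Set ℂ) v).Nonempty) (c : ℤ) :
    v ∉ RR A' B' h W c := by
  intro hc
  obtain ⟨z, hz, hzv⟩ := hC
  obtain ⟨x, hx, x1, x2⟩ := rr_near hF hh hB hBh hc
  have h1 := hsm c v hv hc z hzv
  have h2 := hz x hx
  have h3 := Complex.abs_re_le_norm (z - v)
  have h4 := Complex.abs_im_le_norm (z - v)
  rw [Complex.sub_re] at h3
  rw [Complex.sub_im] at h4
  have e1 : z.re - x.re = (z.re - v.re) + (v.re - x.re) := by ring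
  have e2 : z.im - x.im = (z.im - v.im) + (v.im - x.im) := by ring
  have h5 : |z.re - x.re| ≤ h + A' + d := by
    rw [e1]; refine (abs_add_le _ _).trans ?_; linarith
  have h6 : |z.im - x.im| ≤ h + A' + d := by
    rw [e2]; refine (abs_add_le _ _).trans ?_; linarith
  exact absurd (max_le h5 h6) (not_le.2 h2)

/-- **two sites of the far zone are joined off all strips** -/
theorem out_path (hF : Fine F n (m : ℤ) p M W A) (hFc : ∀ q ∉ F, ∀ q' ∉ F, Con Fᶜ q q')
    (hh : 0 < h) (hB : 0 ≤ B') (hBh : B' ≤ h) (hAd : 0 ≤ h + A' + d)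
    (hm : 2 * (h + A' + d) < m * h) (hsm : Sml S A' B' h d W) (gp : GP (S : Set ℂ))
    (h3 : 3 ≤ S.card) {a b : ℂ} (ha : a ∈ S) (hb : b ∈ S)
    (h1 : a ∈ Far (m * h) (h + A' + d) F) (h2 : b ∈ Far (m * h) (h + A' + d) F) :
    Pth S {v | v ∈ S ∧ ∀ c : ℤ, v ∉ RR A' B' h W c} a b :=
  REwx838.pth_of_set gp h3 (far_preconn hFc hAd hm) ha hb ⟨h1, REwx838.self_cell a⟩
    ⟨h2, REwx838.self_cell b⟩ fun _ hs hC => ⟨hs, off_of_far hF hh hB hBh hsm hs hC⟩

/-- **from a site above a gate of a straight run to a far site, off all strips** -/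
theorem gate_out (hF : Fine F n (m : ℤ) p M W A) (hFc : ∀ q ∉ F, ∀ q' ∉ F, Con Fᶜ q q')
    (hh : 0 < h) (hB : 0 ≤ B') (hBh : B' ≤ h) (hAd : 0 ≤ h + A' + d)
    (hm : 2 * (h + A' + d) < m * h) (hsm : Sml S A' B' h d W) (gp : GP (S : Set ℂ))
    (h3 : 3 ≤ S.card) {k g : ℤ} (g1 : A k + 4 ≤ g) (g2 : g + 3 ≤ A (k + 1)) {t0 h0 : ℂ}
    (ha : t0 ∈ S) (hb : h0 ∈ S) (hx : |X (gz h W g) (ge W g) t0| < 3 / 2 * h - A' - d)
    (hy1 : A' + d < Y (gz h W g) (ge W g) t0)
    (hy2 : Y (gz h W g) (ge W g) t0 < (m - 2) * h - A' - d)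
    (h2 : h0 ∈ Far (m * h) (h + A' + d) F) :
    Pth S {v | v ∈ S ∧ ∀ c : ℤ, v ∉ RR A' B' h W c} t0 h0 :=
  out_path hF hFc hh hB hBh hAd hm hsm gp h3 ha hb
    (gate_far hF hh g1 g2 (by linarith) (by linarith) (by linarith)) h2

/-! ### hull sites are far -/

/-- the ends of a hull edge are at distance at least `L - 2 d` from the centre -/
theorem hull_dist {c : ℂ} {L d : ℝ} (hD : DomAx722.Dns S c L d) {a b : ℂ} (he : hullE S a b) :
    L - 2 * d ≤ ‖a - c‖ ∧ L - 2 * d ≤ ‖b - c‖ := by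
  have h0 := DomAx722.edge_dist hD he
  have hn : 0 < ‖b - a‖ := norm_pos_iff.2 (sub_ne_zero.2 (DelRx806.hullE.ne he).symm)
  have h1 := (le_abs_self _).trans (DomAx722.abs_cr_le (b - a) (c - a))
  have e : cr (b - a) (c - a) = cr (b - a) (c - b) := by unfold cr; simp; ring
  have h2 := (le_abs_self _).trans (DomAx722.abs_cr_le (b - a) (c - b))
  rw [← e] at h2
  rw [norm_sub_rev c a, mul_comm] at h1
  rw [norm_sub_rev c b, mul_comm] at h2
  exact ⟨le_of_mul_le_mul_right (h0.trans h1) hn, le_of_mul_le_mul_right (h0.trans h2) hn⟩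

/-- **hull sites are in the far zone** -/
theorem hull_far {δ : ℝ} {c : ℂ} {L d r : ℝ} (hP : Pg δ F ⊆ Metric.closedBall c r)
    (hr : r + 2 * ρ < L - 2 * d) {v : ℂ} (hv : L - 2 * d ≤ ‖v - c‖) : v ∈ Far δ ρ F := by
  refine far_of_dist fun w hw => ?_
  have h1 := hP hw
  rw [Metric.mem_closedBall, Complex.dist_eq] at h1
  have h2 : ‖v - c‖ ≤ ‖v - w‖ + ‖w - c‖ := by
    have : v - c = (v - w) + (w - c) := by ring
    rw [this]
    exact norm_add_le _ _
  linarith

end Crest.Agent.R143.LnkGx927
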