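import Crest.Agent.R143.RegE_523
import Crest.Agent.R143.LnkG_927
import Crest.Agent.R143.Neck1_921

/-!
# Row 143 (S0194), LOCX: inner path between two gates (helper643, for helper776)

* `straight` : a gate inside a straight run in terms of the coarse walk, `2 ≤ t ≤ m - 3`
* `below_mem` : the points below a gate of a straight run are in the polygon
* `foot_mem` : the points above them are in `Kin (h + Y)`; `foot_wl` : the wall
* **`inn_path`** : two sites below two gates are linked through sites next to the polygon and sites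
  next to the two vertical segments
-/

set_option autoImplicit false
set_option linter.unusedVariables false

noncomputable section

open scoped Classical

namespace Crest.Agent.R143.InnPx643

open Set
open Crest.ProbabilityR.Voronoi
open Crest.Agent.R158.Sp896
open Crest.Agent.R143.B0x346
open Crest.Agent.R143.RE0x723 (Pth)
open Crest.Agent.R143.Tenx416 (Pg)
open Crest.Agent.R143.TileRx228
open Crest.Agent.R143.Gatex838 (X Y)
open Crest.Agent.R143.Finex422 (Fine ro adj_un)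
open Crest.Agent.R143.RegEx523 (Kin frame_eq cz_ro cz_zsmul right_cell Pg_preconn)
open Crest.Agent.R143.Neckx921 (Lk)

variable {h : ℝ} {F : Set V} {n M : ℕ} {p W : ℤ → V} {A : ℤ → ℤ}

/-- **a gate inside a straight run** -/
theorem straight {m : ℤ} (hF : Fine F n m p M W A) {k g : ℤ} (h1 : A k + 4 ≤ g)
    (h2 : g + 3 ≤ A (k + 1)) : ∃ t : ℤ, 2 ≤ t ∧ t ≤ m - 3 ∧
      W (g - 1) = m • p k + ro (p (k + 1) - p k) + t • (p (k + 1) - p k) ∧
      W g = W (g - 1) + (p (k + 1) - p k) := by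
  obtain ⟨t, g1, g2, g3⟩ := hF.exact k (g - 1) (by omega) (by omega)
  have hst := hF.step k (g - 1) (by omega) (by omega)
  rw [sub_add_cancel] at hst
  have sg1 := hF.seg k (g - 1) (by omega) (by omega)
  have sg2 := hF.seg k (A (k + 1)) (by omega) le_rfl
  have v1 := hF.vert k
  have v2 := hF.vert (k + 1)
  have hd := adj_un (hF.cl.step k)
  have e0 : p (k + 1) = p k + (p (k + 1) - p k) := by abel
  have hts : 2 ≤ t ∧ t ≤ m - 3 := by
    rw [sg2] at v2
    rw [g3] at sg1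
    rw [e0] at v2
    simp only [abs_le] at v1 v2
    generalize p (k + 1) - p k = D at *
    generalize W (A k) = w at *
    generalize p k = P at *
    obtain ⟨x, y⟩ := P
    obtain ⟨w1, w2⟩ := w
    rw [Prod.ext_iff] at sg1
    obtain ⟨s1, s2⟩ := sg1
    clear hst g3 e0 sg2
    rcases hd with rfl | rfl | rfl | rfl
    · simp [ro] at s1 s2 v1 v2
      constructor <;> linarith [v1.1.1, v1.1.2, v1.2.1, v1.2.2, v2.1.1, v2.1.2, v2.2.1, v2.2.2]
    · simp [ro] at s1 s2 v1 v2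
      constructor <;> linarith [v1.1.1, v1.1.2, v1.2.1, v1.2.2, v2.1.1, v2.1.2, v2.2.1, v2.2.2]
    · simp [ro] at s1 s2 v1 v2
      constructor <;> linarith [v1.1.1, v1.1.2, v1.2.1, v1.2.2, v2.1.1, v2.1.2, v2.2.1, v2.2.2]
    · simp [ro] at s1 s2 v1 v2
      constructor <;> linarith [v1.1.1, v1.1.2, v1.2.1, v1.2.2, v2.1.1, v2.1.2, v2.2.1, v2.2.2]
  exact ⟨t, hts.1, hts.2, g3, by rw [← hst]; abel⟩

/-- the frame of a gate of a straight run -/
theorem straight_gz {m : ℤ} (hF : Fine F n m p M W A) (h : ℝ) {k g : ℤ} (h1 : A k + 4 ≤ g)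
    (h2 : g + 3 ≤ A (k + 1)) : ∃ t : ℤ, 2 ≤ t ∧ t ≤ m - 3 ∧ ge W g = cz (p (k + 1) - p k) ∧
      gz h W g = (h : ℂ) * (m * cz (p k) + Complex.I * ge W g + (t + 1 / 2) * ge W g) := by
  obtain ⟨t, t0, t1, e1, e2⟩ := straight hF h1 h2
  have e3 : ge W g = cz (p (k + 1) - p k) := by
    unfold ge
    rw [e2, add_sub_cancel_left]
  refine ⟨t, t0, t1, e3, ?_⟩
  unfold gz
  rw [e3, e2, RegEx523.cz_add, e1]
  simp only [RegEx523.cz_add, cz_zsmul, cz_ro]
  ring

variable {m : ℕ}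

/-- the point with coordinates `x`, `y` in the frame of the gate -/
def pt (h : ℝ) (W : ℤ → V) (g : ℤ) (x y : ℝ) : ℂ := gz h W g + ((x : ℂ) + (y : ℂ) * Complex.I) * ge W g

theorem pt_X (hW : FPath M W) (g : ℤ) (x y : ℝ) : X (gz h W g) (ge W g) (pt h W g x y) = x := by
  have h1 := RegBx523.ge_ne hW g
  unfold X pt
  rw [add_sub_cancel_left, mul_div_assoc, div_self h1, mul_one]
  simp

theorem pt_Y (hW : FPath M W) (g : ℤ) (x y : ℝ) : Y (gz h W g) (ge W g) (pt h W g x y) = y := by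
  have h1 := RegBx523.ge_ne hW g
  unfold Y pt
  rw [add_sub_cancel_left, mul_div_assoc, div_self h1, mul_one]
  simp

theorem pt_eq (hW : FPath M W) (g : ℤ) (s : ℂ) :
    pt h W g (X (gz h W g) (ge W g) s) (Y (gz h W g) (ge W g) s) = s :=
  (frame_eq hW g s).symm

/-- **the points below a gate of a straight run are in the polygon** -/
theorem below_pt (hF : Fine F n (m : ℤ) p M W A) (hh : 0 < h) {k g : ℤ} (h1 : A k + 4 ≤ g)
    (h2 : g + 3 ≤ A (k + 1)) {x y : ℝ} (hx : |x| ≤ 5 / 2 * h) (hy1 : -h - m * h ≤ y)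
    (hy2 : y ≤ -h) : pt h W g x y ∈ Pg (m * h) F := by
  obtain ⟨t, t0, t1, e1, e2⟩ := straight_gz hF h h1 h2
  have t0' : (2 : ℝ) ≤ t := by exact_mod_cast t0
  have t1' : (t : ℝ) ≤ m - 3 := by exact_mod_cast t1
  have hm' : (0 : ℝ) < m := by linarith
  have hδ : 0 < (m : ℝ) * h := by positivity
  have hx' := abs_le.1 hx
  have k1 : h * t ≤ h * (m - 3) := mul_le_mul_of_nonneg_left t1' hh.le
  have k0 : h * 2 ≤ h * t := mul_le_mul_of_nonneg_left t0' hh.le
  have u0 : 0 ≤ h * (t + 1 / 2) + x := by linarith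
  have u1 : h * (t + 1 / 2) + x ≤ m * h := by linarith
  have hU : U4 (p (k + 1) - p k) := adj_un (hF.cl.step k)
  have hP : p k + (p (k + 1) - p k) = p (k + 1) := by abel
  have hc : rc (p k) (p k + (p (k + 1) - p k)) ∈ F := by rw [hP]; exact hF.cl.right k
  have hmem := right_cell (δ := m * h) (u := (h * (t + 1 / 2) + x) / (m * h))
    (v := (-(h + y)) / (m * h)) hU hc hδ.le
    (div_nonneg u0 hδ.le) (by rw [div_le_one hδ]; exact u1)
    (div_nonneg (by linarith) hδ.le) (by rw [div_le_one hδ]; linarith)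
  refine mem_of_eq_of_mem ?_ hmem
  have hne1 : (m : ℂ) ≠ 0 := by exact_mod_cast hm'.ne'
  have hne2 : (h : ℂ) ≠ 0 := by exact_mod_cast hh.ne'
  unfold pt
  rw [e2, e1]
  push_cast
  field_simp
  ring

/-- the point with the same first coordinate at height `-h` -/
def foot (h : ℝ) (W : ℤ → V) (g : ℤ) (s : ℂ) : ℂ := pt h W g (X (gz h W g) (ge W g) s) (-h)

theorem foot_pg (hF : Fine F n (m : ℤ) p M W A) (hh : 0 < h) {k g : ℤ} (h1 : A k + 4 ≤ g)
    (h2 : g + 3 ≤ A (k + 1)) {s : ℂ} (hx : |X (gz h W g) (ge W g) s| ≤ 5 / 2 * h) :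
    foot h W g s ∈ Pg (m * h) F := by
  have : (0 : ℝ) ≤ m * h := by positivity
  exact below_pt hF hh h1 h2 hx (by linarith) le_rfl

theorem norm_ge (hW : FPath M W) (g : ℤ) : ‖ge W g‖ = 1 := RegBx523.norm_ge hW g

/-- **the points above the feet** -/
theorem foot_mem (hF : Fine F n (m : ℤ) p M W A) (hh : 0 < h) {k g : ℤ} (h1 : A k + 4 ≤ g)
    (h2 : g + 3 ≤ A (k + 1)) {s : ℂ} (hx : |X (gz h W g) (ge W g) s| ≤ 5 / 2 * h)
    (hy : -h ≤ Y (gz h W g) (ge W g) s) : s ∈ Kin (h + Y (gz h W g) (ge W g) s) (Pg (m * h) F) := by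
  refine ⟨foot h W g s, foot_pg hF hh h1 h2 hx, ?_⟩
  have key : ∀ x y : ℝ, pt h W g x y - pt h W g x (-h) = ((h + y : ℝ) : ℂ) * (Complex.I * ge W g) := by
    intro x y
    unfold pt
    push_cast
    ring
  have e := key (X (gz h W g) (ge W g) s) (Y (gz h W g) (ge W g) s)
  rw [pt_eq hF.fpath g s] at e
  have e : s - foot h W g s = ((h + Y (gz h W g) (ge W g) s : ℝ) : ℂ) * (Complex.I * ge W g) := e
  have h0 : 0 ≤ h + Y (gz h W g) (ge W g) s := by linarith
  have hn : ‖s - foot h W g s‖ = h + Y (gz h W g) (ge W g) s := by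
    rw [e, norm_mul, norm_mul, Complex.norm_I, one_mul, norm_ge hF.fpath g, mul_one,
      Complex.norm_real, Real.norm_of_nonneg h0]
  rw [← Complex.sub_re, ← Complex.sub_im]
  exact ⟨(Complex.abs_re_le_norm _).trans hn.le, (Complex.abs_im_le_norm _).trans hn.le⟩

/-- the wall of the gate -/
theorem foot_wl (hF : Fine F n (m : ℤ) p M W A) (hh : 0 < h) {k g : ℤ} (h1 : A k + 4 ≤ g)
    (h2 : g + 3 ≤ A (k + 1)) {t : ℝ} (ht : -h ≤ t) :
    Idxx927.wl (gz h W g) (ge W g) t ∈ Kin (h + t) (Pg (m * h) F) := by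
  have h0 := RegBx523.ge_ne hF.fpath g
  have e1 : X (gz h W g) (ge W g) (Idxx927.wl (gz h W g) (ge W g) t) = 0 := Idxx927.X_wl h0 t
  have e2 : Y (gz h W g) (ge W g) (Idxx927.wl (gz h W g) (ge W g) t) = t := Idxx927.Y_wl h0 t
  have h3 := foot_mem hF hh h1 h2 (s := Idxx927.wl (gz h W g) (ge W g) t)
    (by rw [e1, abs_zero]; linarith) (by rw [e2]; exact ht)
  rwa [e2] at h3

/-! ### the path -/

variable {S : Finset ℂ} {d : ℝ}

theorem lk_of_pth {V : Set ℂ} {a b : ℂ} (h : Pth S V a b) : Lk S V a b := by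
  obtain ⟨h1, h2⟩ := h
  have key : ∀ c, Relation.ReflTransGen (fun p q => Crest.Agent.R143.JColx54.Adj S p q ∧ q ∈ V) a c →
      Lk S V a c := by
    intro c hc
    induction hc with
    | refl => exact Lk.refl h1
    | tail _ h3 ih => exact ih.trans ⟨⟨ih.1.2, h3.2⟩, .single ⟨h3.1, ih.1.2, h3.2⟩⟩
  exact key b h2

/-- the vertical segment below a site -/
def col (h : ℝ) (W : ℤ → V) (g : ℤ) (s : ℂ) : Set ℂ := segment ℝ s (foot h W g s)

theorem col_pt (hF : Fine F n (m : ℤ) p M W A) {g : ℤ} {s z : ℂ}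
    (hy : -h ≤ Y (gz h W g) (ge W g) s) (hz : z ∈ col h W g s) :
    ∃ y, -h ≤ y ∧ y ≤ Y (gz h W g) (ge W g) s ∧ z = pt h W g (X (gz h W g) (ge W g) s) y := by
  obtain ⟨a, b, ha, hb, hab, rfl⟩ := hz
  refine ⟨a * Y (gz h W g) (ge W g) s + b * (-h), ?_, ?_, ?_⟩
  · have : b = 1 - a := by linarith
    subst this
    nlinarith
  · have : a = 1 - b := by linarith
    subst this
    nlinarith
  · have hb' : (b : ℂ) = 1 - a := by
      have : b = 1 - a := by linarith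
      rw [this]
      push_cast
      ring
    have key : ∀ x y : ℝ, (a : ℂ) * pt h W g x y + (b : ℂ) * pt h W g x (-h) =
        pt h W g x (a * y + b * (-h)) := by
      intro x y
      unfold pt
      push_cast
      rw [hb']
      ring
    have e := key (X (gz h W g) (ge W g) s) (Y (gz h W g) (ge W g) s)
    rw [pt_eq hF.fpath g s] at e
    simp only [Complex.real_smul]
    exact e

/-- the three zones of the path -/
def Zn (S : Finset ℂ) (P : Set ℂ) (h d : ℝ) (W : ℤ → V) (g1 g2 : ℤ) (s1 s2 : ℂ) : Set ℂ :=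
  {s | s ∈ S ∧ ((∃ x ∈ P, ‖s - x‖ < d) ∨
    (|X (gz h W g1) (ge W g1) s - X (gz h W g1) (ge W g1) s1| < d ∧
      Y (gz h W g1) (ge W g1) s ≤ Y (gz h W g1) (ge W g1) s1 ∧
      -h - d < Y (gz h W g1) (ge W g1) s) ∨
    (|X (gz h W g2) (ge W g2) s - X (gz h W g2) (ge W g2) s2| < d ∧
      Y (gz h W g2) (ge W g2) s ≤ Y (gz h W g2) (ge W g2) s2 ∧
      -h - d < Y (gz h W g2) (ge W g2) s))}

/-- a site whose cell meets the vertical segment -/
theorem col_site (hF : Fine F n (m : ℤ) p M W A) {g : ℤ} {s q : ℂ} (hs : s ∈ S)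
    (hx : |X (gz h W g) (ge W g) s| ≤ h / 8) (hy : -h ≤ Y (gz h W g) (ge W g) s)
    (hy0 : Y (gz h W g) (ge W g) s < 0) (hh : 0 < h)
    (hol : ∀ z, |X (gz h W g) (ge W g) z| ≤ h / 4 → -h ≤ Y (gz h W g) (ge W g) z →
      Y (gz h W g) (ge W g) z ≤ 0 → ∃ s ∈ S, ‖s - z‖ < d)
    (hC : (col h W g s ∩ voronoiCell (S : Set ℂ) q).Nonempty) :
    |X (gz h W g) (ge W g) q - X (gz h W g) (ge W g) s| < d ∧
      Y (gz h W g) (ge W g) q ≤ Y (gz h W g) (ge W g) s ∧ -h - d < Y (gz h W g) (ge W g) q := by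
  obtain ⟨z, hz, hzq⟩ := hC
  obtain ⟨y, y1, y2, rfl⟩ := col_pt hF hy hz
  set x := X (gz h W g) (ge W g) s with hx'
  set ys := Y (gz h W g) (ge W g) s with hys
  have hn := norm_ge hF.fpath g
  have eX := pt_X (h := h) hF.fpath g x y
  have eY := pt_Y (h := h) hF.fpath g x y
  obtain ⟨a, ha, had⟩ := hol (pt h W g x y) (by rw [eX]; linarith) (by rw [eY]; exact y1)
    (by rw [eY]; linarith)
  have c1 : ‖pt h W g x y - q‖ ≤ ‖pt h W g x y - a‖ := hzq a (by exact_mod_cast ha)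
  have c2 : ‖pt h W g x y - q‖ ≤ ‖pt h W g x y - s‖ := hzq s (by exact_mod_cast hs)
  have c3 : ‖q - pt h W g x y‖ < d := by
    rw [norm_sub_rev]
    rw [norm_sub_rev a] at had
    linarith
  have c4 : ‖pt h W g x y - s‖ = ys - y := by
    have hs' : pt h W g x ys = s := pt_eq hF.fpath g s
    have e : pt h W g x y - s = ((y - ys : ℝ) : ℂ) * (Complex.I * ge W g) := by
      conv_lhs => rw [← hs']
      unfold pt
      push_cast
      ring
    rw [e, norm_mul, norm_mul, Complex.norm_I, one_mul, hn, mul_one, Complex.norm_real,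
      Real.norm_eq_abs, abs_sub_comm, abs_of_nonneg (by linarith)]
  have c5 : ‖q - pt h W g x y‖ ≤ ys - y := by rw [norm_sub_rev, ← c4]; exact c2
  have k1 := RegEx523.X_sub_le (c := gz h W g) (s := pt h W g x y) (t := q) hn
  have k2 := RegEx523.Y_sub_le (c := gz h W g) (s := pt h W g x y) (t := q) hn
  rw [eX] at k1
  rw [eY] at k2
  have k3 := abs_le.1 k2
  refine ⟨k1.trans_lt c3, ?_, ?_⟩
  · linarith [k3.2]
  · linarith [k3.1]

/-- **inner path between two gates** -/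
theorem inn_path (hF : Fine F n (m : ℤ) p M W A) (hFc : ∀ q ∈ F, ∀ q' ∈ F, Con F q q')
    (hh : 0 < h) (hm : 10 ≤ m) (hd : 0 < d) (hdh : 100 * d ≤ h) (gp : GP (S : Set ℂ))
    (h3 : 3 ≤ S.card) {k1 g1 k2 g2 : ℤ} (a1 : A k1 + 4 ≤ g1) (b1 : g1 + 3 ≤ A (k1 + 1))
    (a2 : A k2 + 4 ≤ g2) (b2 : g2 + 3 ≤ A (k2 + 1))
    (hol : ∀ z ∈ Pg (m * h) F, ∃ s ∈ S, ‖s - z‖ < d)
    (hol1 : ∀ z, |X (gz h W g1) (ge W g1) z| ≤ h / 4 → -h ≤ Y (gz h W g1) (ge W g1) z →
      Y (gz h W g1) (ge W g1) z ≤ 0 → ∃ s ∈ S, ‖s - z‖ < d)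
    (hol2 : ∀ z, |X (gz h W g2) (ge W g2) z| ≤ h / 4 → -h ≤ Y (gz h W g2) (ge W g2) z →
      Y (gz h W g2) (ge W g2) z ≤ 0 → ∃ s ∈ S, ‖s - z‖ < d)
    {s1 s2 : ℂ} (hs1 : s1 ∈ S) (hs2 : s2 ∈ S)
    (hx1 : |X (gz h W g1) (ge W g1) s1| ≤ h / 8) (hy1 : -h ≤ Y (gz h W g1) (ge W g1) s1)
    (hy1' : Y (gz h W g1) (ge W g1) s1 < 0)
    (hx2 : |X (gz h W g2) (ge W g2) s2| ≤ h / 8) (hy2 : -h ≤ Y (gz h W g2) (ge W g2) s2)
    (hy2' : Y (gz h W g2) (ge W g2) s2 < 0) :
    Lk S (Zn S (Pg (m * h) F) h d W g1 g2 s1 s2) s1 s2 := by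
  have hm' : (0 : ℝ) < m := by
    have : (10 : ℝ) ≤ m := by exact_mod_cast hm
    linarith
  have hδ : 0 < (m : ℝ) * h := by positivity
  have f1 : foot h W g1 s1 ∈ Pg (m * h) F := foot_pg hF hh a1 b1 (by linarith)
  have f2 : foot h W g2 s2 ∈ Pg (m * h) F := foot_pg hF hh a2 b2 (by linarith)
  have hC : IsPreconnected ((col h W g1 s1 ∪ Pg (m * h) F) ∪ col h W g2 s2) := by
    refine IsPreconnected.union (foot h W g2 s2) (Or.inr f2) (right_mem_segment ℝ _ _) ?_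
      (convex_segment _ _).isPreconnected
    exact IsPreconnected.union (foot h W g1 s1) (right_mem_segment ℝ _ _) f1
      (convex_segment _ _).isPreconnected (Pg_preconn hδ hFc)
  refine lk_of_pth (REwx838.pth_of_set gp h3 hC hs1 hs2
    ⟨Or.inl (Or.inl (left_mem_segment ℝ _ _)), REwx838.self_cell s1⟩
    ⟨Or.inr (left_mem_segment ℝ _ _), REwx838.self_cell s2⟩ fun q hq hqC => ⟨hq, ?_⟩)
  obtain ⟨z, (hz | hz) | hz, hzq⟩ := hqC
  · exact Or.inr (Or.inl (col_site hF hs1 hx1 hy1 hy1' hh hol1 ⟨z, hz, hzq⟩))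
  · obtain ⟨a, ha, had⟩ := hol z hz
    refine Or.inl ⟨z, hz, ?_⟩
    have c1 : ‖z - q‖ ≤ ‖z - a‖ := hzq a (by exact_mod_cast ha)
    rw [norm_sub_rev]
    rw [norm_sub_rev a] at had
    linarith
  · exact Or.inr (Or.inr (col_site hF hs2 hx2 hy2 hy2' hh hol2 ⟨z, hz, hzq⟩))

end Crest.Agent.R143.InnPx643
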