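import Crest.Agent.R143.LocD_776
import Crest.Agent.R143.InnP_643
import Crest.Agent.R143.TilU_496

/-!
# Row 143 (S0194), RIG, LOCX: the closed curtain on the fine path, definitions (helper776)

Lengths: unit `η`, `h = 100 η`, gate `g` with the frame `gz (100 η) W g`, `ge W g`.
* `Wn η W g x y0 y1` : window `|X| ≤ x`, `y0 ≤ Y ≤ y1` of the gate `g`
* `Off S A B h W` : the sites off all strips
* `Strg A g` : the gate `g` is between two corners, `A k + 3 ≤ g`, `g + 2 ≤ A (k + 1)`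
* `En` : fine path, sites without holes of radius `d` near the strips and in the polygon
* `VCh` : a vertical chain at the gate `g`
-/

set_option autoImplicit false

noncomputable section

open scoped Classical

namespace Crest.Agent.R143.LocTx776

open Set
open Crest.Agent.R158.Sp896
open Crest.Agent.R143.B0x346
open Crest.Agent.R143.Tenx416 (Pg)
open Crest.Agent.R143.TileRx228
open Crest.Agent.R143.Gatex838 (X Y)
open Crest.Agent.R143.Finex422 (Fine)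
open Crest.Agent.R143.Blkx838 (DE)
open Crest.Agent.R143.Neckx921 (Lk)

/-- window of the gate `g` -/
def Wn (η : ℝ) (W : ℤ → V) (g : ℤ) (x y0 y1 : ℝ) : Set ℂ :=
  {s | |X (gz (100 * η) W g) (ge W g) s| ≤ x ∧ y0 ≤ Y (gz (100 * η) W g) (ge W g) s ∧
    Y (gz (100 * η) W g) (ge W g) s ≤ y1}

/-- the sites off all strips -/
def Off (S : Finset ℂ) (A B h : ℝ) (W : ℤ → V) : Set ℂ := {s | s ∈ S ∧ ∀ c : ℤ, s ∉ RR A B h W c}

/-- the gate `g` is between two corners -/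
def Strg (A : ℤ → ℤ) (g : ℤ) : Prop := ∃ k, A k + 3 ≤ g ∧ g + 2 ≤ A (k + 1)

/-- fine path and environment -/
structure En (S : Finset ℂ) (F : Set V) (n m : ℕ) (p : ℤ → V) (M : ℕ) (W : ℤ → V) (A : ℤ → ℤ)
    (η d : ℝ) : Prop where
  fine : Fine F n (m : ℤ) p M W A
  con : ∀ q ∈ F, ∀ q' ∈ F, Con F q q'
  cou : ∀ q ∉ F, ∀ q' ∉ F, Con Fᶜ q q'
  m10 : 10 ≤ m
  e0 : 0 < η
  d0 : 0 < d
  de : 100 * d ≤ η
  gp : GP (S : Set ℂ)
  h3 : 3 ≤ S.card
  /-- no holes within `100 η` of the strips -/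
  hol : ∀ a : ℤ, ∀ w ∈ RR (9 * η) (51 * η) (100 * η) W a, ∀ z, ‖z - w‖ ≤ 100 * η →
    ∃ s ∈ S, ‖s - z‖ < d
  /-- no holes in the polygon -/
  holP : ∀ z ∈ Pg (m * (100 * η)) F, ∃ s ∈ S, ‖s - z‖ < d

/-- **vertical chain at the gate `g`**, from `s` (below) to `t` (above) -/
structure VCh (S : Finset ℂ) (η : ℝ) (W : ℤ → V) (g : ℤ) (VV : Set ℂ) (s t : ℂ) : Prop where
  lk : Lk S VV s t
  sub : ∀ v ∈ VV, v ∈ S
  win : ∀ v ∈ VV, |X (gz (100 * η) W g) (ge W g) v| < 102 * η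
  rr : ∀ v ∈ VV, v ∈ RR (12 * η) (53 * η) (100 * η) W (g - 1) ∨
    v ∈ RR (12 * η) (53 * η) (100 * η) W g
  s1 : s ∈ Wn η W g η (-(10 * η)) (-(9 * η))
  t1 : t ∈ Wn η W g η (10 * η) (11 * η)

end Crest.Agent.R143.LocTx776
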