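import Crest.Agent.R143.CurG_496
import Crest.Agent.R143.LocT_776

/-!
# Row 143 (S0194), RIG, LOCX: the closed curtain on the fine path, instance (helper496)

776's list, items (C4) and (C8). Unit `η`, `h = 100 η`, environment `En`.
* `Sg A g` : `A k + 4 ≤ g`, `g + 3 ≤ A (k + 1)` (from 416's `WdA.gl`, `gr`); `str6_of`, `sg_strg`
* `above_off` : a point above a gate is off all strips; `up_off` (C4 (a))
* `Geo.cur2` : `CurG_496.Geo.cur` with sites of `VF` in the upper parts of the long windows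
* **`geo_of_en`** : `Geo S M W (13 η) (54 η) (100 η) (16 η) (2 d) gL gR`
* `up_or`, `off_or`, `dn_or`, `pg_off`, `vch_win` : the sets of 66, 643, 336, 686
* **`curtain`** : the structure `Cur` (C8); `mem_Ci`, `mem_Co`
-/

set_option autoImplicit false

noncomputable section

open scoped Classical

namespace Crest.Agent.R143.CurHx496

open Crest.Agent.R158.Sp896 (V)
open Crest.Agent.R143.B0x346 Crest.Agent.R143.DelGx806 Crest.Agent.R143.DelRx806
open Crest.Agent.R143.Blkx838 (DE)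
open Crest.Agent.R143.Neckx921 (Lk)
open Crest.Agent.R143.Gatex838 (X Y)
open Crest.Agent.R143.Tenx416 (Pg)
open Crest.Agent.R143.TileRx228
open Crest.Agent.R143.Finex422 (Fine)
open Crest.Agent.R143.TilUx496 (Str6 cin_pre cout_pre sep)
open Crest.Agent.R143.LocDx776 (Cur)
open Crest.Agent.R143.LocTx776 (Wn Strg En VCh)
open Crest.Agent.R143.RegEx523 (Kin RR_shrink RR_Kin)
open Crest.Agent.R143.Locx922 (Hol)
open Crest.Agent.R143.CurGx496

variable {S : Finset ℂ} {F : Set V} {n m M : ℕ} {p W : ℤ → V} {A : ℤ → ℤ} {h η d : ℝ}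
  {g gL gR j : ℤ} {u v w z : ℂ}

/-! ### straight gates -/

/-- the gate `g` is inside a straight run -/
def Sg (A : ℤ → ℤ) (g : ℤ) : Prop := ∃ k, A k + 4 ≤ g ∧ g + 3 ≤ A (k + 1)

theorem sg_strg (h : Sg A g) : Strg A g := by
  obtain ⟨k, h1, h2⟩ := h
  exact ⟨k, by omega, by omega⟩

theorem str6_of (hF : Fine F n (m : ℤ) p M W A) (h : Sg A g) : Str6 W g := by
  obtain ⟨k, h1, h2⟩ := h
  intro j j1 j2
  have e1 := hF.step k j (by omega) (by omega)
  have e2 := hF.step k (j - 1) (by omega) (by omega)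
  rw [sub_add_cancel] at e2
  unfold ge
  rw [add_sub_cancel_right, e1, e2]

/-! ### above and below -/

/-- **a point above a gate is off all strips** -/
theorem above_off (hF : Fine F n (m : ℤ) p M W A) (hh : 0 < h) (hg : Sg A g) {A' B' : ℝ}
    (hB : 0 ≤ B') (hBh : B' ≤ h) (hx : |X (gz h W g) (ge W g) v| < 3 / 2 * h - A')
    (hy1 : A' ≤ Y (gz h W g) (ge W g) v) (hy2 : Y (gz h W g) (ge W g) v < (m - 2) * h - A') (c : ℤ) :
    v ∉ RR A' B' h W c := by
  intro hc
  obtain ⟨A'', h1, h2⟩ := RR_shrink hc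
  obtain ⟨k, g1, g2⟩ := hg
  obtain ⟨x, hx', x1, x2⟩ := LnkGx927.rr_near hF hh hB hBh h2
  have h3 := LnkGx927.gate_far (ρ := h + A'') hF hh g1 g2 (s := v) (by linarith) (by linarith)
    (by linarith) x hx'
  exact absurd (max_le x1 x2) (not_le.2 h3)

variable {gL' gR' : ℤ}

/-- a point near the polygon is off all strips -/
theorem pg_off (hF : Fine F n (m : ℤ) p M W A) (hm : 0 < m) (hh : 0 < h) {A' B' r : ℝ} (hB : 0 ≤ B')
    (hBh : B' ≤ h) (hr : r ≤ h - A') (hv : v ∈ Kin r (Pg (m * h) F)) (c : ℤ) :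
    v ∉ RR A' B' h W c := fun hc => RR_Kin hF hm hh hB hBh hr hc hv

/-- a point below a gate is off all strips -/
theorem below_off (hF : Fine F n (m : ℤ) p M W A) (hm : 0 < m) (hh : 0 < h) (hg : Sg A g)
    {A' B' : ℝ} (hB : 0 ≤ B') (hBh : B' ≤ h) (hA : A' ≤ h)
    (hx : |X (gz h W g) (ge W g) v| ≤ 5 / 2 * h) (hy1 : Y (gz h W g) (ge W g) v ≤ -A')
    (hy2 : -h - m * h ≤ Y (gz h W g) (ge W g) v) (c : ℤ) : v ∉ RR A' B' h W c := by
  obtain ⟨k, g1, g2⟩ := hg
  rcases le_or_gt (-h) (Y (gz h W g) (ge W g) v) with h1 | h1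
  · have h2 := InnPx643.foot_mem hF hh g1 g2 hx h1
    exact pg_off hF hm hh hB hBh (by linarith) h2 c
  · have h2 := InnPx643.below_pt hF hh g1 g2 hx hy2 h1.le
    rw [InnPx643.pt_eq hF.fpath] at h2
    exact pg_off hF hm hh hB hBh (r := 0) (by linarith) (RegEx523.sub_Kin le_rfl h2) c

/-! ### the curtain with upper windows -/

/-- upper part of the long window -/
def WinP (h : ℝ) (W : ℤ → ℤ × ℤ) (A κ : ℝ) (g : ℤ) : Set ℂ :=
  {z | |X (gz h W g) (ge W g) z| < 3 * h / 2 ∧ 0 < Y (gz h W g) (ge W g) z ∧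
    Y (gz h W g) (ge W g) z < A + κ}

theorem winP_sub {A κ : ℝ} (hA : 0 < A + κ) : WinP h W A κ g ⊆ Win h W A κ g := fun _ hz =>
  ⟨hz.1, abs_lt.2 ⟨by linarith [hz.2.1], hz.2.2⟩⟩

theorem pos_seg (hu : 0 < Y (gz h W g) (ge W g) u) (hv : 0 < Y (gz h W g) (ge W g) v)
    (hw : w ∈ segment ℝ u v) : 0 < Y (gz h W g) (ge W g) w := by
  obtain ⟨r, s, hr, hs, hrs, rfl⟩ := hw
  rw [TilUx496.Y_comb _ _ _ _ hrs]
  exact TilUx496.cv_gt hr hs hrs hu hv

/-- the points of the closed curtain -/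
def Pt (A B h : ℝ) (W : ℤ → ℤ × ℤ) (M : ℕ) (gL gR : ℤ) : Set ℂ :=
  {w | w ∈ Ci A B h W gL gR ∨ w ∈ Co A B h W M gL gR ∨
    ∃ x, -(3 * h / 2) ≤ x ∧ x ≤ 3 * h / 2 ∧ w = TilUx496.ax h W gR x}

variable {A0 B0 κ δ : ℝ}

/-- a set of sites which are off all tiles or in a signed part of the long windows -/
theorem Geo.signed (G : Geo S M W A0 B0 h κ δ gL gR) {V0 : Set ℂ} {PL PR : Set ℂ}
    (hL : PL ⊆ Win h W A0 κ gL) (hR : PR ⊆ Win h W A0 κ gR)
    (hw0 : ∀ u ∈ PR, ∀ v ∈ PR, ∀ w ∈ segment ℝ u v, Y (gz h W gR) (ge W gR) w ≠ 0)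
    (hV : ∀ s ∈ V0, s ∈ Off A0 B0 h W δ ∨ s ∈ PL ∨ s ∈ PR) :
    ∀ u v, DE S u v → u ∈ V0 → v ∈ V0 → ∀ w ∈ Pt A0 B0 h W M gL gR, w ∉ segment ℝ u v := by
  intro u v huv hu hv w hw
  have ht := G.tile_of hw
  rcases hV u hu with h1 | h1 | h1
  · exact G.off_edge huv (Or.inl h1) ht
  · rcases hV v hv with h2 | h2 | h2
    · exact G.off_edge huv (Or.inr h2) ht
    · exact fun hs => G.offL hw (win_seg (hL h1) (hL h2) hs)
    · exact G.no_both huv (hL h1) (hR h2) ht
  · rcases hV v hv with h2 | h2 | h2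
    · exact G.off_edge huv (Or.inr h2) ht
    · rw [segment_symm]
      exact G.no_both huv.symm (hL h2) (hR h1) ht
    · intro hs
      have h3 := win_seg (hR h1) (hR h2) hs
      rcases hw with hw | hw | ⟨x, -, -, rfl⟩
      · exact G.offR (Or.inl hw) h3
      · exact G.offR (Or.inr hw) h3
      · exact hw0 u h1 v h2 _ hs (TilUx496.Y_ax G.fp h gR x)

/-- **the closed curtain**, `VF` also in the upper windows -/
theorem Geo.cur2 (G : Geo S M W A0 B0 h κ δ gL gR) {VR VF VL VK : Set ℂ} {a b b' a' : ℂ}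
    (lR : Lk S VR a b) (lF : Lk S VF b b') (lL : Lk S VL b' a') (lK : Lk S VK a' a)
    (hR : VR ⊆ Win h W A0 κ gR) (hL : VL ⊆ Win h W A0 κ gL)
    (hF : ∀ s ∈ VF, s ∈ Off A0 B0 h W δ ∨ s ∈ WinP h W A0 κ gL ∨ s ∈ WinP h W A0 κ gR)
    (hK : ∀ s ∈ VK, s ∈ Off A0 B0 h W δ ∨ s ∈ WinN h W A0 κ gL ∨ s ∈ WinN h W A0 κ gR)
    (ha : Y (gz h W gR) (ge W gR) a < 0) (hb : 0 < Y (gz h W gR) (ge W gR) b) :
    Cur S (gz h W gR) (ge W gR) (-(3 * h / 2)) (3 * h / 2) VR VF VL VK (Ci A0 B0 h W gL gR)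
      (Co A0 B0 h W M gL gR) a b b' a' := by
  have hh := G.hpos
  have hκ : 0 ≤ κ := G.δ0.trans G.δκ
  have hAκ : 0 < A0 + κ := by linarith [G.A0]
  have g1 := G.g1
  have g2 := G.g2
  have hKK := Geo.signed G (winN_sub hAκ) (winN_sub hAκ)
    (fun u hu v hv w hw => (neg_seg hu.2.2 hv.2.2 hw).ne) hK
  have hFF := Geo.signed G (winP_sub hAκ) (winP_sub hAκ)
    (fun u hu v hv w hw => (pos_seg hu.2.1 hv.2.1 hw).ne') hF
  have hLL : ∀ u v, u ∈ VL → v ∈ VL → ∀ w ∈ Pt A0 B0 h W M gL gR, w ∉ segment ℝ u v :=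
    fun u v hu hv w hw hs => G.offL hw (win_seg (hL hu) (hL hv) hs)
  refine
    { he := ge_ne G.fp gR
      lR := lR
      lF := lF
      lL := lL
      lK := lK
      h01 := by linarith
      hRx := fun s hs => abs_lt.1 (hR hs).1
      ha := ha
      hb := hb
      hw := ?_
      hCi := cin_pre G.fp G.sR G.A0 G.Bh G.Bh' hh (by omega) (by linarith)
      hCo := cout_pre G.fp G.sR G.A0 G.Bh G.Bh' hh (by omega) (by linarith)
      hi := Or.inr ⟨-(3 * h / 2), by linarith, by linarith, rfl⟩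
      ho := Or.inr ⟨3 * h / 2, by linarith, by linarith, rfl⟩
      hC := ?_ }
  · intro u v huv hc x h1 h2
    have hw : TilUx496.ax h W gR x ∈ Pt A0 B0 h W M gL gR := Or.inr (Or.inr ⟨x, h1, h2, rfl⟩)
    rcases hc with ⟨hu, hv⟩ | ⟨hu, hv⟩ | ⟨hu, hv⟩
    · exact hFF u v huv hu hv _ hw
    · exact hLL u v hu hv _ hw
    · exact hKK u v huv hu hv _ hw
  · intro w hw u v huv hc
    have hw' : w ∈ Pt A0 B0 h W M gL gR := hw.imp_right Or.inl
    rcases hc with ⟨hu, hv⟩ | ⟨hu, hv⟩ | ⟨hu, hv⟩ | ⟨hu, hv⟩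
    · exact fun hs => G.offR hw (win_seg (hR hu) (hR hv) hs)
    · exact hFF u v huv hu hv _ hw'
    · exact hLL u v hu hv _ hw'
    · exact hKK u v huv hu hv _ hw'

/-! ### the environment -/

/-- no holes near the tiles -/
theorem hol_of_en (E : En S F n m p M W A η d) :
    Hol (S : Set ℂ) (⋃ j : ℤ, RR (13 * η) (54 * η) (100 * η) W j) d := by
  have h0 := E.e0
  have h1 := E.de
  intro w hw z hz
  obtain ⟨j, hj⟩ := Set.mem_iUnion.1 hw
  have h2 := RegBx523.RR_ball E.fine.fpath hj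
  rw [max_eq_right (by linarith)] at h2
  obtain ⟨s, hs, h3⟩ := E.hol j (cen (100 * η) W j) (TilUx496.cen_RR (by linarith) (by linarith) _ _ _) z
    (by
      have e : z - cen (100 * η) W j = (z - w) + (w - cen (100 * η) W j) := by ring
      rw [e]
      refine (norm_add_le _ _).trans ?_
      linarith)
  exact ⟨s, hs, h3⟩

/-- **the geometry of the curtain** -/
theorem geo_of_en (E : En S F n m p M W A η d) (sL : Sg A gL) (sR : Sg A gR) (g1 : gL + 6 ≤ gR)
    (g2 : gR + 6 ≤ gL + M) : Geo S M W (13 * η) (54 * η) (100 * η) (16 * η) (2 * d) gL gR := by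
  have h0 := E.e0
  have h1 := E.de
  have h2 := E.d0
  exact
    { fp := E.fine.fpath
      A0 := by linarith
      AB := by linarith
      Bh := by linarith
      δ0 := by linarith
      δκ := by linarith
      hh := by linarith
      sL := str6_of E.fine sL
      sR := str6_of E.fine sR
      g1 := g1
      g2 := g2
      short := short_of_hol h2 (hol_of_en E) }

/-- (C4 (a)) a point above the gate is off all strips -/
theorem up_off (E : En S F n m p M W A η d) (sg : Sg A g) {x A' B' : ℝ} (hx : x ≤ 20 * η)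
    (hA : A' ≤ 30 * η) (hB : 0 ≤ B') (hBh : B' ≤ 100 * η) {y1 : ℝ} (hy1 : y1 ≤ 100 * η)
    (hv : v ∈ Wn η W g x A' y1) (c : ℤ) : v ∉ RR A' B' (100 * η) W c := by
  have h0 := E.e0
  obtain ⟨v1, v2, v3⟩ := hv
  have hm : (10 : ℝ) ≤ m := by exact_mod_cast E.m10
  refine above_off E.fine (by linarith) sg hB hBh (by linarith) v2 ?_ c
  nlinarith

/-- 66's sites above a gate -/
theorem up_or (E : En S F n m p M W A η d) (sg : Sg A g)
    (hv : v ∈ Wn η W g (2 * η) (9 * η) (30 * η)) :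
    v ∈ Off (13 * η) (54 * η) (100 * η) W (2 * d) ∨ v ∈ WinP (100 * η) W (13 * η) (16 * η) g := by
  have h0 := E.e0
  have h1 := E.de
  have h2 := E.d0
  obtain ⟨v1, v2, v3⟩ := hv
  rcases lt_or_ge (Y (gz (100 * η) W g) (ge W g) v) (29 * η) with h3 | h3
  · exact Or.inr ⟨by linarith, by linarith, by linarith⟩
  · exact Or.inl fun c => up_off E sg (x := 2 * η) (y1 := 30 * η) (by linarith) (by linarith) (by linarith)
      (by linarith) (by linarith) ⟨v1, by linarith, v3⟩ c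

/-- sites off the wider strips -/
theorem off_or (E : En S F n m p M W A η d)
    (hv : v ∈ LocTx776.Off S (14 * η) (55 * η) (100 * η) W) :
    v ∈ Off (13 * η) (54 * η) (100 * η) W (2 * d) := by
  have h0 := E.e0
  have h1 := E.de
  intro c hc
  exact hv.2 c (RR_mono (by linarith) (by linarith) _ W c hc)

/-- 643's sites below a gate -/
theorem dn_or (E : En S F n m p M W A η d) (sg : Sg A g)
    (hv : v ∈ Wn η W g (2 * η) (-(101 * η)) (-(9 * η))) :
    v ∈ Off (13 * η) (54 * η) (100 * η) W (2 * d) ∨ v ∈ WinN (100 * η) W (13 * η) (16 * η) g := by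
  have h0 := E.e0
  have h1 := E.de
  have h2 := E.d0
  have hm : (10 : ℝ) ≤ m := by exact_mod_cast E.m10
  obtain ⟨v1, v2, v3⟩ := hv
  rcases lt_or_ge (-(29 * η)) (Y (gz (100 * η) W g) (ge W g) v) with h3 | h3
  · exact Or.inr ⟨by linarith, by linarith, by linarith⟩
  · refine Or.inl fun c => below_off E.fine (by have := E.m10; omega) (by linarith) sg
      (by linarith) (by linarith) (by linarith) (by linarith) (by linarith) ?_ c
    nlinarith

/-- sites near the polygon -/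
theorem near_or (E : En S F n m p M W A η d) {x : ℂ} (hx : x ∈ Pg (m * (100 * η)) F)
    (hv : ‖v - x‖ < d) : v ∈ Off (13 * η) (54 * η) (100 * η) W (2 * d) := by
  have h0 := E.e0
  have h1 := E.de
  have h2 := E.d0
  exact fun c => pg_off E.fine (by have := E.m10; omega) (by linarith) (by linarith) (by linarith)
    (r := d) (by linarith) (RegEx523.Kin_of_dist hx hv.le) c

/-- the vertical chains -/
theorem vch_win (E : En S F n m p M W A η d) (sg : Sg A g) {VV : Set ℂ} {s t : ℂ}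
    (C : VCh S η W g VV s t) : VV ⊆ Win (100 * η) W (13 * η) (16 * η) g := by
  have h0 := E.e0
  intro v hv
  have h1 := C.win v hv
  refine ⟨by linarith, ?_⟩
  have st := str6_of E.fine sg
  have key : |Y (gz (100 * η) W g) (ge W g) v| < 12 * η := by
    rcases C.rr v hv with h2 | h2
    · exact ((str_frame E.fine.fpath st (by omega) (by omega) (by linarith) (by linarith)).1 h2).2
    · exact ((str_frame E.fine.fpath st (by omega) (by omega) (by linarith) (by linarith)).1 h2).2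
  linarith

/-- **(C8) the closed curtain** -/
theorem curtain (E : En S F n m p M W A η d) (sL : Sg A gL) (sR : Sg A gR) (g1 : gL + 6 ≤ gR)
    (g2 : gR + 6 ≤ gL + M) {VR VF VL VK : Set ℂ} {aR bR bL aL : ℂ}
    (cR : VCh S η W gR VR aR bR) (cL : VCh S η W gL VL aL bL) (lF : Lk S VF bR bL)
    (hF : ∀ v ∈ VF, v ∈ LocTx776.Off S (14 * η) (55 * η) (100 * η) W ∨
      v ∈ Wn η W gR (2 * η) (10 * η) (30 * η) ∨ v ∈ Wn η W gL (2 * η) (10 * η) (30 * η))
    (lK : Lk S VK aL aR)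
    (hK : ∀ v ∈ VK, (∃ x ∈ Pg (m * (100 * η)) F, ‖v - x‖ < d) ∨
      v ∈ Wn η W gR (2 * η) (-(101 * η)) (-(9 * η)) ∨
      v ∈ Wn η W gL (2 * η) (-(101 * η)) (-(9 * η))) :
    Cur S (gz (100 * η) W gR) (ge W gR) (-(3 * (100 * η) / 2)) (3 * (100 * η) / 2) VR VF VL VK
      (Ci (13 * η) (54 * η) (100 * η) W gL gR) (Co (13 * η) (54 * η) (100 * η) W M gL gR)
      aR bR bL aL := by
  have h0 := E.e0
  refine Geo.cur2 (geo_of_en E sL sR g1 g2) cR.lk lF cL.lk.symm lK (vch_win E sR cR)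
    (vch_win E sL cL) ?_ ?_ ?_ ?_
  · intro v hv
    rcases hF v hv with h1 | h1 | h1
    · exact Or.inl (off_or E h1)
    · rcases up_or E sR ⟨h1.1, by linarith [h1.2.1], h1.2.2⟩ with h2 | h2
      · exact Or.inl h2
      · exact Or.inr (Or.inr h2)
    · rcases up_or E sL ⟨h1.1, by linarith [h1.2.1], h1.2.2⟩ with h2 | h2
      · exact Or.inl h2
      · exact Or.inr (Or.inl h2)
  · intro v hv
    rcases hK v hv with ⟨x, hx, h1⟩ | h1 | h1
    · exact Or.inl (near_or E hx h1)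
    · rcases dn_or E sR h1 with h2 | h2
      · exact Or.inl h2
      · exact Or.inr (Or.inr h2)
    · rcases dn_or E sL h1 with h2 | h2
      · exact Or.inl h2
      · exact Or.inr (Or.inl h2)
  · linarith [cR.s1.2.2]
  · linarith [cR.t1.2.1]

theorem mem_Ci {A B : ℝ} (h1 : gL + 2 ≤ j) (h2 : j ≤ gR - 3) (hv : v ∈ RR A B h W j) :
    v ∈ Ci A B h W gL gR := by
  refine Or.inl ?_
  simp only [Set.mem_iUnion, Set.mem_Icc, exists_prop]
  exact ⟨j, ⟨h1, h2⟩, hv⟩

theorem mem_Co {A B : ℝ} (h1 : gR + 2 ≤ j) (h2 : j ≤ gL - 3 + M) (hv : v ∈ RR A B h W j) :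
    v ∈ Co A B h W M gL gR := by
  refine Or.inl ?_
  simp only [Set.mem_iUnion, Set.mem_Icc, exists_prop]
  exact ⟨j, ⟨h1, h2⟩, hv⟩

end Crest.Agent.R143.CurHx496
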