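import Crest.Agent.R143.CurK_643

/-!
# Row 143 (S0194), LOCX: (C3), general windows (helper643)

* **`vkg`** : `vk` for end sites with `|X| ≤ x`, `-(100 η) ≤ Y ≤ -y0` (any `x ≤ 10 η`, `0 < y0`)
* **`vk10`** : end sites with `|X| ≤ 2 η`, `-(11 η) ≤ Y ≤ -(10 η)` (877's form): every site of `VK` is
  in `Kin (90 η)`
* `vkg_off` : the sites are off the tiles or in the lower windows
-/

set_option autoImplicit false
set_option linter.unusedVariables false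

noncomputable section

open scoped Classical

namespace Crest.Agent.R143.CurK2x643

open Set
open Crest.Agent.R158.Sp896
open Crest.Agent.R143.B0x346
open Crest.Agent.R143.Tenx416 (Pg)
open Crest.Agent.R143.TileRx228
open Crest.Agent.R143.Gatex838 (X Y)
open Crest.Agent.R143.Finex422 (Fine)
open Crest.Agent.R143.Neckx921 (Lk)
open Crest.Agent.R143.RegEx523 (Kin Kin_mono sub_Kin RR_Kin)
open Crest.Agent.R143.InnPx643 Crest.Agent.R143.InnZx643
open Crest.Agent.R143.LocTx776 (Wn Strg En)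
open Crest.Agent.R143.CurGx496 (WinN)
open Crest.Agent.R143.CurKx643

variable {S : Finset ℂ} {F : Set V} {n m M : ℕ} {p W : ℤ → V} {A : ℤ → ℤ} {η d x y0 : ℝ}
  {g gL gR : ℤ} {v : ℂ}

/-- **(C3), any windows** -/
theorem vkg (E : En S F n m p M W A η d) (sR : Stg A gR) (sL : Stg A gL) (hx : x ≤ 10 * η)
    (hy : 0 < y0) {aR aL : ℂ} (hR : aR ∈ S) (hL : aL ∈ S)
    (wR : aR ∈ Wn η W gR x (-(100 * η)) (-y0)) (wL : aL ∈ Wn η W gL x (-(100 * η)) (-y0)) :
    ∃ VK : Set ℂ, Lk S VK aL aR ∧ ∀ v ∈ VK, v ∈ S ∧ ((∃ x ∈ Pg (m * (100 * η)) F, ‖v - x‖ < d) ∨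
      v ∈ Wn η W gR (x + η) (-(101 * η)) (-y0) ∨ v ∈ Wn η W gL (x + η) (-(101 * η)) (-y0)) := by
  have h0 := E.e0
  have d0 := E.d0
  have de := E.de
  have hR' := sR
  have hL' := sL
  obtain ⟨k2, a2, b2⟩ := sR
  obtain ⟨k1, a1, b1⟩ := sL
  obtain ⟨x2, y2, y2'⟩ := wR
  obtain ⟨x1, y1, y1'⟩ := wL
  refine ⟨_, inn_path E.fine E.con (by linarith) E.m10 d0 (by linarith) E.gp E.h3 a1 b1 a2 b2
    E.holP (gate_hol' E hL') (gate_hol' E hR') hL hR (by linarith) (by linarith) (by linarith)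
    (by linarith) (by linarith) (by linarith), ?_⟩
  have win : ∀ {q y : ℝ}, |q| ≤ x → |y - q| < d → |y| ≤ x + η := by
    intro q y h1 h2
    have e : y = (y - q) + q := by ring
    rw [e]
    refine (abs_add_le _ _).trans ?_
    linarith
  rintro v ⟨hv, h1 | ⟨c1, c2, c3⟩ | ⟨c1, c2, c3⟩⟩
  · exact ⟨hv, Or.inl h1⟩
  · exact ⟨hv, Or.inr (Or.inr ⟨win x1 c1, by linarith, c2.trans y1'⟩)⟩
  · exact ⟨hv, Or.inr (Or.inl ⟨win x2 c1, by linarith, c2.trans y2'⟩)⟩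

/-- the low part of a window is in `Kin` -/
theorem wing_kin (E : En S F n m p M W A η d) (hg : Stg A g) (hx : x ≤ 20 * η) {y1 : ℝ}
    (hv : v ∈ Wn η W g x (-(101 * η)) y1) {r : ℝ} (hr : 0 ≤ r)
    (hy : Y (gz (100 * η) W g) (ge W g) v ≤ r - 100 * η) :
    v ∈ Kin r (Pg (m * (100 * η)) F) := by
  have h0 := E.e0
  have hh : 0 < 100 * η := by linarith
  obtain ⟨k, a1, b1⟩ := hg
  obtain ⟨x1, y1, y2⟩ := hv
  have hm : (10 : ℝ) ≤ m := by exact_mod_cast E.m10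
  have hX : |X (gz (100 * η) W g) (ge W g) v| ≤ 5 / 2 * (100 * η) := by linarith
  rcases le_or_gt (-(100 * η)) (Y (gz (100 * η) W g) (ge W g) v) with h1 | h1
  · exact Kin_mono (by linarith) (foot_mem E.fine hh a1 b1 hX h1)
  · have h3 := below_pt E.fine hh a1 b1 (y := Y (gz (100 * η) W g) (ge W g) v) hX (by nlinarith)
      h1.le
    rw [pt_eq E.fine.fpath g v] at h3
    exact sub_Kin hr h3

/-- the sites of `vkg` with `10 η ≤ y0` are in `Kin (90 η)` -/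
theorem vkg_kin (E : En S F n m p M W A η d) (sR : Stg A gR) (sL : Stg A gL) (hx : x ≤ 10 * η)
    (hy : 10 * η ≤ y0)
    (hv : (∃ x ∈ Pg (m * (100 * η)) F, ‖v - x‖ < d) ∨
      v ∈ Wn η W gR (x + η) (-(101 * η)) (-y0) ∨ v ∈ Wn η W gL (x + η) (-(101 * η)) (-y0)) :
    v ∈ Kin (90 * η) (Pg (m * (100 * η)) F) := by
  have h0 := E.e0
  have de := E.de
  rcases hv with h1 | h1 | h1
  · exact near_kin h1 (by linarith)
  · exact wing_kin E sR (by linarith) h1 (by linarith) (by linarith [h1.2.2])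
  · exact wing_kin E sL (by linarith) h1 (by linarith) (by linarith [h1.2.2])

/-- **in 496's sets** -/
theorem vkg_off (E : En S F n m p M W A η d) (sR : Stg A gR) (sL : Stg A gL) (hx : x ≤ 10 * η)
    (hy : 0 < y0) {a b κ δ : ℝ} (hδ : 0 ≤ δ) (hδκ : δ ≤ κ) (ha : 0 < a) (hab : a ≤ b)
    (hK : a + b + 2 * κ < 100 * η) (hd : d ≤ 100 * η - a - κ)
    (hv : (∃ x ∈ Pg (m * (100 * η)) F, ‖v - x‖ < d) ∨
      v ∈ Wn η W gR (x + η) (-(101 * η)) (-y0) ∨ v ∈ Wn η W gL (x + η) (-(101 * η)) (-y0)) :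
    v ∈ CurGx496.Off a b (100 * η) W δ ∨ v ∈ WinN (100 * η) W a κ gL ∨
      v ∈ WinN (100 * η) W a κ gR := by
  have h0 := E.e0
  have d0 := E.d0
  have hh : 0 < 100 * η := by linarith
  have hm : 0 < m := by have := E.m10; omega
  have off : v ∈ Kin (100 * η - a - κ) (Pg (m * (100 * η)) F) → v ∈ CurGx496.Off a b (100 * η) W δ :=
    kin_off E.fine hh hm (by linarith) (by linarith) (by linarith)
  have key : ∀ {g : ℤ}, Stg A g → v ∈ Wn η W g (x + η) (-(101 * η)) (-y0) →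
      v ∈ CurGx496.Off a b (100 * η) W δ ∨ v ∈ WinN (100 * η) W a κ g := by
    intro g hg hw
    rcases le_or_gt (Y (gz (100 * η) W g) (ge W g) v) ((100 * η - a - κ) - 100 * η) with h1 | h1
    · exact Or.inl (off (wing_kin E hg (by linarith) hw (by linarith) h1))
    · exact Or.inr ⟨by linarith [hw.1], by linarith, by linarith [hw.2.2]⟩
  rcases hv with h1 | h1 | h1
  · exact Or.inl (off (near_kin h1 hd))
  · rcases key sR h1 with h2 | h2
    · exact Or.inl h2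
    · exact Or.inr (Or.inr h2)
  · rcases key sL h1 with h2 | h2
    · exact Or.inl h2
    · exact Or.inr (Or.inl h2)

/-- **(C3) in 877's form** : the vertical chains end at `-(11 η) ≤ Y ≤ -(10 η)` -/
theorem vk10 (E : En S F n m p M W A η d) (sR : Stg A gR) (sL : Stg A gL) {aR aL : ℂ}
    (hR : aR ∈ S) (hL : aL ∈ S) (wR : aR ∈ Wn η W gR (2 * η) (-(11 * η)) (-(10 * η)))
    (wL : aL ∈ Wn η W gL (2 * η) (-(11 * η)) (-(10 * η))) :
    ∃ VK : Set ℂ, Lk S VK aL aR ∧ ∀ v ∈ VK, v ∈ S ∧ v ∈ Kin (90 * η) (Pg (m * (100 * η)) F) ∧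
      ((∃ x ∈ Pg (m * (100 * η)) F, ‖v - x‖ < d) ∨
        v ∈ Wn η W gR (3 * η) (-(101 * η)) (-(10 * η)) ∨
        v ∈ Wn η W gL (3 * η) (-(101 * η)) (-(10 * η))) := by
  have h0 := E.e0
  have e : 2 * η + η = 3 * η := by ring
  obtain ⟨VK, h1, h2⟩ := vkg E sR sL (x := 2 * η) (y0 := 10 * η) (by linarith) (by linarith) hR hL
    ⟨wR.1, by linarith [wR.2.1], wR.2.2⟩ ⟨wL.1, by linarith [wL.2.1], wL.2.2⟩
  refine ⟨VK, h1, fun v hv => ⟨(h2 v hv).1, vkg_kin E sR sL (by linarith) le_rfl (h2 v hv).2, ?_⟩⟩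
  have h3 := (h2 v hv).2
  rwa [e] at h3

end Crest.Agent.R143.CurK2x643
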