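import Crest.Agent.R143.InnZ_643
import Crest.Agent.R143.LocT_776

/-!
# Row 143 (S0194), LOCX: (C3) of 776's list, the inner part of the closed curtain (helper643)

* `Stg A g` : strong form of `Strg`, `A k + 4 ≤ g`, `g + 3 ≤ A (k + 1)` (416's `WdA.gl`, `gr`)
* `str6_of` : 496's `Str6`; `gate_hol` : no holes below the gate
* **`vk`** : the inner part `VK`; **`vk_K0`** : its sites are in `Kin (90 η)` or in the window
  `-(10 η) ≤ Y ≤ -(9 η)`; `vk_off` : they are off the tiles or in the lower windows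
-/

set_option autoImplicit false
set_option linter.unusedVariables false

noncomputable section

open scoped Classical

namespace Crest.Agent.R143.CurKx643

open Set
open Crest.Agent.R158.Sp896
open Crest.Agent.R143.B0x346
open Crest.Agent.R143.Tenx416 (Pg)
open Crest.Agent.R143.TileRx228
open Crest.Agent.R143.Gatex838 (X Y)
open Crest.Agent.R143.Finex422 (Fine)
open Crest.Agent.R143.Neckx921 (Lk)
open Crest.Agent.R143.RegEx523 (Kin Kin_mono sub_Kin RR_Kin)
open Crest.Agent.R143.InnPx643 Crest.Agent.R143.InnZx643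
open Crest.Agent.R143.TilUx496 (Str6)
open Crest.Agent.R143.LocTx776 (Wn Strg En)
open Crest.Agent.R143.CurGx496 (WinN)

variable {S : Finset ℂ} {F : Set V} {n m M : ℕ} {p W : ℤ → V} {A : ℤ → ℤ} {η d : ℝ}
  {g gL gR : ℤ} {v : ℂ}

/-- **the gate `g` is inside a straight run** -/
def Stg (A : ℤ → ℤ) (g : ℤ) : Prop := ∃ k, A k + 4 ≤ g ∧ g + 3 ≤ A (k + 1)

theorem Stg.strg (h : Stg A g) : Strg A g := by
  obtain ⟨k, h1, h2⟩ := h
  exact ⟨k, by omega, by omega⟩

/-- from 416's form -/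
theorem stg_of (h : ∃ k, A k + 5 ≤ g ∧ g + 5 ≤ A (k + 1)) : Stg A g := by
  obtain ⟨k, h1, h2⟩ := h
  exact ⟨k, by omega, by omega⟩

theorem str6_of {m : ℤ} (hF : Fine F n m p M W A) (hg : Stg A g) : Str6 W g := by
  obtain ⟨k, h1, h2⟩ := hg
  have key : ∀ j, A k ≤ j - 1 → j ≤ A (k + 1) → ge W j = cz (p (k + 1) - p k) := fun j a b => by
    have := hF.step k (j - 1) a (by omega)
    rw [sub_add_cancel] at this
    unfold ge
    rw [this]
  intro j a b
  rw [key j (by omega) (by omega), key (j + 1) (by omega) (by omega)]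

/-- **no holes below a gate** -/
theorem gate_hol (E : En S F n m p M W A η d) (hg : Stg A g) {z : ℂ}
    (hx : |X (gz (100 * η) W g) (ge W g) z| ≤ 100 * η / 4)
    (hy : |Y (gz (100 * η) W g) (ge W g) z| ≤ 100 * η) : ∃ s ∈ S, ‖s - z‖ < d := by
  have h0 := E.e0
  have P := E.fine.fpath
  have H6 := str6_of E.fine hg
  set x := X (gz (100 * η) W g) (ge W g) z with hxe
  have hx' := abs_le.1 hx
  have hm : ∃ i, TilUx496.ax (100 * η) W g x ∈ RR (9 * η) (51 * η) (100 * η) W i := by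
    rcases le_or_gt 0 x with h1 | h1
    · refine ⟨g, H6.mem P (by linarith) (by omega) (by omega) ?_⟩
      rw [abs_lt]
      push_cast
      constructor <;> linarith
    · refine ⟨g - 1, H6.mem P (by linarith) (by omega) (by omega) ?_⟩
      rw [abs_lt]
      push_cast
      constructor <;> linarith
  obtain ⟨i, hi⟩ := hm
  refine E.hol i _ hi z ?_
  have hz := RegEx523.frame_eq (h := 100 * η) P g z
  have e : z - TilUx496.ax (100 * η) W g x =
      ((Y (gz (100 * η) W g) (ge W g) z : ℝ) : ℂ) * (Complex.I * ge W g) := by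
    have key : ∀ q : ℂ, q = gz (100 * η) W g + ((x : ℂ) +
        (Y (gz (100 * η) W g) (ge W g) z : ℝ) * Complex.I) * ge W g →
        q - TilUx496.ax (100 * η) W g x =
          ((Y (gz (100 * η) W g) (ge W g) z : ℝ) : ℂ) * (Complex.I * ge W g) := by
      rintro q rfl
      unfold TilUx496.ax
      ring
    exact key z hz
  rw [e, norm_mul, norm_mul, Complex.norm_I, one_mul, InnPx643.norm_ge P g, mul_one, Complex.norm_real,
    Real.norm_eq_abs]
  exact hy

theorem gate_hol' (E : En S F n m p M W A η d) (hg : Stg A g) (z : ℂ)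
    (hx : |X (gz (100 * η) W g) (ge W g) z| ≤ 100 * η / 4)
    (h1 : -(100 * η) ≤ Y (gz (100 * η) W g) (ge W g) z)
    (h2 : Y (gz (100 * η) W g) (ge W g) z ≤ 0) : ∃ s ∈ S, ‖s - z‖ < d :=
  gate_hol E hg hx (abs_le.2 ⟨h1, h2.trans (by have := E.e0; linarith)⟩)

/-- the sites of the inner part -/
def Vk (S : Finset ℂ) (F : Set V) (m : ℕ) (η d : ℝ) (W : ℤ → V) (gL gR : ℤ) : Set ℂ :=
  {v | v ∈ S ∧ ((∃ x ∈ Pg (m * (100 * η)) F, ‖v - x‖ < d) ∨
    v ∈ Wn η W gR (2 * η) (-(101 * η)) (-(9 * η)) ∨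
    v ∈ Wn η W gL (2 * η) (-(101 * η)) (-(9 * η)))}

/-- **(C3)** the inner part of the closed curtain -/
theorem vk (E : En S F n m p M W A η d) (sR : Stg A gR) (sL : Stg A gL) {aR aL : ℂ} (hR : aR ∈ S)
    (hL : aL ∈ S) (wR : aR ∈ Wn η W gR η (-(10 * η)) (-(9 * η)))
    (wL : aL ∈ Wn η W gL η (-(10 * η)) (-(9 * η))) :
    ∃ VK : Set ℂ, Lk S VK aL aR ∧ ∀ v ∈ VK, v ∈ S ∧ ((∃ x ∈ Pg (m * (100 * η)) F, ‖v - x‖ < d) ∨
      v ∈ Wn η W gR (2 * η) (-(101 * η)) (-(9 * η)) ∨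
      v ∈ Wn η W gL (2 * η) (-(101 * η)) (-(9 * η))) := by
  have h0 := E.e0
  have d0 := E.d0
  have de := E.de
  have hR' := sR
  have hL' := sL
  obtain ⟨k2, a2, b2⟩ := sR
  obtain ⟨k1, a1, b1⟩ := sL
  obtain ⟨x2, y2, y2'⟩ := wR
  obtain ⟨x1, y1, y1'⟩ := wL
  refine ⟨_, inn_path E.fine E.con (by linarith) E.m10 d0 (by linarith) E.gp E.h3 a1 b1 a2 b2
    E.holP (gate_hol' E hL') (gate_hol' E hR') hL hR (by linarith) (by linarith) (by linarith)
    (by linarith) (by linarith) (by linarith), ?_⟩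
  have win : ∀ {x y : ℝ}, |x| ≤ η → |y - x| < d → |y| ≤ 2 * η := by
    intro x y h1 h2
    have e : y = (y - x) + x := by ring
    rw [e]
    refine (abs_add_le _ _).trans ?_
    linarith
  rintro v ⟨hv, h1 | ⟨c1, c2, c3⟩ | ⟨c1, c2, c3⟩⟩
  · exact ⟨hv, Or.inl h1⟩
  · exact ⟨hv, Or.inr (Or.inr ⟨win x1 c1, by linarith, c2.trans y1'⟩)⟩
  · exact ⟨hv, Or.inr (Or.inl ⟨win x2 c1, by linarith, c2.trans y2'⟩)⟩

/-- the low part of the window is in `Kin` -/
theorem win_kin (E : En S F n m p M W A η d) (hg : Stg A g)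
    (hv : v ∈ Wn η W g (2 * η) (-(101 * η)) (-(9 * η))) {r : ℝ} (hr : 0 ≤ r)
    (hy : Y (gz (100 * η) W g) (ge W g) v ≤ r - 100 * η) :
    v ∈ Kin r (Pg (m * (100 * η)) F) := by
  have h0 := E.e0
  have hh : 0 < 100 * η := by linarith
  obtain ⟨k, a1, b1⟩ := hg
  obtain ⟨x1, y1, y2⟩ := hv
  have hm : (10 : ℝ) ≤ m := by exact_mod_cast E.m10
  have hX : |X (gz (100 * η) W g) (ge W g) v| ≤ 5 / 2 * (100 * η) := by linarith
  rcases le_or_gt (-(100 * η)) (Y (gz (100 * η) W g) (ge W g) v) with h1 | h1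
  · exact Kin_mono (by linarith) (foot_mem E.fine hh a1 b1 hX h1)
  · have h3 := below_pt E.fine hh a1 b1 (y := Y (gz (100 * η) W g) (ge W g) v) hX (by nlinarith)
      h1.le
    rw [pt_eq E.fine.fpath g v] at h3
    exact sub_Kin hr h3

/-- a site next to the polygon -/
theorem near_kin {P : Set ℂ} (h : ∃ x ∈ P, ‖v - x‖ < d) {r : ℝ} (hr : d ≤ r) : v ∈ Kin r P := by
  obtain ⟨x, hx, hxd⟩ := h
  refine ⟨x, hx, ?_, ?_⟩
  · rw [← Complex.sub_re]; exact (Complex.abs_re_le_norm _).trans (hxd.le.trans hr)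
  · rw [← Complex.sub_im]; exact (Complex.abs_im_le_norm _).trans (hxd.le.trans hr)

/-- **(C3)** the sites of the inner part are in `Kin (90 η)` or in the two lower windows -/
theorem vk_K0 (E : En S F n m p M W A η d) (sR : Stg A gR) (sL : Stg A gL)
    (hv : (∃ x ∈ Pg (m * (100 * η)) F, ‖v - x‖ < d) ∨
      v ∈ Wn η W gR (2 * η) (-(101 * η)) (-(9 * η)) ∨
      v ∈ Wn η W gL (2 * η) (-(101 * η)) (-(9 * η))) :
    v ∈ Kin (90 * η) (Pg (m * (100 * η)) F) ∨ v ∈ Wn η W gR (2 * η) (-(10 * η)) (-(9 * η)) ∨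
      v ∈ Wn η W gL (2 * η) (-(10 * η)) (-(9 * η)) := by
  have h0 := E.e0
  have de := E.de
  have key : ∀ {g : ℤ}, Stg A g → v ∈ Wn η W g (2 * η) (-(101 * η)) (-(9 * η)) →
      v ∈ Kin (90 * η) (Pg (m * (100 * η)) F) ∨ v ∈ Wn η W g (2 * η) (-(10 * η)) (-(9 * η)) := by
    intro g hg hw
    rcases le_or_gt (Y (gz (100 * η) W g) (ge W g) v) (90 * η - 100 * η) with h1 | h1
    · exact Or.inl (win_kin E hg hw (by linarith) h1)
    · exact Or.inr ⟨hw.1, by linarith, hw.2.2⟩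
  rcases hv with h1 | h1 | h1
  · exact Or.inl (near_kin h1 (by linarith))
  · rcases key sR h1 with h2 | h2
    · exact Or.inl h2
    · exact Or.inr (Or.inl h2)
  · rcases key sL h1 with h2 | h2
    · exact Or.inl h2
    · exact Or.inr (Or.inr h2)

/-- **in 496's sets** (`A := 13 η`, `B := 54 η`, any `κ` with `13 η + κ < 90 η`) -/
theorem vk_off (E : En S F n m p M W A η d) (sR : Stg A gR) (sL : Stg A gL) {a b κ δ : ℝ}
    (hδ : 0 ≤ δ) (hδκ : δ ≤ κ) (ha : 0 < a) (hab : a ≤ b) (hK : a + b + 2 * κ < 100 * η)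
    (hd : d ≤ 100 * η - a - κ)
    (hv : (∃ x ∈ Pg (m * (100 * η)) F, ‖v - x‖ < d) ∨
      v ∈ Wn η W gR (2 * η) (-(101 * η)) (-(9 * η)) ∨
      v ∈ Wn η W gL (2 * η) (-(101 * η)) (-(9 * η))) :
    v ∈ CurGx496.Off a b (100 * η) W δ ∨ v ∈ WinN (100 * η) W a κ gL ∨
      v ∈ WinN (100 * η) W a κ gR := by
  have h0 := E.e0
  have d0 := E.d0
  have hh : 0 < 100 * η := by linarith
  have hm : 0 < m := by have := E.m10; omega
  have off : v ∈ Kin (100 * η - a - κ) (Pg (m * (100 * η)) F) → v ∈ CurGx496.Off a b (100 * η) W δ :=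
    kin_off E.fine hh hm (by linarith) (by linarith) (by linarith)
  have key : ∀ {g : ℤ}, Stg A g → v ∈ Wn η W g (2 * η) (-(101 * η)) (-(9 * η)) →
      v ∈ CurGx496.Off a b (100 * η) W δ ∨ v ∈ WinN (100 * η) W a κ g := by
    intro g hg hw
    rcases le_or_gt (Y (gz (100 * η) W g) (ge W g) v) ((100 * η - a - κ) - 100 * η) with h1 | h1
    · exact Or.inl (off (win_kin E hg hw (by linarith) h1))
    · exact Or.inr ⟨by linarith [hw.1], by linarith, by linarith [hw.2.2]⟩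
  rcases hv with h1 | h1 | h1
  · exact Or.inl (off (near_kin h1 hd))
  · rcases key sR h1 with h2 | h2
    · exact Or.inl h2
    · exact Or.inr (Or.inr h2)
  · rcases key sL h1 with h2 | h2
    · exact Or.inl h2
    · exact Or.inr (Or.inl h2)

end Crest.Agent.R143.CurKx643
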