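import Crest.Agent.R143.REw_838
import Crest.Agent.R143.Neck1_921

/-!
# Row 143 (S0194): straight walks (helper336)

* `lk_of_pth` : 723's paths are 921's links
* **`walk`** : from a site `v` in the direction `u` (`‖u‖ = 1`) up to the distance `T`: the sites of
  the chain own a point `v + t u` of the segment, at distance `≤ t` and `< κ` from it
* **`walk_up`**, **`walk_down`** : 776's form in the frame `(z0, e)`; `walk_right`, `walk_left`
-/

set_option autoImplicit false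

noncomputable section

open scoped Classical

namespace Crest.Agent.R143.Walkx336

open Crest.ProbabilityR.Voronoi
open Crest.Agent.R143.B0x346 Crest.Agent.R143.DelGx806 Crest.Agent.R143.DelRx806
open Crest.Agent.R143.RE0x723 (Pth)
open Crest.Agent.R143.Blkx838 (DE)
open Crest.Agent.R143.Gatex838 (X Y)
open Crest.Agent.R143.Neckx921 (Lk)

variable {S : Finset ℂ}

theorem lk_of_pth {A : Set ℂ} {x y : ℂ} (h : Pth S A x y) : Lk S A x y := by
  obtain ⟨hx, h⟩ := h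
  induction h with
  | refl => exact Lk.refl hx
  | tail _ h1 ih => exact ih.trans ⟨⟨ih.1.2, h1.2⟩, .single ⟨h1.1, ih.1.2, h1.2⟩⟩

/-- the sites met by a walk of length `T` from `v` in the direction `u` -/
def WS (S : Finset ℂ) (v u : ℂ) (T κ : ℝ) : Set ℂ :=
  {q | q ∈ S ∧ ∃ t : ℝ, 0 ≤ t ∧ t ≤ T + κ ∧ ‖q - (v + (t : ℂ) * u)‖ ≤ t ∧
    ‖q - (v + (t : ℂ) * u)‖ < κ}

/-- **straight walk** -/
theorem walk (gp : GP (S : Set ℂ)) (h3 : 3 ≤ S.card) {v u : ℂ} (hu : ‖u‖ = 1) (hv : v ∈ S)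
    {T κ : ℝ} (hκ : 0 < κ) (hT : 0 ≤ T)
    (holes : ∀ t : ℝ, 0 ≤ t → t ≤ T + κ → ∃ s ∈ S, ‖s - (v + (t : ℂ) * u)‖ < κ) :
    ∃ w, Lk S (WS S v u T κ) v w ∧ ‖w - (v + ((T + κ : ℝ) : ℂ) * u)‖ < κ := by
  set f : ℝ → ℂ := fun t => v + (t : ℂ) * u with hf
  set C : Set ℂ := f '' Set.Icc 0 (T + κ) with hC
  have hfc : Continuous f := by
    rw [hf]
    exact continuous_const.add (Complex.continuous_ofReal.mul continuous_const)
  have hCc : IsPreconnected C := isPreconnected_Icc.image f hfc.continuousOn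
  have hne : S.Nonempty := ⟨v, hv⟩
  obtain ⟨w, hw, hwc⟩ := G6Wx723.exists_cell hne (f (T + κ))
  have hdist : ∀ t : ℝ, 0 ≤ t → ‖v - f t‖ = t := by
    intro t ht
    rw [hf]
    simp only
    rw [show v - (v + (t : ℂ) * u) = -((t : ℂ) * u) by ring, norm_neg, norm_mul, hu, mul_one,
      Complex.norm_real, Real.norm_eq_abs, abs_of_nonneg ht]
  have key : ∀ q t, 0 ≤ t → t ≤ T + κ → f t ∈ voronoiCell (S : Set ℂ) q →
      ‖q - f t‖ ≤ t ∧ ‖q - f t‖ < κ := by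
    intro q t h0 h1 hq
    obtain ⟨s, hs, hs'⟩ := holes t h0 h1
    have e1 := hq v (Finset.mem_coe.2 hv)
    have e2 := hq s (Finset.mem_coe.2 hs)
    rw [norm_sub_rev (f t) q] at e1 e2
    rw [norm_sub_rev (f t) v, hdist t h0] at e1
    rw [norm_sub_rev (f t) s] at e2
    exact ⟨e1, lt_of_le_of_lt e2 hs'⟩
  have hP := REwx838.pth_of_set gp h3 hCc (V := WS S v u T κ) hv hw
    (z1 := f 0) (z2 := f (T + κ))
    ⟨⟨0, ⟨le_rfl, by linarith⟩, rfl⟩, by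
      have e0 : f 0 = v := by rw [hf]; simp
      rw [e0]
      exact REwx838.self_cell v⟩
    ⟨⟨T + κ, ⟨by linarith, le_rfl⟩, rfl⟩, hwc⟩ (by
      rintro q hq ⟨z, ⟨t, ⟨h0, h1⟩, rfl⟩, hz⟩
      obtain ⟨g1, g2⟩ := key q t h0 h1 hz
      exact ⟨hq, t, h0, h1, g1, g2⟩)
  exact ⟨w, lk_of_pth hP, (key w (T + κ) (by linarith) le_rfl hwc).2⟩

/-! ### frames -/

variable {z0 e : ℂ}

theorem re_le (z : ℂ) : |(z / e).re| ≤ ‖z‖ / ‖e‖ := by
  rw [← norm_div]; exact Complex.abs_re_le_norm _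

theorem im_le (z : ℂ) : |(z / e).im| ≤ ‖z‖ / ‖e‖ := by
  rw [← norm_div]; exact Complex.abs_im_le_norm _

theorem X_sub (a b : ℂ) : X z0 e a - X z0 e b = ((a - b) / e).re := by
  unfold X
  rw [← Complex.sub_re, ← sub_div]
  congr 2
  ring

theorem Y_sub (a b : ℂ) : Y z0 e a - Y z0 e b = ((a - b) / e).im := by
  unfold Y
  rw [← Complex.sub_im, ← sub_div]
  congr 2
  ring

/-- the walk in the direction `u = ‖e‖⁻¹ c e`, `c` one of `1, -1, I, -I` -/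
theorem walk_c (gp : GP (S : Set ℂ)) (h3 : 3 ≤ S.card) (he : e ≠ 0) {v c : ℂ} (hc : ‖c‖ = 1)
    (hv : v ∈ S) {T κ : ℝ} (hκ : 0 < κ) (hT : 0 ≤ T)
    (holes : ∀ t : ℝ, 0 ≤ t → t ≤ T + κ → ∃ s ∈ S, ‖s - (v + (t : ℂ) * (c * e))‖ < κ * ‖e‖) :
    ∃ w, Lk S {q | q ∈ S ∧ ∃ t : ℝ, 0 ≤ t ∧ t ≤ T + κ ∧ ‖(q - v) / e - (t : ℂ) * c‖ ≤ t ∧
      ‖(q - v) / e - (t : ℂ) * c‖ < κ} v w ∧ ‖(w - v) / e - ((T + κ : ℝ) : ℂ) * c‖ < κ := by
  have hn : 0 < ‖e‖ := norm_pos_iff.2 he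
  have hnc : (‖e‖ : ℂ) ≠ 0 := by exact_mod_cast hn.ne'
  set u : ℂ := c * e / ‖e‖ with hu
  have hu1 : ‖u‖ = 1 := by
    rw [hu, norm_div, norm_mul, hc, one_mul, Complex.norm_real, Real.norm_eq_abs, abs_of_pos hn,
      div_self hn.ne']
  have hpt : ∀ t : ℝ, v + ((t * ‖e‖ : ℝ) : ℂ) * u = v + (t : ℂ) * (c * e) := by
    intro t
    rw [hu]
    push_cast
    field_simp
  have hsc : ∀ (q : ℂ) (t : ℝ), ‖q - (v + ((t * ‖e‖ : ℝ) : ℂ) * u)‖ =
      ‖(q - v) / e - (t : ℂ) * c‖ * ‖e‖ := by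
    intro q t
    rw [hpt, ← norm_mul]
    congr 1
    field_simp
    ring
  obtain ⟨w, h1, h2⟩ := walk gp h3 (T := T * ‖e‖) (κ := κ * ‖e‖) hu1 hv (mul_pos hκ hn)
    (mul_nonneg hT hn.le) (by
      intro t ht0 ht1
      obtain ⟨s, hs, hs'⟩ := holes (t / ‖e‖) (div_nonneg ht0 hn.le) (by
        rw [div_le_iff₀ hn]; linarith)
      refine ⟨s, hs, ?_⟩
      have := hpt (t / ‖e‖)
      rw [div_mul_cancel₀ t hn.ne'] at this
      rw [this]
      exact hs')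
  refine ⟨w, h1.mono ?_, ?_⟩
  · rintro q ⟨hq, t, ht0, ht1, g1, g2⟩
    have e1 : t / ‖e‖ * ‖e‖ = t := div_mul_cancel₀ t hn.ne'
    have e2 := hsc q (t / ‖e‖)
    rw [e1] at e2
    rw [e2] at g1 g2
    refine ⟨hq, t / ‖e‖, div_nonneg ht0 hn.le, ?_, ?_, ?_⟩
    · rw [div_le_iff₀ hn]; linarith
    · rw [le_div_iff₀ hn]; exact g1
    · exact lt_of_mul_lt_mul_right g2 hn.le
  · have e2 := hsc w (T + κ)
    rw [show T * ‖e‖ + κ * ‖e‖ = (T + κ) * ‖e‖ by ring, e2] at h2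
    exact lt_of_mul_lt_mul_right h2 hn.le

/-- **walk upwards** (776's form) -/
theorem walk_up (gp : GP (S : Set ℂ)) (h3 : 3 ≤ S.card) (he : e ≠ 0) {v : ℂ} (hv : v ∈ S)
    {κ y1 : ℝ} (hκ : 0 < κ) (hy : Y z0 e v ≤ y1)
    (holes : ∀ z, X z0 e z = X z0 e v → Y z0 e v ≤ Y z0 e z → Y z0 e z ≤ y1 + κ →
      ∃ t ∈ S, ‖t - z‖ < κ * ‖e‖) :
    ∃ w, Lk S {q | q ∈ S ∧ Y z0 e v ≤ Y z0 e q ∧ |X z0 e q - X z0 e v| ≤ κ} v w ∧
      y1 ≤ Y z0 e w := by
  obtain ⟨w, h1, h2⟩ := walk_c gp h3 he (c := Complex.I) (T := y1 - Y z0 e v) (by simp) hv hκ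
    (by linarith) (by
      intro t ht0 ht1
      apply holes
      · have := X_sub (z0 := z0) (e := e) (v + (t : ℂ) * (Complex.I * e)) v
        rw [show (v + (t : ℂ) * (Complex.I * e) - v) / e = (t : ℂ) * Complex.I by
          field_simp; ring] at this
        simp at this
        linarith
      · have := Y_sub (z0 := z0) (e := e) (v + (t : ℂ) * (Complex.I * e)) v
        rw [show (v + (t : ℂ) * (Complex.I * e) - v) / e = (t : ℂ) * Complex.I by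
          field_simp; ring] at this
        simp at this
        linarith
      · have := Y_sub (z0 := z0) (e := e) (v + (t : ℂ) * (Complex.I * e)) v
        rw [show (v + (t : ℂ) * (Complex.I * e) - v) / e = (t : ℂ) * Complex.I by
          field_simp; ring] at this
        simp at this
        linarith)
  refine ⟨w, h1.mono ?_, ?_⟩
  · rintro q ⟨hq, t, ht0, ht1, g1, g2⟩
    refine ⟨hq, ?_, ?_⟩
    · have e1 := Complex.abs_im_le_norm ((q - v) / e - (t : ℂ) * Complex.I)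
      have e2 := Y_sub (z0 := z0) (e := e) q v
      simp at e1
      have e3 := (abs_le.1 (e1.trans g1)).1
      linarith
    · have e1 := Complex.abs_re_le_norm ((q - v) / e - (t : ℂ) * Complex.I)
      rw [X_sub]
      simp at e1
      exact e1.trans g2.le
  · have e1 := Complex.abs_im_le_norm ((w - v) / e - ((y1 - Y z0 e v + κ : ℝ) : ℂ) * Complex.I)
    have e2 := Y_sub (z0 := z0) (e := e) w v
    simp at e1 h2
    have e3 := (abs_le.1 (e1.trans h2.le)).1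
    linarith

/-- **walk downwards** -/
theorem walk_down (gp : GP (S : Set ℂ)) (h3 : 3 ≤ S.card) (he : e ≠ 0) {v : ℂ} (hv : v ∈ S)
    {κ y0 : ℝ} (hκ : 0 < κ) (hy : y0 ≤ Y z0 e v)
    (holes : ∀ z, X z0 e z = X z0 e v → Y z0 e z ≤ Y z0 e v → y0 - κ ≤ Y z0 e z →
      ∃ t ∈ S, ‖t - z‖ < κ * ‖e‖) :
    ∃ w, Lk S {q | q ∈ S ∧ Y z0 e q ≤ Y z0 e v ∧ |X z0 e q - X z0 e v| ≤ κ} v w ∧
      Y z0 e w ≤ y0 := by
  have hX : ∀ s, X z0 (-e) s = -X z0 e s := fun s => by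
    unfold X; rw [div_neg, Complex.neg_re]
  have hY : ∀ s, Y z0 (-e) s = -Y z0 e s := fun s => by
    unfold Y; rw [div_neg, Complex.neg_im]
  obtain ⟨w, h1, h2⟩ := walk_up (z0 := z0) (e := -e) (y1 := -y0) gp h3 (neg_ne_zero.2 he) hv hκ
    (by rw [hY]; linarith) (by
      intro z g1 g2 g3
      rw [hX, hX, neg_inj] at g1
      rw [hY, hY] at g2
      rw [hY] at g3
      rw [norm_neg]
      exact holes z g1 (by linarith) (by linarith))
  refine ⟨w, h1.mono ?_, by rw [hY] at h2; linarith⟩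
  rintro q ⟨hq, g1, g2⟩
  rw [hY, hY] at g1
  rw [hX, hX] at g2
  refine ⟨hq, by linarith, ?_⟩
  rw [← abs_neg]
  rw [show -(X z0 e q - X z0 e v) = -X z0 e q - -X z0 e v by ring]
  exact g2

/-- **walk to the right** -/
theorem walk_right (gp : GP (S : Set ℂ)) (h3 : 3 ≤ S.card) (he : e ≠ 0) {v : ℂ} (hv : v ∈ S)
    {κ x1 : ℝ} (hκ : 0 < κ) (hx : X z0 e v ≤ x1)
    (holes : ∀ z, Y z0 e z = Y z0 e v → X z0 e v ≤ X z0 e z → X z0 e z ≤ x1 + κ →
      ∃ t ∈ S, ‖t - z‖ < κ * ‖e‖) :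
    ∃ w, Lk S {q | q ∈ S ∧ X z0 e v ≤ X z0 e q ∧ |Y z0 e q - Y z0 e v| ≤ κ} v w ∧
      x1 ≤ X z0 e w := by
  have hI : ∀ s, (s - z0) / (-(Complex.I * e)) = Complex.I * ((s - z0) / e) := fun s => by
    rw [div_eq_iff (neg_ne_zero.2 (mul_ne_zero Complex.I_ne_zero he))]
    have h := div_mul_cancel₀ (s - z0) he
    linear_combination (-1 : ℂ) * h + ((s - z0) / e * e) * Complex.I_sq
  have hX : ∀ s, X z0 (-(Complex.I * e)) s = -Y z0 e s := fun s => by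
    unfold X Y; rw [hI]; simp
  have hY : ∀ s, Y z0 (-(Complex.I * e)) s = X z0 e s := fun s => by
    unfold X Y; rw [hI]; simp
  have hn : ‖-(Complex.I * e)‖ = ‖e‖ := by rw [norm_neg, norm_mul, Complex.norm_I, one_mul]
  obtain ⟨w, h1, h2⟩ := walk_up (z0 := z0) (e := -(Complex.I * e)) (y1 := x1) gp h3
    (neg_ne_zero.2 (mul_ne_zero Complex.I_ne_zero he)) hv hκ (by rw [hY]; exact hx) (by
      intro z g1 g2 g3
      rw [hX, hX, neg_inj] at g1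
      rw [hY, hY] at g2
      rw [hY] at g3
      rw [hn]
      exact holes z g1 g2 g3)
  refine ⟨w, h1.mono ?_, by rw [hY] at h2; exact h2⟩
  rintro q ⟨hq, g1, g2⟩
  rw [hY, hY] at g1
  rw [hX, hX] at g2
  refine ⟨hq, g1, ?_⟩
  rw [← abs_neg]
  rw [show -(Y z0 e q - Y z0 e v) = -Y z0 e q - -Y z0 e v by ring]
  exact g2

/-- **walk to the left** -/
theorem walk_left (gp : GP (S : Set ℂ)) (h3 : 3 ≤ S.card) (he : e ≠ 0) {v : ℂ} (hv : v ∈ S)
    {κ x0 : ℝ} (hκ : 0 < κ) (hx : x0 ≤ X z0 e v)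
    (holes : ∀ z, Y z0 e z = Y z0 e v → X z0 e z ≤ X z0 e v → x0 - κ ≤ X z0 e z →
      ∃ t ∈ S, ‖t - z‖ < κ * ‖e‖) :
    ∃ w, Lk S {q | q ∈ S ∧ X z0 e q ≤ X z0 e v ∧ |Y z0 e q - Y z0 e v| ≤ κ} v w ∧
      X z0 e w ≤ x0 := by
  have hX : ∀ s, X z0 (-e) s = -X z0 e s := fun s => by
    unfold X; rw [div_neg, Complex.neg_re]
  have hY : ∀ s, Y z0 (-e) s = -Y z0 e s := fun s => by
    unfold Y; rw [div_neg, Complex.neg_im]
  obtain ⟨w, h1, h2⟩ := walk_right (z0 := z0) (e := -e) (x1 := -x0) gp h3 (neg_ne_zero.2 he) hv hκ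
    (by rw [hX]; linarith) (by
      intro z g1 g2 g3
      rw [hY, hY, neg_inj] at g1
      rw [hX, hX] at g2
      rw [hX] at g3
      rw [norm_neg]
      exact holes z g1 (by linarith) (by linarith))
  refine ⟨w, h1.mono ?_, by rw [hX] at h2; linarith⟩
  rintro q ⟨hq, g1, g2⟩
  rw [hX, hX] at g1
  rw [hY, hY] at g2
  refine ⟨hq, by linarith, ?_⟩
  rw [← abs_neg]
  rw [show -(Y z0 e q - Y z0 e v) = -Y z0 e q - -Y z0 e v by ring]
  exact g2

end Crest.Agent.R143.Walkx336
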