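import Crest.Agent.R143.LocD_776
import Crest.Agent.R143.CorE_133
import Crest.Agent.R143.LnkG_372
import Crest.Agent.R143.OutP_571
import Crest.Agent.R143.TilU_496
import Crest.Agent.R143.Walk_336

/-!
# Row 143 (S0194), RIG, LOCX: the outer part of the closed curtain (helper66)

* `seg_near` : an edge of the Delaunay triangulation which passes through a point of a dense region
  has both ends within `2 d` of it; **`seg_off`** : an edge with one end off the strips `RR A' B'` does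
  not meet the strips `RR A1 B1` (`A1 + 2 d ≤ A'`, `B1 + 2 d ≤ B'`)
* `OutP` : the outer part `V` of a curtain, from `b` to `b'`: links off the strips through the hull;
  all its cells are in `Ext` of every blocking set in the strips: `OutP.ext`, `OutP.ok`
* `out_of` : from two paths to a site of the hull; **`outerU`** : at a good environment, for the tops of
  the columns of two gates inside coarse edges; `segU`
-/

set_option autoImplicit false

noncomputable section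

open scoped Classical

namespace Crest.Agent.R143.CurOx66

open Crest.ProbabilityR.Voronoi
open Crest.Agent.R143.B0x346 Crest.Agent.R143.DelGx806 Crest.Agent.R143.DelRx806
open Crest.Agent.R143.Blkx838 (DE)
open Crest.Agent.R143.Neckx921 (Lk)
open Crest.Agent.R143.ToolW2x838 Crest.Agent.R143.ToolW3x838 Crest.Agent.R143.Gatex838
open Crest.Agent.R143.Locx922 (Hol InD del_small)
open Crest.Agent.R143.TileRx228 (FPath gz ge RR)
open Crest.Agent.R143.Extx358 (Ad Ext Bd)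
open Crest.Agent.R143.Frame10x395
open Crest.Agent.R143.FinCx811 (Cs rc0 cs)
open Crest.Agent.R143.RcTx422 (Hc RC)
open Crest.Agent.R143.RE0x723 (Pth)
open Crest.Agent.R143.PolyUx346 Crest.Agent.R143.LayUx416
open Crest.Agent.R143.LocDx776 (Ok ext_lk)
open Crest.Agent.R143.CorEx133
open Crest.Agent.R143.Brkx478 (Bk cells)
open Crest.Agent.R143.OutCx571 (Far)

variable {S : Finset ℂ} {M : ℕ} {W : ℤ → ℤ × ℤ} {d h A1 B1 A' B' : ℝ}

/-! ### edges -/

/-- an edge through a point of a dense region is short -/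
theorem seg_near {K : Set ℂ} {u v w : ℂ} (hd : 0 < d) (hH : Hol (S : Set ℂ) K d) (hw : w ∈ K)
    (h : DE S u v) (hs : w ∈ segment ℝ u v) : ‖u - w‖ < 2 * d ∧ ‖v - w‖ < 2 * d := by
  have key : ∀ a b : ℂ, w ∈ segment ℝ a b → (∃ c, (a, b, c) ∈ delT S) →
      ‖a - w‖ < 2 * d ∧ ‖b - w‖ < 2 * d := by
    rintro a b hs ⟨c, hc⟩
    have hI : InD w a b c := by
      intro o h1 _
      have h2 : segment ℝ a b ⊆ Metric.closedBall o ‖a - o‖ :=
        (convex_closedBall o _).segment_subset (by simp [dist_eq_norm])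
          (by simp [dist_eq_norm, h1])
      have h3 := h2 hs
      rwa [Metric.mem_closedBall, dist_eq_norm] at h3
    obtain ⟨o, -, -, -, -, -, h1, h2, -⟩ := del_small hd hH hw hI (mem_delT.1 hc)
    exact ⟨h1, h2⟩
  rcases h with h | h
  · exact key u v hs h
  · have h1 := key v u (by rwa [segment_symm]) h
    exact ⟨h1.2, h1.1⟩

/-- **an edge with one end off the large strips does not meet the small strips** -/
theorem seg_off (P : FPath M W) (hd : 0 < d)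
    (hH : Hol (S : Set ℂ) {w | ∃ a, w ∈ RR A1 B1 h W a} d) (hA : A1 + 2 * d ≤ A')
    (hB : B1 + 2 * d ≤ B') {u v : ℂ} (hde : DE S u v) (hu : ∀ a, u ∉ RR A' B' h W a) {w : ℂ}
    {a : ℤ} (hw : w ∈ RR A1 B1 h W a) : w ∉ segment ℝ u v := by
  intro hs
  have h1 := (seg_near hd hH ⟨a, hw⟩ hde hs).1
  have h2 := TilUx496.thick P hw h1.le
  exact hu a (TileRx228.RR_mono hA hB h W a h2)

/-! ### the outer part -/

/-- sites off the strips -/
def Of (S : Finset ℂ) (A' B' h : ℝ) (W : ℤ → ℤ × ℤ) : Set ℂ :=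
  {q | q ∈ S ∧ ∀ a, q ∉ RR A' B' h W a}

/-- the outer part of a curtain -/
structure OutP (S : Finset ℂ) (A' B' h : ℝ) (W : ℤ → ℤ × ℤ) (V : Set ℂ) (b b' : ℂ) : Prop where
  lk : Lk S V b b'
  off : ∀ q ∈ V, q ∈ Of S A' B' h W
  hull : ∀ q ∈ V, ∃ x, OnHull S x ∧ Lk S (Of S A' B' h W) q x

/-- links stay in the set of the sites linked to the end -/
theorem lk_to {O : Set ℂ} {b x : ℂ} (h : Lk S O b x) : Lk S {q | Lk S O q x} b x := by
  obtain ⟨⟨hb, hx⟩, h⟩ := h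
  induction h using Relation.ReflTransGen.head_induction_on with
  | refl => exact Lk.refl (Lk.refl hx)
  | @head a c h1 h2 ih =>
    have h3 := ih h1.2.2
    have h4 : Lk S O a x := ⟨⟨h1.2.1, hx⟩, .head h1 h2⟩
    exact ⟨⟨h4, h3.1.2⟩, .head ⟨h1.1, h4, h3.1.1⟩ h3.2⟩

/-- **the outer part from two paths to a site of the hull** -/
theorem out_of {b b' x : ℂ} (hx : OnHull S x) (h1 : Lk S (Of S A' B' h W) b x)
    (h2 : Lk S (Of S A' B' h W) b' x) :
    OutP S A' B' h W {q | Lk S (Of S A' B' h W) q x} b b' where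
  lk := (lk_to h1).trans (lk_to h2).symm
  off _ hq := hq.1.1
  hull _ hq := ⟨x, hx, hq⟩

/-- the blocking cells are cells of inner sites of the strips -/
def BlkS {hS : GP (S : Set ℂ)} (A' B' h : ℝ) (W : ℤ → ℤ × ℤ) (Y : Set (Cs hS)) : Prop :=
  ∀ c ∈ Y, ∃ t, ¬ OnHull S t ∧ (∃ a, t ∈ RR A' B' h W a) ∧ c.1 = Quot.mk (hullE S) t

theorem BlkS.union {hS : GP (S : Set ℂ)} {Y Y' : Set (Cs hS)} (h1 : BlkS A' B' h W Y)
    (h2 : BlkS A' B' h W Y') : BlkS A' B' h W (Y ∪ Y') := fun c hc => hc.elim (h1 c) (h2 c)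

theorem BlkS.mono {hS : GP (S : Set ℂ)} {Y Y' : Set (Cs hS)} (h1 : BlkS A' B' h W Y)
    (h2 : Y' ⊆ Y) : BlkS A' B' h W Y' := fun c hc => h1 c (h2 hc)

/-- cells of regions in the strips -/
theorem blkS_RC {hS : GP (S : Set ℂ)} {B : Set ℂ} (h1 : ∀ s ∈ B, ∃ a, s ∈ RR A' B' h W a) :
    BlkS A' B' h W (RC hS B) := by
  rintro c ⟨v, -, h2, h3, h4⟩
  exact ⟨v, h3, h1 v h2, h4⟩

theorem BlkS.off {hS : GP (S : Set ℂ)} {Y : Set (Cs hS)} (hY : BlkS A' B' h W Y) {s : ℂ}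
    (hs : s ∈ Of S A' B' h W) {c : Cs hS} (e : c.1 = Quot.mk (hullE S) s) : c ∉ Y := by
  intro hc
  obtain ⟨t, h1, ⟨a, h2⟩, h3⟩ := hY c hc
  have h4 : s = t := quot_inner hS h1 (h3.symm.trans e)
  exact hs.2 a (h4 ▸ h2)

variable {V : Set ℂ} {b b' : ℂ}

/-- **the cells of the outer part are in `Ext`** -/
theorem OutP.ext (O : OutP S A' B' h W V b b') {hS : GP (S : Set ℂ)} {Y : Set (Cs hS)}
    (hY : BlkS A' B' h W Y) {q : ℂ} (hq : q ∈ V) {c : Cs hS} (e : c.1 = Quot.mk (hullE S) q) :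
    Ext (rc0 hS) (Hc hS) Y c := by
  obtain ⟨x, hx, hl⟩ := O.hull q hq
  refine ext_lk (A := Of S A' B' h W) (fun s hs c e => hY.off hs e) hl.symm ?_ e
  intro c e'
  exact Ext.hull ⟨x, hx, e'⟩ (hY.off hl.1.2 e')

/-- the sites of the outer part are not bad -/
theorem OutP.ok (O : OutP S A' B' h W V b b') {hS : GP (S : Set ℂ)} {Z Z' T : Set (Cs hS)}
    (hY : BlkS A' B' h W (Z' ∪ T)) {q : ℂ} (hq : q ∈ V) : Ok hS Z Z' T q := fun _ e =>
  Or.inr (Or.inr (O.ext hY hq e))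

/-- the edges of the outer part do not meet the small strips -/
theorem OutP.seg (O : OutP S A' B' h W V b b') (P : FPath M W) (hd : 0 < d)
    (hH : Hol (S : Set ℂ) {w | ∃ a, w ∈ RR A1 B1 h W a} d) (hA : A1 + 2 * d ≤ A')
    (hB : B1 + 2 * d ≤ B') {u v : ℂ} (hde : DE S u v) (hu : u ∈ V) {w : ℂ} {a : ℤ}
    (hw : w ∈ RR A1 B1 h W a) : w ∉ segment ℝ u v :=
  seg_off P hd hH hA hB hde (O.off u hu).2 hw

/-! ### at a good environment -/

section env

variable {u : Poly} {m : ℕ} {p : ℤ → ℤ × ℤ} {A e : ℤ → ℤ} {ε K1 c2 ρ0 : ℝ} {ω : Sample}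

/-- density of the strips -/
theorem holR (C : CorEnv u ε d K1 c2 ρ0 ω) (H : LayU u m M p W A e) (hh : (m : ℝ) * h = u.s)
    (ha : A1 < h) (hab : A1 ≤ B1) (hb : 0 ≤ B1) (hbh : B1 ≤ h) :
    Hol (SU u ε ω : Set ℂ) {w | ∃ a, w ∈ RR A1 B1 h W a} d := by
  rintro w ⟨a, hw⟩
  exact C.hol w (RR_sub H hh ha hab hb hbh a hw)

/-- **edges through a point of the strips are short** -/
theorem shortU (C : CorEnv u ε d K1 c2 ρ0 ω) (H : LayU u m M p W A e) (hh : (m : ℝ) * h = u.s)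
    (ha : A1 < h) (hab : A1 ≤ B1) (hb : 0 ≤ B1) (hbh : B1 ≤ h) {s t : ℂ}
    (hde : DE (SU u ε ω) s t) {w : ℂ} (hw : ∃ a, w ∈ RR A1 B1 h W a) (hs : w ∈ segment ℝ s t) :
    ‖s - w‖ < 2 * d ∧ ‖t - w‖ < 2 * d :=
  seg_near C.d0 (holR C H hh ha hab hb hbh) hw hde hs

/-- **edges with one end off the strips** -/
theorem segU (C : CorEnv u ε d K1 c2 ρ0 ω) (H : LayU u m M p W A e) (hh : (m : ℝ) * h = u.s)
    (ha : A1 < h) (hab : A1 ≤ B1) (hb : 0 ≤ B1) (hbh : B1 ≤ h) (hA : A1 + 2 * d ≤ A')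
    (hB : B1 + 2 * d ≤ B') {s t : ℂ} (hde : DE (SU u ε ω) s t) (hs : ∀ a, s ∉ RR A' B' h W a)
    {w : ℂ} {a : ℤ} (hw : w ∈ RR A1 B1 h W a) : w ∉ segment ℝ s t :=
  seg_off H.lay.fp C.d0 (holR C H hh ha hab hb hbh) hA hB hde hs hw

/-- far points are far from the polygon -/
theorem far_u {r : ℝ} (hr : r ≤ 1) {z : ℂ} (hz : Rp u + 4 ≤ ‖z‖) :
    z ∈ Far u.s r (cells (u.U : Set Bk)) := by
  intro w hw
  have h1 : ‖w‖ ≤ Rp u := P_norm u hw
  have h2 := Complex.norm_le_abs_re_add_abs_im (z - w)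
  have h3 := norm_add_le (z - w) w
  rw [sub_add_cancel] at h3
  rw [Complex.sub_re, Complex.sub_im] at h2
  have h4 := le_max_left |z.re - w.re| |z.im - w.im|
  have h5 := le_max_right |z.re - w.re| |z.im - w.im|
  linarith

/-- **the top of the column is joined to the hull off the strips** (372) -/
theorem top_u (C : CorEnv u ε d K1 c2 ρ0 ω) (H : LayU u m M p W A e) (hh : (m : ℝ) * h = u.s)
    {k a : ℤ} (h1 : A k + 4 ≤ a) (h2 : a + 4 ≤ A (k + 1)) {A2 B2 : ℝ} (hA : 0 < A')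
    (hAB : A' ≤ B') (_hA2 : A' ≤ A2) (hB2 : B' ≤ B2) (hAB2 : A2 + B2 < h) (hAB2' : A2 ≤ B2)
    {s x y : ℂ} (hs : s ∈ SU u ε ω) (hX : |X (gz h W a) (ge W a) s| + 8 * d < B2 - h / 2)
    (hY : A' ≤ Y (gz h W a) (ge W a) s) (hY2 : Y (gz h W a) (ge W a) s + 8 * d < A2)
    (hxy : hullE (SU u ε ω) x y) : Pth (SU u ε ω) (Of (SU u ε ω) A' B' h W) s y := by
  have hle := h_le H hh
  have hm := H.m_pos
  have h0 := H.h_pos hh
  have hd1 := C.d1
  have hd0 := C.d0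
  have hR := RU_ge u
  have hRp := one_le_Rp u
  have e1 : (((m : ℕ) : ℤ) : ℝ) * h = u.s := by
    rw [Int.cast_natCast]
    exact hh
  have h3 := LnkGx372.top_T H.fine h0 (by omega)
    (fun q hq q' hq' => OutPx571.con_compl u.con' q hq q' hq') h1 h2 C.dns (fun z hz => by
      rw [e1]
      refine far_u (by linarith) ?_
      rw [sub_zero] at hz
      unfold RU at hz
      linarith) hA hAB (e := 0) le_rfl (by linarith) (by linarith) hAB2 hAB2' hs (by linarith) hY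
    (by linarith) hxy
  refine ⟨⟨h3.2.1.1, h3.2.1.2.1⟩, ?_⟩
  exact Relation.ReflTransGen.mono (fun _ _ g => ⟨g.1, g.2.1, g.2.2.1⟩) _ _ h3.2.2

/-- **the outer part between the tops of the columns of two gates** -/
theorem outerU (C : CorEnv u ε d K1 c2 ρ0 ω) (H : LayU u m M p W A e) (hh : (m : ℝ) * h = u.s)
    {A2 B2 : ℝ} (hA : 0 < A') (hAB : A' ≤ B') (hA2 : A' ≤ A2) (hB2 : B' ≤ B2) (hAB2 : A2 + B2 < h)
    (hAB2' : A2 ≤ B2)
    {k a : ℤ} (h1 : A k + 4 ≤ a) (h2 : a + 4 ≤ A (k + 1)) {b : ℂ} (hb : b ∈ SU u ε ω)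
    (hX : |X (gz h W a) (ge W a) b| + 8 * d < B2 - h / 2) (hY : A' ≤ Y (gz h W a) (ge W a) b)
    (hY2 : Y (gz h W a) (ge W a) b + 8 * d < A2)
    {k' a' : ℤ} (h1' : A k' + 4 ≤ a') (h2' : a' + 4 ≤ A (k' + 1)) {b' : ℂ}
    (hb' : b' ∈ SU u ε ω) (hX' : |X (gz h W a') (ge W a') b'| + 8 * d < B2 - h / 2)
    (hY' : A' ≤ Y (gz h W a') (ge W a') b') (hY2' : Y (gz h W a') (ge W a') b' + 8 * d < A2) :
    ∃ V, OutP (SU u ε ω) A' B' h W V b b' := by
  obtain ⟨x, y, hxy⟩ := exists_hull C.gpS C.card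
  have key : ∀ {k a : ℤ}, A k + 4 ≤ a → a + 4 ≤ A (k + 1) → ∀ {b : ℂ}, b ∈ SU u ε ω →
      |X (gz h W a) (ge W a) b| + 8 * d < B2 - h / 2 → A' ≤ Y (gz h W a) (ge W a) b →
      Y (gz h W a) (ge W a) b + 8 * d < A2 → Lk (SU u ε ω) (Of (SU u ε ω) A' B' h W) b y := by
    intro k a h1 h2 b hb hX hY hY2
    exact Walkx336.lk_of_pth (top_u C H hh h1 h2 hA hAB hA2 hB2 hAB2 hAB2' hb hX hY hY2 hxy)
  exact ⟨_, out_of ⟨x, hxy⟩ (key h1 h2 hb hX hY hY2) (key h1' h2' hb' hX' hY' hY2')⟩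

end env

end Crest.Agent.R143.CurOx66
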