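import Crest.Agent.R143.Tpl_978
import Crest.Agent.R143.TileR2_228

/-!
# R143 (helper765): the frames of a fine path: 978's `Pth` for 228's `FPath`

* `Tn` (turns `S`, `L`, `R`), `rot`, `tn W a` (turn of the tile `a`), `ge_succ`
* `nxt h τ` : frame of the next gate; `frm P h a` : frame of the gate `a`; `frm_succ`
* standard position: `WQ` gate box, `WR τ` tile region, `WD τ` tube box
* `mem_WQ`, `mem_WR`, `mem_WD` : they are the window, the region, the region without the windows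
* `pth` : 978's `Pth` (gates and tiles `ZMod M`) for every template with boxes inside `WQ`, `WD`
* `win` : windows of consecutive tiles; `lineP` : the straight path
-/

set_option autoImplicit false

noncomputable section

namespace Crest.Agent.R143.PthFx765

open MeasureTheory Set
open Crest.Agent.R143.Gatex838 (X Y)
open Crest.Agent.R143.PP0x831 Crest.Agent.R143.PWx978 Crest.Agent.R143.Tplx978
open Crest.Agent.R143.TileRx228

/-! ### turns -/

/-- type of a tile -/
inductive Tn | S | L | R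
deriving DecidableEq

/-- the rotation of a tile -/
def rot : Tn → ℂ
  | Tn.S => 1
  | Tn.L => Complex.I
  | Tn.R => -Complex.I

theorem norm_rot (τ : Tn) : ‖rot τ‖ = 1 := by
  cases τ <;> simp [rot]

theorem rot_ne (τ : Tn) : rot τ ≠ 0 := by
  intro h
  have := norm_rot τ
  rw [h] at this
  simp at this

variable {M : ℕ} {W : ℤ → ℤ × ℤ} {A B h : ℝ}

open Classical in
/-- turn of the path at `W a` -/
def tn (W : ℤ → ℤ × ℤ) (a : ℤ) : Tn :=
  if ge W (a + 1) = ge W a then Tn.S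
  else if ge W (a + 1) = ge W a * Complex.I then Tn.L else Tn.R

theorem tn_S {a : ℤ} (h : ge W (a + 1) = ge W a) : tn W a = Tn.S := by
  unfold tn
  rw [if_pos h]

/-- the direction of the next gate -/
theorem ge_succ (P : FPath M W) (a : ℤ) : ge W (a + 1) = ge W a * rot (tn W a) := by
  have h1 := turn_cases P a
  unfold tn
  by_cases h2 : ge W (a + 1) = ge W a
  · rw [if_pos h2, h2]
    simp [rot]
  · rw [if_neg h2]
    by_cases h3 : ge W (a + 1) = ge W a * Complex.I
    · rw [if_pos h3, h3]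
      rfl
    · rw [if_neg h3]
      rcases h1 with h1 | h1 | h1
      · exact absurd h1 h2
      · exact absurd h1 h3
      · rw [h1]
        rfl

theorem tn_eq_S (P : FPath M W) {a : ℤ} : tn W a = Tn.S ↔ W (a + 1) - W a = W a - W (a - 1) := by
  constructor
  · intro h
    have h1 := ge_succ P a
    rw [h, rot, mul_one] at h1
    unfold ge at h1
    rw [show a + 1 - 1 = a by ring] at h1
    unfold cz at h1
    have h2 := congrArg Complex.re h1
    have h3 := congrArg Complex.im h1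
    simp only at h2 h3
    exact Prod.ext (by exact_mod_cast h2) (by exact_mod_cast h3)
  · intro h
    refine tn_S ?_
    unfold ge
    rw [show a + 1 - 1 = a by ring, h]

/-! ### frames -/

/-- the frame of the next gate -/
def nxt (h : ℝ) (τ : Tn) : Fr := Fr.aff ((h : ℂ) / 2 * (1 + rot τ)) (rot τ) (norm_rot τ)

/-- the frame of the gate `a` -/
def frm (P : FPath M W) (h : ℝ) (a : ℤ) : Fr := Fr.aff (gz h W a) (ge W a) (norm_ge P a)

theorem frm_apply (P : FPath M W) (h : ℝ) (a : ℤ) (z : ℂ) :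
    (frm P h a).e z = gz h W a + ge W a * z := rfl

theorem nxt_apply (h : ℝ) (τ : Tn) (z : ℂ) :
    (nxt h τ).e z = (h : ℂ) / 2 * (1 + rot τ) + rot τ * z := rfl

/-- **the next frame** -/
theorem frm_succ (P : FPath M W) (h : ℝ) (a : ℤ) (z : ℂ) :
    (frm P h (a + 1)).e z = (frm P h a).e ((nxt h (tn W a)).e z) := by
  rw [frm_apply, frm_apply, nxt_apply, gz_succ, ge_succ P]
  ring

theorem frm_symm_succ (P : FPath M W) (h : ℝ) (a : ℤ) (z : ℂ) :
    (frm P h (a + 1)).e.symm z = (nxt h (tn W a)).e.symm ((frm P h a).e.symm z) := by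
  have h1 := frm_succ P h a ((nxt h (tn W a)).e.symm ((frm P h a).e.symm z))
  rw [MeasurableEquiv.apply_symm_apply, MeasurableEquiv.apply_symm_apply] at h1
  rw [← h1, MeasurableEquiv.symm_apply_apply, h1]

theorem frm_symm (P : FPath M W) (h : ℝ) (a : ℤ) (z : ℂ) :
    (frm P h a).e.symm z = (z - gz h W a) / ge W a := by
  unfold frm
  rw [Fr.aff_symm, div_eq_inv_mul]

theorem frm_re (P : FPath M W) (h : ℝ) (a : ℤ) (z : ℂ) :
    ((frm P h a).e.symm z).re = X (gz h W a) (ge W a) z := by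
  rw [frm_symm]
  rfl

theorem frm_im (P : FPath M W) (h : ℝ) (a : ℤ) (z : ℂ) :
    ((frm P h a).e.symm z).im = Y (gz h W a) (ge W a) z := by
  rw [frm_symm]
  rfl

/-! ### standard position -/

/-- gate box in standard position -/
def WQ (A B h : ℝ) : Set ℂ := {z | |z.re| < B - h / 2 ∧ |z.im| < A}

/-- tile region in standard position -/
def WR (A B h : ℝ) (τ : Tn) : Set ℂ :=
  {z | ((h / 2 - B < z.re ∧ z.re < h / 2 + A) ∧ |z.im| < A) ∨
    ((-(h / 2 + A) < ((nxt h τ).e.symm z).re ∧ ((nxt h τ).e.symm z).re < B - h / 2) ∧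
      |((nxt h τ).e.symm z).im| < A)}

/-- tube box in standard position: the tile region without the two gate boxes -/
def WD (A B h : ℝ) (τ : Tn) : Set ℂ := WR A B h τ \ (WQ A B h ∪ (nxt h τ).e.symm ⁻¹' WQ A B h)

theorem WQ_meas : MeasurableSet (WQ A B h) := by
  have h1 : Measurable fun z : ℂ => |z.re| := by fun_prop
  have h2 : Measurable fun z : ℂ => |z.im| := by fun_prop
  exact (measurableSet_lt h1 measurable_const).inter (measurableSet_lt h2 measurable_const)

theorem WR_meas (τ : Tn) : MeasurableSet (WR A B h τ) := by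
  have h1 : Measurable fun z : ℂ => z.re := by fun_prop
  have h2 : Measurable fun z : ℂ => |z.im| := by fun_prop
  have h3 := h1.comp (nxt h τ).e.symm.measurable
  have h4 := h2.comp (nxt h τ).e.symm.measurable
  exact (((measurableSet_lt measurable_const h1).inter (measurableSet_lt h1 measurable_const)).inter
      (measurableSet_lt h2 measurable_const)).union
    (((measurableSet_lt measurable_const h3).inter (measurableSet_lt h3 measurable_const)).inter
      (measurableSet_lt h4 measurable_const))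

theorem WD_meas (τ : Tn) : MeasurableSet (WD A B h τ) :=
  (WR_meas τ).diff (WQ_meas.union ((nxt h τ).e.symm.measurable WQ_meas))

theorem box_bdd (x0 x1 y0 : ℝ) : Bornology.IsBounded {z : ℂ | (x0 < z.re ∧ z.re < x1) ∧ |z.im| < y0} := by
  refine (Metric.isBounded_closedBall (x := (0 : ℂ)) (r := |x0| + |x1| + |y0|)).subset ?_
  rintro z ⟨⟨h1, h2⟩, h3⟩
  rw [mem_closedBall_zero_iff]
  have h4 : |z.re| ≤ |x0| + |x1| := by
    rw [abs_le]
    have := neg_abs_le x0
    have := le_abs_self x1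
    have := abs_nonneg x0
    have := abs_nonneg x1
    constructor <;> linarith
  have h5 : |z.im| ≤ |y0| := h3.le.trans (le_abs_self y0)
  have h6 := Complex.norm_le_abs_re_add_abs_im z
  linarith

theorem WQ_bdd : Bornology.IsBounded (WQ A B h) :=
  (box_bdd (-(B - h / 2)) (B - h / 2) A).subset fun _ hz => ⟨abs_lt.1 hz.1, hz.2⟩

theorem WR_bdd (τ : Tn) : Bornology.IsBounded (WR A B h τ) := by
  refine ((box_bdd (h / 2 - B) (h / 2 + A) A).union
    ((nxt h τ).bdd' _ (box_bdd (-(h / 2 + A)) (B - h / 2) A))).subset ?_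
  rintro z (hz | hz)
  · exact Or.inl hz
  · exact Or.inr hz

theorem WD_bdd (τ : Tn) : Bornology.IsBounded (WD A B h τ) := (WR_bdd τ).subset sdiff_subset

theorem WR_sub (τ : Tn) : WR A B h τ ⊆ (WQ A B h ∪ (nxt h τ).e.symm ⁻¹' WQ A B h) ∪ WD A B h τ := by
  intro z hz
  by_cases h1 : z ∈ WQ A B h ∪ (nxt h τ).e.symm ⁻¹' WQ A B h
  · exact Or.inl h1
  · exact Or.inr ⟨hz, h1⟩

theorem WQ_sub (hA : 0 < A) (hB : B ≤ h) (τ : Tn) : WQ A B h ⊆ WR A B h τ := by
  rintro z ⟨h1, h2⟩
  rw [abs_lt] at h1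
  exact Or.inl ⟨⟨by linarith [h1.1], by linarith [h1.2]⟩, h2⟩

theorem WQ_sub' (hA : 0 < A) (hB : B ≤ h) (τ : Tn) :
    (nxt h τ).e.symm ⁻¹' WQ A B h ⊆ WR A B h τ := by
  rintro z ⟨h1, h2⟩
  rw [abs_lt] at h1
  exact Or.inr ⟨⟨by linarith [h1.1], h1.2⟩, h2⟩

theorem WR_eq (hA : 0 < A) (hB : B ≤ h) (τ : Tn) :
    (WQ A B h ∪ (nxt h τ).e.symm ⁻¹' WQ A B h) ∪ WD A B h τ = WR A B h τ :=
  Subset.antisymm (union_subset (union_subset (WQ_sub hA hB τ) (WQ_sub' hA hB τ)) sdiff_subset)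
    (WR_sub τ)

/-! ### the boxes of the path -/

/-- the box of the gate `a` in the plane -/
def GB (A B h : ℝ) (W : ℤ → ℤ × ℤ) (a : ℤ) : Set ℂ :=
  {s | |X (gz h W a) (ge W a) s| < B - h / 2 ∧ |Y (gz h W a) (ge W a) s| < A}

/-- the box of the tube `a` in the plane -/
def TB (A B h : ℝ) (W : ℤ → ℤ × ℤ) (a : ℤ) : Set ℂ :=
  RR A B h W a \ (GB A B h W a ∪ GB A B h W (a + 1))

theorem mem_WQ (P : FPath M W) (a : ℤ) (s : ℂ) :
    (frm P h a).e.symm s ∈ WQ A B h ↔ s ∈ GB A B h W a := by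
  unfold WQ GB
  rw [mem_ofPred_eq, mem_ofPred_eq, frm_re, frm_im]

theorem mem_WQ' (P : FPath M W) (a : ℤ) (s : ℂ) :
    (frm P h a).e.symm s ∈ (nxt h (tn W a)).e.symm ⁻¹' WQ A B h ↔ s ∈ GB A B h W (a + 1) := by
  rw [mem_preimage, ← frm_symm_succ, mem_WQ]

theorem mem_WR (P : FPath M W) (a : ℤ) (s : ℂ) :
    (frm P h a).e.symm s ∈ WR A B h (tn W a) ↔ s ∈ RR A B h W a := by
  rw [mem_RR_frames P]
  unfold WR
  rw [mem_ofPred_eq, ← frm_symm_succ, frm_re, frm_im, frm_re, frm_im]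

theorem mem_WD (P : FPath M W) (a : ℤ) (s : ℂ) :
    (frm P h a).e.symm s ∈ WD A B h (tn W a) ↔ s ∈ TB A B h W a := by
  unfold WD TB
  rw [mem_sdiff, mem_sdiff, mem_union, mem_union, mem_WR, mem_WQ, mem_WQ']

/-! ### the period -/

theorem per_mul (P : FPath M W) (k : ℤ) (a : ℤ) : W (a + M * k) = W a := by
  induction k using Int.induction_on with
  | zero => simp
  | succ i ih =>
    rw [show a + (M : ℤ) * ((i : ℤ) + 1) = a + M * i + M by ring, P.per, ih]
  | pred i ih =>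
    rw [← P.per, show a + (M : ℤ) * (-(i : ℤ) - 1) + M = a + M * -i by ring, ih]

/-- `a = b` modulo the period -/
theorem per_dvd (P : FPath M W) {a b : ℤ} (h : (M : ℤ) ∣ b - a) (i : ℤ) : W (b + i) = W (a + i) := by
  obtain ⟨k, hk⟩ := h
  rw [show b + i = a + i + M * k by linarith, per_mul P]

theorem gz_dvd (P : FPath M W) {a b : ℤ} (h : (M : ℤ) ∣ b - a) (r : ℝ) : gz r W b = gz r W a := by
  unfold gz
  have h1 := per_dvd P h 0
  have h2 := per_dvd P h (-1)
  rw [add_zero, add_zero] at h1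
  rw [show b - 1 = b + -1 by ring, show a - 1 = a + -1 by ring, h1, h2]

theorem ge_dvd (P : FPath M W) {a b : ℤ} (h : (M : ℤ) ∣ b - a) : ge W b = ge W a := by
  unfold ge
  have h1 := per_dvd P h 0
  have h2 := per_dvd P h (-1)
  rw [add_zero, add_zero] at h1
  rw [show b - 1 = b + -1 by ring, show a - 1 = a + -1 by ring, h1, h2]

theorem dvd_succ {a b : ℤ} (h : (M : ℤ) ∣ b - a) : (M : ℤ) ∣ b + 1 - (a + 1) := by
  rwa [show b + 1 - (a + 1) = b - a by ring]

theorem tn_dvd (P : FPath M W) {a b : ℤ} (h : (M : ℤ) ∣ b - a) : tn W b = tn W a := by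
  unfold tn
  rw [ge_dvd P h, ge_dvd P (dvd_succ h)]

theorem RR_dvd (P : FPath M W) {a b : ℤ} (hd : (M : ℤ) ∣ b - a) : RR A B h W b = RR A B h W a := by
  unfold RR cen
  have h1 := per_dvd P hd 0
  have h2 := per_dvd P hd (-1)
  have h3 := per_dvd P hd 1
  rw [add_zero, add_zero] at h1
  rw [show b - 1 = b + -1 by ring, show a - 1 = a + -1 by ring, h1, h2, h3]

theorem GB_dvd (P : FPath M W) {a b : ℤ} (hd : (M : ℤ) ∣ b - a) : GB A B h W b = GB A B h W a := by
  unfold GB
  rw [gz_dvd P hd, ge_dvd P hd]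

theorem TB_dvd (P : FPath M W) {a b : ℤ} (hd : (M : ℤ) ∣ b - a) : TB A B h W b = TB A B h W a := by
  unfold TB
  rw [RR_dvd P hd, GB_dvd P hd, GB_dvd P (dvd_succ hd)]

theorem frm_dvd (P : FPath M W) {a b : ℤ} (hd : (M : ℤ) ∣ b - a) (h : ℝ) :
    frm P h b = frm P h a := by
  unfold frm
  have h1 := gz_dvd P hd h
  have h2 := ge_dvd P hd
  congr 1

theorem cast_dvd {a b : ℤ} (hd : (M : ℤ) ∣ b - a) : (b : ZMod M) = a := by
  have := (ZMod.intCast_eq_intCast_iff_dvd_sub a b M).2 hd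
  exact this.symm

/-- representative -/
def zc (i : ZMod M) : ℤ := (i.cast : ℤ)

@[simp] theorem zc_cast (i : ZMod M) : ((zc i : ℤ) : ZMod M) = i := ZMod.intCast_zmod_cast i

theorem zc_dvd (a : ℤ) : (M : ℤ) ∣ zc (a : ZMod M) - a :=
  (ZMod.intCast_eq_intCast_iff_dvd_sub a (zc (a : ZMod M)) M).1 (by rw [zc_cast])

theorem zc_ne {i j : ZMod M} (hij : i ≠ j) : ¬ (M : ℤ) ∣ zc j - zc i := by
  intro hd
  apply hij
  have := cast_dvd hd
  rw [zc_cast, zc_cast] at this
  exact this.symm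

theorem zc_succ (k : ZMod M) : (M : ℤ) ∣ zc (k + 1) - (zc k + 1) := by
  have h := zc_dvd (M := M) (zc k + 1)
  push_cast at h
  rwa [zc_cast] at h

/-! ### disjointness -/

theorem not1 (P : FPath M W) : ¬ (M : ℤ) ∣ 1 := by
  intro h
  have h1 := Int.natAbs_dvd_natAbs.2 h
  simp at h1
  have := P.M_cases
  omega

theorem not2 (P : FPath M W) : ¬ (M : ℤ) ∣ 2 := by
  intro h
  have h1 : (M : ℤ).natAbs ∣ (2 : ℤ).natAbs := Int.natAbs_dvd_natAbs.2 h
  simp only [Int.natAbs_natCast] at h1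
  have h2 : (2 : ℤ).natAbs = 2 := rfl
  rw [h2] at h1
  have h3 := Nat.le_of_dvd (by norm_num) h1
  have := P.M_cases
  rcases this with h4 | h4
  · subst h4
    simp at h1
  · omega

/-- the gate box is inside both tiles -/
theorem GB_sub (P : FPath M W) (hA : 0 < A) (hB : B ≤ h) (a : ℤ) : GB A B h W a ⊆ RR A B h W a :=
  fun _ hs => win_right P hA hB hs.1 hs.2

theorem GB_sub' (P : FPath M W) (hA : 0 < A) (hB : B ≤ h) (a : ℤ) :
    GB A B h W (a + 1) ⊆ RR A B h W a := fun _ hs => win_left P hA hB hs.1 hs.2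

/-- a tile meets only its two gate boxes -/
theorem GB_RR (P : FPath M W) (hA : 0 < A) (hAB : A ≤ B) (hh : A + B < h) {a b : ℤ}
    (h0 : ¬ (M : ℤ) ∣ b - a) (h1 : ¬ (M : ℤ) ∣ b - (a + 1)) :
    Disjoint (GB A B h W b) (RR A B h W a) := by
  rw [Set.disjoint_left]
  intro s hs ht
  refine far P hA hAB hh h0 h1 ?_ (GB_sub P hA (by linarith) b hs) ht
  have h2 : s ∈ GB A B h W (b - 1 + 1) := by rwa [sub_add_cancel]
  exact GB_sub' P hA (by linarith) (b - 1) h2

/-- **gate boxes are disjoint** -/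
theorem GB_GB (P : FPath M W) (hA : 0 < A) (hAB : A ≤ B) (hh : A + B < h) {a b : ℤ}
    (h0 : ¬ (M : ℤ) ∣ b - a) : Disjoint (GB A B h W a) (GB A B h W b) := by
  by_cases h1 : (M : ℤ) ∣ b - (a + 1)
  · have h2 : ¬ (M : ℤ) ∣ b - (a - 1) := by
      intro h3
      apply not2 P
      have := dvd_sub h3 h1
      rwa [show b - (a - 1) - (b - (a + 1)) = 2 by ring] at this
    have h4 := GB_RR P hA hAB hh (a := a - 1) (b := b) h2 (by rwa [sub_add_cancel])
    have h5 := GB_sub' P hA (B := B) (h := h) (by linarith) (a - 1)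
    rw [sub_add_cancel] at h5
    exact (h4.mono_right h5).symm
  · exact ((GB_RR P hA hAB hh h0 h1).mono_right (GB_sub P hA (by linarith) a)).symm

/-- **tube boxes are disjoint** -/
theorem TB_TB (P : FPath M W) (hA : 0 < A) (hAB : A ≤ B) (hh : A + B < h) {a b : ℤ}
    (h0 : ¬ (M : ℤ) ∣ b - a) : Disjoint (TB A B h W a) (TB A B h W b) := by
  rw [Set.disjoint_left]
  rintro s ⟨hs, hs'⟩ ⟨ht, ht'⟩
  by_cases h1 : (M : ℤ) ∣ b - (a + 1)
  · rw [RR_dvd P h1] at ht
    exact hs' (Or.inr (window P hAB hh.le hs ht))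
  by_cases h2 : (M : ℤ) ∣ b - (a - 1)
  · rw [RR_dvd P h2] at ht
    have h3 : s ∈ RR A B h W (a - 1 + 1) := by rwa [sub_add_cancel]
    have h4 := window P hAB hh.le ht h3
    rw [sub_add_cancel] at h4
    exact hs' (Or.inl h4)
  · exact Set.disjoint_left.1 (disj P hA hAB hh h0 h1 h2) hs ht

/-- **gate boxes and tube boxes are disjoint** -/
theorem GB_TB (P : FPath M W) (hA : 0 < A) (hAB : A ≤ B) (hh : A + B < h) (a b : ℤ) :
    Disjoint (GB A B h W a) (TB A B h W b) := by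
  rw [Set.disjoint_left]
  rintro s hs ⟨ht, ht'⟩
  by_cases h1 : (M : ℤ) ∣ a - b
  · rw [GB_dvd P h1] at hs
    exact ht' (Or.inl hs)
  by_cases h2 : (M : ℤ) ∣ a - (b + 1)
  · rw [GB_dvd P h2] at hs
    exact ht' (Or.inr hs)
  exact Set.disjoint_left.1 (GB_RR P hA hAB hh h1 h2) hs ht

end Crest.Agent.R143.PthFx765
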