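import Crest.Agent.R143.LocT_776
import Crest.Agent.R143.CurO_66
import Crest.Agent.R143.LnkG_927
import Crest.Agent.R143.PthF_765

/-!
# Row 143 (S0194), RIG, LOCX: the outer part of the closed curtain, final form (helper66; 776's (C2))

* `gate_far4`, `strg_ge` : a gate between two corners (`Strg`)
* `win_off` : the column above a gate is off the strips; `walk_y` : straight walk up, with bounds
* **`vf`** : the outer part of the curtain between the tops of two vertical chains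
* **`up_ext`** : a site above a gate is linked to a far site off the strips
-/

set_option autoImplicit false

noncomputable section

open scoped Classical

namespace Crest.Agent.R143.CurVx66

open Set
open Crest.ProbabilityR.Voronoi
open Crest.Agent.R158.Sp896
open Crest.Agent.R143.B0x346
open Crest.Agent.R143.RE0x723 (Pth)
open Crest.Agent.R143.Tenx416 (Pg)
open Crest.Agent.R143.OutCx571 Crest.Agent.R143.TileRx228
open Crest.Agent.R143.Gatex838 (X Y)
open Crest.Agent.R143.Finex422 (Fine ro adj_un)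
open Crest.Agent.R143.Blkx838 (DE)
open Crest.Agent.R143.Neckx921 (Lk)
open Crest.Agent.R143.LnkGx927 (far_of_cell Sml sml_of_hol out_path)
open Crest.Agent.R143.LocTx776

variable {δ ρ h : ℝ} {F : Set V} {n m M : ℕ} {p : ℤ → V} {W : ℤ → V} {A : ℤ → ℤ}

/-- **a point above a gate inside a straight run is far from the polygon** -/
theorem gate_far4 (hF : Fine F n (m : ℤ) p M W A) (hh : 0 < h) {k a : ℤ} (h1 : A k + 3 ≤ a)
    (h2 : a + 2 ≤ A (k + 1)) {s : ℂ} (hx : |X (gz h W a) (ge W a) s| < 3 / 2 * h - ρ)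
    (hy1 : ρ - h < Y (gz h W a) (ge W a) s) (hy2 : Y (gz h W a) (ge W a) s < (m - 1) * h - ρ) :
    s ∈ Far (m * h) ρ F := by
  have hm : (0 : ℝ) ≤ m := Nat.cast_nonneg m
  obtain ⟨t, g1, g2, g3⟩ := hF.exact k (a - 1) (by omega) (by omega)
  have hst := hF.step k (a - 1) (by omega) (by omega)
  rw [sub_add_cancel] at hst
  have sg1 := hF.seg k (a - 1) (by omega) (by omega)
  have sg2 := hF.seg k (A (k + 1)) (by omega) le_rfl
  have v1 := hF.vert k
  have v2 := hF.vert (k + 1)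
  have hd := adj_un (hF.cl.step k)
  have hl := hF.cl.left k
  have e0 : p (k + 1) = p k + (p (k + 1) - p k) := by abel
  -- bounds of `t`
  have hW : W a = W (a - 1) + (p (k + 1) - p k) := by rw [← hst]; abel
  have ge' : ge W a = cz (p (k + 1) - p k) := by rw [ge, hst]
  have gzr : (gz h W a).re = h * (((W (a - 1)).1 : ℝ) + (p (k + 1) - p k).1 / 2) := by
    have : (cz (W a)).re = ((W (a - 1)).1 : ℝ) + (p (k + 1) - p k).1 := by
      rw [hW]; simp [cz]
    have h3 : (gz h W a).re = h * (((cz (W (a - 1))).re + (cz (W a)).re) / 2) := by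
      simp [gz]
    rw [h3, this]
    simp only [cz]
    ring
  have gzi : (gz h W a).im = h * (((W (a - 1)).2 : ℝ) + (p (k + 1) - p k).2 / 2) := by
    have : (cz (W a)).im = ((W (a - 1)).2 : ℝ) + (p (k + 1) - p k).2 := by
      rw [hW]; simp [cz]
    have h3 : (gz h W a).im = h * (((cz (W (a - 1))).im + (cz (W a)).im) / 2) := by
      simp [gz]
    rw [h3, this]
    simp only [cz]
    ring
  rw [ge', FineDx576.X_eq hd] at hx
  rw [ge', FineDx576.Y_eq hd] at hy1 hy2
  rw [gzr, gzi] at hx hy1 hy2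
  rw [sg2] at v2
  rw [g3] at sg1
  rw [g3] at hx hy1 hy2
  rw [e0] at hl v2
  simp only [abs_le] at v1 v2
  rw [abs_lt] at hx
  generalize p (k + 1) - p k = D at *
  generalize W (A k) = w at *
  generalize p k = P at *
  obtain ⟨x, y⟩ := P
  obtain ⟨w1, w2⟩ := w
  rw [Prod.ext_iff] at sg1
  obtain ⟨s1, s2⟩ := sg1
  clear hW ge' gzr gzi hst g3 e0 sg2
  rcases hd with rfl | rfl | rfl | rfl
  · have e : lc (x, y) ((x, y) + (1, 0)) = (x, y) := by
      simp only [lc, Prod.mk_add_mk, Prod.mk.injEq]; omega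
    rw [e] at hl
    simp [ro] at s1 s2 v1 v2 hx hy1 hy2
    have t2 : 1 ≤ t := by linarith [v1.1.1, v1.1.2, v1.2.1, v1.2.2]
    have t3 : t ≤ m - 2 := by linarith [v2.1.1, v2.1.2, v2.2.1, v2.2.2]
    have t2' : (1 : ℝ) ≤ t := by exact_mod_cast t2
    have t3' : (t : ℝ) ≤ m - 2 := by exact_mod_cast t3
    have q1 : h * 1 ≤ h * t := mul_le_mul_of_nonneg_left t2' hh.le
    have q2 : h * t ≤ h * (m - 2) := mul_le_mul_of_nonneg_left t3' hh.le
    refine far_of_cell (by positivity) hl ?_ ?_ ?_ ?_ <;> push_cast <;>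
      linarith [hx.1, hx.2]
  · have e : lc (x, y) ((x, y) + (0, 1)) = (x - 1, y) := by
      simp only [lc, Prod.mk_add_mk, Prod.mk.injEq]; omega
    rw [e] at hl
    simp [ro] at s1 s2 v1 v2 hx hy1 hy2
    have t2 : 1 ≤ t := by linarith [v1.1.1, v1.1.2, v1.2.1, v1.2.2]
    have t3 : t ≤ m - 2 := by linarith [v2.1.1, v2.1.2, v2.2.1, v2.2.2]
    have t2' : (1 : ℝ) ≤ t := by exact_mod_cast t2
    have t3' : (t : ℝ) ≤ m - 2 := by exact_mod_cast t3
    have q1 : h * 1 ≤ h * t := mul_le_mul_of_nonneg_left t2' hh.le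
    have q2 : h * t ≤ h * (m - 2) := mul_le_mul_of_nonneg_left t3' hh.le
    refine far_of_cell (by positivity) hl ?_ ?_ ?_ ?_ <;> push_cast <;>
      linarith [hx.1, hx.2]
  · have e : lc (x, y) ((x, y) + (-1, 0)) = (x - 1, y - 1) := by
      simp only [lc, Prod.mk_add_mk, Prod.mk.injEq]; omega
    rw [e] at hl
    simp [ro] at s1 s2 v1 v2 hx hy1 hy2
    have t2 : 1 ≤ t := by linarith [v1.1.1, v1.1.2, v1.2.1, v1.2.2]
    have t3 : t ≤ m - 2 := by linarith [v2.1.1, v2.1.2, v2.2.1, v2.2.2]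
    have t2' : (1 : ℝ) ≤ t := by exact_mod_cast t2
    have t3' : (t : ℝ) ≤ m - 2 := by exact_mod_cast t3
    have q1 : h * 1 ≤ h * t := mul_le_mul_of_nonneg_left t2' hh.le
    have q2 : h * t ≤ h * (m - 2) := mul_le_mul_of_nonneg_left t3' hh.le
    refine far_of_cell (by positivity) hl ?_ ?_ ?_ ?_ <;> push_cast <;>
      linarith [hx.1, hx.2]
  · have e : lc (x, y) ((x, y) + (0, -1)) = (x, y - 1) := by
      simp only [lc, Prod.mk_add_mk, Prod.mk.injEq]; omega
    rw [e] at hl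
    simp [ro] at s1 s2 v1 v2 hx hy1 hy2
    have t2 : 1 ≤ t := by linarith [v1.1.1, v1.1.2, v1.2.1, v1.2.2]
    have t3 : t ≤ m - 2 := by linarith [v2.1.1, v2.1.2, v2.2.1, v2.2.2]
    have t2' : (1 : ℝ) ≤ t := by exact_mod_cast t2
    have t3' : (t : ℝ) ≤ m - 2 := by exact_mod_cast t3
    have q1 : h * 1 ≤ h * t := mul_le_mul_of_nonneg_left t2' hh.le
    have q2 : h * t ≤ h * (m - 2) := mul_le_mul_of_nonneg_left t3' hh.le
    refine far_of_cell (by positivity) hl ?_ ?_ ?_ ?_ <;> push_cast <;>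
      linarith [hx.1, hx.2]

/-- **the tiles `g - 2, …, g + 1` of a gate between two corners are straight** -/
theorem strg_ge {m : ℤ} (hF : Fine F n m p M W A) {g : ℤ} (hg : Strg A g) {j : ℤ} (h1 : g - 2 ≤ j)
    (h2 : j ≤ g + 1) : ge W (j + 1) = ge W j := by
  obtain ⟨k, k1, k2⟩ := hg
  have e1 := hF.step k j (by omega) (by omega)
  have e2 := hF.step k (j - 1) (by omega) (by omega)
  rw [sub_add_cancel] at e2
  unfold ge
  rw [add_sub_cancel_right, e1, e2]

/-! ### the column above a gate -/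

variable {S : Finset ℂ} {η d : ℝ}

/-- **the column above a gate is off the strips** -/
theorem win_off {m : ℤ} (hF : Fine F n m p M W A) (e0 : 0 < η) {g : ℤ} (hg : Strg A g) {A' B' : ℝ}
    (hA : 0 < A') (hAB : A' ≤ B') (hA2 : A' ≤ 32 * η) (hB2 : B' ≤ 60 * η) {q : ℂ}
    (hX : |X (gz (100 * η) W g) (ge W g) q| ≤ 3 * η) (hY : A' ≤ Y (gz (100 * η) W g) (ge W g) q)
    (hY2 : Y (gz (100 * η) W g) (ge W g) q ≤ 31 * η) (c : ℤ) : q ∉ RR A' B' (100 * η) W c := by
  intro hc
  have P := hF.fpath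
  have hYa : |Y (gz (100 * η) W g) (ge W g) q| < 32 * η := by
    rw [abs_lt]; constructor <;> linarith
  have hXa : |X (gz (100 * η) W g) (ge W g) q| < 60 * η - 100 * η / 2 := by linarith
  have m1 : q ∈ RR (32 * η) (60 * η) (100 * η) W (g - 1) := by
    refine win_left P (by linarith) (by linarith) ?_ ?_
    · rw [sub_add_cancel]; exact hXa
    · rw [sub_add_cancel]; exact hYa
  have m2 : q ∈ RR (32 * η) (60 * η) (100 * η) W g :=
    win_right P (by linarith) (by linarith) hXa hYa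
  have m3 : q ∈ RR (32 * η) (60 * η) (100 * η) W c := RR_mono hA2 hB2 _ W c hc
  by_cases h0 : (M : ℤ) ∣ g - c
  · rw [← PthFx765.RR_dvd P h0] at hc
    have h1 := ((frame_S P hA hAB (strg_ge hF hg (by omega) (by omega))).1 hc).2
    rw [abs_lt] at h1
    linarith
  by_cases h1 : (M : ℤ) ∣ g - (c + 1)
  · have h1' : (M : ℤ) ∣ (g - 1) - c := by
      rwa [show g - 1 - c = g - (c + 1) by ring]
    rw [← PthFx765.RR_dvd P h1'] at hc
    have hs := strg_ge hF hg (j := g - 1) (by omega) (by omega)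
    have h2 := ((frame_S P hA hAB hs).1 hc).2
    have h3 := (next_S P hs (100 * η) q).2
    rw [sub_add_cancel] at h3
    rw [← h3, abs_lt] at h2
    linarith
  · exact far P (by linarith) (by linarith) (by linarith) h0 h1 m1 m2 m3

/-- points near a gate are near the strips -/
theorem hole_near (E : En S F n m p M W A η d) {g : ℤ} {z : ℂ}
    (hX : |X (gz (100 * η) W g) (ge W g) z| ≤ 40 * η)
    (hY : |Y (gz (100 * η) W g) (ge W g) z| ≤ 50 * η) : ∃ s ∈ S, ‖s - z‖ < d := by
  have P := E.fine.fpath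
  have e0 := E.e0
  have h1 := (TilUx496.gate_mem P (A := 9 * η) (B := 51 * η) (h := 100 * η) (by linarith)
    (by linarith) (by linarith) (g - 1)).2
  rw [sub_add_cancel] at h1
  refine E.hol g _ h1 z ?_
  have h2 := RegBx523.norm_le_XY (c := gz (100 * η) W g) (u := ge W g) (s := z) (TilUx496.ge_norm P g)
  linarith

/-- **straight walk up in the column of a gate**, from `v` to the height `Y v + T` -/
theorem walk_y (E : En S F n m p M W A η d) {g : ℤ} {v : ℂ} (hv : v ∈ S) {T : ℝ} (hT : 0 ≤ T)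
    (hX : |X (gz (100 * η) W g) (ge W g) v| ≤ 2 * η) (hY : 0 ≤ Y (gz (100 * η) W g) (ge W g) v)
    (hY2 : Y (gz (100 * η) W g) (ge W g) v + T ≤ 30 * η) :
    ∃ w, Lk S {q | q ∈ S ∧ |X (gz (100 * η) W g) (ge W g) q -
        X (gz (100 * η) W g) (ge W g) v| ≤ d ∧
        Y (gz (100 * η) W g) (ge W g) v ≤ Y (gz (100 * η) W g) (ge W g) q ∧
        Y (gz (100 * η) W g) (ge W g) q ≤ Y (gz (100 * η) W g) (ge W g) v + T + 2 * d} v w ∧
      Y (gz (100 * η) W g) (ge W g) v + T ≤ Y (gz (100 * η) W g) (ge W g) w := by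
  have P := E.fine.fpath
  have e0 := E.e0
  have d0 := E.d0
  have de := E.de
  have hn := TilUx496.ge_norm P g
  have hne := TilUx496.ge_ne P g
  set z0 := gz (100 * η) W g with hz0
  set e := ge W g with he
  obtain ⟨w, h1, h2⟩ := Walkx336.walk_c E.gp E.h3 hne (c := Complex.I) (T := T) (by simp) hv d0 hT
    (by
      intro t ht0 ht1
      rw [hn, mul_one]
      have k1 := Walkx336.X_sub (z0 := z0) (e := e) (v + (t : ℂ) * (Complex.I * e)) v
      have k2 := Walkx336.Y_sub (z0 := z0) (e := e) (v + (t : ℂ) * (Complex.I * e)) v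
      have k3 : (v + (t : ℂ) * (Complex.I * e) - v) / e = (t : ℂ) * Complex.I := by
        field_simp
        ring
      rw [k3] at k1 k2
      simp at k1 k2
      refine hole_near E (g := g) ?_ ?_
      · rw [← hz0, ← he]
        have : X z0 e (v + (t : ℂ) * (Complex.I * e)) = X z0 e v := by linarith
        rw [this]; linarith
      · rw [← hz0, ← he, abs_le]
        constructor <;> linarith)
  refine ⟨w, h1.mono ?_, ?_⟩
  · rintro q ⟨hq, t, ht0, ht1, g1, g2⟩
    have k1 := Complex.abs_re_le_norm ((q - v) / e - (t : ℂ) * Complex.I)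
    have k2 := Complex.abs_im_le_norm ((q - v) / e - (t : ℂ) * Complex.I)
    have k3 := Walkx336.X_sub (z0 := z0) (e := e) q v
    have k4 := Walkx336.Y_sub (z0 := z0) (e := e) q v
    simp at k1 k2
    refine ⟨hq, ?_, ?_, ?_⟩
    · rw [k3]; exact k1.trans g2.le
    · have := (abs_le.1 (k2.trans g1)).1
      linarith
    · have := (abs_le.1 (k2.trans g2.le)).2
      linarith
  · have k2 := Complex.abs_im_le_norm ((w - v) / e - ((T + d : ℝ) : ℂ) * Complex.I)
    have k4 := Walkx336.Y_sub (z0 := z0) (e := e) w v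
    simp at k2 h2
    have := (abs_le.1 (k2.trans h2.le)).1
    linarith

/-- density of the fat strips -/
theorem holB (E : En S F n m p M W A η d) :
    Locx922.Hol (S : Set ℂ) (⋃ c : ℤ, RR (14 * η) (55 * η) (100 * η) W c) d := by
  have P := E.fine.fpath
  have e0 := E.e0
  have de := E.de
  intro w hw z hz
  obtain ⟨c, hc⟩ := mem_iUnion.1 hw
  have h1 := TileRx228.ball P (by linarith) hc
  have h2 := TilUx496.cen_RR (A := 9 * η) (B := 51 * η) (by linarith) (by linarith) (100 * η) W c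
  refine E.hol c _ h2 z ?_
  have h3 : ‖w - cen (100 * η) W c‖ ≤ 90 * η := by
    rw [← abs_of_pos (by linarith : (0 : ℝ) < 90 * η), ← Real.sqrt_sq_eq_abs]
    refine Real.le_sqrt_of_sq_le ?_
    rw [Complex.sq_norm, Complex.normSq_apply]
    have h4 := abs_lt.1 h1.1
    have h5 := abs_lt.1 h1.2
    nlinarith [h4.1, h4.2, h5.1, h5.2]
  have h4 : z - cen (100 * η) W c = (z - w) + (w - cen (100 * η) W c) := by ring
  rw [h4]
  have := norm_add_le (z - w) (w - cen (100 * η) W c)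
  linarith

/-! ### the outer part -/

/-- **two far sites are linked off the fat strips** -/
theorem far_lk (E : En S F n m p M W A η d) {a b : ℂ} (ha : a ∈ S) (hb : b ∈ S)
    (h1 : a ∈ Far (m * (100 * η)) (100 * η + 14 * η + d) F)
    (h2 : b ∈ Far (m * (100 * η)) (100 * η + 14 * η + d) F) :
    Lk S (Off S (14 * η) (55 * η) (100 * η) W) a b := by
  have e0 := E.e0
  have de := E.de
  have d0 := E.d0
  have hm : (10 : ℝ) ≤ m := by exact_mod_cast E.m10
  have hm' : 10 * (100 * η) ≤ m * (100 * η) := mul_le_mul_of_nonneg_right hm (by linarith)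
  exact Walkx336.lk_of_pth (out_path E.fine E.cou (by linarith) (by linarith) (by linarith)
    (by linarith) (by linarith) (sml_of_hol d0 (holB E)) E.gp E.h3 ha hb h1 h2)

/-- the column of a gate, up to a far site -/
theorem col_up (E : En S F n m p M W A η d) {g : ℤ} (hg : Strg A g) {v w0 : ℂ} (hv : v ∈ S)
    (hw0 : w0 ∈ S) (hf : w0 ∈ Far (m * (100 * η)) (100 * η + 14 * η + d) F)
    (hX : |X (gz (100 * η) W g) (ge W g) v| ≤ 2 * η)
    (hY : 19 / 2 * η ≤ Y (gz (100 * η) W g) (ge W g) v)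
    (hY2 : Y (gz (100 * η) W g) (ge W g) v ≤ 11 * η) :
    Lk S {q | q ∈ Off S (19 / 2 * η) (103 / 2 * η) (100 * η) W ∧
      (q ∈ Off S (14 * η) (55 * η) (100 * η) W ∨
        (|X (gz (100 * η) W g) (ge W g) q - X (gz (100 * η) W g) (ge W g) v| ≤ d ∧
          Y (gz (100 * η) W g) (ge W g) v ≤ Y (gz (100 * η) W g) (ge W g) q ∧
          Y (gz (100 * η) W g) (ge W g) q ≤ 30 * η))} v w0 := by
  have e0 := E.e0
  have de := E.de
  have d0 := E.d0
  have hm : (10 : ℝ) ≤ m := by exact_mod_cast E.m10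
  have hm' : 10 * (100 * η) ≤ m * (100 * η) := mul_le_mul_of_nonneg_right hm (by linarith)
  obtain ⟨w, h1, h2⟩ := walk_y E hv (T := 13 / 2 * η) (by linarith) hX (by linarith) (by linarith)
  obtain ⟨w1, w2, w3, w4⟩ := h1.1.2
  have hXw : |X (gz (100 * η) W g) (ge W g) w| ≤ 3 * η := by
    have := abs_sub_abs_le_abs_sub (X (gz (100 * η) W g) (ge W g) w)
      (X (gz (100 * η) W g) (ge W g) v)
    linarith
  obtain ⟨k, k1, k2⟩ := hg
  have h3 : w ∈ Far (m * (100 * η)) (100 * η + 14 * η + d) F :=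
    gate_far4 E.fine (by linarith) k1 k2 (by linarith) (by linarith) (by linarith)
  refine (h1.mono ?_).trans ((far_lk E w1 hw0 h3 hf).mono ?_)
  · rintro q ⟨q1, q2, q3, q4⟩
    have hXq : |X (gz (100 * η) W g) (ge W g) q| ≤ 3 * η := by
      have := abs_sub_abs_le_abs_sub (X (gz (100 * η) W g) (ge W g) q)
        (X (gz (100 * η) W g) (ge W g) v)
      linarith
    exact ⟨⟨q1, fun c => win_off E.fine e0 ⟨k, k1, k2⟩ (by linarith) (by linarith) (by linarith)
      (by linarith) hXq (by linarith) (by linarith) c⟩, Or.inr ⟨q2, q3, by linarith⟩⟩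
  · rintro q hq
    exact ⟨⟨hq.1, fun c hc => hq.2 c (RR_mono (by linarith) (by linarith) _ W c hc)⟩, Or.inl hq⟩

/-- **sites above a gate are linked to the far site off the strips** -/
theorem up_ext (E : En S F n m p M W A η d) {g : ℤ} (hg : Strg A g) {v w0 : ℂ} (hv : v ∈ S)
    (hw0 : w0 ∈ S) (hf : w0 ∈ Far (m * (100 * η)) (100 * η + 14 * η + d) F)
    (hW : v ∈ Wn η W g (2 * η) (19 / 2 * η) (11 * η)) :
    Lk S (Off S (19 / 2 * η) (103 / 2 * η) (100 * η) W) w0 v :=
  ((col_up E hg hv hw0 hf hW.1 hW.2.1 hW.2.2).mono fun _ hq => hq.1).symm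

/-- **the outer part of the curtain** (776's (C2)) -/
theorem vf (E : En S F n m p M W A η d) {gR gL : ℤ} (sR : Strg A gR) (sL : Strg A gL)
    {tR tL w0 : ℂ} (hR : tR ∈ S) (hL : tL ∈ S) (hw0 : w0 ∈ S)
    (wR : tR ∈ Wn η W gR η (10 * η) (11 * η)) (wL : tL ∈ Wn η W gL η (10 * η) (11 * η))
    (hf : w0 ∈ Far (m * (100 * η)) (100 * η + 14 * η + d) F) :
    ∃ VF : Set ℂ, Lk S VF tR tL ∧ ∀ v ∈ VF, v ∈ S ∧
      (v ∈ Off S (14 * η) (55 * η) (100 * η) W ∨ v ∈ Wn η W gR (2 * η) (10 * η) (30 * η) ∨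
        v ∈ Wn η W gL (2 * η) (10 * η) (30 * η)) ∧
      Lk S (Off S (19 / 2 * η) (103 / 2 * η) (100 * η) W) w0 v := by
  have e0 := E.e0
  have de := E.de
  have d0 := E.d0
  set O : Set ℂ := {q | q ∈ Off S (19 / 2 * η) (103 / 2 * η) (100 * η) W ∧
    (q ∈ Off S (14 * η) (55 * η) (100 * η) W ∨ q ∈ Wn η W gR (2 * η) (10 * η) (30 * η) ∨
      q ∈ Wn η W gL (2 * η) (10 * η) (30 * η))} with hO
  have key : ∀ {g : ℤ}, Strg A g → ∀ {t : ℂ}, t ∈ S → t ∈ Wn η W g η (10 * η) (11 * η) →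
      (∀ q, q ∈ Wn η W g (2 * η) (10 * η) (30 * η) → q ∈ Wn η W gR (2 * η) (10 * η) (30 * η) ∨
        q ∈ Wn η W gL (2 * η) (10 * η) (30 * η)) → Lk S O t w0 := by
    intro g hg t ht hW hsub
    refine (col_up E hg ht hw0 hf (by linarith [hW.1]) (by linarith [hW.2.1]) hW.2.2).mono ?_
    rintro q ⟨q1, q2⟩
    refine ⟨q1, q2.imp_right ?_⟩
    rintro ⟨q3, q4, q5⟩
    refine hsub q ⟨?_, by linarith [hW.2.1], q5⟩
    have := abs_sub_abs_le_abs_sub (X (gz (100 * η) W g) (ge W g) q)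
      (X (gz (100 * η) W g) (ge W g) t)
    linarith [hW.1]
  have lR := key sR hR wR fun q hq => Or.inl hq
  have lL := key sL hL wL fun q hq => Or.inr hq
  refine ⟨{q | Lk S O q w0}, (CurOx66.lk_to lR).trans (CurOx66.lk_to lL).symm, fun v hv => ?_⟩
  exact ⟨hv.1.1.1.1, hv.1.1.2, (hv.mono fun _ hq => hq.1).symm⟩

end Crest.Agent.R143.CurVx66
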