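import Crest.Agent.R143.CurH_496
import Crest.Agent.R143.CurV_66
import Crest.Agent.R143.CurK2_643

/-!
# Row 143 (S0194), RIG, LOCX: the whole closed curtain from the two vertical chains (helper496)

* **`cur_all`** : two vertical chains (`VCh`) at the separator gates `gL`, `gR` and a far site `w0`
  give the outer part `VF` (66), the inner part `VK` (643) and the closed curtain `Cur`

-/

set_option autoImplicit false

noncomputable section

open scoped Classical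

namespace Crest.Agent.R143.CurLx496

open Crest.Agent.R158.Sp896 (V)
open Crest.Agent.R143.B0x346 Crest.Agent.R143.DelRx806
open Crest.Agent.R143.Neckx921 (Lk)
open Crest.Agent.R143.Gatex838 (X Y)
open Crest.Agent.R143.Tenx416 (Pg)
open Crest.Agent.R143.TileRx228 Crest.Agent.R143.OutCx571
open Crest.Agent.R143.LocDx776 (Cur)
open Crest.Agent.R143.LocTx776 (Wn Strg En VCh)
open Crest.Agent.R143.CurGx496 (Ci Co)
open Crest.Agent.R143.CurHx496 (Sg sg_strg curtain)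

variable {S : Finset ℂ} {F : Set V} {n m M : ℕ} {p W : ℤ → V} {A : ℤ → ℤ} {η d : ℝ}
  {g gL gR j : ℤ} {w0 : ℂ}

/-- **the closed curtain from the two vertical chains** -/
theorem cur_all (E : En S F n m p M W A η d) (sL : Sg A gL) (sR : Sg A gR) (g1 : gL + 6 ≤ gR)
    (g2 : gR + 6 ≤ gL + M) {VR VL : Set ℂ} {aR bR bL aL : ℂ}
    (cR : VCh S η W gR VR aR bR) (cL : VCh S η W gL VL aL bL) (hw0 : w0 ∈ S)
    (hf : w0 ∈ Far (m * (100 * η)) (100 * η + 14 * η + d) F) :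
    ∃ VF VK : Set ℂ, Cur S (gz (100 * η) W gR) (ge W gR) (-(3 * (100 * η) / 2))
        (3 * (100 * η) / 2) VR VF VL VK (Ci (13 * η) (54 * η) (100 * η) W gL gR)
        (Co (13 * η) (54 * η) (100 * η) W M gL gR) aR bR bL aL ∧
      (∀ v ∈ VF, v ∈ S ∧
        (v ∈ LocTx776.Off S (14 * η) (55 * η) (100 * η) W ∨
          v ∈ Wn η W gR (2 * η) (10 * η) (30 * η) ∨ v ∈ Wn η W gL (2 * η) (10 * η) (30 * η)) ∧
        Lk S (LocTx776.Off S (19 / 2 * η) (103 / 2 * η) (100 * η) W) w0 v) ∧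
      ∀ v ∈ VK, v ∈ S ∧ ((∃ x ∈ Pg (m * (100 * η)) F, ‖v - x‖ < d) ∨
        v ∈ Wn η W gR (2 * η) (-(101 * η)) (-(9 * η)) ∨
        v ∈ Wn η W gL (2 * η) (-(101 * η)) (-(9 * η))) := by
  obtain ⟨VF, lF, hF⟩ := CurVx66.vf E (sg_strg sR) (sg_strg sL) (cR.sub _ cR.lk.1.2)
    (cL.sub _ cL.lk.1.2) hw0 cR.t1 cL.t1 hf
  obtain ⟨VK, lK, hK⟩ := CurKx643.vk E (show CurKx643.Stg A gR from sR)
    (show CurKx643.Stg A gL from sL) (cR.sub _ cR.lk.1.1) (cL.sub _ cL.lk.1.1) cR.s1 cL.s1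
  exact ⟨VF, VK, curtain E sL sR g1 g2 cR cL lF (fun v hv => (hF v hv).2.1) lK
    fun v hv => (hK v hv).2, hF, hK⟩

end Crest.Agent.R143.CurLx496
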