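import Crest.Agent.R143.LocT_776
import Crest.Agent.R143.CorE_133
import Crest.Agent.R143.OutP_571
import Crest.Agent.R143.CorH_713

/-!
# Row 143 (S0194), LOCX: 776's environment `En` of the curtain at a good environment of a polygon
(helper927)

* **`en_of`** : `CorEnv` + `LayU` ⟹ `LocTx776.En (SU u ε ω) (cells u.U) u.L m p M W A η d`
* `en_S` : the same for `S = SU u ε ω` (e.g. `S = sX X`); `w0_S`
* `far_hull` : the hull sites are in `Far (m * (100 η)) ρ F` for `ρ ≤ 1`; `far_hull'` : the radius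
  `100 η + 14 η + d` of 66's `vf`; `w0_of` : a site on the hull with this property
-/

set_option autoImplicit false
set_option linter.unusedVariables false

noncomputable section

open scoped Classical

namespace Crest.Agent.R143.EnCx927

open Set
open Crest.ProbabilityR.Voronoi
open Crest.Agent.R158.Sp896
open Crest.Agent.R143.B0x346
open Crest.Agent.R143.Tenx416 (Pg)
open Crest.Agent.R143.OutCx571 Crest.Agent.R143.TileRx228
open Crest.Agent.R143.Finex422 (Fine)
open Crest.Agent.R143.PolyUx346 Crest.Agent.R143.LayUx416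
open Crest.Agent.R143.CorEx133
open Crest.Agent.R143.Brkx478 (Bk cells)
open Crest.Agent.R143.Frame10x395 (OnHull)
open Crest.Agent.R143.LocTx776 (En)

variable {u : Poly} {m M : ℕ} {p W : ℤ → ℤ × ℤ} {A e : ℤ → ℤ} {ε d K1 c2 ρ0 η : ℝ} {ω : Sample}

theorem eta_pos (H : LayU u m M p W A e) (hh : (m : ℝ) * (100 * η) = u.s) : 0 < η := by
  have := H.h_pos hh
  linarith

/-- **the environment of the curtain** -/
theorem en_of (C : CorEnv u ε d K1 c2 ρ0 ω) (H : LayU u m M p W A e)
    (hh : (m : ℝ) * (100 * η) = u.s) (hd : 100 * d ≤ η) :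
    En (SU u ε ω) (cells (u.U : Set Bk)) u.L m p M W A η d where
  fine := H.fine
  con := OutPx571.F_con u
  cou := OutPx571.F_con' u
  m10 := H.m_pos
  e0 := eta_pos H hh
  d0 := C.d0
  de := hd
  gp := C.gpS
  h3 := C.card
  hol a w hw z hz := by
    obtain ⟨s, hs, h⟩ := C.hol z (fat_std H hh a w hw z hz) z (by
      rw [sub_self, norm_zero]
      have := C.d0
      linarith)
    exact ⟨s, Finset.mem_coe.1 hs, h⟩
  holP z hz := by
    have hz' : z ∈ u.P := by
      rw [OutPx571.P_eq, ← hh]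
      exact hz
    obtain ⟨s, hs, h⟩ := C.hol z (P_sub_UU u hz') z (by
      rw [sub_self, norm_zero]
      have := C.d0
      linarith)
    exact ⟨s, Finset.mem_coe.1 hs, h⟩

/-- the same for a set of sites which is equal to `SU u ε ω` -/
theorem en_S (C : CorEnv u ε d K1 c2 ρ0 ω) (H : LayU u m M p W A e)
    (hh : (m : ℝ) * (100 * η) = u.s) (hd : 100 * d ≤ η) {S : Finset ℂ} (hS : S = SU u ε ω) :
    En S (cells (u.U : Set Bk)) u.L m p M W A η d := hS ▸ en_of C H hh hd

/-- **hull sites are far from the polygon** -/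
theorem far_hull (C : CorEnv u ε d K1 c2 ρ0 ω) (hh : (m : ℝ) * (100 * η) = u.s) {ρ : ℝ}
    (hρ : ρ ≤ 1) {x : ℂ} (hx : OnHull (SU u ε ω) x) :
    x ∈ Far (m * (100 * η)) ρ (cells (u.U : Set Bk)) := by
  have h1 := C.hull_far hx
  have h2 := one_le_Rp u
  have h3 := C.d1
  rw [hh]
  intro w hw
  have h4 : ‖w‖ ≤ Rp u := P_norm u hw
  have h5 := Complex.norm_le_abs_re_add_abs_im (x - w)
  have h6 := norm_add_le (x - w) w
  rw [sub_add_cancel] at h6
  rw [Complex.sub_re, Complex.sub_im] at h5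
  have h7 := le_max_left |x.re - w.re| |x.im - w.im|
  have h8 := le_max_right |x.re - w.re| |x.im - w.im|
  unfold RU at h1
  linarith

/-- the radius of 66's `vf` -/
theorem far_hull' (C : CorEnv u ε d K1 c2 ρ0 ω) (H : LayU u m M p W A e)
    (hh : (m : ℝ) * (100 * η) = u.s) (hd : 100 * d ≤ η) {x : ℂ} (hx : OnHull (SU u ε ω) x) :
    x ∈ Far (m * (100 * η)) (100 * η + 14 * η + d) (cells (u.U : Set Bk)) := by
  refine far_hull C hh ?_ hx
  have h1 := h_le H hh
  have h2 := eta_pos H hh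
  linarith

/-- **the far site on the hull** -/
theorem w0_of (C : CorEnv u ε d K1 c2 ρ0 ω) (H : LayU u m M p W A e)
    (hh : (m : ℝ) * (100 * η) = u.s) (hd : 100 * d ≤ η) : ∃ w0 ∈ SU u ε ω,
      OnHull (SU u ε ω) w0 ∧
        w0 ∈ Far (m * (100 * η)) (100 * η + 14 * η + d) (cells (u.U : Set Bk)) := by
  obtain ⟨x, y, hxy⟩ := DelRx806.exists_hull C.gpS C.card
  exact ⟨y, RcTx422.hull_mem ⟨x, hxy⟩, ⟨x, hxy⟩, far_hull' C H hh hd ⟨x, hxy⟩⟩

theorem w0_S (C : CorEnv u ε d K1 c2 ρ0 ω) (H : LayU u m M p W A e)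
    (hh : (m : ℝ) * (100 * η) = u.s) (hd : 100 * d ≤ η) {S : Finset ℂ} (hS : S = SU u ε ω) :
    ∃ w0 ∈ S, OnHull S w0 ∧
      w0 ∈ Far (m * (100 * η)) (100 * η + 14 * η + d) (cells (u.U : Set Bk)) := by
  subst hS
  exact w0_of C H hh hd

end Crest.Agent.R143.EnCx927
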