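import Crest.Agent.R143.Part_778

/-!
# Row 143: locality of a block, dead explored cells, stopping sets (helper778; note 3363, W-MIX)

* `Ad`, `Rch M W A` : the cells joined to `A` by adjacencies avoiding `W`;
* `walk_loc`, `blk_loc` : **LOCALITY**: colours `1` = black (left), `0` = white (right). If `χ = χ'`
  on `Rch M W A ∪ W` and `χ = 0` on `W`, then the walk from a state with left cell in `Rch`, the gaps
  of its loop and the block of such a gap are the same for `χ` and `χ'`;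
* `sum_dead` : prescribed colours on cells which are not seen do not matter;
* `mean_dead`, `card_dead` : **mean over the fresh colours, with dead explored cells** (166's
  `Expl.mean` / `Expl.card` with a set `Dd` of dead explored cells outside `Rch`);
* `StopSet.union`, `stop_walk`, `stop_cl` : stopping sets of walks and of cluster explorations.
-/

set_option autoImplicit false
set_option linter.unusedSectionVars false

noncomputable section

open scoped Classical

namespace Crest.Agent.R143.Reachx778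

open Crest.Agent.R143.Frame1x395 Crest.Agent.R143.Frame2x395 Crest.Agent.R143.Frame3x395
  Crest.Agent.R143.Frame4x395 Crest.Agent.R143.Frame8x395 Crest.Agent.R143.NonXx592
  Crest.Agent.R143.Coarsex166 Crest.Agent.R143.Giantx46 Crest.Agent.R143.Resax778
  Crest.Agent.R143.Partx778

section loc

variable {D C : Type} [Fintype D] {M : CMap D C}

/-- adjacent cells -/
def Ad (M : CMap D C) (u v : C) : Prop :=
  ∃ d, (M.cell d = u ∧ M.cell (M.rho d) = v) ∨ (M.cell d = v ∧ M.cell (M.rho d) = u)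

theorem Ad.symm {u v : C} (h : Ad M u v) : Ad M v u := by
  obtain ⟨d, h1 | h1⟩ := h
  · exact ⟨d, Or.inr h1⟩
  · exact ⟨d, Or.inl h1⟩

/-- cells joined to `A` avoiding `W` -/
def Rch (M : CMap D C) (W A : Set C) : Set C :=
  {c | ∃ a ∈ A, Relation.ReflTransGen (fun u v => v ∉ W ∧ Ad M u v) a c}

variable {W A : Set C} {χ χ' : C → ZMod 2}

theorem rch_self {a : C} (h : a ∈ A) : a ∈ Rch M W A := ⟨a, h, Relation.ReflTransGen.refl⟩

theorem rch_step {u v : C} (hu : u ∈ Rch M W A) (h : Ad M u v) (hv : v ∉ W) :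
    v ∈ Rch M W A := by
  obtain ⟨a, ha, hr⟩ := hu
  exact ⟨a, ha, hr.tail ⟨hv, h⟩⟩

theorem rch_or {u v : C} (hu : u ∈ Rch M W A) (h : Ad M u v) : v ∈ Rch M W A ∪ W := by
  by_cases hv : v ∈ W
  · exact Or.inr hv
  · exact Or.inl (rch_step hu h hv)

/-- a good state: black left cell in `Rch`, white right cell -/
structure GS (M : CMap D C) (W A : Set C) (χ : C → ZMod 2) (p : D) : Prop where
  l : χ (M.cell p) = 1
  r : χ (M.cell (M.rho p)) = 0
  m : M.cell p ∈ Rch M W A

theorem GS.occ {p : D} (h : GS M W A χ p) : cfg M χ p = 1 := by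
  unfold cfg
  rw [h.l, h.r]; rfl

theorem GS.third {p : D} (h : GS M W A χ p) : M.cell (M.rho (M.rho p)) ∈ Rch M W A ∪ W :=
  rch_or h.m ⟨M.rho (M.rho p), Or.inr ⟨rfl, by rw [M.rho3]⟩⟩

theorem GS.right {p : D} (h : GS M W A χ p) : M.cell (M.rho p) ∈ Rch M W A ∪ W :=
  rch_or h.m ⟨p, Or.inl ⟨rfl, rfl⟩⟩

theorem GS.congr {p : D} (h : GS M W A χ p) (e : ∀ c ∈ Rch M W A ∪ W, χ' c = χ c) :
    GS M W A χ' p :=
  ⟨by rw [e _ (Or.inl h.m), h.l], by rw [e _ h.right, h.r], h.m⟩

/-- the three sides of the face of a good state -/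
theorem GS.face {p : D} (h : GS M W A χ p) (e : ∀ c ∈ Rch M W A ∪ W, χ' c = χ c) :
    cfg M χ' p = cfg M χ p ∧ cfg M χ' (M.rho p) = cfg M χ (M.rho p) ∧
      cfg M χ' (M.rho (M.rho p)) = cfg M χ (M.rho (M.rho p)) := by
  have e1 := e _ (Or.inl h.m)
  have e2 := e _ h.right
  have e3 := e _ h.third
  unfold cfg
  refine ⟨by rw [e1, e2], by rw [e2, e3], ?_⟩
  rw [M.rho3, e3, e1]

theorem GS.stp_eq {p : D} (h : GS M W A χ p) (e : ∀ c ∈ Rch M W A ∪ W, χ' c = χ c) :
    stp M (cfg M χ') p = stp M (cfg M χ) p := by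
  unfold stp
  rw [(h.face e).2.1]

theorem GS.step {p : D} (hW : ∀ c ∈ W, χ c = 0) (h : GS M W A χ p) :
    GS M W A χ (stp M (cfg M χ) p) := by
  have hx := cfg_isC (M := M) χ
  rcases stp_cases hx h.occ (Set.notMem_empty _) with ⟨h1, h2, e⟩ | ⟨h1, h2, e⟩
  · have hl := hx.lv h1
    have c3 : χ (M.cell (M.rho (M.rho p))) = 1 := by
      unfold cfg at h1
      rw [h.r, zero_add] at h1
      exact h1
    rw [e]
    refine ⟨?_, ?_, ?_⟩
    · rw [M.cell_iota _ hl]; exact c3
    · rw [cell_rho_iota M hl]; exact h.r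
    · rw [M.cell_iota _ hl]
      refine rch_step h.m ⟨M.rho (M.rho p), Or.inr ⟨rfl, by rw [M.rho3]⟩⟩ fun hw => ?_
      rw [hW _ hw] at c3
      exact absurd c3 (by decide)
  · have hl := hx.lv h2
    have c3 : χ (M.cell (M.rho (M.rho p))) = 0 := by
      unfold cfg at h1
      rw [h.r, zero_add] at h1
      exact h1
    rw [e]
    refine ⟨?_, ?_, ?_⟩
    · rw [M.cell_iota _ hl, M.rho3]; exact h.l
    · rw [cell_rho_iota M hl]; exact c3
    · rw [M.cell_iota _ hl, M.rho3]; exact h.m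

/-- **the walk is local** -/
theorem walk_loc {p : D} (hW : ∀ c ∈ W, χ c = 0) (h : GS M W A χ p)
    (e : ∀ c ∈ Rch M W A ∪ W, χ' c = χ c) (n : ℕ) :
    P M (cfg M χ') p n = P M (cfg M χ) p n ∧ GS M W A χ (P M (cfg M χ) p n) := by
  induction n with
  | zero => exact ⟨rfl, h⟩
  | succ n ih =>
    rw [P_succ, P_succ, ih.1]
    exact ⟨ih.2.stp_eq e, ih.2.step hW⟩

/-- the state before a gap and the state after it -/
theorem gs_out {g : D} (hW : ∀ c ∈ W, χ c = 0) (hg : Gp M (cfg M χ) g)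
    (h : GS M W A χ (M.rho g)) : GS M W A χ (out M g) := by
  rw [← hg.stp (cfg_isC χ)]
  exact h.step hW

theorem gp_loc {g : D} (hg : Gp M (cfg M χ) g) (h : GS M W A χ (M.rho g))
    (e : ∀ c ∈ Rch M W A ∪ W, χ' c = χ c) : Gp M (cfg M χ') g := by
  have f := h.face e
  rw [M.rho3] at f
  exact ⟨by rw [f.2.2]; exact hg.1, by rw [f.1]; exact hg.2⟩

theorem on_loop {x : D → ZMod 2} (hx : IsC M ∅ x) {g h : D} (hg : Gp M x g) (hh : Gp M x h)
    (R : Rel M x g h) : ∃ n, P M x (out M g) n = M.rho h := by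
  rcases R (M.cell g) with e | ⟨n, e, -⟩ | ⟨n, e, -⟩
  · subst e
    obtain ⟨N, N0, per, -, last⟩ := exists_period hx hg
    exact ⟨N - 1, last.symm⟩
  · exact ⟨n, e⟩
  · exact come_back hx hh hg e

theorem blk_sub {g : D} (hW : ∀ c ∈ W, χ c = 0) (hg : Gp M (cfg M χ) g)
    (h : GS M W A χ (M.rho g)) (e : ∀ c ∈ Rch M W A ∪ W, χ' c = χ c) :
    blk M (cfg M χ) g ⊆ blk M (cfg M χ') g := by
  intro k hk
  obtain ⟨hk1, hk2⟩ := mem_blk.1 hk
  have go := gs_out hW hg h
  obtain ⟨n, hn⟩ := on_loop (cfg_isC χ) hg hk1 hk2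
  have gk : GS M W A χ (M.rho k) := by
    rw [← hn]; exact (walk_loc hW go e n).2
  refine mem_blk.2 ⟨gp_loc hk1 gk e, fun c => ?_⟩
  have tr : ∀ {p q : D}, GS M W A χ p → Av M (cfg M χ) c p q → Av M (cfg M χ') c p q := by
    rintro p q hp ⟨m, h1, h2⟩
    refine ⟨m, ?_, fun k hk => ?_⟩
    · rw [← h1]; exact (walk_loc hW hp e m).1
    · have h3 := (walk_loc hW hp e k).1
      intro h4
      refine h2 k hk ?_
      rw [← h4]
      exact congrArg M.cell h3.symm
  rcases hk2 c with h1 | h1 | h1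
  · exact Or.inl h1
  · exact Or.inr (Or.inl (tr go h1))
  · exact Or.inr (Or.inr (tr (gs_out hW hk1 gk) h1))

/-- **the block is local** -/
theorem blk_loc {g : D} (hW : ∀ c ∈ W, χ c = 0) (hg : Gp M (cfg M χ) g)
    (h : GS M W A χ (M.rho g)) (e : ∀ c ∈ Rch M W A ∪ W, χ' c = χ c) :
    blk M (cfg M χ') g = blk M (cfg M χ) g := by
  refine subset_antisymm ?_ (blk_sub hW hg h e)
  refine blk_sub (fun c hc => by rw [e c (Or.inr hc), hW c hc]) (gp_loc hg h e) (h.congr e)
    fun c hc => (e c hc).symm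

end loc

/-! ### dead explored cells -/

section dead

variable {C : Type} [Fintype C]

/-- cells which are not seen -/
theorem sum_dead {E Dd : Finset C} (hd : Disjoint E Dd) {v : C → ZMod 2} {F : (C → ZMod 2) → ℂ}
    (hF : ∀ χ χ' : C → ZMod 2, χ ∈ pre E v → (∀ c, c ∉ Dd → χ' c = χ c) → F χ' = F χ) :
    (2 : ℂ) ^ Dd.card * ∑ χ ∈ pre (E ∪ Dd) v, F χ = ∑ χ ∈ pre E v, F χ := by
  have h1 := sum_glue E v F
  have h2 := sum_glue (E ∪ Dd) v F
  have h3 : ∑ τ, F (glue E v τ) = ∑ τ, F (glue (E ∪ Dd) v τ) := by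
    refine Finset.sum_congr rfl fun τ _ => ?_
    symm
    refine hF _ _ (Finset.mem_filter.2 ⟨Finset.mem_univ _, fun c hc => glue_on hc⟩) fun c hc => ?_
    by_cases hE : c ∈ E
    · rw [glue_on hE, glue_on (Finset.mem_union_left _ hE)]
    · rw [glue_off hE, glue_off fun h => (Finset.mem_union.1 h).elim hE hc]
  rw [h3, h2, Finset.card_union_of_disjoint hd, nsmul_eq_mul, nsmul_eq_mul, pow_add] at h1
  push_cast at h1
  have h4 : (2 : ℂ) ^ E.card ≠ 0 := pow_ne_zero _ two_ne_zero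
  refine mul_left_cancel₀ h4 ?_
  rw [← mul_assoc]
  exact h1

end dead

section mean

variable {D C C' : Type} [Fintype D] [Fintype C] [Fintype C'] {M : CMap D C} {π : C → C'}
  {hπ : ClsCon M π}

theorem expl_lift {E : Finset C} {χ₀ χ : C → ZMod 2} {A B W : C'}
    (H : Expl π (E : Set C) χ₀ A B W) (hE : ∀ c ∈ E, χ c = χ₀ c) :
    ∃ ψ : C' → ZMod 2, (fun c => ψ (π c)) = χ := by
  have key : ∀ c c', π c = π c' → χ c = χ c' := by
    intro c c' e
    by_cases h1 : c ∈ E
    · by_cases h2 : c' ∈ E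
      · rw [hE c h1, hE c' h2]
        rcases H.gi c h1 with h3 | h3 | h3
        · rw [H.cA c h1 h3, H.cA c' h2 (e ▸ h3)]
        · rw [H.cB c h1 h3, H.cB c' h2 (e ▸ h3)]
        · rw [H.cW c h1 h3, H.cW c' h2 (e ▸ h3)]
      · rw [H.inj c' c (by simpa using h2) e.symm]
    · rw [H.inj c c' (by simpa using h1) e]
  refine ⟨fun c' => χ ((H.surj c').choose), funext fun c => ?_⟩
  exact key _ _ (H.surj (π c)).choose_spec

/-- the root block of the coarse map does not see the dead cells -/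
theorem root_loc {E Dd : Finset C} (hd : Disjoint E Dd) {χ₀ : C → ZMod 2} {g₀ : D}
    (H : Expl π (E : Set C) χ₀ (π (M.cell g₀)) (π (M.cell (M.rho g₀)))
      (π (M.cell (M.rho (M.rho g₀)))))
    (hDd : ∀ c ∈ Dd, π c ∉ Rch (coarse M π hπ) {π (M.cell (M.rho (M.rho g₀)))}
      {π (M.cell (M.rho g₀))} ∧ π c ≠ π (M.cell (M.rho (M.rho g₀))))
    {χ χ' : C → ZMod 2} (hE : ∀ c ∈ E, χ c = χ₀ c) (e : ∀ c, c ∉ Dd → χ' c = χ c) :
    blk (coarse M π hπ) (cfg M χ') g₀ = blk (coarse M π hπ) (cfg M χ) g₀ := by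
  have hE' : ∀ c ∈ E, χ' c = χ₀ c := fun c hc => by
    rw [e c (Finset.disjoint_left.1 hd hc), hE c hc]
  obtain ⟨ψ, hψ⟩ := expl_lift H hE
  obtain ⟨ψ', hψ'⟩ := expl_lift H hE'
  have cA : ψ (π (M.cell g₀)) = 1 := by
    obtain ⟨c, h1, h2⟩ := H.A1
    rw [← h2, show ψ (π c) = χ c from congrFun hψ c, hE c h1, H.cA c h1 h2]
  have cB : ψ (π (M.cell (M.rho g₀))) = 1 := by
    obtain ⟨c, h1, h2⟩ := H.B1
    rw [← h2, show ψ (π c) = χ c from congrFun hψ c, hE c h1, H.cB c h1 h2]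
  have cW : ψ (π (M.cell (M.rho (M.rho g₀)))) = 0 := by
    obtain ⟨c, h1, h2⟩ := H.W1
    rw [← h2, show ψ (π c) = χ c from congrFun hψ c, hE c h1, H.cW c h1 h2]
  have e1 : cfg M χ = cfg (coarse M π hπ) ψ := by rw [← hψ, cfg_coarse]
  have e2 : cfg M χ' = cfg (coarse M π hπ) ψ' := by rw [← hψ', cfg_coarse]
  rw [e1, e2]
  refine blk_loc (W := {π (M.cell (M.rho (M.rho g₀)))}) (A := {π (M.cell (M.rho g₀))}) ?_ ?_ ?_ ?_
  · rintro c rfl
    exact cW
  · constructor
    · show ψ (π (M.cell g₀)) + ψ (π (M.cell (M.rho g₀))) = 0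
      rw [cA, cB]; rfl
    · show ψ (π (M.cell (M.rho g₀))) + ψ (π (M.cell (M.rho (M.rho g₀)))) = 1
      rw [cB, cW]; rfl
  · exact ⟨cB, cW, rch_self rfl⟩
  · intro c' hc'
    obtain ⟨c, rfl⟩ := H.surj c'
    rw [show ψ' (π c) = χ' c from congrFun hψ' c, show ψ (π c) = χ c from congrFun hψ c]
    refine e c fun hc => ?_
    rcases hc' with h | h
    · exact (hDd c hc).1 h
    · exact (hDd c hc).2 h

/-- **mean of the root block over the fresh colours, with dead explored cells** -/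
theorem mean_dead {E Dd : Finset C} (hd : Disjoint E Dd) {χ₀ : C → ZMod 2} {g₀ : D}
    (H : Expl π (E : Set C) χ₀ (π (M.cell g₀)) (π (M.cell (M.rho g₀)))
      (π (M.cell (M.rho (M.rho g₀)))))
    (hDd : ∀ c ∈ Dd, π c ∉ Rch (coarse M π hπ) {π (M.cell (M.rho (M.rho g₀)))}
      {π (M.cell (M.rho g₀))} ∧ π c ≠ π (M.cell (M.rho (M.rho g₀))))
    (a : D → ℂ) :
    (2 : ℂ) ^ (Dd.card + 1) * ∑ χ ∈ pre (E ∪ Dd) χ₀,
        ∑ h ∈ (blk (coarse M π hπ) (cfg M χ) g₀).erase g₀, a h =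
      nK (coarse M π hπ) * Wt (coarse M π hπ) g₀ a := by
  have h1 : 2 * ∑ χ ∈ pre E χ₀, ∑ h ∈ (blk (coarse M π hπ) (cfg M χ) g₀).erase g₀, a h =
      nK (coarse M π hπ) * Wt (coarse M π hπ) g₀ a := by
    rw [← H.mean (hπ := hπ) a]
    congr 1
    unfold pre
    rw [Finset.sum_filter]
    refine Finset.sum_congr rfl fun χ _ => ?_
    by_cases h : ∀ c ∈ E, χ c = χ₀ c
    · rw [if_pos h, if_pos (fun c hc => h c (Finset.mem_coe.1 hc))]
    · rw [if_neg h, if_neg (fun h' => h fun c hc => h' c (Finset.mem_coe.2 hc))]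
  rw [← h1, pow_succ, mul_comm ((2 : ℂ) ^ Dd.card) 2, mul_assoc]
  congr 1
  refine sum_dead hd ?_
  intro χ χ' hχ e
  rw [root_loc hd H hDd (Finset.mem_filter.1 hχ).2 e]

/-- number of the colourings, with dead explored cells -/
theorem card_dead {E Dd : Finset C} (hd : Disjoint E Dd) {χ₀ : C → ZMod 2} {g₀ : D}
    (H : Expl π (E : Set C) χ₀ (π (M.cell g₀)) (π (M.cell (M.rho g₀)))
      (π (M.cell (M.rho (M.rho g₀))))) :
    2 ^ (Dd.card + 1) * (pre (E ∪ Dd) χ₀).card =
      nK (coarse M π hπ) * nG (coarse M π hπ) g₀ := by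
  have h1 : 2 * (pre E χ₀).card = nK (coarse M π hπ) * nG (coarse M π hπ) g₀ := by
    rw [← H.card (hπ := hπ)]
    congr 2
    ext χ
    unfold pre
    simp
  rw [← h1]
  have h3 := card_pre (E ∪ Dd) χ₀
  have h4 := card_pre E χ₀
  rw [Finset.card_union_of_disjoint hd, pow_add, ← h4, mul_assoc] at h3
  have h5 := Nat.eq_of_mul_eq_mul_left (pow_pos (by norm_num) _) h3
  rw [pow_succ, mul_comm (2 ^ Dd.card) 2, mul_assoc, h5]

end mean

/-! ### stopping sets -/

section stop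

variable {S B : Type*} [Fintype S] [Fintype B]

theorem _root_.Crest.Agent.R143.Resax778.StopSet.union {O O' : (S → B) → Finset S}
    (h : StopSet O) (h' : StopSet O') : StopSet fun σ => O σ ∪ O' σ := by
  intro σ τ e
  show O τ ∪ O' τ = O σ ∪ O' σ
  rw [h σ τ fun s hs => e s (Finset.mem_union_left _ hs),
    h' σ τ fun s hs => e s (Finset.mem_union_right _ hs)]

/-- second stage: `O'` depends on the first stage; it is enough to compare configurations which
coincide on the cells revealed in the first stage -/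
theorem stop_two {O O' : (S → B) → Finset S} (h : StopSet O)
    (h' : ∀ σ τ, (∀ s ∈ O σ, τ s = σ s) → (∀ s ∈ O' σ, τ s = σ s) → O' τ = O' σ) :
    StopSet fun σ => O σ ∪ O' σ := by
  intro σ τ e
  have e1 : ∀ s ∈ O σ, τ s = σ s := fun s hs => e s (Finset.mem_union_left _ hs)
  show O τ ∪ O' τ = O σ ∪ O' σ
  rw [h σ τ e1, h' σ τ e1 fun s hs => e s (Finset.mem_union_right _ hs)]

/-- exploration of the clusters of the seeds `A` with the colours in `K`, inside `V`: revealed
cells = seeds, cells of the clusters and their neighbours (in `V`) -/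
def cl (nb : S → S → Prop) (V : Finset S) (A : Finset S) (κ : B) (σ : S → B) : Finset S :=
  Finset.univ.filter fun s => s ∈ A ∨ (s ∈ V ∧ ∃ a ∈ A, ∃ b, σ a = κ ∧
    Relation.ReflTransGen (fun u v => nb u v ∧ v ∈ V ∧ σ v = κ) a b ∧ nb b s)

theorem stop_cl (nb : S → S → Prop) (V A : Finset S) (κ : B) :
    StopSet (cl nb V A κ : (S → B) → Finset S) := by
  have key : ∀ σ τ : S → B, (∀ s ∈ cl nb V A κ σ, τ s = σ s) → ∀ a ∈ A, σ a = κ → ∀ b,
      Relation.ReflTransGen (fun u v => nb u v ∧ v ∈ V ∧ σ v = κ) a b →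
      Relation.ReflTransGen (fun u v => nb u v ∧ v ∈ V ∧ τ v = κ) a b := by
    intro σ τ e a ha hk b h
    induction h with
    | refl => exact Relation.ReflTransGen.refl
    | @tail u v h1 h2 ih =>
      refine ih.tail ⟨h2.1, h2.2.1, ?_⟩
      rw [e v (Finset.mem_filter.2 ⟨Finset.mem_univ _, Or.inr ⟨h2.2.1, a, ha, u, hk, h1, h2.1⟩⟩)]
      exact h2.2.2
  have key' : ∀ σ τ : S → B, (∀ s ∈ cl nb V A κ σ, τ s = σ s) → ∀ a ∈ A, τ a = κ → ∀ b,
      Relation.ReflTransGen (fun u v => nb u v ∧ v ∈ V ∧ τ v = κ) a b →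
      Relation.ReflTransGen (fun u v => nb u v ∧ v ∈ V ∧ σ v = κ) a b := by
    intro σ τ e a ha hk b h
    have hk' : σ a = κ := by
      rw [← e a (Finset.mem_filter.2 ⟨Finset.mem_univ _, Or.inl ha⟩)]; exact hk
    induction h with
    | refl => exact Relation.ReflTransGen.refl
    | @tail u v h1 h2 ih =>
      refine ih.tail ⟨h2.1, h2.2.1, ?_⟩
      rw [← e v (Finset.mem_filter.2 ⟨Finset.mem_univ _,
        Or.inr ⟨h2.2.1, a, ha, u, hk', ih, h2.1⟩⟩)]
      exact h2.2.2
  intro σ τ e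
  have ea : ∀ a ∈ A, τ a = σ a := fun a ha =>
    e a (Finset.mem_filter.2 ⟨Finset.mem_univ _, Or.inl ha⟩)
  ext s
  unfold cl
  rw [Finset.mem_filter, Finset.mem_filter]
  refine and_congr_right fun _ => or_congr_right (and_congr_right fun _ => ?_)
  constructor
  · rintro ⟨a, ha, b, hk, h1, h2⟩
    exact ⟨a, ha, b, by rw [← ea a ha]; exact hk, key' σ τ e a ha hk b h1, h2⟩
  · rintro ⟨a, ha, b, hk, h1, h2⟩
    exact ⟨a, ha, b, by rw [ea a ha]; exact hk, key σ τ e a ha hk b h1, h2⟩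

end stop

section walk

variable {D C : Type} [Fintype D] [Fintype C] {M : CMap D C}

/-- the walk from `p`, stopped at the first entrance in `T` (or after `m` steps) -/
def wn (M : CMap D C) (T : Set D) (m : ℕ) (p : D) (χ : C → ZMod 2) : ℕ :=
  if h : ∃ n, n ≤ m ∧ P M (cfg M χ) p n ∈ T then Nat.find h else m

/-- its revealed cells -/
def wc (M : CMap D C) (T : Set D) (m : ℕ) (p : D) (χ : C → ZMod 2) : Finset C :=
  Finset.univ.filter fun c => ∃ n ≤ wn M T m p χ, M.cell (P M (cfg M χ) p n) = c ∨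
    M.cell (M.rho (P M (cfg M χ) p n)) = c

theorem wn_not {T : Set D} {m : ℕ} {p : D} {χ : C → ZMod 2} {n : ℕ} (hn : n < wn M T m p χ) :
    P M (cfg M χ) p n ∉ T := by
  unfold wn at hn
  split_ifs at hn with h
  · intro hT
    have h2 := Nat.find_spec h
    exact Nat.find_min h hn ⟨by omega, hT⟩
  · intro hT
    exact h ⟨n, hn.le, hT⟩

theorem wn_eq {T : Set D} {m : ℕ} {p : D} {χ : C → ZMod 2} {n : ℕ} (hn : n ≤ m)
    (h1 : ∀ k < n, P M (cfg M χ) p k ∉ T) (h2 : n = m ∨ P M (cfg M χ) p n ∈ T) :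
    wn M T m p χ = n := by
  unfold wn
  split_ifs with h
  · refine (Nat.find_eq_iff h).2 ⟨?_, fun k hk => ?_⟩
    · rcases h2 with rfl | h2
      · obtain ⟨k, hk1, hk2⟩ := h
        rcases hk1.lt_or_eq with h3 | rfl
        · exact absurd hk2 (h1 k h3)
        · exact ⟨le_rfl, hk2⟩
      · exact ⟨hn, h2⟩
    · rintro ⟨-, h3⟩
      exact h1 k hk h3
  · rcases h2 with rfl | h2
    · rfl
    · exact absurd ⟨n, hn, h2⟩ h

theorem wn_spec {T : Set D} {m : ℕ} {p : D} {χ : C → ZMod 2} :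
    wn M T m p χ ≤ m ∧ (wn M T m p χ = m ∨ P M (cfg M χ) p (wn M T m p χ) ∈ T) := by
  unfold wn
  split_ifs with h
  · exact ⟨(Nat.find_spec h).1, Or.inr (Nat.find_spec h).2⟩
  · exact ⟨le_rfl, Or.inl rfl⟩

/-- the walk only looks at its revealed cells -/
theorem walk_congr {T : Set D} {m : ℕ} {p : D} {χ χ' : C → ZMod 2}
    (e : ∀ c ∈ wc M T m p χ, χ' c = χ c) {n : ℕ} (hn : n ≤ wn M T m p χ) :
    P M (cfg M χ') p n = P M (cfg M χ) p n := by
  induction n with
  | zero => rfl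
  | succ n ih =>
    have ih' := ih (by omega)
    rw [P_succ, P_succ, ih']
    -- the third cell of the face is revealed in the next state
    set q := P M (cfg M χ) p n with hq
    have r1 : χ' (M.cell (M.rho q)) = χ (M.cell (M.rho q)) :=
      e _ (Finset.mem_filter.2 ⟨Finset.mem_univ _, n, by omega, Or.inr rfl⟩)
    have hnext : P M (cfg M χ) p (n + 1) = stp M (cfg M χ) q := P_succ _ _
    have r2 : χ' (M.cell (M.rho (M.rho q))) = χ (M.cell (M.rho (M.rho q))) ∨
        (cfg M χ (M.rho q) = 1 ∧ M.rho q ∉ M.live) ∨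
        (cfg M χ (M.rho q) ≠ 1 ∧ M.rho (M.rho q) ∉ M.live) := by
      by_cases h1 : cfg M χ (M.rho q) = 1
      · by_cases hl : M.rho q ∈ M.live
        · left
          refine e _ (Finset.mem_filter.2 ⟨Finset.mem_univ _, n + 1, hn, Or.inl ?_⟩)
          rw [hnext]
          unfold stp
          rw [if_pos h1, M.cell_iota _ hl]
        · exact Or.inr (Or.inl ⟨h1, hl⟩)
      · by_cases hl : M.rho (M.rho q) ∈ M.live
        · left
          refine e _ (Finset.mem_filter.2 ⟨Finset.mem_univ _, n + 1, hn, Or.inr ?_⟩)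
          rw [hnext]
          unfold stp
          rw [if_neg h1, cell_rho_iota M hl]
        · exact Or.inr (Or.inr ⟨h1, hl⟩)
    unfold stp
    have dd : ∀ d, d ∉ M.live → cfg M χ d = 0 ∧ cfg M χ' d = 0 := by
      intro d hd
      unfold cfg
      rw [← M.dead d hd, z_self, z_self]
      exact ⟨rfl, rfl⟩
    rcases r2 with r2 | ⟨h1, h2⟩ | ⟨h1, h2⟩
    · have : cfg M χ' (M.rho q) = cfg M χ (M.rho q) := by
        unfold cfg
        rw [r1, r2]
      rw [this]
    · rw [(dd _ h2).1] at h1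
      exact absurd h1 (by decide)
    · -- the third side is dead: the third cell is the left cell
      have e3 : M.cell (M.rho (M.rho q)) = M.cell q := by
        rw [M.dead _ h2, M.rho3]
      have r3 : χ' (M.cell q) = χ (M.cell q) :=
        e _ (Finset.mem_filter.2 ⟨Finset.mem_univ _, n, by omega, Or.inl rfl⟩)
      have : cfg M χ' (M.rho q) = cfg M χ (M.rho q) := by
        unfold cfg
        rw [r1, e3, r3]
      rw [this]

/-- **the revealed cells of a stopped walk form a stopping set** -/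
theorem stop_walk (T : Set D) (m : ℕ) (p : D) :
    StopSet (wc M T m p : (C → ZMod 2) → Finset C) := by
  intro χ χ' e
  have h1 : ∀ n ≤ wn M T m p χ, P M (cfg M χ') p n = P M (cfg M χ) p n := fun n hn =>
    walk_congr e hn
  have h2 : wn M T m p χ' = wn M T m p χ := by
    refine wn_eq wn_spec.1 (fun k hk => ?_) ?_
    · rw [h1 k hk.le]; exact wn_not hk
    · rw [h1 _ le_rfl]; exact wn_spec.2
  ext c
  unfold wc
  rw [Finset.mem_filter, Finset.mem_filter, h2]
  refine and_congr_right fun _ => exists_congr fun n => and_congr_right fun hn => ?_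
  rw [h1 n hn]

end walk

end Crest.Agent.R143.Reachx778
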