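import Crest.Agent.R143.R5b_166
import Crest.Agent.R143.Spl2_117
import Crest.Agent.R143.Reach_778
import Crest.Agent.R143.C2SB_395

/-!
# Row 143 (S0194), RIG box R5 (helper166): the quenched closing theorem in 311's EXT form

`σ` a colouring, `p` the first state, `n` the number of the revealed steps, `r < n` the time of a
block gap of the revealed arc, `W` the third giant (connected; its cells which have a neighbour
outside are white; the other cells of `W` have any colour), `E` = left cells of the arc and `W`.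

* `arc_of`, `ink_of`, `outer_sum` : 117's language (every block gap of the arc is a root gap)
* `Ex` : the hypotheses on `σ`; `EE` : the revealed cells
* `Ex.walk`, `Ex.gp_eq`, `Ex.ink`, `Ex.arc` : for every `μ = σ` on `EE` : same states, gaps and block
  gaps at the times `≤ n`, period `per`, `Arc`
* `r0 W μ` : recoloured (white on `W`); `Ex.P0`, `Ex.blk0` : same loop, same root block
* `AA` : the three giants `A (i+1) = LA`, `A i = LB`, `A (i+2) = W` in 395's language; `Ex.gi`,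
  `Ex.root`, `cls_of`, `Ex.colA`, `Ex.rc`, `Ex.rc0`, `Ex.pin`, `Ex.bdAd`, `Ex.not_free`
* `Ex.close` : **closing**, for every `μ = σ` on `EE`, any contraction `π` of the giants;
  `Ex.ends` : the end cells of the coarse block are the touched cells
-/

set_option autoImplicit false
set_option linter.unusedSectionVars false

noncomputable section

open scoped Classical

namespace Crest.Agent.R143.R5qx166

open Crest.Agent.R143.Frame1x395 Crest.Agent.R143.Frame2x395 Crest.Agent.R143.Frame3x395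
  Crest.Agent.R143.Frame4x395 Crest.Agent.R143.Frame8x395 Crest.Agent.R143.Frame9x395
  Crest.Agent.R143.NonXx592 Crest.Agent.R143.Coarsex166 Crest.Agent.R143.Coarse2x166
  Crest.Agent.R143.Flipx166 Crest.Agent.R143.R5bx166 Crest.Agent.R143.Resax778

open Splx117 (Lp InK gp)
open Reachx778 (Rch GS Ad walk_loc blk_loc gp_loc rch_self)
open C2SBx395 (Cq Root Free Rc Pin)
open K33x137 (Cn Lk Ed)

variable {D C : Type} {M : CMap D C} {σ μ : C → ZMod 2} {x : D → ZMod 2} {p : D} {N n r : ℕ}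
  {W : Set C}

/-! ### the language of 117 -/

theorem loop_of (L : Lp M x p N) : Loop M x p N := ⟨L.even, L.occ, L.per, fun a b h1 h2 =>
  L.inj a b h1 h2⟩

theorem lp_of (L : Loop M x p N) (h : 0 < N) : Lp M x p N := ⟨L.c, L.occ, h, L.per, fun a b h1 h2 =>
  L.inj a b h1 h2⟩

/-- **every gap of the block path of the arc is a root gap** -/
theorem arc_of (L : Lp M x p N) (hn : n < N) (k : InK M x p 0 n r) :
    Arc M x p N n r (gp M x p r) :=
  ⟨loop_of L, k.hi, hn, L.gap k.gap, Splx117.rho_gp r, fun u h1 h2 v h3 e =>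
    k.sep v u (Nat.zero_le _) h3 h1 h2 e.symm⟩

theorem ink_of {g₀ : D} (T : Arc M x p N n r g₀) : InK M x p 0 n r := by
  refine ⟨Nat.zero_le _, T.rn, ?_, fun j l _ h1 h2 h3 e => T.cut l h2 h3 j h1 e.symm⟩
  have e : gp M x p r = g₀ := by
    unfold Splx117.gp
    rw [show (stp M x)^[r] p = M.rho g₀ from T.rg.symm, M.rho3]
  rw [e]
  exact T.gp.1

theorem gp_eq_of {g₀ : D} (T : Arc M x p N n r g₀) : g₀ = gp M x p r := by
  unfold Splx117.gp
  rw [show (stp M x)^[r] p = M.rho g₀ from T.rg.symm, M.rho3]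

section sum

variable [Fintype D] {g₀ : D}

theorem oa_eq (T : Arc M x p N n r g₀) : OA M x p N n r =
    ((Finset.Ico (r + 1) (tauA M x p N n r)).filter (InK M x p 0 n)).image (gp M x p) := by
  have L := lp_of T.L (by have := T.nN; omega)
  ext h
  rw [Finset.mem_image]
  constructor
  · intro hh
    obtain ⟨-, h3, t, h4, h5, h6, h7, h8⟩ := Finset.mem_filter.1 hh
    have e : h = gp M x p t := L.eq_gp h6.symm
    refine ⟨t, Finset.mem_filter.2 ⟨Finset.mem_Ico.2 ⟨h4, h7⟩, Nat.zero_le _, h5, ?_, ?_⟩, e.symm⟩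
    · rw [← e]; exact h3.1
    · intro j l _ h9 h10 h11 e2
      rcases le_or_gt j r with c | c
      · exact T.cut l (by omega) h11 j c e2.symm
      · exact h8 j c h9 l h10 h11 e2
  · rintro ⟨i, hi, rfl⟩
    obtain ⟨h1, h2⟩ := Finset.mem_filter.1 hi
    obtain ⟨h3, h4⟩ := Finset.mem_Ico.1 h1
    exact Finset.mem_filter.2 ⟨Finset.mem_univ _, L.gap h2.gap, i, h3, h2.hi,
      Splx117.rho_gp i, h4, fun u _ h6 v h7 h8 => h2.sep u v (Nat.zero_le _) h6 h7 h8⟩

theorem ob_eq (T : Arc M x p N n r g₀) : OB M x p N n r =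
    ((Finset.Ico (tauB M x p N n r) r).filter (InK M x p 0 n)).image (gp M x p) := by
  have L := lp_of T.L (by have := T.nN; omega)
  have hrn := T.rn
  ext h
  rw [Finset.mem_image]
  constructor
  · intro hh
    obtain ⟨-, h3, t, h4, h5, h6, h7⟩ := Finset.mem_filter.1 hh
    have e : h = gp M x p t := L.eq_gp h5.symm
    refine ⟨t, Finset.mem_filter.2 ⟨Finset.mem_Ico.2 ⟨h6, h4⟩, Nat.zero_le _, by omega, ?_, ?_⟩,
      e.symm⟩
    · rw [← e]; exact h3.1
    · intro j l _ h9 h10 h11 e2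
      rcases le_or_gt l r with c | c
      · exact h7 l h10 c j h9 e2.symm
      · exact T.cut l c h11 j (by omega) e2.symm
  · rintro ⟨i, hi, rfl⟩
    obtain ⟨h1, h2⟩ := Finset.mem_filter.1 hi
    obtain ⟨h3, h4⟩ := Finset.mem_Ico.1 h1
    exact Finset.mem_filter.2 ⟨Finset.mem_univ _, L.gap h2.gap, i, h4,
      Splx117.rho_gp i, h3, fun u h6 h7 v h8 e => h2.sep v u (Nat.zero_le _) h8 h6 (by omega) e.symm⟩

/-- the outer part of the root block: block gaps of the arc between the two touches -/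
theorem outer_sum (T : Arc M x p N n r g₀) {A : Type} [AddCommMonoid A] (f : D → A) :
    f g₀ + ∑ h ∈ OA M x p N n r, f h + ∑ h ∈ OB M x p N n r, f h =
      ∑ i ∈ (Finset.Ico (tauB M x p N n r) (tauA M x p N n r)).filter (InK M x p 0 n),
        f (gp M x p i) := by
  have L := lp_of T.L (by have := T.nN; omega)
  have hnN := T.nN
  have hrn := T.rn
  obtain ⟨ha1, ha2, -⟩ := tauA_spec T
  obtain ⟨hb1, -⟩ := tauB_spec T
  have inj : ∀ a b, b ≤ n → Set.InjOn (gp M x p)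
      ((Finset.Ico a b).filter (InK M x p 0 n) : Finset ℕ) := by
    intro a b hb i hi j hj e
    have hi := (Finset.mem_filter.1 (Finset.mem_coe.1 hi)).2.hi
    have hj := (Finset.mem_filter.1 (Finset.mem_coe.1 hj)).2.hi
    rcases lt_trichotomy i j with h | h | h
    · exact absurd e (L.gp_ne h (by omega))
    · exact h
    · exact absurd e.symm (L.gp_ne h (by omega))
  rw [oa_eq T, ob_eq T, Finset.sum_image (inj _ _ ha2), Finset.sum_image (inj _ _ (by omega)),
    Finset.sum_filter, Finset.sum_filter, Finset.sum_filter]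
  rw [← Finset.sum_Ico_consecutive _ hb1 ha1.le, Finset.sum_eq_sum_Ico_succ_bot ha1,
    if_pos (ink_of T), ← gp_eq_of T]
  exact add_comm _ _

end sum

/-! ### the revealed set -/

/-- left cells of the times `≤ n`, and the white giant -/
def EE (M : CMap D C) (x : D → ZMod 2) (p : D) (n : ℕ) (W : Set C) : Set C :=
  {c | ∃ u, u ≤ n ∧ lc M x p u = c} ∪ W

/-- **hypotheses on the revealed colouring** (311, note 3646 (3)) -/
structure Ex (M : CMap D C) (σ : C → ZMod 2) (p : D) (N n r : ℕ) (W : Set C) : Prop where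
  L : Lp M (cfg M σ) p N
  nN : n < N
  k : InK M (cfg M σ) p 0 n r
  col : σ (M.cell p) = 1
  con : CCon M W
  rt : ∀ u, u ≤ n → M.cell (M.rho (P M (cfg M σ) p u)) ∈ W
  dis : ∀ u, u ≤ n → lc M (cfg M σ) p u ∉ W
  bd : ∀ d, M.cell d ∈ W → M.cell (M.rho d) ∉ W → σ (M.cell d) = 0

theorem Ex.bd' (X : Ex M σ p N n r W) {d : D} (h1 : M.cell d ∉ W) (h2 : M.cell (M.rho d) ∈ W) :
    σ (M.cell (M.rho d)) = 0 := by
  by_cases hd : d ∈ M.live
  · have e1 := M.cell_iota d hd
    have e2 := cell_rho_iota M hd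
    have := X.bd (M.iota d) (by rw [e1]; exact h2) (by rw [e2]; exact h1)
    rwa [e1] at this
  · exact absurd (M.dead d hd ▸ h2) h1

/-- the third cell of a state is the left or the right cell of the next state -/
theorem third_cases (hx : IsC M ∅ x) {q : D} (hq : x q = 1) :
    M.cell (M.rho (M.rho q)) = M.cell (stp M x q) ∨
      M.cell (M.rho (M.rho q)) = M.cell (M.rho (stp M x q)) := by
  rcases stp_cases hx hq (Set.notMem_empty _) with ⟨h1, h2, e⟩ | ⟨h1, h2, e⟩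
  · left
    rw [e, M.cell_iota _ (hx.lv h1)]
  · right
    rw [e, cell_rho_iota M (hx.lv h2)]

theorem cfg_congr {d : D} (h1 : μ (M.cell d) = σ (M.cell d))
    (h2 : μ (M.cell (M.rho d)) = σ (M.cell (M.rho d))) : cfg M μ d = cfg M σ d := by
  unfold cfg
  rw [h1, h2]

section walk

variable [Fintype D]

/-- **the walk of the revealed steps** -/
theorem walk_eq (hσ : (cfg M σ) p = 1) (hE : ∀ u, u ≤ n →
      μ (M.cell (P M (cfg M σ) p u)) = σ (M.cell (P M (cfg M σ) p u)) ∧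
      μ (M.cell (M.rho (P M (cfg M σ) p u))) = σ (M.cell (M.rho (P M (cfg M σ) p u)))) {u : ℕ}
    (hu : u ≤ n) : P M (cfg M μ) p u = P M (cfg M σ) p u := by
  induction u with
  | zero => rfl
  | succ u ih =>
    rw [P_succ, P_succ, ih (by omega)]
    have h1 := (hE u (by omega)).2
    have h2 := hE (u + 1) hu
    rw [P_succ] at h2
    have h3 : μ (M.cell (M.rho (M.rho (P M (cfg M σ) p u)))) =
        σ (M.cell (M.rho (M.rho (P M (cfg M σ) p u)))) := by
      rcases third_cases (cfg_isC σ) (P_occ (cfg_isC σ) hσ u) with e | e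
      · rw [e]; exact h2.1
      · rw [e]; exact h2.2
    have h4 : cfg M μ (M.rho (P M (cfg M σ) p u)) = cfg M σ (M.rho (P M (cfg M σ) p u)) :=
      cfg_congr h1 h3
    unfold stp
    rw [h4]

theorem Ex.agr (X : Ex M σ p N n r W) (hE : ∀ c ∈ EE M (cfg M σ) p n W, μ c = σ c) (u : ℕ)
    (hu : u ≤ n) : μ (M.cell (P M (cfg M σ) p u)) = σ (M.cell (P M (cfg M σ) p u)) ∧
      μ (M.cell (M.rho (P M (cfg M σ) p u))) = σ (M.cell (M.rho (P M (cfg M σ) p u))) :=
  ⟨hE _ (Or.inl ⟨u, hu, rfl⟩), hE _ (Or.inr (X.rt u hu))⟩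

theorem Ex.walk (X : Ex M σ p N n r W) (hE : ∀ c ∈ EE M (cfg M σ) p n W, μ c = σ c) {u : ℕ}
    (hu : u ≤ n) : P M (cfg M μ) p u = P M (cfg M σ) p u :=
  walk_eq X.L.occ (X.agr hE) hu

theorem Ex.lc_eq (X : Ex M σ p N n r W) (hE : ∀ c ∈ EE M (cfg M σ) p n W, μ c = σ c) {u : ℕ}
    (hu : u ≤ n) : lc M (cfg M μ) p u = lc M (cfg M σ) p u := congrArg M.cell (X.walk hE hu)

theorem Ex.gp_eq (X : Ex M σ p N n r W) (hE : ∀ c ∈ EE M (cfg M σ) p n W, μ c = σ c) {u : ℕ}
    (hu : u ≤ n) : gp M (cfg M μ) p u = gp M (cfg M σ) p u := by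
  unfold Splx117.gp
  have : (stp M (cfg M μ))^[u] p = (stp M (cfg M σ))^[u] p := X.walk hE hu
  rw [this]

theorem Ex.occ (X : Ex M σ p N n r W) (hE : ∀ c ∈ EE M (cfg M σ) p n W, μ c = σ c) :
    cfg M μ p = 1 := by
  have h := X.agr hE 0 (Nat.zero_le _)
  have h1 : μ (M.cell p) = σ (M.cell p) := h.1
  have h2 : μ (M.cell (M.rho p)) = σ (M.cell (M.rho p)) := h.2
  rw [cfg_congr h1 h2]
  exact X.L.occ

/-- a gap of the revealed arc -/
theorem Ex.gap_eq (X : Ex M σ p N n r W) (hE : ∀ c ∈ EE M (cfg M σ) p n W, μ c = σ c) {i : ℕ}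
    (hi : i < n) : cfg M μ (gp M (cfg M σ) p i) = cfg M σ (gp M (cfg M σ) p i) := by
  have h1 := (X.agr hE i hi.le).1
  have h2 := X.agr hE (i + 1) hi
  rw [P_succ] at h2
  have h3 : μ (M.cell (M.rho (M.rho (P M (cfg M σ) p i)))) =
      σ (M.cell (M.rho (M.rho (P M (cfg M σ) p i)))) := by
    rcases third_cases (cfg_isC σ) (P_occ (cfg_isC σ) X.L.occ i) with e | e
    · rw [e]; exact h2.1
    · rw [e]; exact h2.2
  refine cfg_congr h3 ?_
  show μ (M.cell (M.rho (gp M (cfg M σ) p i))) = σ (M.cell (M.rho (gp M (cfg M σ) p i)))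
  rw [Splx117.rho_gp]
  exact h1

theorem Ex.ink (X : Ex M σ p N n r W) (hE : ∀ c ∈ EE M (cfg M σ) p n W, μ c = σ c) {i : ℕ} :
    InK M (cfg M μ) p 0 n i ↔ InK M (cfg M σ) p 0 n i := by
  have e : ∀ u, u ≤ n → Splx117.lc M (cfg M μ) p u = Splx117.lc M (cfg M σ) p u :=
    fun u hu => X.lc_eq hE hu
  constructor
  · intro h
    have hi := h.hi
    refine ⟨h.lo, hi, ?_, fun j l h1 h2 h3 h4 => ?_⟩
    · rw [← X.gap_eq hE hi, ← X.gp_eq hE hi.le]; exact h.gap
    · rw [← e j (by omega), ← e l h4]; exact h.sep j l h1 h2 h3 h4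
  · intro h
    have hi := h.hi
    refine ⟨h.lo, hi, ?_, fun j l h1 h2 h3 h4 => ?_⟩
    · rw [X.gp_eq hE hi.le, X.gap_eq hE hi]; exact h.gap
    · rw [e j (by omega), e l h4]; exact h.sep j l h1 h2 h3 h4

/-- canonical period -/
def per (M : CMap D C) (x : D → ZMod 2) (p : D) : ℕ :=
  if h : ∃ N, Lp M x p N then h.choose else 0

omit [Fintype D] in
theorem lp_per [Finite D] (hx : IsC M ∅ x) (hp : x p = 1) : Lp M x p (per M x p) := by
  have h := Splx117.lp_exists hx hp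
  unfold per
  rw [dif_pos h]
  exact h.choose_spec

/-- **the arc for every colouring which extends the revealed one** -/
theorem Ex.arc (X : Ex M σ p N n r W)
    (hE : ∀ c ∈ EE M (cfg M σ) p n W, μ c = σ c) :
    Lp M (cfg M μ) p (per M (cfg M μ) p) ∧
      Arc M (cfg M μ) p (per M (cfg M μ) p) n r (gp M (cfg M σ) p r) := by
  have L := lp_per (cfg_isC μ) (X.occ hE)
  have hn : n < per M (cfg M μ) p := by
    by_contra hc
    have h1 := X.walk hE (u := per M (cfg M μ) p) (by omega)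
    have h2 : P M (cfg M μ) p (per M (cfg M μ) p) = p := L.per
    rw [h2] at h1
    have h3 := L.pos
    have h4 := X.nN
    exact X.L.inj 0 (per M (cfg M μ) p) h3 (by omega) h1
  refine ⟨L, ?_⟩
  have := arc_of L hn ((X.ink hE).2 X.k)
  rwa [X.gp_eq hE X.k.hi.le] at this

/-! ### recolouring of the giant `W` -/

/-- white on `W` -/
def r0 (W : Set C) (μ : C → ZMod 2) (c : C) : ZMod 2 := if c ∈ W then 0 else μ c

theorem r0_W {c : C} (h : c ∈ W) : r0 W μ c = 0 := if_pos h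
theorem r0_F {c : C} (h : c ∉ W) : r0 W μ c = μ c := if_neg h

/-- the white cells of `W` -/
def Ww (W : Set C) (σ : C → ZMod 2) : Set C := {c | c ∈ W ∧ σ c = 0}

theorem Ex.rch (X : Ex M σ p N n r W) {c : C} (hc : c ∈ Rch M (Ww W σ) {M.cell p}) : c ∉ W := by
  obtain ⟨a, rfl, h⟩ := hc
  induction h with
  | refl => exact X.dis 0 (Nat.zero_le _)
  | @tail u v _ h1 ih =>
    intro hv
    apply h1.1
    refine ⟨hv, ?_⟩
    obtain ⟨d, ⟨e1, e2⟩ | ⟨e1, e2⟩⟩ := h1.2
    · rw [← e2]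
      exact X.bd' (by rw [e1]; exact ih) (by rw [e2]; exact hv)
    · rw [← e1]
      exact X.bd d (by rw [e1]; exact hv) (by rw [e2]; exact ih)

theorem Ex.rcol (X : Ex M σ p N n r W) (hE : ∀ c ∈ EE M (cfg M σ) p n W, μ c = σ c) :
    ∀ c ∈ Rch M (Ww W σ) {M.cell p} ∪ Ww W σ, r0 W μ c = μ c := by
  rintro c (h | h)
  · exact r0_F (X.rch h)
  · rw [r0_W h.1, hE c (Or.inr h.1), h.2]

theorem Ex.wcol (_X : Ex M σ p N n r W) (hE : ∀ c ∈ EE M (cfg M σ) p n W, μ c = σ c) :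
    ∀ c ∈ Ww W σ, μ c = 0 := fun c h => by rw [hE c (Or.inr h.1), h.2]

theorem Ex.gs (X : Ex M σ p N n r W) (hE : ∀ c ∈ EE M (cfg M σ) p n W, μ c = σ c) :
    GS M (Ww W σ) {M.cell p} μ p := by
  have h := X.agr hE 0 (Nat.zero_le _)
  have h1 : μ (M.cell p) = σ (M.cell p) := h.1
  have h2 : μ (M.cell (M.rho p)) = σ (M.cell (M.rho p)) := h.2
  refine ⟨by rw [h1]; exact X.col, ?_, rch_self rfl⟩
  have h3 := X.L.occ
  unfold cfg at h3
  rw [X.col] at h3
  rw [h2]
  revert h3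
  generalize σ (M.cell (M.rho p)) = a
  revert a; decide

/-- **same walk after recolouring** -/
theorem Ex.P0 (X : Ex M σ p N n r W) (hE : ∀ c ∈ EE M (cfg M σ) p n W, μ c = σ c) (u : ℕ) :
    P M (cfg M (r0 W μ)) p u = P M (cfg M μ) p u :=
  (walk_loc (X.wcol hE) (X.gs hE) (X.rcol hE) u).1

theorem Ex.gsP (X : Ex M σ p N n r W) (hE : ∀ c ∈ EE M (cfg M σ) p n W, μ c = σ c) (u : ℕ) :
    GS M (Ww W σ) {M.cell p} μ (P M (cfg M μ) p u) :=
  (walk_loc (X.wcol hE) (X.gs hE) (X.rcol hE) u).2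

/-- **same root block after recolouring** -/
theorem Ex.blk0 (X : Ex M σ p N n r W) (hE : ∀ c ∈ EE M (cfg M σ) p n W, μ c = σ c) :
    blk M (cfg M (r0 W μ)) (gp M (cfg M σ) p r) = blk M (cfg M μ) (gp M (cfg M σ) p r) := by
  obtain ⟨-, T⟩ := X.arc hE
  refine blk_loc (X.wcol hE) T.gp ?_ (X.rcol hE)
  rw [T.rg]
  exact X.gsP hE r

/-- the arc after recolouring -/
theorem Ex.arc0 (X : Ex M σ p N n r W) (hE : ∀ c ∈ EE M (cfg M σ) p n W, μ c = σ c) :
    Arc M (cfg M (r0 W μ)) p (per M (cfg M μ) p) n r (gp M (cfg M σ) p r) := by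
  obtain ⟨-, T⟩ := X.arc hE
  have e := X.P0 hE
  refine ⟨⟨cfg_isC _, ?_, ?_, ?_⟩, T.rn, T.nN, ?_, ?_, ?_⟩
  · rw [((X.gs hE).face (X.rcol hE)).1]
    exact X.occ hE
  · rw [e]; exact T.L.per
  · intro a b h1 h2
    rw [e, e]; exact T.L.inj a b h1 h2
  · refine gp_loc T.gp ?_ (X.rcol hE)
    rw [T.rg]
    exact X.gsP hE r
  · rw [e]; exact T.rg
  · intro u h1 h2 v h3
    show M.cell (P M (cfg M (r0 W μ)) p u) ≠ M.cell (P M (cfg M (r0 W μ)) p v)
    rw [e, e]
    exact T.cut u h1 h2 v h3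

end walk

/-! ### 395's language -/

theorem cn_of {A : Set C} (h : CCon M A) : Cn M A := by
  intro c hc c' hc'
  have H := h c hc c' hc'
  clear hc hc'
  induction H with
  | rel c c' h => exact Relation.EqvGen.rel _ _ ⟨h.1, h.2.1, h.2.2.imp fun d hd => hd.2⟩
  | refl c => exact Relation.EqvGen.refl _
  | symm c c' _ ih => exact Relation.EqvGen.symm _ _ ih
  | trans c c' c'' _ _ ih1 ih2 => exact Relation.EqvGen.trans _ _ _ ih1 ih2

theorem ccon_of {A : Set C} (h : Cn M A) : CCon M A := by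
  intro c hc c' hc'
  have H := h c hc c' hc'
  clear hc hc'
  unfold Lk at H
  induction H with
  | rel c c' h =>
    obtain ⟨h1, h2, d, rfl, rfl⟩ := h
    exact step_nb h1 h2
  | refl c => exact Relation.EqvGen.refl _
  | symm c c' _ ih => exact Relation.EqvGen.symm _ _ ih
  | trans c c' c'' _ _ ih1 ih2 => exact Relation.EqvGen.trans _ _ _ ih1 ih2

/-- the contraction of connected giants has connected classes -/
theorem cls_of {C' : Type} {π : C → C'} {A : ZMod 3 → Set C} (G : C2SBx395.Gi M A)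
    (Q : Cq π A) : ClsCon M π := by
  intro a b e
  rcases (Q.ker _ _).1 e with e | ⟨j, h1, h2⟩
  · rw [e]; exact Relation.EqvGen.refl _
  · have H := ccon_of (G.con j) _ h1 _ h2
    have key : ∀ c c', Relation.EqvGen (Nb M (A j)) c c' → Relation.EqvGen (Coarsex166.Adj M π) c c' := by
      intro c c' H
      induction H with
      | rel c c' h => exact Relation.EqvGen.rel _ _ ⟨Q.eq h.1 h.2.1, h.2.2⟩
      | refl c => exact Relation.EqvGen.refl _
      | symm c c' _ ih => exact Relation.EqvGen.symm _ _ ih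
      | trans c c' c'' _ _ ih1 ih2 => exact Relation.EqvGen.trans _ _ _ ih1 ih2
    exact key _ _ H

/-- **the three giants** -/
def AA (M : CMap D C) (σ : C → ZMod 2) (p : D) (n r : ℕ) (W : Set C) (i j : ZMod 3) : Set C :=
  if j = i + 1 then LA M (cfg M σ) p r n else if j = i then LB M (cfg M σ) p r else W

variable {i : ZMod 3}

theorem AA_1 : AA M σ p n r W i (i + 1) = LA M (cfg M σ) p r n := if_pos rfl

theorem AA_0 : AA M σ p n r W i i = LB M (cfg M σ) p r := by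
  unfold AA
  rw [if_neg (by revert i; decide), if_pos rfl]

theorem AA_2 : AA M σ p n r W i (i + 2) = W := by
  unfold AA
  rw [if_neg (by revert i; decide), if_neg (by revert i; decide)]

theorem AA_cases {j : ZMod 3} {c : C} (h : c ∈ AA M σ p n r W i j) :
    (j = i + 1 ∧ c ∈ LA M (cfg M σ) p r n) ∨ (j = i ∧ c ∈ LB M (cfg M σ) p r) ∨
      (j = i + 2 ∧ c ∈ W) := by
  rcases C2SBx395.z3c i j with rfl | rfl | rfl
  · rw [AA_0] at h; exact Or.inr (Or.inl ⟨rfl, h⟩)
  · rw [AA_1] at h; exact Or.inl ⟨rfl, h⟩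
  · rw [AA_2] at h; exact Or.inr (Or.inr ⟨rfl, h⟩)

/-- the revealed cells are the cells of the giants -/
theorem Ex.not_free (X : Ex M σ p N n r W) {c : C} :
    ¬ Free (AA M σ p n r W i) c ↔ c ∈ EE M (cfg M σ) p n W := by
  have hr := X.k.hi
  constructor
  · intro h
    unfold C2SBx395.Free at h
    push Not at h
    obtain ⟨j, hj⟩ := h
    rcases AA_cases hj with ⟨-, u, h1, h2, h3⟩ | ⟨-, u, h1, h2⟩ | ⟨-, h1⟩
    · exact Or.inl ⟨u, h2, h3⟩
    · exact Or.inl ⟨u, by omega, h2⟩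
    · exact Or.inr h1
  · rintro (⟨u, h1, h2⟩ | h) hf
    · rcases le_or_gt u r with c1 | c1
      · exact hf i (by rw [AA_0]; exact ⟨u, c1, h2⟩)
      · exact hf (i + 1) (by rw [AA_1]; exact ⟨u, c1, h1, h2⟩)
    · exact hf (i + 2) (by rw [AA_2]; exact h)

section fin

variable [Fintype D]

/-- the left cells of the revealed arc are black -/
theorem Ex.lcol (X : Ex M σ p N n r W) (u : ℕ) : σ (lc M (cfg M σ) p u) = 1 :=
  lc_col (loop_of X.L) rfl X.col u

theorem Ex.colA (X : Ex M σ p N n r W) : (∀ c ∈ AA M σ p n r W i (i + 1), σ c = 1) ∧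
    ∀ c ∈ AA M σ p n r W i i, σ c = 1 := by
  rw [AA_0, AA_1]
  constructor
  · rintro c ⟨u, -, -, rfl⟩; exact X.lcol u
  · rintro c ⟨u, -, rfl⟩; exact X.lcol u

/-- **the giants are disjoint and connected** -/
theorem Ex.gi (X : Ex M σ p N n r W) : C2SBx395.Gi M (AA M σ p n r W i) := by
  have T := arc_of X.L X.nN X.k
  have hr := X.k.hi
  constructor
  · intro j j' c h h'
    have n1 : ∀ c, c ∈ LA M (cfg M σ) p r n → c ∈ LB M (cfg M σ) p r → False :=
      fun c h1 h2 => Set.disjoint_left.1 T.disj h1 h2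
    have n2 : ∀ c, c ∈ LA M (cfg M σ) p r n → c ∈ W → False := by
      rintro c ⟨u, -, h1, rfl⟩ h2
      exact X.dis u h1 h2
    have n3 : ∀ c, c ∈ LB M (cfg M σ) p r → c ∈ W → False := by
      rintro c ⟨u, h1, rfl⟩ h2
      exact X.dis u (by omega) h2
    rcases AA_cases h with ⟨e, h1⟩ | ⟨e, h1⟩ | ⟨e, h1⟩ <;>
      rcases AA_cases h' with ⟨e', h2⟩ | ⟨e', h2⟩ | ⟨e', h2⟩
    · rw [e, e']
    · exact absurd h2 (n1 c h1)
    · exact absurd h2 (n2 c h1)
    · exact absurd h1 (n1 c h2)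
    · rw [e, e']
    · exact absurd h2 (n3 c h1)
    · exact absurd h1 (n2 c h2)
    · exact absurd h1 (n3 c h2)
    · rw [e, e']
  · intro j
    rcases C2SBx395.z3c i j with rfl | rfl | rfl
    · rw [AA_0]; exact cn_of (lb_ccon X.L.even X.L.occ _)
    · rw [AA_1]; exact cn_of (la_ccon X.L.even X.L.occ _ _)
    · rw [AA_2]; exact cn_of X.con

/-- **the root gap** -/
theorem Ex.root (X : Ex M σ p N n r W) :
    Root M (AA M σ p n r W i) i (gp M (cfg M σ) p r) := by
  have T := arc_of X.L X.nN X.k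
  have hr := X.k.hi
  refine ⟨?_, ?_, ?_⟩
  · rw [AA_1, T.cellA]
    exact ⟨r + 1, by omega, by omega, rfl⟩
  · rw [AA_0, T.cellB]
    exact ⟨r, le_rfl, rfl⟩
  · rw [AA_2, Splx117.rho_gp]
    exact X.rt r hr.le

/-- colours of the giants after recolouring -/
theorem Ex.rc (X : Ex M σ p N n r W) (hE : ∀ c ∈ EE M (cfg M σ) p n W, μ c = σ c) :
    (∀ c ∈ AA M σ p n r W i (i + 1), r0 W μ c = 1) ∧ (∀ c ∈ AA M σ p n r W i i, r0 W μ c = 1) ∧
      ∀ c ∈ AA M σ p n r W i (i + 2), r0 W μ c = 0 := by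
  have hr := X.k.hi
  refine ⟨fun c hc => ?_, fun c hc => ?_, fun c hc => ?_⟩
  · have h1 := (X.colA (i := i)).1 c hc
    rw [AA_1] at hc
    obtain ⟨u, -, h2, rfl⟩ := hc
    rw [r0_F (X.dis u h2), hE _ (Or.inl ⟨u, h2, rfl⟩), h1]
  · have h1 := (X.colA (i := i)).2 c hc
    rw [AA_0] at hc
    obtain ⟨u, h2, rfl⟩ := hc
    rw [r0_F (X.dis u (by omega)), hE _ (Or.inl ⟨u, by omega, rfl⟩), h1]
  · rw [AA_2] at hc
    exact r0_W hc

/-- 395's colours of the giants -/
theorem Ex.rc0 (X : Ex M σ p N n r W) : Rc (AA M σ p n r W i) i (r0 W σ) := by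
  obtain ⟨h1, h2, h3⟩ := X.rc (i := i) (μ := σ) fun _ _ => rfl
  exact ⟨h1, h2, h3⟩

theorem Ex.pin (X : Ex M σ p N n r W) (hE : ∀ c ∈ EE M (cfg M σ) p n W, μ c = σ c) :
    Pin (AA M σ p n r W i) (r0 W σ) (r0 W μ) := by
  intro c hc
  unfold r0
  rw [hE c (X.not_free.1 hc)]

/-- 778's boundary condition of the white giant -/
theorem Ex.bdAd (X : Ex M σ p N n r W) {c c' : C} (hc : c ∈ AA M σ p n r W i (i + 2))
    (h : Ad M c c') (hc' : c' ∉ AA M σ p n r W i (i + 2)) : σ c = 0 := by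
  rw [AA_2] at hc hc'
  obtain ⟨d, ⟨rfl, rfl⟩ | ⟨rfl, rfl⟩⟩ := h
  · exact X.bd d hc hc'
  · exact X.bd' hc' hc

theorem Ex.la0 (X : Ex M σ p N n r W) (hE : ∀ c ∈ EE M (cfg M σ) p n W, μ c = σ c) :
    LA M (cfg M (r0 W μ)) p r n = LA M (cfg M σ) p r n := by
  have e : ∀ u, u ≤ n → lc M (cfg M (r0 W μ)) p u = lc M (cfg M σ) p u := fun u hu => by
    show M.cell _ = M.cell _
    rw [X.P0 hE, X.walk hE hu]
  ext c
  constructor
  · rintro ⟨u, h1, h2, h3⟩
    exact ⟨u, h1, h2, by rw [← e u h2]; exact h3⟩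
  · rintro ⟨u, h1, h2, h3⟩
    exact ⟨u, h1, h2, by rw [e u h2]; exact h3⟩

theorem Ex.lb0 (X : Ex M σ p N n r W) (hE : ∀ c ∈ EE M (cfg M σ) p n W, μ c = σ c) :
    LB M (cfg M (r0 W μ)) p r = LB M (cfg M σ) p r := by
  have hr := X.k.hi
  have e : ∀ u, u ≤ n → lc M (cfg M (r0 W μ)) p u = lc M (cfg M σ) p u := fun u hu => by
    show M.cell _ = M.cell _
    rw [X.P0 hE, X.walk hE hu]
  ext c
  constructor
  · rintro ⟨u, h2, h3⟩
    exact ⟨u, h2, by rw [← e u (by omega)]; exact h3⟩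
  · rintro ⟨u, h2, h3⟩
    exact ⟨u, h2, by rw [e u (by omega)]; exact h3⟩

variable {C' : Type} {π : C → C'} {hπ : ClsCon M π}

/-- the recoloured configuration lives on the coarse map -/
theorem Ex.isC0 (X : Ex M σ p N n r W) (Q : Cq π (AA M σ p n r W i))
    (hE : ∀ c ∈ EE M (cfg M σ) p n W, μ c = σ c) :
    IsC (coarse M π hπ) ∅ (cfg M (r0 W μ)) := by
  refine isC_coarse.2 ⟨cfg_isC _, fun d _ e => ?_⟩
  obtain ⟨c1, c2, c3⟩ := X.rc (i := i) hE
  show r0 W μ (M.cell d) + r0 W μ (M.cell (M.rho d)) = 0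
  rcases (Q.ker _ _).1 e with e | ⟨j, h1, h2⟩
  · rw [e]; exact z_self _
  · rcases C2SBx395.z3c i j with rfl | rfl | rfl
    · rw [c2 _ h1, c2 _ h2]; decide
    · rw [c1 _ h1, c1 _ h2]; decide
    · rw [c3 _ h1, c3 _ h2]; decide

/-- the classes along the loop -/
theorem Ex.gi0 (X : Ex M σ p N n r W) (Q : Cq π (AA M σ p n r W i))
    (hE : ∀ c ∈ EE M (cfg M σ) p n W, μ c = σ c) :
    R5bx166.Gi M π (cfg M (r0 W μ)) p (per M (cfg M μ) p) n r
      (π (M.cell (gp M (cfg M σ) p r))) (π (M.cell (M.rho (gp M (cfg M σ) p r)))) := by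
  have G := X.gi (i := i)
  have R := X.root (i := i)
  have T0 := X.arc0 hE
  obtain ⟨c1, c2, c3⟩ := X.rc (i := i) hE
  refine ⟨Q.ne G R.r0 R.r1 (C2SBx395.z3a i).1.symm, fun c => ?_, fun c => ?_,
    fun u v _ _ e hA hB => ?_⟩
  · rw [X.la0 hE, ← AA_1 (W := W) (i := i)]
    exact ⟨fun e => Q.mem G R.r0 e, fun h => Q.eq h R.r0⟩
  · rw [X.lb0 hE, ← AA_0 (n := n) (W := W) (i := i)]
    exact ⟨fun e => Q.mem G R.r1 e, fun h => Q.eq h R.r1⟩
  · rcases (Q.ker _ _).1 e with e | ⟨j, h1, h2⟩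
    · exact e
    · exfalso
      rcases C2SBx395.z3c i j with rfl | rfl | rfl
      · exact hB (Q.eq h1 R.r1)
      · exact hA (Q.eq h1 R.r0)
      · have h3 := c3 _ h1
        have h4 : r0 W μ (lc M (cfg M (r0 W μ)) p u) = 1 := by
          refine lc_col T0.L rfl ?_ u
          show r0 W μ (M.cell p) = 1
          have d0 : M.cell p ∉ W := X.dis 0 (Nat.zero_le _)
          have d1 : μ (M.cell p) = σ (M.cell p) := (X.agr hE 0 (Nat.zero_le _)).1
          rw [r0_F d0, d1]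
          exact X.col
        rw [h3] at h4
        exact absurd h4 (by decide)

theorem Ex.tch0 (X : Ex M σ p N n r W) (hE : ∀ c ∈ EE M (cfg M σ) p n W, μ c = σ c) (N' : ℕ) :
    Tch M (cfg M (r0 W μ)) p N' n = Tch M (cfg M μ) p N' n := by
  funext u
  unfold Tch
  have e : ∀ v, lc M (cfg M (r0 W μ)) p v = lc M (cfg M μ) p v := fun v =>
    congrArg M.cell (X.P0 hE v)
  simp only [e]

/-- first touched time of the revealed arc after `r` -/
def tA (M : CMap D C) (μ : C → ZMod 2) (p : D) (n r : ℕ) : ℕ :=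
  tauA M (cfg M μ) p (per M (cfg M μ) p) n r

/-- last touched time of the revealed arc before `r` -/
def tB (M : CMap D C) (μ : C → ZMod 2) (p : D) (n r : ℕ) : ℕ :=
  tauB M (cfg M μ) p (per M (cfg M μ) p) n r

theorem Ex.tA0 (X : Ex M σ p N n r W) (hE : ∀ c ∈ EE M (cfg M σ) p n W, μ c = σ c) :
    tauA M (cfg M (r0 W μ)) p (per M (cfg M μ) p) n r = tA M μ p n r := by
  unfold tA tauA
  rw [X.tch0 hE]

theorem Ex.tB0 (X : Ex M σ p N n r W) (hE : ∀ c ∈ EE M (cfg M σ) p n W, μ c = σ c) :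
    tauB M (cfg M (r0 W μ)) p (per M (cfg M μ) p) n r = tB M μ p n r := by
  unfold tB tauB
  rw [X.tch0 hE]

theorem Ex.tA_spec (X : Ex M σ p N n r W) (hE : ∀ c ∈ EE M (cfg M σ) p n W, μ c = σ c) :
    r < tA M μ p n r ∧ tA M μ p n r ≤ n ∧ tB M μ p n r ≤ r := by
  obtain ⟨-, T⟩ := X.arc hE
  exact ⟨(tauA_spec T).1, (tauA_spec T).2.1, (tauB_spec T).1⟩

/-- the block gaps of the revealed arc between the two touches -/
def tG (M : CMap D C) (σ μ : C → ZMod 2) (p : D) (n r : ℕ) : Finset ℕ :=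
  (Finset.Ico (tB M μ p n r) (tA M μ p n r)).filter (InK M (cfg M σ) p 0 n)

/-- **CLOSING** for every colouring which extends the revealed one: `V(β) = V(γ) + V(K[y → x])` -/
theorem Ex.close (X : Ex M σ p N n r W) (Q : Cq π (AA M σ p n r W i))
    (hE : ∀ c ∈ EE M (cfg M σ) p n W, μ c = σ c) {A : Type} [AddCommMonoid A] (f : D → A) :
    ∑ h ∈ blk M (cfg M μ) (gp M (cfg M σ) p r), f h =
      ∑ h ∈ (blk (coarse M π hπ) (cfg M (r0 W μ)) (gp M (cfg M σ) p r)).erase
          (gp M (cfg M σ) p r), f h +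
        ∑ i ∈ tG M σ μ p n r, f (gp M (cfg M σ) p i) := by
  have T0 := X.arc0 hE
  have hx := X.isC0 (hπ := hπ) Q hE
  have G0 := X.gi0 Q hE
  have h1 := arc_sum T0 hx G0 f
  have h2 := outer_sum T0 f
  have hA := X.tA_spec hE
  have hr := X.k.hi
  rw [X.tA0 hE, X.tB0 hE] at h2
  have h3 : ∑ i ∈ (Finset.Ico (tB M μ p n r) (tA M μ p n r)).filter
      (InK M (cfg M (r0 W μ)) p 0 n), f (gp M (cfg M (r0 W μ)) p i) =
      ∑ i ∈ tG M σ μ p n r, f (gp M (cfg M σ) p i) := by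
    have e : ∀ u, u ≤ n → P M (cfg M (r0 W μ)) p u = P M (cfg M σ) p u := fun u hu => by
      rw [X.P0 hE, X.walk hE hu]
    have eg : ∀ u, u ≤ n → gp M (cfg M (r0 W μ)) p u = gp M (cfg M σ) p u := fun u hu => by
      unfold Splx117.gp
      rw [show (stp M (cfg M (r0 W μ)))^[u] p = (stp M (cfg M σ))^[u] p from e u hu]
    have el : ∀ u, u ≤ n → Splx117.lc M (cfg M (r0 W μ)) p u = Splx117.lc M (cfg M σ) p u :=
      fun u hu => congrArg M.cell (e u hu)
    have ex : ∀ u, u < n → cfg M (r0 W μ) (gp M (cfg M σ) p u) =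
        cfg M σ (gp M (cfg M σ) p u) := by
      intro u hu
      have f3 := ((X.gsP hE u).face (X.rcol hE)).2.2
      rw [← X.gap_eq hE hu, ← X.gp_eq hE hu.le]
      exact f3
    unfold tG
    refine Finset.sum_congr ?_ fun j hj => ?_
    · refine Finset.filter_congr fun j hj => ?_
      constructor
      · intro h
        have hi := h.hi
        refine ⟨h.lo, hi, ?_, fun j l h1 h2 h3 h4 => ?_⟩
        · rw [← ex _ hi, ← eg _ hi.le]; exact h.gap
        · rw [← el j (by omega), ← el l h4]; exact h.sep j l h1 h2 h3 h4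
      · intro h
        have hi := h.hi
        refine ⟨h.lo, hi, ?_, fun j l h1 h2 h3 h4 => ?_⟩
        · rw [eg _ hi.le, ex _ hi]; exact h.gap
        · rw [el j (by omega), el l h4]; exact h.sep j l h1 h2 h3 h4
    · rw [eg j (Finset.mem_filter.1 hj).2.hi.le]
  rw [← X.blk0 hE, h1, ← h3, ← h2]
  abel

/-- **the end cells** of the coarse block are the touched cells -/
theorem Ex.ends (X : Ex M σ p N n r W) (Q : Cq π (AA M σ p n r W i))
    (hE : ∀ c ∈ EE M (cfg M σ) p n W, μ c = σ c) :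
    M.cell (M.rho (kA (coarse M π hπ) (cfg M (r0 W μ)) (gp M (cfg M σ) p r))) =
        lc M (cfg M σ) p (tA M μ p n r) ∧
      M.cell (kB (coarse M π hπ) (cfg M (r0 W μ)) (gp M (cfg M σ) p r)) =
        lc M (cfg M σ) p (tB M μ p n r) := by
  have T0 := X.arc0 hE
  have hx := X.isC0 (hπ := hπ) Q hE
  have G0 := X.gi0 Q hE
  have h1 := end_A T0 hx G0
  have h2 := end_B T0 hx G0
  obtain ⟨h3, h4, h5⟩ := X.tA_spec hE
  rw [X.tA0 hE] at h1
  rw [X.tB0 hE] at h2
  constructor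
  · rw [h1]
    show M.cell _ = M.cell _
    rw [X.P0 hE, X.walk hE h4]
  · rw [h2]
    show M.cell _ = M.cell _
    rw [X.P0 hE, X.walk hE (by omega)]

end fin

end Crest.Agent.R143.R5qx166
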