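import Crest.Agent.R143.Resa_778

/-!
# Row 143: gluing a family of revealed sets to ONE stopping set (helper867; notes 3765, 3791)

`O d σ` = cells revealed by the exploration started at `d` (the dart), `E d σ` = event that the
exploration is the good one (strand crosses the out region + white column in the inner window).

* `Fam O E` : `E d` and `O d` are decided by the revealed cells (on the event), and two good
  explorations reveal the same cells;
* `out O E` : the cells revealed by the good exploration, all cells if there is none;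
* `out_eq`, `stop` : it is a stopping set (`Resax778.StopSet`);
* `adp_of` : a function is adapted as soon as it is decided on every event `E d`;
* `pick` : value attached to the good exploration, `pick_eq`, `pick_adp`, `pick_none`.
-/

set_option autoImplicit false
set_option linter.unusedSectionVars false

open scoped Classical

noncomputable section

namespace Crest.Agent.R143.StGluex867

open Crest.Agent.R143.Resax778

variable {S B D : Type*} [Fintype S] [Fintype B]

/-- family of explorations with events -/
structure Fam (O : D → (S → B) → Finset S) (E : D → (S → B) → Prop) : Prop where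
  /-- the event and the revealed cells are decided by the revealed cells -/
  stp : ∀ d σ τ, E d σ → (∀ s ∈ O d σ, τ s = σ s) → E d τ ∧ O d τ = O d σ
  /-- uniqueness -/
  uni : ∀ d d' σ, E d σ → E d' σ → O d σ = O d' σ

/-- revealed cells: those of the good exploration, everything if there is none -/
def out (O : D → (S → B) → Finset S) (E : D → (S → B) → Prop) (σ : S → B) : Finset S :=
  if h : ∃ d, E d σ then O h.choose σ else Finset.univ

variable {O : D → (S → B) → Finset S} {E : D → (S → B) → Prop}

theorem out_eq (H : Fam O E) {d : D} {σ : S → B} (hd : E d σ) : out O E σ = O d σ := by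
  have h : ∃ d, E d σ := ⟨d, hd⟩
  unfold out
  rw [dif_pos h]
  exact H.uni _ _ σ h.choose_spec hd

theorem out_none {σ : S → B} (h : ¬ ∃ d, E d σ) : out O E σ = Finset.univ := by
  unfold out
  rw [dif_neg h]

/-- agreement on all cells is equality -/
theorem eq_of_none {σ τ : S → B} (h : ¬ ∃ d, E d σ) (e : ∀ s ∈ out O E σ, τ s = σ s) :
    τ = σ := by
  funext s
  exact e s (by rw [out_none h]; exact Finset.mem_univ s)

/-- **one stopping set** -/
theorem stop (H : Fam O E) : StopSet (out O E) := by
  intro σ τ e
  by_cases h : ∃ d, E d σ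
  · obtain ⟨d, hd⟩ := h
    rw [out_eq H hd] at e
    obtain ⟨h1, h2⟩ := H.stp d σ τ hd e
    rw [out_eq H h1, h2, out_eq H hd]
  · rw [eq_of_none h e]

/-- **adapted functions**: decided on every event by the cells revealed there -/
theorem adp_of {X : Type*} (H : Fam O E) {F : (S → B) → X}
    (hF : ∀ d σ τ, E d σ → (∀ s ∈ O d σ, τ s = σ s) → F τ = F σ) : Adp (out O E) F := by
  intro σ τ e
  by_cases h : ∃ d, E d σ
  · obtain ⟨d, hd⟩ := h
    rw [out_eq H hd] at e
    exact hF d σ τ hd e
  · rw [eq_of_none h e]

/-- the existence of a good exploration is adapted -/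
theorem ex_adp (H : Fam O E) : Adp (out O E) fun σ => ∃ d, E d σ := by
  intro σ τ e
  by_cases h : ∃ d, E d σ
  · obtain ⟨d, hd⟩ := h
    rw [out_eq H hd] at e
    exact propext ⟨fun _ => ⟨d, hd⟩, fun _ => ⟨d, (H.stp d σ τ hd e).1⟩⟩
  · rw [eq_of_none h e]

/-- every single event is adapted on the existence event: `E d` is decided by the cells of the
good exploration as soon as it is decided on every `E d'` -/
theorem ev_adp (H : Fam O E) (d : D)
    (hd : ∀ d' σ τ, E d' σ → (∀ s ∈ O d' σ, τ s = σ s) → (E d τ ↔ E d σ)) :
    Adp (out O E) fun σ => E d σ :=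
  adp_of H fun d' σ τ h1 h2 => propext (hd d' σ τ h1 h2)

/-- value attached to the good exploration -/
def pick {X : Type*} (E : D → (S → B) → Prop) (f : D → (S → B) → X) (x0 : X) (σ : S → B) : X :=
  if h : ∃ d, E d σ then f h.choose σ else x0

theorem pick_eq {X : Type*} {f : D → (S → B) → X} {x0 : X}
    (hu : ∀ d d' σ, E d σ → E d' σ → f d σ = f d' σ) {d : D} {σ : S → B} (hd : E d σ) :
    pick E f x0 σ = f d σ := by
  have h : ∃ d, E d σ := ⟨d, hd⟩
  unfold pick
  rw [dif_pos h]
  exact hu _ _ σ h.choose_spec hd

theorem pick_none {X : Type*} {f : D → (S → B) → X} {x0 : X} {σ : S → B}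
    (h : ¬ ∃ d, E d σ) : pick E f x0 σ = x0 := by
  unfold pick
  rw [dif_neg h]

/-- **the value attached to the good exploration is adapted** -/
theorem pick_adp {X : Type*} (H : Fam O E) {f : D → (S → B) → X} {x0 : X}
    (hu : ∀ d d' σ, E d σ → E d' σ → f d σ = f d' σ)
    (hf : ∀ d σ τ, E d σ → (∀ s ∈ O d σ, τ s = σ s) → f d τ = f d σ) :
    Adp (out O E) (pick E f x0) := by
  refine adp_of H fun d σ τ h1 h2 => ?_
  rw [pick_eq hu (H.stp d σ τ h1 h2).1, pick_eq hu h1, hf d σ τ h1 h2]

/-! ### building a family -/

/-- a family from: revealed cells and event decided for each `d` separately (on the event), and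
a label `K d σ` of the exploration (its set of states) which determines the revealed cells and is
unique -/
theorem fam_of_label {X : Type*} (K : D → (S → B) → X)
    (stp : ∀ d σ τ, E d σ → (∀ s ∈ O d σ, τ s = σ s) → E d τ ∧ O d τ = O d σ)
    (det : ∀ d d' σ, E d σ → E d' σ → K d σ = K d' σ → O d σ = O d' σ)
    (uni : ∀ d d' σ, E d σ → E d' σ → K d σ = K d' σ) : Fam O E where
  stp := stp
  uni d d' σ h h' := det d d' σ h h' (uni d d' σ h h')

/-- enlarging the revealed cells of every exploration by a set `X d σ` decided by them and by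
`X` itself -/
theorem fam_union (H : Fam O E) (X : D → (S → B) → Finset S)
    (hX : ∀ d σ τ, E d σ → (∀ s ∈ O d σ ∪ X d σ, τ s = σ s) → X d τ = X d σ)
    (hu : ∀ d d' σ, E d σ → E d' σ → X d σ = X d' σ) : Fam (fun d σ => O d σ ∪ X d σ) E where
  stp d σ τ h e := by
    have e1 := H.stp d σ τ h fun s hs => e s (Finset.mem_union_left _ hs)
    refine ⟨e1.1, ?_⟩
    show O d τ ∪ X d τ = O d σ ∪ X d σ
    rw [e1.2, hX d σ τ h e]
  uni d d' σ h h' := by
    show O d σ ∪ X d σ = O d' σ ∪ X d' σ
    rw [H.uni d d' σ h h', hu d d' σ h h']

end Crest.Agent.R143.StGluex867
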