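import Crest.Agent.R143.PL_535
import Crest.Agent.R143.OutS_358

/-!
# Row 143 (S0194), RIG box Q2: the window hypotheses from the full revealed set (helper535)

* `on_arc` : the states of the full strand are on the loop of the root gap of every extension (166)
* `Sb` : at one colouring `σ`: the pieces `q` are sub-arcs of the full strand `0 .. n` of `p`, the
  other cells of the full strand are in the enlarged window `T`, LOCX (776): cells of `L` in the
  exterior (white boundary) are in the exterior off the window (next to it), `L` off `T`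
* `wn_of` : 358's `Sys` and `Sb` give `PLx535.Wn` for `O = OO`, root gap `gR`, giants `gA`
* `win_sys` : **the second moment of the root block for 358's `Sys`**
-/

set_option autoImplicit false
set_option linter.unusedSectionVars false

noncomputable section

open scoped Classical

namespace Crest.Agent.R143.PLSx535

open Crest.Agent.R143.Frame1x395 Crest.Agent.R143.Frame2x395 Crest.Agent.R143.Frame3x395
  Crest.Agent.R143.Frame4x395 Crest.Agent.R143.Frame8x395 Crest.Agent.R143.NonXx592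
  Crest.Agent.R143.Gntx535 Crest.Agent.R143.Resax778 Crest.Agent.R143.PLx535
open Extx358 (Ext Ad Bd)
open OutSx358 (Sys OO gA gR ac zc oc wg rt)

variable {D C : Type} [Fintype D] [Fintype C] {M : CMap D C} {H R T : Set C}

/-! ### the full strand is on the loop of the root gap -/

theorem on_arc {σ μ : C → ZMod 2} {p : D} {N n r : ℕ} {W : Set C} (X : R5qx166.Ex M σ p N n r W)
    (hμ : ∀ c ∈ R5qx166.EE M (cfg M σ) p n W, μ c = σ c) {t : ℕ} (ht : t ≤ n) :
    ∃ b, P M (cfg M μ) (out M (Splx117.gp M (cfg M σ) p r)) b = P M (cfg M σ) p t := by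
  obtain ⟨L, A⟩ := X.arc hμ
  have e1 : out M (Splx117.gp M (cfg M σ) p r) = P M (cfg M μ) p (r + 1) := by
    refine out_eq (cfg_isC μ) A.gp ?_
    rw [Splx117.rho_gp]
    exact (X.walk hμ X.k.hi.le).symm
  rw [e1]
  set N' := R5qx166.per M (cfg M μ) p with hN'
  have hpos : 0 < N' := L.pos
  have hper : (stp M (cfg M μ))^[N'] p = p := L.per
  refine ⟨t + (r + 1) * N' - (r + 1), ?_⟩
  have hle : r + 1 ≤ (r + 1) * N' := Nat.le_mul_of_pos_right _ hpos
  rw [← P_add, show t + (r + 1) * N' - (r + 1) + (r + 1) = t + (r + 1) * N' by omega, P_add]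
  have e2 : P M (cfg M μ) p ((r + 1) * N') = p := per_mul hper (r + 1)
  rw [e2]
  exact X.walk hμ ht

/-! ### the data at one colouring -/

section data

variable {κ : Type} [Fintype κ] {Z : κ → Uniqx323.Zn M} {L : Finset C} {p : D} {n : ℕ}
  {σ : C → ZMod 2} {q : κ → D × ℕ}

/-- the pieces `q` of the full strand `0 .. n` of `p`, and LOCX -/
structure Sb (M : CMap D C) (H R T : Set C) (Z : κ → Uniqx323.Zn M) (L : Finset C) (p : D)
    (n : ℕ) (σ : C → ZMod 2) (q : κ → D × ℕ) : Prop where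
  ev : EvP Z q σ
  /-- the pieces are sub-arcs of the full strand -/
  sub : ∀ k, ∃ t, t + (q k).2 ≤ n ∧ P M (cfg M σ) p t = (q k).1
  /-- the other cells of the full strand are in the enlarged window -/
  rest : ∀ c ∈ ac M p n σ, c ∈ Ac M q σ ∨ c ∈ T
  /-- `L` is off the enlarged window -/
  LT : ∀ c ∈ L, c ∉ T
  /-- LOCX for the exterior -/
  lx : ∀ c ∈ L, Ext M H (zc M R p n σ) c → Ext M H (Zt R T (Ac M q σ) σ) c
  /-- LOCX for the boundary -/
  lb : ∀ c ∈ L, c ∈ Bd M H (zc M R p n σ) →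
    c ∈ Ac M q σ ∨ ∃ e, Ext M H (Zt R T (Ac M q σ) σ) e ∧ Ad M e c

theorem mem_zc {c : C} : c ∈ zc M R p n σ ↔ c ∈ ac M p n σ ∨ (c ∈ R ∧ σ c = 0) := by
  have h := OutSx358.coe_ac (M := M) (p := p) (n := n) (σ := σ)
  have h1 : c ∈ ac M p n σ ↔ c ∈ (wl M (cfg M σ) p n : Set C) ∪ wr M (cfg M σ) p n := by
    rw [← h]; exact Finset.mem_coe.symm
  rw [h1]
  rfl

/-- the cells of the pieces are cells of the full strand -/
theorem Sb.ac_sub (B : Sb M H R T Z L p n σ q) {c : C} (hc : c ∈ Ac M q σ) : c ∈ ac M p n σ := by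
  obtain ⟨k, hk⟩ := mem_Ac.1 hc
  obtain ⟨t, h1, h2⟩ := B.sub k
  rcases Finset.mem_union.1 hk with h | h
  · obtain ⟨j, hj, e⟩ := mem_wl.1 h
    rw [← h2, ← P_add] at e
    exact Finset.mem_union.2 (Or.inl (mem_wl.2 ⟨j + t, by omega, e⟩))
  · obtain ⟨j, hj, e⟩ := mem_wr.1 h
    rw [← h2, ← P_add] at e
    exact Finset.mem_union.2 (Or.inr (mem_wr.2 ⟨j + t, by omega, e⟩))

/-- the exterior off the window is in the exterior -/
theorem Sb.ext_sub (B : Sb M H R T Z L p n σ q) {c : C}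
    (hc : Ext M H (Zt R T (Ac M q σ) σ) c) : Ext M H (zc M R p n σ) c := by
  refine hc.mono fun c hc h1 => hc.off ?_
  rcases mem_zc.1 h1 with h2 | h2
  · rcases B.rest c h2 with h3 | h3
    · exact Or.inl h3
    · exact Or.inr (Or.inr h3)
  · exact Or.inr (Or.inl h2)

/-- the white boundary off the window is in the boundary -/
theorem Sb.bw_sub (B : Sb M H R T Z L p n σ q) {c : C}
    (hc : c ∈ Bw M H R T (Ac M q σ) σ) : c ∈ Bd M H (zc M R p n σ) := by
  obtain ⟨h1, h2, -, e, h4, h5⟩ := hc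
  exact ⟨mem_zc.2 (Or.inr ⟨h1, h2⟩), e, B.ext_sub h4, h5⟩

end data

/-! ### for the system of strands -/

section sys

variable {κ ι : Type} [Fintype κ] {Z : κ → Uniqx323.Zn M} {L : Finset C} {Q : Set D}
  {pa : ι → (C → ZMod 2) → D} {na : ι → (C → ZMod 2) → ℕ} {Ev : ι → (C → ZMod 2) → Prop} {i : ι}
  {σ : C → ZMod 2} {q : κ → D × ℕ}

theorem mem_oc {c : C} : c ∈ oc M H R (pa i) (na i) σ ↔ c ∈ ac M (pa i σ) (na i σ) σ ∨
    Ext M H (zc M R (pa i σ) (na i σ) σ) c ∨ c ∈ Bd M H (zc M R (pa i σ) (na i σ) σ) := by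
  unfold oc
  rw [Extx358.mem_outF (Set.toFinite H)]
  unfold Extx358.Out
  rw [OutSx358.zs_eq]
  rfl

/-- **the window hypotheses from the full revealed set** -/
theorem wn_of (S : Sys M H R Q pa na Ev) (h : Ev i σ)
    (B : Sb M H R T Z L (pa i σ) (na i σ) σ q) (d₀ : D) (k : ZMod 3) :
    Wn M H R T Z (OO M H R pa na Ev) L (gR M Q pa na Ev d₀ σ) σ q
      (gA M H R Q pa na Ev k σ) k := by
  obtain ⟨g1, g2, g3, g4, g5, g6⟩ := S.main d₀ k ⟨i, h⟩
  have hoo : ∀ {c : C}, c ∈ OO M H R pa na Ev σ ↔ c ∈ ac M (pa i σ) (na i σ) σ ∨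
      Ext M H (zc M R (pa i σ) (na i σ) σ) c ∨
        c ∈ Bd M H (zc M R (pa i σ) (na i σ) σ) := by
    intro c
    rw [S.oo h]
    exact mem_oc
  refine ⟨B.ev, ⟨g1, g2, g4, g3, fun c hc c' hc' ha => g5 c hc c' hc' ha⟩, g6, ?_, ?_, ?_, ?_⟩
  · intro c hc
    rw [hoo]
    rcases mem_Pt.1 hc with h1 | h1 | h1
    · exact Or.inl (B.ac_sub h1)
    · exact Or.inr (Or.inl (B.ext_sub h1))
    · exact Or.inr (Or.inr (B.bw_sub h1))
  · intro c hc hL
    rw [hoo] at hc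
    refine mem_Pt.2 ?_
    have hac : c ∈ ac M (pa i σ) (na i σ) σ → c ∈ Ac M q σ := by
      intro h1
      rcases B.rest c h1 with h2 | h2
      · exact h2
      · exact absurd h2 (B.LT c hL)
    rcases hc with h1 | h1 | h1
    · exact Or.inl (hac h1)
    · exact Or.inr (Or.inl (B.lx c hL h1))
    · by_cases hA : c ∈ Ac M q σ
      · exact Or.inl hA
      · rcases mem_zc.1 h1.1 with h2 | h2
        · exact absurd (hac h2) hA
        · rcases B.lb c hL h1 with h3 | h3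
          · exact Or.inl h3
          · exact Or.inr (Or.inr ⟨h2.1, h2.2, B.LT c hL, h3⟩)
  · intro c hc
    obtain ⟨h1, h2⟩ := Finset.mem_filter.1 hc
    rw [S.gA_eq k h]
    show c ∈ R5qx166.AA M σ (pa i σ) (na i σ) (rt M Q pa na i σ) (wg M H R pa na i σ) k (k + 2)
    rw [R5qx166.AA_2]
    rcases mem_Pt.1 h1 with h3 | h3 | h3
    · exact absurd h3 h2
    · exact Or.inl (Or.inl (B.ext_sub h3))
    · exact Or.inl (Or.inr (B.bw_sub h3))
  · intro τ j
    obtain ⟨t, h1, h2⟩ := B.sub j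
    have hE : ∀ c ∈ R5qx166.EE M (cfg M σ) (pa i σ) (na i σ) (wg M H R pa na i σ),
        mix (OO M H R pa na Ev) σ τ c = σ c := by
      intro c hc
      rw [← S.oo_eq h] at hc
      exact mix_on (Finset.mem_coe.1 hc)
    obtain ⟨b, hb⟩ := on_arc (S.ex h) hE (t := t) (by omega)
    refine ⟨b, ?_⟩
    rw [S.gR_eq d₀ h]
    exact hb.trans h2

/-- **SECOND MOMENT OF THE ROOT BLOCK RELATIVE TO THE WEIGHT OFF THE WINDOW, FOR 358'S SYSTEM** -/
theorem win_sys (S : Sys M H R Q pa na Ev) (F : Fix M H R T Z) {w : ℂ} (w3 : w ^ 3 = 1)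
    (w1 : w ≠ 1) (wc : (starRingEnd ℂ) w = w ^ 2) {g g' : (C → ZMod 2) → ℝ} (hg : ∀ σ, 0 ≤ g σ)
    (hg0 : ∀ σ, 0 ≤ g' σ) (hgg : ∀ σ, g σ ≤ g' σ)
    (hgL : ∀ σ τ, (∀ s ∈ L, τ s = σ s) → g' τ = g' σ) {a : D → ℂ} (ha : Spin M w a)
    (sup : ∀ h, a h ≠ 0 → ∀ k, ¬ (M.cell h ∈ (Z k).R ∧ M.cell (M.rho h) ∈ (Z k).R ∧
      M.cell (M.rho (M.rho h)) ∈ (Z k).R)) (d₀ : D)
    (hW : ∀ σ, g σ ≠ 0 → ∃ i, Ev i σ ∧ ∃ q : κ → D × ℕ,
      Sb M H R T Z L (pa i σ) (na i σ) σ q) :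
    ∑ σ, ∑ τ, g σ * ‖∑ k ∈ blk M (cfg M (mix (OO M H R pa na Ev) σ τ))
      (gR M Q pa na Ev d₀ σ), a k‖ ^ 2 ≤
      (2 : ℝ) ^ (2 * Fintype.card κ + 1) / 4 * Fintype.card (C → ZMod 2) *
        ∑ σ, g' σ * ∑ k, ‖a k‖ ^ 2 := by
  refine win (O := OO M H R pa na Ev) w3 w1 wc S.stop F hg hg0 hgg hgL ha sup
    (G := gR M Q pa na Ev d₀) fun σ h => ?_
  obtain ⟨i, hi, q, B⟩ := hW σ h
  exact ⟨q, gA M H R Q pa na Ev 0 σ, 0, wn_of S hi B d₀ 0⟩

end sys

end Crest.Agent.R143.PLSx535
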