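import Crest.Agent.R143.Reach_778
import Crest.Agent.R143.C2SB_395
import Crest.Agent.R143.FinC_811

/-!
# Row 143 (S0194), RIG, quenched half (helper778): the inside is fresh

`M : CMap D C` closed map with finitely many cells, `A 0, A 1, A 2` = the explored cells (three
giants, 311's EXT: no dead cells), `g` = root gap (395's `Root M A i g`), `σ` = explored colours,
`τ` = fresh colours, `mu A σ τ` = `σ` on the giants, `τ` elsewhere.

* `sz`, `Cz`, `pz`, `cq`, `clsCon` : the contraction of the giants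
* `Ex M A i g σ` : `A i`, `A (i + 1)` black, every cell of `A (i + 2)` with a neighbour outside
  `A (i + 2)` is white (the other cells of `A (i + 2)` have any colour)
* `mt A i τ` : the same colours with `A (i + 2)` white;  `blk_mt` : the root block is the same
* `cb` : root block of the coarse map without the root;  `cb_sub` : `cb ⊆ blk`
* `seen` : the cells of the faces of the root block are not in the interior of `A (i + 2)`
* `fresh` : **mean over `τ` of `Σ_{cb} zs w z = w (Ez (i+1) + w Ez (i+2) + w² Ez i)`**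
-/

set_option autoImplicit false
set_option linter.unusedSectionVars false

noncomputable section

open scoped Classical

namespace Crest.Agent.R143.QuFx778

open Crest.Agent.R143.Frame1x395 Crest.Agent.R143.Frame2x395 Crest.Agent.R143.Frame3x395
  Crest.Agent.R143.Frame4x395 Crest.Agent.R143.Frame8x395 Crest.Agent.R143.Frame9x395
  Crest.Agent.R143.NonXx592 Crest.Agent.R143.Coarsex166 Crest.Agent.R143.Coarse2x166
  Crest.Agent.R143.Giantx46 Crest.Agent.R143.Resax778 Crest.Agent.R143.Partx778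
  Crest.Agent.R143.Reachx778 Crest.Agent.R143.C2SBx395
open Crest.Agent.R143.K33x137 (Ed Lk Cn)

section quot

variable {D C : Type} {M : CMap D C} {A : ZMod 3 → Set C}

/-- two cells are equal or in the same giant -/
def sz (G : Gi M A) : Setoid C where
  r c c' := c = c' ∨ ∃ j, c ∈ A j ∧ c' ∈ A j
  iseqv := by
    refine ⟨fun c => Or.inl rfl, ?_, ?_⟩
    · rintro c c' (h | ⟨j, h1, h2⟩)
      · exact Or.inl h.symm
      · exact Or.inr ⟨j, h2, h1⟩
    · rintro c c' c'' (h | ⟨j, h1, h2⟩) (h' | ⟨k, h3, h4⟩)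
      · exact Or.inl (h.trans h')
      · exact Or.inr ⟨k, h ▸ h3, h4⟩
      · exact Or.inr ⟨j, h1, h' ▸ h2⟩
      · exact Or.inr ⟨j, h1, by rw [G.disj _ _ _ h2 h3]; exact h4⟩

/-- the cells of the coarse map -/
def Cz (G : Gi M A) : Type := Quotient (sz G)

/-- **contraction of the giants** -/
def pz (G : Gi M A) (c : C) : Cz G := Quotient.mk (sz G) c

instance [Finite C] (G : Gi M A) : Finite (Cz G) := Quotient.finite _

instance [Finite C] (G : Gi M A) : Fintype (Cz G) := Fintype.ofFinite _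

theorem cq (G : Gi M A) : Cq (pz G) A where
  surj := Quotient.mk_surjective
  ker := fun _ _ => Quotient.eq (r := sz G)

theorem clsCon (G : Gi M A) : ClsCon M (pz G) := by
  intro a b h
  rcases ((cq G).ker _ _).1 h with e | ⟨j, h1, h2⟩
  · rw [e]
    exact Relation.EqvGen.refl _
  · have h3 := G.con j _ h1 _ h2
    clear h h1 h2
    generalize M.cell a = u at h3
    generalize M.cell b = v at h3
    induction h3 with
    | rel u v h =>
      obtain ⟨h1, h2, d, h3, h4⟩ := h
      by_cases hd : d ∈ M.live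
      · exact Relation.EqvGen.rel _ _ ⟨(cq G).eq h1 h2, d, hd, h3, h4⟩
      · rw [← h3, ← h4, M.dead d hd]
        exact Relation.EqvGen.refl _
    | refl u => exact Relation.EqvGen.refl _
    | symm u v _ ih => exact ih.symm
    | trans u v w _ _ ih1 ih2 => exact ih1.trans _ _ _ ih2

end quot

section cmap

variable {D C : Type} [Fintype D] [Fintype C] {M : CMap D C} {A : ZMod 3 → Set C} {i : ZMod 3}
  {g : D} {σ τ : C → ZMod 2}

/-- **the explored cells and their colours** -/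
structure Ex (M : CMap D C) (A : ZMod 3 → Set C) (i : ZMod 3) (g : D) (σ : C → ZMod 2) : Prop where
  gi : Gi M A
  root : Root M A i g
  b0 : ∀ c ∈ A i, σ c = 1
  b1 : ∀ c ∈ A (i + 1), σ c = 1
  w : ∀ c ∈ A (i + 2), ∀ c', c' ∉ A (i + 2) → Ad M c c' → σ c = 0

/-- the explored cells -/
def Eo (A : ZMod 3 → Set C) : Finset C := Finset.univ.filter fun c => ¬ Free A c

theorem mem_Eo {c : C} : c ∈ Eo A ↔ ¬ Free A c := by
  unfold Eo
  rw [Finset.mem_filter]
  exact ⟨fun h => h.2, fun h => ⟨Finset.mem_univ _, h⟩⟩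

theorem not_free {c : C} {j : ZMod 3} (h : c ∈ A j) : ¬ Free A c := fun h' => h' j h

/-- `σ` on the giants, fresh elsewhere -/
def mu (A : ZMod 3 → Set C) (σ τ : C → ZMod 2) : C → ZMod 2 := glue (Eo A) σ τ

/-- black on `A i`, `A (i + 1)`, white on `A (i + 2)`, fresh elsewhere -/
def mt (A : ZMod 3 → Set C) (i : ZMod 3) (τ : C → ZMod 2) (c : C) : ZMod 2 :=
  if c ∈ A (i + 2) then 0 else if Free A c then τ c else 1

theorem mt_w {c : C} (h : c ∈ A (i + 2)) : mt A i τ c = 0 := if_pos h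

theorem mt_free {c : C} (h : Free A c) : mt A i τ c = τ c := by
  unfold mt
  rw [if_neg (h _), if_pos h]

theorem mt_b (G : Gi M A) {c : C} {j : ZMod 3} (h : c ∈ A j) (hj : j ≠ i + 2) :
    mt A i τ c = 1 := by
  unfold mt
  rw [if_neg fun h' => hj (G.disj _ _ _ h h'), if_neg (not_free h)]

theorem mu_free {c : C} (h : Free A c) : mu A σ τ c = τ c :=
  glue_off fun h' => mem_Eo.1 h' h

theorem mu_on {c : C} {j : ZMod 3} (h : c ∈ A j) : mu A σ τ c = σ c :=
  glue_on (mem_Eo.2 (not_free h))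

/-- the border of `A j` -/
def Bd (M : CMap D C) (A : ZMod 3 → Set C) (j : ZMod 3) : Set C :=
  {c | c ∈ A j ∧ ∃ c', c' ∉ A j ∧ Ad M c c'}

/-- what is joined to `u` avoiding the border of `A j` is not in `A j` -/
theorem rch_not {j : ZMod 3} {u c : C} (hu : u ∉ A j) (h : c ∈ Rch M (Bd M A j) {u}) :
    c ∉ A j := by
  obtain ⟨a, ha, h⟩ := h
  have ha' : a = u := ha
  subst ha'
  induction h with
  | refl => exact hu
  | @tail b c _ h2 ih =>
    intro hc
    exact h2.1 ⟨hc, b, ih, h2.2.symm⟩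

theorem Ex.w0 (H : Ex M A i g σ) {c : C} (h : c ∈ Bd M A (i + 2)) : σ c = 0 := by
  obtain ⟨h1, c', h2, h3⟩ := h
  exact H.w c h1 c' h2 h3

theorem Ex.bd (H : Ex M A i g σ) : M.cell (M.rho (M.rho g)) ∈ Bd M A (i + 2) := by
  refine ⟨H.root.r2, M.cell (M.rho g), fun h => ?_, ⟨M.rho g, Or.inr ⟨rfl, rfl⟩⟩⟩
  exact (z3a i).2.1 (H.gi.disj _ _ _ H.root.r1 h)

theorem Ex.gs (H : Ex M A i g σ) :
    GS M (Bd M A (i + 2)) {M.cell (M.rho g)} (mt A i τ) (M.rho g) := by
  refine ⟨mt_b H.gi H.root.r1 (z3a i).2.1, mt_w H.root.r2, rch_self rfl⟩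

theorem Ex.gap (H : Ex M A i g σ) : Gp M (cfg M (mt A i τ)) g := by
  have c0 : mt A i τ (M.cell g) = 1 := mt_b H.gi H.root.r0 (z3a i).2.2
  have c1 : mt A i τ (M.cell (M.rho g)) = 1 := mt_b H.gi H.root.r1 (z3a i).2.1
  have c2 : mt A i τ (M.cell (M.rho (M.rho g))) = 0 := mt_w H.root.r2
  constructor
  · show mt A i τ (M.cell g) + mt A i τ (M.cell (M.rho g)) = 0
    rw [c0, c1]; decide
  · show mt A i τ (M.cell (M.rho g)) + mt A i τ (M.cell (M.rho (M.rho g))) = 1
    rw [c1, c2]; decide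

/-- the two colourings agree on what is seen -/
theorem Ex.agree (H : Ex M A i g σ) {c : C}
    (h : c ∈ Rch M (Bd M A (i + 2)) {M.cell (M.rho g)} ∪ Bd M A (i + 2)) :
    mu A σ τ c = mt A i τ c := by
  rcases h with h | h
  · have h1 := rch_not (fun h => (z3a i).2.1 (H.gi.disj _ _ _ H.root.r1 h)) h
    by_cases hf : Free A c
    · rw [mu_free hf, mt_free hf]
    · unfold Free at hf
      push Not at hf
      obtain ⟨j, hj⟩ := hf
      rcases z3c i j with rfl | rfl | rfl
      · rw [mu_on hj, H.b0 _ hj, mt_b H.gi hj (z3a _).2.1]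
      · rw [mu_on hj, H.b1 _ hj, mt_b H.gi hj (z3a _).2.2]
      · exact absurd hj h1
  · rw [mu_on h.1, H.w0 h, mt_w h.1]

/-- **LOCALITY: the root block does not see the interior of the white giant** -/
theorem Ex.blk_mt (H : Ex M A i g σ) :
    blk M (cfg M (mu A σ τ)) g = blk M (cfg M (mt A i τ)) g :=
  blk_loc (W := Bd M A (i + 2)) (A := {M.cell (M.rho g)}) (fun _ hc => mt_w hc.1) H.gap H.gs
    fun _ hc => H.agree hc

/-- **the faces of the root block** -/
theorem Ex.seen (H : Ex M A i g σ) {h : D} (hh : h ∈ blk M (cfg M (mt A i τ)) g) {c : C}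
    (hc : c = M.cell h ∨ c = M.cell (M.rho h) ∨ c = M.cell (M.rho (M.rho h))) :
    c ∉ A (i + 2) ∨ c ∈ Bd M A (i + 2) := by
  obtain ⟨h1, h2⟩ := mem_blk.1 hh
  have go := gs_out (fun _ hc => mt_w hc.1) (H.gap (τ := τ)) H.gs
  obtain ⟨n, hn⟩ := on_loop (cfg_isC _) H.gap h1 h2
  have gk : GS M (Bd M A (i + 2)) {M.cell (M.rho g)} (mt A i τ) (M.rho h) := by
    rw [← hn]
    exact (walk_loc (χ' := mt A i τ) (fun _ hc => mt_w hc.1) go (fun _ _ => rfl) n).2
  have key : c ∈ Rch M (Bd M A (i + 2)) {M.cell (M.rho g)} ∪ Bd M A (i + 2) := by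
    rcases hc with rfl | rfl | rfl
    · have := gk.third
      rwa [M.rho3] at this
    · exact Or.inl gk.m
    · exact gk.right
  rcases key with h3 | h3
  · exact Or.inl (rch_not (fun h => (z3a i).2.1 (H.gi.disj _ _ _ H.root.r1 h)) h3)
  · exact Or.inr h3

/-- colours of the coarse map -/
theorem mt_lift (G : Gi M A) : ∃ ψ : Cz G → ZMod 2, (fun c => ψ (pz G c)) = mt A i τ := by
  have key : ∀ c c', pz G c = pz G c' → mt A i τ c = mt A i τ c' := by
    intro c c' e
    rcases ((cq G).ker _ _).1 e with rfl | ⟨j, h1, h2⟩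
    · rfl
    · by_cases hj : j = i + 2
      · subst hj
        rw [mt_w h1, mt_w h2]
      · rw [mt_b G h1 hj, mt_b G h2 hj]
  refine ⟨fun c' => mt A i τ ((cq G).surj c').choose, funext fun c => ?_⟩
  exact key _ _ ((cq G).surj (pz G c)).choose_spec

theorem isC_mt (G : Gi M A) : IsC (coarse M (pz G) (clsCon G)) ∅ (cfg M (mt A i τ)) := by
  obtain ⟨ψ, h⟩ := mt_lift (i := i) (τ := τ) G
  rw [← h, ← cfg_coarse (hπ := clsCon G)]
  exact cfg_isC _

/-- **the root block of the coarse map, without the root** -/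
def cb (M : CMap D C) (A : ZMod 3 → Set C) (i : ZMod 3) (g : D) (τ : C → ZMod 2) : Finset D :=
  if h : Gi M A then (blk (coarse M (pz h) (clsCon h)) (cfg M (mt A i τ)) g).erase g else ∅

theorem cb_eq (G : Gi M A) :
    cb M A i g τ = (blk (coarse M (pz G) (clsCon G)) (cfg M (mt A i τ)) g).erase g := dif_pos G

theorem Ex.cb_sub (H : Ex M A i g σ) : cb M A i g τ ⊆ blk M (cfg M (mu A σ τ)) g := by
  rw [H.blk_mt, cb_eq H.gi]
  exact (Finset.erase_subset _ _).trans blk_coarse_sub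

/-- splitting of the root block -/
theorem Ex.split (H : Ex M A i g σ) {X : Type} [AddCommGroup X] (F : D → X) :
    ∑ h ∈ blk M (cfg M (mu A σ τ)) g, F h =
      ∑ h ∈ cb M A i g τ, F h + ∑ h ∈ blk M (cfg M (mu A σ τ)) g \ cb M A i g τ, F h := by
  rw [add_comm, Finset.sum_sdiff H.cb_sub]

/-- **(QF) mean over the fresh colours** -/
theorem Ex.fresh (H : Ex M A i g σ) {w : ℂ} (w3 : w ^ 3 = 1) (w1 : 1 + w + w ^ 2 = 0)
    (z : C → ℂ) :
    ∑ τ : C → ZMod 2, ∑ h ∈ cb M A i g τ, zs M w z h = (Fintype.card (C → ZMod 2) : ℂ) *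
      (w * (Ez M A (i + 1) z + w * Ez M A (i + 2) z + w ^ 2 * Ez M A i z)) := by
  set χ₀ : C → ZMod 2 := fun c => if c ∈ A (i + 2) then 0 else 1 with hχ₀
  have hc : Rc A i χ₀ := rc_exists H.gi i
  have h1 : ∀ τ, mt A i τ = glue (Eo A) χ₀ τ := by
    intro τ
    funext c
    by_cases hf : Free A c
    · rw [mt_free hf, glue_off fun h => mem_Eo.1 h hf]
    · rw [glue_on (mem_Eo.2 hf)]
      unfold mt
      rw [if_neg hf]
  have h2 := sum_glue (Eo A) χ₀ fun χ =>
    ∑ h ∈ (blk (coarse M (pz H.gi) (clsCon H.gi)) (cfg M χ) g).erase g, zs M w z h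
  have h3 := mean_static (hπ := clsCon H.gi) w3 w1 H.root (cq H.gi) H.gi hc z
  have h4 : ∑ τ : C → ZMod 2, ∑ h ∈ cb M A i g τ, zs M w z h = ∑ τ : C → ZMod 2,
      ∑ h ∈ (blk (coarse M (pz H.gi) (clsCon H.gi)) (cfg M (glue (Eo A) χ₀ τ)) g).erase g,
        zs M w z h := by
    refine Finset.sum_congr rfl fun τ _ => ?_
    rw [cb_eq H.gi, h1]
  have h5 : ∑ χ ∈ pre (Eo A) χ₀,
      ∑ h ∈ (blk (coarse M (pz H.gi) (clsCon H.gi)) (cfg M χ) g).erase g, zs M w z h =
      ∑ χ : C → ZMod 2, if Pin A χ₀ χ then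
        ∑ h ∈ (blk (coarse M (pz H.gi) (clsCon H.gi)) (cfg M χ) g).erase g, zs M w z h else 0 := by
    unfold pre
    rw [Finset.sum_filter]
    refine Finset.sum_congr rfl fun χ _ => ?_
    congr 1
    exact propext ⟨fun h c hc => h c (mem_Eo.2 hc), fun h c hc => h c (mem_Eo.1 hc)⟩
  have h6 : (pre (Eo A) χ₀).card = N0 A := by
    rw [← n0_eq χ₀]
    congr 1
    unfold pre
    refine Finset.filter_congr fun χ _ => ?_
    exact ⟨fun h c hc => h c (mem_Eo.2 hc), fun h c hc => h c (mem_Eo.1 hc)⟩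
  have h7 := card_pre (Eo A) χ₀
  rw [h4, h2, h5, h3, ← h7, h6, nsmul_eq_mul]
  push_cast
  ring

end cmap

end Crest.Agent.R143.QuFx778
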