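import Crest.Agent.R143.OutS_358
import Crest.Agent.R143.QuF_778
import Crest.Agent.R143.QuS_166

/-!
# Row 143 (S0194), RIG (helper166): from 358's `Sys` to the fields of 970's `main_good`

`M : CMap D C`, `[Fintype C]`, `S : Sys M H R Q pa na Ev`; `k : ZMod 3` the type; `w : D → ℂ` a field.
Functions of `σ` (first colouring) and `τ` (second colouring):
* `mx σ τ` : the mixed colouring; `Vb`, `Vg` : root block, coarse root block without the root
* `Vs l σ` : spatial tile charges (adapted)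
* `Sys.close` : **close**; `Sys.part`, `Sys.wr` : partial parts; `Sys.idx` : tiles of the touches
* `Sys.fresh` : **fresh**
-/

set_option autoImplicit false
set_option linter.unusedSectionVars false

noncomputable section

open scoped Classical

namespace Crest.Agent.R143.SysCx166

open Crest.Agent.R143.Frame1x395 Crest.Agent.R143.Frame2x395 Crest.Agent.R143.Frame3x395
  Crest.Agent.R143.Frame4x395 Crest.Agent.R143.Frame8x395 Crest.Agent.R143.Frame9x395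
  Crest.Agent.R143.NonXx592 Crest.Agent.R143.Coarsex166 Crest.Agent.R143.Coarse2x166
  Crest.Agent.R143.R5bx166 Crest.Agent.R143.R5qx166 Crest.Agent.R143.QuSx166
  Crest.Agent.R143.OutSx358

open Splx117 (Lp InK gp)
open C2SBx395 (Cq Root Free Rc Pin yv Hit Ez)
open Sptx169 (KP Reg Wl Vl rst)
open Resax778 (StopSet Adp glue mix glue_on glue_off mix_on mix_off)
open StGluex867 (Fam out pick pick_eq pick_adp)

section one

variable {D C : Type} [Fintype D] [Fintype C] {M : CMap D C} {σ τ μ : C → ZMod 2} {p : D}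
  {N n r : ℕ} {W : Set C} {k : ZMod 3}

/-- the colouring of 778 -/
theorem r0_mt (X : R5qx166.Ex M σ p N n r W) (hE : ∀ c ∈ EE M (cfg M σ) p n W, μ c = σ c)
    (hF : ∀ c ∉ EE M (cfg M σ) p n W, μ c = τ c) :
    r0 W μ = QuFx778.mt (AA M σ p n r W k) k τ := by
  funext c
  have hr := X.k.hi
  by_cases hW : c ∈ W
  · rw [r0_W hW, QuFx778.mt_w (by rw [AA_2]; exact hW)]
  · rw [r0_F hW]
    by_cases hf : Free (AA M σ p n r W k) c
    · rw [QuFx778.mt_free hf, hF c fun h => (X.not_free (i := k)).2 h hf]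
    · have hc := X.not_free.1 hf
      have h1 : μ c = 1 := by
        rcases hc with ⟨u, h1, rfl⟩ | h
        · rw [hE _ (Or.inl ⟨u, h1, rfl⟩)]
          exact X.lcol u
        · exact absurd h hW
      rw [h1]
      unfold QuFx778.mt
      rw [if_neg (by rw [AA_2]; exact hW), if_neg hf]

/-- the coarse root block of 778 -/
theorem cb_eq' (X : R5qx166.Ex M σ p N n r W) (hE : ∀ c ∈ EE M (cfg M σ) p n W, μ c = σ c)
    (hF : ∀ c ∉ EE M (cfg M σ) p n W, μ c = τ c) (g : D) :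
    QuFx778.cb M (AA M σ p n r W k) k g τ =
      (blk (coarse M (QuFx778.pz (X.gi (i := k))) (QuFx778.clsCon X.gi))
        (cfg M (r0 W μ)) g).erase g := by
  rw [QuFx778.cb_eq X.gi, r0_mt (k := k) X hE hF]

/-- 778's hypotheses -/
theorem exF (X : R5qx166.Ex M σ p N n r W) :
    QuFx778.Ex M (AA M σ p n r W k) k (gp M (cfg M σ) p r) σ :=
  ⟨X.gi, X.root, X.colA.2, X.colA.1, fun _ hc _ hc' ha => X.bdAd hc ha hc'⟩

end one

/-! ### the system -/

section sys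

variable {D C ι : Type} [Fintype D] [Fintype C] {M : CMap D C} {H R : Set C} {Q : Set D}
  {pa : ι → (C → ZMod 2) → D} {na : ι → (C → ZMod 2) → ℕ} {Ev : ι → (C → ZMod 2) → Prop}
  {σ τ : C → ZMod 2} {i : ι} {k : ZMod 3} {nn m : ℕ} {F : ℕ → Set D} {w : D → ℂ} {d₀ : D}

/-- the mixed colouring -/
abbrev mx (M : CMap D C) (H R : Set C) (pa : ι → (C → ZMod 2) → D) (na : ι → (C → ZMod 2) → ℕ)
    (Ev : ι → (C → ZMod 2) → Prop) (σ τ : C → ZMod 2) : C → ZMod 2 :=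
  mix (OO M H R pa na Ev) σ τ

/-- sum over the root block of the mixed colouring -/
def Vb (M : CMap D C) (H R : Set C) (Q : Set D) (pa : ι → (C → ZMod 2) → D)
    (na : ι → (C → ZMod 2) → ℕ) (Ev : ι → (C → ZMod 2) → Prop) (d₀ : D) (w : D → ℂ)
    (σ τ : C → ZMod 2) : ℂ :=
  ∑ h ∈ blk M (cfg M (mx M H R pa na Ev σ τ)) (gR M Q pa na Ev d₀ σ), w h

/-- sum over the root block of the coarse map, without the root -/
def Vg (M : CMap D C) (H R : Set C) (Q : Set D) (pa : ι → (C → ZMod 2) → D)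
    (na : ι → (C → ZMod 2) → ℕ) (Ev : ι → (C → ZMod 2) → Prop) (k : ZMod 3) (d₀ : D) (w : D → ℂ)
    (σ τ : C → ZMod 2) : ℂ :=
  ∑ h ∈ QuFx778.cb M (gA M H R Q pa na Ev k σ) k (gR M Q pa na Ev d₀ σ) τ, w h

/-- charge of the region `l` between the touches = difference of the two sums of the restricted
field -/
def Wd (M : CMap D C) (H R : Set C) (Q : Set D) (pa : ι → (C → ZMod 2) → D)
    (na : ι → (C → ZMod 2) → ℕ) (Ev : ι → (C → ZMod 2) → Prop) (k : ZMod 3) (d₀ : D) (w : D → ℂ)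
    (F : ℕ → Set D) (l : ℕ) (σ τ : C → ZMod 2) : ℂ :=
  Vb M H R Q pa na Ev d₀ (rst w (F l)) σ τ - Vg M H R Q pa na Ev k d₀ (rst w (F l)) σ τ

/-- **spatial tile charges**, a function of the revealed colours -/
def Vs (M : CMap D C) (pa : ι → (C → ZMod 2) → D) (na : ι → (C → ZMod 2) → ℕ)
    (Ev : ι → (C → ZMod 2) → Prop) (w : D → ℂ) (F : ℕ → Set D) (l : ℕ) : (C → ZMod 2) → ℂ :=
  pick Ev (fun i σ => Splx117.KS M (cfg M σ) (pa i σ) (rst w (F l)) 0 (na i σ)) 0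

/-- a strand with its tiles -/
def Hv (M : CMap D C) (pa : ι → (C → ZMod 2) → D) (na : ι → (C → ZMod 2) → ℕ)
    (Ev : ι → (C → ZMod 2) → Prop) (nn m : ℕ) (F : ℕ → Set D) (tl : C → ℕ) (σ : C → ZMod 2)
    (x : ι × (ℕ → ℕ)) : Prop :=
  Ev x.1 σ ∧ x.2 0 = 0 ∧ x.2 nn = na x.1 σ ∧ Reg M (cfg M σ) (pa x.1 σ) x.2 nn m F ∧
    ∀ j, j < nn → ∀ u, x.2 j ≤ u → u ≤ x.2 (j + 1) →
      j ≤ tl (M.cell (P M (cfg M σ) (pa x.1 σ) u)) + 1 ∧
        tl (M.cell (P M (cfg M σ) (pa x.1 σ) u)) ≤ j + 1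

/-- **the event `g > 0`** as it is used here -/
def Hx (M : CMap D C) (pa : ι → (C → ZMod 2) → D) (na : ι → (C → ZMod 2) → ℕ)
    (Ev : ι → (C → ZMod 2) → Prop) (nn m : ℕ) (F : ℕ → Set D) (tl : C → ℕ) (σ : C → ZMod 2) :
    Prop := ∃ x, Hv M pa na Ev nn m F tl σ x

/-- tile of the touch of `A k` -/
def ka (M : CMap D C) (H R : Set C) (Q : Set D) (pa : ι → (C → ZMod 2) → D)
    (na : ι → (C → ZMod 2) → ℕ) (Ev : ι → (C → ZMod 2) → Prop) (nn m : ℕ) (F : ℕ → Set D)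
    (tl : C → ℕ) (σ τ : C → ZMod 2) : ℕ :=
  if h : Hx M pa na Ev nn m F tl σ then
    kaT M (mx M H R pa na Ev σ τ) (pa h.choose.1 σ) (na h.choose.1 σ) (rt M Q pa na h.choose.1 σ)
      h.choose.2 nn else 0

/-- tile of the touch of `A (k + 1)` -/
def kb (M : CMap D C) (H R : Set C) (Q : Set D) (pa : ι → (C → ZMod 2) → D)
    (na : ι → (C → ZMod 2) → ℕ) (Ev : ι → (C → ZMod 2) → Prop) (nn m : ℕ) (F : ℕ → Set D)
    (tl : C → ℕ) (σ τ : C → ZMod 2) : ℕ :=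
  if h : Hx M pa na Ev nn m F tl σ then
    kbT M (mx M H R pa na Ev σ τ) (pa h.choose.1 σ) (na h.choose.1 σ) (rt M Q pa na h.choose.1 σ)
      h.choose.2 nn else 0

variable {tl : C → ℕ}

theorem _root_.Crest.Agent.R143.OutSx358.Sys.hE (S : Sys M H R Q pa na Ev) (h : Ev i σ) :
    (∀ c ∈ EE M (cfg M σ) (pa i σ) (na i σ) (wg M H R pa na i σ),
      mx M H R pa na Ev σ τ c = σ c) ∧
    ∀ c ∉ EE M (cfg M σ) (pa i σ) (na i σ) (wg M H R pa na i σ),
      mx M H R pa na Ev σ τ c = τ c := by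
  constructor
  · intro c hc
    rw [← S.oo_eq h] at hc
    exact mix_on hc
  · intro c hc
    rw [← S.oo_eq h] at hc
    exact mix_off fun h' => hc h'

/-- sums of the coarse block -/
theorem _root_.Crest.Agent.R143.OutSx358.Sys.vg (S : Sys M H R Q pa na Ev) (h : Ev i σ) :
    Vg M H R Q pa na Ev k d₀ w σ τ =
      ∑ h ∈ (blk (coarse M (QuFx778.pz ((S.ex h).gi (i := k))) (QuFx778.clsCon (S.ex h).gi))
        (cfg M (r0 (wg M H R pa na i σ) (mx M H R pa na Ev σ τ)))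
          (gr M Q pa na i σ)).erase (gr M Q pa na i σ), w h := by
  obtain ⟨h1, h2⟩ := S.hE (τ := τ) h
  unfold Vg
  rw [S.gA_eq k h, S.gR_eq d₀ h, cb_eq' (S.ex h) h1 h2]

/-- **the closing of every field** -/
theorem _root_.Crest.Agent.R143.OutSx358.Sys.close0 (S : Sys M H R Q pa na Ev) (h : Ev i σ)
    (w : D → ℂ) :
    Vb M H R Q pa na Ev d₀ w σ τ = Vg M H R Q pa na Ev k d₀ w σ τ +
      ∑ j ∈ tG M σ (mx M H R pa na Ev σ τ) (pa i σ) (na i σ) (rt M Q pa na i σ),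
        w (gp M (cfg M σ) (pa i σ) j) := by
  obtain ⟨h1, h2⟩ := S.hE (τ := τ) h
  rw [S.vg (k := k) h]
  unfold Vb
  rw [S.gR_eq d₀ h]
  exact (S.ex h).close (QuFx778.cq _) h1 w

variable (k d₀) in
/-- **fields of `Quen` at one pair of colourings** -/
theorem _root_.Crest.Agent.R143.OutSx358.Sys.fields (S : Sys M H R Q pa na Ev)
    (hx : Hx M pa na Ev nn m F tl σ) (hnn : 0 < nn) (w : D → ℂ) (τ : C → ZMod 2) :
    (ka M H R Q pa na Ev nn m F tl σ τ ≤ kb M H R Q pa na Ev nn m F tl σ τ ∧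
      kb M H R Q pa na Ev nn m F tl σ τ < nn) ∧
    (∀ l, ka M H R Q pa na Ev nn m F tl σ τ + 2 ≤ l →
      l + 2 < kb M H R Q pa na Ev nn m F tl σ τ →
        Wd M H R Q pa na Ev k d₀ w F l σ τ = Vs M pa na Ev w F l σ) ∧
    (∀ l, l + 2 < ka M H R Q pa na Ev nn m F tl σ τ ∨
      kb M H R Q pa na Ev nn m F tl σ τ + 2 ≤ l → Wd M H R Q pa na Ev k d₀ w F l σ τ = 0) ∧
    (∀ l, m ≤ l → Wd M H R Q pa na Ev k d₀ w F l σ τ = 0) ∧
    Vb M H R Q pa na Ev d₀ w σ τ = Vg M H R Q pa na Ev k d₀ w σ τ +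
      ∑ l ∈ Finset.range m, Wd M H R Q pa na Ev k d₀ w F l σ τ := by
  have hspec := hx.choose_spec
  set x := hx.choose with hxdef
  have e1 : ka M H R Q pa na Ev nn m F tl σ τ =
      kaT M (mx M H R pa na Ev σ τ) (pa x.1 σ) (na x.1 σ) (rt M Q pa na x.1 σ) x.2 nn := by
    unfold ka
    rw [dif_pos hx]
  have e2 : kb M H R Q pa na Ev nn m F tl σ τ =
      kbT M (mx M H R pa na Ev σ τ) (pa x.1 σ) (na x.1 σ) (rt M Q pa na x.1 σ) x.2 nn := by
    unfold kb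
    rw [dif_pos hx]
  obtain ⟨hEv, h0, hn, hReg, -⟩ := hspec
  obtain ⟨g1, g2⟩ := S.hE (τ := τ) hEv
  have X := S.ex hEv
  have mono : ∀ j, j < nn → x.2 j ≤ x.2 (j + 1) := fun j hj => hReg.mono j (Nat.zero_le j) hj
  obtain ⟨t1, t2, t3⟩ := X.tA_spec g1
  obtain ⟨c1, c2, c3, c4, c5, c6⟩ := X.touch h0 hn hnn g1 mono
  have hW : ∀ l, Wd M H R Q pa na Ev k d₀ w F l σ τ =
      Wl M (cfg M σ) (pa x.1 σ) x.2 nn w F
        (tB M (mx M H R pa na Ev σ τ) (pa x.1 σ) (na x.1 σ) (rt M Q pa na x.1 σ))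
        (tA M (mx M H R pa na Ev σ τ) (pa x.1 σ) (na x.1 σ) (rt M Q pa na x.1 σ)) l := by
    intro l
    unfold Wd
    rw [S.close0 (k := k) hEv (rst w (F l)), add_sub_cancel_left, kp_eq h0 hn]
    rfl
  have hV : ∀ l, Vs M pa na Ev w F l σ = Vl M (cfg M σ) (pa x.1 σ) x.2 nn w F l := by
    intro l
    unfold Vs
    rw [pick_eq (fun i j σ hi hj => ?_) hEv]
    · unfold Sptx169.Vl
      rw [h0, hn]
    · obtain ⟨e3, e4⟩ := S.uni i j σ hi hj
      rw [e3, e4]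
  rw [e1, e2]
  refine ⟨⟨c1, c2⟩, fun l h1 h2 => ?_, fun l h1 => ?_, fun l h1 => ?_, ?_⟩
  · rw [hW, hV]
    exact hReg.wl_in (by omega) (by omega) (by omega) c4 c5 c2 h1 h2
  · rw [hW]
    exact hReg.wl_out (by omega) (by omega) c3 (by omega) c6 h1
  · rw [hW]
    exact wr_zero hReg (by omega) (by omega) h1
  · rw [S.close0 (k := k) hEv w, kp_eq h0 hn w, hReg.wl_sum (w := w) (by omega) (by omega)]
    congr 1
    exact Finset.sum_congr rfl fun l _ => (hW l).symm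

/-- **index half of `near`** -/
theorem _root_.Crest.Agent.R143.OutSx358.Sys.index (S : Sys M H R Q pa na Ev)
    (hx : Hx M pa na Ev nn m F tl σ) (hnn : 0 < nn) (τ : C → ZMod 2) (k : ZMod 3) :
    (ka M H R Q pa na Ev nn m F tl σ τ ≤
        yv M (gA M H R Q pa na Ev k σ) k {c | mx M H R pa na Ev σ τ c = 1} tl + 1 ∧
      yv M (gA M H R Q pa na Ev k σ) k {c | mx M H R pa na Ev σ τ c = 1} tl ≤
        ka M H R Q pa na Ev nn m F tl σ τ + 1) ∧
    kb M H R Q pa na Ev nn m F tl σ τ ≤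
        yv M (gA M H R Q pa na Ev k σ) (k + 1) {c | mx M H R pa na Ev σ τ c = 1}ᶜ tl + 1 ∧
      yv M (gA M H R Q pa na Ev k σ) (k + 1) {c | mx M H R pa na Ev σ τ c = 1}ᶜ tl ≤
        kb M H R Q pa na Ev nn m F tl σ τ + 1 := by
  have hspec := hx.choose_spec
  set x := hx.choose with hxdef
  have e1 : ka M H R Q pa na Ev nn m F tl σ τ =
      kaT M (mx M H R pa na Ev σ τ) (pa x.1 σ) (na x.1 σ) (rt M Q pa na x.1 σ) x.2 nn := by
    unfold ka
    rw [dif_pos hx]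
  have e2 : kb M H R Q pa na Ev nn m F tl σ τ =
      kbT M (mx M H R pa na Ev σ τ) (pa x.1 σ) (na x.1 σ) (rt M Q pa na x.1 σ) x.2 nn := by
    unfold kb
    rw [dif_pos hx]
  obtain ⟨hEv, h0, hn, hReg, htl⟩ := hspec
  obtain ⟨g1, g2⟩ := S.hE (τ := τ) hEv
  have X := S.ex hEv
  have mono : ∀ j, j < nn → x.2 j ≤ x.2 (j + 1) := fun j hj => hReg.mono j (Nat.zero_le j) hj
  obtain ⟨c1, c2, c3, c4, c5, c6⟩ := X.touch h0 hn hnn g1 mono
  obtain ⟨y1, y2⟩ := X.yv_eq (QuFx778.cq (X.gi (i := k))) g1 tl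
  have f1 := htl _ (by omega) _ c3 c4
  have f2 := htl _ c2 _ c5 c6
  rw [S.gA_eq k hEv, e1, e2]
  have y1' : yv M (ga M H R Q pa na k x.1 σ) k {c | mx M H R pa na Ev σ τ c = 1} tl = _ := y1
  have y2' : yv M (ga M H R Q pa na k x.1 σ) (k + 1) {c | mx M H R pa na Ev σ τ c = 1}ᶜ tl = _ :=
    y2
  rw [y1', y2']
  exact ⟨⟨f1.1, f1.2⟩, f2.1, f2.2⟩

/-- **fresh** -/
theorem _root_.Crest.Agent.R143.OutSx358.Sys.fresh (S : Sys M H R Q pa na Ev) (h : Ev i σ)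
    {w : ℂ} (w3 : w ^ 3 = 1) (w1 : 1 + w + w ^ 2 = 0) (z : C → ℂ) :
    ∑ τ : C → ZMod 2, Vg M H R Q pa na Ev k d₀ (zs M w z) σ τ =
      (Fintype.card (C → ZMod 2) : ℂ) * (w * (Ez M (gA M H R Q pa na Ev k σ) (k + 1) z +
        w * Ez M (gA M H R Q pa na Ev k σ) (k + 2) z +
          w ^ 2 * Ez M (gA M H R Q pa na Ev k σ) k z)) := by
  have h1 := (exF (k := k) (S.ex h)).fresh w3 w1 z
  unfold Vg
  rw [S.gA_eq k h, S.gR_eq d₀ h]
  exact h1

/-- the charges are adapted -/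
theorem _root_.Crest.Agent.R143.OutSx358.Sys.vs_adp (S : Sys M H R Q pa na Ev) (w : D → ℂ)
    (F : ℕ → Set D) (l : ℕ) :
    Adp (OO M H R pa na Ev) (Vs M pa na Ev w F l) := by
  refine pick_adp S.fam (fun i j σ hi hj => ?_) fun i σ τ h ha => ?_
  · obtain ⟨e3, e4⟩ := S.uni i j σ hi hj
    rw [e3, e4]
  · obtain ⟨e1, e2, e3, -, -, -⟩ := S.dec h ha
    have hE : ∀ c ∈ EE M (cfg M σ) (pa i σ) (na i σ) (wg M H R pa na i σ), τ c = σ c := by
      intro c hc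
      refine ha c ?_
      rw [← oc_eq] at hc
      exact hc
    have X := S.ex h
    rw [e1, e2]
    unfold Splx117.KS
    refine Finset.sum_congr (Finset.filter_congr fun j _ => X.ink hE) fun j hj => ?_
    rw [X.gp_eq hE (Finset.mem_filter.1 hj).2.hi.le]

end sys

end Crest.Agent.R143.SysCx166
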