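import Crest.Agent.R143.TileF_176
import Crest.Agent.R143.Spt_832
import Crest.Agent.R143.C2SD_395
import Crest.Agent.R143.SysC_166

/-!
# Row 143 (S0194), box Q2: the field of a region (helper66, for QuX_810)

The field of the tile `l` is `rst w (FQ S m Q l)` (169, 832): the field `w` of the gap darts cut to
the faces with centre in `Q l`.
* `zf_nn`, `zf_norm`, `fN_norm` : `‖zf S id g‖ = ‖Nn (tt g)‖`
* `zf_spin` : `Spin (cm0 hS) (om ^ 2) (zf S z)`, every `z`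
* `rst_norm`, `rst_spin` : the same for the cut field (`cm0`, `rc0`, `restr`)
* `rad_lt` : radius `< d` when the centre is in a region with `Hol`
* **`ha`, `hs`** : the hypotheses of 176's `av_part`; **`fld`** : all together; `enr` : the energy
-/

set_option autoImplicit false

noncomputable section

open scoped Classical

namespace Crest.Agent.R143.QuAx66

open Crest.Agent.R143.B0x346 Crest.Agent.R143.DelGx806 Crest.Agent.R143.FinCx811
open Crest.Agent.R143.Engx490 Crest.Agent.R143.Mass3x302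
open Crest.Agent.R143.Frame1x395 Crest.Agent.R143.Frame8x395 Crest.Agent.R143.Frame10x395
open Crest.Agent.R143.Frame5x395 (sd mem_sd th th_spec)
open Crest.Agent.R143.Mass1x302 (T3 Nn)
open Crest.Agent.R143.FinMx609 (cen3 rad3 cen3_iff)
open Crest.Agent.R143.Sptx169 (rst)
open Crest.Agent.R143.Sptx832 (FQ)
open Crest.Agent.R143.C2SDx395 (zf)
open Crest.Agent.R143.Locx922 (Hol)
open Crest.Agent.R143.Dbl2x609 (paint)
open Crest.Agent.R143.TilePx176 (Hd)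

variable {S : Finset ℂ} {m l : ℕ} {Q : ℕ → Set ℂ} {d : ℝ} {w : D0 S → ℂ}

/-! ### the field -/

theorem om_cj : (starRingEnd ℂ) om = om ^ 2 := Frame7x395.om_conj

theorem om3' : om ^ 3 = 1 := C2SDx395.om_c

theorem om_nrm : ‖om‖ = 1 := by
  have h : ‖om‖ ^ 3 = 1 := by rw [← norm_pow, om3', norm_one]
  exact (pow_eq_one_iff_of_nonneg (norm_nonneg _) (by norm_num)).1 h

/-- the field `z a + ω z b + ω² z c`, `z = id`, is the conjugate of 302's charge up to a phase -/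
theorem zf_nn (g : D0 S) : zf S id g = om ^ 2 * (starRingEnd ℂ) (nn S g) := by
  unfold C2SDx395.zf Engx490.nn Mass1x302.Nn
  simp only [id, map_add, map_mul, map_pow, Complex.conj_conj, om_cj]
  linear_combination (-(g.1.1 : ℂ) * (om ^ 3 + 1) - om * g.1.2) * om3'

theorem zf_norm (g : D0 S) : ‖zf S id g‖ = ‖Nn (g.1.2, th S g.1, g.1.1)‖ := by
  rw [zf_nn, norm_mul, norm_pow, om_nrm, one_pow, one_mul, Complex.norm_conj]
  rfl

/-- **spin** -/
theorem zf_spin (hS : GP (S : Set ℂ)) (z : ℂ → ℂ) : Spin (cm0 hS) (om ^ 2) (zf S z) := by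
  rintro ⟨⟨a, b⟩, he⟩
  set c := th S (a, b) with hc
  have ht : (a, b, c) ∈ delT S := th_spec he
  have h2 : th S (b, c) = a := th0 hS (Crest.Agent.R143.JColx54.delT_rot hS ht)
  have e1 : zf S z ((cm0 hS).rho ⟨(a, b), he⟩) = z b + om * z c + om ^ 2 * z a := by
    show z b + om * z c + om ^ 2 * z (th S (b, c)) = _
    rw [h2]
  have e2 : zf S z ⟨(a, b), he⟩ = z a + om * z b + om ^ 2 * z c := rfl
  rw [e1, e2]
  linear_combination (-(z b) - om * z c) * om3'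

/-! ### the cut field -/

theorem rst_le {F : Set (D0 S)} (g : D0 S) : ‖rst w F g‖ ≤ ‖w g‖ := by
  unfold Sptx169.rst
  split_ifs
  · exact le_rfl
  · rw [norm_zero]; exact norm_nonneg _

theorem rst_mem {F : Set (D0 S)} {g : D0 S} (h : rst w F g ≠ 0) : g ∈ F := by
  by_contra hc
  exact h (if_neg hc)

/-- the regions of centres are invariant -/
theorem FQ_rho (hS : GP (S : Set ℂ)) (g : D0 S) :
    (cm0 hS).rho g ∈ FQ S m Q l ↔ g ∈ FQ S m Q l := by
  have e : ∀ g : D0 S, g ∈ FQ S m Q l ↔ l < m ∧ cen3 (fc S g) ∈ Q l := by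
    intro g
    rw [← cen3_tt]
    exact Iff.rfl
  rw [e, e, cen_rho hS g]

theorem rst_spin (hS : GP (S : Set ℂ)) {w₀ : ℂ} (hw : Spin (cm0 hS) w₀ w) :
    Spin (cm0 hS) w₀ (rst w (FQ S m Q l)) :=
  spin_res (Q := fun g => g ∈ FQ S m Q l) hw (FQ_rho hS)

theorem rst_spin_restr (hS : GP (S : Set ℂ)) {w₀ : ℂ} (hw : Spin (cm0 hS) w₀ w) :
    Spin (restr (cm0 hS)) w₀ (rst w (FQ S m Q l)) := rst_spin hS hw

theorem rst_spin_rc0 (hS : GP (S : Set ℂ)) {w₀ : ℂ} (hw : Spin (cm0 hS) w₀ w) :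
    Spin (rc0 hS) w₀ (rst w (FQ S m Q l)) := rst_spin hS hw

/-- **small faces**: an empty disc with centre in a dense region -/
theorem rad_lt {W : Set ℂ} (hd : 0 < d) (hH : Hol (S : Set ℂ) W d) (g : D0 S)
    (hg : cen3 (fc S g) ∈ W) : rad3 (fc S g) < d := by
  obtain ⟨-, -, -, hp, o, h1, h2, h3⟩ := fc_del g
  have e : o = cen3 (fc S g) := (cen3_iff hp).1 ⟨h1, h2⟩
  rw [← e] at hg
  obtain ⟨s, hs, hsd⟩ := hH o hg o (by rw [sub_self, norm_zero]; exact hd.le)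
  have h4 := h3 s hs
  unfold FinMx609.rad3
  rw [← e]
  exact h4.trans_lt hsd

/-- **support** -/
theorem supp (hd : 0 < d) (hH : Hol (S : Set ℂ) (Q l) d) (g : D0 S)
    (h : rst w (FQ S m Q l) g ≠ 0) : cen3 (fc S g) ∈ Q l ∧ rad3 (fc S g) ≤ d := by
  have h1 : g ∈ FQ S m Q l := rst_mem h
  have h2 : cen3 (fc S g) ∈ Q l := by
    rw [← cen3_tt]
    exact h1.2
  exact ⟨h2, (rad_lt hd hH g h2).le⟩

/-- **`ha` of `av_part`** for the field `zf S id` -/
theorem ha (g : D0 S) : ‖rst (zf S id) (FQ S m Q l) g‖ ≤ ‖Nn (g.1.2, th S g.1, g.1.1)‖ :=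
  (rst_le g).trans (zf_norm g).le

/-- **`ha` of `av_part`** for every field dominated by 302's charge -/
theorem ha' (hw : ∀ g : D0 S, ‖w g‖ ≤ ‖Nn (g.1.2, th S g.1, g.1.1)‖) (g : D0 S) :
    ‖rst w (FQ S m Q l) g‖ ≤ ‖Nn (g.1.2, th S g.1, g.1.1)‖ := (rst_le g).trans (hw g)

/-- **`hs` of `av_part`** -/
theorem hs (hd : 0 < d) (hH : Hol (S : Set ℂ) (Q l) d) :
    ∀ g : D0 S, rst w (FQ S m Q l) g ≠ 0 → cen3 (fc S g) ∈ Q l ∧ rad3 (fc S g) ≤ d :=
  fun g h => supp hd hH g h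

/-- **everything about the field of the tile `l`** -/
theorem fld (hS : GP (S : Set ℂ)) (hd : 0 < d) (hH : Hol (S : Set ℂ) (Q l) d) :
    Spin (restr (cm0 hS)) (om ^ 2) (rst (zf S id) (FQ S m Q l)) ∧
    (∀ g : D0 S, ‖rst (zf S id) (FQ S m Q l) g‖ ≤ ‖Nn (g.1.2, th S g.1, g.1.1)‖) ∧
    (∀ g : D0 S, rst (zf S id) (FQ S m Q l) g ≠ 0 →
      cen3 (fc S g) ∈ Q l ∧ rad3 (fc S g) ≤ d) :=
  ⟨rst_spin_restr hS (zf_spin hS id), ha, hs hd hH⟩

/-- **energy of the field of the tile `l`** -/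
theorem enr (hd : 0 < d) (hH : Hol (S : Set ℂ) (Q l) d)
    (hw : ∀ g : D0 S, ‖w g‖ ≤ ‖Nn (g.1.2, th S g.1, g.1.1)‖) (β : Finset ℂ) :
    ∑ g, ‖rst w (FQ S m Q l) g‖ ^ 2 ≤ 9 * (Hd (Q l) d (paint S β)).toReal :=
  TileFx176.energy' (ha' hw) (hs hd hH) β

/-! ### the field of cells -/

/-- a field of the cells `zs` agrees with `zf` on the faces off the hull, so the cut fields are equal
when no face with centre in the region has a hull site -/
theorem rst_congr {w' : D0 S → ℂ} {F : Set (D0 S)} (h : ∀ g ∈ F, w g = w' g) :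
    rst w F = rst w' F := by
  funext g
  unfold Sptx169.rst
  split_ifs with h1
  · exact h g h1
  · rfl

/-- the vertices of a face with centre in a dense region are within `d` of the centre -/
theorem vert_lt {W : Set ℂ} (hd : 0 < d) (hH : Hol (S : Set ℂ) W d) (g : D0 S)
    (hg : cen3 (fc S g) ∈ W) : ‖g.1.1 - cen3 (fc S g)‖ < d ∧ ‖g.1.2 - cen3 (fc S g)‖ < d ∧
      ‖th S g.1 - cen3 (fc S g)‖ < d := by
  have h := rad_lt hd hH g hg
  obtain ⟨h1, h2⟩ := (cen3_iff (fc_del g).2.2.2.1).2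
    (show cen3 (fc S g) = cen3 ((fc S g).1, (fc S g).2.1, (fc S g).2.2) from rfl)
  have h0 : ‖(fc S g).1 - cen3 (fc S g)‖ < d := h
  exact ⟨h0, h1.trans_lt h0, h2.trans_lt h0⟩

/-- **faces with centre in the region are off the hull** -/
theorem off_hull (hd : 0 < d) (hH : Hol (S : Set ℂ) (Q l) d)
    (hoff : ∀ z ∈ Q l, ∀ v, ‖v - z‖ < d → ¬ OnHull S v) (g : D0 S) (hg : g ∈ FQ S m Q l) :
    ¬ OnHull S g.1.1 ∧ ¬ OnHull S g.1.2 ∧ ¬ OnHull S (th S g.1) := by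
  have h2 : cen3 (fc S g) ∈ Q l := by
    rw [← cen3_tt]
    exact hg.2
  obtain ⟨h3, h4, h5⟩ := vert_lt hd hH g h2
  exact ⟨hoff _ h2 _ h3, hoff _ h2 _ h4, hoff _ h2 _ h5⟩

/-- the cut field of the cells is the cut field of the sites -/
theorem zs_rst (hS : GP (S : Set ℂ)) (z : ℂ → ℂ)
    (h : ∀ g ∈ FQ S m Q l, ¬ OnHull S g.1.1 ∧ ¬ OnHull S g.1.2 ∧ ¬ OnHull S (th S g.1)) :
    rst (Coarse2x166.zs (rc0 hS) om (C2SDx395.zc hS z)) (FQ S m Q l) =
      rst (zf S z) (FQ S m Q l) :=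
  rst_congr fun g hg => C2SDx395.zf_eq (hS := hS) (h g hg)

/-- **everything about the field `zs` of the tile `l`** (field of the cells, `z = id`) -/
theorem fldZ (hS : GP (S : Set ℂ)) (hd : 0 < d) (hH : Hol (S : Set ℂ) (Q l) d)
    (hoff : ∀ z ∈ Q l, ∀ v, ‖v - z‖ < d → ¬ OnHull S v) :
    Spin (rc0 hS) (om ^ 2)
      (rst (Coarse2x166.zs (rc0 hS) om (C2SDx395.zc hS id)) (FQ S m Q l)) ∧
    (∀ g : D0 S, ‖rst (Coarse2x166.zs (rc0 hS) om (C2SDx395.zc hS id)) (FQ S m Q l) g‖ ≤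
      ‖Nn (g.1.2, th S g.1, g.1.1)‖) ∧
    (∀ g : D0 S, rst (Coarse2x166.zs (rc0 hS) om (C2SDx395.zc hS id)) (FQ S m Q l) g ≠ 0 →
      cen3 (fc S g) ∈ Q l ∧ rad3 (fc S g) ≤ d) := by
  rw [zs_rst hS id (off_hull hd hH hoff)]
  exact ⟨rst_spin_rc0 hS (zf_spin hS id), ha, hs hd hH⟩

/-- `om ^ 2` is an admissible spin -/
theorem om2_adm : (om ^ 2) ^ 3 = 1 ∧ om ^ 2 ≠ 1 ∧ (starRingEnd ℂ) (om ^ 2) = (om ^ 2) ^ 2 := by
  have h3 := om3'
  refine ⟨by rw [← pow_mul, mul_comm, pow_mul, h3, one_pow], ?_, by rw [map_pow, om_cj]⟩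
  intro h
  have h1 : om = 1 := by
    calc om = om ^ 3 * om := by rw [h3, one_mul]
      _ = (om ^ 2) ^ 2 := by ring
      _ = 1 := by rw [h, one_pow]
  exact Mass4x302.om_ne h1

end Crest.Agent.R143.QuAx66
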