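import Crest.Agent.R143.TileR_176
import Crest.Agent.R143.SplE_168
import Crest.Agent.R143.EnvI_279

/-!
# Row 143 (S0194), CORE-C, RIG: the fields `Q`, `Q'` and the second moments of 970's `Env`
(helper304)

On 176's majorant `Qf` (mean over the colours of the weight off the window times the energy).
* `Wnd M I J n I₁ J₁ D d s B m0` : windows of `n` tiles of ONE net
* `Qt` : the sum of the majorants; `Qt_bound` : `0 ≤ Qt`, integrable, `∫ Qt ≤ n (K C s² / m0) g0`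
* `Qt_av` : quenched inequalities of the windows ⟹ `∑ l, av (g * av X_l) ≤ Qt ω`
  (hypothesis `hQ` of 168's `main_good_sp`)
* `V2_bound` : the same for a function of one colouring, `∫ g |V|² ≤ (K C s² / m0) g0`
-/

set_option autoImplicit false

noncomputable section

namespace Crest.Agent.R143.Hqx304

open MeasureTheory Set Filter Topology
open Crest.ProbabilityR.Voronoi
open Crest.Agent.R143.PP0x831 Crest.Agent.R143.Poisx304 Crest.Agent.R143.Janx304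
open Crest.Agent.R143.Prodx609 Crest.Agent.R143.ColSumx304 Crest.Agent.R143.Lawx831
open Crest.Agent.R143.Dblx609 Crest.Agent.R143.Dbl2x609
open Crest.Agent.R143.IndLocx279 Crest.Agent.R143.PWx978 Crest.Agent.R143.TilePx176
  Crest.Agent.R143.TileQx176 Crest.Agent.R143.TileRx176
open Crest.Agent.R143.SumScx302 (sq)
open Crest.Agent.R143.CorMx970 (av)
open scoped ENNReal

lemma probS : IsProbabilityMeasure sampleLaw := by unfold sampleLaw; infer_instance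

attribute [local instance] probS

/-! ### many windows of one net -/

section many

variable {ε : ℝ} {ι κ : Type} [DecidableEq ι] [DecidableEq κ] (M : Net ε ι κ)

/-- the windows of the tiles `l < n` of one net -/
structure Wnd (I : Finset ι) (J : Finset κ) (n : ℕ) (I₁ : ℕ → Finset ι) (J₁ : ℕ → Finset κ)
    (D : ℕ → Set ℂ) (d s : ℝ) (B : Set ℂ) (m0 : ℝ≥0∞) : Prop where
  Bm : MeasurableSet B
  Bb : Bornology.IsBounded B
  reg : M.reg I J ⊆ B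
  es : ε ≤ s
  hN : ∀ k ∈ J, M.N k ⊆ I
  hI : ∀ l < n, I₁ l ⊆ I
  hJ : ∀ l < n, J₁ l ⊆ J
  hN₁ : ∀ l < n, ∀ k ∈ J \ J₁ l, M.N k ⊆ I \ I₁ l
  Dm : ∀ l < n, MeasurableSet (D l)
  W : ∀ l < n, ∃ (z : ℂ) (W : Set ℂ), MeasurableSet W ∧ W ⊆ B ∧ W ⊆ sq z s ∧
    (∀ o ∈ D l, Metric.closedBall o d ⊆ W) ∧ Disjoint (M.reg (I \ I₁ l) (J \ J₁ l)) W
  pos : m0 ≠ 0
  mass : ∀ l < n, m0 ≤ M.c ^ (J₁ l).card * ∏ i ∈ I₁ l, ∫⁻ ω, M.a i (cfg ε ω) ∂sampleLaw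

/-- **the field `Q`** -/
def Qt (I : Finset ι) (J : Finset κ) (n : ℕ) (I₁ : ℕ → Finset ι) (J₁ : ℕ → Finset κ)
    (D : ℕ → Set ℂ) (d : ℝ) (B : Set ℂ) (K : ℝ) (ω : Sample) : ℝ :=
  ∑ l ∈ Finset.range n, K * (Qf M I (I₁ l) J (J₁ l) (D l) d B ω).toReal

variable {M} {I : Finset ι} {J : Finset κ} {n : ℕ} {I₁ : ℕ → Finset ι} {J₁ : ℕ → Finset κ}
  {D : ℕ → Set ℂ} {d s : ℝ} {B : Set ℂ} {m0 : ℝ≥0∞}

theorem Qt_nonneg {K : ℝ} (hK : 0 ≤ K) (ω : Sample) : 0 ≤ Qt M I J n I₁ J₁ D d B K ω :=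
  Finset.sum_nonneg fun _ _ => mul_nonneg hK ENNReal.toReal_nonneg

theorem Qt_meas (h : Wnd M I J n I₁ J₁ D d s B m0) (K : ℝ) :
    Measurable (Qt M I J n I₁ J₁ D d B K) := by
  unfold Qt
  refine Finset.measurable_fun_sum _ fun l hl => ?_
  exact (Qf_meas M h.Bm h.Bb (h.Dm l (Finset.mem_range.1 hl))).ennreal_toReal.const_mul K

theorem gw_lint_ne_top (h : Wnd M I J n I₁ J₁ D d s B m0) :
    ∫⁻ ω, M.gw I J (cfg ε ω) ∂sampleLaw ≠ ∞ := by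
  refine ne_top_of_le_ne_top ENNReal.one_ne_top ?_
  calc ∫⁻ ω, M.gw I J (cfg ε ω) ∂sampleLaw ≤ ∫⁻ _, 1 ∂sampleLaw :=
        lintegral_mono fun ω => M.gw_le_one h.hN ω
    _ = 1 := by simp

theorem m0_ne_top (h : Wnd M I J n I₁ J₁ D d s B m0) {l : ℕ} (hl : l < n) : m0 ≠ ∞ := by
  refine ne_top_of_le_ne_top ?_ (h.mass l hl)
  refine ENNReal.mul_ne_top (ENNReal.pow_ne_top M.c1) ?_
  refine (ENNReal.prod_lt_top fun i _ => ?_).ne
  refine lt_of_le_of_lt ?_ ENNReal.one_lt_top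
  calc ∫⁻ ω, M.a i (cfg ε ω) ∂sampleLaw ≤ ∫⁻ _, 1 ∂sampleLaw :=
        lintegral_mono fun ω => M.a1 i _
    _ = 1 := by simp

/-- **quenched inequalities ⟹ the hypothesis `hQ` of `main_good_sp`** -/
theorem Qt_av (h : Wnd M I J n I₁ J₁ D d s B m0) {ω : Sample}
    (hi : ∀ c, Inj ε (toPos ω) c) {A : Finset ℂ} (hA : (A : Set ℂ) = points ε ω ∩ B)
    {K : ℝ} {g : Finset ℂ → ℝ} (hg : ∀ β ∈ A.powerset, g β ≤ (M.gw I J (paint A β)).toReal)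
    {X : ℕ → Finset ℂ → Finset ℂ → ℝ}
    (hX : ∀ l < n, ∀ β ∈ A.powerset, ∀ β' ∈ A.powerset, 0 ≤ X l β β')
    (hq : ∀ l < n, ∑ β ∈ A.powerset, ∑ β' ∈ A.powerset,
        (M.gw (I \ I₁ l) (J \ J₁ l) (paint A β)).toReal *
          ((win M (I₁ l) (J₁ l) (paint A β)).toReal * X l β β') ≤
      K * ((2 : ℝ) ^ A.card * ∑ β ∈ A.powerset,
        (M.gw (I \ I₁ l) (J \ J₁ l) (paint A β)).toReal * (Hd (D l) d (paint A β)).toReal)) :
    ∑ l ∈ Finset.range n, av A.powerset (fun β => g β * av A.powerset (X l β)) ≤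
      Qt M I J n I₁ J₁ D d B K ω := by
  unfold Qt
  refine Finset.sum_le_sum fun l hl => ?_
  have hl' := Finset.mem_range.1 hl
  refine le_trans (CorMx970.av_mono fun β hβ => mul_le_mul_of_nonneg_right (hg β hβ)
    (CorMx970.av_nonneg fun β' hβ' => hX l hl' β hβ β' hβ')) ?_
  exact av_le M (h.hI l hl') (h.hJ l hl') h.hN (h.hN₁ l hl') hi hA (hX l hl') (hq l hl')

end many

/-- **mean of the field `Q`** -/
theorem Qt_bound : ∃ C : ℝ, 0 ≤ C ∧ ∀ {ε d s : ℝ} {ι κ : Type} [DecidableEq ι] [DecidableEq κ]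
    {M : Net ε ι κ} {I : Finset ι} {J : Finset κ} {n : ℕ} {I₁ : ℕ → Finset ι}
    {J₁ : ℕ → Finset κ} {D : ℕ → Set ℂ} {B : Set ℂ} {m0 : ℝ≥0∞},
    Wnd M I J n I₁ J₁ D d s B m0 → ∀ K : ℝ, 0 ≤ K →
    Integrable (Qt M I J n I₁ J₁ D d B K) sampleLaw ∧
    ∫ ω, Qt M I J n I₁ J₁ D d B K ω ∂sampleLaw ≤
      n * (K * (C * s ^ 2 / m0.toReal)) * (∫⁻ ω, M.gw I J (cfg ε ω) ∂sampleLaw).toReal := by
  obtain ⟨C, hC, hb⟩ := Qf_bound
  refine ⟨C.toReal, ENNReal.toReal_nonneg, ?_⟩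
  intro ε d s ι κ _ _ M I J n I₁ J₁ D B m0 h K hK
  have key : ∀ l ∈ Finset.range n,
      Integrable (fun ω => (Qf M I (I₁ l) J (J₁ l) (D l) d B ω).toReal) sampleLaw ∧
      ∫ ω, (Qf M I (I₁ l) J (J₁ l) (D l) d B ω).toReal ∂sampleLaw ≤
        C.toReal * s ^ 2 / m0.toReal * (∫⁻ ω, M.gw I J (cfg ε ω) ∂sampleLaw).toReal := by
    intro l hl
    have hl' := Finset.mem_range.1 hl
    obtain ⟨z, W, w1, w2, w3, w4, w5⟩ := h.W l hl'
    have e1 := hb M I (I₁ l) J (J₁ l) h.es (h.hI l hl') (h.hJ l hl') h.hN (h.hN₁ l hl') z (D l) W B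
      d (h.Dm l hl') w1 h.Bm h.Bb w2 h.reg w3 w4 w5
    have e2 : m0 * ∫⁻ ω, Qf M I (I₁ l) J (J₁ l) (D l) d B ω ∂sampleLaw ≤
        C * ENNReal.ofReal (s ^ 2) * ∫⁻ ω, M.gw I J (cfg ε ω) ∂sampleLaw :=
      le_trans (by gcongr; exact h.mass l hl') e1
    have t0 := m0_ne_top h hl'
    have t1 : C * ENNReal.ofReal (s ^ 2) * ∫⁻ ω, M.gw I J (cfg ε ω) ∂sampleLaw ≠ ∞ :=
      ENNReal.mul_ne_top (ENNReal.mul_ne_top hC ENNReal.ofReal_ne_top) (gw_lint_ne_top h)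
    have t2 : ∫⁻ ω, Qf M I (I₁ l) J (J₁ l) (D l) d B ω ∂sampleLaw ≠ ∞ := by
      intro hcon
      rw [hcon, ENNReal.mul_top h.pos] at e2
      exact t1 (top_le_iff.1 e2)
    have hm := (Qf_meas M (I := I) (I₁ := I₁ l) (J := J) (J₁ := J₁ l) (d := d) h.Bm h.Bb
      (h.Dm l hl')).aemeasurable (μ := sampleLaw)
    refine ⟨integrable_toReal_of_lintegral_ne_top hm t2, ?_⟩
    rw [integral_toReal hm (ae_lt_top' hm t2)]
    have e3 := ENNReal.toReal_mono t1 e2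
    rw [ENNReal.toReal_mul, ENNReal.toReal_mul, ENNReal.toReal_mul,
      ENNReal.toReal_ofReal (sq_nonneg s)] at e3
    have hp : 0 < m0.toReal := ENNReal.toReal_pos h.pos t0
    rw [div_mul_eq_mul_div, le_div_iff₀ hp]
    linarith
  have hint : ∀ l ∈ Finset.range n, Integrable
      (fun ω => K * (Qf M I (I₁ l) J (J₁ l) (D l) d B ω).toReal) sampleLaw :=
    fun l hl => (key l hl).1.const_mul K
  refine ⟨?_, ?_⟩
  · unfold Qt
    exact integrable_finsetSum _ hint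
  · unfold Qt
    rw [integral_finsetSum _ hint]
    refine (Finset.sum_le_sum (g := fun _ => K * (C.toReal * s ^ 2 / m0.toReal *
      (∫⁻ ω, M.gw I J (cfg ε ω) ∂sampleLaw).toReal)) fun l hl => ?_).trans (le_of_eq ?_)
    · rw [integral_const_mul]
      exact mul_le_mul_of_nonneg_left (key l hl).2 hK
    · rw [Finset.sum_const, Finset.card_range, nsmul_eq_mul]
      ring

/-- **the second moment of a full tile** (fields `V2`, `e3` of 279's `Inp.env`) -/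
theorem V2_bound : ∃ C : ℝ, 0 ≤ C ∧ ∀ {ε d s : ℝ} {ι κ : Type} [DecidableEq ι] [DecidableEq κ]
    {M : Net ε ι κ} {I : Finset ι} {J : Finset κ} {n : ℕ} {I₁ : ℕ → Finset ι}
    {J₁ : ℕ → Finset κ} {D : ℕ → Set ℂ} {B : Set ℂ} {m0 : ℝ≥0∞},
    Wnd M I J n I₁ J₁ D d s B m0 → ∀ l < n, ∀ K : ℝ, 0 ≤ K → ∀ V : Cf → ℂ, LocalOn B V →
    FinMeas V →
    (∀ᵐ ω ∂sampleLaw, ∑ β ∈ (Ap ε B ω).powerset,
        (M.gw (I \ I₁ l) (J \ J₁ l) (paint (Ap ε B ω) β)).toReal *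
          ((win M (I₁ l) (J₁ l) (paint (Ap ε B ω) β)).toReal * ‖V (paint (Ap ε B ω) β)‖ ^ 2) ≤
      K * ∑ β ∈ (Ap ε B ω).powerset, (M.gw (I \ I₁ l) (J \ J₁ l) (paint (Ap ε B ω) β)).toReal *
        (Hd (D l) d (paint (Ap ε B ω) β)).toReal) →
    Integrable (fun ω => (M.gw I J (cfg ε ω)).toReal * ‖V (cfg ε ω)‖ ^ 2) sampleLaw ∧
    ∫ ω, (M.gw I J (cfg ε ω)).toReal * ‖V (cfg ε ω)‖ ^ 2 ∂sampleLaw ≤
      K * (C * s ^ 2 / m0.toReal) * (∫⁻ ω, M.gw I J (cfg ε ω) ∂sampleLaw).toReal := by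
  obtain ⟨C, hC, ht⟩ := tile
  refine ⟨C.toReal, ENNReal.toReal_nonneg, ?_⟩
  intro ε d s ι κ _ _ M I J n I₁ J₁ D B m0 h l hl K hK V hVl hVm hV
  obtain ⟨z, W, w1, w2, w3, w4, w5⟩ := h.W l hl
  have hoff : M.reg (I \ I₁ l) (J \ J₁ l) ⊆ B :=
    (M.reg_mono Finset.sdiff_subset Finset.sdiff_subset).trans h.reg
  -- local functions
  have g0 : LocalOn B (M.gw (I \ I₁ l) (J \ J₁ l)) := LocalOn.mono hoff (M.gw_local (h.hN₁ l hl))
  have wl : LocalOn B (win M (I₁ l) (J₁ l)) := by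
    refine LocalOn.mono h.reg ?_
    refine LocalOn.mul ?_ (local_prod' (J₁ l) fun k hk => LocalOn.mono ?_ (M.el k))
    · exact LocalOn.mono (M.reg_mono (h.hI l hl) (h.hJ l hl)) (M.a_local (I := I₁ l) (J := J₁ l))
    · exact union_subset_union (biUnion_subset_biUnion_left (h.hN k (h.hJ l hl hk)))
        (subset_biUnion_of_mem (u := M.C) (h.hJ l hl hk))
  have wm : FinMeas (win M (I₁ l) (J₁ l)) :=
    fm_mul (fm_prod _ fun i _ => M.am i) (fm_prod _ fun k _ => M.em k)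
  have h0 : LocalOn B (Hd (D l) d) := LocalOn.mono w2 (Hd_local w4)
  have vl : LocalOn B fun S => ENNReal.ofReal (‖V S‖ ^ 2) :=
    LocalOn.comp hVl fun v => ENNReal.ofReal (‖v‖ ^ 2)
  have vm : FinMeas fun S => ENNReal.ofReal (‖V S‖ ^ 2) :=
    fun k => ((hVm k).norm.pow_const 2).ennreal_ofReal
  -- the quenched bound in `ℝ≥0∞`
  have hV' : ∀ᵐ ω ∂sampleLaw, ∑ β ∈ (Ap ε B ω).powerset,
      M.gw (I \ I₁ l) (J \ J₁ l) (paint (Ap ε B ω) β) *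
        (win M (I₁ l) (J₁ l) (paint (Ap ε B ω) β) *
          ENNReal.ofReal (‖V (paint (Ap ε B ω) β)‖ ^ 2)) ≤
      ENNReal.ofReal K * ∑ β ∈ (Ap ε B ω).powerset,
        M.gw (I \ I₁ l) (J \ J₁ l) (paint (Ap ε B ω) β) * Hd (D l) d (paint (Ap ε B ω) β) := by
    filter_upwards [hV] with ω hω
    have f1 : ∀ β, M.gw (I \ I₁ l) (J \ J₁ l) (paint (Ap ε B ω) β) ≠ ∞ := fun β =>
      ne_top_of_le_ne_top ENNReal.one_ne_top (gw_fin_one M (h.hN₁ l hl) (paint_finite _ β))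
    have f2 : ∀ β, win M (I₁ l) (J₁ l) (paint (Ap ε B ω) β) ≠ ∞ := fun β =>
      ne_top_of_le_ne_top ENNReal.one_ne_top (win_le_one M _)
    have f3 : ∀ β, Hd (D l) d (paint (Ap ε B ω) β) ≠ ∞ := fun β => Hd_fin (paint_finite _ β)
    have e1 : ∑ β ∈ (Ap ε B ω).powerset, M.gw (I \ I₁ l) (J \ J₁ l) (paint (Ap ε B ω) β) *
        (win M (I₁ l) (J₁ l) (paint (Ap ε B ω) β) *
          ENNReal.ofReal (‖V (paint (Ap ε B ω) β)‖ ^ 2)) =
        ENNReal.ofReal (∑ β ∈ (Ap ε B ω).powerset,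
          (M.gw (I \ I₁ l) (J \ J₁ l) (paint (Ap ε B ω) β)).toReal *
            ((win M (I₁ l) (J₁ l) (paint (Ap ε B ω) β)).toReal *
              ‖V (paint (Ap ε B ω) β)‖ ^ 2)) := by
      rw [ENNReal.ofReal_sum_of_nonneg fun β _ => by positivity]
      refine Finset.sum_congr rfl fun β _ => ?_
      rw [ENNReal.ofReal_mul ENNReal.toReal_nonneg, ENNReal.ofReal_mul ENNReal.toReal_nonneg,
        ENNReal.ofReal_toReal (f1 β), ENNReal.ofReal_toReal (f2 β)]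
    have e2 : ENNReal.ofReal K * ∑ β ∈ (Ap ε B ω).powerset,
        M.gw (I \ I₁ l) (J \ J₁ l) (paint (Ap ε B ω) β) * Hd (D l) d (paint (Ap ε B ω) β) =
        ENNReal.ofReal (K * ∑ β ∈ (Ap ε B ω).powerset,
          (M.gw (I \ I₁ l) (J \ J₁ l) (paint (Ap ε B ω) β)).toReal *
            (Hd (D l) d (paint (Ap ε B ω) β)).toReal) := by
      rw [ENNReal.ofReal_mul hK, ENNReal.ofReal_sum_of_nonneg fun β _ => by positivity]
      congr 1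
      refine Finset.sum_congr rfl fun β _ => ?_
      rw [ENNReal.ofReal_mul ENNReal.toReal_nonneg, ENNReal.ofReal_toReal (f1 β),
        ENNReal.ofReal_toReal (f3 β)]
    rw [e1, e2]
    exact ENNReal.ofReal_le_ofReal hω
  have hΨ : FM fun X : Set (ℂ × Bool) => M.gw (I \ I₁ l) (J \ J₁ l) X * Hd (D l) d X :=
    fun k => (M.gw_meas _ _ k).mul (Hd_meas (h.Dm l hl) d k)
  have q1 := quench1 (ε := ε) (B := B) M.eps h.Bm h.Bb
    (Φ := fun X => M.gw (I \ I₁ l) (J \ J₁ l) X * (win M (I₁ l) (J₁ l) X *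
      ENNReal.ofReal (‖V X‖ ^ 2))) hΨ (K := ENNReal.ofReal K) ENNReal.ofReal_ne_top hV'
  have l1 : ∀ ω, M.gw (I \ I₁ l) (J \ J₁ l) (cfg ε ω ∩ ovr B) =
      M.gw (I \ I₁ l) (J \ J₁ l) (cfg ε ω) := fun ω => (g0 (cfg ε ω)).symm
  have l2 : ∀ ω, win M (I₁ l) (J₁ l) (cfg ε ω ∩ ovr B) = win M (I₁ l) (J₁ l) (cfg ε ω) :=
    fun ω => (wl (cfg ε ω)).symm
  have l3 : ∀ ω, Hd (D l) d (cfg ε ω ∩ ovr B) = Hd (D l) d (cfg ε ω) :=
    fun ω => (h0 (cfg ε ω)).symm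
  have l4 : ∀ ω, ENNReal.ofReal (‖V (cfg ε ω ∩ ovr B)‖ ^ 2) = ENNReal.ofReal (‖V (cfg ε ω)‖ ^ 2) :=
    fun ω => (vl (cfg ε ω)).symm
  simp only [l1, l2, l3, l4] at q1
  have e1 := ht M I (I₁ l) J (J₁ l) h.es (h.hI l hl) (h.hJ l hl) h.hN (h.hN₁ l hl) z (D l) W d
    (h.Dm l hl) w1 w3 w4 w5 (fun ω => ENNReal.ofReal (‖V (cfg ε ω)‖ ^ 2)) (ENNReal.ofReal K) q1
  have e2 : m0 * ∫⁻ ω, M.gw I J (cfg ε ω) * ENNReal.ofReal (‖V (cfg ε ω)‖ ^ 2) ∂sampleLaw ≤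
      ENNReal.ofReal K * (C * ENNReal.ofReal (s ^ 2)) *
        ∫⁻ ω, M.gw I J (cfg ε ω) ∂sampleLaw :=
    le_trans (by gcongr; exact h.mass l hl) e1
  have t0 := m0_ne_top h hl
  have t1 : ENNReal.ofReal K * (C * ENNReal.ofReal (s ^ 2)) *
      ∫⁻ ω, M.gw I J (cfg ε ω) ∂sampleLaw ≠ ∞ :=
    ENNReal.mul_ne_top (ENNReal.mul_ne_top ENNReal.ofReal_ne_top
      (ENNReal.mul_ne_top hC ENNReal.ofReal_ne_top)) (gw_lint_ne_top h)
  have t2 : ∫⁻ ω, M.gw I J (cfg ε ω) * ENNReal.ofReal (‖V (cfg ε ω)‖ ^ 2) ∂sampleLaw ≠ ∞ := by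
    intro hcon
    rw [hcon, ENNReal.mul_top h.pos] at e2
    exact t1 (top_le_iff.1 e2)
  have mg : Measurable fun ω => M.gw I J (cfg ε ω) :=
    meas_fun M.eps (M.reg_meas I J) (M.reg_bdd I J) (M.gw_local h.hN) (M.gw_meas I J)
  have mv : Measurable fun ω => ENNReal.ofReal (‖V (cfg ε ω)‖ ^ 2) :=
    meas_fun M.eps h.Bm h.Bb vl vm
  have hm : AEMeasurable (fun ω => M.gw I J (cfg ε ω) * ENNReal.ofReal (‖V (cfg ε ω)‖ ^ 2))
    sampleLaw := (mg.mul mv).aemeasurable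
  have e3 : (fun ω => (M.gw I J (cfg ε ω)).toReal * ‖V (cfg ε ω)‖ ^ 2) = fun ω =>
      (M.gw I J (cfg ε ω) * ENNReal.ofReal (‖V (cfg ε ω)‖ ^ 2)).toReal := by
    funext ω
    rw [ENNReal.toReal_mul, ENNReal.toReal_ofReal (by positivity)]
  rw [e3]
  refine ⟨integrable_toReal_of_lintegral_ne_top hm t2, ?_⟩
  rw [integral_toReal hm (ae_lt_top' hm t2)]
  have e4 := ENNReal.toReal_mono t1 e2
  rw [ENNReal.toReal_mul, ENNReal.toReal_mul, ENNReal.toReal_mul, ENNReal.toReal_mul,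
    ENNReal.toReal_ofReal (sq_nonneg s), ENNReal.toReal_ofReal hK] at e4
  have hp : 0 < m0.toReal := ENNReal.toReal_pos h.pos t0
  rw [mul_div_assoc', div_mul_eq_mul_div, le_div_iff₀ hp]
  linarith

end Crest.Agent.R143.Hqx304
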