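import Crest.Agent.R143.TileF_176
import Crest.Agent.R143.Hq_304
import Crest.Agent.R143.SmallA_304

/-!
# Row 143 (S0194), box Q2 (helper176): from the inequalities on the cells to the field `hQ` of 654's
`Quen`, with 304's colourings `chiS`

The colouring `chiS hS h3 β` of the cells given by a uniform subset `β` of the sites is uniform, and
the weights (functions of the inner colours) are functions of it.  So **no symmetry of the functional
`X` of the two colourings of the cells is needed** (the colour of the hull cell may enter).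

* `inn_of` : `Inn` from `LocalOn` and inner sites; `eqi_chi` : `β` and `bk (chiS β)` agree on the
  inner sites
* `chi_le` : real inequality on the cells ⟹ inequality on the subsets
* `hq_cells` : the hypothesis `hq` of 304's `Qt_av` from 810's inequality on the cells
* **`hQ_cells`** : `∑ l, av (g * av (X l (chiS ·) (chiS ·))) ≤ Qt .. (9 c) ω`; the event `G l` of the
  inequality on the cells is only asked where `gw I J ≠ 0`
-/

set_option autoImplicit false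
set_option linter.unusedSectionVars false

noncomputable section

open scoped Classical

namespace Crest.Agent.R143.QuS2x176

open MeasureTheory Set Filter Topology
open Crest.ProbabilityR.Voronoi
open Crest.Agent.R143.PP0x831 Crest.Agent.R143.Poisx304 Crest.Agent.R143.Janx304
open Crest.Agent.R143.Prodx609 Crest.Agent.R143.ColSumx304 Crest.Agent.R143.Lawx831
open Crest.Agent.R143.Dblx609 Crest.Agent.R143.Dbl2x609
open Crest.Agent.R143.IndLocx279 Crest.Agent.R143.IndLoc3x279 Crest.Agent.R143.PWx978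
  Crest.Agent.R143.TilePx176 Crest.Agent.R143.TileQx176 Crest.Agent.R143.TileRx176
  Crest.Agent.R143.TileFx176 Crest.Agent.R143.Hqx304
open Crest.Agent.R143.B0x346 Crest.Agent.R143.DelGx806 Crest.Agent.R143.FinCx811
  Crest.Agent.R143.Engx490 Crest.Agent.R143.SmallAx304
open Crest.Agent.R143.Frame10x395
open Crest.Agent.R143.Frame5x395 (sd mem_sd th th_spec)
open Crest.Agent.R143.Mass1x302 (T3 Nn)
open Crest.Agent.R143.FinMx609 (cen3 rad3)
open Crest.Agent.R143.CorMx970 (av)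
open scoped ENNReal

variable {S : Finset ℂ}

/-- functions of a region without hull sites -/
theorem inn_of {R : Type*} {Φ : Set (ℂ × Bool) → R} {U : Set ℂ} (h : LocalOn U Φ)
    (hU : ∀ v ∈ S, v ∈ U → ¬ OnHull S v) : Inn S Φ := by
  intro b c _ _ e
  rw [h (paint S b), h (paint S c)]
  congr 1
  ext ⟨z, t⟩
  constructor
  · rintro ⟨⟨h1, h2⟩, h3⟩
    exact ⟨⟨h1, h2.trans (e z h1 (hU z h1 h3))⟩, h3⟩
  · rintro ⟨⟨h1, h2⟩, h3⟩
    exact ⟨⟨h1, h2.trans (e z h1 (hU z h1 h3)).symm⟩, h3⟩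

variable (hS : GP (S : Set ℂ)) (h3 : 3 ≤ S.card)

theorem eqi_chi (β : Finset ℂ) : Eqi S β (bk hS h3 (chiS hS h3 β)) := by
  intro v hv hn
  rw [mem_bk hv, chiS_inner hS h3 β (v := ⟨v, hv⟩) hn]
  by_cases h : v ∈ β
  · simp [h]
  · simp [h]

theorem inn_chi {R : Type*} {Φ : Set (ℂ × Bool) → R} (h : Inn S Φ) {β : Finset ℂ}
    (hβ : β ⊆ S) : Φ (paint S β) = Φ (paint S (bk hS h3 (chiS hS h3 β))) :=
  h _ _ hβ (bk_sub hS h3 _) (eqi_chi hS h3 β)

/-- **inequality on the cells ⟹ inequality on the subsets** -/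
theorem chi_le [iF : Fintype (Cs hS → ZMod 2)] {F : (Cs hS → ZMod 2) → (Cs hS → ZMod 2) → ℝ}
    {H : (Cs hS → ZMod 2) → ℝ} {K : ℝ}
    (h : ∑ σ : Cs hS → ZMod 2, ∑ τ : Cs hS → ZMod 2, F σ τ ≤
      K * (Fintype.card (Cs hS → ZMod 2) * ∑ σ : Cs hS → ZMod 2, H σ)) :
    ∑ β ∈ S.powerset, ∑ β' ∈ S.powerset, F (chiS hS h3 β) (chiS hS h3 β') ≤
      K * ((2 : ℝ) ^ S.card * ∑ β ∈ S.powerset, H (chiS hS h3 β)) := by
  obtain rfl : iF = Pi.instFintype := Subsingleton.elim _ _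
  have e1 : ∀ σ, ∑ β' ∈ S.powerset, F σ (chiS hS h3 β') =
      (2 ^ (S.card - Fintype.card (Cs hS))) • ∑ τ, F σ τ := fun σ =>
    sum_chiS hS h3 fun τ => F σ τ
  have e2 := sum_chiS hS h3 fun σ => ∑ β' ∈ S.powerset, F σ (chiS hS h3 β')
  have e3 := sum_chiS hS h3 H
  rw [e2, e3]
  simp only [e1]
  rw [← Finset.smul_sum]
  have hc := card_Cs_le hS h3
  obtain ⟨q, hq⟩ := Nat.exists_eq_add_of_le hc
  have hq' : S.card - Fintype.card (Cs hS) = q := by omega
  have hC : (Fintype.card (Cs hS → ZMod 2) : ℝ) = 2 ^ Fintype.card (Cs hS) := by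
    rw [Fintype.card_fun, ZMod.card]; push_cast; rfl
  rw [hC] at h
  rw [hq', nsmul_eq_mul, nsmul_eq_mul, nsmul_eq_mul]
  push_cast
  have h5 : (0 : ℝ) ≤ 2 ^ q * 2 ^ q := by positivity
  calc (2 : ℝ) ^ q * (2 ^ q * ∑ σ : Cs hS → ZMod 2, ∑ τ : Cs hS → ZMod 2, F σ τ)
      = 2 ^ q * 2 ^ q * ∑ σ : Cs hS → ZMod 2, ∑ τ : Cs hS → ZMod 2, F σ τ := by ring
    _ ≤ 2 ^ q * 2 ^ q * (K * (2 ^ Fintype.card (Cs hS) * ∑ σ : Cs hS → ZMod 2, H σ)) :=
        mul_le_mul_of_nonneg_left h h5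
    _ = K * (2 ^ (Fintype.card (Cs hS) + q) * (2 ^ q * ∑ σ : Cs hS → ZMod 2, H σ)) := by
        rw [pow_add]; ring
    _ = K * ((2 : ℝ) ^ S.card * (2 ^ q * ∑ σ : Cs hS → ZMod 2, H σ)) := by rw [hq]

section net

variable {ε : ℝ} {ι κ : Type*} [DecidableEq ι] [DecidableEq κ] (M : Net ε ι κ)
variable {I I₁ : Finset ι} {J J₁ : Finset κ} {D : Set ℂ} {d : ℝ}

/-- **the hypothesis `hq` of 304's `Qt_av` from the inequality on the cells** -/
theorem hq_cells (ig : Inn S (M.gw (I \ I₁) (J \ J₁))) (iw : Inn S (win M I₁ J₁))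
    {a : D0 S → ℂ} (ha : ∀ g : D0 S, ‖a g‖ ≤ ‖Nn (g.1.2, th S g.1, g.1.1)‖)
    (hs : ∀ g : D0 S, a g ≠ 0 → cen3 (fc S g) ∈ D ∧ rad3 (fc S g) ≤ d)
    [Fintype (Cs hS → ZMod 2)] {X : (Cs hS → ZMod 2) → (Cs hS → ZMod 2) → ℝ}
    (hX0 : ∀ σ τ, 0 ≤ X σ τ) {G : (Cs hS → ZMod 2) → Prop} {c : ℝ} (hc : 0 ≤ c)
    (hG : ∀ σ, M.gw (I \ I₁) (J \ J₁) (paint S (bk hS h3 σ)) ≠ 0 →
      win M I₁ J₁ (paint S (bk hS h3 σ)) ≠ 0 → (∃ τ, X σ τ ≠ 0) → G σ)
    (h : ∑ σ : Cs hS → ZMod 2, ∑ τ : Cs hS → ZMod 2, (if G σ then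
        (M.gw (I \ I₁) (J \ J₁) (paint S (bk hS h3 σ))).toReal * X σ τ else 0) ≤
      c * Fintype.card (Cs hS → ZMod 2) * ∑ σ : Cs hS → ZMod 2,
        (M.gw (I \ I₁) (J \ J₁) (paint S (bk hS h3 σ))).toReal * ∑ k, ‖a k‖ ^ 2) :
    ∑ β ∈ S.powerset, ∑ β' ∈ S.powerset, (M.gw (I \ I₁) (J \ J₁) (paint S β)).toReal *
        ((win M I₁ J₁ (paint S β)).toReal * X (chiS hS h3 β) (chiS hS h3 β')) ≤
      9 * c * ((2 : ℝ) ^ S.card * ∑ β ∈ S.powerset,
        (M.gw (I \ I₁) (J \ J₁) (paint S β)).toReal * (Hd D d (paint S β)).toReal) := by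
  set E : ℝ := (Hd D d (paint S ∅)).toReal with hE
  have hEb : ∀ β, (Hd D d (paint S β)).toReal = E := fun β => by rw [hE, Hd_paint D d S β ∅]
  have key := chi_le hS h3 (K := 9 * c)
    (F := fun σ τ => (M.gw (I \ I₁) (J \ J₁) (paint S (bk hS h3 σ))).toReal *
      ((win M I₁ J₁ (paint S (bk hS h3 σ))).toReal * X σ τ))
    (H := fun σ => (M.gw (I \ I₁) (J \ J₁) (paint S (bk hS h3 σ))).toReal * E) ?_
  · refine le_trans (le_of_eq ?_) (key.trans (le_of_eq ?_))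
    · refine Finset.sum_congr rfl fun β hβ => Finset.sum_congr rfl fun β' _ => ?_
      rw [inn_chi hS h3 ig (Finset.mem_powerset.1 hβ), inn_chi hS h3 iw (Finset.mem_powerset.1 hβ)]
    · congr 2
      refine Finset.sum_congr rfl fun β hβ => ?_
      rw [hEb, inn_chi hS h3 ig (Finset.mem_powerset.1 hβ)]
  calc ∑ σ : Cs hS → ZMod 2, ∑ τ : Cs hS → ZMod 2,
        (M.gw (I \ I₁) (J \ J₁) (paint S (bk hS h3 σ))).toReal *
          ((win M I₁ J₁ (paint S (bk hS h3 σ))).toReal * X σ τ)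
      ≤ ∑ σ : Cs hS → ZMod 2, ∑ τ : Cs hS → ZMod 2, (if G σ then
        (M.gw (I \ I₁) (J \ J₁) (paint S (bk hS h3 σ))).toReal * X σ τ else 0) := by
        refine Finset.sum_le_sum fun σ _ => Finset.sum_le_sum fun τ _ => ?_
        by_cases h0 : M.gw (I \ I₁) (J \ J₁) (paint S (bk hS h3 σ)) = 0
        · rw [h0, ENNReal.toReal_zero, zero_mul, zero_mul]
          split_ifs <;> exact le_rfl
        by_cases h1 : win M I₁ J₁ (paint S (bk hS h3 σ)) = 0
        · rw [h1, ENNReal.toReal_zero, zero_mul, mul_zero]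
          split_ifs
          · exact mul_nonneg ENNReal.toReal_nonneg (hX0 _ _)
          · exact le_rfl
        by_cases h2 : X σ τ = 0
        · rw [h2, mul_zero, mul_zero]
          split_ifs <;> exact le_rfl
        rw [if_pos (hG σ h0 h1 ⟨τ, h2⟩)]
        refine mul_le_mul_of_nonneg_left ?_ ENNReal.toReal_nonneg
        refine mul_le_of_le_one_left (hX0 _ _) ?_
        have := ENNReal.toReal_mono ENNReal.one_ne_top (win_le_one M (I₁ := I₁) (J₁ := J₁)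
          (paint S (bk hS h3 σ)))
        simpa using this
    _ ≤ _ := h
    _ ≤ c * Fintype.card (Cs hS → ZMod 2) * ∑ σ : Cs hS → ZMod 2,
        (M.gw (I \ I₁) (J \ J₁) (paint S (bk hS h3 σ))).toReal * (9 * E) := by
        gcongr with σ _
        exact energy' ha hs ∅
    _ = _ := by
        rw [← Finset.sum_mul, ← Finset.sum_mul]
        ring

end net

/-! ### the field `hQ` -/

section many

variable {ε : ℝ} {ι κ : Type} [DecidableEq ι] [DecidableEq κ] {M : Net ε ι κ}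
  {I : Finset ι} {J : Finset κ} {n : ℕ} {I₁ : ℕ → Finset ι} {J₁ : ℕ → Finset κ}
  {D : ℕ → Set ℂ} {d s : ℝ} {B : Set ℂ} {m0 : ℝ≥0∞}

/-- **FIELD `hQ` of 654's `Quen`** from the inequalities on the cells of `rc0 hS` (810), with the
colourings `chiS` of 304; `G l` is asked only where the whole weight does not vanish -/
theorem hQ_cells (h : Wnd M I J n I₁ J₁ D d s B m0) {ω : Sample}
    (hi : ∀ c, Inj ε (toPos ω) c) (hA : (S : Set ℂ) = points ε ω ∩ B)
    (hin : ∀ v ∈ S, v ∈ M.reg I J → ¬ OnHull S v) {g : Set (ℂ × Bool) → ℝ}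
    (hg0 : ∀ β ∈ S.powerset, 0 ≤ g (clr S β))
    (hg : ∀ β ∈ S.powerset, g (clr S β) ≤ (M.gw I J (paint S β)).toReal)
    {a : ℕ → D0 S → ℂ} (ha : ∀ l < n, ∀ g : D0 S, ‖a l g‖ ≤ ‖Nn (g.1.2, th S g.1, g.1.1)‖)
    (hs : ∀ l < n, ∀ g : D0 S, a l g ≠ 0 → cen3 (fc S g) ∈ D l ∧ rad3 (fc S g) ≤ d)
    [Fintype (Cs hS → ZMod 2)] {X : ℕ → (Cs hS → ZMod 2) → (Cs hS → ZMod 2) → ℝ}
    (hX0 : ∀ l < n, ∀ σ τ, 0 ≤ X l σ τ) {G : ℕ → (Cs hS → ZMod 2) → Prop} {c : ℝ} (hc : 0 ≤ c)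
    (hG : ∀ l < n, ∀ σ, M.gw I J (paint S (bk hS h3 σ)) ≠ 0 → G l σ)
    (hcell : ∀ l < n, ∑ σ : Cs hS → ZMod 2, ∑ τ : Cs hS → ZMod 2, (if G l σ then
        (M.gw (I \ I₁ l) (J \ J₁ l) (paint S (bk hS h3 σ))).toReal * X l σ τ else 0) ≤
      c * Fintype.card (Cs hS → ZMod 2) * ∑ σ : Cs hS → ZMod 2,
        (M.gw (I \ I₁ l) (J \ J₁ l) (paint S (bk hS h3 σ))).toReal * ∑ k, ‖a l k‖ ^ 2) :
    ∑ l ∈ Finset.range n, av S.powerset (fun β => g (clr S β) *
        av S.powerset fun β' => X l (chiS hS h3 β) (chiS hS h3 β')) ≤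
      Qt M I J n I₁ J₁ D d B (9 * c) ω := by
  -- locality
  have iJ : Inn S (M.gw I J) := inn_of (M.gw_local h.hN) hin
  have ig : ∀ l < n, Inn S (M.gw (I \ I₁ l) (J \ J₁ l)) := fun l hl =>
    inn_of (LocalOn.mono (M.reg_mono Finset.sdiff_subset Finset.sdiff_subset)
      (M.gw_local (h.hN₁ l hl))) hin
  have iw : ∀ l < n, Inn S (win M (I₁ l) (J₁ l)) := fun l hl => by
    refine inn_of (U := M.reg I J) ?_ hin
    refine LocalOn.mul ?_ (local_prod' (J₁ l) fun k hk => LocalOn.mono ?_ (M.el k))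
    · exact LocalOn.mono (M.reg_mono (h.hI l hl) (h.hJ l hl)) (M.a_local (I := I₁ l) (J := J₁ l))
    · exact union_subset_union (biUnion_subset_biUnion_left (h.hN k (h.hJ l hl hk)))
        (subset_biUnion_of_mem (u := M.C) (h.hJ l hl hk))
  -- the functional on the support of the weight
  set X' : ℕ → (Cs hS → ZMod 2) → (Cs hS → ZMod 2) → ℝ := fun l σ τ =>
    if M.gw I J (paint S (bk hS h3 σ)) ≠ 0 then X l σ τ else 0 with hX'
  have h0' : ∀ l < n, ∀ σ τ, 0 ≤ X' l σ τ := fun l hl σ τ => by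
    simp only [hX']
    split_ifs
    · exact hX0 l hl σ τ
    · exact le_rfl
  have hq : ∀ l < n, ∑ β ∈ S.powerset, ∑ β' ∈ S.powerset,
      (M.gw (I \ I₁ l) (J \ J₁ l) (paint S β)).toReal *
        ((win M (I₁ l) (J₁ l) (paint S β)).toReal * X' l (chiS hS h3 β) (chiS hS h3 β')) ≤
      9 * c * ((2 : ℝ) ^ S.card * ∑ β ∈ S.powerset,
        (M.gw (I \ I₁ l) (J \ J₁ l) (paint S β)).toReal * (Hd (D l) d (paint S β)).toReal) := by
    intro l hl
    have hG' : ∀ σ, M.gw (I \ I₁ l) (J \ J₁ l) (paint S (bk hS h3 σ)) ≠ 0 →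
        win M (I₁ l) (J₁ l) (paint S (bk hS h3 σ)) ≠ 0 → (∃ τ, X' l σ τ ≠ 0) → G l σ := by
      rintro σ - - ⟨τ, h1⟩
      refine hG l hl σ fun h2 => h1 ?_
      simp only [hX']
      rw [if_neg (not_not.2 h2)]
    have hX1 : ∀ σ τ, X' l σ τ ≤ X l σ τ := by
      intro σ τ
      simp only [hX']
      split_ifs
      · exact le_rfl
      · exact hX0 l hl σ τ
    have hc' : ∑ σ : Cs hS → ZMod 2, ∑ τ : Cs hS → ZMod 2, (if G l σ then
        (M.gw (I \ I₁ l) (J \ J₁ l) (paint S (bk hS h3 σ))).toReal * X' l σ τ else 0) ≤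
      c * Fintype.card (Cs hS → ZMod 2) * ∑ σ : Cs hS → ZMod 2,
        (M.gw (I \ I₁ l) (J \ J₁ l) (paint S (bk hS h3 σ))).toReal * ∑ k, ‖a l k‖ ^ 2 := by
      refine le_trans ?_ (hcell l hl)
      refine Finset.sum_le_sum fun σ _ => Finset.sum_le_sum fun τ _ => ?_
      split_ifs
      · exact mul_le_mul_of_nonneg_left (hX1 σ τ) ENNReal.toReal_nonneg
      · exact le_rfl
    exact hq_cells (X := X' l) (G := G l) (a := a l) (D := D l) (d := d) hS h3 M (ig l hl)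
      (iw l hl) (ha l hl) (hs l hl) (h0' l hl) hc hG' hc'
  have key := Qt_av (K := 9 * c) h hi hA (g := fun β => g (clr S β)) hg
    (X := fun l β β' => X' l (chiS hS h3 β) (chiS hS h3 β'))
    (fun l hl β _ β' _ => h0' l hl _ _) hq
  refine le_trans (le_of_eq ?_) key
  refine Finset.sum_congr rfl fun l _ => ?_
  unfold CorMx970.av
  congr 1
  refine Finset.sum_congr rfl fun β hβ => ?_
  by_cases h0 : M.gw I J (paint S β) = 0
  · have h1 : g (clr S β) = 0 := by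
      have h2 := hg β hβ
      rw [h0, ENNReal.toReal_zero] at h2
      exact le_antisymm h2 (hg0 β hβ)
    simp only [h1, zero_mul]
  · have h1 : M.gw I J (paint S (bk hS h3 (chiS hS h3 β))) ≠ 0 := by
      rw [← inn_chi hS h3 iJ (Finset.mem_powerset.1 hβ)]
      exact h0
    simp only [hX', if_pos h1]

end many

end Crest.Agent.R143.QuS2x176
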