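import Crest.Agent.R143.QuX_810
import Crest.Agent.R143.PLS_535
import Crest.Agent.R143.QuS2_176
import Crest.Agent.R143.QuA_66
import Crest.Agent.R143.ColX_829

/-!
# Row 143 (S0194), RIG box Q2: field `hQ` of 654's `Quen` for 358's `Sys` (helper810)

* `Pw` : the data of one window (at most two zones, 535's `Fix` and `Sb`), relative to a field `a`,
  a finite set `L` of cells and an event `G`
* `wd_pw` : inequality of one window for 166's `Wd`, constant `48`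
* `Lc` : the cells of the sites of a region; `gw_L` : the weight off a window only depends on them
* **`hQ_sys`** : the field `hQ` of `SysDx166.quen_of` with `Q = Qt .. (9 * 48)` of 304
* **`hQ_fq`** : the same for the fields of 66 (`zs`, `FQ`)
-/

set_option autoImplicit false
set_option linter.unusedSectionVars false

noncomputable section

open scoped Classical

namespace Crest.Agent.R143.QuYx810

open MeasureTheory
open Crest.ProbabilityR.Voronoi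
open Crest.Agent.R143.Frame1x395 Crest.Agent.R143.Frame2x395 Crest.Agent.R143.Frame3x395
  Crest.Agent.R143.Frame4x395 Crest.Agent.R143.Frame8x395 Crest.Agent.R143.Resax778
open Crest.Agent.R143.B0x346 Crest.Agent.R143.DelGx806 Crest.Agent.R143.FinCx811
open Crest.Agent.R143.Frame10x395
open Crest.Agent.R143.PP0x831 Crest.Agent.R143.Poisx304 Crest.Agent.R143.Janx304
  Crest.Agent.R143.Lawx831 Crest.Agent.R143.Dblx609 Crest.Agent.R143.ColSumx304 Crest.Agent.R143.Prodx609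
  Crest.Agent.R143.IndLocx279 Crest.Agent.R143.PWx978 Crest.Agent.R143.Hqx304
open Crest.Agent.R143.ColXx829 (Xc Xc_congr)
open Crest.Agent.R143.SmallAx304 (chiS)
open Crest.Agent.R143.IndLoc3x279 (clr)
open Crest.Agent.R143.CorMx970 (av)
open Crest.Agent.R143.Engx490 (fc bk)
open Crest.Agent.R143.Mass1x302 (Nn)
open Crest.Agent.R143.Frame5x395 (th)
open Crest.Agent.R143.FinMx609 (cen3 rad3)
open Crest.Agent.R143.Dbl2x609 (paint)
open Sptx169 (rst)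
open Sptx832 (FQ)
open OutSx358 (Sys OO gA gR)
open SysCx166 (Wd)
open Coarse2x166 (zs)
open C2SDx395 (zc)
open scoped ENNReal

/-! ### one window -/

section cmap

variable {D C : Type} [Fintype D] [Fintype C] {M : CMap D C} {H R : Set C} {Q : Set D} {ι : Type}
  {pa : ι → (C → ZMod 2) → D} {na : ι → (C → ZMod 2) → ℕ} {Ev : ι → (C → ZMod 2) → Prop}
  {L : Finset C} {G : (C → ZMod 2) → Prop}

/-- **the data of one window**: zones `Z` (at most two), the enlarged window `T`, the field `a`, the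
cells `L` seen by the weight off the window, the event `G` -/
structure Pw (M : CMap D C) (H R : Set C) (pa : ι → (C → ZMod 2) → D)
    (na : ι → (C → ZMod 2) → ℕ) (Ev : ι → (C → ZMod 2) → Prop) (L : Finset C) (a : D → ℂ)
    (G : (C → ZMod 2) → Prop) (κ : Type) [Fintype κ] (Z : κ → Uniqx323.Zn M) (T : Set C) :
    Prop where
  two : Fintype.card κ ≤ 2
  fix : PLx535.Fix M H R T Z
  /-- the faces of the field have a cell off the zones -/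
  sup : ∀ h, a h ≠ 0 → ∀ k, ¬ (M.cell h ∈ (Z k).R ∧ M.cell (M.rho h) ∈ (Z k).R ∧
    M.cell (M.rho (M.rho h)) ∈ (Z k).R)
  /-- at every colouring of the event: the pieces of the strand, LOCX -/
  sb : ∀ σ, G σ → ∃ i, Ev i σ ∧ ∃ q : κ → D × ℕ,
    PLSx535.Sb M H R T Z L (pa i σ) (na i σ) σ q

theorem Pw.mono {κ : Type} [Fintype κ] {Z : κ → Uniqx323.Zn M} {T : Set C} {a : D → ℂ}
    (P : Pw M H R pa na Ev L a G κ Z T) {G' : (C → ZMod 2) → Prop} (h : ∀ σ, G' σ → G σ) :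
    Pw M H R pa na Ev L a G' κ Z T :=
  ⟨P.two, P.fix, P.sup, fun σ hσ => P.sb σ (h σ hσ)⟩

/-- **the inequality of one window** -/
theorem wd_pw {d₀ : D} {k : ZMod 3} {w : ℂ} (w3 : w ^ 3 = 1) (w1 : w ≠ 1)
    (wc : (starRingEnd ℂ) w = w ^ 2) (S : Sys M H R Q pa na Ev) {g' : (C → ZMod 2) → ℝ}
    (hg' : ∀ σ, 0 ≤ g' σ) (hgL : ∀ σ τ, (∀ s ∈ L, τ s = σ s) → g' τ = g' σ) {z : D → ℂ}
    {F : ℕ → Set D} {l : ℕ} (ha : Spin M w (rst z (F l))) {κ : Type} [Fintype κ]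
    {Z : κ → Uniqx323.Zn M} {T : Set C} (P : Pw M H R pa na Ev L (rst z (F l)) G κ Z T) :
    ∑ σ : C → ZMod 2, ∑ τ : C → ZMod 2,
        (if G σ then g' σ * ‖Wd M H R Q pa na Ev k d₀ z F l σ τ‖ ^ 2 else 0) ≤
      48 * Fintype.card (C → ZMod 2) * ∑ σ, g' σ * ∑ h, ‖rst z (F l) h‖ ^ 2 := by
  refine QuXx810.wd_win w3 w1 wc S P.two P.fix (L := L) hg' hgL (fun σ h _ => ?_) ha P.sup
    fun σ h _ => ?_
  · obtain ⟨i, hi, -⟩ := P.sb σ h
    exact ⟨i, hi⟩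
  · obtain ⟨i, hi, q, B⟩ := P.sb σ h
    exact ⟨q, gA M H R Q pa na Ev 0 σ, 0, PLSx535.wn_of S hi B d₀ 0⟩

end cmap

/-! ### the weight off the window -/

section sites

variable {S : Finset ℂ} (hS : GP (S : Set ℂ)) (h3 : 3 ≤ S.card)

/-- the cells of the sites of a region -/
def Lc (U : Set ℂ) : Finset (Cs hS) :=
  Finset.univ.filter fun c => ∃ v, ∃ hv : v ∈ S, v ∈ U ∧ cs hS h3 ⟨v, hv⟩ = c

variable {hS h3}

theorem mem_Lc {U : Set ℂ} {c : Cs hS} :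
    c ∈ Lc hS h3 U ↔ ∃ v, ∃ hv : v ∈ S, v ∈ U ∧ cs hS h3 ⟨v, hv⟩ = c := by
  unfold Lc
  rw [Finset.mem_filter]
  exact ⟨fun h => h.2, fun h => ⟨Finset.mem_univ _, h⟩⟩

theorem local_L {E : Type*} {F : Set (ℂ × Bool) → E} {U : Set ℂ} (hF : LocalOn U F)
    {σ τ : Cs hS → ZMod 2} (h : ∀ s ∈ Lc hS h3 U, τ s = σ s) :
    F (Xc hS h3 τ) = F (Xc hS h3 σ) := by
  rw [hF (Xc hS h3 σ), hF (Xc hS h3 τ)]
  exact congrArg F (Xc_congr (T := U) fun v hv hvT => h _ (mem_Lc.2 ⟨v, hv, hvT, rfl⟩))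

theorem gw_L {ε : ℝ} {ι κ : Type*} [DecidableEq ι] [DecidableEq κ] (N : Net ε ι κ)
    {I : Finset ι} {J : Finset κ} (hN : ∀ k ∈ J, N.N k ⊆ I) {σ τ : Cs hS → ZMod 2}
    (h : ∀ s ∈ Lc hS h3 (N.reg I J), τ s = σ s) :
    (N.gw I J (Xc hS h3 τ)).toReal = (N.gw I J (Xc hS h3 σ)).toReal := by
  rw [local_L (N.gw_local hN) h]

end sites

/-! ### the field `hQ` -/

section field

variable {S : Finset ℂ} {hS : GP (S : Set ℂ)} {h3 : 3 ≤ S.card}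
variable {ε : ℝ} {ι κ : Type} [DecidableEq ι] [DecidableEq κ] {N : Net ε ι κ}
  {I : Finset ι} {J : Finset κ} {n : ℕ} {I₁ : ℕ → Finset ι} {J₁ : ℕ → Finset κ}
  {D : ℕ → Set ℂ} {d s : ℝ} {B : Set ℂ} {m0 : ℝ≥0∞}
variable {H R : Set (Cs hS)} {Q : Set (D0 S)} {ν : Type} {pa : ν → (Cs hS → ZMod 2) → D0 S}
  {na : ν → (Cs hS → ZMod 2) → ℕ} {Ev : ν → (Cs hS → ZMod 2) → Prop} {d₀ : D0 S} {k : ZMod 3}

/-- **field `hQ` of `SysDx166.quen_of`** for 358's `Sys`, every window with its data `Pw` -/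
theorem hQ_sys (Y : Sys (rc0 hS) H R Q pa na Ev) (h : Wnd N I J n I₁ J₁ D d s B m0) {ω : Sample}
    (hi : ∀ c, Inj ε (toPos ω) c) (hA : (S : Set ℂ) = points ε ω ∩ B)
    (off : ∀ v ∈ S, v ∈ N.reg I J → ¬ OnHull S v) {g : Set (ℂ × Bool) → ℝ}
    (hg0 : ∀ β ∈ S.powerset, 0 ≤ g (clr S β))
    (hg : ∀ β ∈ S.powerset, g (clr S β) ≤ (N.gw I J (clr S β)).toReal)
    {w : ℂ} (w3 : w ^ 3 = 1) (w1 : w ≠ 1) (wc : (starRingEnd ℂ) w = w ^ 2)
    {z : D0 S → ℂ} {F : ℕ → Set (D0 S)}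
    (hsp : ∀ l < n, Spin (rc0 hS) w (rst z (F l)))
    (ha : ∀ l < n, ∀ g : D0 S, ‖rst z (F l) g‖ ≤ ‖Nn (g.1.2, th S g.1, g.1.1)‖)
    (hs : ∀ l < n, ∀ g : D0 S, rst z (F l) g ≠ 0 → cen3 (fc S g) ∈ D l ∧ rad3 (fc S g) ≤ d)
    (hP : ∀ l < n, ∃ (κ : Type) (_ : Fintype κ) (Z : κ → Uniqx323.Zn (rc0 hS))
      (T : Set (Cs hS)), Pw (rc0 hS) H R pa na Ev (Lc hS h3 (N.reg (I \ I₁ l) (J \ J₁ l)))
        (rst z (F l)) (fun σ => N.gw I J (Xc hS h3 σ) ≠ 0) κ Z T) :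
    ∑ l ∈ Finset.range n, av S.powerset (fun β => g (clr S β) * av S.powerset fun β' =>
      ‖Wd (rc0 hS) H R Q pa na Ev k d₀ z F l (chiS hS h3 β) (chiS hS h3 β')‖ ^ 2) ≤
      Qt N I J n I₁ J₁ D d B (9 * 48) ω := by
  refine QuS2x176.hQ_cells hS h3 h hi hA off hg0 hg (a := fun l => rst z (F l)) ha hs
    (X := fun l σ τ => ‖Wd (rc0 hS) H R Q pa na Ev k d₀ z F l σ τ‖ ^ 2)
    (fun _ _ _ _ => by positivity) (G := fun _ σ => N.gw I J (Xc hS h3 σ) ≠ 0) (by norm_num)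
    (fun l _ σ h => h) fun l hl => ?_
  obtain ⟨κ', fκ, Z, T, P⟩ := hP l hl
  exact wd_pw w3 w1 wc Y (g' := fun σ => (N.gw (I \ I₁ l) (J \ J₁ l) (Xc hS h3 σ)).toReal)
    (fun σ => ENNReal.toReal_nonneg) (fun σ τ hst => gw_L N (h.hN₁ l hl) hst) (hsp l hl) P

/-- **the same for the fields of cells cut to the regions `Ql l`** (66) -/
theorem hQ_fq (Y : Sys (rc0 hS) H R Q pa na Ev) (h : Wnd N I J n I₁ J₁ D d s B m0) {ω : Sample}
    (hi : ∀ c, Inj ε (toPos ω) c) (hA : (S : Set ℂ) = points ε ω ∩ B)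
    (off : ∀ v ∈ S, v ∈ N.reg I J → ¬ OnHull S v) {g : Set (ℂ × Bool) → ℝ}
    (hg0 : ∀ β ∈ S.powerset, 0 ≤ g (clr S β))
    (hg : ∀ β ∈ S.powerset, g (clr S β) ≤ (N.gw I J (clr S β)).toReal)
    (hd : 0 < d) {m : ℕ} {Ql : ℕ → Set ℂ} (hQD : ∀ l < n, Ql l ⊆ D l)
    (hH : ∀ l < n, Locx922.Hol (S : Set ℂ) (Ql l) d)
    (hoff : ∀ l < n, ∀ z ∈ Ql l, ∀ v, ‖v - z‖ < d → ¬ OnHull S v)
    (hP : ∀ l < n, ∃ (κ : Type) (_ : Fintype κ) (Z : κ → Uniqx323.Zn (rc0 hS))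
      (T : Set (Cs hS)), Pw (rc0 hS) H R pa na Ev (Lc hS h3 (N.reg (I \ I₁ l) (J \ J₁ l)))
        (rst (zs (rc0 hS) om (zc hS id)) (FQ S m Ql l))
        (fun σ => N.gw I J (Xc hS h3 σ) ≠ 0) κ Z T) :
    ∑ l ∈ Finset.range n, av S.powerset (fun β => g (clr S β) * av S.powerset fun β' =>
      ‖Wd (rc0 hS) H R Q pa na Ev k d₀ (zs (rc0 hS) om (zc hS id)) (FQ S m Ql) l
        (chiS hS h3 β) (chiS hS h3 β')‖ ^ 2) ≤
      Qt N I J n I₁ J₁ D d B (9 * 48) ω := by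
  obtain ⟨w3, w1, wc⟩ := QuAx66.om2_adm
  have hf := fun l (hl : l < n) => QuAx66.fldZ (m := m) hS hd (hH l hl) (hoff l hl)
  exact hQ_sys Y h hi hA off hg0 hg w3 w1 wc (fun l hl => (hf l hl).1)
    (fun l hl => (hf l hl).2.1)
    (fun l hl g hg => ⟨hQD l hl ((hf l hl).2.2 g hg).1, ((hf l hl).2.2 g hg).2⟩) hP

end field

end Crest.Agent.R143.QuYx810
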