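import Crest.Agent.R143.TileR1_228
import Crest.Agent.R143.RegB_523

/-!
# Row 143 (S0194), CORE-C, box R1c: separation of the tiles in 523's form (helper228)
-/

set_option autoImplicit false

noncomputable section

open scoped Classical

namespace Crest.Agent.R143.TileRx228

open Crest.Agent.R143.RegBx523

variable {A B h g : ℝ} {M : ℕ} {W : ℤ → ℤ × ℤ}

/-- **separation with a gap** -/
theorem farG (P : FPath M W) (hA : 0 < A) (hAB : A ≤ B) (hg : 0 ≤ g) (hh : A + B + g ≤ h) :
    FarG M g A B h W := by
  intro a b h0 h1 h2 s hs t ht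
  exact gap P hA hAB hg hh h0 h1 h2 hs ht

/-- **separation** -/
theorem far523 (P : FPath M W) (hA : 0 < A) (hAB : A ≤ B) (hh : A + B < h) : Far M A B h W := by
  intro a b h0 h1 h2
  exact disj P hA hAB hh h0 h1 h2

end Crest.Agent.R143.TileRx228
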