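import Crest.Agent.R143.WndI_416
import Crest.Agent.R143.RegE_523
import Crest.Agent.R143.CorH_713
import Crest.Agent.R143.QuY_810

/-!
# Row 143 (S0194), RIG, LOCX: the cells read by the weight off a window (helper416)

* `reg_off` : the region of the net off a window `p .. q` is in the tiles `q < j < p + M`
* **`lc_site`** : a cell of `Lc` of this region is the cell of a site of such a tile
* **`lc_cor`** : under `CorH`: an inner site of an enlarged tile `q + 1 ≤ j ≤ p - 1 + M`, all its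
  neighbours are in enlarged tiles of the same range (the two hypotheses of 776's `lx_S`)
-/

set_option autoImplicit false

noncomputable section

open scoped Classical

namespace Crest.Agent.R143.LSdx416

open Set
open Crest.Agent.R143.B0x346 Crest.Agent.R143.DelGx806 Crest.Agent.R143.DelRx806
open Crest.Agent.R143.Frame10x395
open Crest.Agent.R143.Blkx838 (DE)
open Crest.Agent.R143.PP0x831 Crest.Agent.R143.PWx978 Crest.Agent.R143.Tplx978
open Crest.Agent.R143.FinMx609 Crest.Agent.R143.WLocx713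
open Crest.Agent.R143.TileRx228 Crest.Agent.R143.PthFx765
open Crest.Agent.R143.HqPx304 Crest.Agent.R143.CorNx765
open Crest.Agent.R143.FinCx811 (Cs rc0 cs)
open Crest.Agent.R143.CorHx713
open Crest.Agent.R143.QuYx810 (Lc mem_Lc)

section off

variable {M : ℕ} {W : ℤ → ℤ × ℤ} {Ac e : ℤ → ℤ} {A B h ε : ℝ} {T : Tpl ε (Tn × Bool)}
  [DecidableEq (ZMod M)]

omit [DecidableEq (ZMod M)] in
/-- representative -/
theorem repr (hM : 0 < M) (p a : ℤ) : ∃ j : ℤ, p ≤ j ∧ j < p + M ∧ (M : ℤ) ∣ a - j := by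
  have h0 : (0 : ℤ) < M := by exact_mod_cast hM
  refine ⟨p + (a - p) % M, ?_, ?_, (a - p) / M, ?_⟩
  · have := Int.emod_nonneg (a - p) h0.ne'
    omega
  · have := Int.emod_lt_of_pos (a - p) h0
    omega
  · have := Int.emod_add_mul_ediv (a - p) M
    linarith

/-- **the region of the net off the window `p .. q` is in the tiles `q < j < p + M`** -/
theorem reg_off (P : FPath M W) (Hs : Std T A B h Prod.fst) (i : ZMod 3)
    (I J : Finset (ZMod M)) (hM : 0 < M) {p q : ℤ} (hpq : q + 2 ≤ p + M) {s : ℂ}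
    (hs : s ∈ (cpth P Hs Ac e i).net.reg (I \ Iw M p q) (J \ Jw M p q)) :
    ∃ j, q < j ∧ j < p + M ∧ s ∈ RR A B h W j := by
  rcases hs with hs | hs
  · obtain ⟨k, hk, hs⟩ := mem_iUnion₂.1 hs
    have hk' := (Finset.mem_sdiff.1 hk).2
    have hs' : s ∈ PthFx765.GB A B h W (zc k) := by
      have := net_B P Hs (cty_typ (M := M) (W := W) (Ac := Ac) (e := e) i) (zc k)
      rw [zc_cast] at this
      rwa [← this]
    obtain ⟨j, h1, h2, h3⟩ := repr hM p (zc k)
    have hj : s ∈ PthFx765.GB A B h W j := by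
      rwa [PthFx765.GB_dvd P h3] at hs'
    have hkj : k = ((j : ℤ) : ZMod M) := by
      rw [← zc_cast k]
      exact cast_dvd h3
    by_cases hq : q < j
    · exact ⟨j, hq, h2, PthFx765.GB_sub P Hs.hA Hs.hB j hj⟩
    · by_cases hp : p < j
      · exact absurd (hkj ▸ mem_Iw hp (not_lt.1 hq)) hk'
      · have e1 : j = p := by omega
        have e2 : PthFx765.GB A B h W j = PthFx765.GB A B h W (p + M - 1 + 1) := by
          refine (PthFx765.GB_dvd P ⟨1, ?_⟩).symm
          rw [e1]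
          ring
        rw [e2] at hj
        exact ⟨p + M - 1, by omega, by omega, PthFx765.GB_sub' P Hs.hA Hs.hB _ hj⟩
  · obtain ⟨k, hk, hs⟩ := mem_iUnion₂.1 hs
    have hk' := (Finset.mem_sdiff.1 hk).2
    have hs' : s ∈ PthFx765.TB A B h W (zc k) := by
      have := net_C P Hs (cty_typ (M := M) (W := W) (Ac := Ac) (e := e) i) (zc k)
      rw [zc_cast] at this
      rwa [← this]
    obtain ⟨j, h1, h2, h3⟩ := repr hM p (zc k)
    have hkj : k = ((j : ℤ) : ZMod M) := by
      rw [← zc_cast k]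
      exact cast_dvd h3
    have hR : s ∈ RR A B h W j := by
      have := hs'.1
      rwa [PthFx765.RR_dvd P h3] at this
    by_cases hq : q < j
    · exact ⟨j, hq, h2, hR⟩
    · exact absurd (hkj ▸ mem_Jw h1 (not_lt.1 hq)) hk'

variable {S : Finset ℂ} {hS : GP (S : Set ℂ)} {h3 : 3 ≤ S.card}

/-- **a cell read by the weight off the window** -/
theorem lc_site (P : FPath M W) (Hs : Std T A B h Prod.fst) (i : ZMod 3)
    (I J : Finset (ZMod M)) (hM : 0 < M) {p q : ℤ} (hpq : q + 2 ≤ p + M) {c : Cs hS}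
    (hc : c ∈ Lc hS h3 ((cpth P Hs Ac e i).net.reg (I \ Iw M p q) (J \ Jw M p q))) :
    ∃ s ∈ S, c.1 = Quot.mk (hullE S) s ∧ ∃ j, q < j ∧ j < p + M ∧ s ∈ RR A B h W j := by
  obtain ⟨v, hv, h1, h2⟩ := mem_Lc.1 hc
  refine ⟨v, hv, ?_, reg_off P Hs i I J hM hpq h1⟩
  rw [← h2]
  rfl

variable {X : Set (ℂ × Bool)} {U : Set ℂ} {η d : ℝ} {o : ℤ} {n : ℕ}

/-- **the two hypotheses of 776's `lx_S` on the cells of `L`** -/
theorem lc_cor (H : CorH X U M W η d o n) (eS : sX X = S) (P : FPath M W)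
    (Hs : Std T A B h Prod.fst) (eA : A = 12 * η) (eB : B = 52 * η) (eh : h = 100 * η)
    (i : ZMod 3) (I J : Finset (ZMod M)) {p q : ℤ} (hpq : q + 2 ≤ p + M) {c : Cs hS}
    (hc : c ∈ Lc hS h3 ((cpth P Hs Ac e i).net.reg (I \ Iw M p q) (J \ Jw M p q))) :
    ∃ s ∈ S, c.1 = Quot.mk (hullE S) s ∧ ¬ OnHull S s ∧
      (∃ j : ℤ, q + 1 ≤ j ∧ j ≤ p - 1 + M ∧ s ∈ RR (12 * η) (52 * η) (100 * η) W j) ∧
      ∀ v, DE S s v →
        ∃ j : ℤ, q + 1 ≤ j ∧ j ≤ p - 1 + M ∧ v ∈ RR (13 * η) (53 * η) (100 * η) W j := by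
  have e0 := H.e0
  have d0 := H.d0
  have de := H.de
  have hM : 0 < M := by have := H.nM; omega
  obtain ⟨s, hs, h1, j, j1, j2, h2⟩ := lc_site P Hs i I J hM hpq hc
  rw [eA, eB, eh] at h2
  have hU : s ∈ U := H.sub_U (by linarith) (by linarith) j h2
  refine ⟨s, hs, h1, ?_, ⟨j, by omega, by omega, h2⟩, fun v hv => ⟨j, by omega, by omega, ?_⟩⟩
  · rw [← eS]
    exact H.inn hU
  · have h4 := H.step hU (eS ▸ hv)
    have h5 := Crest.Agent.R143.RegEx523.RR_thick P h2 (ρ := η) (by linarith : ‖v - s‖ ≤ η)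
    rwa [show 12 * η + η = 13 * η by ring, show 52 * η + η = 53 * η by ring] at h5

end off

end Crest.Agent.R143.LSdx416
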