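import Crest.Agent.R143.Sep2_686
import Crest.Agent.R143.Idx_927

/-!
# Row 143 (S0194), part A free route: **SEPARATION** (3b) of note 3646 (helper686; index half helper927)

* `PRing` : the pieces of the closed white chain: right sites of the arcs `k < n` (from `z k` to
  `z (k + 1)`), white links in the tiles `n ≤ j < N`
* **`sep_chain`** : a closed white chain `cw` in (right sites of the arcs) ∪ (white sites of the
  closing tiles), of index `-2π` at all points of `K`, at all gates and at all left sites of the arcs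
* **`sep_ext`** : no path of cells off `Z ⊇ cw` joins a left site of the arcs or a site of `K` to the
  hull
-/

set_option autoImplicit false

noncomputable section

open scoped Classical

namespace Crest.Agent.R143.Sepx686

open Crest.Agent.R143.B0x346 Crest.Agent.R143.DelGx806 Crest.Agent.R143.DelRx806
open Crest.Agent.R143.ToolWx838 Crest.Agent.R143.Blkx838 Crest.Agent.R143.ToolW2x838
open Crest.Agent.R143.ToolW3x838 Crest.Agent.R143.Gatex838 Crest.Agent.R143.Neckx921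
open Crest.Agent.R143.Frame1x395 Crest.Agent.R143.Frame2x395 Crest.Agent.R143.Frame3x395
  Crest.Agent.R143.Frame4x395 Crest.Agent.R143.Frame8x395 Crest.Agent.R143.Frame9x395
  Crest.Agent.R143.Frame10x395 Crest.Agent.R143.Frame11x395
open Crest.Agent.R143.Frame5x395 (sd mem_sd th th_spec)
open Crest.Agent.R143.Splx117 Crest.Agent.R143.WLocx713 Crest.Agent.R143.RingDx117
  Crest.Agent.R143.CorrDx117
open Crest.Agent.R143.Idxx927 (RingP cyc wl)

variable {S : Finset ℂ} {χ : ℂ → ZMod 2} {hS : GP (S : Set ℂ)} {hχ : HullC S χ} {n N : ℕ}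
  {y z : ℕ → ℂ} {A B : ℕ → Set ℂ} {p : ℕ → D0 S}

/-- the pieces exist -/
theorem exists_pieces {N : ℕ} (hN : 3 ≤ N) {x : ℕ → ℂ} (hx : ∀ j, x (j + N) = x j) {Q RR : ℕ → Set ℂ}
    (hQ : ∀ j, j < N → Lk S (Q j) (x j) (x (j + 1)))
    (hseg : ∀ j, j < N → ∀ u v, DE S u v → u ∈ Q j → v ∈ Q j → segment ℝ u v ⊆ RR j) :
    ∃ P : ℕ → List ℂ, RingP N x P RR ∧ Loop S (cyc N P) ∧ (∀ s ∈ cyc N P, ∃ j, j < N ∧ s ∈ Q j) ∧
      ∀ j, j < N → ∀ s ∈ P j, s ∈ Q j := by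
  have hxm : ∀ j, x (j % N) = x j := by
    have h1 : ∀ q r, x (r + q * N) = x r := by
      intro q r
      induction q with
      | zero => simp
      | succ q ih =>
        have e : r + (q + 1) * N = (r + q * N) + N := by ring
        rw [e, hx, ih]
    intro j
    conv_rhs => rw [← Nat.mod_add_div j N, mul_comm]
    exact (h1 _ _).symm
  have hxm1 : ∀ j, x (j % N + 1) = x (j + 1) := by
    intro j
    rw [← hxm (j + 1), ← hxm (j % N + 1), Nat.mod_add_mod]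
  have h : ∀ j, ∃ q : List ℂ, j < N → ∃ hq : q ≠ [], (∀ p ∈ prs q, DE S p.1 p.2) ∧
      (∀ s ∈ q, s ∈ Q j) ∧ q.head hq = x j ∧ q.getLast hq = x (j + 1) := by
    intro j
    by_cases hj : j < N
    · obtain ⟨q, hq, h1⟩ := lk_to_list (hQ j hj)
      exact ⟨q, fun _ => ⟨hq, h1⟩⟩
    · exact ⟨[], fun h => absurd h hj⟩
  choose P0 hP0 using h
  have hm : ∀ j, j % N < N := fun j => Nat.mod_lt _ (by omega)
  have H : RingP N x (fun j => P0 (j % N)) RR :=
    { hN := hN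
      per := fun j => by show P0 ((j + N) % N) = _; rw [Nat.add_mod_right]
      hd := fun j => by
        obtain ⟨hq, -, -, h3, -⟩ := hP0 (j % N) (hm j)
        show (P0 (j % N)).head? = _
        rw [List.head?_eq_some_head hq, h3, hxm]
      lst := fun j => by
        obtain ⟨hq, -, -, -, h4⟩ := hP0 (j % N) (hm j)
        show (P0 (j % N)).getLast? = _
        rw [List.getLast?_eq_some_getLast hq, h4, hxm1]
      reg := fun j hj p hp z hz => by
        rw [Nat.mod_eq_of_lt hj] at hp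
        obtain ⟨hq, h1, h2, -, -⟩ := hP0 j hj
        have m := mem_of_prs hp
        exact hseg j hj _ _ (h1 p hp) (h2 _ m.1) (h2 _ m.2) hz }
  refine ⟨fun j => P0 (j % N), H, H.loop ?_, ?_, ?_⟩
  · intro j hj p hp
    rw [Nat.mod_eq_of_lt hj] at hp
    obtain ⟨hq, h1, h2, -, -⟩ := hP0 j hj
    exact h1 p hp
  · intro s hs
    obtain ⟨j, hj, h⟩ := H.mem.1 hs
    rw [Nat.mod_eq_of_lt hj] at h
    obtain ⟨hq, h1, h2, -, -⟩ := hP0 j hj
    exact ⟨j, hj, h2 s h⟩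
  · intro j hj s hs
    have hs' : s ∈ P0 (j % N) := hs
    rw [Nat.mod_eq_of_lt hj] at hs'
    obtain ⟨hq, h1, h2, -, -⟩ := hP0 j hj
    exact h2 s hs'

/-- sets of the sites of the pieces: right sites of the arcs, white sites of the closing tiles -/
def QQ (S : Finset ℂ) (χ : ℂ → ZMod 2) (n : ℕ) (p : ℕ → D0 S) (t : ℕ → ℕ) (W : ℕ → Set ℂ) (j : ℕ) :
    Set ℂ := if j < n then RS S χ (p (j + 1)).1 (t j) else W j

theorem RS_S (D : DCorr hS hχ n y z A B p) {k : ℕ} (hk : k < n) {m : ℕ} {s : ℂ}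
    (hs : s ∈ RS S χ (p (k + 1)).1 m) : s ∈ S := by
  obtain ⟨i, -, rfl⟩ := hs
  have ho := (occ_p D (show k + 1 ≤ n by omega)).it hS hχ i
  have := th_spec ho.1
  exact (mem_delT.1 this).2.1

theorem LS_S (D : DCorr hS hχ n y z A B p) {k : ℕ} (hk : k < n) {m : ℕ} {s : ℂ}
    (hs : s ∈ LS S χ (p (k + 1)).1 m) : s ∈ S := by
  obtain ⟨i, -, rfl⟩ := hs
  have ho := (occ_p D (show k + 1 ≤ n by omega)).it hS hχ i
  have := th_spec ho.1
  exact (mem_delT.1 this).1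

/-- hypotheses on the inner gate `k0` -/
structure InG (S : Finset ℂ) (χ : ℂ → ZMod 2) (n : ℕ) (y z : ℕ → ℂ) (A B : ℕ → Set ℂ) (k0 : ℕ)
    (z0 e : ℂ) (a0 a1 b0 b1 m x0 x1 : ℝ) (V β : Finset ℂ) (up dn : List ℂ) : Prop where
  h2 : 2 ≤ k0
  h3 : k0 + 2 ≤ n
  he : e ≠ 0
  neck : Neck S z0 e a0 a1 b0 b1 m V β up (y k0) dn
  upz : up.getLast neck.nu = z k0
  x0a : x0 ≤ a0
  a1x : a1 ≤ x1
  β1 : ∀ j, k0 ≤ j + 2 → j < k0 + 2 → ∀ s ∈ S, s ∈ A j → χ s = χ (y 0) → s ∈ β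
  β2 : ∀ s ∈ β, χ s = χ (y 0)
  strip : ∀ j, k0 ≤ j + 2 → j < k0 + 2 → ∀ s ∈ S, s ∈ A j → b0 < Y z0 e s ∧ Y z0 e s < b1
  left : X z0 e (y (k0 - 2)) ≤ x0
  right : x1 ≤ X z0 e (y (k0 + 2))
  mid : ∀ j, k0 ≤ j + 1 → j < k0 + 1 → ∀ s ∈ S, s ∈ B j → x0 < X z0 e s ∧ X z0 e s < x1
  farB : ∀ j, j < n → j ≠ k0 → j + 1 ≠ k0 → ∀ s ∈ dn, s ∉ B j

/-- **SEP, the closed white chain** -/
theorem sep_chain (D : DCorr hS hχ n y z A B p) {t : ℕ → ℕ} (T : Back D t) {N : ℕ} (hN : 3 ≤ N)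
    (_hn : n ≤ N) {k0 : ℕ} {z0 e : ℂ} {a0 a1 b0 b1 m x0 x1 : ℝ} {V β : Finset ℂ} {up dn : List ℂ}
    (G : InG S χ n y z A B k0 z0 e a0 a1 b0 b1 m x0 x1 V β up dn)
    -- white links of the closing tiles
    {x : ℕ → ℂ} (hxz : ∀ k, k ≤ n → x k = z k) (hxN : ∀ j, x (j + N) = x j) {W : ℕ → Set ℂ}
    (hW : ∀ j, n ≤ j → j < N → Lk S (W j) (x j) (x (j + 1)))
    (hWS : ∀ j, n ≤ j → j < N → ∀ s ∈ W j, s ∈ S ∧ χ s ≠ χ (y 0) ∧ s ∉ dn)
    -- regions
    {RR : ℕ → Set ℂ}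
    (hsB : ∀ j, j < n → ∀ u v, DE S u v → u ∈ B j → v ∈ B j → segment ℝ u v ⊆ RR j)
    (hsW : ∀ j, n ≤ j → j < N → ∀ u v, DE S u v → u ∈ W j → v ∈ W j → segment ℝ u v ⊆ RR j)
    -- the extreme gate `k1 + 1`
    {k1 : ℕ} {z1 e1 : ℂ} (he1 : e1 ≠ 0) {y0 y1 : ℝ} (h01 : y0 ≤ y1)
    (hM : ∀ j, j = k1 % N ∨ j = (k1 + 1) % N → ∀ s ∈ S, (j < n → s ∈ B j) → (n ≤ j → s ∈ W j) →
      y0 < Y z1 e1 s ∧ Y z1 e1 s < y1)
    (ha : X z1 e1 (x k1) < 0) (hb : 0 < X z1 e1 (x (k1 + 2)))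
    (hWl : ∀ j, k1 + 2 ≤ j → j < k1 + N → ∀ t, y0 ≤ t → t ≤ y1 → wl z1 e1 t ∉ RR (j % N))
    (hray : ∀ j, j < N → ∀ t, y1 ≤ t → wl z1 e1 t ∉ RR j)
    -- the inner side
    {K : Set ℂ} (hK : IsPreconnected K)
    (hKR : ∀ w ∈ K, ∀ j, j < N → w ∈ RR j → (j = k0 ∨ j + 1 = k0) ∧ Y z0 e w ≤ b0)
    (hw : wl z1 e1 y0 ∈ K) (hdn : dn.getLast G.neck.nd ∈ K) :
    ∃ cw : List ℂ, Loop S cw ∧ (∀ s ∈ cw, s ∈ S) ∧ (∀ s ∈ cw, χ s ≠ χ (y 0)) ∧
      (∀ s ∈ cw, (∃ k, k < n ∧ s ∈ RS S χ (p (k + 1)).1 (t k)) ∨ ∃ j, n ≤ j ∧ j < N ∧ s ∈ W j) ∧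
      (∀ w ∈ K, asum w cw = -(2 * Real.pi)) ∧ (∀ k, k ≤ n → asum (y k) cw = -(2 * Real.pi)) ∧
      ∀ k, k < n → ∀ s ∈ LS S χ (p (k + 1)).1 (t k), asum s cw = -(2 * Real.pi) := by
  obtain ⟨h2, h3, he, neck, upz, x0a, a1x, β1, β2, strip, left, right, mid, farB⟩ := G
  have miss : ∀ k, k < n → ∀ r ∈ RS S χ (p (k + 1)).1 (t k), r ≠ y k0 ∧ r ∉ dn ∧
      (k = k0 ∨ k + 1 = k0 → b0 < Y z0 e r) := fun k hk r hr =>
    T.miss hS h2 h3 he neck upz x0a a1x β1 β2 strip left right mid farB hk hr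
  -- the pieces
  set RR' : ℕ → Set ℂ := fun j => {w | w ∈ RR j ∧ ((j = k0 ∨ j + 1 = k0) → b0 < Y z0 e w)} with hRR'
  have hQ : ∀ j, j < N → Lk S (QQ S χ n p t W j) (x j) (x (j + 1)) := by
    intro j hj
    unfold QQ
    split_ifs with hjn
    · rw [hxz j (by omega), hxz (j + 1) (by omega)]
      have ho := occ_p D (show j + 1 ≤ n by omega)
      have h1 := (right_lk hS hχ ho (t j)).1
      rw [T.arr j hjn, D.st j (by omega)] at h1
      rw [show (p (j + 1)).1.2 = z (j + 1) by rw [D.st (j + 1) (by omega)]] at h1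
      exact h1.symm
    · exact hW j (by omega) hj
  obtain ⟨P, H, hl, hmem, hPQ⟩ := exists_pieces (RR := RR') hN hxN hQ (by
    intro j hj u v hde hu hv w hw'
    unfold QQ at hu hv
    by_cases hjn : j < n
    · rw [if_pos hjn] at hu hv
      refine ⟨hsB j hjn u v hde (T.rB j hjn hu) (T.rB j hjn hv) hw', fun hj0 => ?_⟩
      have g1 := (miss j hjn u hu).2.2 hj0
      have g2 := (miss j hjn v hv).2.2 hj0
      obtain ⟨s, t', hs, ht, hst, rfl⟩ := hw'
      have e1 : Y z0 e (s • u + t' • v) = s * Y z0 e u + t' * Y z0 e v := by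
        unfold Y
        have hs' : s = 1 - t' := by linarith
        subst hs'
        have : (((1 - t' : ℝ) • u + t' • v - z0) / e : ℂ) =
            ((1 - t' : ℝ) : ℂ) * ((u - z0) / e) + (t' : ℂ) * ((v - z0) / e) := by
          simp only [Complex.real_smul]
          push_cast
          field_simp
          ring
        rw [this, Complex.add_im, Complex.im_ofReal_mul, Complex.im_ofReal_mul]
      rw [e1]
      rcases hs.lt_or_eq with hs0 | hs0
      · have k1 := mul_lt_mul_of_pos_left g1 hs0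
        have k2 := mul_le_mul_of_nonneg_left g2.le ht
        have k3 : s * b0 + t' * b0 = b0 := by rw [← add_mul, hst, one_mul]
        linarith
      · have k3 : t' = 1 := by linarith
        rw [← hs0, k3]
        linarith
    · rw [if_neg hjn] at hu hv
      exact ⟨hsW j (by omega) hj u v hde hu hv hw', fun hj0 => by omega⟩)
  have hcS : ∀ s ∈ cyc N P, s ∈ S := by
    intro s hs
    obtain ⟨j, hj, h⟩ := hmem s hs
    unfold QQ at h
    by_cases hjn : j < n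
    · rw [if_pos hjn] at h; exact RS_S D hjn h
    · rw [if_neg hjn] at h; exact (hWS j (by omega) hj s h).1
  have hcc : ∀ s ∈ cyc N P, χ s ≠ χ (y 0) := by
    intro s hs
    obtain ⟨j, hj, h⟩ := hmem s hs
    unfold QQ at h
    by_cases hjn : j < n
    · rw [if_pos hjn] at h; exact T.rcol hjn h
    · rw [if_neg hjn] at h; exact (hWS j (by omega) hj s h).2.1
  have hdnc : ∀ s ∈ dn, s ∉ cyc N P := by
    intro s hsd hs
    obtain ⟨j, hj, h⟩ := hmem s hs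
    unfold QQ at h
    by_cases hjn : j < n
    · rw [if_pos hjn] at h; exact (miss j hjn s h).2.1 hsd
    · rw [if_neg hjn] at h; exact (hWS j (by omega) hj s h).2.2 hsd
  have hKi : ∀ w ∈ K, asum w (cyc N P) = -(2 * Real.pi) := by
    intro w hwK
    refine H.index (z0 := z1) he1 h01 k1 ?_ ha hb ?_ ?_ hK ?_ hw hwK
    · intro s hs
      have key : ∀ j, s ∈ P (j % N) → j % N = k1 % N ∨ j % N = (k1 + 1) % N →
          y0 < Y z1 e1 s ∧ Y z1 e1 s < y1 := by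
        intro j hsj hj1
        have hjN : j % N < N := Nat.mod_lt _ (by omega)
        have hq := hPQ _ hjN s hsj
        have hsS : s ∈ S := hcS s (H.mem.2 ⟨_, hjN, hsj⟩)
        refine hM _ hj1 s hsS ?_ ?_
        · intro hjn
          unfold QQ at hq
          rw [if_pos hjn] at hq
          exact T.rB _ hjn hq
        · intro hjn
          unfold QQ at hq
          rwa [if_neg (by omega)] at hq
      rcases hs with hs | hs
      · rw [Idxx927.per_mod H] at hs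
        exact key k1 hs (Or.inl rfl)
      · rw [Idxx927.per_mod H] at hs
        exact key (k1 + 1) hs (Or.inr rfl)
    · intro j h1 h4 t1 h5 h6 h7
      exact hWl j h1 h4 t1 h5 h6 h7.1
    · intro j hj t1 h5 h7
      exact hray j hj t1 h5 h7.1
    · intro w hw j hj h7
      obtain ⟨h8, h9⟩ := hKR w hw j hj h7.1
      exact absurd (h7.2 h8) (not_lt.2 h9)
  have hy0 : asum (y k0) (cyc N P) = -(2 * Real.pi) := by
    rw [neck_idx hS neck hl (fun h => hcc _ h (col_y D (by omega))) hdnc]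
    exact hKi _ hdn
  have hyk : ∀ k, k ≤ n → asum (y k) (cyc N P) = -(2 * Real.pi) := by
    intro k hk
    rw [idx_y D hl hcc hk, ← idx_y D hl hcc (show k0 ≤ n by omega), hy0]
  refine ⟨cyc N P, hl, hcS, hcc, ?_, hKi, hyk, ?_⟩
  · intro s hs
    obtain ⟨j, hj, h⟩ := hmem s hs
    unfold QQ at h
    by_cases hjn : j < n
    · rw [if_pos hjn] at h; exact Or.inl ⟨j, hjn, h⟩
    · rw [if_neg hjn] at h; exact Or.inr ⟨j, by omega, hj, h⟩
  · intro k hk s hs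
    rw [T.idx_left hl hcc hk hs, hyk k hk.le]

/-- **SEP, final form**: `Z` contains the cells of the right sites of the arcs and of the white sites
of the closing tiles. No path of cells off `Z` joins a left site of the arcs, or a site of `K`, to
the hull. -/
theorem sep_ext (D : DCorr hS hχ n y z A B p) {t : ℕ → ℕ} (_T : Back D t) {N : ℕ} {W : ℕ → Set ℂ}
    {K : Set ℂ} {cw : List ℂ} (hl : Loop S cw) (hcS : ∀ s ∈ cw, s ∈ S)
    (hcm : ∀ s ∈ cw, (∃ k, k < n ∧ s ∈ RS S χ (p (k + 1)).1 (t k)) ∨ ∃ j, n ≤ j ∧ j < N ∧ s ∈ W j)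
    (hcK : ∀ w ∈ K, asum w cw = -(2 * Real.pi))
    (hcl : ∀ k, k < n → ∀ s ∈ LS S χ (p (k + 1)).1 (t k), asum s cw = -(2 * Real.pi))
    {Z : Set (Quot (hullE S))}
    (hZ1 : ∀ k, k < n → ∀ s ∈ RS S χ (p (k + 1)).1 (t k), (Quot.mk _ s : Quot (hullE S)) ∈ Z)
    (hZ2 : ∀ j, n ≤ j → j < N → ∀ s ∈ W j, (Quot.mk _ s : Quot (hullE S)) ∈ Z) {v w : ℂ}
    (hv : v ∈ K ∨ ∃ k, k < n ∧ v ∈ LS S χ (p (k + 1)).1 (t k)) (hvi : ¬ OnHull S v)
    (hw : OnHull S w) : ¬ OffZ (cm0 hS) Z (Quot.mk _ v) (Quot.mk _ w) := by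
  have h0 : asum v cw = -(2 * Real.pi) := by
    rcases hv with hv | ⟨k, hk, hv⟩
    · exact hcK v hv
    · exact hcl k hk v hv
  refine sep_hull hS hl hcS (fun s hs => ?_) hvi ?_ hw
  · rcases hcm s hs with ⟨k, hk, h⟩ | ⟨j, hj, hj', h⟩
    · exact hZ1 k hk s h
    · exact hZ2 j hj hj' s h
  · rw [h0]
    have := Real.pi_pos
    intro h
    linarith

end Crest.Agent.R143.Sepx686
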