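import Crest.Agent.R143.OutS_358
import Crest.Agent.R143.Strand_535

/-!
# Row 143 (S0194), RIG: the instance `Sys` of `OutS_358` with the maximal strands of 535 (helper358)

`Rt` fixed set of cells (regions of the inner out tiles), `R` cells of the strips of the white tiles,
`h₀` the hull cell, `Q` the states of the window of the inner gate.

* `pS M Rt d σ`, `nS M Rt d σ` : first state and length of the strand of `d` in `Rt`;
  `base_list` : the strand is the arc `P pS 0, .., P pS nS`; `pS_eq`, `nS_eq`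
* `Good M H R Q p n σ` : the conditions of one arc (black left cells, `n < per`, block gap in `Q`,
  `Ext` connected, `Sep`, link); `Good.ex` : 166's `Ex`; **`Good.dec`** : they are decided by the
  revealed colours
* `EvS` : the event of the dart `d`: its strand leaves `Rt`, is `Good`, and `X d σ` (any predicate
  which is decided by the revealed colours)
* **`sysS`** : `Sys M {h₀} R Q (pS M Rt) (nS M Rt) (EvS ..)`, from: `h₀ ∉ R`, `X` decided, two darts
  with `EvS` are on one strand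
-/

set_option autoImplicit false
set_option linter.unusedSectionVars false

noncomputable section

open scoped Classical

namespace Crest.Agent.R143.SysSx358

open Crest.Agent.R143.Frame1x395 Crest.Agent.R143.Frame2x395 Crest.Agent.R143.Frame3x395
  Crest.Agent.R143.Frame4x395 Crest.Agent.R143.Frame8x395 Crest.Agent.R143.Frame9x395
  Crest.Agent.R143.NonXx592 Crest.Agent.R143.CFramex358 Crest.Agent.R143.Gntx535
  Crest.Agent.R143.R5bx166 Crest.Agent.R143.R5qx166 Crest.Agent.R143.Extx358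
  Crest.Agent.R143.OutSx358

open Splx117 (Lp InK gp)
open Strandx535 (fc Str Sd mem_Sd str_agree str_list Sd_list str_symm str_trans fc_rev str_refl
  str_occ)

variable {D C : Type} [Fintype D] [Fintype C] {M : CMap D C} {H R Rt : Set C} {Q : Set D}
  {σ τ : C → ZMod 2} {p d e : D} {n : ℕ}

/-! ### first state and length of a strand -/

/-- first state of the strand -/
def pS (M : CMap D C) (Rt : Set C) (d : D) (σ : C → ZMod 2) : D :=
  if h : ∃ e, Str M (cfg M σ) Rt d e ∧ ¬ fc M Rt (M.iota e) then h.choose else d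

/-- length of the strand -/
def nS (M : CMap D C) (Rt : Set C) (d : D) (σ : C → ZMod 2) : ℕ :=
  if h : ∃ n, ¬ fc M Rt (P M (cfg M σ) (pS M Rt d σ) n) then Nat.find h else 0

/-- the strand of `d` leaves `Rt` -/
def Bs (M : CMap D C) (Rt : Set C) (d : D) (σ : C → ZMod 2) : Prop :=
  cfg M σ d = 1 ∧ ∃ q, Str M (cfg M σ) Rt d q ∧ ¬ fc M Rt q

/-- the strand of `d` is the arc `P e 0, .., P e n` -/
structure Lst (M : CMap D C) (Rt : Set C) (d : D) (σ : C → ZMod 2) (e : D) (n : ℕ) : Prop where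
  occ : cfg M σ e = 1
  mem : ∀ q, Str M (cfg M σ) Rt d q ↔ ∃ j ≤ n, P M (cfg M σ) e j = q
  inn : ∀ j < n, fc M Rt (P M (cfg M σ) e j)
  out : ¬ fc M Rt (P M (cfg M σ) e n)
  bck : ¬ fc M Rt (M.iota e)
  inj : ∀ i j, i < j → j ≤ n → P M (cfg M σ) e i ≠ P M (cfg M σ) e j

theorem Bs.lst (h : Bs M Rt d σ) : ∃ e n, Lst M Rt d σ e n := by
  obtain ⟨e, n, h1, h2, h3, h4, h5, h6⟩ := str_list (cfg_isC σ) h.1 h.2
  exact ⟨e, n, h1, h2, h3, h4, h5, h6⟩

/-- the first state is unique -/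
theorem Lst.uniq (L : Lst M Rt d σ e n) {q : D} (h1 : Str M (cfg M σ) Rt d q)
    (h2 : ¬ fc M Rt (M.iota q)) : q = e := by
  obtain ⟨j, hj, rfl⟩ := (L.mem q).1 h1
  rcases Nat.eq_zero_or_pos j with rfl | hj'
  · rfl
  · exfalso
    apply h2
    rw [show j = (j - 1) + 1 by omega, P_succ, fc_rev (cfg_isC σ) (P_occ (cfg_isC σ) L.occ _)]
    exact L.inn _ (by omega)

theorem Lst.self (L : Lst M Rt d σ e n) : Str M (cfg M σ) Rt d e :=
  (L.mem e).2 ⟨0, Nat.zero_le _, rfl⟩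

theorem Lst.pS_eq (L : Lst M Rt d σ e n) : pS M Rt d σ = e := by
  have h : ∃ e, Str M (cfg M σ) Rt d e ∧ ¬ fc M Rt (M.iota e) := ⟨e, L.self, L.bck⟩
  unfold pS
  rw [dif_pos h]
  exact L.uniq h.choose_spec.1 h.choose_spec.2

theorem Lst.nS_eq (L : Lst M Rt d σ e n) : nS M Rt d σ = n := by
  unfold nS
  rw [L.pS_eq]
  have h : ∃ n, ¬ fc M Rt (P M (cfg M σ) e n) := ⟨n, L.out⟩
  rw [dif_pos h]
  refine (Nat.find_eq_iff h).2 ⟨L.out, fun m hm => ?_⟩
  rw [not_not]
  exact L.inn m hm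

/-- **the strand is the arc of `pS`, `nS`** -/
theorem base_list (h : Bs M Rt d σ) : Lst M Rt d σ (pS M Rt d σ) (nS M Rt d σ) := by
  obtain ⟨e, n, L⟩ := h.lst
  rw [L.pS_eq, L.nS_eq]
  exact L

/-- the cells of the arc are the revealed cells of the strand -/
theorem Lst.ac_eq (L : Lst M Rt d σ e n) (hd : cfg M σ d = 1) :
    ac M e n σ = Sd M d Rt σ := (Sd_list hd L.mem).symm

/-- a strand which agrees on its cells -/
theorem Lst.congr (L : Lst M Rt d σ e n) (hd : cfg M σ d = 1)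
    (ha : ∀ c ∈ ac M e n σ, τ c = σ c) : cfg M τ d = 1 ∧ Lst M Rt d τ e n := by
  obtain ⟨h1, h2⟩ := str_agree (Rt := Rt) hd fun c hc => ha c (by rw [L.ac_eq hd]; exact hc)
  obtain ⟨h3, h4, -, -⟩ := ac_congr L.occ ha
  refine ⟨h1, h3, fun q => ?_, fun j hj => ?_, ?_, L.bck, fun i j hij hj => ?_⟩
  · rw [h2, L.mem]
    exact ⟨fun ⟨j, hj, e⟩ => ⟨j, hj, by rw [h4 j hj]; exact e⟩,
      fun ⟨j, hj, e⟩ => ⟨j, hj, by rw [← h4 j hj]; exact e⟩⟩
  · rw [h4 j hj.le]; exact L.inn j hj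
  · rw [h4 n le_rfl]; exact L.out
  · rw [h4 i (by omega), h4 j hj]; exact L.inj i j hij hj

/-- the left cell of `d` is on the arc, with the colour of the first left cell -/
theorem Lst.col (L : Lst M Rt d σ e n) : σ (M.cell d) = σ (M.cell e) := by
  obtain ⟨j, -, hj⟩ := (L.mem d).1 (str_refl d)
  rw [← hj]
  exact it_col (cfg_isC σ) L.occ (fun d hd => cfg_zero.1 hd) j

/-- the period is greater than the length -/
theorem Lst.lt (L : Lst M Rt d σ e n) : n < per M (cfg M σ) e := by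
  have h := lp_per (M := M) (cfg_isC σ) L.occ
  by_contra hc
  exact L.inj 0 (per M (cfg M σ) e) h.pos (by omega) h.per.symm

/-- the strand has the same list from every state of it -/
theorem Lst.move (L : Lst M Rt d σ e n) (hd : cfg M σ d = 1) {d' : D}
    (h : Str M (cfg M σ) Rt d d') : Lst M Rt d' σ e n := by
  refine ⟨L.occ, fun q => ?_, L.inn, L.out, L.bck, L.inj⟩
  rw [← L.mem]
  have hi := cfg_isC (M := M) σ
  exact ⟨fun h' => str_trans hi hd h h', fun h' => str_trans hi (str_occ hi hd h)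
    (str_symm hi hd h) h'⟩

/-! ### the conditions of one arc -/

/-- the conditions of one arc -/
structure Good (M : CMap D C) (H R : Set C) (Q : Set D) (p : D) (n : ℕ) (σ : C → ZMod 2) :
    Prop where
  occ : cfg M σ p = 1
  col : σ (M.cell p) = 1
  lt : n < per M (cfg M σ) p
  ink : ∃ r, P M (cfg M σ) p r ∈ Q ∧ InK M (cfg M σ) p 0 n r
  con : CCon M {c | Ext M H (zc M R p n σ) c}
  sep : Sep M H (zc M R p n σ) (wl M (cfg M σ) p n)
  lnk : ∃ c₀ ∈ (wr M (cfg M σ) p n : Set C), ∃ e₀,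
    Ext M H (zc M R p n σ) e₀ ∧ Ad M e₀ c₀

/-- the revealed set of one arc -/
def oc1 (M : CMap D C) (H R : Set C) (p : D) (n : ℕ) (σ : C → ZMod 2) : Finset C :=
  outF M H R (ac M p n) σ

theorem oc_oc1 {pa : (C → ZMod 2) → D} {na : (C → ZMod 2) → ℕ} :
    oc M H R pa na σ = oc1 M H R (pa σ) (na σ) σ := rfl

theorem coe_oc1 : (oc1 M H R p n σ : Set C) =
    EE M (cfg M σ) p n (Extx358.Ww M H R p n σ) := by
  have h := oc_eq (M := M) (H := H) (R := R) (pa := fun (_ : Unit) (_ : C → ZMod 2) => p)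
    (na := fun (_ : Unit) (_ : C → ZMod 2) => n) (i := ()) (σ := σ)
  exact h

theorem ac_sub1 {c : C} (h : c ∈ ac M p n σ) : c ∈ oc1 M H R p n σ :=
  (mem_outF (Set.toFinite H)).2 (out_arc (Finset.mem_coe.2 h))

/-- **166's hypotheses** -/
theorem Good.ex (G : Good M H R Q p n σ) :
    Ex M σ p (per M (cfg M σ) p) n (rr M (cfg M σ) p n Q) (Extx358.Ww M H R p n σ) := by
  obtain ⟨-, h2, h3, h4, h5⟩ := walker_n G.col G.occ (Set.toFinite H) G.con G.sep G.lnk
  refine ⟨lp_per (cfg_isC σ) G.occ, G.lt, (rr_spec G.ink).2, G.col, h2, h3, h4,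
    fun d hd hd' => ?_⟩
  by_cases hl : d ∈ M.live
  · exact h5 _ hd _ hd' ⟨d, hl, rfl, rfl⟩
  · exact absurd (M.dead d hl ▸ hd) hd'

/-- the exterior is decided -/
theorem ext_dec (hR : ∀ c ∈ H, c ∉ R) (hp : cfg M σ p = 1)
    (ha : ∀ c ∈ oc1 M H R p n σ, τ c = σ c) (c : C) :
    Ext M H (zc M R p n τ) c ↔ Ext M H (zc M R p n σ) c := by
  obtain ⟨-, -, e4, e5⟩ := ac_congr hp fun c hc => ha c (ac_sub1 (H := H) (R := R) hc)
  have e6 : ac M p n τ = ac M p n σ := by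
    unfold ac
    rw [e4, e5]
  obtain ⟨-, g2, -, -⟩ := stop_at (M := M) (A := fun σ => (ac M p n σ : Set C))
    (σ := σ) (τ := τ) hR (by show (_ : Set C) = _; rw [e6])
    fun c hc => ha c ((mem_outF (Set.toFinite H)).2 hc)
  have h := g2 c
  have z : ∀ σ : C → ZMod 2, Zs (fun σ => (ac M p n σ : Set C)) R σ = zc M R p n σ := fun σ => by
    unfold Zs zc Zc
    beta_reduce
    rw [coe_ac]
  rw [z, z] at h
  exact h

/-- **the conditions are decided by the revealed colours** -/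
theorem Good.dec (hR : ∀ c ∈ H, c ∉ R) (G : Good M H R Q p n σ)
    (ha : ∀ c ∈ oc1 M H R p n σ, τ c = σ c) : Good M H R Q p n τ := by
  have X := G.ex
  have hE : ∀ c ∈ EE M (cfg M σ) p n (Extx358.Ww M H R p n σ), τ c = σ c :=
    fun c hc => ha c (by rw [← Finset.mem_coe, coe_oc1]; exact hc)
  obtain ⟨h1, h2, h3, h4⟩ := ac_congr G.occ fun c hc => ha c (ac_sub1 (H := H) (R := R) hc)
  have hx := ext_dec hR G.occ ha
  have hx' : {c | Ext M H (zc M R p n τ) c} = {c | Ext M H (zc M R p n σ) c} := by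
    ext c
    exact hx c
  refine ⟨h1, ?_, (X.arc hE).2.nN, ?_, ?_, ?_, ?_⟩
  · rw [ha (M.cell p) (ac_sub1 (Finset.mem_union.2 (Or.inl (mem_wl.2 ⟨0, Nat.zero_le _, rfl⟩))))]
    exact G.col
  · obtain ⟨r, hr1, hr2⟩ := G.ink
    exact ⟨r, by rw [h2 r hr2.hi.le]; exact hr1, (X.ink hE).2 hr2⟩
  · rw [hx']
    exact G.con
  · intro c hc e he
    rw [h3] at hc
    exact G.sep c hc e ((hx e).1 he)
  · obtain ⟨c₀, g1, e₀, g2, g3⟩ := G.lnk
    exact ⟨c₀, by rw [h4]; exact g1, e₀, (hx e₀).2 g2, g3⟩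

/-! ### the system of the strands -/

/-- the event of the dart `d` -/
def EvS (M : CMap D C) (H R Rt : Set C) (Q : Set D) (X : D → (C → ZMod 2) → Prop) (d : D)
    (σ : C → ZMod 2) : Prop :=
  Bs M Rt d σ ∧ Good M H R Q (pS M Rt d σ) (nS M Rt d σ) σ ∧ X d σ

variable {X : D → (C → ZMod 2) → Prop}

/-- **the strands form a system**; `hU` : two good darts are on one strand -/
theorem sysS (hR : ∀ c ∈ H, c ∉ R)
    (hX : ∀ d σ τ, EvS M H R Rt Q X d σ →
      (∀ c ∈ oc M H R (pS M Rt d) (nS M Rt d) σ, τ c = σ c) → X d τ)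
    (hU : ∀ d d' σ, EvS M H R Rt Q X d σ → EvS M H R Rt Q X d' σ →
      Str M (cfg M σ) Rt d d') :
    Sys M H R Q (pS M Rt) (nS M Rt) (EvS M H R Rt Q X) := by
  have hst : ∀ d σ τ, Bs M Rt d σ → (∀ c ∈ ac M (pS M Rt d σ) (nS M Rt d σ) σ, τ c = σ c) →
      Bs M Rt d τ ∧ pS M Rt d τ = pS M Rt d σ ∧ nS M Rt d τ = nS M Rt d σ := by
    intro d σ τ hb ha
    obtain ⟨h1, L⟩ := (base_list hb).congr hb.1 ha
    exact ⟨⟨h1, _, (L.mem _).2 ⟨_, le_rfl, rfl⟩, L.out⟩, L.pS_eq, L.nS_eq⟩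
  refine ⟨hR, fun d σ τ h ha => (hst d σ τ h.1 ha).2, fun d σ τ h ha => ?_, fun d d' σ h h' => ?_,
    fun d σ h => h.2.1.occ, fun d σ h => h.2.1.col, fun d σ h => h.2.1.lt,
    fun d σ h => h.2.1.ink, fun d σ h => h.2.1.con, fun d σ h => h.2.1.sep,
    fun d σ h => h.2.1.lnk⟩
  · obtain ⟨b, e1, e2⟩ := hst d σ τ h.1 fun c hc => ha c (ac_sub (i := d) c hc)
    refine ⟨b, ?_, hX d σ τ h ha⟩
    rw [e1, e2]
    rw [oc_oc1] at ha
    exact h.2.1.dec hR ha
  · have L := (base_list h.1).move h.1.1 (hU d d' σ h h')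
    exact ⟨L.pS_eq.symm, L.nS_eq.symm⟩

/-- to be `Good` it is enough: strand which leaves `Rt`, black left cell, block gap in `Q`, `Sep`,
link (one hull cell) -/
theorem good_of {h₀ : C} (hb : Bs M Rt d σ) (hc : σ (M.cell d) = 1)
    (hi : ∃ r, P M (cfg M σ) (pS M Rt d σ) r ∈ Q ∧
      InK M (cfg M σ) (pS M Rt d σ) 0 (nS M Rt d σ) r)
    (hs : Sep M {h₀} (zc M R (pS M Rt d σ) (nS M Rt d σ) σ)
      (wl M (cfg M σ) (pS M Rt d σ) (nS M Rt d σ)))
    (hl : ∃ c₀ ∈ (wr M (cfg M σ) (pS M Rt d σ) (nS M Rt d σ) : Set C), ∃ e₀,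
      Ext M {h₀} (zc M R (pS M Rt d σ) (nS M Rt d σ) σ) e₀ ∧ Ad M e₀ c₀) :
    Good M {h₀} R Q (pS M Rt d σ) (nS M Rt d σ) σ := by
  have L := base_list hb
  exact ⟨L.occ, L.col ▸ hc, L.lt, hi, ext_con_one, hs, hl⟩

end Crest.Agent.R143.SysSx358
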