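import Crest.Agent.R143.CorH_713
import Crest.Agent.R143.SepL_686
import Crest.Agent.R143.RcT_422
import Crest.Agent.R143.SysS_358

/-!
# Row 143 (S0194), RIG, CorrI (b): SEPARATION for the corridor `CorH` (helper697)

`H : CorH X U M W η d o n` (713), `G : Geo ..` (686's `SGeo`, numbers `A = 9 η`, `B = 51 η`,
`h = 100 η`, `b1 = 10 η`, `m = η`, `ρ = η / 2`, `τ = η`, `κ = 3 η`; instance: 523's `sgeo`), arcs
backward (881 / 831), `St` the strand of 117.

* `BR η W M o n` : region of the white tiles (enlarged), union over `o + n - 1 ≤ a ≤ o + M`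
* `nkg` : 686's `NkG` for `CorH`; `edge_of`, `inn_of` : the fields `edge`, `inn` of `SGeo`
* `chain` : the closed white chain of the strand and its indices
* **`sepH`** : `Extx358.Sep` on `rc0` for the blocking set `zc` of the strand, and the cells of the
  sites of the inner side `K0` are not in `Ext`
-/

set_option autoImplicit false

noncomputable section

open scoped Classical

namespace Crest.Agent.R143.SepHx697

open Crest.Agent.R143.B0x346 Crest.Agent.R143.DelGx806 Crest.Agent.R143.DelRx806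
  Crest.Agent.R143.JColx54
open Crest.Agent.R143.ToolWx838 Crest.Agent.R143.Blkx838
open Crest.Agent.R143.ToolW3x838
open Crest.Agent.R143.Frame1x395 Crest.Agent.R143.Frame2x395 Crest.Agent.R143.Frame3x395
  Crest.Agent.R143.Frame4x395 Crest.Agent.R143.Frame8x395 Crest.Agent.R143.Frame9x395
  Crest.Agent.R143.Frame10x395 Crest.Agent.R143.Frame11x395
open Crest.Agent.R143.Frame5x395 (sd mem_sd th th_spec)
open Crest.Agent.R143.Splx117 Crest.Agent.R143.WLocx713 Crest.Agent.R143.RingDx117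
  Crest.Agent.R143.CorrDx117
open Crest.Agent.R143.Neckx921 (Neck NeckD Tile Lk)
open Crest.Agent.R143.TileRx228 Crest.Agent.R143.DCorGx713
open Crest.Agent.R143.PP0x831
open Crest.Agent.R143.Sepx686 Crest.Agent.R143.SepLx686
open Crest.Agent.R143.CorHx713
open Crest.Agent.R143.RcTx422
open Crest.Agent.R143.FinCx811 (rc0 Cs rcol cs)
open Crest.Agent.R143.OutSx358 (zc)
open Crest.Agent.R143.Gntx535 (wl wr)

variable {X : Set (ℂ × Bool)} {U K0 : Set ℂ} {M n k0 k1 : ℕ} {W : ℤ → ℤ × ℤ} {η d : ℝ} {o : ℤ}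

/-- the geometry with the numbers of `CorH` -/
abbrev Geo (S : Finset ℂ) (M n k0 k1 : ℕ) (W : ℤ → ℤ × ℤ) (η : ℝ) (o : ℤ) (K0 : Set ℂ) : Prop :=
  SGeo S M n k0 k1 W (9 * η) (51 * η) (100 * η) (10 * η) η (η / 2) η (3 * η) o K0

/-- region of the white tiles: enlarged tiles `o + n - 1, …, o + M` -/
def BR (η : ℝ) (W : ℤ → ℤ × ℤ) (M : ℕ) (o : ℤ) (n : ℕ) : Set ℂ :=
  {s | ∃ a : ℤ, o + n - 1 ≤ a ∧ a ≤ o + M ∧ s ∈ RR (19 / 2 * η) (103 / 2 * η) (100 * η) W a}

theorem rr_eq (η : ℝ) (W : ℤ → ℤ × ℤ) (a : ℤ) :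
    RR (19 / 2 * η) (103 / 2 * η) (100 * η) W a =
      RR (9 * η + η / 2) (51 * η + η / 2) (100 * η) W a := by
  rw [show 19 / 2 * η = 9 * η + η / 2 by ring, show 103 / 2 * η = 51 * η + η / 2 by ring]

/-- field `edge` of 686's `SGeo` -/
theorem edge_of (H : CorH X U M W η d o n) (a : ℤ) (u v : ℂ) (h : DE (sX X) u v)
    (hu : u ∈ RR (9 * η + η / 2) (51 * η + η / 2) (100 * η) W a)
    (_hv : v ∈ RR (9 * η + η / 2) (51 * η + η / 2) (100 * η) W a) : ‖v - u‖ ≤ η - η / 2 := by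
  have h1 := H.e0
  have h2 := H.de
  have h3 := H.step (H.sub_U (by linarith) (by linarith) a hu) h
  linarith

/-- field `inn` of 686's `SGeo` -/
theorem inn_of (H : CorH X U M W η d o n) (a : ℤ) (s : ℂ) (_hs : s ∈ sX X)
    (hu : s ∈ RR (9 * η + η / 2) (51 * η + η / 2) (100 * η) W a) : ¬ OnHull (sX X) s := by
  have h1 := H.e0
  exact H.inn (H.sub_U (by linarith) (by linarith) a hu)

/-- the neck of the gate `k0` -/
theorem nkg (H : CorH X U M W η d o n) (k0 : ℕ) : ∃ up dn : List ℂ,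
    NkG (sX X) k0 W (9 * η) (51 * η) (100 * η) (10 * η) η o (cX X)
      (fun k : ℕ => yy η W X (o + k)) (fun k : ℕ => xx η W X (o + k)) (-η) η (sX X) (bX X) up dn := by
  obtain ⟨up, dn, hN, hz⟩ := H.neck (o + k0)
  have h0 : cX X (yy η W X (o + ((0 : ℕ) : ℤ))) = 1 := H.coly _
  refine ⟨up, dn, ⟨hN, hz, by linarith, by linarith, ?_, ?_⟩⟩
  · intro j _ _ s hs _ hc
    exact (bX_iff s hs).1 (hc.trans h0)
  · intro s hs
    exact ((bX_iff s (bX_sub hs)).2 hs).trans h0.symm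

/-- the strand of 117 for the corridor -/
abbrev StH (H : CorH X U M W η d o n) (Rs : Set (D0 (sX X))) (q : D0 (sX X)) (N : ℕ)
    (T : ℕ → ℕ) : Prop :=
  StrBx117.Str (cm0 H.gp) (xc H.gp H.hull) n Rs (fun k => H.p (n - k))
    (fun k => RD (sX X) (RR (19 / 2 * η) (103 / 2 * η) (100 * η) W (o + ((n - 1 - k : ℕ) : ℤ)))) q N T

section strand

variable {H : CorH X U M W η d o n} {Rs : Set (D0 (sX X))} {q : D0 (sX X)} {N : ℕ} {T : ℕ → ℕ}

theorem st_occ (St : StH H Rs q N T) : Occ (sX X) (cX X) q.1 := ⟨q.2, St.lp.occ⟩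

theorem st_T (St : StH H Rs q N T) {k : ℕ} (hk : k ≤ n) : T k ≤ T n :=
  mono_of (T := T) (a := 0) (b := n) (fun k _ h => St.mono k h) (Nat.zero_le k) hk le_rfl

theorem st_nx (St : StH H Rs q N T) (i : ℕ) :
    ((stp (cm0 H.gp) (xc H.gp H.hull))^[i] q).1 = (nx (sX X) (cX X))^[i] q.1 :=
  it_eq H.gp H.hull St.lp.occ i

/-- the gates on the strand -/
theorem st_at (St : StH H Rs q N T) {k : ℕ} (h1 : 0 < k) (h2 : k < n) :
    (nx (sX X) (cX X))^[T k] q.1 = (H.p (n - k)).1 := by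
  rw [← st_nx St, St.at_ k h1 h2]

/-- the left colour of the strand -/
theorem st_col (St : StH H Rs q N T) : cX X q.1.1 = 1 := by
  have h3 := St.n3
  have h1 := LS_col H.gp H.hull (st_occ St) (m := T 1) (s := ((nx (sX X) (cX X))^[T 1] q.1).1)
    ⟨T 1, le_rfl, rfl⟩
  rw [st_at St (by omega) (by omega)] at h1
  rw [← h1]
  exact H.coly _

/-- the states of the strand are in the tiles -/
theorem st_mem (St : StH H Rs q N T) {i : ℕ} (hi : i ≤ T n) : ∃ k : ℕ, k < n ∧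
    ((nx (sX X) (cX X))^[i] q.1).1 ∈ RR (19 / 2 * η) (103 / 2 * η) (100 * η) W (o + k) ∧
    ((nx (sX X) (cX X))^[i] q.1).2 ∈ RR (19 / 2 * η) (103 / 2 * η) (100 * η) W (o + k) := by
  have n3 := St.n3
  obtain ⟨j, h1, h2, h3⟩ : ∃ j, j < n ∧ T j ≤ i ∧ i ≤ T (j + 1) := by
    rcases hi.lt_or_eq with h | h
    · obtain ⟨j, -, h1, h2, h3⟩ := StrBx117.exists_arc (T := T) (a := 0) (b := n) (by omega)
        (by rw [St.T0]; exact Nat.zero_le _) h
      exact ⟨j, h1, h2, h3.le⟩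
    · refine ⟨n - 1, by omega, ?_, ?_⟩
      · rw [h]; exact st_T St (by omega)
      · rw [show n - 1 + 1 = n by omega]; exact hi
  have h4 := St.arc j h1 i h2 h3
  obtain ⟨h5, h6⟩ := h4
  rw [st_nx St] at h5 h6
  exact ⟨n - 1 - j, by omega, h5, h6⟩

/-- times of the arc `k` in the strand -/
def tB (n : ℕ) (T t : ℕ → ℕ) (k : ℕ) : ℕ :=
  if 0 < k ∧ k + 1 < n then T (n - k) - T (n - k - 1) else t k

theorem it_add (S : Finset ℂ) (χ : ℂ → ZMod 2) (a b : ℕ) (e : ℂ × ℂ) :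
    (nx S χ)^[a] ((nx S χ)^[b] e) = (nx S χ)^[a + b] e := by
  rw [← Function.iterate_add_apply]

/-- **the arcs of the corridor with the times of the strand** -/
theorem exists_tB (St : StH H Rs q N T)
    (D : DCorr H.gp H.hull n (fun k : ℕ => yy η W X (o + k)) (fun k : ℕ => xx η W X (o + k))
      (fun k : ℕ => RR (9 * η) (51 * η) (100 * η) W (o + k))
      (fun k : ℕ => RR (9 * η + η / 2) (51 * η + η / 2) (100 * η) W (o + k)) H.p)
    {t : ℕ → ℕ} (B : Back D t) :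
    Back D (tB n T t) ∧ ∀ k, 0 < k → k + 1 < n →
      RS (sX X) (cX X) (H.p (k + 1)).1 (tB n T t k) ⊆ RS (sX X) (cX X) q.1 (T n) := by
  have key : ∀ k, 0 < k → k + 1 < n → tB n T t k = T (n - k) - T (n - k - 1) := by
    intro k h1 h2
    unfold tB
    rw [if_pos ⟨h1, h2⟩]
  -- the state at the start of the arc
  have sta : ∀ k, 0 < k → k + 1 < n → (nx (sX X) (cX X))^[T (n - k - 1)] q.1 = (H.p (k + 1)).1 := by
    intro k h1 h2
    rw [st_at St (show 0 < n - k - 1 by omega) (by omega), show n - (n - k - 1) = k + 1 by omega]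
  have mon : ∀ k, 0 < k → k + 1 < n → T (n - k - 1) ≤ T (n - k) := by
    intro k h1 h2
    have := St.mono (n - k - 1) (by omega)
    rwa [show n - k - 1 + 1 = n - k by omega] at this
  have reg : ∀ k, 0 < k → k + 1 < n → ∀ i, i ≤ tB n T t k →
      (nx (sX X) (cX X))^[i] (H.p (k + 1)).1 = (nx (sX X) (cX X))^[i + T (n - k - 1)] q.1 ∧
      ((nx (sX X) (cX X))^[i] (H.p (k + 1)).1).1 ∈
        RR (9 * η + η / 2) (51 * η + η / 2) (100 * η) W (o + k) ∧
      ((nx (sX X) (cX X))^[i] (H.p (k + 1)).1).2 ∈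
        RR (9 * η + η / 2) (51 * η + η / 2) (100 * η) W (o + k) ∧
      i + T (n - k - 1) ≤ T n := by
    intro k h1 h2 i hi
    rw [key k h1 h2] at hi
    have hm := mon k h1 h2
    have e1 : (nx (sX X) (cX X))^[i] (H.p (k + 1)).1 =
        (nx (sX X) (cX X))^[i + T (n - k - 1)] q.1 := by
      rw [← sta k h1 h2, it_add]
    have e2 := St.arc (n - k - 1) (by omega) (i + T (n - k - 1)) (by omega)
      (by rw [show n - k - 1 + 1 = n - k by omega]; omega)
    rw [show n - 1 - (n - k - 1) = k by omega] at e2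
    obtain ⟨e3, e4⟩ := e2
    rw [st_nx St, rr_eq] at e3 e4
    have hT := st_T St (show n - k ≤ n by omega)
    rw [e1]
    exact ⟨rfl, e3, e4, by omega⟩
  constructor
  · refine ⟨fun k hk => ?_, fun k hk => ?_, fun k hk => ?_⟩
    · by_cases h : 0 < k ∧ k + 1 < n
      · have hm := mon k h.1 h.2
        rw [key k h.1 h.2, ← sta k h.1 h.2, it_add,
          show T (n - k) - T (n - k - 1) + T (n - k - 1) = T (n - k) by omega,
          st_at St (show 0 < n - k by omega) (by omega), show n - (n - k) = k by omega]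
      · have : tB n T t k = t k := by unfold tB; rw [if_neg h]
        rw [this]
        exact B.arr k hk
    · by_cases h : 0 < k ∧ k + 1 < n
      · rintro s ⟨i, hi, rfl⟩
        exact (reg k h.1 h.2 i hi).2.1
      · have : tB n T t k = t k := by unfold tB; rw [if_neg h]
        rw [this]
        exact B.lB k hk
    · by_cases h : 0 < k ∧ k + 1 < n
      · rintro s ⟨i, hi, rfl⟩
        exact (reg k h.1 h.2 i hi).2.2.1
      · have : tB n T t k = t k := by unfold tB; rw [if_neg h]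
        rw [this]
        exact B.rB k hk
  · rintro k h1 h2 s ⟨i, hi, rfl⟩
    obtain ⟨e1, -, -, e2⟩ := reg k h1 h2 i hi
    exact ⟨i + T (n - k - 1), e2, by rw [e1]⟩

/-- **the closed white chain of the strand** -/
theorem chain (St : StH H Rs q N T) (G : Geo (sX X) M n k0 k1 W η o K0)
    (hf : ∀ k : ℕ, k < n → FA (cm0 H.gp) (xc H.gp H.hull)
      (RD (sX X) (RR (19 / 2 * η) (103 / 2 * η) (100 * η) W (o + k))) (H.p (k + 1)) (H.p k)) :
    ∃ cw : List ℂ, Loop (sX X) cw ∧ (∀ s ∈ cw, s ∈ sX X) ∧ (∀ s ∈ cw, cX X s = 0) ∧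
      (∀ s ∈ cw, s ∈ RS (sX X) (cX X) q.1 (T n) ∨ s ∈ BR η W M o n) ∧
      (∀ w ∈ K0, asum w cw = -(2 * Real.pi)) ∧
      (∀ k, k ≤ n → asum (yy η W X (o + k)) cw = -(2 * Real.pi)) ∧
      ∀ s ∈ LS (sX X) (cX X) q.1 (T n), asum s cw = -(2 * Real.pi) := by
  have h0 := H.e0
  have hnM := H.nM
  have n3 := St.n3
  have D := H.corr
  have eB : (fun k : ℕ => RR (19 / 2 * η) (103 / 2 * η) (100 * η) W (o + k)) =
      fun k : ℕ => RR (9 * η + η / 2) (51 * η + η / 2) (100 * η) W (o + k) :=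
    funext fun k => rr_eq η W _
  rw [eB] at D
  obtain ⟨t, Bt⟩ := exists_back D (fun k hk => by
    have := hf k hk
    rw [rr_eq] at this
    exact this)
  obtain ⟨Bt', hsub⟩ := exists_tB St D Bt
  obtain ⟨up, dn, N⟩ := nkg H k0
  have hy0 : cX X (yy η W X (o + ((0 : ℕ) : ℤ))) = 1 := H.coly _
  obtain ⟨cw, c1, c2, c3, c4, c5, c6, -⟩ := sepL_chain G D Bt' N
    (x := fun k : ℕ => xx η W X (o + k)) (fun k _ => rfl)
    (fun j => by
      show xx η W X (o + ((j + M : ℕ) : ℤ)) = xx η W X (o + j)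
      rw [show o + ((j + M : ℕ) : ℤ) = o + j + M by push_cast; ring]
      exact H.xper _)
    (fun j h1 h2 => by
      have h3 := H.wht (o + j)
      show Lk (sX X) _ (xx η W X (o + j)) (xx η W X (o + ((j + 1 : ℕ) : ℤ)))
      rw [show o + ((j + 1 : ℕ) : ℤ) = o + j + 1 by push_cast; ring]
      refine h3.mono ?_
      rintro s ⟨⟨h4, h5⟩, h6⟩
      refine ⟨⟨h4, fun hc => h5 ((bX_iff s h4).1 (hc.trans hy0))⟩, h6⟩)
  have c3' : ∀ s ∈ cw, cX X s = 0 := by
    intro s hs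
    have h2 : cX X s ≠ cX X (yy η W X (o + ((0 : ℕ) : ℤ))) := c3 s hs
    rw [hy0] at h2
    revert h2
    generalize cX X s = a
    revert a
    decide
  have c6' : ∀ k, k ≤ n → asum (yy η W X (o + k)) cw = -(2 * Real.pi) := c6
  refine ⟨cw, c1, c2, c3', ?_, c5, c6', ?_⟩
  · intro s hs
    rcases c4 s hs with ⟨k, hk, h⟩ | ⟨j, h1, h2, h3⟩
    · by_cases h4 : 0 < k ∧ k + 1 < n
      · exact Or.inl (hsub k h4.1 h4.2 h)
      · have h5 := Bt'.rB k hk h
        right
        have h6 : s ∈ RR (19 / 2 * η) (103 / 2 * η) (100 * η) W (o + k) := by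
          rw [rr_eq]; exact h5
        rcases Nat.eq_zero_or_pos k with h7 | h7
        · refine ⟨o + M, by omega, le_rfl, ?_⟩
          rw [RR_per H.path]
          rw [h7] at h6
          simpa using h6
        · refine ⟨o + k, by omega, by omega, h6⟩
    · right
      refine ⟨o + j, by omega, by omega, ?_⟩
      exact RR_mono (by linarith) (by linarith) _ W _ h3.2
  · intro s hs
    have ho := st_occ St
    have hcol := st_col St
    have off : ∀ v ∈ LS (sX X) (cX X) q.1 (T n), v ∉ cw := by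
      intro v hv hc
      have h1 := LS_col H.gp H.hull ho hv
      rw [c3' v hc, hcol] at h1
      exact absurd h1 (by decide)
    have g1 := LS_lk H.gp H.hull ho hs
    have m1 : (H.p (n - 1)).1.1 ∈ LS (sX X) (cX X) q.1 (T n) :=
      ⟨T 1, st_T St (by omega), by rw [st_at St (by omega) (by omega)]⟩
    have g2 := LS_lk H.gp H.hull ho m1
    rw [← asum_lk H.gp c1 off g1, asum_lk H.gp c1 off g2]
    exact c6' (n - 1) (by omega)

/-- **SEPARATION on `rc0`** -/
theorem sepH (St : StH H Rs q N T) (G : Geo (sX X) M n k0 k1 W η o K0)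
    (hf : ∀ k : ℕ, k < n → FA (cm0 H.gp) (xc H.gp H.hull)
      (RD (sX X) (RR (19 / 2 * η) (103 / 2 * η) (100 * η) W (o + k))) (H.p (k + 1)) (H.p k))
    {R : Set (Cs H.gp)} (hR : ∀ s ∈ sX X, s ∈ BR η W M o n → ∃ c ∈ R, c.1 = Quot.mk _ s) :
    Extx358.Sep (rc0 H.gp) (Hc H.gp) (zc (rc0 H.gp) R q (T n) (rcol H.gp (cX X) H.hull))
        (wl (rc0 H.gp) (cfg (rc0 H.gp) (rcol H.gp (cX X) H.hull)) q (T n)) ∧
      (∀ u ∈ K0, ∀ c : Cs H.gp, c.1 = Quot.mk _ u →
        ¬ Extx358.Ext (rc0 H.gp) (Hc H.gp) (zc (rc0 H.gp) R q (T n) (rcol H.gp (cX X) H.hull)) c) ∧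
      (∀ k, k ≤ n → ∀ c : Cs H.gp, c.1 = Quot.mk _ (yy η W X (o + k)) →
        ¬ Extx358.Ext (rc0 H.gp) (Hc H.gp) (zc (rc0 H.gp) R q (T n) (rcol H.gp (cX X) H.hull)) c) := by
  obtain ⟨cw, c1, c2, c3, c4, c5, c6, c7⟩ := chain St G hf
  have hpi := Real.pi_pos
  have hne : -(2 * Real.pi) ≠ 0 := by intro h; linarith
  have hm : ∀ s ∈ cw, s ∈ RS (sX X) (cX X) q.1 (T n) ∨ ∃ c ∈ R, c.1 = Quot.mk _ s := fun s hs =>
    (c4 s hs).imp id fun h => hR s (c2 s hs) h
  have hcwi : ∀ s ∈ cw, ¬ OnHull (sX X) s := by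
    intro s hs
    have h0 := H.e0
    rcases c4 s hs with ⟨i, hi, rfl⟩ | ⟨a, -, -, ha⟩
    · obtain ⟨k, -, -, h2⟩ := st_mem St hi
      exact H.inn (H.sub_U (by linarith) (by linarith) _ h2)
    · exact H.inn (H.sub_U (by linarith) (by linarith) _ ha)
  have hi : ∀ v, asum v cw ≠ 0 → ¬ OnHull (sX X) v := by
    intro v hv hh
    exact hv (asum_onHull H.gp c1 c2 hh fun h => hcwi v h hh)
  have hq : xc H.gp H.hull q = 1 := St.lp.occ
  refine ⟨?_, ?_, ?_⟩
  · exact sep_rc hq (st_col St) c1 c2 c3 hm (fun s hs => hi s (by rw [c7 s hs]; exact hne))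
      fun s hs => by rw [c7 s hs]; exact hne
  · intro u hu c e
    have h1 : asum u cw ≠ 0 := by rw [c5 u hu]; exact hne
    exact notExt_rc hq c1 c2 c3 hm e (hi u h1) h1
  · intro k hk c e
    have h1 : asum (yy η W X (o + k)) cw ≠ 0 := by rw [c6 k hk]; exact hne
    exact notExt_rc hq c1 c2 c3 hm e (hi _ h1) h1

end strand

end Crest.Agent.R143.SepHx697
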