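import Crest.Agent.R143.LocB_336
import Crest.Agent.R143.SepH_697
import Crest.Agent.R143.LocT_776

/-!
# Row 143 (S0194), RIG, LOCX: the vertical chain of an OUT gate under the names of `CorH` (helper336)

* `up_off`, `vv_geo` : 686's `SGeo` level: the vertical chain (`LocBx336.vert_chain'`) stays in
  `|X| < 3 h / 2`, `|Y| < A + κ`
* `dn_asum` : the lower arm has index `-2π`
* **`vco`** (776's (C5)) : 697's strand `StH`, `Z = zc (rc0 hS) R q (T n) s`: a vertical chain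
  `LocTx776.VCh` from the last site of `dn` to the first site of `up`; every site of it has its cell
  in `Z`, or is in `dn`, or is joined to the first site of `up` by sites of `up` off `Z`
* `vco_ok` : every site of the chain is `LocDx776.Ok`
-/

set_option autoImplicit false

noncomputable section

open scoped Classical

namespace Crest.Agent.R143.OutVx336

open Crest.Agent.R143.B0x346 Crest.Agent.R143.DelGx806 Crest.Agent.R143.DelRx806
  Crest.Agent.R143.JColx54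
open Crest.Agent.R143.ToolWx838 Crest.Agent.R143.Blkx838 Crest.Agent.R143.ToolW2x838
open Crest.Agent.R143.ToolW3x838 Crest.Agent.R143.Gatex838 Crest.Agent.R143.Neckx921
open Crest.Agent.R143.Frame1x395 Crest.Agent.R143.Frame2x395 Crest.Agent.R143.Frame3x395
  Crest.Agent.R143.Frame4x395 Crest.Agent.R143.Frame8x395 Crest.Agent.R143.Frame9x395
  Crest.Agent.R143.Frame10x395 Crest.Agent.R143.Frame11x395
open Crest.Agent.R143.Frame5x395 (sd mem_sd th th_spec)
open Crest.Agent.R143.Splx117 Crest.Agent.R143.WLocx713 Crest.Agent.R143.RingDx117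
  Crest.Agent.R143.CorrDx117
open Crest.Agent.R143.TileRx228
open Crest.Agent.R143.PP0x831
open Crest.Agent.R143.Sepx686 Crest.Agent.R143.SepLx686
open Crest.Agent.R143.CorHx713
open Crest.Agent.R143.DCorGx713
open Crest.Agent.R143.RcTx422
open Crest.Agent.R143.FinCx811 (rc0 Cs rcol cs)
open Crest.Agent.R143.OutSx358 (zc)
open Crest.Agent.R143.Gntx535 (wl wr)
open Crest.Agent.R143.SepHx697
open Crest.Agent.R143.LocBx336
open Crest.Agent.R143.LocTx776 (VCh Wn)

/-! ### 686's level -/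

section geo

variable {S : Finset ℂ} {χ : ℂ → ZMod 2} {hS : GP (S : Set ℂ)} {hχ : HullC S χ} {M n k0 k1 : ℕ}
  {W : ℤ → ℤ × ℤ} {A B h b1 m ρ τ κ : ℝ} {o : ℤ} {K0 : Set ℂ} {y z : ℕ → ℂ} {p : ℕ → D0 S}

/-- the sites of the neck are off the tiles which do not touch the gate -/
theorem neck_off (G : SGeo S M n k0 k1 W A B h b1 m ρ τ κ o K0) {a0 a1 : ℝ} {V β : Finset ℂ}
    {up dn : List ℂ} (N : NkG S k0 W A B h b1 m o χ y z a0 a1 V β up dn) {a : ℤ}
    (h0 : ¬ (M : ℤ) ∣ (o + k0) - a) (h1 : ¬ (M : ℤ) ∣ (o + k0) - (a + 1)) {s : ℂ}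
    (hs : s ∈ up ++ y k0 :: dn) : s ∉ RR (A + κ) (B + κ) h W a := by
  have hw := N.neck.win s hs
  have h3 := N.a0w
  have h4 := N.a1w
  have hκ : 0 < κ := by linarith [G.ρ0, G.ρτ, G.τκ]
  have hb := G.b1κ
  have hbA := G.b1A
  refine G.win_off h0 h1 ?_ ?_
  · rw [abs_lt]; constructor <;> linarith [hw.1.1, hw.1.2]
  · rw [abs_lt]; constructor <;> linarith [hw.2.1, hw.2.2]

theorem neck_off' (G : SGeo S M n k0 k1 W A B h b1 m ρ τ κ o K0) {a0 a1 : ℝ} {V β : Finset ℂ}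
    {up dn : List ℂ} (N : NkG S k0 W A B h b1 m o χ y z a0 a1 V β up dn) {j : ℕ} (hj : j < n)
    (h1 : j ≠ k0) (h2 : j + 1 ≠ k0) {s : ℂ} (hs : s ∈ up ++ y k0 :: dn) :
    s ∉ RR (A + κ) (B + κ) h W (o + j) := by
  have hn := G.nM
  have hkn := G.kn
  have hk3 := G.k3
  exact neck_off G N (ndvd (by omega) (by omega) (by omega)) (ndvd (by omega) (by omega) (by omega))
    hs

/-- the closing tiles and their neighbours -/
theorem neck_offR (G : SGeo S M n k0 k1 W A B h b1 m ρ τ κ o K0) {a0 a1 : ℝ} {V β : Finset ℂ}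
    {up dn : List ℂ} (N : NkG S k0 W A B h b1 m o χ y z a0 a1 V β up dn) {a : ℤ}
    (h1 : o + n - 1 ≤ a) (h2 : a ≤ o + M) {s : ℂ} (hs : s ∈ up ++ y k0 :: dn) :
    s ∉ RR (A + κ) (B + κ) h W a := by
  have hn := G.nM
  have hkn := G.kn
  have hk3 := G.k3
  exact neck_off G N (ndvd (by omega) (by omega) (by omega)) (ndvd (by omega) (by omega) (by omega))
    hs

/-- **the vertical chain of the gate `k0`** -/
theorem vv_geo (G : SGeo S M n k0 k1 W A B h b1 m ρ τ κ o K0)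
    (D : DCorr hS hχ n y z (fun k => RR A B h W (o + k)) (fun k => RR (A + ρ) (B + ρ) h W (o + k)) p)
    {t : ℕ → ℕ} (T : Back D t) {a0 a1 : ℝ} {V β : Finset ℂ} {up dn : List ℂ}
    (N : NkG S k0 W A B h b1 m o χ y z a0 a1 V β up dn) {Z0 : Set ℂ}
    (hR : ∀ j, j = k0 ∨ j + 1 = k0 → ∀ s ∈ RS S χ (p (j + 1)).1 (t j), s ∈ Z0) (hy : y k0 ∈ Z0)
    (hZu : ∀ s ∈ up, s ∈ Z0 → ∃ j, (j = k0 ∨ j + 1 = k0) ∧ s ∈ RS S χ (p (j + 1)).1 (t j)) :
    ∃ VV : Set ℂ, Lk S VV (dn.getLast N.neck.nd) (up.head N.neck.nu) ∧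
      (∀ s ∈ VV, |X (gz h W (o + k0)) (ge W (o + k0)) s| < 3 * h / 2 ∧
        |Y (gz h W (o + k0)) (ge W (o + k0)) s| < A + κ) ∧
      (∀ s ∈ VV, s ∈ Z0 ∨ s ∈ dn ∨ Lk S {s | s ∈ up ∧ s ∉ Z0} (up.head N.neck.nu) s) ∧
      ∀ s ∈ VV, s ∈ up ∨ (∃ j, (j = k0 ∨ j + 1 = k0) ∧ s ∈ RS S χ (p (j + 1)).1 (t j)) ∨
        s = y k0 ∨ s ∈ dn := by
  have hk3 := G.k3
  have hkn := G.kn
  obtain ⟨VV, h1, h2, h3, -, -, h6⟩ := vert_chain' T (inG G D N) hR hy hZu
  refine ⟨VV, h1, fun s hs => ⟨?_, ?_⟩, h3, h6⟩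
  · have := h2 s hs
    rw [abs_lt]
    exact ⟨by linarith [this.1], this.2⟩
  · have hbA := G.b1A
    have hb := G.b1κ
    have hm := G.m0
    have hρ := G.ρ0
    have hρτ := G.ρτ
    have hτκ := G.τκ
    have hA := G.A0
    have hAB := G.AB
    have hw : ∀ s ∈ up ++ y k0 :: dn, |Y (gz h W (o + k0)) (ge W (o + k0)) s| < A + κ := by
      intro s hs
      have := (N.neck.win s hs).2
      rw [abs_lt]
      constructor <;> linarith [this.1, this.2]
    rcases h6 s hs with h | ⟨j, hj, h⟩ | h | h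
    · exact hw s (List.mem_append_left _ h)
    · have h7 := T.rB j (by omega) h
      have h8 := (G.strip (by linarith) (by linarith) (show k0 ≤ j + 2 by omega)
        (show j < k0 + 2 by omega) h7).1
      linarith
    · exact hw s (List.mem_append_right _ (by rw [h]; exact List.mem_cons_self ..))
    · exact hw s (List.mem_append_right _ (List.mem_cons_of_mem _ h))

/-- **the lower arm has the index of the gate** -/
theorem dn_asum (G : SGeo S M n k0 k1 W A B h b1 m ρ τ κ o K0)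
    (D : DCorr hS hχ n y z (fun k => RR A B h W (o + k)) (fun k => RR (A + ρ) (B + ρ) h W (o + k)) p)
    {t : ℕ → ℕ} (T : Back D t) {a0 a1 : ℝ} {V β : Finset ℂ} {up dn : List ℂ}
    (N : NkG S k0 W A B h b1 m o χ y z a0 a1 V β up dn) {cw : List ℂ} (hl : Loop S cw)
    (hc : ∀ s ∈ cw, χ s ≠ χ (y 0))
    (hm : ∀ s ∈ cw, (∃ k, k < n ∧ s ∈ RS S χ (p (k + 1)).1 (t k)) ∨
      ∃ a : ℤ, o + n - 1 ≤ a ∧ a ≤ o + M ∧ s ∈ RR (A + κ) (B + κ) h W a) {s : ℂ} (hs : s ∈ dn) :
    s ∉ cw ∧ asum s cw = asum (y k0) cw := by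
  have GI := inG G D N
  have hk3 := G.k3
  have hkn := G.kn
  have off : ∀ s ∈ dn, s ∉ cw := by
    intro s hs hcw
    rcases hm s hcw with ⟨k, hk, h⟩ | ⟨a, h1, h2, h3⟩
    · exact (T.miss hS GI.h2 GI.h3 GI.he GI.neck GI.upz GI.x0a GI.a1x GI.β1 GI.β2 GI.strip GI.left
        GI.right GI.mid GI.farB hk h).2.1 hs
    · exact neck_offR G N h1 h2 (List.mem_append_right _ (List.mem_cons_of_mem _ hs)) h3
  refine ⟨off s hs, ?_⟩
  have hadj := N.neck.adj
  rw [← isChain_iff_prs, List.isChain_append] at hadj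
  have h1 : Lk S {s | s ∈ y k0 :: dn} (y k0) s :=
    lk_list ((isChain_iff_prs (R := DE S) (y k0 :: dn)).1 hadj.2.1) (fun s hs => hs) (by simp)
      (List.mem_cons_of_mem _ hs)
  refine (asum_lk hS hl (fun s hs => ?_) h1).symm
  rcases List.mem_cons.1 hs with h | h
  · rw [h]
    exact fun h' => hc _ h' (col_y D (by omega))
  · exact off s h

end geo

theorem lk_mem {S : Finset ℂ} {A : Set ℂ} {u v : ℂ} (h : Lk S A u v) (hu : u ∈ S) : v ∈ S := by
  obtain ⟨-, h⟩ := h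
  induction h with
  | refl => exact hu
  | tail _ h1 _ => exact (de_sites h1.1).2

theorem neck_mem {S : Finset ℂ} {z0 e : ℂ} {a0 a1 b0 b1 m : ℝ} {V β : Finset ℂ} {up dn : List ℂ}
    {y : ℂ} (N : Neck S z0 e a0 a1 b0 b1 m V β up y dn) (hy : y ∈ S) {s : ℂ}
    (hs : s ∈ up ++ y :: dn) : s ∈ S :=
  lk_mem (lk_list (A := {s | s ∈ up ++ y :: dn}) N.adj (fun _ hs => hs)
    (List.mem_append_right _ (List.mem_cons_self ..)) hs) hy

/-! ### the level of `CorH` -/

section cor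

variable {X : Set (ℂ × Bool)} {U K0 : Set ℂ} {M n k0 k1 : ℕ} {W : ℤ → ℤ × ℤ} {η d : ℝ} {o : ℤ}
  {H : CorH X U M W η d o n} {Rs : Set (D0 (sX X))} {q : D0 (sX X)} {N : ℕ} {T : ℕ → ℕ}

/-- the neck with the names of `CorH` -/
abbrev NkH (X : Set (ℂ × Bool)) (W : ℤ → ℤ × ℤ) (η : ℝ) (o : ℤ) (k0 : ℕ) (up dn : List ℂ) : Prop :=
  NkG (sX X) k0 W (9 * η) (51 * η) (100 * η) (10 * η) η o (cX X)
    (fun k : ℕ => yy η W X (o + k)) (fun k : ℕ => xx η W X (o + k)) (-η) η (sX X) (bX X) up dn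

/-- the blocking set of the strand -/
abbrev ZH (H : CorH X U M W η d o n) (R : Set (Cs H.gp)) (q : D0 (sX X)) (m : ℕ) :
    Set (Cs H.gp) := zc (rc0 H.gp) R q m (rcol H.gp (cX X) H.hull)

/-- a right site of the strand in a middle tile is a right site of the arc of the tile -/
theorem rs_arc (St : StH H Rs q N T) {t : ℕ → ℕ} {i : ℕ} (hi : i ≤ T n) :
    ∃ j : ℕ, j < n ∧
      ((nx (sX X) (cX X))^[i] q.1).2 ∈ RR (19 / 2 * η) (103 / 2 * η) (100 * η) W (o + j) ∧
      (0 < j → j + 1 < n →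
        ((nx (sX X) (cX X))^[i] q.1).2 ∈ RS (sX X) (cX X) (H.p (j + 1)).1 (tB n T t j)) := by
  have n3 := St.n3
  obtain ⟨j', h1, h2, h3⟩ : ∃ j, j < n ∧ T j ≤ i ∧ i ≤ T (j + 1) := by
    rcases hi.lt_or_eq with h | h
    · obtain ⟨j, -, h1, h2, h3⟩ := StrBx117.exists_arc (T := T) (a := 0) (b := n) (by omega)
        (by rw [St.T0]; exact Nat.zero_le _) h
      exact ⟨j, h1, h2, h3.le⟩
    · refine ⟨n - 1, by omega, ?_, ?_⟩
      · rw [h]; exact st_T St (by omega)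
      · rw [show n - 1 + 1 = n by omega]; exact hi
  have h4 := St.arc j' h1 i h2 h3
  obtain ⟨h5, h6⟩ := h4
  rw [st_nx St] at h5 h6
  refine ⟨n - 1 - j', by omega, h6, fun h7 h8 => ?_⟩
  have e1 : (nx (sX X) (cX X))^[T j'] q.1 = (H.p (n - 1 - j' + 1)).1 := by
    rw [st_at St (show 0 < j' by omega) (by omega), show n - j' = n - 1 - j' + 1 by omega]
  have e2 : tB n T t (n - 1 - j') = T (j' + 1) - T j' := by
    unfold tB
    rw [if_pos ⟨h7, h8⟩, show n - (n - 1 - j') = j' + 1 by omega,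
      show j' + 1 - 1 = j' by omega]
  refine ⟨i - T j', by rw [e2]; omega, ?_⟩
  rw [← e1, it_add, show i - T j' + T j' = i by omega]

/-- **OUT GATE** (776's (C5)): the vertical chain of the straight out gate `k0` -/
theorem vco (St : StH H Rs q N T) (G : Geo (sX X) M n k0 k1 W η o K0)
    (hf : ∀ k : ℕ, k < n → FA (cm0 H.gp) (xc H.gp H.hull)
      (RD (sX X) (RR (19 / 2 * η) (103 / 2 * η) (100 * η) W (o + k))) (H.p (k + 1)) (H.p k))
    {R : Set (Cs H.gp)} (hR' : ∀ c ∈ R, ∃ s ∈ sX X, s ∈ BR η W M o n ∧ c.1 = Quot.mk _ s)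
    {up dn : List ℂ} (Nk : NkH X W η o k0 up dn) :
    ∃ VV : Set ℂ, VCh (sX X) η W (o + k0) VV (dn.getLast Nk.neck.nd) (up.head Nk.neck.nu) ∧
      ∀ v ∈ VV, (∀ c : Cs H.gp, c.1 = Quot.mk _ v → c ∈ ZH H R q (T n)) ∨ v ∈ dn ∨
        Lk (sX X) {w | w ∈ up ∧ ∀ c : Cs H.gp, c.1 = Quot.mk _ w → c ∉ ZH H R q (T n)}
          (up.head Nk.neck.nu) v := by
  have h0 := H.e0
  have hnM := H.nM
  have n3 := St.n3
  have hk3 := G.k3
  have hkn := G.kn
  have D := H.corr
  have eB : (fun k : ℕ => RR (19 / 2 * η) (103 / 2 * η) (100 * η) W (o + k)) =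
      fun k : ℕ => RR (9 * η + η / 2) (51 * η + η / 2) (100 * η) W (o + k) :=
    funext fun k => rr_eq η W _
  rw [eB] at D
  obtain ⟨t, Bt⟩ := exists_back D (fun k hk => by
    have := hf k hk
    rw [rr_eq] at this
    exact this)
  obtain ⟨Bt', hsub⟩ := exists_tB St D Bt
  have hq : xc H.gp H.hull q = 1 := St.lp.occ
  have h3c : 3 ≤ (sX X).card := dart3 H.gp q
  have ho := st_occ St
  have hcol := st_col St
  set Z : Set (Cs H.gp) := ZH H R q (T n) with hZ
  -- sites of the neck are inner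
  have hin : ∀ s ∈ up ++ yy η W X (o + k0) :: dn, ¬ OnHull (sX X) s := by
    intro s hs
    have hw := Nk.neck.win s hs
    refine H.inn (H.box_U (o + k0) ?_ ?_)
    · rw [abs_le]; constructor <;> linarith [hw.1.1, hw.1.2]
    · rw [abs_le]; constructor <;> linarith [hw.2.1, hw.2.2]
  have hup0 : ∀ s ∈ up, s ∈ sX X ∧ cX X s = 0 := by
    intro s hs
    obtain ⟨h1, h2⟩ := Nk.neck.cu s hs
    refine ⟨h1, ?_⟩
    have h3 : ¬ cX X s = 1 := fun h => h2 ((bX_iff s h1).1 h)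
    revert h3
    generalize cX X s = c
    revert c
    decide
  -- the sites whose cell is in `Z`
  set Z0 : Set ℂ := {s | ∃ c ∈ Z, c.1 = Quot.mk (hullE (sX X)) s} with hZ0
  have hZall : ∀ s ∈ Z0, ∀ c : Cs H.gp, c.1 = Quot.mk _ s → c ∈ Z := by
    rintro s ⟨c, hc, e⟩ c' e'
    have : c' = c := Subtype.ext (by rw [e, e'])
    rw [this]
    exact hc
  have hRS : ∀ s ∈ RS (sX X) (cX X) q.1 (T n), s ∈ Z0 := by
    intro s hs
    have hsS : s ∈ sX X := by
      obtain ⟨i, -, rfl⟩ := hs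
      exact (mem_delT.1 (th_spec (ho.it H.gp H.hull i).1)).2.1
    refine ⟨cs H.gp h3c ⟨s, hsS⟩, Or.inl (Or.inr ?_), rfl⟩
    exact (mem_wr_RS hq).2 ⟨s, hs, rfl⟩
  have hLS : ∀ s ∈ LS (sX X) (cX X) q.1 (T n), s ∈ Z0 := by
    intro s hs
    have hsS : s ∈ sX X := by
      obtain ⟨i, -, rfl⟩ := hs
      exact (mem_delT.1 (th_spec (ho.it H.gp H.hull i).1)).1
    refine ⟨cs H.gp h3c ⟨s, hsS⟩, Or.inl (Or.inl ?_), rfl⟩
    exact (mem_wl_LS hq).2 ⟨s, hs, rfl⟩
  have hy : yy η W X (o + k0) ∈ Z0 := by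
    apply hLS
    refine ⟨T (n - k0), st_T St (by omega), ?_⟩
    rw [st_at St (show 0 < n - k0 by omega) (by omega), show n - (n - k0) = k0 by omega]
    rfl
  have hZu : ∀ s ∈ up, s ∈ Z0 → ∃ j, (j = k0 ∨ j + 1 = k0) ∧
      s ∈ RS (sX X) (cX X) (H.p (j + 1)).1 (tB n T t j) := by
    rintro s hs ⟨c, hc, e⟩
    have hsu : s ∈ up ++ yy η W X (o + k0) :: dn := List.mem_append_left _ hs
    have hsi := hin s hsu
    rcases hc with (hc | hc) | hc
    · exfalso
      obtain ⟨s', hs', e'⟩ := (mem_wl_LS hq).1 hc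
      have : s' = s := quot_inner H.gp hsi (e.symm.trans e')
      subst this
      have h1 := LS_col H.gp H.hull ho hs'
      rw [hcol, (hup0 _ hs).2] at h1
      exact absurd h1 (by decide)
    · obtain ⟨s', ⟨i, hi, hsi'⟩, e'⟩ := (mem_wr_RS hq).1 hc
      have e2 : s' = s := quot_inner H.gp hsi (e.symm.trans e')
      rw [e2] at hsi'
      obtain ⟨j, hj, h1, h2⟩ := rs_arc St (t := t) hi
      rw [← hsi'] at h1 h2
      have hjk : j = k0 ∨ j + 1 = k0 := by
        by_contra hcon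
        push Not at hcon
        refine neck_off' G Nk hj hcon.1 hcon.2 hsu ?_
        exact RR_mono (by linarith) (by linarith) _ W _ h1
      exact ⟨j, hjk, h2 (by omega) (by omega)⟩
    · exfalso
      obtain ⟨s', -, ⟨a, h1, h2, h3⟩, e'⟩ := hR' c hc.1
      have e2 : s' = s := quot_inner H.gp hsi (e.symm.trans e')
      rw [e2] at h3
      exact neck_offR G Nk h1 h2 hsu (RR_mono (by linarith) (by linarith) _ W _ h3)
  obtain ⟨VV, g1, g2, g3, g4⟩ := vv_geo G D Bt' Nk (Z0 := Z0)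
    (fun j hj s hs => hRS s (hsub j (by omega) (by omega) hs)) hy hZu
  have hneck : ∀ s ∈ up ++ yy η W X (o + k0) :: dn, s ∈ sX X ∧
      s ∈ RR (12 * η) (53 * η) (100 * η) W (o + k0) := by
    intro s hs
    have hw := Nk.neck.win s hs
    constructor
    · exact neck_mem Nk.neck (D.yS (show k0 ≤ n by omega)) hs
    · refine win_right H.path (by linarith) (by linarith) ?_ ?_
      · rw [abs_lt]; constructor <;> linarith [hw.1.1, hw.1.2]
      · rw [abs_lt]; constructor <;> linarith [hw.2.1, hw.2.2]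
  refine ⟨VV, ⟨g1, fun v hv => ?_, fun v hv => ?_, fun v hv => ?_, ?_, ?_⟩, fun v hv => ?_⟩
  · rcases g4 v hv with h | ⟨j, hj, h⟩ | h | h
    · exact (hneck v (List.mem_append_left _ h)).1
    · exact RS_S D (by omega) h
    · exact (hneck v (List.mem_append_right _ (by rw [h]; exact List.mem_cons_self ..))).1
    · exact (hneck v (List.mem_append_right _ (List.mem_cons_of_mem _ h))).1
  · have hwn : ∀ s ∈ up ++ yy η W X (o + k0) :: dn,
        |Gatex838.X (gz (100 * η) W (o + k0)) (ge W (o + k0)) s| < 102 * η := by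
      intro s hs
      have hw := Nk.neck.win s hs
      rw [abs_lt]; constructor <;> linarith [hw.1.1, hw.1.2]
    rcases g4 v hv with h | ⟨j, hj, h⟩ | h | h
    · exact hwn v (List.mem_append_left _ h)
    · have h7 := Bt'.rB j (by omega) h
      obtain ⟨-, h8, h9⟩ := G.strip (by linarith) (by linarith) (show k0 ≤ j + 2 by omega)
        (show j < k0 + 2 by omega) h7
      rcases hj with hj | hj
      · have : (j : ℝ) = k0 := by rw [hj]
        rw [this] at h8 h9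
        rw [abs_lt]; constructor <;> linarith
      · have : (k0 : ℝ) = j + 1 := by rw [← hj]; push_cast; ring
        rw [this] at h8 h9
        rw [abs_lt]; constructor <;> linarith
    · exact hwn v (List.mem_append_right _ (by rw [h]; exact List.mem_cons_self ..))
    · exact hwn v (List.mem_append_right _ (List.mem_cons_of_mem _ h))
  · rcases g4 v hv with h | ⟨j, hj, h⟩ | h | h
    · exact Or.inr (hneck v (List.mem_append_left _ h)).2
    · have h7 := Bt'.rB j (by omega) h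
      have h8 : v ∈ RR (12 * η) (53 * η) (100 * η) W (o + j) :=
        RR_mono (by linarith) (by linarith) _ W _ h7
      rcases hj with hj | hj
      · right; rw [← hj]; exact h8
      · left
        rw [show o + (k0 : ℤ) - 1 = o + j by rw [← hj]; push_cast; ring]
        exact h8
    · exact Or.inr (hneck v (List.mem_append_right _ (by rw [h]; exact List.mem_cons_self ..))).2
    · exact Or.inr (hneck v (List.mem_append_right _ (List.mem_cons_of_mem _ h))).2
  · have hw := Nk.neck.win _ (List.mem_append_right up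
      (List.mem_cons_of_mem _ (List.getLast_mem Nk.neck.nd)))
    refine ⟨?_, ?_, Nk.neck.bot⟩
    · rw [abs_le]; constructor <;> linarith [hw.1.1, hw.1.2]
    · linarith [hw.2.1]
  · have hw := Nk.neck.win _ (List.mem_append_left _ (List.head_mem Nk.neck.nu))
    refine ⟨?_, Nk.neck.top, ?_⟩
    · rw [abs_le]; constructor <;> linarith [hw.1.1, hw.1.2]
    · linarith [hw.2.2]
  · rcases g3 v hv with h | h | h
    · exact Or.inl (hZall v h)
    · exact Or.inr (Or.inl h)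
    · refine Or.inr (Or.inr (h.mono ?_))
      rintro w ⟨h1, h2⟩
      exact ⟨h1, fun c e hc => h2 ⟨c, hc, e⟩⟩

/-- **every site of the vertical chain is `Ok`** -/
theorem vco_ok {R Z' Tw : Set (Cs H.gp)} {VV : Set ℂ} {up dn : List ℂ} {t : ℂ} {m : ℕ}
    (hV : ∀ v ∈ VV, (∀ c : Cs H.gp, c.1 = Quot.mk _ v → c ∈ ZH H R q m) ∨ v ∈ dn ∨
      Lk (sX X) {w | w ∈ up ∧ ∀ c : Cs H.gp, c.1 = Quot.mk _ w → c ∉ ZH H R q m} t v)
    (hdn : ∀ v ∈ dn, ∀ c : Cs H.gp, c.1 = Quot.mk _ v →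
      ¬ Extx358.Ext (rc0 H.gp) (Hc H.gp) (ZH H R q m) c)
    (hZ : Z' ⊆ ZH H R q m) (hT : ∀ v ∈ up, ∀ c : Cs H.gp, c.1 = Quot.mk _ v → c ∉ Tw)
    (htop : ∀ c : Cs H.gp, c.1 = Quot.mk _ t → Extx358.Ext (rc0 H.gp) (Hc H.gp) (Z' ∪ Tw) c) :
    ∀ v ∈ VV, LocDx776.Ok H.gp (ZH H R q m) Z' Tw v := by
  intro v hv c e
  rcases hV v hv with h | h | h
  · exact Or.inl (h c e)
  · exact Or.inr (Or.inl (hdn v h c e))
  · refine Or.inr (Or.inr (LocDx776.ext_lk ?_ h htop e))
    rintro w ⟨h1, h2⟩ c' e' hc'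
    rcases hc' with hc' | hc'
    · exact h2 c' e' (hZ hc')
    · exact hT w h1 c' e' hc'

end cor

end Crest.Agent.R143.OutVx336
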