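import Crest.Agent.R143.GWX_597
import Crest.Agent.R143.RcT_422
import Crest.Agent.R143.WndI_416
import Crest.Agent.R143.PLS_535
import Crest.Agent.R143.QuA_66

/-!
# Row 143 (S0194), RIG box Q2: static half of 535's `Sb`, `Fix`, `win_sys` for a window (helper983)

Regions of sites, cells `Cs hS` of `rc0 hS`; `RC hS B` = cells of the inner sites of `B` (422).

* `Lc hS B` : `RC hS B` as a `Finset` (the set `L` of `win_sys` for the region `B` of the weight)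
* **`loc_Lc`** : a function of the coloured sites local on `B` depends on the colours of `Lc hS B`;
  `loc_paint` (176's form `paint S (bk hS h3 σ)`), `loc_real`; **`hgL`** : the weight of a net
* `RC_disj`, `RC_union`, `RC_iUnion`, `RC_diff`, `RC_cov` : regions and sets of cells
* **`LT_rc`** : field `LT` of `Sb`; **`nb_rc`** : the neighbours of `L` are off a window at distance
  more than the mesh (776's `Out`, 434's `L1`)
* **`sup_rc`** : the hypothesis `sup` of `win_sys` for the frozen field of a region (66)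
* `fix` : `PLx535.Fix` from the regions of the two sides and the top zones
* `Wd h A B W p q` : the tiles `p < a < q`; `far_net`, `LT_net`, `nb_net`, `hgL_net` : for 765's
  corridor net and the weight off the window `p .. q` (304's `Iw`, `Jw`)
-/

set_option autoImplicit false
set_option linter.unusedSectionVars false

noncomputable section

open scoped Classical

namespace Crest.Agent.R143.PoSx983

open Set
open Crest.Agent.R143.B0x346 Crest.Agent.R143.DelGx806 Crest.Agent.R143.FinCx811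
open Crest.Agent.R143.Frame1x395 Crest.Agent.R143.Frame2x395 Crest.Agent.R143.Frame3x395
  Crest.Agent.R143.Frame4x395 Crest.Agent.R143.Frame8x395 Crest.Agent.R143.Frame10x395
open Crest.Agent.R143.PP0x831 Crest.Agent.R143.PWx978 Crest.Agent.R143.ColXx829
open Crest.Agent.R143.RcTx422
open Crest.Agent.R143.Extx358 (Ad Ext)
open Crest.Agent.R143.Blkx838 (DE)
open Crest.Agent.R143.Dbl2x609 (paint)
open Crest.Agent.R143.Engx490 (bk)

variable {S : Finset ℂ} {hS : GP (S : Set ℂ)} {h3 : 3 ≤ S.card} {B B' : Set ℂ}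

/-! ### the cells of a region as a finite set -/

/-- **the cells of the inner sites of a region** -/
def Lc (hS : GP (S : Set ℂ)) (B : Set ℂ) : Finset (Cs hS) := (Set.toFinite (RC hS B)).toFinset

theorem mem_Lc {c : Cs hS} : c ∈ Lc hS B ↔ c ∈ RC hS B := Set.Finite.mem_toFinset _

theorem Lc_mono (h : B ⊆ B') : Lc hS B ⊆ Lc hS B' := fun _ hc => mem_Lc.2 (RC_mono h (mem_Lc.1 hc))

theorem cs_Lc {v : {v // v ∈ S}} (hv : ¬ OnHull S v.1) : cs hS h3 v ∈ Lc hS B ↔ v.1 ∈ B := by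
  rw [mem_Lc, mem_RC h3 hv]

theorem bk_eq (σ : Cs hS → ZMod 2) : bk hS h3 σ = bs hS h3 σ := rfl

theorem Xc_paint (σ : Cs hS → ZMod 2) : Xc hS h3 σ = paint S (bk hS h3 σ) := rfl

section loc

variable {E : Type*} {F : Set (ℂ × Bool) → E} {σ τ : Cs hS → ZMod 2}

/-- **a local function of the coloured sites depends on the colours of the cells of the region** -/
theorem loc_Lc (hF : LocalOn B F) (hin : ∀ v ∈ S, v ∈ B → ¬ OnHull S v)
    (h : ∀ c ∈ Lc hS B, τ c = σ c) : F (Xc hS h3 τ) = F (Xc hS h3 σ) := by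
  rw [hF (Xc hS h3 σ), hF (Xc hS h3 τ)]
  exact congrArg F (Xc_congr (T := B) fun v hv hvT => h _ ((cs_Lc (hin v hv hvT)).2 hvT))

/-- the same in 176's form -/
theorem loc_paint (hF : LocalOn B F) (hin : ∀ v ∈ S, v ∈ B → ¬ OnHull S v)
    (h : ∀ c ∈ Lc hS B, τ c = σ c) :
    F (paint S (bk hS h3 τ)) = F (paint S (bk hS h3 σ)) := loc_Lc hF hin h

theorem loc_real {g : Set (ℂ × Bool) → ENNReal} (hg : LocalOn B g)
    (hin : ∀ v ∈ S, v ∈ B → ¬ OnHull S v) (h : ∀ c ∈ Lc hS B, τ c = σ c) :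
    (g (Xc hS h3 τ)).toReal = (g (Xc hS h3 σ)).toReal := by rw [loc_Lc hg hin h]

end loc

section net

variable {ε : ℝ} {ι κ : Type} (N : Net ε ι κ)

/-- **`hgL` of `win_sys`** for the weight of the gates `I` and the tubes `J` -/
theorem hgL {I : Finset ι} {J : Finset κ} (hN : ∀ k ∈ J, N.N k ⊆ I)
    (hin : ∀ v ∈ S, v ∈ N.reg I J → ¬ OnHull S v) (σ τ : Cs hS → ZMod 2)
    (h : ∀ c ∈ Lc hS (N.reg I J), τ c = σ c) :
    (N.gw I J (Xc hS h3 τ)).toReal = (N.gw I J (Xc hS h3 σ)).toReal :=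
  loc_real (N.gw_local hN) hin h

/-- the same in 176's form -/
theorem hgL_paint {I : Finset ι} {J : Finset κ} (hN : ∀ k ∈ J, N.N k ⊆ I)
    (hin : ∀ v ∈ S, v ∈ N.reg I J → ¬ OnHull S v) (σ τ : Cs hS → ZMod 2)
    (h : ∀ c ∈ Lc hS (N.reg I J), τ c = σ c) :
    (N.gw I J (paint S (bk hS h3 τ))).toReal = (N.gw I J (paint S (bk hS h3 σ))).toReal :=
  hgL N hN hin σ τ h

end net

/-! ### regions and sets of cells -/

/-- disjoint regions of sites -/
theorem RC_disj' (h : ∀ v ∈ S, v ∈ B → v ∉ B') : Disjoint (RC hS B) (RC hS B') := by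
  rw [Set.disjoint_left]
  rintro c ⟨v, h1, h2, hv, e⟩ hc
  exact h v h1 h2 ((val_RC hv e).1 hc).2

theorem RC_disj (h : Disjoint B B') : Disjoint (RC hS B) (RC hS B') :=
  RC_disj' fun _ _ h1 h2 => Set.disjoint_left.1 h h1 h2

theorem RC_union : RC hS (B ∪ B') = RC hS B ∪ RC hS B' := by
  ext c
  constructor
  · rintro ⟨v, h1, h2 | h2, h4, e⟩
    · exact Or.inl ⟨v, h1, h2, h4, e⟩
    · exact Or.inr ⟨v, h1, h2, h4, e⟩
  · rintro (⟨v, h1, h2, h4, e⟩ | ⟨v, h1, h2, h4, e⟩)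
    · exact ⟨v, h1, Or.inl h2, h4, e⟩
    · exact ⟨v, h1, Or.inr h2, h4, e⟩

theorem RC_iUnion {κ : Type*} {G : κ → Set ℂ} : RC hS (⋃ k, G k) = ⋃ k, RC hS (G k) := by
  ext c
  rw [mem_iUnion]
  constructor
  · rintro ⟨v, h1, h2, h4, e⟩
    obtain ⟨k, hk⟩ := mem_iUnion.1 h2
    exact ⟨k, v, h1, hk, h4, e⟩
  · rintro ⟨k, v, h1, h2, h4, e⟩
    exact ⟨v, h1, mem_iUnion.2 ⟨k, h2⟩, h4, e⟩

theorem RC_diff : RC hS (B \ B') = RC hS B \ RC hS B' := by
  ext c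
  constructor
  · rintro ⟨v, h1, h2, h4, e⟩
    exact ⟨⟨v, h1, h2.1, h4, e⟩, fun h => h2.2 ((val_RC h4 e).1 h).2⟩
  · rintro ⟨⟨v, h1, h2, h4, e⟩, h⟩
    exact ⟨v, h1, ⟨h2, fun h5 => h ((val_RC h4 e).2 ⟨h1, h5⟩)⟩, h4, e⟩

theorem RC_inter : RC hS (B ∩ B') = RC hS B ∩ RC hS B' := by
  ext c
  constructor
  · rintro ⟨v, h1, h2, h4, e⟩
    exact ⟨⟨v, h1, h2.1, h4, e⟩, ⟨v, h1, h2.2, h4, e⟩⟩
  · rintro ⟨⟨v, h1, h2, h4, e⟩, h⟩
    exact ⟨v, h1, ⟨h2, ((val_RC h4 e).1 h).2⟩, h4, e⟩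

/-- the cells of the sites of a region without hull sites -/
theorem mem_RC_iff (hin : ∀ v ∈ S, v ∈ B → ¬ OnHull S v) {c : Cs hS} :
    c ∈ RC hS B ↔ ∃ v ∈ S, v ∈ B ∧ c.1 = Quot.mk _ v :=
  ⟨fun ⟨v, h1, h2, _, e⟩ => ⟨v, h1, h2, e⟩, fun ⟨v, h1, h2, e⟩ => ⟨v, h1, h2, hin v h1 h2, e⟩⟩

/-- every cell which is not a hull cell is the cell of an inner site -/
theorem exists_inner (h3 : 3 ≤ S.card) {c : Cs hS} (hc : c ∉ Hc hS) :
    ∃ v ∈ S, ¬ OnHull S v ∧ c.1 = Quot.mk _ v := by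
  obtain ⟨v, rfl⟩ := cs_surj hS h3 c
  exact ⟨v.1, v.2, fun h => hc (cs_Hc h3 h), rfl⟩

/-- **field `LT` of `Sb`** -/
theorem LT_rc (h : Disjoint B B') {T : Set (Cs hS)} (hT : T ⊆ RC hS B') :
    ∀ c ∈ Lc hS B, c ∉ T := fun _ hc hT' =>
  Set.disjoint_left.1 (RC_disj h) (mem_Lc.1 hc) (hT hT')

/-- **the neighbours of `L` are off the window** -/
theorem nb_rc {ρ : ℝ} (h : Disjoint B (Metric.thickening ρ B'))
    (hst : ∀ u v, v ∈ S → v ∈ B → DE S u v → ‖u - v‖ < ρ) {c e : Cs hS} (hc : c ∈ RC hS B)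
    (ha : Ad (rc0 hS) e c) : e ∉ RC hS B' := by
  rintro ⟨s, hs, hsB, hsn, es⟩
  obtain ⟨v, hv, hvB, hvn, ev⟩ := hc
  have h1 := ad_adjc ha.symm
  rw [ev, es] at h1
  obtain ⟨w, hw, e1⟩ := Sepx686.adj_inner hS hvn h1
  have e2 : w = s := quot_inner hS hsn e1
  subst e2
  refine Set.disjoint_left.1 h hvB (Metric.mem_thickening_iff.2 ⟨w, hsB, ?_⟩)
  rw [dist_eq_norm, norm_sub_rev]
  exact hst w v hv hvB hw.symm

/-! ### the field -/

open Crest.Agent.R143.Sptx169 (rst)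
open Crest.Agent.R143.Sptx832 (FQ)
open Crest.Agent.R143.Locx922 (Hol)

/-- **the hypothesis `sup` of `win_sys`** : a face with centre in the region `Q l` has no vertex in a
region off the `d`-neighbourhood of `Q l` -/
theorem sup_rc {d : ℝ} {m l : ℕ} {Q : ℕ → Set ℂ} {w : D0 S → ℂ} (hd : 0 < d)
    (hH : Hol (S : Set ℂ) (Q l) d) (hoff : ∀ z ∈ Q l, ∀ v, ‖v - z‖ < d → ¬ OnHull S v)
    (hB : Disjoint B (Metric.thickening d (Q l))) {R : Set (Cs hS)} (hR : R ⊆ RC hS B) (h : D0 S)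
    (h0 : rst w (FQ S m Q l) h ≠ 0) :
    (rc0 hS).cell h ∉ R ∧ (rc0 hS).cell ((rc0 hS).rho h) ∉ R ∧
      (rc0 hS).cell ((rc0 hS).rho ((rc0 hS).rho h)) ∉ R := by
  have h1 := (QuAx66.supp hd hH h h0).1
  obtain ⟨n1, n2, n3⟩ := QuAx66.vert_lt hd hH h h1
  have key : ∀ v : ℂ, ‖v - FinMx609.cen3 (Engx490.fc S h)‖ < d → ∀ c : Cs hS, c.1 = Quot.mk _ v →
      c ∉ R := by
    intro v hv c e hc
    have h2 := (val_RC (hoff _ h1 v hv) e).1 (hR hc)
    refine Set.disjoint_left.1 hB h2.2 (Metric.mem_thickening_iff.2 ⟨_, h1, ?_⟩)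
    rwa [dist_eq_norm]
  exact ⟨key _ n1 _ (cell_val h), key _ n2 _ (cell_rho_val h), key _ n3 _ (cell_rho2_val h)⟩

/-! ### the static record -/

/-- **`PLx535.Fix`** from the regions `G k` of the two sides, the windows `K k` of the columns, the
white region `Rw` and the enlarged window `Tw` -/
theorem fix {κ : Type} {Z : κ → Uniqx323.Zn (rc0 hS)} {G K : κ → Set ℂ} {Rw Tw : Set ℂ}
    (hZ : ∀ k, (Z k).R = RC hS (G k)) (hK : ∀ k, (Z k).K ⊆ RC hS (K k))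
    (dG : ∀ k k', k ≠ k' → Disjoint (G k) (G k')) (dR : ∀ k, Disjoint (K k) Rw)
    (dT : ∀ k, Disjoint (K k) Tw)
    (top : ∀ k, ∀ t ∈ (Z k).T,
      Ext (rc0 hS) (Hc hS) (RC hS (((⋃ j, G j) ∪ Rw) ∪ Tw)) t) :
    PLx535.Fix (rc0 hS) (Hc hS) (RC hS Rw) (RC hS Tw) Z where
  hR := fun c hc => Hc_RC hc
  dis := fun k k' h => by
    rw [hZ, hZ]
    exact RC_disj (dG k k' h)
  KR := fun k => (RC_disj (dR k)).mono_left (hK k)
  KT := fun k => (RC_disj (dT k)).mono_left (hK k)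
  top := fun k t ht => by
    have h1 := top k t ht
    rw [RC_union, RC_union, RC_iUnion] at h1
    have h2 : (⋃ j, (Z j).R) = ⋃ j, RC hS (G j) := by
      congr 1
      funext j
      exact hZ j
    rw [h2]
    exact h1
  con := fun _ => con_rc

/-! ### the corridor net -/

section wnd

open Crest.Agent.R143.TileRx228 Crest.Agent.R143.PthFx765 Crest.Agent.R143.HqPx304
  Crest.Agent.R143.CorNx765 Crest.Agent.R143.Tplx978 Crest.Agent.R143.WndIx416

/-- the tiles `p < a < q` -/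
def Wd (A B h : ℝ) (W : ℤ → ℤ × ℤ) (p q : ℤ) : Set ℂ := {s | ∃ a, p < a ∧ a < q ∧ s ∈ RR A B h W a}

theorem Wd_mono {A A' B B' h : ℝ} {W : ℤ → ℤ × ℤ} {p p' q q' : ℤ} (hA : A ≤ A') (hB : B ≤ B')
    (hp : p' ≤ p) (hq : q ≤ q') : Wd A B h W p q ⊆ Wd A' B' h W p' q' := by
  rintro s ⟨a, h1, h2, h3⟩
  exact ⟨a, by omega, by omega, RR_mono hA hB h W a h3⟩

theorem RR_Wd {A A' B B' h : ℝ} {W : ℤ → ℤ × ℤ} {p q a : ℤ} (hA : A ≤ A') (hB : B ≤ B')
    (hp : p < a) (hq : a < q) : RR A B h W a ⊆ Wd A' B' h W p q :=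
  fun _ hs => ⟨a, hp, hq, RR_mono hA hB h W a hs⟩

variable {M : ℕ} {W : ℤ → ℤ × ℤ} {Ac e : ℤ → ℤ} {A₀ B₀ h ε : ℝ} {T : Tpl ε (Tn × Bool)}
  [DecidableEq (ZMod M)]

/-- **the regions of the corridor net off the window `p .. q` are far from the tiles `p < a < q`** -/
theorem far_net (P : FPath M W) (Hs : Std T A₀ B₀ h Prod.fst) (i : ZMod 3)
    (I J : Finset (ZMod M)) (p q : ℤ) {ρ : ℝ} (hρ : 0 ≤ ρ) (hh : A₀ + B₀ + ρ ≤ h) :
    Disjoint ((cpth P Hs Ac e i).net.reg (I \ Iw M p q) (J \ Jw M p q))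
      (Metric.thickening ρ (Wd A₀ B₀ h W p q)) := by
  rw [Set.disjoint_left]
  intro s hs ht
  obtain ⟨t, ⟨a, h1, h2, ht⟩, hst⟩ := Metric.mem_thickening_iff.1 ht
  exact Set.disjoint_left.1 (far_win P Hs (cty_typ i) I J h1 h2 hρ hh) hs
    (Metric.mem_thickening_iff.2 ⟨t, ht, hst⟩)

theorem dsj_net (P : FPath M W) (Hs : Std T A₀ B₀ h Prod.fst) (i : ZMod 3)
    (I J : Finset (ZMod M)) (p q : ℤ) (hh : A₀ + B₀ < h) :
    Disjoint ((cpth P Hs Ac e i).net.reg (I \ Iw M p q) (J \ Jw M p q)) (Wd A₀ B₀ h W p q) :=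
  (far_net P Hs i I J p q (ρ := h - (A₀ + B₀)) (by linarith) (by linarith)).mono_right
    (Metric.self_subset_thickening (by linarith) _)

/-- the windows are windows of the net -/
theorem hN_net (P : FPath M W) (Hs : Std T A₀ B₀ h Prod.fst) (i : ZMod 3) {I J : Finset (ZMod M)}
    (hN : ∀ k ∈ J, k ∈ I ∧ k + 1 ∈ I) (p q : ℤ) :
    ∀ k ∈ J \ Jw M p q, (cpth P Hs Ac e i).net.N k ⊆ I \ Iw M p q := by
  intro k hk j hj
  obtain ⟨hk1, hk2⟩ := Finset.mem_sdiff.1 hk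
  have hj' : j ∈ ({k, k + 1} : Finset (ZMod M)) := by
    have := net_N P Hs (cty_typ (M := M) (W := W) (Ac := Ac) (e := e) i) k
    rw [← this]
    exact hj
  rw [Finset.mem_insert, Finset.mem_singleton] at hj'
  rw [Finset.mem_sdiff]
  rcases hj' with rfl | rfl
  · exact ⟨(hN _ hk1).1, fun h => hk2 (Iw_sub _ _ h)⟩
  · refine ⟨(hN k hk1).2, fun h => hk2 ?_⟩
    obtain ⟨j, hj, hjk⟩ := Finset.mem_image.1 h
    have hj' := Finset.mem_Icc.1 hj
    have : k = ((j - 1 : ℤ) : ZMod M) := by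
      push_cast
      rw [hjk]
      ring
    rw [this]
    exact mem_Jw (by omega) (by omega)

variable {S : Finset ℂ} {hS : GP (S : Set ℂ)} {h3 : 3 ≤ S.card}

/-- the set `L` of the window `p .. q` : the cells of the regions of the weight off the window -/
abbrev Ln (hS : GP (S : Set ℂ)) (P : FPath M W) (Hs : Std T A₀ B₀ h Prod.fst)
    (Ac e : ℤ → ℤ) (i : ZMod 3) (I J : Finset (ZMod M)) (p q : ℤ) : Finset (Cs hS) :=
  Lc hS ((cpth P Hs Ac e i).net.reg (I \ Iw M p q) (J \ Jw M p q))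

/-- **`hgL`** for the weight of the corridor net off the window -/
theorem hgL_net (P : FPath M W) (Hs : Std T A₀ B₀ h Prod.fst) (i : ZMod 3) {I J : Finset (ZMod M)}
    (hN : ∀ k ∈ J, k ∈ I ∧ k + 1 ∈ I) (p q : ℤ)
    (hin : ∀ v ∈ S, v ∈ (cpth P Hs Ac e i).net.reg I J → ¬ OnHull S v) (σ τ : Cs hS → ZMod 2)
    (hc : ∀ c ∈ Ln hS P Hs Ac e i I J p q, τ c = σ c) :
    ((cpth P Hs Ac e i).net.gw (I \ Iw M p q) (J \ Jw M p q) (Xc hS h3 τ)).toReal =
      ((cpth P Hs Ac e i).net.gw (I \ Iw M p q) (J \ Jw M p q) (Xc hS h3 σ)).toReal :=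
  hgL (cpth P Hs Ac e i).net (hN_net P Hs i hN p q)
    (fun v hv hvR => hin v hv ((cpth P Hs Ac e i).net.reg_mono Finset.sdiff_subset
      Finset.sdiff_subset hvR)) σ τ hc

/-- **field `LT`** : any set `T` of cells of sites of the tiles `p < a < q` -/
theorem LT_net (P : FPath M W) (Hs : Std T A₀ B₀ h Prod.fst) (i : ZMod 3) (I J : Finset (ZMod M))
    (p q : ℤ) (hh : A₀ + B₀ < h) {Tw : Set (Cs hS)} (hT : Tw ⊆ RC hS (Wd A₀ B₀ h W p q)) :
    ∀ c ∈ Ln hS P Hs Ac e i I J p q, c ∉ Tw := LT_rc (dsj_net P Hs i I J p q hh) hT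

/-- **`L` and its neighbours are off the tiles `p < a < q`** -/
theorem nb_net (P : FPath M W) (Hs : Std T A₀ B₀ h Prod.fst) (i : ZMod 3) (I J : Finset (ZMod M))
    (p q : ℤ) {ρ : ℝ} (hρ : 0 < ρ) (hh : A₀ + B₀ + ρ ≤ h)
    (hst : ∀ u v, v ∈ S → v ∈ (cpth P Hs Ac e i).net.reg I J → DE S u v → ‖u - v‖ < ρ)
    {c : Cs hS} (hc : c ∈ Ln hS P Hs Ac e i I J p q) :
    c ∉ RC hS (Wd A₀ B₀ h W p q) ∧
      ∀ b, Ad (rc0 hS) b c → b ∉ RC hS (Wd A₀ B₀ h W p q) := by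
  refine ⟨LT_net P Hs i I J p q (by linarith) le_rfl c hc, fun b hb => ?_⟩
  refine nb_rc (far_net P Hs i I J p q hρ.le hh) (fun u v hv hvR hd => hst u v hv
    ((cpth P Hs Ac e i).net.reg_mono Finset.sdiff_subset Finset.sdiff_subset hvR) hd)
    (mem_Lc.1 hc) hb

/-- the regions of the corridor net are in the regions of the tiles -/
theorem reg_RR (P : FPath M W) (Hs : Std T A₀ B₀ h Prod.fst) (i : ZMod 3) (I J : Finset (ZMod M))
    {s : ℂ} (hs : s ∈ (cpth P Hs Ac e i).net.reg I J) : ∃ a, s ∈ RR A₀ B₀ h W a := by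
  rcases hs with hs | hs
  · obtain ⟨k, hk, hs⟩ := mem_iUnion₂.1 hs
    have hs' : s ∈ PthFx765.GB A₀ B₀ h W (zc k) := by
      have := net_B P Hs (cty_typ (M := M) (W := W) (Ac := Ac) (e := e) i) (zc k)
      rw [zc_cast] at this
      rwa [← this]
    exact ⟨_, PthFx765.GB_sub P Hs.hA Hs.hB (zc k) hs'⟩
  · obtain ⟨k, hk, hs⟩ := mem_iUnion₂.1 hs
    have hs' : s ∈ PthFx765.TB A₀ B₀ h W (zc k) := by
      have := net_C P Hs (cty_typ (M := M) (W := W) (Ac := Ac) (e := e) i) (zc k)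
      rw [zc_cast] at this
      rwa [← this]
    exact ⟨_, hs'.1⟩

end wnd

end Crest.Agent.R143.PoSx983
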