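import Crest.Agent.R143.SupG_827

/-!
# Row 143 (S0194), RIG box Q2: `sup`, static form (helper827)

No colouring: only the path, the environment without holes and the hull.
* **`bst_far`** : the strip of the tile `x` is far from 169's region of the tile `k`
* `ub_far`, **`sup_st`**, `spt_st` : the hypothesis `sup` for `Ft S η W o n l` (831)
-/

set_option autoImplicit false
set_option linter.unusedSectionVars false

noncomputable section

open scoped Classical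

namespace Crest.Agent.R143.SupHx827

open Set
open Crest.Agent.R143.B0x346 Crest.Agent.R143.DelGx806
open Crest.Agent.R143.Frame1x395 Crest.Agent.R143.Frame2x395 Crest.Agent.R143.Frame3x395
  Crest.Agent.R143.Frame4x395 Crest.Agent.R143.Frame8x395 Crest.Agent.R143.Frame10x395
open Crest.Agent.R143.Splx117 Crest.Agent.R143.WLocx713 Crest.Agent.R143.PP0x831
open Crest.Agent.R143.TileRx228 Crest.Agent.R143.SpRx169
open Crest.Agent.R143.CorHx713 Crest.Agent.R143.CorrIx831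
open Crest.Agent.R143.FinCx811 (Cs rc0)
open Crest.Agent.R143.SubDx117 (UB)
open Crest.Agent.R143.SubHx117 (clS clS_eq)
open Crest.Agent.R143.RcTx422 (RC)
open Crest.Agent.R143.Locx922 (Hol)
open Sptx169 (rst)
open Sptx832 (FQ)
open PLIx228 (Spt)

variable {S : Finset ℂ} {hS : GP (S : Set ℂ)} {M : ℕ} {W : ℤ → ℤ × ℤ} {η d : ℝ} {o : ℤ} {n : ℕ}

/-- **the strip of the tile `x` is far from the region of the tile `k`** -/
theorem bst_far (P : FPath M W) (e0 : 0 < η) (d0 : 0 ≤ d) (hd : d ≤ 40 * η) (hM : n + 2 ≤ M) :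
    ∀ k < n, ∀ x < n, x + 2 ≤ k ∨ k + 2 ≤ x →
      Disjoint (bst η W (o + x)) (Metric.thickening d (QX (100 * η) W o n k)) :=
  fun _ hk _ hx h => SupGx827.qx_far P (by linarith) d0 (by linarith) (by linarith) (by linarith)
    (Or.inr (by omega)) hx hk h

theorem ub_far (P : FPath M W) (e0 : 0 < η) (d0 : 0 ≤ d) (hd : d ≤ 40 * η) (hM : n + 2 ≤ M)
    {k a b : ℕ} (hk : k < n) (hb : b ≤ n) (hab : b + 1 ≤ k ∨ k + 2 ≤ a) :
    Disjoint (UB (SubHx117.Bk η W o) a b) (Metric.thickening d (QX (100 * η) W o n k)) := by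
  rw [Set.disjoint_left]
  rintro s ⟨x, h1, h2, h3⟩ hs
  exact Set.disjoint_left.1 (bst_far P e0 d0 hd hM k hk x (by omega) (by omega)) h3 hs

/-- **the hypothesis `sup`** for one zone: tiles `a ≤ x < b`, window of the tile `l` (order of time) -/
theorem sup_st (P : FPath M W) (e0 : 0 < η) (d0 : 0 < d) (hd : d ≤ 40 * η) (hM : n + 2 ≤ M)
    {l : ℕ} (hl : l < n) (hH : Hol (S : Set ℂ) (QX (100 * η) W o n (n - 1 - l)) d)
    (hoff : ∀ z ∈ QX (100 * η) W o n (n - 1 - l), ∀ v, ‖v - z‖ < d → ¬ OnHull S v) {a b : ℕ}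
    (hb : b ≤ n) (hab : b + 1 ≤ n - 1 - l ∨ n - 1 - l + 2 ≤ a) {R : Set (Cs hS)}
    (hR : R ⊆ RC hS (UB (SubHx117.Bk η W o) a b)) {z : D0 S → ℂ} (h : D0 S)
    (h0 : rst z (CorrIx831.Ft S η W o n l) h ≠ 0) :
    (rc0 hS).cell h ∉ R ∧ (rc0 hS).cell ((rc0 hS).rho h) ∉ R ∧
      (rc0 hS).cell ((rc0 hS).rho ((rc0 hS).rho h)) ∉ R :=
  PoSx983.sup_rc (Q := fun l => QX (100 * η) W o n (n - 1 - l)) d0 hH hoff
    (ub_far P e0 d0.le hd hM (by omega) hb hab) hR h h0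

/-- **228's `Spt`** -/
theorem spt_st (P : FPath M W) (e0 : 0 < η) (d0 : 0 < d) (hd : d ≤ 40 * η) (hM : n + 2 ≤ M)
    {l : ℕ} (hl : l < n) (hH : Hol (S : Set ℂ) (QX (100 * η) W o n (n - 1 - l)) d)
    (hoff : ∀ z ∈ QX (100 * η) W o n (n - 1 - l), ∀ v, ‖v - z‖ < d → ¬ OnHull S v)
    (z : D0 S → ℂ) {κ : Type} {Z : κ → Uniqx323.Zn (rc0 hS)}
    (hZ : ∀ k, ∃ a b : ℕ, b ≤ n ∧ (b + 1 ≤ n - 1 - l ∨ n - 1 - l + 2 ≤ a) ∧
      (Z k).R ⊆ RC hS (UB (SubHx117.Bk η W o) a b)) :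
    Spt z (CorrIx831.Ft S η W o n l) Z := by
  intro h h0 k h1
  obtain ⟨a, b, hb, hab, hR⟩ := hZ k
  exact (sup_st P e0 d0 hd hM hl hH hoff hb hab hR h h0).1 h1.1

end Crest.Agent.R143.SupHx827
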