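import Crest.Agent.R143.SubE_117
import Crest.Agent.R143.CorrA_831

/-!
# Row 143 (S0194), RIG box Q2: the pieces of the strand around a window, under `CorH` (helper117)

* `Bk η W o k` : the enlarged tile `o + k`; `dis`, `mem_y` : geometry from `CorH`
* `clR hS F` : cells of the sites of `F`; `rd_clR`
* **`two`, `right`, `left`** : the inputs `ev`, `sub`, `rest` of `PLTx535.Sb.of`
-/

set_option autoImplicit false
set_option linter.all false

noncomputable section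

open scoped Classical

namespace Crest.Agent.R143.SubHx117

open Set
open Crest.Agent.R143.B0x346 Crest.Agent.R143.DelGx806 Crest.Agent.R143.DelRx806
  Crest.Agent.R143.JColx54
open Crest.Agent.R143.Frame1x395 Crest.Agent.R143.Frame2x395 Crest.Agent.R143.Frame3x395
  Crest.Agent.R143.Frame4x395 Crest.Agent.R143.Frame8x395 Crest.Agent.R143.Frame9x395
  Crest.Agent.R143.Frame10x395 Crest.Agent.R143.Frame11x395
open Crest.Agent.R143.Splx117 Crest.Agent.R143.WLocx713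
open Crest.Agent.R143.PP0x831 Crest.Agent.R143.FinMx609
open Crest.Agent.R143.RingDx117 (RD)
open Crest.Agent.R143.CorrDx117 (DCorr)
open Crest.Agent.R143.TileRx228 Crest.Agent.R143.RingPx503
open Crest.Agent.R143.ConfTx503 (rr_sub)
open Crest.Agent.R143.CorHx713 Crest.Agent.R143.CorrIx831
open Crest.Agent.R143.NonXx592 (Rc P)
open Crest.Agent.R143.StrBx117 Crest.Agent.R143.SubDx117 Crest.Agent.R143.SubEx117
open Crest.Agent.R143.K33x137 Crest.Agent.R143.Uniqx323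
open Crest.Agent.R143.FinCx811 (Cs rc0 cs rcol)
open Crest.Agent.R143.PLx535 (EvP Ac)
open Crest.Agent.R143.OutSx358 (ac)
open Crest.Agent.R143.EvGx168 (SD)

/-! ### cells of sites -/

section cl

variable {S : Finset ℂ} {hS : GP (S : Set ℂ)} {F : Set ℂ}

/-- the cells of the sites of `F` (903's `clR`) -/
abbrev clS (hS : GP (S : Set ℂ)) (F : Set ℂ) : Set (Cs hS) :=
  {c | ∃ s, s ∈ S ∧ s ∈ F ∧ c.1 = Quot.mk (hullE S) s}

theorem clS_eq (hin : ∀ v ∈ S, v ∈ F → ¬ OnHull S v) : clS hS F = RcTx422.RC hS F := by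
  ext c
  constructor
  · rintro ⟨s, h1, h2, h3⟩
    exact ⟨s, h1, h2, hin s h1 h2, h3⟩
  · rintro ⟨s, h1, h2, -, h3⟩
    exact ⟨s, h1, h2, h3⟩

theorem rd_clS (hin : ∀ v ∈ S, v ∈ F → ¬ OnHull S v) :
    EvGx117.Rd (rc0 hS) (clS hS F) = RD S F := by
  rw [clS_eq hin]
  exact RcTx422.rs2_rc hin

theorem cell_clS {d : D0 S} (hd : d ∈ RD S F) {c : Cs hS}
    (hc : c = (rc0 hS).cell d ∨ c = Rc (rc0 hS) d) : c ∈ clS hS F := by
  rcases hc with rfl | rfl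
  · exact ⟨d.1.1, (Sepx686.dart_mem d).1, hd.1, RcTx422.cell_val d⟩
  · exact ⟨d.1.2, (Sepx686.dart_mem d).2, hd.2, RcTx422.cell_rho_val d⟩

end cl

variable {X : Set (ℂ × Bool)} {U : Set ℂ} {M : ℕ} {W : ℤ → ℤ × ℤ} {η d : ℝ} {o : ℤ} {n : ℕ}

/-- the enlarged tiles of the corridor -/
abbrev Bk (η : ℝ) (W : ℤ → ℤ × ℤ) (o : ℤ) : ℕ → Set ℂ := fun k => bst η W (o + k)

/-- `Rts` is a union of tiles -/
theorem rts_eq : Rts η W o n = UB (Bk η W o) 1 (n - 1) := by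
  ext s
  constructor
  · rintro ⟨k, h1, h2, h3⟩
    exact ⟨k, h1, by omega, h3⟩
  · rintro ⟨k, h1, h2, h3⟩
    exact ⟨k, by omega, by omega, h3⟩

/-- tiles which are not neighbours are disjoint -/
theorem dis' (H : CorH X U M W η d o n) {j k : ℕ} (h1 : j + 2 ≤ k) (h2 : k + 1 < j + M) :
    Disjoint (Bk η W o j) (Bk η W o k) := by
  have e0 := H.e0
  have h := H.dsj (o + j) (o + k) (CorPx503.not_dvd_of (by omega) (by omega) (by omega))
    (CorPx503.not_dvd_of (by omega) (by omega) (by omega))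
    (CorPx503.not_dvd_of (by omega) (by omega) (by omega))
  exact h.mono (rr_sub (by linarith) (by linarith) _) (rr_sub (by linarith) (by linarith) _)

theorem dis (H : CorH X U M W η d o n) : ∀ j k : ℕ, j + 2 ≤ k → k < n →
    Disjoint (Bk η W o j) (Bk η W o k) := fun j k h1 h2 =>
  dis' H h1 (by have := H.nM; omega)

/-- the sites of the tiles are inner -/
theorem inn (H : CorH X U M W η d o n) {a b : ℕ} : ∀ v ∈ sX X, v ∈ UB (Bk η W o) a b →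
    ¬ OnHull (sX X) v := by
  rintro v - ⟨k, -, -, h⟩
  exact inn_bst H h

theorem inn' (H : CorH X U M W η d o n) {a b : ℕ} {T₁ : Set ℂ} : ∀ v ∈ sX X,
    v ∈ UB (Bk η W o) a b \ T₁ → ¬ OnHull (sX X) v := fun v h1 h2 => inn H v h1 h2.1

/-- the black site of the gate `k` is in the tiles `k` and `k - 1` -/
theorem mem_y (H : CorH X U M W η d o n) {k : ℕ} (hk : k < n) :
    yy η W X (o + k) ∈ Bk η W o k ∧ yy η W X (o + (k + 1 : ℕ)) ∈ Bk η W o k := by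
  have e0 := H.e0
  have hsub : RR (9 * η) (51 * η) (100 * η) W (o + k) ⊆ Bk η W o k :=
    rr_sub (by linarith) (by linarith) _
  exact ⟨hsub (H.corr.mem0 k hk), hsub (H.corr.mem1 k hk)⟩

/-- a zone of a piece, under `CorH`: `F` region of the piece, `BE`, `BW` end tiles, column at one gate
`g₀ < g < g₁` -/
theorem side (H : CorH X U M W η d o n) {Z : Zn (rc0 H.gp)} {F BE BW : Set ℂ} {g₀ g₁ : ℕ}
    (hin : ∀ v ∈ sX X, v ∈ F → ¬ OnHull (sX X) v) (hR : Z.R = clS H.gp F)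
    (hE : ∀ d ∈ RD (sX X) BE, ∀ c, (c = (rc0 H.gp).cell d ∨ c = Rc (rc0 H.gp) d) → c ∉ Z.R →
      c ∈ Z.E)
    (hW : ∀ d ∈ RD (sX X) BW, ∀ c, (c = (rc0 H.gp).cell d ∨ c = Rc (rc0 H.gp) d) → c ∉ Z.R →
      c ∈ Z.W)
    (hcol : ∃ g, g₀ < g ∧ g < g₁ ∧ ∃ t ∈ Z.T,
      Lk (rc0 H.gp) ({c | c ∈ Z.K ∧ rcol H.gp (cX X) H.hull c = 0} ∪ Z.T)
        (Rc (rc0 H.gp) (H.p g)) t) :
    SideH H.gp H.hull (fun k : ℕ => yy η W X (o + k)) H.p Z F BE BW g₀ g₁ := by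
  refine ⟨?_, hE, hW, ?_⟩
  · rw [hR]
    exact rd_clS hin
  · obtain ⟨g, h1, h2, h3⟩ := hcol
    exact ⟨g, h1, h2, H.coly _, h3⟩


/-- `ev`, `sub`, `rest` from `Pcs` -/
theorem rest_of {S : Finset ℂ} {hS : GP (S : Set ℂ)} {σ : Cs hS → ZMod 2} {q : D0 S} {m : ℕ}
    {κ : Type} [Fintype κ] {qq : κ → D0 S × ℕ} {F : Set ℂ}
    (H : Pcs (rc0 hS) (cfg (rc0 hS) σ) q m (RD S F) qq) :
    (∀ k, ∃ t, t + (qq k).2 ≤ m ∧ P (rc0 hS) (cfg (rc0 hS) σ) q t = (qq k).1) ∧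
      ∀ c ∈ ac (rc0 hS) q m σ, c ∈ Ac (rc0 hS) qq σ ∨ c ∈ clS hS F := by
  refine ⟨H.sub, fun c hc => ?_⟩
  rcases H.ac_cov hc with h | ⟨d, h1, h2⟩
  · exact Or.inl h
  · exact Or.inr (cell_clS h1 h2)

variable {q : D0 (sX X)} {N : ℕ} {T : ℕ → ℕ}

/-- **two pieces** around the tiles `a' ≤ k < b'` -/
theorem two (H : CorH X U M W η d o n)
    (HS : SD H.gp H.hull n (RD (sX X) (Rts η W o n)) H.p (Bk η W o) q N T) {a' b' : ℕ}
    (ha : 3 ≤ a') (hab : a' < b') (hb : b' + 3 ≤ n) {Z : Bool → Zn (rc0 H.gp)}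
    (SR : SideH H.gp H.hull (fun k : ℕ => yy η W X (o + k)) H.p (Z false)
      (UB (Bk η W o) b' (n - 1) \ UB (Bk η W o) a' b') (Bk η W o (n - 1)) (Bk η W o b') b' n)
    (SL : SideH H.gp H.hull (fun k : ℕ => yy η W X (o + k)) H.p (Z true)
      (UB (Bk η W o) 1 a' \ UB (Bk η W o) a' b') (Bk η W o (a' - 1)) (Bk η W o 0) 0 a') :
    ∃ qq : Bool → D0 (sX X) × ℕ, EvP Z qq (rcol H.gp (cX X) H.hull) ∧
      (∀ k, ∃ t, t + (qq k).2 ≤ T n ∧
        P (rc0 H.gp) (cfg (rc0 H.gp) (rcol H.gp (cX X) H.hull)) q t = (qq k).1) ∧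
      ∀ c ∈ ac (rc0 H.gp) q (T n) (rcol H.gp (cX X) H.hull),
        c ∈ Ac (rc0 H.gp) qq (rcol H.gp (cX X) H.hull) ∨
          c ∈ clS H.gp (UB (Bk η W o) (a' - 1) (b' + 1)) := by
  rw [rts_eq] at HS
  obtain ⟨qq, h1, h2⟩ := pcs_two (T₁ := UB (Bk η W o) a' b') H.corr HS (dis H) ha hab.le hb
    (fun k hk => by
      rw [Set.disjoint_left]
      rintro s h1 ⟨j, h2, h3, h4⟩
      exact Set.disjoint_left.1 (dis H k j (by omega) (by omega)) h1 h4)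
    (fun k h1 h2 => by
      rw [Set.disjoint_left]
      rintro s h3 ⟨j, h4, h5, h6⟩
      exact Set.disjoint_left.1 (dis H j k (by omega) h2) h6 h3)
    (Or.inl ⟨a', le_rfl, hab, (mem_y H (by omega)).1⟩)
    (Or.inl ⟨b' - 1, by omega, by omega, by
      have := (mem_y H (k := b' - 1) (by omega)).2
      rwa [show b' - 1 + 1 = b' by omega] at this⟩) SR SL
  exact ⟨qq, h1, rest_of h2⟩

/-- **one piece** (tiles `≥ b'`), window = the tiles `< b'`, `T₁` = tiles `a' ≤ k < b'` -/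
theorem right (H : CorH X U M W η d o n)
    (HS : SD H.gp H.hull n (RD (sX X) (Rts η W o n)) H.p (Bk η W o) q N T) {a' b' : ℕ}
    (hab : a' < b') (hb : b' + 3 ≤ n) {Z : Unit → Zn (rc0 H.gp)}
    (SR : SideH H.gp H.hull (fun k : ℕ => yy η W X (o + k)) H.p (Z ())
      (UB (Bk η W o) b' (n - 1) \ UB (Bk η W o) a' b') (Bk η W o (n - 1)) (Bk η W o b') b' n) :
    ∃ qq : Unit → D0 (sX X) × ℕ, EvP Z qq (rcol H.gp (cX X) H.hull) ∧
      (∀ k, ∃ t, t + (qq k).2 ≤ T n ∧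
        P (rc0 H.gp) (cfg (rc0 H.gp) (rcol H.gp (cX X) H.hull)) q t = (qq k).1) ∧
      ∀ c ∈ ac (rc0 H.gp) q (T n) (rcol H.gp (cX X) H.hull),
        c ∈ Ac (rc0 H.gp) qq (rcol H.gp (cX X) H.hull) ∨
          c ∈ clS H.gp (UB (Bk η W o) 0 (b' + 1)) := by
  rw [rts_eq] at HS
  obtain ⟨qq, h1, h2⟩ := pcs_right (T₁ := UB (Bk η W o) a' b') H.corr HS (dis H) (by omega) hb
    (fun k h1 h2 => by
      rw [Set.disjoint_left]
      rintro s h3 ⟨j, h4, h5, h6⟩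
      exact Set.disjoint_left.1 (dis H j k (by omega) h2) h6 h3)
    (Or.inl ⟨b' - 1, by omega, by omega, by
      have := (mem_y H (k := b' - 1) (by omega)).2
      rwa [show b' - 1 + 1 = b' by omega] at this⟩) SR
  exact ⟨qq, h1, rest_of h2⟩

/-- **one piece** (tiles `< a'`), window = the tiles `≥ a'`, `T₁` = tiles `a' ≤ k < b'` -/
theorem left (H : CorH X U M W η d o n)
    (HS : SD H.gp H.hull n (RD (sX X) (Rts η W o n)) H.p (Bk η W o) q N T) {a' b' : ℕ}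
    (ha : 3 ≤ a') (han : a' < n) (hab : a' < b') (hb : b' ≤ n + 2) {Z : Unit → Zn (rc0 H.gp)}
    (SL : SideH H.gp H.hull (fun k : ℕ => yy η W X (o + k)) H.p (Z ())
      (UB (Bk η W o) 1 a' \ UB (Bk η W o) a' b') (Bk η W o (a' - 1)) (Bk η W o 0) 0 a') :
    ∃ qq : Unit → D0 (sX X) × ℕ, EvP Z qq (rcol H.gp (cX X) H.hull) ∧
      (∀ k, ∃ t, t + (qq k).2 ≤ T n ∧
        P (rc0 H.gp) (cfg (rc0 H.gp) (rcol H.gp (cX X) H.hull)) q t = (qq k).1) ∧
      ∀ c ∈ ac (rc0 H.gp) q (T n) (rcol H.gp (cX X) H.hull),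
        c ∈ Ac (rc0 H.gp) qq (rcol H.gp (cX X) H.hull) ∨
          c ∈ clS H.gp (UB (Bk η W o) (a' - 1) n) := by
  rw [rts_eq] at HS
  have hM := H.nM
  obtain ⟨qq, h1, h2⟩ := pcs_left (T₁ := UB (Bk η W o) a' b') H.corr HS (dis H) ha han
    (fun k hk => by
      rw [Set.disjoint_left]
      rintro s h1 ⟨j, h2, h3, h4⟩
      exact Set.disjoint_left.1 (dis' H (j := k) (k := j) (by omega) (by omega)) h1 h4)
    (Or.inl ⟨a', le_rfl, hab, (mem_y H (by omega)).1⟩) SL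
  exact ⟨qq, h1, rest_of h2⟩

end Crest.Agent.R143.SubHx117
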