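import Crest.Agent.R143.PLI_228
import Crest.Agent.R143.QuY_810
import Crest.Agent.R143.CorrC_831
import Crest.Agent.R143.WndG_416
import Crest.Agent.R143.SubH_117

/-!
# Row 143 (S0194), RIG box Q2: the windows of the corridor on a fixed set of sites (helper228)

`S` sites, `hS : GP S`, `s` colours of the cells, `X` a configuration with sites `S`, colours `s`
(`Col`, 831), `CorH X ..` (713), `SDS ..` the strand (831), `EvA` (168).

* `sb2`, `sbR`, `sbL` : 535's `Sb` for the window `a' ≤ k < b'` (`k < b'`, `k ≥ a'`)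
* `One` : strand and event for one colouring; `Sds` : 117's `SideH` for the side of a window
* **`pw2`, `pwR`, `pwL`** : 810's `Pw`
-/

set_option autoImplicit false
set_option linter.unusedSectionVars false

noncomputable section

open scoped Classical

namespace Crest.Agent.R143.PLJx228

open Crest.Agent.R143.B0x346 Crest.Agent.R143.DelGx806 Crest.Agent.R143.DelRx806
  Crest.Agent.R143.JColx54
open Crest.Agent.R143.Frame1x395 Crest.Agent.R143.Frame2x395 Crest.Agent.R143.Frame3x395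
  Crest.Agent.R143.Frame4x395 Crest.Agent.R143.Frame8x395 Crest.Agent.R143.Frame9x395
  Crest.Agent.R143.Frame10x395 Crest.Agent.R143.Frame11x395
open Crest.Agent.R143.Splx117 Crest.Agent.R143.WLocx713
open Crest.Agent.R143.PP0x831 Crest.Agent.R143.FinMx609
open Crest.Agent.R143.RingDx117 Crest.Agent.R143.CorrDx117
open Crest.Agent.R143.StrBx117 Crest.Agent.R143.SubDx117 Crest.Agent.R143.SubEx117
open Crest.Agent.R143.CorHx713 Crest.Agent.R143.CorrIx831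
open Crest.Agent.R143.TileRx228 (RR)
open Crest.Agent.R143.RingPx503 (Dsj)
open Crest.Agent.R143.ConfTx503 (rr_sub)
open Crest.Agent.R143.NonXx592 (Rc P)
open Crest.Agent.R143.PLx535 Crest.Agent.R143.PLSx535
open Crest.Agent.R143.K33x137 Crest.Agent.R143.Uniqx323
open Crest.Agent.R143.FinCx811 (Cs rc0 cs rcol)
open SysAx168 (EvA)
open Crest.Agent.R143.PLIx228 (LX sb_of rd_RC)
open Crest.Agent.R143.SubHx117 (clS clS_eq rts_eq dis inn inn' mem_y)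

variable {S : Finset ℂ} {hS : GP (S : Set ℂ)} {X : Set (ℂ × Bool)} {U : Set ℂ} {M : ℕ}
  {W : ℤ → ℤ × ℤ} {η d : ℝ} {o : ℤ} {n : ℕ} {s : Cs hS → ZMod 2}
  {Hh Rw Tw : Set (Cs hS)} {Q : Set (D0 S)} {Z₀ : Zn (rc0 hS)} {L : Finset (Cs hS)}
  {p : ℕ → D0 S} {q : D0 S} {N : ℕ} {T : ℕ → ℕ} {a' b' : ℕ} {T₁ : Set ℂ}

/-- `T₁` = the region of the tiles `a' ≤ k < b'`, up to tiles off the corridor -/
structure Win (B : ℕ → Set ℂ) (n : ℕ) (T₁ : Set ℂ) (a' b' : ℕ) : Prop where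
  L : ∀ k, k + 1 < a' → Disjoint (B k) T₁
  R : ∀ k, b' < k → k < n → Disjoint (B k) T₁
  sub : ∀ k, a' ≤ k → k < b' → k < n → B k ⊆ T₁

/-- the tiles `i₁ ≤ x < i₂` (absolute indices, possibly closing tiles) -/
def WT (η : ℝ) (W : ℤ → ℤ × ℤ) (i₁ i₂ : ℤ) : Set ℂ := {s | ∃ x : ℤ, i₁ ≤ x ∧ x < i₂ ∧ s ∈ bst η W x}

/-- **the region of a window**: tiles `o + i ≤ x < o + j`, `a' = max i 0`, `b' = j` -/
theorem win_of (D : Dsj (10 * η) (52 * η) (100 * η) M W) (e0 : 0 < η) {i j : ℤ}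
    (hi : (a' : ℤ) = max i 0) (hj : (b' : ℤ) = j) (hin : (n : ℤ) < i + M) (hjn : j < M) :
    Win (Bk η W o) n (WT η W (o + i) (o + j)) a' b' := by
  have key : ∀ (k : ℕ) (x : ℤ), ¬ (M : ℤ) ∣ x - (o + k) → ¬ (M : ℤ) ∣ x - (o + k) - 1 →
      ¬ (M : ℤ) ∣ x - (o + k) + 1 → Disjoint (Bk η W o k) (bst η W x) := by
    intro k x h1 h2 h3
    exact (D (o + k) x h1 h2 h3).mono (rr_sub (by linarith) (by linarith) _)
      (rr_sub (by linarith) (by linarith) _)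
  refine ⟨fun k hk => ?_, fun k h1 h2 => ?_, fun k h1 h2 h3 s hs => ?_⟩
  · rw [Set.disjoint_left]
    rintro s h4 ⟨x, h5, h6, h7⟩
    refine Set.disjoint_left.1 (key k x ?_ ?_ ?_) h4 h7 <;>
      exact CorPx503.not_dvd_of (by omega) (by omega) (by omega)
  · rw [Set.disjoint_left]
    rintro s h4 ⟨x, h5, h6, h7⟩
    refine Set.disjoint_left.1 (key k x ?_ ?_ ?_) h4 h7 <;>
      exact CorPx503.not_dvd_of (by omega) (by omega) (by omega)
  · exact ⟨o + k, by omega, by omega, hs⟩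

/-- the side of a window: 117's `SideH` for every certificate that the colours are hull colours -/
def Sds (hS : GP (S : Set ℂ)) (X : Set (ℂ × Bool)) (η : ℝ) (W : ℤ → ℤ × ℤ) (o : ℤ)
    (p : ℕ → D0 S) (Z : Zn (rc0 hS)) (F BE BW : Set ℂ) (g₀ g₁ : ℕ) : Prop :=
  ∀ hχ : HullC S (cX X), SideH hS hχ (fun k : ℕ => yy η W X (o + k)) p Z F BE BW g₀ g₁

/-- cells of the states of a region -/
theorem rd_clS {F : Set ℂ} (h : clS hS F ⊆ Tw) : ∀ d ∈ RD S F,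
    (rc0 hS).cell d ∈ Tw ∧ Rc (rc0 hS) d ∈ Tw := fun _ hd =>
  ⟨h (SubHx117.cell_clS hd (Or.inl rfl)), h (SubHx117.cell_clS hd (Or.inr rfl))⟩

/-- **two pieces** -/
theorem sb2 (H : CorH X U M W η d o n) (h3 : 3 ≤ S.card) (C : Col hS X s)
    (hp : ∀ k : ℕ, (p k).1 = (yy η W X (o + k), xx η W X (o + k)))
    (hs : SDS hS s η W o n p q N T) (ha : 3 ≤ a') (hab : a' < b') (hb : b' + 3 ≤ n)
    (WT : Win (Bk η W o) n T₁ a' b') {Z : Bool → Zn (rc0 hS)}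
    (SR : Sds hS X η W o p (Z false) (UB (Bk η W o) b' (n - 1) \ T₁)
      (Bk η W o (n - 1)) (Bk η W o b') b' n)
    (SL : Sds hS X η W o p (Z true) (UB (Bk η W o) 1 a' \ T₁)
      (Bk η W o (a' - 1)) (Bk η W o 0) 0 a')
    (hTw : clS hS (UB (Bk η W o) (a' - 1) (b' + 1)) ⊆ Tw) (LT : ∀ c ∈ L, c ∉ Tw)
    (lx : LX hS Hh Rw Tw (RD S (UB (Bk η W o) (a' - 1) (b' + 1))) Z L s q (T n)) :
    ∃ qq : Bool → D0 S × ℕ, Sb (rc0 hS) Hh Rw Tw Z L q (T n) s qq := by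
  obtain rfl : sX X = S := C.e
  obtain rfl := col_eq H.hull h3 C
  have hpe : p = H.p := by
    funext k
    exact Subtype.ext (hp k)
  subst hpe
  have D : DCorr H.gp H.hull n (fun k : ℕ => yy η W X (o + k)) (fun k : ℕ => xx η W X (o + k))
      (fun k : ℕ => RR (9 * η) (51 * η) (100 * η) W (o + k)) (Bk η W o) H.p := H.corr
  have HS : EvGx168.SD H.gp H.hull n (RD (sX X) (UB (Bk η W o) 1 (n - 1))) H.p (Bk η W o)
      q N T := by
    rw [← show Rts η W o n = UB (Bk η W o) 1 (n - 1) from rts_eq]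
    exact hs
  obtain ⟨qq, h1, h2⟩ := pcs_two (T₁ := T₁) D HS (dis H) ha hab.le hb WT.L WT.R
    (Or.inl (WT.sub a' le_rfl hab (by omega) (mem_y H (by omega)).1))
    (Or.inl (WT.sub (b' - 1) (by omega) (by omega) (by omega) (by
      have := (mem_y H (k := b' - 1) (by omega)).2
      rwa [show b' - 1 + 1 = b' by omega] at this))) (SR H.hull) (SL H.hull)
  exact ⟨qq, sb_of h1 h2 (rd_clS hTw) LT lx⟩

/-- **one piece**, windows near the gate `0` -/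
theorem sbR (H : CorH X U M W η d o n) (h3 : 3 ≤ S.card) (C : Col hS X s)
    (hp : ∀ k : ℕ, (p k).1 = (yy η W X (o + k), xx η W X (o + k)))
    (hs : SDS hS s η W o n p q N T) (hab : a' < b') (hb : b' + 3 ≤ n)
    (WT : Win (Bk η W o) n T₁ a' b') {Z : Unit → Zn (rc0 hS)}
    (SR : Sds hS X η W o p (Z ()) (UB (Bk η W o) b' (n - 1) \ T₁)
      (Bk η W o (n - 1)) (Bk η W o b') b' n)
    (hTw : clS hS (UB (Bk η W o) 0 (b' + 1)) ⊆ Tw) (LT : ∀ c ∈ L, c ∉ Tw)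
    (lx : LX hS Hh Rw Tw (RD S (UB (Bk η W o) 0 (b' + 1))) Z L s q (T n)) :
    ∃ qq : Unit → D0 S × ℕ, Sb (rc0 hS) Hh Rw Tw Z L q (T n) s qq := by
  obtain rfl : sX X = S := C.e
  obtain rfl := col_eq H.hull h3 C
  have hpe : p = H.p := by
    funext k
    exact Subtype.ext (hp k)
  subst hpe
  have D : DCorr H.gp H.hull n (fun k : ℕ => yy η W X (o + k)) (fun k : ℕ => xx η W X (o + k))
      (fun k : ℕ => RR (9 * η) (51 * η) (100 * η) W (o + k)) (Bk η W o) H.p := H.corr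
  have HS : EvGx168.SD H.gp H.hull n (RD (sX X) (UB (Bk η W o) 1 (n - 1))) H.p (Bk η W o)
      q N T := by
    rw [← show Rts η W o n = UB (Bk η W o) 1 (n - 1) from rts_eq]
    exact hs
  obtain ⟨qq, h1, h2⟩ := pcs_right (T₁ := T₁) D HS (dis H) (by omega) hb WT.R
    (Or.inl (WT.sub (b' - 1) (by omega) (by omega) (by omega) (by
      have := (mem_y H (k := b' - 1) (by omega)).2
      rwa [show b' - 1 + 1 = b' by omega] at this))) (SR H.hull)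
  exact ⟨qq, sb_of h1 h2 (rd_clS hTw) LT lx⟩

/-- **one piece**, windows near the gate `n` -/
theorem sbL (H : CorH X U M W η d o n) (h3 : 3 ≤ S.card) (C : Col hS X s)
    (hp : ∀ k : ℕ, (p k).1 = (yy η W X (o + k), xx η W X (o + k)))
    (hs : SDS hS s η W o n p q N T) (ha : 3 ≤ a') (han : a' < n) (hab : a' < b')
    (WT : Win (Bk η W o) n T₁ a' b') {Z : Unit → Zn (rc0 hS)}
    (SL : Sds hS X η W o p (Z ()) (UB (Bk η W o) 1 a' \ T₁)
      (Bk η W o (a' - 1)) (Bk η W o 0) 0 a')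
    (hTw : clS hS (UB (Bk η W o) (a' - 1) n) ⊆ Tw) (LT : ∀ c ∈ L, c ∉ Tw)
    (lx : LX hS Hh Rw Tw (RD S (UB (Bk η W o) (a' - 1) n)) Z L s q (T n)) :
    ∃ qq : Unit → D0 S × ℕ, Sb (rc0 hS) Hh Rw Tw Z L q (T n) s qq := by
  obtain rfl : sX X = S := C.e
  obtain rfl := col_eq H.hull h3 C
  have hpe : p = H.p := by
    funext k
    exact Subtype.ext (hp k)
  subst hpe
  have D : DCorr H.gp H.hull n (fun k : ℕ => yy η W X (o + k)) (fun k : ℕ => xx η W X (o + k))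
      (fun k : ℕ => RR (9 * η) (51 * η) (100 * η) W (o + k)) (Bk η W o) H.p := H.corr
  have HS : EvGx168.SD H.gp H.hull n (RD (sX X) (UB (Bk η W o) 1 (n - 1))) H.p (Bk η W o)
      q N T := by
    rw [← show Rts η W o n = UB (Bk η W o) 1 (n - 1) from rts_eq]
    exact hs
  obtain ⟨qq, h1, h2⟩ := pcs_left (T₁ := T₁) D HS (dis H) ha han WT.L
    (Or.inl (WT.sub a' le_rfl hab han (mem_y H han).1)) (SL H.hull)
  exact ⟨qq, sb_of h1 h2 (rd_clS hTw) LT lx⟩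

/-! ### all colourings -/

/-- **one colouring**: the corridor, the selected darts, the strand, the event -/
structure One (hS : GP (S : Set ℂ)) (h3 : 3 ≤ S.card) (U : Set ℂ) (M : ℕ) (W : ℤ → ℤ × ℤ)
    (η d : ℝ) (o : ℤ) (n : ℕ) (Hh Rw : Set (Cs hS)) (Q : Set (D0 S)) (Z₀ : Zn (rc0 hS))
    (s : Cs hS → ZMod 2) (p : ℕ → D0 S) (q : D0 S) (N : ℕ) (T : ℕ → ℕ) : Prop where
  H : CorH (ColXx829.Xc hS h3 s) U M W η d o n
  hp : ∀ k : ℕ, (p k).1 = (yy η W (ColXx829.Xc hS h3 s) (o + k),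
    xx η W (ColXx829.Xc hS h3 s) (o + k))
  sd : SDS hS s η W o n p q N T
  ev : EvA (rc0 hS) Hh Rw Q Z₀ (q, T n) s

variable {h3 : 3 ≤ S.card} {G : (Cs hS → ZMod 2) → Prop} {a : D0 S → ℂ}

/-- **810's data of a window, two pieces** -/
theorem pw2 {Z : Bool → Zn (rc0 hS)} (F : Fix (rc0 hS) Hh Rw Tw Z)
    (sup : ∀ h, a h ≠ 0 → ∀ k, ¬ ((rc0 hS).cell h ∈ (Z k).R ∧ (rc0 hS).cell ((rc0 hS).rho h) ∈ (Z k).R ∧
      (rc0 hS).cell ((rc0 hS).rho ((rc0 hS).rho h)) ∈ (Z k).R))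
    (ha : 3 ≤ a') (hab : a' < b') (hb : b' + 3 ≤ n) (WT : Win (Bk η W o) n T₁ a' b')
    (hTw : clS hS (UB (Bk η W o) (a' - 1) (b' + 1)) ⊆ Tw) (LT : ∀ c ∈ L, c ∉ Tw)
    (h : ∀ s, G s → ∃ p q N T, One hS h3 U M W η d o n Hh Rw Q Z₀ s p q N T ∧
      Sds hS (ColXx829.Xc hS h3 s) η W o p (Z false)
        (UB (Bk η W o) b' (n - 1) \ T₁) (Bk η W o (n - 1)) (Bk η W o b') b' n ∧
      Sds hS (ColXx829.Xc hS h3 s) η W o p (Z true)
        (UB (Bk η W o) 1 a' \ T₁) (Bk η W o (a' - 1)) (Bk η W o 0) 0 a' ∧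
      LX hS Hh Rw Tw (RD S (UB (Bk η W o) (a' - 1) (b' + 1))) Z L s q (T n)) :
    QuYx810.Pw (rc0 hS) Hh Rw (fun (i : D0 S × ℕ) _ => i.1) (fun i _ => i.2)
      (EvA (rc0 hS) Hh Rw Q Z₀) L a G Bool Z Tw := by
  refine ⟨by rw [Fintype.card_bool], F, sup, fun s hs => ?_⟩
  obtain ⟨p, q, N, T, O, h1, h2, h4⟩ := h s hs
  exact ⟨(q, T n), O.ev, sb2 O.H h3 (col_Xc hS h3 s) O.hp O.sd ha hab hb WT h1 h2 hTw LT h4⟩

/-- **one piece**, windows near the gate `0` -/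
theorem pwR {Z : Unit → Zn (rc0 hS)} (F : Fix (rc0 hS) Hh Rw Tw Z)
    (sup : ∀ h, a h ≠ 0 → ∀ k, ¬ ((rc0 hS).cell h ∈ (Z k).R ∧ (rc0 hS).cell ((rc0 hS).rho h) ∈ (Z k).R ∧
      (rc0 hS).cell ((rc0 hS).rho ((rc0 hS).rho h)) ∈ (Z k).R))
    (hab : a' < b') (hb : b' + 3 ≤ n) (WT : Win (Bk η W o) n T₁ a' b')
    (hTw : clS hS (UB (Bk η W o) 0 (b' + 1)) ⊆ Tw) (LT : ∀ c ∈ L, c ∉ Tw)
    (h : ∀ s, G s → ∃ p q N T, One hS h3 U M W η d o n Hh Rw Q Z₀ s p q N T ∧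
      Sds hS (ColXx829.Xc hS h3 s) η W o p (Z ())
        (UB (Bk η W o) b' (n - 1) \ T₁) (Bk η W o (n - 1)) (Bk η W o b') b' n ∧
      LX hS Hh Rw Tw (RD S (UB (Bk η W o) 0 (b' + 1))) Z L s q (T n)) :
    QuYx810.Pw (rc0 hS) Hh Rw (fun (i : D0 S × ℕ) _ => i.1) (fun i _ => i.2)
      (EvA (rc0 hS) Hh Rw Q Z₀) L a G Unit Z Tw := by
  refine ⟨by rw [Fintype.card_unit]; norm_num, F, sup, fun s hs => ?_⟩
  obtain ⟨p, q, N, T, O, h1, h4⟩ := h s hs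
  exact ⟨(q, T n), O.ev, sbR O.H h3 (col_Xc hS h3 s) O.hp O.sd hab hb WT h1 hTw LT h4⟩

/-- **one piece**, windows near the gate `n` -/
theorem pwL {Z : Unit → Zn (rc0 hS)} (F : Fix (rc0 hS) Hh Rw Tw Z)
    (sup : ∀ h, a h ≠ 0 → ∀ k, ¬ ((rc0 hS).cell h ∈ (Z k).R ∧ (rc0 hS).cell ((rc0 hS).rho h) ∈ (Z k).R ∧
      (rc0 hS).cell ((rc0 hS).rho ((rc0 hS).rho h)) ∈ (Z k).R))
    (ha : 3 ≤ a') (han : a' < n) (hab : a' < b') (WT : Win (Bk η W o) n T₁ a' b')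
    (hTw : clS hS (UB (Bk η W o) (a' - 1) n) ⊆ Tw) (LT : ∀ c ∈ L, c ∉ Tw)
    (h : ∀ s, G s → ∃ p q N T, One hS h3 U M W η d o n Hh Rw Q Z₀ s p q N T ∧
      Sds hS (ColXx829.Xc hS h3 s) η W o p (Z ())
        (UB (Bk η W o) 1 a' \ T₁) (Bk η W o (a' - 1)) (Bk η W o 0) 0 a' ∧
      LX hS Hh Rw Tw (RD S (UB (Bk η W o) (a' - 1) n)) Z L s q (T n)) :
    QuYx810.Pw (rc0 hS) Hh Rw (fun (i : D0 S × ℕ) _ => i.1) (fun i _ => i.2)
      (EvA (rc0 hS) Hh Rw Q Z₀) L a G Unit Z Tw := by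
  refine ⟨by rw [Fintype.card_unit]; norm_num, F, sup, fun s hs => ?_⟩
  obtain ⟨p, q, N, T, O, h1, h4⟩ := h s hs
  exact ⟨(q, T n), O.ev, sbL O.H h3 (col_Xc hS h3 s) O.hp O.sd ha han hab WT h1 hTw LT h4⟩

end Crest.Agent.R143.PLJx228
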