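import Crest.Agent.R143.ZnQ2_323
import Crest.Agent.R143.HTop_903
import Crest.Agent.R143.PLJ_228

/-!
# Row 143 (S0194), RIG, box Q2: the zones of a window on a fixed set of sites (helper323)

* `env_of` : the environment `Env` from 133's `CorEnv` and 416's `LayU`
* `HT S η d W G J h₀` : every site above the strips at the gate `G` is joined to `h₀` in `TA` (no
  colours); **`ht_env`** : for every gate inside a coarse edge and every hull site (903's `top_pth`)
* **`sds_R`, `sds_L`** : 228's `Sds` for `zR`, `zL`, any configuration with the sites `S`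
-/

set_option autoImplicit false
set_option linter.unusedVariables false

noncomputable section

open scoped Classical

namespace Crest.Agent.R143.ZnQx323

open Crest.ProbabilityR.Voronoi
open Crest.Agent.R143.B0x346 Crest.Agent.R143.DelGx806 Crest.Agent.R143.DelRx806
open Crest.Agent.R143.RE0x723 (Pth)
open Crest.Agent.R143.Frame1x395 Crest.Agent.R143.Frame2x395 Crest.Agent.R143.Frame3x395
  Crest.Agent.R143.Frame4x395 Crest.Agent.R143.Frame8x395 Crest.Agent.R143.Frame9x395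
  Crest.Agent.R143.Frame10x395 Crest.Agent.R143.Frame11x395
open Crest.Agent.R143.NonXx592 (P Rc)
open Crest.Agent.R143.Extx358 (Ad Ext)
open Crest.Agent.R143.FinCx811 (Cs rc0 cs rcol)
open Crest.Agent.R143.WLocx713 (HullC xc sX cX bX)
open Crest.Agent.R143.Blkx838 (DE)
open Crest.Agent.R143.K33x137 (Ed Cn)
open Crest.Agent.R143.Uniqx323 (Zn)
open Crest.Agent.R143.RcTx422
open Crest.Agent.R143.Gatex838 (X Y)
open Crest.Agent.R143.TileRx228
open Crest.Agent.R143.CorHx713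
open Crest.Agent.R143.CorrIx831 (bst Bk Rws)
open Crest.Agent.R143.SubDx117 (UB)
open Crest.Agent.R143.RingDx117 (RD)
open Crest.Agent.R143.PolyUx346 (Poly)
open Crest.Agent.R143.LayUx416
open Crest.Agent.R143.CorEx133

/-! ### the environment -/

section env

variable {u : Poly} {m M : ℕ} {p W : ℤ → ℤ × ℤ} {A e : ℤ → ℤ} {η ε d K1 c2 ρ0 : ℝ} {ω : Sample}

/-- **the environment of the strips of `u`** -/
theorem env_of (C : CorEnv u ε d K1 c2 ρ0 ω) (L : LayU u m M p W A e)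
    (hh : (m : ℝ) * (100 * η) = u.s) (hd : 100 * d ≤ η) : Env (SU u ε ω) M W η d := by
  have h0 := L.h_pos hh
  have e0 : 0 < η := by linarith
  have key : ∀ z ∈ UU u, ∃ t ∈ SU u ε ω, ‖z - t‖ < d := by
    intro z hz
    obtain ⟨s, hs, h⟩ := C.hol z hz z (by rw [sub_self, norm_zero]; exact C.d0.le)
    exact ⟨s, Finset.mem_coe.1 hs, by rw [norm_sub_rev]; exact h⟩
  refine ⟨L.lay.fp, C.card, e0, C.d0, hd, fun a z hz => key z ?_, fun a z h1 h2 => key z ?_,
    fun a v _ hv => C.inn ?_⟩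
  · exact RR_sub L hh (by linarith) (by linarith) (by linarith) (by linarith) a hz
  · refine RR_sub L hh (a' := 13 * η) (b' := 52 * η) (by linarith) (by linarith) (by linarith)
      (by linarith) a ?_
    exact win_right L.lay.fp (by linarith) (by linarith) (lt_of_lt_of_le h1 (by linarith)) h2
  · exact RR_sub L hh (by linarith) (by linarith) (by linarith) (by linarith) a hv

end env

variable {S : Finset ℂ} {hS : GP (S : Set ℂ)} {M : ℕ} {W : ℤ → ℤ × ℤ} {η d : ℝ} {o : ℤ} {n : ℕ}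
  {a' b' g : ℕ} {i j G : ℤ} {h₀ : ℂ} {J : Set ℤ}

/-- every site above the strips at the gate `G` is joined to `h₀` off all strips and off the fat
strips of `J` -/
def HT (S : Finset ℂ) (η d : ℝ) (W : ℤ → ℤ × ℤ) (G : ℤ) (J : Set ℤ) (h₀ : ℂ) : Prop :=
  ∀ s ∈ S, |X (gz (100 * η) W G) (ge W G) s| < η →
    19 / 2 * η ≤ Y (gz (100 * η) W G) (ge W G) s → Y (gz (100 * η) W G) (ge W G) s ≤ 11 * η →
      Pth S (TA S η d W J) s h₀

/-- the tiles of `J` do not touch the gate `G` -/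
def Tch (M : ℕ) (G : ℤ) (J : Set ℤ) : Prop := ∀ a ∈ J, ¬ (M : ℤ) ∣ a - G ∧ ¬ (M : ℤ) ∣ a - (G - 1)

/-- **903's `top_pth`** -/
theorem ht_env {u : Poly} {m : ℕ} {p : ℤ → ℤ × ℤ} {A e : ℤ → ℤ} {ε K1 c2 ρ0 : ℝ} {ω : Sample}
    {k : ℤ} (C : CorEnv u ε d K1 c2 ρ0 ω) (L : LayU u m M p W A e)
    (hh : (m : ℝ) * (100 * η) = u.s) (hd : 100 * d ≤ η) (h1 : A k + 4 ≤ G)
    (h2 : G + 4 ≤ A (k + 1)) (hJ : Tch M G J) (hx : OnHull (SU u ε ω) h₀) :
    HT (SU u ε ω) η d W G J h₀ := by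
  intro s hs g1 g2 g3
  have key := HTopx903.top_pth (J := J) C L hh hd h1 h2 (fun b hb => ?_) hx hs g1 g2 g3
  · refine key.mono ?_
    rintro q ⟨q1, q2, q3⟩
    exact ⟨q1, q2, q3⟩
  · obtain ⟨k1, k2⟩ := hJ b hb
    constructor
    · intro h
      apply k1
      rw [← neg_sub]
      exact (dvd_neg.2 h)
    · intro h
      apply k2
      rw [show b - (G - 1) = -(G - (b + 1)) by ring]
      exact (dvd_neg.2 h)

/-! ### the column -/

variable {X₀ : Set (ℂ × Bool)} {U : Set ℂ}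

/-- **the column in cells** -/
theorem col_ht (H : CorH X₀ U M W η d o n) (hT : HT (sX X₀) η d W G J h₀) :
    ∃ t ∈ CS H.gp (cmp (sX X₀) (TA (sX X₀) η d W J) h₀),
      K33x137.Lk (rc0 H.gp) ({c | c ∈ RC H.gp (KW η W G) ∧ rcol H.gp (cX X₀) H.hull c = 0} ∪
        CS H.gp (cmp (sX X₀) (TA (sX X₀) η d W J) h₀)) (Rc (rc0 H.gp) (H.st G)) t := by
  have E := Env.of_cor H
  have h3 := E.h3
  have e0 := H.e0
  obtain ⟨hx, t₀, ht, hY, hp⟩ := LnkLx927.col_path H G
  have hl : Neckx921.Lk (sX X₀) (LnkLx927.Col η W X₀ G) (xx η W X₀ G) t₀ := lk_of_pth ⟨hx, hp⟩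
  have hT0 : t₀ ∈ cmp (sX X₀) (TA (sX X₀) η d W J) h₀ :=
    hT t₀ ht.1.1 ht.2.1 (by linarith) ht.2.2.2
  refine ⟨cs H.gp h3 ⟨t₀, ht.1.1⟩, mem_CS h3 (v := ⟨t₀, ht.1.1⟩) hT0, ?_⟩
  have e : Rc (rc0 H.gp) (H.st G) = cs H.gp h3 ⟨xx η W X₀ G, hx.1.1⟩ := rfl
  rw [e]
  refine lk_rc h3 (u := ⟨xx η W X₀ G, hx.1.1⟩) (w := ⟨t₀, ht.1.1⟩) ?_ hl
  rintro ⟨v, hv⟩ hvc
  rcases lt_or_ge (Y (gz (100 * η) W G) (ge W G) v) (19 / 2 * η) with h | h
  · have hK : v ∈ KW η W G := ⟨hvc.2.1, abs_lt.2 ⟨by linarith [hvc.2.2.1], h⟩⟩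
    refine Or.inl ⟨(mem_RC h3 (E.inn_bst G hv (E.kw_bst hK).1)).2 hK, ?_⟩
    rw [rcol_cs]
    have h1 := hvc.1.2
    rw [← DCorGx713.bX_iff v hv] at h1
    revert h1
    generalize cX X₀ v = c
    revert c; decide
  · exact Or.inr (mem_CS h3 (v := ⟨v, hv⟩) (hT v hv hvc.2.1 h hvc.2.2.2))

/-! ### 228's `Sds` -/

/-- **the right side, any configuration with the sites `S`** -/
theorem sds_R (H : CorH X₀ U M W η d o n) (e : sX X₀ = S) (E : Env S M W η d)
    (N : NR M n b' g o i) {p : ℕ → D0 S}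
    (hp : ∀ k : ℕ, (p k).1 = (yy η W X₀ (o + k), xx η W X₀ (o + k)))
    (hT : HT S η d W (o + g) {a | a = o + n - 1 ∨ i ≤ a ∧ a < o + b'} h₀) :
    PLJx228.Sds hS X₀ η W o p (zR E hS N h₀) (UB (Bk η W o) b' (n - 1) \
      PLJx228.WT η W i (o + b')) (Bk η W o (n - 1)) (Bk η W o b') b' n := by
  subst e
  have hpe : p = H.p := funext fun k => Subtype.ext (hp k)
  subst hpe
  intro hχ
  exact
    { R := rs2_rc (Env.of_cor H).inn_UR
      E := fun d' hd c hc hn => zR_E (Env.of_cor H) N hd hc hn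
      W := fun d' hd c hc hn => zR_W (Env.of_cor H) N hd hc hn
      col := ⟨g, N.g1, by have := N.g2; omega, H.coly _, col_ht H hT⟩ }

/-- **the left side, any configuration with the sites `S`** -/
theorem sds_L (H : CorH X₀ U M W η d o n) (e : sX X₀ = S) (E : Env S M W η d)
    (N : NL M n a' g o j) {p : ℕ → D0 S}
    (hp : ∀ k : ℕ, (p k).1 = (yy η W X₀ (o + k), xx η W X₀ (o + k)))
    (hT : HT S η d W (o + g) {a | a = o ∨ o + a' ≤ a ∧ a < j} h₀) :
    PLJx228.Sds hS X₀ η W o p (zL E hS N h₀) (UB (Bk η W o) 1 a' \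
      PLJx228.WT η W (o + a') j) (Bk η W o (a' - 1)) (Bk η W o 0) 0 a' := by
  subst e
  have hpe : p = H.p := funext fun k => Subtype.ext (hp k)
  subst hpe
  intro hχ
  exact
    { R := rs2_rc (Env.of_cor H).inn_UL
      E := fun d' hd c hc hn => zL_E (Env.of_cor H) N hd hc hn
      W := fun d' hd c hc hn => zL_W (Env.of_cor H) N hd hc hn
      col := ⟨g, by have := N.g1; omega, N.g2, H.coly _, col_ht H hT⟩ }

/-- the tiles of the right zone do not touch the gate -/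
theorem tch_R (N : NR M n b' g o i) :
    Tch M (o + g) {a | a = o + n - 1 ∨ i ≤ a ∧ a < o + b'} := by
  have := N.hb; have := N.g1; have := N.g2; have := N.hM; have := N.nM
  rintro a (ha | ⟨ha, ha'⟩)
  · exact ⟨nd (by omega) (by omega) (by omega), nd (by omega) (by omega) (by omega)⟩
  · exact ⟨nd (by omega) (by omega) (by omega), nd (by omega) (by omega) (by omega)⟩

/-- the tiles of the left zone do not touch the gate -/
theorem tch_L (N : NL M n a' g o j) : Tch M (o + g) {a | a = o ∨ o + a' ≤ a ∧ a < j} := by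
  have := N.ha; have := N.g1; have := N.g2; have := N.hM; have := N.nM; have := N.han
  rintro a (ha | ⟨ha, ha'⟩)
  · exact ⟨nd (by omega) (by omega) (by omega), nd (by omega) (by omega) (by omega)⟩
  · exact ⟨nd (by omega) (by omega) (by omega), nd (by omega) (by omega) (by omega)⟩

end Crest.Agent.R143.ZnQx323
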