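import Crest.Agent.R143.PLJ_228
import Crest.Agent.R143.ZnQ3_323
import Crest.Agent.R143.PoS_983
import Crest.Agent.R143.SupH_827

/-!
# Row 143 (S0194), RIG box Q2: all windows of the corridor (helper228)

* `TD`, **`LXW`** : LOCX for all pieces of a strand, the only hypothesis on the curtain
* `sup_R`, `sup_L` : the field of a tile has no face inside a piece
* `lt_of` : the cells of the weight are off the window
* **`hP_of`** : 810's hypothesis `hP` (`Pw` for every strand tile) for 416's canonical windows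
-/

set_option autoImplicit false
set_option linter.unusedSectionVars false
set_option linter.unusedVariables false

noncomputable section

open scoped Classical

namespace Crest.Agent.R143.PLKx228

open Crest.Agent.R143.B0x346 Crest.Agent.R143.DelGx806 Crest.Agent.R143.DelRx806
  Crest.Agent.R143.JColx54
open Crest.Agent.R143.Frame1x395 Crest.Agent.R143.Frame2x395 Crest.Agent.R143.Frame3x395
  Crest.Agent.R143.Frame4x395 Crest.Agent.R143.Frame8x395 Crest.Agent.R143.Frame9x395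
  Crest.Agent.R143.Frame10x395 Crest.Agent.R143.Frame11x395
open Crest.Agent.R143.Splx117 Crest.Agent.R143.WLocx713
open Crest.Agent.R143.PP0x831 Crest.Agent.R143.PWx978 Crest.Agent.R143.Tplx978
open Crest.Agent.R143.TileRx228 Crest.Agent.R143.PthFx765 Crest.Agent.R143.HqPx304
  Crest.Agent.R143.CorNx765 Crest.Agent.R143.WndIx416
open Crest.Agent.R143.RingDx117 Crest.Agent.R143.CorrDx117
open Crest.Agent.R143.StrBx117 Crest.Agent.R143.SubDx117 Crest.Agent.R143.SubEx117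
open Crest.Agent.R143.CorHx713 Crest.Agent.R143.CorrIx831
open Crest.Agent.R143.RingPx503 (Dsj)
open Crest.Agent.R143.ConfTx503 (rr_sub)
open Crest.Agent.R143.NonXx592 (Rc P)
open Crest.Agent.R143.PLx535 Crest.Agent.R143.PLSx535
open Crest.Agent.R143.K33x137 Crest.Agent.R143.Uniqx323
open Crest.Agent.R143.FinCx811 (Cs rc0 cs rcol)
open Crest.Agent.R143.RcTx422 (Hc RC RC_mono)
open Crest.Agent.R143.ZnQx323 (Env NR NL zR zL UR UL T₁ Offg HT Tch sds_R sds_L tch_R tch_L)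
open Crest.Agent.R143.LayQx811 Crest.Agent.R143.Layx416 Crest.Agent.R143.WndGx416
open Crest.Agent.R143.ColXx829 (Xc)
open Extx358 (Ext Ad Bd)
open OutSx358 (ac zc)
open SysAx168 (EvA)
open Sptx169 (rst)
open Sptx832 (FQ)
open SpRx169 (QX)
open Crest.Agent.R143.Locx922 (Hol)
open Crest.Agent.R143.PLIx228 (LX)
open Crest.Agent.R143.SubHx117 (clS clS_eq)
open Crest.Agent.R143.PLJx228

/-! ### LOCX -/

section lxw

variable {S : Finset ℂ} {hS : GP (S : Set ℂ)}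

/-- the states whose two cells are in `Tw` -/
def TD (hS : GP (S : Set ℂ)) (Tw : Set (Cs hS)) : Set (D0 S) :=
  {d | (rc0 hS).cell d ∈ Tw ∧ Rc (rc0 hS) d ∈ Tw}

/-- **LOCX for all pieces** of the strand `0 .. m` of `q` -/
def LXW (hS : GP (S : Set ℂ)) (Rw Tw : Set (Cs hS)) (L : Finset (Cs hS)) (s : Cs hS → ZMod 2)
    (q : D0 S) (m : ℕ) : Prop :=
  ∀ (κ : Type) [Fintype κ] (qq : κ → D0 S × ℕ),
    Pcs (rc0 hS) (cfg (rc0 hS) s) q m (TD hS Tw) qq →
    (∀ c ∈ L, Ext (rc0 hS) (Hc hS) (zc (rc0 hS) Rw q m s) c →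
      Ext (rc0 hS) (Hc hS) (Zt Rw Tw (Ac (rc0 hS) qq s) s) c) ∧
    ∀ c ∈ L, c ∈ Bd (rc0 hS) (Hc hS) (zc (rc0 hS) Rw q m s) →
      c ∈ Ac (rc0 hS) qq s ∨ ∃ e, Ext (rc0 hS) (Hc hS) (Zt Rw Tw (Ac (rc0 hS) qq s) s) e ∧
        Ad (rc0 hS) e c

theorem LXW.lx {Rw Tw : Set (Cs hS)} {L : Finset (Cs hS)} {s : Cs hS → ZMod 2} {q : D0 S} {m : ℕ}
    (h : LXW hS Rw Tw L s q m) {κ : Type} [Fintype κ] {Zk : κ → Zn (rc0 hS)} {F : Set ℂ}
    (hF : clS hS F ⊆ Tw) : LX hS (Hc hS) Rw Tw (RD S F) Zk L s q m := fun qq _ hP =>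
  h κ qq ⟨hP.sub, fun i hi => (hP.cov i hi).imp id fun h => rd_clS hF _ h⟩

end lxw

/-! ### 323's zones -/

section zones

variable {S : Finset ℂ} {hS : GP (S : Set ℂ)} {X : Set (ℂ × Bool)} {U : Set ℂ} {M : ℕ}
  {W : ℤ → ℤ × ℤ} {η d : ℝ} {o : ℤ} {n : ℕ} {p : ℕ → D0 S} {a' b' g : ℕ} {i j : ℤ} {h₀ : ℂ}

/-- the region of a piece is in the union of its tiles -/
theorem sup_R (E : Env S M W η d) (N : NR M n b' g o i) {m l : ℕ} {Q : ℕ → Set ℂ} {w : D0 S → ℂ}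
    (hH : Hol (S : Set ℂ) (Q l) d) (hoff : ∀ z ∈ Q l, ∀ v, ‖v - z‖ < d → ¬ OnHull S v)
    (hf : ∀ x : ℕ, b' ≤ x → x < n → Disjoint (bst η W (o + x)) (Metric.thickening d (Q l)))
    (h : D0 S) (h0 : rst w (FQ S m Q l) h ≠ 0) :
    ¬ ((rc0 hS).cell h ∈ (zR E hS N h₀).R ∧ (rc0 hS).cell ((rc0 hS).rho h) ∈ (zR E hS N h₀).R ∧
      (rc0 hS).cell ((rc0 hS).rho ((rc0 hS).rho h)) ∈ (zR E hS N h₀).R) := fun hc =>
  (PoSx983.sup_rc (hS := hS) (B := UR η W o n b' i) (m := m) (w := w) E.d0 hH hoff (by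
    rw [Set.disjoint_left]
    rintro s ⟨⟨x, h1, h2, h3⟩, -⟩ hs
    exact Set.disjoint_left.1 (hf x h1 (by omega)) h3 hs) (R := RC hS (UR η W o n b' i))
    le_rfl h h0).1 hc.1

theorem sup_L (E : Env S M W η d) (N : NL M n a' g o j) {m l : ℕ} {Q : ℕ → Set ℂ} {w : D0 S → ℂ}
    (hH : Hol (S : Set ℂ) (Q l) d) (hoff : ∀ z ∈ Q l, ∀ v, ‖v - z‖ < d → ¬ OnHull S v)
    (hf : ∀ x : ℕ, x < a' → Disjoint (bst η W (o + x)) (Metric.thickening d (Q l)))
    (h : D0 S) (h0 : rst w (FQ S m Q l) h ≠ 0) :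
    ¬ ((rc0 hS).cell h ∈ (zL E hS N h₀).R ∧ (rc0 hS).cell ((rc0 hS).rho h) ∈ (zL E hS N h₀).R ∧
      (rc0 hS).cell ((rc0 hS).rho ((rc0 hS).rho h)) ∈ (zL E hS N h₀).R) := fun hc =>
  (PoSx983.sup_rc (hS := hS) (B := UL η W o a' j) (m := m) (w := w) E.d0 hH hoff (by
    rw [Set.disjoint_left]
    rintro s ⟨⟨x, h1, h2, h3⟩, -⟩ hs
    exact Set.disjoint_left.1 (hf x h2) h3 hs) (R := RC hS (UL η W o a' j))
    le_rfl h h0).1 hc.1

/-- disjoint regions of sites, one of them without hull sites -/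
theorem lt_of {h3 : 3 ≤ S.card} {V V' : Set ℂ} (h : Disjoint V V') :
    ∀ c ∈ QuYx810.Lc hS h3 V, c ∉ RC hS V' := by
  rintro c hc ⟨v, hv, hvV, hn, e⟩
  obtain ⟨w, hw, hwV, rfl⟩ := QuYx810.mem_Lc.1 hc
  have e' : (Quot.mk (hullE S) v : Quot (hullE S)) = Quot.mk _ w := e.symm
  have e2 : w = v := quot_inner hS hn e'
  subst e2
  exact Set.disjoint_left.1 h hwV hvV

/-- tiles of a window -/
theorem clS_T₁ (E : Env S M W η d) {a b : ℕ} {i j : ℤ} (h : ∀ k : ℕ, a ≤ k → k < b →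
    i ≤ o + k ∧ o + k < j) : clS hS (UB (Bk η W o) a b) ⊆ RC hS (T₁ η W i j) := by
  rintro c ⟨s, h1, ⟨k, k1, k2, k3⟩, e⟩
  exact ⟨s, h1, ⟨o + k, (h k k1 k2).1, (h k k1 k2).2, k3⟩, E.inn_bst _ h1 k3, e⟩

end zones

/-! ### all windows -/

section main

variable {S : Finset ℂ} {hS : GP (S : Set ℂ)} {h3 : 3 ≤ S.card} {U : Set ℂ} {n₀ M : ℕ} {m : ℤ}
  {pp W : ℤ → ℤ × ℤ} {A e : ℤ → ℤ} {η d ε : ℝ} {h₀ : ℂ} {T : Tpl ε (Tn × Bool)}
  [DecidableEq (ZMod M)] {Q : Set (D0 S)} {Z₀ : Zn (rc0 hS)}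

/-- **the window of one tile** -/
theorem pw_of (E : Env S M W η d) {o : ℤ} {n : ℕ} {a b : ℤ} {k : ℕ} (hk : k < n)
    (w0 : Wd W o n M k a b) (hh : OnHull S h₀) {L : Finset (Cs hS)}
    {G : (Cs hS → ZMod 2) → Prop}
    (LT : ∀ c ∈ L, c ∉ RC hS (T₁ η W (o + a) (o + b + 1)))
    (hone : ∀ s, G s → ∃ p q N T, One hS h3 U M W η d o n (Hc hS) (RC hS (Rws η W o n M)) Q Z₀
      s p q N T ∧ LXW hS (RC hS (Rws η W o n M)) (RC hS (T₁ η W (o + a) (o + b + 1))) L s q (T n))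
    (hht : ∀ (g : ℕ) (J : Set ℤ), g = 4 ∨ g = n - 4 → Tch M (o + g) J →
      HT S η d W (o + g) J h₀)
    {m' l : ℕ} {Ql : ℕ → Set ℂ} {w : D0 S → ℂ} (hH : Hol (S : Set ℂ) (Ql l) d)
    (hoff : ∀ z ∈ Ql l, ∀ v, ‖v - z‖ < d → ¬ OnHull S v)
    (hf : ∀ x : ℕ, x < n → (x + 2 ≤ k ∨ k + 2 ≤ x) →
      Disjoint (bst η W (o + x)) (Metric.thickening d (Ql l))) :
    ∃ (κ : Type) (_ : Fintype κ) (Z : κ → Zn (rc0 hS)) (Tw : Set (Cs hS)),
      QuYx810.Pw (rc0 hS) (Hc hS) (RC hS (Rws η W o n M)) (fun (i : D0 S × ℕ) _ => i.1)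
        (fun i _ => i.2) (EvA (rc0 hS) (Hc hS) (RC hS (Rws η W o n M)) Q Z₀) L
        (rst w (FQ S m' Ql l)) G κ Z Tw := by
  have D : Dsj (10 * η) (52 * η) (100 * η) M W := by
    have h1 := E.e0
    exact CorPx503.dsj_of E.path (by linarith) (by linarith) (by linarith)
  have hnM := w0.nM
  have e0 := E.e0
  rcases w0.cases (by omega) (by omega) with ⟨k', a₀, b₀, e1, rfl, rfl, g1, g2, g3, g4⟩ |
    ⟨k', b₀, e1, rfl, rfl, g1, g2, g3⟩ | ⟨k', a₀, e1, rfl, rfl, g1, g2, g3, g4⟩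
  · -- two sides
    obtain rfl : k = k' := by exact_mod_cast e1
    have N1 : NR M n (k + 2) (n - 4) o (o + (k - 1 : ℕ)) :=
      ⟨by omega, by omega, by omega, by omega, by omega, by omega⟩
    have N2 : NL M n (k - 1) 4 o (o + (k + 2 : ℕ)) :=
      ⟨by omega, by omega, by omega, by omega, by omega, by omega, by omega⟩
    have F := ZnQx323.fix_two (hS := hS) E N1 N2 hh (VR := Rws η W o n M)
      (VT := T₁ η W (o + a₀) (o + b₀ + 1))
      (ZnQx323.offg_Rws (by omega) (by omega) (by omega))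
      (ZnQx323.offg_Rws (by omega) (by omega) (by omega))
      (ZnQx323.offg_lt (by omega) (by omega))
      (ZnQx323.offg_gt (by push_cast; omega) (by push_cast; omega))
    refine ⟨Bool, inferInstance, _, _, pw2 (h3 := h3) (U := U) (M := M) (W := W) (η := η) (d := d) (n := n) (o := o)
      (a' := k - 1)
      (b' := k + 2) (T₁ := T₁ η W (o + (k - 1 : ℕ)) (o + (k + 2 : ℕ))) F ?_ (by omega) (by omega)
      (by omega) ?_ ?_ LT ?_⟩
    · rintro h h0 (_ | _)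
      · exact sup_R E N1 hH hoff (fun x h1 h2 => hf x h2 (Or.inr (by omega))) h h0
      · exact sup_L E N2 hH hoff (fun x h1 => hf x (by omega) (Or.inl (by omega))) h h0
    · exact win_of D e0 (by omega) (by omega) (by omega) (by omega)
    · exact clS_T₁ E fun x h1 h2 => by constructor <;> omega
    · intro s hs
      obtain ⟨p, q, N, T, O, hl⟩ := hone s hs
      exact ⟨p, q, N, T, O,
        sds_R O.H ColXx829.sX_Xc E N1 O.hp (hht _ _ (Or.inr rfl) (tch_R N1)),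
        sds_L O.H ColXx829.sX_Xc E N2 O.hp (hht _ _ (Or.inl rfl) (tch_L N2)),
        hl.lx (clS_T₁ E fun x h1 h2 => by constructor <;> omega)⟩
  · -- only the right side
    obtain rfl : k = k' := by exact_mod_cast e1
    have N1 : NR M n (k + 2) (n - 4) o (o + ((k : ℤ) - 1)) :=
      ⟨by omega, by omega, by omega, by omega, by omega, by omega⟩
    have F := ZnQx323.fix_R (hS := hS) E N1 hh (VR := Rws η W o n M)
      (VT := T₁ η W (o + -2) (o + b₀ + 1))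
      (ZnQx323.offg_Rws (by omega) (by omega) (by omega))
      (ZnQx323.offg_lt (by omega) (by omega))
    refine ⟨Unit, inferInstance, _, _, pwR (h3 := h3) (U := U) (M := M) (W := W) (η := η) (d := d) (n := n) (o := o)
      (a' := k - 1)
      (b' := k + 2) (T₁ := T₁ η W (o + ((k : ℤ) - 1)) (o + (k + 2 : ℕ))) F ?_ (by omega)
      (by omega) ?_ ?_ LT ?_⟩
    · rintro h h0 -
      exact sup_R E N1 hH hoff (fun x h1 h2 => hf x h2 (Or.inr (by omega))) h h0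
    · exact win_of D e0 (by omega) (by omega) (by omega) (by omega)
    · exact clS_T₁ E fun x h1 h2 => by constructor <;> omega
    · intro s hs
      obtain ⟨p, q, N, T, O, hl⟩ := hone s hs
      exact ⟨p, q, N, T, O,
        sds_R O.H ColXx829.sX_Xc E N1 O.hp (hht _ _ (Or.inr rfl) (tch_R N1)),
        hl.lx (clS_T₁ E fun x h1 h2 => by constructor <;> omega)⟩
  · -- only the left side
    obtain rfl : k = k' := by exact_mod_cast e1
    have N2 : NL M n (k - 1) 4 o (o + (k + 2 : ℕ)) :=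
      ⟨by omega, by omega, by omega, by omega, by omega, by omega, by omega⟩
    have F := ZnQx323.fix_L (hS := hS) E N2 hh (VR := Rws η W o n M)
      (VT := T₁ η W (o + a₀) (o + (n + 1) + 1))
      (ZnQx323.offg_Rws (by omega) (by omega) (by omega))
      (ZnQx323.offg_gt (by push_cast; omega) (by push_cast; omega))
    refine ⟨Unit, inferInstance, _, _, pwL (h3 := h3) (U := U) (M := M) (W := W) (η := η) (d := d) (n := n) (o := o)
      (a' := k - 1)
      (b' := k + 2) (T₁ := T₁ η W (o + (k - 1 : ℕ)) (o + (k + 2 : ℕ))) F ?_ (by omega)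
      (by omega) (by omega) ?_ ?_ LT ?_⟩
    · rintro h h0 -
      exact sup_L E N2 hH hoff (fun x h1 => hf x (by omega) (Or.inl (by omega))) h h0
    · exact win_of D e0 (by omega) (by omega) (by omega) (by omega)
    · exact clS_T₁ E fun x h1 h2 => by constructor <;> omega
    · intro s hs
      obtain ⟨p, q, N, T, O, hl⟩ := hone s hs
      exact ⟨p, q, N, T, O,
        sds_L O.H ColXx829.sX_Xc E N2 O.hp (hht _ _ (Or.inl rfl) (tch_L N2)),
        hl.lx (clS_T₁ E fun x h1 h2 => by constructor <;> omega)⟩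

/-- **810's `hP`** : the windows of all strand tiles -/
theorem hP_of {A₀ B₀ h' : ℝ} (H : Lay n₀ M m pp W A e) (hm : 40 ≤ m) (i : ZMod 3)
    (E : Env S M W η d) (Hs : Std T A₀ B₀ h' Prod.fst) (hA₀ : A₀ = 12 * η) (hB₀ : B₀ = 52 * η)
    (hh' : h' = 100 * η) (I J : Finset (ZMod M)) (hh : OnHull S h₀) {o : ℤ} {n : ℕ} (ho : o = al A e i) (hn : n = nn A e i)
    (hone : ∀ s, (cpth H.fp Hs A e i).net.gw I J (Xc hS h3 s) ≠ 0 →
      ∃ p q N T, One hS h3 U M W η d o n (Hc hS) (RC hS (Rws η W o n M)) Q Z₀ s p q N T)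
    (hlx : ∀ s, (cpth H.fp Hs A e i).net.gw I J (Xc hS h3 s) ≠ 0 → ∀ p q N T,
      One hS h3 U M W η d o n (Hc hS) (RC hS (Rws η W o n M)) Q Z₀ s p q N T → ∀ k < n,
        LXW hS (RC hS (Rws η W o n M)) (RC hS (T₁ η W (o + wa A W o n M k) (o + wb A W o n M k + 1)))
          (QuYx810.Lc hS h3 ((cpth H.fp Hs A e i).net.reg
            (I \ Iw M (o + wa A W o n M k - 5) (o + wb A W o n M k + 5))
            (J \ Jw M (o + wa A W o n M k - 5) (o + wb A W o n M k + 5)))) s q (T n))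
    (hht : ∀ (g : ℕ) (J : Set ℤ), g = 4 ∨ g = n - 4 → Tch M (o + g) J →
      HT S η d W (o + g) J h₀)
    {m' : ℕ} {w : D0 S → ℂ} (hH : ∀ k < n, Hol (S : Set ℂ) (QX (100 * η) W o n k) d)
    (hoff : ∀ k < n, ∀ z ∈ QX (100 * η) W o n k, ∀ v, ‖v - z‖ < d → ¬ OnHull S v) :
    ∀ l < n, ∃ (κ : Type) (_ : Fintype κ) (Z : κ → Zn (rc0 hS)) (Tw : Set (Cs hS)),
      QuYx810.Pw (rc0 hS) (Hc hS) (RC hS (Rws η W o n M)) (fun (i : D0 S × ℕ) _ => i.1)
        (fun i _ => i.2) (EvA (rc0 hS) (Hc hS) (RC hS (Rws η W o n M)) Q Z₀)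
        (QuYx810.Lc hS h3 ((cpth H.fp Hs A e i).net.reg
          (I \ Iw M (WndGx416.pS A W o n M l) (WndGx416.qS A W o n M l))
          (J \ Jw M (WndGx416.pS A W o n M l) (WndGx416.qS A W o n M l))))
        (rst w (FQ S m' (fun l => QX (100 * η) W o n (n - 1 - l)) l))
        (fun s => (cpth H.fp Hs A e i).net.gw I J (Xc hS h3 s) ≠ 0) κ Z Tw := by
  intro l hl
  have e0 := E.e0
  have hk : n - 1 - l < n := by omega
  have ek : (n : ℤ) - 1 - l = ((n - 1 - l : ℕ) : ℤ) := by omega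
  have w0 := (wab_lay H hm i (l := ((n - 1 - l : ℕ) : ℤ)) (by omega) (by omega)).toWd
  rw [← ho, ← hn] at w0
  unfold WndGx416.pS WndGx416.qS
  rw [ek]
  have hnM := w0.nM
  have hd := E.de
  refine pw_of (h3 := h3) (U := U) E hk w0 hh ?_ (fun s hs => ?_) hht (hH _ hk) (hoff _ hk)
    (fun x h1 h2 => SupHx827.bst_far E.path e0 E.d0.le (by linarith) (by omega) _ hk x h1 h2)
  · refine lt_of ((PoSx983.dsj_net H.fp Hs i I J _ _ (by linarith)).mono_right ?_)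
    rintro s ⟨x, h1, h2, h3⟩
    refine ⟨x, by omega, by omega, ?_⟩
    rw [hh']
    exact RR_mono (by linarith) (by linarith) _ _ _ h3
  · obtain ⟨p, q, N, T, O⟩ := hone s hs
    exact ⟨p, q, N, T, O, hlx s hs p q N T O _ hk⟩

end main

end Crest.Agent.R143.PLKx228
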