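import Crest.Agent.R143.SepW_686
import Crest.Agent.R143.SepH_697

/-!
# Row 143 (S0194), SEP at the closing gates under `CorH` (helper686)

`chainW` : 697's closed white chain of the strand, with the index `-2π` below all straight closing
gates and the vertical chains of these gates; `ChW` = its properties; `ChW.notExt` on `rc0`.
-/

set_option autoImplicit false

noncomputable section

open scoped Classical

namespace Crest.Agent.R143.SepWHx686

open Crest.Agent.R143.B0x346 Crest.Agent.R143.DelGx806 Crest.Agent.R143.DelRx806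
  Crest.Agent.R143.JColx54
open Crest.Agent.R143.ToolWx838 Crest.Agent.R143.Blkx838
open Crest.Agent.R143.ToolW3x838
open Crest.Agent.R143.Frame1x395 Crest.Agent.R143.Frame2x395 Crest.Agent.R143.Frame3x395
  Crest.Agent.R143.Frame4x395 Crest.Agent.R143.Frame8x395 Crest.Agent.R143.Frame9x395
  Crest.Agent.R143.Frame10x395 Crest.Agent.R143.Frame11x395
open Crest.Agent.R143.Splx117 Crest.Agent.R143.WLocx713 Crest.Agent.R143.RingDx117
  Crest.Agent.R143.CorrDx117
open Crest.Agent.R143.Neckx921 (Neck NeckD Tile Lk)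
open Crest.Agent.R143.TileRx228 Crest.Agent.R143.DCorGx713
open Crest.Agent.R143.PP0x831
open Crest.Agent.R143.Sepx686 Crest.Agent.R143.SepLx686 Crest.Agent.R143.SepWx686
open Crest.Agent.R143.CorHx713 Crest.Agent.R143.SepHx697
open Crest.Agent.R143.RcTx422
open Crest.Agent.R143.FinCx811 (rc0 Cs rcol cs)
open Crest.Agent.R143.OutSx358 (zc)
open Crest.Agent.R143.Gntx535 (wl wr)

variable {X : Set (ℂ × Bool)} {U K0 : Set ℂ} {M n k0 k1 : ℕ} {W : ℤ → ℤ × ℤ} {η d : ℝ} {o : ℤ}

/-- straight closing gate with the numbers of `CorH` -/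
abbrev CGH (M n : ℕ) (W : ℤ → ℤ × ℤ) (η : ℝ) (o : ℤ) (K0 : Set ℂ) (k : ℕ) : Prop :=
  CG M n W (9 * η) η (100 * η) o K0 k

/-- the vertical chain of the gate `a`: the neck of the selected dart, and a link from the lower end of
the neck to its upper end through `up`, white sites of the two tiles, and sites of index `-2π` -/
def VGate (X : Set (ℂ × Bool)) (W : ℤ → ℤ × ℤ) (η : ℝ) (a : ℤ) (cw : List ℂ) : Prop :=
  ∃ up dn : List ℂ, ∃ N : Neck (sX X) (gz (100 * η) W a) (ge W a) (-η) η (-(9 * η)) (10 * η) η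
    (sX X) (bX X) up (yy η W X a) dn, up.getLast N.nu = xx η W X a ∧
    asum (dn.getLast N.nd) cw = -(2 * Real.pi) ∧
    ∃ VV : Set ℂ, Lk (sX X) VV (dn.getLast N.nd) (up.head N.nu) ∧
      (∀ s ∈ VV, |Gatex838.X (gz (100 * η) W a) (ge W a) s| < 101 * η) ∧
      ∀ s ∈ VV, (s ∈ up ∧ cX X s = 0 ∧ -(9 * η) < Gatex838.Y (gz (100 * η) W a) (ge W a) s) ∨
        (s ∈ sX X ∧ cX X s = 0 ∧ (s ∈ RR (9 * η) (51 * η) (100 * η) W (a - 1) ∨
          s ∈ RR (9 * η) (51 * η) (100 * η) W a)) ∨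
        (s ∈ yy η W X a :: dn ∧ asum s cw = -(2 * Real.pi))

section strand

variable {H : CorH X U M W η d o n} {Rs : Set (D0 (sX X))} {q : D0 (sX X)} {N : ℕ} {T : ℕ → ℕ}

/-- **the closed white chain of the strand**, with its indices -/
structure ChW (H : CorH X U M W η d o n) (q : D0 (sX X)) (T : ℕ → ℕ) (K0 : Set ℂ) (c : ℝ)
    (cw : List ℂ) : Prop where
  loop : Loop (sX X) cw
  sub : ∀ s ∈ cw, s ∈ sX X
  col : ∀ s ∈ cw, cX X s = 0
  mem : ∀ s ∈ cw, s ∈ RS (sX X) (cX X) q.1 (T n) ∨ s ∈ BR η W M o n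
  k0 : ∀ w ∈ K0, asum w cw = -(2 * Real.pi)
  gate : ∀ k, k ≤ n → asum (yy η W X (o + k)) cw = -(2 * Real.pi)
  left : ∀ s ∈ LS (sX X) (cX X) q.1 (T n), asum s cw = -(2 * Real.pi)
  low : ∀ k, CGH M n W η o K0 k → ∀ w ∈ Low W (9 * η) η (100 * η) c o k, asum w cw = -(2 * Real.pi)
  vgate : ∀ k, CGH M n W η o K0 k → VGate X W η (o + k) cw

/-- **existence** -/
theorem chainW (St : StH H Rs q N T) (G : Geo (sX X) M n k0 k1 W η o K0)
    (hf : ∀ k : ℕ, k < n → FA (cm0 H.gp) (xc H.gp H.hull)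
      (RD (sX X) (RR (19 / 2 * η) (103 / 2 * η) (100 * η) W (o + k))) (H.p (k + 1)) (H.p k))
    {c : ℝ} (hc1 : η ≤ c) (hc : c < 4 * η) : ∃ cw : List ℂ, ChW H q T K0 c cw := by
  have h0 := H.e0
  have hnM := H.nM
  have n3 := St.n3
  have D := H.corr
  have eB : (fun k : ℕ => RR (19 / 2 * η) (103 / 2 * η) (100 * η) W (o + k)) =
      fun k : ℕ => RR (9 * η + η / 2) (51 * η + η / 2) (100 * η) W (o + k) :=
    funext fun k => rr_eq η W _
  rw [eB] at D
  obtain ⟨t, Bt⟩ := exists_back D (fun k hk => by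
    have := hf k hk
    rw [rr_eq] at this
    exact this)
  obtain ⟨Bt', hsub⟩ := exists_tB St D Bt
  obtain ⟨up, dn, N⟩ := nkg H k0
  have hy0 : cX X (yy η W X (o + ((0 : ℕ) : ℤ))) = 1 := H.coly _
  have hW0 : ∀ j, n ≤ j → j < M → Lk (sX X) (WT (sX X) (cX X) (fun k : ℕ => yy η W X (o + k)) W
      (9 * η) (51 * η) (100 * η) o j) ((fun k : ℕ => xx η W X (o + k)) j)
      ((fun k : ℕ => xx η W X (o + k)) (j + 1)) := by
    intro j h1 h2
    have h3 := H.wht (o + j)
    show Lk (sX X) _ (xx η W X (o + j)) (xx η W X (o + ((j + 1 : ℕ) : ℤ)))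
    rw [show o + ((j + 1 : ℕ) : ℤ) = o + j + 1 by push_cast; ring]
    refine h3.mono ?_
    rintro s ⟨⟨h4, h5⟩, h6⟩
    exact ⟨⟨h4, fun hc => h5 ((bX_iff s h4).1 (hc.trans hy0))⟩, h6⟩
  have hz : ∀ s, cX X s ≠ cX X (yy η W X (o + ((0 : ℕ) : ℤ))) → cX X s = 0 := by
    intro s h2
    rw [hy0] at h2
    revert h2
    generalize cX X s = a
    revert a
    decide
  obtain ⟨cw, C⟩ := exists_cw G D Bt' N
    (x := fun k : ℕ => xx η W X (o + k)) (fun k _ => rfl)
    (fun j => by
      show xx η W X (o + ((j + M : ℕ) : ℤ)) = xx η W X (o + j)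
      rw [show o + ((j + M : ℕ) : ℤ) = o + j + M by push_cast; ring]
      exact H.xper _) hW0 (c := c) (by linarith) (by linarith)
  have c3' : ∀ s ∈ cw, cX X s = 0 := fun s hs => hz s (C.col s hs)
  have c6' : ∀ k, k ≤ n → asum (yy η W X (o + k)) cw = -(2 * Real.pi) := C.gate
  refine ⟨cw, C.loop, C.sub, c3', ?_, C.k0, c6', ?_, C.low, ?_⟩
  · intro s hs
    rcases C.mem s hs with ⟨k, hk, h⟩ | ⟨j, h1, h2, h3⟩
    · by_cases h4 : 0 < k ∧ k + 1 < n
      · exact Or.inl (hsub k h4.1 h4.2 h)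
      · have h5 := Bt'.rB k hk h
        right
        have h6 : s ∈ RR (19 / 2 * η) (103 / 2 * η) (100 * η) W (o + k) := by
          rw [rr_eq]; exact h5
        rcases Nat.eq_zero_or_pos k with h7 | h7
        · refine ⟨o + M, by omega, le_rfl, ?_⟩
          rw [RR_per H.path]
          rw [h7] at h6
          simpa using h6
        · refine ⟨o + k, by omega, by omega, h6⟩
    · right
      refine ⟨o + j, by omega, by omega, ?_⟩
      exact RR_mono (by linarith) (by linarith) _ W _ h3.1.2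
  · intro s hs
    have ho := SepHx697.st_occ St
    have hcol := st_col St
    have off : ∀ v ∈ LS (sX X) (cX X) q.1 (T n), v ∉ cw := by
      intro v hv hc
      have h1 := LS_col H.gp H.hull ho hv
      rw [c3' v hc, hcol] at h1
      exact absurd h1 (by decide)
    have g1 := LS_lk H.gp H.hull ho hs
    have m1 : (H.p (n - 1)).1.1 ∈ LS (sX X) (cX X) q.1 (T n) :=
      ⟨T 1, st_T St (by omega), by rw [st_at St (by omega) (by omega)]⟩
    have g2 := LS_lk H.gp H.hull ho m1
    rw [← asum_lk H.gp C.loop off g1, asum_lk H.gp C.loop off g2]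
    exact c6' (n - 1) (by omega)
  · intro k hk
    obtain ⟨up', dn', N', hx'⟩ := H.neck (o + k)
    obtain ⟨-, g2, VV, g3, g4, g5⟩ := C.white_gate G D Bt' hW0 (by linarith) hk N' hx'
      ((H.coly _).trans hy0.symm) (by linarith) (by linarith) (by linarith) (by linarith)
    refine ⟨up', dn', N', hx', g2, VV, g3, fun s hs => ?_, fun s hs => ?_⟩
    · have := g4 s hs
      rw [abs_lt]
      constructor <;> linarith [this.1, this.2]
    · rcases g5 s hs with h1 | h1 | h1
      · refine Or.inl ⟨h1, ?_, N'.upb s h1⟩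
        have h2 := N'.cu s h1
        by_contra hc
        have h3 : cX X s = 1 := by
          revert hc
          generalize cX X s = a
          revert a
          decide
        exact h2.2 ((bX_iff s h2.1).1 h3)
      · refine Or.inr (Or.inl ?_)
        have hk1 := hk.nk
        have e1 : o + ((k - 1 : ℕ) : ℤ) = o + k - 1 := by omega
        rcases h1.1 with h2 | h2
        · refine ⟨h2.1.1, hz s h2.1.2, Or.inl ?_⟩
          have h3 := h2.2
          rw [e1] at h3
          exact h3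
        · exact ⟨h2.1.1, hz s h2.1.2, Or.inr h2.2⟩
      · exact Or.inr (Or.inr h1)

/-- the sites of the chain are inner -/
theorem ChW.inn {c : ℝ} {cw : List ℂ} (C : ChW H q T K0 c cw) (St : StH H Rs q N T) :
    ∀ s ∈ cw, ¬ OnHull (sX X) s := by
  intro s hs
  have h0 := H.e0
  rcases C.mem s hs with ⟨i, hi, rfl⟩ | ⟨a, -, -, ha⟩
  · obtain ⟨k, -, -, h2⟩ := st_mem St hi
    exact H.inn (H.sub_U (by linarith) (by linarith) _ h2)
  · exact H.inn (H.sub_U (by linarith) (by linarith) _ ha)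

/-- **sites of nonzero index are not in `Ext`** (`rc0`) -/
theorem ChW.notExt {c : ℝ} {cw : List ℂ} (C : ChW H q T K0 c cw) (St : StH H Rs q N T)
    {R : Set (Cs H.gp)} (hR : ∀ s ∈ sX X, s ∈ BR η W M o n → ∃ c ∈ R, c.1 = Quot.mk _ s) {u : ℂ}
    (hu : asum u cw = -(2 * Real.pi)) {v : Cs H.gp} (e : v.1 = Quot.mk _ u) :
    ¬ Extx358.Ext (rc0 H.gp) (Hc H.gp) (zc (rc0 H.gp) R q (T n) (rcol H.gp (cX X) H.hull)) v := by
  have hpi := Real.pi_pos
  have hne : asum u cw ≠ 0 := by rw [hu]; intro h; linarith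
  have hm : ∀ s ∈ cw, s ∈ RS (sX X) (cX X) q.1 (T n) ∨ ∃ c ∈ R, c.1 = Quot.mk _ s := fun s hs =>
    (C.mem s hs).imp id fun h => hR s (C.sub s hs) h
  have hi : ¬ OnHull (sX X) u := fun hh =>
    hne (asum_onHull H.gp C.loop C.sub hh fun h => C.inn St u h hh)
  exact notExt_rc St.lp.occ C.loop C.sub C.col hm e hi hne

end strand

end Crest.Agent.R143.SepWHx686
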