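import Crest.Agent.R143.SepX_686
import Crest.Agent.R143.SepWH_686
import Crest.Agent.R143.LocT_776

/-!
# Row 143 (S0194), RIG, LOCX, (C6) of 776's list: gates of the curtain under `CorH` (helper686)

`Z` = `zc (rc0 H.gp) R q (T n) (rcol ..)` (`ZH`), `NE` = sites none of whose cells is in `Ext Z`.
* `white_Z` : white sites of the closing strips are in `Z`
* **`vch_white`** : vertical chain of a straight closing gate
* **`low_white`**, **`low_K0`** : sites below a closing gate, sites of the inner side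
* **`chainX`** : the closed white chain for an inner out gate; **`low_out`**, **`dn_out`**
-/

set_option autoImplicit false

noncomputable section

open scoped Classical

namespace Crest.Agent.R143.SepVx686

open Crest.Agent.R143.B0x346 Crest.Agent.R143.DelGx806 Crest.Agent.R143.DelRx806
  Crest.Agent.R143.JColx54
open Crest.Agent.R143.ToolWx838 Crest.Agent.R143.Blkx838
open Crest.Agent.R143.ToolW3x838
open Crest.Agent.R143.Frame1x395 Crest.Agent.R143.Frame2x395 Crest.Agent.R143.Frame3x395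
  Crest.Agent.R143.Frame4x395 Crest.Agent.R143.Frame8x395 Crest.Agent.R143.Frame9x395
  Crest.Agent.R143.Frame10x395 Crest.Agent.R143.Frame11x395
open Crest.Agent.R143.Splx117 Crest.Agent.R143.WLocx713 Crest.Agent.R143.RingDx117
  Crest.Agent.R143.CorrDx117
open Crest.Agent.R143.Neckx921 (Neck NeckD Tile Lk)
open Crest.Agent.R143.TileRx228 Crest.Agent.R143.DCorGx713
open Crest.Agent.R143.PP0x831
open Crest.Agent.R143.Idxx927 (wl X_wl Y_wl)
open Crest.Agent.R143.Sepx686 Crest.Agent.R143.SepLx686 Crest.Agent.R143.SepWx686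
  Crest.Agent.R143.SepWHx686 Crest.Agent.R143.SepXx686
open Crest.Agent.R143.CorHx713 Crest.Agent.R143.SepHx697
open Crest.Agent.R143.RcTx422
open Crest.Agent.R143.FinCx811 (rc0 Cs rcol cs)
open Crest.Agent.R143.OutSx358 (zc)
open Crest.Agent.R143.LocTx776 (Wn VCh)

variable {X : Set (ℂ × Bool)} {U K0 : Set ℂ} {M n k0 k1 : ℕ} {W : ℤ → ℤ × ℤ} {η d : ℝ} {o : ℤ}
  {H : CorH X U M W η d o n} {Rs : Set (D0 (sX X))} {q : D0 (sX X)} {N : ℕ} {T : ℕ → ℕ}
  {R : Set (Cs H.gp)}

/-- the blocking cells of the strand -/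
abbrev ZH (H : CorH X U M W η d o n) (R : Set (Cs H.gp)) (q : D0 (sX X)) (T : ℕ → ℕ) :
    Set (Cs H.gp) := zc (rc0 H.gp) R q (T n) (rcol H.gp (cX X) H.hull)

/-- the cell of the site `v` is not in `Ext Z` -/
def NE (H : CorH X U M W η d o n) (R : Set (Cs H.gp)) (q : D0 (sX X)) (T : ℕ → ℕ) (v : ℂ) : Prop :=
  ∀ c : Cs H.gp, c.1 = Quot.mk (hullE (sX X)) v → ¬ Extx358.Ext (rc0 H.gp) (Hc H.gp) (ZH H R q T) c

/-- **white sites of the closing strips are in `Z`** -/
theorem white_Z (hR : ∀ s ∈ sX X, s ∈ BR η W M o n → ∃ c ∈ R, c.1 = Quot.mk (hullE (sX X)) s) {v : ℂ}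
    (hv : v ∈ sX X) (hb : v ∈ BR η W M o n) (h0 : cX X v = 0) {c : Cs H.gp}
    (e : c.1 = Quot.mk (hullE (sX X)) v) : c ∈ ZH H R q T := by
  obtain ⟨c', h1, h2⟩ := hR v hv hb
  have h3 : c = c' := Subtype.ext (e.trans h2.symm)
  right
  refine ⟨h3 ▸ h1, ?_⟩
  show rcol H.gp (cX X) H.hull c = 0
  rw [rcol_val e, h0]

/-- the window of the gate `a` is in the closing strips -/
theorem win_BR (H : CorH X U M W η d o n) {a : ℤ} (h1 : o + n - 1 ≤ a) (h2 : a ≤ o + M) {v : ℂ}
    (hx : |Gatex838.X (gz (100 * η) W a) (ge W a) v| < 3 / 2 * η)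
    (hy : |Gatex838.Y (gz (100 * η) W a) (ge W a) v| < 19 / 2 * η) : v ∈ BR η W M o n := by
  have h0 := H.e0
  exact ⟨a, h1, h2, win_right H.path (by linarith) (by linarith) (by linarith) hy⟩

/-- **the vertical chain of a straight closing gate** -/
theorem vch_white {c : ℝ} {cw : List ℂ} (C : ChW H q T K0 c cw) (St : StH H Rs q N T)
    (hR : ∀ s ∈ sX X, s ∈ BR η W M o n → ∃ c ∈ R, c.1 = Quot.mk (hullE (sX X)) s) {k : ℕ}
    (K : CGH M n W η o K0 k) : ∃ VV s t, VCh (sX X) η W (o + k) VV s t ∧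
      ∀ v ∈ VV, (∀ c : Cs H.gp, c.1 = Quot.mk (hullE (sX X)) v → c ∈ ZH H R q T) ∨ NE H R q T v ∨
        (v ∈ Wn η W (o + k) (2 * η) (19 / 2 * η) (11 * η) ∧ cX X v = 0) := by
  have h0 := H.e0
  have kn := K.nk
  have kM := K.kM
  obtain ⟨up, dn, N', hx, hdl, VV, g1, g2, g3⟩ := C.vgate k K
  have hwin : ∀ s ∈ up ++ yy η W X (o + k) :: dn,
      (-η < Gatex838.X (gz (100 * η) W (o + k)) (ge W (o + k)) s ∧
        Gatex838.X (gz (100 * η) W (o + k)) (ge W (o + k)) s < η) ∧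
      -(10 * η) ≤ Gatex838.Y (gz (100 * η) W (o + k)) (ge W (o + k)) s ∧
      Gatex838.Y (gz (100 * η) W (o + k)) (ge W (o + k)) s ≤ 11 * η := by
    intro s hs
    have := N'.win s hs
    exact ⟨this.1, by linarith [this.2.1], by linarith [this.2.2]⟩
  have hS' : ∀ v, v ∈ VV → v ∈ sX X → v ∈ RR (12 * η) (53 * η) (100 * η) W (o + k - 1) ∨
      v ∈ RR (12 * η) (53 * η) (100 * η) W (o + k) := by
    intro v hv _
    have key : v ∈ up ++ yy η W X (o + k) :: dn → v ∈ RR (12 * η) (53 * η) (100 * η) W (o + k) := by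
      intro h1
      have h2 := hwin v h1
      refine win_right H.path (by linarith) (by linarith) ?_ ?_
      · rw [abs_lt]; constructor <;> linarith [h2.1.1, h2.1.2]
      · rw [abs_lt]; constructor <;> linarith [h2.2.1, h2.2.2]
    rcases g3 v hv with h1 | h1 | h1
    · exact Or.inr (key (List.mem_append_left _ h1.1))
    · rcases h1.2.2 with h2 | h2
      · exact Or.inl (RR_mono (by linarith) (by linarith) _ W _ h2)
      · exact Or.inr (RR_mono (by linarith) (by linarith) _ W _ h2)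
    · exact Or.inr (key (List.mem_append_right _ h1.1))
  have lS : Lk (sX X) {v | v ∈ VV ∧ v ∈ sX X} (dn.getLast N'.nd) (up.head N'.nu) := by
    have hend : ∀ {a b : ℂ}, Lk (sX X) VV a b → a ∈ sX X → Lk (sX X) {v | v ∈ VV ∧ v ∈ sX X} a b := by
      rintro a b ⟨⟨ha, hb⟩, h⟩ haS
      have key : ∀ b, Relation.ReflTransGen (fun u v => DE (sX X) u v ∧ u ∈ VV ∧ v ∈ VV) a b →
          Lk (sX X) {v | v ∈ VV ∧ v ∈ sX X} a b := by
        intro b hb
        induction hb with
        | refl => exact Lk.refl ⟨ha, haS⟩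
        | tail _ h1 ih =>
          obtain ⟨m1, m2⟩ := RingDx117.de_sites h1.1
          exact ih.trans ⟨⟨⟨h1.2.1, m1⟩, ⟨h1.2.2, m2⟩⟩,
            .single ⟨h1.1, ⟨h1.2.1, m1⟩, ⟨h1.2.2, m2⟩⟩⟩
      exact key b h
    have hup : up.head N'.nu ∈ sX X := (N'.cu _ (List.head_mem _)).1
    exact (hend g1.symm hup).symm
  refine ⟨{v | v ∈ VV ∧ v ∈ sX X}, _, _, ⟨lS, fun v hv => hv.2, fun v hv => ?_, fun v hv =>
    hS' v hv.1 hv.2, ?_, ?_⟩, fun v hv => ?_⟩
  · linarith [g2 v hv.1]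
  · have h1 := hwin _ (List.mem_append_right _ (List.mem_cons_of_mem _ (List.getLast_mem N'.nd)))
    exact ⟨abs_le.2 ⟨h1.1.1.le, h1.1.2.le⟩, h1.2.1, N'.bot⟩
  · have h1 := hwin _ (List.mem_append_left _ (List.head_mem N'.nu))
    exact ⟨abs_le.2 ⟨h1.1.1.le, h1.1.2.le⟩, N'.top, h1.2.2⟩
  · rcases g3 v hv.1 with h1 | h1 | h1
    · have h2 := hwin v (List.mem_append_left _ h1.1)
      by_cases h3 : Gatex838.Y (gz (100 * η) W (o + k)) (ge W (o + k)) v < 19 / 2 * η
      · left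
        intro c e
        refine white_Z hR hv.2 (win_BR H (a := o + k) (by omega) (by omega) ?_ ?_) h1.2.1 e
        · rw [abs_lt]; constructor <;> linarith [h2.1.1, h2.1.2]
        · rw [abs_lt]; exact ⟨by linarith [h1.2.2], h3⟩
      · push Not at h3
        exact Or.inr (Or.inr ⟨⟨abs_le.2 ⟨by linarith [h2.1.1], by linarith [h2.1.2]⟩, h3, h2.2.2⟩,
          h1.2.1⟩)
    · left
      intro c e
      refine white_Z hR hv.2 ?_ h1.2.1 e
      rcases h1.2.2 with h2 | h2
      · exact ⟨o + k - 1, by omega, by omega, RR_mono (by linarith) (by linarith) _ W _ h2⟩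
      · exact ⟨o + k, by omega, by omega, RR_mono (by linarith) (by linarith) _ W _ h2⟩
    · exact Or.inr (Or.inl fun c e => C.notExt St hR h1.2 e)

/-- **sites below a straight closing gate** -/
theorem low_white {c : ℝ} {cw : List ℂ} (C : ChW H q T K0 c cw) (hc : 2 * η ≤ c)
    (St : StH H Rs q N T)
    (hR : ∀ s ∈ sX X, s ∈ BR η W M o n → ∃ c ∈ R, c.1 = Quot.mk (hullE (sX X)) s) {k : ℕ}
    (K : CGH M n W η o K0 k) {v : ℂ}
    (hv : v ∈ Wn η W (o + k) (2 * η) (-(10 * η)) (-(9 * η))) : NE H R q T v := fun c' e =>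
  C.notExt St hR (C.low k K v ⟨hv.1.trans hc, by linarith [hv.2.1], hv.2.2⟩) e

/-- **sites of the inner side** -/
theorem low_K0 {c : ℝ} {cw : List ℂ} (C : ChW H q T K0 c cw) (St : StH H Rs q N T)
    (hR : ∀ s ∈ sX X, s ∈ BR η W M o n → ∃ c ∈ R, c.1 = Quot.mk (hullE (sX X)) s) {v : ℂ}
    (hv : v ∈ K0) : NE H R q T v := fun _ e => C.notExt St hR (C.k0 v hv) e

/-- **the closed white chain for an inner out gate** -/
theorem chainX (St : StH H Rs q N T) (G : Geo (sX X) M n k0 k1 W η o K0)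
    (hf : ∀ k : ℕ, k < n → FA (cm0 H.gp) (xc H.gp H.hull)
      (RD (sX X) (RR (19 / 2 * η) (103 / 2 * η) (100 * η) W (o + k))) (H.p (k + 1)) (H.p k))
    {c : ℝ} (hc1 : η ≤ c) (hc : c < 4 * η) {k : ℕ} (h3 : 3 ≤ k) (hk : k + 3 ≤ n)
    (st : ∀ a : ℤ, o + k - 2 ≤ a → a ≤ o + k + 1 → ge W (a + 1) = ge W a)
    (foot : wl (gz (100 * η) W (o + k)) (ge W (o + k)) (-(10 * η)) ∈ K0) {up dn : List ℂ}
    (Nk : Neck (sX X) (gz (100 * η) W (o + k)) (ge W (o + k)) (-η) η (-(9 * η)) (10 * η) η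
      (sX X) (bX X) up (yy η W X (o + k)) dn) (hx : up.getLast Nk.nu = xx η W X (o + k)) :
    ∃ cw : List ℂ, ChW H q T K0 c cw ∧
      (∀ w ∈ Low W (9 * η) η (100 * η) c o k, asum w cw = -(2 * Real.pi)) ∧
      ∀ s ∈ dn, asum s cw = -(2 * Real.pi) := by
  have h0 := H.e0
  have hnM := H.nM
  have n3 := St.n3
  have G' : Geo (sX X) M n k k1 W η o K0 := sgeo_at G h3 hk st (by
    rw [show 9 * η + η = 10 * η by ring]; exact foot)
  have D := H.corr
  have eB : (fun k : ℕ => RR (19 / 2 * η) (103 / 2 * η) (100 * η) W (o + k)) =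
      fun k : ℕ => RR (9 * η + η / 2) (51 * η + η / 2) (100 * η) W (o + k) :=
    funext fun k => rr_eq η W _
  rw [eB] at D
  obtain ⟨t, Bt⟩ := exists_back D (fun k hk => by
    have := hf k hk
    rw [rr_eq] at this
    exact this)
  obtain ⟨Bt', hsub⟩ := exists_tB St D Bt
  have hy0 : cX X (yy η W X (o + ((0 : ℕ) : ℤ))) = 1 := H.coly _
  have Nn : NkG (sX X) k W (9 * η) (51 * η) (100 * η) (10 * η) η o (cX X)
      (fun k : ℕ => yy η W X (o + k)) (fun k : ℕ => xx η W X (o + k)) (-η) η (sX X) (bX X) up dn := by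
    refine ⟨Nk, hx, by linarith, by linarith, ?_, ?_⟩
    · intro j _ _ s hs _ hc
      exact (bX_iff s hs).1 (hc.trans hy0)
    · intro s hs
      exact ((bX_iff s (bX_sub hs)).2 hs).trans hy0.symm
  have hW0 : ∀ j, n ≤ j → j < M → Lk (sX X) (WT (sX X) (cX X) (fun k : ℕ => yy η W X (o + k)) W
      (9 * η) (51 * η) (100 * η) o j) ((fun k : ℕ => xx η W X (o + k)) j)
      ((fun k : ℕ => xx η W X (o + k)) (j + 1)) := by
    intro j h1 h2
    have h3 := H.wht (o + j)
    show Lk (sX X) _ (xx η W X (o + j)) (xx η W X (o + ((j + 1 : ℕ) : ℤ)))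
    rw [show o + ((j + 1 : ℕ) : ℤ) = o + j + 1 by push_cast; ring]
    refine h3.mono ?_
    rintro s ⟨⟨h4, h5⟩, h6⟩
    exact ⟨⟨h4, fun hc => h5 ((bX_iff s h4).1 (hc.trans hy0))⟩, h6⟩
  have hz : ∀ s, cX X s ≠ cX X (yy η W X (o + ((0 : ℕ) : ℤ))) → cX X s = 0 := by
    intro s h2
    rw [hy0] at h2
    revert h2
    generalize cX X s = a
    revert a
    decide
  obtain ⟨cw, C, hlow, hdn⟩ := sepX_chain G' D Bt' Nn
    (x := fun k : ℕ => xx η W X (o + k)) (fun k _ => rfl)
    (fun j => by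
      show xx η W X (o + ((j + M : ℕ) : ℤ)) = xx η W X (o + j)
      rw [show o + ((j + M : ℕ) : ℤ) = o + j + M by push_cast; ring]
      exact H.xper _) hW0 (c := c) (by linarith) (by linarith)
  have c3' : ∀ s ∈ cw, cX X s = 0 := fun s hs => hz s (C.col s hs)
  have c6' : ∀ k, k ≤ n → asum (yy η W X (o + k)) cw = -(2 * Real.pi) := C.gate
  refine ⟨cw, ⟨C.loop, C.sub, c3', ?_, C.k0, c6', ?_, C.low, ?_⟩, hlow, hdn⟩
  · intro s hs
    rcases C.mem s hs with ⟨k, hk, h⟩ | ⟨j, h1, h2, h3⟩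
    · by_cases h4 : 0 < k ∧ k + 1 < n
      · exact Or.inl (hsub k h4.1 h4.2 h)
      · have h5 := Bt'.rB k hk h
        right
        have h6 : s ∈ RR (19 / 2 * η) (103 / 2 * η) (100 * η) W (o + k) := by
          rw [rr_eq]; exact h5
        rcases Nat.eq_zero_or_pos k with h7 | h7
        · refine ⟨o + M, by omega, le_rfl, ?_⟩
          rw [RR_per H.path]
          rw [h7] at h6
          simpa using h6
        · refine ⟨o + k, by omega, by omega, h6⟩
    · right
      refine ⟨o + j, by omega, by omega, ?_⟩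
      exact RR_mono (by linarith) (by linarith) _ W _ h3.1.2
  · intro s hs
    have ho := SepHx697.st_occ St
    have hcol := st_col St
    have off : ∀ v ∈ LS (sX X) (cX X) q.1 (T n), v ∉ cw := by
      intro v hv hc
      have h1 := LS_col H.gp H.hull ho hv
      rw [c3' v hc, hcol] at h1
      exact absurd h1 (by decide)
    have g1 := LS_lk H.gp H.hull ho hs
    have m1 : (H.p (n - 1)).1.1 ∈ LS (sX X) (cX X) q.1 (T n) :=
      ⟨T 1, st_T St (by omega), by rw [st_at St (by omega) (by omega)]⟩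
    have g2 := LS_lk H.gp H.hull ho m1
    rw [← asum_lk H.gp C.loop off g1, asum_lk H.gp C.loop off g2]
    exact c6' (n - 1) (by omega)
  · intro k hk
    obtain ⟨up', dn', N', hx'⟩ := H.neck (o + k)
    obtain ⟨-, g2, VV, g3, g4, g5⟩ := C.white_gate G' D Bt' hW0 (by linarith) hk N' hx'
      ((H.coly _).trans hy0.symm) (by linarith) (by linarith) (by linarith) (by linarith)
    refine ⟨up', dn', N', hx', g2, VV, g3, fun s hs => ?_, fun s hs => ?_⟩
    · have := g4 s hs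
      rw [abs_lt]
      constructor <;> linarith [this.1, this.2]
    · rcases g5 s hs with h1 | h1 | h1
      · refine Or.inl ⟨h1, ?_, N'.upb s h1⟩
        have h2 := N'.cu s h1
        by_contra hc
        have h3 : cX X s = 1 := by
          revert hc
          generalize cX X s = a
          revert a
          decide
        exact h2.2 ((bX_iff s h2.1).1 h3)
      · refine Or.inr (Or.inl ?_)
        have hk1 := hk.nk
        have e1 : o + ((k - 1 : ℕ) : ℤ) = o + k - 1 := by omega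
        rcases h1.1 with h2 | h2
        · refine ⟨h2.1.1, hz s h2.1.2, Or.inl ?_⟩
          have h3 := h2.2
          rw [e1] at h3
          exact h3
        · exact ⟨h2.1.1, hz s h2.1.2, Or.inr h2.2⟩
      · exact Or.inr (Or.inr h1)

section out

variable (St : StH H Rs q N T) (G : Geo (sX X) M n k0 k1 W η o K0)
  (hf : ∀ k : ℕ, k < n → FA (cm0 H.gp) (xc H.gp H.hull)
    (RD (sX X) (RR (19 / 2 * η) (103 / 2 * η) (100 * η) W (o + k))) (H.p (k + 1)) (H.p k))
  (hR : ∀ s ∈ sX X, s ∈ BR η W M o n → ∃ c ∈ R, c.1 = Quot.mk (hullE (sX X)) s)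

include St G hf hR

/-- **sites below an inner out gate** -/
theorem low_out {k : ℕ} (h3 : 3 ≤ k) (hk : k + 3 ≤ n)
    (st : ∀ a : ℤ, o + k - 2 ≤ a → a ≤ o + k + 1 → ge W (a + 1) = ge W a)
    (foot : wl (gz (100 * η) W (o + k)) (ge W (o + k)) (-(10 * η)) ∈ K0) {v : ℂ}
    (hv : v ∈ Wn η W (o + k) (2 * η) (-(10 * η)) (-(9 * η))) : NE H R q T v := by
  have h0 := H.e0
  obtain ⟨up, dn, Nk, hx⟩ := H.neck (o + k)
  obtain ⟨cw, C, h1, -⟩ := chainX St G hf (c := 2 * η) (by linarith) (by linarith) h3 hk st foot Nk hx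
  exact fun c e => C.notExt St hR (h1 v ⟨hv.1, by linarith [hv.2.1], hv.2.2⟩) e

/-- **the lower arm of the neck of an inner out gate** -/
theorem dn_out {k : ℕ} (h3 : 3 ≤ k) (hk : k + 3 ≤ n)
    (st : ∀ a : ℤ, o + k - 2 ≤ a → a ≤ o + k + 1 → ge W (a + 1) = ge W a)
    (foot : wl (gz (100 * η) W (o + k)) (ge W (o + k)) (-(10 * η)) ∈ K0) {up dn : List ℂ}
    (Nk : Neck (sX X) (gz (100 * η) W (o + k)) (ge W (o + k)) (-η) η (-(9 * η)) (10 * η) η
      (sX X) (bX X) up (yy η W X (o + k)) dn) (hx : up.getLast Nk.nu = xx η W X (o + k)) {v : ℂ}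
    (hv : v ∈ dn) : NE H R q T v := by
  have h0 := H.e0
  obtain ⟨cw, C, -, h1⟩ := chainX St G hf (c := 2 * η) (by linarith) (by linarith) h3 hk st foot Nk hx
  exact fun c e => C.notExt St hR (h1 v hv) e

/-- **the black sites of the gates** -/
theorem yy_out {k : ℕ} (hk : k ≤ n) : NE H R q T (yy η W X (o + k)) := by
  have h0 := H.e0
  obtain ⟨cw, C⟩ := chainW St G hf (c := 2 * η) (by linarith) (by linarith)
  exact fun c e => C.notExt St hR (C.gate k hk) e

/-- **the left sites of the strand** -/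
theorem left_out {v : ℂ} (hv : v ∈ LS (sX X) (cX X) q.1 (T n)) : NE H R q T v := by
  have h0 := H.e0
  obtain ⟨cw, C⟩ := chainW St G hf (c := 2 * η) (by linarith) (by linarith)
  exact fun c e => C.notExt St hR (C.left v hv) e

end out

end Crest.Agent.R143.SepVx686
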