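import Crest.Agent.R143.LocY_776
import Crest.Agent.R143.SepV_686
import Crest.Agent.R143.OutV_336
import Crest.Agent.R143.SepU_697
import Crest.Agent.R143.PLK_228

/-!
# Row 143 (S0194), RIG, LOCX for the windows of the corridor (helper776)

* `gd_out`, `gd_white` : gate data (`LocYx776.GD`) of a straight out gate / closing gate
* `blk_ZH` : the blocking cells are cells of inner sites of the strips
* **`lxw_X`** : 228's `LXW` for the window `a .. b`
-/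

set_option autoImplicit false

noncomputable section

open scoped Classical

namespace Crest.Agent.R143.LocZx776

open Crest.Agent.R143.B0x346 Crest.Agent.R143.DelGx806 Crest.Agent.R143.DelRx806
  Crest.Agent.R143.JColx54
open Crest.Agent.R143.ToolWx838 Crest.Agent.R143.Blkx838
open Crest.Agent.R143.ToolW3x838
open Crest.Agent.R143.Frame1x395 Crest.Agent.R143.Frame2x395 Crest.Agent.R143.Frame3x395
  Crest.Agent.R143.Frame4x395 Crest.Agent.R143.Frame8x395 Crest.Agent.R143.Frame9x395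
  Crest.Agent.R143.Frame10x395 Crest.Agent.R143.Frame11x395
open Crest.Agent.R143.Splx117 Crest.Agent.R143.WLocx713 Crest.Agent.R143.RingDx117
  Crest.Agent.R143.CorrDx117
open Crest.Agent.R143.Neckx921 (Neck NeckD Tile Lk)
open Crest.Agent.R143.TileRx228 Crest.Agent.R143.DCorGx713
open Crest.Agent.R143.PP0x831
open Crest.Agent.R143.Idxx927 (wl X_wl Y_wl)
open Crest.Agent.R143.Sepx686 Crest.Agent.R143.SepLx686 Crest.Agent.R143.SepWx686
  Crest.Agent.R143.SepWHx686 Crest.Agent.R143.SepXx686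
open Crest.Agent.R143.CorHx713 Crest.Agent.R143.SepHx697
open Crest.Agent.R143.RcTx422
open Crest.Agent.R143.FinCx811 (rc0 Cs rcol cs)
open Crest.Agent.R143.OutSx358 (zc)
open Crest.Agent.R143.Extx358 (Ad Ext Bd)
open Crest.Agent.R143.LocTx776
open Crest.Agent.R143.LocYx776
open Crest.Agent.R143.SepVx686 (ZH NE vch_white low_white low_K0 low_out dn_out)
open Crest.Agent.R143.PLKx228 (TD LXW)
open Crest.Agent.R143.PLx535 (Zt Ac)
open Crest.Agent.R143.SubEx117 (Pcs)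
open Crest.Agent.R143.CorrIx831 (Rws)
open Crest.Agent.R143.ZnQx323 (T₁)
open Crest.Agent.R143.WndGx416 (WdA Wd)
open Crest.Agent.R143.CurHx496 (Sg)
open Crest.Agent.R143.OutCx571 (Far)
open Crest.Agent.R143.RegEx523 (Kin)
open Crest.Agent.R143.Tenx416 (Pg)
open Crest.Agent.R143.NonXx592 (Rc P)

variable {X : Set (ℂ × Bool)} {U K0 : Set ℂ} {M n k0 k1 : ℕ} {W : ℤ → ℤ × ℤ} {η d : ℝ} {o : ℤ}
  {H : CorH X U M W η d o n} {Rs : Set (D0 (sX X))} {q : D0 (sX X)} {N : ℕ} {T : ℕ → ℕ}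
  {R : Set (Cs H.gp)}

/-- **gate data of a straight inner out gate** -/
theorem gd_out (St : StH H Rs q N T) (G : Geo (sX X) M n k0 k1 W η o K0)
    (hf : ∀ k : ℕ, k < n → FA (cm0 H.gp) (xc H.gp H.hull)
      (RD (sX X) (RR (19 / 2 * η) (103 / 2 * η) (100 * η) W (o + k))) (H.p (k + 1)) (H.p k))
    (hR : ∀ s ∈ sX X, s ∈ BR η W M o n → ∃ c ∈ R, c.1 = Quot.mk (hullE (sX X)) s)
    (hR' : ∀ c ∈ R, ∃ s ∈ sX X, s ∈ BR η W M o n ∧ c.1 = Quot.mk _ s) {k : ℕ} (h3 : 3 ≤ k)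
    (hk : k + 3 ≤ n) (st : ∀ a : ℤ, o + k - 2 ≤ a → a ≤ o + k + 1 → ge W (a + 1) = ge W a)
    (foot : wl (gz (100 * η) W (o + k)) (ge W (o + k)) (-(10 * η)) ∈ K0) :
    GD H.gp (ZH H R q T) η W (o + k) := by
  have h0 := H.e0
  have G' : Geo (sX X) M n k k1 W η o K0 := sgeo_at G h3 hk st (by
    rw [show 9 * η + η = 10 * η by ring]; exact foot)
  obtain ⟨up, dn, Nk⟩ := nkg H k
  obtain ⟨VV, h1, h2⟩ := OutVx336.vco St G' hf hR' Nk
  refine ⟨⟨VV, _, _, h1, fun v hv c e => ?_⟩, fun v _ hv c e =>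
    low_out St G hf hR h3 hk st foot hv c e⟩
  rcases h2 v hv with h4 | h4 | h4
  · exact Or.inl (h4 c e)
  · exact Or.inr (Or.inl (dn_out St G hf hR h3 hk st foot Nk.neck Nk.upz h4 c e))
  · refine Or.inr (Or.inr (Or.inr (h4.mono ?_)))
    rintro w ⟨w1, w2⟩
    have h5 := Nk.neck.win w (List.mem_append_left _ w1)
    refine ⟨⟨abs_le.2 ⟨h5.1.1.le, h5.1.2.le⟩, by linarith [h5.2.1], by linarith [h5.2.2]⟩, w2⟩

/-- **gate data of a straight closing gate** -/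
theorem gd_white (St : StH H Rs q N T) (G : Geo (sX X) M n k0 k1 W η o K0)
    (hf : ∀ k : ℕ, k < n → FA (cm0 H.gp) (xc H.gp H.hull)
      (RD (sX X) (RR (19 / 2 * η) (103 / 2 * η) (100 * η) W (o + k))) (H.p (k + 1)) (H.p k))
    (hR : ∀ s ∈ sX X, s ∈ BR η W M o n → ∃ c ∈ R, c.1 = Quot.mk (hullE (sX X)) s) {k : ℕ}
    (K : CGH M n W η o K0 k) : GD H.gp (ZH H R q T) η W (o + k) := by
  have h0 := H.e0
  obtain ⟨cw, C⟩ := chainW St G hf (c := 2 * η) (by linarith) (by linarith)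
  obtain ⟨VV, s, t, h1, h2⟩ := vch_white C St hR K
  refine ⟨⟨VV, s, t, h1, fun v hv c e => ?_⟩, fun v _ hv c e =>
    low_white C le_rfl St hR K hv c e⟩
  rcases h2 v hv with h4 | h4 | h4
  · exact Or.inl (h4 c e)
  · exact Or.inr (Or.inl (h4 c e))
  · exact Or.inr (Or.inr (Or.inl h4.1))

/-- sites of the inner side -/
theorem nK0 (St : StH H Rs q N T) (G : Geo (sX X) M n k0 k1 W η o K0)
    (hf : ∀ k : ℕ, k < n → FA (cm0 H.gp) (xc H.gp H.hull)
      (RD (sX X) (RR (19 / 2 * η) (103 / 2 * η) (100 * η) W (o + k))) (H.p (k + 1)) (H.p k))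
    (hR : ∀ s ∈ sX X, s ∈ BR η W M o n → ∃ c ∈ R, c.1 = Quot.mk (hullE (sX X)) s) {v : ℂ}
    (hv : v ∈ K0) : NE H R q T v := by
  have h0 := H.e0
  obtain ⟨cw, C⟩ := chainW St G hf (c := 2 * η) (by linarith) (by linarith)
  exact low_K0 C St hR hv

/-- **the blocking cells** -/
theorem blk_ZH (St : StH H Rs q N T)
    (hR' : ∀ c ∈ R, ∃ s ∈ sX X, s ∈ BR η W M o n ∧ c.1 = Quot.mk _ s) :
    CurOx66.BlkS (19 / 2 * η) (103 / 2 * η) (100 * η) W (ZH H R q T) := by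
  have h0 := H.e0
  have hq : xc H.gp H.hull q = 1 := St.lp.occ
  have inn : ∀ {s : ℂ} {a : ℤ}, s ∈ RR (19 / 2 * η) (103 / 2 * η) (100 * η) W a →
      ¬ OnHull (sX X) s := fun hs => H.inn (H.sub_U (by linarith) (by linarith) _ hs)
  intro c hc
  rcases PLSx535.mem_zc.1 hc with h | ⟨h, -⟩
  · rcases Finset.mem_union.1 h with h | h
    · obtain ⟨_, ⟨i, hi, rfl⟩, e⟩ := (mem_wl_LS hq).1 h
      obtain ⟨k, -, h1, -⟩ := st_mem St hi
      exact ⟨_, inn h1, ⟨_, h1⟩, e⟩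
    · obtain ⟨_, ⟨i, hi, rfl⟩, e⟩ := (mem_wr_RS hq).1 h
      obtain ⟨k, -, -, h1⟩ := st_mem St hi
      exact ⟨_, inn h1, ⟨_, h1⟩, e⟩
  · obtain ⟨s, -, ⟨a, -, -, h2⟩, e⟩ := hR' c h
    exact ⟨s, inn h2, ⟨a, h2⟩, e⟩

/-- the white cells of the strips -/
theorem rws_out (H : CorH X U M W η d o n) (h3 : 3 ≤ (sX X).card) {s : ℂ} (hs : s ∈ sX X)
    (hb : s ∈ BR η W M o n) :
    ∃ c ∈ RC H.gp (Rws η W o n M), c.1 = Quot.mk (hullE (sX X)) s := by
  have h0 := H.e0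
  obtain ⟨a, a1, a2, h⟩ := hb
  exact ⟨cs H.gp h3 ⟨s, hs⟩, ⟨s, hs, ⟨a, a1, a2, h⟩,
    H.inn (H.sub_U (by linarith) (by linarith) _ h), rfl⟩, rfl⟩

/-- gate data of the left separator -/
theorem gd_L (St : StH H Rs q N T) (G : Geo (sX X) M n k0 k1 W η o K0)
    (hf : ∀ k : ℕ, k < n → FA (cm0 H.gp) (xc H.gp H.hull)
      (RD (sX X) (RR (19 / 2 * η) (103 / 2 * η) (100 * η) W (o + k))) (H.p (k + 1)) (H.p k))
    (hR : ∀ s ∈ sX X, s ∈ BR η W M o n → ∃ c ∈ R, c.1 = Quot.mk (hullE (sX X)) s)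
    (hR' : ∀ c ∈ R, ∃ s ∈ sX X, s ∈ BR η W M o n ∧ c.1 = Quot.mk _ s)
    (foot : ∀ g, wl (gz (100 * η) W g) (ge W g) (-(10 * η)) ∈ K0) {l a b : ℤ} (hl : l < n)
    (w : Wd W o n M l a b) : GD H.gp (ZH H R q T) η W (o + (a - 2)) := by
  have P := H.path
  have w1 := w.al
  rcases w.cl with h | ⟨h, -, hs⟩
  · obtain ⟨k, k1, k2, k3, -, st⟩ := w.gateL hl h
    rw [← k1]
    exact gd_out St G hf hR hR' (by omega) k3 st (foot _)
  · subst h
    have nM := w.nM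
    have e : o + ((M - 4 : ℕ) : ℤ) = o - 4 + M := by omega
    have e1 : ∀ j : ℤ, ge W (j + M) = ge W j := fun j =>
      RegBx523.ge_cong P ⟨1, by ring⟩
    have K : CGH M n W η o K0 (M - 4) := by
      refine ⟨by omega, by omega, ?_, ?_, ?_⟩
      · rw [e, show o - 4 + (M : ℤ) - 1 = (o - 5) + M by ring, e1, e1]
        have := hs (-5) (by norm_num) (by norm_num)
        rwa [show o + (-5) + 1 = o - 4 by ring, show o + (-5) = o - 5 by ring] at this
      · rw [e, show o - 4 + (M : ℤ) + 1 = (o - 3) + M by ring, e1, e1]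
        have := hs (-4) (by norm_num) (by norm_num)
        rwa [show o + (-4) + 1 = o - 3 by ring, show o + (-4) = o - 4 by ring] at this
      · have := foot (o + ((M - 4 : ℕ) : ℤ))
        rwa [show 9 * η + η = 10 * η by ring]
    have D := gd_white (Rs := Rs) (q := q) (N := N) (T := T) St G hf hR K
    refine D.cong P ⟨-1, ?_⟩
    rw [e]
    ring

/-- gate data of the right separator -/
theorem gd_R (St : StH H Rs q N T) (G : Geo (sX X) M n k0 k1 W η o K0)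
    (hf : ∀ k : ℕ, k < n → FA (cm0 H.gp) (xc H.gp H.hull)
      (RD (sX X) (RR (19 / 2 * η) (103 / 2 * η) (100 * η) W (o + k))) (H.p (k + 1)) (H.p k))
    (hR : ∀ s ∈ sX X, s ∈ BR η W M o n → ∃ c ∈ R, c.1 = Quot.mk (hullE (sX X)) s)
    (hR' : ∀ c ∈ R, ∃ s ∈ sX X, s ∈ BR η W M o n ∧ c.1 = Quot.mk _ s)
    (foot : ∀ g, wl (gz (100 * η) W g) (ge W g) (-(10 * η)) ∈ K0) {l a b : ℤ} (l0 : 0 ≤ l)
    (w : Wd W o n M l a b) : GD H.gp (ZH H R q T) η W (o + (b + 3)) := by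
  have P := H.path
  have w1 := w.lb
  rcases w.cr with h | ⟨h, -, hs⟩
  · obtain ⟨k, k1, k2, k3, -, st⟩ := w.gateR l0 h
    rw [← k1]
    exact gd_out St G hf hR hR' k2 (by omega) st (foot _)
  · subst h
    have nM := w.nM
    have e : o + ((n + 4 : ℕ) : ℤ) = o + (n + 1 + 3) := by push_cast; ring
    rw [← e]
    refine gd_white St G hf hR ⟨by omega, by omega, ?_, ?_, ?_⟩
    · rw [e]
      have := hs (n + 3) (by omega) (by omega)
      rwa [show o + ((n : ℤ) + 3) + 1 = o + (n + 1 + 3) by ring,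
        show o + ((n : ℤ) + 3) = o + (n + 1 + 3) - 1 by ring] at this
    · rw [e]
      have := hs (n + 4) (by omega) (by omega)
      rwa [show o + ((n : ℤ) + 4) = o + (n + 1 + 3) by ring] at this
    · have := foot (o + ((n + 4 : ℕ) : ℤ))
      rwa [show 9 * η + η = 10 * η by ring]

/-- **228's `LXW` for a window of the corridor** -/
theorem lxw_X {F : Set (ℤ × ℤ)} {m n' : ℕ} {p : ℤ → ℤ × ℤ} {A : ℤ → ℤ} (St : StH H Rs q N T)
    (E : En (sX X) F n' m p M W A η d) (G : Geo (sX X) M n k0 k1 W η o K0)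
    (hf : ∀ k : ℕ, k < n → FA (cm0 H.gp) (xc H.gp H.hull)
      (RD (sX X) (RR (19 / 2 * η) (103 / 2 * η) (100 * η) W (o + k))) (H.p (k + 1)) (H.p k))
    (hK : Kin (90 * η) (Pg (m * (100 * η)) F) ⊆ K0)
    (foot : ∀ g, wl (gz (100 * η) W g) (ge W g) (-(10 * η)) ∈ K0) {w0 : ℂ}
    (hw0 : OnHull (sX X) w0) (hw : w0 ∈ Far (m * (100 * η)) (100 * η + 14 * η + d) F)
    {l a b : ℤ} (l0 : 0 ≤ l) (hl : l < n) (w : WdA A W o n M l a b) {L : Finset (Cs H.gp)}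
    (hL : ∀ c ∈ L, ∃ v ∈ sX X, c.1 = Quot.mk (hullE (sX X)) v ∧ ∃ j : ℤ, o + b + 5 ≤ j ∧
      j ≤ o + a - 5 + M ∧ v ∈ RR (12 * η) (52 * η) (100 * η) W j) :
    LXW H.gp (RC H.gp (Rws η W o n M)) (RC H.gp (T₁ η W (o + a) (o + b + 1))) L
      (rcol H.gp (cX X) H.hull) q (T n) := by
  have e0 := H.e0
  have d0 := H.d0
  have de := H.de
  have w1 := w.al
  have w2 := w.lb
  have w3 := w.room
  have hR : ∀ s ∈ sX X, s ∈ BR η W M o n →
      ∃ c ∈ RC H.gp (Rws η W o n M), c.1 = Quot.mk (hullE (sX X)) s :=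
    fun s hs hb => rws_out H E.h3 hs hb
  have hR' : ∀ c ∈ RC H.gp (Rws η W o n M), ∃ s ∈ sX X, s ∈ BR η W M o n ∧ c.1 = Quot.mk _ s := by
    rintro c ⟨v, h1, h2, -, e⟩
    exact ⟨v, h1, h2, e⟩
  have sL : Sg A (o + (a - 2)) := by
    obtain ⟨k, h1, h2⟩ := w.gl
    exact ⟨k, by omega, by omega⟩
  have sR : Sg A (o + (b + 3)) := by
    obtain ⟨k, h1, h2⟩ := w.gr
    exact ⟨k, by omega, by omega⟩
  intro κ _ qq B
  set Z' : Set (Cs H.gp) := {c | c ∈ Ac (rc0 H.gp) qq (rcol H.gp (cX X) H.hull) ∨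
    (c ∈ RC H.gp (Rws η W o n M) ∧ rcol H.gp (cX X) H.hull c = 0)} with hZ'
  have eZ : Zt (RC H.gp (Rws η W o n M)) (RC H.gp (T₁ η W (o + a) (o + b + 1)))
      (Ac (rc0 H.gp) qq (rcol H.gp (cX X) H.hull)) (rcol H.gp (cX X) H.hull) =
      Z' ∪ RC H.gp (T₁ η W (o + a) (o + b + 1)) := by
    ext c
    simp only [Zt, hZ', Set.mem_ofPred_eq, Set.mem_union]
    tauto
  have hZ : Z' ⊆ ZH H (RC H.gp (Rws η W o n M)) q T := by
    rintro c (h | h)
    · exact PLSx535.mem_zc.2 (Or.inl (B.Ac_sub h))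
    · exact PLSx535.mem_zc.2 (Or.inr h)
  have key := lx_S (gL := o + (a - 2)) (gR := o + (b + 3)) E hZ (blk_ZH St hR') sL sR (by omega)
    (by omega) hw0 hw (gd_L St G hf hR hR' foot hl w.toWd)
    (gd_R St G hf hR hR' foot l0 w.toWd)
    (fun v _ hv => nK0 St G hf hR (hK hv)) (T := RC H.gp (T₁ η W (o + a) (o + b + 1))) (by
      rintro c ⟨v, h1, ⟨k, k1, k2, h2⟩, h4, e⟩
      exact ⟨v, h1, h4, e, k, by omega, by omega, h2⟩)
  rw [eZ]
  constructor
  · intro c hc h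
    obtain ⟨v, hv, e, j, j1, j2, h1⟩ := hL c hc
    refine key.1 c v e (Or.inl ⟨j, by omega, by omega, ?_⟩) h
    exact RR_mono (by linarith) (by linarith) _ W j h1
  · intro c hc h
    obtain ⟨v, hv, e, j, j1, j2, h1⟩ := hL c hc
    have hvU : v ∈ U := H.sub_U (by linarith) (by linarith) _ h1
    refine Or.inr (key.2 c v e (H.inn hvU) (fun u hu => Or.inl ⟨j, by omega, by omega, ?_⟩) h)
    have h2 := H.step hvU hu
    have h3 := TilUx496.thick (t := η) H.path h1 (u := u) (by linarith)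
    exact RR_mono (by linarith) (by linarith) _ W j h3

end Crest.Agent.R143.LocZx776
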