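import Crest.Agent.R143.RigZd_609

/-!
# Row 143 (S0194), RIG: all environments (helper609)

* `PosP Z` : positivity of the template with absolute constants (653 PosF)
* **`Op Z u w`** : the open inputs for one polygon and one white label, one field per box
* `lowN`, `E1`, `a1_dl`, `rho_t3` : the limits
* `Op.l1d` : `L1D` for small `e0`, large `N`, small `ε`; **`Op.rigW`** : 854's contract
* **`rig_of_op`** : `POLY Poly.T Poly.T'` (= `FinCx894.Rig`)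
-/

set_option autoImplicit false
set_option linter.style.haveILetI false

noncomputable section

open scoped Classical

namespace Crest.Agent.R143.RigZx609

open MeasureTheory Set Filter Topology
open scoped ENNReal
open Crest.ProbabilityR.Voronoi
open Crest.Agent.R143.PP0x831 Crest.Agent.R143.Dbl2x609 Crest.Agent.R143.B0x346
open Crest.Agent.R143.MeasPx609 Crest.Agent.R143.MeasDx609 Crest.Agent.R143.InpIx609
  Crest.Agent.R143.InpJx609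
open Crest.Agent.R143.PolyUx346 (Poly)
open Crest.Agent.R143.AsmNx758 (POLY)
open Crest.Agent.R143.IndLoc3x279 (clr)
open Crest.Agent.R143.EnvIx279
open Crest.Agent.R143.CorMx970 (tot)
open Crest.Agent.R143.RigCx654 Crest.Agent.R143.RigDx654
open Crest.Agent.R143.PolyQx854 Crest.Agent.R143.PolySx854 Crest.Agent.R143.PolyEx854
open Crest.Agent.R143.RigPx854
open Crest.Agent.R143.RigZdx609
open Crest.Agent.R143.CorEx133 (RU UU SU)
open Crest.Agent.R143.QuenSx654 (SmE sme_env)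
open Crest.Agent.R143.LimSx133
open Crest.Agent.R143.SpMx169 (fP fP_meas)

attribute [local instance] probS

/-! ### the open inputs -/

/-- positivity of the template, absolute constants (653 PosF) -/
def PosP (Z : TData) : Prop := ∃ cc > 0, ∃ c0 > 0, ∀ N : ℕ, ∀ᶠ ε : ℝ in 𝓝[>] 0, ∀ he : 0 < ε,
  ENNReal.ofReal cc ≤ Z.c N ε ∧ ENNReal.ofReal c0 ≤ ∫⁻ ω, (Z.tpl N he).A (cfg ε ω) ∂sampleLaw

/-- quenched data exist at one environment -/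
def QuenX (n r c : ℕ) (S : Finset ℂ) (g : Set (ℂ × Bool) → ℝ)
    (V : ℕ → Set (ℂ × Bool) → ℂ) (a b : Set (ℂ × Bool) → ℕ) (t T : ℂ) (E1 a2 θ Q : ℝ) : Prop :=
  ∃ (Vβ Vγ : Finset ℂ → Finset ℂ → ℂ) (TK : Finset ℂ → ℂ) (W : ℕ → Finset ℂ → Finset ℂ → ℂ)
    (ka kb : Finset ℂ → Finset ℂ → ℕ), Quen n r c S g V a b t T E1 a2 θ Q Vβ Vγ TK W ka kb

/-- `∀ᶠ N, ∀ᶠ ε, ∀ hn he` -/
def Ev (u : Poly) (P : ∀ (N : ℕ) (ε : ℝ), u.n + 4 ≤ N → 0 < ε → Prop) : Prop :=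
  ∀ᶠ N : ℕ in atTop, ∀ᶠ ε : ℝ in 𝓝[>] 0, ∀ (hn : u.n + 4 ≤ N) (he : 0 < ε), P N ε hn he

/-- **open inputs of RIG** for the polygon `u` and the white label `w` (type `w + 1`) -/
structure Op (Z : TData) (u : Poly) (w : ZMod 3) where
  C1 : ℝ
  C3 : ℝ
  C7 : ℝ
  /-- size of the loops (304 SmI) -/
  k : ℕ → ℝ
  /-- index distance (854 `rT`) -/
  r : ℝ → ℕ → ℕ
  /-- number of the partial tiles -/
  c : ℕ
  Q : ℕ → ℝ → Sample → ℝ
  bad : ℝ → ℕ → ℝ → Set Sample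
  a2 : ℝ → ℕ → ℝ → ℝ
  θ : ℝ → ℕ → ℝ → ℝ
  /-- displacement error -/
  cd : ℝ → ℕ → ℝ → ℝ
  hC1 : 0 ≤ C1
  hk : ∀ N, 0 < k N
  hr : ∀ᶠ e0 : ℝ in 𝓝[>] 0, ∀ᶠ N in atTop, (r e0 N : ℝ) ≤ C7 * (e0 / hN N + 1)
  /-- (9) MomI: second moments -/
  mom : Ev u fun N ε hn he => ∀ l ∈ Finset.range (nT u w N),
    Integrable (fun ω => gW Z u w hn he (cfg ε ω) * ‖VL Z fP u w ε hn l (cfg ε ω)‖ ^ 2)
      sampleLaw ∧
    ∫ ω, gW Z u w hn he (cfg ε ω) * ‖VL Z fP u w ε hn l (cfg ε ω)‖ ^ 2 ∂sampleLaw ≤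
      (C1 * hN N) ^ 2 * g0 Z u w hn he
  /-- (9) MomI: quenched majorant -/
  hQ : Ev u fun N ε hn he => (∀ ω, 0 ≤ Q N ε ω) ∧ Integrable (Q N ε) sampleLaw ∧
    ∫ ω, Q N ε ω ∂sampleLaw ≤ C3 ^ 2 * hN N * g0 Z u w hn he
  /-- (13) BadI -/
  hbad : ∀ᶠ e0 : ℝ in 𝓝[>] 0, ∀ᶠ N : ℕ in atTop, ∀ η > 0, ∀ᶠ ε : ℝ in 𝓝[>] 0,
    sampleLaw (bad e0 N ε) ≤ ENNReal.ofReal η
  ha : T3 atTop a2
  ha0 : ∀ᶠ e0 : ℝ in 𝓝[>] 0, ∀ᶠ N in atTop, ∀ᶠ ε : ℝ in 𝓝[>] 0, 0 ≤ a2 e0 N ε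
  hθ : T3 atTop θ
  hθ0 : ∀ᶠ e0 : ℝ in 𝓝[>] 0, ∀ᶠ N in atTop, ∀ᶠ ε : ℝ in 𝓝[>] 0, 0 ≤ θ e0 N ε
  hcd : T3 atTop cd
  /-- (1) - (7) QuenI: one environment -/
  quen : ∀ᶠ e0 : ℝ in 𝓝[>] 0, Ev u fun N ε hn he => ∀ᵐ ω ∂sampleLaw, ω ∉ bad e0 N ε →
    ∀ E : ℝ, SmE ε ω (UU u) (k N) E →
      QuenX (nT u w N) (r e0 N) c (SU u ε ω) (gW Z u w hn he) (VL Z fP u w ε hn) (tA u w N ε)
        (tB u w N ε) om (tI (mv u ε ω) (w + 1)) E (a2 e0 N ε) (θ e0 N ε) (Q N ε ω)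
  /-- (12) DispK -/
  disp : ∀ᶠ e0 : ℝ in 𝓝[>] 0, Ev u fun N ε _ _ => ∃ dd : Sample → ℝ, Integrable dd sampleLaw ∧
    ∫ ω, dd ω ∂sampleLaw ≤ cd e0 N ε ∧
      ∀ᵐ ω ∂sampleLaw, ‖dI (mv u ε ω) (w + 1) - ∑ l ∈ JT u w N, zL u w N l *
        (qo (SU u ε) (tA u w N ε) (tB u w N ε) l ω : ℂ)‖ ≤ dd ω

/-! ### limits -/

theorem Ev.and {u : Poly} {P P' : ∀ (N : ℕ) (ε : ℝ), u.n + 4 ≤ N → 0 < ε → Prop} (h : Ev u P)
    (h' : Ev u P') : Ev u fun N ε hn he => P N ε hn he ∧ P' N ε hn he := by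
  unfold Ev at *
  filter_upwards [h, h'] with N h1 h2
  filter_upwards [h1, h2] with ε h3 h4 hn he
  exact ⟨h3 hn he, h4 hn he⟩

section lim

variable {Z : TData} {u : Poly} {w : ZMod 3}

/-- mass of the weight, total function -/
def gt0 (Z : TData) (u : Poly) (w : ZMod 3) (N : ℕ) (ε : ℝ) : ℝ :=
  if h : u.n + 4 ≤ N ∧ 0 < ε then g0 Z u w h.1 h.2 else 1

theorem gt0_eq {N : ℕ} {ε : ℝ} (hn : u.n + 4 ≤ N) (he : 0 < ε) :
    gt0 Z u w N ε = g0 Z u w hn he := by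
  unfold gt0
  rw [dif_pos ⟨hn, he⟩]

theorem g0_lower {N : ℕ} {ε : ℝ} (hn : u.n + 4 ≤ N) (he : 0 < ε) {cc c0 : ℝ} (h1 : 0 ≤ cc)
    (h2 : 0 ≤ c0) (hc : ENNReal.ofReal cc ≤ Z.c N ε)
    (hA : ENNReal.ofReal c0 ≤ ∫⁻ ω, (Z.tpl N he).A (cfg ε ω) ∂sampleLaw) :
    cc ^ (ly u N).M * c0 ^ (ly u N).M ≤ g0 Z u w hn he := by
  have := neM hn
  have h3 := pth_g0_ge (Crest.Agent.R143.CorNx765.cpth (fp hn) (Z.std N he) (ly u N).A (ly u N).e w)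
    (I := uM hn) (J := uM hn) (fun k _ => ⟨Finset.mem_univ _, Finset.mem_univ _⟩) h1 h2 hc hA
  have h4 : (uM hn).card = (ly u N).M := by
    unfold uM
    rw [Finset.card_univ, ZMod.card]
  rw [h4] at h3
  exact h3

theorem lowN (hp : PosP Z) (u : Poly) (w : ZMod 3) : ∀ᶠ N : ℕ in atTop, LowN (gt0 Z u w N) := by
  obtain ⟨cc, h1, c0, h2, h3⟩ := hp
  filter_upwards [eventually_ge_atTop (u.n + 4)] with N hn
  refine lowN_of h1 h2 (ly u N).M (ly u N).M ?_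
  filter_upwards [h3 N, self_mem_nhdsWithin] with ε h4 (he : 0 < ε)
  rw [gt0_eq hn he]
  obtain ⟨h5, h6⟩ := h4 he
  exact g0_lower hn he h1.le h2.le h5 h6

theorem UU_bdd (u : Poly) : Bornology.IsBounded (UU u) := Metric.isBounded_closedBall

/-- 304's error function for the size `k` -/
def E1 (u : Poly) {k : ℝ} (hk : 0 < k) : ℝ → Sample → ℝ := (sme_env hk (UU_bdd u)).choose

theorem E1_spec (u : Poly) {k : ℝ} (hk : 0 < k) :
    (∀ ε, 0 < ε → Measurable (E1 u hk ε)) ∧ (∀ ε ω, 0 ≤ E1 u hk ε ω) ∧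
      (∀ᶠ ε in 𝓝[>] (0 : ℝ), Integrable (E1 u hk ε) sampleLaw) ∧
      Tendsto (fun ε : ℝ => ∫ ω, E1 u hk ε ω ∂sampleLaw) (𝓝[>] 0) (𝓝 0) ∧
      ∀ᶠ ε in 𝓝[>] (0 : ℝ), ∀ᵐ ω ∂sampleLaw, SmE ε ω (UU u) k (E1 u hk ε ω) :=
  (sme_env hk (UU_bdd u)).choose_spec

namespace Op

variable (O : Op Z u w)

/-- first error -/
def a1 (N : ℕ) (ε : ℝ) : ℝ := (∫ ω, E1 u (O.hk N) ε ω ∂sampleLaw) / gt0 Z u w N ε

theorem a1_dl (hp : PosP Z) : DL atTop O.a1 :=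
  dl_div (lowN hp u w) (Eventually.of_forall fun N => (E1_spec u (O.hk N)).2.2.2.1)

/-- relative probability of the bad set -/
def rho (e0 : ℝ) (N : ℕ) (ε : ℝ) : ℝ := sampleLaw.real (O.bad e0 N ε) / gt0 Z u w N ε

theorem rho_t3 (hp : PosP Z) : T3 atTop O.rho := by
  refine t3_of_dl ?_
  filter_upwards [O.hbad] with e0 h
  exact dl_bad (lowN hp u w) h

/-- partial tiles constant -/
def q (N : ℕ) : ℝ := √(2 * O.c) * |O.C3| * √(hN N)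

theorem q_sq (N : ℕ) : O.q N ^ 2 = 2 * O.c * (O.C3 ^ 2 * hN N) := by
  unfold q
  rw [mul_pow, mul_pow, sq_abs, Real.sq_sqrt (by positivity), Real.sq_sqrt (hN_pos N).le]
  ring

theorem q_nonneg (N : ℕ) : 0 ≤ O.q N := by unfold q; positivity

/-- everything at one `(e0, N, ε)` -/
theorem core (hp' : PosP Z) : ∀ᶠ e0 : ℝ in 𝓝[>] 0, ∀ᶠ N : ℕ in atTop,
    ∀ᶠ ε : ℝ in 𝓝[>] 0,
      L1D om (kZ Z N ε) (fun ω => tI (mv u ε ω) (w + 1)) (fun ω => dI (mv u ε ω) (w + 1))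
        (tot (nT u w N) (O.r e0 N + O.c) (JT u w N) (O.a1 N ε)
          (O.a2 e0 N ε + 3 * Mb u * O.rho e0 N ε) (O.C1 * hN N) (O.q N) (O.q N) (O.cd e0 N ε)
          (O.θ e0 N ε) (O.rho e0 N ε) ‖kZ Z N ε‖) ∧
      ∀ l ∈ JT u w N, ‖kZ Z N ε‖ * ‖zL u w N l‖ ≤ O.C1 * hN N := by
  have hL := lowN hp' u w
  obtain ⟨cc, hcc, c0, hc0, hpos⟩ := hp'
  have hA : Ev u fun N ε _ he => ∫⁻ ω, (Z.tpl N he).A (cfg ε ω) ∂sampleLaw ≠ 0 := by
    refine Eventually.of_forall fun N => ?_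
    filter_upwards [hpos N] with ε h _ he
    have h1 := (h he).2
    intro h2
    rw [h2] at h1
    exact absurd (ENNReal.ofReal_eq_zero.1 (le_antisymm h1 zero_le)) (not_le.2 hc0)
  have key := (hA.and O.mom).and O.hQ
  filter_upwards [O.quen, O.disp, O.ha0, O.hθ0] with e0 h1 h2 h3 h4
  have h5 := (h1.and h2).and key
  unfold Ev at h5
  filter_upwards [h5, h3, h4, eventually_ge_atTop (u.n + 4), hL] with N g1 g3 g4 hn g5
  obtain ⟨-, e2, e3, e4, e5⟩ := E1_spec u (O.hk N)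
  filter_upwards [g1, g3, g4, self_mem_nhdsWithin, g5.pos, e3, e5] with ε k1 k3 k4 he k5 k6 k7
  have he' : 0 < ε := he
  obtain ⟨⟨m1, dd, m2, m3, m4⟩, ⟨m5, m6⟩, m7, m8, m9⟩ := k1 hn he'
  have hI := inp Z fP_meas hn he' (w := w) fun l hl => (m6 l hl).1
  have hg : 0 < g0 Z u w hn he' := by
    rw [gt0_eq hn he'] at k5
    exact k5
  have ea : O.a1 N ε * g0 Z u w hn he' = ∫ ω, E1 u (O.hk N) ε ω ∂sampleLaw := by
    unfold a1
    rw [gt0_eq hn he', div_mul_cancel₀ _ hg.ne']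
  have er : O.rho e0 N ε * g0 Z u w hn he' = sampleLaw.real (O.bad e0 N ε) := by
    unfold rho
    rw [gt0_eq hn he', div_mul_cancel₀ _ hg.ne']
  have hrho : 0 ≤ O.rho e0 N ε := div_nonneg measureReal_nonneg k5.le
  have hgood : ∀ᵐ ω ∂sampleLaw, ω ∉ msb (O.bad e0 N ε) →
      Good (nT u w N) (O.r e0 N + O.c) (SU u ε) (gW Z u w hn he') (VL Z fP u w ε hn) (tA u w N ε)
        (tB u w N ε) om (tI (mv u ε ω) (w + 1)) (E1 u (O.hk N) ε ω) (O.a2 e0 N ε) (O.θ e0 N ε)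
        (2 * O.c * O.Q N ε ω) (2 * O.c * O.Q N ε ω) ω := by
    filter_upwards [m1, k7] with ω p1 p2 p3
    obtain ⟨Vβ, Vγ, TK, W, ka, kb, p4⟩ := p1 (fun h => p3 (sub_msb _ h)) _ p2
    exact p4.good norm_om1 hI.g0
  have hQi : Integrable (fun ω => 2 * (O.c : ℝ) * O.Q N ε ω) sampleLaw := m8.const_mul _
  have hQe : ∫ ω, 2 * (O.c : ℝ) * O.Q N ε ω ∂sampleLaw ≤ O.q N ^ 2 * g0 Z u w hn he' := by
    rw [integral_const_mul, q_sq]
    calc 2 * (O.c : ℝ) * ∫ ω, O.Q N ε ω ∂sampleLaw ≤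
        2 * (O.c : ℝ) * (O.C3 ^ 2 * hN N * g0 Z u w hn he') :=
          mul_le_mul_of_nonneg_left m9 (by positivity)
      _ = _ := by ring
  have henv := env_gen (T := fun ω => tI (mv u ε ω) (w + 1)) (D := fun ω => dI (mv u ε ω) (w + 1))
    (κ := kZ Z N ε) (z := zL u w N) hI norm_om1 (sig_tv he' u subset_rfl (w + 1))
    (sig_dv he' u subset_rfl (w + 1)) (fun ω => norm_tv he' u ω (w + 1))
    (fun ω => norm_dv he' u ω (w + 1)) (JT_sub u w N) hg (mul_nonneg O.hC1 (hN_pos N).le) k4 hrho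
    (O.q_nonneg N) (O.q_nonneg N) k3 (msb_meas (O.bad e0 N ε))
    (by rw [msb_real]; exact le_of_eq er.symm) hgood (e2 ε) k6 (le_of_eq ea.symm)
    (fun l hl => (m6 l hl).2) hQi (fun ω => mul_nonneg (by positivity) (m7 ω)) hQe hQi
    (fun ω => mul_nonneg (by positivity) (m7 ω)) hQe
    (fun l hl => mean Z hn he' m5 hl) m2 m3 m4
  refine ⟨henv.1, fun l hl => ?_⟩
  obtain ⟨gv, G, v, w', w2, o, na, nb, E2, h6, -⟩ := henv.2
  exact env_kappa h6 hl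

theorem kap (hp : PosP Z) : ∀ᶠ N : ℕ in atTop, ∀ᶠ ε : ℝ in 𝓝[>] 0,
    ‖kZ Z N ε‖ ≤ O.C1 := by
  obtain ⟨e0, h⟩ := (O.core hp).exists
  filter_upwards [h, nz u w] with N h1 h2
  obtain ⟨l, hl, h3⟩ := h2
  filter_upwards [h1] with ε h4
  have h5 := h4.2 l hl
  have h6 : ‖kZ Z N ε‖ * hN N ≤ ‖kZ Z N ε‖ * ‖zL u w N l‖ :=
    mul_le_mul_of_nonneg_left h3 (norm_nonneg _)
  exact le_of_mul_le_mul_right (h6.trans h5) (hN_pos N)

/-- **854's contract** -/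
def rigW (hp : PosP Z) : RigW (fun N ε => om * kZ Z N ε) u w where
  C1 := O.C1
  C3 := √(2 * O.c) * |O.C3|
  C6 := O.C1
  C7 := |O.C7| + O.c
  r e0 N := O.r e0 N + O.c
  a1 := O.a1
  q N _ := O.q N
  q' N _ := O.q N
  c := O.cd
  a2 e0 N ε := O.a2 e0 N ε + 3 * Mb u * O.rho e0 N ε
  θ := O.θ
  ρ := O.rho
  hC1 := O.hC1
  hr := by
    filter_upwards [O.hr, self_mem_nhdsWithin] with e0 h1 (he0 : 0 < e0)
    filter_upwards [h1] with N h2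
    have h3 : 0 ≤ e0 / hN N := div_nonneg he0.le (hN_pos N).le
    have h4 : O.C7 * (e0 / hN N + 1) ≤ |O.C7| * (e0 / hN N + 1) :=
      mul_le_mul_of_nonneg_right (le_abs_self _) (by positivity)
    have h5 : (O.c : ℝ) ≤ O.c * (e0 / hN N + 1) := by
      nlinarith [Nat.cast_nonneg (α := ℝ) O.c]
    push_cast
    linarith
  hq := Eventually.of_forall fun _ => Eventually.of_forall fun _ => le_rfl
  hq' := Eventually.of_forall fun _ => Eventually.of_forall fun _ => le_rfl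
  hκ := by
    filter_upwards [O.kap hp] with N h1
    filter_upwards [h1] with ε h2
    rw [norm_mul, norm_om1, one_mul]
    exact h2
  h1 := O.a1_dl hp
  h2 := O.ha.add ((O.rho_t3 hp).const_mul (by have := (Mb_pos u).le; positivity))
  hθ := O.hθ
  hρ := O.rho_t3 hp
  hc := O.hcd
  hθ0 := O.hθ0
  lx := by
    filter_upwards [O.core hp] with e0 h1
    filter_upwards [h1] with N h2
    filter_upwards [h2, self_mem_nhdsWithin] with ε h3 he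
    have h4 := l1d_in he u w h3.1
    have h5 : ‖om * kZ Z N ε‖ = ‖kZ Z N ε‖ := by rw [norm_mul, norm_om1, one_mul]
    rw [h5]
    exact h4

end Op

/-- **RIG from the open inputs** -/
theorem rig_of_op (hp : PosP Z)
    (h : ∀ (u : Poly) (w : ZMod 3), Nonempty (Op Z u w)) : POLY Poly.T Poly.T' := by
  refine poly_of_rigW (κ := fun N ε => om * kZ Z N ε) fun u w => ?_
  obtain ⟨O⟩ := h u w
  exact ⟨O.rigW hp⟩

end lim

end Crest.Agent.R143.RigZx609
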