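import Crest.Agent.R143.MeasD_609
import Crest.Agent.R143.LimS_133
import Crest.Agent.R143.RigD_654
import Crest.Agent.R143.PolyE_854

/-!
# Row 143 (S0194), RIG: instance of `EnvIx279.Inp` and of `RigCx654.EnvX` for the frozen polygons
(helper609)

* `sig_m`, `sig_tI`, `sig_dI` : the mean end points of `PolyM_346` are measurable with respect to
  the points in any `U ⊇ Wn u ε`; `Mb u`, `norm_m`, `norm_tI`, `norm_dI` (`0 < ε ≤ 1`)
* `inp` : `Inp` for 978's weight (133's `gR`) on the region `C`, the window `Wn u ε`, sites in a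
  bounded Borel set
* **`envX_of`** : `Inp` + one inequality per environment (654's `Good`) + errors, moments, mean,
  displacement ⟹ `EnvX om κ (tI (m u)) (dI (m u)) e`
* `l1d_of_lx`, **`rig_t3`** : 654's data in 854's triple limit ⟹ `POLY Poly.T Poly.T'`
-/

set_option autoImplicit false
set_option linter.unusedSectionVars false

noncomputable section

open scoped Classical

namespace Crest.Agent.R143.InpIx609

open MeasureTheory Set Filter Topology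
open scoped ENNReal
open Crest.ProbabilityR.Voronoi
open Crest.Agent.R143.PP0x831 Crest.Agent.R143.Dbl2x609 Crest.Agent.R143.B0x346
open Crest.Agent.R143.MeasPx609 Crest.Agent.R143.MeasDx609
open Crest.Agent.R143.PolyUx346 (Poly)
open Crest.Agent.R143.IndLoc2x279 (sig sig_le sig_mono)
open Crest.Agent.R143.IndLoc3x279 (clr cav)
open Crest.Agent.R143.EnvIx279
open Crest.Agent.R143.CorMx970 (tot)
open Crest.Agent.R143.RigCx654 Crest.Agent.R143.RigDx654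
open Crest.Agent.R143.PolySx854 (DL)
open Crest.Agent.R143.PolyEx854 (L1D T3 polyP_of_t3)
open Crest.Agent.R143.AsmNx758 (POLY)
open Crest.Agent.R143.PWx978 Crest.Agent.R143.LimSx133

/-! ### the mean end points of 346 -/

variable {u : Poly} {ε : ℝ} {U C : Set ℂ}

/-- **exact measurability** -/
theorem sig_m (hε : 0 < ε) (u : Poly) (hU : Wn u ε ⊆ U) (i : ZMod 3) :
    Measurable[sig ε U] fun ω => PolyMx346.m u ε ω i :=
  sig_mU hε (bdd_Wn u ε) hU (closed_Wn u ε).measurableSet (meas_deep u _) (meas_Lab u) i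
    measurable_id

theorem sig_tI (hε : 0 < ε) (u : Poly) (hU : Wn u ε ⊆ U) (i : ZMod 3) :
    Measurable[sig ε U] fun ω => tI (PolyMx346.m u ε ω) i :=
  ((sig_m hε u hU (i + 1)).add ((sig_m hε u hU (i + 2)).const_mul om)).add
    ((sig_m hε u hU i).const_mul (om ^ 2))

theorem sig_dI (hε : 0 < ε) (u : Poly) (hU : Wn u ε ⊆ U) (i : ZMod 3) :
    Measurable[sig ε U] fun ω => dI (PolyMx346.m u ε ω) i :=
  (sig_m hε u hU i).sub (sig_m hε u hU (i + 1))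

theorem sig_a (hε : 0 < ε) (u : Poly) (hU : Wn u ε ⊆ U) :
    Measurable[sig ε U] (PolyMx346.a u ε) := by
  unfold PolyMx346.a
  exact (Finset.measurable_fun_sum _ fun j _ => (sig_m hε u hU j).const_mul (omz j)).neg

theorem sig_D (hε : 0 < ε) (u : Poly) (hU : Wn u ε ⊆ U) (k : ZMod 3) :
    Measurable[sig ε U] fun ω => PolyMx346.D u ε ω k :=
  (sig_m hε u hU (k + 2)).sub (sig_m hε u hU (k + 1))

theorem exists_bd (u : Poly) : ∃ R : ℝ, 0 < R ∧ ∀ ε : ℝ, ε ≤ 1 → ∀ x ∈ Wn u ε, ‖x‖ ≤ R := by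
  obtain ⟨R, hR⟩ := (isCompact_P u).isBounded.subset_closedBall 0
  refine ⟨|R| + 101, by positivity, fun ε hε x hx => ?_⟩
  obtain ⟨y, hy, he⟩ := (isCompact_P u).exists_infDist_eq_dist (P_nonempty u) x
  have h1 : dist x y ≤ 100 * √ε := by rw [← he]; exact hx
  have h2 := hR hy
  rw [Metric.mem_closedBall, dist_zero_right] at h2
  have h3 : √ε ≤ 1 := Real.sqrt_le_one.2 hε
  have h4 : ‖x‖ ≤ ‖y‖ + dist x y := by
    rw [dist_eq_norm]
    have := norm_add_le y (x - y)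
    rwa [add_sub_cancel] at this
  have := le_abs_self R
  linarith

/-- a bound of the window -/
def Mb (u : Poly) : ℝ := (exists_bd u).choose

theorem Mb_pos (u : Poly) : 0 < Mb u := (exists_bd u).choose_spec.1

theorem norm_Wn (u : Poly) (hε : ε ≤ 1) {x : ℂ} (hx : x ∈ Wn u ε) : ‖x‖ ≤ Mb u :=
  (exists_bd u).choose_spec.2 ε hε x hx

/-- the mean end points are bounded at EVERY sample -/
theorem norm_m (hε : 0 < ε) (hε1 : ε ≤ 1) (u : Poly) (ω : Sample) (i : ZMod 3) :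
    ‖PolyMx346.m u ε ω i‖ ≤ Mb u := by
  rw [m_eq]
  refine norm_mU (Mb_pos u).le (fun v hv => ?_) i
  have : v ∈ (Ap ε (Wn u ε) ω : Set ℂ) := hv
  rw [coe_Ap hε (bdd_Wn u ε)] at this
  exact norm_Wn u hε1 this.2

theorem norm_om1 : ‖om‖ = 1 := Alg4x133.norm_om

theorem norm_tI (hε : 0 < ε) (hε1 : ε ≤ 1) (u : Poly) (ω : Sample) (i : ZMod 3) :
    ‖tI (PolyMx346.m u ε ω) i‖ ≤ 3 * Mb u := by
  unfold tI
  refine (norm_add_le _ _).trans ?_
  have h0 := norm_m hε hε1 u ω i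
  have h1 := norm_m hε hε1 u ω (i + 1)
  have h2 := norm_m hε hε1 u ω (i + 2)
  have h3 : ‖om * PolyMx346.m u ε ω (i + 2)‖ ≤ Mb u := by
    rw [norm_mul, norm_om1, one_mul]; exact h2
  have h4 : ‖om ^ 2 * PolyMx346.m u ε ω i‖ ≤ Mb u := by
    rw [norm_mul, norm_pow, norm_om1, one_pow, one_mul]; exact h0
  linarith [norm_add_le (PolyMx346.m u ε ω (i + 1)) (om * PolyMx346.m u ε ω (i + 2))]

theorem norm_dI (hε : 0 < ε) (hε1 : ε ≤ 1) (u : Poly) (ω : Sample) (i : ZMod 3) :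
    ‖dI (PolyMx346.m u ε ω) i‖ ≤ 2 * Mb u := by
  unfold dI
  have h0 := norm_m hε hε1 u ω i
  have h1 := norm_m hε hε1 u ω (i + 1)
  linarith [norm_sub_le (PolyMx346.m u ε ω i) (PolyMx346.m u ε ω (i + 1))]

/-- the two conventions for the displacement -/
theorem dI_eq (u : Poly) (ε : ℝ) (ω : Sample) (i : ZMod 3) :
    dI (PolyMx346.m u ε ω) i = -PolyMx346.D u ε ω (i + 2) := by
  unfold dI PolyMx346.D
  have e1 : i + 2 + 2 = i + 1 := by revert i; decide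
  have e2 : i + 2 + 1 = i := by revert i; decide
  rw [e1, e2]
  ring

theorem int_of_sig (hε : 0 < ε) (hU : MeasurableSet U) (hUb : Bornology.IsBounded U)
    {X : Sample → ℂ} (hX : Measurable[sig ε U] X) {B : ℝ} (hB : ∀ ω, ‖X ω‖ ≤ B) :
    Integrable X sampleLaw := by
  have : IsProbabilityMeasure sampleLaw := probS
  exact Integrable.of_bound ((hX.mono (sig_le hε hU hUb) le_rfl).aestronglyMeasurable) B
    (ae_of_all _ hB)

/-! ### the instance of `Inp` -/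

section inp

variable {ι κ : Type*}

/-- **`Inp`** for the weight of a net, the window of the polygon, the sites in a bounded set `W` -/
theorem inp (M : Net ε ι κ) {I : Finset ι} {J : Finset κ} (hN : ∀ k ∈ J, M.N k ⊆ I)
    (hU : MeasurableSet U) (hUb : Bornology.IsBounded U) (hd : Disjoint (M.reg I J) U)
    {W : Set ℂ} (hWb : Bornology.IsBounded W) (hCW : M.reg I J ⊆ W) (hUW : U ⊆ W) {n : ℕ}
    {V : ℕ → Set (ℂ × Bool) → ℂ} {a b : Set (ℂ × Bool) → ℕ}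
    (Vl : ∀ l ∈ Finset.range n, LocalOn (M.reg I J) (V l))
    (Vm : ∀ l ∈ Finset.range n, FinMeas (V l))
    (V2 : ∀ l ∈ Finset.range n,
      Integrable (fun ω => gR M I J (cfg ε ω) * ‖V l (cfg ε ω)‖ ^ 2) sampleLaw)
    (al : LocalOn U a) (am : FinMeas a) (bl : LocalOn U b) (bm : FinMeas b) :
    Inp ε (M.reg I J) U n (Ap ε W) (gR M I J) V a b where
  hε := M.eps
  hC := M.reg_meas I J
  hCb := M.reg_bdd I J
  hU := hU
  hUb := hUb
  hd := hd
  hS := ae_of_all _ fun ω => by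
    rw [coe_Ap M.eps hWb]
    exact ⟨inter_subset_left, inter_subset_inter_right _ (union_subset hCW hUW)⟩
  gl := gR_local M hN
  gm := gR_fm M I J
  g0 := gR_nonneg M I J
  g1 := gR_le_one M I J
  Vl := Vl
  Vm := Vm
  V2 := V2
  al := al
  am := am
  bl := bl
  bm := bm

end inp

/-! ### the instance of `EnvX` -/

section env

variable {n r : ℕ} {S : Sample → Finset ℂ} {g : Set (ℂ × Bool) → ℝ}
  {V : ℕ → Set (ℂ × Bool) → ℂ} {a b : Set (ℂ × Bool) → ℕ}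

/-- **`EnvX` for the polygon `u`, type `i`** -/
theorem envX_of (h : Inp ε C U n S g V a b) (hε1 : ε ≤ 1) (hW : Wn u ε ⊆ U) (i : ZMod 3)
    {J : Finset ℕ} {κ : ℂ} {z : ℕ → ℂ} {a1 a2 K q q' c θ ρ e : ℝ} {bad : Set Sample}
    {Q Q' E1 dd : Sample → ℝ} (J_le : J ⊆ Finset.range n)
    (g0_pos : 0 < ∫ ω, g (cfg ε ω) ∂sampleLaw) (K0 : 0 ≤ K) (θ0 : 0 ≤ θ) (ρ0 : 0 ≤ ρ)
    (q0 : 0 ≤ q) (q0' : 0 ≤ q') (ha2 : 0 ≤ a2) (mbad : MeasurableSet bad)
    (hbad : sampleLaw.real bad ≤ ρ * ∫ ω, g (cfg ε ω) ∂sampleLaw)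
    (good : ∀ᵐ ω ∂sampleLaw, ω ∉ bad → Good n r S g V a b om (tI (PolyMx346.m u ε ω) i)
      (E1 ω) a2 θ (Q ω) (Q' ω) ω)
    (hE : ∀ ω, 0 ≤ E1 ω) (i1 : Integrable E1 sampleLaw)
    (e1 : ∫ ω, E1 ω ∂sampleLaw ≤ a1 * ∫ ω, g (cfg ε ω) ∂sampleLaw)
    (e3 : ∀ l ∈ Finset.range n, ∫ ω, g (cfg ε ω) * ‖V l (cfg ε ω)‖ ^ 2 ∂sampleLaw ≤
      K ^ 2 * ∫ ω, g (cfg ε ω) ∂sampleLaw)
    (iQ : Integrable Q sampleLaw) (Q0 : ∀ ω, 0 ≤ Q ω)
    (eQ : ∫ ω, Q ω ∂sampleLaw ≤ q ^ 2 * ∫ ω, g (cfg ε ω) ∂sampleLaw)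
    (iQ' : Integrable Q' sampleLaw) (Q0' : ∀ ω, 0 ≤ Q' ω)
    (eQ' : ∫ ω, Q' ω ∂sampleLaw ≤ q' ^ 2 * ∫ ω, g (cfg ε ω) ∂sampleLaw)
    (mean : ∀ l ∈ J, ∫ ω, (g (cfg ε ω) : ℂ) * V l (cfg ε ω) ∂sampleLaw =
      ((∫ ω, g (cfg ε ω) ∂sampleLaw : ℝ) : ℂ) * (κ * z l))
    (idd : Integrable dd sampleLaw) (edd : ∫ ω, dd ω ∂sampleLaw ≤ c)
    (disp : ∀ᵐ ω ∂sampleLaw,
      ‖dI (PolyMx346.m u ε ω) i - ∑ l ∈ J, z l * (qo S a b l ω : ℂ)‖ ≤ dd ω)
    (he : tot n r J a1 (a2 + 3 * Mb u * ρ) K q q' c θ ρ ‖κ‖ ≤ e) :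
    EnvX om κ (fun ω => tI (PolyMx346.m u ε ω) i) (fun ω => dI (PolyMx346.m u ε ω) i) e := by
  have hT := sig_tI h.hε u hW i
  have hD := sig_dI h.hε u hW i
  have Tb := fun ω => norm_tI h.hε hε1 u ω i
  have iD : Integrable (fun ω => dI (PolyMx346.m u ε ω) i) sampleLaw :=
    int_of_sig h.hε h.hU h.hUb hD fun ω => norm_dI h.hε hε1 u ω i
  have hM : 0 ≤ 3 * Mb u := by linarith [Mb_pos u]
  have h2 := E2_int (a2 := a2) hM mbad hbad h.iG h.eG
  have hmain := main_of (T := fun ω => tI (PolyMx346.m u ε ω) i) norm_om1 h.g0 h.g1 ha2 θ0 hE Tb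
    good
  have henv := h.env (t := om) (κ := κ) (z := z) J_le g0_pos K0 θ0 ρ0 q0 q0' norm_om1 mbad hbad
    hmain i1 e1 h2.1 h2.2 e3 iQ Q0 eQ iQ' Q0' eQ' mean hT Tb iD idd edd disp
  have hX : Measurable[sig ε U] fun ω =>
      om * tI (PolyMx346.m u ε ω) i + κ * dI (PolyMx346.m u ε ω) i :=
    Measurable.add (Measurable.const_mul hT om) (Measurable.const_mul hD κ)
  exact ⟨n, r, J, z, _, a1, a2 + 3 * Mb u * ρ, K, q, q', c, θ, ρ, _, bad, _, _, _, _, _, _, _, Q,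
    Q', E1, _, dd, sig ε U, _, henv, hX, Filter.EventuallyEq.rfl,
    fun f hf f1 => h.envF hT Tb hf f1, he⟩

end env

/-! ### phases -/

theorem a_eq (u : Poly) (ε : ℝ) (ω : Sample) :
    PolyMx346.a u ε ω = -sg (PolyMx346.m u ε ω) := rfl

theorem D_eq (u : Poly) (ε : ℝ) (ω : Sample) (k : ZMod 3) :
    PolyMx346.D u ε ω k = RigCx654.dd (PolyMx346.m u ε ω) k := rfl

/-- 654's phase at the type `k + 1` is 854's phase at the white class `k` -/
theorem l1d_of_lx (hε : 0 < ε) (hε1 : ε ≤ 1) (u : Poly) (k : ZMod 3) {κ : ℂ} {e : ℝ}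
    (h : Lx om κ (fun ω => tI (PolyMx346.m u ε ω) (k + 1))
      (fun ω => dI (PolyMx346.m u ε ω) (k + 1)) e) :
    L1D (omz k ^ 2) (om * κ) (PolyMx346.a u ε) (fun ω => PolyMx346.D u ε ω k) e := by
  have hW := (closed_Wn u ε).measurableSet
  have hWb := bdd_Wn u ε
  refine ⟨?_, ?_, ?_⟩
  · refine int_of_sig hε hW hWb (sig_a hε u subset_rfl) (B := 3 * Mb u) fun ω => ?_
    unfold PolyMx346.a
    rw [norm_neg]
    refine (norm_sum_le _ _).trans ?_
    refine (Finset.sum_le_sum fun i _ => show _ ≤ Mb u by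
      rw [norm_mul, Alg4x133.norm_omz, one_mul]; exact norm_m hε hε1 u ω i).trans ?_
    rw [Finset.sum_const, Finset.card_univ, ZMod.card, nsmul_eq_mul]
    push_cast
    exact le_rfl
  · refine int_of_sig hε hW hWb (sig_D hε u subset_rfl k) (B := 2 * Mb u) fun ω => ?_
    have h1 := norm_m hε hε1 u ω (k + 2)
    have h2 := norm_m hε hε1 u ω (k + 1)
    unfold PolyMx346.D
    linarith [norm_sub_le (PolyMx346.m u ε ω (k + 2)) (PolyMx346.m u ε ω (k + 1))]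
  · refine le_trans (le_of_eq ?_) h.le
    refine integral_congr_ae (ae_of_all _ fun ω => ?_)
    have h3 := key_norm (PolyMx346.m u ε ω) κ k
    simp only
    rw [← h3, a_eq, D_eq]
    congr 1
    ring

/-- **RIG in the triple limit, 654's phases** (type `i`, `t = om`) -/
theorem rig_t3 {I : Type} {𝓁 : Filter I} [𝓁.NeBot] {κ : I → ℝ → ℂ}
    {e : Poly → ZMod 3 → ℝ → I → ℝ → ℝ} (he : ∀ u i, T3 𝓁 (e u i))
    (h : ∀ u i, ∀ᶠ e0 : ℝ in 𝓝[>] 0, ∀ᶠ N in 𝓁, ∀ᶠ ε : ℝ in 𝓝[>] 0,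
      EnvX om (κ N ε) (fun ω => tI (PolyMx346.m u ε ω) i) (fun ω => dI (PolyMx346.m u ε ω) i)
        (e u i e0 N ε)) : POLY Poly.T Poly.T' := by
  refine polyP_of_t3 (𝓁 := 𝓁) (κ := fun N ε => om * κ N ε) (e := fun u k => e u (k + 1))
    (fun u k => he u (k + 1)) fun u k => ?_
  filter_upwards [h u (k + 1)] with e0 h0
  filter_upwards [h0] with N h1
  have h3 : ∀ᶠ ε : ℝ in 𝓝[>] 0, ε ≤ 1 := nhdsWithin_le_nhds (eventually_le_nhds one_pos)
  filter_upwards [h1, self_mem_nhdsWithin, h3] with ε h2 hε hε1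
  exact l1d_of_lx hε hε1 u k h2.lx

end Crest.Agent.R143.InpIx609
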