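import Crest.Agent.R143.CorE_133
import Crest.Agent.R143.CorL_765
import Crest.Agent.R143.InpI_609
import Crest.Agent.R143.GPosC_348

/-!
# Row 143 (S0194), block RIG: corridors, windows and discs (helper749)

`H : LayU u m M p W A e`, side `h` of the tiles with `m h = u.s`, tile regions `Rall a' b' h W`.
* `off_P`, `off_Wn` : the tile regions are disjoint from `u.P` and from the window `Wn u ε`
  (`100 √ε < h - a'`); `off_Wn_ev` : for all small `ε`
* `sub_UU`, `sub_RU`, `P_RU`, `Wn_UU`, `Wn_RU`, `UU_RU` : everything is in the disc of `SU u`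
* `reg_off_P`, `reg_off_Wn`, `reg_sub_UU`, `reg_sub_RU` : the same for the region of 765's net
* `hS_SU`, `hS_all` : the sites of the regions and windows are in `SU u ε ω`
* **`inp_SU`** : 279's `Inp` with `S = SU u ε` (609's `inp`)
-/

set_option autoImplicit false
set_option linter.unusedSectionVars false

noncomputable section

open scoped Classical

namespace Crest.Agent.R143.DisIx749

open MeasureTheory Set Filter Topology
open Crest.ProbabilityR.Voronoi
open Crest.Agent.R143.PP0x831 Crest.Agent.R143.Dbl2x609 Crest.Agent.R143.B0x346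
open Crest.Agent.R143.MeasPx609 Crest.Agent.R143.PolyUx346
open Crest.Agent.R143.CorEx133 Crest.Agent.R143.LayUx416
open Crest.Agent.R143.TileRx228 Crest.Agent.R143.CorNx765 Crest.Agent.R143.PthFx765
open Crest.Agent.R143.PWx978 Crest.Agent.R143.LimSx133 Crest.Agent.R143.Tplx978
open Crest.Agent.R143.EnvIx279
open Crest.Agent.R143.IndLocx279 Crest.Agent.R143.TplIx204
open scoped ENNReal

section lay

variable {u : Poly} {m M : ℕ} {p W : ℤ → ℤ × ℤ} {A e : ℤ → ℤ} {h a' b' ε : ℝ}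

/-- the tile regions are off `u.P` -/
theorem off_P (H : LayU u m M p W A e) (hh : (m : ℝ) * h = u.s) (ha : a' < h) (hab : a' ≤ b')
    (hb : 0 ≤ b') (hbh : b' ≤ h) : Disjoint (Rall a' b' h W) u.P := by
  rw [Set.disjoint_left]
  rintro s hs
  obtain ⟨a, hs⟩ := mem_iUnion.1 hs
  exact (H.RR_dist hh ha hab hb hbh hs).1

/-- the tile regions are off the window -/
theorem off_Wn (H : LayU u m M p W A e) (hh : (m : ℝ) * h = u.s) (ha : a' < h) (hab : a' ≤ b')
    (hb : 0 ≤ b') (hbh : b' ≤ h) (hε : 100 * √ε < h - a') :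
    Disjoint (Rall a' b' h W) (Wn u ε) := by
  rw [Set.disjoint_left]
  rintro s hs hw
  obtain ⟨a, hs⟩ := mem_iUnion.1 hs
  have h1 := (H.RR_dist hh ha hab hb hbh hs).2.2.2.1
  have h2 : Metric.infDist s u.P ≤ 100 * √ε := hw
  linarith

theorem off_Wn_ev (H : LayU u m M p W A e) (hh : (m : ℝ) * h = u.s) (ha : a' < h) (hab : a' ≤ b')
    (hb : 0 ≤ b') (hbh : b' ≤ h) : ∀ᶠ ε : ℝ in 𝓝[>] 0, Disjoint (Rall a' b' h W) (Wn u ε) := by
  filter_upwards [sqrt_small (c := (h - a') / 200) (by linarith)] with ε hε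
  exact off_Wn H hh ha hab hb hbh (by linarith)

theorem sub_UU (H : LayU u m M p W A e) (hh : (m : ℝ) * h = u.s) (ha : a' < h) (hab : a' ≤ b')
    (hb : 0 ≤ b') (hbh : b' ≤ h) : Rall a' b' h W ⊆ UU u :=
  iUnion_subset fun a => RR_sub H hh ha hab hb hbh a

end lay

section discs

variable {u : Poly} {ε : ℝ}

theorem UU_RU : UU u ⊆ Metric.closedBall 0 (RU u) :=
  Metric.closedBall_subset_closedBall (by have := one_le_Rp u; unfold RU; linarith)

theorem P_RU : u.P ⊆ Metric.closedBall 0 (RU u) := (P_sub_UU u).trans UU_RU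

theorem Wn_UU (hε : 100 * √ε ≤ 4) : Wn u ε ⊆ UU u := by
  intro x hx
  obtain ⟨y, hy, he⟩ := (isCompact_P u).exists_infDist_eq_dist (P_nonempty u) x
  have h1 : dist x y ≤ 100 * √ε := by rw [← he]; exact hx
  have h2 := P_norm u hy
  have h4 := norm_add_le (x - y) y
  rw [sub_add_cancel] at h4
  rw [dist_eq_norm] at h1
  rw [mem_UU]
  linarith

theorem Wn_RU (hε : 100 * √ε ≤ 4) : Wn u ε ⊆ Metric.closedBall 0 (RU u) :=
  (Wn_UU hε).trans UU_RU

theorem Wn_ev (u : Poly) : ∀ᶠ ε : ℝ in 𝓝[>] 0, Wn u ε ⊆ UU u ∧ Wn u ε ⊆ Metric.closedBall 0 (RU u) := by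
  filter_upwards [sqrt_small (c := 1 / 25) (by norm_num)] with ε hε
  exact ⟨Wn_UU (by linarith), Wn_RU (by linarith)⟩

theorem meas_UU : MeasurableSet (UU u) := Metric.isClosed_closedBall.measurableSet

theorem bdd_UU : Bornology.IsBounded (UU u) := Metric.isBounded_closedBall

/-- the sites of a subset of the disc are in `SU` -/
theorem hS_SU (hε : 0 < ε) {B : Set ℂ} (hB : B ⊆ Metric.closedBall 0 (RU u)) (ω : Sample) :
    (SU u ε ω : Set ℂ) ⊆ points ε ω ∧ points ε ω ∩ B ⊆ SU u ε ω := by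
  rw [coe_SU hε]
  exact ⟨inter_subset_left, inter_subset_inter_right _ hB⟩

end discs

section net

variable {u : Poly} {m M : ℕ} {p W : ℤ → ℤ × ℤ} {Ac e : ℤ → ℤ} {ε : ℝ} {T : Tpl ε (Tn × Bool)}
  {A B h : ℝ} [DecidableEq (ZMod M)] [Fintype (ZMod M)]

theorem reg_off_P (H : LayU u m M p W Ac e) (P : FPath M W) (Hs : Std T A B h Prod.fst)
    (i : ZMod 3) (hh : (m : ℝ) * h = u.s) (ha : A < h) (hab : A ≤ B) (hb : 0 ≤ B) (hbh : B ≤ h) :
    Disjoint ((cpth P Hs Ac e i).net.reg Finset.univ Finset.univ) u.P := by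
  rw [reg_eq]
  exact off_P H hh ha hab hb hbh

theorem reg_off_Wn (H : LayU u m M p W Ac e) (P : FPath M W) (Hs : Std T A B h Prod.fst)
    (i : ZMod 3) (hh : (m : ℝ) * h = u.s) (ha : A < h) (hab : A ≤ B) (hb : 0 ≤ B) (hbh : B ≤ h)
    {ε' : ℝ} (hε : 100 * √ε' < h - A) :
    Disjoint ((cpth P Hs Ac e i).net.reg Finset.univ Finset.univ) (Wn u ε') := by
  rw [reg_eq]
  exact off_Wn H hh ha hab hb hbh hε

theorem reg_sub_UU (H : LayU u m M p W Ac e) (P : FPath M W) (Hs : Std T A B h Prod.fst)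
    (i : ZMod 3) (hh : (m : ℝ) * h = u.s) (ha : A < h) (hab : A ≤ B) (hb : 0 ≤ B) (hbh : B ≤ h) :
    (cpth P Hs Ac e i).net.reg Finset.univ Finset.univ ⊆ UU u := by
  rw [reg_eq]
  exact sub_UU H hh ha hab hb hbh

theorem reg_sub_RU (H : LayU u m M p W Ac e) (P : FPath M W) (Hs : Std T A B h Prod.fst)
    (i : ZMod 3) (hh : (m : ℝ) * h = u.s) (ha : A < h) (hab : A ≤ B) (hb : 0 ≤ B) (hbh : B ≤ h) :
    (cpth P Hs Ac e i).net.reg Finset.univ Finset.univ ⊆ Metric.closedBall 0 (RU u) :=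
  (reg_sub_UU H P Hs i hh ha hab hb hbh).trans UU_RU

/-- the hypothesis `hS` of 348's `cor_ev` and of 279's `Inp` -/
theorem hS_all (H : LayU u m M p W Ac e) (hε : 0 < ε) (hh : (m : ℝ) * h = u.s) (ha : A < h)
    (hab : A ≤ B) (hb : 0 ≤ B) (hbh : B ≤ h) (ω : Sample) :
    (SU u ε ω : Set ℂ) ⊆ points ε ω ∧ points ε ω ∩ Rall A B h W ⊆ SU u ε ω :=
  hS_SU hε ((sub_UU H hh ha hab hb hbh).trans UU_RU) ω

/-- **279's `Inp` with `S = SU u ε`, window `U`** (`u.P` or `Wn u ε`) -/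
theorem inp_SU (H : LayU u m M p W Ac e) (P : FPath M W) (Hs : Std T A B h Prod.fst)
    (i : ZMod 3) (hh : (m : ℝ) * h = u.s) (ha : A < h) (hab : A ≤ B) (hb : 0 ≤ B) (hbh : B ≤ h)
    {U : Set ℂ} (hU : MeasurableSet U) (hUR : U ⊆ Metric.closedBall 0 (RU u))
    (hd : Disjoint (Rall A B h W) U) {n : ℕ} {V : ℕ → Set (ℂ × Bool) → ℂ}
    {a b : Set (ℂ × Bool) → ℕ}
    (Vl : ∀ l ∈ Finset.range n, LocalOn (Rall A B h W) (V l))
    (Vm : ∀ l ∈ Finset.range n, FinMeas (V l))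
    (V2 : ∀ l ∈ Finset.range n, Integrable (fun ω =>
      gR (cpth P Hs Ac e i).net Finset.univ Finset.univ (cfg ε ω) * ‖V l (cfg ε ω)‖ ^ 2) sampleLaw)
    (al : LocalOn U a) (am : FinMeas a) (bl : LocalOn U b) (bm : FinMeas b) :
    Inp ε (Rall A B h W) U n (SU u ε) (gR (cpth P Hs Ac e i).net Finset.univ Finset.univ)
      V a b := by
  have h1 := InpIx609.inp (cpth P Hs Ac e i).net (I := Finset.univ) (J := Finset.univ)
    (fun k _ => Finset.subset_univ _) hU (Metric.isBounded_closedBall.subset hUR)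
    (by rw [reg_eq]; exact hd) (W := Metric.closedBall 0 (RU u)) Metric.isBounded_closedBall
    (reg_sub_RU H P Hs i hh ha hab hb hbh) hUR
    (by rw [reg_eq]; exact Vl) Vm V2 al am bl bm
  rw [reg_eq] at h1
  exact h1

/-- the instance with the window `Wn u ε` -/
theorem inp_Wn (H : LayU u m M p W Ac e) (P : FPath M W) (Hs : Std T A B h Prod.fst)
    (i : ZMod 3) (hh : (m : ℝ) * h = u.s) (ha : A < h) (hab : A ≤ B) (hb : 0 ≤ B) (hbh : B ≤ h)
    (hε : 100 * √ε < h - A) (hε4 : 100 * √ε ≤ 4) {n : ℕ} {V : ℕ → Set (ℂ × Bool) → ℂ}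
    {a b : Set (ℂ × Bool) → ℕ}
    (Vl : ∀ l ∈ Finset.range n, LocalOn (Rall A B h W) (V l))
    (Vm : ∀ l ∈ Finset.range n, FinMeas (V l))
    (V2 : ∀ l ∈ Finset.range n, Integrable (fun ω =>
      gR (cpth P Hs Ac e i).net Finset.univ Finset.univ (cfg ε ω) * ‖V l (cfg ε ω)‖ ^ 2) sampleLaw)
    (al : LocalOn (Wn u ε) a) (am : FinMeas a) (bl : LocalOn (Wn u ε) b) (bm : FinMeas b) :
    Inp ε (Rall A B h W) (Wn u ε) n (SU u ε)
      (gR (cpth P Hs Ac e i).net Finset.univ Finset.univ) V a b :=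
  inp_SU H P Hs i hh ha hab hb hbh (closed_Wn u ε).measurableSet (Wn_RU hε4)
    (off_Wn H hh ha hab hb hbh hε) Vl Vm V2 al am bl bm

end net

end Crest.Agent.R143.DisIx749
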