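import Crest.Agent.R143.RigP_854

/-!
# Row 143 (S0194), RIG, item (10) of 970's last layer (helper709)

* `nT_ge` : the number of the out tiles is at least `2 m - 6`
* **`JT_nonempty`** : straight out tiles with straight neighbours exist eventually
* `JT_ge` : their number is eventually at least `k`; `nT_ev`
-/

set_option autoImplicit false

noncomputable section

open scoped Classical

namespace Crest.Agent.R143.JTnx709

open Filter Topology
open Crest.Agent.R143.PolyUx346 (Poly)
open Crest.Agent.R143.Layx416 Crest.Agent.R143.LayUx416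
open Crest.Agent.R143.RigPx854

/-- the number of the out tiles -/
theorem nT_ge {u : Poly} (i : ZMod 3) {N : ℕ} (h : u.n + 4 ≤ N) :
    2 * mN u N ≤ nT u i N + 6 := by
  have H := (ly_spec h).lay
  have h1 := H.g_gap (jj i + 1)
  have h2 := H.g_gap (jj i + 1 + 1)
  have h3 := H.nn_eq i
  have e1 : jj i + 1 + 1 + 1 = jj i + 3 := by ring
  rw [e1] at h2
  unfold al be at h3
  unfold nT
  omega

/-- the number of the out tiles goes to infinity -/
theorem nT_ev (u : Poly) (i : ZMod 3) (k : ℕ) : ∀ᶠ N in atTop, k ≤ nT u i N := by
  filter_upwards [mN_mono (u := u) (k + 6), eventually_ge_atTop (u.n + 4)] with N h1 h2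
  have := nT_ge (u := u) i h2
  omega

/-- the number of the straight out tiles with straight neighbours goes to infinity -/
theorem JT_ge (u : Poly) (i : ZMod 3) (k : ℕ) : ∀ᶠ N in atTop, k ≤ (JT u i N).card := by
  filter_upwards [nT_ev u i (k + (3 * u.L + 4)), eventually_ge_atTop (u.n + 4)] with N h1 h2
  have h3 := JT_card (u := u) i h2
  have h4 : (nT u i N : ℝ) ≤ ((JT u i N).card + (3 * u.L + 4) : ℕ) := by push_cast; linarith
  have h5 : nT u i N ≤ (JT u i N).card + (3 * u.L + 4) := by exact_mod_cast h4
  omega

/-- **(10)** : straight out tiles with straight neighbours exist -/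
theorem JT_nonempty (u : Poly) (i : ZMod 3) : ∀ᶠ N in atTop, (JT u i N).Nonempty := by
  filter_upwards [JT_ge u i 1] with N h
  exact Finset.card_pos.1 (by omega)

end Crest.Agent.R143.JTnx709
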