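import Crest.Agent.R143.FinU_609
import Crest.Agent.R143.RelP_62

/-!
# Row 143 (S0194): the frozen totals as random variables (helper62)

For 346's frozen `Poly` (`PolyU_346`) and 609's measurability (`FinU_609`), `0 < ε`:

* `Wd u ε` : the window `{x | infDist x u.P ≤ 100 √ε}`, closed and bounded; `S_eq : u.S ε ω = Ap ..`
* `meas_lab`, `meas_in` : the labels and the deep points are Borel
* `meas_T`, `meas_T'`, `meas_TB`, `meas_Dk` : measurable functions of the sample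
* `FT u ε z X` : the total as a function of the configuration (`T = FT (cfg)`, `FMe`, local on the
  window): `T_cfg`, `T'_cfg`, `fme_FT`, `FT_loc`
* `bdd` : for every `u` there is `C > 0` with `‖T‖, ‖T'‖, ‖TB‖, ‖Dk k‖ ≤ C` for all `0 < ε ≤ 1` and
  ALL `ω`; `int_T`, `int_T'`, `int_TB`, `int_Dk` : integrable
-/

set_option autoImplicit false

noncomputable section

open scoped Classical

namespace Crest.Agent.R143.PolyMx62

open MeasureTheory Filter Topology
open Crest.ProbabilityR.Voronoi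
open Crest.Agent.R143.PP0x831 Crest.Agent.R143.Janx304 Crest.Agent.R143.Dblx609
open Crest.Agent.R143.Dbl2x609
open Crest.Agent.R143.B0x346 Crest.Agent.R143.NetUx346 Crest.Agent.R143.NetVx346
  Crest.Agent.R143.PolyUx346
open Crest.Agent.R143.Prodx609 Crest.Agent.R143.FinMx609 Crest.Agent.R143.FinTx609
  Crest.Agent.R143.FinUx609
open Crest.Agent.R143.Brkx478 (Bk cells cells_finite)
open Crest.Agent.R143.Tenx416 (Pg)
open Crest.Agent.R143.DefsNx346 (hi)
open Crest.Agent.R143.RelPx62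
open Crest.Agent.R158.Sp896

variable (u : Poly) {ε : ℝ}

/-! ### the region and the window -/

theorem cells_fin : (cells (u.U : Set Bk)).Finite := cells_finite u.U.finite_toSet

theorem P_closed : IsClosed u.P :=
  (cells_fin u).isClosed_biUnion fun q _ => isClosed_sq _ q

theorem P_bdd : Bornology.IsBounded u.P := by
  refine (Bornology.isBounded_biUnion (cells_fin u)).2 fun q _ => ?_
  refine Metric.isBounded_iff.2 ⟨2 * u.s, fun z hz w hw => ?_⟩
  rw [dist_eq_norm]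
  exact sq_dist hz hw

theorem P_ne : u.P.Nonempty := by
  have h := u.cyc.left 0
  refine ⟨⟨u.s * (lc (u.v 0) (u.v (0 + 1))).1, u.s * (lc (u.v 0) (u.v (0 + 1))).2⟩,
    Set.mem_biUnion h ?_⟩
  have hs := u.s_pos
  refine ⟨le_rfl, ?_, le_rfl, ?_⟩
  · show u.s * _ ≤ u.s * _
    nlinarith
  · show u.s * _ ≤ u.s * _
    nlinarith

/-- the window -/
def Wd (ε : ℝ) : Set ℂ := {x | Metric.infDist x u.P ≤ 100 * √ε}

theorem Wd_closed (ε : ℝ) : IsClosed (Wd u ε) :=
  isClosed_le (Metric.continuous_infDist_pt _) continuous_const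

theorem Wd_meas (ε : ℝ) : MeasurableSet (Wd u ε) := (Wd_closed u ε).measurableSet

/-- a ball which contains the windows with `ε ≤ 1` -/
theorem Wd_ball : ∃ R : ℝ, 0 < R ∧ ∀ ε ≤ 1, Wd u ε ⊆ Metric.closedBall (0 : ℂ) R := by
  obtain ⟨r, hr, hP⟩ := (P_bdd u).subset_closedBall_lt 0 (0 : ℂ)
  refine ⟨r + 101, by linarith, fun ε hε x hx => ?_⟩
  have hs : √ε ≤ 1 := Real.sqrt_le_one.2 hε
  have h1 : Metric.infDist x u.P < 101 := by
    have hx' : Metric.infDist x u.P ≤ 100 * √ε := hx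
    linarith
  obtain ⟨y, hy, hxy⟩ := (Metric.infDist_lt_iff (P_ne u)).1 h1
  have h2 := hP hy
  rw [Metric.mem_closedBall, dist_zero_right] at h2 ⊢
  rw [dist_eq_norm] at hxy
  have h3 := norm_add_le (x - y) y
  rw [sub_add_cancel] at h3
  linarith

theorem Wd_bdd (ε : ℝ) : Bornology.IsBounded (Wd u ε) := by
  obtain ⟨r, hr, hP⟩ := (P_bdd u).subset_closedBall_lt 0 (0 : ℂ)
  refine (Metric.isBounded_closedBall (x := (0 : ℂ)) (r := r + (100 * √ε + 1))).subset
    fun x hx => ?_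
  have hx' : Metric.infDist x u.P ≤ 100 * √ε := hx
  have h1 : Metric.infDist x u.P < 100 * √ε + 1 := by linarith
  obtain ⟨y, hy, hxy⟩ := (Metric.infDist_lt_iff (P_ne u)).1 h1
  have h2 := hP hy
  rw [Metric.mem_closedBall, dist_zero_right] at h2 ⊢
  rw [dist_eq_norm] at hxy
  have h3 := norm_add_le (x - y) y
  rw [sub_add_cancel] at h3
  linarith

theorem S_eq (ε : ℝ) (ω : Sample) : u.S ε ω = Ap ε (Wd u ε) ω := rfl

/-! ### Borel data -/

theorem meas_near (j : Fin 3) : MeasurableSet {x | u.Near x j} := by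
  have e : {x | u.Near x j} =
      ⋂ i : Fin 3, {x | Metric.infDist x (u.Arc j) ≤ Metric.infDist x (u.Arc i)} := by
    ext x
    simp only [Set.mem_ofPred_eq, Set.mem_iInter, Poly.Near]
  rw [e]
  exact MeasurableSet.iInter fun i => (isClosed_le (Metric.continuous_infDist_pt _)
    (Metric.continuous_infDist_pt _)).measurableSet

theorem meas_lab (i : ZMod 3) : MeasurableSet {x | u.Lab x = i} := by
  have h : Measurable u.Lab := by
    unfold Poly.Lab
    exact Measurable.ite (meas_near u 0) measurable_const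
      (Measurable.ite (meas_near u 1) measurable_const measurable_const)
  exact h (MeasurableSet.singleton i)

theorem meas_in (d : ℝ) : MeasurableSet {x | Metric.closedBall x (2 * d) ⊆ u.P} :=
  meas_ball_closed (P_closed u)

/-! ### measurability -/

theorem meas_T (hε : 0 < ε) : Measurable (u.T ε) :=
  meas_TU hε (Wd_bdd u ε) (Wd_meas u ε) (meas_in u _) (meas_lab u) measurable_id

theorem meas_T' (hε : 0 < ε) : Measurable (u.T' ε) :=
  meas_TU hε (Wd_bdd u ε) (Wd_meas u ε) (meas_in u _) (meas_lab u)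
    Complex.continuous_conj.measurable

theorem TB_eq (ε : ℝ) (ω : Sample) : TB u ε ω = (starRingEnd ℂ) (u.T' ε ω) := by
  rw [T'_eq, Complex.conj_conj]

theorem meas_TB (hε : 0 < ε) : Measurable (TB u ε) := by
  have e : TB u ε = fun ω => (starRingEnd ℂ) (u.T' ε ω) := funext fun ω => TB_eq u ε ω
  rw [e]
  exact Complex.continuous_conj.measurable.comp (meas_T' u hε)

theorem hi_ne : (2 * hi : ℂ) ≠ 0 := by
  unfold hi
  have h3 : Real.sqrt 3 ≠ 0 := by positivity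
  refine mul_ne_zero two_ne_zero (mul_ne_zero ?_ Complex.I_ne_zero)
  exact_mod_cast div_ne_zero h3 two_ne_zero

theorem Dk_eq (ε : ℝ) (ω : Sample) (k : ZMod 3) :
    Dk u ε ω k = (2 * hi)⁻¹ * (omz k ^ 2 * u.T ε ω - omz k * TB u ε ω) := by
  rw [← rl u ε ω k, inv_mul_cancel_left₀ hi_ne]

theorem meas_Dk (hε : 0 < ε) (k : ZMod 3) : Measurable fun ω => Dk u ε ω k := by
  simp only [Dk_eq]
  exact (((meas_T u hε).const_mul _).sub ((meas_TB u hε).const_mul _)).const_mul _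

/-! ### functions of the configuration -/

/-- the total as a function of the configuration -/
def FT (ε : ℝ) (z : ℂ → ℂ) (X : Set (ℂ × Bool)) : ℂ :=
  TU (Sf (Wd u ε) X) u.P √ε u.Lab z

theorem fme_FT (ε : ℝ) {z : ℂ → ℂ} (hz : Measurable z) : FMe (FT u ε z) :=
  fme_TU (Wd_meas u ε) (meas_in u _) (meas_lab u) hz

theorem Sf_loc (W : Set ℂ) (X : Set (ℂ × Bool)) : Sf W (X ∩ ovr W) = Sf W X := by
  have h1 : ps (X ∩ ovr W) ∩ W = ps X ∩ W := by
    ext x
    simp only [ps, Set.mem_inter_iff, Set.mem_image]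
    constructor
    · rintro ⟨⟨q, ⟨h1, h2⟩, rfl⟩, h3⟩; exact ⟨⟨q, h1, rfl⟩, h3⟩
    · rintro ⟨⟨q, h1, rfl⟩, h3⟩; exact ⟨⟨q, ⟨h1, h3⟩, rfl⟩, h3⟩
  unfold Sf
  rw [h1]

/-- local on the window -/
theorem FT_loc (ε : ℝ) (z : ℂ → ℂ) (X : Set (ℂ × Bool)) :
    FT u ε z (X ∩ ovr (Wd u ε)) = FT u ε z X := by
  unfold FT
  rw [Sf_loc]

theorem localOn_FT (ε : ℝ) (z : ℂ → ℂ) : LocalOn (Wd u ε) (FT u ε z) := fun X =>
  (FT_loc u ε z X).symm

theorem Sf_cfg' (hε : 0 < ε) (ω : Sample) : Sf (Wd u ε) (cfg ε ω) = u.S ε ω := by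
  rw [← Sf_loc, Sf_cfg hε (Wd_bdd u ε), S_eq]

theorem T_cfg (hε : 0 < ε) (ω : Sample) : u.T ε ω = FT u ε id (cfg ε ω) := by
  unfold FT Poly.T
  rw [Sf_cfg' u hε]

theorem T'_cfg (hε : 0 < ε) (ω : Sample) : u.T' ε ω = FT u ε (starRingEnd ℂ) (cfg ε ω) := by
  unfold FT Poly.T'
  rw [Sf_cfg' u hε]

/-! ### bounds -/

/-- **all the totals are bounded, for every `ω`** -/
theorem bdd : ∃ C : ℝ, 0 < C ∧ ∀ ε : ℝ, 0 < ε → ε ≤ 1 → ∀ ω : Sample,
    ‖u.T ε ω‖ ≤ C ∧ ‖u.T' ε ω‖ ≤ C ∧ ‖TB u ε ω‖ ≤ C ∧ ∀ k, ‖Dk u ε ω k‖ ≤ C := by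
  obtain ⟨R, hR, hW⟩ := Wd_ball u
  set c : ℝ := ‖(2 * hi : ℂ)⁻¹‖ with hc
  have hc0 : 0 ≤ c := norm_nonneg _
  refine ⟨9 * R + c * (18 * R), by positivity, fun ε hε hε1 ω => ?_⟩
  have hv : ∀ v ∈ Wd u ε, ‖v‖ ≤ R := fun v hv => by
    have := hW ε hε1 hv
    rwa [Metric.mem_closedBall, dist_zero_right] at this
  have h1 : ‖u.T ε ω‖ ≤ 9 * R :=
    norm_TUω (z := id) hε (Wd_bdd u ε) hR.le (fun v hv' => hv v hv') ω
  have h2 : ‖u.T' ε ω‖ ≤ 9 * R :=
    norm_TUω (z := starRingEnd ℂ) hε (Wd_bdd u ε) hR.le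
      (fun v hv' => by rw [Complex.norm_conj]; exact hv v hv') ω
  have h3 : ‖TB u ε ω‖ ≤ 9 * R := by rw [norm_TB]; exact h2
  have hp : 0 ≤ c * (18 * R) := by positivity
  refine ⟨by linarith, by linarith, by linarith, fun k => ?_⟩
  have ho : ‖omz k‖ = 1 := norm_omz k
  rw [Dk_eq, norm_mul]
  have h4 : ‖omz k ^ 2 * u.T ε ω - omz k * TB u ε ω‖ ≤ 18 * R := by
    refine (norm_sub_le _ _).trans ?_
    rw [norm_mul, norm_mul, norm_pow, ho, one_pow, one_mul, one_mul]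
    linarith
  have h5 := mul_le_mul_of_nonneg_left h4 hc0
  linarith

theorem int_of {F : Sample → ℂ} {C : ℝ} (hm : Measurable F) (h : ∀ ω, ‖F ω‖ ≤ C) :
    Integrable F sampleLaw :=
  Integrable.of_bound hm.aestronglyMeasurable C (ae_of_all _ h)

theorem int_T (hε : 0 < ε) (hε1 : ε ≤ 1) : Integrable (u.T ε) sampleLaw := by
  obtain ⟨C, -, h⟩ := bdd u
  exact int_of (meas_T u hε) fun ω => (h ε hε hε1 ω).1

theorem int_T' (hε : 0 < ε) (hε1 : ε ≤ 1) : Integrable (u.T' ε) sampleLaw := by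
  obtain ⟨C, -, h⟩ := bdd u
  exact int_of (meas_T' u hε) fun ω => (h ε hε hε1 ω).2.1

theorem int_TB (hε : 0 < ε) (hε1 : ε ≤ 1) : Integrable (TB u ε) sampleLaw := by
  obtain ⟨C, -, h⟩ := bdd u
  exact int_of (meas_TB u hε) fun ω => (h ε hε hε1 ω).2.2.1

theorem int_Dk (hε : 0 < ε) (hε1 : ε ≤ 1) (k : ZMod 3) :
    Integrable (fun ω => Dk u ε ω k) sampleLaw := by
  obtain ⟨C, -, h⟩ := bdd u
  exact int_of (meas_Dk u hε k) fun ω => (h ε hε hε1 ω).2.2.2 k

end Crest.Agent.R143.PolyMx62
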