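import Crest.Agent.R143.GPosC_348
import Crest.Agent.R143.LayU_416
import Crest.Agent.R143.ColX_829
import Crest.Agent.R143.Dbl2_609
import Crest.Agent.R143.PolyM_62

/-!
# Row 143 (S0194), glue CorrI: law ⇒ `CorH` for the coloured sites of the big disc (helper765)

On top of 348's `corH_all`; `S ω = Ap ε B ω` (609), coloured sites `Xc hS h3 s` (829), layout
`LayU` (416), side `100 η`, `m * (100 η) = u.s`.

* `RR_near` : points of the strips are near `u.P`; `Rall_ball`, `fat_ball` : strips in the big disc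
* **`law_corH`** : any layout, any bounded measurable `B ⊇ Rall`, any `U`: almost surely, for every
  colouring `s` of the cells with positive weight: `CorH (Xc hS h3 s) U M W η d (al A e i) (nn A e i)`
* **`law_corU`** : the same for `LayU` and the discs of radius `R'` (sites) and `R + 4` (region `U`),
  `u.P` in the disc of radius `R`
-/

set_option autoImplicit false

noncomputable section

open scoped Classical

namespace Crest.Agent.R143.LawHx765

open MeasureTheory Set Metric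
open Crest.ProbabilityR.Voronoi
open Crest.Agent.R143.B0x346 Crest.Agent.R143.Locx922
open Crest.Agent.R143.PP0x831 Crest.Agent.R143.Poisx304 Crest.Agent.R143.Janx304
open Crest.Agent.R143.IndLocx279 Crest.Agent.R143.PWx978 Crest.Agent.R143.Tplx978
open Crest.Agent.R143.WLocx713 Crest.Agent.R143.IndLoc3x279
open Crest.Agent.R143.TileRx228 Crest.Agent.R143.PthFx765 Crest.Agent.R143.TplIx204
open Crest.Agent.R143.LayQx811 Crest.Agent.R143.Layx416 Crest.Agent.R143.LayUx416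
open Crest.Agent.R143.CorNx765 Crest.Agent.R143.GPosFx348 Crest.Agent.R143.GPosCx348
open Crest.Agent.R143.FinCx811 Crest.Agent.R143.ColXx829 Crest.Agent.R143.Dbl2x609
open Crest.Agent.R143.FinMx609 Crest.Agent.R143.PolyUx346
open Crest.Agent.R143.CorHx713 (gO gA QA CorH)
open scoped ENNReal

/-! ### geometry -/

section geo

variable {u : Poly} {m M : ℕ} {p W : ℤ → ℤ × ℤ} {A e : ℤ → ℤ} {η : ℝ}

theorem s_le (u : Poly) : u.s ≤ 1 := by
  unfold Poly.s
  exact pow_le_one₀ (by norm_num) (by norm_num)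

theorem eta_pos (L : LayU u m M p W A e) (hh : (m : ℝ) * (100 * η) = u.s) : 0 < η := by
  have := L.h_pos hh
  linarith

/-- the unit is small -/
theorem eta_le (L : LayU u m M p W A e) (hh : (m : ℝ) * (100 * η) = u.s) : 1000 * η ≤ 1 := by
  have h1 := s_le u
  have h2 : (10 : ℝ) ≤ m := by exact_mod_cast L.m_pos
  have h3 := eta_pos L hh
  rw [← hh] at h1
  nlinarith

/-- points of the strips are near `u.P` -/
theorem RR_near (L : LayU u m M p W A e) (hh : (m : ℝ) * (100 * η) = u.s) {a' b' : ℝ}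
    (ha : a' < 100 * η) (hab : a' ≤ b') (hb : 0 ≤ b') (hbh : b' ≤ 100 * η) {a : ℤ} {w : ℂ}
    (hw : w ∈ RR a' b' (100 * η) W a) : infDist w u.P ≤ 3 / 10 := by
  obtain ⟨-, -, -, -, h1⟩ := L.RR_dist hh ha hab hb hbh hw
  have h2 := eta_le L hh
  refine h1.trans ?_
  linarith

theorem RR_ball (L : LayU u m M p W A e) (hh : (m : ℝ) * (100 * η) = u.s) {R : ℝ}
    (hR : u.P ⊆ closedBall 0 R) {a' b' : ℝ}
    (ha : a' < 100 * η) (hab : a' ≤ b') (hb : 0 ≤ b') (hbh : b' ≤ 100 * η) (a : ℤ) :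
    RR a' b' (100 * η) W a ⊆ closedBall 0 (R + 1 / 2) := by
  intro w hw
  have h1 := RR_near L hh ha hab hb hbh hw
  obtain ⟨y, hy, hwy⟩ := (infDist_lt_iff (PolyMx62.P_ne u)).1
    (show infDist w u.P < 1 / 2 by linarith)
  have h2 := hR hy
  rw [mem_closedBall] at h2 ⊢
  have := dist_triangle w y 0
  linarith

/-- the points of the template are in the disc of radius `R + 1 / 2` -/
theorem Rall_ball (L : LayU u m M p W A e) (hh : (m : ℝ) * (100 * η) = u.s) {R : ℝ}
    (hR : u.P ⊆ closedBall 0 R) : Rall (12 * η) (52 * η) (100 * η) W ⊆ closedBall 0 (R + 1 / 2) := by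
  have h0 := eta_pos L hh
  refine iUnion_subset fun a => ?_
  exact RR_ball L hh hR (by linarith) (by linarith) (by linarith) (by linarith) a

/-- the tile side around the strips is in the disc of radius `R + 4` -/
theorem fat_ball (L : LayU u m M p W A e) (hh : (m : ℝ) * (100 * η) = u.s) {R : ℝ}
    (hR : u.P ⊆ closedBall 0 R) : ∀ a : ℤ, ∀ w ∈ RR (9 * η) (51 * η) (100 * η) W a, ∀ s : ℂ,
      ‖s - w‖ ≤ 100 * η → s ∈ closedBall (0 : ℂ) (R + 4) := by
  intro a w hw s hs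
  have h0 := eta_pos L hh
  have h1 := eta_le L hh
  have h2 := RR_ball L hh hR (by linarith) (by linarith) (by linarith) (by linarith) a hw
  rw [mem_closedBall, dist_zero_right] at h2 ⊢
  have h3 := norm_add_le (s - w) w
  rw [sub_add_cancel] at h3
  linarith

end geo

/-! ### law ⇒ corridor -/

variable {ε : ℝ} {hε : 0 < ε} {c : ℝ≥0∞} {c0 : c ≠ 0} {c1 : c ≤ 1} {D : DT} {η : ℝ}

/-- **positive weight gives the corridor**, for every colouring of the cells -/
theorem law_corH {n M : ℕ} {m : ℤ} {p W : ℤ → ℤ × ℤ} {A e : ℤ → ℤ} (L : Lay n M m p W A e)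
    [Fintype (ZMod M)] (N : NumC D η) (H : Std (D.raw ε hε c c0 c1).tpl D.A' D.B' D.h Prod.fst)
    (hP : (D.raw ε hε c c0 c1).AePos) (i : ZMod 3) {B : Set ℂ} (hB : Bornology.IsBounded B)
    (hR : Rall (12 * η) (52 * η) (100 * η) W ⊆ B) {d : ℝ} (hd : 0 < d) (hd' : 100 * d ≤ η)
    {U : Set ℂ} (hU : ∀ a : ℤ, ∀ w ∈ RR (9 * η) (51 * η) (100 * η) W a, ∀ s : ℂ,
      ‖s - w‖ ≤ 100 * η → s ∈ U) :
    ∀ᵐ ω ∂sampleLaw, Hol (Ap ε B ω : Set ℂ) U d →
      ∀ (hS : GP (Ap ε B ω : Set ℂ)) (h3 : 3 ≤ (Ap ε B ω).card) (s : Cs hS → ZMod 2),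
        gC L.fp H A e i (Xc hS h3 s) ≠ 0 → CorH (Xc hS h3 s) U M W η d (al A e i) (nn A e i) := by
  have h1 : ∀ᵐ ω ∂sampleLaw, (Ap ε B ω : Set ℂ) ⊆ points ε ω ∧
      points ε ω ∩ Rall D.A' D.B' D.h W ⊆ Ap ε B ω := by
    refine Filter.Eventually.of_forall fun ω => ?_
    rw [coe_Ap hε hB, N.A', N.B', N.h]
    exact ⟨inter_subset_left, inter_subset_inter_right _ hR⟩
  have h2 := L.rr_pos i
  have h4 := L.rr_lt i
  have h5 := L.nn_lt i
  filter_upwards [corH_all (Ac := A) (e := e) N L.fp H hP i h1 hd hd' (by omega) (by omega) hU]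
    with ω hω hH hS h3 s hg
  exact hω hS hH (bs hS h3 s) bs_sub hullC_Xc hg

/-- **the same for the layout of a polygon** and discs -/
theorem law_corU {u : Poly} {m M : ℕ} {p W : ℤ → ℤ × ℤ} {A e : ℤ → ℤ} (L : LayU u m M p W A e)
    [Fintype (ZMod M)] (hh : (m : ℝ) * (100 * η) = u.s) (N : NumC D η)
    (H : Std (D.raw ε hε c c0 c1).tpl D.A' D.B' D.h Prod.fst)
    (hP : (D.raw ε hε c c0 c1).AePos) {R R' : ℝ} (hR : u.P ⊆ closedBall 0 R)
    (hR' : R + 1 ≤ R') {d : ℝ} (hd : 0 < d) (hd' : 100 * d ≤ η) :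
    ∀ᵐ ω ∂sampleLaw, Hol (Ap ε (closedBall 0 R') ω : Set ℂ) (closedBall 0 (R + 4)) d →
      ∀ (hS : GP (Ap ε (closedBall 0 R') ω : Set ℂ)) (h3 : 3 ≤ (Ap ε (closedBall 0 R') ω).card)
        (s : Cs hS → ZMod 2) (i : ZMod 3), gC L.lay.fp H A e i (Xc hS h3 s) ≠ 0 →
          CorH (Xc hS h3 s) (closedBall 0 (R + 4)) M W η d (al A e i) (nn A e i) := by
  have h1 : Rall (12 * η) (52 * η) (100 * η) W ⊆ closedBall 0 R' :=
    (Rall_ball L hh hR).trans (closedBall_subset_closedBall (by linarith))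
  have h2 : ∀ i : ZMod 3, ∀ᵐ ω ∂sampleLaw,
      Hol (Ap ε (closedBall 0 R') ω : Set ℂ) (closedBall 0 (R + 4)) d →
      ∀ (hS : GP (Ap ε (closedBall 0 R') ω : Set ℂ)) (h3 : 3 ≤ (Ap ε (closedBall 0 R') ω).card)
        (s : Cs hS → ZMod 2), gC L.lay.fp H A e i (Xc hS h3 s) ≠ 0 →
          CorH (Xc hS h3 s) (closedBall 0 (R + 4)) M W η d (al A e i) (nn A e i) := fun i =>
    law_corH L.lay N H hP i isBounded_closedBall h1 hd hd' (fat_ball L hh hR)
  filter_upwards [ae_all_iff.2 h2] with ω hω hH hS h3 s i hg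
  exact hω i hH hS h3 s hg

end Crest.Agent.R143.LawHx765
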