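import Crest.Agent.R143.Stab_930
import Crest.Agent.R143.CNT_930

/-!
# Row 143 (S0194): STAB with the one-arm bound (helper930)

* `bde_pow` : `P(BdE S V m d ρ √(ρ D) D) ≤ C (ρ / D) ^ c`
* `mk_of` : the structure `Mk` from agreement outside of `B(m k, ρ)`
* `stabU` : `‖TS S A z - TU S P e L z‖ ≤ C b (ρ / D) ^ c`
-/

set_option autoImplicit false

noncomputable section

open scoped Classical

namespace Crest.Agent.R143.Stab2x930

open Crest.Agent.R143.B0x346 Crest.Agent.R143.DelGx806 Crest.Agent.R143.DelRx806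
  Crest.Agent.R143.JColx54 Crest.Agent.R143.K33x877
  Crest.Agent.R143.NetUx346 Crest.Agent.R143.NetVx346 Crest.Agent.R143.Harx315
  Crest.Agent.R143.Stabx930
open Crest.Agent.R143.D3Fx802 (CArm)
open Crest.Agent.R143.ArmPx930 (adj_small ldns_mono mesh_mono arm)
open Crest.Agent.R143.RB0x838 (LDns Mesh)

variable {S V T : Finset ℂ} {A B : ZMod 3 → Set ℂ} {i : ZMod 3} {m : ZMod 3 → ℂ}
  {d ρ η D : ℝ}

theorem carm_radii {β : Finset ℂ} {p : ℂ} {r r' R R' : ℝ} (hr : r ≤ r') (hR : R' ≤ R)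
    (h : CArm S β p r R) : CArm S β p r' R' := by
  obtain ⟨x, y, h1, h2, h3, h4, h5⟩ := h
  exact ⟨x, y, h1, h2, h3.trans hr, hR.trans h4, h5⟩

/-- environment at the marks -/
structure EnvM (S : Finset ℂ) (m : ZMod 3 → ℂ) (C4 c1 c2 K d ρ D : ℝ) : Prop where
  ld : ∀ k, LDns S (m k) (K * D) d
  mesh : ∀ k, ∀ b, c2 * ρ ≤ b → b ≤ D → Mesh S (m k) (K * D) b C4
  dr : d ≤ c1 * ρ
  rpos : 0 < ρ
  rD : 100 * ρ ≤ D

/-- **the arm event at the marks** -/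
theorem bde_pow : ∀ C4 : ℝ, 0 ≤ C4 → ∃ C c c1 c2 K : ℝ, 0 < C ∧ 0 < c ∧ 0 < c1 ∧ c1 ≤ 1 ∧
    0 < c2 ∧ c2 ≤ 1 ∧ 2 ≤ K ∧ ∀ (S : Finset ℂ) (m : ZMod 3 → ℂ) (d ρ D : ℝ),
    EnvM S m C4 c1 c2 K d ρ D → ∀ V ⊆ S,
    pr V (BdE S V m d ρ (Real.sqrt (ρ * D)) D) ≤ C * (ρ / D) ^ c := by
  intro C4 hC4
  obtain ⟨C, c, c1, c2, K, hC, hc, hc1, hc2, hc2', hK, H⟩ := arm C4 hC4
  refine ⟨12 * C * 4 ^ c, c / 2, min c1 1, c2, max K 2, by positivity, by positivity,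
    lt_min hc1 one_pos, min_le_right _ _, hc2, hc2', le_max_right _ _, ?_⟩
  intro S m d ρ D E V hV
  have hρ := E.rpos
  have hrD := E.rD
  have hD : 0 < D := by linarith
  have hdp := (E.ld 0).dpos
  have hd1 : d ≤ c1 * ρ := E.dr.trans (mul_le_mul_of_nonneg_right (min_le_left _ _) hρ.le)
  have hd2 : d ≤ ρ := by
    have := E.dr.trans (mul_le_mul_of_nonneg_right (min_le_right c1 1) hρ.le)
    linarith
  set η : ℝ := Real.sqrt (ρ * D) with hη
  have hηη : η * η = ρ * D := Real.mul_self_sqrt (by positivity)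
  have hη0 : 0 < η := Real.sqrt_pos.2 (by positivity)
  have h10 : 10 * ρ ≤ η := by
    rw [hη]
    apply Real.le_sqrt_of_sq_le
    nlinarith
  have h10' : 10 * η ≤ D := by nlinarith
  have hKK : K * D ≤ max K 2 * D := mul_le_mul_of_nonneg_right (le_max_left _ _) hD.le
  set s : ℝ := ρ / D with hs
  have hs0 : 0 < s := by positivity
  have hq1 : ρ / η = Real.sqrt s := by
    rw [hs, Real.sqrt_div hρ.le, hη, Real.sqrt_mul hρ.le, div_mul_eq_div_div]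
    congr 1
    exact Real.div_sqrt
  have hq2 : η / D = Real.sqrt s := by
    rw [hs, Real.sqrt_div hρ.le, hη, Real.sqrt_mul hρ.le]
    rw [div_eq_div_iff hD.ne' (Real.sqrt_pos.2 hD).ne', mul_assoc, Real.mul_self_sqrt hD.le]
  have hpow : (4 * Real.sqrt s) ^ c = 4 ^ c * s ^ (c / 2) := by
    rw [Real.mul_rpow (by norm_num) (Real.sqrt_nonneg _), Real.sqrt_eq_rpow, ← Real.rpow_mul hs0.le]
    congr 2
    ring
  have key : ∀ (k : ZMod 3) (r R : ℝ), ρ ≤ r → r ≤ R → R ≤ D → r / R ≤ 4 * Real.sqrt s →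
      pr V (fun T => CArm S T (m k) r R) ≤ C * (4 ^ c * s ^ (c / 2)) := by
    intro k r R h1 h2 h3 h4
    have hr : 0 < r := by linarith
    have hR : 0 < R := by linarith
    have hKR : K * R ≤ max K 2 * D :=
      (mul_le_mul_of_nonneg_left h3 (by linarith)).trans hKK
    refine (H S (m k) d r R hr h2 (ldns_mono (E.ld k) hKR) ?_ ?_ V hV).trans ?_
    · intro b hb1 hb2
      refine mesh_mono (E.mesh k b ?_ (hb2.trans h3)) hKR
      exact (mul_le_mul_of_nonneg_left h1 hc2.le).trans hb1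
    · exact hd1.trans (mul_le_mul_of_nonneg_left h1 hc1.le)
    · rw [← hpow]
      refine mul_le_mul_of_nonneg_left ?_ hC.le
      exact Real.rpow_le_rpow (by positivity) h4 hc.le
  have p1 : ∀ k, pr V (fun T => CArm S T (m k) (ρ + 2 * d) (η - 2 * d)) ≤
      C * (4 ^ c * s ^ (c / 2)) := by
    intro k
    refine key k _ _ (by linarith) (by linarith) (by linarith) ?_
    rw [← hq1, div_le_iff₀ (by linarith), mul_comm (4 * (ρ / η))]
    rw [show (η - 2 * d) * (4 * (ρ / η)) = 4 * ρ * ((η - 2 * d) / η) by field_simp]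
    have : 3 / 4 ≤ (η - 2 * d) / η := by
      rw [div_le_div_iff₀ (by norm_num) hη0]
      linarith
    nlinarith
  have p2 : ∀ k, pr V (fun T => CArm S T (m k) (η + 2 * d) (D - 2 * d)) ≤
      C * (4 ^ c * s ^ (c / 2)) := by
    intro k
    refine key k _ _ (by linarith) (by linarith) (by linarith) ?_
    rw [← hq2, div_le_iff₀ (by linarith), mul_comm (4 * (η / D))]
    rw [show (D - 2 * d) * (4 * (η / D)) = 4 * η * ((D - 2 * d) / D) by field_simp]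
    have : 3 / 4 ≤ (D - 2 * d) / D := by
      rw [div_le_div_iff₀ (by norm_num) hD]
      linarith
    nlinarith
  refine (pr_bdE p1 p2).trans (le_of_eq ?_)
  ring

/-- the structure `Mk` -/
theorem mk_of {C4 c1 c2 K : ℝ} (hK : 2 ≤ K) (hc1 : c1 ≤ 1) (E : EnvM S m C4 c1 c2 K d ρ D)
    (dA : ∀ j, ∀ x ∈ A j, x ∉ V) (dB : ∀ j, ∀ x ∈ B j, x ∉ V)
    (lab : ∀ x, Nxt S V x → (∀ k, ρ < ‖x - m k‖) → ∀ j, (x ∈ A j ↔ x ∈ B j))
    (opp : ∀ k, ∃ e, ∀ x, Nxt S V x → (x ∈ A e ∨ x ∈ B e) → D < ‖x - m k‖) :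
    Mk S V A B m d ρ (Real.sqrt (ρ * D)) D := by
  have hρ := E.rpos
  have hrD := E.rD
  have hD : 0 < D := by linarith
  have hdp := (E.ld 0).dpos
  have hd2 : d ≤ ρ := by
    have := E.dr
    nlinarith
  have hηη : Real.sqrt (ρ * D) * Real.sqrt (ρ * D) = ρ * D := Real.mul_self_sqrt (by positivity)
  have hη0 : 0 < Real.sqrt (ρ * D) := Real.sqrt_pos.2 (by positivity)
  have h10 : 10 * ρ ≤ Real.sqrt (ρ * D) := by
    apply Real.le_sqrt_of_sq_le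
    nlinarith
  have h10' : 10 * Real.sqrt (ρ * D) ≤ D := by nlinarith
  refine ⟨dA, dB, hdp.le, by linarith, by linarith, ?_, lab, opp⟩
  intro k u v huv hu
  refine (adj_small (E.ld k) huv ?_).le
  nlinarith

/-- **STAB for a proper net and the frozen `T`** -/
theorem stabU : ∀ C4 : ℝ, 0 ≤ C4 → ∃ C c c1 c2 K : ℝ, 0 < C ∧ 0 < c ∧ 0 < c1 ∧ c1 ≤ 1 ∧
    0 < c2 ∧ c2 ≤ 1 ∧ 2 ≤ K ∧ ∀ (S : Finset ℂ) (m : ZMod 3 → ℂ) (d ρ D : ℝ),
    EnvM S m C4 c1 c2 K d ρ D → ∀ (A : ZMod 3 → Set ℂ) (P : Set ℂ) (e : ℝ) (L : ℂ → ZMod 3),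
    G3 S A → Hex S A → NR S A → ff S A = Vin S P e →
    (∀ x, Nxt S (Vin S P e) x → (∀ k, ρ < ‖x - m k‖) → ∀ j, x ∈ A j → L x = j) →
    (∀ k, ∃ f, ∀ x, Nxt S (Vin S P e) x → x ∉ Vin S P e → (x ∈ A f ∨ L x = f) →
      D < ‖x - m k‖) →
    ∀ (z : ℂ → ℂ) (b : ℝ), 0 ≤ b → (∀ v ∈ S, ‖z v‖ ≤ b) →
    ‖TS S A z - TU S P e L z‖ ≤ C * b * (ρ / D) ^ c ∧
    pr (Vin S P e) (fun T => ¬ ∀ (z : ℂ → ℂ) (i : ZMod 3),
      zV S (Vin S P e) (Bl S (Vin S P e) L) i (T : Set ℂ) z = z (hv S A i T)) ≤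
        C * (ρ / D) ^ c := by
  intro C4 hC4
  obtain ⟨C, c, c1, c2, K, hC, hc, hc1, hc1', hc2, hc2', hK, H⟩ := bde_pow C4 hC4
  refine ⟨18 * C, c, c1, c2, K, by positivity, hc, hc1, hc1', hc2, hc2', hK, ?_⟩
  intro S m d ρ D E A P e L hG hX nr hV lab opp z b hb hz
  have hS := hG.gp
  have hVS : Vin S P e ⊆ S := Finset.filter_subset _ _
  have adjS : ∀ {x : ℂ}, Nxt S (Vin S P e) x → x ∈ S := by
    rintro x ⟨v, -, (⟨w, hw⟩ | ⟨w, hw⟩)⟩
    · obtain ⟨o, hc⟩ := mem_delT_iff.1 hw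
      exact hc.mb
    · obtain ⟨o, hc⟩ := mem_delT_iff.1 hw
      exact hc.ma
  have dA : ∀ j, ∀ x ∈ A j, x ∉ Vin S P e := by
    intro j x hx h
    rw [← hV, mem_ff] at h
    exact h.2 j hx
  have dB : ∀ j, ∀ x ∈ Bl S (Vin S P e) L j, x ∉ Vin S P e := fun j x hx => hx.2.1
  have hlab : ∀ x, Nxt S (Vin S P e) x → (∀ k, ρ < ‖x - m k‖) → ∀ j,
      (x ∈ A j ↔ x ∈ Bl S (Vin S P e) L j) := by
    intro x hx hk j
    constructor
    · intro h
      exact ⟨adjS hx, dA j x h, by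
        obtain ⟨v, hv, ha⟩ := hx
        exact ⟨v, hv, ha.symm⟩, lab x hx hk j h⟩
    · intro h
      have hxV : x ∉ ff S A := by rw [hV]; exact h.2.1
      have : ∃ j', x ∈ A j' := by
        by_contra hn
        push Not at hn
        exact hxV (mem_ff.2 ⟨h.1, hn⟩)
      obtain ⟨j', hj'⟩ := this
      have e1 := lab x hx hk j' hj'
      rw [h.2.2.2] at e1
      rw [e1]
      exact hj'
  have hopp : ∀ k, ∃ f, ∀ x, Nxt S (Vin S P e) x → (x ∈ A f ∨ x ∈ Bl S (Vin S P e) L f) →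
      D < ‖x - m k‖ := by
    intro k
    obtain ⟨f, hf⟩ := opp k
    refine ⟨f, fun x hx h => ?_⟩
    rcases h with h | h
    · exact hf x hx (dA f x h) (Or.inl h)
    · exact hf x hx h.2.1 (Or.inr h.2.2.2)
  have HM := mk_of (V := Vin S P e) (A := A) (B := Bl S (Vin S P e) L) hK hc1' E dA dB hlab hopp
  have hp := H S m d ρ D E (Vin S P e) hVS
  have h0 : 0 ≤ (ρ / D) ^ c := Real.rpow_nonneg (div_nonneg E.rpos.le (by linarith [E.rpos, E.rD])) _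
  constructor
  · refine (stab_TU hS hV HM hX nr hG.sub hb hz).trans ?_
    nlinarith [mul_le_mul_of_nonneg_left hp (by positivity : (0 : ℝ) ≤ 18 * b)]
  · refine (pr_mono fun T hT hn => ?_).trans (hp.trans ?_)
    · by_contra hb
      apply hn
      intro z i
      have HM' := HM
      rw [← hV] at HM' hT hb ⊢
      exact zV_hv hS HM' hX nr hT hb z i
    · nlinarith

end Crest.Agent.R143.Stab2x930
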