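import Crest.Agent.R143.Cont7_920
import Crest.Agent.R143.Stab2_930

/-!
# Row 143 (S0194), box R10 / VIS: the final comparison inequality (helper930)

`A ⊆ A'` proper nets (`A` the giants of `U_K` or of the slit net, `A'` the classes of the polygon,
`ff S A' = V`), `B` position labels next to `V` which agree with `A'` off the marks.

* `cont_hv` : `P(η < |hit of A - hit of A'|) ≤ C (d / η) ^ (c / 3)` (pr form of 920's static CONT)
* `r10_pr` : the same for the hit of `A` and the value `zV` of the position labels `B`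
* `r10_TS` : `‖TS S A z - TV S V B z‖ ≤ 9 (η + 2 b P(η < ..))`
-/

set_option autoImplicit false

noncomputable section

open scoped Classical

namespace Crest.Agent.R143.R10x930

open Crest.Agent.R143.Harx315
open Crest.Agent.R143.D3Fx802 (CArm)
open Crest.Agent.R143.B0x346 Crest.Agent.R143.DelGx806
open Crest.Agent.R143.K33x877 Crest.Agent.R143.Freshx920 Crest.Agent.R143.Cont2x920
  Crest.Agent.R143.Cont3x920 Crest.Agent.R143.Cont4x920 Crest.Agent.R143.Cont5x920
  Crest.Agent.R143.Cont7x920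
open Crest.Agent.R143.Cont6x920 (ArmV)
open Crest.Agent.R143.NetUx346 Crest.Agent.R143.NetVx346 Crest.Agent.R143.Stabx930
open Crest.Agent.R143.XW1x315 (ex ex_ind ex_dep)

variable {S V : Finset ℂ} {A A' B : ZMod 3 → Set ℂ} {i : ZMod 3} {Rg : Set ℂ} {d D C c η : ℝ}
  {z : ℂ → ℂ}

theorem ff_sub (hs : ∀ l, A l ⊆ A' l) : ff S A' ⊆ ff S A := by
  intro w hw
  rw [mem_ff] at hw ⊢
  exact ⟨hw.1, fun l hl => hw.2 l (hs l hl)⟩

/-- **pr form of static CONT** -/
theorem cont_hv (hS : GP (S : Set ℂ)) (hX : Hex S A) (hX' : Hex S A') (hs : ∀ l, A l ⊆ A' l)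
    (hVR : ∀ w ∈ fr S A, w ∈ Rg) (hd : 0 < d) (hη : d ≤ η) (hηD : η ≤ D)
    (hA : ArmV S (ff S A) Rg d D C c) (hC : 1 ≤ C) (hc : 0 ≤ c)
    (hD : DetsS S (ff S A) A A' (OP S) Rg d D) (i : ZMod 3) :
    pr (ff S A) (fun β => η < ‖hv S A i (β : Set ℂ) -
      hv S A' i ((β ∩ ff S A' : Finset ℂ) : Set ℂ)‖) ≤
      8 * (C * 16 ^ c) * (d / η) ^ (c / 3) := by
  have hη0 : 0 < η := hd.trans_le hη
  have p4 : (0 : ℝ) < 16 ^ c := Real.rpow_pos_of_pos (by norm_num) _
  set x : ℝ := (η / d) ^ (1 / 3 : ℝ) with hx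
  have hr : 0 < η / d := by positivity
  have hx0 : 0 < x := Real.rpow_pos_of_pos hr _
  have hx3 : x ^ 3 = η / d := by
    rw [hx, ← Real.rpow_natCast, ← Real.rpow_mul hr.le]
    norm_num
  have hxc : (d / η) ^ (c / 3) = (1 / x) ^ c := by
    have e1 : d / η = (1 / x) ^ (3 : ℕ) := by
      rw [one_div, inv_pow, hx3, inv_div]
    rw [e1, ← Real.rpow_natCast, ← Real.rpow_mul (by positivity)]
    congr 1
    push_cast
    ring
  rw [hxc]
  by_cases h8 : 8 ≤ x
  · have hη3 : d * x ^ 3 = η := by rw [hx3]; field_simp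
    have s1 : 8 * d ≤ d * x := by nlinarith
    have s2 : 8 * (d * x) ≤ d * x ^ 2 := by
      have : d * x ^ 2 = (d * x) * x := by ring
      rw [this]
      nlinarith [mul_pos hd hx0]
    have s3 : 8 * (d * x ^ 2) ≤ η := by
      rw [← hη3]
      have : d * x ^ 3 = (d * x ^ 2) * x := by ring
      rw [this]
      have := mul_pos hd (pow_pos hx0 2)
      nlinarith
    obtain ⟨p0, p1, hdet⟩ := hD i (d * x) (d * x ^ 2) η s1 s2 s3 hηD
    have hVfr : fr S A' ⊆ (ff S A : Set ℂ) := by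
      intro w hw
      exact Finset.mem_coe.2 (ff_sub hs (mem_ff.2 hw))
    have hVR' : ∀ w ∈ ff S A, w ∈ Rg := fun w hw => hVR w (mem_ff.1 hw)
    have key := cont_pr hVfr (ex_of_hex (i := i) hS hX') (un_of_hex (i := i) hS hX') hdet
      (bdsS hA hVR' hC hc hd s1 s2 s3 hηD p0) (bdsS hA hVR' hC hc hd s1 s2 s3 hηD p1)
    refine (pr_mono ?_).trans (key.trans ?_)
    · intro β hβ hlt
      have hβ' : β ∩ ff S A' ⊆ ff S A' := Finset.inter_subset_right
      obtain ⟨⟨u, b, v⟩, h1, -⟩ := hX i β hβ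
      obtain ⟨⟨u', b', v'⟩, h1', -⟩ := hX' i (β ∩ ff S A') hβ'
      have e1 := hv_eq hX hβ h1
      have e1' := hv_eq hX' hβ' h1'
      rw [e1, e1'] at hlt
      obtain ⟨g1, g2⟩ := (hitO_hit hS).1 h1
      obtain ⟨g3, g4⟩ := (hitO_hit hS).1 h1'
      refine ⟨b', v', u', b, v, u, hit_congr (fun w hw => ?_) g3, g4, g1, g2, hlt⟩
      rw [Finset.coe_inter]
      exact ⟨fun h => h.1, fun h => ⟨h, Finset.mem_coe.2 (mem_ff.2 hw)⟩⟩
    · simp only [Matrix.cons_val_zero, Matrix.cons_val_one, Matrix.cons_val]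
      have r1 : d / (d * x) = 1 / x := by field_simp
      have r2 : d * x / (d * x ^ 2) = 1 / x := by field_simp
      have r3 : d * x ^ 2 / η = 1 / x := by rw [← hη3]; field_simp
      have r4 : (d / η) ^ c ≤ (1 / x) ^ c := by
        refine Real.rpow_le_rpow (by positivity) ?_ hc
        rw [← hη3, div_le_div_iff₀ (by positivity) hx0]
        have e : d * x ^ 3 = d * x * x ^ 2 := by ring
        have e' : (1 : ℝ) ≤ x ^ 2 := by nlinarith
        rw [one_mul, e]
        exact le_mul_of_one_le_right (by positivity) e'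
      rw [r1, r2, r3]
      have h0 : 0 ≤ C * 16 ^ c := by positivity
      have := mul_le_mul_of_nonneg_left r4 h0
      nlinarith
  · push Not at h8
    refine pr_le_one.trans ?_
    have e1 : (1 / 8 : ℝ) ≤ 1 / x := one_div_le_one_div_of_le hx0 h8.le
    have e2 : (1 / 8 : ℝ) ^ c ≤ (1 / x) ^ c := Real.rpow_le_rpow (by norm_num) e1 hc
    have e3 : (16 : ℝ) ^ c * (1 / 8) ^ c = 2 ^ c := by
      rw [← Real.mul_rpow (by norm_num) (by norm_num)]
      norm_num
    have e4 : (1 : ℝ) ≤ 2 ^ c := Real.one_le_rpow (by norm_num) hc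
    have e5 : 8 * (C * 16 ^ c) * (1 / 8 : ℝ) ^ c ≤ 8 * (C * 16 ^ c) * (1 / x) ^ c :=
      mul_le_mul_of_nonneg_left e2 (by positivity)
    have e6 : 8 * (C * 16 ^ c) * (1 / 8 : ℝ) ^ c = 8 * C * 2 ^ c := by
      rw [← e3]; ring
    nlinarith

/-- probability of an event of the colours in a subset -/
theorem pr_dep {V W : Finset ℂ} (hW : W ⊆ V) (P : Finset ℂ → Prop) :
    pr V (fun β => P (β ∩ W)) = pr W P := by
  have h1 := ex_ind (V := V) fun β => P (β ∩ W)
  have h2 := ex_ind (V := W) P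
  rw [← h1, ← h2, ex_dep (V := V) (W := W) (f := fun β => if P (β ∩ W) then 1 else 0) hW]
  · refine XW1x315.ex_congr fun β hβ => ?_
    rw [Finset.inter_eq_left.2 hβ]
  · intro β _
    rw [Finset.inter_assoc, Finset.inter_self]

variable {m : ZMod 3 → ℂ} {d' ρ η0 D0 : ℝ}

/-- **the hit of `A` and the value of the position labels** -/
theorem r10_pr (hS : GP (S : Set ℂ)) (hX : Hex S A) (hX' : Hex S A') (nr : NR S A')
    (hs : ∀ l, A l ⊆ A' l)
    (hVR : ∀ w ∈ fr S A, w ∈ Rg) (hd : 0 < d) (hη : d ≤ η) (hηD : η ≤ D)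
    (hA : ArmV S (ff S A) Rg d D C c) (hC : 1 ≤ C) (hc : 0 ≤ c)
    (hD : DetsS S (ff S A) A A' (OP S) Rg d D)
    (H : Mk S (ff S A') A' B m d' ρ η0 D0) (i : ZMod 3) :
    pr (ff S A) (fun β => η < ‖hv S A i (β : Set ℂ) -
      zV S (ff S A') B i ((β ∩ ff S A' : Finset ℂ) : Set ℂ) (fun x => x)‖) ≤
      8 * (C * 16 ^ c) * (d / η) ^ (c / 3) +
        pr (ff S A') (BdE S (ff S A') m d' ρ η0 D0) := by
  have h1 := cont_hv hS hX hX' hs hVR hd hη hηD hA hC hc hD i
  have h2 := pr_dep (V := ff S A) (W := ff S A') (ff_sub hs) (BdE S (ff S A') m d' ρ η0 D0)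
  refine le_trans (pr_mono fun β hβ hlt => ?_) (pr_or_le.trans (add_le_add h1 h2.le))
  by_cases hb : BdE S (ff S A') m d' ρ η0 D0 (β ∩ ff S A')
  · exact Or.inr hb
  · left
    rw [zV_hv hS H hX' nr Finset.inter_subset_right hb] at hlt
    exact hlt

/-- means from the probability of a distance -/
theorem exC_near {V W : Finset ℂ} (hW : W ⊆ V) {f g : Finset ℂ → ℂ} {b : ℝ} (hη : 0 ≤ η)
    (hf : ∀ T ⊆ V, ‖f T‖ ≤ b) (hg : ∀ T ⊆ W, ‖g T‖ ≤ b) :
    ‖exC V f - exC W g‖ ≤ η + 2 * b * pr V (fun T => η < ‖f T - g (T ∩ W)‖) := by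
  have hb : 0 ≤ b := (norm_nonneg _).trans (hg ∅ (Finset.empty_subset _))
  have e0 : exC W g = exC V fun T => g (T ∩ W) := by
    have hre : (exC W g).re = (exC V fun T => g (T ∩ W)).re := by
      have := ex_dep (V := V) (W := W) (f := fun T => (g (T ∩ W)).re) hW
        (fun β _ => by rw [Finset.inter_assoc, Finset.inter_self])
      unfold ex at this
      unfold exC
      rw [← Complex.ofReal_ofNat, ← Complex.ofReal_pow, ← Complex.ofReal_pow,
        Complex.div_ofReal_re, Complex.div_ofReal_re, Complex.re_sum, Complex.re_sum, this]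
      congr 1
      refine Finset.sum_congr rfl fun T hT => ?_
      show (g T).re = (g (T ∩ W)).re
      rw [Finset.inter_eq_left.2 (Finset.mem_powerset.1 hT)]
    have him : (exC W g).im = (exC V fun T => g (T ∩ W)).im := by
      have := ex_dep (V := V) (W := W) (f := fun T => (g (T ∩ W)).im) hW
        (fun β _ => by rw [Finset.inter_assoc, Finset.inter_self])
      unfold ex at this
      unfold exC
      rw [← Complex.ofReal_ofNat, ← Complex.ofReal_pow, ← Complex.ofReal_pow,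
        Complex.div_ofReal_im, Complex.div_ofReal_im, Complex.im_sum, Complex.im_sum, this]
      congr 1
      refine Finset.sum_congr rfl fun T hT => ?_
      show (g T).im = (g (T ∩ W)).im
      rw [Finset.inter_eq_left.2 (Finset.mem_powerset.1 hT)]
    exact Complex.ext hre him
  rw [e0, ← exC_sub]
  refine (norm_exC_le _ _).trans ?_
  have e1 : pr V (fun T => η < ‖f T - g (T ∩ W)‖) =
      (∑ T ∈ V.powerset, if η < ‖f T - g (T ∩ W)‖ then (1 : ℝ) else 0) / 2 ^ V.card := by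
    unfold pr nb fl
    congr 1
    rw [Finset.sum_ite, Finset.sum_const_zero, add_zero, Finset.sum_const, nsmul_eq_mul, mul_one]
  have e2 : η = (∑ _T ∈ V.powerset, η) / 2 ^ V.card := by
    rw [Finset.sum_const, Finset.card_powerset, nsmul_eq_mul]
    push_cast
    field_simp
  rw [e1]
  conv_rhs => rw [e2]
  rw [← mul_div_assoc, ← add_div]
  refine div_le_div_of_nonneg_right ?_ (by positivity)
  rw [Finset.mul_sum, ← Finset.sum_add_distrib]
  refine Finset.sum_le_sum fun T hT => ?_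
  have hT' := Finset.mem_powerset.1 hT
  split_ifs with h
  · have h1 := hf T hT'
    have h2 := hg (T ∩ W) Finset.inter_subset_right
    have h3 := norm_sub_le (f T) (g (T ∩ W))
    linarith
  · push Not at h
    linarith

/-- **the totals**: `‖TS S A z - TV S V B z‖ ≤ 9 (η + 2 b θ)` -/
theorem r10_TS (hX : Hex S A) (hs : ∀ l, A l ⊆ A' l)
    (hη : 0 ≤ η) {b θ : ℝ} (hb : 0 ≤ b) (hbA : ∀ i, ∀ v ∈ A i, ‖z v‖ ≤ b)
    (hbB : ∀ i, ∀ v ∈ B i, ‖z v‖ ≤ b)
    (hθ : ∀ i, pr (ff S A) (fun β => ¬ (‖z (hv S A i (β : Set ℂ)) -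
      zV S (ff S A') B i ((β ∩ ff S A' : Finset ℂ) : Set ℂ) z‖ ≤ η)) ≤ θ) :
    ‖TS S A z - TV S (ff S A') B z‖ ≤ 9 * (η + 2 * b * θ) := by
  unfold TS TV
  rw [← mul_sub, norm_mul, Complex.norm_ofNat, ← Finset.sum_sub_distrib]
  have h1 : ∀ i : ZMod 3, ‖omz i * Ey S A z i -
      omz i * exC (ff S A') fun T => zV S (ff S A') B i (T : Set ℂ) z‖ ≤ η + 2 * b * θ := by
    intro i
    rw [← mul_sub, norm_mul, norm_omz, one_mul, Ey_eq hX]
    refine (exC_near (V := ff S A) (W := ff S A') (ff_sub hs) hη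
      (f := fun T => z (hv S A i T)) (g := fun T => zV S (ff S A') B i (T : Set ℂ) z)
      (fun T hT => hbA i _ (hv_mem hX hT)) (fun T _ => norm_zV hb (hbB i))).trans ?_
    have h2 := hθ i
    have h3 : pr (ff S A) (fun T => η < ‖z (hv S A i (T : Set ℂ)) -
        zV S (ff S A') B i ((T ∩ ff S A' : Finset ℂ) : Set ℂ) z‖) ≤ θ := by
      refine (pr_mono fun T _ h => ?_).trans h2
      exact not_le.2 h
    have := mul_le_mul_of_nonneg_left h3 (by positivity : (0 : ℝ) ≤ 2 * b)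
    linarith
  refine (mul_le_mul_of_nonneg_left ((norm_sum_le _ _).trans
    (Finset.sum_le_sum fun i _ => h1 i)) (by norm_num)).trans ?_
  rw [Finset.sum_const, Finset.card_univ, ZMod.card, nsmul_eq_mul]
  push_cast
  linarith

end Crest.Agent.R143.R10x930
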