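import Crest.Agent.R143.SmallA_304
import Crest.Agent.R143.CorM_970

/-!
# Row 143 (S0194), block RIG: the hypothesis `small` of 970's `main_good`, environment level
(helper304)

`small_env` : real, measurable, nonnegative error functions `E1`, `E2` of the environment with
`∫ E1 → 0`, `∫ E2 → 0` and, for small `ε`, a.e. environment, every bounded `B ⊇ U`, `S` = points in
`B`, every admissible field, stopping set, weight and choice of macroscopic gaps: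
`av_β av_β' (g * ‖V‖) ≤ E1`, `av_β av_β' (g * ‖V‖²) ≤ E2` (`β`, `β'` run over the subsets of `S`,
`chiS` = the corresponding colourings of the cells).
-/

set_option autoImplicit false

noncomputable section

open scoped Classical

namespace Crest.Agent.R143.SmallEx304

open MeasureTheory Set Filter Topology
open Crest.ProbabilityR.Voronoi
open Crest.Agent.R143.B0x346 Crest.Agent.R143.SumScx302 Crest.Agent.R143.PP0x831
  Crest.Agent.R143.ColSumx304 Crest.Agent.R143.MassQx304 Crest.Agent.R143.Mass2x302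
  Crest.Agent.R143.Mass3x302 Crest.Agent.R143.Mass4x302 Crest.Agent.R143.Mass5x302
  Crest.Agent.R143.DelGx806 Crest.Agent.R143.DelRx806 Crest.Agent.R143.JColx54
  Crest.Agent.R143.FinCx811 Crest.Agent.R143.Resax778 Crest.Agent.R143.MixFx304
  Crest.Agent.R143.Dblx609 Crest.Agent.R143.Dbl2x609 Crest.Agent.R143.SmallAx304
open Crest.Agent.R143.Mass1x302 hiding ps
open Crest.Agent.R143.Frame1x395 Crest.Agent.R143.Frame2x395 Crest.Agent.R143.Frame3x395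
  Crest.Agent.R143.Frame4x395 Crest.Agent.R143.Frame8x395 Crest.Agent.R143.Frame10x395
open Crest.Agent.R143.Frame5x395 (sd mem_sd th th_spec)
open Crest.Agent.R143.CorMx970 (av)
open scoped ENNReal

/-- double means in `ℝ` and in `ℝ≥0∞` -/
theorem av_av_le {S : Finset ℂ} {F : Finset ℂ → Finset ℂ → ℝ}
    (h0 : ∀ β β', 0 ≤ F β β') {e : ℝ≥0∞} (he : e ≠ ∞)
    (h : ((4 : ℝ≥0∞) ^ S.card)⁻¹ * ∑ β ∈ S.powerset, ∑ β' ∈ S.powerset,
      ENNReal.ofReal (F β β') ≤ e) :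
    av S.powerset (fun β => av S.powerset fun β' => F β β') ≤ e.toReal := by
  have e1 : av S.powerset (fun β => av S.powerset fun β' => F β β') =
      ((4 : ℝ) ^ S.card)⁻¹ * ∑ β ∈ S.powerset, ∑ β' ∈ S.powerset, F β β' := by
    unfold av
    rw [Finset.card_powerset, ← Finset.smul_sum, smul_smul, smul_eq_mul]
    congr 1
    push_cast
    rw [← mul_inv, ← mul_pow]
    norm_num
  have hs0 : 0 ≤ ∑ β ∈ S.powerset, ∑ β' ∈ S.powerset, F β β' :=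
    Finset.sum_nonneg fun β _ => Finset.sum_nonneg fun β' _ => h0 β β'
  have e2 : ENNReal.ofReal (av S.powerset (fun β => av S.powerset fun β' => F β β')) =
      ((4 : ℝ≥0∞) ^ S.card)⁻¹ * ∑ β ∈ S.powerset, ∑ β' ∈ S.powerset,
        ENNReal.ofReal (F β β') := by
    rw [e1, ENNReal.ofReal_mul (by positivity), ENNReal.ofReal_inv_of_pos (by positivity),
      ENNReal.ofReal_pow (by norm_num),
      ENNReal.ofReal_sum_of_nonneg fun β _ => Finset.sum_nonneg fun β' _ => h0 β β']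
    congr 1
    · norm_num
    · exact Finset.sum_congr rfl fun β _ =>
        ENNReal.ofReal_sum_of_nonneg fun β' _ => h0 β β'
  rw [← e2] at h
  exact (ENNReal.ofReal_le_iff_le_toReal he).1 h

/-- **`small`, environment level** -/
theorem small_env {k : ℝ} (hk : 0 < k) {U : Set ℂ} (hU : Bornology.IsBounded U) :
    ∃ E1 E2 : ℝ → Sample → ℝ, (∀ ε, 0 < ε → Measurable (E1 ε) ∧ Measurable (E2 ε)) ∧
      (∀ ε ω, 0 ≤ E1 ε ω ∧ 0 ≤ E2 ε ω) ∧
      (∀ᶠ ε in 𝓝[>] (0 : ℝ), Integrable (E1 ε) sampleLaw ∧ Integrable (E2 ε) sampleLaw) ∧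
      Tendsto (fun ε : ℝ => ∫ ω, E1 ε ω ∂sampleLaw) (𝓝[>] 0) (𝓝 0) ∧
      Tendsto (fun ε : ℝ => ∫ ω, E2 ε ω ∂sampleLaw) (𝓝[>] 0) (𝓝 0) ∧
      ∀ᶠ ε in 𝓝[>] (0 : ℝ), ∀ᵐ ω ∂sampleLaw, ∀ (S : Finset ℂ) (hS : GP (S : Set ℂ))
        (h3 : 3 ≤ S.card),
        (∀ z ∈ U, z ∈ points ε ω ↔ z ∈ (S : Set ℂ)) → (∀ v ∈ S, v ∈ U → ¬ OnHull S v) →
        ∀ (e0 : D0 S) (a : D0 S → ℂ), FldU (points ε ω) U (dl e0) a →
        ∀ (O : (Cs hS → ZMod 2) → Finset (Cs hS)), StopSet O →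
        ∀ (g : (Cs hS → ZMod 2) → (Cs hS → ZMod 2) → ℝ)
          (s0 : (Cs hS → ZMod 2) → (Cs hS → ZMod 2) → D0 S),
        (∀ σ τ, 0 ≤ g σ τ) → (∀ σ τ, g σ τ ≤ 1) →
        (∀ σ τ, 0 < g σ τ →
          Gp (cm0 hS) (cfg (rc0 hS) (mix O σ τ)) (s0 σ τ) ∧
          InU (points ε ω) U (cm0 hS) (dl e0) (cfg (rc0 hS) (mix O σ τ)) (s0 σ τ) ∧
          Big (points ε ω) U (cm0 hS) (dl e0) (cfg (rc0 hS) (mix O σ τ)) k (s0 σ τ)) →
        av S.powerset (fun β => av S.powerset fun β' => g (chiS hS h3 β) (chiS hS h3 β') *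
          ‖Vm hS O s0 a (chiS hS h3 β) (chiS hS h3 β')‖) ≤ E1 ε ω ∧
        av S.powerset (fun β => av S.powerset fun β' => g (chiS hS h3 β) (chiS hS h3 β') *
          ‖Vm hS O s0 a (chiS hS h3 β) (chiS hS h3 β')‖ ^ 2) ≤ E2 ε ω := by
  obtain ⟨E, h1, h2, h3, h4, h5⟩ := R7m hk hU
  have fin2 : ∀ᶠ ε in 𝓝[>] (0 : ℝ), ∫⁻ ω, E ε ω ∂sampleLaw < 1 :=
    (tendsto_order.1 h2).2 1 (by norm_num)
  have fin1 : ∀ᶠ ε in 𝓝[>] (0 : ℝ), ∫⁻ ω, E ε ω ^ (1 / 2 : ℝ) ∂sampleLaw < 1 :=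
    (tendsto_order.1 h3).2 1 (by norm_num)
  have hpos : ∀ᶠ ε in 𝓝[>] (0 : ℝ), 0 < ε := self_mem_nhdsWithin
  have ae2 : ∀ ε, 0 < ε → ∫⁻ ω, E ε ω ∂sampleLaw < 1 → ∀ᵐ ω ∂sampleLaw, E ε ω < ∞ :=
    fun ε hε h => ae_lt_top (h1 ε hε) (h.trans (by norm_num)).ne
  have ae1 : ∀ ε, 0 < ε → ∫⁻ ω, E ε ω ∂sampleLaw < 1 →
      ∀ᵐ ω ∂sampleLaw, E ε ω ^ (1 / 2 : ℝ) < ∞ := fun ε hε h => by
    filter_upwards [ae2 ε hε h] with ω hω
    exact ENNReal.rpow_lt_top_of_nonneg (by norm_num) hω.ne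
  refine ⟨fun ε ω => (E ε ω ^ (1 / 2 : ℝ)).toReal, fun ε ω => (E ε ω).toReal,
    fun ε hε => ⟨((h1 ε hε).pow_const _).ennreal_toReal, (h1 ε hε).ennreal_toReal⟩,
    fun ε ω => ⟨ENNReal.toReal_nonneg, ENNReal.toReal_nonneg⟩, ?_, ?_, ?_, ?_⟩
  · filter_upwards [fin1, fin2, hpos] with ε f1 f2 hε
    exact ⟨integrable_toReal_of_lintegral_ne_top ((h1 ε hε).pow_const _).aemeasurable
        (f1.trans (by norm_num)).ne,
      integrable_toReal_of_lintegral_ne_top (h1 ε hε).aemeasurable (f2.trans (by norm_num)).ne⟩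
  · have e1 : (fun ε : ℝ => ∫ ω, (E ε ω ^ (1 / 2 : ℝ)).toReal ∂sampleLaw) =ᶠ[𝓝[>] 0]
        fun ε => (∫⁻ ω, E ε ω ^ (1 / 2 : ℝ) ∂sampleLaw).toReal := by
      filter_upwards [fin1, fin2, hpos] with ε f1 f2 hε
      exact integral_toReal ((h1 ε hε).pow_const _).aemeasurable (ae1 ε hε f2)
    refine Tendsto.congr' e1.symm ?_
    have := (ENNReal.tendsto_toReal (a := 0) (by norm_num)).comp h3
    rwa [ENNReal.toReal_zero] at this
  · have e1 : (fun ε : ℝ => ∫ ω, (E ε ω).toReal ∂sampleLaw) =ᶠ[𝓝[>] 0]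
        fun ε => (∫⁻ ω, E ε ω ∂sampleLaw).toReal := by
      filter_upwards [fin2, hpos] with ε f2 hε
      exact integral_toReal (h1 ε hε).aemeasurable (ae2 ε hε f2)
    refine Tendsto.congr' e1.symm ?_
    have := (ENNReal.tendsto_toReal (a := 0) (by norm_num)).comp h2
    rwa [ENNReal.toReal_zero] at this
  · filter_upwards [fin2, hpos] with ε f2 hε
    have hGP : ∀ᵐ ω ∂sampleLaw, GP (points ε ω) := by
      filter_upwards [PoisM3x930.m3a ε hε] with ω h using h.1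
    filter_upwards [ae2 ε hε f2, ae1 ε hε f2, hGP] with ω w2 w1 hP
    intro S hS h3' hPS hin e0 a ⟨u, hu, ha⟩ O hO g s0 g0 g1 hs
    have hn : ∀ σ τ, ‖Vm hS O s0 a σ τ‖ = ‖∑ t ∈ blk (cm0 hS) (cfg (rc0 hS) (mix O σ τ)) (s0 σ τ),
        u * a t‖ := by
      intro σ τ
      rw [← Finset.mul_sum, norm_mul, hu, one_mul]
      rfl
    obtain ⟨q2, q1⟩ := h5 ε ω S hS hP hPS hin e0 _ ha O hO g s0 g0 g1 hs
    have t1 : ((2 ^ Fintype.card (Cs hS)) ^ 2 : ℝ≥0∞) ≠ 0 := by positivity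
    have t2 : ((2 ^ Fintype.card (Cs hS)) ^ 2 : ℝ≥0∞) ≠ ∞ :=
      ENNReal.pow_ne_top (ENNReal.pow_ne_top (by norm_num))
    constructor
    · refine av_av_le (F := fun β β' => g (chiS hS h3' β) (chiS hS h3' β') *
        ‖Vm hS O s0 a (chiS hS h3' β) (chiS hS h3' β')‖)
        (fun β β' => mul_nonneg (g0 _ _) (norm_nonneg _)) w1.ne ?_
      rw [avg_pair hS h3' fun σ τ => ENNReal.ofReal (g σ τ * ‖Vm hS O s0 a σ τ‖)]
      simp only [hn]
      calc _ ≤ ((2 ^ Fintype.card (Cs hS)) ^ 2)⁻¹ * ((2 ^ Fintype.card (Cs hS)) ^ 2 *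
            E ε ω ^ (1 / 2 : ℝ)) := by gcongr
        _ = E ε ω ^ (1 / 2 : ℝ) := by rw [← mul_assoc, ENNReal.inv_mul_cancel t1 t2, one_mul]
    · refine av_av_le (F := fun β β' => g (chiS hS h3' β) (chiS hS h3' β') *
        ‖Vm hS O s0 a (chiS hS h3' β) (chiS hS h3' β')‖ ^ 2)
        (fun β β' => mul_nonneg (g0 _ _) (by positivity)) w2.ne ?_
      rw [avg_pair hS h3' fun σ τ => ENNReal.ofReal (g σ τ * ‖Vm hS O s0 a σ τ‖ ^ 2)]
      simp only [hn]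
      calc _ ≤ ((2 ^ Fintype.card (Cs hS)) ^ 2)⁻¹ * ((2 ^ Fintype.card (Cs hS)) ^ 2 *
            E ε ω) := by gcongr
        _ = E ε ω := by rw [← mul_assoc, ENNReal.inv_mul_cancel t1 t2, one_mul]

end Crest.Agent.R143.SmallEx304
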