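import Crest.Agent.R143.RigD_654
import Crest.Agent.R143.SmallE_304
import Crest.Agent.R143.C2SD_395
import Crest.Agent.R143.R10_930
import Crest.Agent.R143.ColX_829
import Crest.Agent.R143.MeasD_609

/-!
# Row 143 (S0194), RIG: fields `small` and `cont` of `Quen` (helper654)

* `SmE ε ω U k e` : 304's `small_env` at one environment; `sme_env`
* **`small_of`** : field `small` for `Vβ = Vm` (304), weight `g (clr S β) = g (Xc (chiS β))`
* `ez_near` : `‖Ez A l - (mean end point of the position labels)‖ ≤ η + 2 b θ0` from 930's comparison;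
  **`cont_of`** : `‖TK - tI m k‖ ≤ 3 (η + 2 b θ0)`
-/

set_option autoImplicit false
set_option linter.unusedSectionVars false

noncomputable section

open scoped Classical

namespace Crest.Agent.R143.QuenSx654

open MeasureTheory Set Filter Topology
open Crest.ProbabilityR.Voronoi
open Crest.Agent.R143.B0x346 Crest.Agent.R143.DelGx806 Crest.Agent.R143.DelRx806
  Crest.Agent.R143.JColx54 Crest.Agent.R143.FinCx811 Crest.Agent.R143.Resax778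
  Crest.Agent.R143.SmallAx304 Crest.Agent.R143.SmallEx304 Crest.Agent.R143.C2SBx395
  Crest.Agent.R143.C2SCx395 Crest.Agent.R143.C2SDx395 Crest.Agent.R143.ColXx829
  Crest.Agent.R143.RigCx654
open Crest.Agent.R143.Mass3x302 Crest.Agent.R143.Mass4x302 Crest.Agent.R143.Mass5x302
open Crest.Agent.R143.Frame1x395 Crest.Agent.R143.Frame2x395 Crest.Agent.R143.Frame3x395
  Crest.Agent.R143.Frame4x395 Crest.Agent.R143.Frame8x395 Crest.Agent.R143.Frame9x395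
  Crest.Agent.R143.Frame10x395
open Crest.Agent.R143.Coarse2x166 (zs)
open Crest.Agent.R143.K33x877 (Clu fr)
open Crest.Agent.R143.NetUx346 Crest.Agent.R143.NetVx346
open Crest.Agent.R143.Harx315 (pr)
open Crest.Agent.R143.CorMx970 (av av_congr)
open Crest.Agent.R143.IndLoc3x279 (clr)

/-! ### small -/

/-- 304's output at one environment -/
def SmE (ε : ℝ) (ω : Sample) (U : Set ℂ) (k e : ℝ) : Prop :=
  ∀ (S : Finset ℂ) (hS : GP (S : Set ℂ)) (h3 : 3 ≤ S.card),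
    (∀ z ∈ U, z ∈ points ε ω ↔ z ∈ (S : Set ℂ)) → (∀ v ∈ S, v ∈ U → ¬ OnHull S v) →
    ∀ (e0 : D0 S) (a : D0 S → ℂ), FldU (points ε ω) U (dl e0) a →
    ∀ (O : (Cs hS → ZMod 2) → Finset (Cs hS)), StopSet O →
    ∀ (g : (Cs hS → ZMod 2) → (Cs hS → ZMod 2) → ℝ)
      (s0 : (Cs hS → ZMod 2) → (Cs hS → ZMod 2) → D0 S),
    (∀ σ τ, 0 ≤ g σ τ) → (∀ σ τ, g σ τ ≤ 1) →
    (∀ σ τ, 0 < g σ τ →
      Gp (cm0 hS) (cfg (rc0 hS) (mix O σ τ)) (s0 σ τ) ∧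
      InU (points ε ω) U (cm0 hS) (dl e0) (cfg (rc0 hS) (mix O σ τ)) (s0 σ τ) ∧
      Big (points ε ω) U (cm0 hS) (dl e0) (cfg (rc0 hS) (mix O σ τ)) k (s0 σ τ)) →
    av S.powerset (fun β => av S.powerset fun β' => g (chiS hS h3 β) (chiS hS h3 β') *
      ‖Vm hS O s0 a (chiS hS h3 β) (chiS hS h3 β')‖) ≤ e

/-- 304's `small_env`, first power -/
theorem sme_env {k : ℝ} (hk : 0 < k) {U : Set ℂ} (hU : Bornology.IsBounded U) :
    ∃ E : ℝ → Sample → ℝ, (∀ ε, 0 < ε → Measurable (E ε)) ∧ (∀ ε ω, 0 ≤ E ε ω) ∧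
      (∀ᶠ ε in 𝓝[>] (0 : ℝ), Integrable (E ε) sampleLaw) ∧
      Tendsto (fun ε : ℝ => ∫ ω, E ε ω ∂sampleLaw) (𝓝[>] 0) (𝓝 0) ∧
      ∀ᶠ ε in 𝓝[>] (0 : ℝ), ∀ᵐ ω ∂sampleLaw, SmE ε ω U k (E ε ω) := by
  obtain ⟨E1, E2, h1, h2, h3, h4, -, h6⟩ := small_env hk hU
  refine ⟨E1, fun ε hε => (h1 ε hε).1, fun ε ω => (h2 ε ω).1, h3.mono fun ε h => h.1, h4, ?_⟩
  filter_upwards [h6] with ε h
  filter_upwards [h] with ω hω
  intro S hS h3 ha hb e0 a hf O hO g s0 g0 g1 hs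
  exact (hω S hS h3 ha hb e0 a hf O hO g s0 g0 g1 hs).1

/-- **field `small`** -/
theorem small_of {ε : ℝ} {ω : Sample} {U : Set ℂ} {k e : ℝ} (h : SmE ε ω U k e) {S : Finset ℂ}
    {hS : GP (S : Set ℂ)} (h3 : 3 ≤ S.card) (hU : ∀ z ∈ U, z ∈ points ε ω ↔ z ∈ (S : Set ℂ))
    (hin : ∀ v ∈ S, v ∈ U → ¬ OnHull S v) (e0 : D0 S)
    {O : (Cs hS → ZMod 2) → Finset (Cs hS)} (hO : StopSet O)
    {s0 : (Cs hS → ZMod 2) → (Cs hS → ZMod 2) → D0 S} {g : Set (ℂ × Bool) → ℝ}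
    (g0 : ∀ X, 0 ≤ g X) (g1 : ∀ X, g X ≤ 1)
    (hg : ∀ β ∈ S.powerset, g (clr S β) = g (Xc hS h3 (chiS hS h3 β)))
    (hs : ∀ σ τ, 0 < g (Xc hS h3 σ) →
      Gp (cm0 hS) (cfg (rc0 hS) (mix O σ τ)) (s0 σ τ) ∧
      InU (points ε ω) U (cm0 hS) (dl e0) (cfg (rc0 hS) (mix O σ τ)) (s0 σ τ) ∧
      Big (points ε ω) U (cm0 hS) (dl e0) (cfg (rc0 hS) (mix O σ τ)) k (s0 σ τ)) :
    av S.powerset (fun β => g (clr S β) * av S.powerset fun β' =>
      ‖Vm hS O s0 (zs (rc0 hS) om (zc hS id)) (chiS hS h3 β) (chiS hS h3 β')‖) ≤ e := by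
  have hf : FldU (points ε ω) U (dl e0) (zs (rc0 hS) om (zc hS id)) := by
    refine fldU_zs hS hU e0 fun d hd => ?_
    have hm : d.1.1 ∈ S := by
      obtain ⟨c, hc⟩ := Crest.Agent.R143.Frame5x395.mem_sd.1 d.2
      exact (mem_delT.1 hc).1
    exact zc_eq (z := id) (hin _ hm hd) rfl
  have h1 := h S hS h3 hU hin e0 _ hf O hO (fun σ _ => g (Xc hS h3 σ)) s0 (fun _ _ => g0 _)
    (fun _ _ => g1 _) fun σ τ hp => hs σ τ hp
  refine le_trans (le_of_eq ?_) h1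
  refine av_congr fun β hβ => ?_
  rw [hg β hβ, ← CorMx970.av_mulL']

/-! ### cont -/

section cont

variable {S : Finset ℂ} {hS : GP (S : Set ℂ)} {A : ZMod 3 → Set (Cs hS)} {i j : ZMod 3}
  {g : D0 S} {V : Finset ℂ} {B : ZMod 3 → Set ℂ} {η θ b : ℝ}

/-- **comparison of the means on one arc** -/
theorem ez_near (G : Gi (rc0 hS) A) (H : Hl A j) (F : Far A j) (R : Root (rc0 hS) A i g)
    (hV : V ⊆ ff S (st A)) (hη : 0 ≤ η) (hb : ∀ v ∈ S, ‖v‖ ≤ b) (hb0 : 0 ≤ b)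
    (hB : ∀ l, ∀ v ∈ B l, v ∈ S) {l : ZMod 3}
    (hp : pr (ff S (st A)) (fun T => η < ‖hv S (st A) l (T : Set ℂ) -
      zV S V B l ((T ∩ V : Finset ℂ) : Set ℂ) id‖) ≤ θ) :
    ‖Ez (rc0 hS) A l (zc hS id) - exC V fun T => zV S V B l (T : Set ℂ) id‖ ≤
      η + 2 * b * θ := by
  have hX := hex G H R
  rw [ez_ey G H F R, Ey_eq hX]
  refine (R10x930.exC_near (V := ff S (st A)) (W := V) hV (f := fun T => id (hv S (st A) l T))
    (g := fun T => zV S V B l (T : Set ℂ) id) (b := b) hη (fun T hT => ?_) fun T _ => ?_).trans ?_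
  · have h1 := hv_mem hX hT (i := l)
    have h2 : hv S (st A) l T ∈ S := by
      obtain ⟨h3, -⟩ := h1
      exact h3
    exact hb _ h2
  · exact norm_zV hb0 fun v hv => hb v (hB l v hv)
  · have h2b : 0 ≤ 2 * b := by linarith
    exact add_le_add le_rfl (mul_le_mul_of_nonneg_left hp h2b)

/-- total of the giants -/
def TKz (hS : GP (S : Set ℂ)) (A : ZMod 3 → Set (Cs hS)) (i : ZMod 3) (z : ℂ → ℂ) : ℂ :=
  Ez (rc0 hS) A (i + 1) (zc hS z) + om * Ez (rc0 hS) A (i + 2) (zc hS z) +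
    om ^ 2 * Ez (rc0 hS) A i (zc hS z)

/-- **field `cont`** -/
theorem cont_of (G : Gi (rc0 hS) A) (H : Hl A j) (F : Far A j) (R : Root (rc0 hS) A i g)
    (hV : V ⊆ ff S (st A)) (hη : 0 ≤ η) (hb : ∀ v ∈ S, ‖v‖ ≤ b) (hb0 : 0 ≤ b)
    (hB : ∀ l, ∀ v ∈ B l, v ∈ S) {m : ZMod 3 → ℂ}
    (hm : ∀ l, m l = exC V fun T => zV S V B l (T : Set ℂ) id)
    (hp : ∀ l, pr (ff S (st A)) (fun T => η < ‖hv S (st A) l (T : Set ℂ) -
      zV S V B l ((T ∩ V : Finset ℂ) : Set ℂ) id‖) ≤ θ) :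
    ‖TKz hS A i id - tI m i‖ ≤ 3 * (η + 2 * b * θ) := by
  have h : ∀ l, ‖Ez (rc0 hS) A l (zc hS id) - m l‖ ≤ η + 2 * b * θ := fun l => by
    rw [hm l]
    exact ez_near G H F R hV hη hb hb0 hB (hp l)
  have e : TKz hS A i id - tI m i = (Ez (rc0 hS) A (i + 1) (zc hS id) - m (i + 1)) +
      om * (Ez (rc0 hS) A (i + 2) (zc hS id) - m (i + 2)) +
        om ^ 2 * (Ez (rc0 hS) A i (zc hS id) - m i) := by
    unfold TKz tI
    ring
  have n1 : ‖(om : ℂ)‖ = 1 := SmallAx304.norm_om1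
  rw [e]
  refine (norm_add_le _ _).trans ?_
  refine (add_le_add (norm_add_le _ _) le_rfl).trans ?_
  rw [norm_mul, norm_mul, norm_pow, n1, one_pow, one_mul, one_mul]
  have h1 := h (i + 1)
  have h2 := h (i + 2)
  have h3 := h i
  linarith

/-- mean over the free sites of the position labels = 609's `mI` (no hole) -/
theorem m_mI {u : PolyUx346.Poly} {ε : ℝ} {ω : Sample} (hε : 0 < ε)
    (hd : Crest.Agent.R143.Locx922.Hol (S : Set ℂ) (LocUx700.deep u.P √ε) √ε)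
    (h : ∀ x ∈ u.P, x ∈ S ↔ x ∈ points ε ω) (l : ZMod 3) :
    MeasDx609.mI u ε l id ω = exC (Vin S u.P √ε) fun T =>
      zV S (Vin S u.P √ε) (Bl S (Vin S u.P √ε) u.Lab) l (T : Set ℂ) id := by
  have h1 := MeasDx609.mU_local (S := S) (S' := Crest.Agent.R143.Dbl2x609.Ap ε u.P ω) (P := u.P)
    (d := √ε) (L := u.Lab) (L' := u.Lab) (Real.sqrt_pos.2 hε) hd (fun x hx => ?_)
    (fun _ _ => rfl) l id
  · exact h1.symm
  · have h2 : x ∈ (Crest.Agent.R143.Dbl2x609.Ap ε u.P ω : Set ℂ) ↔ x ∈ points ε ω := by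
      rw [Crest.Agent.R143.Dbl2x609.coe_Ap hε (MeasPx609.isCompact_P u).isBounded]
      exact ⟨fun h => h.1, fun h => ⟨h, hx⟩⟩
    rw [h x hx, ← h2]
    rfl

end cont

end Crest.Agent.R143.QuenSx654
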