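import Crest.Agent.R143.DispI_840
import Crest.Agent.R143.RigC_654

/-!
# Row 143 (S0194), RIG: the field `disp` for every window (helper840)

* `fracQ_eq` : `fracQ = 1 -` mean of `zV` of the constant `1`; `fme_fracQ`, **`sig_fracQ`** :
  the fraction of colourings without unique hit is measurable with respect to the points in `U`
* `mW`, `DW` : mean end points and displacement in the window `Wd`; `DW_I` (609's `DI`,
  window `u.P`), `DW_m` (346's `D`, window `Wn`), `DW_dI` (654's `dI`)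
* **`disp_fieldW`** : `idd`, `edd`, `disp` with all the geometry off `bad`
* **`disp_dI`** : the same for `dI (PolyMx346.m u ε ω) i`, exactly the hypotheses of 609's `envX_of`
-/

set_option autoImplicit false
set_option linter.unusedSectionVars false

noncomputable section

open scoped Classical

namespace Crest.Agent.R143.DispJx840

open MeasureTheory Filter Topology Set
open Crest.ProbabilityR.Voronoi
open Crest.Agent.R143.PP0x831
open Crest.Agent.R143.B0x346 Crest.Agent.R143.NetUx346 Crest.Agent.R143.NetVx346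
open Crest.Agent.R143.PolyUx346
open Crest.Agent.R143.Dispx798
open Crest.Agent.R143.DispIx840
open Crest.Agent.R143.FinTx609 Crest.Agent.R143.FinMx609
open Crest.Agent.R143.MeasPx609 Crest.Agent.R143.MeasDx609
open Crest.Agent.R143.EnvIx279 (qo onF)
open Crest.Agent.R143.IndLoc2x279 (sig sig_le)
open Crest.Agent.R143.TlAx58
open Crest.Agent.R143.Layx416 (Lay rr nn al)
open Crest.Agent.R143.Dbl2x609 (Ap coe_Ap)
open Crest.Agent.R143.RigCx654 (dI tI)

/-! ### the fraction without unique hit is measurable -/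

section frac

variable {S V : Finset ℂ} {B : ZMod 3 → Set ℂ} {P W : Set ℂ} {d : ℝ} {L : ℂ → ZMod 3}

theorem zV_one (j : ZMod 3) (T : Set ℂ) :
    zV S V B j T (fun _ => 1) = ((if nuq S V B j T then (0 : ℝ) else 1 : ℝ) : ℂ) := by
  unfold zV nuq
  by_cases h : (hitsV S V B j T).card = 1
  · rw [if_pos h, if_neg (by simpa using h)]
    simp [h]
  · rw [if_neg h, if_pos h]
    simp

theorem fracQ_eq (j : ZMod 3) :
    (fracQ S V B j : ℂ) = 1 - exC V fun T => zV S V B j (T : Set ℂ) (fun _ => 1) := by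
  unfold fracQ frac exC
  have h4 : ((2 : ℂ) ^ V.card) ≠ 0 := pow_ne_zero _ two_ne_zero
  have h5 : ∑ T ∈ V.powerset, (1 : ℂ) = 2 ^ V.card := by
    rw [Finset.sum_const, Finset.card_powerset, nsmul_eq_mul, mul_one]
    push_cast
    rfl
  rw [eq_sub_iff_add_eq]
  push_cast
  rw [← add_div, div_eq_one_iff_eq h4, ← h5, ← Finset.sum_add_distrib]
  refine Finset.sum_congr rfl fun T _ => ?_
  rw [zV_one]
  split_ifs <;> simp

theorem fracQ_re (j : ZMod 3) :
    fracQ S (Vin S P d) (NetVx346.Bl S (Vin S P d) L) j =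
      1 - (mU S P d L j (fun _ => 1)).re := by
  have h := congrArg Complex.re (fracQ_eq (S := S) (V := Vin S P d)
    (B := NetVx346.Bl S (Vin S P d) L) j)
  rw [Complex.ofReal_re, Complex.sub_re, Complex.one_re] at h
  exact h

/-- **the fraction without unique hit is a function of the points in the window** -/
theorem sig_fracQ {ε : ℝ} (hε : 0 < ε) (hb : Bornology.IsBounded W) {U : Set ℂ} (hWU : W ⊆ U)
    (hW : MeasurableSet W) (hP : MeasurableSet {x | Metric.closedBall x (2 * d) ⊆ P})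
    (hL : ∀ i, MeasurableSet {x | L x = i}) (j : ZMod 3) :
    Measurable[sig ε U] fun ω => fracQ (Ap ε W ω) (Vin (Ap ε W ω) P d)
      (NetVx346.Bl (Ap ε W ω) (Vin (Ap ε W ω) P d) L) j := by
  have h1 := sig_mU hε hb hWU hW hP hL j (z := fun _ => 1) measurable_const
  have h2 : Measurable[sig ε U] fun ω => 1 - (mU (Ap ε W ω) P d L j (fun _ => 1)).re :=
    (Complex.measurable_re.comp h1).const_sub 1
  simpa only [fracQ_re] using h2

end frac

/-! ### the displacement in a window -/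

section win

variable {u : Poly} {N M : ℕ} {m : ℤ} {p W : ℤ → ℤ × ℤ} {A e : ℤ → ℤ} {ε d h : ℝ} {Wd : Set ℂ}
  {w : ZMod 3}

/-- mean end point in the window -/
def mW (u : Poly) (ε : ℝ) (Wd : Set ℂ) (ω : Sample) (i : ZMod 3) : ℂ :=
  mU (Ap ε Wd ω) u.P √ε u.Lab i id

/-- displacement in the window -/
def DW (u : Poly) (ε : ℝ) (Wd : Set ℂ) (ω : Sample) (k : ZMod 3) : ℂ :=
  mW u ε Wd ω (k + 2) - mW u ε Wd ω (k + 1)

theorem DW_I (u : Poly) (ε : ℝ) (ω : Sample) (k : ZMod 3) : DW u ε u.P ω k = DI u ε ω k := rfl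

theorem mW_m (u : Poly) (ε : ℝ) (ω : Sample) (i : ZMod 3) :
    mW u ε (Wn u ε) ω i = PolyMx346.m u ε ω i := rfl

theorem DW_m (u : Poly) (ε : ℝ) (ω : Sample) (k : ZMod 3) :
    DW u ε (Wn u ε) ω k = PolyMx346.D u ε ω k := rfl

theorem DW_dI (u : Poly) (ε : ℝ) (ω : Sample) (i : ZMod 3) :
    dI (PolyMx346.m u ε ω) i = -DW u ε (Wn u ε) ω (i + 2) := by
  unfold DW dI
  rw [mW_m, mW_m]
  have e1 : i + 2 + 2 = i + 1 := by revert i; decide
  have e2 : i + 2 + 1 = i := by revert i; decide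
  rw [e1, e2]
  ring

/-- free sites of the window -/
def Vs (u : Poly) (ε : ℝ) (Wd : Set ℂ) (ω : Sample) : Finset ℂ := Vin (Ap ε Wd ω) u.P √ε
/-- labels of the window -/
def Bs (u : Poly) (ε : ℝ) (Wd : Set ℂ) (ω : Sample) : ZMod 3 → Set ℂ :=
  NetVx346.Bl (Ap ε Wd ω) (Vs u ε Wd ω) u.Lab

theorem Vs_P (ω : Sample) : Vs u ε u.P ω = Vp u ε ω := rfl
theorem Bs_P (ω : Sample) : Bs u ε u.P ω = Bp u ε ω := rfl

theorem Sw_eqW (hε : 0 < ε) (hb : Bornology.IsBounded Wd) {S : Finset ℂ} {ω : Sample}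
    (h1 : (S : Set ℂ) ⊆ points ε ω) (h2 : points ε ω ∩ Wd ⊆ S) : Sw Wd S = Ap ε Wd ω := by
  rw [← Finset.coe_inj, coe_Ap hε hb]
  ext x
  simp only [Sw, Finset.coe_filter, Set.mem_ofPred_eq, Set.mem_inter_iff]
  exact ⟨fun h => ⟨h1 h.1, h.2⟩, fun h => ⟨h2 h, h.2⟩⟩

/-- fraction of the colourings without unique hit -/
def fq (u : Poly) (ε : ℝ) (Wd : Set ℂ) (j : ZMod 3) (ω : Sample) : ℝ :=
  fracQ (Ap ε Wd ω) (Vs u ε Wd ω) (Bs u ε Wd ω) j

theorem fq_le_one (j : ZMod 3) (ω : Sample) : fq u ε Wd j ω ≤ 1 := frac_le_one _ _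
theorem fq_nonneg (j : ZMod 3) (ω : Sample) : 0 ≤ fq u ε Wd j ω := frac_nonneg _ _

/-- **measurability of the fraction** -/
theorem sig_fq (hε : 0 < ε) (u : Poly) (hb : Bornology.IsBounded Wd) (hW : MeasurableSet Wd)
    {U : Set ℂ} (hWU : Wd ⊆ U) (j : ZMod 3) : Measurable[sig ε U] (fq u ε Wd j) :=
  sig_fracQ hε hb hWU hW (meas_deep u _) (meas_Lab u) j

/-- the event `θ < fq (w + 1)` or `θ < fq (w + 2)` -/
def NQ (u : Poly) (ε : ℝ) (Wd : Set ℂ) (w : ZMod 3) (θ : ℝ) : Set Sample :=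
  {ω | θ < fq u ε Wd (w + 1) ω} ∪ {ω | θ < fq u ε Wd (w + 2) ω}

theorem sig_NQ (hε : 0 < ε) (u : Poly) (hb : Bornology.IsBounded Wd) (hW : MeasurableSet Wd)
    {U : Set ℂ} (hWU : Wd ⊆ U) (w : ZMod 3) (θ : ℝ) :
    MeasurableSet[sig ε U] (NQ u ε Wd w θ) :=
  MeasurableSet.union (measurableSet_lt measurable_const (sig_fq hε u hb hW hWU (w + 1)))
    (measurableSet_lt measurable_const (sig_fq hε u hb hW hWU (w + 2)))

theorem fq_of_NQ {θ : ℝ} {ω : Sample} (h : ω ∉ NQ u ε Wd w θ) :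
    fq u ε Wd (w + 1) ω ≤ θ ∧ fq u ε Wd (w + 2) ω ≤ θ := by
  unfold NQ at h
  simp only [mem_union, mem_ofPred_eq, not_or, not_lt] at h
  exact h

theorem norm_mW {R : ℝ} (hε : 0 < ε) (hb : Bornology.IsBounded Wd) (hR : 0 ≤ R)
    (hRW : ∀ v ∈ Wd, ‖v‖ ≤ R) (ω : Sample) (i : ZMod 3) : ‖mW u ε Wd ω i‖ ≤ R :=
  norm_mU hR (fun v hv => hRW v (by
    have : v ∈ (Ap ε Wd ω : Set ℂ) := hv
    rw [coe_Ap hε hb] at this
    exact this.2)) i

theorem norm_sum_qo (hh : 0 ≤ h) {J : Finset ℕ}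
    (hJ : J ⊆ Finset.range (nn A e w)) (S : Sample → Finset ℂ) (a b : Set (ℂ × Bool) → ℕ)
    (ω : Sample) (zz : ℕ → ℂ) (hz : ∀ l, ‖zz l‖ ≤ h) :
    ‖∑ l ∈ J, zz l * ((qo S a b l ω : ℝ) : ℂ)‖ ≤ nn A e w * h := by
  have hq : ∀ l, |qo S a b l ω| ≤ 1 := by
    intro l
    unfold qo
    have h0 : 0 ≤ IndLoc3x279.cav (onF a b l) (S ω) :=
      EnvIx279.cav_nonneg (fun X => by unfold onF; split_ifs <;> norm_num) _
    have h1 : IndLoc3x279.cav (onF a b l) (S ω) ≤ 1 :=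
      EnvIx279.cav_le_one (fun X => by unfold onF; split_ifs <;> norm_num) _
    rw [abs_of_nonneg h0]
    exact h1
  refine (norm_sum_le _ _).trans ?_
  have h6 : ∑ l ∈ J, ‖zz l * ((qo S a b l ω : ℝ) : ℂ)‖ ≤ ∑ l ∈ J, h := by
    refine Finset.sum_le_sum fun l _ => ?_
    rw [norm_mul, Complex.norm_real, Real.norm_eq_abs]
    have h7 := hz l
    have h8 := hq l
    have h9 := abs_nonneg (qo S a b l ω)
    have h10 := norm_nonneg (zz l)
    nlinarith
  refine h6.trans ?_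
  rw [Finset.sum_const, nsmul_eq_mul]
  refine mul_le_mul_of_nonneg_right ?_ hh
  have := Finset.card_le_card hJ
  rw [Finset.card_range] at this
  exact_mod_cast this

theorem norm_zl (H : Lay N M m p W A e) (hh : 0 ≤ h) (l : ℕ) : ‖zl h W A e w l‖ ≤ h := by
  unfold zl
  rw [← norm_neg, neg_sub]
  exact norm_gt_succ H.fp hh l

/-- **one environment, window `Wd`** -/
theorem disp_DW (hε : 0 < ε) (H : Lay N M m p W A e) (hh : 0 ≤ h)
    (hb : Bornology.IsBounded Wd) {J : Finset ℕ}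
    (hJ : J ⊆ Finset.range (nn A e w)) {c R : ℝ} (hc : 0 ≤ c) (hR : 0 ≤ R)
    (hRW : ∀ v ∈ Wd, ‖v‖ ≤ R) (S : Sample → Finset ℂ) (ω : Sample)
    (h1 : (S ω : Set ℂ) ⊆ points ε ω) (h2 : points ε ω ∩ Wd ⊆ S ω)
    (hx : ∀ v ∈ Bs u ε Wd ω (w + 1),
      dist (gt h W A e w (tlz (gt h W A e w) (rr A e w) (nn A e w) v)) v ≤ c)
    (hy : ∀ v ∈ Bs u ε Wd ω (w + 2),
      dist (gt h W A e w (tlz (gt h W A e w) 0 (rr A e w) v)) v ≤ c) :
    ‖DW u ε Wd ω w - ∑ l ∈ J, zl h W A e w l *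
          ((qo S (ta u √ε h Wd W A e w) (tb u √ε h Wd W A e w) l ω : ℝ) : ℂ)‖ ≤
      (2 * c + ((Finset.range (nn A e w) \ J).card : ℝ) * h) + (2 * R + nn A e w * h) *
        (fq u ε Wd (w + 1) ω + fq u ε Wd (w + 2) ω) := by
  have hS := Sw_eqW hε hb h1 h2
  have eV : Vw u √ε Wd (S ω) = Vs u ε Wd ω := by
    unfold Vw Vs
    rw [hS]
  have eB : Bw u √ε Wd (S ω) = Bs u ε Wd ω := by
    unfold Bw Bs
    rw [hS, eV]
  have h3 := disp_env (u := u) (d := √ε) (Wd := Wd) (w := w) H hh hJ hc hR S ω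
    (by rw [eB]; exact hx) (by rw [eB]; exact hy)
    (by
      rw [eB]
      intro j v hv
      have h1 : v ∈ (Ap ε Wd ω : Set ℂ) := hv.1
      rw [coe_Ap hε hb] at h1
      exact hRW v h1.2)
  rw [hS, eV, eB] at h3
  exact h3

/-- **`idd`, `edd`, `disp`**, everything off `bad` -/
theorem disp_fieldW (hε : 0 < ε) (H : Lay N M m p W A e) (hh : 0 ≤ h)
    (hb : Bornology.IsBounded Wd) {J : Finset ℕ}
    (hJ : J ⊆ Finset.range (nn A e w)) {c R θ : ℝ} (hc : 0 ≤ c) (hR : 0 ≤ R) (hθ : 0 ≤ θ)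
    (hRW : ∀ v ∈ Wd, ‖v‖ ≤ R) (S : Sample → Finset ℂ)
    (hS : ∀ᵐ ω ∂sampleLaw, (S ω : Set ℂ) ⊆ points ε ω ∧ points ε ω ∩ Wd ⊆ S ω)
    {bad : Set Sample} (mbad : MeasurableSet bad)
    (hx : ∀ᵐ ω ∂sampleLaw, ω ∉ bad → ∀ v ∈ Bs u ε Wd ω (w + 1),
      dist (gt h W A e w (tlz (gt h W A e w) (rr A e w) (nn A e w) v)) v ≤ c)
    (hy : ∀ᵐ ω ∂sampleLaw, ω ∉ bad → ∀ v ∈ Bs u ε Wd ω (w + 2),
      dist (gt h W A e w (tlz (gt h W A e w) 0 (rr A e w) v)) v ≤ c)
    (hq : ∀ᵐ ω ∂sampleLaw, ω ∉ bad →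
      fq u ε Wd (w + 1) ω ≤ θ ∧ fq u ε Wd (w + 2) ω ≤ θ) :
    let dd : Sample → ℝ := fun ω => (2 * c + ((Finset.range (nn A e w) \ J).card : ℝ) * h) +
      (2 * R + nn A e w * h) * (2 * θ + bad.indicator 1 ω)
    Integrable dd sampleLaw ∧
      (∫ ω, dd ω ∂sampleLaw = (2 * c + ((Finset.range (nn A e w) \ J).card : ℝ) * h) +
        (2 * R + nn A e w * h) * (2 * θ + sampleLaw.real bad)) ∧
      ∀ᵐ ω ∂sampleLaw, ‖DW u ε Wd ω w - ∑ l ∈ J, zl h W A e w l *
          ((qo S (ta u √ε h Wd W A e w) (tb u √ε h Wd W A e w) l ω : ℝ) : ℂ)‖ ≤ dd ω := by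
  intro dd
  have : IsProbabilityMeasure sampleLaw := by unfold sampleLaw; infer_instance
  have ib : Integrable (bad.indicator (1 : Sample → ℝ)) sampleLaw :=
    (integrable_const (1 : ℝ)).indicator mbad
  have i1 : Integrable (fun ω => 2 * θ + bad.indicator 1 ω) sampleLaw :=
    (integrable_const _).add ib
  have i2 : Integrable (fun ω => (2 * R + nn A e w * h) * (2 * θ + bad.indicator 1 ω))
      sampleLaw := i1.const_mul _
  refine ⟨(integrable_const _).add i2, ?_, ?_⟩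
  · show ∫ ω, ((2 * c + ((Finset.range (nn A e w) \ J).card : ℝ) * h) +
      (2 * R + nn A e w * h) * (2 * θ + bad.indicator 1 ω)) ∂sampleLaw = _
    have j1 : ∫ ω, bad.indicator (1 : Sample → ℝ) ω ∂sampleLaw = sampleLaw.real bad :=
      integral_indicator_one mbad
    have j2 : ∫ ω, (2 * θ + bad.indicator (1 : Sample → ℝ) ω) ∂sampleLaw =
        2 * θ + sampleLaw.real bad := by
      rw [integral_add (integrable_const _) ib, j1]
      simp
    rw [integral_add (integrable_const _) i2, integral_const_mul, j2]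
    simp
  · filter_upwards [hS, hx, hy, hq] with ω h1 h2 h3 h4
    have p1 : 0 ≤ 2 * c + ((Finset.range (nn A e w) \ J).card : ℝ) * h := by positivity
    by_cases hω : ω ∈ bad
    · have q1 : ‖DW u ε Wd ω w‖ ≤ 2 * R := by
        unfold DW
        refine (norm_sub_le _ _).trans ?_
        have a1 := norm_mW (u := u) hε hb hR hRW ω (w + 2)
        have a2 := norm_mW (u := u) hε hb hR hRW ω (w + 1)
        linarith
      have q2 := norm_sum_qo (w := w) hh hJ S (ta u √ε h Wd W A e w) (tb u √ε h Wd W A e w) ω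
        (zl h W A e w) fun l => norm_zl H hh l
      have q3 : (2 * R + nn A e w * h) ≤
          (2 * R + nn A e w * h) * (2 * θ + bad.indicator (1 : Sample → ℝ) ω) := by
        rw [Set.indicator_of_mem hω, Pi.one_apply]
        have : 0 ≤ 2 * R + nn A e w * h := by positivity
        nlinarith
      refine (norm_sub_le _ _).trans ?_
      show _ ≤ (2 * c + ((Finset.range (nn A e w) \ J).card : ℝ) * h) +
        (2 * R + nn A e w * h) * (2 * θ + bad.indicator 1 ω)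
      linarith
    · refine (disp_DW hε H hh hb hJ hc hR hRW S ω h1.1 h1.2 (h2 hω) (h3 hω)).trans ?_
      refine add_le_add le_rfl (mul_le_mul_of_nonneg_left ?_ (by positivity))
      rw [Set.indicator_of_notMem hω]
      obtain ⟨q1, q2⟩ := h4 hω
      linarith

/-- sign of 654: `z l = gate (l + 1) - gate l` -/
theorem neg_zl (l : ℕ) : -zl h W A e w l = gt h W A e w (l + 1) - gt h W A e w l := by
  unfold zl
  ring

/-- **the hypotheses of 609's `envX_of`** at the type `i` (white label `w = i + 2`),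
`z l = gate (l + 1) - gate l` -/
theorem disp_dI (hε : 0 < ε) (H : Lay N M m p W A e) (hh : 0 ≤ h) {i : ZMod 3} (hw : w = i + 2)
    {J : Finset ℕ} (hJ : J ⊆ Finset.range (nn A e w)) {c R θ : ℝ} (hc : 0 ≤ c) (hR : 0 ≤ R)
    (hθ : 0 ≤ θ) (hRW : ∀ v ∈ Wn u ε, ‖v‖ ≤ R) (S : Sample → Finset ℂ)
    (hS : ∀ᵐ ω ∂sampleLaw, (S ω : Set ℂ) ⊆ points ε ω ∧ points ε ω ∩ Wn u ε ⊆ S ω)
    {bad : Set Sample} (mbad : MeasurableSet bad)
    (hx : ∀ᵐ ω ∂sampleLaw, ω ∉ bad → ∀ v ∈ Bs u ε (Wn u ε) ω (w + 1),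
      dist (gt h W A e w (tlz (gt h W A e w) (rr A e w) (nn A e w) v)) v ≤ c)
    (hy : ∀ᵐ ω ∂sampleLaw, ω ∉ bad → ∀ v ∈ Bs u ε (Wn u ε) ω (w + 2),
      dist (gt h W A e w (tlz (gt h W A e w) 0 (rr A e w) v)) v ≤ c)
    (hq : ∀ᵐ ω ∂sampleLaw, ω ∉ bad →
      fq u ε (Wn u ε) (w + 1) ω ≤ θ ∧ fq u ε (Wn u ε) (w + 2) ω ≤ θ) :
    let dd : Sample → ℝ := fun ω => (2 * c + ((Finset.range (nn A e w) \ J).card : ℝ) * h) +
      (2 * R + nn A e w * h) * (2 * θ + bad.indicator 1 ω)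
    Integrable dd sampleLaw ∧
      (∫ ω, dd ω ∂sampleLaw = (2 * c + ((Finset.range (nn A e w) \ J).card : ℝ) * h) +
        (2 * R + nn A e w * h) * (2 * θ + sampleLaw.real bad)) ∧
      ∀ᵐ ω ∂sampleLaw, ‖dI (PolyMx346.m u ε ω) i -
          ∑ l ∈ J, (gt h W A e w (l + 1) - gt h W A e w l) *
          ((qo S (ta u √ε h (Wn u ε) W A e w) (tb u √ε h (Wn u ε) W A e w) l ω : ℝ) : ℂ)‖ ≤
            dd ω := by
  intro dd
  obtain ⟨h1, h2, h3⟩ := disp_fieldW (u := u) (w := w) hε H hh (bdd_Wn u ε) hJ hc hR hθ hRW S hS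
    mbad hx hy hq
  refine ⟨h1, h2, ?_⟩
  filter_upwards [h3] with ω h4
  rw [DW_dI, ← hw]
  have e1 : -DW u ε (Wn u ε) ω w - ∑ l ∈ J, (gt h W A e w (l + 1) - gt h W A e w l) *
          ((qo S (ta u √ε h (Wn u ε) W A e w) (tb u √ε h (Wn u ε) W A e w) l ω : ℝ) : ℂ) =
      -(DW u ε (Wn u ε) ω w - ∑ l ∈ J, zl h W A e w l *
          ((qo S (ta u √ε h (Wn u ε) W A e w) (tb u √ε h (Wn u ε) W A e w) l ω : ℝ) : ℂ)) := by
    have e2 : ∑ l ∈ J, (gt h W A e w (l + 1) - gt h W A e w l) *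
          ((qo S (ta u √ε h (Wn u ε) W A e w) (tb u √ε h (Wn u ε) W A e w) l ω : ℝ) : ℂ) =
        -∑ l ∈ J, zl h W A e w l *
          ((qo S (ta u √ε h (Wn u ε) W A e w) (tb u √ε h (Wn u ε) W A e w) l ω : ℝ) : ℂ) := by
      rw [← Finset.sum_neg_distrib]
      refine Finset.sum_congr rfl fun l _ => ?_
      rw [← neg_zl]
      ring
    rw [e2]
    ring
  rw [e1, norm_neg]
  exact h4

end win

end Crest.Agent.R143.DispJx840
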