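import Crest.Agent.R143.TlG_58
import Crest.Agent.R143.DispJ_840

/-!
# Row 143 (S0194), RIG: the hypotheses `hx`, `hy` of 840's `disp_field` (helper58)

* `hit_arcP` : a labelled site in `u.P` is at distance `≤ 2 d` from its arc (no density)
* `tl_nearP1`, `tl_nearP2` : its tile is within `8 h + 2 d`
* **`hx_P`, `hy_P`** : `hx`, `hy` of `disp_field` (window `u.P`, EVERY `ω`), `c = 8 h + 2 √ε`
* **`hx_W`, `hy_W`** : the same in the window `Wn`, if there is no hole of radius `√ε` deep in `u.P`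
* **`disp_u`** : the fields `idd`, `edd`, `disp` for 609's `DI` and 416's layout
-/

set_option autoImplicit false

noncomputable section

open scoped Classical

namespace Crest.Agent.R143.TlHx58

open MeasureTheory Set
open Crest.ProbabilityR.Voronoi
open Crest.Agent.R143.NetUx346 Crest.Agent.R143.NetVx346 Crest.Agent.R143.PolyUx346
open Crest.Agent.R143.TileRx228 Crest.Agent.R143.LayQx811 Crest.Agent.R143.Layx416
open Crest.Agent.R143.LayUx416 Crest.Agent.R143.TlAx58 Crest.Agent.R143.TlGx58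
open Crest.Agent.R143.MeasPx609 (Wn bdd_Wn isCompact_P)
open Crest.Agent.R143.MeasDx609 (DI)
open Crest.Agent.R143.DispIx840 Crest.Agent.R143.DispJx840
open Crest.Agent.R143.EnvIx279 (qo)
open Crest.Agent.R143.Dbl2x609 (Ap)
open Crest.Agent.R143.Brkx478 (Bk cells)
open Crest.Agent.R143.Locx922 (Hol)
open Crest.Agent.R143.LocUx700 (deep mem_Vin)

variable {u : Poly} {S : Finset ℂ} {d h ε : ℝ} {i w : ZMod 3} {x : ℂ} {ω : Sample}
  {m M : ℕ} {p W : ℤ → ℤ × ℤ} {A e : ℤ → ℤ}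

/-- **a labelled site of `u.P` is near its arc**, no density -/
theorem hit_arcP (hxP : x ∈ u.P) (hx : x ∈ NetVx346.Bl S (Vin S u.P d) u.Lab i) {l : Fin 3}
    (hl : ((l : ℕ) : ZMod 3) = i) : Metric.infDist x (u.Arc l) ≤ 2 * d := by
  obtain ⟨h1, h2, -, h4⟩ := hx
  have h3 : ¬ Metric.closedBall x (2 * d) ⊆ u.P := fun hc => h2 (mem_Vin.2 ⟨h1, hc⟩)
  obtain ⟨y, hy, hyP⟩ := Set.not_subset.1 h3
  obtain ⟨z, z1, z2, z3, -⟩ := Cdx806.seg_front u.s_pos (F := cells (u.U : Set Bk)) hxP hyP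
  obtain ⟨l', hl'⟩ := mem_arcs u z1 z2
  obtain ⟨j, j1, j2, -⟩ := Poly.near_lab (u := u) x
  have hjl : j = l := lab_inj (by rw [hl, ← h4, j2])
  subst hjl
  refine (j1 l').trans ((Metric.infDist_le_dist_of_mem hl').trans ?_)
  rw [dist_comm]
  exact z3.trans (Metric.mem_closedBall.1 hy)

/-- the tile of a site of `u.P` of label `w + 2` -/
theorem tl_nearP1 (H : LayU u m M p W A e) (hh : (m : ℝ) * h = u.s) (hxP : x ∈ u.P)
    (hx : x ∈ NetVx346.Bl S (Vin S u.P d) u.Lab (w + 2)) :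
    dist (gt h W A e w (tlz (gt h W A e w) 0 (rr A e w) x)) x ≤ 8 * h + 2 * d := by
  rw [← lab1 w] at hx
  obtain ⟨l, hl⟩ := exists_lab (jj w + 1)
  obtain ⟨a, a1, a2, a3⟩ := arc_gate H hh hl (hit_arcP hxP hx hl)
  rw [show jj w + 1 + 1 = jj w + 2 by ring] at a2
  have h1 := H.lay.rr_eq w
  have ha1 : al A e w ≤ a := a1
  have ha2 : a ≤ mi A e w := a2
  obtain ⟨k, hk⟩ : ∃ k : ℕ, a = al A e w + k := ⟨(a - al A e w).toNat, by omega⟩
  refine (dist_tlz (gt h W A e w) x (b := k) (Nat.zero_le _) (by omega)).trans ?_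
  unfold gt
  rw [← hk]
  exact a3

/-- the tile of a site of `u.P` of label `w + 1` -/
theorem tl_nearP2 (H : LayU u m M p W A e) (hh : (m : ℝ) * h = u.s) (hxP : x ∈ u.P)
    (hx : x ∈ NetVx346.Bl S (Vin S u.P d) u.Lab (w + 1)) :
    dist (gt h W A e w (tlz (gt h W A e w) (rr A e w) (nn A e w) x)) x ≤ 8 * h + 2 * d := by
  rw [← lab2 w] at hx
  obtain ⟨l, hl⟩ := exists_lab (jj w + 2)
  obtain ⟨a, a1, a2, a3⟩ := arc_gate H hh hl (hit_arcP hxP hx hl)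
  rw [show jj w + 2 + 1 = jj w + 3 by ring] at a2
  have h1 := H.lay.rr_eq w
  have h2 := H.lay.nn_eq w
  have ha1 : mi A e w ≤ a := a1
  have ha2 : a ≤ be A e w := a2
  obtain ⟨k, hk⟩ : ∃ k : ℕ, a = al A e w + k := ⟨(a - al A e w).toNat, by omega⟩
  refine (dist_tlz (gt h W A e w) x (b := k) (by omega) (by omega)).trans ?_
  unfold gt
  rw [← hk]
  exact a3

/-- **`hx` of `disp_field`**, window `u.P`, every `ω` -/
theorem hx_P (hε : 0 < ε) (H : LayU u m M p W A e) (hh : (m : ℝ) * h = u.s) (w : ZMod 3)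
    (ω : Sample) : ∀ v ∈ Bp u ε ω (w + 1),
      dist (gt h W A e w (tlz (gt h W A e w) (rr A e w) (nn A e w) v)) v ≤ 8 * h + 2 * √ε :=
  fun _ hv => tl_nearP2 H hh (Bp_P hε hv) hv

/-- **`hy` of `disp_field`**, window `u.P`, every `ω` -/
theorem hy_P (hε : 0 < ε) (H : LayU u m M p W A e) (hh : (m : ℝ) * h = u.s) (w : ZMod 3)
    (ω : Sample) : ∀ v ∈ Bp u ε ω (w + 2),
      dist (gt h W A e w (tlz (gt h W A e w) 0 (rr A e w) v)) v ≤ 8 * h + 2 * √ε :=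
  fun _ hv => tl_nearP1 H hh (Bp_P hε hv) hv

/-- `hx` of `disp_dI`, window `Wn` -/
theorem hx_W (hε : 0 < ε) (H : LayU u m M p W A e) (hh : (m : ℝ) * h = u.s) (w : ZMod 3)
    (hH : Hol (points ε ω ∩ Wn u ε) (deep u.P √ε) √ε) : ∀ v ∈ Bs u ε (Wn u ε) ω (w + 1),
      dist (gt h W A e w (tlz (gt h W A e w) (rr A e w) (nn A e w) v)) v ≤ 8 * h + 2 * √ε :=
  fun _ hv => tl_near2 H hh (Real.sqrt_pos.2 hε)
    (by rw [Dbl2x609.coe_Ap hε (bdd_Wn u ε)]; exact hH) hv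

/-- `hy` of `disp_dI`, window `Wn` -/
theorem hy_W (hε : 0 < ε) (H : LayU u m M p W A e) (hh : (m : ℝ) * h = u.s) (w : ZMod 3)
    (hH : Hol (points ε ω ∩ Wn u ε) (deep u.P √ε) √ε) : ∀ v ∈ Bs u ε (Wn u ε) ω (w + 2),
      dist (gt h W A e w (tlz (gt h W A e w) 0 (rr A e w) v)) v ≤ 8 * h + 2 * √ε :=
  fun _ hv => tl_near1 H hh (Real.sqrt_pos.2 hε)
    (by rw [Dbl2x609.coe_Ap hε (bdd_Wn u ε)]; exact hH) hv

/-- **the field `disp` for 609's `DI` and 416's layout**, no geometric hypothesis left -/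
theorem disp_u (hε : 0 < ε) (H : LayU u m M p W A e) (hh : (m : ℝ) * h = u.s) (w : ZMod 3)
    {J : Finset ℕ} (hJ : J ⊆ Finset.range (nn A e w)) {R θ : ℝ} (hR : 0 ≤ R) (hθ : 0 ≤ θ)
    (hRP : ∀ v ∈ u.P, ‖v‖ ≤ R) (S : Sample → Finset ℂ)
    (hS : ∀ᵐ ω ∂sampleLaw, (S ω : Set ℂ) ⊆ points ε ω ∧ points ε ω ∩ u.P ⊆ S ω)
    {bad : Set Sample} (mbad : MeasurableSet bad)
    (hq : ∀ᵐ ω ∂sampleLaw, ω ∉ bad →
      fracQ (Ap ε u.P ω) (Vp u ε ω) (Bp u ε ω) (w + 1) ≤ θ ∧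
        fracQ (Ap ε u.P ω) (Vp u ε ω) (Bp u ε ω) (w + 2) ≤ θ) :
    let dd : Sample → ℝ := fun ω => (2 * (8 * h + 2 * √ε) +
      ((Finset.range (nn A e w) \ J).card : ℝ) * h) +
      (2 * R + nn A e w * h) * (2 * θ + 2 * bad.indicator 1 ω)
    Integrable dd sampleLaw ∧
      (∫ ω, dd ω ∂sampleLaw = (2 * (8 * h + 2 * √ε) +
        ((Finset.range (nn A e w) \ J).card : ℝ) * h) +
        (2 * R + nn A e w * h) * (2 * θ + 2 * sampleLaw.real bad)) ∧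
      ∀ᵐ ω ∂sampleLaw, ‖DI u ε ω w - ∑ l ∈ J, zl h W A e w l *
          ((qo S (ta u √ε h u.P W A e w) (tb u √ε h u.P W A e w) l ω : ℝ) : ℂ)‖ ≤ dd ω := by
  have h0 := H.h_pos hh
  exact disp_field hε H.lay h0.le hJ (by positivity) hR hθ hRP S hS
    (Filter.Eventually.of_forall fun ω => hx_P hε H hh w ω)
    (Filter.Eventually.of_forall fun ω => hy_P hε H hh w ω) mbad hq

end Crest.Agent.R143.TlHx58
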