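import Crest.Agent.R143.InpJ_609
import Crest.Agent.R143.RigP_854
import Crest.Agent.R143.CorV_169
import Crest.Agent.R143.CorE_133
import Crest.Agent.R143.TlH_58
import Crest.Agent.R143.LawH_765
import Crest.Agent.R143.QuenS_654
import Crest.Agent.R143.SpM_169
import Crest.Agent.R143.DisI_749
import Crest.Agent.R143.JTn_709

/-!
# Row 143 (S0194), RIG: the concrete objects of the last layer (helper609)

* `et N = hN N / 100`; `TData` : 204's template data for all widths and meshes (`NumC`), `tpl`, `std`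
* `neM`, `uM` : the gates of the corridor net; **`net`**, **`gW`** : net and weight of the label `w`
* **`VL`** : spatial charge of the tile `l` (169's `VL`: `2 ≤ l`, `l + 2 < nT`, otherwise `0`)
* **`kZ Z N ε`** : the number `κ` (169's `kap` for `fP`)
* **`tA`, `tB`** : tiles of the touches (58), window `u.P`; `zL l = gate (l + 1) - gate l`
* `CW` = region of the net, `UP = u.P`, `SU u ε ω` = sites (133)
* **`inp`** : 279's `Inp` for these objects, from the integrability of `g ‖V l‖ ^ 2`; `disU` : the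
  corridor is off `u.P`, in the disc; **`mean`** : field `mean`; `nz` : a straight tile exists
-/

set_option autoImplicit false
set_option linter.style.haveILetI false

noncomputable section

open scoped Classical

namespace Crest.Agent.R143.RigZdx609

open MeasureTheory Set Filter Topology
open scoped ENNReal
open Crest.ProbabilityR.Voronoi
open Crest.Agent.R143.PP0x831 Crest.Agent.R143.Poisx304 Crest.Agent.R143.Janx304
open Crest.Agent.R143.Prodx609 Crest.Agent.R143.FinMx609 Crest.Agent.R143.FinM2x609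
open Crest.Agent.R143.Dbl2x609 Crest.Agent.R143.B0x346
open Crest.Agent.R143.MeasPx609 Crest.Agent.R143.MeasDx609 Crest.Agent.R143.InpIx609
  Crest.Agent.R143.InpJx609
open Crest.Agent.R143.PolyUx346 (Poly)
open Crest.Agent.R143.IndLocx279
open Crest.Agent.R143.IndLoc2x279 (sig sig_le sig_mono)
open Crest.Agent.R143.IndLoc3x279 (clr cav)
open Crest.Agent.R143.EnvIx279
open Crest.Agent.R143.PWx978 Crest.Agent.R143.Tplx978
open Crest.Agent.R143.TileRx228 Crest.Agent.R143.PthFx765 Crest.Agent.R143.TplIx204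
open Crest.Agent.R143.CorNx765 Crest.Agent.R143.Layx416 Crest.Agent.R143.LayUx416
open Crest.Agent.R143.RigPx854
open Crest.Agent.R143.SpMx169 (fP fP_meas kap)
open Crest.Agent.R143.TlAx58 (ta tb ta_loc tb_loc ta_meas tb_meas)
open Crest.Agent.R143.CorEx133 (Rp RU UU SU)

/-! ### the template family -/

/-- unit of length: `h = 100 η` -/
def et (N : ℕ) : ℝ := hN N / 100

theorem et_pos (N : ℕ) : 0 < et N := div_pos (hN_pos N) (by norm_num)

theorem et_h (N : ℕ) : 100 * et N = hN N := by unfold et; ring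

/-- **template data of all widths and meshes**: functions of `(N, ε)` only -/
structure TData where
  D : ℕ → ℝ → DT
  c : ℕ → ℝ → ℝ≥0∞
  c0 : ∀ N ε, c N ε ≠ 0
  c1 : ∀ N ε, c N ε ≤ 1
  num : ∀ N ε, GPosCx348.NumC (D N ε) (et N)

variable (Z : TData) {N : ℕ} {ε : ℝ} {u : Poly} {w : ZMod 3}

/-- 978's template with forced events -/
def TData.raw (N : ℕ) (hε : 0 < ε) : Raw ε (Tn × Bool) :=
  (Z.D N ε).raw ε hε (Z.c N ε) (Z.c0 N ε) (Z.c1 N ε)

/-- the template -/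
def TData.tpl (N : ℕ) (hε : 0 < ε) : Tpl ε (Tn × Bool) := (Z.raw N hε).tpl

theorem TData.h_eq (N : ℕ) (ε : ℝ) : (Z.D N ε).h = hN N := by
  rw [(Z.num N ε).h, et_h]

theorem TData.isS (N : ℕ) (ε : ℝ) : CorVx169.IsS (Z.D N ε) (et N) :=
  ⟨(Z.num N ε).g, (Z.num N ε).A, (Z.num N ε).B, (Z.num N ε).A', (Z.num N ε).B', (Z.num N ε).h⟩

/-- standard boxes -/
theorem TData.std (N : ℕ) (hε : 0 < ε) :
    Std (Z.tpl N hε) (Z.D N ε).A' (Z.D N ε).B' (Z.D N ε).h Prod.fst := by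
  have h1 := Z.num N ε
  have h2 := et_pos N
  refine std_raw _ hε _ _ ?_ ?_ ?_
  · rw [h1.A']; positivity
  · rw [h1.A', h1.B']; linarith
  · rw [h1.A', h1.B', h1.h]; linarith

/-! ### the net -/

theorem fp (hN : u.n + 4 ≤ N) : FPath (ly u N).M (ly u N).W := (ly_spec hN).lay.fp

theorem neM (hN : u.n + 4 ≤ N) : NeZero (ly u N).M := ⟨by
  have := (ly_spec hN).lay.nn_lt 0
  omega⟩

/-- all gates (and all tiles) -/
def uM (hN : u.n + 4 ≤ N) : Finset (ZMod (ly u N).M) :=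
  haveI := neM hN
  Finset.univ

/-- **the corridor net of the label `w`** -/
def net (u : Poly) (w : ZMod 3) (hN : u.n + 4 ≤ N) (hε : 0 < ε) :
    Net ε (ZMod (ly u N).M) (ZMod (ly u N).M) :=
  (cpth (fp hN) (Z.std N hε) (ly u N).A (ly u N).e w).net

/-- **the weight** -/
def gW (u : Poly) (w : ZMod 3) (hN : u.n + 4 ≤ N) (hε : 0 < ε) : Cf → ℝ :=
  LimSx133.gR (net Z u w hN hε) (uM hN) (uM hN)

/-- region of the net -/
def CW (u : Poly) (w : ZMod 3) (hN : u.n + 4 ≤ N) (hε : 0 < ε) : Set ℂ :=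
  (net Z u w hN hε).reg (uM hN) (uM hN)

theorem hNu (hN : u.n + 4 ≤ N) (hε : 0 < ε) (k : ZMod (ly u N).M) (_ : k ∈ uM hN) :
    (net Z u w hN hε).N k ⊆ uM hN := by
  have := neM hN
  exact Finset.subset_univ _

/-- the region is the union of the tiles -/
theorem CW_eq (hN : u.n + 4 ≤ N) (hε : 0 < ε) :
    CW Z u w hN hε = Rall (Z.D N ε).A' (Z.D N ε).B' (Z.D N ε).h (ly u N).W := by
  have := neM hN
  exact reg_eq (fp hN) (Z.std N hε) (Ac := (ly u N).A) (e := (ly u N).e) w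

/-- the weight is 765's `gC` -/
theorem gW_gC (hN : u.n + 4 ≤ N) (hε : 0 < ε) {X : Cf} (hX : X.Finite) :
    haveI := neM hN
    gW Z u w hN hε X = (gC (fp hN) (Z.std N hε) (ly u N).A (ly u N).e w X).toReal := by
  have := neM hN
  exact LimSx133.gR_fin (net Z u w hN hε) (hNu Z hN hε) hX

theorem gW_pos (hN : u.n + 4 ≤ N) (hε : 0 < ε) {X : Cf} (hX : X.Finite) :
    haveI := neM hN
    0 < gW Z u w hN hε X ↔ gC (fp hN) (Z.std N hε) (ly u N).A (ly u N).e w X ≠ 0 := by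
  have := neM hN
  exact LimSx133.gR_pos (net Z u w hN hε) (hNu Z hN hε) hX

/-! ### charges, touches -/

/-- **spatial charge of the tile `l`** (any field `f`; in RIG `f = fP`) -/
def VL (f : ℂ × ℂ × ℂ → ℂ) (u : Poly) (w : ZMod 3) (ε : ℝ) (hN : u.n + 4 ≤ N) (l : ℕ) : Cf → ℂ :=
  SpMx169.VL (Z.D N ε) (fp hN) (et N / 2) f (al (ly u N).A (ly u N).e w) (nT u w N) l

/-- tile of the touch on `w + 2` -/
def tA (u : Poly) (w : ZMod 3) (N : ℕ) (ε : ℝ) : Cf → ℕ :=
  ta u √ε (hN N) u.P (ly u N).W (ly u N).A (ly u N).e w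

/-- tile of the touch on `w + 1` -/
def tB (u : Poly) (w : ZMod 3) (N : ℕ) (ε : ℝ) : Cf → ℕ :=
  tb u √ε (hN N) u.P (ly u N).W (ly u N).A (ly u N).e w

/-- increment of the gates -/
def zL (u : Poly) (w : ZMod 3) (N : ℕ) (l : ℕ) : ℂ :=
  TlAx58.gt (hN N) (ly u N).W (ly u N).A (ly u N).e w (l + 1) -
    TlAx58.gt (hN N) (ly u N).W (ly u N).A (ly u N).e w l

theorem zL_eq (l : ℕ) : zL u w N l = -DispIx840.zl (hN N) (ly u N).W (ly u N).A (ly u N).e w l :=
  (DispJx840.neg_zl l).symm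

/-- mass of the weight -/
def g0 (u : Poly) (w : ZMod 3) (hN : u.n + 4 ≤ N) (hε : 0 < ε) : ℝ :=
  ∫ ω, gW Z u w hN hε (cfg ε ω) ∂sampleLaw

/-! ### `Inp` -/

/-- the corridor is off `u.P`, and inside the disc of the sites -/
structure DisU (u : Poly) (w : ZMod 3) (hN : u.n + 4 ≤ N) (hε : 0 < ε) : Prop where
  dis : Disjoint (CW Z u w hN hε) u.P
  sub : CW Z u w hN hε ⊆ Metric.closedBall 0 (RU u)

theorem P_sub_RU (u : Poly) : u.P ⊆ Metric.closedBall 0 (RU u) := by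
  intro z hz
  have h1 := CorEx133.P_norm u hz
  have h2 := CorEx133.one_le_Rp u
  rw [mem_closedBall_zero_iff]
  unfold RU
  linarith

theorem VL_local {f : ℂ × ℂ × ℂ → ℂ} (hN : u.n + 4 ≤ N) (hε : 0 < ε) (l : ℕ) :
    LocalOn (CW Z u w hN hε) (VL Z f u w ε hN l) := by
  rw [CW_eq]
  exact SpMx169.VL_Rall (Z.D N ε) (fp hN) (et N / 2) f _ _ l

theorem VL_fm {f : ℂ × ℂ × ℂ → ℂ} (hf : Measurable f) (hN : u.n + 4 ≤ N) (l : ℕ) :
    FinMeas (VL Z f u w ε hN l) := SpMx169.VL_fm (Z.D N ε) (fp hN) (et N / 2) hf _ _ l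

theorem mNh (hN : u.n + 4 ≤ N) (ε : ℝ) : (mN u N : ℝ) * (Z.D N ε).h = u.s := by
  rw [Z.h_eq]
  exact mN_hN (by omega)

/-- the corridor is off `u.P`, and inside the disc -/
theorem disU (hN : u.n + 4 ≤ N) (hε : 0 < ε) : DisU Z u w hN hε := by
  have h1 := Z.num N ε
  have h2 := et_pos N
  have a1 : (Z.D N ε).A' < (Z.D N ε).h := by rw [h1.A', h1.h]; linarith
  have a2 : (Z.D N ε).A' ≤ (Z.D N ε).B' := by rw [h1.A', h1.B']; linarith
  have a3 : 0 ≤ (Z.D N ε).B' := by rw [h1.B']; positivity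
  have a4 : (Z.D N ε).B' ≤ (Z.D N ε).h := by rw [h1.B', h1.h]; linarith
  refine ⟨?_, ?_⟩
  · rw [CW_eq]
    exact DisIx749.off_P (ly_spec hN) (mNh Z hN ε) a1 a2 a3 a4
  · rw [CW_eq]
    exact (DisIx749.sub_UU (ly_spec hN) (mNh Z hN ε) a1 a2 a3 a4).trans DisIx749.UU_RU

/-- **279's `Inp`** -/
theorem inp {f : ℂ × ℂ × ℂ → ℂ} (hf : Measurable f) (hN : u.n + 4 ≤ N) (hε : 0 < ε)
    (V2 : ∀ l ∈ Finset.range (nT u w N),
      Integrable (fun ω => gW Z u w hN hε (cfg ε ω) * ‖VL Z f u w ε hN l (cfg ε ω)‖ ^ 2)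
        sampleLaw) :
    Inp ε (CW Z u w hN hε) u.P (nT u w N) (SU u ε) (gW Z u w hN hε) (VL Z f u w ε hN)
      (tA u w N ε) (tB u w N ε) :=
  InpIx609.inp (net Z u w hN hε) (hNu Z hN hε) (isCompact_P u).measurableSet
    (isCompact_P u).isBounded (disU Z hN hε).dis Metric.isBounded_closedBall (disU Z hN hε).sub
    (P_sub_RU u)
    (fun l _ => VL_local Z hN hε l) (fun l _ => VL_fm Z hf hN l) V2
    (ta_loc u √ε (RigPx854.hN N) u.P w _ _ _)
    (ta_meas u √ε (RigPx854.hN N) u.P w _ _ _ (isCompact_P u).measurableSet)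
    (tb_loc u √ε (RigPx854.hN N) u.P w _ _ _)
    (tb_meas u √ε (RigPx854.hN N) u.P w _ _ _ (isCompact_P u).measurableSet)

/-! ### the mean -/

/-- **the number `κ`** -/
def kZ (N : ℕ) (ε : ℝ) : ℂ := if he : 0 < ε then kap (Z.D N ε) (et N / 2) (Z.std N he) fP else 0

/-- **field `mean`** -/
theorem mean (hN : u.n + 4 ≤ N) (hε : 0 < ε)
    (hA0 : ∫⁻ ω, (Z.tpl N hε).A (cfg ε ω) ∂sampleLaw ≠ 0) {l : ℕ} (hl : l ∈ JT u w N) :
    ∫ ω, (gW Z u w hN hε (cfg ε ω) : ℂ) * VL Z fP u w ε hN l (cfg ε ω) ∂sampleLaw =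
      ((g0 Z u w hN hε : ℝ) : ℂ) * (kZ Z N ε * zL u w N l) := by
  haveI := neM hN
  obtain ⟨h1, h2, h3⟩ := mem_JT.1 hl
  have hM : nT u w N + 8 ≤ (ly u N).M := (ly_spec hN).lay.nn_lt w
  have hM1 : nn (ly u N).A (ly u N).e w < (ly u N).M := by
    have : nn (ly u N).A (ly u N).e w = nT u w N := rfl
    omega
  have hM3 : Pr (ly u N).M 3 := Or.inr (by omega)
  have hh : (Z.D N ε).h ≠ 0 := by rw [Z.h_eq]; exact (RigPx854.hN_pos N).ne'
  have h := SpMx169.VL_mean_gt (Z.D N ε) (fp hN) (et N / 2) (Z.std N hε) (i := w)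
    hM1 hM3 hA0 hh h1 h2 h3
  have e1 : kZ Z N ε = kap (Z.D N ε) (et N / 2) (Z.std N hε) fP := dif_pos hε
  rw [e1]
  have e2 : zL u w N l = gz (Z.D N ε).h (ly u N).W
      (al (ly u N).A (ly u N).e w + ((l + 1 : ℕ) : ℤ)) -
        gz (Z.D N ε).h (ly u N).W (al (ly u N).A (ly u N).e w + (l : ℤ)) := by
    rw [Z.h_eq]
    rfl
  rw [e2]
  exact h

/-- the displacement of a tile of the list -/
theorem zL_norm (hN : u.n + 4 ≤ N) {l : ℕ} (hl : l ∈ JT u w N) :
    ‖zL u w N l‖ = RigPx854.hN N := by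
  obtain ⟨h1, -, -⟩ := mem_JT.1 hl
  obtain ⟨-, -, -, h4, -⟩ := mem_SJ.1 h1
  have e1 : al (ly u N).A (ly u N).e w + ((l + 1 : ℕ) : ℤ) =
      al (ly u N).A (ly u N).e w + l + 1 := by push_cast; ring
  unfold zL TlAx58.gt
  rw [e1, SpMx169.gz_S (fp hN) h4, norm_mul, norm_ge (fp hN), mul_one, Complex.norm_real,
    Real.norm_of_nonneg (hN_pos N).le]

theorem nz (u : Poly) (w : ZMod 3) : ∀ᶠ N : ℕ in atTop, ∃ l ∈ JT u w N,
    RigPx854.hN N ≤ ‖zL u w N l‖ := by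
  filter_upwards [JTnx709.JT_nonempty u w, eventually_ge_atTop (u.n + 4)] with N h1 h2
  obtain ⟨l, hl⟩ := h1
  exact ⟨l, hl, (zL_norm h2 hl).ge⟩

end Crest.Agent.R143.RigZdx609
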