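import Crest.Agent.R143.R10U_930
import Crest.Agent.R143.RigZd_609
import Crest.Agent.R143.BadG_204
import Crest.Agent.R143.RigN_377

/-!
# Row 143 (S0194), RIG: R10 for the objects of the last layer (helper930)

`S = SU u ε ω`, `h = hN N`, `d = √ε`, layout `ly u N`, white label `w`.

* `ks : Ks` : the absolute constants `C c c1 c2 K` of `r10u` (= 377's `C0 c0 c1 c2 K0`, by `rfl`)
* **`EnvR u N ε ω`** : entry of 133's list of environments, `CorEnv u ε √ε K (c2 h / D) D ω`,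
  `D = Du u K`; `neg_envR`
* **`NumR u N ε`** : the numbers; `ev_num` : true for large `N`, small `ε`
* **`UKR u w N ε ω A`** : 923's `UKin` for the classes `A` at the label `w`; `ukr_of` : at the numbers
  of 568 and 571
* **`con`** : `Vin ⊆ ff` and `Con`; **`plr_C`** : (6), the hypothesis `hC` of 654's `quenI`, `η = √h`,
  `θ0 = thC u N`; **`plr_pr`** : `hp` of 139's `theta_poly`; **`plr_prW`** : window form, for 737;
  **`plr_con`** : `con` of 840's `dispZ`; `plr_uq` : `uq` of 840's `disp_in`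
* `numR_of`, **`con377`**, **`cpl377`** : the same with 377's names (597's `Sx.near`, `quen_u`; 609's
  `InnP`)
* `env_hol`, `env_pts`, `env_norm` : the hypotheses `hd`, `hP`, `hbS` (`b = RU u`)
* `th_tendsto`, `thC_tendsto`, **`a2R_t3`**, `a2R_nonneg` : the limits
-/

set_option autoImplicit false

noncomputable section

open scoped Classical ENNReal

namespace Crest.Agent.R143.PlRx930

open MeasureTheory Set Filter Topology
open Crest.ProbabilityR.Voronoi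
open Crest.Agent.R143.Harx315 (pr)
open Crest.Agent.R143.K33x877
open Crest.Agent.R143.NetUx346 Crest.Agent.R143.NetVx346
open Crest.Agent.R143.PolyUx346
open Crest.Agent.R143.Locx922 (Hol)
open Crest.Agent.R143.LocUx700 (deep deep_sub)
open Crest.Agent.R143.IndLoc3x279 (clr)
open Crest.Agent.R143.TlAx58 (Sw Vw Bw)
open Crest.Agent.R143.Eddx798 (fU)
open Crest.Agent.R143.CorEx133
open Crest.Agent.R143.R10Nx930
open Crest.Agent.R143.R10Px923 (UKin Nw Cpl)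
open Crest.Agent.R143.R10Ux930
open Crest.Agent.R143.RigPx854
open Crest.Agent.R143.RigZdx609
open Crest.Agent.R143.PolyEx854 (T3)
open Crest.Agent.R143.BadGx204 (Neg)

/-! ### the constants -/

/-- the absolute constants of `r10u` -/
structure Ks where
  C : ℝ
  c : ℝ
  c1 : ℝ
  c2 : ℝ
  K : ℝ
  hC : 1 ≤ C
  hc : 0 < c
  hc1 : 0 < c1
  hc1' : c1 ≤ 1
  hc2 : 0 < c2
  hK : 2 ≤ K
  H : ∀ (u : Poly) (ε h c2c ρ0 : ℝ) (ω : Sample), 0 < h → 100 * h ≤ Du u K → ρ0 ≤ Du u K →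
    c2c * Du u K ≤ c2 * h → √ε ≤ c1 * h → 5000 * √ε ≤ h → CorEnv u ε √ε K c2c ρ0 ω →
    ∀ (m M : ℕ) (p W : ℤ → ℤ × ℤ) (Ai e : ℤ → ℤ), LayUx416.LayU u m M p W Ai e →
    (m : ℝ) * h = u.s → ∀ (A : ZMod 3 → Set ℂ) (o : ℂ × ℂ × ℂ) (i : ZMod 3)
      (A1 B1 w a0 a1 b0 b1 m' : ℝ), A1 ≤ B1 → B1 < h → Nw h √ε w a0 a1 b0 b1 m' →
    UKin (SU u ε ω) A o i u.P h A1 B1 w a0 a1 b0 b1 m' W Ai e →
    Vin (SU u ε ω) u.P √ε ⊆ ff (SU u ε ω) A ∧ ∀ Wd : Set ℂ, u.P ⊆ Wd → Con C c K u ε h ω A Wd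

open Crest.Agent.R143.RigNx377 in
/-- the constants: 377's `C0 c0 c1 c2 K0` -/
abbrev ks : Ks := ⟨C0, c0, c1, c2, K0, r10s.1, r10s.2.1, r10s.2.2.1, r10s.2.2.2.1, r10s.2.2.2.2.1,
  r10s.2.2.2.2.2.1, r10s.2.2.2.2.2.2⟩

theorem K0' : 0 ≤ ks.K := by linarith [ks.hK]

theorem C0' : 0 ≤ ks.C := by linarith [ks.hC]

theorem D0' (u : Poly) : 0 < Du u ks.K := Du_pos u K0'

/-! ### environment and numbers -/

/-- **the environment of R10**: an entry of the list of 133 -/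
def EnvR (u : Poly) (N : ℕ) (ε : ℝ) (ω : Sample) : Prop :=
  CorEnv u ε √ε ks.K (ks.c2 * hN N / Du u ks.K) (Du u ks.K) ω

/-- `CorEnv` with other parameters -/
theorem envR_of {u : Poly} {N : ℕ} {ε K1 c2 ρ0 : ℝ} {ω : Sample}
    (h : CorEnv u ε √ε K1 c2 ρ0 ω) (hK : K1 = ks.K) (h0 : 0 ≤ ρ0) (hρ : ρ0 ≤ Du u ks.K)
    (hc : c2 * Du u ks.K ≤ ks.c2 * hN N) : EnvR u N ε ω := by
  subst hK
  exact ⟨h.e0, h.d0, h.d1, h.gp, h.hole, envH_mono h.env le_rfl hρ h0 (by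
    rw [le_div_iff₀ (D0' u)]
    exact hc)⟩

/-- the environment is good with probability `→ 1` -/
theorem neg_envR (u : Poly) (N : ℕ) : Neg fun ε => {ω | ¬ EnvR u N ε ω} :=
  Neg.cor u K0' (div_pos (mul_pos ks.hc2 (hN_pos N)) (D0' u)) (D0' u)

/-- **the numbers of R10** -/
structure NumR (u : Poly) (N : ℕ) (ε : ℝ) : Prop where
  hD : 100 * hN N ≤ Du u ks.K
  d1 : √ε ≤ ks.c1 * hN N
  d2 : 5000 * √ε ≤ hN N
  h3 : 16 * hN N ≤ √(hN N)
  h4 : √(hN N) ≤ Du u ks.K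

theorem sqrt_hN_tendsto : Tendsto (fun N => √(hN N)) atTop (𝓝 0) := by
  have := (Real.continuous_sqrt.tendsto 0).comp hN_tendsto
  rwa [Real.sqrt_zero] at this

/-- the numbers hold for large `N`, then small `ε` -/
theorem ev_num (u : Poly) : ∀ᶠ N : ℕ in atTop, ∀ᶠ ε : ℝ in 𝓝[>] 0, NumR u N ε := by
  have hD := D0' u
  have hD' : 0 < Du u ks.K / 100 := by positivity
  have h16 : (0 : ℝ) < 1 / 16 := by norm_num
  filter_upwards [hN_tendsto.eventually (ge_mem_nhds hD'),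
    sqrt_hN_tendsto.eventually (ge_mem_nhds hD),
    sqrt_hN_tendsto.eventually (ge_mem_nhds h16)] with N g1 g2 g3
  have h0 := hN_pos N
  have e1 : √(hN N) * √(hN N) = hN N := Real.mul_self_sqrt h0.le
  have e2 : 0 < √(hN N) := Real.sqrt_pos.2 h0
  filter_upwards [sqrt_small (mul_pos ks.hc1 h0), sqrt_small (c := hN N / 5000) (by positivity)]
    with ε g4 g5
  exact ⟨by linarith, g4, by linarith, by nlinarith, g2⟩

/-! ### the open hypothesis -/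

/-- **923's `UKin`** for the classes `A` at the white label `w` -/
def UKR (u : Poly) (w : ZMod 3) (N : ℕ) (ε : ℝ) (ω : Sample) (A : ZMod 3 → Set ℂ) : Prop :=
  ∃ (o : ℂ × ℂ × ℂ) (A1 B1 w0 a0 a1 b0 b1 m' : ℝ), A1 ≤ B1 ∧ B1 < hN N ∧
    Nw (hN N) √ε w0 a0 a1 b0 b1 m' ∧
    UKin (SU u ε ω) A o w u.P (hN N) A1 B1 w0 a0 a1 b0 b1 m' (ly u N).W (ly u N).A (ly u N).e

variable {u : Poly} {N : ℕ} {ε : ℝ} {ω : Sample} {w : ZMod 3} {A : ZMod 3 → Set ℂ}

/-- the numbers of 568 -/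
theorem nw_et (he : 0 < ε) (hd : 5000 * √ε ≤ hN N) {w0 : ℝ} (h1 : 2 * et N ≤ w0)
    (h2 : w0 ≤ 50 * et N) :
    Nw (hN N) √ε w0 (-et N) (et N) (-(9 * et N)) (10 * et N) (et N) := by
  have h3 := et_h N
  have h4 := et_pos N
  have h5 : 0 < √ε := Real.sqrt_pos.2 he
  exact ⟨h5, by linarith, by linarith, by linarith, by linarith, by linarith, by linarith, h4.le⟩

/-- `UKin` at the numbers of 568 and 571 -/
theorem ukr_of (he : 0 < ε) (hd : 5000 * √ε ≤ hN N) {o : ℂ × ℂ × ℂ} {w0 : ℝ}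
    (h1 : 2 * et N ≤ w0) (h2 : w0 ≤ 50 * et N)
    (h : UKin (SU u ε ω) A o w u.P (hN N) (19 / 2 * et N) (103 / 2 * et N) w0 (-et N) (et N)
      (-(9 * et N)) (10 * et N) (et N) (ly u N).W (ly u N).A (ly u N).e) : UKR u w N ε ω A := by
  have h3 := et_h N
  have h4 := et_pos N
  exact ⟨o, _, _, _, _, _, _, _, _, by linarith, by linarith, nw_et he hd h1 h2, h⟩

/-- `UKin` at `h = 100 η` -/
theorem ukr_of' (he : 0 < ε) (hd : 5000 * √ε ≤ hN N) {o : ℂ × ℂ × ℂ} {w0 : ℝ}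
    (h1 : 2 * et N ≤ w0) (h2 : w0 ≤ 50 * et N)
    (h : UKin (SU u ε ω) A o w u.P (100 * et N) (19 / 2 * et N) (103 / 2 * et N) w0 (-et N) (et N)
      (-(9 * et N)) (10 * et N) (et N) (ly u N).W (ly u N).A (ly u N).e) : UKR u w N ε ω A := by
  rw [et_h] at h
  exact ukr_of he hd h1 h2 h

/-! ### R10 -/

/-- error at the distance `η` -/
def th (u : Poly) (η : ℝ) (N : ℕ) : ℝ :=
  ks.C * ((16 * hN N / η) ^ ks.c + (hN N / Du u ks.K) ^ ks.c)

/-- bound of the fraction without unique hit (840's `thU ks.C ks.c ks.K u N`) -/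
def thF (u : Poly) (N : ℕ) : ℝ := ks.C * (hN N / Du u ks.K) ^ ks.c

/-- error of the coupling, `η = √h` -/
def thC (u : Poly) (N : ℕ) : ℝ := th u √(hN N) N

/-- **`Con` for the objects of the last layer** -/
theorem con (hn : u.n + 4 ≤ N) (hE : EnvR u N ε ω) (hM : NumR u N ε) (hU : UKR u w N ε ω A) :
    Vin (SU u ε ω) u.P √ε ⊆ ff (SU u ε ω) A ∧
      ∀ Wd : Set ℂ, u.P ⊆ Wd → Con ks.C ks.c ks.K u ε (hN N) ω A Wd := by
  obtain ⟨o, A1, B1, w0, a0, a1, b0, b1, m', h1, h2, h3, h4⟩ := hU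
  refine ks.H u ε (hN N) _ _ ω (hN_pos N) hM.hD le_rfl ?_ hM.d1 hM.d2 hE (mN u N) (ly u N).M
    (ly u N).p (ly u N).W (ly u N).A (ly u N).e (ly_spec hn) (mN_hN (by omega)) A o w A1 B1 w0 a0 a1
    b0 b1 m' h1 h2 h3 h4
  rw [div_mul_cancel₀ _ (D0' u).ne']

section fields

variable (hn : u.n + 4 ≤ N) (hE : EnvR u N ε ω) (hM : NumR u N ε)
include hn hE hM

/-- **`hp` of 139's `theta_poly`** -/
theorem plr_pr (hU : UKR u w N ε ω A) {η : ℝ} (h1 : 16 * hN N ≤ η) (h2 : η ≤ Du u ks.K)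
    (i : ZMod 3) : pr (ff (SU u ε ω) A) (fun β => η < ‖hv (SU u ε ω) A i (β : Set ℂ) -
      zV (SU u ε ω) (Vin (SU u ε ω) u.P √ε) (Bl (SU u ε ω) (Vin (SU u ε ω) u.P √ε) u.Lab) i
        ((β ∩ Vin (SU u ε ω) u.P √ε : Finset ℂ) : Set ℂ) id‖) ≤ th u η N :=
  (((con hn hE hM hU).2 u.P subset_rfl).1 η h1 h2).1 i

/-- the same in the window `Wd`, for 737's `Bd` -/
theorem plr_prW (hU : UKR u w N ε ω A) {Wd : Set ℂ} (hW : u.P ⊆ Wd) {η : ℝ}
    (h1 : 16 * hN N ≤ η) (h2 : η ≤ Du u ks.K) (i : ZMod 3) :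
    pr (ff (SU u ε ω) A) (fun β => η < ‖hv (SU u ε ω) A i (β : Set ℂ) -
      zV (Sw Wd (SU u ε ω)) (Vw u √ε Wd (SU u ε ω)) (Bw u √ε Wd (SU u ε ω)) i
        ((β ∩ Vin (SU u ε ω) u.P √ε : Finset ℂ) : Set ℂ) id‖) ≤ th u η N :=
  (((con hn hE hM hU).2 Wd hW).1 η h1 h2).2 i

/-- `uq` of 840's `disp_in` -/
theorem plr_uq (hU : UKR u w N ε ω A) {Wd : Set ℂ} (hW : u.P ⊆ Wd) (i : ZMod 3) :
    fU u √ε Wd i (SU u ε ω) ≤ thF u N :=
  ((con hn hE hM hU).2 Wd hW).2 i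

variable {g : Set (ℂ × Bool) → ℝ} {Ac : Finset ℂ → ZMod 3 → Set ℂ}

/-- **(6)** : the hypothesis `hC` of 654's `quenI`, `goodI` -/
theorem plr_C (hU : ∀ σ ∈ (SU u ε ω).powerset, 0 < g (clr (SU u ε ω) σ) →
    UKR u w N ε ω (Ac σ)) :
    ∀ σ ∈ (SU u ε ω).powerset, 0 < g (clr (SU u ε ω) σ) →
      Vin (SU u ε ω) u.P √ε ⊆ ff (SU u ε ω) (Ac σ) ∧
      Cpl (SU u ε ω) (Ac σ) (Vin (SU u ε ω) u.P √ε)
        (Bl (SU u ε ω) (Vin (SU u ε ω) u.P √ε) u.Lab) √(hN N) (thC u N) := by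
  intro σ hσ h0
  have h := con hn hE hM (hU σ hσ h0)
  exact ⟨h.1, ((h.2 u.P subset_rfl).1 _ hM.h3 hM.h4).1⟩

/-- **`con` of 840's `dispZ`** (`β ⊆ S`) -/
theorem plr_con (hU : ∀ σ ∈ (SU u ε ω).powerset, 0 < g (clr (SU u ε ω) σ) →
    UKR u w N ε ω (Ac σ)) : ∀ β ⊆ SU u ε ω, 0 < g (clr (SU u ε ω) β) →
      ∃ A : ZMod 3 → Set ℂ, Con ks.C ks.c ks.K u ε (hN N) ω A u.P := fun β hβ h0 =>
  ⟨_, (con hn hE hM (hU β (Finset.mem_powerset.2 hβ) h0)).2 u.P subset_rfl⟩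

end fields

/-! ### with 377's names -/

open Crest.Agent.R143.RigNx377 in
theorem numR_of {c : ℕ} {e0 : ℝ} (hW : NumW u c e0 N) (hE : NumE N ε) : NumR u N ε :=
  ⟨hW.h100, hE.c1, hE.s5, hW.lo, hW.up⟩

open Crest.Agent.R143.RigNx377 in
/-- **input of 597's `Sx.near` and of 609's `InnP`** -/
theorem con377 {c : ℕ} {e0 : ℝ} (hW : NumW u c e0 N) (hE : NumE N ε) (C : EnvN u N ε ω)
    (hU : UKR u w N ε ω A) :
    Vin (SU u ε ω) u.P √ε ⊆ ff (SU u ε ω) A ∧ Con C0 c0 K0 u ε (hN N) ω A u.P := by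
  obtain ⟨h1, h2⟩ := con hW.n4 C (numR_of hW hE) hU
  exact ⟨h1, h2 _ subset_rfl⟩

open Crest.Agent.R143.RigNx377 in
/-- **input `hC` of 597's `quen_u`** -/
theorem cpl377 {c : ℕ} {e0 : ℝ} (hW : NumW u c e0 N) (hE : NumE N ε) (C : EnvN u N ε ω)
    (hU : UKR u w N ε ω A) :
    Vin (SU u ε ω) u.P √ε ⊆ ff (SU u ε ω) A ∧
      Cpl (SU u ε ω) A (Vin (SU u ε ω) u.P √ε) (Bl (SU u ε ω) (Vin (SU u ε ω) u.P √ε) u.Lab)
        (et0 N) (th0 u N) := by
  obtain ⟨h1, h2⟩ := con377 hW hE C hU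
  exact ⟨h1, (h2.1 _ hW.lo hW.up).1⟩

/-! ### the other hypotheses of one environment -/

/-- `hd` of `quenI` -/
theorem env_hol (hE : EnvR u N ε ω) : Hol (SU u ε ω : Set ℂ) (deep u.P √ε) √ε :=
  hE.hol.mono ((deep_sub (Real.sqrt_nonneg _)).trans (P_sub_UU u))

/-- `hP` of `quenI` -/
theorem env_pts (he : 0 < ε) : ∀ x ∈ u.P, x ∈ SU u ε ω ↔ x ∈ points ε ω := by
  intro x hx
  rw [mem_SU he]
  refine ⟨fun h => h.1, fun h => ⟨h, ?_⟩⟩
  have h1 := P_norm u hx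
  have h2 := one_le_Rp u
  unfold RU
  linarith

/-- `hbS` of `quenI`, `b = RU u` -/
theorem env_norm (he : 0 < ε) : ∀ v ∈ SU u ε ω, ‖v‖ ≤ RU u := fun _ hv => ((mem_SU he).1 hv).2

theorem RU0 (u : Poly) : 0 ≤ RU u := by linarith [RU_ge u]

/-! ### limits -/

theorem th_nonneg {η : ℝ} (hη : 0 ≤ η) (u : Poly) (N : ℕ) : 0 ≤ th u η N := by
  have h1 := hN_pos N
  have h2 := D0' u
  have h3 := C0'
  unfold th
  positivity

theorem thC_nonneg (u : Poly) (N : ℕ) : 0 ≤ thC u N := th_nonneg (Real.sqrt_nonneg _) u N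

/-- **the error at a fixed distance tends to `0`** -/
theorem th_tendsto (u : Poly) (η : ℝ) : Tendsto (th u η) atTop (𝓝 0) := by
  have h1 : Tendsto (fun N => 16 * hN N / η) atTop (𝓝 0) := by
    have := (hN_tendsto.const_mul 16).div_const η
    rwa [mul_zero, zero_div] at this
  have h2 : Tendsto (fun N => hN N / Du u ks.K) atTop (𝓝 0) := by
    have := hN_tendsto.div_const (Du u ks.K)
    rwa [zero_div] at this
  have h3 := (Real.continuousAt_rpow_const 0 ks.c (Or.inr ks.hc.le)).tendsto.comp h1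
  have h4 := (Real.continuousAt_rpow_const 0 ks.c (Or.inr ks.hc.le)).tendsto.comp h2
  rw [Real.zero_rpow ks.hc.ne'] at h3 h4
  have := (h3.add h4).const_mul ks.C
  rw [add_zero, mul_zero] at this
  exact this

theorem thF_nonneg (u : Poly) (N : ℕ) : 0 ≤ thF u N := by
  have h1 := hN_pos N
  have h2 := D0' u
  have h3 := C0'
  unfold thF
  positivity

theorem thF_tendsto (u : Poly) : Tendsto (thF u) atTop (𝓝 0) := by
  have h2 : Tendsto (fun N => hN N / Du u ks.K) atTop (𝓝 0) := by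
    have := hN_tendsto.div_const (Du u ks.K)
    rwa [zero_div] at this
  have h4 := (Real.continuousAt_rpow_const 0 ks.c (Or.inr ks.hc.le)).tendsto.comp h2
  rw [Real.zero_rpow ks.hc.ne'] at h4
  have := h4.const_mul ks.C
  rw [mul_zero] at this
  exact this

theorem thC_tendsto (u : Poly) : Tendsto (thC u) atTop (𝓝 0) :=
  (r10_lim ks.C ks.c ks.K ks.hc K0' u).comp
    (tendsto_nhdsWithin_iff.2 ⟨hN_tendsto, Eventually.of_forall hN_pos⟩)

/-- **the error `a2`** of `Good` with (6) -/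
def a2R (u : Poly) (N : ℕ) : ℝ := 3 * (√(hN N) + 2 * RU u * thC u N)

theorem a2R_nonneg (u : Poly) (N : ℕ) : 0 ≤ a2R u N := by
  have h1 := thC_nonneg u N
  have h2 := RU0 u
  unfold a2R
  positivity

theorem a2R_tendsto (u : Poly) : Tendsto (a2R u) atTop (𝓝 0) := by
  have h := (sqrt_hN_tendsto.add ((thC_tendsto u).const_mul (2 * RU u))).const_mul 3
  rw [mul_zero, add_zero, mul_zero] at h
  exact h

theorem t3_N {a : ℕ → ℝ} (h : Tendsto a atTop (𝓝 0)) : T3 atTop fun _ N _ => a N := by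
  intro η hη
  refine Eventually.of_forall fun _ => ?_
  filter_upwards [h.eventually (ge_mem_nhds hη)] with N h1
  exact Eventually.of_forall fun _ => h1

theorem a2R_t3 (u : Poly) : T3 atTop fun _ N _ => a2R u N := t3_N (a2R_tendsto u)

/-- the error at a distance which depends on `e0` -/
theorem th_t3 (u : Poly) (f : ℝ → ℝ) : T3 atTop fun e0 N _ => th u (f e0) N := by
  intro η hη
  refine Eventually.of_forall fun e0 => ?_
  filter_upwards [(th_tendsto u (f e0)).eventually (ge_mem_nhds hη)] with N h1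
  exact Eventually.of_forall fun _ => h1

end Crest.Agent.R143.PlRx930
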