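import Crest.Agent.R143.RigD_654

/-!
# Row 143 (S0194), CORE-C, RIG: the order of the tiles (helper654)

The strand runs against the order of the tiles of the polygon.  `Quen.refl` : hypotheses in the order of
the time of the strand (`l ↦ n - 1 - l`, touches `n - b`, `n - a`) ⟹ hypotheses in the order of the tiles
(`r + 1`, `c + 1`, touches `n - 1 - kb`, `n - 1 - ka`).
-/

set_option autoImplicit false

noncomputable section

open scoped Classical

namespace Crest.Agent.R143.RigDx654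

open Crest.ProbabilityR.Voronoi
open Crest.Agent.R143.CorMx970 Crest.Agent.R143.EnvIx279
open Crest.Agent.R143.IndLocx279 Crest.Agent.R143.IndLoc2x279 Crest.Agent.R143.IndLoc3x279

variable {n r c : ℕ} {S : Finset ℂ} {g : Set (ℂ × Bool) → ℝ}
  {V : ℕ → Set (ℂ × Bool) → ℂ} {a b : Set (ℂ × Bool) → ℕ} {t T : ℂ} {E1 a2 θ Q : ℝ}
  {Vβ Vγ : Finset ℂ → Finset ℂ → ℂ} {TK : Finset ℂ → ℂ} {W : ℕ → Finset ℂ → Finset ℂ → ℂ}
  {ka kb : Finset ℂ → Finset ℂ → ℕ}

/-- **from the order of the time to the order of the tiles** -/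
theorem Quen.refl (ha : ∀ τ ∈ S.powerset, a (clr S τ) ≤ n)
    (hb : ∀ τ ∈ S.powerset, b (clr S τ) ≤ n)
    (h : Quen n r c S g (fun l => V (n - 1 - l)) (fun X => n - b X) (fun X => n - a X) t T E1 a2
      θ Q Vβ Vγ TK (fun l => W (n - 1 - l)) ka kb) :
    Quen n (r + 1) (c + 1) S g V a b t T E1 a2 θ Q Vβ Vγ TK W (fun σ τ => n - 1 - kb σ τ)
      (fun σ τ => n - 1 - ka σ τ) where
  hb' := hb
  hkb := fun σ _ _ τ _ => by omega
  hWV := by
    intro σ hσ h0 τ hτ l hl h1 h2
    have h3 := h.hWV σ hσ h0 τ hτ (n - 1 - l) (by omega) (by omega) (by omega)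
    rwa [show n - 1 - (n - 1 - l) = l by omega] at h3
  hW0 := by
    intro σ hσ h0 τ hτ l hl h1
    have h3 := h.hW0 σ hσ h0 τ hτ (n - 1 - l) (by omega) (by omega)
    simp only [show n - 1 - (n - 1 - l) = l by omega] at h3
    exact h3
  close := by
    intro σ hσ h0 τ hτ
    rw [h.close σ hσ h0 τ hτ]
    congr 1
    exact Finset.sum_range_reflect (fun l => W l σ τ) n
  fresh := h.fresh
  small := h.small
  cont := h.cont
  hθ := by
    intro σ hσ h0
    refine (av_mono fun τ hτ => ?_).trans (h.hθ σ hσ h0)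
    have h1 := ha τ hτ
    have h2 := hb τ hτ
    unfold far
    by_cases h3 : (ka σ τ ≤ n - b (clr S τ) + r ∧ n - b (clr S τ) ≤ ka σ τ + r) ∧
        kb σ τ ≤ n - a (clr S τ) + r ∧ n - a (clr S τ) ≤ kb σ τ + r
    · rw [if_pos h3, if_pos (by dsimp only; omega)]
    · rw [if_neg h3]
      split_ifs <;> norm_num
  hQ := by
    refine le_trans (le_of_eq ?_) h.hQ
    exact (Finset.sum_range_reflect (fun l => av S.powerset (fun σ => g (clr S σ) *
      av S.powerset fun τ => ‖W l σ τ‖ ^ 2)) n).symm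

end Crest.Agent.R143.RigDx654
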