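import Crest.Agent.R143.SysD_166
import Crest.Agent.R143.RigE_654
import Crest.Agent.R143.EvG_168
import Crest.Agent.R143.TlR_709
import Crest.Agent.R143.Rst_832
import Crest.Agent.R143.CorV_169
import Crest.Agent.R143.ColX_829
import Crest.Agent.R143.RcT2_422

/-!
# Row 143 (S0194), RIG (helper166): the event `Hx` from the strand; `Quen` in the order of the tiles

`hS : GP S`, `s` a colouring of the cells, `A : Str (rc0 hS) (cfg (rc0 hS) s) n Rs P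
(fun k => RD S (B (n - 1 - k))) q N T` : 117's strand (168's `SD`), time order.

* `reg_of` : 169's regions `FQ S n fun l => Q (n - 1 - l)` on `rc0 hS`, any colouring of the cells
* `hv_gen`, `hx_gen` : `Hv` / `Hx` for any family `pa na Ev` ; **`hv_of`**, **`hx_of`** : for 168's
  family (`ι = D × ℕ`, `EvA`)
* `vs_vl` : the adapted charges are the charges of the strand
* `site_of`, `hs_of` : the sites of the left cells of the strand are in the strips (737's `hs`)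
* `qreg_cor`, `inn_cor`, `dis_cor`, **`hx_cor`** : under 713's `CorH (Xc hS h3 s) ..`
* `Quen.congr_W`, **`quen_n`** : 654's `Quen` in the order of the tiles (`quen_of` + `Quen.refl`)
-/

set_option autoImplicit false
set_option linter.unusedSectionVars false

noncomputable section

open scoped Classical

namespace Crest.Agent.R143.HxGx166

open Crest.Agent.R143.Frame1x395 Crest.Agent.R143.Frame2x395 Crest.Agent.R143.Frame3x395
  Crest.Agent.R143.Frame4x395 Crest.Agent.R143.Frame8x395 Crest.Agent.R143.Frame9x395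
  Crest.Agent.R143.Frame10x395 Crest.Agent.R143.Frame11x395
  Crest.Agent.R143.B0x346 Crest.Agent.R143.FinCx811 Crest.Agent.R143.DelGx806
  Crest.Agent.R143.OutSx358 Crest.Agent.R143.SysCx166
open Crest.Agent.R143.RingDx117 (RD)
open Crest.Agent.R143.StrBx117 (Str)
open Crest.Agent.R143.Sptx169 (Reg Vl rst)
open Crest.Agent.R143.Sptx832 (QReg FQ)
open Crest.Agent.R143.SysAx168 (EvA evA_uniq)
open Crest.Agent.R143.TlRx709 (tl)

/-! ### the strand -/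

section strand

variable {S : Finset ℂ} {hS : GP (S : Set ℂ)} {n N : ℕ} {B Q : ℕ → Set ℂ} {s : Cs hS → ZMod 2}
  {Rs : Set (D0 S)} {P' : ℕ → D0 S} {q : D0 S} {T : ℕ → ℕ}

/-- **169's regions on `rc0 hS`** -/
theorem reg_of (hQ : QReg S n n B Q)
    (A : Str (rc0 hS) (cfg (rc0 hS) s) n Rs P' (fun k => RD S (B (n - 1 - k))) q N T) :
    Reg (rc0 hS) (cfg (rc0 hS) s) q T n n (FQ S n fun l => Q (n - 1 - l)) := by
  have h3 := RcTx422.dart3 hS q
  have e := Rstx832.cfg_pc (hS := hS) h3 s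
  rw [← e] at A ⊢
  exact Rstx832.reg_restr.2 (Spt2x832.reg_str (B := fun k => B (n - 1 - k)) hQ.rev
    (Rstx832.str_restr.1 A))

variable {ι : Type} {pa : ι → (Cs hS → ZMod 2) → D0 S} {na : ι → (Cs hS → ZMod 2) → ℕ}
  {Ev : ι → (Cs hS → ZMod 2) → Prop} {i : ι}

/-- `Hv` for any family -/
theorem hv_gen (E : Ev i s) (e1 : pa i s = q) (e2 : na i s = T n) (hQ : QReg S n n B Q)
    (A : Str (rc0 hS) (cfg (rc0 hS) s) n Rs P' (fun k => RD S (B (n - 1 - k))) q N T)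
    (inn : ∀ k, k < n → ∀ v ∈ S, v ∈ B k → ¬ OnHull S v)
    (dis : ∀ a b, a + 2 ≤ b → b < n → ∀ v ∈ S, v ∈ B a → v ∉ B b) :
    Hv (rc0 hS) pa na Ev n n (FQ S n fun l => Q (n - 1 - l)) (tl hS B n) s (i, T) := by
  refine ⟨E, A.T0, e2.symm, ?_, fun j hj u h1 h2 => ?_⟩
  · show Reg (rc0 hS) (cfg (rc0 hS) s) (pa i s) T n n _
    rw [e1]
    exact reg_of hQ A
  · show j ≤ tl hS B n ((rc0 hS).cell (NonXx592.P (rc0 hS) (cfg (rc0 hS) s) (pa i s) u)) + 1 ∧ _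
    rw [e1]
    exact TlRx709.htl (hS := hS) (x := cfg (rc0 hS) s) inn dis A.arc j hj u h1 h2

/-- `Hx` for any family -/
theorem hx_gen (E : Ev i s) (e1 : pa i s = q) (e2 : na i s = T n) (hQ : QReg S n n B Q)
    (A : Str (rc0 hS) (cfg (rc0 hS) s) n Rs P' (fun k => RD S (B (n - 1 - k))) q N T)
    (inn : ∀ k, k < n → ∀ v ∈ S, v ∈ B k → ¬ OnHull S v)
    (dis : ∀ a b, a + 2 ≤ b → b < n → ∀ v ∈ S, v ∈ B a → v ∉ B b) :
    Hx (rc0 hS) pa na Ev n n (FQ S n fun l => Q (n - 1 - l)) (tl hS B n) s :=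
  ⟨(i, T), hv_gen E e1 e2 hQ A inn dis⟩

/-- the adapted charges are the charges of the strand -/
theorem vs_vl (uni : ∀ i j σ, Ev i σ → Ev j σ → pa i σ = pa j σ ∧ na i σ = na j σ)
    (E : Ev i s) (e1 : pa i s = q) (e2 : na i s = T n) (T0 : T 0 = 0) (w : D0 S → ℂ)
    (F : ℕ → Set (D0 S)) (l : ℕ) :
    Vs (rc0 hS) pa na Ev w F l s = Vl (rc0 hS) (cfg (rc0 hS) s) q T n w F l := by
  unfold Vs
  rw [StGluex867.pick_eq (fun i j σ hi hj => ?_) E]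
  · unfold Sptx169.Vl
    rw [T0, e1, e2]
  · obtain ⟨e3, e4⟩ := uni i j σ hi hj
    rw [e3, e4]

variable {H R : Set (Cs hS)} {Qr : Set (D0 S)} {Z : Uniqx323.Zn (rc0 hS)}

/-- **`Hv` for 168's family** -/
theorem hv_of (E : EvA (rc0 hS) H R Qr Z (q, T n) s) (hQ : QReg S n n B Q)
    (A : Str (rc0 hS) (cfg (rc0 hS) s) n Rs P' (fun k => RD S (B (n - 1 - k))) q N T)
    (inn : ∀ k, k < n → ∀ v ∈ S, v ∈ B k → ¬ OnHull S v)
    (dis : ∀ a b, a + 2 ≤ b → b < n → ∀ v ∈ S, v ∈ B a → v ∉ B b) :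
    Hv (rc0 hS) (fun (i : D0 S × ℕ) _ => i.1) (fun i _ => i.2) (EvA (rc0 hS) H R Qr Z) n n
      (FQ S n fun l => Q (n - 1 - l)) (tl hS B n) s ((q, T n), T) :=
  hv_gen (i := (q, T n)) E rfl rfl hQ A inn dis

/-- **`Hx` for 168's family** -/
theorem hx_of (E : EvA (rc0 hS) H R Qr Z (q, T n) s) (hQ : QReg S n n B Q)
    (A : Str (rc0 hS) (cfg (rc0 hS) s) n Rs P' (fun k => RD S (B (n - 1 - k))) q N T)
    (inn : ∀ k, k < n → ∀ v ∈ S, v ∈ B k → ¬ OnHull S v)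
    (dis : ∀ a b, a + 2 ≤ b → b < n → ∀ v ∈ S, v ∈ B a → v ∉ B b) :
    Hx (rc0 hS) (fun (i : D0 S × ℕ) _ => i.1) (fun i _ => i.2) (EvA (rc0 hS) H R Qr Z) n n
      (FQ S n fun l => Q (n - 1 - l)) (tl hS B n) s :=
  ⟨_, hv_of E hQ A inn dis⟩

/-- the adapted charges of 168's family -/
theorem vs_vlA (E : EvA (rc0 hS) H R Qr Z (q, T n) s) (T0 : T 0 = 0) (w : D0 S → ℂ)
    (F : ℕ → Set (D0 S)) (l : ℕ) :
    Vs (rc0 hS) (fun (i : D0 S × ℕ) _ => i.1) (fun i _ => i.2) (EvA (rc0 hS) H R Qr Z) w F l s =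
      Vl (rc0 hS) (cfg (rc0 hS) s) q T n w F l :=
  vs_vl (i := (q, T n)) (fun i j σ hi hj => by
    have h : i = j := evA_uniq hi hj
    exact ⟨by rw [h], by rw [h]⟩) E rfl rfl T0 w F l

/-- **the sites of the left cells of the strand** -/
theorem site_of (A : Str (rc0 hS) (cfg (rc0 hS) s) n Rs P' (fun k => RD S (B (n - 1 - k))) q N T)
    (inn : ∀ k, k < n → ∀ v ∈ S, v ∈ B k → ¬ OnHull S v) :
    ∀ u ≤ T n, ∃ j < n, Freshx829.rep hS ((rc0 hS).cell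
      (NonXx592.P (rc0 hS) (cfg (rc0 hS) s) q u)) ∈ B (n - 1 - j) := by
  intro u hu
  have hn3 := A.n3
  obtain ⟨j, -, hj, a1, a2⟩ := Splx117.arc_of (T := T) (a := 0) (b := n) (u := u) (by omega)
    (by rw [A.T0]; exact Nat.zero_le _) hu
  have hd := A.arc j hj u a1 a2
  have h1 : ((stp (rc0 hS) (cfg (rc0 hS) s))^[u] q).1.1 ∈ S :=
    (DelGx806.mem_delT.1 (Frame5x395.th_spec ((stp (rc0 hS) (cfg (rc0 hS) s))^[u] q).2)).1
  have h2 := inn (n - 1 - j) (by omega) _ h1 hd.1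
  refine ⟨j, hj, ?_⟩
  show Freshx829.rep hS ((rc0 hS).cell ((stp (rc0 hS) (cfg (rc0 hS) s))^[u] q)) ∈ _
  rw [TlRx709.rep_state _ h2]
  exact hd.1

/-- **737's hypothesis `hs`** -/
theorem hs_of (E : EvA (rc0 hS) H R Qr Z (q, T n) s)
    (A : Str (rc0 hS) (cfg (rc0 hS) s) n Rs P' (fun k => RD S (B (n - 1 - k))) q N T)
    (inn : ∀ k, k < n → ∀ v ∈ S, v ∈ B k → ¬ OnHull S v) :
    ∃ i : D0 S × ℕ, EvA (rc0 hS) H R Qr Z i s ∧ ∀ u ≤ i.2, ∃ j < n, Freshx829.rep hS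
      ((rc0 hS).cell (NonXx592.P (rc0 hS) (cfg (rc0 hS) s) i.1 u)) ∈ B (n - 1 - j) :=
  ⟨(q, T n), E, site_of A inn⟩

/-! ### under `CorH` -/

section cor

open Crest.Agent.R143.ColXx829 Crest.Agent.R143.TileRx228 Crest.Agent.R143.CorHx713

variable {h3 : 3 ≤ S.card} {U : Set ℂ} {M : ℕ} {W : ℤ → ℤ × ℤ} {η d : ℝ} {o : ℤ}

theorem qreg_cor (K : CorH (Xc hS h3 s) U M W η d o n) :
    QReg S n n (fun k => RR (19 / 2 * η) (103 / 2 * η) (100 * η) W (o + k))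
      (SpRx169.QX (100 * η) W o n) := by
  have h := K.qreg
  rwa [sX_Xc] at h

theorem inn_cor (K : CorH (Xc hS h3 s) U M W η d o n) : ∀ k : ℕ, k < n → ∀ v ∈ S,
    v ∈ RR (19 / 2 * η) (103 / 2 * η) (100 * η) W (o + k) → ¬ OnHull S v := by
  intro k _ v _ hv
  have h1 := K.e0
  have h := K.inn (K.sub_U (A := 19 / 2 * η) (B := 103 / 2 * η) (by linarith) (by linarith)
    (o + k) hv)
  rwa [sX_Xc] at h

theorem dis_cor (K : CorH (Xc hS h3 s) U M W η d o n) : ∀ a b : ℕ, a + 2 ≤ b → b < n → ∀ v ∈ S,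
    v ∈ RR (19 / 2 * η) (103 / 2 * η) (100 * η) W (o + a) →
      v ∉ RR (19 / 2 * η) (103 / 2 * η) (100 * η) W (o + b) := by
  intro a b h1 h2 v _ hv
  have h3 := K.e0
  have h4 := K.nM
  exact TlRx709.rr_dis K.dsj (by linarith) (by linarith) (Or.inr (by omega)) o a b h1 h2 v hv

/-- **`Hx` at one colouring with an open corridor** -/
theorem hx_cor (K : CorH (Xc hS h3 s) U M W η d o n)
    (E : ∃ (q : D0 S) (N : ℕ) (T : ℕ → ℕ) (Rs : Set (D0 S)) (P' : ℕ → D0 S),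
      Str (rc0 hS) (cfg (rc0 hS) s) n Rs P'
        (fun k => RD S (RR (19 / 2 * η) (103 / 2 * η) (100 * η) W (o + (n - 1 - k : ℕ)))) q N T ∧
      EvA (rc0 hS) H R Qr Z (q, T n) s) :
    Hx (rc0 hS) (fun (i : D0 S × ℕ) _ => i.1) (fun i _ => i.2) (EvA (rc0 hS) H R Qr Z) n n
      (FQ S n fun l => SpRx169.QX (100 * η) W o n (n - 1 - l))
      (tl hS (fun k => RR (19 / 2 * η) (103 / 2 * η) (100 * η) W (o + k)) n) s := by
  obtain ⟨q, N, T, Rs, P', A, E⟩ := E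
  exact hx_of (B := fun k : ℕ => RR (19 / 2 * η) (103 / 2 * η) (100 * η) W (o + k)) E
    (qreg_cor K) A (inn_cor K) (dis_cor K)

end cor

end strand

/-! ### `Quen` in the order of the tiles -/

section quen

open Crest.Agent.R143.SmallAx304 Crest.Agent.R143.CorMx970 Crest.Agent.R143.RigDx654
  Crest.Agent.R143.SysDx166 Crest.Agent.R143.Coarse2x166
open IndLoc3x279 (clr)

/-- only the charges `W l`, `l < n`, matter -/
theorem congr_W {n r c : ℕ} {S : Finset ℂ} {g : Set (ℂ × Bool) → ℝ}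
    {V : ℕ → Set (ℂ × Bool) → ℂ} {a b : Set (ℂ × Bool) → ℕ} {t T : ℂ} {E1 a2 θ Q : ℝ}
    {Vβ Vγ : Finset ℂ → Finset ℂ → ℂ} {TK : Finset ℂ → ℂ} {W W' : ℕ → Finset ℂ → Finset ℂ → ℂ}
    {ka kb : Finset ℂ → Finset ℂ → ℕ}
    (h : Quen n r c S g V a b t T E1 a2 θ Q Vβ Vγ TK W ka kb) (e : ∀ l < n, W' l = W l) :
    Quen n r c S g V a b t T E1 a2 θ Q Vβ Vγ TK W' ka kb where
  hb' := h.hb'
  hkb := h.hkb
  hWV := fun σ hσ h0 τ hτ l hl h1 h2 => by
    rw [e l hl]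
    exact h.hWV σ hσ h0 τ hτ l hl h1 h2
  hW0 := fun σ hσ h0 τ hτ l hl h1 => by
    rw [e l hl]
    exact h.hW0 σ hσ h0 τ hτ l hl h1
  close := fun σ hσ h0 τ hτ => by
    rw [h.close σ hσ h0 τ hτ]
    congr 1
    exact Finset.sum_congr rfl fun l hl => by rw [e l (Finset.mem_range.1 hl)]
  fresh := h.fresh
  small := h.small
  cont := h.cont
  hθ := h.hθ
  hQ := by
    refine le_trans (le_of_eq ?_) h.hQ
    exact Finset.sum_congr rfl fun l hl => by rw [e l (Finset.mem_range.1 hl)]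

variable {S : Finset ℂ} (hS : GP (S : Set ℂ)) (h3 : 3 ≤ S.card)
  {H R : Set (Cs hS)} {Q : Set (D0 S)} {ι : Type} {pa : ι → (Cs hS → ZMod 2) → D0 S}
  {na : ι → (Cs hS → ZMod 2) → ℕ} {Ev : ι → (Cs hS → ZMod 2) → Prop} {d₀ : D0 S} {k : ZMod 3}
  {F : ℕ → Set (D0 S)} {tl : Cs hS → ℕ}

/-- **654's `Quen` in the order of the tiles**: `quen_of` and `Quen.refl` -/
theorem quen_n (Y : Sys (rc0 hS) H R Q pa na Ev) {n r : ℕ} {g : Set (ℂ × Bool) → ℝ}
    {V : ℕ → Set (ℂ × Bool) → ℂ} {a b : Set (ℂ × Bool) → ℕ} {T : ℂ} {E1 a2 θ Qq : ℝ}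
    {z : Cs hS → ℂ} (hn : 0 < n)
    (hg : ∀ σ ∈ S.powerset, 0 < g (clr S σ) → Hx (rc0 hS) pa na Ev n n F tl (chiS hS h3 σ))
    (hV : ∀ σ ∈ S.powerset, 0 < g (clr S σ) → ∀ j, 2 ≤ j → j + 2 < n →
      V j (clr S σ) =
        Vs (rc0 hS) pa na Ev (zs (rc0 hS) om z) F (n - 1 - j) (chiS hS h3 σ))
    (ha : ∀ τ ∈ S.powerset, a (clr S τ) ≤ n) (hb : ∀ τ ∈ S.powerset, b (clr S τ) ≤ n)
    (small : av S.powerset (fun σ => g (clr S σ) * av S.powerset fun τ =>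
      ‖Vb (rc0 hS) H R Q pa na Ev d₀ (zs (rc0 hS) om z) (chiS hS h3 σ) (chiS hS h3 τ)‖) ≤ E1)
    (cont : ∀ σ ∈ S.powerset, 0 < g (clr S σ) →
      ‖TKs hS H R Q pa na Ev k z (chiS hS h3 σ) - T‖ ≤ a2)
    (hθ : ∀ σ ∈ S.powerset, 0 < g (clr S σ) → av S.powerset (far r
      (fun σ τ => ka (rc0 hS) H R Q pa na Ev n n F tl (chiS hS h3 σ) (chiS hS h3 τ))
      (fun σ τ => kb (rc0 hS) H R Q pa na Ev n n F tl (chiS hS h3 σ) (chiS hS h3 τ))
      (fun τ => n - b (clr S τ)) (fun τ => n - a (clr S τ)) σ) ≤ θ)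
    (hQ : ∑ l ∈ Finset.range n, av S.powerset (fun σ => g (clr S σ) * av S.powerset fun τ =>
      ‖Wd (rc0 hS) H R Q pa na Ev k d₀ (zs (rc0 hS) om z) F l (chiS hS h3 σ)
        (chiS hS h3 τ)‖ ^ 2) ≤ Qq) :
    Quen n (r + 1) (2 + 1) S g V a b om T E1 a2 θ Qq
      (fun σ τ => Vb (rc0 hS) H R Q pa na Ev d₀ (zs (rc0 hS) om z) (chiS hS h3 σ)
        (chiS hS h3 τ))
      (fun σ τ => Vg (rc0 hS) H R Q pa na Ev k d₀ (zs (rc0 hS) om z) (chiS hS h3 σ)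
        (chiS hS h3 τ))
      (fun σ => TKs hS H R Q pa na Ev k z (chiS hS h3 σ))
      (fun j σ τ => Wd (rc0 hS) H R Q pa na Ev k d₀ (zs (rc0 hS) om z) F (n - 1 - j)
        (chiS hS h3 σ) (chiS hS h3 τ))
      (fun σ τ => n - 1 -
        kb (rc0 hS) H R Q pa na Ev n n F tl (chiS hS h3 σ) (chiS hS h3 τ))
      (fun σ τ => n - 1 -
        ka (rc0 hS) H R Q pa na Ev n n F tl (chiS hS h3 σ) (chiS hS h3 τ)) := by
  have h := quen_of hS h3 (k := k) (d₀ := d₀) Y (n := n) (r := r) (g := g)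
    (V := fun l => V (n - 1 - l)) (a := fun X => n - b X) (b := fun X => n - a X) (T := T)
    hn le_rfl le_rfl hg (fun σ hσ h0 l h1 h2 => by
      have e := hV σ hσ h0 (n - 1 - l) (by omega) (by omega)
      rw [show n - 1 - (n - 1 - l) = l by omega] at e
      exact e) (fun τ _ => Nat.sub_le _ _) small cont hθ hQ
  refine Quen.refl ha hb (congr_W h fun l hl => ?_)
  funext σ τ
  simp only [show n - 1 - (n - 1 - l) = l by omega]

end quen

end Crest.Agent.R143.HxGx166
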