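import Crest.Agent.R143.InpI_609

/-!
# Row 143 (S0194), RIG: the same as `InpI_609` for `MeasDx609.mI` (points in `P`, window `U ⊇ P`)
(helper609)

* `mv u ε ω i = mI u ε i id ω` ; `sig_mv`, `norm_mv`, `tI`, `dI` of it
* `envX_gen` : `EnvX om κ T D e` for any `T`, `D` measurable on `U`, `‖T‖ ≤ M`; `l1d_gen` : any
  phase `t`, output `L1D` of 854
* `envX_in`, `l1d_in`, **`rig_t3_in`** : the frozen ends for `mv`
-/

set_option autoImplicit false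
set_option linter.unusedSectionVars false

noncomputable section

open scoped Classical

namespace Crest.Agent.R143.InpJx609

open MeasureTheory Set Filter Topology
open scoped ENNReal
open Crest.ProbabilityR.Voronoi
open Crest.Agent.R143.PP0x831 Crest.Agent.R143.Dbl2x609 Crest.Agent.R143.B0x346
open Crest.Agent.R143.MeasPx609 Crest.Agent.R143.MeasDx609 Crest.Agent.R143.InpIx609
open Crest.Agent.R143.PolyUx346 (Poly)
open Crest.Agent.R143.IndLoc2x279 (sig sig_le sig_mono)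
open Crest.Agent.R143.IndLoc3x279 (clr cav)
open Crest.Agent.R143.EnvIx279
open Crest.Agent.R143.CorMx970 (tot)
open Crest.Agent.R143.RigCx654 Crest.Agent.R143.RigDx654
open Crest.Agent.R143.PolyQx854 Crest.Agent.R143.PolySx854
open Crest.Agent.R143.PolyEx854
open Crest.Agent.R143.AsmNx758 (POLY)

variable {u : Poly} {ε : ℝ} {U C : Set ℂ}

/-- mean end points of the points in `P` -/
def mv (u : Poly) (ε : ℝ) (ω : Sample) (i : ZMod 3) : ℂ := mI u ε i id ω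

theorem sig_mv (hε : 0 < ε) (u : Poly) (hU : u.P ⊆ U) (i : ZMod 3) :
    Measurable[sig ε U] fun ω => mv u ε ω i := sig_mI hε u hU i measurable_id

theorem norm_mv (hε : 0 < ε) (u : Poly) (ω : Sample) (i : ZMod 3) : ‖mv u ε ω i‖ ≤ Mb u :=
  norm_mI hε u (Mb_pos u).le
    (fun _ hv => norm_Wn u zero_le_one (P_sub_Wn u 0 hv)) i ω

theorem sig_tv (hε : 0 < ε) (u : Poly) (hU : u.P ⊆ U) (i : ZMod 3) :
    Measurable[sig ε U] fun ω => tI (mv u ε ω) i :=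
  ((sig_mv hε u hU (i + 1)).add ((sig_mv hε u hU (i + 2)).const_mul om)).add
    ((sig_mv hε u hU i).const_mul (om ^ 2))

theorem sig_dv (hε : 0 < ε) (u : Poly) (hU : u.P ⊆ U) (i : ZMod 3) :
    Measurable[sig ε U] fun ω => dI (mv u ε ω) i :=
  (sig_mv hε u hU i).sub (sig_mv hε u hU (i + 1))

theorem norm_tv (hε : 0 < ε) (u : Poly) (ω : Sample) (i : ZMod 3) :
    ‖tI (mv u ε ω) i‖ ≤ 3 * Mb u := by
  unfold tI
  refine (norm_add_le _ _).trans ?_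
  have h0 := norm_mv hε u ω i
  have h1 := norm_mv hε u ω (i + 1)
  have h2 := norm_mv hε u ω (i + 2)
  have h3 : ‖om * mv u ε ω (i + 2)‖ ≤ Mb u := by
    rw [norm_mul, norm_om1, one_mul]; exact h2
  have h4 : ‖om ^ 2 * mv u ε ω i‖ ≤ Mb u := by
    rw [norm_mul, norm_pow, norm_om1, one_pow, one_mul]; exact h0
  linarith [norm_add_le (mv u ε ω (i + 1)) (om * mv u ε ω (i + 2))]

theorem norm_dv (hε : 0 < ε) (u : Poly) (ω : Sample) (i : ZMod 3) :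
    ‖dI (mv u ε ω) i‖ ≤ 2 * Mb u := by
  unfold dI
  have h0 := norm_mv hε u ω i
  have h1 := norm_mv hε u ω (i + 1)
  linarith [norm_sub_le (mv u ε ω i) (mv u ε ω (i + 1))]

/-- the two conventions -/
theorem a_mv (u : Poly) (ε : ℝ) (ω : Sample) : aI u ε ω = -sg (mv u ε ω) := rfl

theorem D_mv (u : Poly) (ε : ℝ) (ω : Sample) (k : ZMod 3) :
    DI u ε ω k = RigCx654.dd (mv u ε ω) k := rfl

theorem dv_eq (u : Poly) (ε : ℝ) (ω : Sample) (i : ZMod 3) :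
    dI (mv u ε ω) i = -DI u ε ω (i + 2) := by
  unfold dI DI mv
  have e1 : i + 2 + 2 = i + 1 := by revert i; decide
  have e2 : i + 2 + 1 = i := by revert i; decide
  rw [e1, e2]
  ring

/-- the two totals: `tI m i = omz (i + 2) ^ 2 * om ^ 2 * (Σ omz j m j)`, i.e. phase times `aI` -/
theorem tv_eq (u : Poly) (ε : ℝ) (ω : Sample) (i : ZMod 3) :
    om ^ 2 * tI (mv u ε ω) i = -(omz (i + 2) ^ 2 * aI u ε ω) := by
  have h := key (mv u ε ω) 0 i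
  rw [a_mv]
  simp only [zero_mul, add_zero, mul_zero, neg_zero, sub_zero] at h
  linear_combination h

/-! ### any observables of the window -/

section env

variable {n r : ℕ} {S : Sample → Finset ℂ} {g : Set (ℂ × Bool) → ℝ}
  {V : ℕ → Set (ℂ × Bool) → ℂ} {a b : Set (ℂ × Bool) → ℕ}

/-- **970's data for any `T`, `D` measurable on the window** -/
theorem env_gen (h : Inp ε C U n S g V a b) {T D : Sample → ℂ} {M t' : ℝ} {t : ℂ} (ht : ‖t‖ = 1)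
    (hT : Measurable[sig ε U] T) (hD : Measurable[sig ε U] D) (Tb : ∀ ω, ‖T ω‖ ≤ M)
    (Db : ∀ ω, ‖D ω‖ ≤ t') {J : Finset ℕ} {κ : ℂ} {z : ℕ → ℂ} {a1 a2 K q q' c θ ρ : ℝ}
    {bad : Set Sample} {Q Q' E1 dd : Sample → ℝ} (J_le : J ⊆ Finset.range n)
    (g0_pos : 0 < ∫ ω, g (cfg ε ω) ∂sampleLaw) (K0 : 0 ≤ K) (θ0 : 0 ≤ θ) (ρ0 : 0 ≤ ρ)
    (q0 : 0 ≤ q) (q0' : 0 ≤ q') (ha2 : 0 ≤ a2) (mbad : MeasurableSet bad)
    (hbad : sampleLaw.real bad ≤ ρ * ∫ ω, g (cfg ε ω) ∂sampleLaw)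
    (good : ∀ᵐ ω ∂sampleLaw, ω ∉ bad → Good n r S g V a b t (T ω) (E1 ω) a2 θ (Q ω) (Q' ω) ω)
    (hE : ∀ ω, 0 ≤ E1 ω) (i1 : Integrable E1 sampleLaw)
    (e1 : ∫ ω, E1 ω ∂sampleLaw ≤ a1 * ∫ ω, g (cfg ε ω) ∂sampleLaw)
    (e3 : ∀ l ∈ Finset.range n, ∫ ω, g (cfg ε ω) * ‖V l (cfg ε ω)‖ ^ 2 ∂sampleLaw ≤
      K ^ 2 * ∫ ω, g (cfg ε ω) ∂sampleLaw)
    (iQ : Integrable Q sampleLaw) (Q0 : ∀ ω, 0 ≤ Q ω)
    (eQ : ∫ ω, Q ω ∂sampleLaw ≤ q ^ 2 * ∫ ω, g (cfg ε ω) ∂sampleLaw)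
    (iQ' : Integrable Q' sampleLaw) (Q0' : ∀ ω, 0 ≤ Q' ω)
    (eQ' : ∫ ω, Q' ω ∂sampleLaw ≤ q' ^ 2 * ∫ ω, g (cfg ε ω) ∂sampleLaw)
    (mean : ∀ l ∈ J, ∫ ω, (g (cfg ε ω) : ℂ) * V l (cfg ε ω) ∂sampleLaw =
      ((∫ ω, g (cfg ε ω) ∂sampleLaw : ℝ) : ℂ) * (κ * z l))
    (idd : Integrable dd sampleLaw) (edd : ∫ ω, dd ω ∂sampleLaw ≤ c)
    (disp : ∀ᵐ ω ∂sampleLaw, ‖D ω - ∑ l ∈ J, z l * (qo S a b l ω : ℂ)‖ ≤ dd ω) :
    L1D t κ T D (tot n r J a1 (a2 + M * ρ) K q q' c θ ρ ‖κ‖) ∧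
      ∃ (gv : ℕ → ℂ) (G : Sample → ℝ) (v : ℕ → Sample → ℂ) (w w2 o na nb : ℕ → Sample → ℝ)
        (E2 : Sample → ℝ), CorMx970.Env sampleLaw n r J t κ z
          (∫ ω, g (cfg ε ω) ∂sampleLaw) a1 (a2 + M * ρ) K q q' c θ ρ gv bad G v w w2 o na nb Q Q'
          E1 E2 dd T D ∧ ∀ f : Sample → ℂ, Measurable[sig ε U] f → (∀ ω, ‖f ω‖ ≤ 1) →
          CorMx970.EnvF sampleLaw n (∫ ω, g (cfg ε ω) ∂sampleLaw) gv G v o T f := by
  have iD : Integrable D sampleLaw := int_of_sig h.hε h.hU h.hUb hD Db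
  have hM : 0 ≤ M := by
    have : Nonempty Sample := by
      have hp : IsProbabilityMeasure sampleLaw := probS
      by_contra hc
      rw [not_nonempty_iff] at hc
      have h1 := hp.measure_univ
      rw [Measure.eq_zero_of_isEmpty sampleLaw] at h1
      simp at h1
    exact (norm_nonneg _).trans (Tb (Classical.arbitrary Sample))
  have h2 := E2_int (a2 := a2) hM mbad hbad h.iG h.eG
  have hmain := main_of (T := T) ht h.g0 h.g1 ha2 θ0 hE Tb good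
  have henv := h.env (t := t) (κ := κ) (z := z) J_le g0_pos K0 θ0 ρ0 q0 q0' ht mbad hbad
    hmain i1 e1 h2.1 h2.2 e3 iQ Q0 eQ iQ' Q0' eQ' mean hT Tb iD idd edd disp
  refine ⟨⟨henv.iT, iD, ?_⟩, _, _, _, _, _, _, _, _, _, henv,
    fun f hf f1 => h.envF hT Tb hf f1⟩
  exact Inp.l1 h rfl rfl henv hT Tb hD

end env

/-! ### phases -/

/-- 654's phase at the type `k + 1` is 854's phase at the white class `k` -/
theorem l1d_in (hε : 0 < ε) (u : Poly) (k : ZMod 3) {κ : ℂ} {e : ℝ}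
    (h : L1D om κ (fun ω => tI (mv u ε ω) (k + 1)) (fun ω => dI (mv u ε ω) (k + 1)) e) :
    L1D (omz k ^ 2) (om * κ) (aI u ε) (fun ω => DI u ε ω k) e := by
  refine ⟨int_aI hε u, int_DI hε u k, ?_⟩
  refine le_trans (le_of_eq ?_) h.le
  refine integral_congr_ae (ae_of_all _ fun ω => ?_)
  have h3 := key_norm (mv u ε ω) κ k
  simp only
  rw [← h3, a_mv, D_mv]
  congr 1
  ring

variable {I : Type}

/-- triple limit, any observables with the exact relation -/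
theorem poly_of_t3 {T T' : Poly → ℝ → Sample → ℂ} {D : Poly → ℝ → Sample → ZMod 3 → ℂ}
    {𝓁 : Filter I} [𝓁.NeBot] {κ : I → ℝ → ℂ} {e : Poly → ZMod 3 → ℝ → I → ℝ → ℝ}
    (he : ∀ u k, T3 𝓁 (e u k))
    (h : ∀ u k, ∀ᶠ e0 : ℝ in 𝓝[>] 0, ∀ᶠ N in 𝓁, ∀ᶠ ε : ℝ in 𝓝[>] 0,
      L1D (omz k ^ 2) (κ N ε) (T u ε) (fun ω => D u ε ω k) (e u k e0 N ε))
    (hR : RLP T T' D) : POLY T T' := by
  set e' : Poly → ZMod 3 → I → ℝ → ℝ := fun u k N ε => ∫ ω, ‖omz k ^ 2 * T u ε ω +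
    κ N ε * D u ε ω k‖ ∂sampleLaw with he'
  have h1 : ∀ u k, DL 𝓁 (e' u k) := by
    intro u k η hη
    obtain ⟨e0, h1, h2⟩ := ((he u k η hη).and (h u k)).exists
    filter_upwards [h1, h2] with N h3 h4
    filter_upwards [h3, h4] with ε h5 h6
    exact h6.le.trans h5
  have h2 : ∀ u k, ∀ᶠ N in 𝓁, ∀ᶠ ε : ℝ in 𝓝[>] 0,
      L1D (omz k ^ 2) (κ N ε) (T u ε) (fun ω => D u ε ω k) (e' u k N ε) := by
    intro u k
    obtain ⟨e0, h1⟩ := (h u k).exists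
    filter_upwards [h1] with N h3
    filter_upwards [h3] with ε h5
    exact ⟨h5.iT, h5.iD, le_rfl⟩
  refine poly_of_l1 (𝓁 := 𝓁) (κ := κ)
    (e := fun u N ε => ∑ k ∈ (Finset.univ : Finset (ZMod 3)), max (e' u k N ε) 0)
    (fun u => DL.sum _ fun k _ => dl_max0 (h1 u k)) (fun u => ?_) hR
  have h3 : ∀ᶠ N in 𝓁, ∀ k : ZMod 3, ∀ᶠ ε : ℝ in 𝓝[>] 0,
      L1D (omz k ^ 2) (κ N ε) (T u ε) (fun ω => D u ε ω k) (e' u k N ε) :=
    Filter.eventually_all.2 fun k => h2 u k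
  filter_upwards [h3] with N h4
  filter_upwards [Filter.eventually_all.2 h4] with ε h5 k
  refine (h5 k).mono ((le_max_left _ 0).trans ?_)
  exact Finset.single_le_sum (f := fun k => max (e' u k N ε) 0)
    (fun _ _ => le_max_right _ _) (Finset.mem_univ k)

theorem rlp_in : RLP aI bI DI := by
  intro u η hη
  refine Eventually.of_forall fun ε => ?_
  have h2 : {ω | ¬ Alg4x133.Rl (aI u ε ω) (bI u ε ω) (DI u ε ω)} = ∅ := by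
    rw [Set.eq_empty_iff_forall_notMem]
    exact fun ω hω => hω (rlI u ε ω)
  rw [h2]
  simp

/-- **RIG, exact functions of the points in `P`**, 854's phases -/
theorem rig_t3_l1 {𝓁 : Filter I} [𝓁.NeBot] {κ : I → ℝ → ℂ}
    {e : Poly → ZMod 3 → ℝ → I → ℝ → ℝ} (he : ∀ u k, T3 𝓁 (e u k))
    (h : ∀ u k, ∀ᶠ e0 : ℝ in 𝓝[>] 0, ∀ᶠ N in 𝓁, ∀ᶠ ε : ℝ in 𝓝[>] 0,
      L1D (omz k ^ 2) (κ N ε) (aI u ε) (fun ω => DI u ε ω k) (e u k e0 N ε)) :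
    POLY Poly.T Poly.T' := poly_of_in (poly_of_t3 he h rlp_in)

/-- **RIG, exact functions of the points in `P`**, 654's phases (type `i`, `t = om`) -/
theorem rig_t3_in {𝓁 : Filter I} [𝓁.NeBot] {κ : I → ℝ → ℂ}
    {e : Poly → ZMod 3 → ℝ → I → ℝ → ℝ} (he : ∀ u i, T3 𝓁 (e u i))
    (h : ∀ u i, ∀ᶠ e0 : ℝ in 𝓝[>] 0, ∀ᶠ N in 𝓁, ∀ᶠ ε : ℝ in 𝓝[>] 0,
      L1D om (κ N ε) (fun ω => tI (mv u ε ω) i) (fun ω => dI (mv u ε ω) i) (e u i e0 N ε)) :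
    POLY Poly.T Poly.T' := by
  refine rig_t3_l1 (𝓁 := 𝓁) (κ := fun N ε => om * κ N ε) (e := fun u k => e u (k + 1))
    (fun u k => he u (k + 1)) fun u k => ?_
  filter_upwards [h u (k + 1)] with e0 h0
  filter_upwards [h0] with N h1
  filter_upwards [h1, self_mem_nhdsWithin] with ε h2 hε
  exact l1d_in hε u k h2

/-- **one polygon, one type, one width, one mesh**, 654's phases -/
theorem l1d_of {n r : ℕ} {S : Sample → Finset ℂ} {g : Set (ℂ × Bool) → ℝ}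
    {V : ℕ → Set (ℂ × Bool) → ℂ} {a b : Set (ℂ × Bool) → ℕ} (h : Inp ε C U n S g V a b)
    (hU : u.P ⊆ U) (i : ZMod 3) {J : Finset ℕ} {κ : ℂ} {z : ℕ → ℂ}
    {a1 a2 K q q' c θ ρ : ℝ}
    {bad : Set Sample} {Q Q' E1 dd : Sample → ℝ} (J_le : J ⊆ Finset.range n)
    (g0_pos : 0 < ∫ ω, g (cfg ε ω) ∂sampleLaw) (K0 : 0 ≤ K) (θ0 : 0 ≤ θ) (ρ0 : 0 ≤ ρ)
    (q0 : 0 ≤ q) (q0' : 0 ≤ q') (ha2 : 0 ≤ a2) (mbad : MeasurableSet bad)
    (hbad : sampleLaw.real bad ≤ ρ * ∫ ω, g (cfg ε ω) ∂sampleLaw)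
    (good : ∀ᵐ ω ∂sampleLaw, ω ∉ bad →
      Good n r S g V a b om (tI (mv u ε ω) i) (E1 ω) a2 θ (Q ω) (Q' ω) ω)
    (hE : ∀ ω, 0 ≤ E1 ω) (i1 : Integrable E1 sampleLaw)
    (e1 : ∫ ω, E1 ω ∂sampleLaw ≤ a1 * ∫ ω, g (cfg ε ω) ∂sampleLaw)
    (e3 : ∀ l ∈ Finset.range n, ∫ ω, g (cfg ε ω) * ‖V l (cfg ε ω)‖ ^ 2 ∂sampleLaw ≤
      K ^ 2 * ∫ ω, g (cfg ε ω) ∂sampleLaw)
    (iQ : Integrable Q sampleLaw) (Q0 : ∀ ω, 0 ≤ Q ω)
    (eQ : ∫ ω, Q ω ∂sampleLaw ≤ q ^ 2 * ∫ ω, g (cfg ε ω) ∂sampleLaw)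
    (iQ' : Integrable Q' sampleLaw) (Q0' : ∀ ω, 0 ≤ Q' ω)
    (eQ' : ∫ ω, Q' ω ∂sampleLaw ≤ q' ^ 2 * ∫ ω, g (cfg ε ω) ∂sampleLaw)
    (mean : ∀ l ∈ J, ∫ ω, (g (cfg ε ω) : ℂ) * V l (cfg ε ω) ∂sampleLaw =
      ((∫ ω, g (cfg ε ω) ∂sampleLaw : ℝ) : ℂ) * (κ * z l))
    (idd : Integrable dd sampleLaw) (edd : ∫ ω, dd ω ∂sampleLaw ≤ c)
    (disp : ∀ᵐ ω ∂sampleLaw,
      ‖dI (mv u ε ω) i - ∑ l ∈ J, z l * (qo S a b l ω : ℂ)‖ ≤ dd ω) :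
    L1D om κ (fun ω => tI (mv u ε ω) i) (fun ω => dI (mv u ε ω) i)
      (tot n r J a1 (a2 + 3 * Mb u * ρ) K q q' c θ ρ ‖κ‖) :=
  (env_gen h norm_om1 (sig_tv h.hε u hU i) (sig_dv h.hε u hU i)
    (fun ω => norm_tv h.hε u ω i) (fun ω => norm_dv h.hε u ω i) J_le g0_pos K0 θ0 ρ0 q0 q0' ha2
    mbad hbad good hE i1 e1 e3 iQ Q0 eQ iQ' Q0' eQ' mean idd edd disp).1

end Crest.Agent.R143.InpJx609
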