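import Crest.Agent.R143.Det_421
import Crest.Agent.R143.Cont7_920
import Crest.Agent.R143.Hex_877

/-!
# Row 143 (S0194), CONT: `DetsS` (920) and static CONT for the frozen `TS` (helper421)

* `detsS` : 920's `DetsS` for every family of 877
* `detsS_hull`, `detsS_root` : oriented hits, hull version and root face version
* `cont_hull`, `cont_root` : **static CONT** `‖TS S A z - TS S A' z‖ ≤ ..` with the geometric
  hypotheses only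
-/

set_option autoImplicit false

noncomputable section

open scoped Classical

namespace Crest.Agent.R143.DetSx421

open Set
open Crest.Agent.R143.B0x346 Crest.Agent.R143.DelGx806 Crest.Agent.R143.JColx54
  Crest.Agent.R143.RE0x723
open Crest.Agent.R143.K33x877 (Clu Hit fr CtrT CtrX Fam Cls Tr TrR fam_hull fam_root)
open Crest.Agent.R143.GateKx421 Crest.Agent.R143.Detx421
open Crest.Agent.R143.Cont5x920 (OP ff_coe hitO_hit)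
open Crest.Agent.R143.Cont6x920
open Crest.Agent.R143.Cont7x920
open Crest.Agent.R143.NetUx346 (ff TS Hex)
open Crest.Agent.R143.Hexx877

variable {S : Finset ℂ} {A A' : ZMod 3 → Set ℂ} {P : (ZMod 3 → Set ℂ) → Prop}
  {O : Set (ℂ × ℂ × ℂ)}

/-- geometric hypotheses of CONT: `m` length of the edges at the free sites, `d0` width of the
layer, `Rg` region of the arms -/
structure Lay (S : Finset ℂ) (A A' : ZMod 3 → Set ℂ) (Rg : Set ℂ) (d0 m : ℝ) : Prop where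
  hs : ∀ i, A i ⊆ A' i
  vis : ∃ X, CtrX S A' X
  dnn : 0 ≤ d0
  mnn : 0 ≤ m
  edge : ∀ a ∈ fr S A, ∀ b, Adj S a b → ‖a - b‖ ≤ m
  thin : ∀ l, Thin S A A' l d0
  reg : fr S A ⊆ Rg
  reg' : ∀ z, (∃ w ∈ fr S A', Adj S z w) → z ∈ Rg

/-- **920's `DetsS`** -/
theorem detsS (F : Fam S P O) (hA : P A) (hA' : P A') {Q : ℂ → ℂ → ℂ → Prop}
    (hQ : ∀ (i : ZMod 3) T b v u, Hit S A (i + 1) (i + 2) i T b v u → Q b v u →
      (b, v, u) ∉ O ∧ (v, b, u) ∉ O)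
    (hQ' : ∀ (i : ZMod 3) T b v u, Hit S A' (i + 1) (i + 2) i T b v u → Q b v u →
      (b, v, u) ∉ O ∧ (v, b, u) ∉ O) {Rg : Set ℂ} {d0 m d D : ℝ} (L : Lay S A A' Rg d0 m)
    (hdm : d0 + 2 * m ≤ d) (hdp : 0 < d) : DetsS S (ff S A) A A' Q Rg d D := by
  intro i ρ1 ρ2 η h1 h2 h3 _
  have h12 : ∀ i : ZMod 3, i + 1 ≠ i + 2 ∧ i + 1 ≠ i ∧ i + 2 ≠ i := by decide
  obtain ⟨e1, e2, e3⟩ := h12 i
  obtain ⟨p0, -, p1, -, h⟩ := det_lit F hA hA' L.hs L.vis e1 e2 e3 (hQ i) (hQ' i) L.dnn L.mnn hdm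
    hdp h1 h2 h3 L.edge L.thin (V := ff S A) ff_coe L.reg L.reg'
  exact ⟨p0, p1, h⟩

/-- hull version -/
theorem detsS_hull (hA : Tr S A) (hA' : Tr S A') {Q : ℂ → ℂ → ℂ → Prop} {Rg : Set ℂ}
    {d0 m d D : ℝ} (L : Lay S A A' Rg d0 m) (hdm : d0 + 2 * m ≤ d) (hdp : 0 < d) :
    DetsS S (ff S A) A A' Q Rg d D :=
  detsS (fam_hull S) hA hA' (fun _ _ _ _ _ _ _ => ⟨Set.notMem_empty _, Set.notMem_empty _⟩)
    (fun _ _ _ _ _ _ _ => ⟨Set.notMem_empty _, Set.notMem_empty _⟩) L hdm hdp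

/-- root face version -/
theorem detsS_root {o : ℂ × ℂ × ℂ} {l : ZMod 3} (hA : TrR S o l A) (hA' : TrR S o l A')
    (hn : NegO A o) {Rg : Set ℂ} {d0 m d D : ℝ} (L : Lay S A A' Rg d0 m)
    (hdm : d0 + 2 * m ≤ d) (hdp : 0 < d) : DetsS S (ff S A) A A' (OP S) Rg d D := by
  have hn' : NegO A' o := ⟨L.hs 0 hn.1, L.hs 2 hn.2.1, L.hs 1 hn.2.2⟩
  refine detsS (fam_root S o l) hA hA' (fun i T b v u h1 h2 => ?_) (fun i T b v u h1 h2 => ?_) L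
    hdm hdp
  · exact (hitO_off hA hn ((hitO_hit hA.gp).2 ⟨h1, h2⟩)).off
  · exact (hitO_off hA' hn' ((hitO_hit hA.gp).2 ⟨h1, h2⟩)).off

/-! ### static CONT -/

/-- **static CONT, hull version** (`Rg` contains all the sites) -/
theorem cont_hull (hA : Tr S A) (hA' : Tr S A') (hc : Ccw S A) {Rg : Set ℂ}
    {d0 m d D C c : ℝ} (L : Lay S A A' Rg d0 m) (hdm : d0 + 2 * m ≤ d) (hdp : 0 < d)
    (hdD : d ≤ D) (hR : (S : Set ℂ) ⊆ Rg) (hdiam : ∀ z ∈ Rg, ∀ z' ∈ Rg, ‖z - z'‖ ≤ D)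
    (harm : ArmV S (ff S A) Rg d D C c) (hC : 1 ≤ C) (hc0 : 0 ≤ c) {z : ℂ → ℂ}
    (hz : ∀ a b, ‖z a - z b‖ ≤ ‖a - b‖) :
    ‖TS S A z - TS S A' z‖ ≤
      9 * ((1 + 4 * (2 * (C * 16 ^ c))) * D * (d / D) ^ (min c 1 / 4)) := by
  have hc' : Ccw S A' := fun i => by
    obtain ⟨a, b, h, ha, hb⟩ := hc i
    exact ⟨a, b, h, L.hs i ha, L.hs (i + 1) hb⟩
  have hm : ∀ {B : ZMod 3 → Set ℂ}, (∀ l, B l ⊆ (S : Set ℂ)) →
      ∀ i (T : Set ℂ) t, NetUx346.HitO S B i T t → t.1 ∈ Rg :=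
    fun hB i T t h => hR (hB i h.2.1)
  exact staticS_TS hA.gp (hex_tr hA hc) (hex_tr hA' hc') L.hs hz (hm hA.sub) (hm hA'.sub)
    L.reg hdiam hdp hdD harm hC hc0 (detsS_hull hA hA' L hdm hdp)

/-- **static CONT, root face version** -/
theorem cont_root {o : ℂ × ℂ × ℂ} {l : ZMod 3} (hA : TrR S o l A) (hA' : TrR S o l A')
    (hn : NegO A o) {Rg : Set ℂ}
    {d0 m d D C c : ℝ} (L : Lay S A A' Rg d0 m) (hdm : d0 + 2 * m ≤ d) (hdp : 0 < d)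
    (hdD : d ≤ D) (hRg : ∀ i (T : Set ℂ) t, NetUx346.HitO S A i T t → t.1 ∈ Rg)
    (hdiam : ∀ z ∈ Rg, ∀ z' ∈ Rg, ‖z - z'‖ ≤ D)
    (harm : ArmV S (ff S A) Rg d D C c) (hC : 1 ≤ C) (hc0 : 0 ≤ c) {z : ℂ → ℂ}
    (hz : ∀ a b, ‖z a - z b‖ ≤ ‖a - b‖) :
    ‖TS S A z - TS S A' z‖ ≤
      9 * ((1 + 4 * (2 * (C * 16 ^ c))) * D * (d / D) ^ (min c 1 / 4)) := by
  have hn' : NegO A' o := ⟨L.hs 0 hn.1, L.hs 2 hn.2.1, L.hs 1 hn.2.2⟩
  have h12 : ∀ i : ZMod 3, i + 1 ≠ i + 2 ∧ i + 1 ≠ i ∧ i + 2 ≠ i := by decide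
  refine staticS_TS hA.gp (hex_root hA hn) (hex_root hA' hn') L.hs hz hRg ?_
    L.reg hdiam hdp hdD harm hC hc0 (detsS_root hA hA' hn L hdm hdp)
  intro i T t h
  obtain ⟨e1, e2, e3⟩ := h12 i
  have h1 := hitO_off hA' hn' h
  have h2 := free_vertex (fam_root S o l) hA' L.vis e1 e2 e3 h1.toHit h1.off
  exact L.reg' _ (end_nb hA.gp h1.toHit h2)

end Crest.Agent.R143.DetSx421
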