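import Crest.Agent.R143.R10_930
import Crest.Agent.R143.DetS_421
import Crest.Agent.R143.Loc8_277
import Crest.Agent.R143.Lay_416
import Crest.Agent.R143.Neck1_921
import Crest.Agent.R143.Loc_922

/-!
# Row 143 (S0194), box R10: CONT for the class triple of `U_K` against the labelled polygon `u`,
the two ends (helper923)

* `yV S V B i T` : hit vertex of the labelled free set (`NetV_346`) if there is exactly one, else `0`
* `Cpl S A V B η θ` : **coupling form** : same colours, `P (η < ‖hv S A i - yV S V B i‖) ≤ θ`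
* `cpl_ey` : then the mean end points differ by `≤ η + 2 b θ`
* `cpl_ts` : then `‖TS S A z - TV S V B z‖ ≤ 9 (η + 2 b θ)`
* `Out S A A' o i P e L m Rg d0 mm ρ D` : output of the geometric half R10g (969, 845): classes `A'`
  with free sites `Vin S P e`, right labels off the marks, thin layer
* **`cpl_out`** : `Out` + environment (`EnvM`, `ArmV`) ⟹ `Cpl` with
  `θ = 8 (C 16 ^ c) (d / η) ^ (c / 3) + C' (ρ / D) ^ c'`
* **`UKin`** : interface with the class triple of `U_K` (166, 831, 372, 117, 568, 523, 700)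
-/

set_option autoImplicit false

noncomputable section

open scoped Classical

namespace Crest.Agent.R143.R10Px923

open Crest.Agent.R143.B0x346 Crest.Agent.R143.DelGx806 Crest.Agent.R143.DelRx806
open Crest.Agent.R143.JColx54 (Adj)
open Crest.Agent.R143.RE0x723 (Pth)
open Crest.Agent.R143.K33x877 (Clu Hit fr)
open Crest.Agent.R143.Harx315 (pr nb)
open Crest.Agent.R143.NetUx346 Crest.Agent.R143.NetVx346
open Crest.Agent.R143.Loc8x277 (exC_inter)

variable {S V : Finset ℂ} {A B : ZMod 3 → Set ℂ} {i : ZMod 3} {z : ℂ → ℂ} {η θ b : ℝ}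

/-- hit vertex of the labelled free set if there is exactly one hit, else `0` -/
def yV (S V : Finset ℂ) (B : ZMod 3 → Set ℂ) (i : ZMod 3) (T : Set ℂ) : ℂ := zV S V B i T id

theorem zV_yV (hz : z 0 = 0) (T : Set ℂ) : zV S V B i T z = z (yV S V B i T) := by
  unfold yV zV
  split_ifs with h
  · obtain ⟨t, ht⟩ := Finset.card_eq_one.1 h
    rw [ht, Finset.sum_singleton, Finset.sum_singleton]
    rfl
  · exact hz.symm

theorem norm_yV (hb : 0 ≤ b) (h : ∀ v ∈ B i, ‖v‖ ≤ b) (T : Set ℂ) : ‖yV S V B i T‖ ≤ b :=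
  norm_zV hb h

/-- mean end point of the labelled free set -/
def EyV (S V : Finset ℂ) (B : ZMod 3 → Set ℂ) (z : ℂ → ℂ) (i : ZMod 3) : ℂ :=
  exC V fun T => zV S V B i (T : Set ℂ) z

theorem TV_eq (z : ℂ → ℂ) : TV S V B z = 3 * ∑ i : ZMod 3, omz i * EyV S V B z i := rfl

/-- **coupling form of CONT** : the same colours in the two nets -/
def Cpl (S : Finset ℂ) (A : ZMod 3 → Set ℂ) (V : Finset ℂ) (B : ZMod 3 → Set ℂ) (η θ : ℝ) : Prop :=
  ∀ i : ZMod 3, pr (ff S A) (fun β => η < ‖hv S A i (β : Set ℂ) -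
    yV S V B i ((β ∩ V : Finset ℂ) : Set ℂ)‖) ≤ θ

/-- mean of a function which is `≤ η` off an event and `≤ M` always -/
theorem exC_le_pr {W : Finset ℂ} {f : Finset ℂ → ℂ} {E : Finset ℂ → Prop} {η M : ℝ} (_hη : 0 ≤ η)
    (_hM : 0 ≤ M) (h1 : ∀ T ⊆ W, ¬ E T → ‖f T‖ ≤ η) (h2 : ∀ T ⊆ W, ‖f T‖ ≤ M) :
    ‖exC W f‖ ≤ η + M * pr W E := by
  refine (norm_exC_le W f).trans ?_
  have h3 : ∑ T ∈ W.powerset, ‖f T‖ ≤ ∑ T ∈ W.powerset, (η + if E T then M else 0) := by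
    refine Finset.sum_le_sum fun T hT => ?_
    have hT' := Finset.mem_powerset.1 hT
    split_ifs with h
    · exact (h2 T hT').trans (by linarith)
    · rw [add_zero]
      exact h1 T hT' h
  have h4 : ∑ T ∈ W.powerset, (η + if E T then M else 0) = 2 ^ W.card * η + M * (nb W E : ℝ) := by
    rw [Finset.sum_add_distrib, Finset.sum_const, Finset.card_powerset, nsmul_eq_mul,
      ← Finset.sum_filter, Finset.sum_const, nsmul_eq_mul]
    push_cast
    unfold Crest.Agent.R143.Harx315.nb Crest.Agent.R143.Harx315.fl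
    ring
  have p : (0 : ℝ) < 2 ^ W.card := by positivity
  rw [div_le_iff₀ p]
  refine (h3.trans (le_of_eq h4)).trans (le_of_eq ?_)
  unfold Crest.Agent.R143.Harx315.pr
  field_simp

theorem cpl_ey (hX : Hex S A) (hV : V ⊆ ff S A) (hz : ∀ a b, ‖z a - z b‖ ≤ ‖a - b‖) (hz0 : z 0 = 0)
    (hη : 0 ≤ η) (hb : 0 ≤ b) (hA : ∀ i, ∀ v ∈ A i, ‖v‖ ≤ b) (hB : ∀ i, ∀ v ∈ B i, ‖v‖ ≤ b)
    (h : Cpl S A V B η θ) (i : ZMod 3) :
    ‖Ey S A z i - EyV S V B z i‖ ≤ η + 2 * b * θ := by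
  have e1 : EyV S V B z i = exC (ff S A) fun T => z (yV S V B i ((T ∩ V : Finset ℂ) : Set ℂ)) := by
    unfold EyV
    refine (exC_inter hV fun T _ => ?_).symm
    exact (zV_yV hz0 _).symm
  rw [Ey_eq hX, e1, ← exC_sub]
  have h2 : ‖exC (ff S A) fun T => z (hv S A i (T : Set ℂ)) -
      z (yV S V B i ((T ∩ V : Finset ℂ) : Set ℂ))‖ ≤ η + 2 * b * pr (ff S A) (fun β =>
        η < ‖hv S A i (β : Set ℂ) - yV S V B i ((β ∩ V : Finset ℂ) : Set ℂ)‖) := by
    refine exC_le_pr hη (by positivity) (fun T _ hT => (hz _ _).trans (not_lt.1 hT)) fun T hT => ?_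
    refine (hz _ _).trans ((norm_sub_le _ _).trans ?_)
    have k1 := hA i _ (hv_mem (i := i) hX hT)
    have k2 := norm_yV (S := S) (V := V) (i := i) hb (hB i) ((T ∩ V : Finset ℂ) : Set ℂ)
    linarith
  refine h2.trans ?_
  have := mul_le_mul_of_nonneg_left (h i) (by positivity : (0 : ℝ) ≤ 2 * b)
  linarith

/-- **`TS` against `TV` from the coupling** -/
theorem cpl_ts (hX : Hex S A) (hV : V ⊆ ff S A) (hz : ∀ a b, ‖z a - z b‖ ≤ ‖a - b‖) (hz0 : z 0 = 0)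
    (hη : 0 ≤ η) (hb : 0 ≤ b) (hA : ∀ i, ∀ v ∈ A i, ‖v‖ ≤ b) (hB : ∀ i, ∀ v ∈ B i, ‖v‖ ≤ b)
    (h : Cpl S A V B η θ) : ‖TS S A z - TV S V B z‖ ≤ 9 * (η + 2 * b * θ) := by
  rw [TV_eq]
  unfold TS
  rw [← mul_sub, norm_mul, Complex.norm_ofNat, ← Finset.sum_sub_distrib]
  have h1 : ∀ i : ZMod 3, ‖omz i * Ey S A z i - omz i * EyV S V B z i‖ ≤ η + 2 * b * θ := by
    intro i
    rw [← mul_sub, norm_mul, norm_omz, one_mul]
    exact cpl_ey hX hV hz hz0 hη hb hA hB h i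
  have h2 : ‖∑ i : ZMod 3, (omz i * Ey S A z i - omz i * EyV S V B z i)‖ ≤ 3 * (η + 2 * b * θ) := by
    refine (norm_sum_le _ _).trans ?_
    refine (Finset.sum_le_sum fun i _ => h1 i).trans ?_
    rw [Finset.sum_const, Finset.card_univ, ZMod.card, nsmul_eq_mul]
    push_cast
    exact le_rfl
  linarith

theorem id_lip (a b : ℂ) : ‖id a - id b‖ ≤ ‖a - b‖ := le_rfl

theorem conj_lip (a b : ℂ) : ‖(starRingEnd ℂ) a - (starRingEnd ℂ) b‖ ≤ ‖a - b‖ := by
  rw [← map_sub, RCLike.norm_conj]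



/-! ### the master form -/

open Crest.Agent.R143.K33x877 Crest.Agent.R143.Hexx877
open Crest.Agent.R143.Stabx930 (Mk NR BdE Nxt)
open Crest.Agent.R143.Stab2x930 (EnvM mk_of bde_pow)
open Crest.Agent.R143.Cont6x920 (ArmV)
open Crest.Agent.R143.DetSx421 (detsS_root)

variable {A' : ZMod 3 → Set ℂ} {o : ℂ × ℂ × ℂ} {l0 : ZMod 3} {P Rg : Set ℂ} {e : ℝ}
  {L : ℂ → ZMod 3} {m : ZMod 3 → ℂ} {d0 mm ρ d D D0 C c : ℝ}

/-- no positive rainbow triangle of class sites, root version -/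
theorem nr_root (hT : TrR S o l0 A) (hn : NegO A o) (hX : ∃ X, CtrX S A X) : NR S A := by
  intro j t ht h0 h1 h2
  obtain ⟨X, hX⟩ := hX
  have hC : CtrT S A t := ⟨ht, fun k => by
    have : ∀ k j : ZMod 3, k = j ∨ k = j + 1 ∨ k = j + 2 := by decide
    rcases this k j with rfl | rfl | rfl
    exacts [⟨t.1, Or.inl rfl, h0⟩, ⟨t.2.1, Or.inr (Or.inl rfl), h1⟩,
      ⟨t.2.2, Or.inr (Or.inr rfl), h2⟩]⟩
  refine (fam_root S o l0).ktx A hT t X ?_ hC hX
  have key : ∀ {a b : ZMod 3} {s : ℂ}, s ∈ A a → s ∈ A b → a = b := by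
    intro a b s h1 h2
    by_contra hne
    exact hT.toCls.ne hne h1 h2
  obtain ⟨x, y, z⟩ := o
  obtain ⟨hx, hy, hz⟩ := hn
  obtain ⟨t1, t2, t3⟩ := t
  intro hr
  simp only at hx hy hz h0 h1 h2
  simp only [rots, Set.mem_insert_iff, Set.mem_singleton_iff, Prod.mk.injEq] at hr
  rcases hr with ⟨rfl, rfl, rfl⟩ | ⟨rfl, rfl, rfl⟩ | ⟨rfl, rfl, rfl⟩
  · have e1 := key h0 hx
    have e2 := key h1 hy
    clear * - e1 e2
    revert j
    decide
  · have e1 := key h0 hy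
    have e2 := key h1 hz
    clear * - e1 e2
    revert j
    decide
  · have e1 := key h0 hz
    have e2 := key h1 hx
    clear * - e1 e2
    revert j
    decide

/-- **output of the geometric half** : `A` the classes of `U_K` (root face `o`, outer class `l0`),
`A'` classes with free sites `Vin S P e`, labels `L` off the marks, thin layer of width `d0`; edges at
the free sites `≤ mm`, region of the arms `Rg` -/
structure Out (S : Finset ℂ) (A A' : ZMod 3 → Set ℂ) (o : ℂ × ℂ × ℂ) (l0 : ZMod 3) (P : Set ℂ)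
    (e : ℝ) (L : ℂ → ZMod 3) (m : ZMod 3 → ℂ) (Rg : Set ℂ) (d0 mm ρ D : ℝ) : Prop where
  rt : TrR S o l0 A
  ng : NegO A o
  cls : Cls S A'
  lay : DetSx421.Lay S A A' Rg d0 mm
  fv : ff S A' = Vin S P e
  lab : ∀ x, Nxt S (Vin S P e) x → (∀ k, ρ < ‖x - m k‖) → ∀ j, x ∈ A' j → L x = j
  opp : ∀ k, ∃ f, ∀ x, Nxt S (Vin S P e) x → x ∉ Vin S P e → (x ∈ A' f ∨ L x = f) →
    D < ‖x - m k‖

/-- 930's `Mk` for the classes and the position labels -/
theorem Out.mk9 (h : Out S A A' o l0 P e L m Rg d0 mm ρ D) {C4 c1 c2 K : ℝ} (hK : 2 ≤ K)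
    (hc1 : c1 ≤ 1) (E : EnvM S m C4 c1 c2 K d ρ D) :
    Mk S (ff S A') A' (Bl S (Vin S P e) L) m d ρ (Real.sqrt (ρ * D)) D := by
  have adjS : ∀ {x : ℂ}, Nxt S (Vin S P e) x → x ∈ S := by
    rintro x ⟨v, -, (⟨w, hw⟩ | ⟨w, hw⟩)⟩
    · obtain ⟨o, hc⟩ := mem_delT_iff.1 hw
      exact hc.mb
    · obtain ⟨o, hc⟩ := mem_delT_iff.1 hw
      exact hc.ma
  have dA : ∀ j, ∀ x ∈ A' j, x ∉ Vin S P e := by
    intro j x hx h'
    rw [← h.fv, mem_ff] at h'
    exact h'.2 j hx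
  have dB : ∀ j, ∀ x ∈ Bl S (Vin S P e) L j, x ∉ Vin S P e := fun j x hx => hx.2.1
  rw [h.fv]
  refine mk_of hK hc1 E dA dB ?_ ?_
  · intro x hx hk j
    constructor
    · intro h'
      exact ⟨adjS hx, dA j x h', by
        obtain ⟨v, hv, ha⟩ := hx
        exact ⟨v, hv, ha.symm⟩, h.lab x hx hk j h'⟩
    · intro h'
      have hxV : x ∉ ff S A' := by rw [h.fv]; exact h'.2.1
      have : ∃ j', x ∈ A' j' := by
        by_contra hn
        push Not at hn
        exact hxV (mem_ff.2 ⟨h'.1, hn⟩)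
      obtain ⟨j', hj'⟩ := this
      have e1 := h.lab x hx hk j' hj'
      rw [h'.2.2.2] at e1
      rw [e1]
      exact hj'
  · intro k
    obtain ⟨f, hf⟩ := h.opp k
    refine ⟨f, fun x hx h' => ?_⟩
    rcases h' with h' | h'
    · exact hf x hx (dA f x h') (Or.inl h')
    · exact hf x hx h'.2.1 (Or.inr h'.2.2.2)

theorem Out.rt' (h : Out S A A' o l0 P e L m Rg d0 mm ρ D) : TrR S o l0 A' :=
  h.rt.up h.lay.hs h.cls

theorem Out.ng' (h : Out S A A' o l0 P e L m Rg d0 mm ρ D) : NegO A' o :=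
  ⟨h.lay.hs 0 h.ng.1, h.lay.hs 2 h.ng.2.1, h.lay.hs 1 h.ng.2.2⟩

theorem Out.hex (h : Out S A A' o l0 P e L m Rg d0 mm ρ D) : Hex S A := hex_root h.rt h.ng

/-- **CONT for `U_K` against `u`, coupling form** -/
theorem cpl_out : ∀ C4 : ℝ, 0 ≤ C4 → ∃ C' c' c1 c2 K : ℝ, 0 < C' ∧ 0 < c' ∧ 0 < c1 ∧ c1 ≤ 1 ∧
    0 < c2 ∧ c2 ≤ 1 ∧ 2 ≤ K ∧ ∀ (S : Finset ℂ) (A A' : ZMod 3 → Set ℂ) (o : ℂ × ℂ × ℂ)
    (l0 : ZMod 3) (P : Set ℂ) (e : ℝ) (L : ℂ → ZMod 3) (m : ZMod 3 → ℂ) (Rg : Set ℂ)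
    (d0 mm dm ρ D : ℝ), Out S A A' o l0 P e L m Rg d0 mm ρ D → EnvM S m C4 c1 c2 K dm ρ D →
    ∀ d D0 C c : ℝ, d0 + 2 * mm ≤ d → 0 < d → ArmV S (ff S A) Rg d D0 C c → 1 ≤ C → 0 ≤ c →
    ∀ η, d ≤ η → η ≤ D0 → Cpl S A (Vin S P e) (Bl S (Vin S P e) L) η
      (8 * (C * 16 ^ c) * (d / η) ^ (c / 3) + C' * (ρ / D) ^ c') := by
  intro C4 hC4
  obtain ⟨C', c', c1, c2, K, hC', hc', hc1, hc1', hc2, hc2', hK, H⟩ := bde_pow C4 hC4
  refine ⟨C', c', c1, c2, K, hC', hc', hc1, hc1', hc2, hc2', hK, ?_⟩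
  intro S A A' o l0 P e L m Rg d0 mm dm ρ D hO E d D0 C c hdd hd hA hC hc η hη1 hη2 i
  have hM := hO.mk9 hK hc1' E
  have hD := detsS_root hO.rt hO.rt' hO.ng hO.lay hdd hd (D := D0)
  have hX' := hex_root hO.rt' hO.ng'
  have nr := nr_root hO.rt' hO.ng' hO.lay.vis
  have key := R10x930.r10_pr hO.rt.gp hO.hex hX' nr hO.lay.hs (fun w hw => hO.lay.reg hw) hd hη1
    hη2 hA hC hc hD hM i
  have h2 := H S m dm ρ D E (Vin S P e) (Finset.filter_subset _ _)
  have key' : pr (ff S A) (fun β => η < ‖hv S A i (β : Set ℂ) -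
      yV S (Vin S P e) (Bl S (Vin S P e) L) i ((β ∩ Vin S P e : Finset ℂ) : Set ℂ)‖) ≤
      8 * (C * 16 ^ c) * (d / η) ^ (c / 3) +
        pr (Vin S P e) (BdE S (Vin S P e) m dm ρ (Real.sqrt (ρ * D)) D) := by
    have e1 := hO.fv
    rw [e1] at key
    exact key
  linarith

/-! ### the interface with the class triple of `U_K` -/

open Crest.Agent.R143.ToolWx838 Crest.Agent.R143.Blkx838
open Crest.Agent.R143.Gatex838 (X Y)
open Crest.Agent.R143.TileRx228 (RR gz ge)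
open Crest.Agent.R143.Layx416 (g)
open Crest.Agent.R143.Neckx921 (Neck)
open Crest.Agent.R143.Locx922 (Hol)

/-- the gate `a` is over the coarse edge `k` (six tiles from its corners), between the mark gates
`g j` and `g (j + 1)` (three tiles from both) -/
def Use (Ai ei : ℤ → ℤ) (a k j : ℤ) : Prop :=
  (Ai k + 6 ≤ a ∧ a + 6 ≤ Ai (k + 1)) ∧ g Ai ei j + 3 ≤ a ∧ a + 3 ≤ g Ai ei (j + 1)

/-- the neck column in site language: a chain from `y` down to the level `b0`, in the window -/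
structure Col (S : Finset ℂ) (z0 u : ℂ) (a0 a1 b0 b1 m' : ℝ) (y : ℂ) (dn : List ℂ) : Prop where
  nd : dn ≠ []
  adj : ∀ p ∈ prs (y :: dn), DE S p.1 p.2
  win : ∀ s ∈ y :: dn, (a0 < X z0 u s ∧ X z0 u s < a1) ∧ b0 - m' ≤ Y z0 u s ∧ Y z0 u s ≤ b1 + m'
  bot : Y z0 u (dn.getLast nd) ≤ b0

/-- from 921's neck -/
theorem col_of_neck {V' β : Finset ℂ} {z0 u y : ℂ} {a0 a1 b0 b1 m' : ℝ} {up dn : List ℂ}
    (h : Neck S z0 u a0 a1 b0 b1 m' V' β up y dn) : Col S z0 u a0 a1 b0 b1 m' y dn where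
  nd := h.nd
  adj := fun p hp => by
    refine h.adj p ?_
    have : ∀ (l : List ℂ), p ∈ prs (l ++ y :: dn) := by
      intro l
      induction l with
      | nil => exact hp
      | cons a l ih =>
        cases l with
        | nil =>
          show p ∈ prs (a :: y :: dn)
          unfold prs
          exact List.mem_cons_of_mem _ ih
        | cons b l =>
          show p ∈ prs (a :: b :: (l ++ y :: dn))
          unfold prs
          exact List.mem_cons_of_mem _ ih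
    exact this up
  win := fun s hs => h.win s (List.mem_append_right _ hs)
  bot := h.bot

/-- **UKin** : what R10 needs from the class triple `A` of `U_K` at the label `i` of the white part.
`P` region of the polygon, `h` fine unit, `W` fine path of period `M` (clockwise, `P` on the right at
distance `h`), `Ai k` corner `k`, `g Ai ei j` gate of the mark `j`; the tiles of `[g j, g (j + 1))`
have the label `- j`. Window of the gates: `a0 < X < a1`, `b0 - m' ≤ Y ≤ b1 + m'`. -/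
structure UKin (S : Finset ℂ) (A : ZMod 3 → Set ℂ) (o : ℂ × ℂ × ℂ) (i : ZMod 3) (P : Set ℂ)
    (h A1 B1 w a0 a1 b0 b1 m' : ℝ) (W : ℤ → ℤ × ℤ) (Ai ei : ℤ → ℤ) : Prop where
  /-- disjoint, connected, root face `o`, the hull is in `A i` -/
  rt : TrR S o i A
  ng : NegO A o
  /-- no class site near the polygon -/
  far : ∀ l, ∀ s ∈ A l, ∀ z ∈ P, h / 2 ≤ ‖s - z‖
  /-- the sites at sup distance `> 2 h` from the polygon are in the white class (`OUTS`) -/
  outs : ∀ s ∈ S, (∀ z ∈ P, 2 * h < |(s - z).re| ∨ 2 * h < |(s - z).im|) → s ∈ A i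
  /-- the sites of the two other classes are in the tiles of their label, up to two tiles at the
  marks (`WT`) -/
  reg : ∀ l, l ≠ i → ∀ s ∈ A l, ∃ a j : ℤ, s ∈ RR A1 B1 h W a ∧ g Ai ei j ≤ a + 2 ∧
    a ≤ g Ai ei (j + 1) + 1 ∧ (-(j : ZMod 3)) = l
  /-- below the gates of the out tiles there is no class site down to the polygon (`LOW`) -/
  low : ∀ a k j : ℤ, Use Ai ei a k j → (-(j : ZMod 3)) ≠ i → ∀ l, ∀ s ∈ A l,
    |X (gz h W a) (ge W a) s| < w → -h ≤ Y (gz h W a) (ge W a) s →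
    b0 < Y (gz h W a) (ge W a) s
  /-- the necks of the out tiles (`DN`) -/
  nk : ∀ a k j : ℤ, Use Ai ei a k j → (-(j : ZMod 3)) ≠ i → ∃ y dn,
    Col S (gz h W a) (ge W a) a0 a1 b0 b1 m' y dn ∧ y ∈ A (-(j : ZMod 3)) ∧
      ∀ s ∈ dn, ∀ l, s ∉ A l

/-- numbers: window inside the strip of half width `w`, everything at distance `≥ h / 2` from the
polygon -/
structure Nw (h d w a0 a1 b0 b1 m' : ℝ) : Prop where
  d0 : 0 < d
  w0 : -w + 2 * d ≤ a0
  w1 : a1 + 2 * d ≤ w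
  wh : w ≤ h / 2
  bl : -(h / 2) + m' + 2 * d ≤ b0
  bu : b1 + m' ≤ h / 2
  b01 : b0 < b1
  m0 : 0 ≤ m'

end Crest.Agent.R143.R10Px923
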