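import Crest.Agent.R143.TlA_58
import Crest.Agent.R143.LayU_416
import Crest.Agent.R143.Cd6_806
import Crest.Agent.R143.MeasD_609

/-!
# Row 143 (S0194), RIG: geometry of the tiles of the touches (helper58)

* `mem_arcs` : every point of `u.P` off the open polygon is on an arc of `u`
* `hit_arc` : a site of `Bl S (Vin S u.P d) u.Lab i` is at distance `≤ 2 d` from the arc `i`
* `hit_tile` : and at distance `≤ 8 h + 2 d` from a gate of its own arc
* `ta_near`, `tb_near`, `ca_near`, `cb_near` : the tiles of `TlA_58` are within `8 h + 2 d` of the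
  hit vertex if there is exactly one hit
* `gate_idx`, `idx_near` : two indices whose gates are near are near
* `hol_Sw`, `Sw_Ap`, `mI_EV`, `DI_EV` : window `u.P`, 609's `DI`
-/

set_option autoImplicit false

noncomputable section

open scoped Classical

namespace Crest.Agent.R143.TlGx58

open MeasureTheory Set
open Crest.ProbabilityR.Voronoi
open Crest.Agent.R143.NetUx346 Crest.Agent.R143.NetVx346 Crest.Agent.R143.PolyUx346
open Crest.Agent.R143.TileRx228 Crest.Agent.R143.LayQx811 Crest.Agent.R143.Layx416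
open Crest.Agent.R143.LayUx416 Crest.Agent.R143.TlAx58
open Crest.Agent.R143.Brkx478 (Bk cells)
open Crest.Agent.R143.Locx922 (Hol)
open Crest.Agent.R143.LocUx700 (deep mem_Vin)
open Crest.Agent.R158.Tj656 (Om)
open Crest.Agent.R158.Sp896 (V pt ed)

/-! ### the boundary of the polygon is the union of the arcs -/

theorem exists_lab' (i : ZMod 3) : ∃ l : Fin 3, ((l : ℕ) : ZMod 3) = i := by
  revert i
  decide

theorem exists_lab (j : ℤ) : ∃ l : Fin 3, ((l : ℕ) : ZMod 3) = -(j : ZMod 3) := exists_lab' _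

theorem lab_inj {l l' : Fin 3} (h : ((l : ℕ) : ZMod 3) = ((l' : ℕ) : ZMod 3)) : l = l' := by
  revert l l'
  decide

/-- **every boundary point is on an arc** -/
theorem mem_arcs (u : Poly) {z : ℂ} (hz : z ∈ u.P) (hz' : z ∉ Om u.s (cells (u.U : Set Bk))) :
    ∃ l, z ∈ u.Arc l := by
  obtain ⟨M, p, W, A, e, H⟩ := exists_layU u (m := 10) le_rfl
  obtain ⟨x, hx⟩ := Cdx806.Pg_diff_Om u.s_pos u.cyc hz hz'
  obtain ⟨r1, r2⟩ := H.pv' x
  rw [ed, segment_symm, ← r1, ← r2, LayU.mem_seg] at hx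
  obtain ⟨t, t0, t1, rfl⟩ := hx
  set k : ℤ := -(x : ℤ) - 1 with hk
  obtain ⟨j, j1, j2⟩ := H.lay.ex (A k)
  have g1 := H.lay.g_mem j
  have g2 := H.lay.g_mem (j + 1)
  have c1 : e j < k := by
    by_contra hc
    have := H.lay.Amono.monotone (not_lt.1 hc)
    omega
  have c2 : k ≤ e (j + 1) := by
    by_contra hc
    have := H.lay.Amono.monotone (show e (j + 1) + 1 ≤ k by omega)
    omega
  by_cases c3 : k = e (j + 1) ∧ 1 / 2 ≤ t
  · obtain ⟨l, hl⟩ := exists_lab (j + 1)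
    have h3 := H.lay.elt (j + 1)
    exact ⟨l, (H.arc_iff hl _).2 ⟨k, t, ⟨t0, t1, by omega, by omega, fun _ => c3.2,
      fun h => by omega⟩, rfl⟩⟩
  · obtain ⟨l, hl⟩ := exists_lab j
    refine ⟨l, (H.arc_iff hl _).2 ⟨k, t, ⟨t0, t1, by omega, c2, fun h => by omega, fun h => ?_⟩,
      rfl⟩⟩
    by_contra hc
    exact c3 ⟨h, (not_le.1 hc).le⟩

/-! ### the hit vertices are near their arc -/

variable {u : Poly} {S : Finset ℂ} {d h : ℝ} {i w : ZMod 3} {x : ℂ}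

/-- **a labelled site next to the free sites is near its arc** -/
theorem hit_arc (hd : 0 < d) (hH : Hol (S : Set ℂ) (deep u.P d) d)
    (hx : x ∈ NetVx346.Bl S (Vin S u.P d) u.Lab i) {l : Fin 3} (hl : ((l : ℕ) : ZMod 3) = i) :
    Metric.infDist x (u.Arc l) ≤ 2 * d := by
  have hb := hx
  rw [LocUx700.bl_eq] at hb
  have hxP : x ∈ u.P := LocUx700.bd_Vin hd hH hb.1
  obtain ⟨h1, h2, -, h4⟩ := hx
  have h3 : ¬ Metric.closedBall x (2 * d) ⊆ u.P := fun hc => h2 (mem_Vin.2 ⟨h1, hc⟩)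
  obtain ⟨y, hy, hyP⟩ := Set.not_subset.1 h3
  obtain ⟨z, z1, z2, z3, -⟩ := Cdx806.seg_front u.s_pos (F := cells (u.U : Set Bk)) hxP hyP
  obtain ⟨l', hl'⟩ := mem_arcs u z1 z2
  obtain ⟨j, j1, j2, -⟩ := Poly.near_lab (u := u) x
  have hjl : j = l := lab_inj (by rw [hl, ← h4, j2])
  subst hjl
  refine (j1 l').trans ((Metric.infDist_le_dist_of_mem hl').trans ?_)
  rw [dist_comm]
  exact z3.trans (Metric.mem_closedBall.1 hy)

theorem arc_nonempty (u : Poly) (l : Fin 3) : (u.Arc l).Nonempty :=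
  ⟨u.mid (u.k l), Or.inl (Or.inl (left_mem_segment ℝ _ _))⟩

theorem gz_cen {W : ℤ → ℤ × ℤ} {M : ℕ} (hW : FPath M W) (hh : 0 ≤ h) (a : ℤ) :
    dist (gz h W a) (cen h W a) ≤ h / 2 := by
  have e : gz h W a - cen h W a = -((h / 2 : ℝ) : ℂ) * cz (W a - W (a - 1)) := by
    unfold gz cen
    rw [LayQx811.cz_sub]
    push_cast
    ring
  have hs := hW.step (a - 1)
  rw [sub_add_cancel] at hs
  have hn : ‖cz (W a - W (a - 1))‖ = 1 := by
    rcases hs with hs | hs | hs | hs <;> rw [hs] <;> unfold cz <;>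
      simp [Complex.norm_def, Complex.normSq]
  rw [dist_eq_norm, e, norm_mul, norm_neg, Complex.norm_real, Real.norm_of_nonneg (by linarith), hn,
    mul_one]

theorem norm_le_of {z : ℂ} {c : ℝ} (h1 : |z.re| ≤ 9 / 2 * c) (h2 : |z.im| ≤ 9 / 2 * c) :
    ‖z‖ ≤ 13 / 2 * c := by
  have hc : 0 ≤ c := by
    have := (abs_nonneg _).trans h1
    linarith
  have h3 : ‖z‖ ^ 2 = z.re ^ 2 + z.im ^ 2 := by
    rw [← Complex.normSq_eq_norm_sq, Complex.normSq_apply]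
    ring
  have h4 : z.re ^ 2 ≤ (9 / 2 * c) ^ 2 := sq_le_sq' (abs_le.1 h1).1 (abs_le.1 h1).2
  have h5 : z.im ^ 2 ≤ (9 / 2 * c) ^ 2 := sq_le_sq' (abs_le.1 h2).1 (abs_le.1 h2).2
  have h6 := norm_nonneg z
  nlinarith

section lay

variable {m M : ℕ} {p W : ℤ → ℤ × ℤ} {A e : ℤ → ℤ}

/-- **a point near an arc is near a gate of this arc** -/
theorem arc_gate (H : LayU u m M p W A e) (hh : (m : ℝ) * h = u.s) {j : ℤ} {l : Fin 3}
    (hl : ((l : ℕ) : ZMod 3) = -(j : ZMod 3)) {ρ : ℝ} (hx : Metric.infDist x (u.Arc l) ≤ ρ) :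
    ∃ a, g A e j ≤ a ∧ a ≤ g A e (j + 1) ∧ dist (gz h W a) x ≤ 8 * h + ρ := by
  have h0 := H.h_pos hh
  obtain ⟨y, hy, hxy⟩ := (Metric.infDist_lt_iff (arc_nonempty u l)).1
    (lt_of_le_of_lt hx (show ρ < ρ + h by linarith))
  obtain ⟨a, a1, a2, a3, a4⟩ := H.arc_tile hh hl hy
  refine ⟨a, a1, a2, ?_⟩
  have h1 := gz_cen H.lay.fp h0.le a
  have h2 : dist (cen h W a) y ≤ 13 / 2 * h := by
    rw [dist_eq_norm]
    exact norm_le_of (by rw [Complex.sub_re]; exact a3) (by rw [Complex.sub_im]; exact a4)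
  have h3 := dist_triangle (gz h W a) (cen h W a) x
  have h4 := dist_triangle (cen h W a) y x
  rw [dist_comm y x] at h4
  linarith

/-- **the hit vertex is near a gate of its own arc** -/
theorem hit_tile (H : LayU u m M p W A e) (hh : (m : ℝ) * h = u.s) (hd : 0 < d)
    (hH : Hol (S : Set ℂ) (deep u.P d) d) {j : ℤ}
    (hx : x ∈ NetVx346.Bl S (Vin S u.P d) u.Lab (-(j : ZMod 3))) :
    ∃ a, g A e j ≤ a ∧ a ≤ g A e (j + 1) ∧ dist (gz h W a) x ≤ 8 * h + 2 * d := by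
  obtain ⟨l, hl⟩ := exists_lab j
  exact arc_gate H hh hl (hit_arc hd hH hx hl)

theorem lab1 (w : ZMod 3) : (-((jj w + 1 : ℤ) : ZMod 3)) = w + 2 := by
  rw [Int.cast_add, neg_add, jj_lab]
  rfl

theorem lab2 (w : ZMod 3) : (-((jj w + 2 : ℤ) : ZMod 3)) = w + 1 := by
  rw [Int.cast_add, neg_add, jj_lab]
  rfl

/-- the tile of a hit vertex of label `w + 2` -/
theorem tl_near1 (H : LayU u m M p W A e) (hh : (m : ℝ) * h = u.s) (hd : 0 < d)
    (hH : Hol (S : Set ℂ) (deep u.P d) d)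
    (hx : x ∈ NetVx346.Bl S (Vin S u.P d) u.Lab (w + 2)) :
    dist (gt h W A e w (tlz (gt h W A e w) 0 (rr A e w) x)) x ≤ 8 * h + 2 * d := by
  rw [← lab1 w] at hx
  obtain ⟨a, a1, a2, a3⟩ := hit_tile H hh hd hH hx
  rw [show jj w + 1 + 1 = jj w + 2 by ring] at a2
  have h1 := H.lay.rr_eq w
  have ha1 : al A e w ≤ a := a1
  have ha2 : a ≤ mi A e w := a2
  obtain ⟨k, hk⟩ : ∃ k : ℕ, a = al A e w + k := ⟨(a - al A e w).toNat, by omega⟩
  refine (dist_tlz (gt h W A e w) x (b := k) (Nat.zero_le _) (by omega)).trans ?_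
  unfold gt
  rw [← hk]
  exact a3

/-- the tile of a hit vertex of label `w + 1` -/
theorem tl_near2 (H : LayU u m M p W A e) (hh : (m : ℝ) * h = u.s) (hd : 0 < d)
    (hH : Hol (S : Set ℂ) (deep u.P d) d)
    (hx : x ∈ NetVx346.Bl S (Vin S u.P d) u.Lab (w + 1)) :
    dist (gt h W A e w (tlz (gt h W A e w) (rr A e w) (nn A e w) x)) x ≤ 8 * h + 2 * d := by
  rw [← lab2 w] at hx
  obtain ⟨a, a1, a2, a3⟩ := hit_tile H hh hd hH hx
  rw [show jj w + 2 + 1 = jj w + 3 by ring] at a2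
  have h1 := H.lay.rr_eq w
  have h2 := H.lay.nn_eq w
  have ha1 : mi A e w ≤ a := a1
  have ha2 : a ≤ be A e w := a2
  obtain ⟨k, hk⟩ : ∃ k : ℕ, a = al A e w + k := ⟨(a - al A e w).toNat, by omega⟩
  refine (dist_tlz (gt h W A e w) x (b := k) (by omega) (by omega)).trans ?_
  unfold gt
  rw [← hk]
  exact a3

/-! ### the functionals -/

theorem zV_one {S V : Finset ℂ} {B : ZMod 3 → Set ℂ} {i : ZMod 3} {T : Set ℂ}
    (h1 : (hitsV S V B i T).card = 1) : ∃ x ∈ B i, ∀ z : ℂ → ℂ, zV S V B i T z = z x := by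
  obtain ⟨t, ht⟩ := Finset.card_eq_one.1 h1
  have h2 : t ∈ hitsV S V B i T := by rw [ht]; exact Finset.mem_singleton_self t
  refine ⟨t.1, (mem_hitsV.1 h2).2.1, fun z => ?_⟩
  unfold zV
  rw [if_pos h1, ht, Finset.sum_singleton]

/-- density is inherited by the sites of a window which contains `P` -/
theorem hol_Sw {P Wd : Set ℂ} (hPW : P ⊆ Wd) (hH : Hol (S : Set ℂ) (deep P d) d) :
    Hol (Sw Wd S : Set ℂ) (deep P d) d := by
  intro v hv z hz
  obtain ⟨s, hs, hsz⟩ := hH v hv z hz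
  refine ⟨s, ?_, hsz⟩
  rw [Finset.mem_coe, Sw, Finset.mem_filter]
  refine ⟨hs, hPW (hv ?_)⟩
  rw [Metric.mem_closedBall, dist_eq_norm]
  have : s - v = (s - z) + (z - v) := by ring
  rw [this]
  refine (norm_add_le _ _).trans ?_
  linarith

variable {Wd : Set ℂ} {T : Finset ℂ}

/-- **the tile of the touch on `w + 2`** -/
theorem ca_near (H : LayU u m M p W A e) (hh : (m : ℝ) * h = u.s) (hd : 0 < d)
    (hPW : u.P ⊆ Wd) (hH : Hol (S : Set ℂ) (deep u.P d) d)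
    (h1 : (hitsV (Sw Wd S) (Vw u d Wd S) (Bw u d Wd S) (w + 2)
      ((Vw u d Wd S \ T : Finset ℂ) : Set ℂ)).card = 1) :
    ‖Dispx798.yV (Sw Wd S) (Vw u d Wd S) (Bw u d Wd S) w T -
      gt h W A e w (ca u d h Wd S W A e w T)‖ ≤ 8 * h + 2 * d := by
  obtain ⟨x, hx, hz⟩ := zV_one h1
  have e1 : Dispx798.yV (Sw Wd S) (Vw u d Wd S) (Bw u d Wd S) w T = x := hz id
  have h2 := tl_near1 (S := Sw Wd S) H hh hd (hol_Sw hPW hH) hx
  unfold ca
  rw [e1, ← dist_eq_norm, dist_comm]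
  exact h2

/-- **the tile of the touch on `w + 1`** -/
theorem cb_near (H : LayU u m M p W A e) (hh : (m : ℝ) * h = u.s) (hd : 0 < d)
    (hPW : u.P ⊆ Wd) (hH : Hol (S : Set ℂ) (deep u.P d) d)
    (h1 : (hitsV (Sw Wd S) (Vw u d Wd S) (Bw u d Wd S) (w + 1) (T : Set ℂ)).card = 1) :
    ‖Dispx798.xV (Sw Wd S) (Vw u d Wd S) (Bw u d Wd S) w T -
      gt h W A e w (cb u d h Wd S W A e w T)‖ ≤ 8 * h + 2 * d := by
  obtain ⟨x, hx, hz⟩ := zV_one h1
  have e1 : Dispx798.xV (Sw Wd S) (Vw u d Wd S) (Bw u d Wd S) w T = x := hz id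
  have h2 := tl_near2 (S := Sw Wd S) H hh hd (hol_Sw hPW hH) hx
  unfold cb
  rw [e1, ← dist_eq_norm, dist_comm]
  exact h2

theorem ca_le_cb {n : ℕ} {m' : ℤ} (H : Lay n M m' p W A e) (w : ZMod 3) (T : Finset ℂ) :
    ca u d h Wd S W A e w T ≤ rr A e w ∧ rr A e w ≤ cb u d h Wd S W A e w T ∧
      cb u d h Wd S W A e w T ≤ nn A e w :=
  ⟨tlz_le _ (Nat.zero_le _) _, le_tlz _ (rr_le_nn w H) _, tlz_le _ (rr_le_nn w H) _⟩

end lay

/-! ### near gates have near indices -/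

section idx

variable {n M : ℕ} {m : ℤ} {p W : ℤ → ℤ × ℤ} {A e : ℤ → ℤ}

theorem gz_re (h : ℝ) (W : ℤ → ℤ × ℤ) (a : ℤ) :
    (gz h W a).re = h * (W a).1 - h / 2 * ((W a).1 - (W (a - 1)).1) := by
  unfold gz cz
  simp [Complex.mul_re, Complex.add_re, Complex.add_im]
  ring

theorem gz_im (h : ℝ) (W : ℤ → ℤ × ℤ) (a : ℤ) :
    (gz h W a).im = h * (W a).2 - h / 2 * ((W a).2 - (W (a - 1)).2) := by
  unfold gz cz
  simp [Complex.mul_im, Complex.add_re, Complex.add_im]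
  ring

/-- near gates, near vertices -/
theorem sd2_gz (hW : FPath M W) (hh : 0 < h) {r a b : ℤ}
    (hr : dist (gz h W a) (gz h W b) < r * h) : sd2 (W a) (W b) ≤ r := by
  have st : ∀ a : ℤ, |((W a).1 : ℝ) - (W (a - 1)).1| ≤ 1 ∧ |((W a).2 : ℝ) - (W (a - 1)).2| ≤ 1 := by
    intro a
    have hs := hW.step (a - 1)
    rw [sub_add_cancel] at hs
    have h1 := Seg.u4_abs hs
    simp only [Prod.fst_sub, Prod.snd_sub] at h1
    exact ⟨by exact_mod_cast h1.1, by exact_mod_cast h1.2⟩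
  obtain ⟨a1, a2⟩ := st a
  obtain ⟨b1, b2⟩ := st b
  rw [dist_eq_norm] at hr
  have hre := (Complex.abs_re_le_norm (gz h W a - gz h W b)).trans_lt hr
  have him := (Complex.abs_im_le_norm (gz h W a - gz h W b)).trans_lt hr
  rw [Complex.sub_re, gz_re, gz_re] at hre
  rw [Complex.sub_im, gz_im, gz_im] at him
  have key : ∀ (x y x' y' : ℤ), |(x : ℝ) - x'| ≤ 1 → |(y : ℝ) - y'| ≤ 1 →
      |h * x - h / 2 * (x - x') - (h * y - h / 2 * (y - y'))| < r * h → |x - y| ≤ r := by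
    intro x y x' y' h1 h2 h3
    have h4 : |(x : ℝ) - y| * h < (r + 1) * h := by
      have e1 : ((x : ℝ) - y) * h = (h * x - h / 2 * (x - x') - (h * y - h / 2 * (y - y'))) +
          (h / 2 * (x - x') - h / 2 * (y - y')) := by ring
      have e2 : |((x : ℝ) - y) * h| = |(x : ℝ) - y| * h := by rw [abs_mul, abs_of_pos hh]
      rw [← e2, e1]
      refine (abs_add_le _ _).trans_lt ?_
      have h5 : |h / 2 * ((x : ℝ) - x') - h / 2 * (y - y')| ≤ h := by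
        refine (abs_sub _ _).trans ?_
        rw [abs_mul, abs_mul, abs_of_pos (show 0 < h / 2 by linarith)]
        nlinarith
      linarith
    have h5 : |(x : ℝ) - y| < r + 1 := lt_of_mul_lt_mul_right h4 hh.le
    have h6 : |x - y| < r + 1 := by exact_mod_cast h5
    omega
  exact sd2_le.2 ⟨key _ _ _ _ a1 b1 hre, key _ _ _ _ a2 b2 him⟩

/-- **near gates of a corridor have near indices** -/
theorem gate_idx (H : Lay n M m p W A e) (hh : 0 < h) (w : ZMod 3) {k l : ℕ}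
    (hk : k ≤ nn A e w) (hl : l ≤ nn A e w) {r : ℤ} (hr0 : 0 ≤ r) (hr : 2 * r + 4 ≤ m)
    (hr7 : r + 7 ≤ m) (hd : dist (gt h W A e w k) (gt h W A e w l) < r * h) :
    |(k : ℤ) - l| ≤ 2 * r := by
  have h1 := H.nn_eq w
  have h2 := H.quasi_cor w hr hr7 hr0 (sd2_gz H.fp hh hd) (by omega) (by omega) (by omega)
    (by omega)
  rwa [show al A e w + (k : ℤ) - (al A e w + l) = k - l by ring] at h2

/-- **comparison of two touches**: gate `k` near `v`, gate `l` near `v'`, `v` near `v'` -/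
theorem idx_near (H : Lay n M m p W A e) (hh : 0 < h) (w : ZMod 3) {k l : ℕ}
    (hk : k ≤ nn A e w) (hl : l ≤ nn A e w) {v v' : ℂ} {ρ ρ' e0 : ℝ}
    (h1 : dist (gt h W A e w k) v ≤ ρ) (h2 : dist (gt h W A e w l) v' ≤ ρ') (h3 : dist v v' ≤ e0)
    {r : ℤ} (hr0 : 0 ≤ r) (hr : 2 * r + 4 ≤ m) (hr7 : r + 7 ≤ m) (hd : ρ + ρ' + e0 < r * h) :
    |(k : ℤ) - l| ≤ 2 * r := by
  refine gate_idx H hh w hk hl hr0 hr hr7 (lt_of_le_of_lt ?_ hd)
  have h4 := dist_triangle (gt h W A e w k) v (gt h W A e w l)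
  have h5 := dist_triangle v v' (gt h W A e w l)
  rw [dist_comm v' _] at h5
  linarith

/-- the same with `ℕ` inequalities -/
theorem idx_near' (H : Lay n M m p W A e) (hh : 0 < h) (w : ZMod 3) {k l : ℕ}
    (hk : k ≤ nn A e w) (hl : l ≤ nn A e w) {v v' : ℂ} {ρ ρ' e0 : ℝ}
    (h1 : dist (gt h W A e w k) v ≤ ρ) (h2 : dist (gt h W A e w l) v' ≤ ρ') (h3 : dist v v' ≤ e0)
    {r : ℕ} (hr : 2 * (r : ℤ) + 4 ≤ m) (hr7 : (r : ℤ) + 7 ≤ m) (hd : ρ + ρ' + e0 < r * h) :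
    k ≤ l + 2 * r ∧ l ≤ k + 2 * r := by
  have h4 := idx_near H hh w hk hl h1 h2 h3 (r := r) (by omega) hr hr7 (by exact_mod_cast hd)
  rw [abs_le] at h4
  omega

end idx

/-! ### the sites of the sample -/

section sample

variable {ε : ℝ} {ω : Sample} {Wd : Set ℂ}

/-- the sites of the window -/
theorem Sw_Ap (hε : 0 < ε) (hb : Bornology.IsBounded Wd)
    (hS : (S : Set ℂ) ⊆ points ε ω ∧ points ε ω ∩ Wd ⊆ S) : Sw Wd S = Dbl2x609.Ap ε Wd ω := by
  rw [← Finset.coe_inj, Dbl2x609.coe_Ap hε hb]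
  ext x
  rw [Finset.mem_coe, Sw, Finset.mem_filter]
  constructor
  · rintro ⟨h1, h2⟩
    exact ⟨hS.1 h1, h2⟩
  · rintro ⟨h1, h2⟩
    exact ⟨hS.2 ⟨h1, h2⟩, h2⟩

/-- **609's mean end point of the points in `u.P` is 798's `EV`** -/
theorem mI_EV (hε : 0 < ε) (u : Poly) (hS : (S : Set ℂ) ⊆ points ε ω ∧ points ε ω ∩ u.P ⊆ S)
    (i : ZMod 3) (z : ℂ → ℂ) : MeasDx609.mI u ε i z ω =
      Dispx798.EV (Sw u.P S) (Vw u √ε u.P S) (Bw u √ε u.P S) z i := by
  unfold Bw Vw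
  rw [Sw_Ap hε (MeasPx609.isCompact_P u).isBounded hS]
  rfl

/-- **609's displacement** -/
theorem DI_EV (hε : 0 < ε) (u : Poly) (hS : (S : Set ℂ) ⊆ points ε ω ∧ points ε ω ∩ u.P ⊆ S)
    (w : ZMod 3) : MeasDx609.DI u ε ω w =
      -(Dispx798.EV (Sw u.P S) (Vw u √ε u.P S) (Bw u √ε u.P S) id (w + 1) -
        Dispx798.EV (Sw u.P S) (Vw u √ε u.P S) (Bw u √ε u.P S) id (w + 2)) := by
  unfold MeasDx609.DI
  rw [mI_EV hε u hS, mI_EV hε u hS]
  ring

end sample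

end Crest.Agent.R143.TlGx58
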