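import Crest.Agent.R143.SysD_166
import Crest.Agent.R143.TlR_709
import Crest.Agent.R143.TlG_58

/-!
# Row 143 (S0194), RIG, field `hθ` of `Quen`, half (A): index and geometry (helper737)

* `Sys.hit_cell` : the hits of the giants `gA k` are cells of the strand, within one arc of the
  touches `ka`, `kb`
* `site_gate` : the site of a cell with a tile `B j` is near the gate `j`
* `Bd` : bad pairs of colourings: hit sites of the strand and of the polygon further than `e0`, or a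
  hit of the polygon which is not unique
* **`far_zero`** : no bad pair ⟹ `far (2 r + 2) ka kb (n - tb) (n - ta) = 0`
* **`near`** : `av (Bd) ≤ θ` ⟹ `av (far (2 r + 2) ka kb (n - tb) (n - ta)) ≤ θ`
* `near_pr`, `pr_side` : probabilities in the free sites of the polygon
-/

set_option autoImplicit false
set_option linter.unusedSectionVars false

noncomputable section

open scoped Classical

namespace Crest.Agent.R143.NearGx737

open Crest.Agent.R143.Frame1x395 Crest.Agent.R143.Frame2x395 Crest.Agent.R143.Frame3x395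
  Crest.Agent.R143.Frame4x395 Crest.Agent.R143.Frame8x395 Crest.Agent.R143.Frame9x395
  Crest.Agent.R143.Frame10x395 Crest.Agent.R143.NonXx592 Crest.Agent.R143.Coarsex166
  Crest.Agent.R143.Coarse2x166
  Crest.Agent.R143.R5bx166 Crest.Agent.R143.R5qx166 Crest.Agent.R143.QuSx166
  Crest.Agent.R143.OutSx358 Crest.Agent.R143.SysCx166
open C2SBx395 (yv)
open Resax778 (mix)

/-! ### the hits are cells of the strand -/

section sys

variable {D C ι : Type} [Fintype D] [Fintype C] {M : CMap D C} {H R : Set C} {Q : Set D}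
  {pa : ι → (C → ZMod 2) → D} {na : ι → (C → ZMod 2) → ℕ} {Ev : ι → (C → ZMod 2) → Prop}
  {σ : C → ZMod 2} {nn m : ℕ} {F : ℕ → Set D} {tl : C → ℕ}

/-- **the hits of `gA k` are cells of the strand near the touches** -/
theorem _root_.Crest.Agent.R143.OutSx358.Sys.hit_cell (S : Sys M H R Q pa na Ev)
    (hx : Hx M pa na Ev nn m F tl σ) (hnn : 0 < nn) {i0 : ι} (hi : Ev i0 σ) {Pp : C → Prop}
    (hP : ∀ u ≤ na i0 σ, Pp (M.cell (P M (cfg M σ) (pa i0 σ) u))) (τ : C → ZMod 2)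
    (k : ZMod 3) :
    (∃ c, Pp c ∧ (∀ {E : Type} [Zero E] (z : C → E),
        yv M (gA M H R Q pa na Ev k σ) k {c | mx M H R pa na Ev σ τ c = 1} z = z c) ∧
      ka M H R Q pa na Ev nn m F tl σ τ ≤ tl c + 1 ∧
        tl c ≤ ka M H R Q pa na Ev nn m F tl σ τ + 1) ∧
    ∃ c, Pp c ∧ (∀ {E : Type} [Zero E] (z : C → E),
        yv M (gA M H R Q pa na Ev k σ) (k + 1) {c | mx M H R pa na Ev σ τ c = 1}ᶜ z = z c) ∧
      kb M H R Q pa na Ev nn m F tl σ τ ≤ tl c + 1 ∧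
        tl c ≤ kb M H R Q pa na Ev nn m F tl σ τ + 1 := by
  have hspec := hx.choose_spec
  set x := hx.choose with hxdef
  have e1 : ka M H R Q pa na Ev nn m F tl σ τ =
      kaT M (mx M H R pa na Ev σ τ) (pa x.1 σ) (na x.1 σ) (rt M Q pa na x.1 σ) x.2 nn := by
    unfold ka
    rw [dif_pos hx]
  have e2 : kb M H R Q pa na Ev nn m F tl σ τ =
      kbT M (mx M H R pa na Ev σ τ) (pa x.1 σ) (na x.1 σ) (rt M Q pa na x.1 σ) x.2 nn := by
    unfold kb
    rw [dif_pos hx]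
  obtain ⟨hEv, h0, hn, hReg, htl⟩ := hspec
  obtain ⟨u1, u2⟩ := S.uni x.1 i0 σ hEv hi
  obtain ⟨g1, g2⟩ := S.hE (τ := τ) hEv
  have X := S.ex hEv
  have mono : ∀ j, j < nn → x.2 j ≤ x.2 (j + 1) := fun j hj => hReg.mono j (Nat.zero_le j) hj
  obtain ⟨c1, c2, c3, c4, c5, c6⟩ := X.touch h0 hn hnn g1 mono
  obtain ⟨t1, t2, t3⟩ := X.tA_spec g1
  have hr : rt M Q pa na x.1 σ ≤ na x.1 σ := by omega
  have f1 := htl _ (by omega) _ c3 c4
  have f2 := htl _ c2 _ c5 c6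
  rw [S.gA_eq k hEv, e1, e2]
  refine ⟨⟨_, ?_, fun z => (X.yv_eq (QuFx778.cq (X.gi (i := k))) g1 z).1, f1.1, f1.2⟩,
    _, ?_, fun z => (X.yv_eq (QuFx778.cq (X.gi (i := k))) g1 z).2, f2.1, f2.2⟩
  · rw [u1]
    refine hP _ ?_
    rw [← u2, ← u1]
    exact t3.trans hr
  · rw [u1]
    refine hP _ ?_
    rw [← u2, ← u1]
    exact t2

end sys

/-! ### the touches of the strand and of the polygon -/

section rc

open Crest.Agent.R143.B0x346 Crest.Agent.R143.FinCx811 Crest.Agent.R143.DelGx806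
  Crest.Agent.R143.SmallAx304 Crest.Agent.R143.CorMx970 Crest.Agent.R143.Freshx829
  Crest.Agent.R143.PolyUx346 Crest.Agent.R143.NetVx346 Crest.Agent.R143.TlAx58
  Crest.Agent.R143.Layx416 Crest.Agent.R143.LayUx416 Crest.Agent.R143.TlGx58
open Crest.Agent.R143.TileRx228 (FPath RR)
open Crest.Agent.R143.IndLoc3x279 (clr)
open Crest.Agent.R143.Locx922 (Hol)
open Crest.Agent.R143.LocUx700 (deep)

variable {S : Finset ℂ} (hS : GP (S : Set ℂ)) (h3 : 3 ≤ S.card)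
  (H R : Set (Cs hS)) (Q : Set (D0 S)) {ι : Type} (pa : ι → (Cs hS → ZMod 2) → D0 S)
  (na : ι → (Cs hS → ZMod 2) → ℕ) (Ev : ι → (Cs hS → ZMod 2) → Prop) (k : ZMod 3)

/-- site of the hit of `gA k` in the mixed colouring -/
def sA (σ τ : Cs hS → ZMod 2) : ℂ :=
  yv (rc0 hS) (gA (rc0 hS) H R Q pa na Ev k σ) k
    {c | mx (rc0 hS) H R pa na Ev σ τ c = 1} (rep hS)

/-- site of the hit of `gA (k + 1)` in the mixed colouring, complementary colours -/
def sB (σ τ : Cs hS → ZMod 2) : ℂ :=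
  yv (rc0 hS) (gA (rc0 hS) H R Q pa na Ev k σ) (k + 1)
    {c | mx (rc0 hS) H R pa na Ev σ τ c = 1}ᶜ (rep hS)

/-- **bad pairs of colourings**: `x` = hit of the polygon on `w + 1` in the colours `τ`, `y` = hit on
`w + 2` in the complementary colours -/
def Bd (u : Poly) (d : ℝ) (Wd : Set ℂ) (w : ZMod 3) (e0 : ℝ) (σ τ : Finset ℂ) : Prop :=
  ¬ ((hitsV (Sw Wd S) (Vw u d Wd S) (Bw u d Wd S) (w + 1)
        ((τ ∩ Vw u d Wd S : Finset ℂ) : Set ℂ)).card = 1 ∧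
      (hitsV (Sw Wd S) (Vw u d Wd S) (Bw u d Wd S) (w + 2)
        ((Vw u d Wd S \ (τ ∩ Vw u d Wd S) : Finset ℂ) : Set ℂ)).card = 1 ∧
      ‖sA hS H R Q pa na Ev k (chiS hS h3 σ) (chiS hS h3 τ) -
        Dispx798.xV (Sw Wd S) (Vw u d Wd S) (Bw u d Wd S) w (τ ∩ Vw u d Wd S)‖ ≤ e0 ∧
      ‖sB hS H R Q pa na Ev k (chiS hS h3 σ) (chiS hS h3 τ) -
        Dispx798.yV (Sw Wd S) (Vw u d Wd S) (Bw u d Wd S) w (τ ∩ Vw u d Wd S)‖ ≤ e0)

variable {H R Q pa na Ev k}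

variable {u : Poly} {m M n : ℕ} {p W : ℤ → ℤ × ℤ} {A e : ℤ → ℤ} {h d e0 ρ0 : ℝ} {w : ZMod 3}
  {Wd : Set ℂ} {B : ℕ → Set ℂ} {m' : ℕ} {F : ℕ → Set (D0 S)}

/-- the site of a cell with a tile is near the gate of the tile -/
theorem site_gate (hB : ∀ j < n, ∀ v ∈ B j, dist (gt h W A e w j) v ≤ ρ0) {c : Cs hS}
    (hc : ∃ j < n, rep hS c ∈ B (n - 1 - j)) :
    TlRx709.tl hS B n c < n ∧
      dist (gt h W A e w (n - 1 - TlRx709.tl hS B n c)) (rep hS c) ≤ ρ0 := by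
  obtain ⟨j, h1, h2⟩ := hc
  obtain ⟨h4, h5⟩ := TlRx709.tl_spec h1 h2
  exact ⟨h4, hB _ (by omega) _ h5⟩

/-- the same for the arms of 228 -/
theorem rr_hB {A' B' : ℝ} (hW : FPath M W) (hh : 0 ≤ h) (hA : 0 ≤ A') (hB : 0 ≤ B') (n : ℕ) :
    ∀ j < n, ∀ v ∈ RR A' B' h W (al A e w + (j : ℕ)),
      dist (gt h W A e w j) v ≤ A' + B' + A' + h / 2 := fun _ _ _ hv =>
  (TlRx709.rr_gate hW hh hA hB hv).1

/-- **a good pair of colourings**: the touches of the strand are the touches of the polygon up to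
`2 r + 2` -/
theorem far_zero (Y : Sys (rc0 hS) H R Q pa na Ev) (HL : LayU u m M p W A e)
    (hh : (m : ℝ) * h = u.s) (hd : 0 < d) (hPW : u.P ⊆ Wd)
    (hH : Hol (S : Set ℂ) (deep u.P d) d)
    (hB : ∀ j < nn A e w, ∀ v ∈ B j, dist (gt h W A e w j) v ≤ ρ0)
    {r : ℕ} (hr : 2 * (r : ℤ) + 4 ≤ m) (hr7 : (r : ℤ) + 7 ≤ m)
    (hρ : ρ0 + (8 * h + 2 * d) + e0 < r * h) {σ τ : Finset ℂ}
    (hx : Hx (rc0 hS) pa na Ev (nn A e w) m' F (TlRx709.tl hS B (nn A e w)) (chiS hS h3 σ))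
    (hs : ∃ i, Ev i (chiS hS h3 σ) ∧ ∀ t ≤ na i (chiS hS h3 σ), ∃ j < nn A e w,
      rep hS ((rc0 hS).cell (P (rc0 hS) (cfg (rc0 hS) (chiS hS h3 σ)) (pa i (chiS hS h3 σ)) t)) ∈
        B (nn A e w - 1 - j))
    (hτ : τ ⊆ S) (hb : ¬ Bd hS h3 H R Q pa na Ev k u d Wd w e0 σ τ) :
    far (2 * r + 2)
      (fun σ τ => ka (rc0 hS) H R Q pa na Ev (nn A e w) m' F (TlRx709.tl hS B (nn A e w))
        (chiS hS h3 σ) (chiS hS h3 τ))
      (fun σ τ => kb (rc0 hS) H R Q pa na Ev (nn A e w) m' F (TlRx709.tl hS B (nn A e w))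
        (chiS hS h3 σ) (chiS hS h3 τ))
      (fun τ => nn A e w - tb u d h Wd W A e w (clr S τ))
      (fun τ => nn A e w - ta u d h Wd W A e w (clr S τ)) σ τ = 0 := by
  have h0 := HL.h_pos hh
  have hnn : 0 < nn A e w := by
    have := HL.lay.rr_lt w
    omega
  obtain ⟨i, hi, hi2⟩ := hs
  unfold Bd at hb
  rw [not_not] at hb
  obtain ⟨b1, b2, b3, b4⟩ := hb
  obtain ⟨⟨c1, p1, y1, a1, a2⟩, c2, p2, y2, a3, a4⟩ := Y.hit_cell hx hnn hi
    (Pp := fun c => ∃ j < nn A e w, rep hS c ∈ B (nn A e w - 1 - j)) hi2 (chiS hS h3 τ) k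
  obtain ⟨q1, q2⟩ := site_gate hS hB p1
  obtain ⟨q3, q4⟩ := site_gate hS hB p2
  have e1 : sA hS H R Q pa na Ev k (chiS hS h3 σ) (chiS hS h3 τ) = rep hS c1 := y1 _
  have e2 : sB hS H R Q pa na Ev k (chiS hS h3 σ) (chiS hS h3 τ) = rep hS c2 := y2 _
  rw [e1] at b3
  rw [e2] at b4
  have n1 := cb_near HL hh hd hPW hH b1
  have n2 := ca_near HL hh hd hPW hH b2
  obtain ⟨l1, l2, l3⟩ := ca_le_cb (u := u) (d := d) (h := h) (Wd := Wd) (S := S) HL.lay w
    (τ ∩ Vw u d Wd S)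
  rw [← dist_eq_norm, dist_comm] at n1 n2
  rw [← dist_eq_norm] at b3 b4
  have i1 := idx_near' HL.lay h0 w (k := nn A e w - 1 - TlRx709.tl hS B (nn A e w) c1) (by omega) l3
    q2 n1 b3 hr hr7 hρ
  have i2 := idx_near' HL.lay h0 w (k := nn A e w - 1 - TlRx709.tl hS B (nn A e w) c2) (by omega)
    (l1.trans (l2.trans l3)) q4 n2 b4 hr hr7 hρ
  unfold far
  beta_reduce
  rw [ta_clr w, tb_clr w hτ, if_pos]
  omega

/-- **field `hθ` of `Quen`** (order of the time), from the probability of the bad pairs -/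
theorem near (Y : Sys (rc0 hS) H R Q pa na Ev) (HL : LayU u m M p W A e)
    (hh : (m : ℝ) * h = u.s) (hd : 0 < d) (hPW : u.P ⊆ Wd)
    (hH : Hol (S : Set ℂ) (deep u.P d) d)
    (hB : ∀ j < nn A e w, ∀ v ∈ B j, dist (gt h W A e w j) v ≤ ρ0)
    {r : ℕ} (hr : 2 * (r : ℤ) + 4 ≤ m) (hr7 : (r : ℤ) + 7 ≤ m)
    (hρ : ρ0 + (8 * h + 2 * d) + e0 < r * h) {θ : ℝ} {g : Set (ℂ × Bool) → ℝ}
    (hg : ∀ σ ∈ S.powerset, 0 < g (clr S σ) →
      Hx (rc0 hS) pa na Ev (nn A e w) m' F (TlRx709.tl hS B (nn A e w)) (chiS hS h3 σ))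
    (hs : ∀ σ ∈ S.powerset, 0 < g (clr S σ) →
      ∃ i, Ev i (chiS hS h3 σ) ∧ ∀ t ≤ na i (chiS hS h3 σ), ∃ j < nn A e w,
        rep hS ((rc0 hS).cell (P (rc0 hS) (cfg (rc0 hS) (chiS hS h3 σ))
          (pa i (chiS hS h3 σ)) t)) ∈ B (nn A e w - 1 - j))
    (hb : ∀ σ ∈ S.powerset, 0 < g (clr S σ) → av S.powerset (fun τ =>
      if Bd hS h3 H R Q pa na Ev k u d Wd w e0 σ τ then (1 : ℝ) else 0) ≤ θ) :
    ∀ σ ∈ S.powerset, 0 < g (clr S σ) → av S.powerset (far (2 * r + 2)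
      (fun σ τ => ka (rc0 hS) H R Q pa na Ev (nn A e w) m' F (TlRx709.tl hS B (nn A e w))
        (chiS hS h3 σ) (chiS hS h3 τ))
      (fun σ τ => kb (rc0 hS) H R Q pa na Ev (nn A e w) m' F (TlRx709.tl hS B (nn A e w))
        (chiS hS h3 σ) (chiS hS h3 τ))
      (fun τ => nn A e w - tb u d h Wd W A e w (clr S τ))
      (fun τ => nn A e w - ta u d h Wd W A e w (clr S τ)) σ) ≤ θ := by
  intro σ hσ h0
  refine (av_mono fun τ hτ => ?_).trans (hb σ hσ h0)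
  by_cases hb' : Bd hS h3 H R Q pa na Ev k u d Wd w e0 σ τ
  · rw [if_pos hb']
    unfold far
    split_ifs <;> norm_num
  · rw [if_neg hb']
    exact (far_zero hS h3 Y HL hh hd hPW hH hB hr hr7 hρ (hg σ hσ h0) (hs σ hσ h0)
      (Finset.mem_powerset.1 hτ) hb').le

end rc

/-! ### probabilities in the free sites of the polygon -/

section prob

open Crest.Agent.R143.Harx315 Crest.Agent.R143.CorMx970

/-- mean of an indicator over the colourings -/
theorem av_ind (V : Finset ℂ) (E : Finset ℂ → Prop) :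
    av V.powerset (fun τ => if E τ then (1 : ℝ) else 0) = pr V E := by
  unfold av pr nb fl
  rw [Finset.sum_ite, Finset.sum_const_zero, add_zero, Finset.sum_const, nsmul_eq_mul, mul_one,
    Finset.card_powerset, smul_eq_mul, div_eq_inv_mul]
  push_cast
  rfl

end prob

end Crest.Agent.R143.NearGx737
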