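import Crest.Agent.R143.HE_571
import Crest.Agent.R143.LayU_416

/-!
# Row 143 (S0194), box R10g, polygon side: GATE LINK (helper845)

For `LayU u m M p W A e` (416), `m h = u.s`, `30 ≤ m`: every half edge `a` of 571's `HE_571`
(`hM u a + t (hw u a)`, `0 ≤ t ≤ u.s / 2`, label `hl u a`) has for every `t` a straight gate `g` of
the same label at distance `≤ 9 h`:
* `Use` of 923: `A k + 6 ≤ g ≤ A (k+1) - 6`, three tiles from the mark gates
* foot `gz h W g - h * I * ge W g = hM u a + t' * hw u a`, normal `I * ge W g = hnu u a`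
* `6 h ≤ t' ≤ u.s / 2 - 7 h`
-/

set_option autoImplicit false

noncomputable section

open scoped Classical

namespace Crest.Agent.R143.GateLx845

open Crest.Agent.R143.TileRx228 (U4 FPath cen gz ge RR cz norm_cz cz_ne)
open Crest.Agent.R143.LayQx811
open Crest.Agent.R143.Layx416
open Crest.Agent.R143.LayUx416
open Crest.Agent.R143.PolyUx346
open Crest.Agent.R143.HEx571
open Crest.Agent.R143.Finex422 (Fine Cl Un ro)
open Crest.Agent.R143.Brkx478 (Bk cells Conn)
open Crest.Agent.R158.Sp896 (V pt ed Cyc)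

/-! ### exact positions -/

section fine

variable {F : Set V} {n : ℕ} {m : ℤ} {p : ℤ → V} {M : ℕ} {W : ℤ → V} {A : ℤ → ℤ}

/-- **exact position along the coarse edge `k`** -/
theorem exact' (H : Fine F n m p M W A) (k : ℤ) : ∃ t0 : ℤ, (-1 ≤ t0 ∧ t0 ≤ 1) ∧
    (m - 1 ≤ t0 + (A (k + 1) - A k) ∧ t0 + (A (k + 1) - A k) ≤ m + 1) ∧
    ∀ a, A k ≤ a → a ≤ A (k + 1) →
      W a = m • p k + ro (p (k + 1) - p k) + (t0 + (a - A k)) • (p (k + 1) - p k) := by
  have hlt := H.Alt k (k + 1) (by omega)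
  obtain ⟨t0, -, -, h0⟩ := H.exact k (A k) le_rfl hlt.le
  have key : ∀ a, A k ≤ a → a ≤ A (k + 1) →
      W a = m • p k + ro (p (k + 1) - p k) + (t0 + (a - A k)) • (p (k + 1) - p k) := by
    intro a h1 h2
    rw [H.seg k a h1 h2, h0, add_smul t0]
    abel
  have e1 := key (A (k + 1)) hlt.le le_rfl
  obtain ⟨v1, v2⟩ := H.vert k
  obtain ⟨v3, v4⟩ := H.vert (k + 1)
  have hd : Un (p (k + 1) - p k) := Finex422.adj_un (H.cl.step k)
  obtain ⟨D, hD⟩ : ∃ D, D = p (k + 1) - p k := ⟨_, rfl⟩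
  have hp : p (k + 1) = p k + D := by rw [hD]; abel
  rw [h0] at v1 v2
  rw [e1] at v3 v4
  rw [hp] at v3 v4
  rw [← hD] at hd v1 v2
  have hD' : p k + D - p k = D := by abel
  rw [hD'] at v3 v4
  refine ⟨t0, ?_, ?_, key⟩
  · simp only [Prod.fst_add, Prod.snd_add, Prod.smul_fst, Prod.smul_snd, smul_eq_mul, abs_le] at v1 v2
    clear v3 v4 e1 key h0
    rcases hd with h | h | h | h <;> rw [h] at v1 v2 <;> simp only [ro] at v1 v2 <;>
      constructor <;> linarith [v1.1, v1.2, v2.1, v2.2]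
  · simp only [Prod.fst_add, Prod.snd_add, Prod.smul_fst, Prod.smul_snd, smul_eq_mul, abs_le,
      mul_add] at v3 v4
    clear v1 v2 e1 key h0
    rcases hd with h | h | h | h <;> rw [h] at v3 v4 <;> simp only [ro] at v3 v4 <;>
      constructor <;> linarith [v3.1, v3.2, v4.1, v4.2]

end fine

theorem cz_smul (c : ℤ) (v : ℤ × ℤ) : cz (c • v) = (c : ℂ) * cz v := by
  apply Complex.ext <;> simp [cz]

theorem cz_ro (v : ℤ × ℤ) : cz (ro v) = Complex.I * cz v := by
  apply Complex.ext <;> simp [cz, ro]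

section

variable {u : Poly} {m M : ℕ} {p W : ℤ → ℤ × ℤ} {A e : ℤ → ℤ}

/-- the middle of the edge `i` of the walk in the frame of the coarse edge `k = -i-1` -/
theorem mid_cz (H : LayU u m M p W A e) (i : ℕ) : u.mid i = pt u.s (p (-(i : ℤ) - 1)) +
    ((u.s / 2 : ℝ) : ℂ) * cz (p (-(i : ℤ) - 1 + 1) - p (-(i : ℤ) - 1)) := by
  obtain ⟨q1, q2⟩ := H.pv' i
  rw [q1, q2]
  unfold Poly.mid
  apply Complex.ext
  · simp [pt, cz]
    ring
  · simp [pt, cz]
    ring

theorem dr_cz (H : LayU u m M p W A e) (i : ℕ) :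
    dr u i = -cz (p (-(i : ℤ) - 1 + 1) - p (-(i : ℤ) - 1)) := by
  obtain ⟨q1, q2⟩ := H.pv' i
  rw [q1, q2]
  unfold dr drv
  apply Complex.ext
  · simp [cz]
  · simp [cz]

/-- gate with lower vertex at the position `T` -/
theorem gate_at (H : LayU u m M p W A e) {h : ℝ} (hh : (m : ℝ) * h = u.s) {k a T : ℤ}
    (h1 : W (a - 1) = (m : ℤ) • p k + ro (p (k + 1) - p k) + T • (p (k + 1) - p k))
    (h2 : W a = (m : ℤ) • p k + ro (p (k + 1) - p k) + (T + 1) • (p (k + 1) - p k)) :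
    ge W a = cz (p (k + 1) - p k) ∧
    gz h W a - h * Complex.I * ge W a = pt u.s (p k) +
      ((h * (T + 1 / 2) : ℝ) : ℂ) * cz (p (k + 1) - p k) := by
  have e1 : ge W a = cz (p (k + 1) - p k) := by
    unfold ge
    rw [h1, h2, add_smul, one_smul]
    congr 1
    abel
  refine ⟨e1, ?_⟩
  rw [e1]
  unfold gz
  rw [h1, h2, TileRx228.cz_add, TileRx228.cz_add, TileRx228.cz_add, TileRx228.cz_add, cz_smul, cz_smul, cz_smul, cz_ro]
  have e2 : pt u.s (p k) = ((m : ℝ) * h : ℝ) * cz (p k) := by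
    rw [hh]
    apply Complex.ext <;> simp [pt, cz]
  rw [e2]
  push_cast
  ring

/-- **GATE LINK** -/
theorem gate_link (H : LayU u m M p W A e) {h : ℝ} (hh : (m : ℝ) * h = u.s) (hm : 30 ≤ m)
    (a : J u) {t : ℝ} (t0 : 0 ≤ t) (t1 : t ≤ u.s / 2) :
    ∃ (b k j : ℤ) (t' : ℝ), ((A k + 6 ≤ b ∧ b + 6 ≤ A (k + 1)) ∧ g A e j + 3 ≤ b ∧
        b + 3 ≤ g A e (j + 1)) ∧
      (-(j : ZMod 3)) = (((hl u a : Fin 3) : ℕ) : ZMod 3) ∧
      gz h W b - h * Complex.I * ge W b = hM u a + (t' : ℂ) * hw u a ∧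
      Complex.I * ge W b = hnu u a ∧ |t' - t| ≤ 9 * h ∧ 6 * h ≤ t' ∧ t' ≤ u.s / 2 - 7 * h := by
  have h0 := H.h_pos hh
  have hmR : (30 : ℝ) ≤ m := by exact_mod_cast hm
  obtain ⟨i, hi⟩ : ∃ i, i = a.1 / 2 := ⟨_, rfl⟩
  obtain ⟨k, hk⟩ : ∃ k : ℤ, k = -(i : ℤ) - 1 := ⟨_, rfl⟩
  obtain ⟨l, hl'⟩ : ∃ l, l = hl u a := ⟨_, rfl⟩
  obtain ⟨l1, l2⟩ := hl_iff.1 hl'.symm
  obtain ⟨b1, b2⟩ := H.e_base l
  obtain ⟨s0, ⟨s1, s2⟩, ⟨s3, s4⟩, hW⟩ := exact' H.fine k
  -- clamped position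
  obtain ⟨y, y1, y2, y3⟩ : ∃ y : ℝ, 7 ≤ y ∧ y ≤ m / 2 - 8 ∧ |y - t / h| ≤ 8 := by
    have x0 : 0 ≤ t / h := by positivity
    have x1 : t / h ≤ m / 2 := by
      rw [div_le_iff₀ h0]
      rw [← hh] at t1
      linarith
    by_cases c1 : t / h < 7
    · exact ⟨7, le_rfl, by linarith, by rw [abs_le]; constructor <;> linarith⟩
    by_cases c2 : m / 2 - 8 < t / h
    · exact ⟨m / 2 - 8, by linarith, le_rfl, by rw [abs_le]; constructor <;> linarith⟩
    push Not at c1 c2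
    exact ⟨t / h, c1, c2, by simp⟩
  have hmid := mid_cz H i
  have hdr := dr_cz H i
  rw [← hk] at hmid hdr
  -- common end
  have fin : ∀ (T : ℤ) (x : ℝ), (T : ℝ) + 1 / 2 = m / 2 + x → |x| ≤ m / 2 - 7 → 6 ≤ |x| →
      (0 ≤ x → a.1 % 2 = 0) → (x ≤ 0 → a.1 % 2 = 1) →
      ∃ (b j : ℤ), ((A k + 6 ≤ b ∧ b + 6 ≤ A (k + 1)) ∧ g A e j + 3 ≤ b ∧
        b + 3 ≤ g A e (j + 1)) ∧
      (-(j : ZMod 3)) = ((l : ℕ) : ZMod 3) ∧ ge W b = cz (p (k + 1) - p k) ∧
      gz h W b - h * Complex.I * ge W b = u.mid i +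
        ((h * x : ℝ) : ℂ) * cz (p (k + 1) - p k) := by
    intro T x hT hx hx6 hev hod
    have hx' := abs_le.1 hx
    -- bounds for `T`
    have T1 : 7 ≤ T := by
      have : (6 : ℝ) < T := by linarith [hx'.1]
      have : (6 : ℤ) < T := by exact_mod_cast this
      omega
    have T2 : T + 8 ≤ m := by
      have : (T : ℝ) < ((m - 7 : ℤ) : ℝ) := by push_cast; linarith [hx'.2]
      have := Int.cast_lt.1 this
      omega
    obtain ⟨b, hb⟩ : ∃ b : ℤ, b = A k + (T - s0) + 1 := ⟨_, rfl⟩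
    have w1 := hW (b - 1) (by omega) (by omega)
    have w2 := hW b (by omega) (by omega)
    rw [show s0 + (b - 1 - A k) = T by omega] at w1
    rw [show s0 + (b - A k) = T + 1 by omega] at w2
    obtain ⟨g1, g2⟩ := gate_at H hh w1 w2
    refine ⟨b, 3 - (l : ℕ), ⟨⟨by omega, by omega⟩, ?_, ?_⟩, ?_, g1, ?_⟩
    · -- lower mark
      have gm := H.lay.g_mem (3 - (l : ℕ))
      by_cases hk' : k = e (3 - (l : ℕ))
      · have ev : a.1 % 2 = 0 := by omega
        have xp : 0 ≤ x := by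
          by_contra hc
          have := hod (by linarith)
          omega
        rw [abs_of_nonneg xp] at hx6
        have T3 : m + 11 ≤ 2 * T := by
          have : ((m + 11 : ℤ) : ℝ) ≤ ((2 * T : ℤ) : ℝ) := by push_cast; linarith
          exact_mod_cast this
        have hg : g A e (3 - (l : ℕ)) = A k + (A (k + 1) - A k) / 2 := by
          unfold g
          rw [← hk']
        rw [hg]
        omega
      · have hmono := H.lay.Amono.monotone (show e (3 - (l : ℕ)) + 1 ≤ k by omega)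
        omega
    · have gm := H.lay.g_mem (3 - (l : ℕ) + 1)
      by_cases hk' : k = e (3 - (l : ℕ) + 1)
      · have od : a.1 % 2 = 1 := by omega
        have xp : x ≤ 0 := by
          by_contra hc
          have := hev (by linarith)
          omega
        rw [abs_of_nonpos xp] at hx6
        have T3 : 2 * T + 13 ≤ m := by
          have : ((2 * T + 13 : ℤ) : ℝ) ≤ ((m : ℤ) : ℝ) := by push_cast; linarith
          exact_mod_cast this
        have hg : g A e (3 - (l : ℕ) + 1) = A k + (A (k + 1) - A k) / 2 := by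
          unfold g
          rw [← hk']
        rw [hg]
        omega
      · have hmono := H.lay.Amono.monotone (show k + 1 ≤ e (3 - (l : ℕ) + 1) by omega)
        omega
    · push_cast
      have : (3 : ZMod 3) = 0 := rfl
      rw [this]
      ring
    · rw [g2, hmid]
      have : (h * (T + 1 / 2) : ℝ) = u.s / 2 + h * x := by
        rw [← hh, hT]
        ring
      rw [this]
      push_cast
      ring
  have hnu' : Complex.I * cz (p (k + 1) - p k) = hnu u a := by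
    unfold hnu
    rw [← hi, hdr]
    ring
  rcases Nat.mod_two_eq_zero_or_one a.1 with ha | ha
  · -- even: forward
    obtain ⟨T, hT⟩ : ∃ T : ℤ, T = ⌊(m : ℝ) / 2 - 1 / 2 + y⌋ := ⟨_, rfl⟩
    have f1 := Int.floor_le ((m : ℝ) / 2 - 1 / 2 + y)
    have f2 := Int.lt_floor_add_one ((m : ℝ) / 2 - 1 / 2 + y)
    rw [← hT] at f1 f2
    have xp : 0 < (T : ℝ) + 1 / 2 - m / 2 := by linarith
    obtain ⟨b, j, hU, hj, hge, hgz⟩ := fin T (T + 1 / 2 - m / 2) (by ring)
      (by rw [abs_of_pos xp]; linarith) (by rw [abs_of_pos xp]; linarith) (fun _ => ha)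
      (fun h => by linarith)
    refine ⟨b, k, j, h * (T + 1 / 2 - m / 2), hU, by rw [← hl']; exact hj, ?_, ?_, ?_, ?_, ?_⟩
    · rw [hgz]
      unfold hM hw
      rw [if_pos ha, ← hi, hdr, neg_neg]
    · rw [hge, hnu']
    · have e1 : h * ((T : ℝ) + 1 / 2 - m / 2) - t = h * (((T : ℝ) + 1 / 2 - m / 2) - t / h) := by
        field_simp
      rw [e1, abs_mul, abs_of_pos h0, mul_comm]
      refine mul_le_mul_of_nonneg_right ?_ h0.le
      rw [abs_le] at y3 ⊢
      constructor <;> linarith [y3.1, y3.2]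
    · rw [mul_comm]
      exact mul_le_mul_of_nonneg_left (by linarith) h0.le
    · rw [← hh]
      nlinarith
  · -- odd: backward
    obtain ⟨T, hT⟩ : ∃ T : ℤ, T = ⌊(m : ℝ) / 2 - 1 / 2 - y⌋ := ⟨_, rfl⟩
    have f1 := Int.floor_le ((m : ℝ) / 2 - 1 / 2 - y)
    have f2 := Int.lt_floor_add_one ((m : ℝ) / 2 - 1 / 2 - y)
    rw [← hT] at f1 f2
    have xp : (T : ℝ) + 1 / 2 - m / 2 < 0 := by linarith
    obtain ⟨b, j, hU, hj, hge, hgz⟩ := fin T (T + 1 / 2 - m / 2) (by ring)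
      (by rw [abs_of_neg xp]; linarith) (by rw [abs_of_neg xp]; linarith)
      (fun h => by linarith) (fun _ => ha)
    refine ⟨b, k, j, h * (m / 2 - 1 / 2 - T), hU, by rw [← hl']; exact hj, ?_, ?_, ?_, ?_, ?_⟩
    · rw [hgz]
      unfold hM hw
      rw [if_neg (by omega), ← hi, hdr]
      push_cast
      ring
    · rw [hge, hnu']
    · have e1 : h * ((m : ℝ) / 2 - 1 / 2 - T) - t = h * (((m : ℝ) / 2 - 1 / 2 - T) - t / h) := by
        field_simp
      rw [e1, abs_mul, abs_of_pos h0, mul_comm]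
      refine mul_le_mul_of_nonneg_right ?_ h0.le
      rw [abs_le] at y3 ⊢
      constructor <;> linarith [y3.1, y3.2]
    · rw [mul_comm]
      exact mul_le_mul_of_nonneg_left (by linarith) h0.le
    · rw [← hh]
      nlinarith

end

end Crest.Agent.R143.GateLx845
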