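import Crest.Agent.R143.UKU_969
import Crest.Agent.R143.GateL_845
import Crest.Agent.R143.R10P_923

/-!
# Row 143 (S0194), box R10g: `UO` from a stem at every usable gate (helper969)

* `stems` : a stem at every gate `b` with 923's `Use A e b k j` (label `- j`) gives the stems of
  `uo_poly` (845's gate link)
* **`uo_gates`** : `uo_poly` with this hypothesis
-/

set_option autoImplicit false

noncomputable section

open scoped Classical

namespace Crest.Agent.R143.UKVx969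

open Set
open Crest.ProbabilityR.Voronoi
open Crest.Agent.R143.K33x877
open Crest.Agent.R143.Locx922 (Hol)
open Crest.Agent.R143.UKCx969
open Crest.Agent.R143.UKUx969
open Crest.Agent.R143.PolyUx346
open Crest.Agent.R143.HEx571 (J hM hw hnu hl)
open Crest.Agent.R143.HEPx571 (lz)
open Crest.Agent.R143.TileRx228 (gz ge)
open Crest.Agent.R143.R10Px923 (Use)

variable {u : Poly} {S : Finset ℂ} {A : ZMod 3 → Set ℂ} {o : ℂ × ℂ × ℂ} {l0 : ZMod 3} {h ε d : ℝ}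
  {m M : ℕ} {p W : ℤ → ℤ × ℤ} {Ai e : ℤ → ℤ}

/-- **stems of the half edges** from the stems of the gates -/
theorem stems (H : LayUx416.LayU u m M p W Ai e) (hh : (m : ℝ) * h = u.s) (hm : 30 ≤ m)
    (h0 : 0 < h)
    (hG : ∀ b k j : ℤ, Use Ai e b k j → ∃ (bb : ℂ) (E : Set ℂ), Stem S A h d (-(j : ZMod 3))
      (gz h W b - h * Complex.I * ge W b) (Complex.I * ge W b) bb E)
    (a : J u) (t : ℝ) (t0 : 0 ≤ t) (t1 : t ≤ u.s / 2) : ∃ (t' : ℝ) (b : ℂ) (E : Set ℂ),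
      |t' - t| ≤ 10 * h ∧ h ≤ t' ∧ t' ≤ u.s / 2 - h ∧ (Mk (hM u) (lz u) a → 3 * h ≤ t') ∧
      Stem S A h d (lz u a) (hM u a + t' * hw u a) (hnu u a) b E := by
  obtain ⟨b, k, j, t', h1, h2, h3, h4, h5, h6, h7⟩ := GateLx845.gate_link H hh hm a t0 t1
  obtain ⟨bb, E, hE⟩ := hG b k j h1
  refine ⟨t', bb, E, by linarith, by linarith, by linarith, fun _ => by linarith, ?_⟩
  rw [← h3, ← h4]
  have : lz u a = -(j : ZMod 3) := h2.symm
  rw [this]
  exact hE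

/-- **`UO` from the stems of the gates** -/
theorem uo_gates (H : LayUx416.LayU u m M p W Ai e) (hh : (m : ℝ) * h = u.s) (hm : 40 ≤ m)
    (hR : TrR S o l0 A) (hneg : Hexx877.NegO A o)
    (hgap : ∀ l, ∀ s ∈ A l, ∀ z ∈ u.P, h / 2 ≤ ‖s - z‖) (hε : 0 < √ε) (hεh : 5000 * √ε ≤ h)
    (hH : Hol (S : Set ℂ) u.P √ε)
    (hcov : ∀ p ∈ frontier u.P, ∀ z, ‖z - p‖ ≤ 20 * h → ∃ s' ∈ S, ‖s' - z‖ < √ε)
    (hG : ∀ b k j : ℤ, Use Ai e b k j → ∃ (bb : ℂ) (E : Set ℂ), Stem S A h √ε (-(j : ZMod 3))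
      (gz h W b - h * Complex.I * ge W b) (Complex.I * ge W b) bb E)
    {R1 dd ρ D : ℝ} (hreg : ∀ w ∈ fr S A, ‖w‖ + 2 * √ε ≤ R1) (hd : 16 * h ≤ dd) (hρ : h ≤ ρ)
    (hρD : 100 * ρ ≤ D) (hD : D ≤ u.s / 4) (hmk : ∀ k, ‖mkz u k‖ ≤ R1) :
    ∃ A' : ZMod 3 → Set ℂ,
      R10Gx930.UO S A A' o l0 u.P u.Lab (mkz u) R1 h D ε (15 * h) dd ρ := by
  have h0 : 0 < h := by linarith
  have hhs : 40 * h ≤ u.s := by
    rw [← hh]
    have : (40 : ℝ) ≤ m := by exact_mod_cast hm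
    nlinarith
  exact uo_poly u hR hneg hgap hε hεh hhs hH hcov (stems H hh (by omega) h0 hG) hreg hd hρ hρD hD
    hmk

end Crest.Agent.R143.UKVx969
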