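import Crest.Agent.R143.R10W_930
import Crest.Agent.R143.CorE_133
import Crest.Agent.R143.UKV_969

/-!
# Row 143 (S0194), box R10: numbers and the environment of the polygon (helper930)

* `ge_cor` : 133's `CorEnv` ⟹ `GE` for `S = SU u ε ω`
* `Con` : conclusion of R10 (923's `Cpl`, the window form, 798's `fU ≤ θ`)
* **`r10n`** : `CorEnv`, giants with a root face, no giant near the polygon, a stem at every usable
  gate ⟹ `Con`, with explicit numbers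
* `r10_lim` : the bounds tend to `0` with `h`
-/

set_option autoImplicit false

noncomputable section

open scoped Classical ENNReal

namespace Crest.Agent.R143.R10Nx930

open Set Filter Topology MeasureTheory
open Crest.ProbabilityR.Voronoi
open Crest.Agent.R143.Harx315
open Crest.Agent.R143.B0x346 Crest.Agent.R143.DelGx806
open Crest.Agent.R143.JColx54 (Adj)
open Crest.Agent.R143.RE0x723 (Pth)
open Crest.Agent.R143.K33x877
open Crest.Agent.R143.NetUx346 Crest.Agent.R143.NetVx346 Crest.Agent.R143.Stabx930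
open Crest.Agent.R143.Stab2x930 Crest.Agent.R143.R10x930 Crest.Agent.R143.R10Ex930
open Crest.Agent.R143.R10Gx930 Crest.Agent.R143.R10Wx930 Crest.Agent.R143.VisPx930
open Crest.Agent.R143.PolyUx346
open Crest.Agent.R143.Hexx877 (NegO)
open Crest.Agent.R143.GateKx421 (Thin)
open Crest.Agent.R143.TlAx58 (Sw Vw Bw)
open Crest.Agent.R143.Eddx798 (fU)
open Crest.Agent.R143.R10Px923 (Cpl yV Use)
open Crest.Agent.R143.ArmPx930 (ldns_mono mesh_mono)
open Crest.Agent.R143.CorEx133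
open Crest.Agent.R143.EnvHx653 (Cab)
open Crest.Agent.R143.UKCx969 (Stem)
open Crest.Agent.R143.UKUx969 (mkz)
open Crest.Agent.R143.UKVx969 (uo_gates)
open Crest.Agent.R143.TileRx228 (gz ge)

/-- **environment of the arms from the environment of the polygon** -/
theorem ge_cor {u : Poly} {ε K1 c2c ρ0 c1 c2 K R1 h D : ℝ} {ω : Sample}
    (C : CorEnv u ε √ε K1 c2c ρ0 ω) (hK : K ≤ K1) (hD : 0 < D) (hρ0 : ρ0 ≤ D) (hD2 : 2 * D ≤ 1)
    (hR : R1 + (K1 + 1) * D + 2 * √ε ≤ RU u) (hc : c2c * D ≤ c2 * h) (hdr : √ε ≤ c1 * h) :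
    GE (SU u ε ω) c1 c2 K R1 h D ε := by
  have hKK : K * D ≤ K1 * D := mul_le_mul_of_nonneg_right hK hD.le
  refine ⟨fun z hz => ?_, fun z hz b hb1 hb2 => ?_, hdr⟩
  · exact ldns_mono (C.nva hρ0 hD2 (by linarith)).dns hKK
  · exact mesh_mono ((C.nva hρ0 hD2 (by linarith)).mesh b (hc.trans hb1) hb2) hKK

/-- scale of the marks -/
def Du (u : Poly) (K : ℝ) : ℝ := min (u.s / 4) (1 / (2 * (K + 1)))

theorem Du_pos (u : Poly) {K : ℝ} (hK : 0 ≤ K) : 0 < Du u K :=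
  lt_min (by have := u.s_pos; linarith) (by positivity)

/-- the conclusion of R10 for the giants `A` of the sites `SU u ε ω` -/
def Con (C c K : ℝ) (u : Poly) (ε h : ℝ) (ω : Sample) (A : ZMod 3 → Set ℂ) (W : Set ℂ) : Prop :=
  (∀ η, 16 * h ≤ η → η ≤ Du u K →
    Cpl (SU u ε ω) A (Vin (SU u ε ω) u.P √ε) (Bl (SU u ε ω) (Vin (SU u ε ω) u.P √ε) u.Lab) η
      (C * ((16 * h / η) ^ c + (h / Du u K) ^ c)) ∧
    ∀ i, pr (ff (SU u ε ω) A) (fun β => η < ‖hv (SU u ε ω) A i (β : Set ℂ) -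
      zV (Sw W (SU u ε ω)) (Vw u √ε W (SU u ε ω)) (Bw u √ε W (SU u ε ω)) i
        ((β ∩ Vin (SU u ε ω) u.P √ε : Finset ℂ) : Set ℂ) id‖) ≤
      C * ((16 * h / η) ^ c + (h / Du u K) ^ c)) ∧
  ∀ i, fU u √ε W i (SU u ε ω) ≤ C * (h / Du u K) ^ c

/-- **R10 with numbers** -/
theorem r10n : ∃ C c c1 c2 K : ℝ, 1 ≤ C ∧ 0 < c ∧ 0 < c1 ∧ c1 ≤ 1 ∧ 0 < c2 ∧ 2 ≤ K ∧
    ∀ (u : Poly) (ε h c2c ρ0 : ℝ) (ω : Sample), 0 < h → 100 * h ≤ Du u K → ρ0 ≤ Du u K →
    c2c * Du u K ≤ c2 * h → √ε ≤ c1 * h → 5000 * √ε ≤ h → CorEnv u ε √ε K c2c ρ0 ω →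
    ∀ (m M : ℕ) (p W : ℤ → ℤ × ℤ) (Ai e : ℤ → ℤ), LayUx416.LayU u m M p W Ai e →
    (m : ℝ) * h = u.s → ∀ (A : ZMod 3 → Set ℂ) (o : ℂ × ℂ × ℂ) (l0 : ZMod 3),
    TrR (SU u ε ω) o l0 A → NegO A o →
    (∀ l, ∀ s ∈ A l, ∀ z ∈ u.P, h / 2 ≤ ‖s - z‖) →
    (∀ b k j : ℤ, Use Ai e b k j → ∃ (bb : ℂ) (E : Set ℂ), Stem (SU u ε ω) A h √ε (-(j : ZMod 3))
      (gz h W b - h * Complex.I * ge W b) (Complex.I * ge W b) bb E) →
    (∀ w ∈ fr (SU u ε ω) A, ‖w‖ ≤ Rp u + 3) → ∀ Wd : Set ℂ, u.P ⊆ Wd →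
    Con C c K u ε h ω A Wd := by
  obtain ⟨C, c, c1, c2, K, hC, hc, hc1, hc1', hc2, hK, H⟩ := r10w
  refine ⟨C, c, c1, c2, K, hC, hc, hc1, hc1', hc2, hK, ?_⟩
  intro u ε h c2c ρ0 ω hh hhD hρ0 hcc hdr hdr' CE m M p W Ai e HL hm A o l0 hT hn hgap hG hreg Wd
    hWd
  have hD0 := Du_pos u (K := K) (by linarith)
  have hε := CE.e0
  have hε' : 0 < √ε := CE.d0
  have hs1 := s_le u
  have hs0 := u.s_pos
  have hDs : Du u K ≤ u.s / 4 := min_le_left _ _
  have hDK : Du u K ≤ 1 / (2 * (K + 1)) := min_le_right _ _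
  have hDK' : (K + 1) * Du u K ≤ 1 / 2 := by
    rw [le_div_iff₀ (by positivity)] at hDK
    linarith
  have hR := one_le_Rp u
  have hε1 := CE.d1
  have E : GE (SU u ε ω) c1 c2 K (Rp u + 4) h (Du u K) ε :=
    ge_cor CE le_rfl hD0 hρ0 (by nlinarith) (by unfold RU; linarith) hcc hdr
  have hP : ∀ z ∈ u.P, ‖z‖ ≤ Rp u + 4 := fun z hz => by
    have := P_norm u hz
    linarith
  have hm40 : 40 ≤ m := by
    by_contra hcon
    push Not at hcon
    have : (m : ℝ) ≤ 40 := by exact_mod_cast hcon.le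
    nlinarith
  obtain ⟨A', hU⟩ := uo_gates HL hm hm40 hT hn hgap hε' hdr' (CE.hol.mono (P_sub_UU u)) (by
      intro q hq z hz
      have h1 : q ∈ u.P := (UKG5x571.isClosed_P u).frontier_subset hq
      have h2 := P_norm u h1
      have h3 := norm_add_le (z - q) q
      rw [sub_add_cancel] at h3
      obtain ⟨s, h4, h5⟩ := CE.hol z (mem_UU.2 (by linarith)) z
        (by rw [sub_self, norm_zero]; exact hε'.le)
      exact ⟨s, Finset.mem_coe.1 h4, h5⟩) hG (R1 := Rp u + 4) (dd := 16 * h) (ρ := h)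
    (D := Du u K) (fun w hw => by
      have := hreg w hw
      linarith) le_rfl le_rfl hhD hDs
    (fun k => hP _ (UKG5x571.arc_P (UKG5x571.mid_mem_arc _)).1)
  exact H (SU u ε ω) (Rp u + 4) h (Du u K) ε hh hε E u A A' o l0 (mkz u) (15 * h) (16 * h) h hU hP
    Wd hWd

/-- **the bounds tend to `0`** (`η = √h`) -/
theorem r10_lim (C c K : ℝ) (hc : 0 < c) (hK : 0 ≤ K) (u : Poly) :
    Tendsto (fun h : ℝ => C * ((16 * h / √h) ^ c + (h / Du u K) ^ c)) (𝓝[>] 0) (𝓝 0) := by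
  have hD := Du_pos u hK
  have hs : Tendsto (fun h : ℝ => √h) (𝓝[>] 0) (𝓝 0) := by
    have := (Real.continuous_sqrt.tendsto 0).mono_left (nhdsWithin_le_nhds (s := Set.Ioi 0))
    rwa [Real.sqrt_zero] at this
  have hi : Tendsto (fun h : ℝ => h) (𝓝[>] 0) (𝓝 0) := nhdsWithin_le_nhds
  have h1 : Tendsto (fun h : ℝ => 16 * h / √h) (𝓝[>] 0) (𝓝 0) := by
    have h2 := hs.const_mul 16
    rw [mul_zero] at h2
    refine h2.congr fun h => ?_
    rw [mul_div_assoc, Real.div_sqrt]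
  have h2 : Tendsto (fun h : ℝ => h / Du u K) (𝓝[>] 0) (𝓝 0) := by
    have := hi.div_const (Du u K)
    rwa [zero_div] at this
  have h3 := (Real.continuousAt_rpow_const 0 c (Or.inr hc.le)).tendsto.comp h1
  have h4 := (Real.continuousAt_rpow_const 0 c (Or.inr hc.le)).tendsto.comp h2
  rw [Real.zero_rpow hc.ne'] at h3 h4
  have := (h3.add h4).const_mul C
  rw [add_zero, mul_zero] at this
  exact this

end Crest.Agent.R143.R10Nx930
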