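import Crest.Agent.R143.NearB_139
import Crest.Agent.R143.NearG_737
import Crest.Agent.R143.GoodA_654
import Crest.Agent.R143.R10N_930

/-!
# Row 143 (S0194), RIG: bad colourings of the touches (helper139)

`A = gA (rc0 hS) … k σ` giants of 358's system at `σ`, `μ = mx … σ (chiS β)` the mixed colouring,
`sA = yv (rc0 hS) A k {μ = 1} (rep hS)`, `sB = yv (rc0 hS) A (k + 1) {μ = 1}ᶜ (rep hS)` the sites of the
two touches; `w = k + 2` the white label, `xV`, `yV` 798's end points of the polygon.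

* `sA_eq`, `sB_eq` : the sites of the touches are the hit vertices `hv`
* **`bd_le`** : mean over the black sets of [not (unique hits on both arcs, `‖sA - xV‖ ≤ e0`,
  `‖sB - yV‖ ≤ e0`)] `≤ 2 θ + 2 θ'` from 930's comparison (`θ`) and 798's `fU ≤ θ'`
-/

set_option autoImplicit false
set_option linter.unusedSectionVars false

noncomputable section

open scoped Classical

namespace Crest.Agent.R143.NearCx139

open Set
open Crest.ProbabilityR.Voronoi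
open Crest.Agent.R143.B0x346 Crest.Agent.R143.DelGx806
open Crest.Agent.R143.Frame1x395 Crest.Agent.R143.Frame2x395 Crest.Agent.R143.Frame3x395
  Crest.Agent.R143.Frame4x395 Crest.Agent.R143.Frame8x395 Crest.Agent.R143.Frame9x395
  Crest.Agent.R143.Frame10x395
open Crest.Agent.R143.NonXx592 (P)
open Crest.Agent.R143.FinCx811 (Cs rc0)
open Crest.Agent.R143.C2SBx395 Crest.Agent.R143.C2SCx395 Crest.Agent.R143.C2SDx395
open Crest.Agent.R143.Freshx829 (rep)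
open Crest.Agent.R143.SmallAx304 (chiS)
open Crest.Agent.R143.NetUx346 (ff mem_ff Hex hv hv_mem)
open Crest.Agent.R143.NetVx346 (zV Bl Vin hitsV)
open Crest.Agent.R143.Harx315 (pr pr_flip)
open Crest.Agent.R143.CorMx970 (av av_add av_mono av_congr)
open Crest.Agent.R143.OutSx358 Crest.Agent.R143.SysCx166 Crest.Agent.R143.NearBx139
open Crest.Agent.R143.PolyUx346 (Poly)
open Crest.Agent.R143.TlAx58 (Vw Bw)
open Crest.Agent.R143.Eddx798 (fU)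
open Crest.Agent.R143.Dispx798 (xV yV)

section

variable {S : Finset ℂ} {hS : GP (S : Set ℂ)} {h3 : 3 ≤ S.card}
  {H R : Set (Cs hS)} {Q : Set (D0 S)} {ι : Type} {pa : ι → (Cs hS → ZMod 2) → D0 S}
  {na : ι → (Cs hS → ZMod 2) → ℕ} {Ev : ι → (Cs hS → ZMod 2) → Prop} {k j : ZMod 3}
  {σ : Cs hS → ZMod 2} {i : ι}

/-- giants and root gap of the system -/
theorem gi_root (Y : Sys (rc0 hS) H R Q pa na Ev) (h : Ev i σ) :
    Gi (rc0 hS) (gA (rc0 hS) H R Q pa na Ev k σ) ∧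
      Root (rc0 hS) (gA (rc0 hS) H R Q pa na Ev k σ) k
        (Splx117.gp (rc0 hS) (cfg (rc0 hS) σ) (pa i σ) (rt (rc0 hS) Q pa na i σ)) := by
  rw [Y.gA_eq k h]
  exact ⟨(Y.ex h).gi, (Y.ex h).root (i := k)⟩

/-- **the site of the touch on `A k`** -/
theorem sA_eq (Y : Sys (rc0 hS) H R Q pa na Ev) (h : Ev i σ)
    (Hh : Hl (gA (rc0 hS) H R Q pa na Ev k σ) j) (Fa : Far (gA (rc0 hS) H R Q pa na Ev k σ) j)
    (h3 : 3 ≤ S.card) (β : Finset ℂ) :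
    yv (rc0 hS) (gA (rc0 hS) H R Q pa na Ev k σ) k
        {c | mx (rc0 hS) H R pa na Ev σ (chiS hS h3 β) c = 1} (rep hS) =
      hv S (st (gA (rc0 hS) H R Q pa na Ev k σ)) k
        ((β ∩ ff S (st (gA (rc0 hS) H R Q pa na Ev k σ)) : Finset ℂ) : Set ℂ) := by
  obtain ⟨G, Ro⟩ := gi_root (k := k) Y h
  exact yv_site (h3 := h3) G Hh Fa Ro (fun c hc => mx_free Y h _ hc) (fun v => v) k

/-- **the site of the touch on `A (k + 1)`** -/
theorem sB_eq (Y : Sys (rc0 hS) H R Q pa na Ev) (h : Ev i σ)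
    (Hh : Hl (gA (rc0 hS) H R Q pa na Ev k σ) j) (Fa : Far (gA (rc0 hS) H R Q pa na Ev k σ) j)
    (h3 : 3 ≤ S.card) (β : Finset ℂ) :
    yv (rc0 hS) (gA (rc0 hS) H R Q pa na Ev k σ) (k + 1)
        {c | mx (rc0 hS) H R pa na Ev σ (chiS hS h3 β) c = 1}ᶜ (rep hS) =
      hv S (st (gA (rc0 hS) H R Q pa na Ev k σ)) (k + 1)
        ((ff S (st (gA (rc0 hS) H R Q pa na Ev k σ)) \ β : Finset ℂ) : Set ℂ) := by
  obtain ⟨G, Ro⟩ := gi_root (k := k) Y h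
  exact yv_site' (h3 := h3) G Hh Fa Ro (fun c hc => mx_free Y h _ hc) (fun v => v) (k + 1)

/-- not exactly one hit -/
def Nu (S V : Finset ℂ) (B : ZMod 3 → Set ℂ) (i : ZMod 3) (T : Finset ℂ) : Prop :=
  (hitsV S V B i (T : Set ℂ)).card ≠ 1

/-- the hit of the giant `i` is far from the hit of the polygon -/
def Fw (S V : Finset ℂ) (A : ZMod 3 → Set ℂ) (S' V' : Finset ℂ) (B' : ZMod 3 → Set ℂ) (e0 : ℝ)
    (i : ZMod 3) (T : Finset ℂ) : Prop :=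
  e0 < ‖hv S A i (T : Set ℂ) - zV S' V' B' i ((T ∩ V : Finset ℂ) : Set ℂ) id‖

/-- union bound for four events -/
theorem ind4 {P a b c d : Prop} [Decidable P] (h : P → a ∨ b ∨ c ∨ d) :
    (if P then (1 : ℝ) else 0) ≤
    ((if a then (1 : ℝ) else 0) + (if b then (1 : ℝ) else 0)) +
      ((if c then (1 : ℝ) else 0) + (if d then (1 : ℝ) else 0)) := by
  by_cases hP : P
  · rw [if_pos hP]
    rcases h hP with h' | h' | h' | h' <;> rw [if_pos h'] <;> split_ifs <;> norm_num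
  · rw [if_neg hP]
    split_ifs <;> norm_num

/-- **the bad colourings of the touches** -/
theorem bd_le (Y : Sys (rc0 hS) H R Q pa na Ev) (h : Ev i σ)
    (Hh : Hl (gA (rc0 hS) H R Q pa na Ev k σ) j) (Fa : Far (gA (rc0 hS) H R Q pa na Ev k σ) j)
    (h3 : 3 ≤ S.card) {u : Poly} {d e0 θ θ' : ℝ} {Wd : Set ℂ} {w : ZMod 3} (hd : 0 < d)
    (hPW : u.P ⊆ Wd) (hk : k = w + 1)
    (hV : Vin S u.P d ⊆ ff S (st (gA (rc0 hS) H R Q pa na Ev k σ)))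
    (hp : ∀ i : ZMod 3, pr (ff S (st (gA (rc0 hS) H R Q pa na Ev k σ)))
      (fun β => e0 < ‖hv S (st (gA (rc0 hS) H R Q pa na Ev k σ)) i (β : Set ℂ) -
        zV (TlAx58.Sw Wd S) (Vw u d Wd S) (Bw u d Wd S) i
          ((β ∩ Vin S u.P d : Finset ℂ) : Set ℂ) id‖) ≤ θ)
    (hu : ∀ i, fU u d Wd i S ≤ θ') {E : Finset ℂ → Prop} (hE : ∀ β, E β → ¬ (
      (hitsV (TlAx58.Sw Wd S) (Vw u d Wd S) (Bw u d Wd S) (w + 1)
        ((β ∩ Vw u d Wd S : Finset ℂ) : Set ℂ)).card = 1 ∧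
      (hitsV (TlAx58.Sw Wd S) (Vw u d Wd S) (Bw u d Wd S) (w + 2)
        ((Vw u d Wd S \ (β ∩ Vw u d Wd S) : Finset ℂ) : Set ℂ)).card = 1 ∧
      ‖yv (rc0 hS) (gA (rc0 hS) H R Q pa na Ev k σ) k
          {c | mx (rc0 hS) H R pa na Ev σ (chiS hS h3 β) c = 1} (rep hS) -
        xV (TlAx58.Sw Wd S) (Vw u d Wd S) (Bw u d Wd S) w (β ∩ Vw u d Wd S)‖ ≤ e0 ∧
      ‖yv (rc0 hS) (gA (rc0 hS) H R Q pa na Ev k σ) (k + 1)
          {c | mx (rc0 hS) H R pa na Ev σ (chiS hS h3 β) c = 1}ᶜ (rep hS) -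
        yV (TlAx58.Sw Wd S) (Vw u d Wd S) (Bw u d Wd S) w (β ∩ Vw u d Wd S)‖ ≤ e0)) :
    av S.powerset (fun β => if E β then (1 : ℝ) else 0) ≤ 2 * θ + 2 * θ' := by
  have hk2 : k + 1 = w + 2 := by rw [hk, add_assoc]; rfl
  have hVw : Vw u d Wd S = Vin S u.P d := vw_eq hd hPW
  have hsub : ff S (st (gA (rc0 hS) H R Q pa na Ev k σ)) ⊆ S := Finset.filter_subset _ _
  have hVS : Vin S u.P d ⊆ S := Finset.filter_subset _ _
  have key : ∀ β ∈ S.powerset, (if E β then (1 : ℝ) else 0) ≤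
      ((if Nu (TlAx58.Sw Wd S) (Vw u d Wd S) (Bw u d Wd S) (w + 1) (β ∩ Vin S u.P d)
          then (1 : ℝ) else 0) +
        (if Nu (TlAx58.Sw Wd S) (Vw u d Wd S) (Bw u d Wd S) (w + 2) (Vin S u.P d \ β)
          then (1 : ℝ) else 0)) +
      ((if Fw S (Vin S u.P d) (st (gA (rc0 hS) H R Q pa na Ev k σ)) (TlAx58.Sw Wd S)
          (Vw u d Wd S) (Bw u d Wd S) e0 k
          (β ∩ ff S (st (gA (rc0 hS) H R Q pa na Ev k σ))) then (1 : ℝ) else 0) +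
        (if Fw S (Vin S u.P d) (st (gA (rc0 hS) H R Q pa na Ev k σ)) (TlAx58.Sw Wd S)
          (Vw u d Wd S) (Bw u d Wd S) e0 (k + 1)
          (ff S (st (gA (rc0 hS) H R Q pa na Ev k σ)) \ β) then (1 : ℝ) else 0)) := by
    intro β _
    refine ind4 fun hn => ?_
    have e0' : Vw u d Wd S \ (β ∩ Vw u d Wd S) = Vin S u.P d \ β := by
      rw [hVw]
      ext x
      simp only [Finset.mem_sdiff, Finset.mem_inter]
      tauto
    by_contra hc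
    rw [not_or, not_or, not_or] at hc
    obtain ⟨c1, c2, c3, c4⟩ := hc
    refine hE β hn ⟨?_, ?_, ?_, ?_⟩
    · by_contra h'
      refine c1 ?_
      unfold Nu
      rw [show β ∩ Vin S u.P d = β ∩ Vw u d Wd S by rw [hVw]]
      exact h'
    · by_contra h'
      rw [e0'] at h'
      exact c2 h'
    · by_contra h'
      rw [not_le, sA_eq Y h Hh Fa h3 β] at h'
      refine c3 ?_
      have e1 : β ∩ ff S (st (gA (rc0 hS) H R Q pa na Ev k σ)) ∩ Vin S u.P d =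
          β ∩ Vw u d Wd S := by
        rw [Finset.inter_assoc, Finset.inter_eq_right.2 hV, hVw]
      unfold Fw
      rw [e1]
      unfold Dispx798.xV at h'
      rw [← hk] at h'
      exact h'
    · by_contra h'
      rw [not_le, sB_eq Y h Hh Fa h3 β] at h'
      refine c4 ?_
      have e1 : (ff S (st (gA (rc0 hS) H R Q pa na Ev k σ)) \ β) ∩ Vin S u.P d =
          Vw u d Wd S \ (β ∩ Vw u d Wd S) := by
        rw [e0']
        ext v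
        simp only [Finset.mem_sdiff, Finset.mem_inter]
        exact ⟨fun h => ⟨h.2, h.1.2⟩, fun h => ⟨⟨hV h.1, h.2⟩, h.1⟩⟩
      unfold Fw
      rw [e1]
      unfold Dispx798.yV at h'
      rw [← hk2] at h'
      exact h'
  refine (av_mono key).trans ?_
  rw [av_add, av_add, av_add,
    av_pr hVS (Nu (TlAx58.Sw Wd S) (Vw u d Wd S) (Bw u d Wd S) (w + 1)),
    av_pr' hVS (Nu (TlAx58.Sw Wd S) (Vw u d Wd S) (Bw u d Wd S) (w + 2)),
    av_pr hsub (Fw S (Vin S u.P d) (st (gA (rc0 hS) H R Q pa na Ev k σ)) (TlAx58.Sw Wd S)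
      (Vw u d Wd S) (Bw u d Wd S) e0 k),
    av_pr' hsub (Fw S (Vin S u.P d) (st (gA (rc0 hS) H R Q pa na Ev k σ)) (TlAx58.Sw Wd S)
      (Vw u d Wd S) (Bw u d Wd S) e0 (k + 1))]
  have u0 : ∀ i, pr (Vin S u.P d) (Nu (TlAx58.Sw Wd S) (Vw u d Wd S) (Bw u d Wd S) i) ≤ θ' := by
    intro i
    have := hu i
    unfold fU at this
    rw [← hVw]
    exact this
  have u1 := u0 (w + 1)
  have u2 := u0 (w + 2)
  have u3 : pr (ff S (st (gA (rc0 hS) H R Q pa na Ev k σ))) (Fw S (Vin S u.P d)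
      (st (gA (rc0 hS) H R Q pa na Ev k σ)) (TlAx58.Sw Wd S) (Vw u d Wd S) (Bw u d Wd S) e0 k) ≤
      θ := hp k
  have u4 : pr (ff S (st (gA (rc0 hS) H R Q pa na Ev k σ))) (Fw S (Vin S u.P d)
      (st (gA (rc0 hS) H R Q pa na Ev k σ)) (TlAx58.Sw Wd S) (Vw u d Wd S) (Bw u d Wd S) e0
        (k + 1)) ≤ θ := hp (k + 1)
  linarith

/-- **the bad colourings of 737** -/
theorem bd_theta (Y : Sys (rc0 hS) H R Q pa na Ev) {σ₀ : Finset ℂ} (h : Ev i (chiS hS h3 σ₀))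
    (Hh : Hl (gA (rc0 hS) H R Q pa na Ev k (chiS hS h3 σ₀)) j)
    (Fa : Far (gA (rc0 hS) H R Q pa na Ev k (chiS hS h3 σ₀)) j)
    {u : Poly} {d e0 θ θ' : ℝ} {Wd : Set ℂ} {w : ZMod 3} (hd : 0 < d)
    (hPW : u.P ⊆ Wd) (hk : k = w + 1)
    (hV : Vin S u.P d ⊆ ff S (st (gA (rc0 hS) H R Q pa na Ev k (chiS hS h3 σ₀))))
    (hp : ∀ i : ZMod 3, pr (ff S (st (gA (rc0 hS) H R Q pa na Ev k (chiS hS h3 σ₀))))
      (fun β => e0 < ‖hv S (st (gA (rc0 hS) H R Q pa na Ev k (chiS hS h3 σ₀))) i (β : Set ℂ) -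
        zV (TlAx58.Sw Wd S) (Vw u d Wd S) (Bw u d Wd S) i
          ((β ∩ Vin S u.P d : Finset ℂ) : Set ℂ) id‖) ≤ θ)
    (hu : ∀ i, fU u d Wd i S ≤ θ') :
    av S.powerset (fun τ =>
      if NearGx737.Bd hS h3 H R Q pa na Ev k u d Wd w e0 σ₀ τ then (1 : ℝ) else 0) ≤
      2 * θ + 2 * θ' :=
  bd_le Y h Hh Fa h3 hd hPW hk hV hp hu
    (E := NearGx737.Bd hS h3 H R Q pa na Ev k u d Wd w e0 σ₀) fun _ hb => hb

open Crest.Agent.R143.Layx416 (al)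
open Crest.Agent.R143.LayUx416 (LayU)
open Crest.Agent.R143.Locx922 (Hol)
open Crest.Agent.R143.LocUx700 (deep)
open Crest.Agent.R143.TlAx58 (ta tb gt)
open Crest.Agent.R143.IndLoc3x279 (clr)
open Crest.Agent.R143.CorMx970 (far)

/-- **the field `hθ` of `Quen`** from 358's system, 166's `Hx`, 930's comparison -/
theorem near_pr (Y : Sys (rc0 hS) H R Q pa na Ev)
    (hH : ∀ c : Cs hS, ∀ v, OnHull S v → c.1 = Quot.mk (hullE S) v → c ∈ H)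
    (hZ : ∀ i σ, Ev i σ → ∀ c ∈ H, c ∉ ac (rc0 hS) (pa i σ) (na i σ) σ)
    {u : Poly} {m M : ℕ} {p W : ℤ → ℤ × ℤ} {A e : ℤ → ℤ} {h d e0 ρ0 θ θ' : ℝ} {w : ZMod 3}
    {Wd : Set ℂ} {B : ℕ → Set ℂ} {m' : ℕ} {F : ℕ → Set (D0 S)} (hk : k = w + 1)
    (HL : LayU u m M p W A e) (hh : (m : ℝ) * h = u.s) (hd : 0 < d) (hPW : u.P ⊆ Wd)
    (hHol : Hol (S : Set ℂ) (deep u.P d) d)
    (hB : ∀ j < Layx416.nn A e w, ∀ v ∈ B j, dist (gt h W A e w j) v ≤ ρ0)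
    {r : ℕ} (hr : 2 * (r : ℤ) + 4 ≤ m) (hr7 : (r : ℤ) + 7 ≤ m)
    (hρ : ρ0 + (8 * h + 2 * d) + e0 < r * h) {g : Set (ℂ × Bool) → ℝ}
    (hg : ∀ σ ∈ S.powerset, 0 < g (clr S σ) → Hx (rc0 hS) pa na Ev (Layx416.nn A e w) m' F
      (TlRx709.tl hS B (Layx416.nn A e w)) (chiS hS h3 σ))
    (hs : ∀ σ ∈ S.powerset, 0 < g (clr S σ) →
      ∃ i, Ev i (chiS hS h3 σ) ∧ ∀ t ≤ na i (chiS hS h3 σ), ∃ j < Layx416.nn A e w,
        rep hS ((rc0 hS).cell (P (rc0 hS) (cfg (rc0 hS) (chiS hS h3 σ))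
          (pa i (chiS hS h3 σ)) t)) ∈ B (Layx416.nn A e w - 1 - j))
    (hC : ∀ σ ∈ S.powerset, 0 < g (clr S σ) →
      Vin S u.P d ⊆ ff S (st (gA (rc0 hS) H R Q pa na Ev k (chiS hS h3 σ))) ∧
      ∀ i : ZMod 3, pr (ff S (st (gA (rc0 hS) H R Q pa na Ev k (chiS hS h3 σ))))
        (fun β => e0 < ‖hv S (st (gA (rc0 hS) H R Q pa na Ev k (chiS hS h3 σ))) i (β : Set ℂ) -
          zV (TlAx58.Sw Wd S) (Vw u d Wd S) (Bw u d Wd S) i
            ((β ∩ Vin S u.P d : Finset ℂ) : Set ℂ) id‖) ≤ θ)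
    (hu : ∀ i, fU u d Wd i S ≤ θ') :
    ∀ σ ∈ S.powerset, 0 < g (clr S σ) → av S.powerset (far (2 * r + 2)
      (fun σ τ => ka (rc0 hS) H R Q pa na Ev (Layx416.nn A e w) m' F
        (TlRx709.tl hS B (Layx416.nn A e w)) (chiS hS h3 σ) (chiS hS h3 τ))
      (fun σ τ => kb (rc0 hS) H R Q pa na Ev (Layx416.nn A e w) m' F
        (TlRx709.tl hS B (Layx416.nn A e w)) (chiS hS h3 σ) (chiS hS h3 τ))
      (fun τ => Layx416.nn A e w - tb u d h Wd W A e w (clr S τ))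
      (fun τ => Layx416.nn A e w - ta u d h Wd W A e w (clr S τ)) σ) ≤ 2 * θ + 2 * θ' := by
  refine NearGx737.near hS h3 (k := k) Y HL hh hd hPW hHol hB hr hr7 hρ hg hs
    fun σ hσ h0 => ?_
  obtain ⟨i, hi, -⟩ := hs σ hσ h0
  obtain ⟨c1, c2⟩ := hC σ hσ h0
  exact bd_theta Y hi (GoodAx654.hl_gA Y hH hi (hZ i _ hi)) (GoodAx654.far_gA Y hH hi (hZ i _ hi))
    hd hPW hk c1 c2 hu

end

section con

open MeasureTheory
open Crest.Agent.R143.Layx416 (al)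
open Crest.Agent.R143.LayUx416 (LayU)
open Crest.Agent.R143.Locx922 (Hol)
open Crest.Agent.R143.LocUx700 (deep)
open Crest.Agent.R143.TlAx58 (ta tb gt)
open Crest.Agent.R143.IndLoc3x279 (clr)
open Crest.Agent.R143.CorMx970 (far)
open Crest.Agent.R143.CorEx133 (SU)
open Crest.Agent.R143.R10Nx930 (Con Du)

/-- **the field `hθ` of `Quen` from 930's `Con`** -/
theorem near_con {u : Poly} {ε : ℝ} {ω : Sample} {hS : GP (SU u ε ω : Set ℂ)}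
    {h3 : 3 ≤ (SU u ε ω).card} {H R : Set (Cs hS)} {Q : Set (D0 (SU u ε ω))} {ι : Type}
    {pa : ι → (Cs hS → ZMod 2) → D0 (SU u ε ω)} {na : ι → (Cs hS → ZMod 2) → ℕ}
    {Ev : ι → (Cs hS → ZMod 2) → Prop} {k : ZMod 3} (Y : Sys (rc0 hS) H R Q pa na Ev)
    (hH : ∀ c : Cs hS, ∀ v, OnHull (SU u ε ω) v → c.1 = Quot.mk (hullE (SU u ε ω)) v → c ∈ H)
    (hZ : ∀ i σ, Ev i σ → ∀ c ∈ H, c ∉ ac (rc0 hS) (pa i σ) (na i σ) σ)
    {m M : ℕ} {p W : ℤ → ℤ × ℤ} {A e : ℤ → ℤ} {h e0 ρ0 C c K : ℝ} {w : ZMod 3}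
    {Wd : Set ℂ} {B : ℕ → Set ℂ} {m' : ℕ} {F : ℕ → Set (D0 (SU u ε ω))} (hk : k = w + 1)
    (HL : LayU u m M p W A e) (hh : (m : ℝ) * h = u.s) (hε : 0 < ε) (hPW : u.P ⊆ Wd)
    (hHol : Hol (SU u ε ω : Set ℂ) (deep u.P √ε) √ε)
    (hB : ∀ j < Layx416.nn A e w, ∀ v ∈ B j, dist (gt h W A e w j) v ≤ ρ0)
    {r : ℕ} (hr : 2 * (r : ℤ) + 4 ≤ m) (hr7 : (r : ℤ) + 7 ≤ m)
    (hρ : ρ0 + (8 * h + 2 * √ε) + e0 < r * h) (he1 : 16 * h ≤ e0) (he2 : e0 ≤ Du u K)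
    {g : Set (ℂ × Bool) → ℝ}
    (hg : ∀ σ ∈ (SU u ε ω).powerset, 0 < g (clr (SU u ε ω) σ) →
      Hx (rc0 hS) pa na Ev (Layx416.nn A e w) m' F
        (TlRx709.tl hS B (Layx416.nn A e w)) (chiS hS h3 σ))
    (hs : ∀ σ ∈ (SU u ε ω).powerset, 0 < g (clr (SU u ε ω) σ) →
      ∃ i, Ev i (chiS hS h3 σ) ∧ ∀ t ≤ na i (chiS hS h3 σ), ∃ j < Layx416.nn A e w,
        rep hS ((rc0 hS).cell (P (rc0 hS) (cfg (rc0 hS) (chiS hS h3 σ))
          (pa i (chiS hS h3 σ)) t)) ∈ B (Layx416.nn A e w - 1 - j))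
    (hC : ∀ σ ∈ (SU u ε ω).powerset, 0 < g (clr (SU u ε ω) σ) →
      Vin (SU u ε ω) u.P √ε ⊆
        ff (SU u ε ω) (st (gA (rc0 hS) H R Q pa na Ev k (chiS hS h3 σ))) ∧
      Con C c K u ε h ω (st (gA (rc0 hS) H R Q pa na Ev k (chiS hS h3 σ))) Wd) :
    ∀ σ ∈ (SU u ε ω).powerset, 0 < g (clr (SU u ε ω) σ) →
      av (SU u ε ω).powerset (far (2 * r + 2)
      (fun σ τ => ka (rc0 hS) H R Q pa na Ev (Layx416.nn A e w) m' F
        (TlRx709.tl hS B (Layx416.nn A e w)) (chiS hS h3 σ) (chiS hS h3 τ))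
      (fun σ τ => kb (rc0 hS) H R Q pa na Ev (Layx416.nn A e w) m' F
        (TlRx709.tl hS B (Layx416.nn A e w)) (chiS hS h3 σ) (chiS hS h3 τ))
      (fun τ => Layx416.nn A e w - tb u √ε h Wd W A e w (clr (SU u ε ω) τ))
      (fun τ => Layx416.nn A e w - ta u √ε h Wd W A e w (clr (SU u ε ω) τ)) σ) ≤
      2 * (C * ((16 * h / e0) ^ c + (h / Du u K) ^ c)) + 2 * (C * (h / Du u K) ^ c) := by
  intro σ hσ h0
  exact near_pr Y hH hZ hk HL hh (Real.sqrt_pos.2 hε) hPW hHol hB hr hr7 hρ hg hs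
    (fun σ hσ h0 => ⟨(hC σ hσ h0).1, ((hC σ hσ h0).2.1 e0 he1 he2).2⟩)
    ((hC σ hσ h0).2.2) σ hσ h0

end con

end Crest.Agent.R143.NearCx139
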