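import Crest.Agent.R143.RigD_654
import Crest.Agent.R143.LimS_133
import Crest.Agent.R143.MeasD_609
import Crest.Agent.R143.PolyE_854

/-!
# Row 143 (S0194), CORE-C, RIG: from the data of the corridors to `POLY` (helper970)

* `Box` : data of one corridor (one polygon, one type, one width, one mesh): 279's `Inp`, `Quen`
  (654) at the good environments, moments, means, displacement; `Box.l1d` : the `L¹` bound with
  970's total error
* `Bx u i ε κ η` : there is a box for the type `i` of the polygon `u` (totals of the points in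
  `u.P`, 609) with total error `≤ η`
* **`poly_of_box`** : `Bx` for every polygon, type and `η`, eventually in the width, then the mesh,
  common `κ` ⟹ `POLY Poly.T Poly.T'`
* `tot_le` : the total error from the parameters
-/

set_option autoImplicit false

noncomputable section

open scoped Classical

namespace Crest.Agent.R143.RigFx970

open Complex Set Filter Topology MeasureTheory
open scoped ENNReal
open Crest.ProbabilityR.Voronoi
open Crest.Agent.R143.B0x346 Crest.Agent.R143.PP0x831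
open Crest.Agent.R143.AsmNx758 (POLY)
open Crest.Agent.R143.CorMx970 (tot Env EnvF)
open Crest.Agent.R143.EnvIx279 Crest.Agent.R143.IndLoc2x279 Crest.Agent.R143.RigDx654
open Crest.Agent.R143.IndLocx279
open Crest.Agent.R143.PolyEx854 (L1D polyP_of_l1k poly_of_l1 dl_max0)
open Crest.Agent.R143.PolySx854 (DL)
open Crest.Agent.R143.PolyUx346 (Poly)
open Crest.Agent.R143.MeasDx609 (mI aI bI DI rlI poly_of_in sig_mI sig_aI)
open Crest.Agent.R143.Alg4x133 (Rl omz0 omz1 omz2 norm_om norm_omz)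

lemma probS : IsProbabilityMeasure sampleLaw := by unfold sampleLaw; infer_instance

attribute [local instance] probS

/-- **data of one corridor** (one polygon, one type, one width, one mesh) -/
structure Box (ε : ℝ) (C U : Set ℂ) (n r c : ℕ) (J : Finset ℕ) (S : Sample → Finset ℂ)
    (g : Set (ℂ × Bool) → ℝ) (V : ℕ → Set (ℂ × Bool) → ℂ) (a b : Set (ℂ × Bool) → ℕ)
    (t κ : ℂ) (z : ℕ → ℂ) (T D : Sample → ℂ) (M a1 a2 K q cD θ ρ : ℝ) (bad : Set Sample)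
    (E1 Q dd : Sample → ℝ) : Prop where
  inp : Inp ε C U n S g V a b
  J_le : J ⊆ Finset.range n
  g0_pos : 0 < ∫ ω, g (cfg ε ω) ∂sampleLaw
  tn : ‖t‖ = 1
  K0 : 0 ≤ K
  a20 : 0 ≤ a2
  θ0 : 0 ≤ θ
  q0 : 0 ≤ q
  hbad : sampleLaw.real bad ≤ ρ * ∫ ω, g (cfg ε ω) ∂sampleLaw
  quen : ∀ᵐ ω ∂sampleLaw, ω ∉ bad → ∃ (Vβ Vγ : Finset ℂ → Finset ℂ → ℂ) (TK : Finset ℂ → ℂ)
    (W : ℕ → Finset ℂ → Finset ℂ → ℂ) (ka kb : Finset ℂ → Finset ℂ → ℕ),
    Quen n r c (S ω) g V a b t (T ω) (E1 ω) a2 θ (Q ω) Vβ Vγ TK W ka kb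
  E0 : ∀ ω, 0 ≤ E1 ω
  i1 : Integrable E1 sampleLaw
  e1 : ∫ ω, E1 ω ∂sampleLaw ≤ a1 * ∫ ω, g (cfg ε ω) ∂sampleLaw
  Q0 : ∀ ω, 0 ≤ Q ω
  iQ : Integrable Q sampleLaw
  eQ : 2 * c * ∫ ω, Q ω ∂sampleLaw ≤ q ^ 2 * ∫ ω, g (cfg ε ω) ∂sampleLaw
  e3 : ∀ l ∈ Finset.range n, ∫ ω, g (cfg ε ω) * ‖V l (cfg ε ω)‖ ^ 2 ∂sampleLaw ≤
    K ^ 2 * ∫ ω, g (cfg ε ω) ∂sampleLaw
  mean : ∀ l ∈ J, ∫ ω, (g (cfg ε ω) : ℂ) * V l (cfg ε ω) ∂sampleLaw =
    ((∫ ω, g (cfg ε ω) ∂sampleLaw : ℝ) : ℂ) * (κ * z l)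
  hT : Measurable[sig ε U] T
  Tb : ∀ ω, ‖T ω‖ ≤ M
  hD : Measurable[sig ε U] D
  iD : Integrable D sampleLaw
  idd : Integrable dd sampleLaw
  edd : ∫ ω, dd ω ∂sampleLaw ≤ cD
  disp : ∀ᵐ ω ∂sampleLaw, ‖D ω - ∑ l ∈ J, z l * (qo S a b l ω : ℂ)‖ ≤ dd ω

namespace Box

variable {ε : ℝ} {C U : Set ℂ} {n r c : ℕ} {J : Finset ℕ} {S : Sample → Finset ℂ}
  {g : Set (ℂ × Bool) → ℝ} {V : ℕ → Set (ℂ × Bool) → ℂ} {a b : Set (ℂ × Bool) → ℕ}
  {t κ : ℂ} {z : ℕ → ℂ} {T D : Sample → ℂ} {M a1 a2 K q cD θ ρ : ℝ} {bad : Set Sample}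
  {E1 Q dd : Sample → ℝ}

/-- **the `L¹` bound of one corridor** -/
theorem l1d (h : Box ε C U n r c J S g V a b t κ z T D M a1 a2 K q cD θ ρ bad E1 Q dd) :
    L1D t κ T D (tot n (r + c) J a1 (a2 + M * ρ) K q q cD θ ρ ‖κ‖) := by
  have hg := h.g0_pos
  have hM : 0 ≤ M := (norm_nonneg _).trans (h.Tb (Classical.choice (nonempty_of_isProbabilityMeasure sampleLaw)))
  have hρ : 0 ≤ ρ := by
    by_contra hc
    have h1 : ρ * ∫ ω, g (cfg ε ω) ∂sampleLaw < 0 := mul_neg_of_neg_of_pos (not_le.1 hc) hg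
    have h2 : 0 ≤ sampleLaw.real bad := measureReal_nonneg
    linarith [h.hbad]
  have hbad' : sampleLaw.real (LimSx133.msb bad) ≤ ρ * ∫ ω, g (cfg ε ω) ∂sampleLaw := by
    rw [LimSx133.msb_real]; exact h.hbad
  have mb := LimSx133.msb_meas bad
  have hE2 := E2_int (g := g) (S := S) (a2 := a2) hM mb hbad' h.inp.iG h.inp.eG
  have good : ∀ᵐ ω ∂sampleLaw, ω ∉ LimSx133.msb bad → Good n (r + c) S g V a b t (T ω) (E1 ω) a2 θ
      (2 * c * Q ω) (2 * c * Q ω) ω := by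
    filter_upwards [h.quen] with ω h1 h2
    obtain ⟨Vβ, Vγ, TK, W, ka, kb, h3⟩ := h1 fun h4 => h2 (LimSx133.sub_msb bad h4)
    exact h3.good h.tn h.inp.g0
  have hmain := main_of (M := M) (E1 := E1) h.tn h.inp.g0 h.inp.g1 h.a20 h.θ0 h.E0 h.Tb good
  have c0 : (0 : ℝ) ≤ 2 * c := by positivity
  have iQ' : Integrable (fun ω => 2 * (c : ℝ) * Q ω) sampleLaw := h.iQ.const_mul _
  have eQ' : ∫ ω, 2 * (c : ℝ) * Q ω ∂sampleLaw ≤ q ^ 2 * ∫ ω, g (cfg ε ω) ∂sampleLaw := by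
    rw [integral_const_mul]; exact h.eQ
  have henv := h.inp.env (r := r + c) (T := T) (D := D) (dd := dd) (c := cD) (B := M) h.J_le hg
    h.K0 h.θ0 hρ h.q0 h.q0 h.tn mb hbad' hmain h.i1 h.e1 hE2.1 hE2.2 h.e3 iQ'
    (fun ω => mul_nonneg c0 (h.Q0 ω)) eQ' iQ' (fun ω => mul_nonneg c0 (h.Q0 ω)) eQ' h.mean h.hT
    h.Tb h.iD h.idd h.edd h.disp
  exact ⟨henv.iT, henv.iD, h.inp.l1 rfl rfl henv h.hT h.Tb h.hD⟩

end Box

/-! ### the totals of 609 -/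

/-- total of the points in `u.P` -/
def TI (u : Poly) (ε : ℝ) (ω : Sample) : ℂ := ∑ j : ZMod 3, omz j * mI u ε j id ω

/-- displacement between the touches of the type `i` -/
def dis (u : Poly) (ε : ℝ) (i : ZMod 3) (ω : Sample) : ℂ :=
  mI u ε i id ω - mI u ε (i + 1) id ω

theorem TI_eq (u : Poly) (ε : ℝ) (ω : Sample) : TI u ε ω = -aI u ε ω := by
  unfold TI aI; rw [neg_neg]

theorem dis_eq (u : Poly) (ε : ℝ) (i : ZMod 3) (ω : Sample) :
    dis u ε i ω = -DI u ε ω (i + 2) := by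
  have e1 : i + 2 + 2 = i + 1 := by revert i; decide
  have e2 : i + 2 + 1 = i := by revert i; decide
  unfold dis DI
  rw [e1, e2]
  ring

theorem om_cube : om ^ 3 = 1 := RigCx654.om_cube

theorem omz_phase (i : ZMod 3) : omz (i + 2) ^ 2 = om * omz (-i) := by
  have h3 := om_cube
  have c : i = 0 ∨ i = 1 ∨ i = 2 := by revert i; decide
  rcases c with rfl | rfl | rfl
  · rw [show (0 : ZMod 3) + 2 = 2 by decide, show -(0 : ZMod 3) = 0 by decide, omz0, omz2]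
    linear_combination om * h3
  · rw [show (1 : ZMod 3) + 2 = 0 by decide, show -(1 : ZMod 3) = 2 by decide, omz0, omz2]
    linear_combination -h3
  · rw [show (2 : ZMod 3) + 2 = 1 by decide, show -(2 : ZMod 3) = 1 by decide, omz1]
    ring

/-- phases: 854's form for the white class `i + 2` -/
theorem l1d_conv {u : Poly} {ε : ℝ} {i : ZMod 3} {κ : ℂ} {e : ℝ}
    (h : L1D (omz (-i)) κ (TI u ε) (dis u ε i) e) :
    L1D (omz (i + 2) ^ 2) (om * κ) (aI u ε) (fun ω => DI u ε ω (i + 2)) e := by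
  have ea : aI u ε = fun ω => -TI u ε ω := by funext ω; rw [TI_eq, neg_neg]
  have ed : (fun ω => DI u ε ω (i + 2)) = fun ω => -dis u ε i ω := by
    funext ω; rw [dis_eq, neg_neg]
  rw [ea, ed]
  refine ⟨h.iT.neg, h.iD.neg, le_trans (le_of_eq ?_) h.le⟩
  refine integral_congr_ae (ae_of_all _ fun ω => ?_)
  simp only
  rw [omz_phase, show om * omz (-i) * -TI u ε ω + om * κ * -dis u ε i ω =
    -(om * (omz (-i) * TI u ε ω + κ * dis u ε i ω)) by ring, norm_neg, norm_mul, norm_om, one_mul]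

/-! ### POLY -/

/-- a corridor for the type `i` of the polygon `u`, total error `≤ η` -/
def Bx (u : Poly) (i : ZMod 3) (ε : ℝ) (κ : ℂ) (η : ℝ) : Prop :=
  ∃ (C U : Set ℂ) (n r c : ℕ) (J : Finset ℕ) (S : Sample → Finset ℂ)
    (g : Set (ℂ × Bool) → ℝ) (V : ℕ → Set (ℂ × Bool) → ℂ) (a b : Set (ℂ × Bool) → ℕ)
    (z : ℕ → ℂ) (M a1 a2 K q cD θ ρ : ℝ) (bad : Set Sample) (E1 Q dd : Sample → ℝ),
    Box ε C U n r c J S g V a b (omz (-i)) κ z (TI u ε) (dis u ε i) M a1 a2 K q cD θ ρ bad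
      E1 Q dd ∧ tot n (r + c) J a1 (a2 + M * ρ) K q q cD θ ρ ‖κ‖ ≤ η

theorem Bx.l1d {u : Poly} {i : ZMod 3} {ε η : ℝ} {κ : ℂ} (h : Bx u i ε κ η) :
    L1D (omz (-i)) κ (TI u ε) (dis u ε i) η := by
  obtain ⟨C, U, n, r, c, J, S, g, V, a, b, z, M, a1, a2, K, q, cD, θ, ρ, bad, E1, Q, dd, h1, h2⟩ := h
  exact h1.l1d.mono h2

variable {I : Type}

/-- from `L¹` bounds with arbitrarily small errors -/
theorem poly_of_l {𝓁 : Filter I} [𝓁.NeBot] {κ : I → ℝ → ℂ}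
    (h : ∀ (u : Poly) (i : ZMod 3), ∀ η > 0, ∀ᶠ N in 𝓁, ∀ᶠ ε : ℝ in 𝓝[>] 0,
      L1D (omz (-i)) (κ N ε) (TI u ε) (dis u ε i) η) : POLY Poly.T Poly.T' := by
  refine poly_of_in ?_
  have h1 : ∀ (u : Poly) (k : ZMod 3), ∀ η > 0, ∀ᶠ N in 𝓁, ∀ᶠ ε : ℝ in 𝓝[>] 0,
      L1D (omz k ^ 2) (om * κ N ε) (aI u ε) (fun ω => DI u ε ω k) η := by
    intro u k η hη
    filter_upwards [h u (k + 1) η hη] with N h1
    filter_upwards [h1] with ε h2
    have h3 := l1d_conv h2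
    have e : k + 1 + 2 = k := by
      clear h3 h2 h1
      revert k; decide
    rw [e] at h3
    exact h3
  set e : Poly → I → ℝ → ℝ := fun u N ε => ∑ k ∈ (Finset.univ : Finset (ZMod 3)),
    ∫ ω, ‖omz k ^ 2 * aI u ε ω + om * κ N ε * DI u ε ω k‖ ∂sampleLaw with he
  refine poly_of_l1 (𝓁 := 𝓁) (κ := fun N ε => om * κ N ε) (D := fun u ε ω k => DI u ε ω k)
    (e := e) (fun u => PolySx854.DL.sum _ fun k _ => ?_) (fun u => ?_) ?_
  · intro η hη
    filter_upwards [h1 u k η hη] with N h2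
    filter_upwards [h2] with ε h3
    exact h3.le
  · have h2 : ∀ᶠ N in 𝓁, ∀ k : ZMod 3, ∀ᶠ ε : ℝ in 𝓝[>] 0,
        L1D (omz k ^ 2) (om * κ N ε) (aI u ε) (fun ω => DI u ε ω k) 1 :=
      Filter.eventually_all.2 fun k => h1 u k 1 one_pos
    filter_upwards [h2] with N h3
    filter_upwards [Filter.eventually_all.2 h3] with ε h4 k
    refine ⟨(h4 k).iT, (h4 k).iD, ?_⟩
    exact Finset.single_le_sum
      (f := fun k => ∫ ω, ‖omz k ^ 2 * aI u ε ω + om * κ N ε * DI u ε ω k‖ ∂sampleLaw)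
      (fun k _ => integral_nonneg fun ω => norm_nonneg _) (Finset.mem_univ k)
  · intro u η hη
    refine Eventually.of_forall fun ε => ?_
    have h2 : {ω | ¬ Rl (aI u ε ω) (bI u ε ω) (DI u ε ω)} = ∅ := by
      rw [Set.eq_empty_iff_forall_notMem]
      exact fun ω hω => hω (rlI u ε ω)
    rw [h2]
    simp

/-- **RIG ⟹ POLY**: corridors with arbitrarily small total error -/
theorem poly_of_box {𝓁 : Filter I} [𝓁.NeBot] {κ : I → ℝ → ℂ}
    (h : ∀ (u : Poly) (i : ZMod 3), ∀ η > 0, ∀ᶠ N in 𝓁, ∀ᶠ ε : ℝ in 𝓝[>] 0,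
      Bx u i ε (κ N ε) η) : POLY Poly.T Poly.T' := by
  refine poly_of_l (𝓁 := 𝓁) (κ := κ) fun u i η hη => ?_
  filter_upwards [h u i η hη] with N h1
  filter_upwards [h1] with ε h2
  exact h2.l1d

/-! ### the total error -/

/-- the total error from the parameters: `K = C1 h`, `n h ≤ C2`, `r + c ≤ R`, ... -/
theorem tot_le {n r : ℕ} {J : Finset ℕ} {a1 a2 K q q' c θ ρ κn η : ℝ} (h1 : a1 ≤ η / 8)
    (h2 : a2 ≤ η / 8) (h3 : K * (2 * (2 * r + 1)) ≤ η / 8) (h4 : n * (K * (θ + √ρ)) ≤ η / 8)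
    (h5 : q ≤ η / 8) (h6 : q' ≤ η / 8) (h7 : (n - J.card) * K ≤ η / 8) (h8 : κn * c ≤ η / 8) :
    tot n r J a1 a2 K q q' c θ ρ κn ≤ η := by
  unfold tot
  linarith

end Crest.Agent.R143.RigFx970
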