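import Crest.Agent.R143.HqP_304
import Crest.Agent.R143.LimS_133
import Crest.Agent.R143.RigF_970

/-!
# Row 143 (S0194), CORE-C, RIG: fields `Q0`, `iQ`, `eQ`, `V2`, `e3` of 970's `Box` (helper304)

In 133's real weight `gR`; `μ` = lower bound of the mass of the windows.
* `fields` : `Q := Qt`; `2 c ∫ Q ≤ q² g0` if `2 c n K C s² / μ ≤ q²`; `∫ gR |V|² ≤ K₁² g0` if
  `K C s² / μ ≤ K₁²`
* `fields_h` : squares of side `2 h`, `n h ≤ N₀` : `q = √(8 c N₀ K C / μ * h)`,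
  `K₁ = √(4 K C / μ) * h`
* `mm_ge` : `cc ^ (m + 1) c0 ^ m ≤ mm`
* `quen_Q` : hypothesis `hQ` of `Quen` from the quenched inequalities of the windows
-/

set_option autoImplicit false
set_option linter.unusedSectionVars false

noncomputable section

namespace Crest.Agent.R143.HqEx304

open MeasureTheory Set Filter Topology
open Crest.ProbabilityR.Voronoi
open Crest.Agent.R143.PP0x831 Crest.Agent.R143.Poisx304
open Crest.Agent.R143.ColSumx304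
open Crest.Agent.R143.Dblx609 Crest.Agent.R143.Dbl2x609
open Crest.Agent.R143.IndLocx279 Crest.Agent.R143.PWx978 Crest.Agent.R143.Tplx978
open Crest.Agent.R143.TilePx176 Crest.Agent.R143.TileRx176
open Crest.Agent.R143.Hqx304 Crest.Agent.R143.HqPx304 Crest.Agent.R143.LimSx133
open Crest.Agent.R143.IndLoc3x279 (clr cav)
open Crest.Agent.R143.CorMx970 (av)
open scoped ENNReal

/-- **fields `Q0`, `iQ`, `eQ`, `V2`, `e3`** -/
theorem fields : ∃ C : ℝ, 0 ≤ C ∧ ∀ {ε d s : ℝ} {ι κ : Type} [DecidableEq ι] [DecidableEq κ]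
    {M : Net ε ι κ} {I : Finset ι} {J : Finset κ} {n : ℕ} {I₁ : ℕ → Finset ι}
    {J₁ : ℕ → Finset κ} {D : ℕ → Set ℂ} {B : Set ℂ} {m0 : ℝ≥0∞},
    Wnd M I J n I₁ J₁ D d s B m0 → ∀ {μ K : ℝ}, 0 < μ → μ ≤ m0.toReal → 0 ≤ K →
    ((∀ ω, 0 ≤ Qt M I J n I₁ J₁ D d B K ω) ∧
      Integrable (Qt M I J n I₁ J₁ D d B K) sampleLaw ∧
      ∀ (c : ℕ) (q : ℝ), 2 * c * (n * (K * (C * s ^ 2 / μ))) ≤ q ^ 2 →
        2 * c * ∫ ω, Qt M I J n I₁ J₁ D d B K ω ∂sampleLaw ≤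
          q ^ 2 * ∫ ω, gR M I J (cfg ε ω) ∂sampleLaw) ∧
    ∀ l < n, ∀ V : Set (ℂ × Bool) → ℂ, LocalOn B V → FinMeas V →
      (∀ᵐ ω ∂sampleLaw, ∑ β ∈ (Ap ε B ω).powerset,
        (M.gw (I \ I₁ l) (J \ J₁ l) (paint (Ap ε B ω) β)).toReal *
          ((win M (I₁ l) (J₁ l) (paint (Ap ε B ω) β)).toReal * ‖V (paint (Ap ε B ω) β)‖ ^ 2) ≤
        K * ∑ β ∈ (Ap ε B ω).powerset, (M.gw (I \ I₁ l) (J \ J₁ l) (paint (Ap ε B ω) β)).toReal *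
          (Hd (D l) d (paint (Ap ε B ω) β)).toReal) →
      Integrable (fun ω => gR M I J (cfg ε ω) * ‖V (cfg ε ω)‖ ^ 2) sampleLaw ∧
      ∀ K₁ : ℝ, K * (C * s ^ 2 / μ) ≤ K₁ ^ 2 →
        ∫ ω, gR M I J (cfg ε ω) * ‖V (cfg ε ω)‖ ^ 2 ∂sampleLaw ≤
          K₁ ^ 2 * ∫ ω, gR M I J (cfg ε ω) ∂sampleLaw := by
  obtain ⟨C1, hC1, h1⟩ := Qt_bound
  obtain ⟨C2, hC2, h2⟩ := V2_bound
  refine ⟨max C1 C2, hC1.trans (le_max_left _ _), ?_⟩
  intro ε d s ι κ _ _ M I J n I₁ J₁ D B m0 h μ K hμ hm hK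
  have e0 := int_gR M h.hN (I := I) (J := J)
  have g0 : 0 ≤ (∫⁻ ω, M.gw I J (cfg ε ω) ∂sampleLaw).toReal := ENNReal.toReal_nonneg
  have hm0 : 0 < m0.toReal := hμ.trans_le hm
  have key : ∀ C', 0 ≤ C' → C' ≤ max C1 C2 →
      K * (C' * s ^ 2 / m0.toReal) ≤ K * (max C1 C2 * s ^ 2 / μ) := by
    intro C' h0 hC'
    refine mul_le_mul_of_nonneg_left ?_ hK
    have : (0 : ℝ) ≤ s ^ 2 := sq_nonneg s
    exact div_le_div₀ (mul_nonneg (h0.trans hC') this) (mul_le_mul_of_nonneg_right hC' this)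
      hμ hm
  constructor
  · obtain ⟨i1, i2⟩ := h1 h K hK
    refine ⟨fun ω => Qt_nonneg hK ω, i1, fun c q hq => ?_⟩
    rw [e0]
    have c0 : (0 : ℝ) ≤ 2 * c := by positivity
    have n0 : (0 : ℝ) ≤ n := Nat.cast_nonneg n
    calc 2 * c * ∫ ω, Qt M I J n I₁ J₁ D d B K ω ∂sampleLaw
        ≤ 2 * c * (n * (K * (C1 * s ^ 2 / m0.toReal)) *
          (∫⁻ ω, M.gw I J (cfg ε ω) ∂sampleLaw).toReal) := mul_le_mul_of_nonneg_left i2 c0
      _ = 2 * c * (n * (K * (C1 * s ^ 2 / m0.toReal))) *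
          (∫⁻ ω, M.gw I J (cfg ε ω) ∂sampleLaw).toReal := by ring
      _ ≤ 2 * c * (n * (K * (max C1 C2 * s ^ 2 / μ))) *
          (∫⁻ ω, M.gw I J (cfg ε ω) ∂sampleLaw).toReal := by
          refine mul_le_mul_of_nonneg_right ?_ g0
          exact mul_le_mul_of_nonneg_left
            (mul_le_mul_of_nonneg_left (key C1 hC1 (le_max_left _ _)) n0) c0
      _ ≤ q ^ 2 * (∫⁻ ω, M.gw I J (cfg ε ω) ∂sampleLaw).toReal :=
          mul_le_mul_of_nonneg_right hq g0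
  · intro l hl V hVl hVm hV
    obtain ⟨i1, i2⟩ := h2 h l hl K hK V hVl hVm hV
    have e1 : (fun ω => gR M I J (cfg ε ω) * ‖V (cfg ε ω)‖ ^ 2) =
        fun ω => (M.gw I J (cfg ε ω)).toReal * ‖V (cfg ε ω)‖ ^ 2 := by
      funext ω
      rw [gR_cfg M h.hN]
    rw [e1, e0]
    refine ⟨i1, fun K₁ hK₁ => i2.trans (mul_le_mul_of_nonneg_right ?_ g0)⟩
    exact (key C2 hC2 (le_max_right _ _)).trans hK₁

/-- **the fields with `s = 2 h`, `n h ≤ N₀`** -/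
theorem fields_h : ∃ C : ℝ, 0 ≤ C ∧ ∀ {ε d h : ℝ} {ι κ : Type} [DecidableEq ι] [DecidableEq κ]
    {M : Net ε ι κ} {I : Finset ι} {J : Finset κ} {n : ℕ} {I₁ : ℕ → Finset ι}
    {J₁ : ℕ → Finset κ} {D : ℕ → Set ℂ} {B : Set ℂ} {m0 : ℝ≥0∞},
    Wnd M I J n I₁ J₁ D d (2 * h) B m0 → ∀ {μ K N₀ : ℝ}, 0 < μ → μ ≤ m0.toReal → 0 ≤ K →
    0 ≤ h → n * h ≤ N₀ →
    ((∀ ω, 0 ≤ Qt M I J n I₁ J₁ D d B K ω) ∧
      Integrable (Qt M I J n I₁ J₁ D d B K) sampleLaw ∧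
      ∀ c : ℕ, 2 * c * ∫ ω, Qt M I J n I₁ J₁ D d B K ω ∂sampleLaw ≤
          √(8 * c * N₀ * K * C / μ * h) ^ 2 * ∫ ω, gR M I J (cfg ε ω) ∂sampleLaw) ∧
    ∀ l < n, ∀ V : Set (ℂ × Bool) → ℂ, LocalOn B V → FinMeas V →
      (∀ᵐ ω ∂sampleLaw, ∑ β ∈ (Ap ε B ω).powerset,
        (M.gw (I \ I₁ l) (J \ J₁ l) (paint (Ap ε B ω) β)).toReal *
          ((win M (I₁ l) (J₁ l) (paint (Ap ε B ω) β)).toReal * ‖V (paint (Ap ε B ω) β)‖ ^ 2) ≤
        K * ∑ β ∈ (Ap ε B ω).powerset, (M.gw (I \ I₁ l) (J \ J₁ l) (paint (Ap ε B ω) β)).toReal *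
          (Hd (D l) d (paint (Ap ε B ω) β)).toReal) →
      Integrable (fun ω => gR M I J (cfg ε ω) * ‖V (cfg ε ω)‖ ^ 2) sampleLaw ∧
        ∫ ω, gR M I J (cfg ε ω) * ‖V (cfg ε ω)‖ ^ 2 ∂sampleLaw ≤
          (√(4 * K * C / μ) * h) ^ 2 * ∫ ω, gR M I J (cfg ε ω) ∂sampleLaw := by
  obtain ⟨C, hC, hf⟩ := fields
  refine ⟨C, hC, ?_⟩
  intro ε d h ι κ _ _ M I J n I₁ J₁ D B m0 hW μ K N₀ hμ hm hK hh hn
  obtain ⟨⟨f1, f2, f3⟩, f4⟩ := hf hW hμ hm hK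
  have n0 : (0 : ℝ) ≤ n := Nat.cast_nonneg n
  have N0 : 0 ≤ N₀ := (mul_nonneg n0 hh).trans hn
  refine ⟨⟨f1, f2, fun c => f3 c _ ?_⟩, fun l hl V h1 h2 h3 => ?_⟩
  · have c0 : (0 : ℝ) ≤ c := Nat.cast_nonneg c
    rw [Real.sq_sqrt (by positivity)]
    have hA : 0 ≤ 8 * c * K * C / μ * h := by positivity
    calc 2 * c * (n * (K * (C * (2 * h) ^ 2 / μ))) = 8 * c * K * C / μ * h * (n * h) := by ring
      _ ≤ 8 * c * K * C / μ * h * N₀ := mul_le_mul_of_nonneg_left hn hA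
      _ = _ := by ring
  · obtain ⟨g1, g2⟩ := f4 l hl V h1 h2 h3
    refine ⟨g1, g2 _ (le_of_eq ?_)⟩
    have e : (√(4 * K * C / μ) * h) ^ 2 = (4 * K * C / μ) * h ^ 2 := by
      rw [mul_pow, Real.sq_sqrt (by positivity)]
    rw [e]
    ring

/-! ### the mass of a window -/

section mass

variable {ε : ℝ} {Ty : Type*} {T : Tpl ε Ty}

theorem mm_ne_top (m : ℕ) : mm T m ≠ ∞ := by
  unfold mm
  refine ENNReal.mul_ne_top (ENNReal.pow_ne_top ?_) (ENNReal.pow_ne_top ?_)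
  · exact ne_top_of_le_ne_top ENNReal.one_ne_top (min_le_right _ _)
  · exact ne_top_of_le_ne_top ENNReal.one_ne_top (Win.A_le T)

/-- **lower bound of the mass of a window** -/
theorem mm_ge (m : ℕ) {cc c0 : ℝ} (h0 : 0 ≤ cc) (h1 : cc ≤ 1) (h0' : 0 ≤ c0)
    (hc : ENNReal.ofReal cc ≤ T.c)
    (ha : ENNReal.ofReal c0 ≤ ∫⁻ ω, T.A (cfg ε ω) ∂sampleLaw) :
    cc ^ (m + 1) * c0 ^ m ≤ (mm T m).toReal := by
  refine (ENNReal.ofReal_le_iff_le_toReal (mm_ne_top m)).1 ?_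
  unfold mm
  rw [ENNReal.ofReal_mul (pow_nonneg h0 _), ENNReal.ofReal_pow h0, ENNReal.ofReal_pow h0']
  refine mul_le_mul' (pow_le_pow_left' (le_min hc ?_) _) (pow_le_pow_left' ha _)
  rw [← ENNReal.ofReal_one]
  exact ENNReal.ofReal_le_ofReal h1

end mass

/-! ### `hQ` of `Quen` -/

section quen

variable {ε : ℝ} {ι κ : Type} [DecidableEq ι] [DecidableEq κ] {M : Net ε ι κ}
  {I : Finset ι} {J : Finset κ} {n : ℕ} {I₁ : ℕ → Finset ι} {J₁ : ℕ → Finset κ}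
  {D : ℕ → Set ℂ} {d s : ℝ} {B : Set ℂ} {m0 : ℝ≥0∞}

/-- **hypothesis `hQ` of 654's `Quen`** for `g = gR` and the points `A` of `B` -/
theorem quen_Q (h : Wnd M I J n I₁ J₁ D d s B m0) {ω : Sample}
    (hi : ∀ c, Inj ε (toPos ω) c) {A : Finset ℂ} (hA : (A : Set ℂ) = points ε ω ∩ B) {K : ℝ}
    {W : ℕ → Finset ℂ → Finset ℂ → ℂ}
    (hq : ∀ l < n, ∑ β ∈ A.powerset, ∑ β' ∈ A.powerset,
        (M.gw (I \ I₁ l) (J \ J₁ l) (clr A β)).toReal *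
          ((win M (I₁ l) (J₁ l) (clr A β)).toReal * ‖W l β β'‖ ^ 2) ≤
      K * ((2 : ℝ) ^ A.card * ∑ β ∈ A.powerset,
        (M.gw (I \ I₁ l) (J \ J₁ l) (clr A β)).toReal * (Hd (D l) d (clr A β)).toReal)) :
    ∑ l ∈ Finset.range n, av A.powerset (fun β => gR M I J (clr A β) *
      av A.powerset fun β' => ‖W l β β'‖ ^ 2) ≤ Qt M I J n I₁ J₁ D d B K ω :=
  Qt_av h hi hA (g := fun β => gR M I J (clr A β)) (fun _ _ => min_le_left _ _)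
    (X := fun l β β' => ‖W l β β'‖ ^ 2) (fun _ _ _ _ _ _ => by positivity) hq

/-- the same for a function of the fresh colours which is asked only where the weight is not zero -/
theorem quen_Q' (h : Wnd M I J n I₁ J₁ D d s B m0) {ω : Sample}
    (hi : ∀ c, Inj ε (toPos ω) c) {A : Finset ℂ} (hA : (A : Set ℂ) = points ε ω ∩ B) {K : ℝ}
    {W : ℕ → Finset ℂ → Finset ℂ → ℂ}
    (hq : ∀ l < n, ∑ β ∈ A.powerset, ∑ β' ∈ A.powerset,
        (M.gw (I \ I₁ l) (J \ J₁ l) (clr A β)).toReal *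
          ((win M (I₁ l) (J₁ l) (clr A β)).toReal *
            (if gR M I J (clr A β) = 0 then 0 else ‖W l β β'‖ ^ 2)) ≤
      K * ((2 : ℝ) ^ A.card * ∑ β ∈ A.powerset,
        (M.gw (I \ I₁ l) (J \ J₁ l) (clr A β)).toReal * (Hd (D l) d (clr A β)).toReal)) :
    ∑ l ∈ Finset.range n, av A.powerset (fun β => gR M I J (clr A β) *
      av A.powerset fun β' => ‖W l β β'‖ ^ 2) ≤ Qt M I J n I₁ J₁ D d B K ω := by
  refine le_trans (le_of_eq ?_) (Qt_av h hi hA (g := fun β => gR M I J (clr A β))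
    (fun _ _ => min_le_left _ _)
    (X := fun l β β' => if gR M I J (clr A β) = 0 then 0 else ‖W l β β'‖ ^ 2)
    (fun _ _ _ _ _ _ => by split_ifs <;> positivity) hq)
  refine Finset.sum_congr rfl fun l _ => ?_
  congr 1
  funext β
  by_cases h0 : gR M I J (clr A β) = 0
  · rw [h0, zero_mul, zero_mul]
  · simp only [if_neg h0]

end quen

end Crest.Agent.R143.HqEx304
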