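import Crest.Agent.R143.WndG_416
import Crest.Agent.R143.WndI_416
import Crest.Agent.R143.RegS_523

/-!
# Row 143 (S0194), RIG, box Q2: the windows of the partial tiles and the polygon (helper416)

* **`sgeo_at`** : 686's `SGeo` at every straight inner gate `k0` (`3 ≤ k0`, `k0 + 3 ≤ n`) of the
  corridor of the label `i`, one extreme gate; `sgeo_all` : the same `k1` for all gates
* `sgeo_L`, `sgeo_R` : the separators of a window
* `near_sq` : a tile region close to the square of the vertex `a` belongs to `a - 1`, `a`, `a + 1`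
* **`wnd_wd`** : 304's `Wnd` for the canonical windows `pS`, `qS`, in the order of the strand
-/

set_option autoImplicit false

noncomputable section

open scoped Classical

namespace Crest.Agent.R143.WndSx416

open MeasureTheory Set
open Crest.ProbabilityR.Voronoi
open Crest.Agent.R143.PP0x831 Crest.Agent.R143.PWx978 Crest.Agent.R143.Tplx978
open Crest.Agent.R143.TileRx228 Crest.Agent.R143.PthFx765 Crest.Agent.R143.Hqx304
open Crest.Agent.R143.HqPx304 Crest.Agent.R143.CorNx765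
open Crest.Agent.R143.LayQx811 Crest.Agent.R143.Layx416 Crest.Agent.R143.LayUx416
open Crest.Agent.R143.WndIx416 Crest.Agent.R143.WndGx416
open Crest.Agent.R143.PolyUx346
open Crest.Agent.R143.Gatex838 (X Y)
open Crest.Agent.R143.Blkx838 (DE)
open Crest.Agent.R143.B0x346 Crest.Agent.R143.DelGx806 Crest.Agent.R143.DelRx806
  Crest.Agent.R143.Frame10x395
open Crest.Agent.R143.RegSx523 (K0 K0_bot sgeo)
open scoped ENNReal

section sg

variable {u : Poly} {m M : ℕ} {p W : ℤ → ℤ × ℤ} {Ac e : ℤ → ℤ} {A B h : ℝ}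

/-- **THE GEOMETRY OF THE SEPARATION AT ALL STRAIGHT INNER GATES**, one extreme gate -/
theorem sgeo_all (H : LayU u m M p W Ac e) (hh : (m : ℝ) * h = u.s) {S : Finset ℂ}
    {b1 m' ρ τ κ : ℝ} (hA : 0 < A) (hAB : A ≤ B) (hB : h / 2 < B) (hb1 : A ≤ b1) (hm : 0 ≤ m')
    (hρ : 0 ≤ ρ) (hρτ : ρ < τ) (hτκ : τ < κ) (hbκ : b1 + m' < A + κ) (hK : A + B + 2 * κ < h)
    (edge : ∀ a u v, DE S u v → u ∈ RR (A + ρ) (B + ρ) h W a → v ∈ RR (A + ρ) (B + ρ) h W a →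
      ‖v - u‖ ≤ τ - ρ)
    (inn : ∀ a, ∀ s ∈ S, s ∈ RR (A + ρ) (B + ρ) h W a → ¬ OnHull S s) (i : ZMod 3) :
    ∃ k1, ∀ k0 : ℕ, 3 ≤ k0 → k0 + 3 ≤ nn Ac e i →
      (∀ a : ℤ, al Ac e i + k0 - 2 ≤ a → a ≤ al Ac e i + k0 + 1 → ge W (a + 1) = ge W a) →
      SepLx686.SGeo S M (nn Ac e i) k0 k1 W A B h b1 m' ρ τ κ (al Ac e i) (K0 h (A + τ) u) := by
  obtain ⟨k1, G⟩ := sgeo H hh hA hAB hB hb1 hm hρ hρτ hτκ hbκ hK edge inn i
  refine ⟨k1, fun k0 h3 hn hst => ?_⟩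
  exact { G with
    k3 := h3
    kn := hn
    st := hst
    K0k := K0_bot H hh (by linarith) (by linarith) _ }

/-- **the separators of a window, out type** -/
theorem sgeo_LR (H : LayU u m M p W Ac e) (hh : (m : ℝ) * h = u.s) {S : Finset ℂ}
    {b1 m' ρ τ κ : ℝ} (hA : 0 < A) (hAB : A ≤ B) (hB : h / 2 < B) (hb1 : A ≤ b1) (hm : 0 ≤ m')
    (hρ : 0 ≤ ρ) (hρτ : ρ < τ) (hτκ : τ < κ) (hbκ : b1 + m' < A + κ) (hK : A + B + 2 * κ < h)
    (edge : ∀ a u v, DE S u v → u ∈ RR (A + ρ) (B + ρ) h W a → v ∈ RR (A + ρ) (B + ρ) h W a →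
      ‖v - u‖ ≤ τ - ρ)
    (inn : ∀ a, ∀ s ∈ S, s ∈ RR (A + ρ) (B + ρ) h W a → ¬ OnHull S s) (i : ZMod 3) :
    ∃ k1, ∀ l a b : ℤ, 0 ≤ l → l < nn Ac e i → Wd W (al Ac e i) (nn Ac e i) M l a b →
      (6 ≤ a → ∃ k0 : ℕ, (k0 : ℤ) = a - 2 ∧
        SepLx686.SGeo S M (nn Ac e i) k0 k1 W A B h b1 m' ρ τ κ (al Ac e i) (K0 h (A + τ) u)) ∧
      (b + 7 ≤ nn Ac e i → ∃ k0 : ℕ, (k0 : ℤ) = b + 3 ∧
        SepLx686.SGeo S M (nn Ac e i) k0 k1 W A B h b1 m' ρ τ κ (al Ac e i)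
          (K0 h (A + τ) u)) := by
  obtain ⟨k1, G⟩ := sgeo_all H hh hA hAB hB hb1 hm hρ hρτ hτκ hbκ hK edge inn i
  refine ⟨k1, fun l a b hl hn Hw => ⟨fun ha => ?_, fun hb => ?_⟩⟩
  · obtain ⟨k0, e1, e2, e3, -, e5⟩ := Hw.gateL hn ha
    exact ⟨k0, e1, G k0 (by omega) e3 e5⟩
  · obtain ⟨k0, e1, e2, e3, -, e5⟩ := Hw.gateR hl hb
    exact ⟨k0, e1, G k0 e2 (by omega) e5⟩

end sg

/-! ### tile regions near the square of a vertex -/

section sq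

variable {n M : ℕ} {m : ℤ} {p W : ℤ → ℤ × ℤ} {Ac e : ℤ → ℤ} {A B h : ℝ}

/-- **a tile region near the square of the vertex `a`** -/
theorem near_sq (H : Lay n M m p W Ac e) {ρ : ℝ} (hA : A + ρ ≤ h / 2) (hB0 : 0 ≤ B) (hB : B ≤ h)
    {a b : ℤ} {s t : ℂ} (hs : s ∈ Sqr h W a) (ht : t ∈ RR A B h W b) (hst : ‖s - t‖ < ρ) :
    (M : ℤ) ∣ b - a ∨ (M : ℤ) ∣ b - (a + 1) ∨ (M : ℤ) ∣ b - (a - 1) := by
  by_contra hc
  push Not at hc
  obtain ⟨h0, h1, h2⟩ := hc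
  have := sq_far H hA hB0 hB h0 h1 h2 hs ht
  linarith

end sq

/-! ### 304's windows -/

section wnd

variable {u : Poly} {m M : ℕ} {p W : ℤ → ℤ × ℤ} {Ac e : ℤ → ℤ} {A B h ε : ℝ}
  {T : Tpl ε (Tn × Bool)} [DecidableEq (ZMod M)]

/-- **304's `Wnd` for the canonical windows**, in the order of the strand (`l` = path tile
`n - 1 - l`), regions in one square -/
theorem wnd_wd [Fintype (ZMod M)] (H : LayU u m M p W Ac e) (hm : 40 ≤ m)
    (hh : (m : ℝ) * h = u.s) (Hs : Std T A B h Prod.fst) (i : ZMod 3) {D : ℕ → Set ℂ} {d ρ : ℝ}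
    (hDm : ∀ l < nn Ac e i, MeasurableSet (D l))
    (hD : ∀ l < nn Ac e i, D l ⊆ Sqr h W (al Ac e i + ((nn Ac e i : ℤ) - 1 - l))) (hρ : d < ρ)
    (hAρ : A + ρ ≤ h / 2)
    (hε : ε ≤ 2 * h) {X : Set ℂ} (hX : MeasurableSet X) (hXb : Bornology.IsBounded X)
    (hXP : ∀ s, Metric.infDist s u.P ≤ 5 * h → s ∈ X)
    (hA : ∫⁻ ω, T.A (cfg ε ω) ∂sampleLaw ≠ 0) :
    Wnd (cpth H.lay.fp Hs Ac e i).net Finset.univ Finset.univ (nn Ac e i)
      (fun l => Iw M (pS Ac W (al Ac e i) (nn Ac e i) M l) (qS Ac W (al Ac e i) (nn Ac e i) M l))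
      (fun l => Jw M (pS Ac W (al Ac e i) (nn Ac e i) M l) (qS Ac W (al Ac e i) (nn Ac e i) M l))
      D d (2 * h) X (mm T 48) :=
  wnd_cor H hh Hs i (N := nn Ac e i) (a := fun l => al Ac e i + ((nn Ac e i : ℤ) - 1 - l))
    (p' := fun l => pS Ac W (al Ac e i) (nn Ac e i) M l)
    (q' := fun l => qS Ac W (al Ac e i) (nn Ac e i) M l) (w := 48)
    (fun l hl => by have := (pqS H.lay (by exact_mod_cast hm) i hl).1; omega)
    (fun l hl => by have := (pqS H.lay (by exact_mod_cast hm) i hl).2.1; omega)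
    (fun l hl => (pqS H.lay (by exact_mod_cast hm) i hl).2.2) hDm hD hρ hAρ hε hX hXb hXP hA

end wnd

end Crest.Agent.R143.WndSx416
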