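import Crest.Agent.R143.WndI_416
import Crest.Agent.R143.SpR2_169

/-!
# Row 143 (S0194), RIG, field `Q`: the windows with 169's regions `QX` (helper829)

The region `QX h W o n l` of an end tile (`l = 0`, `l + 1 = n`) is in TWO lattice squares, so 416's
`wnd_cor` (one square, side `2 h`) does not apply.  Here the regions `D l` are in three squares
`Sq3 h W (a l)`, the window contains the tiles `a l - 1, a l, a l + 1` strictly, the side is `4 h`.

* `Sq3`, `thick_sq3`, `far_win3`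
* `wnd_lay3`, `wnd_cor3` : 416's theorems for `D l ⊆ Sq3 h W (a l)`
* `QX_Sq3`, `QX_meas`; **`wnd_QX`** : `D l = QX h W o n (n - 1 - l)` (order of time, 831's `Ft`)
-/

set_option autoImplicit false

noncomputable section

namespace Crest.Agent.R143.WndXx829

open MeasureTheory Set
open Crest.ProbabilityR.Voronoi
open Crest.Agent.R143.PP0x831 Crest.Agent.R143.PWx978 Crest.Agent.R143.Tplx978
open Crest.Agent.R143.TileRx228 Crest.Agent.R143.PthFx765 Crest.Agent.R143.Hqx304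
open Crest.Agent.R143.HqPx304 Crest.Agent.R143.CorNx765
open Crest.Agent.R143.LayQx811 Crest.Agent.R143.Layx416 Crest.Agent.R143.LayUx416
open Crest.Agent.R143.PolyUx346 Crest.Agent.R143.WndIx416
open Crest.Agent.R143.SpRx169
open Crest.Agent.R143.SumScx302 (sq)
open scoped ENNReal

/-- three consecutive squares -/
def Sq3 (h : ℝ) (W : ℤ → ℤ × ℤ) (a : ℤ) : Set ℂ :=
  Sqr h W (a - 1) ∪ (Sqr h W a ∪ Sqr h W (a + 1))

variable {W : ℤ → ℤ × ℤ}

theorem mem_thick3 {h ρ : ℝ} {a : ℤ} {s : ℂ} :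
    s ∈ Metric.thickening ρ (Sq3 h W a) ↔ s ∈ Metric.thickening ρ (Sqr h W (a - 1)) ∨
      s ∈ Metric.thickening ρ (Sqr h W a) ∨ s ∈ Metric.thickening ρ (Sqr h W (a + 1)) := by
  unfold Sq3
  rw [Metric.thickening_union, Metric.thickening_union]
  exact Iff.rfl

/-- consecutive centres -/
theorem cen_next {M : ℕ} (P : FPath M W) {h : ℝ} (h0 : 0 ≤ h) (a : ℤ) :
    |(cen h W (a + 1)).re - (cen h W a).re| ≤ h ∧
      |(cen h W (a + 1)).im - (cen h W a).im| ≤ h := by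
  rw [FineDx576.cen_re, FineDx576.cen_re, FineDx576.cen_im, FineDx576.cen_im]
  have hst := P.step a
  have key : |(W (a + 1)).1 - (W a).1| ≤ 1 ∧ |(W (a + 1)).2 - (W a).2| ≤ 1 := by
    have d1 : (W (a + 1)).1 - (W a).1 = (W (a + 1) - W a).1 := rfl
    have d2 : (W (a + 1)).2 - (W a).2 = (W (a + 1) - W a).2 := rfl
    rw [d1, d2]
    rcases hst with hs | hs | hs | hs <;> rw [hs] <;> simp
  have k1 : |((W (a + 1)).1 : ℝ) - (W a).1| ≤ 1 := by exact_mod_cast key.1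
  have k2 : |((W (a + 1)).2 : ℝ) - (W a).2| ≤ 1 := by exact_mod_cast key.2
  constructor
  · rw [← mul_sub, abs_mul, abs_of_nonneg h0]
    nlinarith
  · rw [← mul_sub, abs_mul, abs_of_nonneg h0]
    nlinarith

/-- a neighbourhood of the three squares is in a square of side `4 h` -/
theorem thick_sq3 {M : ℕ} (P : FPath M W) {ρ h : ℝ} (h0 : 0 ≤ h) (hρ : ρ ≤ h / 2) (a : ℤ) :
    Metric.thickening ρ (Sq3 h W a) ⊆
      sq (cen h W a - ⟨2 * h, 2 * h⟩) (2 * (2 * h)) := by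
  have hc : ∀ b : ℤ, (b = a - 1 ∨ b = a ∨ b = a + 1) →
      |(cen h W b).re - (cen h W a).re| ≤ h ∧ |(cen h W b).im - (cen h W a).im| ≤ h := by
    rintro b (rfl | rfl | rfl)
    · have := cen_next P h0 (a - 1)
      rw [sub_add_cancel] at this
      rw [abs_sub_comm, abs_sub_comm (cen h W (a - 1)).im]
      exact this
    · simp [h0]
    · exact cen_next P h0 a
  have key : ∀ b : ℤ, (b = a - 1 ∨ b = a ∨ b = a + 1) → ∀ w : ℂ,
      w ∈ Metric.thickening ρ (Sqr h W b) →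
      w ∈ sq (cen h W a - ⟨2 * h, 2 * h⟩) (2 * (2 * h)) := by
    intro b hb w hw
    obtain ⟨c1, c2⟩ := hc b hb
    obtain ⟨t, ⟨h1, h2⟩, ht⟩ := Metric.mem_thickening_iff.1 hw
    rw [dist_eq_norm] at ht
    have h3 := (Complex.abs_re_le_norm (w - t)).trans_lt ht
    have h4 := (Complex.abs_im_le_norm (w - t)).trans_lt ht
    rw [Complex.sub_re] at h1 h3
    rw [Complex.sub_im] at h2 h4
    rw [abs_le] at h1 h2 c1 c2
    rw [abs_lt] at h3 h4
    refine ⟨?_, ?_, ?_, ?_⟩ <;> simp only [Complex.sub_re, Complex.sub_im] <;> linarith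
  intro w hw
  rcases mem_thick3.1 hw with h1 | h1 | h1
  · exact key _ (Or.inl rfl) w h1
  · exact key _ (Or.inr (Or.inl rfl)) w h1
  · exact key _ (Or.inr (Or.inr rfl)) w h1

section path

variable {n M : ℕ} {m : ℤ} {p W : ℤ → ℤ × ℤ} {Ac e : ℤ → ℤ} {A B h ε : ℝ} {Ty : Type*}
  {T : Tpl ε Ty} {tu : Ty → Tn} [DecidableEq (ZMod M)]

/-- **the regions off the window are far from the three squares** -/
theorem far_win3 (L : Lay n M m p W Ac e) (H : Std T A B h tu) {ty : ZMod M → Ty}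
    (hty : Typ W tu ty) (I J : Finset (ZMod M)) {p' q' a : ℤ} (hp : p' + 1 < a)
    (hq : a + 1 < q') {ρ : ℝ} (hh : A + ρ ≤ h / 2) :
    Disjoint ((pth L.fp H ty hty).net.reg (I \ Iw M p' q') (J \ Jw M p' q'))
      (Metric.thickening ρ (Sq3 h W a)) := by
  rw [Set.disjoint_left]
  intro s hs ht
  rcases mem_thick3.1 ht with h1 | h1 | h1
  · exact Set.disjoint_left.1 (far_winS L H hty I J (p' := p') (q' := q') (a := a - 1)
      (by omega) (by omega) hh) hs h1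
  · exact Set.disjoint_left.1 (far_winS L H hty I J (p' := p') (q' := q') (a := a)
      (by omega) (by omega) hh) hs h1
  · exact Set.disjoint_left.1 (far_winS L H hty I J (p' := p') (q' := q') (a := a + 1)
      (by omega) (by omega) hh) hs h1

/-- **THE WINDOWS OF THE FINE PATH**, regions in three squares -/
theorem wnd_lay3 (L : Lay n M m p W Ac e) (H : Std T A B h tu) {ty : ZMod M → Ty}
    (hty : Typ W tu ty) {I J : Finset (ZMod M)} (hN : ∀ k ∈ J, k ∈ I ∧ k + 1 ∈ I) {N : ℕ}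
    {a p' q' : ℕ → ℤ} {w : ℕ} (hp : ∀ l < N, p' l + 1 < a l) (hq : ∀ l < N, a l + 1 < q' l)
    (hm : ∀ l < N, q' l ≤ p' l + w) (hI : ∀ l < N, Iw M (p' l) (q' l) ⊆ I)
    (hJ : ∀ l < N, Jw M (p' l) (q' l) ⊆ J) {D : ℕ → Set ℂ} {d ρ : ℝ}
    (hDm : ∀ l < N, MeasurableSet (D l)) (hD : ∀ l < N, D l ⊆ Sq3 h W (a l)) (hρ : d < ρ)
    (hh : A + ρ ≤ h / 2) (hε : ε ≤ 2 * h) {X : Set ℂ} (hX : MeasurableSet X)
    (hXb : Bornology.IsBounded X) (hreg : (pth L.fp H ty hty).net.reg I J ⊆ X)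
    (hXW : ∀ l < N, Metric.thickening ρ (Sq3 h W (a l)) ⊆ X)
    (hA : ∫⁻ ω, T.A (cfg ε ω) ∂sampleLaw ≠ 0) :
    Wnd (pth L.fp H ty hty).net I J N (fun l => Iw M (p' l) (q' l)) (fun l => Jw M (p' l) (q' l)) D d
      (2 * (2 * h)) X (mm T w) where
  Bm := hX
  Bb := hXb
  reg := hreg
  es := by
    have h1 := H.hA
    have h2 := H.hAB
    have h3 := H.hB
    linarith
  hN := Win.hN_of hN
  hI := hI
  hJ := hJ
  hN₁ := by
    intro l hl k hk i hi
    obtain ⟨hk1, hk2⟩ := Finset.mem_sdiff.1 hk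
    rw [net_N, Finset.mem_insert, Finset.mem_singleton] at hi
    rw [Finset.mem_sdiff]
    rcases hi with rfl | rfl
    · exact ⟨(hN i hk1).1, fun h => hk2 (Iw_sub _ _ h)⟩
    · refine ⟨(hN k hk1).2, fun h => hk2 ?_⟩
      obtain ⟨j, hj, hjk⟩ := Finset.mem_image.1 h
      have hj' := Finset.mem_Icc.1 hj
      have : k = ((j - 1 : ℤ) : ZMod M) := by
        push_cast
        rw [hjk]
        ring
      rw [this]
      exact mem_Jw (by omega) (by omega)
  Dm := hDm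
  W := by
    intro l hl
    have h1 := H.hA
    have h2 := H.hAB
    have h3 := H.hB
    refine ⟨cen h W (a l) - ⟨2 * h, 2 * h⟩, Metric.thickening ρ (Sq3 h W (a l)),
      Metric.isOpen_thickening.measurableSet, hXW l hl,
      thick_sq3 L.fp (by linarith) (by linarith) (a l), ?_,
      far_win3 L H hty I J (hp l hl) (hq l hl) hh⟩
    intro o ho s hs
    rw [Metric.mem_closedBall] at hs
    exact Metric.mem_thickening_iff.2 ⟨o, hD l hl ho, by linarith⟩
  pos := mm_ne w hA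
  mass := fun l hl => mass_win L.fp H hty (hm l hl)

end path

/-! ### the corridor net of a polygon -/

section poly

variable {u : Poly} {m M : ℕ} {p W : ℤ → ℤ × ℤ} {Ac e : ℤ → ℤ} {A B h : ℝ}
variable {ε : ℝ} {T : Tpl ε (Tn × Bool)} [DecidableEq (ZMod M)]

/-- **THE WINDOWS OF THE CORRIDOR NET OF THE LABEL `i`**, regions `D l` in three squares -/
theorem wnd_cor3 [Fintype (ZMod M)] (H : LayU u m M p W Ac e) (hh : (m : ℝ) * h = u.s)
    (Hs : Std T A B h Prod.fst) (i : ZMod 3) {N : ℕ} {a p' q' : ℕ → ℤ} {w : ℕ}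
    (hp : ∀ l < N, p' l + 1 < a l) (hq : ∀ l < N, a l + 1 < q' l)
    (hm : ∀ l < N, q' l ≤ p' l + w)
    {D : ℕ → Set ℂ} {d ρ : ℝ} (hDm : ∀ l < N, MeasurableSet (D l))
    (hD : ∀ l < N, D l ⊆ Sq3 h W (a l)) (hρ : d < ρ) (hAρ : A + ρ ≤ h / 2) (hε : ε ≤ 2 * h)
    {X : Set ℂ} (hX : MeasurableSet X) (hXb : Bornology.IsBounded X)
    (hXP : ∀ s, Metric.infDist s u.P ≤ 5 * h → s ∈ X)
    (hA : ∫⁻ ω, T.A (cfg ε ω) ∂sampleLaw ≠ 0) :
    Wnd (cpth H.lay.fp Hs Ac e i).net Finset.univ Finset.univ N (fun l => Iw M (p' l) (q' l))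
      (fun l => Jw M (p' l) (q' l)) D d (2 * (2 * h)) X (mm T w) :=
  wnd_lay3 H.lay Hs (cty_typ i) (fun _ _ => ⟨Finset.mem_univ _, Finset.mem_univ _⟩) hp hq hm
    (fun _ _ => Finset.subset_univ _) (fun _ _ => Finset.subset_univ _) hDm hD hρ hAρ hε hX hXb
    (fun _ hs => hXP _ (reg_P H hh Hs i _ _ hs))
    (fun l _ s hs => by
      have hr : ρ ≤ h / 2 := by have := Hs.hA; linarith
      rcases mem_thick3.1 hs with h1 | h1 | h1
      · exact hXP _ (Sqr_P H hh hr h1)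
      · exact hXP _ (Sqr_P H hh hr h1)
      · exact hXP _ (Sqr_P H hh hr h1)) hA

end poly

/-! ### 169's regions -/

section qx

variable {h : ℝ} {o : ℤ} {n l : ℕ}

/-- 169's region of a tile is in three squares -/
theorem QX_Sq3 {M : ℕ} (P : FPath M W) : QX h W o n l ⊆ Sq3 h W (o + l) := by
  intro z hz
  obtain ⟨i, hi, h1⟩ := qx_mem hz
  have h2 := Rg_Sqr P h _ hi
  rcases h1 with rfl | ⟨rfl, rfl⟩ | ⟨rfl, hn⟩
  · exact Or.inr (Or.inl h2)
  · refine Or.inl ?_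
    rw [show o + ((0 : ℕ) : ℤ) - 1 = o + -1 by push_cast; ring]
    exact h2
  · refine Or.inr (Or.inr ?_)
    rw [show o + (l : ℤ) + 1 = o + n by rw [← hn]; push_cast; ring]
    exact h2

theorem QX_meas : MeasurableSet (QX h W o n l) := by
  unfold QX
  refine (Rg_meas h W _).union (MeasurableSet.union ?_ ?_)
  · split_ifs
    · exact Rg_meas h W _
    · exact MeasurableSet.empty
  · split_ifs
    · exact Rg_meas h W _
    · exact MeasurableSet.empty

end qx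

section fin

variable {u : Poly} {m M : ℕ} {p W : ℤ → ℤ × ℤ} {Ac e : ℤ → ℤ} {A B h : ℝ}
variable {ε : ℝ} {T : Tpl ε (Tn × Bool)} [DecidableEq (ZMod M)]

/-- **THE WINDOWS FOR 831's `Ft`** : `D l = QX h W o n (n - 1 - l)` (order of time), any tile windows
`p' l + 1 < o + (n - 1 - l) < q' l - 1` -/
theorem wnd_QX [Fintype (ZMod M)] (H : LayU u m M p W Ac e) (hh : (m : ℝ) * h = u.s)
    (Hs : Std T A B h Prod.fst) (i : ZMod 3) {o : ℤ} {n : ℕ} {p' q' : ℕ → ℤ} {w : ℕ}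
    (hp : ∀ l < n, p' l + 1 < o + ((n - 1 - l : ℕ) : ℤ))
    (hq : ∀ l < n, o + ((n - 1 - l : ℕ) : ℤ) + 1 < q' l)
    (hm : ∀ l < n, q' l ≤ p' l + w) {d ρ : ℝ} (hρ : d < ρ) (hAρ : A + ρ ≤ h / 2)
    (hε : ε ≤ 2 * h) {X : Set ℂ} (hX : MeasurableSet X) (hXb : Bornology.IsBounded X)
    (hXP : ∀ s, Metric.infDist s u.P ≤ 5 * h → s ∈ X)
    (hA : ∫⁻ ω, T.A (cfg ε ω) ∂sampleLaw ≠ 0) :
    Wnd (cpth H.lay.fp Hs Ac e i).net Finset.univ Finset.univ n (fun l => Iw M (p' l) (q' l))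
      (fun l => Jw M (p' l) (q' l)) (fun l => QX h W o n (n - 1 - l)) d (2 * (2 * h)) X
      (mm T w) :=
  wnd_cor3 H hh Hs i (a := fun l => o + ((n - 1 - l : ℕ) : ℤ)) hp hq hm
    (fun _ _ => QX_meas) (fun _ _ => QX_Sq3 H.lay.fp) hρ hAρ hε hX hXb hXP hA

end fin

end Crest.Agent.R143.WndXx829
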