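import Crest.Agent.R143.RigN_377
import Crest.Agent.R143.WndX_829
import Crest.Agent.R143.WndS_416
import Crest.Agent.R143.HqE_304

/-!
# Row 143 (S0194), RIG: the field `hQ` of 609's `Op` (helper377)

* `pZ`, `qZ`, `I1`, `J1`, `DZ` : 416's canonical windows in the order of the strand, gates, tiles,
  169's regions, for the layout of `u` at the width `N`
* **`wndZ`** : 304's `Wnd` for the corridor net of RigZd (side `4 h`, width `48`)
* **`Qz Z u w N ε`** : the quenched majorant (304's `Qt`), `Qz_eq`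
* `Qz_int` : `∫ Qz ≤ C₃² h g₀`; **`hQ_z`** : field `hQ`
-/

set_option autoImplicit false

noncomputable section

namespace Crest.Agent.R143.RigQx377

open MeasureTheory Set Filter Topology
open Crest.ProbabilityR.Voronoi
open Crest.Agent.R143.PP0x831
open Crest.Agent.R143.PolyUx346 (Poly)
open Crest.Agent.R143.PWx978 Crest.Agent.R143.Tplx978
open Crest.Agent.R143.Hqx304 Crest.Agent.R143.HqPx304 Crest.Agent.R143.HqEx304
open Crest.Agent.R143.Layx416 Crest.Agent.R143.LayUx416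
open Crest.Agent.R143.WndGx416 (pS qS pqS)
open Crest.Agent.R143.WndXx829 (wnd_QX)
open Crest.Agent.R143.SpRx169 (QX)
open Crest.Agent.R143.RigPx854
open Crest.Agent.R143.RigZdx609 Crest.Agent.R143.RigZx609
open Crest.Agent.R143.CorEx133 (Rp RU UU SU)
open scoped ENNReal

/-! ### the windows -/

/-- first removed tile, order of the strand -/
def pZ (u : Poly) (w : ZMod 3) (N l : ℕ) : ℤ :=
  pS (ly u N).A (ly u N).W (al (ly u N).A (ly u N).e w) (nT u w N) (ly u N).M l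

/-- last removed tile, order of the strand -/
def qZ (u : Poly) (w : ZMod 3) (N l : ℕ) : ℤ :=
  qS (ly u N).A (ly u N).W (al (ly u N).A (ly u N).e w) (nT u w N) (ly u N).M l

/-- gates of the window -/
def I1 (u : Poly) (w : ZMod 3) (N l : ℕ) : Finset (ZMod (ly u N).M) :=
  Iw (ly u N).M (pZ u w N l) (qZ u w N l)

/-- tiles of the window -/
def J1 (u : Poly) (w : ZMod 3) (N l : ℕ) : Finset (ZMod (ly u N).M) :=
  Jw (ly u N).M (pZ u w N l) (qZ u w N l)

/-- region of the tile, order of the strand -/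
def DZ (u : Poly) (w : ZMod 3) (N l : ℕ) : Set ℂ :=
  QX (hN N) (ly u N).W (al (ly u N).A (ly u N).e w) (nT u w N) (nT u w N - 1 - l)

variable (Z : TData) {N : ℕ} {ε : ℝ} {u : Poly} {w : ZMod 3}

theorem near_RU {s : ℂ} (hs : Metric.infDist s u.P ≤ 5 * hN N) :
    s ∈ Metric.closedBall (0 : ℂ) (RU u) := by
  obtain ⟨y, hy, he⟩ := (MeasPx609.isCompact_P u).exists_infDist_eq_dist (MeasPx609.P_nonempty u) s
  rw [he, dist_eq_norm] at hs
  have h1 := CorEx133.P_norm u hy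
  have h2 := norm_add_le (s - y) y
  rw [sub_add_cancel] at h2
  have h3 := CorEx133.one_le_Rp u
  have h4 : hN N ≤ 1 := pow_le_one₀ (by norm_num) (by norm_num)
  rw [mem_closedBall_zero_iff]
  unfold RU
  linarith

/-- **304's windows for the corridor net** -/
theorem wndZ (hn : u.n + 4 ≤ N) (he : 0 < ε) (hm : 40 ≤ mN u N) (hε : ε ≤ 2 * hN N)
    (hA : ∫⁻ ω, (Z.tpl N he).A (cfg ε ω) ∂sampleLaw ≠ 0) :
    Wnd (net Z u w hn he) (uM hn) (uM hn) (nT u w N) (I1 u w N) (J1 u w N) (DZ u w N) (et N)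
      (2 * (2 * hN N)) (Metric.closedBall 0 (RU u)) (mm (Z.tpl N he) 48) := by
  have := neM hn
  have h1 := Z.num N ε
  have h2 := et_pos N
  have h3 := Z.h_eq N ε
  have h4 := et_h N
  have hpq : ∀ l < nT u w N, pZ u w N l + 1 <
      al (ly u N).A (ly u N).e w + ((nT u w N - 1 - l : ℕ) : ℤ) ∧
      al (ly u N).A (ly u N).e w + ((nT u w N - 1 - l : ℕ) : ℤ) + 1 < qZ u w N l ∧
      qZ u w N l ≤ pZ u w N l + (48 : ℕ) := by
    intro l hl
    have h5 := pqS (ly_spec hn).lay (by exact_mod_cast hm) w hl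
    have e1 : ((nT u w N - 1 - l : ℕ) : ℤ) = (nT u w N : ℤ) - 1 - l := by omega
    rw [e1]
    exact h5
  have h6 := wnd_QX (ly_spec hn) (mNh Z hn ε) (Z.std N he) w (o := al (ly u N).A (ly u N).e w)
    (n := nT u w N) (p' := pZ u w N) (q' := qZ u w N) (w := 48) (fun l hl => (hpq l hl).1)
    (fun l hl => (hpq l hl).2.1) (fun l hl => (hpq l hl).2.2) (d := et N) (ρ := 2 * et N)
    (by linarith) (by rw [h1.A', h3]; linarith) (by rw [h3]; exact hε)
    (X := Metric.closedBall 0 (RU u)) measurableSet_closedBall Metric.isBounded_closedBall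
    (fun s hs => near_RU (by rwa [h3] at hs)) hA
  have e1 : DZ u w N = fun l => QX (Z.D N ε).h (ly u N).W (al (ly u N).A (ly u N).e w) (nT u w N)
      (nT u w N - 1 - l) := by
    funext l
    unfold DZ
    rw [h3]
  rw [e1, ← h3]
  exact h6

/-! ### the majorant -/

/-- **the quenched majorant** -/
def Qz (Z : TData) (u : Poly) (w : ZMod 3) (N : ℕ) (ε : ℝ) (ω : Sample) : ℝ :=
  if h : u.n + 4 ≤ N ∧ 0 < ε then
    Qt (net Z u w h.1 h.2) (uM h.1) (uM h.1) (nT u w N) (I1 u w N) (J1 u w N) (DZ u w N) (et N)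
      (Metric.closedBall 0 (RU u)) (9 * 48) ω
  else 0

theorem Qz_eq (hn : u.n + 4 ≤ N) (he : 0 < ε) :
    Qz Z u w N ε = Qt (net Z u w hn he) (uM hn) (uM hn) (nT u w N) (I1 u w N) (J1 u w N)
      (DZ u w N) (et N) (Metric.closedBall 0 (RU u)) (9 * 48) := by
  funext ω
  unfold Qz
  rw [dif_pos ⟨hn, he⟩]

theorem Qz_nonneg (ω : Sample) : 0 ≤ Qz Z u w N ε ω := by
  unfold Qz
  split_ifs
  · exact Qt_nonneg (by norm_num) ω
  · exact le_rfl

/-- **`∫ Qz ≤ C₃² h g₀`** -/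
theorem Qz_int (hp : PosP Z) (u : Poly) (w : ZMod 3) : ∃ C3 : ℝ, Ev u fun N ε hn he =>
    (∀ ω, 0 ≤ Qz Z u w N ε ω) ∧ Integrable (Qz Z u w N ε) sampleLaw ∧
      ∫ ω, Qz Z u w N ε ω ∂sampleLaw ≤ C3 ^ 2 * hN N * g0 Z u w hn he := by
  obtain ⟨C, hC, hf⟩ := fields
  obtain ⟨cc, hcc, c0, hc0, hp⟩ := hp
  set μ : ℝ := min cc 1 ^ (48 + 1) * c0 ^ 48 with hμd
  have hm1 : 0 < min cc 1 := lt_min hcc one_pos
  have hμ : 0 < μ := by positivity
  set N0 : ℝ := 2 * u.L * u.s with hN0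
  have hN0' : 0 ≤ N0 := by
    have := u.s_pos.le
    positivity
  refine ⟨√(9 * 48 * (16 * C / μ) * N0), ?_⟩
  unfold Ev
  filter_upwards [mN_mono (u := u) 40] with N hm
  filter_upwards [hp N, CorEx133.sqrt_small (c := 1) one_pos,
    (gt_mem_nhds (hN_pos N) : ∀ᶠ x : ℝ in 𝓝 0, x < hN N).filter_mono nhdsWithin_le_nhds]
    with ε h1 _ h3 hn he
  obtain ⟨h4, h5⟩ := h1 he
  have hA : ∫⁻ ω, (Z.tpl N he).A (cfg ε ω) ∂sampleLaw ≠ 0 :=
    ((ENNReal.ofReal_pos.2 hc0).trans_le h5).ne'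
  have hW := wndZ Z (w := w) hn he hm (by linarith [hN_pos N]) hA
  have hmm : μ ≤ (mm (Z.tpl N he) 48).toReal := by
    refine mm_ge 48 hm1.le (min_le_right _ _) hc0.le ?_ h5
    exact (ENNReal.ofReal_le_ofReal (min_le_left _ _)).trans h4
  obtain ⟨⟨f1, f2, f3⟩, -⟩ := hf hW hμ hmm (K := 9 * 48) (by norm_num)
  rw [Qz_eq Z hn he]
  refine ⟨f1, f2, ?_⟩
  have hh := hN_pos N
  have hT := nT_le w hn
  have g00 : 0 ≤ g0 Z u w hn he := integral_nonneg fun ω => LimSx133.gR_nonneg _ _ _ _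
  have key := f3 1 √(2 * (9 * 48 * (16 * C / μ) * N0 * hN N)) (by
    rw [Real.sq_sqrt (by positivity)]
    have e1 : 2 * ((1 : ℕ) : ℝ) * ((nT u w N : ℝ) * (9 * 48 * (C * (2 * (2 * hN N)) ^ 2 / μ))) =
        2 * (9 * 48 * (16 * C / μ)) * hN N * ((nT u w N : ℝ) * hN N) := by
      push_cast
      ring
    rw [e1]
    calc 2 * (9 * 48 * (16 * C / μ)) * hN N * ((nT u w N : ℝ) * hN N) ≤
        2 * (9 * 48 * (16 * C / μ)) * hN N * N0 :=
          mul_le_mul_of_nonneg_left hT (by positivity)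
      _ = _ := by ring)
  rw [Real.sq_sqrt (by positivity)] at key
  rw [Real.sq_sqrt (by positivity)]
  have e2 : g0 Z u w hn he =
      ∫ ω, LimSx133.gR (net Z u w hn he) (uM hn) (uM hn) (cfg ε ω) ∂sampleLaw := rfl
  rw [← e2] at key
  push_cast at key
  linarith

/-- constant of the field `hQ` -/
def C3z (hp : PosP Z) (u : Poly) (w : ZMod 3) : ℝ := (Qz_int Z hp u w).choose

/-- **field `hQ`** of `Op` -/
theorem hQ_z (hp : PosP Z) (u : Poly) (w : ZMod 3) : Ev u fun N ε hn he =>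
    (∀ ω, 0 ≤ Qz Z u w N ε ω) ∧ Integrable (Qz Z u w N ε) sampleLaw ∧
      ∫ ω, Qz Z u w N ε ω ∂sampleLaw ≤ C3z Z hp u w ^ 2 * hN N * g0 Z u w hn he :=
  (Qz_int Z hp u w).choose_spec

end Crest.Agent.R143.RigQx377
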