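import Crest.Agent.R143.QuenI_597
import Crest.Agent.R143.HxG_166
import Crest.Agent.R143.NearC_139
import Crest.Agent.R143.RigN_377
import Crest.Agent.R143.RigQ_377

/-!
# Row 143 (S0194), RIG: plugs on `Sx` (helper597)

`X : Sx w Z hN hε hS h3 h₀ R Zz` (QuenI_597), one environment.

* `bk_inn` : no hull site in the strips; **`Sx.strand`** : 737's hypothesis `hs`
* **`Sx.near`** : hypothesis `hθ` of `quen_u` (139's `near_con` with 377's numbers)
* `TileI` : 829's `TileD` for 377's windows; **`Sx.q`** : hypothesis `hQ` of `quen_u`, `Qq = Qz` (377)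
-/

set_option autoImplicit false
set_option linter.unusedSectionVars false
set_option linter.style.haveILetI false

noncomputable section

open scoped Classical

namespace Crest.Agent.R143.QuenIx597

open MeasureTheory Set Filter Topology
open scoped ENNReal
open Crest.ProbabilityR.Voronoi
open Crest.Agent.R143.PP0x831 Crest.Agent.R143.Janx304 Crest.Agent.R143.Dbl2x609
open Crest.Agent.R143.B0x346 Crest.Agent.R143.DelGx806 Crest.Agent.R143.DelRx806
  Crest.Agent.R143.FinCx811 Crest.Agent.R143.Resax778 Crest.Agent.R143.SmallAx304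
open Crest.Agent.R143.Frame1x395 Crest.Agent.R143.Frame2x395 Crest.Agent.R143.Frame3x395
  Crest.Agent.R143.Frame4x395
open Crest.Agent.R143.Frame8x395 hiding cfg
open Crest.Agent.R143.Frame9x395 Crest.Agent.R143.Frame10x395
open Crest.Agent.R143.CorMx970 (av far)
open Crest.Agent.R143.IndLoc3x279 (clr)
open Crest.Agent.R143.OutSx358 (Sys gA ac)
open Crest.Agent.R143.SysAx168 (EvA)
open Crest.Agent.R143.Uniqx323 (Zn Strd)
open Crest.Agent.R143.ColXx829 (Xc)
open Crest.Agent.R143.RingDx117 (RD)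
open Crest.Agent.R143.PolyUx346 (Poly)
open Crest.Agent.R143.CorEx133
open Crest.Agent.R143.RigPx854 (ly ly_spec mN mN_hN mN_10 hN hN_pos nT)
open Crest.Agent.R143.RigZdx609 Crest.Agent.R143.LayUx416 Crest.Agent.R143.Layx416
open Crest.Agent.R143.TileRx228
open Crest.Agent.R143.CorrIx831 (Ft tlt Bk Stk SDS)

variable {N : ℕ} {ε : ℝ} {u : Poly} {w : ZMod 3} {Z : TData} {hN : u.n + 4 ≤ N} {hε : 0 < ε}
  {ω : Sample} {hS : GP (SU u ε ω : Set ℂ)} {h3 : 3 ≤ (SU u ε ω).card} {h₀ : Cs hS}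
  {R : Set (Cs hS)} {Zz : Zn (rc0 hS)} {K1 c2 ρ0 : ℝ}

/-- no hull site in the strips -/
theorem bk_inn (hN : u.n + 4 ≤ N) (C : CorEnv u ε √ε K1 c2 ρ0 ω) (o : ℤ) (k : ℕ) {v : ℂ}
    (hv : v ∈ Bk (et N) (ly u N).W o k) : ¬ OnHull (SU u ε ω) v := by
  have h0 := et_pos N
  exact C.inn (RR_sub (ly_spec hN) (h := 100 * et N) (mh hN) (by linarith) (by linarith)
    (by linarith) (by linarith) _ hv)

/-- **737's hypothesis `hs`** : the sites of the left cells of the strand -/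
theorem Sx.strand (X : Sx w Z hN hε hS h3 h₀ R Zz) (C : CorEnv u ε √ε K1 c2 ρ0 ω)
    (σ : Finset ℂ) (h : 0 < gW Z u w hN hε (clr (SU u ε ω) σ)) :
    ∃ i, EvI hS w N h₀ R Zz i (chiS hS h3 σ) ∧ ∀ t ≤ i.2, ∃ j < nT u w N,
      Freshx829.rep hS ((rc0 hS).cell (NonXx592.P (rc0 hS)
        (Frame8x395.cfg (rc0 hS) (chiS hS h3 σ)) i.1 t)) ∈
        Bk (et N) (ly u N).W (oT u w N) (nT u w N - 1 - j) := by
  rw [← gW_xc (hS := hS) (h3 := h3) Z hN hε C] at h
  obtain ⟨p, q, k, T, -, h1, h2⟩ := X.out _ h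
  exact HxGx166.hs_of (B := Bk (et N) (ly u N).W (oT u w N)) h2.1 h1
    fun j _ v _ hv => bk_inn hN C _ j hv

open Crest.Agent.R143.RigNx377
open Crest.Agent.R143.NetUx346 Crest.Agent.R143.NetVx346
open Crest.Agent.R143.R10Nx930 (Con Du)

/-- distance of the sites of a strip to its gate -/
theorem bk_gate (hN : u.n + 4 ≤ N) (w : ZMod 3) : ∀ j < nn (ly u N).A (ly u N).e w,
    ∀ v ∈ Bk (et N) (ly u N).W (oT u w N) j,
      dist (TlAx58.gt (RigPx854.hN N) (ly u N).W (ly u N).A (ly u N).e w j) v ≤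
        19 / 2 * et N + 103 / 2 * et N + 19 / 2 * et N + RigPx854.hN N / 2 := by
  have h0 := et_pos N
  intro j hj v hv
  refine NearGx737.rr_hB (A' := 19 / 2 * et N) (B' := 103 / 2 * et N) (fp hN) (hN_pos N).le
    (by positivity) (by positivity) _ j hj v ?_
  rw [← et_h]
  exact hv

/-- **hypothesis `hθ` of `quen_u`** -/
theorem Sx.near (X : Sx w Z hN hε hS h3 h₀ R Zz) (C : CorEnv u ε √ε K1 c2 ρ0 ω) {e0 : ℝ}
    (hW : NumW u 13 e0 N) (hE : NumE N ε)
    (hC : ∀ σ ∈ (SU u ε ω).powerset, 0 < gW Z u w hN hε (clr (SU u ε ω) σ) →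
      Vin (SU u ε ω) u.P √ε ⊆ ff (SU u ε ω) (GI hS h3 w N h₀ R Zz σ) ∧
      Con C0 c0 K0 u ε (RigPx854.hN N) ω (GI hS h3 w N h₀ R Zz σ) u.P) :
    ∀ σ ∈ (SU u ε ω).powerset, 0 < gW Z u w hN hε (clr (SU u ε ω) σ) →
      av (SU u ε ω).powerset (far (2 * rI 13 N + 2) (kaI hS h3 w N h₀ R Zz)
        (kbI hS h3 w N h₀ R Zz)
        (fun τ => nT u w N - tB u w N ε (clr (SU u ε ω) τ))
        (fun τ => nT u w N - tA u w N ε (clr (SU u ε ω) τ)) σ) ≤ th u e0 N ε := by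
  intro σ hσ h0
  have e1 := et_pos N
  have e2 := et_h N
  have key := NearCx139.near_con (hS := hS) (h3 := h3) (k := w + 1) (C := C0) (c := c0)
    (K := K0) (e0 := et0 N) (h := RigPx854.hN N) (r := rI 13 N) (Wd := u.P)
    (B := Bk (et N) (ly u N).W (oT u w N)) (m' := nT u w N)
    (F := Ft (SU u ε ω) (et N) (ly u N).W (oT u w N) (nT u w N)) X.Y X.hH X.hZ rfl (ly_spec hN)
    (mN_hN (u := u) (N := N) (by omega)) hε subset_rfl
    (C.hol.mono ((LocUx700.deep_sub (Real.sqrt_nonneg ε)).trans (P_sub_UU u)))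
    (bk_gate hN w) hW.r4 hW.r7
    (rI_near (N := N) (A' := 19 / 2 * et N) (B' := 103 / 2 * et N) (by linarith)
      (by have := hE.s5; have := Real.sqrt_nonneg ε; linarith)) hW.lo hW.up
    (g := gW Z u w hN hε) (fun σ _ h => X.hx C σ h) (fun σ _ h => X.strand C σ h) hC σ hσ h0
  refine key.trans ?_
  have h1 := th1_le u N
  have h2 : 2 * (C0 * ((16 * RigPx854.hN N / et0 N) ^ c0 + (RigPx854.hN N / Du u K0) ^ c0)) +
      2 * (C0 * (RigPx854.hN N / Du u K0) ^ c0) = 2 * th0 u N + 2 * th1 u N := rfl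
  rw [h2]
  unfold th
  linarith

/-! ### the partial tiles -/

section q

open Crest.Agent.R143.RigQx377 Crest.Agent.R143.ColSumx304 Crest.Agent.R143.Lawx831
open Crest.Agent.R143.Hqx304 Crest.Agent.R143.Engx490
open Crest.Agent.R143.Coarse2x166 (zs)
open Crest.Agent.R143.C2SDx395 (zc)
open Sptx169 (rst)

/-- **one tile of Q2** (829's `TileD`, 377's windows, order of time) -/
def TileI (w : ZMod 3) (Z : TData) (hN : u.n + 4 ≤ N) (hε : 0 < ε) (hS : GP (SU u ε ω : Set ℂ))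
    (h3 : 3 ≤ (SU u ε ω).card) (h₀ : Cs hS) (R : Set (Cs hS)) (Zz : Zn (rc0 hS)) (l : ℕ) :
    Prop :=
  DryQx829.TileD hS h3 {h₀} R (paI hS) (naI hS) (EvI hS w N h₀ R Zz)
    ((net Z u w hN hε).reg (uM hN \ I1 u w N l) (uM hN \ J1 u w N l))
    (fun s => (net Z u w hN hε).gw (uM hN) (uM hN) (paint (SU u ε ω) (bk hS h3 s)) ≠ 0)
    (rst (zs (rc0 hS) om (zc hS id))
      (Ft (SU u ε ω) (et N) (ly u N).W (oT u w N) (nT u w N) l))

/-- the balls around the regions of the tiles are in `UU u` -/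
theorem dz_near (hN : u.n + 4 ≤ N) {l : ℕ} {z : ℂ} (hz : z ∈ DZ u w N l) {v : ℂ}
    (hv : ‖v - z‖ ≤ et N) : v ∈ UU u := by
  have h0 := et_pos N
  have h1 := et_h N
  have hm : (mN u N : ℝ) * RigPx854.hN N = u.s := mN_hN (by omega)
  have hle := h_le (ly_spec hN) hm
  have h2 := WndXx829.QX_Sq3 (fp hN) hz
  have h3 : v ∈ Metric.thickening (2 * et N) (WndXx829.Sq3 (RigPx854.hN N) (ly u N).W
      (al (ly u N).A (ly u N).e w + ((nT u w N - 1 - l : ℕ) : ℤ))) := by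
    refine Metric.mem_thickening_iff.2 ⟨z, h2, ?_⟩
    rw [dist_eq_norm]
    linarith
  have h4 : Metric.infDist v u.P ≤ 5 * RigPx854.hN N := by
    have hr : 2 * et N ≤ RigPx854.hN N / 2 := by linarith
    rcases WndXx829.mem_thick3.1 h3 with h | h | h
    · exact WndIx416.Sqr_P (ly_spec hN) hm hr h
    · exact WndIx416.Sqr_P (ly_spec hN) hm hr h
    · exact WndIx416.Sqr_P (ly_spec hN) hm hr h
  obtain ⟨y, hy, he⟩ := (MeasPx609.isCompact_P u).exists_infDist_eq_dist (MeasPx609.P_nonempty u) v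
  rw [he, dist_eq_norm] at h4
  have h5 := P_norm u hy
  have h6 := norm_add_le (v - y) y
  rw [sub_add_cancel] at h6
  rw [mem_UU]
  linarith

/-- **hypothesis `hQ` of `quen_u`** -/
theorem Sx.q (X : Sx w Z hN hε hS h3 h₀ R Zz) (C : CorEnv u ε √ε K1 c2 ρ0 ω)
    (hd : 100 * √ε ≤ et N) (hm : 40 ≤ mN u N) (hε2 : ε ≤ 2 * RigPx854.hN N)
    (hA : ∫⁻ ω, (Z.tpl N hε).A (PP0x831.cfg ε ω) ∂sampleLaw ≠ 0)
    (hi : ∀ c, Inj ε (toPos ω) c)
    (T : ∀ l < nT u w N, TileI w Z hN hε hS h3 h₀ R Zz l) (d₀ : D0 (SU u ε ω)) :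
    ∑ l ∈ Finset.range (nT u w N), av (SU u ε ω).powerset (fun σ =>
      gW Z u w hN hε (clr (SU u ε ω) σ) * av (SU u ε ω).powerset fun τ =>
        ‖WdI hS h3 w N h₀ R Zz d₀ l σ τ‖ ^ 2) ≤ Qz Z u w N ε ω := by
  have h0 := et_pos N
  have h1 := et_h N
  have hm' : (mN u N : ℝ) * RigPx854.hN N = u.s := mN_hN (by omega)
  have hle := h_le (ly_spec hN) hm'
  have hs := Real.sqrt_nonneg ε
  have C' := C.mono (d' := et N) (by linarith) (by linarith)
  have eF : Ft (SU u ε ω) (et N) (ly u N).W (oT u w N) (nT u w N) =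
      Sptx832.FQ (SU u ε ω) (nT u w N) (DZ u w N) := by
    unfold Ft DZ
    rw [h1]
  have key := DryQx829.hQ_env hS h3 (d₀ := d₀) (k := w + 1) (m := nT u w N)
    (wndZ Z (w := w) hN hε hm hε2 hA) hi (coe_SU hε)
    (fun v hv h => inn_CW Z hN hε C hv h) (g := gW Z u w hN hε)
    (fun β _ => gW_nonneg Z hN hε _) (fun β _ => (gW_gw Z hN hε).le) h0
    (fun l _ => C'.hol.mono fun z hz => dz_near hN hz (v := z) (by simp [h0.le]))
    (fun l _ z hz v hv => C.inn (dz_near hN hz hv.le)) X.Y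
    (fun l hl => by
      have := T l hl
      unfold TileI at this
      rw [eF] at this
      exact this)
  rw [Qz_eq Z hN hε]
  rw [← eF] at key
  exact key

end q

end Crest.Agent.R143.QuenIx597
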