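import Crest.Agent.R143.Frame11_395
import Crest.Agent.R143.NonX_592

/-!
# Row 143 (S0194), block H: the exit lemma (helper707)

`M : CMap D C`, `x` an even configuration. Outer arc: the states `P M x r0 j`, `j ≤ b` (left cells
`K`). Chord: the states `P M x p0 k`, `k ≤ m`, which starts at a cell of `K`, ends at a cell of `K`
and has no left cell in `K` in between; the outer arc touches the first cell of the chord after
(every touch of) the last one.

* `Cr`, `Cr_par` : crossings of a dual walk, parity at the faces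
* `exit_main` : the closed dual walk chord + rotation round `q` + outer arc + rotation round `p` has
  a potential `χ`, constant on the left of the chord
* `exit` : a chain of cells from the right of the outer arc, which avoids `K`, reaches the left cells
  of the chord only across states of the chord
* `join` : if the cells of the chain are on the white side of `x` (or left cells of the chord) and
  the chain meets the chord, then the chord and the outer arc are on one loop
-/

set_option autoImplicit false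

noncomputable section

open scoped Classical

namespace Crest.Agent.R143.Exitx707

open Crest.Agent.R143.Frame1x395 Crest.Agent.R143.Frame2x395 Crest.Agent.R143.Frame3x395
  Crest.Agent.R143.Frame8x395 Crest.Agent.R143.Frame9x395 Crest.Agent.R143.Frame11x395
  Crest.Agent.R143.NonXx592

variable {D C : Type} {M : CMap D C} {x : D → ZMod 2}

/-! ### crossings of a dual walk -/

/-- crossings (mod 2) of the states `s 1, ..., s n` -/
def Cr (M : CMap D C) (s : ℕ → D) (n : ℕ) (e : D) : ZMod 2 :=
  ∑ i ∈ Finset.range n, ed M (s (i + 1)) e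

theorem Cr_iota (s : ℕ → D) (n : ℕ) (e : D) : Cr M s n (M.iota e) = Cr M s n e :=
  Finset.sum_congr rfl fun _ _ => ed_iota _ _

theorem Cr_par {s : ℕ → D} {n : ℕ} (hs : ∀ k, k < n → M.iota (s (k + 1)) ∈ Fa M (s k)) (e : D) :
    Cr M s n e + Cr M s n (M.rho e) + Cr M s n (M.rho (M.rho e)) =
      (if s n ∈ Fa M e then 1 else 0) + (if s 0 ∈ Fa M e then 1 else 0) := by
  induction n with
  | zero =>
    unfold Cr
    simp only [Finset.range_zero, Finset.sum_empty, add_zero]
    exact (z_self (if s 0 ∈ Fa M e then (1 : ZMod 2) else 0)).symm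
  | succ n ih =>
    have e0 : ∀ e, Cr M s (n + 1) e = Cr M s n e + ed M (s (n + 1)) e := fun e => by
      unfold Cr
      rw [Finset.sum_range_succ]
    rw [e0, e0, e0]
    have ih := ih fun k hk => hs k (by omega)
    have s1 := sum_ind (M := M) (s (n + 1)) e
    have s2 := sum_ind (M := M) (M.iota (s (n + 1))) e
    have e1 : (if M.iota (s (n + 1)) ∈ Fa M e then (1 : ZMod 2) else 0) =
        if s n ∈ Fa M e then 1 else 0 := by
      apply if_congr _ rfl rfl
      rcases hs n (by omega) with h | h | h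
      · rw [h]
      · rw [h, fa_inv M e]
      · rw [h, fa_inv M e, fa_inv M e]
    rw [e1] at s2
    unfold ed
    linear_combination ih + s1 + s2 + z_self (if s n ∈ Fa M e then (1 : ZMod 2) else 0)

theorem Cr_zero {s : ℕ → D} {n : ℕ} {e : D}
    (h : ∀ k, 1 ≤ k → k ≤ n → e ≠ s k ∧ e ≠ M.iota (s k)) : Cr M s n e = 0 := by
  unfold Cr
  refine Finset.sum_eq_zero fun i hi => ?_
  obtain ⟨h1, h2⟩ := h (i + 1) (by omega) (by have := Finset.mem_range.1 hi; omega)
  unfold ed
  rw [if_neg h1, if_neg h2, add_zero]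

theorem Cr_supp {s : ℕ → D} {n : ℕ} {e : D} (h : Cr M s n e ≠ 0) :
    ∃ k, 1 ≤ k ∧ k ≤ n ∧ (e = s k ∨ e = M.iota (s k)) := by
  by_contra hc
  push Not at hc
  exact h (Cr_zero fun k h1 h2 => hc k h1 h2)

theorem Cr_dead {s : ℕ → D} {n : ℕ} (hs : ∀ k, 1 ≤ k → k ≤ n → s k ∈ M.live) {e : D}
    (he : e ∉ M.live) : Cr M s n e = 0 := by
  refine Cr_zero fun k h1 h2 => ⟨?_, ?_⟩
  · rintro rfl
    exact he (hs k h1 h2)
  · rintro rfl
    exact he (M.iota_live _ (hs k h1 h2))

/-- a state which is crossed exactly once -/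
theorem Cr_one {s : ℕ → D} {n k : ℕ} {e : D} (h1 : 1 ≤ k) (hk : k ≤ n) (he : e = s k)
    (hne : e ≠ M.iota e) (h : ∀ i, 1 ≤ i → i ≤ n → i ≠ k → e ≠ s i)
    (h' : ∀ i, 1 ≤ i → i ≤ n → i ≠ k → e ≠ M.iota (s i)) : Cr M s n e = 1 := by
  unfold Cr
  rw [Finset.sum_eq_single (k - 1)]
  · rw [Nat.sub_add_cancel h1]
    unfold ed
    rw [if_pos he, if_neg (by rw [← he]; exact hne), add_zero]
  · intro i hi hik
    have hi := Finset.mem_range.1 hi
    unfold ed
    rw [if_neg (h (i + 1) (by omega) (by omega) (by omega)),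
      if_neg (h' (i + 1) (by omega) (by omega) (by omega)), add_zero]
  · intro hn
    exact absurd (Finset.mem_range.2 (by omega)) hn

theorem step_stp (h : IsC M ∅ x) {p : D} (hp : x p = 1) : M.iota (stp M x p) ∈ Fa M p := by
  rcases stp_cases h hp (Set.notMem_empty _) with ⟨-, -, e⟩ | ⟨-, -, e⟩
  · rw [e, M.iota2]; exact fa1 M p
  · rw [e, M.iota2]; exact fa2 M p

theorem step_phi (p : D) : M.iota (phi M p) ∈ Fa M p := by
  unfold phi
  rw [M.iota2]; exact fa2 M p

theorem phi_inj {a b : D} (e : phi M a = phi M b) : a = b :=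
  rho_inj M (rho_inj M (iota_inj M e))

theorem phi_it_inj {a b : D} (n : ℕ) (e : (phi M)^[n] a = (phi M)^[n] b) : a = b := by
  induction n with
  | zero => exact e
  | succ n ih =>
    rw [Function.iterate_succ_apply', Function.iterate_succ_apply'] at e
    exact ih (phi_inj e)

/-- change of the left cell: the gap dart -/
theorem gap_cases (h : IsC M ∅ x) {p : D} (hp : x p = 1) :
    M.cell (stp M x p) = M.cell p ∨
    (x (M.rho (M.rho p)) = 0 ∧ M.cell (M.rho (M.rho p)) = M.cell (stp M x p) ∧
      phi M (M.rho (M.rho p)) = stp M x p ∧ M.iota (M.rho (M.rho p)) = phi M p) := by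
  rcases stp_cases h hp (Set.notMem_empty _) with ⟨h1, h2, e⟩ | ⟨h1, h2, e⟩
  · right
    refine ⟨h2, ?_, ?_, rfl⟩
    · rw [e, M.cell_iota _ (h.lv h1)]
    · rw [e]
      unfold phi
      rw [M.rho3]
  · left
    rw [e, M.cell_iota _ (h.lv h2), M.rho3]

/-! ### chord and outer arc -/

/-- chord `P M x p0 k`, `k ≤ m`, and outer arc `P M x r0 j`, `j ≤ b` -/
structure Ch (M : CMap D C) (x : D → ZMod 2) (p0 r0 : D) (m b : ℕ) : Prop where
  isC : IsC M ∅ x
  xp : x p0 = 1
  xr : x r0 = 1
  inj : ∀ i j, i < j → j ≤ b → P M x r0 i ≠ P M x r0 j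
  mid : ∀ k, 0 < k → k < m → ∀ j, j ≤ b → M.cell (P M x p0 k) ≠ M.cell (P M x r0 j)
  hq : ∃ j, j ≤ b ∧ M.cell (P M x r0 j) = M.cell (P M x p0 m)
  hp : ∀ j, j ≤ b → M.cell (P M x r0 j) = M.cell (P M x p0 m) →
    ∃ j', j ≤ j' ∧ j' ≤ b ∧ M.cell (P M x r0 j') = M.cell p0
  ne : M.cell p0 ≠ M.cell (P M x p0 m)
  gp : Gen M (M.cell p0)
  gq : Gen M (M.cell (P M x p0 m))

variable {p0 r0 : D} {m b : ℕ}

/-- **the closed dual walk** -/
theorem exit_main (H : Ch M x p0 r0 m b)
    (hd : ∀ i, i ≤ m → ∀ j, j ≤ b → P M x p0 i ≠ P M x r0 j) :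
    ∃ (χ : C → ZMod 2) (j0 : ℕ), j0 ≤ b ∧
      (∀ k, k ≤ m → χ (M.cell (P M x p0 k)) = χ (M.cell (P M x r0 j0))) ∧
      χ (M.cell (P M x r0 j0)) ≠ χ (M.cell (M.rho (P M x r0 j0))) ∧
      ∀ e, χ (M.cell e) ≠ χ (M.cell (M.rho e)) →
        (∃ j, j ≤ b ∧ (M.cell e = M.cell (P M x r0 j) ∨ M.cell (M.rho e) = M.cell (P M x r0 j))) ∨
        ∃ i, 1 ≤ i ∧ i ≤ m ∧ (e = P M x p0 i ∨ e = M.iota (P M x p0 i)) := by
  have hx := H.isC
  have xP : ∀ k, x (P M x p0 k) = 1 := P_occ hx H.xp
  have xR : ∀ k, x (P M x r0 k) = 1 := P_occ hx H.xr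
  -- colours
  obtain ⟨ψ, hψ⟩ := M.ex x hx.dead hx.iot (fun d => by rw [hx.par d, if_neg (Set.notMem_empty d)])
  have hψ0 : ∀ d, x d = 0 → ψ (M.cell d) = ψ (M.cell (M.rho d)) := by
    intro d hd
    rw [hψ d] at hd
    revert hd
    generalize ψ (M.cell d) = a
    generalize ψ (M.cell (M.rho d)) = b
    revert a b; decide
  have hψ1 : ∀ d, x d = 1 → ψ (M.cell d) ≠ ψ (M.cell (M.rho d)) := by
    intro d hd
    rw [hψ d] at hd
    revert hd
    generalize ψ (M.cell d) = a
    generalize ψ (M.cell (M.rho d)) = b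
    revert a b; decide
  have cP : ∀ k, ψ (M.cell (P M x p0 k)) = ψ (M.cell p0) := it_col hx H.xp hψ0
  have cR0 : ∀ k, ψ (M.cell (P M x r0 k)) = ψ (M.cell r0) := it_col hx H.xr hψ0
  have cR : ∀ k, ψ (M.cell (P M x r0 k)) = ψ (M.cell p0) := by
    obtain ⟨j, -, hj⟩ := H.hq
    intro k
    rw [cR0 k, ← cR0 j, hj, cP m]
  have rR : ∀ k, ψ (M.cell (M.rho (P M x r0 k))) ≠ ψ (M.cell p0) := fun k => by
    have := hψ1 _ (xR k)
    rw [cR k] at this
    exact this.symm
  -- the first state of the outer arc in the rotation round `q`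
  set q := M.cell (P M x p0 m) with hq
  set p := M.cell p0 with hp
  set u := P M x p0 m with hu
  have hexA : ∃ k, ∃ j, j ≤ b ∧ (phi M)^[k] u = P M x r0 j := by
    obtain ⟨j, hj, e⟩ := H.hq
    obtain ⟨k, hk⟩ := H.gq.orb u (P M x r0 j) rfl e
    exact ⟨k, j, hj, hk⟩
  set k1 := Nat.find hexA with hk1
  obtain ⟨j0, hj0, ej0⟩ := Nat.find_spec hexA
  rw [← hk1] at ej0
  have min1 : ∀ k, k < k1 → ∀ j, j ≤ b → (phi M)^[k] u ≠ P M x r0 j := by
    intro k hk j hj e
    exact Nat.find_min hexA hk ⟨j, hj, e⟩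
  have cu : ∀ k, M.cell ((phi M)^[k] u) = q := H.gq.cell_it rfl
  have cj0 : M.cell (P M x r0 j0) = q := by rw [← ej0]; exact cu k1
  have k1pos : 0 < k1 := by
    rcases Nat.eq_zero_or_pos k1 with h0 | h0
    · rw [h0] at ej0
      exact absurd ej0 (hd m le_rfl j0 hj0)
    · exact h0
  -- the first touch of `p` after `j0`
  have hexB : ∃ j, j0 ≤ j ∧ j ≤ b ∧ M.cell (P M x r0 j) = p := H.hp j0 hj0 cj0
  set j1 := Nat.find hexB with hj1
  obtain ⟨h01, hj1b, ej1⟩ := Nat.find_spec hexB
  rw [← hj1] at h01 hj1b ej1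
  have min2 : ∀ j, j0 ≤ j → j < j1 → M.cell (P M x r0 j) ≠ p := by
    intro j h1 h2 e
    exact Nat.find_min hexB h2 ⟨h1, by omega, e⟩
  -- the rotation round `p`
  set v := P M x r0 j1 with hv
  have hexC : ∃ k, (phi M)^[k] v = p0 := H.gp.orb v p0 ej1 rfl
  set k2 := Nat.find hexC with hk2
  have ek2 : (phi M)^[k2] v = p0 := Nat.find_spec hexC
  have min3 : ∀ k, k < k2 → (phi M)^[k] v ≠ p0 := fun k hk => Nat.find_min hexC hk
  have cv : ∀ k, M.cell ((phi M)^[k] v) = p := H.gp.cell_it ej1
  -- the dual walk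
  set s1 : ℕ → D := fun k => P M x p0 k with hs1
  set s2 : ℕ → D := fun k => (phi M)^[k] u with hs2
  set s3 : ℕ → D := fun k => P M x r0 (j0 + k) with hs3
  set s4 : ℕ → D := fun k => (phi M)^[k] v with hs4
  set y : D → ZMod 2 := fun e => Cr M s1 m e + Cr M s2 k1 e + Cr M s3 (j1 - j0) e + Cr M s4 k2 e
    with hy
  have lv1 : ∀ k, 1 ≤ k → k ≤ m → s1 k ∈ M.live := fun k _ _ => hx.lv (xP k)
  have lv2 : ∀ k, 1 ≤ k → k ≤ k1 → s2 k ∈ M.live := fun k h1 _ => by
    have := H.gq.lv' (a := u) rfl (k - 1)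
    rwa [Nat.sub_add_cancel h1] at this
  have lv3 : ∀ k, 1 ≤ k → k ≤ j1 - j0 → s3 k ∈ M.live := fun k _ _ => hx.lv (xR _)
  have lv4 : ∀ k, 1 ≤ k → k ≤ k2 → s4 k ∈ M.live := fun k h1 _ => by
    have := H.gp.lv' (a := v) ej1 (k - 1)
    rwa [Nat.sub_add_cancel h1] at this
  obtain ⟨χ, hχ⟩ := M.ex y
    (fun d hd => by
      show Cr M s1 m d + Cr M s2 k1 d + Cr M s3 (j1 - j0) d + Cr M s4 k2 d = 0
      rw [Cr_dead lv1 hd, Cr_dead lv2 hd, Cr_dead lv3 hd, Cr_dead lv4 hd]; decide)
    (fun d => by
      show Cr M s1 m _ + Cr M s2 k1 _ + Cr M s3 (j1 - j0) _ + Cr M s4 k2 _ = _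
      rw [Cr_iota, Cr_iota, Cr_iota, Cr_iota])
    (fun d => by
      have p1 := Cr_par (M := M) (s := s1) (n := m) (fun k _ => by
        show M.iota (P M x p0 (k + 1)) ∈ Fa M (P M x p0 k)
        rw [P_succ]; exact step_stp hx (xP k)) d
      have p2 := Cr_par (M := M) (s := s2) (n := k1) (fun k _ => by
        show M.iota ((phi M)^[k + 1] u) ∈ Fa M ((phi M)^[k] u)
        rw [Function.iterate_succ_apply']; exact step_phi _) d
      have p3 := Cr_par (M := M) (s := s3) (n := j1 - j0) (fun k _ => by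
        show M.iota (P M x r0 (j0 + (k + 1))) ∈ Fa M (P M x r0 (j0 + k))
        rw [← add_assoc, P_succ]; exact step_stp hx (xR _)) d
      have p4 := Cr_par (M := M) (s := s4) (n := k2) (fun k _ => by
        show M.iota ((phi M)^[k + 1] v) ∈ Fa M ((phi M)^[k] v)
        rw [Function.iterate_succ_apply']; exact step_phi _) d
      have a1 : s1 m = u := rfl
      have a2 : s1 0 = p0 := rfl
      have a3 : s2 k1 = P M x r0 j0 := ej0
      have a4 : s2 0 = u := rfl
      have a5 : s3 (j1 - j0) = v := by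
        show P M x r0 (j0 + (j1 - j0)) = v
        rw [Nat.add_sub_cancel' h01]
      have a6 : s3 0 = P M x r0 j0 := rfl
      have a7 : s4 k2 = p0 := ek2
      have a8 : s4 0 = v := rfl
      rw [a1, a2] at p1
      rw [a3, a4] at p2
      rw [a5, a6] at p3
      rw [a7, a8] at p4
      show Cr M s1 m d + Cr M s2 k1 d + Cr M s3 (j1 - j0) d + Cr M s4 k2 d +
        (Cr M s1 m (M.rho d) + Cr M s2 k1 (M.rho d) + Cr M s3 (j1 - j0) (M.rho d) +
          Cr M s4 k2 (M.rho d)) +
        (Cr M s1 m (M.rho (M.rho d)) + Cr M s2 k1 (M.rho (M.rho d)) +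
          Cr M s3 (j1 - j0) (M.rho (M.rho d)) + Cr M s4 k2 (M.rho (M.rho d))) = 0
      linear_combination p1 + p2 + p3 + p4 + z_self (if u ∈ Fa M d then (1 : ZMod 2) else 0) +
        z_self (if P M x r0 j0 ∈ Fa M d then (1 : ZMod 2) else 0) +
        z_self (if v ∈ Fa M d then (1 : ZMod 2) else 0) +
        z_self (if p0 ∈ Fa M d then (1 : ZMod 2) else 0))
  have z2 : ∀ a b : ZMod 2, a ≠ b ↔ a + b ≠ 0 := by decide
  have z3 : ∀ a b : ZMod 2, a = b ↔ a + b = 0 := by decide
  refine ⟨χ, j0, hj0, ?_, ?_, ?_⟩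
  · -- constant on the left of the chord
    have key : ∀ k, k < m → χ (M.cell (P M x p0 k)) = χ (M.cell (P M x p0 (k + 1))) := by
      intro k hk
      rcases gap_cases hx (xP k) with h1 | ⟨h1, h2, h3, h4⟩
      · rw [P_succ, h1]
      · set g := M.rho (M.rho (P M x p0 k)) with hg
        rw [← P_succ] at h2 h3
        have hrg : M.rho g = P M x p0 k := M.rho3 _
        have yg : y g = 0 := by
          show Cr M s1 m g + Cr M s2 k1 g + Cr M s3 (j1 - j0) g + Cr M s4 k2 g = 0
          have c1 : Cr M s1 m g = 0 := Cr_zero fun i _ _ => by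
            refine ⟨fun e => ?_, fun e => ?_⟩
            · rw [e] at h1
              have : x (P M x p0 i) = 0 := h1
              rw [xP i] at this
              exact absurd this (by decide)
            · rw [e, hx.iot] at h1
              have : x (P M x p0 i) = 0 := h1
              rw [xP i] at this
              exact absurd this (by decide)
          have c3 : Cr M s3 (j1 - j0) g = 0 := Cr_zero fun i _ _ => by
            refine ⟨fun e => ?_, fun e => ?_⟩
            · rw [e] at h1
              have : x (P M x r0 (j0 + i)) = 0 := h1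
              rw [xR _] at this
              exact absurd this (by decide)
            · rw [e, hx.iot] at h1
              have : x (P M x r0 (j0 + i)) = 0 := h1
              rw [xR _] at this
              exact absurd this (by decide)
          have c2 : Cr M s2 k1 g = 0 := Cr_zero fun i hi1 hi2 => by
            refine ⟨fun e => ?_, fun e => ?_⟩
            · -- `g` in the rotation round `q`
              have e' : g = (phi M)^[i] u := e
              have h5 : M.cell (P M x p0 (k + 1)) = q := by rw [← h2, e']; exact cu i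
              have h6 : k + 1 = m := by
                by_contra hne
                exact H.mid (k + 1) (by omega) (by omega) j0 hj0 (by rw [h5, cj0])
              have h7 : (phi M)^[i + 1] u = u := by
                rw [Function.iterate_succ_apply', ← e', h3, h6]
              rcases Nat.lt_or_ge i k1 with h8 | h8
              · refine min1 (k1 - (i + 1)) (by omega) j0 hj0 ?_
                have h9 : (phi M)^[k1] u = (phi M)^[k1 - (i + 1)] ((phi M)^[i + 1] u) := by
                  rw [← Function.iterate_add_apply, Nat.sub_add_cancel (by omega)]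
                rw [h7, ej0] at h9
                exact h9.symm
              · have h9 : i = k1 := by omega
                rw [h9, ej0] at e'
                rw [e', xR] at h1
                exact absurd h1 (by decide)
            · have e' : g = M.iota ((phi M)^[i] u) := e
              have h5 : M.iota g = (phi M)^[i] u := by rw [e', M.iota2]
              have h6 : M.cell (P M x p0 k) = q := by
                rw [h4] at h5
                have h7 := cu i
                rw [← h5] at h7
                have h8 : M.cell (phi M (P M x p0 k)) = M.cell (P M x p0 k) := by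
                  unfold phi
                  have hl : M.rho (M.rho (P M x p0 k)) ∈ M.live := by
                    have := M.iota_live _ (lv2 i hi1 hi2)
                    rw [show M.iota (s2 i) = g from e'.symm] at this
                    exact this
                  rw [M.cell_iota _ hl, M.rho3]
                rw [← h8, h7]
              rcases Nat.eq_zero_or_pos k with h0 | h0
              · rw [h0] at h6
                exact H.ne h6
              · exact H.mid k h0 hk j0 hj0 (by rw [h6, cj0])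
          have c4 : Cr M s4 k2 g = 0 := Cr_zero fun i hi1 hi2 => by
            refine ⟨fun e => ?_, fun e => ?_⟩
            · have e' : g = (phi M)^[i] v := e
              have h5 : M.cell (P M x p0 (k + 1)) = p := by rw [← h2, e']; exact cv i
              have h6 : k + 1 = m := by
                by_contra hne
                exact H.mid (k + 1) (by omega) (by omega) j1 hj1b (by rw [h5, ej1])
              rw [h6] at h5
              exact H.ne h5.symm
            · have e' : g = M.iota ((phi M)^[i] v) := e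
              have h5 : phi M (P M x p0 k) = (phi M)^[i] v := by rw [← h4, e', M.iota2]
              have hl : M.rho (M.rho (P M x p0 k)) ∈ M.live := by
                have := M.iota_live _ (lv4 i hi1 hi2)
                rw [show M.iota (s4 i) = g from e'.symm] at this
                exact this
              have h6 : M.cell (P M x p0 k) = p := by
                have h7 := cv i
                rw [← h5] at h7
                unfold phi at h7
                rw [M.cell_iota _ hl, M.rho3] at h7
                exact h7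
              have h0 : k = 0 := by
                by_contra h0
                exact H.mid k (by omega) hk j1 hj1b (by rw [h6, ej1])
              subst h0
              refine min3 (i - 1) (by omega) ?_
              apply phi_inj (M := M)
              rw [← Function.iterate_succ_apply' (phi M), show (i - 1).succ = i by omega, ← h5]
              rfl
          rw [c1, c2, c3, c4]; decide
        have h5 := hχ g
        rw [yg, hrg, h2] at h5
        exact ((z3 _ _).2 h5.symm).symm
    have key2 : ∀ n, n ≤ m → χ (M.cell (P M x p0 (m - n))) = χ q := by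
      intro n
      induction n with
      | zero => intro _; rfl
      | succ n ih =>
        intro hn
        rw [← ih (by omega), key (m - (n + 1)) (by omega)]
        congr 3
        omega
    intro k hk
    have := key2 (m - k) (by omega)
    rw [Nat.sub_sub_self hk] at this
    rw [this, cj0]
  · -- the state `j0` is crossed once
    set s := P M x r0 j0 with hs
    have hsne : s ≠ M.iota s := (M.iota_ne s (hx.lv (xR j0))).symm
    have cis : M.cell (M.iota s) = M.cell (M.rho s) := M.cell_iota _ (hx.lv (xR j0))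
    have ys : y s = 1 := by
      show Cr M s1 m s + Cr M s2 k1 s + Cr M s3 (j1 - j0) s + Cr M s4 k2 s = 1
      have c1 : Cr M s1 m s = 0 := Cr_zero fun i _ hi => by
        refine ⟨fun e => ?_, fun e => ?_⟩
        · exact hd i hi j0 hj0 e.symm
        · have e1 : M.iota s = P M x p0 i := by rw [e, M.iota2]
          have e2 := cP i
          rw [← e1, cis] at e2
          exact rR j0 e2
      have c2 : Cr M s2 k1 s = 1 := by
        refine Cr_one (k := k1) k1pos le_rfl ej0.symm hsne ?_ ?_
        · intro i _ hi hne e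
          exact min1 i (by omega) j0 hj0 e.symm
        · intro i _ hi hne e
          have e1 : M.iota s = (phi M)^[i] u := by rw [e, M.iota2]
          have e2 := cu i
          rw [← e1, cis] at e2
          apply rR j0
          rw [e2]
          exact cP m
      have c3 : Cr M s3 (j1 - j0) s = 0 := Cr_zero fun i hi1 hi2 => by
        refine ⟨fun e => ?_, fun e => ?_⟩
        · exact H.inj j0 (j0 + i) (by omega) (by omega) e
        · have e1 : M.iota s = P M x r0 (j0 + i) := by rw [e, M.iota2]
          have e2 := cR (j0 + i)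
          rw [← e1, cis] at e2
          exact rR j0 e2
      have c4 : Cr M s4 k2 s = 0 := Cr_zero fun i hi1 hi2 => by
        refine ⟨fun e => ?_, fun e => ?_⟩
        · have e1 := cv i
          have e2 : s = (phi M)^[i] v := e
          rw [← e2, cj0] at e1
          exact H.ne e1.symm
        · have e1 : M.iota s = (phi M)^[i] v := by rw [e, M.iota2]
          have e2 := cv i
          rw [← e1, cis] at e2
          apply rR j0
          rw [e2]
      rw [c1, c2, c3, c4]; decide
    have h5 := hχ s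
    rw [ys] at h5
    rw [z2, ← h5]
    decide
  · intro e he
    rw [z2, ← hχ e] at he
    have h1 : Cr M s1 m e ≠ 0 ∨ Cr M s2 k1 e ≠ 0 ∨ Cr M s3 (j1 - j0) e ≠ 0 ∨ Cr M s4 k2 e ≠ 0 := by
      by_contra hc
      push Not at hc
      obtain ⟨c1, c2, c3, c4⟩ := hc
      apply he
      show Cr M s1 m e + Cr M s2 k1 e + Cr M s3 (j1 - j0) e + Cr M s4 k2 e = 0
      rw [c1, c2, c3, c4]; decide
    rcases h1 with h1 | h1 | h1 | h1
    · obtain ⟨k, hk1, hk2, h2⟩ := Cr_supp h1
      exact Or.inr ⟨k, hk1, hk2, h2⟩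
    · obtain ⟨k, hk1', hk2', h2⟩ := Cr_supp h1
      left
      refine ⟨j0, hj0, ?_⟩
      rcases h2 with h2 | h2
      · left; rw [h2, cj0]; exact cu k
      · right
        rw [h2, cell_rho_iota M (lv2 k hk1' hk2'), cj0]; exact cu k
    · obtain ⟨k, hk1', hk2', h2⟩ := Cr_supp h1
      left
      refine ⟨j0 + k, by omega, ?_⟩
      rcases h2 with h2 | h2
      · left; rw [h2]
      · right
        rw [h2, cell_rho_iota M (lv3 k hk1' hk2')]
    · obtain ⟨k, hk1', hk2', h2⟩ := Cr_supp h1
      left
      refine ⟨j1, hj1b, ?_⟩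
      rcases h2 with h2 | h2
      · left; rw [h2, ej1]; exact cv k
      · right
        rw [h2, cell_rho_iota M (lv4 k hk1' hk2'), ej1]; exact cv k

/-! ### chains of cells -/

/-- neighbours -/
def Nb (M : CMap D C) (c c' : C) : Prop := ∃ d, M.cell d = c ∧ M.cell (M.rho d) = c'

theorem nb_symm {c c' : C} (h : Nb M c c') : Nb M c' c := by
  obtain ⟨d, rfl, rfl⟩ := h
  by_cases hl : d ∈ M.live
  · exact ⟨M.iota d, M.cell_iota d hl, cell_rho_iota M hl⟩
  · exact ⟨d, M.dead d hl, (M.dead d hl).symm⟩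

/-- **exit lemma**: a chain of cells, which starts at the right of the outer arc and avoids the left
cells `K` of the outer arc, reaches the left cells of the chord only across states of the chord -/
theorem exit (H : Ch M x p0 r0 m b)
    (hd : ∀ i, i ≤ m → ∀ j, j ≤ b → P M x p0 i ≠ P M x r0 j) {w : ℕ → C} {n : ℕ}
    (h0 : ∃ j, j ≤ b ∧ w 0 = M.cell (M.rho (P M x r0 j)))
    (adj : ∀ i, i < n → Nb M (w i) (w (i + 1)))
    (hav : ∀ i, i ≤ n → ∀ j, j ≤ b → w i ≠ M.cell (P M x r0 j))
    (hL : ∀ i, i < n → ∀ k, k ≤ m → w i ≠ M.cell (P M x p0 k))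
    (hn : ∃ k, k ≤ m ∧ w n = M.cell (P M x p0 k)) :
    1 ≤ n ∧ ∃ i, 1 ≤ i ∧ i ≤ m ∧ w n = M.cell (P M x p0 i) ∧
      w (n - 1) = M.cell (M.rho (P M x p0 i)) := by
  obtain ⟨χ, j0, hj0, X1, X2, X3⟩ := exit_main H hd
  have hx := H.isC
  have xP : ∀ k, x (P M x p0 k) = 1 := P_occ hx H.xp
  have xR : ∀ k, x (P M x r0 k) = 1 := P_occ hx H.xr
  obtain ⟨ψ, hψ⟩ := M.ex x hx.dead hx.iot (fun d => by rw [hx.par d, if_neg (Set.notMem_empty d)])
  have hψ0 : ∀ d, x d = 0 → ψ (M.cell d) = ψ (M.cell (M.rho d)) := by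
    intro d hd
    rw [hψ d] at hd
    revert hd
    generalize ψ (M.cell d) = a
    generalize ψ (M.cell (M.rho d)) = b
    revert a b; decide
  have hψ1 : ∀ d, x d = 1 → ψ (M.cell d) ≠ ψ (M.cell (M.rho d)) := by
    intro d hd
    rw [hψ d] at hd
    revert hd
    generalize ψ (M.cell d) = a
    generalize ψ (M.cell (M.rho d)) = b
    revert a b; decide
  have cP : ∀ k, ψ (M.cell (P M x p0 k)) = ψ (M.cell p0) := it_col hx H.xp hψ0
  have cR0 : ∀ k, ψ (M.cell (P M x r0 k)) = ψ (M.cell r0) := it_col hx H.xr hψ0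
  have cR : ∀ k, ψ (M.cell (P M x r0 k)) = ψ (M.cell p0) := by
    obtain ⟨j, -, hj⟩ := H.hq
    intro k
    rw [cR0 k, ← cR0 j, hj, cP m]
  have rR : ∀ k, ψ (M.cell (M.rho (P M x r0 k))) ≠ ψ (M.cell p0) := fun k => by
    have := hψ1 _ (xR k)
    rw [cR k] at this
    exact this.symm
  -- an edge off the left cells is not crossed
  have off : ∀ c c', Nb M c c' → (∀ j, j ≤ b → c ≠ M.cell (P M x r0 j)) →
      (∀ j, j ≤ b → c' ≠ M.cell (P M x r0 j)) → (∀ k, k ≤ m → c ≠ M.cell (P M x p0 k)) →
      (∀ k, k ≤ m → c' ≠ M.cell (P M x p0 k)) → χ c = χ c' := by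
    rintro _ _ ⟨e, rfl, rfl⟩ a1 a2 a3 a4
    by_contra hne
    rcases X3 e hne with ⟨j, hj, h1 | h1⟩ | ⟨i, hi1, hi2, h1 | h1⟩
    · exact a1 j hj h1
    · exact a2 j hj h1
    · exact a3 i hi2 (by rw [h1])
    · exact a4 i hi2 (by rw [h1, cell_rho_iota M (hx.lv (xP i))])
  -- the right cells of the outer arc
  have rstep : ∀ j, j < b → χ (M.cell (M.rho (P M x r0 j))) =
      χ (M.cell (M.rho (P M x r0 (j + 1)))) := by
    intro j hj
    rcases right_cases hx H.xr j with ⟨-, h1⟩ | ⟨h1, h2⟩
    · exact congrArg χ h1.symm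
    · refine off _ _ ⟨M.rho (P M x r0 j), rfl, h2.symm⟩ ?_ ?_ ?_ ?_
      · intro i _ e; exact rR j (by rw [e, cR i])
      · intro i _ e; exact rR (j + 1) (by rw [e, cR i])
      · intro i _ e; exact rR j (by rw [e, cP i])
      · intro i _ e; exact rR (j + 1) (by rw [e, cP i])
  have rall : ∀ j, j ≤ b → χ (M.cell (M.rho (P M x r0 j))) = χ (M.cell (M.rho r0)) := by
    intro j
    induction j with
    | zero => intro _; rfl
    | succ j ih => intro hj; rw [← rstep j (by omega), ih (by omega)]
  -- the chain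
  have hn1 : 1 ≤ n := by
    rcases Nat.eq_zero_or_pos n with h1 | h1
    · obtain ⟨j, hj, e⟩ := h0
      obtain ⟨k, hk, e'⟩ := hn
      rw [h1, e] at e'
      exact absurd (by rw [e', cP k]) (rR j)
    · exact h1
  have w0 : χ (w 0) = χ (M.cell (M.rho (P M x r0 j0))) := by
    obtain ⟨j, hj, e⟩ := h0
    rw [e, rall j hj, rall j0 hj0]
  have wi : ∀ i, i < n → χ (w i) = χ (w 0) := by
    intro i
    induction i with
    | zero => intro _; rfl
    | succ i ih =>
      intro hi
      rw [← ih (by omega)]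
      exact (off _ _ (adj i (by omega)) (hav i (by omega)) (hav (i + 1) (by omega))
        (hL i (by omega)) (hL (i + 1) hi)).symm
  refine ⟨hn1, ?_⟩
  obtain ⟨e, he1, he2⟩ := adj (n - 1) (by omega)
  rw [Nat.sub_add_cancel hn1] at he2
  have hne : χ (M.cell e) ≠ χ (M.cell (M.rho e)) := by
    obtain ⟨k, hk, hk'⟩ := hn
    rw [he1, he2, wi (n - 1) (by omega), w0, hk', X1 k hk]
    exact X2.symm
  rcases X3 e hne with ⟨j, hj, h1 | h1⟩ | ⟨i, hi1, hi2, h1 | h1⟩
  · exact absurd (he1 ▸ h1) (hav (n - 1) (by omega) j hj)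
  · exact absurd (he2 ▸ h1) (hav n le_rfl j hj)
  · exact absurd (by rw [← he1, h1]) (hL (n - 1) (by omega) i hi2)
  · refine ⟨i, hi1, hi2, ?_, ?_⟩
    · rw [← he2, h1, cell_rho_iota M (hx.lv (xP i))]
    · rw [← he1, h1, M.cell_iota _ (hx.lv (xP i))]

/-- the left cells of a walk are connected -/
theorem left_con (hx : IsC M ∅ x) {p : D} (hp : x p = 1) (n : ℕ) :
    Con M x (M.cell p) (M.cell (P M x p n)) := by
  induction n with
  | zero => exact Relation.EqvGen.refl _
  | succ n ih =>
    refine ih.trans _ _ _ ?_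
    rcases gap_cases hx (P_occ hx hp n) with h1 | ⟨h1, h2, -, -⟩
    · rw [P_succ, h1]
      exact Relation.EqvGen.refl _
    · refine Relation.EqvGen.symm _ _ (Relation.EqvGen.rel _ _ ⟨_, h1, ?_, ?_⟩)
      · rw [P_succ, h2]
      · rw [M.rho3]

/-- on one loop -/
theorem on_loop [Finite D] (hx : IsC M ∅ x) {p r : D} (hp : x p = 1) {i j : ℕ}
    (e : P M x p i = P M x r j) : ∃ t, P M x r t = p := by
  obtain ⟨N, hN, eN⟩ := periodic hx hp
  have h1 : i ≤ i * N := Nat.le_mul_of_pos_right _ hN
  refine ⟨(i * N - i) + j, ?_⟩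
  rw [P_add, ← e, ← P_add, Nat.sub_add_cancel h1]
  exact per_mul eN i

/-- **join**: if a chain from the right of the outer arc avoids `K`, consists of cells of the right
colour and of left cells of the chord, and ends at a cell of the chord, then the chord and the outer
arc are on one loop -/
theorem join [Finite D] (H : Ch M x p0 r0 m b) {ψ : C → ZMod 2}
    (hψ : ∀ d, x d = ψ (M.cell d) + ψ (M.cell (M.rho d))) {w : ℕ → C} {n : ℕ}
    (h0 : ∃ j, j ≤ b ∧ w 0 = M.cell (M.rho (P M x r0 j)))
    (adj : ∀ i, i < n → Nb M (w i) (w (i + 1)))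
    (hav : ∀ i, i ≤ n → ∀ j, j ≤ b → w i ≠ M.cell (P M x r0 j))
    (hcol : ∀ i, i ≤ n → ψ (w i) ≠ ψ (M.cell p0) ∨ ∃ k, k ≤ m ∧ w i = M.cell (P M x p0 k))
    (hn : ∃ k, k ≤ m ∧ (w n = M.cell (P M x p0 k) ∨ w n = M.cell (M.rho (P M x p0 k)))) :
    ∃ t, P M x r0 t = p0 := by
  have hx := H.isC
  by_contra hno
  have hd : ∀ i, i ≤ m → ∀ j, j ≤ b → P M x p0 i ≠ P M x r0 j := fun i _ j _ e =>
    hno (on_loop hx H.xp e)
  have xP : ∀ k, x (P M x p0 k) = 1 := P_occ hx H.xp
  have xR : ∀ k, x (P M x r0 k) = 1 := P_occ hx H.xr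
  have hex : ∃ i, i ≤ n ∧ ∃ k, k ≤ m ∧
      (w i = M.cell (P M x p0 k) ∨ w i = M.cell (M.rho (P M x p0 k))) := ⟨n, le_rfl, hn⟩
  obtain ⟨hin, k, hk, hik⟩ := Nat.find_spec hex
  set i := Nat.find hex with hi
  have hmin : ∀ a, a < i → ∀ k, k ≤ m →
      w a ≠ M.cell (P M x p0 k) ∧ w a ≠ M.cell (M.rho (P M x p0 k)) := by
    intro a ha k hk
    refine ⟨fun e => ?_, fun e => ?_⟩
    · exact Nat.find_min hex ha ⟨by omega, k, hk, Or.inl e⟩
    · exact Nat.find_min hex ha ⟨by omega, k, hk, Or.inr e⟩
  -- the first cell of the chord is not a left cell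
  have hnl : ∀ k, k ≤ m → w i ≠ M.cell (P M x p0 k) := by
    intro k hk e
    obtain ⟨h1, l, -, hl, -, h3⟩ := exit H hd h0 (fun a ha => adj a (by omega))
      (fun a ha => hav a (by omega)) (fun a ha k hk => (hmin a ha k hk).1) ⟨k, hk, e⟩
    exact (hmin (i - 1) (by omega) l hl).2 h3
  have hr : w i = M.cell (M.rho (P M x p0 k)) := by
    rcases hik with h1 | h1
    · exact absurd h1 (hnl k hk)
    · exact h1
  -- the colours
  have hwc : ∀ a, a ≤ i → ψ (w a) ≠ ψ (M.cell p0) := by
    intro a ha
    rcases hcol a (by omega) with h1 | ⟨k, hk, h1⟩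
    · exact h1
    · exfalso
      rcases ha.lt_or_eq with h2 | rfl
      · exact (hmin a h2 k hk).1 h1
      · exact hnl k hk h1
  have hcon : ∀ a, a ≤ i → Con M x (w 0) (w a) := by
    intro a
    induction a with
    | zero => intro _; exact Relation.EqvGen.refl _
    | succ a ih =>
      intro ha
      refine (ih (by omega)).trans _ _ _ ?_
      obtain ⟨e, he1, he2⟩ := adj a (by omega)
      refine Relation.EqvGen.rel _ _ ⟨e, ?_, he1, he2⟩
      rw [hψ e, he1, he2]
      have c1 := hwc a (by omega)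
      have c2 := hwc (a + 1) ha
      revert c1 c2
      generalize ψ (w a) = α
      generalize ψ (w (a + 1)) = β
      generalize ψ (M.cell p0) = γ
      revert α β γ; decide
  obtain ⟨j, hj, ej⟩ := h0
  obtain ⟨jq, -, ejq⟩ := H.hq
  have hl : Con M x (M.cell (P M x r0 j)) (M.cell (P M x p0 k)) := by
    have c1 := left_con hx H.xr j
    have c2 := left_con hx H.xr jq
    have c3 := left_con hx H.xp m
    have c4 := left_con hx H.xp k
    rw [ejq] at c2
    exact (c1.symm _ _).trans _ _ _ (c2.trans _ _ _ ((c3.symm _ _).trans _ _ _ c4))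
  have hrr : Con M x (M.cell (M.rho (P M x r0 j))) (M.cell (M.rho (P M x p0 k))) := by
    have := hcon i le_rfl
    rwa [ej, hr] at this
  obtain ⟨t, ht⟩ := same_loop hx (xR j) (xP k) hl hrr
  refine hno (on_loop hx H.xp (i := k) (j := t + j) ?_)
  rw [P_add]
  exact ht.symm

end Crest.Agent.R143.Exitx707
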