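import Crest.Agent.R143.J8_872
import Crest.Agent.R143.XF_903
import Crest.Agent.R143.XLeg_126
import Crest.Agent.R143.G6W_723

/-!
# Row 143 (S0194), block X, GAUGE part 1 (helper950): mod 2 functions on the Delaunay edges

* `it t T` : `1` at the rotations of `t`; `ds g a b c` : sum over the sides; `oc J a b` : occupied
* `join_of` : a symmetric function with the right values is a join
* `Cn` : two triangles connected by a path of edges with an end in `B`; `Cn.fan`, `Cn.chain`,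
  `Cn.seg` : along a segment (greedy site path)
* `hull_const` : a function which is constant along the hull edges is constant on the hull
* `flip_eq` : two joins of the same type differ by a colouring
-/

set_option autoImplicit false

noncomputable section

open scoped Classical

namespace Crest.Agent.R143.Gax950

open Crest.Agent.R143.B0x346 Crest.Agent.R143.DelGx806 Crest.Agent.R143.DelRx806
open Crest.Agent.R143.JColx54 Crest.Agent.R143.JCol2x54 Crest.Agent.R143.Planarx54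
open Crest.Agent.R143.X0Bx683 Crest.Agent.R143.JCardx872 Crest.Agent.R143.JWalkx872
open Crest.Agent.R143.Circx63

variable {S : Finset ℂ} {G : Trg ℂ} {kl : Set (ℂ × ℂ)} {O : Set (ℂ × ℂ × ℂ)} {D : Set (ℂ × ℂ)}
  {J : Finset (ℂ × ℂ)}

/-- indicator of the rotations of `t` -/
def it (t T : ℂ × ℂ × ℂ) : ZMod 2 := if T ∈ rots t then 1 else 0

/-- sum over the sides -/
def ds (g : ℂ → ℂ → ZMod 2) (a b c : ℂ) : ZMod 2 := g a b + g b c + g c a

/-- occupied -/
def oc (J : Finset (ℂ × ℂ)) (a b : ℂ) : ZMod 2 := if (a, b) ∈ J ∨ (b, a) ∈ J then 1 else 0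

theorem z2 (u : ZMod 2) : u = 0 ∨ u = 1 := by revert u; decide

theorem z2_self (u : ZMod 2) : u + u = 0 := by revert u; decide

theorem z2_sub (u v : ZMod 2) : u - v = u + v := by revert u v; decide

theorem oc_symm (J : Finset (ℂ × ℂ)) (a b : ℂ) : oc J b a = oc J a b := by
  unfold oc
  simp only [or_comm]

theorem oc_ne {a b : ℂ} : oc J a b ≠ 0 ↔ ((a, b) ∈ J ∨ (b, a) ∈ J) := by
  unfold oc
  split_ifs with h
  · exact ⟨fun _ => h, fun _ => one_ne_zero⟩
  · exact ⟨fun h' => absurd rfl h', fun h' => absurd h' h⟩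

theorem oc_one {a b : ℂ} : oc J a b = 1 ↔ ((a, b) ∈ J ∨ (b, a) ∈ J) := by
  rw [← oc_ne]
  rcases z2 (oc J a b) with h | h <;> rw [h] <;> decide

/-- sum over the sides of a join -/
theorem oc_ds (hS : GP (S : Set ℂ)) (hG : G.T = delT S) (hD : HullM S D)
    (hJ : IsJoin G kl O D J) {a b c : ℂ} (h : (a, b, c) ∈ delT S) :
    ds (oc J) a b c = if (a, b, c) ∈ O then 1 else 0 := by
  have hG' : (a, b, c) ∈ G.T := by rw [hG]; exact h
  have h1 := occ_iff hG hD hJ h
  have h2 := occ_iff hG hD hJ (delT_rot hS h)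
  have h3 := occ_iff hG hD hJ (delT_rot hS (delT_rot hS h))
  have hp := hJ.par a b c hG'
  unfold ds oc
  simp only [h1, h2, h3]
  by_cases x1 : (a, b) ∈ J <;> by_cases x2 : (b, c) ∈ J <;> by_cases x3 : (c, a) ∈ J <;>
    by_cases x4 : (a, b, c) ∈ O <;>
    simp only [x1, x2, x3, x4, if_true, if_false] at hp ⊢ <;> first | decide | omega

theorem it_rots (t : ℂ × ℂ × ℂ) (a b c : ℂ) : it t (a, b, c) = it t (b, c, a) := by
  unfold it
  rw [XFx903.rots_mem_rot]

theorem it_self (t : ℂ × ℂ × ℂ) : it t t = 1 := if_pos (mem_rots_self _)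

theorem it_rot {t t' : ℂ × ℂ × ℂ} (h : t' ∈ rots t) (T : ℂ × ℂ × ℂ) : it t' T = it t T := by
  unfold it
  rw [← rots_eq h]

theorem it_symmDiff (t t' T : ℂ × ℂ × ℂ) :
    (if T ∈ symmDiff (rots t) (rots t') then 1 else 0 : ZMod 2) = it t T + it t' T := by
  unfold it
  rw [Set.mem_symmDiff]
  by_cases h1 : T ∈ rots t <;> by_cases h2 : T ∈ rots t' <;> simp [h1, h2] <;> decide

/-- **a symmetric function with the right values is a join** -/
theorem join_of (hG : G.T = delT S) (hD : ∀ a b, (a, b) ∈ D → hullE S a b)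
    {g : ℂ → ℂ → ZMod 2} (hsym : ∀ a b, Adj S a b → g b a = g a b)
    (hmark : ∀ a b, (a, b) ∈ D → g a b = 1)
    (hbdr : ∀ a b, hullE S a b → (a, b) ∉ D → g a b = 0)
    (hkill : ∀ a b, Adj S a b → (a, b) ∈ kl → (a, b) ∉ D → (b, a) ∉ D → g a b = 0)
    (hpar : ∀ a b c, (a, b, c) ∈ delT S → ds g a b c = if (a, b, c) ∈ O then 1 else 0)
    (hS : GP (S : Set ℂ)) :
    ∃ J, IsJoin G kl O D J ∧ ∀ a b, Adj S a b → oc J a b = g a b := by
  have hDD : ∀ a b, (a, b) ∈ D → (b, a) ∉ D := fun a b h h' => by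
    obtain ⟨c, hc⟩ := (hD b a h').1
    exact (hD a b h).2 c hc
  set K : Finset (ℂ × ℂ) := G.E.filter fun p => g p.1 p.2 = 1 ∧ (p.2, p.1) ∉ D with hK
  have hm : ∀ a b, (a, b) ∈ K ↔ Adj S a b ∧ g a b = 1 ∧ (b, a) ∉ D := by
    intro a b
    rw [hK, Finset.mem_filter, mem_E hG]
  have hoc : ∀ a b, Adj S a b → oc K a b = g a b := by
    intro a b hab
    have h1 := hm a b
    have h2 := hm b a
    rw [hsym a b hab] at h2
    rcases z2 (g a b) with h | h
    · rw [h]
      by_contra hc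
      rw [← ne_eq, oc_ne] at hc
      rcases hc with hc | hc
      · have := (h1.1 hc).2.1
        rw [h] at this
        exact absurd this (by decide)
      · have := (h2.1 hc).2.1
        rw [h] at this
        exact absurd this (by decide)
    · rw [h, oc_one]
      by_cases hd : (b, a) ∈ D
      · exact Or.inr (h2.2 ⟨hab.symm, h, hDD _ _ hd⟩)
      · exact Or.inl (h1.2 ⟨hab, h, hd⟩)
  have hin : ∀ a b c, (a, b, c) ∈ delT S → ((a, b) ∈ K ↔ g a b = 1) := by
    intro a b c h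
    rw [hm]
    exact ⟨fun h => h.2.1, fun h' => ⟨adj_tri h, h', fun h'' => (hD _ _ h'').2 c h⟩⟩
  refine ⟨K, ⟨Finset.filter_subset _ _, ?_, ?_, ?_, ?_, ?_⟩, hoc⟩
  · intro a b h1 h2
    rw [hm, hm]
    constructor
    · rintro ⟨h3, h4, -⟩
      exact ⟨h3.symm, by rw [hsym a b h3]; exact h4, h1⟩
    · rintro ⟨h3, h4, -⟩
      exact ⟨h3.symm, by rw [hsym b a h3]; exact h4, h2⟩
  · intro a b h
    rw [hm, hm]
    exact ⟨⟨Or.inl (hD a b h).1, hmark a b h, hDD a b h⟩, fun h' => h'.2.2 h⟩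
  · intro a b h1 h2
    rw [hG] at h1
    have key : Adj S a b → g a b = 0 := by
      intro hab
      have hh : hullE S a b := by
        rcases hab with hc | ⟨c, hc⟩
        · exact ⟨hc, h1⟩
        · exact absurd hc (h1 c)
      exact hbdr a b hh h2
    rw [hm, hm]
    refine ⟨fun h => ?_, fun h => ?_⟩
    · have := key h.1
      rw [h.2.1] at this
      exact absurd this (by decide)
    · have := key h.1.symm
      rw [hsym b a h.1, h.2.1] at this
      exact absurd this (by decide)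
  · intro a b h1 h2 h3
    have key : Adj S a b → g a b = 0 := fun hab => hkill a b hab h1 h2 h3
    rw [hm, hm]
    refine ⟨fun h => ?_, fun h => ?_⟩
    · have := key h.1
      rw [h.2.1] at this
      exact absurd this (by decide)
    · have := key h.1.symm
      rw [hsym b a h.1, h.2.1] at this
      exact absurd this (by decide)
  · intro a b c h
    rw [hG] at h
    have e1 := hin a b c h
    have e2 := hin b c a (delT_rot hS h)
    have e3 := hin c a b (delT_rot hS (delT_rot hS h))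
    have hp := hpar a b c h
    unfold ds at hp
    simp only [e1, e2, e3]
    generalize g a b = u at hp ⊢
    generalize g b c = v at hp ⊢
    generalize g c a = w at hp ⊢
    by_cases ho : (a, b, c) ∈ O
    · simp only [ho, if_true] at hp ⊢
      revert hp; revert u v w; decide
    · simp only [ho, if_false] at hp ⊢
      revert hp; revert u v w; decide

/-! ### connected triangles -/

/-- the two triangles are connected by a path of edges with an end in `B` -/
def Cn (S : Finset ℂ) (B : Set ℂ) (t t' : ℂ × ℂ × ℂ) : Prop :=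
  ∃ g : ℂ → ℂ → ZMod 2, (∀ a b, g b a = g a b) ∧
    (∀ a b, g a b ≠ 0 → Adj S a b ∧ (a ∈ B ∨ b ∈ B)) ∧
    ∀ a b c, (a, b, c) ∈ delT S → ds g a b c = it t (a, b, c) + it t' (a, b, c)

theorem Cn.refl {B : Set ℂ} (t : ℂ × ℂ × ℂ) : Cn S B t t :=
  ⟨fun _ _ => 0, fun _ _ => rfl, fun _ _ h => absurd rfl h, fun a b c _ => by
    rw [z2_self]; rfl⟩

theorem Cn.symm {B : Set ℂ} {t t' : ℂ × ℂ × ℂ} (h : Cn S B t t') : Cn S B t' t := by
  obtain ⟨g, h1, h2, h3⟩ := h
  exact ⟨g, h1, h2, fun a b c h => by rw [h3 a b c h, add_comm]⟩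

theorem Cn.trans {B : Set ℂ} {t t' t'' : ℂ × ℂ × ℂ} (h : Cn S B t t') (h' : Cn S B t' t'') :
    Cn S B t t'' := by
  obtain ⟨g, h1, h2, h3⟩ := h
  obtain ⟨g', h1', h2', h3'⟩ := h'
  refine ⟨fun a b => g a b + g' a b, fun a b => by simp only [h1 a b, h1' a b], fun a b h => ?_,
    fun a b c h => ?_⟩
  · by_cases h0 : g a b = 0
    · refine h2' a b fun h' => h ?_
      simp only [h0, h', add_zero]
    · exact h2 a b h0
  · have e1 := h3 a b c h
    have e2 := h3' a b c h
    unfold ds at e1 e2 ⊢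
    have : g a b + g' a b + (g b c + g' b c) + (g c a + g' c a) =
        (g a b + g b c + g c a) + (g' a b + g' b c + g' c a) := by ring
    rw [this, e1, e2]
    generalize it t (a, b, c) = x
    generalize it t' (a, b, c) = y
    generalize it t'' (a, b, c) = z
    revert x y z; decide

theorem Cn.rots {B : Set ℂ} {t t' : ℂ × ℂ × ℂ} (h : t' ∈ B0x346.rots t) : Cn S B t t' := by
  obtain ⟨g, h1, h2, h3⟩ := Cn.refl (S := S) (B := B) t
  exact ⟨g, h1, h2, fun a b c h' => by rw [h3 a b c h', it_rot h]⟩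

theorem Cn.mono {B B' : Set ℂ} {t t' : ℂ × ℂ × ℂ} (h : Cn S B t t') (hB : B ⊆ B') :
    Cn S B' t t' := by
  obtain ⟨g, h1, h2, h3⟩ := h
  exact ⟨g, h1, fun a b h => ⟨(h2 a b h).1, (h2 a b h).2.imp (fun h => hB h) (fun h => hB h)⟩, h3⟩

/-- the Delaunay triangles as a `Trg` -/
def trg (S : Finset ℂ) (hS : GP (S : Set ℂ)) : Trg ℂ where
  T := delT S
  rot := fun h => delT_rot hS h
  uniq := fun h h' => (g1 S hS).2.1 _ _ _ _ h h'
  ne := fun h => by
    obtain ⟨o, ho⟩ := mem_delT_iff.1 h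
    exact ho.ne.1

/-- two triangles with a common edge -/
theorem Cn.edge (hS : GP (S : Set ℂ)) {B : Set ℂ} {a b c e : ℂ} (h1 : (a, b, c) ∈ delT S)
    (h2 : (b, a, e) ∈ delT S) (hB : a ∈ B ∨ b ∈ B) : Cn S B (a, b, c) (b, a, e) := by
  have hj := XFx903.one_isJoin (G := trg S hS) (kl := ∅) (a := a) (b := b) (c := c) (e := e) h1 h2
    (by simp) (by simp)
  refine ⟨oc {(a, b), (b, a)}, fun x y => oc_symm _ _ _, fun x y h => ?_, fun x y z h => ?_⟩
  · rw [oc_ne] at h
    simp only [Finset.mem_insert, Finset.mem_singleton, Prod.mk.injEq] at h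
    have hab := adj_tri h1
    rcases h with (⟨rfl, rfl⟩ | ⟨rfl, rfl⟩) | (⟨rfl, rfl⟩ | ⟨rfl, rfl⟩)
    · exact ⟨hab, hB⟩
    · exact ⟨hab.symm, hB.symm⟩
    · exact ⟨hab.symm, hB.symm⟩
    · exact ⟨hab, hB⟩
  · rw [oc_ds hS (G := trg S hS) rfl (D := ∅) (fun a b h => absurd h (by simp)) hj h, it_symmDiff]

/-- the triangles around an inner site -/
theorem Cn.fan (hS : GP (S : Set ℂ)) {B : Set ℂ} {v : ℂ} (hv : ∀ a, ¬ hullE S a v) (hB : v ∈ B)
    {a b a' b' : ℂ} (h : (v, a, b) ∈ delT S) (h' : (v, a', b') ∈ delT S) :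
    Cn S B (v, a, b) (v, a', b') := by
  obtain ⟨d, u, hR, h0, hall⟩ := ring_exists hS (mem_nbs.2 ⟨b, h⟩) hv (G := trg S hS) rfl
  have hnat : ∀ n : ℕ, Cn S B (v, u 0, u 1) (v, u n, u (n + 1)) := by
    intro n
    induction n with
    | zero =>
      simp only [Nat.cast_zero, zero_add]
      exact Cn.refl _
    | succ n ih =>
      have t1 : (v, u n, u (n + 1)) ∈ delT S := hR.mem n
      have t2 : (v, u (n + 1), u (n + 1 + 1)) ∈ delT S := hR.mem (n + 1)
      have e1 := Cn.edge hS (B := B) (delT_rot hS (delT_rot hS t1)) t2 (Or.inr hB)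
      push_cast
      refine ih.trans (Cn.trans (Cn.rots ?_) e1)
      simp [B0x346.rots]
  have h1 : (v, a, b) = (v, u 0, u 1) := by
    rw [h0]
    have h3 : (v, u 0, u (0 + 1)) ∈ delT S := hR.mem 0
    rw [h0, zero_add] at h3
    rw [(g1 S hS).2.1 _ _ _ _ h h3]
  obtain ⟨i, hi1, hi2⟩ := hall a' b' h'
  have hn : ∃ n : ℕ, u n = a' ∧ u (n + 1) = b' := by
    have hd : (0 : ℤ) < d := by exact_mod_cast hR.pos
    have h2 : u (i % d) = u i := mod_per hR.pos hR.per i
    have h3 : u (i % d + 1) = u (i + 1) := by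
      rw [← mod_per hR.pos hR.per (i % d + 1), ← mod_per hR.pos hR.per (i + 1)]
      congr 1
      rw [Int.emod_add_emod]
    obtain ⟨n, hn⟩ := Int.eq_ofNat_of_zero_le (Int.emod_nonneg i hd.ne')
    refine ⟨n, ?_, ?_⟩
    · rw [← hi1, ← h2, hn]
    · rw [← hi2, ← h3, hn]
  obtain ⟨n, hn1, hn2⟩ := hn
  rw [h1, ← hn1, ← hn2]
  exact hnat n

/-- `v` is a vertex of `t` -/
def Vtx (v : ℂ) (t : ℂ × ℂ × ℂ) : Prop := v = t.1 ∨ v = t.2.1 ∨ v = t.2.2

theorem Vtx.rot (hS : GP (S : Set ℂ)) {v : ℂ} {t : ℂ × ℂ × ℂ} (h : Vtx v t) (ht : t ∈ delT S) :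
    ∃ a b, (v, a, b) ∈ delT S ∧ (v, a, b) ∈ B0x346.rots t := by
  obtain ⟨x, y, z⟩ := t
  rcases h with h | h | h
  · simp only at h
    subst h
    exact ⟨y, z, ht, by simp [B0x346.rots]⟩
  · simp only at h
    subst h
    exact ⟨z, x, delT_rot hS ht, by simp [B0x346.rots]⟩
  · simp only at h
    subst h
    exact ⟨x, y, delT_rot hS (delT_rot hS ht), by simp [B0x346.rots]⟩

/-- two triangles with a common inner vertex in `B` -/
theorem Cn.vtx (hS : GP (S : Set ℂ)) {B : Set ℂ} {v : ℂ} (hv : ∀ a, ¬ hullE S a v) (hB : v ∈ B)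
    {t t' : ℂ × ℂ × ℂ} (ht : t ∈ delT S) (ht' : t' ∈ delT S) (h : Vtx v t) (h' : Vtx v t') :
    Cn S B t t' := by
  obtain ⟨a, b, h1, h2⟩ := h.rot hS ht
  obtain ⟨a', b', h1', h2'⟩ := h'.rot hS ht'
  exact (Cn.rots h2).trans ((Cn.fan hS hv hB h1 h1').trans (Cn.rots h2').symm)

/-- along a chain of sites of `B` -/
theorem Cn.chain (hS : GP (S : Set ℂ)) {B : Set ℂ} (hin : ∀ v ∈ B, ∀ a, ¬ hullE S a v) {v w : ℂ}
    (hv : v ∈ B) (h : Relation.ReflTransGen (fun x y => Adj S x y ∧ y ∈ B) v w)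
    {t : ℂ × ℂ × ℂ} (ht : t ∈ delT S) (htv : Vtx v t) :
    w ∈ B ∧ ∀ t' ∈ delT S, Vtx w t' → Cn S B t t' := by
  induction h with
  | refl => exact ⟨hv, fun t' ht' h' => Cn.vtx hS (hin v hv) hv ht ht' htv h'⟩
  | @tail x y _ h2 ih =>
    obtain ⟨hxy, hyB⟩ := h2
    refine ⟨hyB, fun t' ht' h' => ?_⟩
    obtain ⟨s, hs, hsx, hsy⟩ : ∃ s ∈ delT S, Vtx x s ∧ Vtx y s := by
      rcases hxy with ⟨c, hc⟩ | ⟨c, hc⟩
      · exact ⟨_, hc, Or.inl rfl, Or.inr (Or.inl rfl)⟩
      · exact ⟨_, hc, Or.inr (Or.inl rfl), Or.inl rfl⟩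
    exact (ih.2 s hs hsx).trans (Cn.vtx hS (hin y hyB) hyB hs ht' hsy h')

/-- **greedy chain**: from the site `v` to a nearest site of the point `y`, inside the closed ball
around `y` through `v` -/
theorem greedy (hS : GP (S : Set ℂ)) (h3 : 3 ≤ S.card) {v w y : ℂ} (hv : v ∈ S) (hw : w ∈ S)
    (hwy : ∀ s ∈ S, ‖y - w‖ ≤ ‖y - s‖) :
    Relation.ReflTransGen (fun a b => Adj S a b ∧ ‖b - y‖ ≤ ‖v - y‖) v w := by
  have h := G6Wx723.chain_of_conn_fin hS h3 (C := segment ℝ v y)
    (convex_segment v y).isPreconnected hv hw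
    ⟨v, left_mem_segment _ _ _, fun s _ => by rw [sub_self, norm_zero]; exact norm_nonneg _⟩
    ⟨y, right_mem_segment _ _ _, fun s hs => hwy s hs⟩
  refine Relation.ReflTransGen.mono (fun a b h => ⟨h.1, ?_⟩) _ _ h
  obtain ⟨z, hz, hzC⟩ := h.2
  have hb := (mem_vedge h.1.mem.1).1 hz
  have hab : ‖z - b‖ = ‖z - a‖ := by
    have := hb.1
    unfold pw at this
    have h1 : ‖z - a‖ ^ 2 = ‖z - b‖ ^ 2 := by
      rw [← Complex.normSq_eq_norm_sq, ← Complex.normSq_eq_norm_sq, Complex.normSq_apply,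
        Complex.normSq_apply]
      simp only [Complex.sub_re, Complex.sub_im]
      nlinarith
    exact (sq_eq_sq₀ (norm_nonneg _) (norm_nonneg _)).1 h1.symm
  have hav : ‖z - a‖ ≤ ‖z - v‖ := by
    have := hb.2 v hv
    unfold pw at this
    have h1 : ‖z - a‖ ^ 2 ≤ ‖z - v‖ ^ 2 := by
      rw [← Complex.normSq_eq_norm_sq, ← Complex.normSq_eq_norm_sq, Complex.normSq_apply,
        Complex.normSq_apply]
      simp only [Complex.sub_re, Complex.sub_im]
      nlinarith
    exact (sq_le_sq₀ (norm_nonneg _) (norm_nonneg _)).1 h1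
  have hseg : ‖v - z‖ + ‖z - y‖ = ‖v - y‖ := by
    have := dist_add_dist_of_mem_segment hzC
    simp only [dist_eq_norm] at this
    exact this
  have h1 : ‖b - y‖ ≤ ‖b - z‖ + ‖z - y‖ := by
    have : b - y = (b - z) + (z - y) := by ring
    rw [this]; exact norm_add_le _ _
  rw [norm_sub_rev b z, hab] at h1
  rw [norm_sub_rev v z] at hseg
  linarith

/-! ### the hull -/

theorem hull_const (hS : GP (S : Set ℂ)) (h3 : 3 ≤ S.card) {A : Type} {φ : ℂ → A}
    (h : ∀ a b, hullE S a b → φ a = φ b) {a b a' b' : ℂ} (h1 : hullE S a b)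
    (h2 : hullE S a' b') : φ a = φ a' := by
  obtain ⟨n, w, H⟩ := hull_cycle hS h3
  have key : ∀ m : ℕ, φ (w m) = φ (w 0) := by
    intro m
    induction m with
    | zero => rfl
    | succ m ih =>
      have := h _ _ (H.edge m)
      push_cast
      rw [← this, ih]
  have key' : ∀ x y, hullE S x y → φ x = φ (w 0) := by
    intro x y hxy
    obtain ⟨i, hi, -, hx, -⟩ := H.all x y hxy
    obtain ⟨m, rfl⟩ := Int.eq_ofNat_of_zero_le hi
    rw [← hx]
    exact key m
  rw [key' a b h1, key' a' b' h2]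

/-! ### two joins of the same type -/

/-- membership in a join from the occupation -/
theorem mem_of_oc {J' : Finset (ℂ × ℂ)}
    (hJ : IsJoin G kl O D J) (hJ' : IsJoin G kl O D J') {a b : ℂ} (h : oc J a b = oc J' a b) :
    (a, b) ∈ J ↔ (a, b) ∈ J' := by
  have key : ((a, b) ∈ J ∨ (b, a) ∈ J) ↔ ((a, b) ∈ J' ∨ (b, a) ∈ J') := by
    rw [← oc_one, ← oc_one, h]
  by_cases h1 : (a, b) ∈ D
  · exact ⟨fun _ => (hJ'.mark a b h1).1, fun _ => (hJ.mark a b h1).1⟩
  by_cases h2 : (b, a) ∈ D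
  · exact ⟨fun h => absurd h (hJ.mark b a h2).2, fun h => absurd h (hJ'.mark b a h2).2⟩
  have e1 := hJ.sym a b h1 h2
  have e2 := hJ'.sym a b h1 h2
  tauto

/-- **two joins of the same type differ by a colouring** -/
theorem exists_col (hS : GP (S : Set ℂ)) (hG : G.T = delT S) (hD : HullM S D)
    {J' : Finset (ℂ × ℂ)} (hJ : IsJoin G kl O D J) (hJ' : IsJoin G kl O D J') :
    ∃ φ : ℂ → ZMod 2, ∀ a b, Adj S a b → oc J a b + oc J' a b = φ b - φ a := by
  refine exact hS (A := ZMod 2) (f := fun a b => oc J a b + oc J' a b) (fun a b _ => ?_)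
    (fun a b c h => ?_)
  · rw [oc_symm J, oc_symm J']
    generalize oc J a b = u
    generalize oc J' a b = v
    revert u v; decide
  · have e1 := oc_ds hS hG hD hJ h
    have e2 := oc_ds hS hG hD hJ' h
    unfold ds at e1 e2
    have : oc J a b + oc J' a b + (oc J b c + oc J' b c) + (oc J c a + oc J' c a) =
        (oc J a b + oc J b c + oc J c a) + (oc J' a b + oc J' b c + oc J' c a) := by ring
    rw [this, e1, e2]
    exact z2_self _

theorem flip_of (hG : G.T = delT S) (hD : HullM S D) {J' : Finset (ℂ × ℂ)}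
    (hJ : IsJoin G kl O D J) (hJ' : IsJoin G kl O D J') {φ : ℂ → ZMod 2}
    (h : ∀ a b, Adj S a b → oc J a b + oc J' a b = φ b - φ a) (v : ZMod 2) :
    J = X0Bx683.flip G J' (S.filter fun s => φ s = v) := by
  have hE : ∀ {K : Finset (ℂ × ℂ)}, IsJoin G kl O D K → ∀ a b, (a, b) ∈ K → Adj S a b :=
    fun hK a b hab => (mem_E hG).1 (hK.sub hab)
  have hφ : ∀ a b, Adj S a b → ((a ∈ S.filter fun s => φ s = v) ↔
      (b ∈ S.filter fun s => φ s = v)) = (φ a = φ b) := by
    intro a b hab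
    rw [Finset.mem_filter, Finset.mem_filter, eq_iff_iff]
    have h1 := hab.mem.1
    have h2 := hab.mem.2
    simp only [h1, h2, true_and]
    generalize φ a = x
    generalize φ b = y
    revert x y v; decide
  ext ⟨a, b⟩
  unfold X0Bx683.flip
  rw [Finset.mem_symmDiff, J8x872.mem_bd hG]
  by_cases hab : Adj S a b
  · have h1 := h a b hab
    rw [hφ a b hab]
    simp only [hab, true_and]
    by_cases hv : φ a = φ b
    · rw [hv, sub_self] at h1
      have h2 : oc J a b = oc J' a b := by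
        revert h1
        generalize oc J a b = x
        generalize oc J' a b = y
        revert x y; decide
      have := mem_of_oc hJ hJ' h2
      tauto
    · have h2 : oc J a b ≠ oc J' a b := by
        intro h3
        rw [h3, z2_self] at h1
        exact hv (sub_eq_zero.1 h1.symm).symm
      by_cases d1 : (a, b) ∈ D
      · exfalso
        apply h2
        rw [oc_one.2 (Or.inl (hJ.mark a b d1).1), oc_one.2 (Or.inl (hJ'.mark a b d1).1)]
      by_cases d2 : (b, a) ∈ D
      · exfalso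
        apply h2
        rw [oc_one.2 (Or.inr (hJ.mark b a d2).1), oc_one.2 (Or.inr (hJ'.mark b a d2).1)]
      have e1 := hJ.sym a b d1 d2
      have e2 := hJ'.sym a b d1 d2
      have key : ¬ (((a, b) ∈ J ∨ (b, a) ∈ J) ↔ ((a, b) ∈ J' ∨ (b, a) ∈ J')) := by
        rw [← oc_one, ← oc_one]
        intro h3
        apply h2
        revert h3
        generalize oc J a b = x
        generalize oc J' a b = y
        revert x y; decide
      tauto
  · have h1 : (a, b) ∉ J := fun h => hab (hE hJ _ _ h)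
    have h2 : (a, b) ∉ J' := fun h => hab (hE hJ' _ _ h)
    tauto

end Crest.Agent.R143.Gax950
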