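import Crest.Agent.R143.HInst2_432
import Crest.Agent.R143.CntG_197
import Crest.Agent.R143.Exit_707
import Crest.Agent.R143.Gauge1_950

/-!
# Row 143 (S0194), block H: the giant outside a barrier (helper197)

`M` any closed map, `h0` a cell (hull), `K` a set of cells (the left cells of the ring loop).
* `Ek M h0 K` : the cells joined to `h0` by cells which are not in `K`; `Eg = Ek ∪ K` : **the giant**
* `econ` : `Eg` is connected (432's `ECon`) if `K` is connected and next to `Ek`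
* `kin` : a cell of the giant next to a fresh cell is in `K`; `rim` : 432's `Rim`
* `nb_mem`, `clus_mem`, `look_mem` : the looked cells are in the giant
* `not_ek` : a potential which is constant across every adjacency off `K` separates
* `Lf`, `loop_con` : the left cells of a walk, they are connected; `econ_walk` : the giant of a walk
  whose first right cell is joined to `h0` off its left cells; `not_ek_walk` : separation by a side
  potential of the walk; `rim_walk`
* `hull_mem`, `hull_eg` : `cm0`: the hull sites are one cell, hence in the giant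
-/

set_option autoImplicit false

noncomputable section

open scoped Classical

namespace Crest.Agent.R143.GiantEx197

open Crest.Agent.R143.Frame1x395 Crest.Agent.R143.Frame2x395 Crest.Agent.R143.Frame3x395
  Crest.Agent.R143.Frame8x395 Crest.Agent.R143.NonXx592 Crest.Agent.R143.Coarsex166
  Crest.Agent.R143.Budx432 Crest.Agent.R143.HInst1x432 Crest.Agent.R143.Gntx535
open Crest.Agent.R143.Exitx707 (Nb nb_symm)

variable {D C : Type} {M : CMap D C} {h0 : C} {K K' : Set C}

/-- the cells joined to `h0` by cells which are not in `K` -/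
def Ek (M : CMap D C) (h0 : C) (K : Set C) : Set C :=
  {c | Relation.ReflTransGen (fun a a' => Nb M a a' ∧ a' ∉ K) h0 c}

/-- **the giant** -/
def Eg (M : CMap D C) (h0 : C) (K : Set C) : Set C := Ek M h0 K ∪ K

theorem h0_ek : h0 ∈ Ek M h0 K := Relation.ReflTransGen.refl

theorem ek_step {a c : C} (ha : a ∈ Ek M h0 K) (h : Nb M a c) (hc : c ∉ K) : c ∈ Ek M h0 K :=
  Relation.ReflTransGen.tail ha ⟨h, hc⟩

theorem nb_mem {a c : C} (ha : a ∈ Ek M h0 K) (h : Nb M a c) : c ∈ Eg M h0 K := by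
  by_cases hc : c ∈ K
  · exact Or.inr hc
  · exact Or.inl (ek_step ha h hc)

/-- the cells of `Ek` are not in `K` -/
theorem ek_off (h : h0 ∉ K) {c : C} (hc : c ∈ Ek M h0 K) : c ∉ K := by
  have hc' : Relation.ReflTransGen (fun a a' => Nb M a a' ∧ a' ∉ K) h0 c := hc
  clear hc
  induction hc' with
  | refl => exact h
  | tail _ h2 _ => exact h2.2

theorem ek_ind {Q : C → Prop} (h : Q h0)
    (hs : ∀ a c, a ∈ Ek M h0 K → Q a → Nb M a c → c ∉ K → Q c) : ∀ c ∈ Ek M h0 K, Q c := by
  intro c hc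
  have hc' : Relation.ReflTransGen (fun a a' => Nb M a a' ∧ a' ∉ K) h0 c := hc
  clear hc
  induction hc' with
  | refl => exact h
  | @tail a c h1 h2 ih => exact hs a c h1 ih h2.1 h2.2

/-- a chain of cells off `K` -/
theorem chain_mem {S : Set C} (hS : ∀ c ∈ S, c ∉ K) {a c : C} (ha : a ∈ Ek M h0 K)
    (h : Relation.ReflTransGen (fun u v => Nb M u v ∧ v ∈ S) a c) : c ∈ Ek M h0 K := by
  induction h with
  | refl => exact ha
  | tail _ h2 ih => exact ek_step ih h2.1 (hS _ h2.2)

/-- **a giant cell next to a fresh cell is in `K`** -/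
theorem kin {c c' : C} (hc : c ∉ Eg M h0 K) (h : Nb M c c') (hc' : c' ∈ Eg M h0 K) : c' ∈ K := by
  rcases hc' with h1 | h1
  · exact absurd (nb_mem h1 (nb_symm h)) hc
  · exact h1

/-- **432's `Rim`** : `K` has the colour `1` -/
theorem rim {χ : C → ZMod 2} (hK : ∀ c ∈ K, χ c = 1) : Rim M (pe (Eg M h0 K)) none χ := by
  intro d _ h1 h2
  have hc : M.cell d ∉ Eg M h0 K := fun h => h1 (pe_none.2 h)
  exact hK _ (kin hc ⟨d, rfl, rfl⟩ (pe_none.1 h2))

/-- a set of cells which is not in `K` and joined to `Ek` is in `Ek`; its neighbours are in the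
giant -/
theorem look_mem {S : Set C} (hS : S ⊆ Ek M h0 K) {a c : C} (ha : a ∈ S) (h : Nb M a c) :
    c ∈ Eg M h0 K := nb_mem (hS ha) h

/-- a white set which is connected to `Ek` by white cells is in `Ek` (`K` is black) -/
theorem clus_mem {χ : C → ZMod 2} (hK : ∀ c ∈ K, χ c = 1) {F : Set C} (hF : F ⊆ Ek M h0 K) {c : C}
    (h : ∃ f ∈ F, Relation.ReflTransGen (fun u v => Nb M u v ∧ χ v = 0) f c) :
    c ∈ Ek M h0 K := by
  obtain ⟨f, hf, h⟩ := h
  refine chain_mem (S := {v | χ v = 0}) ?_ (hF hf) h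
  intro v hv hvK
  have h1 : χ v = 0 := hv
  rw [hK v hvK] at h1
  exact absurd h1 (by decide)

/-- **separation by a potential** -/
theorem not_ek {A : Type*} {σ : C → A} (hσ : ∀ a c, Nb M a c → a ∉ K → c ∉ K → σ a = σ c)
    (h : h0 ∉ K) {c : C} (hc : σ c ≠ σ h0) : c ∉ Ek M h0 K := by
  intro h1
  apply hc
  refine ek_ind (Q := fun c => σ c = σ h0) rfl (fun a c ha ih hn hcK => ?_) c h1
  exact (hσ a c hn (ek_off h ha) hcK).symm.trans ih

/-- **the giant is connected** -/
theorem econ (hh : ∀ a c, Nb M a c → a ≠ c → ∃ d ∈ M.live, M.cell d = a ∧ M.cell (M.rho d) = c)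
    (hK : ∀ c ∈ K, ∀ c' ∈ K, Relation.EqvGen
      (fun a b => a ∈ K ∧ b ∈ K ∧ ∃ d ∈ M.live, M.cell d = a ∧ M.cell (M.rho d) = b) c c')
    (hl : ∃ a ∈ Ek M h0 K, ∃ k ∈ K, Nb M a k) : ECon M (Eg M h0 K) := by
  set r : C → C → Prop := fun c c' => c ∈ Eg M h0 K ∧ c' ∈ Eg M h0 K ∧
    ∃ d ∈ M.live, M.cell d = c ∧ M.cell (M.rho d) = c' with hr
  have step : ∀ a c, a ∈ Eg M h0 K → c ∈ Eg M h0 K → Nb M a c → Relation.EqvGen r a c := by
    intro a c ha hc hn
    by_cases e : a = c
    · rw [e]; exact Relation.EqvGen.refl _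
    · exact Relation.EqvGen.rel _ _ ⟨ha, hc, hh a c hn e⟩
  have k1 : ∀ c ∈ Ek M h0 K, Relation.EqvGen r h0 c := by
    refine ek_ind (Relation.EqvGen.refl _) fun a c ha ih hn hc => ?_
    exact Relation.EqvGen.trans _ _ _ ih
      (step a c (Or.inl ha) (Or.inl (ek_step ha hn hc)) hn)
  have k2 : ∀ c ∈ K, ∀ c' ∈ K, Relation.EqvGen r c c' := by
    intro c hc c' hc'
    refine Relation.EqvGen.mono ?_ _ _ (hK c hc c' hc')
    rintro a b ⟨h1, h2, h3⟩
    exact ⟨Or.inr h1, Or.inr h2, h3⟩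
  obtain ⟨a, ha, k, hk, hn⟩ := hl
  have k3 : ∀ c ∈ Eg M h0 K, Relation.EqvGen r h0 c := by
    rintro c (hc | hc)
    · exact k1 c hc
    · exact Relation.EqvGen.trans _ _ _ (k1 a ha) (Relation.EqvGen.trans _ _ _
        (step a k (Or.inl ha) (Or.inr hk) hn) (k2 k hk c hc))
  intro p q hp hq
  exact Relation.EqvGen.trans _ _ _ (Relation.EqvGen.symm _ _ (k3 _ hp)) (k3 _ hq)

/-- a neighbour through any dart is the same cell or a neighbour through a live dart -/
theorem nb_live (a c : C) (h : Nb M a c) (hne : a ≠ c) :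
    ∃ d ∈ M.live, M.cell d = a ∧ M.cell (M.rho d) = c := by
  obtain ⟨d, e1, e2⟩ := h
  by_cases hl : d ∈ M.live
  · exact ⟨d, hl, e1, e2⟩
  · exact absurd (e1.symm.trans ((M.dead d hl).trans e2)) hne

/-! ### the left cells of a walk -/

variable {x : D → ZMod 2} {p : D}

/-- the left cells of the states `0 .. n` -/
def Lf (M : CMap D C) (x : D → ZMod 2) (p : D) (n : ℕ) : Set C := {c | ∃ j ≤ n, M.cell (P M x p j) = c}

theorem lf_wl {n : ℕ} : Lf M x p n = ↑(wl M x p n) := by
  ext c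
  rw [Finset.mem_coe, mem_wl]
  rfl

/-- **the left cells of a walk are connected** -/
theorem loop_con (hx : IsC M ∅ x) (hp : x p = 1) (n : ℕ) :
    ∀ c ∈ Lf M x p n, ∀ c' ∈ Lf M x p n, Relation.EqvGen
      (fun a b => a ∈ Lf M x p n ∧ b ∈ Lf M x p n ∧
        ∃ d ∈ M.live, M.cell d = a ∧ M.cell (M.rho d) = b) c c' := by
  intro c hc c' hc'
  rw [lf_wl] at hc hc' ⊢
  exact wl_con hx hp hc hc'

/-- **the giant of a walk**: the right cell of the start is joined to `h0` off the left cells -/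
theorem econ_walk (hx : IsC M ∅ x) (hp : x p = 1) (n : ℕ)
    (hr : M.cell (M.rho p) ∈ Ek M h0 (Lf M x p n)) : ECon M (Eg M h0 (Lf M x p n)) :=
  econ nb_live (loop_con hx hp n)
    ⟨_, hr, _, ⟨0, Nat.zero_le _, rfl⟩, nb_symm ⟨p, rfl, rfl⟩⟩

/-- **separation by a side potential of the walk** : `σ` changes only across states of the walk -/
theorem not_ek_walk {A : Type*} {σ : C → A} {n : ℕ}
    (hσ : ∀ d ∈ M.live, σ (M.cell d) ≠ σ (M.cell (M.rho d)) →
      ∃ j ≤ n, P M x p j = d ∨ P M x p j = M.iota d)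
    (h : h0 ∉ Lf M x p n) {c : C} (hc : σ c ≠ σ h0) : c ∉ Ek M h0 (Lf M x p n) := by
  refine not_ek (σ := σ) ?_ h hc
  rintro a c ⟨d, rfl, rfl⟩ h1 h2
  by_cases hl : d ∈ M.live
  · by_contra hne
    obtain ⟨j, hj, e | e⟩ := hσ d hl hne
    · exact h1 ⟨j, hj, by rw [e]⟩
    · exact h2 ⟨j, hj, by rw [e, M.cell_iota d hl]⟩
  · rw [M.dead d hl]

/-- the left cells of a walk with black left cells: 432's `Rim` -/
theorem rim_walk [Fintype D] {χ : C → ZMod 2} (hp : cfg M χ p = 1) (hb : χ (M.cell p) = 1) (n : ℕ) :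
    Rim M (pe (Eg M h0 (Lf M (cfg M χ) p n))) none χ := by
  refine rim ?_
  intro c hc
  rw [lf_wl, Finset.mem_coe] at hc
  rw [wl_col hp hc, hb]

/-! ### the hull of `cm0` -/

section cm0

open Crest.Agent.R143.B0x346 Crest.Agent.R143.DelGx806 Crest.Agent.R143.DelRx806
open Crest.Agent.R143.Frame10x395

variable {S : Finset ℂ}

/-- the hull sites are one cell -/
theorem hull_mem (hS : GP (S : Set ℂ)) (h3 : 3 ≤ S.card) {u v : ℂ} (hu : OnHull S u)
    (hv : OnHull S v) : (Quot.mk _ v : Quot (hullE S)) = Quot.mk _ u := by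
  obtain ⟨a, ha⟩ := hu
  obtain ⟨b, hb⟩ := hv
  have h1 : (Quot.mk _ b : Quot (hullE S)) = Quot.mk _ a :=
    Crest.Agent.R143.Gax950.hull_const hS h3 (φ := fun w => (Quot.mk _ w : Quot (hullE S)))
      (fun _ _ h => Quot.sound h) hb ha
  rw [← Quot.sound hb, h1, Quot.sound ha]

/-- the hull sites are in the giant -/
theorem hull_eg (hS : GP (S : Set ℂ)) (h3 : 3 ≤ S.card) {u : ℂ} (hu : OnHull S u)
    {K : Set (Quot (hullE S))} : ∀ v, OnHull S v →
      (Quot.mk _ v : Quot (hullE S)) ∈ Eg (cm0 hS) (Quot.mk _ u) K := fun v hv => by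
  rw [hull_mem hS h3 hu hv]
  exact Or.inl h0_ek

end cm0

end Crest.Agent.R143.GiantEx197
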