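import Crest.Agent.R143.HGlue_136
import Crest.Agent.R143.HInst2_432
import Crest.Agent.R143.GiantE_197
import Crest.Agent.R143.Eng_490

/-!
# Row 143 (S0194), block H (helper432): the instance of [H4] for one giant

`A` the points of a box, `β` the black ones, `R` the revealed ones, `E : Set (Quot (hullE A))` the giant
(197: `Eg (cm0 hS) h0 (Lf (cm0 hS) x p0 N)`), classes `pe E` of `HInst1` on `cm0`, `pc hS E` on `rc0`.
* `clsCon_pc`, `mE_rc0` : coarse map of `rc0` = coarse map of `cm0`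
* `Facts` : the facts about the giant of ONE configuration
* `Facts.stg` : 136's `Stg`
* `lft` : functional of the configuration given by a function of (points, black points)
* `CHf`, `CLf` : mean energy of the chords / of the big closed blocks as functionals
* `pb` : the pointwise budget; `qg` : 136's `Qg`
* `hbudI` : **the budget**; what is left: `Facts` where the weight is not zero, and the majorant of
  the quenched mean of `g * CHf`
* `facts_walk` : `Facts` for 197's giant of a walk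
-/

set_option autoImplicit false

noncomputable section

open scoped Classical

namespace Crest.Agent.R143.StgIx432

open MeasureTheory Filter Topology
open Crest.ProbabilityR.Voronoi
open Crest.Agent.R143.B0x346 Crest.Agent.R143.SumScx302 Crest.Agent.R143.Mass1x302
  Crest.Agent.R143.Mass2x302 Crest.Agent.R143.Mass3x302 Crest.Agent.R143.Mass4x302
  Crest.Agent.R143.Mass5x302 Crest.Agent.R143.DelGx806 Crest.Agent.R143.DelRx806
  Crest.Agent.R143.JColx54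
open Crest.Agent.R143.Frame1x395 Crest.Agent.R143.Frame2x395 Crest.Agent.R143.Frame3x395
  Crest.Agent.R143.Frame4x395 Crest.Agent.R143.Frame8x395 Crest.Agent.R143.Frame9x395
  Crest.Agent.R143.Frame10x395
  Crest.Agent.R143.Coarsex166 Crest.Agent.R143.Budx432 Crest.Agent.R143.Bud2x432
  Crest.Agent.R143.Bud3x432 Crest.Agent.R143.HInst1x432 Crest.Agent.R143.HInst2x432
  Crest.Agent.R143.HGluex136 Crest.Agent.R143.FinCx811 Crest.Agent.R143.SmallAx304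
  Crest.Agent.R143.Dblx609 Crest.Agent.R143.Dbl2x609 Crest.Agent.R143.GiantEx197
  Crest.Agent.R143.NonXx592
open Crest.Agent.R143.Frame5x395 (sd mem_sd th th_spec)
open Crest.Agent.R143.Harx315 (IsStop)
open Crest.Agent.R143.Exitx707 (Nb nb_symm)
open Crest.Agent.R143.Trans2x690 (Wf)
open Crest.Agent.R143.HBudx136 (Ub)
open scoped ENNReal

/-! ### classes on `restr M` -/

section restr

variable {D C C' : Type} {M : CMap D C} {π : C → C'}

/-- connected classes of `restr M` -/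
theorem clsCon_restr (h : ClsCon M π) : ClsCon (restr M) (fun c : Set.range M.cell => π c.1) := by
  intro a b hab
  have h1 := h a b hab
  set f : C → Set.range M.cell := fun c => if hc : c ∈ Set.range M.cell then ⟨c, hc⟩ else
    ⟨M.cell a, a, rfl⟩ with hf
  have hfd : ∀ d, f (M.cell d) = ⟨M.cell d, d, rfl⟩ := fun d => by
    rw [hf]; exact dif_pos ⟨d, rfl⟩
  have key : ∀ c c', Relation.EqvGen (Coarsex166.Adj M π) c c' →
      Relation.EqvGen (Coarsex166.Adj (restr M) (fun c : Set.range M.cell => π c.1)) (f c) (f c') := by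
    intro c c' H
    induction H with
    | rel c c' h =>
      obtain ⟨e, d, hd, rfl, rfl⟩ := h
      rw [hfd, hfd]
      exact Relation.EqvGen.rel _ _ ⟨e, d, hd, rfl, rfl⟩
    | refl c => exact Relation.EqvGen.refl _
    | symm c c' _ ih => exact Relation.EqvGen.symm _ _ ih
    | trans c c' c'' _ _ ih1 ih2 => exact Relation.EqvGen.trans _ _ _ ih1 ih2
  have h2 := key _ _ h1
  rw [hfd, hfd] at h2
  exact h2

theorem coarse_restr (h : ClsCon M π)
    (h' : ClsCon (restr M) (fun c : Set.range M.cell => π c.1)) :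
    coarse (restr M) (fun c : Set.range M.cell => π c.1) h' = coarse M π h := rfl

theorem gen_restr {c : Set.range M.cell} (G : Gen M c.1) : Gen (restr M) c := by
  refine ⟨fun a ha => G.lv a (congrArg Subtype.val ha), fun a b ha hb =>
    G.orb a b (congrArg Subtype.val ha) (congrArg Subtype.val hb), fun a ha e =>
    G.ne a (congrArg Subtype.val ha) (congrArg Subtype.val e)⟩

end restr

section one

variable {A β R : Finset ℂ} {U Bx P : Set ℂ}

/-- the classes on `rc0` -/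
def pc (hS : GP (A : Set ℂ)) (E : Set (Quot (hullE A))) (c : Cs hS) : Option (Quot (hullE A)) :=
  pe E c.1

variable {E : Set (Quot (hullE A))}

theorem clsCon_pc {hS : GP (A : Set ℂ)} (h : ClsCon (cm0 hS) (pe E)) :
    ClsCon (rc0 hS) (pc hS E) := clsCon_restr h

/-- mean energy of the chords: `rc0` and `cm0` -/
theorem chq_cm0 {hS : GP (A : Set ℂ)} (h : ClsCon (cm0 hS) (pe E)) (a : D0 A → ℂ) :
    CHq (rc0 hS) (pc hS E) (clsCon_pc h) none a =
      mE (cm0 hS) (pe E) h fun x => ∑ β ∈ chd (cm0 hS) (pe E) h none x, en a β := by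
  unfold CHq mE
  rw [ENNReal.div_eq_inv_mul]
  rfl

/-- mean energy of the big closed blocks: `rc0` and `cm0` -/
theorem clq_cm0 {hS : GP (A : Set ℂ)} (h : ClsCon (cm0 hS) (pe E)) (δ : ℂ → ℂ → D0 A) (k : ℝ)
    (a : D0 A → ℂ) : CLq P U (rc0 hS) (pc hS E) (clsCon_pc h) none δ k a =
      mE (cm0 hS) (pe E) h fun x => ∑ β ∈ clb P U (cm0 hS) (pe E) h none δ k x, en a β := by
  unfold CLq mE
  rw [ENNReal.div_eq_inv_mul]
  rfl

/-- **facts about the giant of one configuration**: `A` the points, `β` the black ones, `R` the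
revealed ones, `U` contains the faces of the fresh sites, `Bx` the box -/
structure Facts (U Bx : Set ℂ) (A β R : Finset ℂ) (E : Set (Quot (hullE A))) : Prop where
  gp : GP (A : Set ℂ)
  c3 : 3 ≤ A.card
  con : ECon (cm0 gp) E
  out : ∀ v ∈ A, v ∈ U → ¬ OnHull A v
  hull : ∀ v, OnHull A v → (Quot.mk _ v : Quot (hullE A)) ∈ E
  fac : ∀ a b c, (a, b, c) ∈ delT A → (Quot.mk _ a : Quot (hullE A)) ∉ E → cdisc (a, b, c) ⊆ U
  box : ∀ v ∈ A, v ∈ Bx → (Quot.mk _ v : Quot (hullE A)) ∉ E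
  rev : ∀ v ∈ A, v ∈ R → (Quot.mk _ v : Quot (hullE A)) ∈ E
  rim : ∀ a b, (a, b) ∈ sd A → (b, a) ∈ sd A → (Quot.mk _ a : Quot (hullE A)) ∉ E →
    (Quot.mk _ b : Quot (hullE A)) ∈ E → ¬ OnHull A b ∧ b ∈ R ∧ b ∈ β

theorem Facts.cls (F : Facts U Bx A β R E) : ClsCon (cm0 F.gp) (pe E) := clsCon_pe F.con

theorem Facts.gt0 (F : Facts U Bx A β R E) : Gt (cm0 F.gp) (pe E) none := gt_cm0 F.gp F.hull

theorem Facts.gt (F : Facts U Bx A β R E) : Gt (rc0 F.gp) (pc F.gp E) none := by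
  refine ⟨fun c c' e => ?_, fun c hc => gen_restr (F.gt0.gen c.1 hc)⟩
  rcases F.gt0.inj c.1 c'.1 e with h | h
  · exact Or.inl (Subtype.ext h)
  · exact Or.inr h

theorem Facts.fr (F : Facts U Bx A β R E) (hPS : ∀ z ∈ U, z ∈ P ↔ z ∈ (A : Set ℂ)) (e0 : D0 A) :
    FrF P U (rc0 F.gp) (pc F.gp E) none (dl e0) :=
  fr_cm0 F.gp hPS F.fac

/-- the site of a cell off the giant -/
theorem Facts.rp_val (F : Facts U Bx A β R E) {b : ℂ} (hb : b ∈ A) (hh : ¬ OnHull A b)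
    {c : Cs F.gp} (hc : c.1 = Quot.mk _ b) : (rp F.gp F.c3 c).1 = b := by
  have h1 : c = cs F.gp F.c3 ⟨b, hb⟩ := Subtype.ext hc
  rw [h1, rp_inner F.gp F.c3 (v := ⟨b, hb⟩) hh]

/-- **136's stage** -/
theorem Facts.stg (F : Facts U Bx A β R E) (hPS : ∀ z ∈ U, z ∈ P ↔ z ∈ (A : Set ℂ)) (e0 : D0 A) :
    Stg P U (rc0 F.gp) (dl e0) A (chiS F.gp F.c3) R β (pc F.gp E) none where
  gt := F.gt
  fr := F.fr hPS e0
  fair := by
    refine ⟨fun c => (rp F.gp F.c3 c).1, fun _ => 0, fun c hc => ?_, fun c c' _ _ e =>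
      rp_inj F.gp F.c3 (Subtype.ext e), fun b' _ c _ => ?_⟩
    · refine Finset.mem_sdiff.2 ⟨(rp F.gp F.c3 c).2, fun hR => hc ?_⟩
      have h1 := F.rev _ (rp F.gp F.c3 c).2 hR
      have h2 : c.1 = Quot.mk _ (rp F.gp F.c3 c).1 :=
        (congrArg Subtype.val (cs_rp F.gp F.c3 c)).symm
      show pe E c.1 = none
      rw [pe_none, h2]
      exact h1
    · show (if (rp F.gp F.c3 c).1 ∈ b' then (1 : ZMod 2) else 0) = _
      rw [add_zero]
  rim := by
    rintro b' - hb' ⟨⟨a, b⟩, he⟩ hl h1 h2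
    have ha : (Quot.mk _ a : Quot (hullE A)) ∉ E := fun h => h1 (pe_none.2 h)
    have hb : (Quot.mk _ b : Quot (hullE A)) ∈ E := pe_none.1 h2
    obtain ⟨g1, g2, g3⟩ := F.rim a b he hl ha hb
    have hbA : b ∈ A := by
      obtain ⟨c, hc⟩ := mem_sd.1 hl
      exact (mem_delT.1 hc).1
    have h3 : (rp F.gp F.c3 ((rc0 F.gp).cell ((rc0 F.gp).rho ⟨(a, b), he⟩))).1 = b :=
      F.rp_val hbA g1 rfl
    unfold chiS
    rw [h3, if_pos]
    have h4 : b ∈ b' ∩ R := by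
      rw [hb']
      exact Finset.mem_inter.2 ⟨g3, g2⟩
    exact (Finset.mem_inter.1 h4).1

/-- there is a dart -/
theorem exists_dart (hS : GP (A : Set ℂ)) (h3 : 3 ≤ A.card) : Nonempty (D0 A) := by
  have hne : A.Nonempty := Finset.card_pos.1 (by omega)
  obtain ⟨v, hv⟩ := hne
  obtain ⟨d, -⟩ := cell_mem hS h3 hv
  exact ⟨d⟩

/-- the charge of a face -/
theorem nn_gd (hS : GP (A : Set ℂ)) {e0 : D0 A} {t : T3} (ht : Fc (A : Set ℂ) U t.1 t.2.1 t.2.2) :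
    Engx490.nn A (gd (dl e0) t) = Nn t := by
  obtain ⟨p, q, r⟩ := t
  have h1 : (p, q, r) ∈ delT A := mem_delT.2 ht.1
  have h2 : (r, p, q) ∈ delT A := delT_rot hS (delT_rot hS h1)
  have h3 : (r, p) ∈ sd A := mem_sd.2 ⟨q, h2⟩
  have h4 : gd (dl e0) (p, q, r) = ⟨(r, p), h3⟩ := dl_eq h3
  rw [h4]
  show Nn (p, th A (r, p), r) = Nn (p, q, r)
  rw [th0 hS h2]

/-- big loops depend only on the faces in `U` -/
theorem big_congr {D C : Type} {M : CMap D C} {δ : ℂ → ℂ → D} {x : D → ZMod 2} {k : ℝ} {g : D}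
    {Q : Set ℂ} (h : ∀ z ∈ U, z ∈ P ↔ z ∈ Q) (hb : Big P U M δ x k g) : Big Q U M δ x k g := by
  intro z
  obtain ⟨n, a, b, c, h1, h2⟩ := hb z
  exact ⟨n, a, b, c, fc_congr h h1, h2⟩

theorem clq_congr {D C C' : Type} [Fintype D] {M : CMap D C} {π : C → C'} {hπ : ClsCon M π}
    {o : C'} {δ : ℂ → ℂ → D} {k : ℝ} {a : D → ℂ} {Q : Set ℂ} (h : ∀ z ∈ U, z ∈ P ↔ z ∈ Q) :
    CLq P U M π hπ o δ k a = CLq Q U M π hπ o δ k a := by
  have e : ∀ x, clb P U M π hπ o δ k x = clb Q U M π hπ o δ k x := by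
    intro x
    unfold clb
    refine Finset.filter_congr fun β _ => and_congr Iff.rfl ?_
    exact ⟨fun ⟨g, h1, h2⟩ => ⟨g, h1, big_congr h h2⟩,
      fun ⟨g, h1, h2⟩ => ⟨g, h1, big_congr (fun z hz => (h z hz).symm) h2⟩⟩
  unfold CLq
  simp only [e]

/-- **the pointwise budget for one configuration** -/
theorem Facts.budget (F : Facts U Bx A β R E) (hP : GP P) (hPS : ∀ z ∈ U, z ∈ P ↔ z ∈ (A : Set ℂ))
    (hBU : Bx ⊆ U) (e0 : D0 A) {X : Set (ℂ × Bool)} (hX : ps X = P) {a : D0 A → ℂ}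
    (ha : ∀ t : T3, Fc (A : Set ℂ) U t.1 t.2.1 t.2.2 → a (gd (dl e0) t) = Nn t)
    (sa : Spin (cm0 F.gp) om a) (k : ℝ) :
    Wf P Bx / 4 ≤ CHq (rc0 F.gp) (pc F.gp E) (clsCon_pc F.cls) none a + fam.Ph Bx X +
      Wf P (Nk (Finset.univ : Finset Unit) (fun _ => Bx) k ∩ U) +
      CLq P U (rc0 F.gp) (pc F.gp E) (clsCon_pc F.cls) none (dl e0) k a := by
  have hA := agr_restr (agr0 hP F.gp hPS F.out e0) e0
  have key : ∀ p q r, Fc P Bx p q r → ∀ c : Cs F.gp, c.1 = Quot.mk _ p → pc F.gp E c ≠ none := by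
    intro p q r h c hc e
    have hp : p ∈ A := (hPS p (hBU (fc_memU h))).1 h.1.1
    have e1 : pe E c.1 = none := e
    rw [hc] at e1
    exact F.box p hp (fc_memU h) (pe_none.1 e1)
  have hm : ∀ p q r, Fc P Bx p q r →
      (Quot.mk _ p : Quot (hullE A)) ∈ Set.range (cm0 F.gp).cell := fun p q r h =>
    cell_mem F.gp F.c3 ((hPS p (hBU (fc_memU h))).1 h.1.1)
  have h := budget_q (P := P) (U := U) (J := (Finset.univ : Finset Unit)) (Q := fun _ => Bx)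
    (k := k) (hπ := clsCon_pc F.cls) (o := none) (a := a) hA F.gt (F.fr hPS e0) hX
    (fun _ _ => hBU) (fun _ _ p q r h => key p q r h _ (by rw [dif_pos (hm p q r h)]))
    (fun t ht => ha t (fc_congr hPS ht)) om3 om_ne om_conj sa
    hBU (fun p q r h => key p q r h _ (by rw [dif_pos (hm p q r h)]))
  simpa using h

end one

/-! ### functionals of the configuration -/

theorem paint_inj {A β A' β' : Finset ℂ} (h : β ⊆ A) (h' : β' ⊆ A') (e : paint A β = paint A' β') :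
    A = A' ∧ β = β' := by
  have key : ∀ {A β A' β' : Finset ℂ}, paint A β = paint A' β' → A ⊆ A' := by
    intro A β A' β' e z hz
    have h1 : ((z, decide (z ∈ β)) : ℂ × Bool) ∈ paint A β := ⟨hz, by simp⟩
    rw [e] at h1
    exact h1.1
  have key2 : ∀ {A β A' β' : Finset ℂ}, β ⊆ A → paint A β = paint A' β' → β ⊆ β' := by
    intro A β A' β' hb e z hz
    have h1 : ((z, true) : ℂ × Bool) ∈ paint A β := ⟨hb hz, by simp [hz]⟩
    rw [e] at h1
    exact h1.2.1 rfl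
  exact ⟨(key e).antisymm (key e.symm), (key2 h e).antisymm (key2 h' e.symm)⟩

/-- the functional given by a function of the points and the black points -/
def lft (F : Finset ℂ → Finset ℂ → ℝ≥0∞) (X : Set (ℂ × Bool)) : ℝ≥0∞ :=
  if h : ∃ q : Finset ℂ × Finset ℂ, q.2 ⊆ q.1 ∧ X = paint q.1 q.2 then F h.choose.1 h.choose.2
  else 0

theorem lft_paint (F : Finset ℂ → Finset ℂ → ℝ≥0∞) {A β : Finset ℂ} (h : β ⊆ A) :
    lft F (paint A β) = F A β := by
  have h1 : ∃ q : Finset ℂ × Finset ℂ, q.2 ⊆ q.1 ∧ paint A β = paint q.1 q.2 := ⟨(A, β), h, rfl⟩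
  unfold lft
  rw [dif_pos h1]
  obtain ⟨e1, e2⟩ := paint_inj h h1.choose_spec.1 h1.choose_spec.2
  rw [← e1, ← e2]

/-- the giant as a function of the points and the black points -/
abbrev EFam := ∀ A _β : Finset ℂ, Set (Quot (hullE A))

/-- mean energy of the chords -/
def CHg (E : EFam) (a : ∀ A : Finset ℂ, D0 A → ℂ) (A β : Finset ℂ) : ℝ≥0∞ :=
  if h : ∃ hS : GP (A : Set ℂ), ClsCon (cm0 hS) (pe (E A β)) then
    mE (cm0 h.choose) (pe (E A β)) h.choose_spec fun x =>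
      ∑ β' ∈ chd (cm0 h.choose) (pe (E A β)) h.choose_spec none x, en (a A) β'
  else 0

theorem chg_eq {E : EFam} {a : ∀ A : Finset ℂ, D0 A → ℂ} {A β : Finset ℂ} (hS : GP (A : Set ℂ))
    (h : ClsCon (cm0 hS) (pe (E A β))) : CHg E a A β =
      mE (cm0 hS) (pe (E A β)) h fun x => ∑ β' ∈ chd (cm0 hS) (pe (E A β)) h none x, en (a A) β' := by
  have h1 : ∃ hS : GP (A : Set ℂ), ClsCon (cm0 hS) (pe (E A β)) := ⟨hS, h⟩
  unfold CHg
  rw [dif_pos h1]

/-- mean energy of the big closed blocks -/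
def CLg (U : Set ℂ) (k : ℝ) (E : EFam) (a : ∀ A : Finset ℂ, D0 A → ℂ) (A β : Finset ℂ) : ℝ≥0∞ :=
  if h : (∃ hS : GP (A : Set ℂ), ClsCon (cm0 hS) (pe (E A β))) ∧ Nonempty (D0 A) then
    CLq (A : Set ℂ) U (rc0 h.1.choose) (pc h.1.choose (E A β)) (clsCon_pc h.1.choose_spec) none
      (dl h.2.some) k (a A)
  else 0

theorem clg_eq {U : Set ℂ} {k : ℝ} {E : EFam} {a : ∀ A : Finset ℂ, D0 A → ℂ} {A β : Finset ℂ}
    (hS : GP (A : Set ℂ)) (h : ClsCon (cm0 hS) (pe (E A β))) (hD : Nonempty (D0 A)) :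
    CLg U k E a A β = CLq (A : Set ℂ) U (rc0 hS) (pc hS (E A β)) (clsCon_pc h) none (dl hD.some) k
      (a A) := by
  have h1 : (∃ hS : GP (A : Set ℂ), ClsCon (cm0 hS) (pe (E A β))) ∧ Nonempty (D0 A) :=
    ⟨⟨hS, h⟩, hD⟩
  unfold CLg
  rw [dif_pos h1]

/-- **the mean energy of the chords as a functional of the configuration** -/
def CHf (E : EFam) (a : ∀ A : Finset ℂ, D0 A → ℂ) : Set (ℂ × Bool) → ℝ≥0∞ := lft (CHg E a)

/-- **the mean energy of the big closed blocks as a functional of the configuration** -/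
def CLf (U : Set ℂ) (k : ℝ) (E : EFam) (a : ∀ A : Finset ℂ, D0 A → ℂ) : Set (ℂ × Bool) → ℝ≥0∞ :=
  lft (CLg U k E a)

/-- a field with the charges of the faces in `U` -/
structure Fld (U : Set ℂ) (a : ∀ A : Finset ℂ, D0 A → ℂ) : Prop where
  nn : ∀ (A : Finset ℂ), GP (A : Set ℂ) → ∀ (e0 : D0 A) (t : T3),
    Fc (A : Set ℂ) U t.1 t.2.1 t.2.2 → a A (gd (dl e0) t) = Nn t
  spin : ∀ (A : Finset ℂ) (hS : GP (A : Set ℂ)), Spin (cm0 hS) om (a A)

theorem fld_nn (U : Set ℂ) : Fld U Engx490.nn :=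
  ⟨fun _ hS _ _ ht => nn_gd hS ht, fun _ hS => Engx490.nn_spin hS⟩

/-- a black set of points of a box from the configuration -/
theorem ex_paint {ε : ℝ} (hε : 0 < ε) {B : Set ℂ} (hB : Bornology.IsBounded B) :
    ∀ᵐ ω ∂sampleLaw, ∃ β ∈ (Ap ε B ω).powerset,
      PP0x831.cfg ε ω ∩ ovM Bool B = paint (Ap ε B ω) β := by
  filter_upwards [ae_injω hε] with ω hi
  obtain ⟨β, hβ, -, -, -, h, -⟩ := dcf_paint hi (coe_Ap hε hB ω)
  exact ⟨β, hβ, h⟩

theorem sq_sub_ub {z : ℂ} {b s : ℝ} (hs : 0 ≤ s) : sq z b ⊆ Ub z b s := by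
  rintro w ⟨h1, h2, h3, h4⟩
  refine ⟨?_, ?_, ?_, ?_⟩
  · rw [HBudx136.re_k']; linarith
  · rw [HBudx136.re_k']; linarith
  · rw [HBudx136.im_k']; linarith
  · rw [HBudx136.im_k']; linarith

section inst

variable {z : ℂ} {b s k ε : ℝ} {B : Set ℂ} {E : EFam} {a : ∀ A : Finset ℂ, D0 A → ℂ}
  {R : Finset ℂ → Finset ℂ → Finset ℂ} {g : Set (ℂ × Bool) → ℝ≥0∞}

/-- the facts hold where the weight is not zero -/
def FactsAe (ε : ℝ) (B U Bx : Set ℂ) (g : Set (ℂ × Bool) → ℝ≥0∞)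
    (R : Finset ℂ → Finset ℂ → Finset ℂ) (E : EFam) : Prop :=
  ∀ᵐ ω ∂sampleLaw, ∀ β ∈ (Ap ε B ω).powerset, g (paint (Ap ε B ω) β) ≠ 0 →
    Facts U Bx (Ap ε B ω) β (R (Ap ε B ω) β) (E (Ap ε B ω) β)

/-- **the pointwise budget** (`hp` of 136's `hbudM`, `PB` of `Asm_414`) -/
theorem pb (hε : 0 < ε) (hs : 0 ≤ s) (hB : Bornology.IsBounded B) (hUB : Ub z b s ⊆ B)
    (ha : Fld (Ub z b s) a) (hF : FactsAe ε B (Ub z b s) (sq z b) g R E) :
    ∀ᵐ ω ∂sampleLaw, g (PP0x831.cfg ε ω ∩ ovM Bool B) ≠ 0 →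
      Wf (ps (PP0x831.cfg ε ω)) (sq z b) / 4 ≤ CHf E a (PP0x831.cfg ε ω ∩ ovM Bool B) +
        CLf (Ub z b s) k E a (PP0x831.cfg ε ω ∩ ovM Bool B) +
        fam.Ph (sq z b) (PP0x831.cfg ε ω) +
        Wf (ps (PP0x831.cfg ε ω)) (Nk (Finset.univ : Finset Unit) (fun _ => sq z b) k ∩
          Ub z b s) := by
  have hGP : ∀ᵐ ω ∂sampleLaw, GP (points ε ω) := by
    filter_upwards [PoisM3x930.m3a ε hε] with ω h using h.1
  filter_upwards [hGP, hF, ex_paint hε hB] with ω hP hF ⟨β, hβ, hX⟩ hg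
  rw [hX] at hg ⊢
  have F := hF β hβ hg
  rw [Finset.mem_powerset] at hβ
  have hps : ps (PP0x831.cfg ε ω) = points ε ω := Dblx609.fst_cfg ε ω
  have hA := coe_Ap hε hB ω
  have hPS : ∀ w ∈ Ub z b s, w ∈ points ε ω ↔ w ∈ ((Ap ε B ω : Finset ℂ) : Set ℂ) := by
    intro w hw
    rw [hA]
    exact ⟨fun h => ⟨h, hUB hw⟩, fun h => h.1⟩
  have hD := exists_dart F.gp F.c3
  have h := F.budget hP hPS (sq_sub_ub hs) hD.some hps (fun t ht => ha.nn _ F.gp _ t ht)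
    (ha.spin _ F.gp) k
  unfold CHf CLf
  rw [lft_paint _ hβ, lft_paint _ hβ, chg_eq F.gp F.cls, ← chq_cm0, clg_eq F.gp F.cls hD,
    ← clq_congr hPS, hps]
  refine h.trans (le_of_eq ?_)
  ring

/-- **136's `Qg`** -/
theorem qg (hε : 0 < ε) (hB : Bornology.IsBounded B) (hUB : Ub z b s ⊆ B)
    (ha : Fld (Ub z b s) a) (hg1 : ∀ X, g X ≤ 1)
    (hR : ∀ᵐ ω ∂sampleLaw, IsStop (Ap ε B ω) (R (Ap ε B ω)))
    (hF : FactsAe ε B (Ub z b s) (sq z b) g R E) :
    ∀ᵐ ω ∂sampleLaw, Qg k (Ub z b s) (points ε ω) (Ap ε B ω)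
      fun X => g X * CLf (Ub z b s) k E a X := by
  filter_upwards [hF, hR] with ω hF hR
  have hA := coe_Ap hε hB ω
  have hPS : ∀ w ∈ Ub z b s, w ∈ points ε ω ↔ w ∈ ((Ap ε B ω : Finset ℂ) : Set ℂ) := by
    intro w hw
    rw [hA]
    exact ⟨fun h => ⟨h, hUB hw⟩, fun h => h.1⟩
  by_cases h0 : ∀ β ∈ (Ap ε B ω).powerset, g (paint (Ap ε B ω) β) = 0
  · left
    intro β hβ
    show g (paint (Ap ε B ω) β) * _ = 0
    rw [h0 β hβ, zero_mul]
  · right
    push Not at h0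
    obtain ⟨β0, hβ0, hg0⟩ := h0
    have F0 := hF β0 hβ0 hg0
    have hD := exists_dart F0.gp F0.c3
    refine ⟨F0.gp, F0.c3, F0.out, hD.some, a _, fun t ht => ha.nn _ F0.gp _ t (fc_congr hPS ht),
      R _, hR, fun β hβ hΦ => ?_⟩
    have hg : g (paint (Ap ε B ω) β) ≠ 0 := fun h => hΦ (by
      show g (paint (Ap ε B ω) β) * _ = 0
      rw [h, zero_mul])
    have F := hF β hβ hg
    rw [Finset.mem_powerset] at hβ
    refine ⟨Option (Quot (hullE (Ap ε B ω))), pc F.gp _, clsCon_pc F.cls, none,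
      F.stg hPS hD.some, ?_⟩
    show g (paint (Ap ε B ω) β) * CLf (Ub z b s) k E a (paint (Ap ε B ω) β) ≤ _
    unfold CLf
    rw [lft_paint _ hβ, clg_eq F.gp F.cls hD, clq_congr hPS]
    calc _ ≤ 1 * _ := mul_le_mul_left (hg1 _) _
      _ = _ := one_mul _

end inst

/-- **THE BUDGET for a family of giants.** `g` a weight of the configuration in the box `B`, `E` the
giant, `R` the revealed points (an exploration), `Facts` where the weight is not zero; `Rm` a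
measurable majorant of the quenched mean of `g` times the mean energy of the chords -/
theorem hbudI (z : ℂ) {b s δ : ℝ} (hb : 0 < b) (hs : 0 < s) (hδ : 0 < δ)
    (Lw : HBudx136.LLN Trans3x690.famF Trans3x690.wD) (La : HBudx136.LLN fam Trans3x690.aD) :
    ∃ k0 : ℝ, 0 < k0 ∧ ∀ k : ℝ, 0 < k → k ≤ k0 → ∀ᶠ ε : ℝ in 𝓝[>] 0,
    ∀ (B : Set ℂ), MeasurableSet B → Bornology.IsBounded B → Ub z b s ⊆ B →
    ∀ g : Set (ℂ × Bool) → ℝ≥0∞, Poisx304.FM g → (∀ X, g X ≤ 1) →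
    ∀ (E : EFam) (R : Finset ℂ → Finset ℂ → Finset ℂ) (a : ∀ A : Finset ℂ, D0 A → ℂ),
      Fld (Ub z b s) a →
      (∀ᵐ ω ∂sampleLaw, IsStop (Ap ε B ω) (R (Ap ε B ω))) →
      FactsAe ε B (Ub z b s) (sq z b) g R E →
      ∀ Rm : Sample → ℝ≥0∞, AEMeasurable Rm sampleLaw →
      (∀ᵐ ω ∂sampleLaw, mq ε B (fun X => g X * CHf E a X) ω ≤ Rm ω) →
      ENNReal.ofReal (Trans3x690.wD / 4 * b ^ 2) *
          ∫⁻ ω, g (PP0x831.cfg ε ω ∩ ovM Bool B) ∂sampleLaw ≤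
        ∫⁻ ω, Rm ω ∂sampleLaw +
        ENNReal.ofReal (Trans3x690.aD * b ^ 2 + Trans3x690.wD * (4 * s * b + 4 * s ^ 2) + δ) *
          ∫⁻ ω, g (PP0x831.cfg ε ω ∩ ovM Bool B) ∂sampleLaw + ENNReal.ofReal δ := by
  obtain ⟨k0, hk0, h⟩ := hbudM z hb hs hδ Lw La
  refine ⟨k0, hk0, fun k hk hkk => ?_⟩
  filter_upwards [h k hk hkk, eventually_mem_nhdsWithin] with ε h hε
  have hε : 0 < ε := hε
  intro B hBm hB hUB g hg hg1 E R a ha hR hF Rm hRm hm
  exact h B hBm hB hUB g (CHf E a) (CLf (Ub z b s) k E a) hg hg1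
    (pb hε hs.le hB hUB ha hF) (qg hε hB hUB ha hg1 hR hF) Rm hRm hm

/-- **the big closed blocks are small** (the input `CL` of `Asm_414.Vals`) -/
theorem cl_small {z : ℂ} {b s k δ : ℝ} (hk : 0 < k) (hδ : 0 < δ) : ∀ᶠ ε : ℝ in 𝓝[>] 0,
    ∀ (B : Set ℂ), Bornology.IsBounded B → Ub z b s ⊆ B →
    ∀ g : Set (ℂ × Bool) → ℝ≥0∞, (∀ X, g X ≤ 1) →
    ∀ (E : EFam) (R : Finset ℂ → Finset ℂ → Finset ℂ) (a : ∀ A : Finset ℂ, D0 A → ℂ),
      Fld (Ub z b s) a →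
      (∀ᵐ ω ∂sampleLaw, IsStop (Ap ε B ω) (R (Ap ε B ω))) →
      FactsAe ε B (Ub z b s) (sq z b) g R E →
      ∫⁻ ω, g (PP0x831.cfg ε ω ∩ ovM Bool B) *
        CLf (Ub z b s) k E a (PP0x831.cfg ε ω ∩ ovM Bool B) ∂sampleLaw ≤ ENNReal.ofReal δ := by
  obtain ⟨e, he, h⟩ := glue hk (ub_bdd z b s)
  have hδ' : (0 : ℝ≥0∞) < ENNReal.ofReal δ := ENNReal.ofReal_pos.2 hδ
  filter_upwards [he.eventually (ge_mem_nhds hδ'), eventually_mem_nhdsWithin] with ε h1 hε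
  have hε : 0 < ε := hε
  intro B hB hUB g hg1 E R a ha hR hF
  exact (h ε hε B hB hUB _ (qg hε hB hUB ha hg1 hR hF)).trans h1

/-! ### 197's giant of a walk -/

/-- **`Facts` for the giant of a walk** -/
theorem facts_walk {A β R : Finset ℂ} {U Bx : Set ℂ} (hS : GP (A : Set ℂ)) (h3 : 3 ≤ A.card)
    {u : ℂ} (hu : OnHull A u) {x : D0 A → ZMod 2} (hx : IsC (cm0 hS) ∅ x) {p0 : D0 A}
    (hp : x p0 = 1) {N : ℕ}
    (hr : (cm0 hS).cell ((cm0 hS).rho p0) ∈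
      Ek (cm0 hS) (Quot.mk _ u) (Lf (cm0 hS) x p0 N))
    (out : ∀ v ∈ A, v ∈ U → ¬ OnHull A v)
    (fac : ∀ a b c, (a, b, c) ∈ delT A →
      (Quot.mk _ a : Quot (hullE A)) ∉ Eg (cm0 hS) (Quot.mk _ u) (Lf (cm0 hS) x p0 N) →
      cdisc (a, b, c) ⊆ U)
    (box : ∀ v ∈ A, v ∈ Bx →
      (Quot.mk _ v : Quot (hullE A)) ∉ Eg (cm0 hS) (Quot.mk _ u) (Lf (cm0 hS) x p0 N))
    (rev : ∀ v ∈ A, v ∈ R →
      (Quot.mk _ v : Quot (hullE A)) ∈ Eg (cm0 hS) (Quot.mk _ u) (Lf (cm0 hS) x p0 N))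
    (lf : ∀ j ≤ N, ¬ OnHull A (P (cm0 hS) x p0 j).1.1 ∧ (P (cm0 hS) x p0 j).1.1 ∈ R ∧
      (P (cm0 hS) x p0 j).1.1 ∈ β) :
    Facts U Bx A β R (Eg (cm0 hS) (Quot.mk _ u) (Lf (cm0 hS) x p0 N)) where
  gp := hS
  c3 := h3
  con := econ_walk hx hp N hr
  out := out
  hull := hull_eg hS h3 hu
  fac := fac
  box := box
  rev := rev
  rim := by
    intro v w h1 h2 hv hw
    have h4 := kin hv ⟨⟨(v, w), h1⟩, rfl, rfl⟩ hw
    obtain ⟨j, hj, h5⟩ := h4
    obtain ⟨g1, g2, g3⟩ := lf j hj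
    have h6 : (Quot.mk _ (P (cm0 hS) x p0 j).1.1 : Quot (hullE A)) = Quot.mk _ w := h5
    have h7 : w = (P (cm0 hS) x p0 j).1.1 := quot_inner hS g1 h6
    rw [h7]
    exact ⟨g1, g2, g3⟩

end Crest.Agent.R143.StgIx432
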