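import Crest.Agent.R143.SepU_697
import Crest.Agent.R143.EvG_168

/-!
# Row 143 (S0194), RIG, CorrI (b): the hypothesis `hsep` of `EvGx168.evA_of` (helper697)

* `sth_of_sd` : 168's `SD` for `CorH` is the strand `StH`
* **`sep_sd`** : `hsep` literally; `notExt_sd` : sites of `K0 (100 η) (10 η) u ⊇ u.P` and the gates
  are not in `Ext`
-/

set_option autoImplicit false

noncomputable section

open scoped Classical

namespace Crest.Agent.R143.SepSx697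

open Crest.Agent.R143.B0x346 Crest.Agent.R143.DelGx806 Crest.Agent.R143.DelRx806
open Crest.Agent.R143.Frame1x395 Crest.Agent.R143.Frame2x395
  Crest.Agent.R143.Frame4x395 Crest.Agent.R143.Frame10x395
open Crest.Agent.R143.Frame8x395 (cfg)
open Crest.Agent.R143.Splx117 Crest.Agent.R143.WLocx713 Crest.Agent.R143.RingDx117
open Crest.Agent.R143.TileRx228
open Crest.Agent.R143.CorHx713
open Crest.Agent.R143.RcTx422
open Crest.Agent.R143.FinCx811 (rc0 Cs rcol cs)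
open Crest.Agent.R143.OutSx358 (zc)
open Crest.Agent.R143.Gntx535 (wl wr)
open Crest.Agent.R143.PolyUx346 Crest.Agent.R143.Layx416 Crest.Agent.R143.LayUx416
open Crest.Agent.R143.RegSx523 (K0)
open Crest.Agent.R143.EvGx168 (SD)
open Crest.Agent.R143.SepHx697 Crest.Agent.R143.SepUx697

variable {X : Set (ℂ × Bool)} {U : Set ℂ} {M n : ℕ} {W : ℤ → ℤ × ℤ} {η d : ℝ} {o : ℤ}

/-- the strand on `cm0` -/
theorem sth_of_sd {H : CorH X U M W η d o n} {Rs : Set (D0 (sX X))} {q : D0 (sX X)} {N : ℕ}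
    {T : ℕ → ℕ} (St : SD H.gp H.hull n Rs H.p
      (fun k : ℕ => RR (19 / 2 * η) (103 / 2 * η) (100 * η) W (o + k)) q N T) : StH H Rs q N T :=
  str_restr.1 St

variable {u : Poly} {mm : ℕ} {p : ℤ → ℤ × ℤ} {aa e : ℤ → ℤ} {i : ZMod 3}

/-- **`hsep`** -/
theorem sep_sd (L : LayU u mm M p W aa e) (hh : (mm : ℝ) * (100 * η) = u.s)
    (H : CorH X U M W η d (al aa e i) (nn aa e i)) {Rs : Set (D0 (sX X))} {Rw : Set (Cs H.gp)}
    (hRw : ∀ s ∈ sX X, s ∈ BR η W M (al aa e i) (nn aa e i) → ∃ c ∈ Rw, c.1 = Quot.mk _ s)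
    {hc : Cs H.gp} (hhc : hc ∈ Hc H.gp) (q : D0 (sX X)) (N : ℕ) (T : ℕ → ℕ)
    (St : SD H.gp H.hull (nn aa e i) Rs H.p
      (fun k : ℕ => RR (19 / 2 * η) (103 / 2 * η) (100 * η) W (al aa e i + k)) q N T) :
    Extx358.Sep (rc0 H.gp) {hc} (zc (rc0 H.gp) Rw q (T (nn aa e i)) (rcol H.gp (cX X) H.hull))
      (wl (rc0 H.gp) (cfg (rc0 H.gp) (rcol H.gp (cX X) H.hull)) q (T (nn aa e i))) := by
  have h := (sepU L hh (sth_of_sd St) hRw).1
  rw [Hc_eq hhc] at h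
  exact h

/-- the polygon and the gates are not in `Ext` -/
theorem notExt_sd (L : LayU u mm M p W aa e) (hh : (mm : ℝ) * (100 * η) = u.s)
    (H : CorH X U M W η d (al aa e i) (nn aa e i)) {Rs : Set (D0 (sX X))} {Rw : Set (Cs H.gp)}
    (hRw : ∀ s ∈ sX X, s ∈ BR η W M (al aa e i) (nn aa e i) → ∃ c ∈ Rw, c.1 = Quot.mk _ s)
    {hc : Cs H.gp} (hhc : hc ∈ Hc H.gp) {q : D0 (sX X)} {N : ℕ} {T : ℕ → ℕ}
    (St : SD H.gp H.hull (nn aa e i) Rs H.p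
      (fun k : ℕ => RR (19 / 2 * η) (103 / 2 * η) (100 * η) W (al aa e i + k)) q N T) :
    (∀ v ∈ K0 (100 * η) (10 * η) u, ∀ c : Cs H.gp, c.1 = Quot.mk _ v →
      ¬ Extx358.Ext (rc0 H.gp) {hc}
        (zc (rc0 H.gp) Rw q (T (nn aa e i)) (rcol H.gp (cX X) H.hull)) c) ∧
    (∀ v ∈ u.P, ∀ c : Cs H.gp, c.1 = Quot.mk _ v →
      ¬ Extx358.Ext (rc0 H.gp) {hc}
        (zc (rc0 H.gp) Rw q (T (nn aa e i)) (rcol H.gp (cX X) H.hull)) c) ∧
    (∀ k : ℕ, k ≤ nn aa e i → ∀ c : Cs H.gp, c.1 = Quot.mk _ (yy η W X (al aa e i + k)) →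
      ¬ Extx358.Ext (rc0 H.gp) {hc}
        (zc (rc0 H.gp) Rw q (T (nn aa e i)) (rcol H.gp (cX X) H.hull)) c) := by
  have h := (sepU L hh (sth_of_sd St) hRw).2
  rw [Hc_eq hhc] at h
  exact h

end Crest.Agent.R143.SepSx697
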