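import Crest.Agent.R143.ZnL_903
import Crest.Agent.R143.RcT_422

/-!
# Row 143 (S0194), RIG, CorrI: 903's zones on a FIXED environment (helper168)

903's `ZnLx903.zn H` (`H : CorH X ..`) lives on `rc0 H.gp`; here the same sets for a fixed set `S` of
sites, without any colouring.
* `EnvZ` : fine path, numbers, no hull site in the enlarged strips
* `coreS'`, `cmp` : site of the centre of a tile, component of a site
* **`znE`** : `Zn (rc0 hS)`; `znE_R`, .. (fields), `k_envz` (`hK` of `sysA`), `t_envz` (`hT`), `R_envz`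
  (`Z.R = RC hS ..`)
* `zE_eq`, `zW_eq`, `zT_eq` : the sets are 903's for every `H : CorH X ..` with `sX X = S`
-/

set_option autoImplicit false
set_option linter.all false

noncomputable section

open scoped Classical

namespace Crest.Agent.R143.ZEnvx168

open Crest.ProbabilityR.Voronoi
open Crest.Agent.R143.B0x346 Crest.Agent.R143.DelGx806 Crest.Agent.R143.DelRx806
open Crest.Agent.R143.TileRx228 Crest.Agent.R143.ZnGx903
open Crest.Agent.R143.Gatex838 (X Y)
open Crest.Agent.R143.RE0x723 (Pth)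
open Crest.Agent.R143.Frame1x395 Crest.Agent.R143.Frame2x395 Crest.Agent.R143.Frame3x395
  Crest.Agent.R143.Frame8x395 Crest.Agent.R143.NonXx592
open Crest.Agent.R143.Frame10x395
open Crest.Agent.R143.FinCx811 Crest.Agent.R143.K33x137 Crest.Agent.R143.Uniqx323
open Crest.Agent.R143.Extx358 Crest.Agent.R143.SysAx168
open Crest.Agent.R143.CorHx713 Crest.Agent.R143.WLocx713 Crest.Agent.R143.ZnLx903

variable {S : Finset ℂ} {hS : GP (S : Set ℂ)} {M n r : ℕ} {W : ℤ → ℤ × ℤ} {η d : ℝ} {o : ℤ}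
  {J : Set ℤ} {a b : ℤ} {q : ℂ} {F G : Set ℂ} {t : ℂ}

/-- fine path, numbers, no hull site in the enlarged strips -/
structure EnvZ (S : Finset ℂ) (M : ℕ) (W : ℤ → ℤ × ℤ) (η d : ℝ) (o : ℤ) (n : ℕ) : Prop where
  path : FPath M W
  e0 : 0 < η
  d0 : 0 < d
  de : 100 * d ≤ η
  nM : n + 4 ≤ M
  inn : ∀ a : ℤ, ∀ s ∈ S, s ∈ FB η d W a → ¬ OnHull S s

/-! ### component of a site -/

/-- the site of the centre of the tile `a` -/
def coreS' (S : Finset ℂ) (η : ℝ) (W : ℤ → ℤ × ℤ) (a : ℤ) : ℂ :=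
  if h : ∃ s ∈ S, cen (100 * η) W a ∈ voronoiCell (S : Set ℂ) s then h.choose else 0

/-- the component of the cell of the site `t` in the cells of `F` -/
def cmp (hS : GP (S : Set ℂ)) (F : Set ℂ) (t : ℂ) : Set (Cs hS) :=
  {c | c ∈ clR hS F ∧ ∃ c' : Cs hS, c'.1 = Quot.mk (hullE S) t ∧
    Lk (rc0 hS) (clR hS F) c c'}

theorem comp_cmp {c' : Cs hS} (h : c'.1 = Quot.mk (hullE S) t) :
    comp (rc0 hS) (clR hS F) c' = cmp hS F t := by
  ext c
  constructor
  · rintro ⟨h1, h2⟩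
    exact ⟨h1, c', h, h2⟩
  · rintro ⟨h1, c'', h2, h3⟩
    have e : c'' = c' := Subtype.ext (h2.trans h.symm)
    exact ⟨h1, e ▸ h3⟩

theorem cmp_sub : cmp hS F t ⊆ clR hS F := fun _ h => h.1

theorem cmp_con : Cn (rc0 hS) (cmp hS F t) := by
  intro c hc e he
  obtain ⟨-, c', h1, -⟩ := id hc
  rw [← comp_cmp h1] at hc he ⊢
  exact comp_con c hc e he

/-! ### geometry -/

theorem fat_disj (H : EnvZ S M W η d o n) (h0 : ¬ (M : ℤ) ∣ b - a) (h1 : ¬ (M : ℤ) ∣ b - (a + 1))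
    (h2 : ¬ (M : ℤ) ∣ b - (a - 1)) : Disjoint (FB η d W a) (FB η d W b) := by
  have h3 := H.e0
  have h4 := H.d0
  have h5 := H.de
  exact disj H.path (by linarith) (by linarith) (by linarith) h0 h1 h2

theorem F0_BB (H : EnvZ S M W η d o n) (hq : q ∈ F0 η d W a) : q ∉ BB η W (a + 1) := by
  intro h
  have h3 := H.e0
  have h1 := (right H.path (by linarith) h).1
  linarith [hq.2]

theorem F1_BB (H : EnvZ S M W η d o n) (hq : q ∈ F1 η d W a) : q ∉ BB η W (a - 1) := by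
  intro h
  have h3 := H.e0
  have h1 := (left H.path (by linarith) h).1
  rw [sub_add_cancel] at h1
  linarith [hq.2]

theorem F0_Rt (H : EnvZ S M W η d o n) (hq : q ∈ F0 η d W o) : q ∉ RtS η W o n := by
  rintro ⟨k, h1, h2, h3⟩
  have hM := H.nM
  rcases Nat.lt_or_ge 1 k with h | h
  · exact Set.disjoint_left.1 (fat_disj H (a := o) (b := o + k) (ndvd (by omega) (by omega))
      (ndvd (by omega) (by omega)) (ndvd (by omega) (by omega))) hq.1 (BB_FB H.d0.le h3)
  · obtain rfl : k = 1 := by omega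
    exact F0_BB H hq h3

theorem F1_Rt (H : EnvZ S M W η d o n) (hq : q ∈ F1 η d W (o + n - 1)) : q ∉ RtS η W o n := by
  rintro ⟨k, h1, h2, h3⟩
  have hM := H.nM
  rcases Nat.lt_or_ge (k + 2) n with h | h
  · exact Set.disjoint_left.1 (fat_disj H (a := o + k) (b := o + n - 1)
      (ndvd (by omega) (by omega)) (ndvd (by omega) (by omega)) (ndvd (by omega) (by omega)))
      (BB_FB H.d0.le h3) hq.1
  · refine F1_BB H hq ?_
    rwa [show o + (n : ℤ) - 1 - 1 = o + k by omega]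

theorem F0_F1 (H : EnvZ S M W η d o n) (hn : 3 ≤ n) (hq : q ∈ F0 η d W o) :
    q ∉ F1 η d W (o + n - 1) := fun h => by
  have hM := H.nM
  exact Set.disjoint_left.1 (fat_disj H (a := o) (b := o + n - 1)
    (ndvd (by omega) (by omega)) (ndvd (by omega) (by omega)) (ndvd (by omega) (by omega)))
    hq.1 h.1

theorem KS_BB (H : EnvZ S M W η d o n) (hq : q ∈ KS η W a) : q ∈ BB η W a := by
  have h3 := H.e0
  exact win_right H.path (by linarith) (by linarith) (by linarith [hq.1]) hq.2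

theorem KS_Rt (H : EnvZ S M W η d o n) (h0 : 0 < r) (h1 : r + 1 < n) :
    KS η W (o + r) ⊆ RtS η W o n := fun _ hq => ⟨r, h0, h1, KS_BB H hq⟩

/-- the window of the gate `a` is off the tiles which are not its neighbours -/
theorem KS_off (H : EnvZ S M W η d o n) (h0 : ¬ (M : ℤ) ∣ a - b) (h1 : ¬ (M : ℤ) ∣ a - (b + 1))
    (hq : q ∈ KS η W a) : q ∉ BB η W b := by
  have h3 := H.e0
  have h4 : q ∈ BB η W (a - 1) := by
    have h5 := hq.1
    have h6 := hq.2
    refine win_left H.path (by linarith) (by linarith) ?_ ?_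
    · rw [sub_add_cancel]; linarith
    · rw [sub_add_cancel]; exact h6
  exact far H.path (by linarith) (by linarith) (by linarith) h0 h1 h4 (KS_BB H hq)

theorem innB (H : EnvZ S M W η d o n) : ∀ s ∈ S, s ∈ BB η W a → ¬ OnHull S s :=
  fun s hs h => H.inn a s hs (BB_FB H.d0.le h)

theorem innR (H : EnvZ S M W η d o n) : ∀ s ∈ S, s ∈ RtS η W o n → ¬ OnHull S s := by
  rintro s hs ⟨k, -, -, h⟩
  exact innB H s hs h

/-! ### the zones -/

/-- **903's zones on the sites `S`** -/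
def znE (hS : GP (S : Set ℂ)) (H : EnvZ S M W η d o n) (hn : 3 ≤ n) (h0 : 0 < r) (h1 : r + 1 < n)
    (hJ : o ∈ J) (hJ' : o + n - 1 ∈ J) (c0 : Cs hS) : Zn (rc0 hS) where
  R := clR hS (RtS η W o n)
  K := clR hS (KS η W (o + r))
  E := cmp hS (F1 η d W (o + n - 1)) (coreS' S η W (o + n - 1))
  W := cmp hS (F0 η d W o) (coreS' S η W o)
  T := comp (rc0 hS) (clR hS (GT η d W J)) c0
  KR := clR_mono (KS_Rt H h0 h1)
  cE := cmp_con
  cW := cmp_con
  cT := comp_con
  RE := (clR_disj (fun s _ h h' => F1_Rt H h' h) (innR H)).mono_right cmp_sub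
  RW := (clR_disj (fun s _ h h' => F0_Rt H h' h) (innR H)).mono_right cmp_sub
  RT := (clR_disj (fun s _ h h' => by
    obtain ⟨k, -, -, h⟩ := h
    exact h'.1 _ h) (innR H)).mono_right comp_sub
  EW := ((clR_disj (fun s _ h h' => F0_F1 H hn h h')
    (fun s hs h => H.inn _ s hs h.1)).mono cmp_sub cmp_sub).symm
  ET := (clR_disj (fun s _ h h' => h'.2 _ hJ' h.1)
    (fun s hs h => H.inn _ s hs h.1)).mono cmp_sub comp_sub
  WT := (clR_disj (fun s _ h h' => h'.2 _ hJ h.1)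
    (fun s hs h => H.inn _ s hs h.1)).mono cmp_sub comp_sub

theorem clR_RC (h : ∀ s ∈ S, s ∈ F → ¬ OnHull S s) : clR hS F = RcTx422.RC hS F := by
  ext c
  constructor
  · rintro ⟨s, h1, h2, h3⟩
    exact ⟨s, h1, h2, h s h1 h2, h3⟩
  · rintro ⟨s, h1, h2, -, h3⟩
    exact ⟨s, h1, h2, h3⟩

/-- the region of the strand, in 422's form -/
theorem R_envz (H : EnvZ S M W η d o n) : clR hS (RtS η W o n) = RcTx422.RC hS (RtS η W o n) :=
  clR_RC (innR H)

/-- the white strips: closing tiles and the two end tiles -/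
def RwS (η : ℝ) (W : ℤ → ℤ × ℤ) (o : ℤ) (n M : ℕ) : Set ℂ :=
  {s | ∃ a : ℤ, o + n - 1 ≤ a ∧ a ≤ o + M ∧ s ∈ BB η W a}

/-- **input `hK` of `sysA`** -/
theorem k_envz (H : EnvZ S M W η d o n) (hr : 2 ≤ r) (hrn : r + 1 < n) {c : Cs hS}
    (hc : c ∈ clR hS (KS η W (o + r))) : c ∉ clR hS (RwS η W o n M) := by
  have hM := H.nM
  intro hc'
  obtain ⟨s, h1, h2, h3⟩ := hc
  obtain ⟨v, h4, ⟨a, h5, h6, h7⟩, h8⟩ := hc'
  have e : s = v := quot_inner hS (innB H v h4 h7) (by rw [← h3, h8])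
  subst e
  refine KS_off H (a := o + r) (b := a) ?_ ?_ h2 h7
  · intro h
    have h' : (M : ℤ) ∣ a - (o + r) := by
      have := (dvd_neg (α := ℤ)).2 h
      rwa [neg_sub] at this
    rcases lt_or_ge (a - (o + r)) M with h9 | h9
    · exact ndvd (by omega) h9 h'
    · omega
  · intro h
    have h' : (M : ℤ) ∣ (a + 1) - (o + r) := by
      have := (dvd_neg (α := ℤ)).2 h
      rwa [neg_sub] at this
    rcases lt_or_ge ((a + 1) - (o + r)) M with h9 | h9
    · exact ndvd (by omega) h9 h'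
    · omega

/-- **input `hT` of `sysA`** -/
theorem t_envz (H : EnvZ S M W η d o n) {c0 : Cs hS} {x : ℂ} (hx : OnHull S x)
    (h0 : c0.1 = Quot.mk _ x) {Rw : Set (Cs hS)} (hR : Rw ⊆ clR hS {q | ∃ a, q ∈ BB η W a})
    {t : Cs hS} (ht : t ∈ comp (rc0 hS) (clR hS (GT η d W J)) c0) :
    Ext (rc0 hS) {c0} (clR hS (RtS η W o n) ∪ Rw) t := by
  have hsub : clR hS (RtS η W o n) ∪ Rw ⊆ clR hS {q | ∃ a, q ∈ BB η W a} := by
    rintro c (⟨s, g1, ⟨k, -, -, g2⟩, g3⟩ | hc)
    · exact ⟨s, g1, ⟨_, g2⟩, g3⟩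
    · exact hR hc
  have hinn : ∀ s ∈ S, s ∈ {q : ℂ | ∃ a, q ∈ BB η W a} → ¬ OnHull S s := by
    rintro s hs ⟨a, h⟩
    exact innB H s hs h
  have hoff : ∀ c ∈ clR hS (GT η d W J), c ∉ clR hS (RtS η W o n) ∪ Rw := fun c hc hc' =>
    Set.disjoint_left.1 (clR_disj (hS := hS) (F := {q | ∃ a, q ∈ BB η W a}) (G := GT η d W J)
      (fun s _ ⟨a, h⟩ h' => h'.1 a h) hinn) (hsub hc') hc
  have h00 : c0 ∉ clR hS (RtS η W o n) ∪ Rw := by
    intro h
    obtain ⟨s, g1, g2, g3⟩ := hsub h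
    have : x = s := quot_inner hS (hinn s g1 g2) (by rw [← g3, h0])
    rw [this] at hx
    exact hinn s g1 g2 hx
  have base : Ext (rc0 hS) {c0} (clR hS (RtS η W o n) ∪ Rw) c0 := Ext.hull rfl h00
  have key : ∀ u v, Lk (rc0 hS) (clR hS (GT η d W J)) u v →
      (Ext (rc0 hS) {c0} (clR hS (RtS η W o n) ∪ Rw) u ↔
        Ext (rc0 hS) {c0} (clR hS (RtS η W o n) ∪ Rw) v) := by
    intro u v huv
    have step : ∀ u v, v ∈ clR hS (GT η d W J) → Ed (rc0 hS) u v →
        Ext (rc0 hS) {c0} (clR hS (RtS η W o n) ∪ Rw) u →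
        Ext (rc0 hS) {c0} (clR hS (RtS η W o n) ∪ Rw) v := by
      intro u v hv he hu
      rcases ed_ad he with rfl | had
      · exact hu
      · exact Ext.step hu had (hoff v hv)
    induction huv with
    | rel u v h => exact ⟨step u v h.2.1 h.2.2, step v u h.1 h.2.2.symm⟩
    | refl u => exact Iff.rfl
    | symm u v _ ih => exact ih.symm
    | trans u v w _ _ ih1 ih2 => exact ih1.trans ih2
  exact (key _ _ ht.2).2 base

/-- the hull cell is not the cell of an inner site -/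
theorem hull_off {c0 : Cs hS} {x : ℂ} (hx : OnHull S x) (h0 : c0.1 = Quot.mk _ x)
    (h : ∀ s ∈ S, s ∈ F → ¬ OnHull S s) : c0 ∉ clR hS F := by
  rintro ⟨s, g1, g2, g3⟩
  have : x = s := quot_inner hS (h s g1 g2) (by rw [← g3, h0])
  rw [this] at hx
  exact h s g1 g2 hx

/-! ### comparison with 903's zones -/

section cor

variable {Xs : Set (ℂ × Bool)} {U : Set ℂ}

theorem envz (H : CorH Xs U M W η d o n) : EnvZ (sX Xs) M W η d o n :=
  ⟨H.path, H.e0, H.d0, H.de, H.nM, fun a s _ h => H.inn (FB_U H a h)⟩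

theorem coreS_eq (H : CorH Xs U M W η d o n) (a : ℤ) : coreS H a = coreS' (sX Xs) η W a := by
  unfold coreS'
  rw [dif_pos (ex_core H a)]
  rfl

theorem zE_eq (H : CorH Xs U M W η d o n) :
    zE H = cmp H.gp (F1 η d W (o + n - 1)) (coreS' (sX Xs) η W (o + n - 1)) := by
  rw [← coreS_eq H]
  exact comp_cmp rfl

theorem zW_eq (H : CorH Xs U M W η d o n) :
    zW H = cmp H.gp (F0 η d W o) (coreS' (sX Xs) η W o) := by
  rw [← coreS_eq H]
  exact comp_cmp rfl

end cor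

end Crest.Agent.R143.ZEnvx168
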