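import Crest.Agent.R143.CorrC_831
import Crest.Agent.R143.SepS_697
import Crest.Agent.R143.LnkM_927
import Crest.Agent.R143.ZEnv_168
import Crest.Agent.R143.CorE_133
import Crest.Agent.R143.OutP_571

/-!
# Row 143 (S0194), RIG, CorrI: the out strand on a FIXED environment, all inputs (helper168)

`L : LayU u mm M p W aa e`, label `i`, `o = al aa e i`, `n = nn aa e i`, `r = rr aa e i`, `S` fixed sites.
* `Concl` : the conclusion of 831's `hx_S` (with the darts of the gates)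
* `concl_of` : one colouring with `CorH` : all five inputs `hE hW hcol hsep hlnk` of `hx_S`
* **`zall`** : `Zn (rc0 hS)` = `znE` of `ZEnv_168` : inputs of `sysA`, `Sys`, and the conclusion of
  `hx_S` for every colouring with `CorH`
-/

set_option autoImplicit false
set_option linter.all false

noncomputable section

open scoped Classical

namespace Crest.Agent.R143.ZAllx168

open Crest.ProbabilityR.Voronoi
open Crest.Agent.R158.Sp896 (V Con)
open Crest.Agent.R143.B0x346 Crest.Agent.R143.DelGx806 Crest.Agent.R143.DelRx806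
  Crest.Agent.R143.JColx54
open Crest.Agent.R143.Frame1x395 Crest.Agent.R143.Frame2x395 Crest.Agent.R143.Frame3x395
  Crest.Agent.R143.Frame4x395 Crest.Agent.R143.Frame8x395 Crest.Agent.R143.Frame9x395
  Crest.Agent.R143.Frame10x395 Crest.Agent.R143.Frame11x395
open Crest.Agent.R143.Frame5x395 (sd mem_sd th th_spec)
open Crest.Agent.R143.Splx117 Crest.Agent.R143.WLocx713
open Crest.Agent.R143.RingDx117 (RD)
open Crest.Agent.R143.CorrDx117 (DCorr)
open Crest.Agent.R143.TileRx228 Crest.Agent.R143.PathDx503 Crest.Agent.R143.PathGx503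
open Crest.Agent.R143.RingPx503 Crest.Agent.R143.DCorGx713 Crest.Agent.R143.DCorFx713
open Crest.Agent.R143.CorHx713
open Crest.Agent.R143.Sptx169 Crest.Agent.R143.Sptx832 Crest.Agent.R143.Spt2x832
  Crest.Agent.R143.SpRx169
open Crest.Agent.R143.StrBx117 (Str)
open Crest.Agent.R143.NonXx592 (P Rc)
open Crest.Agent.R143.Gntx535 (wl wr)
open Crest.Agent.R143.Extx358 (Ad Ext Sep)
open Crest.Agent.R143.OutSx358 (zc Sys)
open Crest.Agent.R143.FinCx811 (Cs rc0 cs rcol)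
open Crest.Agent.R143.Uniqx323 (Zn Strd)
open Crest.Agent.R143.EvGx117 (Rd)
open Crest.Agent.R143.SysAx168 (EvA sysA)
open Crest.Agent.R143.SysCx166 (Hv Hx Vs)
open Crest.Agent.R143.ZnLx903 (clR comp KS RtS GT F0 F1 zR zK zT)
open Crest.Agent.R143.CorrIx831 (bst Rts Rws Bk Ft tlt Stk SDS Col)
open Crest.Agent.R143.RcTx422 (Hc RC)
open Crest.Agent.R143.EvGx168 (SD)
open Crest.Agent.R143.Finex422 (Fine)
open Crest.Agent.R143.OutCx571 (Far)
open Crest.Agent.R143.PolyUx346 Crest.Agent.R143.Layx416 Crest.Agent.R143.LayUx416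
open Crest.Agent.R143.ZEnvx168

variable {u : Poly} {mm M : ℕ} {p W : ℤ → ℤ × ℤ} {aa e : ℤ → ℤ} {i : ZMod 3} {η d : ℝ} {U : Set ℂ}
  {J : Set ℤ}

/-- the conclusion of 831's `hx_S` -/
def Concl {S : Finset ℂ} (hS : GP (S : Set ℂ)) (W : ℤ → ℤ × ℤ) (η : ℝ) (o : ℤ) (n r : ℕ)
    (Z : Zn (rc0 hS)) (Rw : Set (Cs hS)) (h₀ : Cs hS) (X : Set (ℂ × Bool))
    (s : Cs hS → ZMod 2) : Prop :=
  ∃ p : ℕ → D0 S, (∀ k : ℕ, (p k).1 = (yy η W X (o + k), xx η W X (o + k))) ∧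
    ∃ (q : D0 S) (N : ℕ) (T : ℕ → ℕ), SDS hS s η W o n p q N T ∧
      Hv (rc0 hS) (fun (i : D0 S × ℕ) _ => i.1) (fun i _ => i.2)
        (EvA (rc0 hS) {h₀} Rw (RD S (Bk η W o (r - 1))) Z) n n (Ft S η W o n)
        (tlt hS η W o n) s ((q, T n), T) ∧
      ∀ {f : ℂ × ℂ × ℂ → ℂ} {w : D0 S → ℂ}, (∀ k, k < n → ∀ e : D0 S,
          e.1.2 ∈ Bk η W o k → th S e.1 ∈ Bk η W o k →
            w e = f (e.1.2, th S e.1, e.1.1)) →
        ∀ l, 2 ≤ l → l + 2 < n →
          Vs (rc0 hS) (fun (i : D0 S × ℕ) _ => i.1) (fun i _ => i.2)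
            (EvA (rc0 hS) {h₀} Rw (RD S (Bk η W o (r - 1))) Z) w (Ft S η W o n) l s =
              VX f n (Bk η W o) (QX (100 * η) W o n) (Stk η W o) (n - 1 - l) X

/-- the numbers of the corridor of the label `i` -/
theorem nums (L : LayU u mm M p W aa e) (i : ZMod 3) :
    8 ≤ rr aa e i ∧ rr aa e i + 8 ≤ nn aa e i ∧ nn aa e i + 8 ≤ M ∧
      aa (e (jj i + 2)) + 4 ≤ al aa e i + rr aa e i ∧
      al aa e i + rr aa e i + 4 ≤ aa (e (jj i + 2) + 1) := by
  have q1 := L.lay.rr_pos i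
  have q2 := L.lay.rr_lt i
  have q3 := L.lay.nn_lt i
  have q4 := L.lay.rr_eq i
  have q5 := (L.lay.g_mem (jj i + 2)).2.2
  have e1 : mi aa e i = g aa e (jj i + 2) := rfl
  refine ⟨q1, q2, q3, ?_, ?_⟩
  · rw [q4, e1]; exact q5.1
  · rw [q4, e1]; exact q5.2

/-- **all inputs of `hx_S`**, one colouring -/
theorem concl_of (L : LayU u mm M p W aa e) (hh : (mm : ℝ) * (100 * η) = u.s)
    {X : Set (ℂ × Bool)} (H : CorH X U M W η d (al aa e i) (nn aa e i)) {c0 : Cs H.gp} {x : ℂ}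
    (hx : OnHull (sX X) x) (h0 : c0.1 = Quot.mk _ x)
    (hf : x ∈ Far (mm * (100 * η)) (100 * η + 19 / 2 * η + d) (OutPx571.F u))
    (htop : ∀ s ∈ sX X,
      |Gatex838.X (gz (100 * η) W (al aa e i + rr aa e i)) (ge W (al aa e i + rr aa e i)) s| < η →
      19 / 2 * η ≤
        Gatex838.Y (gz (100 * η) W (al aa e i + rr aa e i)) (ge W (al aa e i + rr aa e i)) s →
      Gatex838.Y (gz (100 * η) W (al aa e i + rr aa e i)) (ge W (al aa e i + rr aa e i)) s ≤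
        11 * η →
      ∀ c : Cs H.gp, c.1 = Quot.mk _ s → c ∈ comp (rc0 H.gp) (clR H.gp (GT η d W J)) c0)
    {Z : Zn (rc0 H.gp)} (zR' : Z.R = clR H.gp (RtS η W (al aa e i) (nn aa e i)))
    (zK' : Z.K = clR H.gp (KS η W (al aa e i + rr aa e i)))
    (zE' : Z.E = cmp H.gp (F1 η d W (al aa e i + nn aa e i - 1))
      (coreS' (sX X) η W (al aa e i + nn aa e i - 1)))
    (zW' : Z.W = cmp H.gp (F0 η d W (al aa e i)) (coreS' (sX X) η W (al aa e i)))
    (zT' : Z.T = comp (rc0 H.gp) (clR H.gp (GT η d W J)) c0) :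
    Concl H.gp W η (al aa e i) (nn aa e i) (rr aa e i) Z
      (clR H.gp (RwS η W (al aa e i) (nn aa e i) M)) c0 X (rcol H.gp (cX X) H.hull) := by
  obtain ⟨q1, q2, q3, q4, q5⟩ := nums L i
  have e0 := H.e0
  have h3 : 3 ≤ (sX X).card := ZnLx903.card3 H
  have hC : Col H.gp X (rcol H.gp (cX X) H.hull) := ⟨rfl, fun _ _ _ => rfl⟩
  have hZR : Z.R = RC H.gp (Rts η W (al aa e i) (nn aa e i)) := by
    rw [zR']
    exact R_envz (envz H)
  have hRd : Rd (rc0 H.gp) Z.R = RD (sX X) (Rts η W (al aa e i) (nn aa e i)) := by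
    rw [hZR]
    exact RcTx422.rs2_rc (CorrIx831.inn_Rts H)
  have e1 : Bk η W (al aa e i) (nn aa e i - 1) = ZnLx903.BB η W (al aa e i + nn aa e i - 1) := by
    show bst η W (al aa e i + ((nn aa e i - 1 : ℕ) : ℤ)) = _
    rw [show al aa e i + ((nn aa e i - 1 : ℕ) : ℤ) = al aa e i + nn aa e i - 1 by omega]
  have e2 : Bk η W (al aa e i) 0 = ZnLx903.BB η W (al aa e i) := by
    show bst η W (al aa e i + ((0 : ℕ) : ℤ)) = _
    simp
  have hmem : ∀ c : Cs H.gp, c ∈ Z.R ↔ c ∈ zR H := fun c => by rw [zR']; rfl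
  have hc0 : c0 ∈ Hc H.gp := ⟨x, hx, h0⟩
  have hsd : ∀ q N T, SDS H.gp (rcol H.gp (cX X) H.hull) η W (al aa e i) (nn aa e i) H.p q N T →
      SD H.gp H.hull (nn aa e i) (Rd (rc0 H.gp) Z.R) H.p (Bk η W (al aa e i)) q N T := by
    intro q N T h
    rw [hRd]
    exact h
  refine ⟨H.p, fun k => rfl, ?_⟩
  refine CorrIx831.hx_S H h3 hC (r := rr aa e i) (by omega) (by omega)
    (fun b hb1 hb2 => (L.lay.run_mi i (by have := L.lay.rr_eq i; omega)
      (by have := L.lay.rr_eq i; omega)).1) (p := H.p) (fun k => rfl) hZR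
    (Rw := clR H.gp (RwS η W (al aa e i) (nn aa e i) M)) (h₀ := c0) ?_ ?_ ?_ ?_ ?_
  · rw [e1]
    intro e he c hc hcR
    have h1 := ZnLx903.zone_E H (by omega) he hc (fun h => hcR ((hmem c).2 h))
    rw [zE', ← zE_eq H]
    exact h1
  · rw [e2]
    intro e he c hc hcR
    have h1 := ZnLx903.zone_W H (by omega) he hc (fun h => hcR ((hmem c).2 h))
    rw [zW', ← zW_eq H]
    exact h1
  · refine ⟨rr aa e i, by omega, by omega, ?_⟩
    have h1 := ZnLx903.col_of H (r := rr aa e i) (J := J) (c0 := c0)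
      (χ := rcol H.gp (cX X) H.hull) (b := 0)
      (fun s h1 h2 c hc => by
        rw [RcTx422.rcol_val hc]
        have h3 : cX X s ≠ 1 := fun h => h2 ((bX_iff s h1).1 h)
        revert h3
        generalize cX X s = a
        revert a
        decide)
      htop (c := Rc (rc0 H.gp) (H.p (rr aa e i))) rfl
    rw [zK', zT']
    exact h1
  · intro q N T St
    exact SepSx697.sep_sd L hh H (Rw := clR H.gp (RwS η W (al aa e i) (nn aa e i) M))
      (fun s h1 h2 => ⟨ZnLx903.cv H.gp (ZnLx903.card3 H) s h1,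
      ⟨s, h1, h2, rfl⟩, rfl⟩) hc0 q N T (hsd q N T St)
  · intro q N T St
    refine LnkLx927.lnk_sd H L.fine (OutPx571.F_con' u) (by have := L.m_pos; omega) (by omega)
      (by omega) q4 (by omega) hx hf (ZR := Z.R) (fun c hc => ?_) (fun c hc => ?_) hc0 q N T
      (hsd q N T St)
    · rw [zR'] at hc
      obtain ⟨s, h1, ⟨k, -, -, h2⟩, h3⟩ := hc
      exact ⟨s, h1, ⟨_, h2⟩, h3⟩
    · obtain ⟨s, h1, ⟨a, h2, h3, h4⟩, h5⟩ := hc
      exact ⟨s, h1, ⟨a, ⟨h2, h3⟩, h4⟩, h5⟩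

/-- **the fixed environment** `S` : zones `znE`, inputs of `sysA`, 358's `Sys`, and the conclusion of
`hx_S` for every colouring with `CorH` -/
theorem zall (L : LayU u mm M p W aa e) (hh : (mm : ℝ) * (100 * η) = u.s) {S : Finset ℂ}
    (hS : GP (S : Set ℂ)) (i : ZMod 3) (E : EnvZ S M W η d (al aa e i) (nn aa e i))
    (hn : 3 ≤ nn aa e i) (hr0 : 0 < rr aa e i) (hr1 : rr aa e i + 1 < nn aa e i)
    (hJ : al aa e i ∈ J) (hJ' : al aa e i + nn aa e i - 1 ∈ J) {c0 : Cs hS} {x : ℂ}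
    (hx : OnHull S x) (h0 : c0.1 = Quot.mk _ x)
    (hf : x ∈ Far (mm * (100 * η)) (100 * η + 19 / 2 * η + d) (OutPx571.F u))
    (htop : ∀ s ∈ S,
      |Gatex838.X (gz (100 * η) W (al aa e i + rr aa e i)) (ge W (al aa e i + rr aa e i)) s| < η →
      19 / 2 * η ≤
        Gatex838.Y (gz (100 * η) W (al aa e i + rr aa e i)) (ge W (al aa e i + rr aa e i)) s →
      Gatex838.Y (gz (100 * η) W (al aa e i + rr aa e i)) (ge W (al aa e i + rr aa e i)) s ≤
        11 * η →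
      ∀ c : Cs hS, c.1 = Quot.mk _ s → c ∈ comp (rc0 hS) (clR hS (GT η d W J)) c0) :
    (∀ c ∈ (znE hS E hn hr0 hr1 hJ hJ' c0).K, c ∉ clR hS (RwS η W (al aa e i) (nn aa e i) M)) ∧
    (∀ t ∈ (znE hS E hn hr0 hr1 hJ hJ' c0).T, Ext (rc0 hS) {c0}
      ((znE hS E hn hr0 hr1 hJ hJ' c0).R ∪ clR hS (RwS η W (al aa e i) (nn aa e i) M)) t) ∧
    c0 ∉ clR hS (RwS η W (al aa e i) (nn aa e i) M) ∧
    c0 ∉ (znE hS E hn hr0 hr1 hJ hJ' c0).R ∧
    (znE hS E hn hr0 hr1 hJ hJ' c0).R = RC hS (Rts η W (al aa e i) (nn aa e i)) ∧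
    Sys (rc0 hS) {c0} (clR hS (RwS η W (al aa e i) (nn aa e i) M))
      (RD S (Bk η W (al aa e i) (rr aa e i - 1)))
      (fun (i : D0 S × ℕ) _ => i.1) (fun i _ => i.2)
      (EvA (rc0 hS) {c0} (clR hS (RwS η W (al aa e i) (nn aa e i) M))
        (RD S (Bk η W (al aa e i) (rr aa e i - 1))) (znE hS E hn hr0 hr1 hJ hJ' c0)) ∧
    ∀ (X : Set (ℂ × Bool)) (s : Cs hS → ZMod 2), Col hS X s →
      CorH X U M W η d (al aa e i) (nn aa e i) →
        Concl hS W η (al aa e i) (nn aa e i) (rr aa e i) (znE hS E hn hr0 hr1 hJ hJ' c0)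
          (clR hS (RwS η W (al aa e i) (nn aa e i) M)) c0 X s := by
  obtain ⟨q1, q2, q3, q4, q5⟩ := nums L i
  have hinn : ∀ s ∈ S, s ∈ RwS η W (al aa e i) (nn aa e i) M → ¬ OnHull S s := by
    rintro s hs ⟨a, -, -, h⟩
    exact innB E s hs h
  have a1 : ∀ c ∈ (znE hS E hn hr0 hr1 hJ hJ' c0).K,
      c ∉ clR hS (RwS η W (al aa e i) (nn aa e i) M) := fun c hc => k_envz E (by omega) (by omega) hc
  have a2 : ∀ t ∈ (znE hS E hn hr0 hr1 hJ hJ' c0).T, Ext (rc0 hS) {c0}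
      ((znE hS E hn hr0 hr1 hJ hJ' c0).R ∪ clR hS (RwS η W (al aa e i) (nn aa e i) M)) t :=
    fun t ht => t_envz E hx h0 (by
      rintro c ⟨s, g1, ⟨a, -, -, g4⟩, g5⟩
      exact ⟨s, g1, ⟨a, g4⟩, g5⟩) ht
  have a3 : c0 ∉ clR hS (RwS η W (al aa e i) (nn aa e i) M) := hull_off hx h0 hinn
  refine ⟨a1, a2, a3, hull_off hx h0 (innR E), R_envz E, sysA ?_ a1 a2, ?_⟩
  · intro c hc
    rw [Set.mem_singleton_iff] at hc
    rw [hc]
    exact a3
  · intro X s hC H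
    obtain rfl : sX X = S := hC.e
    obtain rfl := CorrIx831.col_eq H.hull (ZnLx903.card3 H) hC
    exact concl_of L hh H hx h0 hf htop rfl rfl rfl rfl rfl

end Crest.Agent.R143.ZAllx168
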