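import Crest.Agent.R143.QuenI_597
import Crest.Agent.R143.ZAll_168
import Crest.Agent.R143.LawH_765
import Crest.Agent.R143.HTop_903
import Crest.Agent.R143.HullC_40

/-!
# Row 143 (S0194), RIG: the system of the out strands of one environment (helper832)

Objects of 609's `RigZd_609`, sites `SU u ε ω`, `d = √ε`, 168's zones on the fixed sites.
* `envZ` : 168's `EnvZ`; `Rc`, **`Zq`** : white strips, zones (explicit, any `J` with the two end tiles)
* `cor_ae` : almost surely, positive weight gives `CorH` (765, 348), all labels and colourings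
* **`sxJ`** : `Sx` with the explicit zones; **`sx_of`** : `∃ h₀ R Zz, Sx ..` at a good environment
-/

set_option autoImplicit false
set_option linter.all false

noncomputable section

open scoped Classical

namespace Crest.Agent.R143.SxZx832

open MeasureTheory Set Filter Topology
open scoped ENNReal
open Crest.ProbabilityR.Voronoi
open Crest.Agent.R143.PP0x831 Crest.Agent.R143.Janx304 Crest.Agent.R143.Dbl2x609
open Crest.Agent.R143.B0x346 Crest.Agent.R143.DelGx806 Crest.Agent.R143.DelRx806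
  Crest.Agent.R143.FinCx811
open Crest.Agent.R143.Frame1x395 Crest.Agent.R143.Frame2x395 Crest.Agent.R143.Frame3x395
  Crest.Agent.R143.Frame4x395
open Crest.Agent.R143.Frame8x395 hiding cfg
open Crest.Agent.R143.Frame9x395 Crest.Agent.R143.Frame10x395
open Crest.Agent.R143.OutSx358 (Sys gA ac)
open Crest.Agent.R143.SysAx168 (EvA)
open Crest.Agent.R143.Uniqx323 (Zn Strd)
open Crest.Agent.R143.ColXx829 (Xc)
open Crest.Agent.R143.RcTx422 (Hc RC Hc_eq)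
open Crest.Agent.R143.BigUx749 (ClR)
open Crest.Agent.R143.LnkLx927 (All)
open Crest.Agent.R143.RingDx117 (RD)
open Crest.Agent.R143.PolyUx346 (Poly)
open Crest.Agent.R143.CorEx133
open Crest.Agent.R143.RigPx854 (ly ly_spec mN mN_hN mN_10 hN hN_pos nT)
open Crest.Agent.R143.RigZdx609 Crest.Agent.R143.LayUx416 Crest.Agent.R143.Layx416
open Crest.Agent.R143.TileRx228 Crest.Agent.R143.PthFx765 Crest.Agent.R143.TplIx204
open Crest.Agent.R143.Tplx978
open Crest.Agent.R143.CorHx713 (CorH xx yy)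
open Crest.Agent.R143.CorNx765
open Crest.Agent.R143.CorrIx831 (Ft tlt Bk Stk col_Xc)
open Crest.Agent.R143.ZnLx903 (clR comp KS RtS GT F0 F1 FB BB)
open Crest.Agent.R143.ZEnvx168 Crest.Agent.R143.ZAllx168
open Crest.Agent.R143.Locx922 (Hol)
open Crest.Agent.R143.QuenIx597

variable {N : ℕ} {ε : ℝ} {u : Poly} {w : ZMod 3} {ω : Sample} {K1 c2 ρ0 : ℝ}

/-! ### numbers -/

theorem n_nums (hN : u.n + 4 ≤ N) (w : ZMod 3) : 8 ≤ rT u w N ∧ rT u w N + 8 ≤ nT u w N ∧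
    nT u w N + 8 ≤ (ly u N).M ∧
    (ly u N).A ((ly u N).e (jj w + 2)) + 4 ≤ oT u w N + rT u w N ∧
    oT u w N + rT u w N + 4 ≤ (ly u N).A ((ly u N).e (jj w + 2) + 1) :=
  nums (ly_spec hN) w

theorem et_le (hN : u.n + 4 ≤ N) : 1000 * et N ≤ 1 := LawHx765.eta_le (ly_spec hN) (mh hN)

/-- enlarged strips are inside `UU u` -/
theorem RR_UU (hN : u.n + 4 ≤ N) {A B : ℝ} (h1 : A < 100 * et N) (h2 : A ≤ B) (h3 : 0 ≤ B)
    (h4 : B ≤ 100 * et N) (a : ℤ) : RR A B (100 * et N) (ly u N).W a ⊆ UU u :=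
  (subset_iUnion (fun a => RR A B (100 * et N) (ly u N).W a) a).trans
    (DisIx749.sub_UU (ly_spec hN) (mh hN) h1 h2 h3 h4)

/-- **168's hypotheses of the zones** -/
theorem envZ (hN : u.n + 4 ≤ N) (C : CorEnv u ε √ε K1 c2 ρ0 ω) (hd : 100 * √ε ≤ et N)
    (w : ZMod 3) :
    EnvZ (SU u ε ω) (ly u N).M (ly u N).W (et N) √ε (oT u w N) (nT u w N) where
  path := fp hN
  e0 := et_pos N
  d0 := C.d0
  de := hd
  nM := by
    have := (n_nums hN w).2.2.1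
    omega
  inn := fun a s _ h => by
    have e0 := et_pos N
    have e1 := C.d0
    exact C.inn (RR_UU hN (by linarith) (by linarith) (by linarith) (by linarith) a h)

/-- the white strips -/
abbrev Rc (hS : GP (SU u ε ω : Set ℂ)) (w : ZMod 3) (N : ℕ) : Set (Cs hS) :=
  clR hS (RwS (et N) (ly u N).W (oT u w N) (nT u w N) (ly u N).M)

/-- **the zones** -/
def Zq (hS : GP (SU u ε ω : Set ℂ)) (hN : u.n + 4 ≤ N) (C : CorEnv u ε √ε K1 c2 ρ0 ω)
    (hd : 100 * √ε ≤ et N) (w : ZMod 3) {J : Set ℤ} (hJ : oT u w N ∈ J)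
    (hJ' : oT u w N + nT u w N - 1 ∈ J) (h₀ : Cs hS) : Zn (rc0 hS) :=
  znE hS (envZ hN C hd w) (r := rT u w N) (by have := n_nums hN w; omega)
    (by have := n_nums hN w; omega) (by have := n_nums hN w; omega) hJ hJ' h₀

section zones

variable {hS : GP (SU u ε ω : Set ℂ)} (hN : u.n + 4 ≤ N) (C : CorEnv u ε √ε K1 c2 ρ0 ω)
  (hd : 100 * √ε ≤ et N) {J : Set ℤ} (hJ : oT u w N ∈ J) (hJ' : oT u w N + nT u w N - 1 ∈ J)
  {h₀ : Cs hS}

theorem Zq_R : (Zq hS hN C hd w hJ hJ' h₀).R =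
    clR hS (RtS (et N) (ly u N).W (oT u w N) (nT u w N)) := rfl

theorem Zq_K : (Zq hS hN C hd w hJ hJ' h₀).K =
    clR hS (KS (et N) (ly u N).W (oT u w N + rT u w N)) := rfl

theorem Zq_E : (Zq hS hN C hd w hJ hJ' h₀).E =
    cmp hS (F1 (et N) √ε (ly u N).W (oT u w N + nT u w N - 1))
      (coreS' (SU u ε ω) (et N) (ly u N).W (oT u w N + nT u w N - 1)) := rfl

theorem Zq_W : (Zq hS hN C hd w hJ hJ' h₀).W =
    cmp hS (F0 (et N) √ε (ly u N).W (oT u w N))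
      (coreS' (SU u ε ω) (et N) (ly u N).W (oT u w N)) := rfl

theorem Zq_T : (Zq hS hN C hd w hJ hJ' h₀).T =
    comp (rc0 hS) (clR hS (GT (et N) √ε (ly u N).W J)) h₀ := rfl

theorem FB_sub (hN : u.n + 4 ≤ N) (C : CorEnv u ε √ε K1 c2 ρ0 ω) (hd : 100 * √ε ≤ et N) (a : ℤ) :
    FB (et N) √ε (ly u N).W a ⊆ RR (10 * et N) (52 * et N) (100 * et N) (ly u N).W a := by
  have h1 := et_pos N
  have h2 := C.d0
  exact RR_mono (by linarith) (by linarith) _ _ _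

end zones

/-! ### law -/

/-- **positive weight gives the corridor**, almost surely, all labels, all colourings -/
theorem cor_ae (Z : TData) (hN : u.n + 4 ≤ N) (hε : 0 < ε) (hP : (Z.raw N hε).AePos)
    (hd : 100 * √ε ≤ et N) : ∀ᵐ ω ∂sampleLaw, Hol (SU u ε ω : Set ℂ) (UU u) √ε →
      ∀ (hS : GP (SU u ε ω : Set ℂ)) (h3 : 3 ≤ (SU u ε ω).card) (s : Cs hS → ZMod 2) (w : ZMod 3),
        0 < gW Z u w hN hε (Xc hS h3 s) →
          CorH (Xc hS h3 s) (UU u) (ly u N).M (ly u N).W (et N) √ε (oT u w N) (nT u w N) := by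
  haveI := neM hN
  have h := LawHx765.law_corU (ly_spec hN) (mh hN) (Z.num N ε) (Z.std N hε) hP (R := Rp u)
    (R' := RU u) (P_sub u) (by have := one_le_Rp u; unfold RU; linarith) (d := √ε)
    (Real.sqrt_pos.2 hε) hd
  filter_upwards [h] with ω hω hH hS h3 s w hg
  exact hω hH hS h3 s w ((gW_pos Z hN hε ColXx829.fin_Xc).1 hg)

/-! ### the system -/

section sx

variable (Z : TData) (hN : u.n + 4 ≤ N) (hε : 0 < ε) {hS : GP (SU u ε ω : Set ℂ)}
  {h3 : 3 ≤ (SU u ε ω).card}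

/-- **`Sx` with the explicit zones** -/
theorem sxJ (C : CorEnv u ε √ε K1 c2 ρ0 ω) (hd : 100 * √ε ≤ et N)
    (hcor : ∀ s, 0 < gW Z u w hN hε (Xc hS h3 s) →
      CorH (Xc hS h3 s) (UU u) (ly u N).M (ly u N).W (et N) √ε (oT u w N) (nT u w N))
    {J : Set ℤ} (hJ : oT u w N ∈ J) (hJ' : oT u w N + nT u w N - 1 ∈ J)
    (hJr : ∀ b ∈ J, ¬ ((ly u N).M : ℤ) ∣ oT u w N + rT u w N - b ∧
      ¬ ((ly u N).M : ℤ) ∣ oT u w N + rT u w N - (b + 1)) {h₀ : Cs hS} (h0 : h₀ ∈ Hc hS) :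
    Sx w Z hN hε hS h3 h₀ (Rc hS w N) (Zq hS hN C hd w hJ hJ' h₀) := by
  obtain ⟨x, hx, hx0⟩ := id h0
  obtain ⟨n1, n2, n3, n4, n5⟩ := n_nums hN w
  have L := ly_spec hN
  have E := envZ hN C hd w
  have he := et_pos N
  have hle := et_le hN
  have hd0 := C.d0
  have hf : x ∈ OutCx571.Far ((mN u N : ℝ) * (100 * et N)) (100 * et N + 19 / 2 * et N + √ε)
      (OutPx571.F u) := by
    rw [mh hN]
    refine HTopx903.far_of (by linarith) ?_
    have r1 := one_le_Rp u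
    have r2 := C.d1
    have r3 := C.hull_far hx
    unfold RU at r3
    linarith
  have htop := HTopx903.top_S (hS := hS) (J := J) C rfl L (mh hN) hd n4 n5 hJr hx hx0
  have m1 : 3 ≤ nT u w N := by omega
  have m2 : 0 < rT u w N := by omega
  have m3 : rT u w N + 1 < nT u w N := by omega
  obtain ⟨a1, a2, a3, a4, a5, a6, a7⟩ := zall (U := UU u) (J := J) L (mh hN) hS w E
    m1 m2 m3 hJ hJ' (c0 := h₀) hx hx0 hf htop
  refine ⟨h0, a6, ?_, ?_, ?_, ?_, ?_, hcor, ?_, ?_⟩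
  · intro j σ hj hc
    refine a4 ?_
    unfold ac at hc
    rcases Finset.mem_union.1 hc with h | h
    · exact hj.1.lR h
    · exact hj.1.rR h
  · rintro c ⟨s, g1, ⟨k, -, -, g2⟩, g3⟩
    exact ⟨s, g1, ⟨_, g2⟩, innB E s g1 g2, g3⟩
  · rintro c ⟨s, g1, ⟨a, -, -, g2⟩, g3⟩
    exact ⟨s, g1, ⟨_, g2⟩, innB E s g1 g2, g3⟩
  · rintro c ⟨⟨s, g1, g2, g3⟩, -⟩
    exact ⟨s, g1, FB_sub hN C hd _ g2.1, g3⟩
  · rintro c ⟨⟨s, g1, g2, g3⟩, -⟩
    exact ⟨s, g1, FB_sub hN C hd _ g2.1, g3⟩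
  · intro s hs
    obtain ⟨p, hp, q, k, T, b1, b2, -⟩ := a7 (Xc hS h3 s) s (col_Xc hS h3 s) (hcor s hs)
    exact ⟨p, q, k, T, hp, b1, b2⟩
  · intro s hs f v hv l l1 l2
    obtain ⟨p, hp, q, k, T, b1, b2, b3⟩ := a7 (Xc hS h3 s) s (col_Xc hS h3 s) (hcor s hs)
    exact b3 hv l l1 l2

/-- the two end tiles -/
def J2 (u : Poly) (w : ZMod 3) (N : ℕ) : Set ℤ := {oT u w N, oT u w N + nT u w N - 1}

theorem J2_l : oT u w N ∈ J2 u w N := Or.inl rfl

theorem J2_r : oT u w N + nT u w N - 1 ∈ J2 u w N := Or.inr rfl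

theorem J2_off (hN : u.n + 4 ≤ N) : ∀ b ∈ J2 u w N,
    ¬ ((ly u N).M : ℤ) ∣ oT u w N + rT u w N - b ∧
      ¬ ((ly u N).M : ℤ) ∣ oT u w N + rT u w N - (b + 1) := by
  obtain ⟨n1, n2, n3, -, -⟩ := n_nums hN w
  rintro b (rfl | rfl)
  · exact ⟨HTopx903.nd (by omega) (by omega) (by omega), HTopx903.nd (by omega) (by omega) (by omega)⟩
  · exact ⟨HTopx903.nd (by omega) (by omega) (by omega), HTopx903.nd (by omega) (by omega) (by omega)⟩

/-- **the system of the out strands at a good environment** -/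
theorem sx_of (C : CorEnv u ε √ε K1 c2 ρ0 ω) (hd : 100 * √ε ≤ et N)
    (hcor : ∀ s, 0 < gW Z u w hN hε (Xc hS h3 s) →
      CorH (Xc hS h3 s) (UU u) (ly u N).M (ly u N).W (et N) √ε (oT u w N) (nT u w N)) :
    ∃ (h₀ : Cs hS), h₀ ∈ Hc hS ∧
      Sx w Z hN hε hS h3 h₀ (Rc hS w N) (Zq hS hN C hd w J2_l J2_r h₀) := by
  obtain ⟨h₀, h0, -⟩ := HullCx40.exists_h hS h3
  exact ⟨h₀, h0, sxJ Z hN hε C hd hcor J2_l J2_r (J2_off hN) h0⟩

/-- **almost surely, at every good environment** -/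
theorem sx_ae (hP : (Z.raw N hε).AePos) (hd : 100 * √ε ≤ et N) : ∀ᵐ ω ∂sampleLaw,
    ∀ (K1 c2 ρ0 : ℝ) (C : CorEnv u ε √ε K1 c2 ρ0 ω) (hS : GP (SU u ε ω : Set ℂ))
      (h3 : 3 ≤ (SU u ε ω).card) (w : ZMod 3),
      (∀ s, 0 < gW Z u w hN hε (Xc hS h3 s) →
        CorH (Xc hS h3 s) (UU u) (ly u N).M (ly u N).W (et N) √ε (oT u w N) (nT u w N)) ∧
      ∃ (h₀ : Cs hS), h₀ ∈ Hc hS ∧
        Sx w Z hN hε hS h3 h₀ (Rc hS w N) (Zq hS hN C hd w J2_l J2_r h₀) := by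
  filter_upwards [cor_ae (u := u) Z hN hε hP hd] with ω hω K1 c2 ρ0 C hS h3 w
  have hc : ∀ s, 0 < gW Z u w hN hε (Xc hS h3 s) →
      CorH (Xc hS h3 s) (UU u) (ly u N).M (ly u N).W (et N) √ε (oT u w N) (nT u w N) :=
    fun s hs => hω C.hol hS h3 s w hs
  exact ⟨hc, sx_of Z hN hε C hd hc⟩

end sx

end Crest.Agent.R143.SxZx832
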