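import Crest.Agent.R143.FinK_894
import Crest.Agent.R143.QuenJ_597
import Crest.Agent.R143.SxZ_832
import Crest.Agent.R143.PlR_930
import Crest.Agent.R143.StgI_432

/-!
# Row 143 (S0194), RIG: the data of almost every environment from two named inputs (helper597)

Template `Z = FinJx894.Z` (204's `Zt`), `h₀` a hull site, `R := Rc hS w N`, `Zz := Zq ..` (832).

* **`OneZ`** : a fact at almost every environment, with its system `X : Sx ..`; `OneZ.det` : from a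
  deterministic fact
* **`UKZ L`** : the giants `GI` at positive weight satisfy `UKR` (930; `UKin` of 923)
* **`TIZ L`** : the tiles `TileI` (228, curtain 776)
* **`env_z`** : `UKZ L → TIZ L → EnvZ` (894)
-/

set_option autoImplicit false
set_option linter.all false

noncomputable section

open scoped Classical

namespace Crest.Agent.R143.EnvZx597

open MeasureTheory Set Filter Topology
open scoped ENNReal
open Crest.ProbabilityR.Voronoi
open Crest.Agent.R143.PP0x831 Crest.Agent.R143.B0x346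
open Crest.Agent.R143.DelGx806 Crest.Agent.R143.DelRx806 Crest.Agent.R143.FinCx811
  Crest.Agent.R143.Resax778 Crest.Agent.R143.SmallAx304
open Crest.Agent.R143.Frame1x395 Crest.Agent.R143.Frame2x395 Crest.Agent.R143.Frame10x395
open Crest.Agent.R143.Finx894
open Crest.Agent.R143.PolyUx346 (Poly)
open Crest.Agent.R143.NetUx346 Crest.Agent.R143.NetVx346
open Crest.Agent.R143.IndLoc3x279 (clr)
open Crest.Agent.R143.Uniqx323 (Zn)
open Crest.Agent.R143.RcTx422 (Hc)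
open Crest.Agent.R143.RigPx854 (ly ly_spec mN mN_hN mN_mono hN hN_pos nT)
open Crest.Agent.R143.RigZdx609 (TData gW et et_pos et_h)
open Crest.Agent.R143.RigZx609 (Ev)
open Crest.Agent.R143.CorEx133 (RU UU SU CorEnv)
open Crest.Agent.R143.RigNx377
open Crest.Agent.R143.RigQx377
open Crest.Agent.R143.RigYx609 (CEs OkT)
open Crest.Agent.R143.RigXx609
open Crest.Agent.R143.OpJx894
open Crest.Agent.R143.PlRx930
open Crest.Agent.R143.QuenIx597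
open Crest.Agent.R143.SxZx832

/-- the template -/
abbrev ZT : TData := FinJx894.Z

/-- a fact `P` of one environment, at almost every environment of the list `L N`, with its system -/
def OneZ (u : Poly) (w : ZMod 3) (L : ℕ → List (ℝ × ℝ × ℝ))
    (P : ∀ (N : ℕ) (ε : ℝ) (hn : u.n + 4 ≤ N) (he : 0 < ε) (ω : Sample)
      (hS : GP (SU u ε ω : Set ℂ)) (h3 : 3 ≤ (SU u ε ω).card) (h₀ : Cs hS), Zn (rc0 hS) → Prop) :
    Prop :=
  ∀ e0 : ℝ, Ev u fun N ε hn he => NumW u 13 e0 N → NumE N ε →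
    ∀ᵐ ω ∂sampleLaw, CEs u ε (L N) ω → ∀ (C : EnvN u N ε ω) (hd : 100 * √ε ≤ et N)
      (hS : GP (SU u ε ω : Set ℂ)) (h3 : 3 ≤ (SU u ε ω).card) (h₀ : Cs hS), h₀ ∈ Hc hS →
      Sx w ZT hn he hS h3 h₀ (Rc hS w N) (Zq hS hn C hd w J2_l J2_r h₀) →
        P N ε hn he ω hS h3 h₀ (Zq hS hn C hd w J2_l J2_r h₀)

/-- from a deterministic fact at every environment -/
theorem OneZ.det {u : Poly} {w : ZMod 3} {L : ℕ → List (ℝ × ℝ × ℝ)}
    {P : ∀ (N : ℕ) (ε : ℝ) (hn : u.n + 4 ≤ N) (he : 0 < ε) (ω : Sample)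
      (hS : GP (SU u ε ω : Set ℂ)) (h3 : 3 ≤ (SU u ε ω).card) (h₀ : Cs hS), Zn (rc0 hS) → Prop}
    (h : ∀ (N : ℕ) (ε : ℝ) (hn : u.n + 4 ≤ N) (he : 0 < ε) (ω : Sample)
      (hS : GP (SU u ε ω : Set ℂ)) (h3 : 3 ≤ (SU u ε ω).card) (h₀ : Cs hS) (C : EnvN u N ε ω)
      (hd : 100 * √ε ≤ et N), 40 ≤ mN u N → u.n + 6 ≤ N → NumE N ε → ε ≤ 2 * hN N →
      100 * hN N ≤ R10Nx930.Du u K0 → CEs u ε (L N) ω → h₀ ∈ Hc hS →
      Sx w ZT hn he hS h3 h₀ (Rc hS w N) (Zq hS hn C hd w J2_l J2_r h₀) →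
        P N ε hn he ω hS h3 h₀ (Zq hS hn C hd w J2_l J2_r h₀)) : OneZ u w L P := by
  intro e0
  unfold Ev
  filter_upwards [mN_mono (u := u) 40, eventually_ge_atTop (u.n + 6)] with N hm hn6
  filter_upwards [eventually_nhdsWithin_of_eventually_nhds
    (ge_mem_nhds (mul_pos two_pos (hN_pos N)))] with ε h2 hn he hW hE
  exact Eventually.of_forall fun ω hL C hd hS h3 h₀ h0 X =>
    h N ε hn he ω hS h3 h₀ C hd hm hn6 hE h2 hW.h100 hL h0 X

/-- **(K)** : the giants -/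
def UKZ (u : Poly) (w : ZMod 3) (L : ℕ → List (ℝ × ℝ × ℝ)) : Prop :=
  OneZ u w L fun N ε hn he ω hS h3 h₀ Zz => ∀ σ ∈ (SU u ε ω).powerset,
    0 < gW ZT u w hn he (clr (SU u ε ω) σ) → UKR u w N ε ω (GI hS h3 w N h₀ (Rc hS w N) Zz σ)

/-- **(T)** : the tiles -/
def TIZ (u : Poly) (w : ZMod 3) (L : ℕ → List (ℝ × ℝ × ℝ)) : Prop :=
  OneZ u w L fun N ε hn he ω hS h3 h₀ Zz => ∀ l < nT u w N,
    TileI w ZT hn he hS h3 h₀ (Rc hS w N) Zz l

/-- the list of 894 -/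
def Lz (u : Poly) (L : ℕ → List (ℝ × ℝ × ℝ)) (N : ℕ) : List (ℝ × ℝ × ℝ) :=
  (K0, c2c u N, dU u) :: L N

theorem lz_ok {u : Poly} {L : ℕ → List (ℝ × ℝ × ℝ)} (h : ∀ᶠ N in atTop, ∀ t ∈ L N, OkT t) :
    ∀ᶠ N in atTop, ∀ t ∈ Lz u L N, OkT t := by
  filter_upwards [h] with N h t ht
  rcases List.mem_cons.1 ht with rfl | ht
  · exact ⟨K0_nonneg, c2c_pos u N, dU_pos u⟩
  · exact h t ht

theorem ces_of {u : Poly} {L : ℕ → List (ℝ × ℝ × ℝ)} {N : ℕ} {ε : ℝ} {ω : Sample}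
    (h : CEs u ε (Lz u L N) ω) : EnvN u N ε ω ∧ CEs u ε (L N) ω :=
  ⟨h _ (List.mem_cons_self ..), fun t ht => h t (List.mem_cons_of_mem _ ht)⟩

/-- mesh facts of the template -/
theorem tpl_ok (N : ℕ) : ∀ᶠ ε : ℝ in 𝓝[>] 0, 100 * √ε ≤ et N ∧ ε ≤ 2 * hN N ∧
    ∀ he : 0 < ε, (ZT.raw N he).AePos ∧
      ∫⁻ ω, (ZT.tpl N he).A (PP0x831.cfg ε ω) ∂sampleLaw ≠ 0 := by
  obtain ⟨c, hc, A, hA, h1⟩ := FinJx894.posZ
  filter_upwards [mesh100 N, h1 N, TDatx204.ae_of TQx73.tq N,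
    eventually_nhdsWithin_of_eventually_nhds (ge_mem_nhds (mul_pos two_pos (hN_pos N)))]
    with ε g1 g2 g3 g4
  refine ⟨g1, g4, fun he => ⟨g3 he, fun h => ?_⟩⟩
  have h2 := (g2 he).2
  rw [h] at h2
  exact absurd (le_zero_iff.1 h2) (ENNReal.ofReal_pos.2 hA).ne'

/-- **the data of almost every environment** -/
theorem envP_z {u : Poly} {w : ZMod 3} {L : ℕ → List (ℝ × ℝ × ℝ)} (hK : UKZ u w L)
    (hT : TIZ u w L) : EnvP ZT u w (Lz u L) (Qz ZT u w) := by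
  intro e0
  have k1 := hK e0
  have k2 := hT e0
  unfold Ev at k1 k2 ⊢
  filter_upwards [k1, k2, mN_mono (u := u) 40] with N k1 k2 hm
  filter_upwards [k1, k2, tpl_ok N] with ε k1 k2 k3 hn he hW hE
  obtain ⟨hd, hε2, k3⟩ := k3
  obtain ⟨hP, hA⟩ := k3 he
  filter_upwards [k1 hn he hW hE, k2 hn he hW hE, sx_ae (u := u) ZT hn he hP hd,
    Dbl2x609.ae_injω he] with ω k1 k2 hx hi hc
  obtain ⟨C, hL⟩ := ces_of hc
  have h3 : 3 ≤ (SU u ε ω).card := C.card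
  obtain ⟨d₀⟩ := StgIx432.exists_dart C.gpS h3
  obtain ⟨-, h₀, h0, X⟩ := hx _ _ _ C C.gpS h3 w
  have uk := k1 hL C hd C.gpS h3 h₀ h0 X
  have ti := k2 hL C hd C.gpS h3 h₀ h0 X
  exact ⟨C.gpS, h3, h₀, Rc C.gpS w N, Zq C.gpS hn C hd w J2_l J2_r h₀, d₀,
    { X := X
      uk := fun σ hσ hg => by
        obtain ⟨o, A1, B1, w', a0, a1, b0, b1, m', g1, g2, g3, g4⟩ := uk σ hσ hg
        exact ⟨o, w, A1, B1, w', a0, a1, b0, b1, m', g1, g2, g3, g4⟩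
      near := X.near C hW hE fun σ hσ hg => con377 hW hE C (uk σ hσ hg)
      q := X.q C hd hm hε2 hA hi ti d₀ }⟩

/-- **`EnvZ`** -/
theorem env_z (h : ∀ (u : Poly) (w : ZMod 3), ∃ L : ℕ → List (ℝ × ℝ × ℝ),
    (∀ᶠ N in atTop, ∀ t ∈ L N, OkT t) ∧ UKZ u w L ∧ TIZ u w L) : FinKx894.EnvZ := by
  intro u w
  obtain ⟨L, h1, h2, h3⟩ := h u w
  exact ⟨Lz u L, lz_ok h1, fun N => List.mem_cons_self .., envP_z h2 h3⟩

/-- **the row** -/
theorem leaf_z (hm : FinKx894.MomZ) (h : ∀ (u : Poly) (w : ZMod 3),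
    ∃ L : ℕ → List (ℝ × ℝ × ℝ), (∀ᶠ N in atTop, ∀ t ∈ L N, OkT t) ∧ UKZ u w L ∧ TIZ u w L) :
    Leaf894 := FinKx894.leaf_fin hm (env_z h)

end Crest.Agent.R143.EnvZx597
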