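import Crest.Agent.R143.PLL_228
import Crest.Agent.R143.BrZ_609
import Crest.Agent.R143.EnvZ_597

/-!
# Row 143 (S0194), RIG box Q2: `TileI` and the field `q` at 832's regions (helper228)

* `curI_of` : `CurI` from the literal hypothesis `hlx` of `PLKx228.hP_of` (776's `lxw`)
* **`tile_z`** : `TileI` for every tile, `R = Rc hS w N`, any zones
* **`q_z`** : the field `q` of 894's `EnvD`
* **`tiz_of`** : 597's `TIZ` from `CurI` at every environment
-/

set_option autoImplicit false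
set_option linter.unusedSectionVars false
set_option linter.style.haveILetI false

noncomputable section

open scoped Classical

namespace Crest.Agent.R143.PLMx228

open MeasureTheory
open Crest.ProbabilityR.Voronoi
open Crest.Agent.R143.B0x346 Crest.Agent.R143.DelGx806 Crest.Agent.R143.DelRx806
open Crest.Agent.R143.FinCx811 Crest.Agent.R143.Resax778 Crest.Agent.R143.SmallAx304
open Crest.Agent.R143.Frame8x395 hiding cfg
open Crest.Agent.R143.Frame10x395
open Crest.Agent.R143.PP0x831 Crest.Agent.R143.PWx978 Crest.Agent.R143.Tplx978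
open Crest.Agent.R143.Janx304 Crest.Agent.R143.Dbl2x609
open Crest.Agent.R143.PolyUx346 (Poly)
open Crest.Agent.R143.CorEx133
open Crest.Agent.R143.CorMx970 (av)
open Crest.Agent.R143.IndLoc3x279 (clr)
open Crest.Agent.R143.RcTx422 (Hc RC Hc_eq)
open Crest.Agent.R143.RigPx854 (ly ly_spec mN mN_hN mN_10 hN hN_pos nT)
open Crest.Agent.R143.RigZdx609 Crest.Agent.R143.LayUx416 Crest.Agent.R143.Layx416
open Crest.Agent.R143.TileRx228
open Crest.Agent.R143.CorrIx831 (Ft tlt Rws SDS)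
open Crest.Agent.R143.ColXx829 (Xc)
open Crest.Agent.R143.Uniqx323 (Zn)
open Crest.Agent.R143.ZnQx323 (T₁)
open Crest.Agent.R143.WndGx416 (wa wb)
open Crest.Agent.R143.QuenIx597
open Crest.Agent.R143.RigQx377 (Qz)
open Crest.Agent.R143.SxZx832 (Rc Zq J2_l J2_r)
open Crest.Agent.R143.HqPx304 Crest.Agent.R143.ColSumx304
open Crest.Agent.R143.PLJx228 Crest.Agent.R143.PLKx228 Crest.Agent.R143.PLLx228
open Crest.Agent.R143.Coarse2x166 (zs)

variable {N : ℕ} {ε : ℝ} {u : Poly} {w : ZMod 3} {Z : TData} {hN : u.n + 4 ≤ N} {hε : 0 < ε}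
  {ω : Sample} {hS : GP (SU u ε ω : Set ℂ)} {h3 : 3 ≤ (SU u ε ω).card} {h₀ : Cs hS}
  {R : Set (Cs hS)} {Zz : Zn (rc0 hS)} {K1 c2 ρ0 : ℝ}

/-- `CurI` in the form of the hypothesis `hlx` of `PLKx228.hP_of` -/
theorem curI_of (hR : R = RC hS (Rws (et N) (ly u N).W (oT u w N) (nT u w N) (ly u N).M))
    (h : ∀ s, (net Z u w hN hε).gw (uM hN) (uM hN) (Xc hS h3 s) ≠ 0 →
      ∀ p q k T, OneI w N hS h3
        (RC hS (Rws (et N) (ly u N).W (oT u w N) (nT u w N) (ly u N).M)) Zz s p q k T →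
      ∀ j < nT u w N,
        LXW hS (RC hS (Rws (et N) (ly u N).W (oT u w N) (nT u w N) (ly u N).M))
          (RC hS (T₁ (et N) (ly u N).W
            (oT u w N + wa (ly u N).A (ly u N).W (oT u w N) (nT u w N) (ly u N).M j)
            (oT u w N + wb (ly u N).A (ly u N).W (oT u w N) (nT u w N) (ly u N).M j + 1)))
          (QuYx810.Lc hS h3 ((net Z u w hN hε).reg
            (uM hN \ Iw (ly u N).M
              (oT u w N + wa (ly u N).A (ly u N).W (oT u w N) (nT u w N) (ly u N).M j - 5)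
              (oT u w N + wb (ly u N).A (ly u N).W (oT u w N) (nT u w N) (ly u N).M j + 5))
            (uM hN \ Jw (ly u N).M
              (oT u w N + wa (ly u N).A (ly u N).W (oT u w N) (nT u w N) (ly u N).M j - 5)
              (oT u w N + wb (ly u N).A (ly u N).W (oT u w N) (nT u w N) (ly u N).M j + 5))))
          s q (T (nT u w N))) :
    CurI w Z hN hε hS h3 R Zz := by
  intro s hs p q k T O j hj
  rw [hR] at O ⊢
  exact h s ((gw_pos ColXx829.fin_Xc).1 hs) p q k T O j hj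

/-- **`TileI` for every tile**, 832's white strips -/
theorem tile_z (X : Sx w Z hN hε hS h3 h₀ (Rc hS w N) Zz) (C : CorEnv u ε √ε K1 c2 ρ0 ω)
    (hd : 100 * √ε ≤ et N) (hm : 40 ≤ mN u N) (hc : CurI w Z hN hε hS h3 (Rc hS w N) Zz) :
    ∀ l < nT u w N, TileI w Z hN hε hS h3 h₀ (Rc hS w N) Zz l :=
  tileI_of X C hd hm (BrZx609.Rc_RC hN C) hc

/-- **the field `q` of `EnvD`** -/
theorem q_z (X : Sx w Z hN hε hS h3 h₀ (Rc hS w N) Zz) (C : CorEnv u ε √ε K1 c2 ρ0 ω)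
    (hd : 100 * √ε ≤ et N) (hm : 40 ≤ mN u N) (hε2 : ε ≤ 2 * RigPx854.hN N)
    (hA : ∫⁻ ω, (Z.tpl N hε).A (PP0x831.cfg ε ω) ∂sampleLaw ≠ 0)
    (hi : ∀ c, Inj ε (toPos ω) c) (hc : CurI w Z hN hε hS h3 (Rc hS w N) Zz)
    (d₀ : D0 (SU u ε ω)) :
    ∑ l ∈ Finset.range (nT u w N), av (SU u ε ω).powerset (fun σ =>
      gW Z u w hN hε (clr (SU u ε ω) σ) * av (SU u ε ω).powerset fun τ =>
        ‖WdI hS h3 w N h₀ (Rc hS w N) Zz d₀ l σ τ‖ ^ 2) ≤ Qz Z u w N ε ω :=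
  X.q C hd hm hε2 hA hi (tile_z X C hd hm hc) d₀

section env

open Crest.Agent.R143.EnvZx597 Crest.Agent.R143.RigNx377 Crest.Agent.R143.RigYx609

/-- **597's `TIZ`** -/
theorem tiz_of {u : Poly} {w : ZMod 3} {L : ℕ → List (ℝ × ℝ × ℝ)}
    (h : ∀ (N : ℕ) (ε : ℝ) (hn : u.n + 4 ≤ N) (he : 0 < ε) (ω : Sample)
      (hS : GP (SU u ε ω : Set ℂ)) (h3 : 3 ≤ (SU u ε ω).card) (h₀ : Cs hS)
      (C : EnvN u N ε ω) (hd : 100 * √ε ≤ et N), 40 ≤ mN u N → u.n + 6 ≤ N → h₀ ∈ Hc hS →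
      Sx w ZT hn he hS h3 h₀ (Rc hS w N) (Zq hS hn C hd w J2_l J2_r h₀) →
        CurI w ZT hn he hS h3 (Rc hS w N) (Zq hS hn C hd w J2_l J2_r h₀)) : TIZ u w L :=
  OneZ.det fun N ε hn he ω hS h3 h₀ C hd hm hn6 _ _ _ _ h0 X =>
    tile_z X C hd hm (h N ε hn he ω hS h3 h₀ C hd hm hn6 h0 X)

end env

end Crest.Agent.R143.PLMx228
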