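import Crest.Agent.R143.OpK_894
import Crest.Agent.R143.LocZ_776
import Crest.Agent.R143.PLM_228
import Crest.Agent.R143.EnC_927
import Crest.Agent.R143.LSd_416
import Crest.Agent.R143.SepS_697

/-!
# Row 143 (S0194), RIG: the curtain on 597's `Sx` (helper894)

* `lxw_S` : 228's `LXW` for a window, on a fixed set of sites (776's `lxw_X`)
* **`curI`** : 228's `CurI` at one environment; **`curZ : CurZ`**; **`leaf : Leaf894`**
-/

set_option autoImplicit false
set_option linter.unusedSectionVars false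

noncomputable section

open scoped Classical

namespace Crest.Agent.R143.CurUx894

open Crest.Agent.R143.B0x346 Crest.Agent.R143.DelGx806 Crest.Agent.R143.DelRx806
open Crest.Agent.R143.Frame1x395 Crest.Agent.R143.Frame2x395 Crest.Agent.R143.Frame3x395
  Crest.Agent.R143.Frame4x395 Crest.Agent.R143.Frame8x395 Crest.Agent.R143.Frame9x395
  Crest.Agent.R143.Frame10x395 Crest.Agent.R143.Frame11x395
open Crest.Agent.R143.WLocx713 Crest.Agent.R143.RingDx117 Crest.Agent.R143.TileRx228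
open Crest.Agent.R143.FinCx811 (Cs rc0 rcol cs)
open Crest.Agent.R143.RcTx422 (Hc RC Hc_eq)
open Crest.Agent.R143.CorHx713
open Crest.Agent.R143.Layx416 (Lay g al mi be nn rr jj)
open Crest.Agent.R143.LayUx416 (LayU)
open Crest.Agent.R143.PolyUx346 (Poly)
open Crest.Agent.R143.OutCx571 (Far)
open Crest.Agent.R143.Brkx478 (Bk cells)
open Crest.Agent.R143.CorrIx831 (SDS Col col_eq Rws)
open Crest.Agent.R143.LocTx776 (En)
open Crest.Agent.R143.PLKx228 (LXW)
open Crest.Agent.R143.ZnQx323 (T₁)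
open Crest.Agent.R143.WndGx416 (WdA Wd wa wb wab_lay)
open Crest.Agent.R143.RegEx523 (Kin)
open Crest.Agent.R143.Tenx416 (Pg)

section fix

variable {S : Finset ℂ} {hS : GP (S : Set ℂ)} {s : Cs hS → ZMod 2} {q : D0 S} {T : ℕ → ℕ} {N : ℕ}
  {p : ℕ → D0 S} {X : Set (ℂ × Bool)} {U : Set ℂ} {M mm : ℕ} {u : Poly} {p' W : ℤ → ℤ × ℤ}
  {A e : ℤ → ℤ} {η d : ℝ} {i : ZMod 3} {w0 : ℂ}

/-- **228's `LXW` on a fixed set of sites** -/
theorem lxw_S (L : LayU u mm M p' W A e) (hh : (mm : ℝ) * (100 * η) = u.s) (hm : 40 ≤ mm)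
    (E : En S (cells (u.U : Set Bk)) u.L mm p' M W A η d)
    (H : CorH X U M W η d (al A e i) (nn A e i)) (h3 : 3 ≤ S.card) (C : Col hS X s)
    (hp : ∀ k : ℕ, (p k).1 = (yy η W X (al A e i + k), xx η W X (al A e i + k)))
    (hT : SDS hS s η W (al A e i) (nn A e i) p q N T) (hw0 : OnHull S w0)
    (hw : w0 ∈ Far (mm * (100 * η)) (100 * η + 14 * η + d) (cells (u.U : Set Bk)))
    {l : ℕ} (hl : l < nn A e i) {Lc : Finset (Cs hS)}
    (hL : ∀ c ∈ Lc, ∃ v ∈ S, c.1 = Quot.mk (hullE S) v ∧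
      ∃ j : ℤ, al A e i + wb A W (al A e i) (nn A e i) M l + 5 ≤ j ∧
        j ≤ al A e i + wa A W (al A e i) (nn A e i) M l - 5 + M ∧
          v ∈ RR (12 * η) (52 * η) (100 * η) W j) :
    LXW hS (RC hS (Rws η W (al A e i) (nn A e i) M))
      (RC hS (T₁ η W (al A e i + wa A W (al A e i) (nn A e i) M l)
        (al A e i + wb A W (al A e i) (nn A e i) M l + 1))) Lc s q (T (nn A e i)) := by
  obtain rfl : sX X = S := C.e
  obtain rfl := col_eq H.hull h3 C
  have hpe : p = H.p := by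
    funext k
    exact Subtype.ext (hp k)
  subst hpe
  have e0 := H.e0
  obtain ⟨k1, G⟩ := SepUx697.geoU L hh H
  have e1 : 9 * η + η = 10 * η := by ring
  have wd := wab_lay L.lay (by exact_mod_cast hm) i (l := (l : ℤ)) (by omega)
    (by exact_mod_cast hl)
  refine LocZx776.lxw_X (SepSx697.sth_of_sd (Rs := RD (sX X) (CorrIx831.Rts η W (al A e i)
    (nn A e i))) (N := N) hT) E G (SepUx697.backU L H).1 ?_ (fun g => ?_) hw0 hw
    (l := (l : ℤ)) (by omega) (by exact_mod_cast hl) wd hL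
  · rw [hh, show RegSx523.K0 (100 * η) (9 * η + η) u = Kin (90 * η) u.P by
      unfold RegSx523.K0
      congr 1
      ring]
    exact le_of_eq rfl
  · rw [e1]
    exact RegSx523.K0_bot L hh (by linarith) (by linarith) g

end fix

/-! ### 597's `Sx` -/

section sx

open Crest.ProbabilityR.Voronoi
open Crest.Agent.R143.CorEx133
open Crest.Agent.R143.RigPx854 (ly ly_spec mN mN_hN hN hN_pos nT)
open Crest.Agent.R143.RigZdx609
open Crest.Agent.R143.QuenIx597
open Crest.Agent.R143.Uniqx323 (Zn)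
open Crest.Agent.R143.SxZx832 (Rc Zq)
open Crest.Agent.R143.CorrIx831 (col_Xc)
open Crest.Agent.R143.PLLx228 (CurI)

variable {Z : TData} {u : Poly} {w : ZMod 3} {N : ℕ} {ε : ℝ} {hn : u.n + 4 ≤ N} {he : 0 < ε}
  {ω : Sample} {hS : GP (SU u ε ω : Set ℂ)} {h3 : 3 ≤ (SU u ε ω).card} {h₀ : Cs hS}
  {Zz : Zn (rc0 hS)} {K1 c2 ρ0 : ℝ}

/-- **228's `CurI` at one environment** -/
theorem curI (C : CorEnv u ε √ε K1 c2 ρ0 ω) (hd : 100 * √ε ≤ et N) (hm : 40 ≤ mN u N) :
    CurI w Z hn he hS h3 (Rc hS w N) Zz := by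
  refine PLMx228.curI_of (BrZx609.Rc_RC hn C) fun s _ p q k T O j hj => ?_
  have L := ly_spec hn
  have num := Z.num N ε
  obtain ⟨w0, -, h1, h2⟩ := EnCx927.w0_of C L (mh hn) hd
  refine lxw_S (N := k) L (mh hn) hm (EnCx927.en_of C L (mh hn) hd) O.H h3 (col_Xc hS h3 s) O.hp
    O.sd h1 h2 hj fun c hc => ?_
  have hm' : (40 : ℤ) ≤ (mN u N : ℕ) := by exact_mod_cast hm
  have wd : WdA (ly u N).A (ly u N).W (oT u w N) (nT u w N) (ly u N).M (j : ℤ)
      (wa (ly u N).A (ly u N).W (oT u w N) (nT u w N) (ly u N).M j)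
      (wb (ly u N).A (ly u N).W (oT u w N) (nT u w N) (ly u N).M j) :=
    wab_lay L.lay hm' w (l := (j : ℤ)) (by omega) (by exact_mod_cast hj)
  have hr := wd.room
  have hb := wd.lb
  have ha := wd.al
  obtain ⟨v, v1, v2, i, i1, i2, v3⟩ := LSdx416.lc_site (fp hn) (Z.std N he) w (uM hn) (uM hn)
    (by have := L.lay.M_pos; omega) (by omega) hc
  rw [num.A', num.B', num.h] at v3
  have k1 : oT u w N + wb (ly u N).A (ly u N).W (oT u w N) (nT u w N) (ly u N).M j + 5 ≤ i := by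
    omega
  have k2 : i ≤ oT u w N + wa (ly u N).A (ly u N).W (oT u w N) (nT u w N) (ly u N).M j - 5 +
      (ly u N).M := by
    omega
  exact ⟨v, v1, v2, i, k1, k2, v3⟩

/-- **the curtain** -/
theorem curZ : OpKx894.CurZ := by
  intro u w
  refine Filter.Eventually.of_forall fun N => Filter.Eventually.of_forall fun ε hn he => ?_
  exact Filter.Eventually.of_forall fun ω C hd hm _ hS h3 h₀ _ => curI C hd hm

/-- **the row** -/
theorem leaf : Finx894.Leaf894 := OpKx894.leaf_cur curZ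

end sx

end Crest.Agent.R143.CurUx894
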