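import Crest.Agent.R143.CurH_496
import Crest.Agent.R143.CurV_66
import Crest.Agent.R143.CurK_643
import Crest.Agent.R143.EnC_927

/-!
# Row 143 (S0194), LOCX: the whole closed curtain from the two vertical chains (helper927)

Composition of 496's `curtain`, 66's `vf`, 643's `vk`, `vk_K0` and 927's `en_of`, `w0_of`.
* **`cur_all`** : from `VCh` at both separators and a far site `w0`: the structure `Cur` and the
  properties of the sites of `VF` and `VK` which are needed for `Ok`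
* **`cur_env`** : the same at a good environment of a polygon, `w0` on the hull
-/

set_option autoImplicit false
set_option linter.unusedVariables false

noncomputable section

open scoped Classical

namespace Crest.Agent.R143.CurZx927

open Set
open Crest.ProbabilityR.Voronoi
open Crest.Agent.R158.Sp896
open Crest.Agent.R143.B0x346
open Crest.Agent.R143.Tenx416 (Pg)
open Crest.Agent.R143.OutCx571 Crest.Agent.R143.TileRx228
open Crest.Agent.R143.Neckx921 (Lk)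
open Crest.Agent.R143.PolyUx346 Crest.Agent.R143.LayUx416
open Crest.Agent.R143.CorEx133
open Crest.Agent.R143.Brkx478 (Bk cells)
open Crest.Agent.R143.Frame10x395 (OnHull)
open Crest.Agent.R143.LocDx776 (Cur)
open Crest.Agent.R143.LocTx776 (Wn Off Strg En VCh)
open Crest.Agent.R143.RegEx523 (Kin)
open Crest.Agent.R143.CurHx496 (Sg sg_strg)
open Crest.Agent.R143.CurGx496 (Ci Co)

variable {S : Finset ℂ} {F : Set V} {n m M : ℕ} {p W : ℤ → V} {A : ℤ → ℤ} {η d : ℝ}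
  {gL gR : ℤ} {VR VL : Set ℂ} {aR bR aL bL w0 : ℂ}

/-- **the closed curtain from the two vertical chains** -/
theorem cur_all (E : En S F n m p M W A η d) (sL : Sg A gL) (sR : Sg A gR) (g1 : gL + 6 ≤ gR)
    (g2 : gR + 6 ≤ gL + M) (cR : VCh S η W gR VR aR bR) (cL : VCh S η W gL VL aL bL)
    (hw0 : w0 ∈ S) (hf : w0 ∈ Far (m * (100 * η)) (100 * η + 14 * η + d) F) :
    ∃ VF VK : Set ℂ, Cur S (gz (100 * η) W gR) (ge W gR) (-(3 * (100 * η) / 2))
        (3 * (100 * η) / 2) VR VF VL VK (Ci (13 * η) (54 * η) (100 * η) W gL gR)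
        (Co (13 * η) (54 * η) (100 * η) W M gL gR) aR bR bL aL ∧
      (∀ v ∈ VF, v ∈ S ∧ Lk S (Off S (19 / 2 * η) (103 / 2 * η) (100 * η) W) w0 v) ∧
      ∀ v ∈ VK, v ∈ S ∧ (v ∈ Kin (90 * η) (Pg (m * (100 * η)) F) ∨
        v ∈ Wn η W gR (2 * η) (-(10 * η)) (-(9 * η)) ∨
        v ∈ Wn η W gL (2 * η) (-(10 * η)) (-(9 * η))) := by
  obtain ⟨VF, f1, f2⟩ := CurVx66.vf E (sg_strg sR) (sg_strg sL) (cR.sub _ cR.lk.1.2)
    (cL.sub _ cL.lk.1.2) hw0 cR.t1 cL.t1 hf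
  obtain ⟨VK, k1, k2⟩ := CurKx643.vk E sR sL (cR.sub _ cR.lk.1.1) (cL.sub _ cL.lk.1.1) cR.s1 cL.s1
  refine ⟨VF, VK, CurHx496.curtain E sL sR g1 g2 cR cL f1 (fun v hv => (f2 v hv).2.1) k1
    (fun v hv => (k2 v hv).2), fun v hv => ⟨(f2 v hv).1, (f2 v hv).2.2⟩, fun v hv =>
    ⟨(k2 v hv).1, CurKx643.vk_K0 E sR sL (k2 v hv).2⟩⟩

/-- **the closed curtain at a good environment of a polygon** -/
theorem cur_env {u : Poly} {e : ℤ → ℤ} {ε K1 c2 ρ0 : ℝ} {ω : Sample}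
    (C : CorEnv u ε d K1 c2 ρ0 ω) (H : LayU u m M p W A e) (hh : (m : ℝ) * (100 * η) = u.s)
    (hd : 100 * d ≤ η) (hS : S = SU u ε ω) (sL : Sg A gL) (sR : Sg A gR) (g1 : gL + 6 ≤ gR)
    (g2 : gR + 6 ≤ gL + M) (cR : VCh S η W gR VR aR bR) (cL : VCh S η W gL VL aL bL) :
    ∃ w0 ∈ S, OnHull S w0 ∧ ∃ VF VK : Set ℂ, Cur S (gz (100 * η) W gR) (ge W gR)
        (-(3 * (100 * η) / 2)) (3 * (100 * η) / 2) VR VF VL VK
        (Ci (13 * η) (54 * η) (100 * η) W gL gR) (Co (13 * η) (54 * η) (100 * η) W M gL gR)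
        aR bR bL aL ∧
      (∀ v ∈ VF, v ∈ S ∧ Lk S (Off S (19 / 2 * η) (103 / 2 * η) (100 * η) W) w0 v) ∧
      ∀ v ∈ VK, v ∈ S ∧ (v ∈ Kin (90 * η) (Pg (m * (100 * η)) (cells (u.U : Set Bk))) ∨
        v ∈ Wn η W gR (2 * η) (-(10 * η)) (-(9 * η)) ∨
        v ∈ Wn η W gL (2 * η) (-(10 * η)) (-(9 * η))) := by
  obtain ⟨w0, h1, h2, h3⟩ := EnCx927.w0_S C H hh hd hS
  obtain ⟨VF, VK, h4, h5, h6⟩ := cur_all (EnCx927.en_S C H hh hd hS) sL sR g1 g2 cR cL h1 h3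
  exact ⟨w0, h1, h2, VF, VK, h4, h5, h6⟩

end Crest.Agent.R143.CurZx927
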