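import Crest.Agent.R143.Hit_848
import Crest.Agent.R143.Crs4_117
import Crest.Agent.R143.K33D_877
import Crest.Agent.R143.Har_315

/-!
# Row 143 (S0194), CONT, leaf K5: the end point formula in fair colourings (helper54)

`N` a network with pairwise disjoint sides (`Dj N`) and inner sites `In` (`Free S N In` of 117).
* `sA S N i` = the sites of the side `i`; `tr_of` : `Tr S (sA S N)` (877); `fr_eq` : free sites = `In`
* `JT N i T` = the join of the colouring "black = `T` and the side `i + 1`"; `EE_eq` : these are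
  exactly 848's joins `EE N i`, one for every `T ⊆ In`
* `yv N i T` = first touched vertex of the side `i`; `hit_yv` : it is 877's `Hit`
* `TT_static` : **`TT N z = 3 ∑ i, om ^ i * E_T [z (yv N i T)]`**, `T` uniform in `In`
* `relAt_all`, `pairs_of` : the hypotheses of 848's theorems
-/

set_option autoImplicit false
set_option linter.all false

noncomputable section

open scoped Classical

namespace Crest.Agent.R143.HitLx54

open Crest.Agent.R143.B0x346 Crest.Agent.R143.Oscx63 Crest.Agent.R143.Sidesx697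
open Crest.Agent.R143.J1x872 (cases_z3 Good)
open Crest.Agent.R143.Bsumx848 Crest.Agent.R143.Massx848 Crest.Agent.R143.Hitx848
open Crest.Agent.R143.DelRx806 Crest.Agent.R143.JCardx872
open Crest.Agent.R143.J4x872 (sPath sPath_spec Fol Turn Stopped)
open Crest.Agent.R143.JWalkx872 (Term rotInv_empty rotInv_rots)
open Crest.Agent.R143.K33x877 Crest.Agent.R143.JColx54
open Crest.Agent.R143.JCol2x54 (colJ colJ_isJoin mem_joins_iff col_unique colJ_congr colJ_not
  isCol_not)

variable {S In : Finset ℂ} {N : Net ℂ}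

/-- the sides are disjoint -/
def Dj (N : Net ℂ) : Prop := ∀ i j v, Side N i v → Side N j v → i = j

/-- the sites of the side `i` -/
def sA (S : Finset ℂ) (N : Net ℂ) (i : ZMod 3) : Set ℂ := {v | Side N i v}

theorem side_self (N : Net ℂ) (i : ZMod 3) : Side N i (N.ex i).2 := Relation.ReflTransGen.refl

theorem hull_mem {a b : ℂ} (h : hullE S a b) : a ∈ S ∧ b ∈ S := by
  have h1 : Adj S a b := Or.inl h.1
  exact h1.mem

theorem side_mem (h : HNet S N) {i : ZMod 3} {v : ℂ} (hv : Side N i v) : v ∈ S := by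
  induction hv with
  | refl => exact (hull_mem (h.hex i)).2
  | tail _ hw _ => exact (adj_of_E h hw.1).mem.2

theorem z3c' : ∀ i k : ZMod 3, k = i ∨ k = i + 1 ∨ k = i + 2 := by decide

theorem z3x : ∀ i : ZMod 3, i + 1 ≠ i ∧ i + 2 ≠ i ∧ i + 1 ≠ i + 2 ∧ i ≠ i + 1 ∧ i ≠ i + 2 ∧
    i + 2 ≠ i + 1 ∧ i + 1 + 1 = i + 2 ∧ i + 2 + 1 = i ∧ i + 1 + 2 = i := by decide

/-- the first vertex of the mark `i + 1` is on the side `i` -/
theorem side_next (h : HNet S N) (i : ZMod 3) : Side N i (N.ex (i + 1)).1 := (marks3_of h).next i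

theorem nkl (h : HNet S N) {a b : ℂ} (hk : (a, b) ∈ N.kl) : (a, b) ∉ N.exS ∧ (b, a) ∉ N.exS := by
  constructor
  · rintro ⟨k, h1⟩; exact h.live k (h1 ▸ hk)
  · rintro ⟨k, h1⟩; exact h.live k (h1 ▸ N.klsym _ _ hk)

theorem wall_kl (h : HNet S N) {a b : ℂ} (hab : Adj S a b) (hk : (a, b) ∈ N.kl) : Wall N a b :=
  ⟨(JCol2x54.mem_E h.tri).2 hab, (nkl h hk).1, (nkl h hk).2, Or.inl hk⟩

theorem side_wall {i : ZMod 3} {a b : ℂ} (hw : Wall N a b) : Side N i a ↔ Side N i b :=
  ⟨fun h => h.tail hw, fun h => h.tail (wall_symm hw)⟩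

/-- the colouring: `T` and the side `i + 1` black -/
def sig (N : Net ℂ) (i : ZMod 3) (T : Finset ℂ) (s : ℂ) : Bool := decide (s ∈ T ∨ Side N (i + 1) s)

theorem sig_true {i : ZMod 3} {T : Finset ℂ} {s : ℂ} :
    sig N i T s = true ↔ (s ∈ T ∨ Side N (i + 1) s) := by
  unfold sig; simp

theorem sig_false {i : ZMod 3} {T : Finset ℂ} {s : ℂ} :
    sig N i T s = false ↔ (s ∉ T ∧ ¬ Side N (i + 1) s) := by
  unfold sig; simp

theorem col_sig (h : HNet S N) (hd : Dj N) (i : ZMod 3) {T : Finset ℂ}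
    (hT1 : ∀ a ∈ T, ∀ b, Adj S a b → (a, b) ∉ N.kl)
    (hT2 : ∀ a ∈ T, ∀ b, ¬ hullE S a b ∧ ¬ hullE S b a) :
    JCol2x54.IsCol S N.kl (Di N i) (sig N i T) := by
  have nT : ∀ a b, hullE S a b → a ∉ T ∧ b ∉ T := fun a b hab =>
    ⟨fun h' => (hT2 a h' b).1 hab, fun h' => (hT2 b h' a).2 hab⟩
  refine ⟨?_, ?_, ?_⟩
  · intro a b hab hk _ _
    have h1 : a ∉ T := fun h' => hT1 a h' b hab hk
    have h2 : b ∉ T := fun h' => hT1 b h' a hab.symm (N.klsym _ _ hk)
    have h3 : Side N (i + 1) a ↔ Side N (i + 1) b := side_wall (wall_kl h hab hk)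
    unfold sig
    simp only [h1, h2, false_or, h3]
  · intro a b hab hD
    obtain ⟨h1, h2⟩ := nT a b hab
    by_cases hm : (a, b) ∈ N.exS
    · have hi : (a, b) = N.ex i := by
        by_contra hne
        exact hD ⟨hm, hne⟩
      have h3 : Side N (i + 2) a := by
        have := side_next h (i + 2)
        rw [(z3x i).2.2.2.2.2.2.2.1, ← hi] at this
        exact this
      have h4 : Side N i b := by
        have := side_self N i
        rw [← hi] at this
        exact this
      have h5 : ¬ Side N (i + 1) a := fun h' => (z3x i).2.2.1 (hd _ _ _ h' h3)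
      have h6 : ¬ Side N (i + 1) b := fun h' => (z3x i).1 (hd _ _ _ h' h4)
      rw [sig_false.2 ⟨h1, h5⟩, sig_false.2 ⟨h2, h6⟩]
    · have h3 : Side N (i + 1) a ↔ Side N (i + 1) b := side_wall (wall_hull h hab hm)
      unfold sig
      simp only [h1, h2, false_or, h3]
  · rintro a b ⟨⟨k, hk⟩, hki⟩
    have hki' : k ≠ i := by rintro rfl; exact hki hk.symm
    have hab : hullE S a b := by
      have := h.hex k
      rw [hk] at this
      exact this
    obtain ⟨h1, h2⟩ := nT a b hab
    rcases z3c' i k with rfl | rfl | rfl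
    · exact absurd rfl hki'
    · have h3 : Side N i a := by
        have := side_next h i
        rw [hk] at this
        exact this
      have h4 : Side N (i + 1) b := by
        have := side_self N (i + 1)
        rw [hk] at this
        exact this
      rw [sig_false.2 ⟨h1, fun h' => (z3x i).1 (hd _ _ _ h' h3)⟩, sig_true.2 (Or.inr h4)]
      decide
    · have h3 : Side N (i + 1) a := by
        have := side_next h (i + 1)
        rw [(z3x i).2.2.2.2.2.2.1, hk] at this
        exact this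
      have h4 : Side N (i + 2) b := by
        have := side_self N (i + 2)
        rw [hk] at this
        exact this
      rw [sig_false.2 ⟨h2, fun h' => (z3x i).2.2.1 (hd _ _ _ h' h4)⟩, sig_true.2 (Or.inr h3)]
      decide

theorem Di_hull (h : HNet S N) (i : ZMod 3) (a b : ℂ) (hab : (a, b) ∈ Di N i) : hullE S a b := by
  obtain ⟨⟨k, hk⟩, -⟩ := hab
  have := h.hex k
  rw [hk] at this
  exact this

/-- the join of the colouring -/
def JT (N : Net ℂ) (i : ZMod 3) (T : Finset ℂ) : Finset (ℂ × ℂ) := colJ N.toTrg (Di N i) (sig N i T)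

theorem JT_mem (h : HNet S N) {i : ZMod 3} {T : Finset ℂ} {a b : ℂ} :
    (a, b) ∈ JT N i T ↔ Adj S a b ∧ sig N i T a ≠ sig N i T b ∧ (b, a) ∉ Di N i :=
  Crsx117.mem_colJ' h.tri

theorem JT_EE' (h : HNet S N) (hd : Dj N) (i : ZMod 3) {T : Finset ℂ}
    (hT1 : ∀ a ∈ T, ∀ b, Adj S a b → (a, b) ∉ N.kl)
    (hT2 : ∀ a ∈ T, ∀ b, ¬ hullE S a b ∧ ¬ hullE S b a) : JT N i T ∈ EE N i :=
  mem_joins.2 (colJ_isJoin h.gp h.tri (Di_hull h i) N.klsym (col_sig h hd i hT1 hT2))

theorem pairs_of (h : HNet S N) (hd : Dj N) : Pairs N := fun m =>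
  ⟨_, mem_joins.1 (JT_EE' h hd m (T := ∅) (by simp) (by simp))⟩

theorem free1 (F : Crsx117.Free S N In) {T : Finset ℂ} (hT : T ⊆ In) :
    ∀ a ∈ T, ∀ b, Adj S a b → (a, b) ∉ N.kl := fun a ha b hab => F.live a (hT ha) b hab

theorem free2 (F : Crsx117.Free S N In) {T : Finset ℂ} (hT : T ⊆ In) :
    ∀ a ∈ T, ∀ b, ¬ hullE S a b ∧ ¬ hullE S b a := fun a ha b => F.nh a (hT ha) b

theorem JT_EE (h : HNet S N) (hd : Dj N) (F : Crsx117.Free S N In) (i : ZMod 3) {T : Finset ℂ}
    (hT : T ⊆ In) : JT N i T ∈ EE N i := JT_EE' h hd i (free1 F hT) (free2 F hT)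

/-- an inner site is on no side -/
theorem inn_not_side (h : HNet S N) (F : Crsx117.Free S N In) {v : ℂ} (hv : v ∈ In) (i : ZMod 3) :
    ¬ Side N i v := by
  intro hs
  rcases Relation.ReflTransGen.cases_tail hs with h1 | ⟨u, -, h1⟩
  · have h2 := h.hex i
    exact (F.nh v hv (N.ex i).1).2 (by rw [h1]; exact h2)
  · have h2 := adj_of_E h h1.1
    obtain ⟨-, h4, h5, h3⟩ := h1
    rcases h3 with h3 | h3 | h3
    · exact F.live v hv u h2.symm (N.klsym _ _ h3)
    · rw [h.tri] at h3
      rcases h2 with h2 | ⟨c, h2⟩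
      · exact (F.nh v hv u).2 ⟨h2, h3⟩
      · exact h3 c h2
    · rw [h.tri] at h3
      rcases h2 with ⟨c, h2⟩ | h2
      · exact h3 c h2
      · exact (F.nh v hv u).1 ⟨h2, h3⟩

theorem fr_eq (h : HNet S N) (F : Crsx117.Free S N In) : fr S (sA S N) = (In : Set ℂ) := by
  ext v
  constructor
  · rintro ⟨h1, h2⟩
    by_contra h3
    obtain ⟨i, hi⟩ := F.out v h1 h3
    exact h2 i hi
  · intro hv
    exact ⟨F.sub hv, fun i hi => inn_not_side h F hv i hi⟩

/-! ### the joins of two marks are the colourings of the inner sites -/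

theorem JT_inj (h : HNet S N) (F : Crsx117.Free S N In) (i : ZMod 3) {T T' : Finset ℂ}
    (hT : T ⊆ In) (hT' : T' ⊆ In) (he : JT N i T = JT N i T') : T = T' := by
  have key : ∀ a b, Adj S a b → (sig N i T a ≠ sig N i T b ↔ sig N i T' a ≠ sig N i T' b) := by
    intro a b hab
    by_cases hD : (b, a) ∈ Di N i
    · have hD' : (a, b) ∉ Di N i := by
        intro h'
        obtain ⟨⟨c, hc⟩, -⟩ := Di_hull h i _ _ h'
        exact (Di_hull h i _ _ hD).2 c hc
      have h1 := JT_mem h (i := i) (T := T) (a := b) (b := a)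
      have h2 := JT_mem h (i := i) (T := T') (a := b) (b := a)
      rw [he, h2] at h1
      have := hab.symm
      tauto
    · have h1 := JT_mem h (i := i) (T := T) (a := a) (b := b)
      have h2 := JT_mem h (i := i) (T := T') (a := a) (b := b)
      rw [he, h2] at h1
      tauto
  have e1 : ∀ T : Finset ℂ, sig N i T (N.ex (i + 1)).2 = true := fun T =>
    sig_true.2 (Or.inr (side_self N (i + 1)))
  have hm : (N.ex (i + 1)).2 ∈ S := (hull_mem (h.hex (i + 1))).2
  have hs : ∀ s ∈ S, sig N i T s = sig N i T' s := by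
    rcases col_unique h.gp (card3 h) key with h1 | h1
    · exact h1
    · have := h1 _ hm
      rw [e1, e1] at this
      simp at this
  have h2 : ∀ {T : Finset ℂ} {s : ℂ}, s ∈ In → (s ∈ T ↔ sig N i T s = true) := by
    intro T s hsI
    rw [sig_true]
    have := inn_not_side h F hsI (i + 1)
    tauto
  ext s
  constructor
  · intro h3
    have h4 := hT h3
    rw [h2 h4, ← hs s (F.sub h4), ← h2 h4]
    exact h3
  · intro h3
    have h4 := hT' h3
    rw [h2 h4, hs s (F.sub h4), ← h2 h4]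
    exact h3

theorem JT_surj (h : HNet S N) (hd : Dj N) (F : Crsx117.Free S N In) (i : ZMod 3)
    {J : Finset (ℂ × ℂ)} (hJ : J ∈ EE N i) : ∃ T, T ⊆ In ∧ JT N i T = J := by
  -- a colouring with the side `i + 1` black
  obtain ⟨σ, hσ, hJσ, hσ1⟩ : ∃ σ : ℂ → Bool, JCol2x54.IsCol S N.kl (Di N i) σ ∧
      J = colJ N.toTrg (Di N i) σ ∧ σ (N.ex (i + 1)).2 = true := by
    obtain ⟨σ, hσ, hJσ⟩ := (mem_joins_iff h.gp h.tri (Di_hull h i) N.klsym).1 hJ
    cases hc : σ (N.ex (i + 1)).2
    · exact ⟨fun s => !σ s, isCol_not hσ, by rw [colJ_not]; exact hJσ, by simp [hc]⟩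
    · exact ⟨σ, hσ, hJσ, hc⟩
  have wall : ∀ u v, Wall N u v → σ u = σ v := by
    intro u v hw
    have hadj := adj_of_E h hw.1
    obtain ⟨h1, h2, h3, h4⟩ := hw
    rcases h4 with h4 | h4 | h4
    · exact hσ.kill u v hadj h4 (fun h' => h2 h'.1) (fun h' => h3 h'.1)
    · rw [h.tri] at h4
      rcases hadj with h5 | ⟨c, h5⟩
      · exact hσ.hull u v ⟨h5, h4⟩ (fun h' => h2 h'.1)
      · exact absurd h5 (h4 c)
    · rw [h.tri] at h4
      rcases hadj with ⟨c, h5⟩ | h5
      · exact absurd h5 (h4 c)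
      · exact (hσ.hull v u ⟨h5, h4⟩ (fun h' => h3 h'.1)).symm
  have side : ∀ j v, Side N j v → σ v = σ (N.ex j).2 := by
    intro j v hv
    induction hv with
    | refl => rfl
    | tail _ hw ih => rw [← wall _ _ hw, ih]
  have hg := J1x872.good_of_hnet h
  have m1 := hσ.mark _ _ (mem_Di hg (z3x i).1 : ((N.ex (i + 1)).1, (N.ex (i + 1)).2) ∈ Di N i)
  have m2 := hσ.mark _ _ (mem_Di hg (z3x i).2.1 : ((N.ex (i + 2)).1, (N.ex (i + 2)).2) ∈ Di N i)
  have s0 : σ (N.ex i).2 = false := by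
    rw [side i _ (side_next h i), hσ1] at m1
    revert m1
    generalize σ (N.ex i).2 = x
    revert x; decide
  have s2 : σ (N.ex (i + 2)).2 = false := by
    have h5 := side_next h (i + 1)
    rw [(z3x i).2.2.2.2.2.2.1] at h5
    rw [side (i + 1) _ h5, hσ1] at m2
    revert m2
    generalize σ (N.ex (i + 2)).2 = x
    revert x; decide
  refine ⟨In.filter fun s => σ s = true, Finset.filter_subset _ _, ?_⟩
  rw [hJσ]
  refine colJ_congr h.tri fun s hs => ?_
  by_cases hsI : s ∈ In
  · have h1 := inn_not_side h F hsI (i + 1)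
    unfold sig
    simp only [Finset.mem_filter, hsI, true_and, h1, or_false]
    generalize σ s = x
    revert x; decide
  · obtain ⟨j, hj⟩ := F.out s hs hsI
    rw [side j s hj]
    rcases z3c' i j with rfl | rfl | rfl
    · rw [s0, sig_false]
      exact ⟨by simp [hsI], fun h' => (z3x j).1 (hd _ _ _ h' hj)⟩
    · rw [hσ1, sig_true]
      exact Or.inr hj
    · rw [s2, sig_false]
      exact ⟨by simp [hsI], fun h' => (z3x i).2.2.1 (hd _ _ _ h' hj)⟩

/-- **848's joins are the colourings of the inner sites** -/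
theorem EE_eq (h : HNet S N) (hd : Dj N) (F : Crsx117.Free S N In) (i : ZMod 3) :
    EE N i = In.powerset.image (JT N i) := by
  ext J
  rw [Finset.mem_image]
  constructor
  · intro hJ
    obtain ⟨T, hT, e⟩ := JT_surj h hd F i hJ
    exact ⟨T, Finset.mem_powerset.2 hT, e⟩
  · rintro ⟨T, hT, rfl⟩
    exact JT_EE h hd F i (Finset.mem_powerset.1 hT)

theorem sum_EE (h : HNet S N) (hd : Dj N) (F : Crsx117.Free S N In) (i : ZMod 3)
    {M : Type} [AddCommMonoid M] (f : Finset (ℂ × ℂ) → M) :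
    ∑ J ∈ EE N i, f J = ∑ T ∈ In.powerset, f (JT N i T) := by
  rw [EE_eq h hd F i, Finset.sum_image]
  intro T hT T' hT' he
  exact JT_inj h F i (Finset.mem_powerset.1 hT) (Finset.mem_powerset.1 hT') he

theorem card_EE2 (h : HNet S N) (hd : Dj N) (F : Crsx117.Free S N In) (i : ZMod 3) :
    (EE N i).card = 2 ^ In.card := by
  rw [Finset.card_eq_sum_ones, sum_EE h hd F i, ← Finset.card_eq_sum_ones, Finset.card_powerset]

/-! ### the first touched vertex is the hit -/

/-- the first touched vertex of the side `i`, black = `T` -/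
def yv (N : Net ℂ) (i : ZMod 3) (T : Finset ℂ) : ℂ := tch N i (JT N i T)

theorem adj3 (h : HNet S N) {a b c : ℂ} (ht : (a, b, c) ∈ N.T) : Adj S a b ∧ Adj S b c ∧ Adj S c a := by
  rw [h.tri] at ht
  exact ⟨adj_tri ht, adj_tri' h.gp ht, adj_tri'' h.gp ht⟩

theorem sig_clu (h : HNet S N) (hd : Dj N) (F : Crsx117.Free S N In) {i : ZMod 3} {T : Finset ℂ}
    (hT : T ⊆ In) {s : ℂ} (hs : s ∈ Clu S (fr S (sA S N) ∩ (T : Set ℂ)) (sA S N (i + 1))) :
    sig N i T s = true := by
  obtain ⟨x, -, hp⟩ := hs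
  rw [sig_true]
  rcases hp.snd with h1 | h1
  · exact Or.inl h1.2
  · exact Or.inr h1

theorem sig_clu' (h : HNet S N) (hd : Dj N) (F : Crsx117.Free S N In) {i : ZMod 3} {T : Finset ℂ}
    (hT : T ⊆ In) {s : ℂ} (hs : s ∈ Clu S (fr S (sA S N) \ (T : Set ℂ)) (sA S N (i + 2))) :
    sig N i T s = false := by
  obtain ⟨x, -, hp⟩ := hs
  rw [sig_false]
  rcases hp.snd with h1 | h1
  · exact ⟨h1.2, h1.1.2 (i + 1)⟩
  · refine ⟨fun h2 => inn_not_side h F (hT h2) _ h1, fun h2 => (z3x i).2.2.1 (hd _ _ _ h2 h1)⟩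

theorem clu_self {V B : Set ℂ} {x : ℂ} (hx : x ∈ B) : x ∈ Clu S V B :=
  ⟨x, hx, RE0x723.Pth.refl (Or.inr hx)⟩

theorem clu_step {V B : Set ℂ} {x y : ℂ} (hx : x ∈ Clu S V B) (h : Adj S x y) (hy : y ∈ V ∪ B) :
    y ∈ Clu S V B := by
  obtain ⟨u, hu, hp⟩ := hx
  exact ⟨u, hu, hp.tail h hy⟩

/-- along the stopped leg: black cluster at the left, white cluster at the right -/
theorem fol_clu (h : HNet S N) (hd : Dj N) (F : Crsx117.Free S N In) {i : ZMod 3} {T : Finset ℂ}
    (hT : T ⊆ In) : ∀ (L : List ((ℂ × ℂ) × (ℂ × ℂ))) (p q : ℂ × ℂ),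
    Fol N.toTrg ∅ (Di N i) (JT N i T) p L q → (∀ a ∈ L, ¬ stp N i a.1) →
    p.1 ∈ Clu S (fr S (sA S N) ∩ (T : Set ℂ)) (sA S N (i + 1)) →
    p.2 ∈ Clu S (fr S (sA S N) \ (T : Set ℂ)) (sA S N (i + 2)) →
    q.1 ∈ Clu S (fr S (sA S N) ∩ (T : Set ℂ)) (sA S N (i + 1)) ∧
    q.2 ∈ Clu S (fr S (sA S N) \ (T : Set ℂ)) (sA S N (i + 2)) := by
  intro L
  induction L with
  | nil =>
    intro p q hf _ h1 h2
    change p = q at hf
    subst hf
    exact ⟨h1, h2⟩
  | cons a L ih =>
    rintro p q ⟨ha, m, -, ⟨c, hc, -, hnD, hm⟩, hf⟩ hL h1 h2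
    have hns : ¬ Side N i c := fun hs => hL a (List.mem_cons_self ..) ⟨c, by rw [ha]; exact hc, hs⟩
    obtain ⟨a1, a2, a3⟩ := adj3 h hc
    have hcS : c ∈ S := a2.mem.2
    have hc3 : c ∈ In ∨ Side N (i + 1) c ∨ Side N (i + 2) c := by
      by_cases hcI : c ∈ In
      · exact Or.inl hcI
      · obtain ⟨j, hj⟩ := F.out c hcS hcI
        rcases z3c' i j with rfl | rfl | rfl
        · exact absurd hj hns
        · exact Or.inr (Or.inl hj)
        · exact Or.inr (Or.inr hj)
    have hfr : c ∈ In → c ∈ fr S (sA S N) := fun hcI => by rw [fr_eq h F]; exact hcI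
    have s1 := sig_clu h hd F hT h1
    have s2 := sig_clu' h hd F hT h2
    have hL' : ∀ b ∈ L, ¬ stp N i b.1 := fun b hb => hL b (List.mem_cons_of_mem _ hb)
    rcases hm with ⟨hm, rfl⟩ | ⟨hm, -, rfl⟩
    · -- the new left site is black
      have h3 := ((JT_mem h).1 hm).2.1
      rw [s2] at h3
      have h4 : sig N i T c = true := by
        revert h3
        generalize sig N i T c = x
        revert x; decide
      rw [sig_true] at h4
      refine ih _ q hf hL' ?_ h2
      rcases h4 with h4 | h4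
      · exact clu_step h1 a3.symm (Or.inl ⟨hfr (hT h4), h4⟩)
      · exact clu_self h4
    · -- the new right site is white
      have h3 := ((JT_mem h).1 hm).2.1
      rw [s1] at h3
      have h4 : sig N i T c = false := by
        revert h3
        generalize sig N i T c = x
        revert x; decide
      rw [sig_false] at h4
      refine ih _ q hf hL' h1 ?_
      rcases hc3 with h5 | h5 | h5
      · exact clu_step h2 a2 (Or.inl ⟨hfr h5, h4.1⟩)
      · exact absurd h5 h4.2
      · exact clu_self h5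

/-- **the first touched vertex is the hit** -/
theorem hit_yv (h : HNet S N) (hd : Dj N) (F : Crsx117.Free S N In) {i : ZMod 3} {T : Finset ℂ}
    (hT : T ⊆ In) : ∃ b w, Hit S (sA S N) (i + 1) (i + 2) i (T : Set ℂ) b w (yv N i T) := by
  have hg := J1x872.good_of_hnet h
  have hpr := pairs_of h hd
  have hJ := JT_EE h hd F i hT
  have hJ' : IsJoin N.toTrg N.kl ∅ (Di N i) (JT N i T) := mem_joins.1 hJ
  have hp : N.ex (i + 2) ∈ Di N i := mem_Di hg (z3x i).2.1
  obtain ⟨h1, h2, -⟩ := sPath_spec hJ' rotInv_empty hp (stp N i)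
  obtain ⟨h4, h5⟩ := tch_side hg (marks3_of h) (hasCol h) hpr hJ
  have hn := side_next h (i + 1)
  rw [(z3x i).2.2.2.2.2.2.1] at hn
  obtain ⟨h6, h7⟩ := fol_clu h hd F hT _ _ _ h1 h2 (clu_self hn) (clu_self (side_self N (i + 2)))
  refine ⟨(sta N i (JT N i T)).1, (sta N i (JT N i T)).2, ⟨Or.inl ?_, h6, h7, h5⟩⟩
  rw [← h.tri]
  exact h4

/-! ### the relations -/

theorem insert_mark {V : Type} {G : Trg V} {kl : Set (V × V)} {D : Set (V × V)} {a b c : V}
    {J : Finset (V × V)} (ht : (a, b, c) ∈ G.T) (hm : (a, b) ∉ D) (hb : ∀ c, (b, a, c) ∉ G.T)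
    (hJ : IsJoin G kl ∅ D J) : IsJoin G kl (rots (a, b, c)) (D ∪ {(a, b)}) (insert (a, b) J) := by
  have hab : a ≠ b := G.ne ht
  have hmk := hJ.bdr a b hb hm
  have hD : ∀ {x y : V}, (x, y) ∉ D ∪ {(a, b)} → (x, y) ∉ D ∧ (x, y) ≠ (a, b) := by
    intro x y h1
    exact ⟨fun h2 => h1 (Or.inl h2), fun h2 => h1 (Or.inr h2)⟩
  refine ⟨?_, ?_, ?_, ?_, ?_, ?_⟩
  · intro x hx
    rcases Finset.mem_insert.1 hx with rfl | hx
    · exact (mem_E_of_tri ht).1
    · exact hJ.sub hx
  · intro x y h1 h2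
    rw [Finset.mem_insert, Finset.mem_insert]
    have := hJ.sym x y (hD h1).1 (hD h2).1
    have h3 := (hD h1).2
    have h4 := (hD h2).2
    tauto
  · rintro x y (h1 | h1)
    · have h3 := hJ.mark x y h1
      refine ⟨Finset.mem_insert_of_mem h3.1, ?_⟩
      rw [Finset.mem_insert]
      rintro (h4 | h4)
      · rw [Prod.mk.injEq] at h4
        obtain ⟨rfl, rfl⟩ := h4
        exact hmk.2 h3.1
      · exact h3.2 h4
    · rw [Set.mem_singleton_iff, Prod.mk.injEq] at h1
      obtain ⟨rfl, rfl⟩ := h1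
      refine ⟨Finset.mem_insert_self _ _, ?_⟩
      rw [Finset.mem_insert]
      rintro (h4 | h4)
      · rw [Prod.mk.injEq] at h4
        exact hab h4.1.symm
      · exact hmk.2 h4
  · intro x y h1 h2
    have h3 := hJ.bdr x y h1 (hD h2).1
    rw [Finset.mem_insert, Finset.mem_insert]
    refine ⟨?_, ?_⟩
    · rintro (h4 | h4)
      · exact (hD h2).2 h4
      · exact h3.1 h4
    · rintro (h4 | h4)
      · rw [Prod.mk.injEq] at h4
        obtain ⟨rfl, rfl⟩ := h4
        exact h1 c ht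
      · exact h3.2 h4
  · intro x y h1 h2 h3
    have h4 := hJ.kill x y h1 (hD h2).1 (hD h3).1
    rw [Finset.mem_insert, Finset.mem_insert]
    have h5 := (hD h2).2
    have h6 := (hD h3).2
    tauto
  · intro x y z h
    have hp := hJ.par x y z h
    rw [if_neg (Set.notMem_empty _)] at hp
    obtain ⟨n1, n2, n3⟩ := sides_ne h
    by_cases hs : (x, y, z) ∈ rots (a, b, c)
    · rw [if_pos hs]
      rcases side_of_mem_rots hs with e | e | e
      · have e2 : (y, z) ≠ (a, b) := by rw [← e]; exact n1.symm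
        have e3 : (z, x) ≠ (a, b) := by rw [← e]; exact n3.symm
        simp only [Finset.mem_insert, e2, e3, false_or]
        simp only [e, hmk.1, true_or, if_true, if_false] at hp ⊢
        omega
      · have e2 : (x, y) ≠ (a, b) := by rw [← e]; exact n1
        have e3 : (z, x) ≠ (a, b) := by rw [← e]; exact n2.symm
        simp only [Finset.mem_insert, e2, e3, false_or]
        simp only [e, hmk.1, true_or, if_true, if_false] at hp ⊢
        omega
      · have e2 : (x, y) ≠ (a, b) := by rw [← e]; exact n3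
        have e3 : (y, z) ≠ (a, b) := by rw [← e]; exact n2
        simp only [Finset.mem_insert, e2, e3, false_or]
        simp only [e, hmk.1, true_or, if_true, if_false] at hp ⊢
        omega
    · rw [if_neg hs]
      have e1 : (x, y) ≠ (a, b) := fun e => hs (mem_rots_of_side ht h (Or.inl e))
      have e2 : (y, z) ≠ (a, b) := fun e => hs (mem_rots_of_side ht h (Or.inr (Or.inl e)))
      have e3 : (z, x) ≠ (a, b) := fun e => hs (mem_rots_of_side ht h (Or.inr (Or.inr e)))
      simp only [Finset.mem_insert, e1, e2, e3, false_or]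
      exact hp

theorem tj_mark (h : HNet S N) (hpr : Pairs N) {a b c : ℂ} (ht : (a, b, c) ∈ N.T)
    (hm : (a, b) ∈ N.exS) : (N.tj (a, b, c)).Nonempty := by
  obtain ⟨k, hk⟩ := hm
  obtain ⟨J, hJ⟩ := hpr k
  have h1 := insert_mark (D := N.exS \ {N.ex k}) ht (fun h' => h'.2 hk.symm)
    (fun c' hc' => by
      have := (J1x872.good_of_hnet h).bd k c'
      rw [hk] at this
      exact this hc') hJ
  have e : (N.exS \ {N.ex k}) ∪ {(a, b)} = N.exS := by
    rw [← hk]
    exact Set.sdiff_union_of_subset (by rintro _ rfl; exact ⟨k, rfl⟩)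
  rw [e] at h1
  exact ⟨_, mem_joins.2 h1⟩

/-- the relations hold at all triangles -/
theorem relAt_all (h : HNet S N) (hd : Dj N) : ∀ t ∈ N.T, RelAt N t := by
  rintro ⟨a, b, c⟩ ht
  have hpr := pairs_of h hd
  refine Rel2x63.relAt h (by rw [← h.tri]; exact ht) ?_
  by_cases h1 : (a, b) ∈ N.exS
  · exact Or.inl (tj_mark h hpr ht h1)
  by_cases h2 : (b, c) ∈ N.exS
  · left
    have := tj_mark h hpr (N.rot ht) h2
    rwa [J1x872.tj_rot] at this
  by_cases h3 : (c, a) ∈ N.exS
  · left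
    have := tj_mark h hpr (N.rot (N.rot ht)) h3
    rwa [J1x872.tj_rot, J1x872.tj_rot] at this
  exact Or.inr ⟨h1, h2, h3⟩

theorem hkl_of (h : HNet S N) (F : Crsx117.Free S N In) (a b : ℂ) (hk : (a, b) ∈ N.kl)
    (hE : (a, b) ∈ N.E) : ∃ i, Side N i a := by
  have hab := adj_of_E h hE
  exact F.out a hab.mem.1 fun ha => F.live a ha b hab hk

/-! ### the end point formula -/

/-- expectation in the fair colouring of `In` (black = `T`) -/
def ec (In : Finset ℂ) (f : Finset ℂ → ℂ) : ℂ := (∑ T ∈ In.powerset, f T) / 2 ^ In.card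

theorem avt_eq (h : HNet S N) (hd : Dj N) (F : Crsx117.Free S N In) (i : ZMod 3) (z : ℂ → ℂ) :
    avt N i z = ec In fun T => z (yv N i T) := by
  unfold avt ec
  rw [sum_EE h hd F i, card_EE2 h hd F i]
  push_cast
  rfl

/-- **END POINT FORMULA** in fair colourings -/
theorem TT_static (h : HNet S N) (hd : Dj N) (F : Crsx117.Free S N In) (z : ℂ → ℂ) :
    TT N z = 3 * ∑ i : ZMod 3, omz i * ec In fun T => z (yv N i T) := by
  rw [TT_hit h (relAt_all h hd) (hkl_of h F) (pairs_of h hd) z]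
  congr 1
  refine Finset.sum_congr rfl fun i _ => ?_
  rw [avt_eq h hd F i z]

/-- **law of the end point**: `mu N i v = P (yv = v)` -/
theorem mu_pr (h : HNet S N) (hd : Dj N) (F : Crsx117.Free S N In) {i : ZMod 3} {v : ℂ}
    (hv : Side N i v) : mu N i v = Harx315.pr In (fun T => yv N i T = v) := by
  have hpr := pairs_of h hd
  have hcard : (((EE N i).filter fun J => tch N i J = v).card : ℝ) / ((EE N i).card : ℝ) =
      Harx315.pr In (fun T => yv N i T = v) := by
    unfold Harx315.pr Harx315.nb Harx315.fl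
    rw [card_EE2 h hd F i]
    have e : ((EE N i).filter fun J => tch N i J = v).card =
        (In.powerset.filter fun T => yv N i T = v).card := by
      rw [Finset.card_filter, Finset.card_filter, sum_EE h hd F i]
      rfl
    rw [e]
    push_cast
    rfl
  rw [← hcard]
  have hvS := side_mem h hv
  obtain ⟨b, c, hbc⟩ : ∃ b c, (v, b, c) ∈ N.T := by
    rw [h.tri]
    obtain ⟨u, hu⟩ := exists_tri_at h.gp (card3 h) hvS
    obtain ⟨c, hc⟩ := mem_nbs.1 hu
    exact ⟨u, c, hc⟩
  exact hit_law h (relAt_all h hd) hpr i v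
    (Finset.mem_filter.2 ⟨Finset.mem_image.2 ⟨_, hbc, rfl⟩, hv⟩)

/-! ### 877's objects -/

theorem pth_side (h : HNet S N) {i : ZMod 3} {v : ℂ} (hv : Side N i v) :
    RE0x723.Pth S (sA S N i) (N.ex i).2 v := by
  have key : ∀ {v : ℂ}, Side N i v → RE0x723.Pth S (sA S N i) (N.ex i).2 v := by
    intro v hv
    induction hv with
    | refl => exact RE0x723.Pth.refl (side_self N i)
    | @tail b c hb hw ih => exact ih.tail (adj_of_E h hw.1) (show Side N i c from hb.tail hw)
  exact key hv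

/-- a hull edge between two different sides is a mark -/
theorem hull_mark (h : HNet S N) (hd : Dj N) {a b : ℂ} (hab : hullE S a b) {i j : ZMod 3}
    (hij : i ≠ j) (ha : Side N i a) (hb : Side N j b) : N.ex j = (a, b) ∧ j = i + 1 := by
  by_cases hm : (a, b) ∈ N.exS
  · obtain ⟨k, hk⟩ := hm
    have h1 : Side N (k + 2) a := by
      have := side_next h (k + 2)
      rw [(z3x k).2.2.2.2.2.2.2.1, hk] at this
      exact this
    have h2 : Side N k b := by
      have := side_self N k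
      rw [hk] at this
      exact this
    have e1 := hd _ _ _ ha h1
    have e2 := hd _ _ _ hb h2
    subst e2
    refine ⟨hk, ?_⟩
    rw [e1]
    generalize j = x
    revert x; decide
  · exact absurd (hd _ _ _ ((side_wall (wall_hull h hab hm)).1 ha) hb) hij

theorem tr_of (h : HNet S N) (hd : Dj N) : Tr S (sA S N) where
  gp := h.gp
  sub := fun i v hv => side_mem h hv
  disj := fun i j hij => by
    rw [Set.disjoint_left]
    exact fun v h1 h2 => hij (hd _ _ _ h1 h2)
  con := fun i x hx y hy => (pth_side h hx).symm.trans (pth_side h hy)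
  hull := fun a b hab => exists_side h hab
  one := by
    intro i j hij
    have key : ∀ i j : ZMod 3, j = i + 1 → ∃ a b, hullE S a b ∧ Side N i a ∧ Side N j b ∧
        ∀ a' b', (hullE S a' b' ∨ hullE S b' a') → Side N i a' → Side N j b' → a' = a ∧ b' = b := by
      rintro i j rfl
      refine ⟨(N.ex (i + 1)).1, (N.ex (i + 1)).2, h.hex _, side_next h i, side_self N _, ?_⟩
      intro a' b' hE ha hb
      rcases hE with hE | hE
      · obtain ⟨h1, -⟩ := hull_mark h hd hE (z3x i).2.2.2.1 ha hb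
        rw [h1]
        exact ⟨rfl, rfl⟩
      · obtain ⟨-, h2⟩ := hull_mark h hd hE (z3x i).1 hb ha
        exfalso
        revert h2
        generalize i = x
        revert x; decide
    rcases z3c i j hij with h1 | h1
    · obtain ⟨a, b, h2, h3, h4, h5⟩ := key i j h1
      exact ⟨a, b, Or.inl h2, h3, h4, h5⟩
    · obtain ⟨a, b, h2, h3, h4, h5⟩ := key j i h1
      refine ⟨b, a, Or.inr h2, h4, h3, ?_⟩
      intro a' b' hE ha hb
      obtain ⟨e1, e2⟩ := h5 b' a' hE.symm hb ha
      exact ⟨e2, e1⟩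

theorem yv_iff (hU : HITU) (h : HNet S N) (hd : Dj N) (F : Crsx117.Free S N In) {i : ZMod 3}
    {T : Finset ℂ} (hT : T ⊆ In) {v : ℂ} :
    yv N i T = v ↔ ∃ b w, Hit S (sA S N) (i + 1) (i + 2) i (T : Set ℂ) b w v := by
  obtain ⟨b, w, h1⟩ := hit_yv h hd F (i := i) hT
  constructor
  · rintro rfl
    exact ⟨b, w, h1⟩
  · rintro ⟨b', w', h2⟩
    exact (hU S _ (tr_of h hd) (i + 1) (i + 2) i (z3x i).2.2.1 (z3x i).1 (z3x i).2.1 _ _ _ _ _ _ _
      h2 h1).2.2

/-- **`mu N i v` = probability of a hit at `v`** -/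
theorem mu_hit (hU : HITU) (h : HNet S N) (hd : Dj N) (F : Crsx117.Free S N In) {i : ZMod 3}
    {v : ℂ} (hv : Side N i v) : mu N i v = Harx315.pr In (fun T =>
      ∃ b w, Hit S (sA S N) (i + 1) (i + 2) i (T : Set ℂ) b w v) := by
  rw [mu_pr h hd F hv]
  unfold Harx315.pr Harx315.nb Harx315.fl
  congr 3
  refine Finset.filter_congr fun T hT => ?_
  exact yv_iff hU h hd F (Finset.mem_powerset.1 hT)

end Crest.Agent.R143.HitLx54
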