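import Crest.Agent.R143.Hit_848
import Crest.Agent.R143.RE0_723

/-!
# Row 143 (S0194): three classes = network with three marks (helper848)

* `Tg S B r` : three disjoint connected classes `B 0, B 1, B 2` of sites which cover the hull, `r k` =
  the hull edge from the class `k - 1` to the class `k`
* `Tg.N` : its network (killed edges = pairs inside a class, marks `r`); `Tg.hnet`, `Tg.side_iff`,
  `Tg.pairs`
* `relAt_all` : the relations hold at every triangle of a network with `Pairs`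
* `TT_hit'` : end point formula without hypothesis on the relations; `Tg.TT` : for three classes
* `tg_of_net` : the sides of a network form a `Tg`; `TT_net` : **`TT N z = TT (its classes) z`**
* `tg_of_pg`, `Tg.pg` : `RE0x723.Pg` with `m = 2`
-/

set_option autoImplicit false
set_option linter.unusedSimpArgs false

noncomputable section

open scoped Classical

namespace Crest.Agent.R143.PgNx848

open Crest.Agent.R143.B0x346 Crest.Agent.R143.DelGx806 Crest.Agent.R143.DelRx806
  Crest.Agent.R143.JColx54 Crest.Agent.R143.JCol2x54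
  Crest.Agent.R143.JCardx872 Crest.Agent.R143.Oscx63 Crest.Agent.R143.Sidesx697
  Crest.Agent.R143.Bsumx848 Crest.Agent.R143.Massx848 Crest.Agent.R143.Hitx848
open Crest.Agent.R143.J1x872 (cases_z3 Good)
open Crest.Agent.R143.RE0x723 (Pth Pg)

/-! ### joins with the odd triangle at a mark -/

section ins

variable {V : Type} {G : Trg V} {kl : Set (V × V)} {D : Set (V × V)} {a b c : V}
  {J : Finset (V × V)}

/-- inverse of `erase_mark` -/
theorem insert_mark (ht : (a, b, c) ∈ G.T) (hbd : ∀ c', (b, a, c') ∉ G.T) (hm : (a, b) ∈ D)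
    (hm' : (b, a) ∉ D) (hJ : IsJoin G kl ∅ (D \ {(a, b)}) J) :
    IsJoin G kl (rots (a, b, c)) D (insert (a, b) J) := by
  have hab : a ≠ b := G.ne ht
  have h0 : (a, b) ∉ J ∧ (b, a) ∉ J := hJ.bdr a b hbd (fun h => h.2 rfl)
  have n1 : ∀ {x y : V}, (x, y) ∉ D → (x, y) ≠ (a, b) := fun h e => h (e ▸ hm)
  have n2 : ∀ {x y : V}, (x, y) ∉ D → (x, y) ∉ D \ {(a, b)} := fun h h' => h h'.1
  refine ⟨?_, ?_, ?_, ?_, ?_, ?_⟩
  · intro p hp
    rcases Finset.mem_insert.1 hp with rfl | hp
    · exact (mem_E_of_tri ht).1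
    · exact hJ.sub hp
  · intro x y h1 h2
    rw [Finset.mem_insert, Finset.mem_insert]
    have := hJ.sym x y (n2 h1) (n2 h2)
    have e1 := n1 h1
    have e2 := n1 h2
    tauto
  · intro x y h
    by_cases e : (x, y) = (a, b)
    · rw [e]
      rw [Prod.mk.injEq] at e
      obtain ⟨rfl, rfl⟩ := e
      refine ⟨Finset.mem_insert_self _ _, ?_⟩
      rw [Finset.mem_insert]
      rintro (h1 | h1)
      · rw [Prod.mk.injEq] at h1
        exact hab h1.2
      · exact h0.2 h1
    · have h1 := hJ.mark x y ⟨h, e⟩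
      refine ⟨Finset.mem_insert_of_mem h1.1, ?_⟩
      rw [Finset.mem_insert]
      rintro (h2 | h2)
      · rw [Prod.mk.injEq] at h2
        obtain ⟨rfl, rfl⟩ := h2
        exact hm' h
      · exact h1.2 h2
  · intro x y h1 h2
    have h3 := hJ.bdr x y h1 (n2 h2)
    rw [Finset.mem_insert, Finset.mem_insert]
    refine ⟨?_, ?_⟩
    · rintro (h4 | h4)
      · exact n1 h2 h4
      · exact h3.1 h4
    · rintro (h4 | h4)
      · rw [Prod.mk.injEq] at h4
        obtain ⟨rfl, rfl⟩ := h4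
        exact h1 c ht
      · exact h3.2 h4
  · intro x y h1 h2 h3
    have h4 := hJ.kill x y h1 (n2 h2) (n2 h3)
    rw [Finset.mem_insert, Finset.mem_insert]
    exact ⟨fun h => h.elim (n1 h2) h4.1, fun h => h.elim (n1 h3) h4.2⟩
  · intro x y z h
    have hp := hJ.par x y z h
    rw [if_neg (Set.notMem_empty _)] at hp
    obtain ⟨m1, m2, m3⟩ := sides_ne h
    by_cases hs : (x, y, z) ∈ rots (a, b, c)
    · rw [if_pos hs]
      rcases side_of_mem_rots hs with e | e | e
      · have e2 : (y, z) ≠ (a, b) := by rw [← e]; exact m1.symm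
        have e3 : (z, x) ≠ (a, b) := by rw [← e]; exact m3.symm
        simp only [Finset.mem_insert, e2, e3, false_or]
        simp only [e, h0.1, true_or, or_false, if_true, if_false] at hp ⊢
        omega
      · have e2 : (x, y) ≠ (a, b) := by rw [← e]; exact m1
        have e3 : (z, x) ≠ (a, b) := by rw [← e]; exact m2.symm
        simp only [Finset.mem_insert, e2, e3, false_or]
        simp only [e, h0.1, true_or, or_false, if_true, if_false] at hp ⊢
        omega
      · have e2 : (x, y) ≠ (a, b) := by rw [← e]; exact m3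
        have e3 : (y, z) ≠ (a, b) := by rw [← e]; exact m2
        simp only [Finset.mem_insert, e2, e3, false_or]
        simp only [e, h0.1, true_or, or_false, if_true, if_false] at hp ⊢
        omega
    · rw [if_neg hs]
      have e1 : (x, y) ≠ (a, b) := fun e => hs (mem_rots_of_side ht h (Or.inl e))
      have e2 : (y, z) ≠ (a, b) := fun e => hs (mem_rots_of_side ht h (Or.inr (Or.inl e)))
      have e3 : (z, x) ≠ (a, b) := fun e => hs (mem_rots_of_side ht h (Or.inr (Or.inr e)))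
      simp only [Finset.mem_insert, e1, e2, e3, false_or]
      exact hp

end ins

/-! ### the relations -/

section rel

variable {S : Finset ℂ} {N : Net ℂ}

theorem tj_mark (h : HNet S N) (hpr : Pairs N) {a b c : ℂ} (ht : (a, b, c) ∈ N.T)
    (hm : (a, b) ∈ N.exS) : (N.tj (a, b, c)).Nonempty := by
  obtain ⟨k, hk⟩ := hm
  obtain ⟨J, hJ⟩ := hpr k
  rw [hk] at hJ
  have h1 : ∀ c', (b, a, c') ∉ N.T := by
    intro c'
    have := (J1x872.good_of_hnet h).bd k c'
    rw [hk] at this
    exact this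
  have h2 : (b, a) ∉ N.exS := by
    rintro ⟨l, hl⟩
    have h3 := h.hex k
    have h4 := h.hex l
    rw [hk] at h3
    rw [hl] at h4
    exact hullE_asymm h3 h4
  exact ⟨_, mem_joins.2 (insert_mark ht h1 ⟨k, hk⟩ h2 hJ)⟩

/-- **the relations hold everywhere** -/
theorem relAt_all (h : HNet S N) (hpr : Pairs N) : ∀ t ∈ N.T, RelAt N t := by
  rintro ⟨a, b, c⟩ ht
  refine Rel2x63.relAt h (by rw [← h.tri]; exact ht) ?_
  by_cases h1 : (a, b) ∈ N.exS
  · exact Or.inl (tj_mark h hpr ht h1)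
  by_cases h2 : (b, c) ∈ N.exS
  · left
    have := tj_mark h hpr (N.rot ht) h2
    rwa [J1x872.tj_rot] at this
  by_cases h3 : (c, a) ∈ N.exS
  · left
    have := tj_mark h hpr (N.rot (N.rot ht)) h3
    rwa [J1x872.tj_rot, J1x872.tj_rot] at this
  exact Or.inr ⟨h1, h2, h3⟩

/-- **END POINT FORMULA** -/
theorem TT_hit' (h : HNet S N) (hkl : ∀ a b : ℂ, (a, b) ∈ N.kl → (a, b) ∈ N.E → ∃ i, Side N i a)
    (hpr : Pairs N) (z : ℂ → ℂ) : TT N z = 3 * ∑ i : ZMod 3, omz i * avt N i z :=
  TT_hit h (relAt_all h hpr) hkl hpr z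

end rel

/-! ### three classes -/

/-- **three classes** -/
structure Tg (S : Finset ℂ) (B : ZMod 3 → Set ℂ) (r : ZMod 3 → ℂ × ℂ) : Prop where
  gp : GP (S : Set ℂ)
  sub : ∀ i, B i ⊆ S
  disj : ∀ i j, i ≠ j → Disjoint (B i) (B j)
  hr : ∀ k, hullE S (r k).1 (r k).2
  end1 : ∀ k, (r k).1 ∈ B (k - 1)
  end2 : ∀ k, (r k).2 ∈ B k
  /-- a hull edge which is not a mark joins two sites of the same class -/
  hull : ∀ a b, hullE S a b → (∃ k, r k = (a, b)) ∨ ∃ i, a ∈ B i ∧ b ∈ B i
  /-- the classes are connected -/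
  con : ∀ i, ∀ v ∈ B i, ∀ w ∈ B i,
    Relation.ReflTransGen (fun a b => a ∈ B i ∧ b ∈ B i ∧ Adj S a b) v w

variable {S : Finset ℂ} {B : ZMod 3 → Set ℂ} {r : ZMod 3 → ℂ × ℂ}

namespace Tg

variable (O : Tg S B r)

/-- the network of three classes -/
def N (O : Tg S B r) : Net ℂ where
  T := delT S
  rot := fun h => (g1 S O.gp).1 _ _ _ h
  uniq := fun h h' => (g1 S O.gp).2.1 _ _ _ _ h h'
  ne := fun h => (g1 S O.gp).2.2 _ _ _ h
  kl := {p | ∃ i, p.1 ∈ B i ∧ p.2 ∈ B i}
  klsym := by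
    rintro a b ⟨i, h1, h2⟩
    exact ⟨i, h2, h1⟩
  ex := r

include O

/-- the class of a site is unique -/
theorem uniq {v : ℂ} {i j : ZMod 3} (hi : v ∈ B i) (hj : v ∈ B j) : i = j := by
  by_contra h
  exact Set.disjoint_left.1 (O.disj i j h) hi hj

theorem r_ne {i j : ZMod 3} (h : i ≠ j) : r i ≠ r j := fun e => by
  have h1 := O.end2 i
  rw [e] at h1
  exact h (O.uniq h1 (O.end2 j))

/-- the two ends of a mark are in no common class -/
theorem r_not_same {k i : ZMod 3} (h1 : (r k).1 ∈ B i) (h2 : (r k).2 ∈ B i) : False := by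
  have e1 := O.uniq h1 (O.end1 k)
  have e2 := O.uniq h2 (O.end2 k)
  have e3 : k - 1 = k := e1.symm.trans e2
  have : ∀ k : ZMod 3, k - 1 ≠ k := by decide
  exact this k e3

theorem hull_cls {a b : ℂ} (h : hullE S a b) : (∃ i, a ∈ B i) ∧ ∃ i, b ∈ B i := by
  rcases O.hull a b h with ⟨k, hk⟩ | ⟨i, h1, h2⟩
  · have e1 : a = (r k).1 := by rw [hk]
    have e2 : b = (r k).2 := by rw [hk]
    exact ⟨⟨_, e1 ▸ O.end1 k⟩, ⟨_, e2 ▸ O.end2 k⟩⟩
  · exact ⟨⟨i, h1⟩, ⟨i, h2⟩⟩

theorem mem_kl {a b : ℂ} : (a, b) ∈ O.N.kl ↔ ∃ i, a ∈ B i ∧ b ∈ B i := Iff.rfl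

/-- an edge inside one class is no mark -/
theorem not_exS {a b : ℂ} {i : ZMod 3} (ha : a ∈ B i) (hb : b ∈ B i) : (a, b) ∉ O.N.exS := by
  rintro ⟨k, hk⟩
  change r k = (a, b) at hk
  apply O.r_not_same (k := k) (i := i)
  · rw [hk]; exact ha
  · rw [hk]; exact hb

/-! #### order of the marks -/

variable {n : ℕ} {w : ℤ → ℂ}

/-- along the hull, as long as there is no mark, the class is constant -/
theorem run (H : HullCyc S n w) {i : ZMod 3} {a b : ℤ} (hab : a ≤ b) (ha : w a ∈ B i)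
    (h : ∀ j, a ≤ j → j < b → ∀ k, r k ≠ (w j, w (j + 1))) : w b ∈ B i := by
  obtain ⟨q, rfl⟩ := Int.le.dest hab
  induction q with
  | zero => simpa using ha
  | succ q ih =>
    have h1 := ih (by linarith) (fun j h1 h2 => h j h1 (by push_cast; linarith))
    rcases O.hull _ _ (H.edge (a + q)) with ⟨k, hk⟩ | ⟨l, h2, h3⟩
    · exact absurd hk (h (a + q) (by linarith) (by push_cast; linarith) k)
    · have : l = i := O.uniq h2 h1
      subst this
      have e : a + ((q + 1 : ℕ) : ℤ) = a + q + 1 := by push_cast; ring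
      rw [e]
      exact h3

/-- the next mark, and the class in between -/
theorem next (H : HullCyc S n w) {k : ZMod 3} {j J : ℤ} {l : ZMod 3} (hj : r k = (w j, w (j + 1)))
    (hJ : r l = (w J, w (J + 1))) (hjJ : j < J) : ∃ j', j < j' ∧ j' ≤ J ∧
      r (k + 1) = (w j', w (j' + 1)) ∧ ∀ i, j < i → i ≤ j' → w i ∈ B k := by
  have hex : ∃ q : ℕ, ∃ l, r l = (w (j + 1 + q), w (j + 1 + q + 1)) := by
    refine ⟨(J - (j + 1)).toNat, l, ?_⟩
    rw [Int.toNat_of_nonneg (by omega)]
    rw [show j + 1 + (J - (j + 1)) = J by ring]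
    exact hJ
  obtain ⟨l', hl'⟩ := Nat.find_spec hex
  set q := Nat.find hex with hq
  have hmin : ∀ q', q' < q → ∀ l, r l ≠ (w (j + 1 + q'), w (j + 1 + q' + 1)) := by
    intro q' h l h'
    exact Nat.find_min hex h ⟨l, h'⟩
  have h0 : w (j + 1) ∈ B k := by
    have := O.end2 k
    rw [hj] at this
    exact this
  have hcl : ∀ i, j < i → i ≤ j + 1 + q → w i ∈ B k := by
    intro i hi1 hi2
    refine O.run H (a := j + 1) (by omega) h0 ?_
    intro i' h2 h3 l h4
    refine hmin (i' - (j + 1)).toNat (by omega) l ?_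
    rw [Int.toNat_of_nonneg (by omega), show j + 1 + (i' - (j + 1)) = i' by ring]
    exact h4
  have h1 : w (j + 1 + q) ∈ B k := hcl _ (by omega) (le_refl _)
  have h2 := O.end1 l'
  rw [hl'] at h2
  have h3 : l' - 1 = k := O.uniq h2 h1
  have h4 : l' = k + 1 := by rw [← h3]; ring
  refine ⟨j + 1 + q, by omega, ?_, by rw [← h4]; exact hl', hcl⟩
  by_contra hc
  push Not at hc
  have := hmin (J - (j + 1)).toNat (by omega) l
  rw [Int.toNat_of_nonneg (by omega), show j + 1 + (J - (j + 1)) = J by ring] at this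
  exact this hJ

/-- **positions of the three marks** -/
theorem pos3 (H : HullCyc S n w) : ∃ j0 j1 j2 : ℤ, j0 < j1 ∧ j1 < j2 ∧
    j2 < j0 + n ∧ r 0 = (w j0, w (j0 + 1)) ∧ r 1 = (w j1, w (j1 + 1)) ∧ r 2 = (w j2, w (j2 + 1)) ∧
    (∀ i, j0 < i → i ≤ j1 → w i ∈ B 0) ∧ (∀ i, j1 < i → i ≤ j2 → w i ∈ B 1) ∧
    (∀ i, j2 < i → i ≤ j0 + n → w i ∈ B 2) := by
  have hn : (0 : ℤ) < n := by exact_mod_cast H.pos
  obtain ⟨j0, -, -, a1, a2⟩ := H.all _ _ (O.hr 0)
  have e0 : r 0 = (w j0, w (j0 + 1)) := Prod.ext a1.symm a2.symm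
  have e0' : r 0 = (w (j0 + n), w (j0 + n + 1)) := by
    rw [H.per, show j0 + (n : ℤ) + 1 = j0 + 1 + n by ring, H.per]
    exact e0
  obtain ⟨j1, h1, h1', e1, f1⟩ := O.next H e0 e0' (by linarith)
  have n1 : j1 ≠ j0 + n := by
    rintro rfl
    exact O.r_ne (by decide : (0 : ZMod 3) + 1 ≠ 0) (e1.trans e0'.symm)
  obtain ⟨j2, h2, h2', e2, f2⟩ := O.next H e1 e0' (lt_of_le_of_ne h1' n1)
  have n2 : j2 ≠ j0 + n := by
    rintro rfl
    exact O.r_ne (by decide : (0 : ZMod 3) + 1 + 1 ≠ 0) (e2.trans e0'.symm)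
  have h2'' := lt_of_le_of_ne h2' n2
  obtain ⟨j3, h3, h3', e3, f3⟩ := O.next H e2 e0' h2''
  have hj3 : j3 = j0 + n := by
    have e4 : r ((0 : ZMod 3) + 1 + 1 + 1) = r 0 := by congr 1
    rw [e4, e0'] at e3
    obtain ⟨q, hq⟩ := hull_inj H (congrArg Prod.fst e3)
    have h5 : j3 ≤ j0 + n := h3'
    have h6 : j0 < j3 := by omega
    by_contra hne
    have h7 : 0 < q := by
      by_contra h8
      push Not at h8
      have : (n : ℤ) * q ≤ 0 := mul_nonpos_of_nonneg_of_nonpos hn.le h8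
      omega
    have h8 : (n : ℤ) ≤ n * q := by nlinarith
    omega
  refine ⟨j0, j1, j2, h1, h2, h2'', e0, e1, e2, f1, f2, ?_⟩
  rw [hj3] at f3
  exact f3

theorem card3 : 3 ≤ S.card := by
  obtain ⟨⟨c, hc⟩, -⟩ := O.hr 0
  obtain ⟨h1, h2, h3, h4, -⟩ := mem_delT.1 hc
  have n1 : (r 0).1 ≠ (r 0).2 := (g1 S O.gp).2.2 _ _ _ hc
  have n2 : (r 0).2 ≠ c := (g1 S O.gp).2.2 _ _ _ ((g1 S O.gp).1 _ _ _ hc)
  have n3 : c ≠ (r 0).1 := (g1 S O.gp).2.2 _ _ _ ((g1 S O.gp).1 _ _ _ ((g1 S O.gp).1 _ _ _ hc))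
  have h5 : ({(r 0).1, (r 0).2, c} : Finset ℂ) ⊆ S := by
    intro x hx
    simp only [Finset.mem_insert, Finset.mem_singleton] at hx
    rcases hx with rfl | rfl | rfl
    · exact h1
    · exact h2
    · exact h3
  have h6 : ({(r 0).1, (r 0).2, c} : Finset ℂ).card = 3 :=
    Finset.card_eq_three.2 ⟨_, _, _, n1, n3.symm, n2, rfl⟩
  rw [← h6]
  exact Finset.card_le_card h5

/-- **the network of three classes is a network** -/
theorem hnet : HNet S O.N where
  gp := O.gp
  tri := rfl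
  hex := O.hr
  live := by
    rintro k ⟨i, h1, h2⟩
    exact O.r_not_same h1 h2
  ccw := by
    obtain ⟨n, w, H⟩ := hull_cycle O.gp O.card3
    obtain ⟨j0, j1, j2, h1, h2, h3, e0, e1, e2, -⟩ := O.pos3 H
    change 0 < cr (mid (r 1) - mid (r 0)) (mid (r 2) - mid (r 0))
    rw [e0, e1, e2]
    exact Planarx54.mid_pos H h1 h2 h3

theorem mem_E' {a b : ℂ} : (a, b) ∈ O.N.E ↔ Adj S a b := mem_E O.hnet.tri

/-- dead edges of a class are walls -/
theorem wall_of {a b : ℂ} {i : ZMod 3} (ha : a ∈ B i) (hb : b ∈ B i) (h : Adj S a b) :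
    Wall O.N a b :=
  ⟨O.mem_E'.2 h, O.not_exS ha hb, O.not_exS hb ha, Or.inl ⟨i, ha, hb⟩⟩

/-- walls stay in the class -/
theorem cls_of_wall {a b : ℂ} {i : ZMod 3} (ha : a ∈ B i) (h : Wall O.N a b) : b ∈ B i := by
  obtain ⟨h1, h2, h3, h4⟩ := h
  have h5 := O.mem_E'.1 h1
  have key : ∀ {x y : ℂ}, hullE S x y → (x, y) ∉ O.N.exS → ∃ i, x ∈ B i ∧ y ∈ B i := by
    intro x y hE hx
    rcases O.hull x y hE with ⟨k, hk⟩ | h
    · exact absurd ⟨k, hk⟩ hx
    · exact h
  rcases h4 with ⟨j, h6, h7⟩ | h4 | h4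
  · rw [O.uniq ha h6]; exact h7
  · have h6 : hullE S a b := by
      rcases h5 with ⟨c, h5⟩ | ⟨c, h5⟩
      · exact ⟨⟨c, h5⟩, h4⟩
      · exact absurd h5 (h4 c)
    obtain ⟨j, h7, h8⟩ := key h6 h2
    rw [O.uniq ha h7]; exact h8
  · have h6 : hullE S b a := by
      rcases h5 with ⟨c, h5⟩ | ⟨c, h5⟩
      · exact absurd h5 (h4 c)
      · exact ⟨⟨c, h5⟩, h4⟩
    obtain ⟨j, h7, h8⟩ := key h6 h3
    rw [O.uniq ha h8]; exact h7

/-- **the sides are the classes** -/
theorem side_iff {k : ZMod 3} {v : ℂ} : Side O.N k v ↔ v ∈ B k := by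
  constructor
  · intro h
    unfold Side at h
    induction h with
    | refl => exact O.end2 k
    | tail _ h2 ih => exact O.cls_of_wall ih h2
  · intro h
    refine Relation.ReflTransGen.mono ?_ _ _ (O.con k _ (O.end2 k) v h)
    rintro a b ⟨h2, h3, h4⟩
    exact O.wall_of h2 h3 h4

/-- **pair joins exist** -/
theorem pairs : Pairs O.N := by
  intro m
  have z1 : ∀ m : ZMod 3, m - 1 ≠ m + 1 ∧ m ≠ m + 1 := by decide
  have z2 : ∀ m k : ZMod 3, k ≠ m → (k = m + 1 ∨ k - 1 = m + 1) := by decide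
  have z3 : ∀ k : ZMod 3, k - 1 ≠ k := by decide
  refine ⟨colJ O.N.toTrg (O.N.exS \ {O.N.ex m}) fun v => decide (v ∈ B (m + 1)), ?_⟩
  refine colJ_isJoin O.gp rfl ?_ (fun a b h => O.N.klsym a b h) ?_
  · rintro a b ⟨⟨k, hk⟩, -⟩
    have := O.hnet.hex k
    rw [hk] at this
    exact this
  · refine ⟨?_, ?_, ?_⟩
    · rintro a b - ⟨i, h1, h2⟩ - -
      by_cases h : i = m + 1
      · subst h
        simp [h1, h2]
      · have n1 : a ∉ B (m + 1) := fun h3 => h (O.uniq h1 h3)
        have n2 : b ∉ B (m + 1) := fun h3 => h (O.uniq h2 h3)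
        simp [n1, n2]
    · intro a b hE hD
      rcases O.hull a b hE with ⟨k, hk⟩ | ⟨i, h1, h2⟩
      · have hkm : k = m := by
          by_contra hne
          exact hD ⟨⟨k, hk⟩, fun h => O.r_ne hne (hk.trans h)⟩
        subst hkm
        have n1 : a ∉ B (k + 1) := fun h3 => by
          have h4 := O.end1 k
          rw [hk] at h4
          exact (z1 k).1 (O.uniq h4 h3)
        have n2 : b ∉ B (k + 1) := fun h3 => by
          have h4 := O.end2 k
          rw [hk] at h4
          exact (z1 k).2 (O.uniq h4 h3)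
        simp [n1, n2]
      · by_cases h : i = m + 1
        · subst h
          simp [h1, h2]
        · have n1 : a ∉ B (m + 1) := fun h3 => h (O.uniq h1 h3)
          have n2 : b ∉ B (m + 1) := fun h3 => h (O.uniq h2 h3)
          simp [n1, n2]
    · rintro a b ⟨⟨k, hk⟩, hk'⟩
      change r k = (a, b) at hk
      have hkm : k ≠ m := by
        rintro rfl
        exact hk' hk.symm
      have e1 := O.end1 k
      have e2 := O.end2 k
      rw [hk] at e1 e2
      simp only at e1 e2
      rcases z2 m k hkm with h | h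
      · rw [h] at e2
        have n1 : a ∉ B (m + 1) := fun h3 => by
          have := O.uniq e1 h3
          rw [← h] at this
          exact z3 k this
        simp [e2, n1]
      · rw [h] at e1
        have n1 : b ∉ B (m + 1) := fun h3 => by
          have := O.uniq e2 h3
          rw [← h] at this
          exact z3 k this.symm
        simp [e1, n1]

theorem att (a b : ℂ) (h : (a, b) ∈ O.N.kl) (_h' : (a, b) ∈ O.N.E) : ∃ i, Side O.N i a := by
  obtain ⟨i, h1, -⟩ := h
  exact ⟨i, O.side_iff.2 h1⟩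

/-- **END POINT FORMULA for three classes** (no hypothesis left) -/
theorem TT (z : ℂ → ℂ) : Bsumx848.TT O.N z = 3 * ∑ i : ZMod 3, omz i * avt O.N i z :=
  TT_hit' O.hnet O.att O.pairs z

end Tg

/-! ### the sides of a network -/

section net

variable {N : Net ℂ}

theorem tg_of_net (h : HNet S N) (hpr : Pairs N) : Tg S (fun k => {v | Side N k v}) N.ex := by
  have hM := marks3_of h
  have hC := hasCol h
  have hmem : ∀ {u v : ℂ}, Wall N u v → u ∈ S ∧ v ∈ S := fun hw => (adj_of_E h hw.1).mem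
  refine ⟨h.gp, ?_, ?_, h.hex, ?_, ?_, ?_, ?_⟩
  · intro i v hv
    rcases Relation.ReflTransGen.cases_tail (show Side N i v from hv) with e | ⟨u, -, hu⟩
    · rw [e]
      exact (adj_of_E h (mem_E_of_hull h (h.hex i))).mem.2
    · exact (hmem hu).2
  · intro i j hij
    rw [Set.disjoint_left]
    intro v hi hj
    exact hij (side_disj hM hC hpr hi hj)
  · intro k
    have := hM.next (k - 1)
    rw [sub_add_cancel] at this
    exact this
  · intro k
    exact Relation.ReflTransGen.refl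
  · intro a b hE
    by_cases hm : (a, b) ∈ N.exS
    · obtain ⟨k, hk⟩ := hm
      exact Or.inl ⟨k, hk⟩
    · obtain ⟨i, hi⟩ := exists_side h hE
      exact Or.inr ⟨i, hi, Relation.ReflTransGen.tail hi (wall_hull h hE hm)⟩
  · intro i v hv w hw
    have key : ∀ {u : ℂ}, Side N i u →
        Relation.ReflTransGen (fun a b => a ∈ {v | Side N i v} ∧ b ∈ {v | Side N i v} ∧ Adj S a b)
          (N.ex i).2 u := by
      intro u hu
      unfold Side at hu
      induction hu with
      | refl => exact Relation.ReflTransGen.refl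
      | tail h1 h2 ih => exact ih.tail ⟨h1, Relation.ReflTransGen.tail h1 h2, adj_of_E h h2.1⟩
    have hsym : ∀ {x y : ℂ},
        Relation.ReflTransGen (fun a b => a ∈ {v | Side N i v} ∧ b ∈ {v | Side N i v} ∧ Adj S a b) x y →
        Relation.ReflTransGen (fun a b => a ∈ {v | Side N i v} ∧ b ∈ {v | Side N i v} ∧ Adj S a b) y x := by
      intro x y hxy
      induction hxy with
      | refl => exact Relation.ReflTransGen.refl
      | tail _ h2 ih => exact Relation.ReflTransGen.head ⟨h2.2.1, h2.1, h2.2.2.symm⟩ ih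
    exact (hsym (key hv)).trans (key hw)

theorem trg_eq {G G' : Trg ℂ} (h : G.T = G'.T) : G = G' := by
  cases G; cases G'
  simp only at h
  subst h
  rfl

/-- same pair joins -/
theorem EE_eq (h : HNet S N) (hpr : Pairs N)
    (hkl : ∀ a b : ℂ, (a, b) ∈ N.kl → (a, b) ∈ N.E → ∃ i, Side N i a) (i : ZMod 3) :
    EE N i = EE (tg_of_net h hpr).N i := by
  have hT : N.toTrg = (tg_of_net h hpr).N.toTrg := trg_eq h.tri
  have hC := hasCol h
  unfold EE
  rw [← hT]
  have hD : Di (tg_of_net h hpr).N i = Di N i := rfl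
  rw [hD]
  ext J
  rw [mem_joins, mem_joins]
  constructor
  · intro hJ
    refine ⟨hJ.sub, hJ.sym, hJ.mark, hJ.bdr, ?_, hJ.par⟩
    rintro a b ⟨k, h1, h2⟩ - -
    obtain ⟨σ, hσ⟩ := hC _ Set.sdiff_subset _ hJ
    have e1 := col_side hJ Set.sdiff_subset hσ h1
    have e2 := col_side hJ Set.sdiff_subset hσ h2
    have e : σ a = σ b := e1.trans e2.symm
    constructor
    · intro h3
      exact (hσ _ _ (hJ.sub h3)).2 (Or.inl h3) e
    · intro h3
      exact (hσ _ _ (hJ.sub h3)).2 (Or.inl h3) e.symm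
  · intro hJ
    refine ⟨hJ.sub, hJ.sym, hJ.mark, hJ.bdr, ?_, hJ.par⟩
    intro a b hk h1 h2
    by_cases hE : (a, b) ∈ N.E
    · obtain ⟨k, hk'⟩ := hkl a b hk hE
      have hw : Wall N a b := by
        refine ⟨hE, ?_, ?_, Or.inl hk⟩
        · rintro ⟨l, e⟩
          exact h.live l (e ▸ hk)
        · rintro ⟨l, e⟩
          exact h.live l (e ▸ N.klsym _ _ hk)
      exact hJ.kill a b ⟨k, hk', Relation.ReflTransGen.tail hk' hw⟩ h1 h2
    · have hE' : (b, a) ∉ N.E := by
        intro h3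
        exact hE ((mem_E h.tri).2 ((mem_E h.tri).1 h3).symm)
      exact ⟨fun h3 => hE (hJ.sub h3), fun h3 => hE' (hJ.sub h3)⟩

/-- same touches -/
theorem tch_eq (h : HNet S N) (hpr : Pairs N) (i : ZMod 3) (J : Finset (ℂ × ℂ)) :
    tch N i J = tch (tg_of_net h hpr).N i J := by
  have hT : N.toTrg = (tg_of_net h hpr).N.toTrg := trg_eq h.tri
  have hS : ∀ v, Side (tg_of_net h hpr).N i v ↔ Side N i v := fun v => (tg_of_net h hpr).side_iff
  have h1 : stp (tg_of_net h hpr).N i = stp N i := by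
    funext p
    unfold stp
    simp only [hS, h.tri]
    rfl
  have h2 : sta N i J = sta (tg_of_net h hpr).N i J := by
    unfold sta
    rw [h1, ← hT]
    rfl
  unfold tch
  rw [h2]
  unfold apx
  simp only [h.tri]
  rfl

/-- **the end point average depends on the classes only** -/
theorem avt_net (h : HNet S N) (hpr : Pairs N)
    (hkl : ∀ a b : ℂ, (a, b) ∈ N.kl → (a, b) ∈ N.E → ∃ i, Side N i a) (i : ZMod 3) (z : ℂ → ℂ) :
    avt N i z = avt (tg_of_net h hpr).N i z := by
  unfold avt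
  rw [EE_eq h hpr hkl i]
  congr 1
  exact Finset.sum_congr rfl fun J _ => by rw [tch_eq h hpr i J]

/-- **`TT` depends on the classes only** -/
theorem TT_net (h : HNet S N) (hpr : Pairs N)
    (hkl : ∀ a b : ℂ, (a, b) ∈ N.kl → (a, b) ∈ N.E → ∃ i, Side N i a) (z : ℂ → ℂ) :
    Bsumx848.TT N z = Bsumx848.TT (tg_of_net h hpr).N z := by
  rw [TT_hit' h hkl hpr z, (tg_of_net h hpr).TT z]
  congr 1
  exact Finset.sum_congr rfl fun i _ => by rw [avt_net h hpr hkl i z]

end net

/-! ### polygons with three marks -/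

section pg

variable {n : ℕ} {w : ℤ → ℂ} {p : ℕ → ℤ} {A : ℕ → Finset ℂ}

theorem tg_of_pg (P : Pg S n w 2 p A) :
    Tg S (fun k => (A k.val : Set ℂ)) (fun k => (w (p k.val), w (p k.val + 1))) := by
  have hn : (0 : ℤ) < n := by exact_mod_cast P.cyc.pos
  have m01 : p 0 < p 1 := P.mono 0 (by norm_num)
  have m12 : p 1 < p 2 := P.mono 1 (by norm_num)
  have m20 : p 2 < p 0 + n := P.last
  have a0 : ∀ k, p 0 < k → k ≤ p 1 → w k ∈ A 0 := P.arc 0 (by norm_num)
  have a1 : ∀ k, p 1 < k → k ≤ p 2 → w k ∈ A 1 := P.arc 1 (by norm_num)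
  have a2 : ∀ k, p 2 < k → k ≤ p 0 + n → w k ∈ A 2 := P.arcl
  have v0 : (0 : ZMod 3).val = 0 := by decide
  have v1 : (1 : ZMod 3).val = 1 := by decide
  have v2 : (2 : ZMod 3).val = 2 := by decide
  have hle : ∀ k : ZMod 3, k.val ≤ 2 := by decide
  refine ⟨P.gp, ?_, ?_, ?_, ?_, ?_, ?_, ?_⟩
  · intro i
    exact_mod_cast P.sub _ (hle i)
  · intro i j hij
    rw [Finset.disjoint_coe]
    exact P.disj _ _ (hle i) (hle j) (fun h => hij (ZMod.val_injective 3 h))
  · intro k
    exact P.cyc.edge _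
  · intro k
    rcases cases_z3 k with rfl | rfl | rfl
    · have e : ((0 : ZMod 3) - 1).val = 2 := by decide
      simp only [e, v0, Finset.mem_coe]
      rw [← P.cyc.per]
      exact a2 _ (by omega) (le_refl _)
    · have e : ((1 : ZMod 3) - 1).val = 0 := by decide
      simp only [e, v1, Finset.mem_coe]
      exact a0 _ m01 (le_refl _)
    · have e : ((2 : ZMod 3) - 1).val = 1 := by decide
      simp only [e, v2, Finset.mem_coe]
      exact a1 _ m12 (le_refl _)
  · intro k
    rcases cases_z3 k with rfl | rfl | rfl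
    · simp only [v0, Finset.mem_coe]
      exact a0 _ (by omega) (by omega)
    · simp only [v1, Finset.mem_coe]
      exact a1 _ (by omega) (by omega)
    · simp only [v2, Finset.mem_coe]
      exact a2 _ (by omega) (by omega)
  · intro a b hE
    obtain ⟨l, h1, h2, rfl, rfl⟩ := hull_window P.cyc (p 0) hE
    by_cases c0 : l = p 0
    · exact Or.inl ⟨0, by rw [c0, v0]⟩
    by_cases c1 : l < p 1
    · exact Or.inr ⟨0, by simp only [v0, Finset.mem_coe]; exact a0 _ (by omega) (by omega),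
        by simp only [v0, Finset.mem_coe]; exact a0 _ (by omega) (by omega)⟩
    by_cases c2 : l = p 1
    · exact Or.inl ⟨1, by rw [c2, v1]⟩
    by_cases c3 : l < p 2
    · exact Or.inr ⟨1, by simp only [v1, Finset.mem_coe]; exact a1 _ (by omega) (by omega),
        by simp only [v1, Finset.mem_coe]; exact a1 _ (by omega) (by omega)⟩
    by_cases c4 : l = p 2
    · exact Or.inl ⟨2, by rw [c4, v2]⟩
    · exact Or.inr ⟨2, by simp only [v2, Finset.mem_coe]; exact a2 _ (by omega) (by omega),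
        by simp only [v2, Finset.mem_coe]; exact a2 _ (by omega) (by omega)⟩
  · intro i x hx y hy
    have h1 := (P.con _ (hle i) x hx y hy).2
    have key : ∀ {y : ℂ}, Relation.ReflTransGen (fun a b => Adj S a b ∧ b ∈ (A i.val : Set ℂ)) x y →
        y ∈ (A i.val : Set ℂ) ∧ Relation.ReflTransGen
          (fun a b => a ∈ (A i.val : Set ℂ) ∧ b ∈ (A i.val : Set ℂ) ∧ Adj S a b) x y := by
      intro y hy
      induction hy with
      | refl => exact ⟨hx, Relation.ReflTransGen.refl⟩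
      | tail _ h2 ih => exact ⟨h2.2, ih.2.tail ⟨ih.1, h2.2, h2.1⟩⟩
    exact (key h1).2

/-- three classes as a polygon -/
theorem Tg.pg (O : Tg S B r) (H : HullCyc S n w) : ∃ p : ℕ → ℤ,
    Pg S n w 2 p (fun k => S.filter fun v => v ∈ B (k : ZMod 3)) ∧
    ∀ k : ℕ, k ≤ 2 → r (k : ZMod 3) = (w (p k), w (p k + 1)) := by
  obtain ⟨j0, j1, j2, h1, h2, h3, e0, e1, e2, f0, f1, f2⟩ := O.pos3 H
  have hcast : ∀ k : ℕ, k ≤ 2 → k = 0 ∨ k = 1 ∨ k = 2 := by intro k hk; omega
  have hf : ∀ {i : ZMod 3} {v : ℂ}, v ∈ B i → v ∈ S.filter fun v => v ∈ B i := fun h =>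
    Finset.mem_filter.2 ⟨O.sub _ h, h⟩
  refine ⟨fun k => if k = 0 then j0 else if k = 1 then j1 else j2, ?_, ?_⟩
  · refine ⟨O.gp, H, ?_, ?_, ?_, ?_, ?_, ?_, ?_⟩
    · intro j hj
      obtain rfl | rfl : j = 0 ∨ j = 1 := by omega
      · simpa using h1
      · simpa using h2
    · simpa using h3
    · intro j _
      exact Finset.filter_subset _ _
    · intro i j hi hj hij
      rw [Finset.disjoint_left]
      intro v hv hv'
      have h4 := O.uniq (Finset.mem_filter.1 hv).2 (Finset.mem_filter.1 hv').2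
      apply hij
      rcases hcast i hi with rfl | rfl | rfl <;> rcases hcast j hj with rfl | rfl | rfl <;>
        first
        | rfl
        | (exfalso; revert h4; decide)
    · intro j _ x hx y hy
      refine ⟨hx, ?_⟩
      have hx' := (Finset.mem_filter.1 hx).2
      have hy' := (Finset.mem_filter.1 hy).2
      refine Relation.ReflTransGen.mono ?_ _ _ (O.con _ x hx' y hy')
      rintro a b ⟨-, h5, h6⟩
      exact ⟨h6, by exact_mod_cast hf h5⟩
    · intro j hj k hk1 hk2
      obtain rfl | rfl : j = 0 ∨ j = 1 := by omega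
      · have := f0 k (by simpa using hk1) (by simpa using hk2)
        exact Finset.mem_filter.2 ⟨O.sub _ this, by simpa using this⟩
      · have := f1 k (by simpa using hk1) (by simpa using hk2)
        exact Finset.mem_filter.2 ⟨O.sub _ this, by simpa using this⟩
    · intro k hk1 hk2
      have := f2 k (by simpa using hk1) (by simpa using hk2)
      exact Finset.mem_filter.2 ⟨O.sub _ this, by simpa using this⟩
  · intro k hk
    rcases hcast k hk with rfl | rfl | rfl
    · simpa using e0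
    · simpa using e1
    · simpa using e2

end pg

end Crest.Agent.R143.PgNx848
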