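import Crest.Agent.R143.Bnd_377
import Crest.Agent.R143.HitL_54
import Crest.Agent.R143.PgN_848

/-!
# Row 143 (S0194), CONT, leaf (D1): the totals of the explored networks are static

* `Fr S K` = sites on no side; `free_of` : 117's `Free`; `dj_of` : disjoint sides
* `alive_net` : an alive state `x` gives `HNet`, `Pairs`, `Dj`, `Free`, `Tr` and attached killed
  edges for `knet N x.1`
* `Y_static` : **`Y S N (rr z) x = 3 * ∑ i, omz i * ec (Fr S K) (fun T => z (yv K i T))`**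
* `Y_we`, `Y_wd` : the same for the weights `we`, `wd`
-/

set_option autoImplicit false

noncomputable section

open scoped Classical

namespace Crest.Agent.R143.Mabx377

open Crest.Agent.R143.B0x346 Crest.Agent.R143.B0Dx346
open Crest.Agent.R143.Oscx63 Crest.Agent.R143.J1x872 Crest.Agent.R143.JCardx872
open Crest.Agent.R143.JWalkx872 Crest.Agent.R143.J4x872 Crest.Agent.R143.Bsumx848
open Crest.Agent.R143.Sidesx697 (Wall Side)

open Crest.Agent.R143.Massx848 (Pairs)
open Crest.Agent.R143.AsmNx758 (we wd)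
open Crest.Agent.R143.HitLx54 (Dj sA yv ec)
open Crest.Agent.R143.K33x877 (Tr fr)

variable {S : Finset ℂ} {N : Net ℂ}

/-- the sites on no side -/
def Fr (S : Finset ℂ) (K : Net ℂ) : Finset ℂ := S.filter fun v => ∀ i, ¬ Side K i v

theorem free_of (h : HNet S N) (hpr : Pairs N)
    (hkl : ∀ a b : ℂ, (a, b) ∈ N.kl → (a, b) ∈ N.E → ∃ i, Side N i a) :
    Crsx117.Free S N (Fr S N) := by
  have hull : ∀ a b, hullE S a b → (∃ i, Side N i a) ∧ ∃ i, Side N i b := fun a b hab =>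
    (PgNx848.tg_of_net h hpr).hull_cls hab
  refine ⟨Finset.filter_subset _ _, ?_, ?_, ?_⟩
  · intro a ha b hab hk
    obtain ⟨i, hi⟩ := hkl a b hk ((JCol2x54.mem_E h.tri).2 hab)
    exact (Finset.mem_filter.1 ha).2 i hi
  · intro a ha b
    constructor
    · intro hab
      obtain ⟨⟨i, hi⟩, -⟩ := hull a b hab
      exact (Finset.mem_filter.1 ha).2 i hi
    · intro hab
      obtain ⟨-, ⟨i, hi⟩⟩ := hull b a hab
      exact (Finset.mem_filter.1 ha).2 i hi
  · intro v hv hv'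
    by_contra hc
    push Not at hc
    exact hv' (Finset.mem_filter.2 ⟨hv, hc⟩)

theorem dj_of (h : HNet S N) (hpr : Pairs N) : Dj N := fun _ _ _ hi hj =>
  Bsumx848.side_disj (Sidesx697.marks3_of h) (Sidesx697.hasCol h) hpr hi hj

/-- the network of an alive state -/
theorem alive_net (h : HNet S N)
    (hkl : ∀ a b : ℂ, (a, b) ∈ N.kl → (a, b) ∈ N.E → ∃ i, Side N i a)
    {x : St ℂ} (hok : Ok N x.1 x.2) (hA : Alive S N x) :
    HNet S (knet N x.1) ∧ Pairs (knet N x.1) ∧ Dj (knet N x.1) ∧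
      Crsx117.Free S (knet N x.1) (Fr S (knet N x.1)) ∧ Tr S (sA S (knet N x.1)) ∧
      (∀ a b : ℂ, (a, b) ∈ (knet N x.1).kl → (a, b) ∈ (knet N x.1).E →
        ∃ i, Side (knet N x.1) i a) := by
  have h2 := alive_ex2 hA
  have hN := hnet_ok h hok h2
  have hpr := alive_pairs h hok hA
  have hk := kl_side h hkl hok h2
  have hd := dj_of hN hpr
  exact ⟨hN, hpr, hd, free_of hN hpr hk, HitLx54.tr_of hN hd, hk⟩

/-- **(D1)** the total of an explored network is a mean over fair colourings of its free sites -/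
theorem Y_static (h : HNet S N)
    (hkl : ∀ a b : ℂ, (a, b) ∈ N.kl → (a, b) ∈ N.E → ∃ i, Side N i a)
    {x : St ℂ} (hok : Ok N x.1 x.2) (hA : Alive S N x) (z : ℂ → ℂ) :
    Y S N (rr z) x = 3 * ∑ i : ZMod 3, omz i *
      ec (Fr S (knet N x.1)) fun T => z (yv (knet N x.1) i T) := by
  obtain ⟨hN, -, hd, hF, -, -⟩ := alive_net h hkl hok hA
  rw [Y_eq_TT h hA z]
  exact HitLx54.TT_static hN hd hF z

/-- the weight `z b - z a` -/
theorem Y_static' (h : HNet S N)
    (hkl : ∀ a b : ℂ, (a, b) ∈ N.kl → (a, b) ∈ N.E → ∃ i, Side N i a)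
    {x : St ℂ} (hok : Ok N x.1 x.2) (hA : Alive S N x) (z : ℂ → ℂ) :
    Y S N (fun t => z t.2.1 - z t.1) x = (1 - om) * ∑ i : ZMod 3, omz i *
      ec (Fr S (knet N x.1)) fun T => z (yv (knet N x.1) i T) := by
  rw [Y_diff h z x, Y_static h hkl hok hA z]
  ring

theorem Y_we (h : HNet S N)
    (hkl : ∀ a b : ℂ, (a, b) ∈ N.kl → (a, b) ∈ N.E → ∃ i, Side N i a)
    {x : St ℂ} (hok : Ok N x.1 x.2) (hA : Alive S N x) :
    Y S N we x = (1 - om) * ∑ i : ZMod 3, omz i *
      ec (Fr S (knet N x.1)) fun T => yv (knet N x.1) i T :=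
  Y_static' h hkl hok hA id

theorem Y_wd (h : HNet S N)
    (hkl : ∀ a b : ℂ, (a, b) ∈ N.kl → (a, b) ∈ N.E → ∃ i, Side N i a)
    {x : St ℂ} (hok : Ok N x.1 x.2) (hA : Alive S N x) :
    Y S N wd x = (1 - om) * ∑ i : ZMod 3, omz i *
      ec (Fr S (knet N x.1)) fun T => (starRingEnd ℂ) (yv (knet N x.1) i T) := by
  have h1 := Y_static' h hkl hok hA (starRingEnd ℂ)
  rw [← h1]
  congr 1
  funext t
  unfold wd
  rw [map_sub]

/-- the free sites of 877 -/
theorem fr_eq' {K : Net ℂ} : fr S (sA S K) = (Fr S K : Set ℂ) := by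
  ext v
  unfold Fr
  rw [Finset.mem_coe, Finset.mem_filter]
  exact Iff.rfl

end Crest.Agent.R143.Mabx377
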