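import Crest.Agent.R143.T5_802
import Crest.Agent.R143.Scal_63

/-!
# Row 143 (S0194), block D3: boundary conditions and the value near `b`, deterministic part
(helper802)

* `RoomB` : the dyadic annuli around a boundary point `p`
* `circle_b` : a circle around `p` such that the sum of `‖N.Q t‖` over the triangles meeting it is small
* `BD` : the triangles `T1` in the local component of the body, inner sites `inn`, every other
  vertex is on the side `i`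
* `det` : heights of the observable over the side `i`, horizontal oscillation
-/

set_option autoImplicit false

noncomputable section

open scoped Classical

namespace Crest.Agent.R143.D3Ax802

open Set MeasureTheory
open Crest.Agent.R143.B0x346 Crest.Agent.R143.B0Dx346 Crest.Agent.R143.Oscx63
open Crest.Agent.R143.DelGx806 Crest.Agent.R143.Circx63 Crest.Agent.R143.Scalx63
open Crest.Agent.R143.EQ2x63 Crest.Agent.R143.Ex0x922 Crest.Agent.R143.Wlkx802
open Crest.Agent.R143.LenAreax63 Crest.Agent.R143.Sidesx697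

/-! ### a good circle -/

/-- dyadic annuli around the boundary point `p` -/
structure RoomB (S : Finset ℂ) (N : Net ℂ) (p : ℂ) (k0 : ℤ) (n : ℕ) (d C : ℝ) : Prop where
  hn : 0 < n
  C0 : 0 ≤ C
  mesh : ∀ t ∈ delT S, (cT t ∩ Metric.closedBall p ((2 : ℝ) ^ k0)).Nonempty → dm t ≤ d
  cov : ∀ y ∈ Metric.closedBall p ((2 : ℝ) ^ k0), ∃ t ∈ delT S, y ∈ cT t
  rel : ∀ t ∈ delT S, (cT t ∩ Metric.closedBall p ((2 : ℝ) ^ k0)).Nonempty → RelAt N t
  en : ∀ U ⊆ delT S, ∑ t ∈ U, ‖N.Q t‖ ^ 2 ≤ 12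
  m4 : ∀ k ∈ Finset.Ico (k0 - n) k0,
    ∑ t ∈ (delT S).filter (fun t => lo p t ≤ (2 : ℝ) ^ (k + 1) ∧ (2 : ℝ) ^ k ≤ hi p t),
      dm t ^ 2 ≤ C * (4 : ℝ) ^ k
  /-- a triangle with killed sides only meets every circle -/
  kill : ∀ ρ : ℝ, (2 : ℝ) ^ (k0 - n) ≤ ρ → ρ ≤ (2 : ℝ) ^ k0 → ∃ s ∈ delT S,
    (cT s ∩ Metric.sphere p ρ).Nonempty ∧ ∀ f, ¬ LSide N s f

variable {S : Finset ℂ} {N : Net ℂ} {p : ℂ} {k0 : ℤ} {n : ℕ} {d C : ℝ}

/-- the triangles which meet the circle -/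
def onC (S : Finset ℂ) (p : ℂ) (ρ : ℝ) : Finset (ℂ × ℂ × ℂ) :=
  (delT S).filter fun t => (cT t ∩ Metric.sphere p ρ).Nonempty

/-- **a good circle** -/
theorem circle_b (h : RoomB S N p k0 n d C) :
    ∃ ρ : ℝ, (2 : ℝ) ^ (k0 - n) ≤ ρ ∧ ρ ≤ (2 : ℝ) ^ k0 ∧ (∀ s ∈ S, ‖s - p‖ ≠ ρ) ∧
      Real.sqrt 3 * ∑ t ∈ onC S p ρ, ‖N.Q t‖ ≤ om2 C n := by
  set U := (delT S).filter fun t => (cT t ∩ Metric.closedBall p ((2 : ℝ) ^ k0)).Nonempty with hU
  have hUS : U ⊆ delT S := Finset.filter_subset _ _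
  have hK : (Finset.Ico (k0 - n) k0).Nonempty := by
    rw [Finset.nonempty_Ico]
    have := h.hn
    omega
  have hcard : ((Finset.Ico (k0 - n) k0).card : ℝ) = n := by
    rw [Int.card_Ico]
    norm_num
  set A : ℤ → Set ℝ := fun k => Icc ((2 : ℝ) ^ k) ((2 : ℝ) ^ (k + 1)) \
    ((S.image fun s => ‖s - p‖ : Finset ℝ) : Set ℝ) with hA
  have hcr : ∀ t ∈ U, 0 < cr (t.2.1 - t.1) (t.2.2 - t.1) := by
    intro t ht
    obtain ⟨o, h⟩ := mem_delT_iff.1 (show (t.1, t.2.1, t.2.2) ∈ delT S from hUS ht)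
    exact h.pos
  have hAc : ∀ k ∈ Finset.Ico (k0 - n) k0, 1 * (2 : ℝ) ^ k ≤ (volume : Measure ℝ).real (A k) := by
    intro k _
    have h0 : (volume : Measure ℝ) ((S.image fun s => ‖s - p‖ : Finset ℝ) : Set ℝ) = 0 :=
      (Finset.finite_toSet _).measure_zero _
    have h1 : (volume : Measure ℝ) (A k) = volume (Icc ((2 : ℝ) ^ k) ((2 : ℝ) ^ (k + 1))) := by
      rw [hA]
      exact measure_sdiff_null h0
    have h2 : (2 : ℝ) ^ (k + 1) - (2 : ℝ) ^ k = (2 : ℝ) ^ k := by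
      rw [zpow_add₀ (by norm_num)]; ring
    rw [Measure.real, h1, Real.volume_Icc, h2, ENNReal.toReal_ofReal (by positivity), one_mul]
  obtain ⟨k, hk, ρ, hρ, hsum⟩ := len_area_dyadic U (fun t => ‖N.Q t‖) (lo p) (hi p)
    (fun t _ => norm_nonneg _) (fun t ht => (hi_sub_lo (hcr t ht)).1) h.C0 (Finset.Ico (k0 - n) k0)
    hK (by
      intro k hk
      refine le_trans (Finset.sum_le_sum (g := fun t => dm t ^ 2) fun t ht => ?_) ?_
      · have h1 := hi_sub_lo (x := p) (hcr t (Finset.mem_filter.mp ht).1)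
        have h2 : 0 ≤ hi p t - lo p t := by linarith [h1.1]
        exact pow_le_pow_left₀ h2 h1.2 2
      · refine le_trans (Finset.sum_le_sum_of_subset_of_nonneg ?_ fun t _ _ => sq_nonneg _)
          (h.m4 k hk)
        intro t ht
        rw [Finset.mem_filter] at ht ⊢
        exact ⟨hUS ht.1, ht.2⟩)
    A (fun k _ => measurableSet_Icc.diff (Finset.finite_toSet _).measurableSet)
    (fun k _ => sdiff_subset) one_pos hAc
  rw [Finset.mem_Ico] at hk
  have hρ1 : (2 : ℝ) ^ (k0 - n) ≤ ρ :=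
    (zpow_le_zpow_right₀ (by norm_num) hk.1).trans hρ.1.1
  have hρ2 : ρ ≤ (2 : ℝ) ^ k0 := hρ.1.2.trans (zpow_le_zpow_right₀ (by norm_num) (by omega))
  refine ⟨ρ, hρ1, hρ2, ?_, ?_⟩
  · intro s hs hcon
    apply hρ.2
    rw [Finset.mem_coe, Finset.mem_image]
    exact ⟨s, hs, hcon⟩
  · unfold om2
    apply mul_le_mul_of_nonneg_left _ (Real.sqrt_nonneg _)
    have hsub : onC S p ρ ⊆ U.filter (fun t => lo p t ≤ ρ ∧ ρ ≤ hi p t) := by
      intro t ht
      unfold onC at ht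
      rw [Finset.mem_filter] at ht
      obtain ⟨ht, y, hy1, hy2⟩ := ht
      have hy3 : ‖y - p‖ = ρ := by rw [mem_sphere_iff_norm] at hy2; exact hy2
      obtain ⟨o, hT⟩ := mem_delT_iff.1 (show (t.1, t.2.1, t.2.2) ∈ delT S from ht)
      rw [hU, Finset.mem_filter, Finset.mem_filter]
      refine ⟨⟨ht, ⟨y, hy1, ?_⟩⟩, ?_, ?_⟩
      · exact Metric.sphere_subset_closedBall.trans (Metric.closedBall_subset_closedBall hρ2) hy2
      · rw [← hy3]; exact lo_le hy1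
      · rw [← hy3]; exact le_hi hT.pos hy1
    refine (Finset.sum_le_sum_of_subset_of_nonneg hsub fun t _ _ => norm_nonneg _).trans ?_
    refine hsum.trans ?_
    rw [inv_one, one_mul, hcard]
    apply Real.sqrt_le_sqrt
    have h12 := h.en U hUS
    have hC := h.C0
    gcongr

/-! ### heights over a side of the big triangle -/

/-- the direction of the side `i` -/
def sd (i : ZMod 3) : ℂ := omz (i + 1) - omz i

theorem omz_ne (i : ZMod 3) : omz i ≠ 0 := by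
  unfold omz
  apply pow_ne_zero
  intro h0
  have := norm_om
  rw [h0] at this
  simp at this

theorem sd_eq (i : ZMod 3) : sd i = (om - 1) * omz i := by
  unfold sd
  rw [omz_add_one]; ring

theorem norm_omz (k : ZMod 3) : ‖omz k‖ = 1 := by
  rw [omz, norm_pow, norm_om, one_pow]

theorem norm_sd (i : ZMod 3) : ‖sd i‖ = Real.sqrt 3 := by
  rw [sd_eq, norm_mul, norm_omz, mul_one, ← norm_neg, neg_sub, norm_one_sub_om]

theorem sd_ne (i : ZMod 3) : sd i ≠ 0 := by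
  rw [← norm_pos_iff, norm_sd]
  positivity

theorem one_le_sd (i : ZMod 3) : 1 ≤ ‖sd i‖ := by
  rw [norm_sd]
  rw [Real.one_le_sqrt]
  norm_num

/-- the height over the side `i`, in units of the side -/
def hgt (i : ZMod 3) (z : ℂ) : ℝ := ((z - omz i) / sd i).im

theorem hgt_conv (i : ZMod 3) (M : ℝ) : Convex ℝ {z : ℂ | M ≤ hgt i z} := by
  intro x hx y hy a b ha hb hab
  have hx' : M ≤ ((x - omz i) / sd i).im := hx
  have hy' : M ≤ ((y - omz i) / sd i).im := hy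
  show M ≤ ((a • x + b • y - omz i) / sd i).im
  have e : (a • x + b • y - omz i) / sd i =
      (a : ℂ) * ((x - omz i) / sd i) + (b : ℂ) * ((y - omz i) / sd i) := by
    have : (a : ℂ) + b = 1 := by exact_mod_cast hab
    simp only [Complex.real_smul]
    linear_combination (omz i / sd i) * this
  rw [e, Complex.add_im, Complex.im_ofReal_mul, Complex.im_ofReal_mul]
  have h5 := mul_le_mul_of_nonneg_left hx' ha
  have h6 := mul_le_mul_of_nonneg_left hy' hb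
  have h7 : a * M + b * M = M := by rw [← add_mul, hab, one_mul]
  linarith

theorem omz_cases (i j : ZMod 3) : j = i ∨ j = i + 1 ∨ j = i + 2 := by
  revert i j; decide

theorem hgt_omz (i j : ZMod 3) : 0 ≤ hgt i (omz j) := by
  unfold hgt
  have hs := sd_ne i
  rcases omz_cases i j with rfl | rfl | rfl
  · simp
  · have : (omz (i + 1) - omz i) / sd i = 1 := by
      rw [← sd, div_self hs]
    rw [this]; simp
  · have e : (omz (i + 2) - omz i) / sd i = om + 1 := by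
      rw [div_eq_iff hs, sd_eq, show i + 2 = (i + 1) + 1 by ring, omz_add_one, omz_add_one]
      ring
    rw [e, Complex.add_im, om_im, Complex.one_im, add_zero]
    positivity

theorem hull_omz : convexHull ℝ {1, om, om ^ 2} ⊆ convexHull ℝ (Set.range omz) := by
  apply convexHull_mono
  rintro z (rfl | rfl | rfl)
  · exact ⟨0, by show om ^ (0 : ZMod 3).val = 1; simp⟩
  · exact ⟨1, by
      show om ^ (1 : ZMod 3).val = om
      have : (1 : ZMod 3).val = 1 := rfl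
      rw [this, pow_one]⟩
  · exact ⟨2, rfl⟩

/-- every value is on the right side of the side `i` -/
theorem hgt_nonneg (hN : HNet S N) (i : ZMod 3) (a b : ℂ) : 0 ≤ hgt i (N.F a b) := by
  have h1 := hull_omz (Exx395.F_mem (J1x872.good_of_hnet hN) a b)
  refine convexHull_min (s := Set.range omz) ?_ (hgt_conv i 0) h1
  rintro z ⟨j, rfl⟩
  exact hgt_omz i j

/-- the values at the edges of the side `i` -/
theorem hgt_side (hN : HNet S N) {i : ZMod 3} {a b c : ℂ} (hex : ExM N (a, b, c))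
    (hk : (a, b) ∉ N.kl) (hm : (a, b) ∉ N.exS) (hm' : (b, a) ∉ N.exS)
    (hs : Side N i a ∨ Side N i b) : hgt i (N.F a b) = 0 ∧ hgt i (N.F b a) = 0 := by
  have hpos := Exx395.hj_pos (J1x872.good_of_hnet hN) hex hk hm
  have hne : (N.hj a b).Nonempty ∨ (N.hj b a).Nonempty := by
    by_contra hcon
    rw [not_or, Finset.not_nonempty_iff_eq_empty, Finset.not_nonempty_iff_eq_empty] at hcon
    rw [hcon.1, hcon.2] at hpos
    simp at hpos
  obtain ⟨-, -, h3⟩ := F_side hN hm hm' hs hne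
  have key : hgt i (N.F a b) = 0 := by
    unfold hgt
    have e : (N.F a b - omz i) / sd i = ((Net.pe N a b (i + 1) : ℝ) : ℂ) := by
      rw [div_eq_iff (sd_ne i), h3]
      unfold sd
      push_cast
      ring
    rw [e, Complex.ofReal_im]
  exact ⟨key, by rw [F_comm N b a]; exact key⟩

/-! ### the local component -/

/-- the triangles `T1` of the local component (joined to the marks), inner sites `inn`; near `X`
every vertex is inner or on the side `i`, every killed edge is on the side `i` -/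
structure BD (S : Finset ℂ) (N : Net ℂ) (i : ZMod 3) (X : Set ℂ) (T1 : Set (ℂ × ℂ × ℂ))
    (inn : Set ℂ) : Prop where
  sub : ∀ t ∈ T1, t ∈ delT S
  rot : ∀ a b c, (a, b, c) ∈ T1 → (b, c, a) ∈ T1
  exm : ∀ t ∈ T1, ExM N t
  adj : ∀ a b c e, (a, b, c) ∈ T1 → (cT (a, b, c) ∩ X).Nonempty → (b, a, e) ∈ delT S →
    (a, b) ∉ N.kl → (b, a, e) ∈ T1
  vert : ∀ a b c, (a, b, c) ∈ T1 → (cT (a, b, c) ∩ X).Nonempty → a ∈ inn ∨ Side N i a
  kill : ∀ a b c, (a, b, c) ∈ T1 → (cT (a, b, c) ∩ X).Nonempty → (a, b) ∈ N.kl →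
    Side N i a ∧ Side N i b
  full : ∀ v ∈ inn, v ∈ X → Full N v
  mark : ∀ a b c, (a, b, c) ∈ T1 → (cT (a, b, c) ∩ X).Nonempty → (a, b) ∉ N.exS ∧ (b, a) ∉ N.exS

variable {i : ZMod 3} {X Y : Set ℂ} {T1 : Set (ℂ × ℂ × ℂ)} {inn : Set ℂ}

theorem BD.rots (hB : BD S N i X T1 inn) {t t' : ℂ × ℂ × ℂ} (ht : t ∈ T1) (h : t' ∈ rots t) :
    t' ∈ T1 := by
  obtain ⟨a, b, c⟩ := t
  rcases rots_cases h with rfl | rfl | rfl
  · exact ht
  · exact hB.rot _ _ _ ht
  · exact hB.rot _ _ _ (hB.rot _ _ _ ht)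

theorem near_rot {a b c : ℂ} (h : (cT (a, b, c) ∩ X).Nonempty) :
    (cT (b, c, a) ∩ X).Nonempty := by
  obtain ⟨y, h1, h2⟩ := h
  exact ⟨y, InT.rot h1, h2⟩

/-- a live side of a triangle of `T1` near `X` -/
def Inv (N : Net ℂ) (X : Set ℂ) (T1 : Set (ℂ × ℂ × ℂ)) (e : ℂ × ℂ) : Prop :=
  ∃ t ∈ T1, (cT t ∩ X).Nonempty ∧ LSide N t e

/-- sides of a triangle as rotations -/
theorem side_rots {t : ℂ × ℂ × ℂ} {e : ℂ × ℂ} (h : LSide N t e) :
    ∃ c, (e.1, e.2, c) ∈ rots t ∨ (e.2, e.1, c) ∈ rots t := by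
  obtain ⟨a, b, c⟩ := t
  obtain ⟨-, h2⟩ := h
  simp only at h2
  rcases h2 with rfl | rfl | rfl | rfl | rfl | rfl
  · exact ⟨c, Or.inl (by simp [rots])⟩
  · exact ⟨a, Or.inl (by simp [rots])⟩
  · exact ⟨b, Or.inl (by simp [rots])⟩
  · exact ⟨c, Or.inr (by simp [rots])⟩
  · exact ⟨a, Or.inr (by simp [rots])⟩
  · exact ⟨b, Or.inr (by simp [rots])⟩

/-- a triangle with a side in `Inv` is in `T1` -/
theorem Inv.tri (hN : HNet S N) (hB : BD S N i X T1 inn) {e : ℂ × ℂ} (h : Inv N X T1 e)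
    {t : ℂ × ℂ × ℂ} (ht : t ∈ delT S) (hl : LSide N t e) : t ∈ T1 := by
  obtain ⟨t1, h1, h2, h3⟩ := h
  obtain ⟨x, y⟩ := e
  obtain ⟨c1, hc1⟩ := side_rots h3
  obtain ⟨c, hc⟩ := side_rots hl
  simp only at hc1 hc
  have hk : (x, y) ∉ N.kl := hl.1
  have hk' : (y, x) ∉ N.kl := fun h => hk (N.klsym _ _ h)
  have near1 : ∀ t' ∈ rots t1, (cT t' ∩ X).Nonempty := by
    intro t' ht'
    rw [cT_rots ht']; exact h2
  have huniq := (g1 S hN.gp).2.1
  rcases hc1 with g | g <;> rcases hc with g' | g'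
  · have e1 : (x, y, c1) ∈ T1 := hB.rots h1 g
    have e2 : (x, y, c) ∈ delT S := delT_rots hN.gp g' ht
    have : c1 = c := huniq _ _ _ _ (hB.sub _ e1) e2
    subst this
    exact hB.rots e1 (Circx63.rots_symm g')
  · have e1 : (x, y, c1) ∈ T1 := hB.rots h1 g
    have e2 : (y, x, c) ∈ delT S := delT_rots hN.gp g' ht
    exact hB.rots (hB.adj _ _ _ _ e1 (near1 _ g) e2 hk) (Circx63.rots_symm g')
  · have e1 : (y, x, c1) ∈ T1 := hB.rots h1 g
    have e2 : (x, y, c) ∈ delT S := delT_rots hN.gp g' ht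
    exact hB.rots (hB.adj _ _ _ _ e1 (near1 _ g) e2 hk') (Circx63.rots_symm g')
  · have e1 : (y, x, c1) ∈ T1 := hB.rots h1 g
    have e2 : (y, x, c) ∈ delT S := delT_rots hN.gp g' ht
    have : c1 = c := huniq _ _ _ _ (hB.sub _ e1) e2
    subst this
    exact hB.rots e1 (Circx63.rots_symm g')

/-- `Inv` propagates along chains of triangles near `X` -/
theorem Inv.conn (hN : HNet S N) (hB : BD S N i X T1 inn) {A : Finset (ℂ × ℂ × ℂ)}
    (hA : ∀ t ∈ A, t ∈ delT S ∧ (cT t ∩ X).Nonempty) {e f : ℂ × ℂ} (h : Inv N X T1 e)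
    (hc : Conn N A e f) : Inv N X T1 f := by
  induction hc with
  | refl => exact h
  | tail _ hs ih =>
    obtain ⟨t, ht, h1, h2⟩ := hs
    exact ⟨t, ih.tri hN hB (hA t ht).1 h1, (hA t ht).2, h2⟩

/-! ### the deterministic estimate -/

/-- the triangles at an inner vertex -/
theorem star (hN : HNet S N) (hB : BD S N i X T1 inn) {v : ℂ} (hv : v ∈ inn) (hvX : v ∈ X)
    {b c : ℂ} (h : (v, b, c) ∈ T1) {a' b' : ℂ} (h' : (v, a', b') ∈ delT S) : (v, a', b') ∈ T1 := by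
  obtain ⟨m, u, hr, hl, hall⟩ := hB.full v hv hvX
  obtain ⟨i0, rfl, rfl⟩ := hall b c (by rw [hN.tri]; exact hB.sub _ h)
  obtain ⟨j0, rfl, rfl⟩ := hall a' b' (by rw [hN.tri]; exact h')
  have key : ∀ k : ℕ, (v, u (i0 + k), u (i0 + k + 1)) ∈ T1 := by
    intro k
    induction k with
    | zero => simpa using h
    | succ k ih =>
      have h1 : (u (i0 + k + 1), v, u (i0 + k)) ∈ T1 := hB.rot _ _ _ (hB.rot _ _ _ ih)
      have h2 : (v, u (i0 + k + 1), u (i0 + k + 1 + 1)) ∈ delT S := by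
        rw [← hN.tri]; exact hr.mem _
      obtain ⟨o, hT⟩ := mem_delT_iff.1 (hB.sub _ h1)
      have h3 := hB.adj _ _ _ _ h1 ⟨v, (vertex_mem hT.pos).2.1, hvX⟩ h2
        (fun h4 => hl (i0 + k + 1) (N.klsym _ _ h4))
      push_cast
      rw [← add_assoc]
      exact h3
  have hdz : (0 : ℤ) < m := by exact_mod_cast hr.pos
  have h2 := key ((j0 - i0) % m).toNat
  have h3 := DelRx806.mod_per hr.pos (w := fun k => u (i0 + k))
    (fun k => by show u (i0 + (k + m)) = u (i0 + k); rw [← add_assoc, hr.per]) (j0 - i0)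
  have h4 := DelRx806.mod_per hr.pos (w := fun k => u (i0 + k + 1))
    (fun k => by
      show u (i0 + (k + m) + 1) = u (i0 + k + 1)
      rw [show i0 + (k + m) + 1 = (i0 + k + 1) + m by ring, hr.per]) (j0 - i0)
  rw [Int.toNat_of_nonneg (Int.emod_nonneg (j0 - i0) hdz.ne')] at h2
  rw [h3, h4] at h2
  rw [show i0 + (j0 - i0) = j0 by ring] at h2
  exact h2

/-- the inner sites of the component in the ball or in `Y` -/
def WW (S : Finset ℂ) (p : ℂ) (ρ : ℝ) (Y : Set ℂ) (T1 : Set (ℂ × ℂ × ℂ)) (inn : Set ℂ) : Finset ℂ :=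
  S.filter fun v => v ∈ inn ∧ (‖v - p‖ < ρ ∨ v ∈ Y) ∧ ∃ b c, (v, b, c) ∈ T1

theorem mem_WW {ρ : ℝ} {v : ℂ} : v ∈ WW S p ρ Y T1 inn ↔
    v ∈ S ∧ v ∈ inn ∧ (‖v - p‖ < ρ ∨ v ∈ Y) ∧ ∃ b c, (v, b, c) ∈ T1 := by
  unfold WW; rw [Finset.mem_filter]

/-- hypotheses of the deterministic estimate -/
structure Hyp (S : Finset ℂ) (N : Net ℂ) (i : ZMod 3) (p : ℂ) (k0 : ℤ) (n : ℕ) (d C : ℝ)
    (Y : Set ℂ) (T1 : Set (ℂ × ℂ × ℂ)) (inn : Set ℂ) : Prop where
  e3 : E3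
  net : HNet S N
  room : RoomB S N p k0 n d C
  bd : BD S N i (Metric.closedBall p ((2 : ℝ) ^ k0) ∪ Y) T1 inn
  ex : ∀ v ∈ Y, v ∈ inn → ∀ x y, (v, x, y) ∈ delT S → x ∈ inn →
    ‖x - p‖ < (2 : ℝ) ^ (k0 - n) ∨ x ∈ Y

section det

variable {ρ : ℝ} (H : Hyp S N i p k0 n d C Y T1 inn) (hρ1 : (2 : ℝ) ^ (k0 - n) ≤ ρ)
  (hρ2 : ρ ≤ (2 : ℝ) ^ k0)

include H hρ2

theorem WW_X {v : ℂ} (hv : v ∈ WW S p ρ Y T1 inn) :
    v ∈ Metric.closedBall p ((2 : ℝ) ^ k0) ∪ Y := by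
  obtain ⟨-, -, h3, -⟩ := mem_WW.1 hv
  rcases h3 with h3 | h3
  · left; rw [mem_closedBall_iff_norm]; linarith
  · exact Or.inr h3

theorem WW_full {v : ℂ} (hv : v ∈ WW S p ρ Y T1 inn) : Full N v :=
  H.bd.full v (mem_WW.1 hv).2.1 (WW_X H hρ2 hv)

theorem WW_star {v a b : ℂ} (hv : v ∈ WW S p ρ Y T1 inn) (h : (v, a, b) ∈ delT S) :
    (v, a, b) ∈ T1 := by
  obtain ⟨-, h2, -, b', c', h4⟩ := mem_WW.1 hv
  exact star H.net H.bd h2 (WW_X H hρ2 hv) h4 h

theorem WW_near {v a b : ℂ} (hv : v ∈ WW S p ρ Y T1 inn) (h : (v, a, b) ∈ delT S) :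
    (cT (v, a, b) ∩ (Metric.closedBall p ((2 : ℝ) ^ k0) ∪ Y)).Nonempty := by
  obtain ⟨o, hT⟩ := mem_delT_iff.1 h
  exact ⟨v, (vertex_mem hT.pos).1, WW_X H hρ2 hv⟩

include hρ1

/-- the ways out of `WW` -/
theorem WW_exit {v x y : ℂ} (hv : v ∈ WW S p ρ Y T1 inn) (h : (v, x, y) ∈ T1)
    (hx : x ∉ WW S p ρ Y T1 inn) : Side N i x ∨ (‖v - p‖ < ρ ∧ ρ ≤ ‖x - p‖) := by
  have hS := H.bd.sub _ h
  have h1 : (x, y, v) ∈ T1 := H.bd.rot _ _ _ h
  rcases H.bd.vert _ _ _ h1 (near_rot (WW_near H hρ2 hv hS)) with h2 | h2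
  · right
    have hxS : x ∈ S := (mem_delT.1 hS).2.1
    have h3 : ¬ (‖x - p‖ < ρ ∨ x ∈ Y) := fun h4 => hx (mem_WW.2 ⟨hxS, h2, h4, y, v, h1⟩)
    push Not at h3
    refine ⟨?_, h3.1⟩
    obtain ⟨-, hvi, h4, -⟩ := mem_WW.1 hv
    rcases h4 with h4 | h4
    · exact h4
    · rcases H.ex v h4 hvi x y hS h2 with h5 | h5
      · linarith [h3.1]
      · exact absurd h5 h3.2
  · exact Or.inl h2

/-- the height at a live edge which crosses the good circle -/
theorem hgt_circle (hρS : ∀ s ∈ S, ‖s - p‖ ≠ ρ)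
    (hsum : Real.sqrt 3 * ∑ t ∈ onC S p ρ, ‖N.Q t‖ ≤ om2 C n)
    {v x y : ℂ} (h : (v, x, y) ∈ T1) (hk : (v, x) ∉ N.kl) (hv : ‖v - p‖ < ρ) (hx : ρ ≤ ‖x - p‖) :
    hgt i (N.F v x) ≤ om2 C n := by
  have hN := H.net
  have hS := H.bd.sub _ h
  obtain ⟨o, hT⟩ := mem_delT_iff.1 hS
  obtain ⟨y0, hy1, hy2⟩ := seg_sph (x := p) hv.le hx
  have hsph : Metric.sphere p ρ ⊆ Metric.closedBall p ((2 : ℝ) ^ k0) :=
    Metric.sphere_subset_closedBall.trans (Metric.closedBall_subset_closedBall hρ2)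
  have hm : (cT (v, x, y) ∩ Metric.sphere p ρ).Nonempty := ⟨y0, seg_sub_cT hT.pos hy1, hy2⟩
  have hA : ∀ t ∈ onC S p ρ, t ∈ delT S ∧
      (cT t ∩ (Metric.closedBall p ((2 : ℝ) ^ k0) ∪ Y)).Nonempty := by
    intro t ht
    unfold onC at ht
    rw [Finset.mem_filter] at ht
    obtain ⟨ht, z, hz1, hz2⟩ := ht
    exact ⟨ht, z, hz1, Or.inl (hsph hz2)⟩
  obtain ⟨s1, g1', g2', g3'⟩ := H.room.kill ρ hρ1 hρ2
  have he : LSide N (v, x, y) (v, x) := LSide_of (Circx63.mem_rots_self _) hk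
  obtain ⟨s, hs, hsm, ⟨f, hf⟩, hfc, u, u', w, hr, hkill, -⟩ := (conn_alt (N := N) hN.gp
    (isPreconnected_sph p ρ) (fun z hz => H.room.cov z (hsph hz))
    (fun z hz hzS => hρS z hzS (by rw [mem_sphere_iff_norm] at hz; exact hz))
    (A := onC S p ρ)
    (fun t ht htm => ⟨t, by unfold onC; rw [Finset.mem_filter]; exact ⟨ht, htm⟩,
      Circx63.mem_rots_self t⟩) hS hm he).resolve_right (fun hall => by
        obtain ⟨f, hf⟩ := (hall s1 g1' g2').1
        exact g3' f hf)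
  have hconn := hfc f hf
  -- the value at `f` is on the side
  have hinv0 : Inv N (Metric.closedBall p ((2 : ℝ) ^ k0) ∪ Y) T1 (v, x) :=
    ⟨(v, x, y), h, ⟨y0, seg_sub_cT hT.pos hy1, Or.inl (hsph hy2)⟩, he⟩
  have hinv := hinv0.conn hN H.bd hA hconn
  have hsT : s ∈ T1 := hinv.tri hN H.bd hs hf
  have hsn : (cT s ∩ (Metric.closedBall p ((2 : ℝ) ^ k0) ∪ Y)).Nonempty := by
    obtain ⟨z, hz1, hz2⟩ := hsm
    exact ⟨z, hz1, Or.inl (hsph hz2)⟩
  have hT' : (u, u', w) ∈ T1 := H.bd.rots hsT hr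
  have hn1 : (cT (u, u', w) ∩ (Metric.closedBall p ((2 : ℝ) ^ k0) ∪ Y)).Nonempty := by
    rw [cT_rots hr]; exact hsn
  obtain ⟨s1, s2⟩ := H.bd.kill _ _ _ hT' hn1 hkill
  have hT2 := H.bd.rot _ _ _ hT'
  have hT3 := H.bd.rot _ _ _ hT2
  have hkill' : (u', u) ∈ N.kl := N.klsym _ _ hkill
  have hf' : LSide N (u, u', w) f := (LSide_rots hr).2 hf
  have hzero : hgt i (N.F f.1 f.2) = 0 := by
    obtain ⟨hfk, hf2⟩ := hf'
    simp only at hf2
    have m2 := H.bd.mark _ _ _ hT2 (near_rot hn1)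
    have m3 := H.bd.mark _ _ _ hT3 (near_rot (near_rot hn1))
    rcases hf2 with rfl | rfl | rfl | rfl | rfl | rfl
    · exact absurd hkill hfk
    · exact (hgt_side hN (H.bd.exm _ hT2) hfk m2.1 m2.2 (Or.inl s2)).1
    · exact (hgt_side hN (H.bd.exm _ hT3) hfk m3.1 m3.2 (Or.inr s1)).1
    · exact absurd hkill' hfk
    · exact (hgt_side hN (H.bd.exm _ hT2) (fun h => hfk (N.klsym _ _ h)) m2.1 m2.2
        (Or.inl s2)).2
    · exact (hgt_side hN (H.bd.exm _ hT3) (fun h => hfk (N.klsym _ _ h)) m3.1 m3.2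
        (Or.inr s1)).2
  have hosc := osc_conn (N := N) (onC S p ρ) (fun t ht => by
    unfold onC at ht
    rw [Finset.mem_filter] at ht
    obtain ⟨z, hz1, hz2⟩ := ht.2
    exact H.room.rel t ht.1 ⟨z, hz1, hsph hz2⟩) hconn
  have hdiff : hgt i (N.F v x) - hgt i (N.F f.1 f.2) ≤ ‖N.F v x - N.F f.1 f.2‖ := by
    unfold hgt
    rw [← Complex.sub_im]
    refine (le_abs_self _).trans ((Complex.abs_im_le_norm _).trans ?_)
    rw [show (N.F v x - omz i) / sd i - (N.F f.1 f.2 - omz i) / sd i =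
      (N.F v x - N.F f.1 f.2) / sd i by ring, norm_div]
    exact div_le_self (norm_nonneg _) (one_le_sd i)
  rw [hzero, sub_zero] at hdiff
  exact hdiff.trans (hosc.trans hsum)

omit hρ1 in
theorem dir_symm {v v' : ℂ} (hv : v ∈ WW S p ρ Y T1 inn)
    (h : Relation.ReflTransGen (fun v v' => v' ∈ WW S p ρ Y T1 inn ∧ ∃ b, (v, v', b) ∈ delT S)
      v v') : v' ∈ WW S p ρ Y T1 inn ∧
    Relation.ReflTransGen (fun v v' => v' ∈ WW S p ρ Y T1 inn ∧ ∃ b, (v, v', b) ∈ delT S)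
      v' v := by
  have hWk := T5x802.wk_net H.e3 H.net (W := WW S p ρ Y T1 inn) (fun v hv => WW_full H hρ2 hv)
  induction h with
  | refl => exact ⟨hv, Relation.ReflTransGen.refl⟩
  | @tail w w' _ hs ih =>
    obtain ⟨hw', b, hb⟩ := hs
    refine ⟨hw', Relation.ReflTransGen.head ⟨ih.1, ?_⟩ ih.2⟩
    obtain ⟨c, hc⟩ := hWk.prev ih.1 (by rw [H.net.tri]; exact hb)
    refine ⟨c, ?_⟩
    have := N.rot (N.rot hc)
    rwa [H.net.tri] at this

end det

/-- **the deterministic estimate** -/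
theorem det (H : Hyp S N i p k0 n d C Y T1 inn) :
    ∃ ρ : ℝ, (2 : ℝ) ^ (k0 - n) ≤ ρ ∧ ρ ≤ (2 : ℝ) ^ k0 ∧
      (∀ v ∈ WW S p ρ Y T1 inn, ∀ a b, (v, a, b) ∈ delT S →
        0 ≤ hgt i (N.F v a) ∧ hgt i (N.F v a) ≤ om2 C n) ∧
      ∀ v ∈ WW S p ρ Y T1 inn, ∀ v', Relation.ReflTransGen
        (fun v v' => v' ∈ WW S p ρ Y T1 inn ∧ ∃ b, (v, v', b) ∈ delT S) v v' →
        ∀ a b a' b', (v, a, b) ∈ delT S → (v', a', b') ∈ delT S →
        ‖N.F v' a' - N.F v a‖ ≤ 4 * om2 C n := by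
  obtain ⟨ρ, hρ1, hρ2, hρS, hsum⟩ := circle_b H.room
  refine ⟨ρ, hρ1, hρ2, ?_⟩
  have hN := H.net
  set W := WW S p ρ Y T1 inn with hW
  have hFull : ∀ v ∈ W, Full N v := fun v hv => WW_full H hρ2 hv
  have hCv : ∀ v ∈ W, ∀ (d : ℕ) (u : ℤ → ℂ), Ring N.toTrg v d u → (∀ i, (v, u i) ∉ N.kl) →
      N.Conv v d u := fun v _ d u h1 h2 => H.e3 S N hN v d u h1 h2
  have hRel : ∀ v ∈ W, ∀ a b, (v, a, b) ∈ delT S → N.F v a = N.F v b ∨ RelAt N (v, a, b) :=
    fun v hv a b h => T5x802.tile_or hN (hFull v hv) (by rw [hN.tri]; exact h)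
  have homn : 0 ≤ om2 C n := om2_nonneg C n
  -- ways out
  have hout : ∀ v ∈ W, ∀ x y, (v, x, y) ∈ delT S → x ∉ W → hgt i (N.F v x) ≤ om2 C n := by
    intro v hv x y h hx
    have hT := WW_star H hρ2 hv h
    have hl := (hFull v hv).live (a := x) (b := y) (by rw [hN.tri]; exact h)
    rcases WW_exit H hρ1 hρ2 hv hT hx with h1 | ⟨h1, h2⟩
    · have hm := H.bd.mark _ _ _ hT (WW_near H hρ2 hv h)
      rw [(hgt_side hN (H.bd.exm _ hT) hl.1 hm.1 hm.2 (Or.inr h1)).1]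
      exact homn
    · exact hgt_circle H hρ1 hρ2 hρS hsum hT hl.1 h1 h2
  have hheight : ∀ v ∈ W, ∀ a b, (v, a, b) ∈ delT S →
      0 ≤ hgt i (N.F v a) ∧ hgt i (N.F v a) ≤ om2 C n := by
    intro v hv a b h
    exact ⟨hgt_nonneg hN i v a, t5_lin hN.gp hN.tri hFull hCv hRel (omz i) (sd i) (om2 C n)
      hout hv h⟩
  refine ⟨hheight, ?_⟩
  -- horizontal oscillation
  set G : Finset (ℂ × ℂ × ℂ) := (onC S p ρ).filter fun t => t.1 ∈ W with hG
  have hsh : ∀ v ∈ W, ∀ v', Relation.ReflTransGen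
      (fun v v' => v' ∈ W ∧ ∃ b, (v, v', b) ∈ delT S) v v' → ∀ a b a' b', (v, a, b) ∈ delT S →
      (v', a', b') ∈ delT S → ((N.F v' a' - N.F v a) / sd i).re ≤ om2 C n := by
    intro v hv v' hc a b a' b' h h'
    refine (shadow_net hN.tri hFull hCv hRel (omz i) (sd i) G ?_ ?_ ?_ hv hc h h').trans ?_
    · intro t ht
      rw [hG, Finset.mem_filter] at ht
      unfold onC at ht
      rw [Finset.mem_filter] at ht
      exact ⟨ht.1.1, ht.2⟩
    · intro v hv a b h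
      exact (hheight v hv a b h).1
    · -- exits
      intro w hw x y hT hnG hk hor
      have hT1 := WW_star H hρ2 hw hT
      have hnear := WW_near H hρ2 hw hT
      obtain ⟨l1, l2⟩ := (hFull w hw).live (a := x) (b := y) (by rw [hN.tri]; exact hT)
      have hT2 := H.bd.rot _ _ _ hT1
      have hT3 := H.bd.rot _ _ _ hT2
      have m1 := H.bd.mark _ _ _ hT1 hnear
      have m2 := H.bd.mark _ _ _ hT2 (near_rot hnear)
      have m3 := H.bd.mark _ _ _ hT3 (near_rot (near_rot hnear))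
      obtain ⟨o, hTo⟩ := mem_delT_iff.1 hT
      -- an inner exit would cross the circle
      have sx : x ∉ W → Side N i x := by
        intro hx
        rcases WW_exit H hρ1 hρ2 hw hT1 hx with h1 | ⟨h1, h2⟩
        · exact h1
        · exfalso
          apply hnG
          obtain ⟨y0, hy1, hy2⟩ := seg_sph (x := p) h1.le h2
          rw [hG, Finset.mem_filter]
          unfold onC
          rw [Finset.mem_filter]
          exact ⟨⟨hT, y0, seg_sub_cT hTo.pos hy1, hy2⟩, hw⟩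
      have sy : y ∉ W → Side N i y := by
        intro hy
        obtain ⟨c, hc⟩ := (T5x802.wk_net H.e3 hN hFull).next hw (a := x) (b := y)
          (by rw [hN.tri]; exact hT)
        have hc' : (w, y, c) ∈ delT S := by rw [← hN.tri]; exact hc
        rcases WW_exit H hρ1 hρ2 hw (WW_star H hρ2 hw hc') hy with h1 | ⟨h1, h2⟩
        · exact h1
        · exfalso
          apply hnG
          obtain ⟨y0, hy1, hy2⟩ := seg_sph (x := p) h1.le h2
          rw [hG, Finset.mem_filter]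
          unfold onC
          rw [Finset.mem_filter]
          have hTo3 : 0 < cr (w - y) (x - y) := by
            obtain ⟨o3, hT3'⟩ := mem_delT_iff.1 (H.bd.sub _ hT3)
            exact hT3'.pos
          rw [segment_symm] at hy1
          have h7 : y0 ∈ cT (y, w, x) := seg_sub_cT hTo3 hy1
          exact ⟨⟨hT, y0, InT.rot h7, hy2⟩, hw⟩
      refine ⟨fun hx => ?_, fun hy => ?_, ?_⟩
      · exact (hgt_side hN (H.bd.exm _ hT1) l1 m1.1 m1.2 (Or.inr (sx hx))).1.le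
      · exact (hgt_side hN (H.bd.exm _ hT3) (fun h => l2 (N.klsym _ _ h)) m3.1 m3.2
          (Or.inl (sy hy))).2.le
      · rcases hor with hx | hy
        · exact (hgt_side hN (H.bd.exm _ hT2) hk m2.1 m2.2 (Or.inl (sx hx))).1.le
        · exact (hgt_side hN (H.bd.exm _ hT2) hk m2.1 m2.2 (Or.inr (sy hy))).1.le
    · have h1 : ∑ t ∈ G, ‖N.Q t‖ ≤ ∑ t ∈ onC S p ρ, ‖N.Q t‖ :=
        Finset.sum_le_sum_of_subset_of_nonneg (Finset.filter_subset _ _) fun t _ _ => norm_nonneg _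
      have h2 : ‖sd i‖⁻¹ ≤ 1 := inv_le_one_of_one_le₀ (one_le_sd i)
      have h3 : Real.sqrt 3 * ∑ t ∈ G, ‖N.Q t‖ ≤ om2 C n :=
        (mul_le_mul_of_nonneg_left h1 (Real.sqrt_nonneg _)).trans hsum
      have h4 : 0 ≤ Real.sqrt 3 * ∑ t ∈ G, ‖N.Q t‖ := by positivity
      calc ‖sd i‖⁻¹ * (Real.sqrt 3 * ∑ t ∈ G, ‖N.Q t‖) ≤ 1 * (Real.sqrt 3 * ∑ t ∈ G, ‖N.Q t‖) :=
            mul_le_mul_of_nonneg_right h2 h4
        _ ≤ om2 C n := by rw [one_mul]; exact h3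
  intro v hv v' hc a b a' b' h h'
  have hv' := dir_symm H hρ2 hv hc
  have r1 := hsh v hv v' hc a b a' b' h h'
  have r2 := hsh v' hv'.1 v hv'.2 a' b' a b h' h
  have i1 := hheight v hv a b h
  have i2 := hheight v' hv'.1 a' b' h'
  have e1 : ((N.F v' a' - N.F v a) / sd i).im = hgt i (N.F v' a') - hgt i (N.F v a) := by
    unfold hgt
    rw [← Complex.sub_im]
    congr 1; ring
  have e2 : ((N.F v a - N.F v' a') / sd i).re = - ((N.F v' a' - N.F v a) / sd i).re := by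
    rw [← Complex.neg_re]; congr 1; ring
  rw [e2] at r2
  have hn : ‖(N.F v' a' - N.F v a) / sd i‖ ≤ om2 C n + om2 C n := by
    refine (Complex.norm_le_abs_re_add_abs_im _).trans (add_le_add ?_ ?_)
    · rw [abs_le]; constructor <;> linarith
    · rw [e1, abs_le]; constructor <;> linarith [i1.1, i1.2, i2.1, i2.2]
  rw [norm_div, norm_sd, div_le_iff₀ (by positivity)] at hn
  have h3 : Real.sqrt 3 ≤ 2 := by
    rw [Real.sqrt_le_left (by norm_num)]; norm_num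
  nlinarith

end Crest.Agent.R143.D3Ax802
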