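import Crest.Agent.R143.D3A_802
import Crest.Agent.R143.En12A_395
import Crest.Agent.R143.Ex2_922
import Crest.Agent.R143.EQ5_63
import Crest.Agent.R143.G6W_723

/-!
# Row 143 (S0194), block D3: the local component of a configuration (helper802)

* `chain` : a connected set which meets `T` is in `T` or meets the way out
* `Geo` : `G` = part of the body near the boundary point `p` (near `p` it only touches the region `i`),
  `T ⊆ G` = part which only touches the region `i` and `G` close to `p` (a tentacle)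
* `cls_near`, `cls_far` : the boundary sites of `G` are on the side `i`
* `bd_of` : the structure `BD`
* `roomB_of` : the structure `RoomB` from `Env` and M4
-/

set_option autoImplicit false

noncomputable section

open scoped Classical

namespace Crest.Agent.R143.D3Bx802

open Set MeasureTheory
open Crest.ProbabilityR.Voronoi
open Crest.Agent.R143.B0x346 Crest.Agent.R143.B0Dx346 Crest.Agent.R143.Oscx63
open Crest.Agent.R143.DelGx806 Crest.Agent.R143.Circx63 Crest.Agent.R143.Scalx63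
open Crest.Agent.R143.EQ2x63 Crest.Agent.R143.Locx922 Crest.Agent.R143.Cfgx416
open Crest.Agent.R143.Ex0x922 Crest.Agent.R143.Wlkx802 Crest.Agent.R143.D3Ax802
open Crest.Agent.R143.Sidesx697 Crest.Agent.R143.G6Wx723 Crest.Agent.R143.PP1x831

/-- a connected set which meets `T` is in `T` or meets the way out `B` -/
theorem chain {Z T B : Set ℂ} {K : ℝ} (hK : 0 < K) (hZ : IsPreconnected Z)
    (hT : ∀ y ∈ T, ∀ y' ∈ Z, dist y y' < K → y' ∈ T ∨ y' ∈ B) (h : (Z ∩ T).Nonempty) :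
    Z ⊆ T ∨ (Z ∩ B).Nonempty := by
  by_contra hcon
  rw [not_or] at hcon
  obtain ⟨h1, h2⟩ := hcon
  rw [Set.not_subset] at h1
  obtain ⟨w, hw, hwT⟩ := h1
  set u : Set ℂ := ⋃ y ∈ Z ∩ T, Metric.ball y (K / 2) with hu
  set v : Set ℂ := ⋃ y ∈ Z \ T, Metric.ball y (K / 2) with hv
  have huo : IsOpen u := isOpen_biUnion fun _ _ => Metric.isOpen_ball
  have hvo : IsOpen v := isOpen_biUnion fun _ _ => Metric.isOpen_ball
  have hsub : Z ⊆ u ∪ v := by
    intro y hy
    by_cases hyT : y ∈ T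
    · left
      exact mem_biUnion (x := y) ⟨hy, hyT⟩ (Metric.mem_ball_self (by linarith))
    · right
      exact mem_biUnion (x := y) ⟨hy, hyT⟩ (Metric.mem_ball_self (by linarith))
  obtain ⟨y0, hy0⟩ := h
  obtain ⟨x, -, hxu, hxv⟩ := hZ u v huo hvo hsub
    ⟨y0, hy0.1, mem_biUnion (x := y0) hy0 (Metric.mem_ball_self (by linarith))⟩
    ⟨w, hw, mem_biUnion (x := w) ⟨hw, hwT⟩ (Metric.mem_ball_self (by linarith))⟩
  rw [hu, mem_iUnion₂] at hxu
  rw [hv, mem_iUnion₂] at hxv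
  obtain ⟨y1, hy1, hx1⟩ := hxu
  obtain ⟨y2, hy2, hx2⟩ := hxv
  rw [Metric.mem_ball, dist_comm] at hx1
  rw [Metric.mem_ball] at hx2
  have h3 := dist_triangle y1 x y2
  rcases hT y1 hy1.2 y2 hy2.1 (by linarith) with h4 | h4
  · exact hy2.2 h4
  · exact h2 ⟨y2, hy2.1, h4⟩

/-- the geometry near the boundary point `p` -/
structure Geo {n : ℕ} (C : Cfg n) (S : Finset ℂ) (δ d : ℝ) (i : ZMod 3) (p : ℂ) (R0 s K : ℝ)
    (G T : Set ℂ) : Prop where
  hn : 3 ≤ n
  ok : C.OK δ
  out : C.Out S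
  hol : Hol (S : Set ℂ) (Metric.closedBall C.c (C.L - 2 * d)) d
  dpos : 0 < d
  dL : 16 * d ≤ C.L
  dK : 3 * d ≤ K
  s0 : 0 < s
  ball : Metric.closedBall p R0 ⊆ Metric.closedBall C.c (C.L / 2)
  g0 : Disjoint G C.out
  TG : T ⊆ G
  g1 : ∀ y ∈ G, ∀ y', dist y y' < K → dist y' p < R0 → y' ∈ G ∨ y' ∈ C.dom.R i
  g2 : ∀ y ∈ T, ∀ y', dist y y' < K → y' ∈ T ∨ y' ∈ C.dom.R i ∨ (y' ∈ G ∧ dist y' p < s)

variable {n : ℕ} {C : Cfg n} {S : Finset ℂ} {δ d : ℝ} {i : ZMod 3} {p : ℂ} {R0 s K : ℝ}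
  {G T : Set ℂ}

/-- the disc of the sites, smaller -/
def WD (C : Cfg n) (d : ℝ) : Set ℂ := Metric.closedBall C.c (C.L - 2 * d)

/-- inner sites with a cell meeting `T` -/
def Yt (C : Cfg n) (S : Finset ℂ) (T : Set ℂ) : Set ℂ :=
  {v | v ∈ C.inn S ∧ (cell S v ∩ T).Nonempty}

/-- triangles with the circumcentre in `G`, joined to the marks -/
def TT (C : Cfg n) (S : Finset ℂ) (G : Set ℂ) : Set (ℂ × ℂ × ℂ) :=
  {t | t ∈ delT S ∧ ExM (C.dom.netS S) t ∧ ∃ o ∈ G, Tri S t.1 t.2.1 t.2.2 o}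

theorem out_dom {y : ℂ} (h : y ∈ C.dom.R i) : y ∈ C.out := by
  rw [← C.dom_out]
  exact mem_iUnion.2 ⟨i, h⟩

/-- a site of a hull arc is a hull vertex -/
theorem harc_hull (O : C.Out S) {j : ZMod n} {v : ℂ} (h : v ∈ C.harc S j) :
    ∃ x, hullE S x v := by
  have h' : Relation.ReflTransGen (fun a b => hullE S a b ∧ ∀ k, C.ray S k ≠ (a, b))
    (C.ray S j).2 v := h
  rcases Relation.ReflTransGen.cases_tail h' with h1 | ⟨x, -, h1, -⟩
  · exact ⟨_, by rw [h1]; exact (O.ray j).1⟩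
  · exact ⟨x, h1⟩

section geo

variable (H : Geo C S δ d i p R0 s K G T)

include H

theorem near_W {o : ℂ} (ho : dist o p ≤ R0) : dist o C.c ≤ C.L / 2 := by
  have := H.ball (Metric.mem_closedBall.2 ho)
  exact Metric.mem_closedBall.1 this

theorem near_cell {o u : ℂ} (ho : dist o p ≤ R0) (hu : o ∈ cell S u) :
    ‖o - u‖ < d ∧ u ∈ WD C d ∧ ∀ y ∈ cell S u, ‖y - u‖ < d := by
  have h1 := near_W H ho
  have hd := H.dpos
  have hL := H.dL
  have hoW : o ∈ WD C d := Metric.mem_closedBall.2 (by linarith)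
  have h2 : ‖o - u‖ < d := cell_dist (H.hol o hoW o (by simp; exact hd.le)) hu
  have h3 : u ∈ WD C d := by
    apply Metric.mem_closedBall.2
    have := dist_triangle u o C.c
    rw [dist_eq_norm u o, norm_sub_rev] at this
    linarith
  exact ⟨h2, h3, fun y hy => cell_sub_ball hd H.hol h3 hy⟩

theorem not_harc {u : ℂ} (hu : u ∈ WD C d) (j : ZMod n) : u ∉ C.harc S j := by
  intro h
  obtain ⟨x, hx⟩ := harc_hull H.out h
  exact (not_hull H.dpos H.hol hu x).2 hx

/-- the sites near a point of `G` close to `p` -/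
theorem cls_near {o u : ℂ} (hu : u ∈ S) (ho : o ∈ cell S u) (hoG : o ∈ G)
    (hop : dist o p + 2 * d < R0) (hi : u ∉ C.inn S) : Side (C.dom.netS S) i u := by
  have hd := H.dpos
  obtain ⟨h1, h2, h3⟩ := near_cell H (by linarith) ho
  rw [DomEx722.mem_inn] at hi
  push Not at hi
  obtain ⟨j, hj⟩ := hi hu
  rcases hj with ⟨-, y, hy, hyR⟩ | hj
  · have h4 : dist o y < 2 * d := by
      rw [dist_eq_norm]
      have := norm_tri o u y
      have h5 := h3 y hy
      rw [norm_sub_rev] at h5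
      linarith
    rcases H.g1 o hoG y (by linarith [H.dK]) (by
      have := dist_triangle y o p
      rw [dist_comm y o] at this
      linarith) with h5 | h5
    · exact absurd (mem_iUnion.2 ⟨j, hyR⟩) (Set.disjoint_left.1 H.g0 h5)
    · exact ClsCx697.cls_of_out H.hn H.out i u hu ⟨y, hy, h5⟩
  · exact absurd hj (not_harc H h2 j)

/-- the way out of `T` -/
theorem chainT {Z : Set ℂ} (hZ : IsPreconnected Z) (h : (Z ∩ T).Nonempty) :
    Z ⊆ T ∨ (Z ∩ C.dom.R i).Nonempty ∨ ∃ y ∈ Z, y ∈ G ∧ dist y p < s := by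
  have hK : 0 < K := by have := H.dK; have := H.dpos; linarith
  rcases chain (B := C.dom.R i ∪ {y | y ∈ G ∧ dist y p < s}) hK hZ (fun y hy y' _ hyy => by
    rcases H.g2 y hy y' hyy with h1 | h1 | h1
    · exact Or.inl h1
    · exact Or.inr (Or.inl h1)
    · exact Or.inr (Or.inr h1)) h with h1 | ⟨y, hy, h1 | h1⟩
  · exact Or.inl h1
  · exact Or.inr (Or.inl ⟨y, hy, h1⟩)
  · exact Or.inr (Or.inr ⟨y, hy, h1⟩)

omit H in
theorem conn_cell (u : ℂ) : IsPreconnected (cell S u) :=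
  (G6Vx408.convex_cell (S : Set ℂ) u).isPreconnected

omit H in
theorem convex_vedge (a b : ℂ) : Convex ℝ (vedge (S : Set ℂ) a b) := by
  rw [vedge_eq_inter]
  apply (G6Vx408.convex_cell (S : Set ℂ) a).inter
  intro x hx y hy r t hr ht hrt
  have hx' : ‖x - a‖ = ‖x - b‖ := hx
  have hy' : ‖y - a‖ = ‖y - b‖ := hy
  show ‖r • x + t • y - a‖ = ‖r • x + t • y - b‖
  have h1 : ∀ z u : ℂ, ‖z - u‖ ^ 2 = (z.re - u.re) ^ 2 + (z.im - u.im) ^ 2 := fun z u => by
    rw [← Complex.normSq_eq_norm_sq, Complex.normSq_apply, Complex.sub_re, Complex.sub_im]; ring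
  have hx2 : ‖x - a‖ ^ 2 = ‖x - b‖ ^ 2 := by rw [hx']
  have hy2 : ‖y - a‖ ^ 2 = ‖y - b‖ ^ 2 := by rw [hy']
  rw [h1, h1] at hx2 hy2
  have h2 : ‖r • x + t • y - a‖ ^ 2 = ‖r • x + t • y - b‖ ^ 2 := by
    rw [h1, h1]
    simp only [Complex.add_re, Complex.add_im, Complex.real_smul, Complex.mul_re, Complex.mul_im,
      Complex.ofReal_re, Complex.ofReal_im, zero_mul, sub_zero, add_zero]
    have ht' : t = 1 - r := by linarith
    subst ht'
    linear_combination r * hx2 + (1 - r) * hy2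
  exact (sq_eq_sq₀ (norm_nonneg _) (norm_nonneg _)).1 h2

/-- the sites with a cell meeting `T` -/
theorem cls_far {o u : ℂ} (hu : u ∈ S) (ho : o ∈ cell S u) (hoT : o ∈ T)
    (hs : s + 2 * d < R0) (hi : u ∉ C.inn S) : Side (C.dom.netS S) i u := by
  have hn := H.hn
  have hO := H.out
  -- every site of the class with a cell meeting `T` is on the side or has its cell in `T`
  have key : ∀ w ∈ S, w ∉ C.inn S → (cell S w ∩ T).Nonempty →
      Side (C.dom.netS S) i w ∨ cell S w ⊆ T := by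
    intro w hw hwi hm
    rcases chainT H (conn_cell w) hm with h1 | h1 | ⟨y, hy, hyG, hyp⟩
    · exact Or.inr h1
    · exact Or.inl (ClsCx697.cls_of_out hn hO i w hw h1)
    · exact Or.inl (cls_near H hw hy hyG (by linarith) hwi)
  have hi' := hi
  rw [DomEx722.mem_inn] at hi'
  push Not at hi'
  obtain ⟨j, hj⟩ := hi' hu
  have hside : ∀ w ∈ C.cls S j, Side (C.dom.netS S) i w → Side (C.dom.netS S) i u := by
    intro w hw h1
    have h2 := ClsCx697.cls_side hn hO hw
    have h3 := ClsCx697.side_unique hn hO w _ _ h1 h2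
    rw [h3]
    exact ClsCx697.cls_side hn hO hj
  have hinn : ∀ w ∈ C.cls S j, w ∉ C.inn S := by
    intro w hw h1
    exact (DomEx722.mem_inn.1 h1).2 j hw
  by_contra hcon
  -- a site of the class whose cell meets the region
  obtain ⟨y, hy⟩ := (H.ok.con j).nonempty
  obtain ⟨u', hu', hyu⟩ := exists_cell (S := S) ⟨u, hu⟩ y
  have hu'j : u' ∈ C.cls S j := Or.inl ⟨hu', y, hyu, hy⟩
  have hpath := hO.con j u hj u' hu'j
  have hall : cell S u' ⊆ T := by
    have h0 : cell S u ⊆ T := by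
      rcases key u hu hi ⟨o, ho, hoT⟩ with h1 | h1
      · exact absurd h1 hcon
      · exact h1
    clear hyu hu'j hu'
    induction hpath with
    | refl => exact h0
    | @tail w w' _ hstep ih =>
      obtain ⟨hwj, hw'j, hdead⟩ := hstep
      have hw'S := hO.sub j hw'j
      have hm : (cell S w' ∩ T).Nonempty := by
        rcases hdead with ⟨-, hk⟩ | ⟨hh, -⟩
        · exfalso
          obtain ⟨x, hx1, hx2⟩ := hk
          have hxT : x ∈ T := ih (vedge_sub_cell hx1)
          rw [C.dom_out] at hx2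
          exact Set.disjoint_left.1 H.g0 (H.TG hxT) hx2
        · obtain ⟨x, hx⟩ := vedge_nonempty (S := S) (DomEx722.adj_iff.1 (ClsCx697.adj_hull hh))
          exact ⟨x, vedge_sub_cell' hx, ih (vedge_sub_cell hx)⟩
      rcases key w' hw'S (hinn w' hw'j) hm with h1 | h1
      · exact absurd (hside w' hw'j h1) hcon
      · exact h1
  exact Set.disjoint_left.1 H.g0 (H.TG (hall hyu)) (mem_iUnion.2 ⟨j, hy⟩)

/-- the triangles near `p` are small -/
theorem near_tri {r : ℝ} (hr : r + 3 * d < R0) {a b c : ℂ} (ht : (a, b, c) ∈ delT S) {w : ℂ}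
    (hw : dist w p ≤ r) (hwT : InT w a b c) :
    dist a p < r + 2 * d ∧ ∀ o, Tri S a b c o → dist o p < r + d := by
  have hd := H.dpos
  have hwW : w ∈ WD C d := by
    apply Metric.mem_closedBall.2
    have := near_W H (o := w) (by linarith)
    have := H.dL
    linarith
  obtain ⟨o', hT⟩ := mem_delT_iff.1 ht
  obtain ⟨o, h1, h2, h3, h4, h5, ga, gb, gc⟩ := del_small hd H.hol hwW
    (InT.inD hT.pos hwT) (mem_delT.1 ht)
  constructor
  · have := dist_triangle a w p
    rw [dist_eq_norm a w] at this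
    linarith
  · intro o2 hT2
    have h6 := inT_disc hT.pos (norm_eq_iff.2 hT2.pb) (norm_eq_iff.2 hT2.pc) hwT
    have h7 := disc_small hd H.hol hwW (fun s hs => norm_le_iff.2 (hT2.emp s hs)) h6
    have := dist_triangle o2 w p
    rw [dist_eq_norm o2 w, norm_sub_rev] at this
    linarith

/-- the circumcentre of a triangle at a site of `Yt` -/
theorem far_tri {r : ℝ} (hs : s + 2 * d < r) (hr : r ≤ R0) {o v : ℂ} (hv : v ∈ Yt C S T)
    (ho : o ∈ cell S v) : o ∈ T ∨ dist v p < r := by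
  obtain ⟨hvi, hm⟩ := hv
  have hmiss : Disjoint (cell S v) C.out := by
    rw [Set.disjoint_left]
    intro y hy hyo
    obtain ⟨j, hj⟩ := mem_iUnion.1 hyo
    exact (DomEx722.mem_inn.1 hvi).2 j (Or.inl ⟨(DomEx722.mem_inn.1 hvi).1, y, hy, hj⟩)
  rcases chainT H (conn_cell v) hm with h1 | ⟨y, hy, hyR⟩ | ⟨y, hy, hyG, hyp⟩
  · exact Or.inl (h1 ho)
  · exact absurd (out_dom hyR) (Set.disjoint_left.1 hmiss hy)
  · right
    have h2 := (near_cell H (o := y) (u := v) (by linarith [H.dpos]) hy).1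
    have := dist_triangle v y p
    rw [dist_eq_norm v y, norm_sub_rev] at this
    linarith [H.dpos]

/-- a triangle of `TT` near `closedBall p r ∪ Yt` : its circumcentre is near `p` or in `T` -/
theorem centre {r : ℝ} (hs : s + 2 * d < r) (hr : r + 3 * d < R0) {a b c o : ℂ}
    (hT : Tri S a b c o) (hX : (cT (a, b, c) ∩ (Metric.closedBall p r ∪ Yt C S T)).Nonempty) :
    (∃ w, dist w p ≤ r ∧ InT w a b c) ∨ o ∈ T := by
  obtain ⟨x, hx, hx1 | hx1⟩ := hX
  · exact Or.inl ⟨x, Metric.mem_closedBall.1 hx1, hx⟩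
  · -- `x` is a vertex
    have hxS : x ∈ S := (DomEx722.mem_inn.1 hx1.1).1
    have hxo : o ∈ cell S x := by
      have h1 := inT_disc hT.pos (norm_eq_iff.2 hT.pb) (norm_eq_iff.2 hT.pc) hx
      have h2 := norm_le_iff.2 (hT.emp x hxS)
      intro s' hs'
      have h3 := norm_le_iff.2 (hT.emp s' hs')
      rw [norm_sub_rev o x, norm_sub_rev o s']
      linarith
    rcases far_tri H hs (by linarith [H.dpos]) hx1 hxo with h1 | h1
    · exact Or.inr h1
    · exact Or.inl ⟨x, h1.le, hx⟩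

/-- **the boundary data of the local component** -/
theorem bd_of {r : ℝ} (hs : s + 2 * d < r) (hr : r + 3 * d < R0) :
    BD S (C.dom.netS S) i (Metric.closedBall p r ∪ Yt C S T) (TT C S G) (C.inn S : Set ℂ) := by
  have hd := H.dpos
  have hn := H.hn
  have hO := H.out
  have hN := hO.hnet
  -- vertices
  have hvert : ∀ a b c, (a, b, c) ∈ TT C S G →
      (cT (a, b, c) ∩ (Metric.closedBall p r ∪ Yt C S T)).Nonempty →
      a ∈ (C.inn S : Set ℂ) ∨ Side (C.dom.netS S) i a := by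
    intro a b c ht hX
    obtain ⟨htS, -, o, hoG, hT⟩ := ht
    by_cases hi : a ∈ C.inn S
    · exact Or.inl hi
    right
    have hoa : o ∈ cell S a := (centre_mem hT).1
    rcases centre H hs hr hT hX with ⟨w, hw, hwT⟩ | h1
    · have h2 := (near_tri H hr htS hw hwT).2 o hT
      exact cls_near H hT.ma hoa hoG (by linarith) hi
    · exact cls_far H hT.ma hoa h1 (by linarith) hi
  have hrot : ∀ a b c, (a, b, c) ∈ TT C S G → (b, c, a) ∈ TT C S G := by
    intro a b c ht
    obtain ⟨htS, hex, o, hoG, hT⟩ := ht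
    exact ⟨(g1 S hN.gp).1 _ _ _ htS, Exx395.exM_rot hex (by simp [rots]), o, hoG, hT.rot⟩
  have hinn : ∀ a ∈ C.inn S, ∀ u, (a, u) ∉ (C.dom.netS S).kl := by
    intro a ha u h
    rw [ClsCx697.kl_iff hO] at h
    exact (hO.inn a ha).1 u h
  refine ⟨fun t ht => ht.1, hrot, fun t ht => ht.2.1, ?_, hvert, ?_, ?_, ?_⟩
  · -- adj
    intro a b c e ht hX he hk
    obtain ⟨htS, hex, o, hoG, hT⟩ := ht
    obtain ⟨o', hT'⟩ := mem_delT_iff.1 he
    have hmiss : Disjoint (vedge (S : Set ℂ) a b) C.out := by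
      rw [Set.disjoint_left]
      intro y hy hyo
      apply hk
      rw [ClsCx697.kl_iff hO]
      refine ⟨y, hy, ?_⟩
      rw [C.dom_out]
      exact hyo
    have hov : o ∈ vedge (S : Set ℂ) a b := centre_vedge hT
    have ho'v : o' ∈ vedge (S : Set ℂ) a b := by
      rw [vedge_symm]; exact centre_vedge hT'
    refine ⟨he, hex.of_lk (Lk.of_adj ⟨a, b, c, e, by rw [hN.tri]; exact htS,
      by rw [hN.tri]; exact he, Ex0x922.mem_rots_self _, Ex0x922.mem_rots_self _, hk⟩), o', ?_, hT'⟩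
    have hnear : dist a p < r + 2 * d → dist o p < r + d → o' ∈ G := by
      intro ha ho
      obtain ⟨h1, h2, h3⟩ := near_cell H (o := o) (by linarith) (vedge_sub_cell hov)
      have h4 := h3 o' (vedge_sub_cell ho'v)
      have h5 : dist o o' < 2 * d := by
        rw [dist_eq_norm]
        have := norm_tri o a o'
        rw [norm_sub_rev] at h4
        linarith
      rcases H.g1 o hoG o' (by linarith [H.dK]) (by
        have := dist_triangle o' o p
        rw [dist_comm o' o] at this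
        linarith) with h6 | h6
      · exact h6
      · exact absurd (out_dom h6) (Set.disjoint_left.1 hmiss ho'v)
    rcases centre H hs hr hT hX with ⟨w, hw, hwT⟩ | h1
    · have h2 := near_tri H hr htS hw hwT
      exact hnear h2.1 (h2.2 o hT)
    · rcases chainT H (convex_vedge a b).isPreconnected ⟨o, hov, h1⟩ with h2 | ⟨y, hy, hyR⟩ |
        ⟨y, hy, hyG, hyp⟩
      · exact H.TG (h2 ho'v)
      · exact absurd (out_dom hyR) (Set.disjoint_left.1 hmiss hy)
      · obtain ⟨h3, h4, h5⟩ := near_cell H (o := y) (by linarith) (vedge_sub_cell hy)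
        have h6 := h5 o (vedge_sub_cell hov)
        have h7 := h5 o' (vedge_sub_cell ho'v)
        have e1 : dist y o' < 2 * d := by
          rw [dist_eq_norm]
          have := norm_tri y a o'
          rw [norm_sub_rev] at h7
          linarith
        rcases H.g1 y hyG o' (by linarith [H.dK]) (by
          have := dist_triangle o' y p
          rw [dist_comm o' y] at this
          linarith) with h8 | h8
        · exact h8
        · exact absurd (out_dom h8) (Set.disjoint_left.1 hmiss ho'v)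
  · -- kill
    intro a b c ht hX hk
    have ht' := hrot a b c ht
    refine ⟨?_, ?_⟩
    · rcases hvert a b c ht hX with h1 | h1
      · exact absurd hk (hinn a h1 b)
      · exact h1
    · rcases hvert b c a ht' (near_rot hX) with h1 | h1
      · exact absurd ((C.dom.netS S).klsym _ _ hk) (hinn b h1 a)
      · exact h1
  · -- full
    intro v hv _
    obtain ⟨h1, m, u, hu, hall⟩ := hO.inn v hv
    refine ⟨m, u, hu, fun k => hinn v hv _, fun x y hxy => ?_⟩
    rw [hN.tri] at hxy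
    exact hall x y hxy
  · -- marks
    intro a b c ht hX
    have ht' := hrot a b c ht
    have h1 := hvert a b c ht hX
    have h2 := hvert b c a ht' (near_rot hX)
    have key : ∀ k x y, (C.dom.netS S).ex k = (x, y) →
        (x ∈ (C.inn S : Set ℂ) ∨ Side (C.dom.netS S) i x) →
        (y ∈ (C.inn S : Set ℂ) ∨ Side (C.dom.netS S) i y) → False := by
      intro k x y hk hx hy
      have e1 : x ∈ C.cls S (ClsCx697.mk n k - 1) := by
        have := hO.end1 (ClsCx697.mk n k)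
        rw [← ClsCx697.ex_ray hO, hk] at this
        exact this
      have e2 : y ∈ C.cls S (ClsCx697.mk n k) := by
        have := hO.end2 (ClsCx697.mk n k)
        rw [← ClsCx697.ex_ray hO, hk] at this
        exact this
      have s2 : Side (C.dom.netS S) k y := ClsCx697.side_mk hO k e2
      have s1 : Side (C.dom.netS S) (k - 1) x := by
        have := (marks3_of hN).next (k - 1)
        rw [sub_add_cancel, hk] at this
        exact this
      have hx' : Side (C.dom.netS S) i x := by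
        rcases hx with h | h
        · exact absurd e1 ((DomEx722.mem_inn.1 h).2 _)
        · exact h
      have hy' : Side (C.dom.netS S) i y := by
        rcases hy with h | h
        · exact absurd e2 ((DomEx722.mem_inn.1 h).2 _)
        · exact h
      have f1 := ClsCx697.side_unique hn hO x _ _ hx' s1
      have f2 := ClsCx697.side_unique hn hO y _ _ hy' s2
      have : k - 1 = k := f1.symm.trans f2
      revert this
      revert k
      intro k
      have : ∀ k : ZMod 3, k - 1 ≠ k := by decide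
      intros
      exact this k ‹_›
    constructor
    · rintro ⟨k, hk⟩
      exact key k a b hk h1 h2
    · rintro ⟨k, hk⟩
      exact key k b a hk h2 h1

/-- no way out of the tentacle -/
theorem ex_of {r : ℝ} (hs : s + 4 * d < r) (hr : r ≤ R0) : ∀ v ∈ Yt C S T,
    v ∈ (C.inn S : Set ℂ) → ∀ x y, (v, x, y) ∈ delT S → x ∈ (C.inn S : Set ℂ) →
    ‖x - p‖ < r ∨ x ∈ Yt C S T := by
  intro v hv _ x y h hx
  have hd := H.dpos
  obtain ⟨o, hT⟩ := mem_delT_iff.1 h
  rcases far_tri H (r := r - 2 * d) (by linarith) (by linarith) hv (centre_mem hT).1 with h1 | h1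
  · exact Or.inr ⟨hx, o, (centre_mem hT).2.1, h1⟩
  · left
    have hvW : v ∈ WD C d := by
      apply Metric.mem_closedBall.2
      have := near_W H (o := v) (by linarith)
      linarith [H.dL]
    have h2 := (del_side hd H.hol hvW (inD_self v x y) (mem_delT.1 h)).1
    have h3 := norm_tri x v p
    rw [dist_eq_norm] at h1
    rw [norm_sub_rev] at h2
    linarith

end geo

/-- **dyadic annuli around the boundary point** -/
theorem roomB_of {ε M : ℝ} {ω : Sample} (H : Geo C (C.dom.sites ε ω) δ d i p R0 s K G T)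
    (h : Env ε d M C.dom.c C.dom.L ω)
    (hen : ∀ U ⊆ delT (C.dom.sites ε ω), ∑ t ∈ U, ‖(C.dom.netS (C.dom.sites ε ω)).Q t‖ ^ 2 ≤ 12)
    {k0 : ℤ} {m : ℕ} (hm : 0 < m) (hk : (2 : ℝ) ^ k0 + 3 * d < R0)
    (hdn : 2 * d ≤ (2 : ℝ) ^ (k0 - m)) {C1 : ℝ} (hC : 0 ≤ C1)
    (hM : ∀ k ∈ Finset.Ico (k0 - m) k0,
      diamSum (points ε ω) (Metric.ball p ((2 : ℝ) ^ (k + 2))) ≤
        ENNReal.ofReal (C1 * ((2 : ℝ) ^ (k + 2)) ^ 2))
    (hkill : ∀ ρ : ℝ, (2 : ℝ) ^ (k0 - m) ≤ ρ → ρ ≤ (2 : ℝ) ^ k0 →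
      ∃ y, ‖y - p‖ = ρ ∧ Metric.ball y d ⊆ C.out) :
    RoomB (C.dom.sites ε ω) (C.dom.netS (C.dom.sites ε ω)) p k0 m (2 * d) (64 * C1) := by
  set S := C.dom.sites ε ω with hS
  have hN := H.out.hnet
  have hd := H.dpos
  have hH := H.hol
  have hgp := H.out.gp
  have hL := H.dL
  have hball : Metric.closedBall p ((2 : ℝ) ^ k0) ⊆ WD C d := by
    intro y hy
    apply Metric.mem_closedBall.2
    have := near_W H (o := y) (by have := Metric.mem_closedBall.1 hy; linarith)
    linarith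
  -- triangles meeting the disc
  have htri : ∀ a b c : ℂ, (a, b, c) ∈ delT S → ∀ y ∈ Metric.closedBall p ((2 : ℝ) ^ k0),
      InT y a b c → (‖a - b‖ < 2 * d ∧ ‖b - c‖ < 2 * d ∧ ‖c - a‖ < 2 * d) ∧
        (‖a - y‖ < 2 * d ∧ ‖b - y‖ < 2 * d ∧ ‖c - y‖ < 2 * d) := by
    intro a b c ht y hy hyT
    obtain ⟨o', hT⟩ := mem_delT_iff.1 ht
    have hDel : Del (S : Set ℂ) a b c := mem_delT.1 ht
    obtain ⟨o, h1, h2, h3, h4, h5, ga, gb, gc⟩ := del_small hd hH (hball hy)
      (InT.inD hT.pos hyT) hDel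
    exact ⟨del_side hd hH (hball hy) (InT.inD hT.pos hyT) hDel, ga, gb, gc⟩
  have hW : ∀ y ∈ Metric.closedBall p ((2 : ℝ) ^ k0), ∀ u, ‖u - y‖ < 2 * d → u ∈ WD C d := by
    intro y hy u hu
    apply Metric.mem_closedBall.2
    have h1 := near_W H (o := y) (by have := Metric.mem_closedBall.1 hy; linarith)
    have h2 := dist_triangle u y C.c
    rw [dist_eq_norm u y] at h2
    linarith
  refine ⟨hm, by positivity, ?_, ?_, ?_, hen, ?_, ?_⟩
  · -- mesh
    rintro ⟨a, b, c⟩ ht ⟨y, hy1, hy2⟩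
    obtain ⟨⟨h1, h2, h3⟩, -⟩ := htri a b c ht y hy2 hy1
    exact max_le (max_le h1.le h2.le) h3.le
  · -- cover
    intro y hy
    obtain ⟨a, b, c, ht, hy'⟩ := exists_tri_W hgp hd hH (hball hy)
    exact ⟨(a, b, c), ht, hy'⟩
  · rintro ⟨a, b, c⟩ ht ⟨y, hy1, hy2⟩
    obtain ⟨-, g1, g2, g3⟩ := htri a b c ht y hy2 hy1
    refine Rel2x63.relAt hN ht (Or.inr ⟨?_, ?_, ?_⟩)
    · rintro ⟨k, hk⟩
      exact (mark_W hd hN hH (hW y hy2 a g1) k).1 hk
    · rintro ⟨k, hk⟩
      exact (mark_W hd hN hH (hW y hy2 b g2) k).1 hk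
    · rintro ⟨k, hk⟩
      exact (mark_W hd hN hH (hW y hy2 c g3) k).1 hk
  · -- M4
    intro k hk'
    have hk2 := Finset.mem_Ico.1 hk'
    apply EQ4x63.sum_dm hd h hC _ _ (hM k hk')
    · refine (Metric.closedBall_subset_closedBall ?_).trans hball
      exact zpow_le_zpow_right₀ (by norm_num) (by omega)
    · exact hdn.trans (zpow_le_zpow_right₀ (by norm_num) (by omega))
  · -- kill
    intro ρ h1 h2
    obtain ⟨y, hy, hyo⟩ := hkill ρ h1 h2
    have hyb : y ∈ Metric.closedBall p ((2 : ℝ) ^ k0) := by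
      rw [mem_closedBall_iff_norm]; linarith
    obtain ⟨a, b, c, ht, hyT⟩ := exists_tri_W hgp hd hH (hball hyb)
    refine ⟨(a, b, c), ht, ⟨y, hyT, by rw [mem_sphere_iff_norm]; exact hy⟩, ?_⟩
    rintro ⟨x1, x2⟩ hf
    obtain ⟨o', hT⟩ := mem_delT_iff.1 ht
    have h6 := inT_disc hT.pos (norm_eq_iff.2 hT.pb) (norm_eq_iff.2 hT.pc) hyT
    have h7 := disc_small hd hH (hball hyb) (fun s hs => norm_le_iff.2 (hT.emp s hs)) h6
    have hoo : o' ∈ C.out := hyo (by
      rw [Metric.mem_ball, dist_eq_norm, norm_sub_rev]; linarith)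
    obtain ⟨c', hc'⟩ := side_rots hf
    simp only at hc'
    apply hf.1
    show (x1, x2) ∈ (C.dom.netS S).kl
    rw [ClsCx697.kl_iff H.out]
    have hcen : o' ∈ voronoiCell (S : Set ℂ) x1 ∧ o' ∈ voronoiCell (S : Set ℂ) x2 ∧
        x1 ∈ S ∧ x2 ∈ S := by
      obtain ⟨c1, c2, c3⟩ := centre_mem hT
      have m1 := hT.ma
      have m2 := hT.mb
      have m3 := hT.mc
      simp only [rots, Set.mem_insert_iff, Set.mem_singleton_iff, Prod.mk.injEq] at hc'
      rcases hc' with (⟨rfl, rfl, rfl⟩ | ⟨rfl, rfl, rfl⟩ | ⟨rfl, rfl, rfl⟩) |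
        (⟨rfl, rfl, rfl⟩ | ⟨rfl, rfl, rfl⟩ | ⟨rfl, rfl, rfl⟩) <;> exact ⟨‹_›, ‹_›, ‹_›, ‹_›⟩
    refine ⟨o', ?_, ?_⟩
    · rw [← inter_cell (Finset.mem_coe.2 hcen.2.2.1) (Finset.mem_coe.2 hcen.2.2.2)]
      exact ⟨hcen.1, hcen.2.1⟩
    · rw [C.dom_out]; exact hoo

/-- **the hypotheses of the deterministic estimate** -/
theorem hyp_of {ε M : ℝ} {ω : Sample} (hE : E3)
    (H : Geo C (C.dom.sites ε ω) δ d i p R0 s K G T)
    (h : Env ε d M C.dom.c C.dom.L ω)
    (hen : ∀ U ⊆ delT (C.dom.sites ε ω), ∑ t ∈ U, ‖(C.dom.netS (C.dom.sites ε ω)).Q t‖ ^ 2 ≤ 12)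
    {k0 : ℤ} {m : ℕ} (hm : 0 < m) (hk : (2 : ℝ) ^ k0 + 3 * d < R0)
    (hdn : s + 4 * d < (2 : ℝ) ^ (k0 - m)) {C1 : ℝ} (hC : 0 ≤ C1)
    (hM : ∀ k ∈ Finset.Ico (k0 - m) k0,
      diamSum (points ε ω) (Metric.ball p ((2 : ℝ) ^ (k + 2))) ≤
        ENNReal.ofReal (C1 * ((2 : ℝ) ^ (k + 2)) ^ 2))
    (hkill : ∀ ρ : ℝ, (2 : ℝ) ^ (k0 - m) ≤ ρ → ρ ≤ (2 : ℝ) ^ k0 →
      ∃ y, ‖y - p‖ = ρ ∧ Metric.ball y d ⊆ C.out) :
    Hyp (C.dom.sites ε ω) (C.dom.netS (C.dom.sites ε ω)) i p k0 m (2 * d) (64 * C1)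
      (Yt C (C.dom.sites ε ω) T) (TT C (C.dom.sites ε ω) G)
      (C.inn (C.dom.sites ε ω) : Set ℂ) := by
  have hd := H.dpos
  have hs := H.s0
  have hle : (2 : ℝ) ^ (k0 - m) ≤ (2 : ℝ) ^ k0 := zpow_le_zpow_right₀ (by norm_num) (by omega)
  exact ⟨hE, H.out.hnet, roomB_of H h hen hm hk (by linarith) hC hM hkill,
    bd_of H (by linarith) hk, ex_of H hdn (by linarith)⟩

end Crest.Agent.R143.D3Bx802
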