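import Crest.Agent.R143.T5_63
import Crest.Agent.R143.En12A_395
import Crest.Agent.R143.PoisM3c_501

/-!
# Row 143 (S0194): leaf `LEqui` of the spine from E3 only (helper63)
-/

set_option autoImplicit false

namespace Crest.Agent.R143.LEqx63

open Crest.Agent.R143.B0x346 Crest.Agent.R143.B0Dx346

/-- **leaf LEqui** for every class of admissible domains contained in `Dom.Ad` -/
theorem lequi (hE3 : E3) {Adm : Dom → ℝ → Prop} (hAdm : ∀ D δ, Adm D δ → D.Ad δ) :
    Spinex422.LEqui Adm :=
  T5x63.lequi'' hE3 (En12Ax395.en12 hE3) PoisM3cx501.m3c hAdm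

/-- **leaf LEqui** for `Dom.Ad` -/
theorem lequiAd (hE3 : E3) : Spinex422.LEqui (fun D δ => D.Ad δ) :=
  lequi hE3 fun _ _ h => h

end Crest.Agent.R143.LEqx63
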