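import Crest.Agent.R143.PoisM3_930
import Crest.Agent.R143.EQ5_63

/-!
# Row 143 (S0194): leaf M3e (helper63): a fixed point is on no line through two points
-/

set_option autoImplicit false

noncomputable section

namespace Crest.Agent.R143.M3ex63

open MeasureTheory Set Filter Topology Complex
open Crest.ProbabilityR.Voronoi
open Crest.Agent.R143.B0x346 Crest.Agent.R143.EQ5x63 Crest.Agent.R143.PoisM3x930
open scoped ENNReal

theorem cr_cyc (a b x : ℂ) : cr (b - a) (x - a) = cr (x - b) (a - b) := by
  unfold cr
  simp only [sub_re, sub_im]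
  ring

theorem m3e : M3e := by
  intro ε hε z
  -- no site is the point `z`
  have hz : ∀ i : Ix, ∀ᵐ x ∂nu, q ε x i ≠ z := by
    intro i
    have h1 := fresh hε i (fun _ w => ‖w - z‖) ((measurable_snd.sub_const z).norm)
      (fun _ _ _ => rfl) (Eventually.of_forall fun x => sphere_null z 0)
    filter_upwards [h1] with x hx heq
    exact hx (by rw [heq]; simp)
  have hne : ∀ᵐ x ∂nu, ∀ i j : Ix, i ≠ j → cr (q ε x j - q ε x i) (z - q ε x i) ≠ 0 := by
    rw [ae_all_iff]; intro i
    rw [ae_all_iff]; intro j
    by_cases h : i = j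
    · exact Eventually.of_forall fun x hx => (hx h).elim
    · have h1 := fresh hε i (fun x w => cr (z - q ε x j) (w - q ε x j))
        (measurable_cr (measurable_const.sub ((measurable_q ε j).comp measurable_fst))
          (measurable_snd.sub ((measurable_q ε j).comp measurable_fst)))
        (fun x m w => by rw [q_update (Ne.symm h)])
        (by
          filter_upwards [hz j] with x hx
          exact line_null (sub_ne_zero.2 (Ne.symm hx)) _)
      filter_upwards [h1] with x hx _ heq
      apply hx
      rw [← cr_cyc]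
      exact heq
  filter_upwards [marks_ae hne] with ω h1
  rintro a ⟨p, hp, rfl⟩ b ⟨r, hr, rfl⟩ hab
  refine h1 ((p.1, p.2.1), p.2.2) ((r.1, r.2.1), r.2.2) ?_
  intro h'
  apply hab
  simp only [Prod.mk.injEq] at h'
  simp only [h'.1.1, h'.1.2, h'.2]

/-- `LEqui` with M3a and M3e proved -/
theorem lequi' (hT5 : EQ4x63.T5) (hEn : En12) (hM3c : PP1x831.M3c)
    {Adm : B0Dx346.Dom → ℝ → Prop} (hAdm : ∀ D δ, Adm D δ → D.Ad δ) : Spinex422.LEqui Adm :=
  lequi hT5 hEn m3a hM3c m3e hAdm

end Crest.Agent.R143.M3ex63
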