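import Crest.Agent.R143.Spine_422

/-!
# Row 143 (S0194), PART B: the spine, second file (helper422): boundary conditions

* `Loc D I p R0 z` : inside the ball of radius `R0` around `p` the local component of `z` in the body
  only touches the outside regions `R i`, `i ∈ I` (359)
* `Dat.arc`, `sg`, `ArcGeo` : geometry of `Dm n → D` at the open arcs
* leaf `LALB` : boundary condition for one fixed domain and one fixed point (802)
* `bdry_of` : `Bdry` from `RoomOK`, `ArcGeo`, `LALB` and the value near `b`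
* `LDom'`, `dom_of`
-/

set_option autoImplicit false

noncomputable section

namespace Crest.Agent.R143.Spinex422

open Complex Set Filter Topology MeasureTheory
open Crest.ProbabilityR.Voronoi
open Crest.Agent.R143.B0x346 Crest.Agent.R143.B0Dx346 Crest.Agent.R143.PP1x831
open Crest.Agent.R143.BC0x336 Crest.Agent.R143.EndAx336 Crest.Agent.R143.EndBx336
open Crest.Agent.R143.Mollx887

/-- `C` is a set of points of the body which contains `z`; the points at distance less than `K` from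
`C` inside the ball of radius `R0` around `p` are in `C` or in the regions `R i`, `i ∈ I` -/
def LocC (D : Dom) (I : Set (ZMod 3)) (p : ℂ) (R0 : ℝ) (z : ℂ) (K : ℝ) (C : Set ℂ) : Prop :=
  z ∈ C ∧ Disjoint C D.out ∧
    ∀ y ∈ C, ∀ y' : ℂ, dist y y' < K → dist y' p < R0 → y' ∈ C ∨ ∃ i ∈ I, y' ∈ D.R i

/-- inside the ball of radius `R0` around `p` the local component of `z` only touches the regions
`R i`, `i ∈ I` -/
def Loc (D : Dom) (I : Set (ZMod 3)) (p : ℂ) (R0 : ℝ) (z : ℂ) : Prop :=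
  Metric.closedBall p R0 ⊆ Metric.closedBall D.c (D.L / 2) ∧
    ∃ K > 0, ∃ C : Set ℂ, LocC D I p R0 z K C

theorem Loc.mono {D : Dom} {I J : Set (ZMod 3)} {p : ℂ} {R0 R1 : ℝ} {z : ℂ} (h : Loc D I p R0 z)
    (hR : R1 ≤ R0) (hIJ : I ⊆ J) : Loc D J p R1 z := by
  obtain ⟨h1, K, hK, C, h2, h3, h4⟩ := h
  refine ⟨(Metric.closedBall_subset_closedBall hR).trans h1, K, hK, C, h2, h3, ?_⟩
  intro y hy y' hyy hyp
  rcases h4 y hy y' hyy (hyp.trans_le hR) with h5 | ⟨i, hi, h5⟩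
  · exact Or.inl h5
  · exact Or.inr ⟨i, hIJ hi, h5⟩

/-- the open arcs of `∂D`: `0` from `a` to `c`, `1` from `c` to `d`, `2` from `d` to `a` -/
def Dat.arc (S : Dat) (i : ZMod 3) : Set ℂ :=
  {p | p ∈ frontier S.D ∧ p ≠ S.d ∧ (S.φ p).im = 0 ∧
    (if i = 0 then 0 < (S.φ p).re ∧ (S.φ p).re < 1 else
      if i = 1 then 1 < (S.φ p).re else (S.φ p).re < 0)}

/-- index of the region at the arc `i`; `r` : reversed -/
def sg (r : Bool) (i : ZMod 3) : ZMod 3 := if r then -i else i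

/-- near a point `p` of the open arc `i` the domain `Dm n` only sees its region `R (sg (rv n) i)`,
which comes arbitrarily close -/
def ArcGeo (S : Dat) (rv : ℕ → Bool) (Dm : ℕ → Dom) : Prop := ∀ i : ZMod 3, ∀ p ∈ S.arc i,
  ∃ R0 > 0, (∀ z ∈ S.D, dist z p < R0 → ∀ᶠ n in (atTop : Filter ℕ),
      Loc (Dm n) {sg (rv n) i} p R0 z) ∧
    ∀ s > 0, ∀ᶠ n in (atTop : Filter ℕ), ((Dm n).R (sg (rv n) i) ∩ Metric.ball p s).Nonempty

/-- **leaf ALB** (from E3, P2a, T2, T4, T5, M4): boundary condition for one domain, one point -/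
def LALB (Adm : Dom → ℝ → Prop) : Prop := ∀ i : ZMod 3, ∀ η > 0, ∃ Λ > 1, ∀ (D : Dom) (δ : ℝ),
  Adm D δ → ∀ G : ℝ → Set Sample, GoodFam D G → ∀ (p : ℂ) (R0 s : ℝ), 0 < s → R0 ≤ 1 →
    Λ * s ≤ R0 → (D.R i ∩ Metric.ball p s).Nonempty →
    ∀ z : ℂ, dist z p < s → Loc D {i} p R0 z → ∀ m > 0, Linked D m z →
      ∀ᶠ ε : ℝ in 𝓝[>] 0, |((HG D G ε z - omz i) / (omz (i + 1) - omz i)).im| ≤ η

theorem omz_zero : omz 0 = 1 := by
  show om ^ (0 : ZMod 3).val = 1
  simp

theorem omz_one : omz 1 = tau3 := by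
  show om ^ (1 : ZMod 3).val = tau3
  have : (1 : ZMod 3).val = 1 := rfl
  rw [this, pow_one]
  rfl

theorem omz_two : omz 2 = tau3 ^ 2 := by
  show om ^ (2 : ZMod 3).val = tau3 ^ 2
  have : (2 : ZMod 3).val = 2 := rfl
  rw [this]
  rfl

theorem conj_om : (starRingEnd ℂ) om = om ^ 2 := by
  have h1 : om * (starRingEnd ℂ) om = 1 := by
    rw [Complex.mul_conj, Complex.normSq_eq_norm_sq, norm_om]
    simp
  have h2 : om ^ 3 = 1 := Oscx63.om_pow_three
  have h3 : om ≠ 0 := by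
    intro h; rw [h] at h2; norm_num at h2
  have h4 : om * (starRingEnd ℂ) om = om * om ^ 2 := by
    rw [h1, ← pow_succ', h2]
  exact mul_left_cancel₀ h3 h4

/-- the reflection maps `om ^ j` to `om ^ (1 - j)` -/
theorem tr_omz (j : ZMod 3) : tr true (omz j) = omz (1 - j) := by
  have h2 : om ^ 3 = 1 := Oscx63.om_pow_three
  have e : tau3 = om := rfl
  unfold tr
  simp only [if_true]
  have h3 : ∀ k : ZMod 3, k = 0 ∨ k = 1 ∨ k = 2 := by decide
  rcases h3 j with h | h | h <;> subst h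
  · rw [omz_zero, map_one, mul_one, sub_zero, omz_one, e]
  · rw [omz_one, sub_self, omz_zero, e, conj_om, ← pow_succ', h2]
  · rw [omz_two, show (1 : ZMod 3) - 2 = 2 from rfl, omz_two, e, map_pow, conj_om]
    calc om * (om ^ 2) ^ 2 = om ^ 3 * om ^ 2 := by ring
      _ = om ^ 2 := by rw [h2, one_mul]

/-- the line condition is invariant under the reflection -/
theorem im_tr (r : Bool) (w : ℂ) (i : ZMod 3) :
    |((tr r w - omz i) / (omz (i + 1) - omz i)).im| =
      |((w - omz (sg r i)) / (omz (sg r i + 1) - omz (sg r i))).im| := by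
  cases r
  · rfl
  · have h1 : tr true (omz (-i)) = omz (i + 1) := by
      rw [tr_omz]; congr 1; ring
    have h2 : tr true (omz (-i + 1)) = omz i := by
      rw [tr_omz]; congr 1; ring
    have h3 : ∀ u v : ℂ, tr true u - tr true v = om * (starRingEnd ℂ) (u - v) := by
      intro u v
      simp only [tr, if_true]
      rw [map_sub]; ring
    have hne : omz (-i + 1) - omz (-i) ≠ 0 := by
      have h4 : ∀ k : ZMod 3, omz (k + 1) - omz k ≠ 0 := by
        intro k h5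
        rw [Oscx63.omz_add_one] at h5
        have h6 : (om - 1) * omz k = 0 := by linear_combination h5
        rcases mul_eq_zero.1 h6 with h7 | h7
        · have h8 := Oscx63.om_re
          have h9 : om = 1 := by linear_combination h7
          rw [h9] at h8
          norm_num at h8
        · have h8 := norm_omz k
          rw [h7, norm_zero] at h8
          norm_num at h8
      exact h4 _
    have hom : om ≠ 0 := by
      intro h; have := norm_om; rw [h, norm_zero] at this; norm_num at this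
    have e : sg true i = -i := by simp [sg]
    rw [e, ← h1, ← h2]
    set A := omz (-i)
    set B := omz (-i + 1)
    rw [h3 A B]
    have h4 : tr true w - tr true B = om * (starRingEnd ℂ) (w - B) := h3 w B
    rw [h4, mul_div_mul_left _ _ hom, ← map_div₀]
    have hne' : A - B ≠ 0 := fun h => hne (by linear_combination -h)
    have h6 : (w - B) / (A - B) = 1 - (w - A) / (B - A) := by
      field_simp
      ring
    rw [h6, Complex.conj_im, Complex.sub_im, Complex.one_im, zero_sub, neg_neg]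

/-- boundary conditions at an open arc -/
theorem albp_of {Adm : Dom → ℝ → Prop} (hA : LALB Adm) (S : Dat) {rv : ℕ → Bool} {Dm : ℕ → Dom}
    {δ m : ℕ → ℝ} (hOK : ∀ n, Adm (Dm n) (δ n)) (hR : RoomOK S.D Dm m) (hG : ArcGeo S rv Dm)
    {G : ℕ → ℝ → Set Sample} (hGf : ∀ n, GoodFam (Dm n) (G n)) (i : ZMod 3) {p : ℂ}
    (hp : p ∈ S.arc i) :
    ALBP S.D lc (Hs rv Dm G) (omz i) (omz (i + 1) - omz i) p := by
  intro η hη
  obtain ⟨R0, hR0, h1, h2⟩ := hG i p hp
  choose Λ hΛ h3 using fun j => hA j η hη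
  set L := Λ 0 + Λ 1 + Λ 2 with hL
  have hLj : ∀ j, Λ j ≤ L := by
    intro j
    have h4 : ∀ k : ZMod 3, k = 0 ∨ k = 1 ∨ k = 2 := by decide
    have e0 := hΛ 0; have e1 := hΛ 1; have e2 := hΛ 2
    rcases h4 j with h | h | h <;> subst h <;> linarith
  set R1 := min R0 1 with hR1
  have hR1p : 0 < R1 := lt_min hR0 one_pos
  have hL0 : 0 < L := by have := hΛ 0; have := hΛ 1; have := hΛ 2; linarith
  have hL1 : 1 < L := by have := hΛ 0; have := hΛ 1; have := hΛ 2; linarith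
  have hs : 0 < R1 / L := div_pos hR1p hL0
  have hsR : R1 / L < R1 := div_lt_self hR1p hL1
  refine ⟨R1 / L, hs, fun z hz hzp => ?_⟩
  obtain ⟨ρ, hρ, h4⟩ := hR.2 {z} isCompact_singleton (by simpa using hz)
  rw [ev_lc]
  filter_upwards [h1 z hz (hzp.trans (hsR.trans_le (min_le_left _ _))), h2 _ hs, h4] with n e1 e2 e3
  have h5 := h3 (sg (rv n) i) (Dm n) (δ n) (hOK n) (G n) (hGf n) p R1 (R1 / L) hs (min_le_right _ _)
    (by
      calc Λ (sg (rv n) i) * (R1 / L) ≤ L * (R1 / L) :=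
            mul_le_mul_of_nonneg_right (hLj _) hs.le
        _ = R1 := mul_div_cancel₀ _ hL0.ne') e2 z hzp (e1.mono (min_le_left _ _) le_rfl)
    (m n) (hR.1 n) (e3 z rfl).2
  filter_upwards [h5] with ε hε
  rw [Hs, im_tr]
  exact hε

/-- the value near `b` -/
def Val (S : Dat) (b : ℂ) (H : ℕ × ℝ → ℂ → ℂ) (c : ℕ × ℝ → ℝ) : Prop :=
  ∀ η > 0, ∃ δ > 0, ∀ z ∈ S.D, dist z b < δ → ∀ᶠ i in lc,
    dist (H i z) (1 + (c i : ℂ) * (tau3 - 1)) ≤ η

/-- `Bdry` from the leaf ALB and the value near `b` -/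
theorem bdry_of {Adm : Dom → ℝ → Prop} (hA : LALB Adm) (S : Dat) {rv : ℕ → Bool} {Dm : ℕ → Dom}
    {δ m : ℕ → ℝ} (hOK : ∀ n, Adm (Dm n) (δ n)) (hR : RoomOK S.D Dm m) (hG : ArcGeo S rv Dm)
    {G : ℕ → ℝ → Set Sample} (hGf : ∀ n, GoodFam (Dm n) (G n)) {b : ℂ} {c : ℕ × ℝ → ℝ}
    (hv : Val S b (Hs rv Dm G) c) : Bdry S b (Hs rv Dm G) c where
  b1 p hp h1 h2 h3 h4 := by
    have h5 : p ∈ S.arc 0 := ⟨hp, h1, h2, by rw [if_pos rfl]; exact ⟨h3, h4⟩⟩
    have h6 := albp_of hA S hOK hR hG hGf 0 h5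
    rwa [zero_add, omz_zero, omz_one] at h6
  b2 p hp h1 h2 h3 := by
    have h5 : p ∈ S.arc 1 := ⟨hp, h1, h2, by rw [if_neg (by decide), if_pos rfl]; exact h3⟩
    have h6 := albp_of hA S hOK hR hG hGf 1 h5
    rwa [show (1 : ZMod 3) + 1 = 2 from rfl, omz_one, omz_two] at h6
  b3 p hp h1 h2 h3 := by
    have h5 : p ∈ S.arc 2 := ⟨hp, h1, h2, by
      rw [if_neg (by decide), if_neg (by decide)]; exact h3⟩
    have h6 := albp_of hA S hOK hR hG hGf 2 h5
    rwa [show (2 : ZMod 3) + 1 = 0 from rfl, omz_two, omz_zero] at h6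
  val := hv

/-- **leaf DOM'** (block D): geometry, value near `b`, sandwich -/
def LDom' (Adm : Dom → ℝ → Prop) : Prop :=
  ∀ (S : Dat) (b : ℂ), b ∈ frontier S.D → b ≠ S.d → S.φ b = S.x → ∀ up : Bool,
  ∃ (rv : ℕ → Bool) (Dm : ℕ → Dom) (δ m : ℕ → ℝ), (∀ n, Adm (Dm n) (δ n)) ∧ RoomOK S.D Dm m ∧
    ArcGeo S rv Dm ∧ ∀ G : ℕ → ℝ → Set Sample, (∀ n, GoodFam (Dm n) (G n)) →
      ∃ c : ℕ × ℝ → ℝ, Val S b (Hs rv Dm G) c ∧ Sand S up c

theorem dom_of {Adm : Dom → ℝ → Prop} (hA : LALB Adm) (hD : LDom' Adm) : LDom Adm := by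
  intro S b hb hbd hφb up
  obtain ⟨rv, Dm, δ, m, hOK, hR, hG, h⟩ := hD S b hb hbd hφb up
  refine ⟨rv, Dm, δ, m, hOK, hR, fun G hGf => ?_⟩
  obtain ⟨c, hv, hs⟩ := h G hGf
  exact ⟨c, bdry_of hA S hOK hR hG hGf hv, hs⟩

end Crest.Agent.R143.Spinex422
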