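import Crest.Agent.R143.D3B_802
import Crest.Agent.R143.LEq_63
import Crest.Agent.R143.M3e_63
import Crest.Agent.R143.Spine2_422

/-!
# Row 143 (S0194), block D3: leaf LALB of the spine (helper802)

* `path_out` : a region which comes close to `p` contains, with a margin, a point on every circle
* `tri_hyp` : the triangle containing a linked point near `p`
* `quenched` : heights of the quenched observable
* `lalb` : **E3 → LALB Dom.Ad**
-/

set_option autoImplicit false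

noncomputable section

open scoped Classical ENNReal

namespace Crest.Agent.R143.D3Cx802

open Set MeasureTheory Filter Topology
open Crest.ProbabilityR.Voronoi
open Crest.Agent.R143.B0x346 Crest.Agent.R143.B0Dx346 Crest.Agent.R143.Oscx63
open Crest.Agent.R143.DelGx806 Crest.Agent.R143.Circx63 Crest.Agent.R143.Scalx63
open Crest.Agent.R143.EQ2x63 Crest.Agent.R143.Locx922 Crest.Agent.R143.Cfgx416
open Crest.Agent.R143.Ex0x922 Crest.Agent.R143.Wlkx802 Crest.Agent.R143.D3Ax802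
open Crest.Agent.R143.Sidesx697 Crest.Agent.R143.G6Wx723 Crest.Agent.R143.PP1x831
open Crest.Agent.R143.D3Bx802 Crest.Agent.R143.EQ5x63 Crest.Agent.R143.Spinex422

variable {n : ℕ} {C : Cfg n} {S : Finset ℂ} {δ d : ℝ} {i : ZMod 3} {p : ℂ} {R0 s K : ℝ}
  {G T : Set ℂ}

/-- a region which comes close to `p` meets every circle, with a margin -/
theorem path_out (hC : C.OK δ) {j : ZMod n}
    (hball : Metric.closedBall p R0 ⊆ Metric.closedBall C.c (C.L / 2))
    (hj : (C.R j ∩ Metric.ball p s).Nonempty) :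
    ∃ e > 0, ∀ ρ : ℝ, s ≤ ρ → ρ ≤ R0 → ∃ y, ‖y - p‖ = ρ ∧ Metric.ball y e ⊆ C.out := by
  have hL := hC.Lpos
  obtain ⟨x, hx, hxs⟩ := hj
  -- a far point
  obtain ⟨e, he, hsec⟩ := hC.sect j C.L (by linarith)
  set ψ := Real.arcsin (δ / C.L) + e / 2 with hψ
  set x1 := C.c + C.L * C.q j * Complex.exp (ψ * Complex.I) with hx1
  have hx1R : x1 ∈ C.R j := (hsec ψ (by linarith) (by linarith)).1
  have hx1n : ‖x1 - C.c‖ = C.L := by
    rw [hx1, add_sub_cancel_left, norm_mul, norm_mul, hC.qn, Complex.norm_exp_ofReal_mul_I,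
      Complex.norm_real, Real.norm_of_nonneg hL.le]
    ring
  have hx1p : R0 < ‖x1 - p‖ := by
    by_contra hcon
    push Not at hcon
    have := hball (mem_closedBall_iff_norm.2 hcon)
    rw [mem_closedBall_iff_norm, hx1n] at this
    linarith
  -- the path
  have hpc : IsPathConnected (C.R j) := (hC.opn j).isConnected_iff_isPathConnected.1 (hC.con j)
  obtain ⟨γ, hγ⟩ := hpc.joinedIn x hx x1 hx1R
  have hcomp : IsCompact (range γ) := isCompact_range γ.continuous
  obtain ⟨e0, he0, hthick⟩ := hcomp.exists_thickening_subset_open (hC.opn j) (by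
    rintro _ ⟨t, rfl⟩; exact hγ t)
  refine ⟨e0, he0, fun ρ h1 h2 => ?_⟩
  have hcont : Continuous fun t => ‖γ t - p‖ := by fun_prop
  have hmem : ρ ∈ range fun t => ‖γ t - p‖ := by
    apply mem_range_of_exists_le_of_exists_ge hcont
    · refine ⟨0, ?_⟩
      show ‖γ 0 - p‖ ≤ ρ
      rw [γ.source]
      rw [mem_ball_iff_norm] at hxs
      linarith
    · refine ⟨1, ?_⟩
      show ρ ≤ ‖γ 1 - p‖
      rw [γ.target]
      linarith
  obtain ⟨t, ht⟩ := hmem
  refine ⟨γ t, ht, fun w hw => mem_iUnion.2 ⟨j, hthick ?_⟩⟩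
  rw [Metric.mem_thickening_iff]
  exact ⟨γ t, mem_range_self t, hw⟩

theorem path_dom (hn : 3 ≤ n) (hC : C.OK δ)
    (hball : Metric.closedBall p R0 ⊆ Metric.closedBall C.c (C.L / 2))
    (hj : (C.dom.R i ∩ Metric.ball p s).Nonempty) :
    ∃ e > 0, ∀ ρ : ℝ, s ≤ ρ → ρ ≤ R0 → ∃ y, ‖y - p‖ = ρ ∧ Metric.ball y e ⊆ C.out := by
  obtain ⟨x, hx, hxs⟩ := hj
  obtain ⟨j, hj, -⟩ := ClsCx697.dom_R hx hn
  exact path_out hC hball ⟨x, hj, hxs⟩

/-- the centre of a triangle is close to its points -/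
theorem centre_near (H : Geo C S δ d i p R0 s K G T) {a b c z o : ℂ} (hz : dist z p ≤ R0)
    (hzT : InT z a b c) (hT : Tri S a b c o) :
    ‖z - o‖ < d ∧ ‖a - z‖ < 2 * d := by
  have hd := H.dpos
  have hzW : z ∈ WD C d := by
    apply Metric.mem_closedBall.2
    have := near_W H hz
    linarith [H.dL]
  have h6 := inT_disc hT.pos (norm_eq_iff.2 hT.pb) (norm_eq_iff.2 hT.pc) hzT
  have h7 := disc_small hd H.hol hzW (fun s hs => norm_le_iff.2 (hT.emp s hs)) h6
  obtain ⟨o2, -, -, -, -, -, ga, -, -⟩ := del_small hd H.hol hzW (InT.inD hT.pos hzT)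
    (mem_delT.1 (mem_delT_iff.2 ⟨o, hT⟩))
  exact ⟨h6.trans_lt h7, ga⟩

/-- **sites around a point with room are inner** -/
theorem inn_of_room (H : Geo C S δ d i p R0 s K G T) {z a : ℂ} {m : ℝ} (hm : 3 * d ≤ m)
    (hz : z ∈ Metric.closedBall C.c (3 / 4 * C.L)) (hzm : Disjoint (Metric.ball z m) C.out)
    (ha : a ∈ S) (haz : ‖a - z‖ < 2 * d) : a ∈ C.inn S := by
  have hd := H.dpos
  have haW : a ∈ WD C d := by
    apply Metric.mem_closedBall.2
    have h1 := dist_triangle a z C.c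
    rw [dist_eq_norm a z] at h1
    have h2 := Metric.mem_closedBall.1 hz
    linarith [H.dL]
  rw [DomEx722.mem_inn]
  refine ⟨ha, fun j hj => ?_⟩
  rcases hj with ⟨-, y, hy, hyR⟩ | hj
  · have h1 := cell_sub_ball hd H.hol haW hy
    have h2 := norm_tri y a z
    exact Set.disjoint_left.1 hzm (mem_ball_iff_norm.2 (by linarith)) (mem_iUnion.2 ⟨j, hyR⟩)
  · exact not_harc H haW j hj

/-- **a triangle around a linked point of `G`** : it is in `TT` and its vertices are in `WW` -/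
theorem tri_hyp {ε M : ℝ} {ω : Sample} (H : Geo C (C.dom.sites ε ω) δ d i p R0 s K G T)
    (h : Env ε d M C.dom.c C.dom.L ω) (hd6 : 40000 * C.dom.L ^ 5 * d ≤ δ ^ 6) {m : ℝ}
    (hm : 3 * d ≤ m) {z : ℂ} (hzp : dist z p + d < R0) (hzG : z ∈ G) (hL : Linked C.dom m z)
    {a b c : ℂ} (ht : (a, b, c) ∈ delT (C.dom.sites ε ω)) (hz : InT z a b c) :
    (a, b, c) ∈ TT C (C.dom.sites ε ω) G ∧ a ∈ C.inn (C.dom.sites ε ω) ∧ ‖a - z‖ < 2 * d := by
  have hd := H.dpos
  obtain ⟨Z, hZ, hzZ, hZb, hZq, hZm⟩ := hL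
  obtain ⟨o, hT⟩ := mem_delT_iff.1 ht
  obtain ⟨h1, h2⟩ := centre_near H (by linarith) hz hT
  have hzm : Disjoint (Metric.ball z m) C.out := by
    have := hZm z hzZ
    rwa [C.dom_out] at this
  have hW : C.dom.W δ := Adx422.w_dom H.hn H.ok
  refine ⟨⟨ht, (Ex2x922.exm_envW hW h hd6 hm hZ hZb hZq hZm ht ⟨z, hz, hzZ⟩).1, o, ?_, hT⟩,
    inn_of_room H hm (hZb hzZ) hzm hT.ma h2, h2⟩
  have hop : dist o p < R0 := by
    have := dist_triangle o z p
    rw [dist_eq_norm o z, norm_sub_rev] at this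
    linarith
  rcases H.g1 z hzG o (by rw [dist_eq_norm]; linarith [H.dK]) hop with h3 | h3
  · exact h3
  · exfalso
    exact Set.disjoint_left.1 hzm (mem_ball_iff_norm.2 (by rw [norm_sub_rev]; linarith))
      (out_dom h3)

theorem hgt_mean (i : ZMod 3) (x y w : ℂ) :
    hgt i ((x + y + w) / 3) = (hgt i x + hgt i y + hgt i w) / 3 := by
  unfold hgt
  have e : ((x + y + w) / 3 - omz i) / sd i =
      ((1 / 3 : ℝ) : ℂ) * ((x - omz i) / sd i + (y - omz i) / sd i + (w - omz i) / sd i) := by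
    push_cast
    ring
  rw [e, Complex.im_ofReal_mul, Complex.add_im, Complex.add_im]
  ring

theorem inT_of_inTri {z a b c : ℂ} (h : InTri z a b c) : InT z a b c :=
  ⟨h.1.le, h.2.1.le, h.2.2.le⟩

theorem hval_spec {N : Net ℂ} {z : ℂ} (h : ∃ t : ℂ × ℂ × ℂ, t ∈ N.T ∧ InTri z t.1 t.2.1 t.2.2) :
    ∃ a b c, (a, b, c) ∈ N.T ∧ InTri z a b c ∧ hval N z = (N.F a b + N.F b c + N.F c a) / 3 := by
  unfold hval
  rw [dif_pos h]
  exact ⟨h.choose.1, h.choose.2.1, h.choose.2.2, h.choose_spec.1, h.choose_spec.2, rfl⟩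

/-- **the quenched estimate** -/
theorem quenched (hE : E3) (hn : 3 ≤ n) (hC : C.OK δ) (hs : 0 < s)
    (hball : Metric.closedBall p R0 ⊆ Metric.closedBall C.c (C.L / 2))
    (hR : (C.dom.R i ∩ Metric.ball p s).Nonempty) (hK : 0 < K)
    {z : ℂ} (hz : dist z p < s) (hG : LocC C.dom {i} p R0 z K G) {m : ℝ} (hm : 0 < m)
    (hL : Linked C.dom m z) {k0 : ℤ} {N : ℕ} (hN : 0 < N) (hk1 : (2 : ℝ) ^ (k0 + 1) ≤ 1)
    (hk0 : (2 : ℝ) ^ k0 < R0) (hsk : s < (2 : ℝ) ^ (k0 - N)) :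
    ∃ c2 > 0, ∀ (ε d M : ℝ) (ω : Sample), Env ε d M C.dom.c C.dom.L ω → 0 < d → d ≤ c2 →
      (∀ z ∈ Metric.closedBall (0 : ℂ) (‖C.dom.c‖ + C.dom.L + 1), ∀ ρ : ℝ,
        (2 : ℝ) ^ (k0 - N) ≤ ρ → ρ ≤ 1 →
        diamSum (points ε ω) (Metric.ball z ρ) ≤ ENNReal.ofReal (CM * ρ ^ 2)) →
      (∀ a ∈ points ε ω, ∀ b ∈ points ε ω, a ≠ b → cr (b - a) (z - a) ≠ 0) →
      0 ≤ hgt i (C.dom.h ε ω z) ∧ hgt i (C.dom.h ε ω z) ≤ om2 (64 * CM) N := by
  have hLp := hC.Lpos
  have hδ := hC.dpos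
  have hle : (2 : ℝ) ^ (k0 - N) ≤ (2 : ℝ) ^ k0 := zpow_le_zpow_right₀ (by norm_num) (by omega)
  obtain ⟨e, he, hkill⟩ := path_dom hn hC hball hR
  set c2 := min (min e (K / 3)) (min (min (C.L / 16) (m / 3))
    (min (min ((R0 - (2 : ℝ) ^ k0) / 4) (((2 : ℝ) ^ (k0 - N) - s) / 5))
      (δ ^ 6 / (40000 * C.L ^ 5)))) with hc2
  have p1 : 0 < (R0 - (2 : ℝ) ^ k0) / 4 := by linarith
  have p2 : 0 < ((2 : ℝ) ^ (k0 - N) - s) / 5 := by linarith
  have p3 : 0 < δ ^ 6 / (40000 * C.L ^ 5) := by positivity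
  refine ⟨c2, by
    rw [hc2]
    exact lt_min (lt_min he (by positivity)) (lt_min (lt_min (by positivity) (by positivity))
      (lt_min (lt_min p1 p2) p3)), ?_⟩
  intro ε d M ω h hd hdc hM hzl
  have d1 : d ≤ e := hdc.trans ((min_le_left _ _).trans (min_le_left _ _))
  have d2 : d ≤ K / 3 := hdc.trans ((min_le_left _ _).trans (min_le_right _ _))
  have d3 : d ≤ C.L / 16 :=
    hdc.trans ((min_le_right _ _).trans ((min_le_left _ _).trans (min_le_left _ _)))
  have d4 : d ≤ m / 3 :=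
    hdc.trans ((min_le_right _ _).trans ((min_le_left _ _).trans (min_le_right _ _)))
  have d5 : d ≤ (R0 - (2 : ℝ) ^ k0) / 4 := hdc.trans ((min_le_right _ _).trans
    ((min_le_right _ _).trans ((min_le_left _ _).trans (min_le_left _ _))))
  have d6 : d ≤ ((2 : ℝ) ^ (k0 - N) - s) / 5 := hdc.trans ((min_le_right _ _).trans
    ((min_le_right _ _).trans ((min_le_left _ _).trans (min_le_right _ _))))
  have d7 : d ≤ δ ^ 6 / (40000 * C.L ^ 5) := hdc.trans ((min_le_right _ _).trans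
    ((min_le_right _ _).trans (min_le_right _ _)))
  have d8 : 40000 * C.L ^ 5 * d ≤ δ ^ 6 := by
    rw [le_div_iff₀ (by positivity)] at d7
    linarith
  have hW : C.dom.W δ := Adx422.w_dom hn hC
  have hS : DomAx722.Dns (C.dom.sites ε ω) C.c C.L d :=
    DomAx722.dns_of_env (D := C.dom) hLp (by show 8 * d ≤ C.L; linarith) h
  have hO : C.Out (C.dom.sites ε ω) := DomEx722.out_S hn hC hS d8
  obtain ⟨hzG, hG0, hG1⟩ := hG
  have H : Geo C (C.dom.sites ε ω) δ d i p R0 s K G ∅ :=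
    { hn := hn
      ok := hC
      out := hO
      hol := Env.hol_sites h
      dpos := hd
      dL := by linarith
      dK := by linarith
      s0 := hs
      ball := hball
      g0 := by rw [← C.dom_out]; exact hG0
      TG := empty_subset _
      g1 := fun y hy y' h1 h2 => by
        rcases hG1 y hy y' h1 h2 with h3 | ⟨i', hi', h3⟩
        · exact Or.inl h3
        · rw [mem_singleton_iff] at hi'
          rw [hi'] at h3
          exact Or.inr h3
      g2 := fun y hy => absurd hy (notMem_empty y) }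
  have hpR : ‖p‖ ≤ ‖C.dom.c‖ + C.dom.L + 1 := by
    have hR0 : 0 ≤ R0 := by
      have : (0 : ℝ) < (2 : ℝ) ^ k0 := by positivity
      linarith
    have h1 : p ∈ Metric.closedBall C.c (C.L / 2) := hball (Metric.mem_closedBall_self hR0)
    rw [mem_closedBall_iff_norm] at h1
    have h2 := norm_add_le (p - C.c) C.c
    rw [sub_add_cancel] at h2
    show ‖p‖ ≤ ‖C.c‖ + C.L + 1
    linarith
  have hAd : C.dom.Ad δ := ⟨n, C, hn, hC, rfl⟩
  have hHyp := hyp_of hE H h (fun U hU => En12Ax395.energy_dom hE hAd h d8 hU) (k0 := k0) (m := N)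
    hN (by linarith) (by linarith) CM_nonneg (by
      intro k hk
      rw [Finset.mem_Ico] at hk
      apply hM p (by rw [mem_closedBall_zero_iff]; exact hpR)
      · exact zpow_le_zpow_right₀ (by norm_num) (by omega)
      · exact (zpow_le_zpow_right₀ (by norm_num) (by omega)).trans hk1)
    (fun ρ h1 h2 => by
      obtain ⟨y, hy, hyo⟩ := hkill ρ (by linarith) (by linarith)
      exact ⟨y, hy, (Metric.ball_subset_ball d1).trans hyo⟩)
  obtain ⟨ρ, hρ1, hρ2, hdet, -⟩ := det hHyp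
  -- the triangle of `z`
  have hsites : ∀ s ∈ C.dom.sites ε ω, s ∈ points ε ω := fun s hs => ((mem_sites h.fin).1 hs).1
  have hzb : z ∈ WD C d := by
    apply Metric.mem_closedBall.2
    have := near_W H (o := z) (by linarith)
    linarith
  have hex : ∃ t : ℂ × ℂ × ℂ, t ∈ (C.dom.netS (C.dom.sites ε ω)).T ∧ InTri z t.1 t.2.1 t.2.2 := by
    obtain ⟨a, b, c, ht, hy'⟩ := exists_tri_W hO.gp hd H.hol hzb
    obtain ⟨t, ht', hz'⟩ := EQ4x63.inTri_of ht hy'
      (fun a ha b hb => hzl a (hsites a ha) b (hsites b hb))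
    exact ⟨t, by rw [hO.hnet.tri]; exact ht', hz'⟩
  obtain ⟨a, b, c, ht, hzt, hval⟩ := hval_spec hex
  rw [hO.hnet.tri] at ht
  have hzT := inT_of_inTri hzt
  have key : ∀ a b c : ℂ, (a, b, c) ∈ delT (C.dom.sites ε ω) → InT z a b c →
      0 ≤ hgt i ((C.dom.netS (C.dom.sites ε ω)).F a b) ∧
        hgt i ((C.dom.netS (C.dom.sites ε ω)).F a b) ≤ om2 (64 * CM) N := by
    intro a b c ht hzT
    obtain ⟨h1, h2, h3⟩ := tri_hyp H h d8 (by linarith) (by linarith) hzG hL ht hzT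
    refine hdet a (mem_WW.2 ⟨(DomEx722.mem_inn.1 h2).1, h2, Or.inl ?_, b, c, h1⟩) b c ht
    have h4 := norm_tri a z p
    rw [dist_eq_norm] at hz
    linarith
  have hrot := (g1 (C.dom.sites ε ω) hO.gp).1
  obtain ⟨a1, a2⟩ := key a b c ht hzT
  obtain ⟨b1, b2⟩ := key b c a (hrot _ _ _ ht) (InT.rot hzT)
  obtain ⟨c1, c2'⟩ := key c a b (hrot _ _ _ (hrot _ _ _ ht)) (InT.rot (InT.rot hzT))
  unfold Dom.h
  rw [hval, hgt_mean]
  constructor <;> linarith

/-- small oscillation with many scales -/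
theorem exists_om2 {η : ℝ} (hη : 0 < η) : ∃ n : ℕ, 0 < n ∧ om2 (64 * CM) n ≤ η := by
  obtain ⟨n, hn⟩ := exists_nat_gt
    (3 * (64 * CM * (Real.sqrt (64 * CM) + 2) * 12) * (1 / η) ^ 2)
  have hn0 : (0 : ℝ) < n := lt_of_le_of_lt (by have := CM_nonneg; positivity) hn
  refine ⟨n, by exact_mod_cast hn0, ?_⟩
  unfold om2
  rw [← Real.sqrt_mul (by norm_num)]
  rw [Real.sqrt_le_left (by positivity)]
  rw [mul_div_assoc', div_le_iff₀ hn0]
  have h1 : (1 / η) ^ 2 * η ^ 2 = 1 := by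
    rw [← mul_pow, one_div, inv_mul_cancel₀ hη.ne', one_pow]
  have h2 : 0 < η ^ 2 := by positivity
  have h3 := mul_lt_mul_of_pos_right hn h2
  rw [mul_assoc, h1, mul_one] at h3
  linarith

theorem abs_hgt_le (i : ZMod 3) (w : ℂ) : |hgt i w| ≤ ‖w‖ + 1 := by
  unfold hgt
  refine (Complex.abs_im_le_norm _).trans ?_
  rw [norm_div]
  refine (div_le_self (norm_nonneg _) (one_le_sd i)).trans ?_
  have h1 := norm_sub_le w (omz i)
  have h2 := D3Ax802.norm_omz i
  linarith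

/-- **leaf LALB of the spine** -/
theorem lalb (hE : E3) : LALB Dom.Ad := by
  intro i η hη
  obtain ⟨N, hN, hom⟩ := exists_om2 (η := η / 4) (by linarith)
  refine ⟨(2 : ℝ) ^ (N + 2), one_lt_pow₀ (by norm_num) (by omega), ?_⟩
  intro D δ hAd G hG p R0 s hs hR1 hΛ hR z hz hLoc m hm hL
  obtain ⟨n, C, hn, hC, rfl⟩ := hAd
  obtain ⟨hball, K, hK, Cc, hLocC⟩ := hLoc
  have hΛ0 : (0 : ℝ) < (2 : ℝ) ^ (N + 2) := by positivity
  have hR0 : 0 < R0 := lt_of_lt_of_le (mul_pos hΛ0 hs) hΛ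
  obtain ⟨k0, hk0⟩ := exists_mem_Ico_zpow (x := R0 / 2) (y := (2 : ℝ)) (by linarith) (by norm_num)
  rw [mem_Ico] at hk0
  have hk1 : (2 : ℝ) ^ (k0 + 1) ≤ 1 := by
    rw [zpow_add₀ (by norm_num), zpow_one]
    linarith [hk0.1]
  have hk2 : (2 : ℝ) ^ k0 < R0 := by linarith [hk0.1]
  have hsk : s < (2 : ℝ) ^ (k0 - N) := by
    have h1 : (2 : ℝ) ^ (k0 + 1) = (2 : ℝ) ^ (k0 - N) * (2 : ℝ) ^ (N + 1) := by
      rw [← zpow_natCast, ← zpow_add₀ (by norm_num)]
      congr 1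
      push_cast
      ring
    have h2 : (2 : ℝ) ^ (N + 2) = 2 * (2 : ℝ) ^ (N + 1) := by ring
    have h3 : (0 : ℝ) < (2 : ℝ) ^ (N + 1) := by positivity
    have h4 : (2 : ℝ) ^ (N + 1) * s < (2 : ℝ) ^ (N + 1) * (2 : ℝ) ^ (k0 - N) := by
      rw [h2] at hΛ
      have h5 := hk0.2
      rw [h1] at h5
      linarith
    exact lt_of_mul_lt_mul_left h4 h3.le
  obtain ⟨c2, hc2, hq⟩ := quenched hE hn hC hs hball hR hK hz hLocC hm hL hN hk1 hk2 hsk
  set R := ‖C.dom.c‖ + C.dom.L + 1 with hRdef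
  obtain ⟨C0, hC0, hhole⟩ := PoisM3cx501.m3c R 1
  have hrad := rad_lim C0
  have hbpos : 0 < (2 : ℝ) ^ (k0 - N) := by positivity
  have e1 : ∀ᶠ ε : ℝ in 𝓝[>] 0, 0 < ε := eventually_mem_nhdsWithin
  have e2 : ∀ᶠ ε : ℝ in 𝓝[>] 0, ε < min (1 / 2) (η / 24) :=
    nhdsWithin_le_nhds (eventually_lt_nhds (by positivity))
  have e3 : ∀ᶠ ε : ℝ in 𝓝[>] 0, rad C0 ε < c2 := hrad.eventually_lt_const hc2
  have e4 : ∀ᶠ ε : ℝ in 𝓝[>] 0, ε * Real.log (1 / ε) ^ (8 : ℕ) < (2 : ℝ) ^ (k0 - N) :=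
    scale_lim.eventually_lt_const hbpos
  filter_upwards [e1, e2, e3, e4, hhole, m4u R 1, hG.hm1, hG.prob] with ε h1 h2 h3 h4 h5 h6 h7 h8
  have hε1 : ε < 1 / 2 := h2.trans_le (min_le_left _ _)
  have hε2 : ε < η / 24 := h2.trans_le (min_le_right _ _)
  have hdpos : 0 < rad C0 ε := by
    unfold rad
    have : 0 < Real.log (1 / ε) := Real.log_pos (by
      rw [lt_div_iff₀ h1]; linarith)
    positivity
  -- the bad event
  set B1 : Set Sample := {ω | ∃ z ∈ Metric.closedBall (0 : ℂ) R,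
    points ε ω ∩ Metric.ball z (rad C0 ε) = ∅} with hB1
  set B2 : Set Sample := {ω | ¬ ∀ z ∈ Metric.closedBall (0 : ℂ) R, ∀ ρ : ℝ,
      ε * Real.log (1 / ε) ^ (8 : ℕ) ≤ ρ → ρ ≤ 1 →
      diamSum (points ε ω) (Metric.ball z ρ) ≤ ENNReal.ofReal (CM * ρ ^ 2)} with hB2
  set B := toMeasurable sampleLaw (B1 ∪ B2) with hB
  have hBm : MeasurableSet B := measurableSet_toMeasurable _ _
  have hBs : B1 ∪ B2 ⊆ B := subset_toMeasurable _ _
  have hBp : sampleLaw B ≤ ENNReal.ofReal (2 * ε) := by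
    rw [hB, measure_toMeasurable]
    refine (measure_union_le _ _).trans ?_
    rw [Real.rpow_one] at h5 h6
    refine (add_le_add h5 h6).trans (le_of_eq ?_)
    rw [← ENNReal.ofReal_add h1.le h1.le]
    congr 1
    ring
  -- pointwise
  have hpt : ∀ᵐ ω ∂(sampleLaw.restrict (G ε)),
      ‖hgt i (C.dom.h ε ω z)‖ ≤ η / 4 + B.indicator (fun _ => (4 : ℝ)) ω := by
    apply ae_restrict_of_ae
    filter_upwards [PoisM3x930.m3a ε h1, M3ex63.m3e ε h1 z] with ω g1 g2
    rw [Real.norm_eq_abs]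
    by_cases hω : ω ∈ B
    · rw [Set.indicator_of_mem hω]
      have a1 := norm_h_le C.dom ε ω z
      have a2 := abs_hgt_le i (C.dom.h ε ω z)
      linarith
    · rw [Set.indicator_of_notMem hω, add_zero]
      have b1 : ω ∉ B1 := fun h => hω (hBs (Or.inl h))
      have b2 : ω ∉ B2 := fun h => hω (hBs (Or.inr h))
      have hholes : ∀ z ∈ Metric.closedBall (0 : ℂ) R,
          (points ε ω ∩ Metric.ball z (rad C0 ε)).Nonempty := by
        intro z hz
        by_contra hcon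
        rw [Set.not_nonempty_iff_eq_empty] at hcon
        exact b1 ⟨z, hz, hcon⟩
      obtain ⟨M, hEnv⟩ := env_of (D := C.dom) (R := R) (by linarith) hdpos g1.1 g1.2.2 hholes
      rw [hB2, Set.mem_ofPred_eq, not_not] at b2
      obtain ⟨q1, q2⟩ := hq ε (rad C0 ε) M ω hEnv hdpos h3.le (by
        intro y hy r hr hr1
        exact b2 y hy r (h4.le.trans hr) hr1) g2
      rw [abs_of_nonneg q1]
      exact q2.trans hom
  -- integrals
  have hfin : IsFiniteMeasure (sampleLaw.restrict (G ε)) := by infer_instance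
  have i1 : Integrable (fun ω => C.dom.h ε ω z) (sampleLaw.restrict (G ε)) :=
    Integrable.of_bound (h7 z) 3 (ae_of_all _ fun ω => norm_h_le C.dom ε ω z)
  have i2 : Integrable (fun ω => (C.dom.h ε ω z - omz i) / sd i) (sampleLaw.restrict (G ε)) :=
    (i1.sub (integrable_const _)).div_const _
  have i3 : Integrable (fun ω => η / 4 + B.indicator (fun _ => (4 : ℝ)) ω)
      (sampleLaw.restrict (G ε)) :=
    (integrable_const _).add ((integrable_const _).indicator hBm)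
  set P := (sampleLaw.restrict (G ε)).real univ with hP
  have p1 : P ≤ 1 := by
    rw [hP, measureReal_def, Measure.restrict_apply_univ]
    exact ENNReal.toReal_le_of_le_ofReal zero_le_one (by simpa using prob_le_one)
  have p0 : 0 ≤ P := measureReal_nonneg
  have p3 : 1 - P ≤ ε := by
    have e : P = sampleLaw.real (G ε) := by
      rw [hP, measureReal_def, Measure.restrict_apply_univ, measureReal_def]
    have e' : sampleLaw.real (G ε)ᶜ = 1 - sampleLaw.real (G ε) := by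
      rw [measureReal_compl (hG.meas ε)]
      simp
    rw [e, ← e', measureReal_def]
    apply ENNReal.toReal_le_of_le_ofReal h1.le
    refine h8.trans (ENNReal.ofReal_le_ofReal ?_)
    calc ε ^ (10 : ℝ) ≤ ε ^ (1 : ℝ) :=
          Real.rpow_le_rpow_of_exponent_ge h1 (by linarith) (by norm_num)
      _ = ε := Real.rpow_one ε
  have p2 : ((sampleLaw.restrict (G ε)).restrict B).real univ ≤ 2 * ε := by
    rw [measureReal_def, Measure.restrict_apply_univ]
    apply ENNReal.toReal_le_of_le_ofReal (by linarith)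
    exact (Measure.restrict_apply_le _ _).trans hBp
  have hint : ∫ ω in G ε, (C.dom.h ε ω z - omz i) / sd i ∂sampleLaw =
      (HG C.dom G ε z - (P : ℂ) * omz i) / sd i := by
    rw [integral_div, integral_sub i1 (integrable_const _), integral_const]
    rfl
  have e5 : (HG C.dom G ε z - omz i) / (omz (i + 1) - omz i) =
      ∫ ω in G ε, (C.dom.h ε ω z - omz i) / sd i ∂sampleLaw - ((1 - P : ℝ) : ℂ) * (omz i / sd i) := by
    rw [hint]
    show _ / sd i = _
    push_cast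
    ring
  rw [e5, Complex.sub_im, Complex.im_ofReal_mul]
  have him : (∫ ω in G ε, (C.dom.h ε ω z - omz i) / sd i ∂sampleLaw).im =
      ∫ ω in G ε, hgt i (C.dom.h ε ω z) ∂sampleLaw :=
    (Complex.imCLM.integral_comp_comm i2).symm
  rw [him]
  have b1 : |∫ ω in G ε, hgt i (C.dom.h ε ω z) ∂sampleLaw| ≤ η / 4 + 8 * ε := by
    rw [← Real.norm_eq_abs]
    refine (norm_integral_le_of_norm_le i3 hpt).trans ?_
    rw [integral_add (integrable_const _) ((integrable_const _).indicator hBm), integral_const,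
      integral_indicator hBm, integral_const, smul_eq_mul, smul_eq_mul, ← hP]
    nlinarith
  have b2 : |(1 - P) * (omz i / sd i).im| ≤ ε := by
    rw [abs_mul, abs_of_nonneg (by linarith : (0 : ℝ) ≤ 1 - P)]
    have h9 : |(omz i / sd i).im| ≤ 1 := by
      refine (Complex.abs_im_le_norm _).trans ?_
      rw [norm_div, D3Ax802.norm_omz]
      exact div_le_one_of_le₀ (one_le_sd i) (norm_nonneg _)
    calc (1 - P) * |(omz i / sd i).im| ≤ (1 - P) * 1 :=
          mul_le_mul_of_nonneg_left h9 (by linarith)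
      _ ≤ ε := by linarith
  have b3 := abs_sub (∫ ω in G ε, hgt i (C.dom.h ε ω z) ∂sampleLaw) ((1 - P) * (omz i / sd i).im)
  linarith

end Crest.Agent.R143.D3Cx802
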