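import Crest.Agent.R143.D3A_802
import Crest.Agent.R143.D3F_802

/-!
# Row 143 (S0194), block D3 without (E3), part 3: legs which leave the annulus (helper802)

* `HG` : the local component near the boundary point `p`, `VV` the inner sites of the annulus
* `escape` : a leg which comes close to `p` and never touches the side `i` with one hand gives a free
  chain across the annulus
* `opp` : the leg from an edge close to `p` to the opposite mark
* `other` : the leg between the two other marks comes close to `p`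
-/

set_option autoImplicit false

noncomputable section

open scoped Classical

namespace Crest.Agent.R143.D3Gx802

open Crest.Agent.R143.B0x346 Crest.Agent.R143.DelGx806 Crest.Agent.R143.DelRx806
open Crest.Agent.R143.Circx63 Crest.Agent.R143.JColx54 Crest.Agent.R143.Wlkx802
open Crest.Agent.R143.D3Ax802 Crest.Agent.R143.D3Ex802 Crest.Agent.R143.D3Fx802
open Crest.Agent.R143.Sidesx697 (Side IsCol off)

/-- the local component near the boundary point `p` -/
structure HG (S : Finset ℂ) (N : Net ℂ) (i : ZMod 3) (p : ℂ) (r0 e R1 : ℝ) (Y : Set ℂ)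
    (T1 : Set (ℂ × ℂ × ℂ)) (inn : Set ℂ) : Prop where
  net : HNet S N
  bd : BD S N i (Metric.closedBall p R1 ∪ Y) T1 inn
  ex : ∀ v ∈ Y, v ∈ inn → ∀ x y, (v, x, y) ∈ delT S → x ∈ inn → ‖x - p‖ < r0 ∨ x ∈ Y
  step : ∀ u v, Adj S u v → ‖u - p‖ < R1 → ‖v - u‖ ≤ e
  rad : r0 + 3 * e ≤ R1
  e0 : 0 ≤ e
  live : ∀ v ∈ inn, ∀ x, (v, x) ∉ N.kl

variable {S : Finset ℂ} {N : Net ℂ} {i : ZMod 3} {p : ℂ} {r0 e R1 : ℝ} {Y : Set ℂ}
  {T1 : Set (ℂ × ℂ × ℂ)} {inn : Set ℂ}

/-- the inner sites of the annulus -/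
def VV (S : Finset ℂ) (p : ℂ) (r0 e R1 : ℝ) (Y : Set ℂ) (T1 : Set (ℂ × ℂ × ℂ)) (inn : Set ℂ) :
    Finset ℂ :=
  (WW S p R1 Y T1 inn).filter fun s => s ∉ Y ∧ r0 + e ≤ ‖s - p‖

theorem mem_VV {v : ℂ} : v ∈ VV S p r0 e R1 Y T1 inn ↔
    v ∈ WW S p R1 Y T1 inn ∧ v ∉ Y ∧ r0 + e ≤ ‖v - p‖ := by
  unfold VV; rw [Finset.mem_filter]

theorem adj_symm {a b : ℂ} (h : Adj S a b) : Adj S b a := Or.symm h

theorem adj_mem {a b : ℂ} (h : Adj S a b) : a ∈ S ∧ b ∈ S := by
  rcases h with ⟨c, hc⟩ | ⟨c, hc⟩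
  · exact ⟨(mem_delT.1 hc).1, (mem_delT.1 hc).2.1⟩
  · exact ⟨(mem_delT.1 hc).2.1, (mem_delT.1 hc).1⟩

/-- at a vertex with a complete ring every neighbour is the first vertex of a triangle -/
theorem adj_fst (hN : HNet S N) {v x : ℂ} (hF : Full N v) (h : Adj S v x) :
    ∃ y, (v, x, y) ∈ delT S := by
  rcases h with h | ⟨d, hd⟩
  · exact h
  · obtain ⟨m, u, hr, -, hall⟩ := hF
    have h1 := N.rot (by rw [hN.tri]; exact hd)
    obtain ⟨j, -, hj⟩ := hall _ _ h1
    refine ⟨u (j + 1 + 1), ?_⟩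
    rw [← hN.tri, hj]
    exact hr.mem (j + 1)

/-- a vertex with a complete ring is not on the hull -/
theorem full_not_hull (hN : HNet S N) {v : ℂ} (hF : Full N v) (x : ℂ) :
    ¬ hullE S v x ∧ ¬ hullE S x v := by
  obtain ⟨m, u, hr, -, hall⟩ := hF
  constructor
  · rintro ⟨⟨c, hc⟩, h2⟩
    obtain ⟨j, hj, -⟩ := hall _ _ (by rw [hN.tri]; exact hc)
    have h3 := hr.mem (j - 1)
    rw [sub_add_cancel, ← hj] at h3
    have h4 := N.rot (N.rot h3)
    rw [hN.tri] at h4
    exact h2 _ h4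
  · rintro ⟨⟨c, hc⟩, h2⟩
    have h1 := N.rot (by rw [hN.tri]; exact hc)
    obtain ⟨j, -, hj⟩ := hall _ _ h1
    have h3 := hr.mem (j + 1)
    rw [← hj, hN.tri] at h3
    exact h2 _ h3

section esc

variable (H : HG S N i p r0 e R1 Y T1 inn)

include H

omit H in
theorem W1_X {v : ℂ} (hv : v ∈ WW S p R1 Y T1 inn) : v ∈ Metric.closedBall p R1 ∪ Y := by
  obtain ⟨-, -, h3, -⟩ := mem_WW.1 hv
  rcases h3 with h3 | h3
  · left; rw [mem_closedBall_iff_norm]; linarith
  · exact Or.inr h3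

theorem W1_full {v : ℂ} (hv : v ∈ WW S p R1 Y T1 inn) : Full N v :=
  H.bd.full v (mem_WW.1 hv).2.1 (W1_X hv)

theorem W_sub {v : ℂ} (hv : v ∈ WW S p r0 Y T1 inn) : v ∈ WW S p R1 Y T1 inn := by
  obtain ⟨h1, h2, h3, h4⟩ := mem_WW.1 hv
  refine mem_WW.2 ⟨h1, h2, ?_, h4⟩
  rcases h3 with h3 | h3
  · left; have := H.rad; have := H.e0; linarith
  · exact Or.inr h3

theorem W_notV {v : ℂ} (hv : v ∈ WW S p r0 Y T1 inn) : v ∉ VV S p r0 e R1 Y T1 inn := by
  intro h
  obtain ⟨-, h2, h3⟩ := mem_VV.1 h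
  rcases (mem_WW.1 hv).2.2.1 with h4 | h4
  · have := H.e0; linarith
  · exact h2 h4

/-- the neighbours of a site of the component -/
theorem next_site {v c : ℂ} (hv : v ∈ WW S p R1 Y T1 inn) (ha : Adj S v c) :
    (c ∈ inn ∨ Side N i c) ∧ (∃ x y, (c, x, y) ∈ T1) ∧
      (v ∈ Y → c ∈ inn → ‖c - p‖ < r0 ∨ c ∈ Y) := by
  obtain ⟨y, hy⟩ := adj_fst H.net (W1_full H hv) ha
  obtain ⟨-, h2, -, b', c', h4⟩ := mem_WW.1 hv
  have h5 := star H.net H.bd h2 (W1_X hv) h4 hy
  have h6 := H.bd.rot _ _ _ h5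
  have hnear : (cT (v, c, y) ∩ (Metric.closedBall p R1 ∪ Y)).Nonempty := by
    obtain ⟨o, hT⟩ := mem_delT_iff.1 hy
    exact ⟨v, (Scalx63.vertex_mem hT.pos).1, W1_X hv⟩
  exact ⟨H.bd.vert _ _ _ h6 (near_rot hnear), ⟨y, v, h6⟩, fun h7 h8 => H.ex v h7 h2 c y hy h8⟩

/-- the sites of the annulus are free -/
theorem free_VV : J8x872.FreeS S N.kl (VV S p r0 e R1 Y T1 inn) := by
  intro s hs x
  have h1 := (mem_VV.1 hs).1
  have h2 := H.live s (mem_WW.1 h1).2.1 x
  have h3 := full_not_hull H.net (W1_full H h1) x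
  exact ⟨h2, fun h => h2 (N.klsym _ _ h), h3.1, h3.2⟩

/-- no mark inside the annulus -/
theorem ex_VV {x y : ℂ} (hx : x ∈ WW S p R1 Y T1 inn) : (x, y) ∉ N.exS ∧ (y, x) ∉ N.exS := by
  have h3 := full_not_hull H.net (W1_full H hx) y
  constructor
  · rintro ⟨k, hk⟩
    have := H.net.hex k
    rw [hk] at this
    exact h3.1 this
  · rintro ⟨k, hk⟩
    have := H.net.hex k
    rw [hk] at this
    exact h3.2 this

end esc

/-- one of the two sites of a state -/
def hand (b : Bool) (q : ℂ × ℂ) : ℂ := if b then q.1 else q.2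

theorem adj_of_J {G : Trg ℂ} {kl : Set (ℂ × ℂ)} {O : Set (ℂ × ℂ × ℂ)} {D' : Set (ℂ × ℂ)}
    {J' : Finset (ℂ × ℂ)} (hG : G.T = delT S) (hJ : IsJoin G kl O D' J') {q : ℂ × ℂ}
    (h : q ∈ J' ∨ (q.2, q.1) ∈ D') : Adj S q.1 q.2 := by
  have key : ∀ a b : ℂ, (a, b) ∈ J' → Adj S a b := by
    intro a b hab
    have h1 := hJ.sub hab
    unfold Trg.E at h1
    rw [Finset.mem_union, Finset.mem_image, Finset.mem_image, hG] at h1
    rcases h1 with ⟨⟨x, y, z⟩, h2, h3⟩ | ⟨⟨x, y, z⟩, h2, h3⟩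
    · rw [Prod.mk.injEq] at h3
      obtain ⟨rfl, rfl⟩ := h3
      exact Or.inl ⟨z, h2⟩
    · rw [Prod.mk.injEq] at h3
      obtain ⟨rfl, rfl⟩ := h3
      exact Or.inr ⟨z, h2⟩
  rcases h with h | h
  · exact key _ _ h
  · exact adj_symm (key _ _ (hJ.mark _ _ h).1)

/-- **escape**: a leg which comes close to `p` and does not touch the side `i` with one hand -/
theorem escape (H : HG S N i p r0 e R1 Y T1 inn) {D' : Set (ℂ × ℂ)} {J' : Finset (ℂ × ℂ)}
    (hJ : IsJoin N.toTrg N.kl ∅ D' J')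
    (hDV : ∀ x ∈ VV S p r0 e R1 Y T1 inn, ∀ y ∈ VV S p r0 e R1 Y T1 inn, (x, y) ∉ D')
    {b : Bool} {p0 q1 x : ℂ × ℂ} (hp0 : p0 ∈ J')
    (hns : ∀ q, Leads N.toTrg ∅ D' J' p0 q → ¬ Side N i (hand b q))
    (h1 : Leads N.toTrg ∅ D' J' p0 q1)
    (hq1 : q1.1 ∈ WW S p r0 Y T1 inn ∨ q1.2 ∈ WW S p r0 Y T1 inn)
    (h2 : Leads N.toTrg ∅ D' J' q1 (x.2, x.1)) (hx : hullE S x.1 x.2) :
    FArm S (VV S p r0 e R1 Y T1 inn) J' p (r0 + 2 * e) (R1 - e) := by
  set V := VV S p r0 e R1 Y T1 inn with hV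
  set W := WW S p r0 Y T1 inn with hW
  set W1 := WW S p R1 Y T1 inn with hW1
  have hrad := H.rad
  have he0 := H.e0
  have hT : N.T = delT S := H.net.tri
  have tri : ∀ u v : ℂ, ‖v - p‖ ≤ ‖v - u‖ + ‖u - p‖ := fun u v => by
    have := norm_add_le (v - u) (u - p)
    rwa [sub_add_sub_cancel] at this
  -- the first site
  have hbase : hand b q1 ∈ W1 ∧ hand b q1 ∉ V := by
    have hadj := adj_of_J hT hJ (JWalkx872.leads_mem hJ hp0 h1)
    have hn := hns q1 h1
    -- a site next to `W` which is not on the side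
    have key : ∀ w x0, w ∈ W → Adj S w x0 → ¬ Side N i x0 → x0 ∈ W1 ∧ x0 ∉ V := by
      intro w x0 hw hwx hnx
      obtain ⟨g1, g2, g3⟩ := next_site H (W_sub H hw) hwx
      have g4 : x0 ∈ inn := g1.resolve_right hnx
      have g5 : x0 ∈ S := (adj_mem hwx).2
      rcases (mem_WW.1 hw).2.2.1 with g6 | g6
      · have g7 := H.step w x0 hwx (by linarith)
        have g8 := tri w x0
        refine ⟨mem_WW.2 ⟨g5, g4, Or.inl (by linarith), g2⟩, fun h => ?_⟩
        have := (mem_VV.1 h).2.2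
        linarith
      · rcases g3 g6 g4 with g7 | g7
        · refine ⟨mem_WW.2 ⟨g5, g4, Or.inl (by linarith), g2⟩, fun h => ?_⟩
          have := (mem_VV.1 h).2.2
          linarith
        · exact ⟨mem_WW.2 ⟨g5, g4, Or.inr g7, g2⟩, fun h => (mem_VV.1 h).2.1 g7⟩
    unfold hand at hn ⊢
    cases b with
    | true =>
      simp only [if_true] at hn ⊢
      rcases hq1 with h | h
      · exact ⟨W_sub H h, W_notV H h⟩
      · exact key _ _ h (adj_symm hadj) hn
    | false =>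
      simp only [Bool.false_eq_true, if_false] at hn ⊢
      rcases hq1 with h | h
      · exact key _ _ h hadj hn
      · exact ⟨W_sub H h, W_notV H h⟩
  -- along the leg
  have main : ∀ q, Leads N.toTrg ∅ D' J' q1 q →
      FArm S V J' p (r0 + 2 * e) (R1 - e) ∨ (hand b q ∈ W1 ∧ (hand b q ∈ V →
        ∃ x', x' ∈ V ∧ ‖x' - p‖ ≤ r0 + 2 * e ∧
          Relation.ReflTransGen (FStep S V J') x' (hand b q))) := by
    intro q hq
    induction hq with
    | refl => exact Or.inr ⟨hbase.1, fun h => absurd h hbase.2⟩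
    | @tail q r hq hs ih =>
      rcases ih with ih | ⟨ih1, ih2⟩
      · exact Or.inl ih
      have hL : Leads N.toTrg ∅ D' J' p0 q := Relation.ReflTransGen.trans h1 hq
      have hLr : Leads N.toTrg ∅ D' J' p0 r := Relation.ReflTransGen.tail hL hs
      have hqJ := JWalkx872.leads_step_mem hJ hp0 hL hs
      have hn := hns r hLr
      -- the two hands
      have hcase : hand b r = hand b q ∨ (Adj S (hand b q) (hand b r) ∧
          (hand b q ∈ V → hand b r ∈ V → FStep S V J' (hand b q) (hand b r))) := by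
        obtain ⟨c, g1, g2, g3, g4⟩ := hs
        have gT : (q.1, q.2, c) ∈ delT S := by rw [← hT]; exact g1
        have gT1 : (q.2, c, q.1) ∈ delT S := by rw [← hT]; exact N.rot g1
        have gT2 : (c, q.1, q.2) ∈ delT S := by rw [← hT]; exact N.rot (N.rot g1)
        have hpar := Sidesx697.par2 hJ g1
        have hqJ' : (q.1, q.2) ∈ J' := hqJ
        have fr : ∀ x ∈ V, ∀ y ∈ V, Adj S x y → ((x, y) ∉ J' ∨ (y, x) ∉ J') →
            FStep S V J' x y := by
          intro x hx y hy hxy hor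
          have hs := hJ.sym x y (hDV x hx y hy) (hDV y hy x hx)
          refine ⟨hx, hy, hxy, ?_, ?_⟩
          · rcases hor with h | h
            · exact h
            · exact fun h' => h (hs.1 h')
          · rcases hor with h | h
            · exact fun h' => h (hs.2 h')
            · exact h
        rcases g4 with ⟨g5, g6⟩ | ⟨g5, g6, g7⟩
        · cases b with
          | true =>
            right
            rw [g6]
            simp only [hand, if_true]
            refine ⟨Or.inr ⟨_, gT2⟩, fun k1 k2 => fr _ k1 _ k2 (Or.inr ⟨_, gT2⟩) (Or.inr ?_)⟩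
            intro g9
            rcases hpar with ⟨a1, a2, a3⟩ | ⟨a1, a2, a3⟩ | ⟨a1, a2, a3⟩ | ⟨a1, a2, a3⟩
            exacts [a3 g9, a2 g5, a1 hqJ', a1 hqJ']
          | false =>
            left
            rw [g6]
            simp [hand]
        · cases b with
          | true =>
            left
            rw [g7]
            simp [hand]
          | false =>
            right
            rw [g7]
            simp only [hand, Bool.false_eq_true, if_false]
            exact ⟨Or.inl ⟨_, gT1⟩, fun k1 k2 => fr _ k1 _ k2 (Or.inl ⟨_, gT1⟩) (Or.inl g6)⟩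
      rcases hcase with hc | ⟨hadj, hfr⟩
      · rw [hc]; exact Or.inr ⟨ih1, ih2⟩
      -- the new site
      obtain ⟨g1, g2, g3⟩ := next_site H ih1 hadj
      have g4 : hand b r ∈ inn := g1.resolve_right hn
      have g5 : hand b r ∈ S := (adj_mem hadj).2
      have g6 := tri (hand b q) (hand b r)
      have g6' := tri (hand b r) (hand b q)
      rw [norm_sub_rev (hand b q) (hand b r)] at g6'
      have hqs := (mem_WW.1 ih1).2.2.1
      by_cases g7 : hand b r ∈ W1
      · refine Or.inr ⟨g7, fun g8 => ?_⟩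
        by_cases g9 : hand b q ∈ V
        · obtain ⟨x', k1, k2, k3⟩ := ih2 g9
          exact ⟨x', k1, k2, k3.tail (hfr g9 g8)⟩
        · obtain ⟨-, g10, g11⟩ := mem_VV.1 g8
          have g12 : hand b q ∉ Y := fun hY => by
            rcases g3 hY g4 with h | h
            · linarith
            · exact g10 h
          have g13 : ‖hand b q - p‖ < r0 + e := by
            by_contra hcon
            push Not at hcon
            exact g9 (mem_VV.2 ⟨ih1, g12, hcon⟩)
          have g14 := H.step _ _ hadj (by linarith)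
          exact ⟨_, g8, by linarith, Relation.ReflTransGen.refl⟩
      · -- outside
        have g8 : ¬ (‖hand b r - p‖ < R1 ∨ hand b r ∈ Y) := fun h =>
          g7 (mem_WW.2 ⟨g5, g4, h, g2⟩)
        push Not at g8
        have g9 : hand b q ∉ Y := fun hY => by
          rcases g3 hY g4 with h | h
          · linarith [g8.1]
          · exact g8.2 h
        have g10 : ‖hand b q - p‖ < R1 := hqs.resolve_right g9
        have g11 := H.step _ _ hadj g10
        have g12 : hand b q ∈ V := mem_VV.2 ⟨ih1, g9, by linarith [g8.1]⟩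
        obtain ⟨x', k1, k2, k3⟩ := ih2 g12
        exact Or.inl ⟨x', _, k1, g12, k2, by linarith [g8.1], k3⟩
  rcases main _ h2 with h | ⟨h, -⟩
  · exact h
  · exfalso
    have hF := W1_full H h
    cases b with
    | true =>
      simp only [hand, if_true] at hF
      exact (full_not_hull H.net hF x.1).2 hx
    | false =>
      simp only [hand, Bool.false_eq_true, if_false] at hF
      exact (full_not_hull H.net hF x.2).1 hx

/-! ### colours of the sides -/

open Crest.Agent.R143.Sidesx697 in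
/-- **the colours** when the leg from `p0` ends at the mark `k` -/
theorem cols (hN : HNet S N) {p0 : ℂ × ℂ} {J' : Finset (ℂ × ℂ)} (hp : p0 ∉ N.exS)
    (hJ : IsJoin N.toTrg N.kl ∅ (N.exS ∪ {p0}) J') {k : ZMod 3}
    (hk : Leads N.toTrg ∅ (N.exS ∪ {p0}) J' p0 (rev (N.ex k))) :
    ∃ σ : ℂ → Bool, IsCol N.toTrg (off N.toTrg (N.exS ∪ {p0}) J' p0) σ ∧
      (∀ q, Leads N.toTrg ∅ (N.exS ∪ {p0}) J' p0 q → σ q.1 = σ p0.1 ∧ σ q.2 = σ p0.1) ∧
      (∀ j v, Side N j v → σ v = σ (N.ex j).2) ∧ σ (N.ex k).2 = σ p0.1 ∧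
      σ (N.ex (k + 1)).1 = σ p0.1 ∧ σ (N.ex (k + 1)).2 ≠ σ p0.1 ∧
      σ (N.ex (k + 2)).2 = σ p0.1 := by
  have hM := marks3_of hN
  have hpD : p0 ∈ N.exS ∪ {p0} := Or.inr rfl
  have hxD : ∀ j, N.ex j ∈ N.exS ∪ {p0} := fun j => Or.inl ⟨j, rfl⟩
  have hJ0 := leg_removed hJ hpD (hxD k) hk
  have hD' : (N.exS ∪ {p0}) \ {p0, N.ex k} ⊆ N.exS := by
    rintro q ⟨h1 | h1, h2⟩
    · exact h1
    · exact absurd (Or.inl h1) h2
  obtain ⟨σ, hσ⟩ := hasCol hN _ hD' _ hJ0
  have hleg : ∀ q, Leads N.toTrg ∅ (N.exS ∪ {p0}) J' p0 q → σ q.1 = σ p0.1 ∧ σ q.2 = σ p0.1 :=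
    fun q hq => col_leg hJ hpD hσ hq
  have hend := hleg _ hk
  have s1 : ∀ j, σ (N.ex (j + 1)).1 = σ (N.ex j).2 := fun j => col_side hJ0 hD' hσ (hM.next j)
  have s2 : ∀ j, j ≠ k → σ (N.ex j).1 ≠ σ (N.ex j).2 := by
    intro j hj
    have h1 : ((N.ex j).1, (N.ex j).2) ∈ (N.exS ∪ {p0}) \ {p0, N.ex k} := by
      refine ⟨hxD j, ?_⟩
      rintro (h2 | h2)
      · exact hp (by rw [← h2]; exact ⟨j, rfl⟩)
      · exact hM.ne j k hj h2
    have h2 := (hJ0.mark _ _ h1).1
    exact (hσ _ _ (hJ0.sub h2)).2 (Or.inl h2)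
  have z1 : k + 1 ≠ k := by
    intro h
    have : (1 : ZMod 3) = 0 := by
      have := congrArg (fun t => t - k) h
      simp at this
    exact absurd this (by decide)
  have z3 : k + 2 + 1 = k := by
    have : (k + 2 + 1 : ZMod 3) = k + 3 := by ring
    rw [this]
    have h3 : (3 : ZMod 3) = 0 := by decide
    rw [h3, add_zero]
  have e1 : σ (N.ex (k + 1)).1 = σ p0.1 := by rw [s1 k]; exact hend.1
  refine ⟨σ, hσ, hleg, fun j v hv => col_side hJ0 hD' hσ hv, hend.1, e1, ?_, ?_⟩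
  · have := s2 (k + 1) z1
    rw [e1] at this
    exact this.symm
  · have := s1 (k + 2)
    rw [z3] at this
    rw [← this]
    exact hend.2

theorem zcases (k l : ZMod 3) : l = k ∨ l = k + 1 ∨ l = k + 2 := by
  revert k l; decide

section legs

variable (H : HG S N i p r0 e R1 Y T1 inn)

include H

/-- an edge with an end in `W` is not a mark and not an edge of the annulus -/
theorem p0_not {p0 : ℂ × ℂ} (h0 : p0.1 ∈ WW S p r0 Y T1 inn ∨ p0.2 ∈ WW S p r0 Y T1 inn) :
    p0 ∉ N.exS ∧ ∀ x ∈ VV S p r0 e R1 Y T1 inn, ∀ y ∈ VV S p r0 e R1 Y T1 inn,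
      (x, y) ∉ N.exS ∪ {p0} := by
  refine ⟨?_, fun x hx y hy => ?_⟩
  · rcases h0 with h | h
    · exact (ex_VV H (y := p0.2) (W_sub H h)).1
    · exact (ex_VV H (y := p0.1) (W_sub H h)).2
  · rintro (h | h)
    · exact (ex_VV H (y := y) (mem_VV.1 hx).1).1 h
    · rw [Set.mem_singleton_iff] at h
      rw [← h] at h0
      rcases h0 with h0 | h0
      · exact W_notV H h0 hx
      · exact W_notV H h0 hy

open Crest.Agent.R143.Sidesx697 in
/-- **the leg to the opposite mark** -/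
theorem opp {p0 : ℂ × ℂ} {J' : Finset (ℂ × ℂ)}
    (h0 : p0.1 ∈ WW S p r0 Y T1 inn ∨ p0.2 ∈ WW S p r0 Y T1 inn)
    (hJ : IsJoin N.toTrg N.kl ∅ (N.exS ∪ {p0}) J')
    (hk : Leads N.toTrg ∅ (N.exS ∪ {p0}) J' p0 (rev (N.ex (i + 2)))) :
    FArm S (VV S p r0 e R1 Y T1 inn) J' p (r0 + 2 * e) (R1 - e) := by
  obtain ⟨hp, hDV⟩ := p0_not H h0
  obtain ⟨σ, h1, h2, h3, h4, h5, h6, h7⟩ := cols H.net hp hJ hk
  have z3 : i + 2 + 1 = i := by
    have : (i + 2 + 1 : ZMod 3) = i + 3 := by ring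
    rw [this]
    have h3 : (3 : ZMod 3) = 0 := by decide
    rw [h3, add_zero]
  rw [z3] at h6
  have hpJ : p0 ∈ J' := (hJ.mark _ _ (Or.inr rfl)).1
  refine escape H hJ hDV (b := true) (p0 := p0) (q1 := p0) (x := N.ex (i + 2)) hpJ ?_
    Relation.ReflTransGen.refl h0 hk (H.net.hex _)
  intro q hq hs
  simp only [hand, if_true] at hs
  apply h6
  rw [← h3 i _ hs, (h2 q hq).1]

open Crest.Agent.R143.Sidesx697 in
/-- **the leg between the two other marks** comes close to `p` -/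
theorem other {p0 q1 : ℂ × ℂ} {J' : Finset (ℂ × ℂ)} {k : ZMod 3}
    (h0 : p0.1 ∈ WW S p r0 Y T1 inn ∨ p0.2 ∈ WW S p r0 Y T1 inn)
    (hJ : IsJoin N.toTrg N.kl ∅ (N.exS ∪ {p0}) J')
    (hk : Leads N.toTrg ∅ (N.exS ∪ {p0}) J' p0 (rev (N.ex k)))
    (hM : Leads N.toTrg ∅ (N.exS ∪ {p0}) J' (N.ex (k + 1)) q1)
    (hq : q1.1 ∈ WW S p r0 Y T1 inn ∨ q1.2 ∈ WW S p r0 Y T1 inn)
    (hM' : Leads N.toTrg ∅ (N.exS ∪ {p0}) J' q1 (rev (N.ex (k + 2)))) :
    FArm S (VV S p r0 e R1 Y T1 inn) J' p (r0 + 2 * e) (R1 - e) := by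
  obtain ⟨hp, hDV⟩ := p0_not H h0
  obtain ⟨σ, h1, h2, h3, h4, h5, h6, h7⟩ := cols H.net hp hJ hk
  have hxJ : N.ex (k + 1) ∈ J' := (hJ.mark _ _ (Or.inl ⟨k + 1, rfl⟩)).1
  have hg := J1x872.good_of_hnet H.net
  -- edges which are not occupied seen from a triangle
  have offt : ∀ x y z, (x, y, z) ∈ N.T → (x, y) ∉ J' → σ x = σ y := by
    intro x y z ht hxy
    by_contra hne
    have hE : (x, y) ∈ N.E := by
      unfold Trg.E
      rw [Finset.mem_union, Finset.mem_image]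
      exact Or.inl ⟨(x, y, z), ht, rfl⟩
    rcases (h1 x y hE).1 hne with g | g
    · exact hxy (mem_off.1 g).1
    · have g1 := (mem_off.1 g).1
      by_cases g2 : (x, y) ∈ N.exS ∪ {p0}
      · exact hxy (hJ.mark _ _ g2).1
      · by_cases g3 : (y, x) ∈ N.exS ∪ {p0}
        · rcases g3 with ⟨l, hl⟩ | g3
          · have := hg.bd l z
            rw [hl] at this
            exact this ht
          · rw [Set.mem_singleton_iff] at g3
            rw [g3] at g
            exact (mem_off.1 g).2.1 Relation.ReflTransGen.refl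
        · exact hxy ((hJ.sym x y g2 g3).2 g1)
  -- colours along the leg
  have hcol : ∀ q, Leads N.toTrg ∅ (N.exS ∪ {p0}) J' (N.ex (k + 1)) q →
      σ q.1 = σ p0.1 ∧ σ q.2 ≠ σ p0.1 := by
    intro q hq
    induction hq with
    | refl => exact ⟨h5, h6⟩
    | @tail q r hq hs ih =>
      have hqJ := JWalkx872.leads_step_mem hJ hxJ hq hs
      obtain ⟨c, g1, g2, g3, g4⟩ := hs
      have gT1 := N.rot g1
      have gT2 := N.rot gT1
      have hpar := par2 hJ g1
      have hqJ' : (q.1, q.2) ∈ J' := hqJ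
      rcases g4 with ⟨g5, g6⟩ | ⟨g5, g6, g7⟩
      · rw [g6]
        have g8 : (c, q.1) ∉ J' := by
          intro g9
          rcases hpar with ⟨a1, a2, a3⟩ | ⟨a1, a2, a3⟩ | ⟨a1, a2, a3⟩ | ⟨a1, a2, a3⟩
          exacts [a3 g9, a2 g5, a1 hqJ', a1 hqJ']
        exact ⟨by rw [offt _ _ _ gT2 g8]; exact ih.1, ih.2⟩
      · rw [g7]
        exact ⟨ih.1, by rw [← offt _ _ _ gT1 g6]; exact ih.2⟩
  by_cases hi : i = k + 1
  · refine escape H hJ hDV (b := true) (p0 := N.ex (k + 1)) (q1 := q1) (x := N.ex (k + 2)) hxJ ?_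
      hM hq hM' (H.net.hex _)
    intro q hq hs
    simp only [hand, if_true] at hs
    apply h6
    rw [← hi, ← h3 i _ hs, (hcol q hq).1]
  · refine escape H hJ hDV (b := false) (p0 := N.ex (k + 1)) (q1 := q1) (x := N.ex (k + 2)) hxJ ?_
      hM hq hM' (H.net.hex _)
    intro q hq hs
    simp only [hand, Bool.false_eq_true, if_false] at hs
    apply (hcol q hq).2
    rw [h3 i _ hs]
    rcases zcases k i with rfl | rfl | rfl
    · exact h4
    · exact absurd rfl hi
    · exact h7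

end legs

end Crest.Agent.R143.D3Gx802
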