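import Crest.Agent.R143.D3G_802

/-!
# Row 143 (S0194), block D3 without (E3), part 4: the observable near the boundary (helper802)

* `EK` : the two other marks are joined outside `W`
* `near_ek` : otherwise there is a free chain across the annulus
* `est` : heights and horizontal oscillation of the observable near `p`
-/

set_option autoImplicit false

noncomputable section

open scoped Classical

namespace Crest.Agent.R143.D3Hx802

open Crest.Agent.R143.B0x346 Crest.Agent.R143.DelGx806 Crest.Agent.R143.DelRx806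
open Crest.Agent.R143.Circx63 Crest.Agent.R143.JColx54 Crest.Agent.R143.Wlkx802
open Crest.Agent.R143.D3Ax802 Crest.Agent.R143.D3Ex802 Crest.Agent.R143.D3Fx802
open Crest.Agent.R143.D3Gx802
open Crest.Agent.R143.Sidesx697 (Side IsCol off rev)

variable {S : Finset ℂ} {N : Net ℂ} {i : ZMod 3} {p : ℂ} {r0 e R1 : ℝ} {Y : Set ℂ}
  {T1 : Set (ℂ × ℂ × ℂ)} {inn : Set ℂ}

/-- a step of the walker outside `W` -/
def StepW (N : Net ℂ) (W : Finset ℂ) (J : Finset (ℂ × ℂ)) (q r : ℂ × ℂ) : Prop :=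
  q.1 ∉ W ∧ q.2 ∉ W ∧ ∃ c, c ∉ W ∧ (q.1, q.2, c) ∈ N.T ∧
    (((q.2, c) ∈ J ∧ r = (c, q.2)) ∨ ((c, q.1) ∈ J ∧ (q.2, c) ∉ J ∧ r = (q.1, c)))

/-- the marks `k + 1` and `k + 2` are joined outside `W` -/
def EK (N : Net ℂ) (W : Finset ℂ) (k : ZMod 3) (J : Finset (ℂ × ℂ)) : Prop :=
  Relation.ReflTransGen (StepW N W J) (N.ex (k + 1)) (rev (N.ex (k + 2)))

theorem stepW_congr {W : Finset ℂ} {J J2 : Finset (ℂ × ℂ)}
    (h : ∀ x y, x ∉ W → y ∉ W → ((x, y) ∈ J ↔ (x, y) ∈ J2)) {q r : ℂ × ℂ}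
    (hs : StepW N W J q r) : StepW N W J2 q r := by
  obtain ⟨h1, h2, c, h3, h4, h5⟩ := hs
  refine ⟨h1, h2, c, h3, h4, ?_⟩
  rw [← h q.2 c h2 h3, ← h c q.1 h3 h1]
  exact h5

theorem ek_congr {W : Finset ℂ} {J J2 : Finset (ℂ × ℂ)} {k : ZMod 3}
    (h : ∀ x y, x ∉ W → y ∉ W → ((x, y) ∈ J ↔ (x, y) ∈ J2)) : EK N W k J ↔ EK N W k J2 :=
  ⟨fun g => Relation.ReflTransGen.mono (fun _ _ => stepW_congr h) _ _ g,
    fun g => Relation.ReflTransGen.mono
      (fun _ _ => stepW_congr fun x y hx hy => (h x y hx hy).symm) _ _ g⟩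

section legs

variable (H : HG S N i p r0 e R1 Y T1 inn)

include H

/-- steps outside `W` are steps -/
theorem step_of_W {p0 : ℂ × ℂ} {J' : Finset (ℂ × ℂ)}
    (h0 : p0.1 ∈ WW S p r0 Y T1 inn ∨ p0.2 ∈ WW S p r0 Y T1 inn) {q r : ℂ × ℂ}
    (hs : StepW N (WW S p r0 Y T1 inn) J' q r) : Step N.toTrg ∅ (N.exS ∪ {p0}) J' q r := by
  obtain ⟨h1, h2, c, h3, h4, h5⟩ := hs
  refine ⟨c, h4, by simp, ?_, h5⟩
  rintro (⟨l, hl⟩ | h6)
  · have := (J1x872.good_of_hnet H.net).bd l c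
    rw [hl] at this
    exact this h4
  · rw [Set.mem_singleton_iff] at h6
    rw [← h6] at h0
    rcases h0 with h | h
    · exact h2 h
    · exact h1 h

theorem ek_leads {p0 : ℂ × ℂ} {J' : Finset (ℂ × ℂ)} {k : ZMod 3}
    (h0 : p0.1 ∈ WW S p r0 Y T1 inn ∨ p0.2 ∈ WW S p r0 Y T1 inn)
    (h : EK N (WW S p r0 Y T1 inn) k J') :
    Leads N.toTrg ∅ (N.exS ∪ {p0}) J' (N.ex (k + 1)) (rev (N.ex (k + 2))) :=
  Relation.ReflTransGen.mono (fun _ _ hs => step_of_W H h0 hs) _ _ h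

omit H in
/-- reversed walks between marks -/
theorem rev_leads {p0 x y : ℂ × ℂ} {J' : Finset (ℂ × ℂ)}
    (hJ : IsJoin N.toTrg N.kl ∅ (N.exS ∪ {p0}) J') (hx : x ∈ N.exS ∪ {p0})
    (h : Leads N.toTrg ∅ (N.exS ∪ {p0}) J' x (rev y)) :
    Leads N.toTrg ∅ (N.exS ∪ {p0}) J' y (rev x) := by
  have h1 := JWalkx872.leads_rev hJ JWalkx872.rotInv_empty (hJ.mark _ _ hx).1 h
  exact h1

open Crest.Agent.R143.Sidesx697 in
/-- if the two other marks are joined then the leg ends at the mark `k` -/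
theorem ek_end {p0 : ℂ × ℂ} {J' : Finset (ℂ × ℂ)} {k l : ZMod 3}
    (h0 : p0.1 ∈ WW S p r0 Y T1 inn ∨ p0.2 ∈ WW S p r0 Y T1 inn)
    (hJ : IsJoin N.toTrg N.kl ∅ (N.exS ∪ {p0}) J')
    (h : EK N (WW S p r0 Y T1 inn) k J')
    (hl : Leads N.toTrg ∅ (N.exS ∪ {p0}) J' p0 (rev (N.ex l))) : l = k := by
  obtain ⟨hp, -⟩ := p0_not H h0
  have hM := ek_leads H h0 h
  have hpD : p0 ∈ N.exS ∪ {p0} := Or.inr rfl
  have hxD : ∀ j, N.ex j ∈ N.exS ∪ {p0} := fun j => Or.inl ⟨j, rfl⟩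
  have hr := rev_leads hJ hpD hl
  rcases zcases k l with rfl | rfl | rfl
  · rfl
  · exfalso
    have h1 := Sidesx697.ends_unique hpD (hxD _) hr hM
    exact hp (by rw [h1]; exact ⟨_, rfl⟩)
  · exfalso
    have h1 := Sidesx697.ends_unique hpD (hxD _) hr (rev_leads hJ (hxD _) hM)
    exact hp (by rw [h1]; exact ⟨_, rfl⟩)

open Crest.Agent.R143.Sidesx697 in
/-- **otherwise** there is a free chain across the annulus -/
theorem near_ek {p0 : ℂ × ℂ} {J' : Finset (ℂ × ℂ)} {k : ZMod 3}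
    (h0 : p0.1 ∈ WW S p r0 Y T1 inn ∨ p0.2 ∈ WW S p r0 Y T1 inn)
    (hJ : IsJoin N.toTrg N.kl ∅ (N.exS ∪ {p0}) J')
    (hk : Leads N.toTrg ∅ (N.exS ∪ {p0}) J' p0 (rev (N.ex k)))
    (hn : ¬ EK N (WW S p r0 Y T1 inn) k J') :
    FArm S (VV S p r0 e R1 Y T1 inn) J' p (r0 + 2 * e) (R1 - e) := by
  obtain ⟨hp, -⟩ := p0_not H h0
  have hg := J1x872.good_of_hnet H.net
  have hpD : p0 ∈ N.exS ∪ {p0} := Or.inr rfl
  have hxD : ∀ j, N.ex j ∈ N.exS ∪ {p0} := fun j => Or.inl ⟨j, rfl⟩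
  have hne : ∀ k : ZMod 3, k + 1 ≠ k ∧ k + 2 ≠ k + 1 := by decide
  -- the other leg
  have hM : Leads N.toTrg ∅ (N.exS ∪ {p0}) J' (N.ex (k + 1)) (rev (N.ex (k + 2))) := by
    have hxJ : N.ex (k + 1) ∈ J' := (hJ.mark _ _ (hxD _)).1
    obtain ⟨x, h1, h2⟩ := JWalkx872.exists_end hJ JWalkx872.rotInv_empty hxJ
      (fun q _ => JWalkx872.mark_pre hJ (hxD _) q)
    rcases h2 with h2 | ⟨-, c, -, h2⟩
    · have hx : rev x ∈ N.exS ∪ {p0} := h2
      have h1' : Leads N.toTrg ∅ (N.exS ∪ {p0}) J' (N.ex (k + 1)) (rev (rev x)) := h1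
      rcases hx with ⟨l, hl⟩ | hx
      · rw [← hl] at h1'
        rcases zcases k l with rfl | rfl | rfl
        · exfalso
          have h3 := Sidesx697.ends_unique hpD (hxD _) (rev_leads hJ hpD hk)
            (rev_leads hJ (hxD _) h1')
          exact hp (by rw [h3]; exact ⟨_, rfl⟩)
        · exfalso
          exact JWalkx872.not_leads_swap hJ JWalkx872.rotInv_empty hxJ h1'
        · exact h1'
      · exfalso
        rw [Set.mem_singleton_iff] at hx
        rw [hx] at h1'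
        have h3 := Sidesx697.ends_unique (hxD _) (hxD _) hk (rev_leads hJ (hxD _) h1')
        exact (hne k).1 (hg.inj h3).symm
    · exact h2.elim
  -- a step which is not outside `W`
  have key : ∀ q, Leads N.toTrg ∅ (N.exS ∪ {p0}) J' (N.ex (k + 1)) q →
      Leads N.toTrg ∅ (N.exS ∪ {p0}) J' q (rev (N.ex (k + 2))) →
      Relation.ReflTransGen (StepW N (WW S p r0 Y T1 inn) J') (N.ex (k + 1)) q ∨
      FArm S (VV S p r0 e R1 Y T1 inn) J' p (r0 + 2 * e) (R1 - e) := by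
    intro q hq
    induction hq with
    | refl => exact fun _ => Or.inl Relation.ReflTransGen.refl
    | @tail q r hq hs ih =>
      intro hr
      have hq' : Leads N.toTrg ∅ (N.exS ∪ {p0}) J' q (rev (N.ex (k + 2))) :=
        Relation.ReflTransGen.head hs hr
      rcases ih hq' with ih | ih
      swap
      · exact Or.inr ih
      by_cases g1 : q.1 ∈ WW S p r0 Y T1 inn ∨ q.2 ∈ WW S p r0 Y T1 inn
      · exact Or.inr (other H h0 hJ hk hq g1 hq')
      by_cases g2 : r.1 ∈ WW S p r0 Y T1 inn ∨ r.2 ∈ WW S p r0 Y T1 inn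
      · exact Or.inr (other H h0 hJ hk (hq.tail hs) g2 hr)
      left
      push Not at g1 g2
      refine ih.tail ⟨g1.1, g1.2, ?_⟩
      obtain ⟨c, k1, k2, k3, k4⟩ := hs
      refine ⟨c, ?_, k1, k4⟩
      rcases k4 with ⟨-, k4⟩ | ⟨-, -, k4⟩
      · rw [k4] at g2; exact g2.1
      · rw [k4] at g2; exact g2.2
  rcases key _ hM Relation.ReflTransGen.refl with h | h
  · exact absurd h hn
  · exact h

end legs

/-! ### counting -/

theorem fstep_congr {V : Finset ℂ} {J J2 : Finset (ℂ × ℂ)}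
    (h : ∀ x ∈ V, ∀ y ∈ V, ((x, y) ∈ J ↔ (x, y) ∈ J2)) {a b : ℂ} (hs : FStep S V J a b) :
    FStep S V J2 a b :=
  ⟨hs.1, hs.2.1, hs.2.2.1, fun g => hs.2.2.2.1 ((h a hs.1 b hs.2.1).2 g),
    fun g => hs.2.2.2.2 ((h b hs.2.1 a hs.1).2 g)⟩

theorem farm_congr {V : Finset ℂ} {J J2 : Finset (ℂ × ℂ)} {r1 r2 : ℝ}
    (h : ∀ x ∈ V, ∀ y ∈ V, ((x, y) ∈ J ↔ (x, y) ∈ J2)) :
    FArm S V J p r1 r2 ↔ FArm S V J2 p r1 r2 := by
  constructor
  · rintro ⟨x, y, h1, h2, h3, h4, h5⟩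
    exact ⟨x, y, h1, h2, h3, h4, Relation.ReflTransGen.mono (fun _ _ => fstep_congr h) _ _ h5⟩
  · rintro ⟨x, y, h1, h2, h3, h4, h5⟩
    exact ⟨x, y, h1, h2, h3, h4, Relation.ReflTransGen.mono
      (fun _ _ => fstep_congr fun x hx y hy => (h x hx y hy).symm) _ _ h5⟩

/-- predicates which do not look at the edge `{x, y}` -/
theorem half_sum {x y z : ℂ} (ht : (x, y, z) ∈ N.T) (hk : (x, y) ∉ N.kl)
    (h1 : (x, y) ∉ N.exS) (h2 : (y, x) ∉ N.exS) (P : Finset (ℂ × ℂ) → Prop)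
    (hi : ∀ J, P J ↔ P (insert (x, y) J)) (he : ∀ J, P J ↔ P (J.erase (x, y))) :
    ((N.hj x y).filter P).card + ((N.hj y x).filter P).card =
      ((N.tj (x, y, z)).filter P).card := by
  have hk' : (y, x) ∉ N.kl := fun h => hk (N.klsym _ _ h)
  have a1 := JCardx872.card_half_left (G := N.toTrg) (D := N.exS) ht hk hk' h1 h2 P P
    (fun J _ _ => hi J)
  have a2 := JCardx872.card_half_right (G := N.toTrg) (D := N.exS) ht hk hk' h1 h2 P P
    (fun J _ _ => he J)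
  unfold Net.hj Net.tj
  rw [a1, a2]
  rw [← Finset.card_union_of_disjoint]
  · congr 1
    ext J
    simp only [Finset.mem_union, Finset.mem_filter]
    tauto
  · rw [Finset.disjoint_filter]
    intro J _ g g'
    exact g.1 g'.1

/-- the number of joins -/
theorem half_card {x y z : ℂ} (ht : (x, y, z) ∈ N.T) (hk : (x, y) ∉ N.kl)
    (h1 : (x, y) ∉ N.exS) (h2 : (y, x) ∉ N.exS) :
    (N.hj x y).card + (N.hj y x).card = (N.tj (x, y, z)).card := by
  have := half_sum ht hk h1 h2 (fun _ => True) (fun _ => Iff.rfl) (fun _ => Iff.rfl)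
  simpa using this

/-- probability that the marks `k + 1`, `k + 2` are joined outside `W` -/
def mu (N : Net ℂ) (W : Finset ℂ) (k : ZMod 3) (x y : ℂ) : ℝ :=
  ((((N.hj x y).filter (EK N W k)).card + ((N.hj y x).filter (EK N W k)).card : ℕ) : ℝ) /
    (((N.hj x y).card + (N.hj y x).card : ℕ) : ℝ)

theorem mu_symm (W : Finset ℂ) (k : ZMod 3) (x y : ℂ) : mu N W k x y = mu N W k y x := by
  unfold mu
  rw [Nat.add_comm ((N.hj x y).filter (EK N W k)).card, Nat.add_comm (N.hj x y).card]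

theorem mu_tri {W : Finset ℂ} {k : ZMod 3} {x y z : ℂ} (ht : (x, y, z) ∈ N.T)
    (hk : (x, y) ∉ N.kl) (h1 : (x, y) ∉ N.exS) (h2 : (y, x) ∉ N.exS) (hW : x ∈ W ∨ y ∈ W) :
    mu N W k x y = (((N.tj (x, y, z)).filter (EK N W k)).card : ℝ) /
      ((N.tj (x, y, z)).card : ℝ) := by
  unfold mu
  have hne : ∀ u v : ℂ, u ∉ W → v ∉ W → (u, v) ≠ (x, y) := by
    intro u v hu hv h
    rw [Prod.mk.injEq] at h
    rcases hW with hW | hW
    · exact hu (h.1 ▸ hW)
    · exact hv (h.2 ▸ hW)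
  rw [half_sum ht hk h1 h2 (EK N W k) (fun J => ek_congr fun u v hu hv => by
      rw [Finset.mem_insert]
      exact ⟨Or.inr, fun h => h.resolve_left (hne u v hu hv)⟩)
    (fun J => ek_congr fun u v hu hv => by
      rw [Finset.mem_erase]
      exact ⟨fun h => ⟨hne u v hu hv, h⟩, fun h => h.2⟩), half_card ht hk h1 h2]

theorem tj_rots {t t' : ℂ × ℂ × ℂ} (h : t' ∈ rots t) : N.tj t' = N.tj t := by
  unfold Net.tj
  rw [rots_eq h]

section est

variable (H : HG S N i p r0 e R1 Y T1 inn)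

include H

/-- edges at a site of `W1` : live, not marked, in two triangles -/
theorem edge_ok {x y : ℂ} (hx : x ∈ WW S p R1 Y T1 inn) :
    (x, y) ∉ N.kl ∧ (x, y) ∉ N.exS ∧ (y, x) ∉ N.exS :=
  ⟨H.live x (mem_WW.1 hx).2.1 y, (ex_VV H hx).1, (ex_VV H hx).2⟩

/-- around a site of `W` -/
theorem mu_next {k : ZMod 3} {v a b : ℂ} (hv : v ∈ WW S p r0 Y T1 inn)
    (h : (v, a, b) ∈ delT S) :
    mu N (WW S p r0 Y T1 inn) k v a = mu N (WW S p r0 Y T1 inn) k v b := by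
  have hT := H.net.tri
  have h1 : (v, a, b) ∈ N.T := by rw [hT]; exact h
  have h2 : (b, v, a) ∈ N.T := N.rot (N.rot h1)
  obtain ⟨a1, a2, a3⟩ := edge_ok H (y := a) (W_sub H hv)
  obtain ⟨b1, b2, b3⟩ := edge_ok H (y := b) (W_sub H hv)
  rw [mu_tri h1 a1 a2 a3 (Or.inl hv), mu_symm _ _ v b,
    mu_tri h2 (fun g => b1 (N.klsym _ _ g)) b3 b2 (Or.inr hv),
    tj_rots (t := (v, a, b)) (t' := (b, v, a)) (by simp [rots])]

theorem mu_star {k : ZMod 3} {v a b a' b' : ℂ} (hv : v ∈ WW S p r0 Y T1 inn)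
    (h : (v, a, b) ∈ delT S) (h' : (v, a', b') ∈ delT S) :
    mu N (WW S p r0 Y T1 inn) k v a = mu N (WW S p r0 Y T1 inn) k v a' := by
  obtain ⟨m, u, hr, -, hall⟩ := W1_full H (W_sub H hv)
  obtain ⟨i0, rfl, rfl⟩ := hall a b (by rw [H.net.tri]; exact h)
  obtain ⟨j0, rfl, rfl⟩ := hall a' b' (by rw [H.net.tri]; exact h')
  have key : ∀ l : ℕ, mu N (WW S p r0 Y T1 inn) k v (u i0) =
      mu N (WW S p r0 Y T1 inn) k v (u (i0 + l)) := by
    intro l
    induction l with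
    | zero => simp
    | succ l ih =>
      rw [ih, mu_next H hv (by rw [← H.net.tri]; exact hr.mem (i0 + l))]
      push_cast
      rw [add_assoc]
  have hdz : (0 : ℤ) < m := by exact_mod_cast hr.pos
  have h2 := key ((j0 - i0) % m).toNat
  rw [Int.toNat_of_nonneg (Int.emod_nonneg (j0 - i0) hdz.ne')] at h2
  have h3 := DelRx806.mod_per hr.pos (w := fun k => u (i0 + k))
    (fun k => by show u (i0 + (k + m)) = u (i0 + k); rw [← add_assoc, hr.per]) (j0 - i0)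
  rw [h3, show i0 + (j0 - i0) = j0 by ring] at h2
  exact h2

/-- along a path in `W` -/
theorem mu_conn {k : ZMod 3} {v v' : ℂ} (hv : v ∈ WW S p r0 Y T1 inn)
    (hc : Relation.ReflTransGen
      (fun v v' => v' ∈ WW S p r0 Y T1 inn ∧ ∃ b, (v, v', b) ∈ delT S) v v') :
    v' ∈ WW S p r0 Y T1 inn ∧ ∀ a b a' b', (v, a, b) ∈ delT S → (v', a', b') ∈ delT S →
    mu N (WW S p r0 Y T1 inn) k v a = mu N (WW S p r0 Y T1 inn) k v' a' := by
  induction hc with
  | refl => exact ⟨hv, fun a b a' b' h h' => mu_star H hv h h'⟩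
  | @tail w w' _ hs ih =>
    obtain ⟨hw', c, hc⟩ := hs
    refine ⟨hw', fun a b a' b' h h' => ?_⟩
    rw [ih.2 a b w' c h hc, mu_symm]
    have hadj : Adj S w' w := Or.inr ⟨c, hc⟩
    obtain ⟨y, hy⟩ := adj_fst H.net (W1_full H (W_sub H hw')) hadj
    exact mu_star H hw' hy h'

/-- **bounds for the probabilities of the marks** at an edge with an end in `W` -/
theorem pe_bounds {η : ℝ} {x y z : ℂ}
    (hxy : x ∈ WW S p r0 Y T1 inn ∨ y ∈ WW S p r0 Y T1 inn) (ht : (x, y, z) ∈ N.T)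
    (hη : (((N.tj (x, y, z)).filter fun J =>
      FArm S (VV S p r0 e R1 Y T1 inn) J p (r0 + 2 * e) (R1 - e)).card : ℝ) ≤
        η * ((N.tj (x, y, z)).card : ℝ)) (hpos : 0 < (N.tj (x, y, z)).card) (k : ZMod 3) :
    mu N (WW S p r0 Y T1 inn) k x y ≤ Sidesx697.Net.pe N x y k ∧
      Sidesx697.Net.pe N x y k ≤ mu N (WW S p r0 Y T1 inn) k x y + η ∧
      Sidesx697.Net.pe N x y (i + 2) ≤ η := by
  set W := WW S p r0 Y T1 inn with hW
  set V := VV S p r0 e R1 Y T1 inn with hV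
  have hok : (x, y) ∉ N.kl ∧ (x, y) ∉ N.exS ∧ (y, x) ∉ N.exS := by
    rcases hxy with h | h
    · exact edge_ok H (W_sub H h)
    · obtain ⟨h1, h2, h3⟩ := edge_ok H (y := x) (W_sub H h)
      exact ⟨fun g => h1 (N.klsym _ _ g), h3, h2⟩
  obtain ⟨hk, hm, hm'⟩ := hok
  have hcard := half_card ht hk hm hm'
  have hVne : ∀ u ∈ V, ∀ v ∈ V, (u, v) ≠ (x, y) := by
    intro u hu v hv h
    rw [Prod.mk.injEq] at h
    rcases hxy with g | g
    · exact W_notV H g (h.1 ▸ hu)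
    · exact W_notV H g (h.2 ▸ hv)
  have hF := half_sum ht hk hm hm' (fun J => FArm S V J p (r0 + 2 * e) (R1 - e))
    (fun J => farm_congr fun u hu v hv => by
      rw [Finset.mem_insert]
      exact ⟨Or.inr, fun h => h.resolve_left (hVne u hu v hv)⟩)
    (fun J => farm_congr fun u hu v hv => by
      rw [Finset.mem_erase]
      exact ⟨fun h => ⟨hVne u hu v hv, h⟩, fun h => h.2⟩)
  -- one half edge
  have one : ∀ p0 : ℂ × ℂ, (p0.1 ∈ W ∨ p0.2 ∈ W) → ∀ k,
      ((N.hj p0.1 p0.2).filter (EK N W k)).card ≤ N.cnt p0.1 p0.2 k ∧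
      N.cnt p0.1 p0.2 k ≤ ((N.hj p0.1 p0.2).filter (EK N W k)).card +
        ((N.hj p0.1 p0.2).filter fun J => FArm S V J p (r0 + 2 * e) (R1 - e)).card ∧
      N.cnt p0.1 p0.2 (i + 2) ≤
        ((N.hj p0.1 p0.2).filter fun J => FArm S V J p (r0 + 2 * e) (R1 - e)).card := by
    intro p0 h0 k
    refine ⟨?_, ?_, ?_⟩
    · unfold Net.cnt
      apply Finset.card_le_card
      intro J hJ
      rw [Finset.mem_filter] at hJ ⊢
      refine ⟨hJ.1, ?_⟩
      obtain ⟨l, hl⟩ := Sidesx697.ends_some (p := p0) hJ.1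
      have h1 := ek_end H h0 (JCardx872.mem_joins.1 hJ.1) hJ.2 hl
      rw [h1] at hl
      exact hl
    · unfold Net.cnt
      refine (Finset.card_le_card ?_).trans (Finset.card_union_le _ _)
      intro J hJ
      rw [Finset.mem_filter] at hJ
      rw [Finset.mem_union, Finset.mem_filter, Finset.mem_filter]
      by_cases h1 : EK N W k J
      · exact Or.inl ⟨hJ.1, h1⟩
      · exact Or.inr ⟨hJ.1, near_ek H h0 (JCardx872.mem_joins.1 hJ.1) hJ.2 h1⟩
    · unfold Net.cnt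
      apply Finset.card_le_card
      intro J hJ
      rw [Finset.mem_filter] at hJ ⊢
      exact ⟨hJ.1, opp H h0 (JCardx872.mem_joins.1 hJ.1) hJ.2⟩
  have o1 := one (x, y) hxy
  have o2 := one (y, x) hxy.symm
  simp only at o1 o2
  have hT0 : (0 : ℝ) < ((N.tj (x, y, z)).card : ℝ) := by exact_mod_cast hpos
  unfold mu Sidesx697.Net.pe
  rw [hcard]
  refine ⟨?_, ?_, ?_⟩
  · apply div_le_div_of_nonneg_right _ hT0.le
    exact_mod_cast Nat.add_le_add (o1 k).1 (o2 k).1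
  · rw [div_add' _ _ _ hT0.ne']
    apply div_le_div_of_nonneg_right _ hT0.le
    refine le_trans ?_ (add_le_add_right hη _)
    have h1 := (o1 k).2.1
    have h2 := (o2 k).2.1
    rw [← hF]
    exact_mod_cast (by omega)
  · rw [div_le_iff₀ hT0]
    refine le_trans ?_ hη
    have h1 := (o1 k).2.2
    have h2 := (o2 k).2.2
    rw [← hF]
    exact_mod_cast (by omega)

end est

/-! ### the estimate -/

theorem sum3 {A : Type} [AddCommMonoid A] (i : ZMod 3) (f : ZMod 3 → A) :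
    ∑ k : ZMod 3, f k = f i + f (i + 1) + f (i + 2) := by
  have hs : ∑ k : ZMod 3, f k = f 0 + f 1 + f 2 := Fin.sum_univ_three f
  rw [hs]
  rcases D3Gx802.zcases 0 i with rfl | rfl | rfl
  · simp
  · have a1 : (0 + 1 + 1 : ZMod 3) = 2 := by decide
    have a2 : (0 + 1 + 2 : ZMod 3) = 0 := by decide
    rw [a1, a2, zero_add]
    abel
  · have a1 : (0 + 2 + 1 : ZMod 3) = 0 := by decide
    have a2 : (0 + 2 + 2 : ZMod 3) = 1 := by decide
    rw [a1, a2, zero_add]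
    abel

/-- the height through the probability of the opposite mark -/
theorem hgt_pe {a b : ℂ} (hab : (a, b) ∉ N.exS) (hba : (b, a) ∉ N.exS) (hN : HNet S N)
    (hpos : 0 < (N.hj a b).card + (N.hj b a).card) (i : ZMod 3) :
    hgt i (N.F a b) = Sidesx697.Net.pe N a b (i + 2) * (Real.sqrt 3 / 2) := by
  have hg := J1x872.good_of_hnet hN
  have h3 := Sidesx697.sum_cnt hg a b i
  have h4 := Sidesx697.sum_cnt hg b a i
  have hp : (0 : ℝ) < (((N.hj a b).card + (N.hj b a).card : ℕ) : ℝ) := by exact_mod_cast hpos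
  have e1 : Sidesx697.Net.pe N a b i + Sidesx697.Net.pe N a b (i + 1) +
      Sidesx697.Net.pe N a b (i + 2) = 1 := by
    unfold Sidesx697.Net.pe
    rw [← add_div, ← add_div, div_eq_one_iff_eq hp.ne']
    norm_cast
    omega
  have hs := sd_ne i
  rw [Sidesx697.F_eq_Fob N hab hba, Sidesx697.Fob_eq, sum3 i]
  unfold hgt
  have w1 : omz (i + 1) = omz i + sd i := by unfold sd; ring
  have w2 : omz (i + 2) = omz i + (om + 1) * sd i := by
    rw [sd_eq, show i + 2 = (i + 1) + 1 by ring, Oscx63.omz_add_one, Oscx63.omz_add_one]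
    ring
  have e2 : ((Sidesx697.Net.pe N a b i : ℂ) * omz i + (Sidesx697.Net.pe N a b (i + 1) : ℂ) *
      omz (i + 1) + (Sidesx697.Net.pe N a b (i + 2) : ℂ) * omz (i + 2) - omz i) / sd i =
      (Sidesx697.Net.pe N a b (i + 1) : ℂ) + (Sidesx697.Net.pe N a b (i + 2) : ℂ) * (om + 1) := by
    rw [div_eq_iff hs, w1, w2]
    have : (Sidesx697.Net.pe N a b i : ℂ) + Sidesx697.Net.pe N a b (i + 1) +
      Sidesx697.Net.pe N a b (i + 2) = 1 := by exact_mod_cast e1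
    linear_combination (omz i) * this
  rw [e2, Complex.add_im, Complex.ofReal_im, Complex.im_ofReal_mul, Complex.add_im, om_im,
    Complex.one_im]
  ring

theorem F_sum {a b : ℂ} (hab : (a, b) ∉ N.exS) (hba : (b, a) ∉ N.exS) :
    N.F a b = ∑ k : ZMod 3, (Sidesx697.Net.pe N a b k : ℂ) * omz k := by
  rw [Sidesx697.F_eq_Fob N hab hba, Sidesx697.Fob_eq]

/-- **heights and horizontal oscillation** of the observable near `p` -/
theorem est (H : HG S N i p r0 e R1 Y T1 inn) {η : ℝ}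
    (hη : ∀ v ∈ WW S p r0 Y T1 inn, ∀ a b, (v, a, b) ∈ delT S →
      (((N.tj (v, a, b)).filter fun J =>
        FArm S (VV S p r0 e R1 Y T1 inn) J p (r0 + 2 * e) (R1 - e)).card : ℝ) ≤
        η * ((N.tj (v, a, b)).card : ℝ)) :
    (∀ v ∈ WW S p r0 Y T1 inn, ∀ a b, (v, a, b) ∈ delT S →
      0 ≤ hgt i (N.F v a) ∧ hgt i (N.F v a) ≤ η) ∧
    ∀ v ∈ WW S p r0 Y T1 inn, ∀ v', Relation.ReflTransGen
      (fun v v' => v' ∈ WW S p r0 Y T1 inn ∧ ∃ b, (v, v', b) ∈ delT S) v v' →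
      ∀ a b a' b', (v, a, b) ∈ delT S → (v', a', b') ∈ delT S →
      ‖N.F v' a' - N.F v a‖ ≤ 4 * η := by
  have hN := H.net
  have hT := hN.tri
  have hg := J1x872.good_of_hnet hN
  -- one edge
  have one : ∀ v ∈ WW S p r0 Y T1 inn, ∀ a b, (v, a, b) ∈ delT S →
      (v, a) ∉ N.exS ∧ (a, v) ∉ N.exS ∧ 0 < (N.hj v a).card + (N.hj a v).card ∧ 0 ≤ η ∧
      ∀ k, mu N (WW S p r0 Y T1 inn) k v a ≤ Sidesx697.Net.pe N v a k ∧
      Sidesx697.Net.pe N v a k ≤ mu N (WW S p r0 Y T1 inn) k v a + η ∧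
      Sidesx697.Net.pe N v a (i + 2) ≤ η := by
    intro v hv a b h
    obtain ⟨e1, e2, e3⟩ := edge_ok H (y := a) (W_sub H hv)
    have hT1 : (v, a, b) ∈ T1 := by
      obtain ⟨-, g2, -, b', c', g4⟩ := mem_WW.1 (W_sub H hv)
      exact star hN H.bd g2 (W1_X (W_sub H hv)) g4 h
    have hpos := Exx395.hj_pos hg (H.bd.exm _ hT1) e1 e2
    have hcard := half_card (z := b) (by rw [hT]; exact h) e1 e2 e3
    have hpos' : 0 < (N.tj (v, a, b)).card := by rw [← hcard]; exact hpos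
    have hη0 : 0 ≤ η := by
      have h1 := hη v hv a b h
      have h2 : (0 : ℝ) < ((N.tj (v, a, b)).card : ℝ) := by exact_mod_cast hpos'
      by_contra hcon
      push Not at hcon
      have h3 : η * ((N.tj (v, a, b)).card : ℝ) < 0 := mul_neg_of_neg_of_pos hcon h2
      have h4 : (0 : ℝ) ≤ (((N.tj (v, a, b)).filter fun J =>
        FArm S (VV S p r0 e R1 Y T1 inn) J p (r0 + 2 * e) (R1 - e)).card : ℝ) := Nat.cast_nonneg _
      linarith
    exact ⟨e2, e3, hpos, hη0, fun k => pe_bounds H (Or.inl hv) (by rw [hT]; exact h)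
      (hη v hv a b h) hpos' k⟩
  refine ⟨fun v hv a b h => ⟨hgt_nonneg hN i v a, ?_⟩, fun v hv v' hc a b a' b' h h' => ?_⟩
  · obtain ⟨e1, e2, e3, e4, e5⟩ := one v hv a b h
    rw [hgt_pe e1 e2 hN e3 i]
    have h1 := (e5 0).2.2
    have h2 := Sidesx697.pe_nonneg (N := N) v a (i + 2)
    have h3 : Real.sqrt 3 ≤ 2 := by
      rw [Real.sqrt_le_left (by norm_num)]; norm_num
    nlinarith
  · obtain ⟨e1, e2, e3, e4, e5⟩ := one v hv a b h
    have hc' := fun k => mu_conn H (k := k) hv hc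
    obtain ⟨f1, f2, f3, f4, f5⟩ := one v' (hc' 0).1 a' b' h'
    have hk : ∀ k, |Sidesx697.Net.pe N v' a' k - Sidesx697.Net.pe N v a k| ≤ η := by
      intro k
      have h1 := (hc' k).2 a b a' b' h h'
      obtain ⟨g1, g2, -⟩ := e5 k
      obtain ⟨g3, g4, -⟩ := f5 k
      rw [← h1] at g3 g4
      rw [abs_le]
      constructor <;> linarith
    rw [F_sum f1 f2, F_sum e1 e2, ← Finset.sum_sub_distrib]
    calc ‖∑ k : ZMod 3, ((Sidesx697.Net.pe N v' a' k : ℂ) * omz k -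
          (Sidesx697.Net.pe N v a k : ℂ) * omz k)‖ ≤
          ∑ k : ZMod 3, ‖(Sidesx697.Net.pe N v' a' k : ℂ) * omz k -
          (Sidesx697.Net.pe N v a k : ℂ) * omz k‖ := norm_sum_le _ _
      _ ≤ ∑ _k : ZMod 3, η := by
          apply Finset.sum_le_sum
          intro k _
          rw [← sub_mul, norm_mul, D3Ax802.norm_omz, mul_one, ← Complex.ofReal_sub,
            Complex.norm_real, Real.norm_eq_abs]
          exact hk k
      _ = 3 * η := by
          rw [Finset.sum_const, Finset.card_univ, ZMod.card, nsmul_eq_mul]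
          norm_num
      _ ≤ 4 * η := by linarith

end Crest.Agent.R143.D3Hx802
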