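import Crest.Agent.R143.D3V_802
import Crest.Agent.R143.JCol_54

/-!
# Row 143 (S0194), block D: leaf INTF (helper802)

The boundary walk of a set of sites `A` arrives at every edge `(a0, b0)` between `A` and its
complement, if `a0` is joined to the start inside `A` and `b0` outside `A`.
-/

set_option autoImplicit false

noncomputable section

open scoped Classical

namespace Crest.Agent.R143.D3Ix802

open Crest.Agent.R143.B0x346 Crest.Agent.R143.B0Dx346 Crest.Agent.R143.DelGx806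
open Crest.Agent.R143.DelRx806 Crest.Agent.R143.JColx54 Crest.Agent.R143.D3Vx802

variable {S : Finset ℂ} {A : Set ℂ} {r1 r2 : ℂ}

theorem adj_of {a b : ℂ} (h : Cfgx416.Adj S a b) : Adj S a b := by
  obtain ⟨c, h | h⟩ := h
  · exact Or.inl ⟨c, h⟩
  · exact Or.inr ⟨c, h⟩

/-- the reached states -/
def Rch (S : Finset ℂ) (A : Set ℂ) (r1 r2 : ℂ) (e : ℂ × ℂ) : Prop :=
  Relation.ReflTransGen (Stp S A) (r1, r2) e

theorem Rch.inv (h1 : r1 ∈ A) (h2 : r2 ∉ A) {e : ℂ × ℂ} (h : Rch S A r1 r2 e) :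
    e.1 ∈ A ∧ e.2 ∉ A := by
  have h' : Relation.ReflTransGen (Stp S A) (r1, r2) e := h
  induction h' with
  | refl => exact ⟨h1, h2⟩
  | @tail e e' he hs ih =>
    obtain ⟨i1, i2⟩ := ih he
    obtain ⟨c, -, ⟨hc, rfl⟩ | ⟨hc, rfl⟩⟩ := hs
    · exact ⟨hc, i2⟩
    · exact ⟨i1, hc⟩

variable (hS : GP (S : Set ℂ)) (hh : hullE S r1 r2) (h1 : r1 ∈ A) (h2 : r2 ∉ A)

include hS hh h1 h2

theorem two {x y z : ℂ} (ht : (x, y, z) ∈ delT S) (hy : y ∉ A) (hz : z ∉ A) :
    Rch S A r1 r2 (x, y) ↔ Rch S A r1 r2 (x, z) := by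
  constructor
  · intro h
    exact Relation.ReflTransGen.tail h ⟨z, ht, Or.inr ⟨hz, rfl⟩⟩
  · intro h
    have ht2 : (z, x, y) ∈ delT S := delT_rot hS (delT_rot hS ht)
    rcases Relation.ReflTransGen.cases_tail h with h3 | ⟨⟨a, b⟩, he, c, hc, h4⟩
    · rw [Prod.mk.injEq] at h3
      obtain ⟨rfl, rfl⟩ := h3
      exact absurd ht2 (hh.2 y)
    · have hinv := Rch.inv h1 h2 he
      simp only at hc h4 hinv
      rcases h4 with ⟨h5, h6⟩ | ⟨h5, h6⟩
      · rw [Prod.mk.injEq] at h6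
        obtain ⟨rfl, rfl⟩ := h6
        have h7 : (z, x, a) ∈ delT S := delT_rot hS hc
        have h8 : a = y := (g1 S hS).2.1 _ _ _ _ h7 ht2
        exact absurd (h8 ▸ hinv.1) hy
      · rw [Prod.mk.injEq] at h6
        obtain ⟨rfl, rfl⟩ := h6
        have h7 : (z, x, b) ∈ delT S := delT_rot hS (delT_rot hS hc)
        have h8 : b = y := (g1 S hS).2.1 _ _ _ _ h7 ht2
        rw [← h8]
        exact he

theorem two' {x y z : ℂ} (ht : (x, y, z) ∈ delT S) (hx : x ∈ A) (hy : y ∈ A) :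
    Rch S A r1 r2 (y, z) ↔ Rch S A r1 r2 (x, z) := by
  constructor
  · intro h
    exact Relation.ReflTransGen.tail h ⟨x, delT_rot hS ht, Or.inl ⟨hx, rfl⟩⟩
  · intro h
    have ht2 : (z, x, y) ∈ delT S := delT_rot hS (delT_rot hS ht)
    rcases Relation.ReflTransGen.cases_tail h with h3 | ⟨⟨a, b⟩, he, c, hc, h4⟩
    · rw [Prod.mk.injEq] at h3
      obtain ⟨rfl, rfl⟩ := h3
      exact absurd ht2 (hh.2 y)
    · have hinv := Rch.inv h1 h2 he
      simp only at hc h4 hinv
      rcases h4 with ⟨h5, h6⟩ | ⟨h5, h6⟩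
      · rw [Prod.mk.injEq] at h6
        obtain ⟨rfl, rfl⟩ := h6
        have h7 : (z, x, a) ∈ delT S := delT_rot hS hc
        have h8 : a = y := (g1 S hS).2.1 _ _ _ _ h7 ht2
        rw [← h8]
        exact he
      · rw [Prod.mk.injEq] at h6
        obtain ⟨rfl, rfl⟩ := h6
        have h7 : (z, x, b) ∈ delT S := delT_rot hS (delT_rot hS hc)
        have h8 : b = y := (g1 S hS).2.1 _ _ _ _ h7 ht2
        exact absurd hy (h8 ▸ hinv.2)

omit hS hh h1 h2

/-- the edges between `A` and its complement which are not reached -/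
def fR (S : Finset ℂ) (A : Set ℂ) (r1 r2 a b : ℂ) : ZMod 2 :=
  if (a ∈ A ∧ b ∉ A ∧ ¬ Rch S A r1 r2 (a, b)) ∨ (b ∈ A ∧ a ∉ A ∧ ¬ Rch S A r1 r2 (b, a)) then 1
  else 0

theorem fR_symm (a b : ℂ) : fR S A r1 r2 b a = fR S A r1 r2 a b := by
  unfold fR
  simp only [or_comm]

theorem fR_same {a b : ℂ} (h : a ∈ A ↔ b ∈ A) : fR S A r1 r2 a b = 0 := by
  unfold fR
  rw [if_neg]
  tauto

theorem fR_diff {a b : ℂ} (ha : a ∈ A) (hb : b ∉ A) :
    fR S A r1 r2 a b = if Rch S A r1 r2 (a, b) then 0 else 1 := by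
  unfold fR
  by_cases h : Rch S A r1 r2 (a, b)
  · rw [if_pos h, if_neg]
    tauto
  · rw [if_neg h, if_pos]
    tauto

theorem intf : INTF := by
  intro S hS A r1 r2 a0 b0 hh h1 h2 hadj ha hb hc1 hc2
  by_contra hcon
  have hcon' : ¬ Rch S A r1 r2 (a0, b0) := hcon
  have add2 : ∀ x : ZMod 2, x + x = 0 := by decide
  have key1 : ∀ x y z : ℂ, (x, y, z) ∈ delT S → x ∈ A → y ∉ A → z ∉ A →
      fR S A r1 r2 x y + fR S A r1 r2 y z + fR S A r1 r2 z x = 0 := by
    intro x y z ht hx hy hz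
    rw [fR_same (a := y) (b := z) (by tauto), fR_symm x z, fR_diff hx hy, fR_diff hx hz]
    have := two hS hh h1 h2 ht hy hz
    by_cases h : Rch S A r1 r2 (x, y)
    · rw [if_pos h, if_pos (this.1 h)]; ring
    · rw [if_neg h, if_neg (fun h' => h (this.2 h')), add_zero]; exact add2 1
  have key2 : ∀ x y z : ℂ, (x, y, z) ∈ delT S → x ∈ A → y ∈ A → z ∉ A →
      fR S A r1 r2 x y + fR S A r1 r2 y z + fR S A r1 r2 z x = 0 := by
    intro x y z ht hx hy hz
    rw [fR_same (a := x) (b := y) (by tauto), fR_symm x z, fR_diff hy hz, fR_diff hx hz]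
    have := two' hS hh h1 h2 ht hx hy
    by_cases h : Rch S A r1 r2 (y, z)
    · rw [if_pos h, if_pos (this.1 h)]; ring
    · rw [if_neg h, if_neg (fun h' => h (this.2 h')), zero_add]; exact add2 1
  obtain ⟨σ, hσ⟩ := exact (A := ZMod 2) hS (f := fR S A r1 r2)
    (fun a b _ => by
      rw [fR_symm]
      have : ∀ x : ZMod 2, x = -x := by decide
      exact this _)
    (by
      intro a b c ht
      have ht2 := delT_rot hS ht
      have ht3 := delT_rot hS ht2
      by_cases ha : a ∈ A <;> by_cases hb : b ∈ A <;> by_cases hc : c ∈ A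
      · rw [fR_same (by tauto), fR_same (by tauto), fR_same (by tauto)]; ring
      · exact key2 a b c ht ha hb hc
      · linear_combination key2 c a b ht3 hc ha hb
      · exact key1 a b c ht ha hb hc
      · linear_combination key2 b c a ht2 hb hc ha
      · linear_combination key1 b c a ht2 hb hc ha
      · linear_combination key1 c a b ht3 hc ha hb
      · rw [fR_same (by tauto), fR_same (by tauto), fR_same (by tauto)]; ring)
  have e1 : a0 ∈ A ∧ σ a0 = σ r1 := by
    clear hcon hcon' hadj ha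
    induction hc1 with
    | refl => exact ⟨h1, rfl⟩
    | @tail x y _ hs ih =>
      have h3 := hσ x y (adj_of hs.1)
      rw [fR_same (by have := hs.2; tauto)] at h3
      exact ⟨hs.2, by linear_combination -h3 + ih.2⟩
  have e2 : b0 ∉ A ∧ σ b0 = σ r2 := by
    clear hcon hcon' hadj hb
    induction hc2 with
    | refl => exact ⟨h2, rfl⟩
    | @tail x y _ hs ih =>
      have h3 := hσ x y (adj_of hs.1)
      rw [fR_same (by have := hs.2; tauto)] at h3
      exact ⟨hs.2, by linear_combination -h3 + ih.2⟩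
  have e3 : σ r2 = σ r1 := by
    obtain ⟨c, hc⟩ := hh.1
    have h3 := hσ r1 r2 (Or.inl ⟨c, hc⟩)
    rw [fR_diff h1 h2, if_pos (show Rch S A r1 r2 (r1, r2) from Relation.ReflTransGen.refl)] at h3
    linear_combination -h3
  have e4 := hσ a0 b0 (adj_of hadj)
  rw [fR_diff ha hb, if_neg hcon', e1.2, e2.2, e3, sub_self] at e4
  exact absurd e4 (by decide)

end Crest.Agent.R143.D3Ix802
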