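import Crest.Agent.R143.D3B_802
import Crest.Agent.R143.D3H_802

/-!
# Row 143 (S0194), block D3 without (E3), part 5: the boundary estimate (helper802)

* `CBp` : crossing of an annulus by one colour (weak form, from RB or RBp)
* `mesh_ball` : sum of the squares of the longest sides of the triangles meeting a disc
* `conn_hull` : the sites near `p` are joined to the hull outside the annulus
* `BDE`, `bde` : heights and horizontal oscillation of the observable near `p`
-/

set_option autoImplicit false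

noncomputable section

open scoped Classical ENNReal

namespace Crest.Agent.R143.D3Jx802

open Set MeasureTheory
open Crest.ProbabilityR.Voronoi
open Crest.Agent.R143.B0x346 Crest.Agent.R143.B0Dx346 Crest.Agent.R143.Oscx63
open Crest.Agent.R143.DelGx806 Crest.Agent.R143.Circx63 Crest.Agent.R143.Scalx63
open Crest.Agent.R143.EQ2x63 Crest.Agent.R143.Locx922 Crest.Agent.R143.Cfgx416
open Crest.Agent.R143.Ex0x922 Crest.Agent.R143.Wlkx802 Crest.Agent.R143.D3Ax802
open Crest.Agent.R143.G6Wx723 Crest.Agent.R143.PP1x831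
open Crest.Agent.R143.D3Bx802 Crest.Agent.R143.D3Gx802
open Crest.Agent.R143.Harx315 (pr pr_nonneg)
open Crest.Agent.R143.RB0x838 (LDns Mesh RB)
open Crest.Agent.R143.CBx838 (Arm)
open Crest.Agent.R143.Sidesx697 (Side Wall)

/-- **crossing of an annulus by one colour**, weak form -/
def CBp : Prop := ∀ C4 : ℝ, 0 ≤ C4 → ∃ p c1 K : ℝ, 0 < p ∧ 0 < c1 ∧ 0 < K ∧
  ∀ (S : Finset ℂ) (z0 : ℂ) (r d : ℝ), 0 < r → LDns S z0 (K * r) d →
  Mesh S z0 (K * r) r C4 → d ≤ c1 * r → ∀ V : Finset ℂ, V ⊆ S →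
  pr V (fun β => ∃ l, Arm S z0 r (3 * r) β l) ≤ 1 - p

theorem cbp_of_rb (h : RB) : CBp := by
  intro C4 hC4
  obtain ⟨C, c1, K, hC, hc1, hK, hmain⟩ := CBx838.cb h
  exact ⟨Real.exp (-C * (1 + C4)), c1, K, Real.exp_pos _, hc1, hK,
    fun S z0 r d hr hD hM hd V hV => hmain S z0 r d C4 hr hD hC4 hM hd V hV⟩

/-- **crossing of an annulus by one colour**, with the mesh bound at the radii in `[c2 r, r]`
(the conclusion of `RBmx838.cbm`) -/
def CBm : Prop := ∀ C4 : ℝ, 0 ≤ C4 → ∃ p c1 c2 K : ℝ, 0 < p ∧ 0 < c1 ∧ 0 < c2 ∧ c2 ≤ 1 ∧ 0 < K ∧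
  ∀ (S : Finset ℂ) (z0 : ℂ) (r d : ℝ), 0 < r → LDns S z0 (K * r) d →
  (∀ b' : ℝ, c2 * r ≤ b' → b' ≤ r → Mesh S z0 (K * r) b' C4) → d ≤ c1 * r →
  ∀ V : Finset ℂ, V ⊆ S → pr V (fun β => ∃ l, Arm S z0 r (3 * r) β l) ≤ 1 - p

theorem cbm_of_cbp (h : CBp) : CBm := by
  intro C4 hC4
  obtain ⟨p, c1, K, hp, hc1, hK, hmain⟩ := h C4 hC4
  exact ⟨p, c1, 1, K, hp, hc1, one_pos, le_rfl, hK, fun S z0 r d hr hD hM hd V hV =>
    hmain S z0 r d hr hD (hM r (by rw [one_mul]) le_rfl) hd V hV⟩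

/-- the sum of the squares of the longest sides of the triangles meeting a disc -/
theorem mesh_ball {D : Dom} {ε d M : ℝ} {ω : Sample} (hd : 0 < d) (h : Env ε d M D.c D.L ω)
    {x : ℂ} {b C : ℝ} (hC : 0 ≤ C) (hb : 2 * d ≤ b)
    (hx : Metric.closedBall x b ⊆ Metric.closedBall D.c (D.L - 2 * d))
    (hM : diamSum (points ε ω) (Metric.ball x (2 * b)) ≤ ENNReal.ofReal (C * (2 * b) ^ 2)) :
    ∑ t ∈ (delT (D.sites ε ω)).filter (fun t => (cT t ∩ Metric.closedBall x b).Nonempty),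
      dm t ^ 2 ≤ 16 * C * b ^ 2 := by
  set F := (delT (D.sites ε ω)).filter
    (fun t => (cT t ∩ Metric.closedBall x b).Nonempty) with hF
  set P : Set (ℂ × ℂ × ℂ) := {t : ℂ × ℂ × ℂ | Del (points ε ω) t.1 t.2.1 t.2.2 ∧
    ((voronoiCell (points ε ω) t.1 ∪ voronoiCell (points ε ω) t.2.1 ∪
      voronoiCell (points ε ω) t.2.2) ∩ Metric.ball x (2 * b)).Nonempty} with hP
  -- every triangle of `F`
  have key : ∀ t ∈ F, t ∈ P ∧
      ENNReal.ofReal (dm t ^ 2) ≤ 4 * (Metric.ediam (voronoiCell (points ε ω) t.1)) ^ 2 := by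
    rintro ⟨a, b', c⟩ ht
    rw [hF, Finset.mem_filter] at ht
    obtain ⟨htS, y, hy, hyb⟩ := ht
    obtain ⟨o', hT⟩ := mem_delT_iff.1 htS
    have hyx : ‖y - x‖ ≤ b := by rwa [mem_closedBall_iff_norm] at hyb
    have hyW : y ∈ Metric.closedBall D.c (D.L - 2 * d) := hx hyb
    have hyT : InT y a b' c := hy
    have hDel : Del (points ε ω) a b' c := (Env.mem_delT hd h hyW hyT).1 htS
    obtain ⟨o, h1, h2, h3, h4, h5, ga, gb, gc⟩ := del_small hd (Env.hol h) hyW
      (InT.inD hT.pos hyT) hDel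
    constructor
    · refine ⟨hDel, a, Or.inl (Or.inl ?_), ?_⟩
      · intro s hs
        simp
      · rw [mem_ball_iff_norm]
        have := norm_tri a y x
        linarith
    · have hdm : dm (a, b', c) ≤ 2 * ‖a - o‖ := EQ4x63.dm_le le_rfl h1.le h2.le
      have hdm0 : 0 ≤ dm (a, b', c) := le_max_of_le_right (norm_nonneg _)
      have ha : a ∈ voronoiCell (points ε ω) a := fun s hs => by simp
      have ho : o ∈ voronoiCell (points ε ω) a := by
        intro s hs
        rw [norm_sub_rev o a, norm_sub_rev o s]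
        exact h3 s hs
      have h6 : ENNReal.ofReal ‖a - o‖ ≤ Metric.ediam (voronoiCell (points ε ω) a) := by
        have := Metric.edist_le_ediam_of_mem ha ho
        rwa [edist_dist, dist_eq_norm] at this
      calc ENNReal.ofReal (dm (a, b', c) ^ 2) ≤ ENNReal.ofReal (4 * ‖a - o‖ ^ 2) := by
            apply ENNReal.ofReal_le_ofReal
            nlinarith [norm_nonneg (a - o)]
        _ = 4 * (ENNReal.ofReal ‖a - o‖) ^ 2 := by
            rw [ENNReal.ofReal_mul (by norm_num), ENNReal.ofReal_pow (norm_nonneg _)]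
            norm_num
        _ ≤ 4 * (Metric.ediam (voronoiCell (points ε ω) a)) ^ 2 := by gcongr
  have hsum : ∑ t ∈ F, ENNReal.ofReal (dm t ^ 2) ≤
      4 * diamSum (points ε ω) (Metric.ball x (2 * b)) := by
    have e1 : diamSum (points ε ω) (Metric.ball x (2 * b)) =
        ∑' t : ℂ × ℂ × ℂ, P.indicator
          (fun t => (Metric.ediam (voronoiCell (points ε ω) t.1)) ^ 2) t := by
      rw [← tsum_subtype]
      rfl
    rw [e1]
    calc ∑ t ∈ F, ENNReal.ofReal (dm t ^ 2)
        ≤ ∑ t ∈ F, 4 * P.indicator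
          (fun t => (Metric.ediam (voronoiCell (points ε ω) t.1)) ^ 2) t := by
          apply Finset.sum_le_sum
          intro t ht
          rw [Set.indicator_of_mem (key t ht).1]
          exact (key t ht).2
      _ = 4 * ∑ t ∈ F, P.indicator
          (fun t => (Metric.ediam (voronoiCell (points ε ω) t.1)) ^ 2) t := by
          rw [Finset.mul_sum]
      _ ≤ _ := by
          gcongr
          exact ENNReal.sum_le_tsum _
  have h7 : ENNReal.ofReal (∑ t ∈ F, dm t ^ 2) ≤ ENNReal.ofReal (16 * C * b ^ 2) := by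
    rw [ENNReal.ofReal_sum_of_nonneg fun t _ => sq_nonneg _]
    refine hsum.trans ((mul_le_mul_right hM 4).trans (le_of_eq ?_))
    have e2 : (4 : ℝ≥0∞) = ENNReal.ofReal 4 := by norm_num
    rw [e2, ← ENNReal.ofReal_mul (by norm_num)]
    congr 1
    ring
  exact (ENNReal.ofReal_le_ofReal_iff (by positivity)).1 h7

variable {n : ℕ} {C : Cfg n} {S : Finset ℂ} {δ d : ℝ} {i : ZMod 3} {p : ℂ} {R0 s K : ℝ}
  {G T : Set ℂ}

/-- **the abstract data** -/
theorem hg_of (H : Geo C S δ d i p R0 s K G T) {r0 R1 : ℝ} (h1 : s + 4 * d < r0)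
    (h2 : R1 + 3 * d < R0) (h3 : r0 + 6 * d ≤ R1) :
    HG S (C.dom.netS S) i p r0 (2 * d) R1 (Yt C S T) (TT C S G) (C.inn S : Set ℂ) where
  net := H.out.hnet
  bd := bd_of H (by linarith [H.dpos]) h2
  ex := ex_of H h1 (by linarith [H.dpos])
  step := by
    have hd := H.dpos
    intro u v huv hu
    have huW : u ∈ WD C d := by
      apply Metric.mem_closedBall.2
      have := near_W H (o := u) (by rw [dist_eq_norm]; linarith)
      linarith [H.dL]
    rcases huv with ⟨c, hc⟩ | ⟨c, hc⟩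
    · obtain ⟨o, hT⟩ := mem_delT_iff.1 hc
      have := (del_side hd H.hol huW (InT.inD hT.pos (vertex_mem hT.pos).1) (mem_delT.1 hc)).1
      rw [norm_sub_rev]
      exact this.le
    · obtain ⟨o, hT⟩ := mem_delT_iff.1 hc
      have := (del_side hd H.hol huW (InT.inD hT.pos (vertex_mem hT.pos).2.1) (mem_delT.1 hc)).1
      exact this.le
  rad := by linarith
  e0 := by linarith [H.dpos]
  live := by
    intro v hv x hx
    rw [ClsCx697.kl_iff H.out] at hx
    exact (H.out.inn v hv).1 x hx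

/-- sites of a side are joined to the hull outside `V` -/
theorem side_conn {N : Net ℂ} {r0 e R1 : ℝ} {Y : Set ℂ} {T1 : Set (ℂ × ℂ × ℂ)} {inn : Set ℂ}
    (H : HG S N i p r0 e R1 Y T1 inn) {u : ℂ} (hu : Side N i u) :
    Relation.ReflTransGen (fun x y => JColx54.Adj S x y ∧ y ∉ VV S p r0 e R1 Y T1 inn)
      (N.ex i).2 u := by
  induction hu with
  | refl => exact Relation.ReflTransGen.refl
  | @tail x y _ hw ih =>
    obtain ⟨w1, w2, w3, w4⟩ := hw
    refine ih.tail ⟨Sidesx697.adj_of_E H.net w1, fun hy => ?_⟩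
    have hyW := (mem_VV.1 hy).1
    have hF := W1_full H hyW
    have hadj : JColx54.Adj S y x := D3Gx802.adj_symm (Sidesx697.adj_of_E H.net w1)
    obtain ⟨c, hc⟩ := adj_fst H.net hF hadj
    have hh := full_not_hull H.net hF x
    rcases w4 with w4 | w4 | w4
    · exact H.live y (mem_WW.1 hyW).2.1 x (N.klsym _ _ w4)
    · exact w4 c (by rw [H.net.tri]; exact hc)
    · exact hh.1 ⟨⟨c, hc⟩, fun c' hc' => w4 c' (by rw [H.net.tri]; exact hc')⟩

/-- **the sites near `p` are joined to the hull outside the annulus** -/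
theorem conn_hull (H : Geo C S δ d i p R0 s K G T) {r0 R1 : ℝ} (h1 : s + 4 * d < r0)
    (h2 : R1 + 3 * d < R0) (h3 : r0 + 6 * d ≤ R1) (h4 : (C.dom.R i ∩ Metric.ball p s).Nonempty)
    {v : ℂ} (hv : v ∈ WW S p r0 (Yt C S T) (TT C S G) (C.inn S : Set ℂ)) :
    Relation.ReflTransGen (fun x y => JColx54.Adj S x y ∧
      y ∉ VV S p r0 (2 * d) R1 (Yt C S T) (TT C S G) (C.inn S : Set ℂ))
      ((C.dom.netS S).ex i).2 v := by
  have HG := hg_of H h1 h2 h3
  have hd := H.dpos
  set V := VV S p r0 (2 * d) R1 (Yt C S T) (TT C S G) (C.inn S : Set ℂ) with hV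
  set W := WW S p r0 (Yt C S T) (TT C S G) (C.inn S : Set ℂ) with hW
  have hgp := H.out.gp
  have hcard : 3 ≤ S.card := Sidesx697.card3 H.out.hnet
  have hne : S.Nonempty := by
    rw [← Finset.card_pos]; omega
  -- the site of the side
  obtain ⟨y0, hy0, hy0s⟩ := h4
  obtain ⟨u, hu, huy⟩ := exists_cell hne y0
  have hside : Side (C.dom.netS S) i u := ClsCx697.cls_of_out H.hn H.out i u hu ⟨y0, huy, hy0⟩
  -- cells of points close to `p`
  have hcell : ∀ z : ℂ, ‖z - p‖ < r0 → ∀ w ∈ S, z ∈ voronoiCell (S : Set ℂ) w →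
      w ∈ S.filter (fun w => w ∉ V) := by
    intro z hz w hw hzw
    have hzW : z ∈ WD C d := by
      apply Metric.mem_closedBall.2
      have := near_W H (o := z) (by rw [dist_eq_norm]; linarith)
      linarith [H.dL]
    have g1 : ‖z - w‖ < d := cell_dist (H.hol z hzW z (by simp; exact hd.le)) hzw
    rw [Finset.mem_filter]
    refine ⟨hw, fun g2 => ?_⟩
    have g3 := (mem_VV.1 g2).2.2
    have g4 := norm_tri w z p
    rw [norm_sub_rev w z] at g4
    linarith
  -- sites close to `p`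
  have near : ∀ w ∈ S, ‖w - p‖ < r0 → Relation.ReflTransGen (fun x y => JColx54.Adj S x y ∧
      y ∉ V) ((C.dom.netS S).ex i).2 w := by
    intro w hw hwp
    have g1 := Lawx872.conn_of_set hgp hcard (C := segment ℝ y0 w)
      (V := S.filter (fun w => w ∉ V)) (convex_segment y0 w).isPreconnected (by
        intro z hz
        apply hcell
        have g2 : z ∈ Metric.ball p r0 := (convex_ball p r0).segment_subset (by
          rw [Metric.mem_ball, dist_eq_norm]
          rw [Metric.mem_ball, dist_eq_norm] at hy0s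
          linarith) (by rw [Metric.mem_ball, dist_eq_norm]; exact hwp) hz
        rwa [Metric.mem_ball, dist_eq_norm] at g2) hu hw ⟨y0, left_mem_segment ℝ _ _, huy⟩
      ⟨w, right_mem_segment ℝ _ _, fun s _ => by simp⟩
    refine (side_conn HG hside).trans ?_
    exact Relation.ReflTransGen.mono (fun a b hab =>
      ⟨hab.1, (Finset.mem_filter.1 hab.2.2).2⟩) _ _ g1
  obtain ⟨hvS, hvi, hvor, hvT⟩ := mem_WW.1 hv
  rcases hvor with hvp | hvY
  · exact near v hvS hvp
  -- the component of `v` in `Yt`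
  set A : Finset ℂ := W.filter fun w => w ∈ Yt C S T ∧ Relation.ReflTransGen
    (fun x y => JColx54.Adj S x y ∧ y ∉ V) w v with hA
  have hvA : v ∈ A := by
    rw [hA, Finset.mem_filter]
    exact ⟨hv, hvY, Relation.ReflTransGen.refl⟩
  obtain ⟨w, hw, a, b, hab, haA⟩ := exists_out hgp H.out.hnet.tri ⟨v, hvA⟩ (fun w hw => by
    rw [hA, Finset.mem_filter] at hw
    exact W1_full HG (W_sub HG hw.1))
  rw [hA, Finset.mem_filter] at hw
  obtain ⟨hw1, hw2, hw3⟩ := hw
  have hadj : JColx54.Adj S w a := Or.inl ⟨b, hab⟩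
  obtain ⟨g1, g2, g3⟩ := next_site HG (W_sub HG hw1) hadj
  have haS : a ∈ S := (adj_mem hadj).2
  have hwV : w ∉ V := W_notV HG hw1
  have last : Relation.ReflTransGen (fun x y => JColx54.Adj S x y ∧ y ∉ V)
      ((C.dom.netS S).ex i).2 a → Relation.ReflTransGen (fun x y => JColx54.Adj S x y ∧ y ∉ V)
      ((C.dom.netS S).ex i).2 v := fun g =>
    (g.tail ⟨D3Gx802.adj_symm hadj, hwV⟩).trans hw3
  rcases g1 with g1 | g1
  · rcases g3 hw2 g1 with g4 | g4
    · exact last (near a haS g4)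
    · exfalso
      apply haA
      rw [hA, Finset.mem_filter]
      exact ⟨mem_WW.2 ⟨haS, g1, Or.inr g4, g2⟩, g4, Relation.ReflTransGen.head
        ⟨D3Gx802.adj_symm hadj, hwV⟩ hw3⟩
  · exact last (side_conn HG g1)

/-- **the boundary estimate** with the number of scales `N` -/
def BDEat (η : ℝ) (N : ℕ) (c1 : ℝ) : Prop :=
  ∀ {n : ℕ} (C : Cfg n) (ε δ d M : ℝ) (ω : Sample) (i : ZMod 3) (p : ℂ) (R0 s K : ℝ)
    (G T : Set ℂ) (k0 : ℤ),
    Geo C (C.dom.sites ε ω) δ d i p R0 s K G T → Env ε d M C.dom.c C.dom.L ω →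
    (2 : ℝ) ^ k0 + 3 * d < R0 → s + 4 * d < (2 : ℝ) ^ (k0 - N) → d ≤ c1 * (2 : ℝ) ^ (k0 - N) →
    (2 : ℝ) ^ (k0 + 1) ≤ 1 →
    (∀ z ∈ Metric.closedBall (0 : ℂ) (‖C.dom.c‖ + C.dom.L + 1), ∀ ρ : ℝ,
      (2 : ℝ) ^ (k0 - N) ≤ ρ → ρ ≤ 1 →
      diamSum (points ε ω) (Metric.ball z ρ) ≤ ENNReal.ofReal (EQ5x63.CM * ρ ^ 2)) →
    (C.dom.R i ∩ Metric.ball p s).Nonempty →
    (∀ v ∈ WW (C.dom.sites ε ω) p ((2 : ℝ) ^ (k0 - N)) (Yt C (C.dom.sites ε ω) T)
        (TT C (C.dom.sites ε ω) G) (C.inn (C.dom.sites ε ω) : Set ℂ),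
      ∀ a b, (v, a, b) ∈ delT (C.dom.sites ε ω) →
        0 ≤ hgt i ((C.dom.netS (C.dom.sites ε ω)).F v a) ∧
          hgt i ((C.dom.netS (C.dom.sites ε ω)).F v a) ≤ η) ∧
    ∀ v ∈ WW (C.dom.sites ε ω) p ((2 : ℝ) ^ (k0 - N)) (Yt C (C.dom.sites ε ω) T)
        (TT C (C.dom.sites ε ω) G) (C.inn (C.dom.sites ε ω) : Set ℂ),
      ∀ v', Relation.ReflTransGen
        (fun v v' => v' ∈ WW (C.dom.sites ε ω) p ((2 : ℝ) ^ (k0 - N)) (Yt C (C.dom.sites ε ω) T)
          (TT C (C.dom.sites ε ω) G) (C.inn (C.dom.sites ε ω) : Set ℂ) ∧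
          ∃ b, (v, v', b) ∈ delT (C.dom.sites ε ω)) v v' →
        ∀ a b a' b', (v, a, b) ∈ delT (C.dom.sites ε ω) →
          (v', a', b') ∈ delT (C.dom.sites ε ω) →
          ‖(C.dom.netS (C.dom.sites ε ω)).F v' a' -
            (C.dom.netS (C.dom.sites ε ω)).F v a‖ ≤ 4 * η

/-- **the boundary estimate** -/
def BDE : Prop := ∀ η : ℝ, 0 < η → ∃ (N : ℕ) (c1 : ℝ), 0 < N ∧ 0 < c1 ∧ BDEat η N c1

/-- **the boundary estimate from RSW only** -/
theorem bdem (hCB : CBm) : BDE := by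
  intro η hη
  obtain ⟨q0, c1, c2, K1, hq0, hc1, hc2, hc2', hK1, hone⟩ := hCB (16 * EQ5x63.CM) (by
    have := EQ5x63.CM_nonneg; positivity)
  obtain ⟨A, hA1, hA2⟩ : ∃ A : ℝ, 1 ≤ A ∧ c2 * A = 1 :=
    ⟨1 / c2, by rw [le_div_iff₀ hc2]; linarith, by field_simp⟩
  set q : ℝ := 1 - min q0 1 with hq
  have hq1 : q < 1 := by
    have : 0 < min q0 1 := lt_min hq0 one_pos
    linarith
  have hqn : 0 ≤ q := by
    have := min_le_right q0 1
    linarith
  obtain ⟨m, hm⟩ := exists_pow_lt_of_lt_one (half_pos hη) hq1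
  obtain ⟨N, hN⟩ := pow_unbounded_of_one_lt (4 * (K1 + 1) * 8 ^ m * A) (one_lt_two (α := ℝ))
  have hNpos : 0 < N := by
    rcases Nat.eq_zero_or_pos N with h | h
    · exfalso
      rw [h, pow_zero] at hN
      have h1 : (1 : ℝ) ≤ 8 ^ m := one_le_pow₀ (by norm_num)
      have h2 : (1 : ℝ) ≤ 4 * (K1 + 1) := by linarith
      have h3 : (1 : ℝ) ≤ 4 * (K1 + 1) * 8 ^ m := one_le_mul_of_one_le_of_one_le h2 h1
      have h4 : (1 : ℝ) ≤ 4 * (K1 + 1) * 8 ^ m * A := one_le_mul_of_one_le_of_one_le h3 hA1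
      linarith
    · exact h
  refine ⟨N, c1, hNpos, hc1, ?_⟩
  intro n C ε δ d M ω i p R0 s K G T k0 H h hR hs hdc hk1 hM hRi
  set S := C.dom.sites ε ω with hS
  set r0 : ℝ := (2 : ℝ) ^ (k0 - N) with hr0
  set R1 : ℝ := (2 : ℝ) ^ k0 with hR1
  have hd := H.dpos
  have hs0 := H.s0
  have hL := H.dL
  have hr0p : 0 < r0 := by positivity
  have hR1p : 0 < R1 := by positivity
  have e1 : R1 = r0 * 2 ^ N := by
    rw [hR1, hr0, ← zpow_natCast (2 : ℝ) N, ← zpow_add₀ (by norm_num)]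
    congr 1; ring
  have h8 : (1 : ℝ) ≤ 8 ^ m := one_le_pow₀ (by norm_num)
  set ra : ℝ := A * r0 with hra
  have hra0 : r0 ≤ ra := by
    have := mul_le_mul_of_nonneg_right hA1 hr0p.le
    rwa [one_mul] at this
  have hrap : 0 < ra := by linarith
  have e2 : 4 * (K1 + 1) * 8 ^ m * ra ≤ R1 := by
    have := mul_le_mul_of_nonneg_right hN.le hr0p.le
    rw [e1, mul_comm r0]
    calc 4 * (K1 + 1) * 8 ^ m * ra = 4 * (K1 + 1) * 8 ^ m * A * r0 := by rw [hra]; ring
      _ ≤ _ := this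
  have e3 : 4 * 8 ^ m * ra ≤ R1 := by
    have : 0 ≤ 4 * K1 * 8 ^ m * ra := by positivity
    nlinarith
  have e4 : 4 * ra ≤ R1 := by nlinarith
  have hHG := hg_of H (r0 := r0) (R1 := R1) hs hR (by linarith)
  set V := VV S p r0 (2 * d) R1 (Yt C S T) (TT C S G) (C.inn S : Set ℂ) with hV
  have hVS : V ⊆ S := fun v hv => (mem_WW.1 (mem_VV.1 hv).1).1
  have hRb : ∀ z : ℂ, ‖z - p‖ ≤ R0 → z ∈ Metric.closedBall C.dom.c (C.dom.L / 2) := by
    intro z hz
    have := near_W H (o := z) (by rw [dist_eq_norm]; exact hz)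
    exact Metric.mem_closedBall.2 this
  -- the probability of a crossing by one colour
  have hpr : pr V (fun β => D3Fx802.CArm S β p (r0 + 2 * (2 * d)) (R1 - 2 * d)) ≤ q ^ m := by
    refine D3Fx802.carm_pow hVS (r := 2 * ra) (q := q) (by linarith) m ?_ ?_ (by linarith)
      (by linarith)
    · intro j hj W hW
      have hjm : (8 : ℝ) ^ j ≤ 8 ^ m := pow_le_pow_right₀ (by norm_num) hj.le
      have hj1 : (1 : ℝ) ≤ 8 ^ j := one_le_pow₀ (by norm_num)
      set b : ℝ := 8 ^ j * (2 * ra) with hb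
      have hb0 : 0 < b := by positivity
      have hb1 : b ≤ 8 ^ m * (2 * ra) := mul_le_mul_of_nonneg_right hjm (by linarith)
      have hb2 : 2 * ra ≤ b := by
        have := mul_le_mul_of_nonneg_right hj1 (show (0 : ℝ) ≤ 2 * ra by linarith)
        rw [one_mul] at this
        exact this
      have hb3 : 2 * ((K1 + 1) * b) ≤ R1 := by
        have := mul_le_mul_of_nonneg_left hb1 (show (0 : ℝ) ≤ 2 * (K1 + 1) by linarith)
        nlinarith
      have hb4 : (K1 + 1) * b ≤ R0 := by nlinarith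
      have hKb : 0 < K1 * b := by positivity
      have hcb : 2 * r0 ≤ c2 * b := by
        have g1 := mul_le_mul_of_nonneg_left hb2 hc2.le
        have g2 : c2 * (2 * ra) = 2 * r0 := by
          calc c2 * (2 * ra) = (c2 * A) * (2 * r0) := by rw [hra]; ring
            _ = 2 * r0 := by rw [hA2, one_mul]
        linarith
      refine (hone S p b d hb0 ?_ ?_ ?_ W hW).trans ?_
      · exact ⟨H.out.gp, hd, fun z hz => H.hol z (by
          apply Metric.mem_closedBall.2
          have := Metric.mem_closedBall.1 (hRb z (by linarith))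
          have hcc : C.dom.c = C.c := rfl
          have hLL : C.dom.L = C.L := rfl
          rw [hcc, hLL] at this
          linarith) z (by simp; exact hd.le)⟩
      · intro b' hb'1 hb'2 z hz
        apply mesh_ball hd h EQ5x63.CM_nonneg (by linarith)
        · intro y hy
          rw [mem_closedBall_iff_norm] at hy
          have g1 := norm_tri y z p
          have g2 := Metric.mem_closedBall.1 (hRb y (by linarith))
          apply Metric.mem_closedBall.2
          have hLL : C.dom.L = C.L := rfl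
          rw [hLL] at g2 ⊢
          linarith
        · apply hM
          · have g2 := Metric.mem_closedBall.1 (hRb z (by linarith))
            rw [mem_closedBall_zero_iff]
            rw [dist_eq_norm] at g2
            have g3 := norm_add_le (z - C.dom.c) C.dom.c
            rw [sub_add_cancel] at g3
            have hLL : C.dom.L = C.L := rfl
            rw [hLL] at g2 ⊢
            linarith
          · linarith
          · have g4 : (2 : ℝ) ^ (k0 + 1) = 2 * R1 := by
              rw [zpow_add₀ (by norm_num), zpow_one, mul_comm]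
            rw [g4] at hk1
            nlinarith
      · have := mul_le_mul_of_nonneg_left hb2 hc1.le
        nlinarith
      · have := min_le_left q0 1
        linarith
    · intro u v huv hu
      have g1 := hHG.step u v huv (by nlinarith)
      linarith
  -- the law of free chains
  have hfree := free_VV hHG
  refine D3Hx802.est hHG (η := η) ?_
  intro v hv a b hab
  have hgd : D3Ex802.Gd S V (v, a, b) := by
    have hex := H.out.hnet.hex i
    refine D3Ex802.gdS_conn H.out.gp hex ?_ (conn_hull H hs hR (by linarith) hRi hv) a b hab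
    intro hw
    exact (full_not_hull H.out.hnet (W1_full hHG (mem_VV.1 hw).1) _).2 hex
  have hlaw := D3Fx802.law H.out.hnet hfree hgd p (r0 + 2 * (2 * d)) (R1 - 2 * d)
  refine hlaw.trans ?_
  apply mul_le_mul_of_nonneg_right _ (Nat.cast_nonneg _)
  linarith

theorem bde (hCB : CBp) : BDE := bdem (cbm_of_cbp hCB)

end Crest.Agent.R143.D3Jx802
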