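import Crest.Agent.R143.Cfg_416
import Crest.Agent.R143.Ex0_922

/-!
# Row 143 (S0194), block D: two combinatorial leaves for VAL (helper802)

* `Stp S A` : the walk along the boundary of the set of sites `A`, `A` on one side
* `INTF` : if `A` and its complement are connected as seen from the edge, then the walk from the hull
  edge arrives at every edge between `A` and its complement
* `MONO` : along the boundary of the class `0` (resp. `1`) the observable is monotone, so it is at
  most (resp. at least) the value at the ray edge `1`, which is `pr S 0` (P2b of 117)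
-/

set_option autoImplicit false

noncomputable section

open scoped Classical

namespace Crest.Agent.R143.D3Vx802

open Crest.Agent.R143.B0x346 Crest.Agent.R143.B0Dx346 Crest.Agent.R143.Cfgx416
open Crest.Agent.R143.Ex0x922

/-- one step of the walk along the boundary of `A` : states `(a, b)`, `a ∈ A`, `b ∉ A`; the walker
crosses the triangle on the left of `(a, b)` -/
def Stp (S : Finset ℂ) (A : Set ℂ) (e e' : ℂ × ℂ) : Prop :=
  ∃ c, (e.1, e.2, c) ∈ delT S ∧ ((c ∈ A ∧ e' = (c, e.2)) ∨ (c ∉ A ∧ e' = (e.1, c)))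

/-- **leaf INTF** -/
def INTF : Prop := ∀ S : Finset ℂ, GP (S : Set ℂ) → ∀ (A : Set ℂ) (r1 r2 a0 b0 : ℂ),
  hullE S r1 r2 → r1 ∈ A → r2 ∉ A → Adj S a0 b0 → a0 ∈ A → b0 ∉ A →
  Relation.ReflTransGen (fun x y => Adj S x y ∧ y ∈ A) r1 a0 →
  Relation.ReflTransGen (fun x y => Adj S x y ∧ y ∉ A) r2 b0 →
  Relation.ReflTransGen (Stp S A) (r1, r2) (a0, b0)

/-- **leaf MONO** -/
def MONO : Prop := ∀ (C : Cfg 4) (S : Finset ℂ), C.Out S → ∀ (v u w : ℂ), v ∈ C.inn S →
  ((v, u, w) ∈ delT S ∧ ExM (C.dom.netS S) (v, u, w) ∨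
    (u, v, w) ∈ delT S ∧ ExM (C.dom.netS S) (u, v, w)) →
  (u ∈ C.cls S 0 → Relation.ReflTransGen (Stp S (C.cls S 0)) (C.ray S 1) (u, v) →
    (((C.dom.netS S).F u v - 1) / (om - 1)).re ≤ C.pr S 0) ∧
  (u ∈ C.cls S 1 → Relation.ReflTransGen (Stp S {x | x ∉ C.cls S 1}) (C.ray S 1) (v, u) →
    C.pr S 0 ≤ (((C.dom.netS S).F v u - 1) / (om - 1)).re)

end Crest.Agent.R143.D3Vx802
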