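import Crest.Agent.R143.D3C_802
import Crest.Agent.R143.D3V_802

/-!
# Row 143 (S0194), block D3: leaf VAL (helper422)

* `arc_margin` : a circular arc across half of a tentacle, from the axis to the region on one side
* `chain_in`, `chain_exit` : chains of sites in the component of `det`
* `quenchedV` : the value of the quenched observable near `b`
* `val` : E3 → INTF → MONO → `Cfgx416.VAL`
-/

set_option autoImplicit false

noncomputable section

open scoped Classical ENNReal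

namespace Crest.Agent.R143.VALx422

open Set MeasureTheory Filter Topology
open Crest.ProbabilityR.Voronoi
open Crest.Agent.R143.B0x346 Crest.Agent.R143.B0Dx346 Crest.Agent.R143.Oscx63
open Crest.Agent.R143.DelGx806 Crest.Agent.R143.Circx63 Crest.Agent.R143.Scalx63
open Crest.Agent.R143.EQ2x63 Crest.Agent.R143.Locx922 Crest.Agent.R143.Cfgx416
open Crest.Agent.R143.Ex0x922 Crest.Agent.R143.Wlkx802 Crest.Agent.R143.D3Ax802
open Crest.Agent.R143.Sidesx697 Crest.Agent.R143.G6Wx723 Crest.Agent.R143.PP1x831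
open Crest.Agent.R143.D3Bx802 Crest.Agent.R143.D3Cx802 Crest.Agent.R143.EQ5x63
open Crest.Agent.R143.Spinex422 Crest.Agent.R143.D3Vx802

/-! ### arcs across a tentacle -/

section arc

variable {n : ℕ} {C : Cfg n} {δ : ℝ}

/-- the point of the circle of radius `r` at the angle `t` from the axis `k` -/
def apt (C : Cfg n) (k : ZMod n) (r t : ℝ) : ℂ := C.c + r * C.q k * Complex.exp (t * Complex.I)

theorem apt_zero (k : ZMod n) (r : ℝ) : apt C k r 0 = C.c + r * C.q k := by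
  unfold apt; simp

theorem apt_cont (k : ZMod n) (r : ℝ) : Continuous (apt C k r) := by
  unfold apt; fun_prop

theorem apt_norm (hC : C.OK δ) (k : ZMod n) {r : ℝ} (hr : 0 ≤ r) (t : ℝ) :
    ‖apt C k r t - C.c‖ = r := by
  unfold apt
  rw [add_sub_cancel_left, norm_mul, norm_mul, hC.qn, Complex.norm_exp_ofReal_mul_I,
    Complex.norm_real, Real.norm_of_nonneg hr]
  ring

theorem apt_ax (hC : C.OK δ) (k : ZMod n) {r : ℝ} (hr : 0 ≤ r) (t : ℝ) :
    ‖apt C k r t - (C.c + ((r * Real.cos t : ℝ) : ℂ) * C.q k)‖ = r * |Real.sin t| := by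
  have e : apt C k r t - (C.c + ((r * Real.cos t : ℝ) : ℂ) * C.q k) =
      ((r * Real.sin t : ℝ) : ℂ) * C.q k * Complex.I := by
    unfold apt
    rw [Complex.exp_mul_I, ← Complex.ofReal_cos, ← Complex.ofReal_sin]
    push_cast
    ring
  rw [e, norm_mul, norm_mul, hC.qn, Complex.norm_I, Complex.norm_real, Real.norm_eq_abs, abs_mul,
    abs_of_nonneg hr]
  ring

/-- the inner part of the tentacle -/
theorem apt_cone (hC : C.OK δ) (k : ZMod n) {r : ℝ} (hr : C.L / 2 < r) {t : ℝ}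
    (ht : |t| < Real.arcsin (δ / C.L)) :
    ‖apt C k r t - (C.c + ((r * Real.cos t : ℝ) : ℂ) * C.q k)‖ < δ / C.L * ‖apt C k r t - C.c‖ ∧
      0 ≤ r * Real.cos t := by
  have hL := hC.Lpos
  have hr0 : 0 < r := by linarith
  have hpi := Real.arcsin_le_pi_div_two (δ / C.L)
  have h1 : Real.sin |t| < δ / C.L := by
    rw [← Real.lt_arcsin_iff_sin_lt' ⟨by linarith [abs_nonneg t, Real.pi_pos], by linarith⟩]
    exact ht
  have h2 : |Real.sin t| = Real.sin |t| := by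
    rcases abs_cases t with ⟨h, h'⟩ | ⟨h, h'⟩
    · rw [h, abs_of_nonneg]
      exact Real.sin_nonneg_of_nonneg_of_le_pi h' (by linarith [Real.pi_pos, le_abs_self t])
    · rw [h, Real.sin_neg, abs_of_neg]
      have := Real.sin_pos_of_pos_of_lt_pi (x := -t) (by linarith)
        (by linarith [Real.pi_pos, neg_le_abs t])
      rw [Real.sin_neg] at this
      linarith
  constructor
  · rw [apt_ax hC k hr0.le, apt_norm hC k hr0.le, h2, mul_comm (δ / C.L)]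
    exact mul_lt_mul_of_pos_left h1 hr0
  · apply mul_nonneg hr0.le
    apply Real.cos_nonneg_of_mem_Icc
    rw [Set.mem_Icc]
    have := abs_lt.1 (ht.trans_le hpi)
    exact ⟨by linarith [this.1], by linarith [this.2]⟩

/-- **an arc across half of a tentacle** -/
theorem arc_margin (hC : C.OK δ) (k j0 : ZMod n) (σ : ℝ) (hσ : |σ| = 1) {r : ℝ} (hr : C.L / 2 < r)
    {e : ℝ} (he : 0 < e) (hsec : ∀ ψ : ℝ, Real.arcsin (δ / C.L) < ψ →
      ψ < Real.arcsin (δ / C.L) + e → apt C k r (σ * ψ) ∈ C.R j0) :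
    ∃ A : Set ℂ, IsPreconnected A ∧ C.c + r * C.q k ∈ A ∧ (A ∩ C.R j0).Nonempty ∧
      A ⊆ C.cone δ k ∪ C.R j0 ∧ (∀ y ∈ A, ‖y - C.c‖ = r) ∧
      ∃ K > 0, ∀ y ∈ A, ∀ y', dist y y' < K → ∀ j, y' ∈ C.R j → j = j0 := by
  have hL := hC.Lpos
  have hδ := hC.dpos
  have hr0 : 0 < r := by linarith
  set α := Real.arcsin (δ / C.L) with hα
  have hα0 : 0 < α := Real.arcsin_pos.2 (by positivity)
  set β := α + e / 2 with hβ
  have hcont : Continuous fun ψ : ℝ => apt C k r (σ * ψ) :=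
    (apt_cont k r).comp (by fun_prop)
  set A := (fun ψ : ℝ => apt C k r (σ * ψ)) '' Icc 0 β with hA
  have hcomp : IsCompact A := isCompact_Icc.image hcont
  have habs : ∀ ψ : ℝ, 0 ≤ ψ → |σ * ψ| = ψ := fun ψ h => by
    rw [abs_mul, hσ, one_mul, abs_of_nonneg h]
  -- closed cone
  have hcone : ∀ ψ : ℝ, 0 ≤ ψ → ψ ≤ α → apt C k r (σ * ψ) ∈ C.cone δ k := by
    intro ψ h0 h1
    refine ⟨by rw [apt_norm hC k hr0.le]; exact hr, r * Real.cos (σ * ψ), ?_, ?_⟩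
    · apply mul_nonneg hr0.le
      apply Real.cos_nonneg_of_mem_Icc
      have h2 := Real.arcsin_le_pi_div_two (δ / C.L)
      have h3 := abs_le.1 ((habs ψ h0).le.trans (h1.trans h2))
      rw [Set.mem_Icc]
      exact ⟨by linarith [h3.1], by linarith [h3.2]⟩
    · -- closure of the open condition
      have hlim : Tendsto (fun t : ℝ => apt C k r (σ * t)) (𝓝[<] ψ) (𝓝 (apt C k r (σ * ψ))) :=
        (hcont.tendsto ψ).mono_left nhdsWithin_le_nhds
      rw [apt_ax hC k hr0.le, apt_norm hC k hr0.le, mul_comm (δ / C.L)]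
      apply mul_le_mul_of_nonneg_left _ hr0.le
      have h5 : Real.sin ψ ≤ δ / C.L := by
        rcases le_or_gt 1 (δ / C.L) with h | h
        · exact (Real.sin_le_one ψ).trans h
        · rw [← Real.le_arcsin_iff_sin_le ⟨by linarith [Real.pi_pos],
            h1.trans (Real.arcsin_le_pi_div_two _)⟩ ⟨by linarith [div_pos hδ hL], h.le⟩]
          exact h1
      have h6 : 0 ≤ Real.sin ψ := Real.sin_nonneg_of_nonneg_of_le_pi h0
        (by linarith [Real.arcsin_le_pi_div_two (δ / C.L), Real.pi_pos])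
      rcases (abs_eq (by norm_num : (0 : ℝ) ≤ 1)).1 hσ with rfl | rfl
      · rw [one_mul, abs_of_nonneg h6]; exact h5
      · rw [neg_one_mul, Real.sin_neg, abs_neg, abs_of_nonneg h6]; exact h5
  -- the open set
  set U : Set ℂ := (closure (⋃ j ∈ {j : ZMod n | j ≠ j0}, C.R j))ᶜ with hU
  have hUo : IsOpen U := isClosed_closure.isOpen_compl
  have hAU : A ⊆ U := by
    rintro _ ⟨ψ, ⟨h0, h1⟩, rfl⟩
    simp only
    rw [hU, mem_compl_iff, Metric.mem_closure_iff]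
    push Not
    rcases lt_or_ge ψ α with h2 | h2
    · -- inside the open cone
      have h3 := apt_cone hC k hr (t := σ * ψ) (by rw [habs ψ h0]; exact h2)
      set x0 := C.c + ((r * Real.cos (σ * ψ) : ℝ) : ℂ) * C.q k with hx0
      have ho : IsOpen ({z : ℂ | ‖z - x0‖ < δ / C.L * ‖z - C.c‖} ∩
          {z : ℂ | C.L / 2 < ‖z - C.c‖}) :=
        (isOpen_lt (by fun_prop) (by fun_prop)).inter (isOpen_lt (by fun_prop) (by fun_prop))
      obtain ⟨ρ, hρ, hsub⟩ := Metric.isOpen_iff.1 ho (apt C k r (σ * ψ))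
        ⟨h3.1, by
          show C.L / 2 < ‖apt C k r (σ * ψ) - C.c‖
          rw [apt_norm hC k hr0.le]; exact hr⟩
      refine ⟨ρ, hρ, fun w hw => ?_⟩
      by_contra hcon
      push Not at hcon
      simp only [mem_iUnion] at hw
      obtain ⟨j, -, hj⟩ := hw
      obtain ⟨g1, g2⟩ := hsub (by rw [Metric.mem_ball, dist_comm]; exact hcon)
      exact (hC.tent w g2).2 ⟨k, r * Real.cos (σ * ψ), h3.2, g1.le⟩ j hj
    · -- close to the region `j0`
      refine ⟨δ / 2, by positivity, fun w hw => ?_⟩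
      by_contra hcon
      push Not at hcon
      simp only [mem_iUnion] at hw
      obtain ⟨j, hjj, hj⟩ := hw
      have hne : j ≠ j0 := hjj
      have hnb : ∀ᶠ t : ℝ in 𝓝[>] ψ, dist (apt C k r (σ * t)) (apt C k r (σ * ψ)) < δ / 2 :=
        ((Metric.tendsto_nhds.1 (hcont.tendsto ψ)) (δ / 2) (by positivity)).filter_mono
          nhdsWithin_le_nhds
      have hlt : ∀ᶠ t : ℝ in 𝓝[>] ψ, t < α + e :=
        nhdsWithin_le_nhds (eventually_lt_nhds (by linarith))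
      have hgt : ∀ᶠ t : ℝ in 𝓝[>] ψ, ψ < t := eventually_mem_nhdsWithin
      obtain ⟨t, g1, g2, g3⟩ := (hnb.and (hlt.and hgt)).exists
      have g4 := hsec t (by linarith) g2
      have g5 := hC.far j j0 hne w hj _ g4
      rw [← dist_eq_norm] at g5
      have g6 := dist_triangle w (apt C k r (σ * ψ)) (apt C k r (σ * t))
      rw [dist_comm w (apt C k r (σ * ψ)), dist_comm (apt C k r (σ * ψ)) (apt C k r (σ * t))] at g6
      linarith
  obtain ⟨K, hK, hsub⟩ := hcomp.exists_thickening_subset_open hUo hAU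
  refine ⟨A, (isPreconnected_Icc.image _ hcont.continuousOn), ⟨0, ⟨le_rfl, by positivity⟩, by
      simp only [mul_zero]; exact apt_zero k r⟩,
    ⟨apt C k r (σ * β), ⟨β, ⟨by positivity, le_rfl⟩, rfl⟩, hsec β (by linarith) (by linarith)⟩,
    ?_, ?_, K, hK, ?_⟩
  · rintro _ ⟨ψ, ⟨h0, h1⟩, rfl⟩
    rcases le_or_gt ψ α with h2 | h2
    · exact Or.inl (hcone ψ h0 h2)
    · exact Or.inr (hsec ψ h2 (by linarith))
  · rintro _ ⟨ψ, -, rfl⟩
    exact apt_norm hC k hr0.le _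
  · intro y hy y' hyy j hj
    by_contra hne
    have h1 : y' ∈ U := hsub (by
      rw [Metric.mem_thickening_iff]
      exact ⟨y, hy, by rw [dist_comm]; exact hyy⟩)
    apply h1
    apply subset_closure
    simp only [mem_iUnion]
    exact ⟨j, hne, hj⟩

end arc

/-! ### chains in the component -/

section chains

variable {S : Finset ℂ} {N : Net ℂ} {i : ZMod 3} {p : ℂ} {k0 : ℤ} {n : ℕ} {d C : ℝ}
  {Y : Set ℂ} {T1 : Set (ℂ × ℂ × ℂ)} {inn : Set ℂ} {ρ : ℝ}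

/-- an edge at a site of the component -/
theorem step_W (H : Hyp S N i p k0 n d C Y T1 inn) (hρ2 : ρ ≤ (2 : ℝ) ^ k0) {v v' : ℂ}
    (hv : v ∈ WW S p ρ Y T1 inn) (ha : Adj S v v') : ∃ c, (v, v', c) ∈ delT S ∧ (v, v', c) ∈ T1 := by
  have key : ∃ c, (v, v', c) ∈ delT S := by
    obtain ⟨c, hc | hc⟩ := ha
    · exact ⟨c, hc⟩
    · have h1 : (v, c, v') ∈ delT S := (g1 S H.net.gp).1 _ _ _ hc
      obtain ⟨c', hc'⟩ := (T5x802.wk_net H.e3 H.net (W := WW S p ρ Y T1 inn)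
        (fun v hv => WW_full H hρ2 hv)).next hv (a := c) (b := v') (by rw [H.net.tri]; exact h1)
      exact ⟨c', by rw [← H.net.tri]; exact hc'⟩
  obtain ⟨c, hc⟩ := key
  exact ⟨c, hc, WW_star H hρ2 hv hc⟩

/-- the component is closed under steps to inner sites -/
theorem in_W (H : Hyp S N i p k0 n d C Y T1 inn) (hρ2 : ρ ≤ (2 : ℝ) ^ k0) {v v' : ℂ}
    (hv : v ∈ WW S p ρ Y T1 inn) (ha : Adj S v v') (hi : v' ∈ inn)
    (hY : ‖v' - p‖ < ρ ∨ v' ∈ Y) :
    v' ∈ WW S p ρ Y T1 inn ∧ ∃ b, (v, v', b) ∈ delT S := by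
  obtain ⟨c, hc, hc1⟩ := step_W H hρ2 hv ha
  exact ⟨mem_WW.2 ⟨(mem_delT.1 hc).2.1, hi, hY, c, v, H.bd.rot _ _ _ hc1⟩, c, hc⟩

/-- a chain of cells which stays in the component -/
theorem chain_in (H : Hyp S N i p k0 n d C Y T1 inn) (hρ2 : ρ ≤ (2 : ℝ) ^ k0) {Z : Set ℂ}
    (hZ : ∀ u ∈ S, (voronoiCell (S : Set ℂ) u ∩ Z).Nonempty → u ∈ inn ∧ (‖u - p‖ < ρ ∨ u ∈ Y))
    {a e : ℂ} (ha : a ∈ WW S p ρ Y T1 inn)
    (h : Relation.ReflTransGen (fun u v => Adj S u v ∧ (vedge (S : Set ℂ) u v ∩ Z).Nonempty) a e) :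
    Relation.ReflTransGen (fun v v' => v' ∈ WW S p ρ Y T1 inn ∧ ∃ b, (v, v', b) ∈ delT S) a e ∧
      e ∈ WW S p ρ Y T1 inn := by
  induction h with
  | refl => exact ⟨.refl, ha⟩
  | @tail u v _ hs ih =>
    obtain ⟨hadj, x, hx, hxZ⟩ := hs
    obtain ⟨c, hc, -⟩ := step_W H hρ2 ih.2 hadj
    obtain ⟨h1, h2⟩ := hZ v (mem_delT.1 hc).2.1 ⟨x, vedge_sub_cell' hx, hxZ⟩
    have h3 := in_W H hρ2 ih.2 hadj h1 h2
    exact ⟨ih.1.tail h3, h3.1⟩

/-- a chain of cells which leaves the component -/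
theorem chain_exit (H : Hyp S N i p k0 n d C Y T1 inn) (hρ2 : ρ ≤ (2 : ℝ) ^ k0) {Z : Set ℂ}
    (hZ : ∀ u ∈ S, (voronoiCell (S : Set ℂ) u ∩ Z).Nonempty → u ∈ inn → (‖u - p‖ < ρ ∨ u ∈ Y))
    {a e : ℂ} (ha : a ∈ WW S p ρ Y T1 inn) (he : e ∉ inn)
    (h : Relation.ReflTransGen (fun u v => Adj S u v ∧ (vedge (S : Set ℂ) u v ∩ Z).Nonempty) a e) :
    ∃ v u, Relation.ReflTransGen
      (fun v v' => v' ∈ WW S p ρ Y T1 inn ∧ ∃ b, (v, v', b) ∈ delT S) a v ∧
      v ∈ WW S p ρ Y T1 inn ∧ Adj S v u ∧ u ∈ S ∧ u ∉ inn ∧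
      (voronoiCell (S : Set ℂ) u ∩ Z).Nonempty := by
  have key : (∃ v u, Relation.ReflTransGen
      (fun v v' => v' ∈ WW S p ρ Y T1 inn ∧ ∃ b, (v, v', b) ∈ delT S) a v ∧
      v ∈ WW S p ρ Y T1 inn ∧ Adj S v u ∧ u ∈ S ∧ u ∉ inn ∧
      (voronoiCell (S : Set ℂ) u ∩ Z).Nonempty) ∨
      (Relation.ReflTransGen
      (fun v v' => v' ∈ WW S p ρ Y T1 inn ∧ ∃ b, (v, v', b) ∈ delT S) a e ∧
      e ∈ WW S p ρ Y T1 inn) := by
    clear he
    induction h with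
    | refl => exact Or.inr ⟨.refl, ha⟩
    | @tail u v _ hs ih =>
      rcases ih with ih | ih
      · exact Or.inl ih
      obtain ⟨hadj, x, hx, hxZ⟩ := hs
      obtain ⟨c, hc, -⟩ := step_W H hρ2 ih.2 hadj
      have hvS := (mem_delT.1 hc).2.1
      by_cases hvi : v ∈ inn
      · have h3 := in_W H hρ2 ih.2 hadj hvi (hZ v hvS ⟨x, vedge_sub_cell' hx, hxZ⟩ hvi)
        exact Or.inr ⟨ih.1.tail h3, h3.1⟩
      · exact Or.inl ⟨u, v, ih.1, ih.2, hadj, hvS, hvi, x, vedge_sub_cell' hx, hxZ⟩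
  rcases key with h1 | h1
  · exact h1
  · exact absurd (mem_WW.1 h1.2).2.1 he

end chains

/-! ### values -/

theorem omz0 : omz 0 = 1 := by
  show om ^ (0 : ZMod 3).val = 1
  simp

theorem sd0 : sd 0 = om - 1 := by rw [sd_eq, omz0, mul_one]

/-- the coordinate along the side `0` -/
def xc (w : ℂ) : ℝ := ((w - 1) / (om - 1)).re

theorem hgt0 (w : ℂ) : hgt 0 w = ((w - 1) / (om - 1)).im := by
  unfold hgt
  rw [omz0, sd0]

/-- a value between two others is close to the point of the side -/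
theorem near_val {A B D : ℂ} {x t : ℝ} (hAB : ‖B - A‖ ≤ 4 * t) (hAD : ‖D - A‖ ≤ 4 * t)
    (h0 : 0 ≤ hgt 0 A) (h1 : hgt 0 A ≤ t) (hD : xc D ≤ x) (hB : x ≤ xc B) :
    ‖A - (1 + (x : ℂ) * (om - 1))‖ ≤ 6 * t := by
  have hne : om - 1 ≠ 0 := by rw [← sd0]; exact sd_ne 0
  have hn : ‖om - 1‖ = Real.sqrt 3 := by rw [← sd0]; exact norm_sd 0
  have hsq : Real.sqrt 3 * Real.sqrt 3 = 3 := Real.mul_self_sqrt (by norm_num)
  have hs0 : 0 < Real.sqrt 3 := by positivity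
  have hs2 : Real.sqrt 3 ≤ 2 := by
    rw [Real.sqrt_le_left (by norm_num)]; norm_num
  have key : ∀ E : ℂ, ‖E - A‖ ≤ 4 * t → Real.sqrt 3 * |xc E - xc A| ≤ 4 * t := by
    intro E hE
    have e : xc E - xc A = ((E - A) / (om - 1)).re := by
      unfold xc
      rw [← Complex.sub_re]
      congr 1
      ring
    have h2 := Complex.abs_re_le_norm ((E - A) / (om - 1))
    rw [norm_div, hn] at h2
    rw [e]
    have h3 := mul_le_mul_of_nonneg_left h2 hs0.le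
    rw [mul_div_cancel₀ _ hs0.ne'] at h3
    exact h3.trans hE
  have k1 := key B hAB
  have k2 := key D hAD
  have e : A - (1 + (x : ℂ) * (om - 1)) = (om - 1) * ((A - 1) / (om - 1) - (x : ℂ)) := by
    rw [mul_sub (om - 1), mul_div_cancel₀ _ hne]
    ring
  rw [e, norm_mul, hn]
  have h2 := Complex.norm_le_abs_re_add_abs_im ((A - 1) / (om - 1) - (x : ℂ))
  rw [Complex.sub_re, Complex.sub_im, Complex.ofReal_re, Complex.ofReal_im, sub_zero, ← hgt0,
    abs_of_nonneg h0] at h2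
  have h3 : Real.sqrt 3 * |((A - 1) / (om - 1)).re - x| ≤ 4 * t := by
    have e1 : ((A - 1) / (om - 1)).re = xc A := rfl
    rw [e1]
    rcases abs_cases (xc A - x) with ⟨h, -⟩ | ⟨h, -⟩
    · rw [h]
      have := neg_abs_le (xc D - xc A)
      nlinarith
    · rw [h]
      have := le_abs_self (xc B - xc A)
      nlinarith
  have h4 := mul_le_mul_of_nonneg_left h2 hs0.le
  nlinarith

/-! ### the boundary of the component -/

section bdry

variable {C : Cfg 4} {S : Finset ℂ} {δ d : ℝ} {p : ℂ} {R0 s K : ℝ} {G T : Set ℂ}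
  {k0 : ℤ} {m : ℕ} {d' C1 ρ : ℝ}

/-- cells are small -/
theorem near_site (H : Geo C S δ d 0 p R0 s K G T) {y u : ℂ} (hy : ‖y - C.c‖ ≤ 7 / 8 * C.L - d)
    (hu : y ∈ voronoiCell (S : Set ℂ) u) :
    ‖y - u‖ < d ∧ u ∈ WD C d ∧ ∀ w ∈ voronoiCell (S : Set ℂ) u, ‖w - u‖ < d := by
  have hd := H.dpos
  have hL := H.dL
  have hyW : y ∈ WD C d := by
    apply mem_closedBall_iff_norm.2
    linarith
  have h2 : ‖y - u‖ < d := cell_dist (H.hol y hyW y (by simp; exact hd.le)) hu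
  have h3 : u ∈ WD C d := by
    apply mem_closedBall_iff_norm.2
    have := norm_tri u y C.c
    rw [norm_sub_rev u y] at this
    linarith
  exact ⟨h2, h3, fun w hw => cell_sub_ball hd H.hol h3 hw⟩

/-- a connected set gives a chain of cells -/
theorem chain_conn (hS : GP (S : Set ℂ)) (h3 : 3 ≤ S.card) {Z : Set ℂ} {a b : ℂ}
    (hZ : IsPreconnected Z) (ha : a ∈ S) (hb : b ∈ S)
    (h1 : (Z ∩ voronoiCell (S : Set ℂ) a).Nonempty) (h2 : (Z ∩ voronoiCell (S : Set ℂ) b).Nonempty) :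
    Relation.ReflTransGen (fun u v => Adj S u v ∧ (vedge (S : Set ℂ) u v ∩ Z).Nonempty) a b :=
  Relation.ReflTransGen.mono (fun _ _ h => ⟨DomEx722.adj_iff.2 h.1, h.2⟩) _ _
    (chain_of_conn_fin hS h3 hZ ha hb h1 h2)

/-- **the component reaches the class `j0` in the tentacle** -/
theorem exit_arc (H : Geo C S δ d 0 p R0 s K G T)
    (HH : Hyp S (C.dom.netS S) 0 p k0 m d' C1 (Yt C S T) (TT C S G) (C.inn S : Set ℂ))
    (hρ2 : ρ ≤ (2 : ℝ) ^ k0) (h3 : 3 ≤ S.card) {A : Set ℂ} {j0 : ZMod 4} (hA : IsPreconnected A)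
    (hAn : ∀ y ∈ A, ‖y - C.c‖ = 3 / 4 * C.L) (hAs : A ⊆ T ∪ C.R j0)
    (hAR : (A ∩ C.R j0).Nonempty) {K' : ℝ} (hK' : 2 * d ≤ K')
    (hAm : ∀ y ∈ A, ∀ y', dist y y' < K' → ∀ j, y' ∈ C.R j → j = j0) {uq q : ℂ}
    (huq : uq ∈ WW S p ρ (Yt C S T) (TT C S G) (C.inn S : Set ℂ)) (hq : q ∈ A)
    (hqu : q ∈ voronoiCell (S : Set ℂ) uq) :
    ∃ v u, Relation.ReflTransGen (fun v v' => v' ∈ WW S p ρ (Yt C S T) (TT C S G)
      (C.inn S : Set ℂ) ∧ ∃ b, (v, v', b) ∈ delT S) uq v ∧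
      v ∈ WW S p ρ (Yt C S T) (TT C S G) (C.inn S : Set ℂ) ∧ Adj S v u ∧ u ∈ C.cls S j0 := by
  have hd := H.dpos
  have hL := H.dL
  obtain ⟨x, hxA, hxR⟩ := hAR
  have huS : uq ∈ S := (mem_WW.1 huq).1
  obtain ⟨e, heS, hxe⟩ := exists_cell (S := S) ⟨uq, huS⟩ x
  have hei : e ∉ (C.inn S : Set ℂ) := fun h =>
    (DomEx722.mem_inn.1 (Finset.mem_coe.1 h)).2 j0 (Or.inl ⟨heS, x, hxe, hxR⟩)
  have hch := chain_conn H.out.gp h3 hA huS heS ⟨q, hq, hqu⟩ ⟨x, hxA, hxe⟩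
  obtain ⟨v, u, g1, g2, g3, g4, g5, y, hyu, hyA⟩ := chain_exit HH hρ2 (Z := A)
    (by
      rintro u hu ⟨y, hyu, hyA⟩ hui
      rcases hAs hyA with h1 | h1
      · exact Or.inr ⟨hui, y, hyu, h1⟩
      · exact absurd (Or.inl ⟨hu, y, hyu, h1⟩)
          ((DomEx722.mem_inn.1 (Finset.mem_coe.1 hui)).2 j0)) huq hei hch
  refine ⟨v, u, g1, g2, g3, ?_⟩
  have hyn := hAn y hyA
  obtain ⟨q1, q2, q3⟩ := near_site H (y := y) (u := u) (by rw [hyn]; linarith) hyu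
  have g5' : u ∉ C.inn S := fun h => g5 (Finset.mem_coe.2 h)
  rw [DomEx722.mem_inn] at g5'
  push Not at g5'
  obtain ⟨j, hj⟩ := g5' g4
  rcases hj with ⟨-, w, hw, hwR⟩ | hj'
  · have h5 : dist y w < 2 * d := by
      rw [dist_eq_norm]
      have h6 := q3 w hw
      have h7 := norm_tri y u w
      rw [norm_sub_rev u w] at h7
      linarith
    have h6 := hAm y hyA w (by linarith) j hwR
    rw [← h6]
    exact Or.inl ⟨g4, w, hw, hwR⟩
  · exact absurd hj' (not_harc H q2 j)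

theorem adj_symm {a b : ℂ} (h : Adj S a b) : Adj S b a := by
  obtain ⟨c, h⟩ := h
  exact ⟨c, h.symm⟩

/-- chains in a class -/
theorem cls_chain (O : C.Out S) {j : ZMod 4} {v w : ℂ} (hv : v ∈ C.cls S j) (hw : w ∈ C.cls S j) :
    Relation.ReflTransGen (fun x y => Adj S x y ∧ y ∈ C.cls S j) v w := by
  refine Relation.ReflTransGen.mono (fun x y h => ?_) _ _ (O.con j v hv w hw)
  obtain ⟨-, h2, ⟨h3, -⟩ | ⟨h3, -⟩⟩ := h
  · exact ⟨h3, h2⟩
  · exact ⟨ClsCx697.adj_hull h3, h2⟩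

/-- **the probability is between the values at the two exits** -/
theorem between (hI : INTF) (hMo : MONO) (O : C.Out S) {W : Set ℂ} (hW : W ⊆ (C.inn S : Set ℂ))
    {v0 u0 v1 u1 c0 c1 : ℂ} (hv0 : v0 ∈ W) (hv1 : v1 ∈ W)
    (h01 : Relation.ReflTransGen (fun v v' => v' ∈ W ∧ ∃ b, (v, v', b) ∈ delT S) v0 v1)
    (h10 : Relation.ReflTransGen (fun v v' => v' ∈ W ∧ ∃ b, (v, v', b) ∈ delT S) v1 v0)
    (hu0 : u0 ∈ C.cls S 0) (hu1 : u1 ∈ C.cls S 1) (ht0 : (v0, u0, c0) ∈ delT S)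
    (ht1 : (v1, u1, c1) ∈ delT S) (he0 : ExM (C.dom.netS S) (v0, u0, c0))
    (he1 : ExM (C.dom.netS S) (v1, u1, c1)) :
    xc ((C.dom.netS S).F v0 u0) ≤ C.pr S 0 ∧ C.pr S 0 ≤ xc ((C.dom.netS S).F v1 u1) := by
  have hdis : ∀ x, x ∈ C.cls S 0 → x ∉ C.cls S 1 := fun x h0 h1 =>
    Set.disjoint_left.1 (O.disj 0 1 (by decide)) h0 h1
  have hinn : ∀ x ∈ W, ∀ j, x ∉ C.cls S j := fun x hx j =>
    (DomEx722.mem_inn.1 (Finset.mem_coe.1 (hW hx))).2 j
  have hr0 : (C.ray S 1).1 ∈ C.cls S 0 := by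
    have := O.end1 1
    rwa [show (1 : ZMod 4) - 1 = 0 by decide] at this
  have hr1 : (C.ray S 1).2 ∈ C.cls S 1 := O.end2 1
  have hhull : hullE S (C.ray S 1).1 (C.ray S 1).2 := (O.ray 1).1
  have had0 : Adj S v0 u0 := ⟨c0, Or.inl ht0⟩
  have had1 : Adj S v1 u1 := ⟨c1, Or.inl ht1⟩
  have hWmono : ∀ (B : Set ℂ), (∀ x ∈ W, x ∈ B) → ∀ {x y : ℂ},
      Relation.ReflTransGen (fun v v' => v' ∈ W ∧ ∃ b, (v, v', b) ∈ delT S) x y →
      Relation.ReflTransGen (fun x y => Adj S x y ∧ y ∈ B) x y := by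
    intro B hB x y h
    refine Relation.ReflTransGen.mono (fun x y h => ?_) _ _ h
    obtain ⟨h1, b, h2⟩ := h
    exact ⟨⟨b, Or.inl h2⟩, hB y h1⟩
  constructor
  · -- boundary of the class `0`
    have c2 : Relation.ReflTransGen (fun x y => Adj S x y ∧ y ∈ {x | x ∉ C.cls S 0})
        (C.ray S 1).2 v0 := by
      have e1 : Relation.ReflTransGen (fun x y => Adj S x y ∧ y ∈ {x | x ∉ C.cls S 0})
          (C.ray S 1).2 u1 :=
        Relation.ReflTransGen.mono (fun x y h => ⟨h.1, fun h0 => hdis y h0 h.2⟩) _ _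
          (cls_chain O hr1 hu1)
      refine (e1.tail ⟨adj_symm had1, ?_⟩).trans (hWmono _ (fun x hx => hinn x hx 0) h10)
      exact hinn v1 hv1 0
    have hst := hI S O.gp (C.cls S 0) (C.ray S 1).1 (C.ray S 1).2 u0 v0 hhull hr0
      (fun h => hdis _ h hr1) (adj_symm had0) hu0 (hinn v0 hv0 0) (cls_chain O hr0 hu0) c2
    have hm := (hMo C S O v0 u0 c0 (hW hv0) (Or.inl ⟨ht0, he0⟩)).1 hu0 hst
    rw [F_comm] at hm
    exact hm
  · have c1' : Relation.ReflTransGen (fun x y => Adj S x y ∧ y ∈ {x | x ∉ C.cls S 1})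
        (C.ray S 1).1 v1 := by
      have e1 : Relation.ReflTransGen (fun x y => Adj S x y ∧ y ∈ {x | x ∉ C.cls S 1})
          (C.ray S 1).1 u0 :=
        Relation.ReflTransGen.mono (fun x y h => ⟨h.1, hdis y h.2⟩) _ _ (cls_chain O hr0 hu0)
      refine (e1.tail ⟨adj_symm had0, ?_⟩).trans (hWmono _ (fun x hx => hinn x hx 1) h01)
      exact hinn v0 hv0 1
    have c2' : Relation.ReflTransGen (fun x y => Adj S x y ∧ y ∉ {x | x ∉ C.cls S 1})
        (C.ray S 1).2 u1 :=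
      Relation.ReflTransGen.mono (fun x y h => ⟨h.1, fun h0 => h0 h.2⟩) _ _
        (cls_chain O hr1 hu1)
    have hst := hI S O.gp {x | x ∉ C.cls S 1} (C.ray S 1).1 (C.ray S 1).2 v1 u1 hhull
      (hdis _ hr0) (fun h => h hr1) had1 (hinn v1 hv1 1) (fun h => h hu1) c1' c2'
    exact (hMo C S O v1 u1 c1 (hW hv1) (Or.inl ⟨ht1, he1⟩)).2 hu1 hst

end bdry

/-! ### the quenched value -/

theorem dom0 {C : Cfg 4} {y : ℂ} (h : y ∈ C.R 0 ∨ y ∈ C.R 1) : y ∈ C.dom.R 0 := by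
  unfold Cfg.dom
  simp only
  rw [if_neg (by decide), if_neg (by decide)]
  simp only [mem_iUnion]
  rcases h with h | h
  · exact ⟨0, ⟨by decide, by decide⟩, h⟩
  · exact ⟨1, ⟨by decide, by decide⟩, h⟩

/-- **the quenched value near `b`** -/
theorem quenchedV (hE : E3) (hI : INTF) (hMo : MONO) {C : Cfg 4} {δ : ℝ} (hC : C.OK δ)
    {b : ℂ} {R0 s κ : ℝ} {Q TB : Set ℂ} (hs : 0 < s) (hκ : 0 < κ)
    (hball : Metric.closedBall b R0 ⊆ Metric.closedBall C.c (C.L / 2))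
    (hdis : Disjoint (Q ∪ TB) C.out)
    (hQ : ∀ y ∈ Q, ∀ y', dist y y' < κ → dist y' b < R0 →
      y' ∈ Q ∨ y' ∈ TB ∨ y' ∈ C.R 0 ∨ y' ∈ C.R 1)
    (hTB : ∀ y ∈ TB, ∀ y', dist y y' < κ →
      y' ∈ TB ∨ y' ∈ C.R 0 ∨ y' ∈ C.R 1 ∨ (y' ∈ Q ∧ dist y' b < s))
    (hcone : C.cone δ 1 ⊆ TB) (hR : (C.R 0 ∩ Metric.ball b s).Nonempty)
    {z : ℂ} {P : Set ℂ} (hz : dist z b < s) (hP : IsPreconnected P) (hzP : z ∈ P)
    (hPs : P ⊆ (Q ∩ Metric.ball b s) ∪ TB) (hPb : P ⊆ Metric.closedBall C.c (3 / 4 * C.L))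
    (hPq : C.c + ((3 / 4 * C.L : ℝ) : ℂ) * C.q 1 ∈ P)
    (hPk : ∀ y ∈ P, Disjoint (Metric.ball y κ) C.out) (hL : Linked C.dom κ z)
    {k0 : ℤ} {N : ℕ} (hN : 0 < N) (hk1 : (2 : ℝ) ^ (k0 + 1) ≤ 1)
    (hk0 : (2 : ℝ) ^ k0 < R0) (hsk : s < (2 : ℝ) ^ (k0 - N)) :
    ∃ c2 > 0, ∀ (ε d M : ℝ) (ω : Sample), Env ε d M C.dom.c C.dom.L ω → 0 < d → d ≤ c2 →
      (∀ z ∈ Metric.closedBall (0 : ℂ) (‖C.dom.c‖ + C.dom.L + 1), ∀ ρ : ℝ,
        (2 : ℝ) ^ (k0 - N) ≤ ρ → ρ ≤ 1 →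
        diamSum (points ε ω) (Metric.ball z ρ) ≤ ENNReal.ofReal (CM * ρ ^ 2)) →
      (∀ a ∈ points ε ω, ∀ b ∈ points ε ω, a ≠ b → cr (b - a) (z - a) ≠ 0) →
      dist (C.dom.h ε ω z) (1 + (C.pr (C.dom.sites ε ω) 0 : ℂ) * (om - 1)) ≤
        6 * om2 (64 * CM) N := by
  have hn : 3 ≤ 4 := by norm_num
  have hLp := hC.Lpos
  have hδ := hC.dpos
  have hle : (2 : ℝ) ^ (k0 - N) ≤ (2 : ℝ) ^ k0 := zpow_le_zpow_right₀ (by norm_num) (by omega)
  obtain ⟨e, he, hkill⟩ := path_out hC hball hR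
  -- the two arcs
  obtain ⟨es, hes, hsec⟩ := hC.sect 1 (3 / 4 * C.L) (by linarith)
  obtain ⟨A1, hA1c, hA1q, hA1R, hA1s, hA1n, K1, hK1, hA1m⟩ := arc_margin hC 1 1 1 (by simp)
    (r := 3 / 4 * C.L) (by linarith) hes (fun ψ h1 h2 => by
      rw [one_mul]
      exact (hsec ψ h1 h2).1)
  obtain ⟨A0, hA0c, hA0q, hA0R, hA0s, hA0n, K0, hK0, hA0m⟩ := arc_margin hC 1 0 (-1) (by simp)
    (r := 3 / 4 * C.L) (by linarith) hes (fun ψ h1 h2 => by
      have := (hsec ψ h1 h2).2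
      rw [show (1 : ZMod 4) - 1 = 0 by decide] at this
      unfold apt
      rw [neg_one_mul, Complex.ofReal_neg, neg_mul]
      exact this)
  set c2 := min (min e (κ / 3)) (min (min (C.L / 16) (min (K0 / 2) (K1 / 2)))
    (min (min ((R0 - (2 : ℝ) ^ k0) / 4) (((2 : ℝ) ^ (k0 - N) - s) / 5))
      (δ ^ 6 / (40000 * C.L ^ 5)))) with hc2
  have p1 : 0 < (R0 - (2 : ℝ) ^ k0) / 4 := by linarith
  have p2 : 0 < ((2 : ℝ) ^ (k0 - N) - s) / 5 := by linarith
  have p3 : 0 < δ ^ 6 / (40000 * C.L ^ 5) := by positivity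
  refine ⟨c2, by
    rw [hc2]
    exact lt_min (lt_min he (by positivity)) (lt_min (lt_min (by positivity)
      (lt_min (by positivity) (by positivity))) (lt_min (lt_min p1 p2) p3)), ?_⟩
  intro ε d M ω h hd hdc hM hzl
  have d1 : d ≤ e := hdc.trans ((min_le_left _ _).trans (min_le_left _ _))
  have d2 : d ≤ κ / 3 := hdc.trans ((min_le_left _ _).trans (min_le_right _ _))
  have d3 : d ≤ C.L / 16 :=
    hdc.trans ((min_le_right _ _).trans ((min_le_left _ _).trans (min_le_left _ _)))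
  have d4 : d ≤ min (K0 / 2) (K1 / 2) :=
    hdc.trans ((min_le_right _ _).trans ((min_le_left _ _).trans (min_le_right _ _)))
  have d40 : d ≤ K0 / 2 := d4.trans (min_le_left _ _)
  have d41 : d ≤ K1 / 2 := d4.trans (min_le_right _ _)
  have d5 : d ≤ (R0 - (2 : ℝ) ^ k0) / 4 := hdc.trans ((min_le_right _ _).trans
    ((min_le_right _ _).trans ((min_le_left _ _).trans (min_le_left _ _))))
  have d6 : d ≤ ((2 : ℝ) ^ (k0 - N) - s) / 5 := hdc.trans ((min_le_right _ _).trans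
    ((min_le_right _ _).trans ((min_le_left _ _).trans (min_le_right _ _))))
  have d7 : d ≤ δ ^ 6 / (40000 * C.L ^ 5) := hdc.trans ((min_le_right _ _).trans
    ((min_le_right _ _).trans (min_le_right _ _)))
  have d8 : 40000 * C.L ^ 5 * d ≤ δ ^ 6 := by
    rw [le_div_iff₀ (by positivity)] at d7
    linarith
  have hS : DomAx722.Dns (C.dom.sites ε ω) C.c C.L d :=
    DomAx722.dns_of_env (D := C.dom) hLp (by show 8 * d ≤ C.L; linarith) h
  have hO : C.Out (C.dom.sites ε ω) := DomEx722.out_S hn hC hS d8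
  have H : Geo C (C.dom.sites ε ω) δ d 0 b R0 s κ (Q ∪ TB) TB :=
    { hn := hn
      ok := hC
      out := hO
      hol := Env.hol_sites h
      dpos := hd
      dL := by linarith
      dK := by linarith
      s0 := hs
      ball := hball
      g0 := hdis
      TG := subset_union_right
      g1 := fun y hy y' h1 h2 => by
        rcases hy with hy | hy
        · rcases hQ y hy y' h1 h2 with h3 | h3 | h3
          · exact Or.inl (Or.inl h3)
          · exact Or.inl (Or.inr h3)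
          · exact Or.inr (dom0 h3)
        · rcases hTB y hy y' h1 with h3 | h3 | h3 | h3
          · exact Or.inl (Or.inr h3)
          · exact Or.inr (dom0 (Or.inl h3))
          · exact Or.inr (dom0 (Or.inr h3))
          · exact Or.inl (Or.inl h3.1)
      g2 := fun y hy y' h1 => by
        rcases hTB y hy y' h1 with h3 | h3 | h3 | h3
        · exact Or.inl h3
        · exact Or.inr (Or.inl (dom0 (Or.inl h3)))
        · exact Or.inr (Or.inl (dom0 (Or.inr h3)))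
        · exact Or.inr (Or.inr ⟨Or.inl h3.1, h3.2⟩) }
  have hpR : ‖b‖ ≤ ‖C.dom.c‖ + C.dom.L + 1 := by
    have hR0 : 0 ≤ R0 := by
      have : (0 : ℝ) < (2 : ℝ) ^ k0 := by positivity
      linarith
    have h1 : b ∈ Metric.closedBall C.c (C.L / 2) := hball (Metric.mem_closedBall_self hR0)
    rw [mem_closedBall_iff_norm] at h1
    have h2 := norm_add_le (b - C.c) C.c
    rw [sub_add_cancel] at h2
    show ‖b‖ ≤ ‖C.c‖ + C.L + 1
    linarith
  have hAd : C.dom.Ad δ := ⟨4, C, hn, hC, rfl⟩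
  have hHyp := hyp_of hE H h (fun U hU => En12Ax395.energy_dom hE hAd h d8 hU) (k0 := k0) (m := N)
    hN (by linarith) (by linarith) CM_nonneg (by
      intro k hk
      rw [Finset.mem_Ico] at hk
      apply hM b (by rw [mem_closedBall_zero_iff]; exact hpR)
      · exact zpow_le_zpow_right₀ (by norm_num) (by omega)
      · exact (zpow_le_zpow_right₀ (by norm_num) (by omega)).trans hk1)
    (fun ρ h1 h2 => by
      obtain ⟨y, hy, hyo⟩ := hkill ρ (by linarith) (by linarith)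
      exact ⟨y, hy, (Metric.ball_subset_ball d1).trans hyo⟩)
  obtain ⟨ρ, hρ1, hρ2, hht, hosc⟩ := det hHyp
  set S := C.dom.sites ε ω with hSdef
  set W := WW S b ρ (Yt C S TB) (TT C S (Q ∪ TB)) (C.inn S : Set ℂ) with hW
  -- the triangle of `z`
  have hsites : ∀ s ∈ S, s ∈ points ε ω := fun s hs => ((mem_sites h.fin).1 hs).1
  have hzG : z ∈ Q ∪ TB := by
    rcases hPs hzP with h1 | h1
    · exact Or.inl h1.1
    · exact Or.inr h1
  have hzb : z ∈ WD C d := by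
    apply Metric.mem_closedBall.2
    have := near_W H (o := z) (by linarith)
    linarith
  have hex : ∃ t : ℂ × ℂ × ℂ, t ∈ (C.dom.netS S).T ∧ InTri z t.1 t.2.1 t.2.2 := by
    obtain ⟨a, b, c, ht, hy'⟩ := exists_tri_W hO.gp hd H.hol hzb
    obtain ⟨t, ht', hz'⟩ := EQ4x63.inTri_of ht hy'
      (fun a ha b hb => hzl a (hsites a ha) b (hsites b hb))
    exact ⟨t, by rw [hO.hnet.tri]; exact ht', hz'⟩
  obtain ⟨a, a', a'', ht, hzt, hval⟩ := hval_spec hex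
  rw [hO.hnet.tri] at ht
  have hzT := inT_of_inTri hzt
  have hrot := (g1 S hO.gp).1
  have key : ∀ a b' c : ℂ, (a, b', c) ∈ delT S → InT z a b' c → a ∈ W := by
    intro a b' c ht hzT
    obtain ⟨h1, h2, h3⟩ := tri_hyp H h d8 (by linarith) (by linarith) hzG hL ht hzT
    refine mem_WW.2 ⟨(DomEx722.mem_inn.1 h2).1, h2, Or.inl ?_, b', c, h1⟩
    have h4 := norm_tri a z b
    rw [dist_eq_norm] at hz
    linarith
  have ht2 := hrot _ _ _ ht
  have ht3 := hrot _ _ _ ht2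
  have ha := key _ _ _ ht hzT
  have ha' := key _ _ _ ht2 (InT.rot hzT)
  have ha'' := key _ _ _ ht3 (InT.rot (InT.rot hzT))
  obtain ⟨o, hT⟩ := mem_delT_iff.1 ht
  have hoz := (centre_near H (by linarith) hzT hT).1
  -- the chain to the tentacle
  have h3S : 3 ≤ S.card := card_sites hd (by show 2 * d ≤ C.L; linarith) h
  have hZc : IsPreconnected (segment ℝ o z ∪ P) :=
    IsPreconnected.union z (right_mem_segment ℝ o z) hzP (convex_segment o z).isPreconnected hP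
  have hZin : ∀ u ∈ S, (voronoiCell (S : Set ℂ) u ∩ (segment ℝ o z ∪ P)).Nonempty →
      u ∈ (C.inn S : Set ℂ) ∧ (‖u - b‖ < ρ ∨ u ∈ Yt C S TB) := by
    rintro u hu ⟨y, hyu, hy | hy⟩
    · -- near `z`
      have h1 : ‖y - z‖ < d := by
        have h2 := (convex_ball z d).segment_subset (x := o) (y := z)
          (by rw [mem_ball_iff_norm, norm_sub_rev]; exact hoz) (Metric.mem_ball_self hd) hy
        rwa [mem_ball_iff_norm] at h2
      have h2 := norm_tri y z b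
      rw [dist_eq_norm] at hz
      obtain ⟨g1, -, -⟩ := near_cell H (o := y) (u := u) (by rw [dist_eq_norm]; linarith) hyu
      have g2 : ‖u - z‖ < 2 * d := by
        have := norm_tri u y z
        rw [norm_sub_rev u y] at this
        linarith
      refine ⟨Finset.mem_coe.2 (inn_of_room H (m := κ) (by linarith) (hPb hzP) (hPk z hzP) hu g2),
        Or.inl ?_⟩
      have := norm_tri u z b
      linarith
    · have h1 := hPb hy
      rw [mem_closedBall_iff_norm] at h1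
      obtain ⟨g1, -, -⟩ := near_site H (y := y) (u := u) (by linarith) hyu
      have hui : u ∈ C.inn S := inn_of_room H (m := κ) (by linarith) (hPb hy) (hPk y hy) hu
        (by rw [norm_sub_rev]; linarith)
      refine ⟨Finset.mem_coe.2 hui, ?_⟩
      rcases hPs hy with h2 | h2
      · left
        have h3 := mem_ball_iff_norm.1 h2.2
        have h4 := norm_tri u y b
        rw [norm_sub_rev u y] at h4
        linarith
      · exact Or.inr ⟨hui, y, hyu, h2⟩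
  set q := C.c + ((3 / 4 * C.L : ℝ) : ℂ) * C.q 1 with hq
  obtain ⟨uq, huqS, hquq⟩ := exists_cell (S := S) ⟨a, hT.ma⟩ q
  have hch := chain_conn hO.gp h3S hZc hT.ma huqS ⟨o, Or.inl (left_mem_segment ℝ o z),
    (centre_mem hT).1⟩ ⟨q, Or.inr hPq, hquq⟩
  obtain ⟨hauq, huq⟩ := chain_in hHyp hρ2 hZin ha hch
  -- the exits
  obtain ⟨v1, u1, r1, hv1, had1, hu1⟩ := exit_arc H hHyp hρ2 h3S hA1c hA1n
    (hA1s.trans (union_subset_union_left _ hcone)) hA1R (by linarith) hA1m huq hA1q hquq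
  obtain ⟨v0, u0, r0, hv0, had0, hu0⟩ := exit_arc H hHyp hρ2 h3S hA0c hA0n
    (hA0s.trans (union_subset_union_left _ hcone)) hA0R (by linarith) hA0m huq hA0q hquq
  obtain ⟨c1, hc1, hc1T⟩ := step_W hHyp hρ2 hv1 had1
  obtain ⟨c0, hc0, hc0T⟩ := step_W hHyp hρ2 hv0 had0
  have s1 := dir_symm hHyp hρ2 huq r1
  have s0 := dir_symm hHyp hρ2 huq r0
  obtain ⟨b0, b1⟩ := between hI hMo hO (W := (W : Set ℂ))
    (fun x hx => (mem_WW.1 (Finset.mem_coe.1 hx)).2.1) hv0 hv1 (s0.2.trans r1) (s1.2.trans r0)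
    hu0 hu1 hc0 hc1 hc0T.2.1 hc1T.2.1
  -- the three values
  have hthree : ∀ w x y : ℂ, w ∈ W → (w, x, y) ∈ delT S →
      Relation.ReflTransGen (fun v v' => v' ∈ W ∧ ∃ b, (v, v', b) ∈ delT S) w a →
      ‖(C.dom.netS S).F w x - (1 + (C.pr S 0 : ℂ) * (om - 1))‖ ≤ 6 * om2 (64 * CM) N := by
    intro w x y hw hwx hwa
    have g1 := hht w hw x y hwx
    exact near_val (hosc w hw v1 ((hwa.trans hauq).trans r1) x y u1 c1 hwx hc1)
      (hosc w hw v0 ((hwa.trans hauq).trans r0) x y u0 c0 hwx hc0) g1.1 g1.2 b0 b1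
  have w1 := hthree a a' a'' ha ht .refl
  have q2 : Relation.ReflTransGen (fun v v' => v' ∈ W ∧ ∃ b, (v, v', b) ∈ delT S) a a' :=
    .single ⟨ha', a'', ht⟩
  have w2 := hthree a' a'' a ha' ht2 (dir_symm hHyp hρ2 ha q2).2
  have w3 := hthree a'' a a' ha'' ht3 (.single ⟨ha, a', ht3⟩)
  rw [dist_eq_norm]
  have e0 : C.dom.h ε ω z - (1 + (C.pr S 0 : ℂ) * (om - 1)) =
      (((C.dom.netS S).F a a' - (1 + (C.pr S 0 : ℂ) * (om - 1))) +
      ((C.dom.netS S).F a' a'' - (1 + (C.pr S 0 : ℂ) * (om - 1))) +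
      ((C.dom.netS S).F a'' a - (1 + (C.pr S 0 : ℂ) * (om - 1)))) / 3 := by
    unfold Dom.h
    rw [← hSdef, hval]
    ring
  rw [e0, norm_div]
  have n1 := norm_add_le (((C.dom.netS S).F a a' - (1 + (C.pr S 0 : ℂ) * (om - 1))) +
      ((C.dom.netS S).F a' a'' - (1 + (C.pr S 0 : ℂ) * (om - 1))))
      ((C.dom.netS S).F a'' a - (1 + (C.pr S 0 : ℂ) * (om - 1)))
  have n2 := norm_add_le ((C.dom.netS S).F a a' - (1 + (C.pr S 0 : ℂ) * (om - 1)))
      ((C.dom.netS S).F a' a'' - (1 + (C.pr S 0 : ℂ) * (om - 1)))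
  have n3 : ‖(3 : ℂ)‖ = 3 := by simp
  rw [n3, div_le_iff₀ (by norm_num)]
  linarith

/-- **leaf VAL of block D** -/
theorem val (hE : E3) (hI : INTF) (hMo : MONO) : Cfgx416.VAL := by
  intro η hη
  obtain ⟨N, hN, hom⟩ := exists_om2 (η := η / 6) (by linarith)
  refine ⟨(2 : ℝ) ^ (N + 2), one_lt_pow₀ (by norm_num) (by omega), ?_⟩
  intro C δ hC b R0 s κ Q TB hs hR1 hΛ hκ hball hdis hQ hTB hcone hR z P hz hP hzP hPs hPb hPq
    hPk hL
  have hΛ0 : (0 : ℝ) < (2 : ℝ) ^ (N + 2) := by positivity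
  have hR0 : 0 < R0 := lt_of_lt_of_le (mul_pos hΛ0 hs) hΛ
  obtain ⟨k0, hk0⟩ := exists_mem_Ico_zpow (x := R0 / 2) (y := (2 : ℝ)) (by linarith) (by norm_num)
  rw [mem_Ico] at hk0
  have hk1 : (2 : ℝ) ^ (k0 + 1) ≤ 1 := by
    rw [zpow_add₀ (by norm_num), zpow_one]
    linarith [hk0.1]
  have hk2 : (2 : ℝ) ^ k0 < R0 := by linarith [hk0.1]
  have hsk : s < (2 : ℝ) ^ (k0 - N) := by
    have h1 : (2 : ℝ) ^ (k0 + 1) = (2 : ℝ) ^ (k0 - N) * (2 : ℝ) ^ (N + 1) := by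
      rw [← zpow_natCast, ← zpow_add₀ (by norm_num)]
      congr 1
      push_cast
      ring
    have h2 : (2 : ℝ) ^ (N + 2) = 2 * (2 : ℝ) ^ (N + 1) := by ring
    have h3 : (0 : ℝ) < (2 : ℝ) ^ (N + 1) := by positivity
    have h4 : (2 : ℝ) ^ (N + 1) * s < (2 : ℝ) ^ (N + 1) * (2 : ℝ) ^ (k0 - N) := by
      rw [h2] at hΛ
      have h5 := hk0.2
      rw [h1] at h5
      linarith
    exact lt_of_mul_lt_mul_left h4 h3.le
  obtain ⟨c2, hc2, hq⟩ := quenchedV hE hI hMo hC hs hκ hball hdis hQ hTB hcone hR.1 hz hP hzP hPs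
    hPb hPq hPk hL hN hk1 hk2 hsk
  set R := ‖C.dom.c‖ + C.dom.L + 1 with hRdef
  obtain ⟨C0, hC0, hhole⟩ := PoisM3cx501.m3c R 1
  have hrad := rad_lim C0
  have hbpos : 0 < (2 : ℝ) ^ (k0 - N) := by positivity
  have e1 : ∀ᶠ ε : ℝ in 𝓝[>] 0, 0 < ε := eventually_mem_nhdsWithin
  have e2 : ∀ᶠ ε : ℝ in 𝓝[>] 0, ε < min (1 / 2) (η / 2) :=
    nhdsWithin_le_nhds (eventually_lt_nhds (by positivity))
  have e3 : ∀ᶠ ε : ℝ in 𝓝[>] 0, rad C0 ε < c2 := hrad.eventually_lt_const hc2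
  have e4 : ∀ᶠ ε : ℝ in 𝓝[>] 0, ε * Real.log (1 / ε) ^ (8 : ℕ) < (2 : ℝ) ^ (k0 - N) :=
    scale_lim.eventually_lt_const hbpos
  filter_upwards [e1, e2, e3, e4, hhole, m4u R 1] with ε h1 h2 h3 h4 h5 h6
  have hε1 : ε < 1 / 2 := h2.trans_le (min_le_left _ _)
  have hε2 : ε < η / 2 := h2.trans_le (min_le_right _ _)
  have hdpos : 0 < rad C0 ε := by
    unfold rad
    have : 0 < Real.log (1 / ε) := Real.log_pos (by
      rw [lt_div_iff₀ h1]; linarith)
    positivity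
  -- the bad event
  set B1 : Set Sample := {ω | ∃ z ∈ Metric.closedBall (0 : ℂ) R,
    points ε ω ∩ Metric.ball z (rad C0 ε) = ∅} with hB1
  set B2 : Set Sample := {ω | ¬ ∀ z ∈ Metric.closedBall (0 : ℂ) R, ∀ ρ : ℝ,
      ε * Real.log (1 / ε) ^ (8 : ℕ) ≤ ρ → ρ ≤ 1 →
      diamSum (points ε ω) (Metric.ball z ρ) ≤ ENNReal.ofReal (CM * ρ ^ 2)} with hB2
  obtain ⟨Z, hZ0, hZ⟩ : ∃ Z : Set Sample, sampleLaw Z = 0 ∧ ∀ ω ∉ Z,
      (GP (points ε ω) ∧ ∀ r : ℝ, (points ε ω ∩ Metric.closedBall 0 r).Finite) ∧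
      ∀ a ∈ points ε ω, ∀ b ∈ points ε ω, a ≠ b → cr (b - a) (z - a) ≠ 0 := by
    have hae : ∀ᵐ ω ∂sampleLaw,
        (GP (points ε ω) ∧ ∀ r : ℝ, (points ε ω ∩ Metric.closedBall 0 r).Finite) ∧
        ∀ a ∈ points ε ω, ∀ b ∈ points ε ω, a ≠ b → cr (b - a) (z - a) ≠ 0 := by
      filter_upwards [PoisM3x930.m3a ε h1, M3ex63.m3e ε h1 z] with ω g1 g2
      exact ⟨⟨g1.1, g1.2.2⟩, g2⟩
    refine ⟨_, mem_ae_iff.1 hae, fun ω hω => ?_⟩
    by_contra hcon
    exact hω hcon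
  refine ⟨B1 ∪ B2 ∪ Z, ?_, ?_⟩
  · refine (measure_union_le _ _).trans ?_
    rw [hZ0, add_zero]
    refine (measure_union_le _ _).trans ?_
    rw [Real.rpow_one] at h5 h6
    refine (add_le_add h5 h6).trans ?_
    rw [← ENNReal.ofReal_add h1.le h1.le]
    exact ENNReal.ofReal_le_ofReal (by linarith)
  · intro ω hω
    simp only [mem_union, not_or] at hω
    obtain ⟨⟨b1, b2⟩, hz'⟩ := hω
    obtain ⟨⟨g1, g2⟩, g3⟩ := hZ ω hz'
    have hholes : ∀ z ∈ Metric.closedBall (0 : ℂ) R,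
        (points ε ω ∩ Metric.ball z (rad C0 ε)).Nonempty := by
      intro z hz
      by_contra hcon
      rw [Set.not_nonempty_iff_eq_empty] at hcon
      exact b1 ⟨z, hz, hcon⟩
    obtain ⟨M, hEnv⟩ := env_of (D := C.dom) (R := R) (by linarith) hdpos g1 g2 hholes
    rw [hB2, Set.mem_ofPred_eq, not_not] at b2
    refine (hq ε (rad C0 ε) M ω hEnv hdpos h3.le (by
      intro y hy r hr hr1
      exact b2 y hy r (h4.le.trans hr) hr1) g3).trans ?_
    linarith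

end Crest.Agent.R143.VALx422
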