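import Crest.Agent.R143.D3A_802
import Crest.Agent.R143.D3V_802
import Crest.Agent.R143.ClsC_697
import Crest.Agent.R143.DomE_722
import Crest.Agent.R143.Crs6_117

/-!
# Row 143 (S0194), block D: leaf MONO (helper802)

The observable is monotone along the boundary walks of the classes `0` and `1`.
-/

set_option autoImplicit false

noncomputable section

open scoped Classical

namespace Crest.Agent.R143.D3Mx802

open Crest.Agent.R143.B0x346 Crest.Agent.R143.B0Dx346 Crest.Agent.R143.Cfgx416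
open Crest.Agent.R143.Ex0x922 Crest.Agent.R143.D3Vx802 Crest.Agent.R143.D3Ax802
open Crest.Agent.R143.Oscx63 Crest.Agent.R143.Sidesx697 Crest.Agent.R143.DelGx806
open Crest.Agent.R143.EQ2x63 Crest.Agent.R143.Wlkx802

/-- the coordinate along the side `0` -/
def uu (w : ℂ) : ℂ := (w - 1) / (om - 1)

theorem omz_zero : omz 0 = 1 := by
  show om ^ (0 : ZMod 3).val = 1
  simp

theorem sd_zero : sd 0 = om - 1 := by rw [sd_eq, omz_zero, mul_one]

theorem om1_ne : om - 1 ≠ 0 := by rw [← sd_zero]; exact sd_ne 0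

theorem uu_im (w : ℂ) : (uu w).im = hgt 0 w := by
  unfold uu hgt
  rw [sd_zero, omz_zero]

theorem om_re : om.re = -1 / 2 := by
  have := Oscx63.om_re
  linarith

theorem om2 : om ^ 2 = -1 - om := by
  have h1 := Oscx63.om_pow_three
  have h2 : (om - 1) * (om ^ 2 + om + 1) = 0 := by linear_combination h1
  rcases mul_eq_zero.1 h2 with h | h
  · exact absurd h om1_ne
  · linear_combination h

theorem om_im2 : om.im ^ 2 = 3 / 4 := by
  rw [om_im, div_pow, Real.sq_sqrt (by norm_num)]; norm_num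

theorem om_im_pos : 0 < om.im := by rw [om_im]; positivity

/-- (i) -/
theorem num1 {h q : ℂ} (e1 : (h + q).im = 0) (e3 : (h + om ^ 2 * q).im = 0)
    (e2 : 0 ≤ (h + om * q).im) : (h + om ^ 2 * q).re ≤ (h + q).re := by
  rw [om2] at e3 ⊢
  have s := om_im2
  have sp := om_im_pos
  have r := om_re
  simp only [Complex.add_im, Complex.add_re, Complex.mul_im, Complex.mul_re, Complex.sub_re,
    Complex.sub_im, Complex.neg_re, Complex.neg_im, Complex.one_re, Complex.one_im, r] at *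
  have hy : q.im = -(2 / 3) * om.im * q.re := by linarith
  have hx : 0 ≤ om.im * q.re := by
    have : (0 : ℝ) ≤ -1 / 2 * q.im + om.im * q.re - q.im := by linarith
    rw [hy] at this
    nlinarith
  have hx' : 0 ≤ q.re := by
    by_contra hc
    push Not at hc
    nlinarith
  have : om.im * q.im = -(1 / 2) * q.re := by
    rw [hy]
    calc om.im * (-(2 / 3) * om.im * q.re) = -(2 / 3) * om.im ^ 2 * q.re := by ring
      _ = -(1 / 2) * q.re := by rw [s]; ring
  nlinarith

/-- (ii) -/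
theorem num2 {h q : ℂ} (e1 : (h + q).im = 0) (e2 : (h + om * q).im = 0)
    (e3 : 0 ≤ (h + om ^ 2 * q).im) : (h + q).re ≤ (h + om * q).re := by
  rw [om2] at e3
  have s := om_im2
  have sp := om_im_pos
  have r := om_re
  simp only [Complex.add_im, Complex.add_re, Complex.mul_im, Complex.mul_re, Complex.sub_re,
    Complex.sub_im, Complex.neg_re, Complex.neg_im, Complex.one_re, Complex.one_im, r] at *
  have hy : q.im = (2 / 3) * om.im * q.re := by linarith
  have hx : om.im * q.re ≤ 0 := by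
    rw [hy] at e3 e1
    nlinarith
  have hx' : q.re ≤ 0 := by
    by_contra hc
    push Not at hc
    nlinarith
  have : om.im * q.im = (1 / 2) * q.re := by
    rw [hy]
    calc om.im * ((2 / 3) * om.im * q.re) = (2 / 3) * om.im ^ 2 * q.re := by ring
      _ = (1 / 2) * q.re := by rw [s]; ring
  nlinarith

/-- (iii) -/
theorem num3 {h q : ℂ} (e1 : (h + q).im = 0) (e2 : (h + om * q).im = 0)
    (e3 : (h + om ^ 2 * q).im = 0) : q = 0 := by
  rw [om2] at e3
  have sp := om_im_pos
  have r := om_re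
  simp only [Complex.add_im, Complex.add_re, Complex.mul_im, Complex.mul_re, Complex.sub_re,
    Complex.sub_im, Complex.neg_re, Complex.neg_im, Complex.one_re, Complex.one_im, r] at *
  have hy : q.im = (2 / 3) * om.im * q.re := by linarith
  have hx : om.im * q.re = 0 := by
    rw [hy] at e3 e1
    nlinarith
  have hx' : q.re = 0 := by
    rcases mul_eq_zero.1 hx with h | h
    · exact absurd h sp.ne'
    · exact h
  apply Complex.ext
  · exact hx'
  · rw [hy, hx']; simp

/-! ### the network -/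

variable {C : Cfg 4} {S : Finset ℂ}

/-- a triangle joined to the marks at the edge `e` -/
def PE (N : Net ℂ) (S : Finset ℂ) (e : ℂ × ℂ) : Prop :=
  ∃ c, ((e.1, e.2, c) ∈ delT S ∧ ExM N (e.1, e.2, c)) ∨
    ((e.2, e.1, c) ∈ delT S ∧ ExM N (e.2, e.1, c))

theorem exm_of_pe {N : Net ℂ} (hN : HNet S N) {x y c : ℂ} (ht : (x, y, c) ∈ delT S)
    (hk : (x, y) ∉ N.kl) (h : PE N S (x, y) ∨ PE N S (y, x)) : ExM N (x, y, c) := by
  have h' : ∃ c', ((x, y, c') ∈ delT S ∧ ExM N (x, y, c')) ∨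
      ((y, x, c') ∈ delT S ∧ ExM N (y, x, c')) := by
    rcases h with ⟨c', h⟩ | ⟨c', h⟩
    · exact ⟨c', h⟩
    · exact ⟨c', h.symm⟩
  obtain ⟨c', ⟨h1, h2⟩ | ⟨h1, h2⟩⟩ := h'
  · have : c' = c := (g1 S hN.gp).2.1 _ _ _ _ h1 ht
    rw [← this]; exact h2
  · exact h2.of_lk (Lk.of_adj ⟨y, x, c', c, by rw [hN.tri]; exact h1, by rw [hN.tri]; exact ht,
      Ex0x922.mem_rots_self _, Ex0x922.mem_rots_self _, fun hk' => hk (N.klsym _ _ hk')⟩)

/-- the values at the edges of the side `0`, marks included -/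
theorem on_line (O : C.Out S) {a b c : ℂ} (hex : ExM (C.dom.netS S) (a, b, c))
    (hk : (a, b) ∉ (C.dom.netS S).kl)
    (hs : Side (C.dom.netS S) 0 a ∨ Side (C.dom.netS S) 0 b) :
    (uu ((C.dom.netS S).F a b)).im = 0 := by
  rw [uu_im]
  set N := C.dom.netS S with hN
  by_cases hm : ∃ k, N.ex k = (a, b) ∨ N.ex k = (b, a)
  · have hF : N.F a b = omz hm.choose := by
      unfold Net.F
      rw [dif_pos hm]
    rw [hF]
    set k := hm.choose with hkdef
    have hk' : N.ex k = (a, b) ∨ N.ex k = (b, a) := hm.choose_spec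
    have s2 : Side N k (N.ex k).2 := Relation.ReflTransGen.refl
    have s1 : Side N (k - 1) (N.ex k).1 := by
      have := (marks3_of O.hnet).next (k - 1)
      rwa [sub_add_cancel] at this
    have huniq := fun v i j => ClsCx697.side_unique (le_refl 3 |>.trans (by norm_num)) O v i j
    have h3 : k = 0 ∨ k - 1 = 0 := by
      rcases hk' with h | h <;> rw [h] at s1 s2 <;> simp only at s1 s2
      · rcases hs with h0 | h0
        · exact Or.inr (huniq a _ _ s1 h0)
        · exact Or.inl (huniq b _ _ s2 h0)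
      · rcases hs with h0 | h0
        · exact Or.inl (huniq a _ _ s2 h0)
        · exact Or.inr (huniq b _ _ s1 h0)
    rcases h3 with h3 | h3
    · rw [h3]; unfold hgt; simp
    · have h4 : k = 0 + 1 := by rw [zero_add]; linear_combination h3
      rw [h4]
      unfold hgt
      have : (omz (0 + 1) - omz 0) / sd 0 = 1 := by
        rw [← sd, div_self (sd_ne 0)]
      rw [this]; simp
  · push Not at hm
    refine (hgt_side O.hnet hex hk ?_ ?_ hs).1
    · rintro ⟨k, h⟩
      exact (hm k).1 h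
    · rintro ⟨k, h⟩
      exact (hm k).2 h

theorem uu_nonneg (O : C.Out S) (a b : ℂ) : 0 ≤ (uu ((C.dom.netS S).F a b)).im := by
  rw [uu_im]; exact hgt_nonneg O.hnet 0 a b

theorem uu_j1 {h q w : ℂ} (hw : w = h + q) : uu w = (h - 1) / (om - 1) + q / (om - 1) := by
  unfold uu; rw [hw]; ring

/-- the three cases of a triangle with a vertex on the side `0` -/
theorem tri_cases (O : C.Out S) {a b c : ℂ} (ht : (a, b, c) ∈ delT S)
    (hex : ExM (C.dom.netS S) (a, b, c)) (hab : (a, b) ∉ (C.dom.netS S).kl) :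
    -- `a` on the side
    (Side (C.dom.netS S) 0 a → (c, a) ∉ (C.dom.netS S).kl →
      (uu ((C.dom.netS S).F c a)).re ≤ (uu ((C.dom.netS S).F a b)).re) ∧
    -- `b` on the side
    (Side (C.dom.netS S) 0 b → (b, c) ∉ (C.dom.netS S).kl →
      (uu ((C.dom.netS S).F a b)).re ≤ (uu ((C.dom.netS S).F b c)).re) ∧
    -- `a` and `c` on the side
    (Side (C.dom.netS S) 0 a → Side (C.dom.netS S) 0 c → (b, c) ∉ (C.dom.netS S).kl →
      (C.dom.netS S).F a b = (C.dom.netS S).F b c) ∧
    -- `b` and `c` on the side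
    (Side (C.dom.netS S) 0 b → Side (C.dom.netS S) 0 c → (c, a) ∉ (C.dom.netS S).kl →
      (C.dom.netS S).F a b = (C.dom.netS S).F c a) := by
  set N := C.dom.netS S with hN
  have hR := Exx395.relAt O.hnet hex
  have ht2 := (g1 S O.gp).1 _ _ _ ht
  have ht3 := (g1 S O.gp).1 _ _ _ ht2
  have hex2 : ExM N (b, c, a) := Exx395.exM_rot hex (by simp [rots])
  have hex3 : ExM N (c, a, b) := Exx395.exM_rot hex (by simp [rots])
  -- the three values, in coordinates
  have hJ : (b, c) ∉ N.kl → (c, a) ∉ N.kl → ∃ h q : ℂ, uu (N.F a b) = h + q ∧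
      uu (N.F b c) = h + om * q ∧ uu (N.F c a) = h + om ^ 2 * q ∧ (q = 0 → N.F a b = N.F b c ∧
        N.F a b = N.F c a) := by
    intro h2 h3
    obtain ⟨h, e1, e2, e3⟩ := hR.j1 hab h2 h3
    simp only at e1 e2 e3
    refine ⟨(h - 1) / (om - 1), N.Q (a, b, c) / (om - 1), ?_, ?_, ?_, ?_⟩
    · unfold uu; rw [e1]; ring
    · unfold uu; rw [e2]; ring
    · unfold uu; rw [e3]; ring
    · intro hq
      have : N.Q (a, b, c) = 0 := by
        rcases div_eq_zero_iff.1 hq with h' | h'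
        · exact h'
        · exact absurd h' om1_ne
      rw [e1, e2, e3, this]
      simp
  refine ⟨fun ha h3 => ?_, fun hb h2 => ?_, fun ha hc h2 => ?_, fun hb hc h3 => ?_⟩
  · by_cases h2 : (b, c) ∈ N.kl
    · rw [hR.j2 b c a (by simp [rots]) h2 h3 hab]
    · obtain ⟨h, q, f1, f2, f3, -⟩ := hJ h2 h3
      have l1 := on_line O hex hab (Or.inl ha)
      have l3 := on_line O hex3 h3 (Or.inr ha)
      have l2 := uu_nonneg O b c
      rw [← hN] at l1 l2 l3
      rw [f1] at l1 ⊢
      rw [f3] at l3 ⊢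
      rw [f2] at l2
      exact num1 l1 l3 l2
  · by_cases h3 : (c, a) ∈ N.kl
    · rw [hR.j2 c a b (by simp [rots]) h3 hab h2]
    · obtain ⟨h, q, f1, f2, f3, -⟩ := hJ h2 h3
      have l1 := on_line O hex hab (Or.inr hb)
      have l2 := on_line O hex2 h2 (Or.inl hb)
      have l3 := uu_nonneg O c a
      rw [← hN] at l1 l2 l3
      rw [f1] at l1 ⊢
      rw [f2] at l2 ⊢
      rw [f3] at l3
      exact num2 l1 l2 l3
  · by_cases h3 : (c, a) ∈ N.kl
    · exact hR.j2 c a b (by simp [rots]) h3 hab h2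
    · obtain ⟨h, q, f1, f2, f3, f4⟩ := hJ h2 h3
      have l1 := on_line O hex hab (Or.inl ha)
      have l2 := on_line O hex2 h2 (Or.inr hc)
      have l3 := on_line O hex3 h3 (Or.inr ha)
      rw [← hN] at l1 l2 l3
      rw [f1] at l1
      rw [f2] at l2
      rw [f3] at l3
      exact (f4 (num3 l1 l2 l3)).1
  · by_cases h2 : (b, c) ∈ N.kl
    · exact (hR.j2 b c a (by simp [rots]) h2 h3 hab).symm
    · obtain ⟨h, q, f1, f2, f3, f4⟩ := hJ h2 h3
      have l1 := on_line O hex hab (Or.inr hb)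
      have l2 := on_line O hex2 h2 (Or.inl hb)
      have l3 := on_line O hex3 h3 (Or.inl hc)
      rw [← hN] at l1 l2 l3
      rw [f1] at l1
      rw [f2] at l2
      rw [f3] at l3
      exact (f4 (num3 l1 l2 l3)).2

/-- walk along `A` : links and comparison; `sg = 1` : `A` = class `0`, `sg = -1` : complement of the
class `1` -/
theorem walk (O : C.Out S) {A : Set ℂ}
    (hlive : ∀ a b, Cfgx416.Adj S a b → a ∈ A → b ∉ A → (a, b) ∉ (C.dom.netS S).kl)
    (P : ℂ × ℂ → ℂ × ℂ → Prop) (hrefl : ∀ e, P e e)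
    (htrans : ∀ e e' e'', P e e' → P e' e'' → P e e'')
    (hstep : ∀ a b c, (a, b, c) ∈ delT S → ExM (C.dom.netS S) (a, b, c) → a ∈ A → b ∉ A →
      (a, b) ∉ (C.dom.netS S).kl →
      (c ∈ A → (c, b) ∉ (C.dom.netS S).kl → P (a, b) (c, b)) ∧
      (c ∉ A → (a, c) ∉ (C.dom.netS S).kl → P (a, b) (a, c)))
    {e f : ℂ × ℂ} (h : Relation.ReflTransGen (Stp S A) e f) (hf : PE (C.dom.netS S) S f) :
    e.1 ∈ A ∧ e.2 ∉ A → PE (C.dom.netS S) S e ∧ P e f := by
  set N := C.dom.netS S with hN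
  induction h using Relation.ReflTransGen.head_induction_on with
  | refl => exact fun _ => ⟨hf, hrefl _⟩
  | @head e e' hs _ ih =>
    rintro ⟨ha, hb⟩
    obtain ⟨a, b⟩ := e
    obtain ⟨c, ht, h⟩ := hs
    simp only at ha hb ht h
    have ht2 := (g1 S O.gp).1 _ _ _ ht
    have ht3 := (g1 S O.gp).1 _ _ _ ht2
    have hab : (a, b) ∉ N.kl := hlive a b ⟨c, Or.inl ht⟩ ha hb
    rcases h with ⟨hc, rfl⟩ | ⟨hc, rfl⟩
    · obtain ⟨h1, h2⟩ := ih ⟨hc, hb⟩
      have hcb : (c, b) ∉ N.kl := hlive c b ⟨a, Or.inr ht2⟩ hc hb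
      have hbc : (b, c) ∉ N.kl := fun h' => hcb (N.klsym _ _ h')
      have hex2 : ExM N (b, c, a) := exm_of_pe O.hnet ht2 hbc (Or.inr h1)
      have hex : ExM N (a, b, c) := Exx395.exM_rot hex2 (by simp [rots])
      exact ⟨⟨c, Or.inl ⟨ht, hex⟩⟩, htrans _ _ _ ((hstep a b c ht hex ha hb hab).1 hc hcb) h2⟩
    · obtain ⟨h1, h2⟩ := ih ⟨ha, hc⟩
      have hac : (a, c) ∉ N.kl := hlive a c ⟨b, Or.inr ht3⟩ ha hc
      have hca : (c, a) ∉ N.kl := fun h' => hac (N.klsym _ _ h')
      have hex3 : ExM N (c, a, b) := exm_of_pe O.hnet ht3 hca (Or.inr h1)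
      have hex : ExM N (a, b, c) := Exx395.exM_rot hex3 (by simp [rots])
      exact ⟨⟨c, Or.inl ⟨ht, hex⟩⟩, htrans _ _ _ ((hstep a b c ht hex ha hb hab).2 hc hac) h2⟩

theorem live_cls (O : C.Out S) {a b : ℂ} (j : ZMod 4) (hA : Cfgx416.Adj S a b)
    (h : ¬ (a ∈ C.cls S j ↔ b ∈ C.cls S j)) : (a, b) ∉ (C.dom.netS S).kl := by
  rw [ClsCx697.kl_iff O]
  intro hk
  obtain ⟨i, h1, h2⟩ := O.kill a b hA hk
  apply h
  by_cases hi : i = j
  · rw [← hi]; exact ⟨fun _ => h2, fun _ => h1⟩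
  · have hd := O.disj i j hi
    exact ⟨fun h' => absurd h' (Set.disjoint_left.1 hd h1),
      fun h' => absurd h' (Set.disjoint_left.1 hd h2)⟩

theorem uu_val (C : Cfg 4) (S : Finset ℂ) : (uu (1 + (C.pr S 0 : ℂ) * (om - 1))).re = C.pr S 0 := by
  unfold uu
  rw [add_sub_cancel_left, mul_div_assoc, div_self om1_ne, mul_one, Complex.ofReal_re]

theorem side01 (O : C.Out S) {v : ℂ} (h : v ∈ C.cls S 0 ∨ v ∈ C.cls S 1) :
    Side (C.dom.netS S) 0 v := by
  rcases h with h | h
  · exact ClsCx697.cls_side (by norm_num) O h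
  · exact ClsCx697.cls_side (by norm_num) O h

/-- **leaf MONO** -/
theorem mono : MONO := by
  intro C S O v u w hv hvu
  set N := C.dom.netS S with hN
  obtain ⟨-, hp2b⟩ := Crs6x117.p2b C S O
  have hhull : hullE S (C.ray S 1).1 (C.ray S 1).2 := (O.ray 1).1
  obtain ⟨x, hx⟩ := hhull.1
  obtain ⟨v1, v2⟩ := hp2b x hx
  have c1 : (C.ray S 1).1 ∈ C.cls S 0 := by simpa using O.end1 1
  have c2 : (C.ray S 1).2 ∈ C.cls S 1 := O.end2 1
  have hvi := (DomEx722.mem_inn.1 hv).2
  have hd01 : Disjoint (C.cls S 0) (C.cls S 1) := O.disj 0 1 (by decide)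
  have hpe : PE N S (v, u) ∧ PE N S (u, v) := by
    rcases hvu with h | h
    · exact ⟨⟨w, Or.inl h⟩, ⟨w, Or.inr h⟩⟩
    · exact ⟨⟨w, Or.inr h⟩, ⟨w, Or.inl h⟩⟩
  have huniq := (g1 S O.gp).2.1
  refine ⟨fun hu hpath => ?_, fun hu hpath => ?_⟩
  · -- class 0
    have hr2 : (C.ray S 1).2 ∉ C.cls S 0 := fun h => Set.disjoint_left.1 hd01 h c2
    rcases Relation.ReflTransGen.cases_head hpath with h | ⟨e1, hs, hrest⟩
    · exfalso
      rw [h] at c2
      exact hvi 1 c2
    have key := walk O (A := C.cls S 0)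
      (fun a b hA ha hb => live_cls O 0 hA (by tauto))
      (fun e f => (uu (N.F f.1 f.2)).re ≤ (uu (N.F e.1 e.2)).re) (fun e => le_refl _)
      (fun e e' e'' h1 h2 => h2.trans h1)
      (by
        intro a b c ht hex ha hb hab
        obtain ⟨t1, -, t3, -⟩ := tri_cases O ht hex hab
        refine ⟨fun hc hcb => ?_, fun hc hac => ?_⟩
        · show (uu (N.F c b)).re ≤ (uu (N.F a b)).re
          rw [F_comm N c b, t3 (side01 O (Or.inl ha)) (side01 O (Or.inl hc))
            (fun h => hcb (N.klsym _ _ h))]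
        · show (uu (N.F a c)).re ≤ (uu (N.F a b)).re
          rw [F_comm N a c]
          exact t1 (side01 O (Or.inl ha)) (fun h => hac (N.klsym _ _ h)))
      hrest hpe.2
    obtain ⟨c, hc, h⟩ := hs
    have hcx : c = x := huniq _ _ _ _ hc hx
    subst hcx
    show (uu (N.F u v)).re ≤ C.pr S 0
    rw [← uu_val C S]
    rcases h with ⟨hcA, rfl⟩ | ⟨hcA, rfl⟩
    · have := (key ⟨hcA, hr2⟩).2
      refine this.trans (le_of_eq ?_)
      show (uu (N.F c (C.ray S 1).2)).re = _
      rw [F_comm N c, v1]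
    · have := (key ⟨c1, hcA⟩).2
      refine this.trans (le_of_eq ?_)
      show (uu (N.F (C.ray S 1).1 c)).re = _
      rw [F_comm N (C.ray S 1).1 c, v2]
  · -- class 1
    have hr1 : (C.ray S 1).1 ∉ C.cls S 1 := fun h => Set.disjoint_left.1 hd01 c1 h
    rcases Relation.ReflTransGen.cases_head hpath with h | ⟨e1, hs, hrest⟩
    · exfalso
      rw [h] at c1
      exact hvi 0 c1
    have key := walk O (A := {x | x ∉ C.cls S 1})
      (fun a b hA ha hb => live_cls O 1 hA (by
        simp only [Set.mem_ofPred_eq, not_not] at ha hb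
        tauto))
      (fun e f => (uu (N.F e.1 e.2)).re ≤ (uu (N.F f.1 f.2)).re) (fun e => le_refl _)
      (fun e e' e'' h1 h2 => h1.trans h2)
      (by
        intro a b c ht hex ha hb hab
        simp only [Set.mem_ofPred_eq, not_not] at ha hb
        obtain ⟨-, t2, -, t4⟩ := tri_cases O ht hex hab
        refine ⟨fun hc hcb => ?_, fun hc hac => ?_⟩
        · show (uu (N.F a b)).re ≤ (uu (N.F c b)).re
          rw [F_comm N c b]
          exact t2 (side01 O (Or.inr hb)) (fun h => hcb (N.klsym _ _ h))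
        · simp only [Set.mem_ofPred_eq, not_not] at hc
          show (uu (N.F a b)).re ≤ (uu (N.F a c)).re
          rw [F_comm N a c, t4 (side01 O (Or.inr hb)) (side01 O (Or.inr hc))
            (fun h => hac (N.klsym _ _ h))])
      hrest hpe.1
    obtain ⟨c, hc, h⟩ := hs
    have hcx : c = x := huniq _ _ _ _ hc hx
    subst hcx
    show C.pr S 0 ≤ (uu (N.F v u)).re
    rw [← uu_val C S]
    rcases h with ⟨hcA, rfl⟩ | ⟨hcA, rfl⟩
    · have := (key ⟨hcA, fun h => h c2⟩).2
      refine le_trans (le_of_eq ?_) this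
      show _ = (uu (N.F c (C.ray S 1).2)).re
      rw [F_comm N c, v1]
    · have := (key ⟨hr1, hcA⟩).2
      refine le_trans (le_of_eq ?_) this
      show _ = (uu (N.F (C.ray S 1).1 c)).re
      rw [F_comm N (C.ray S 1).1 c, v2]

end Crest.Agent.R143.D3Mx802
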