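import Crest.Agent.R143.D3K_802
import Crest.Agent.R143.D3L_802
import Crest.Agent.R143.D3I_802
import Crest.Agent.R143.D3M_802
import Crest.Agent.R143.RBm_838

/-!
# Row 143 (S0194), block D3 without (E3), part 8: from `RBm` (helper802)

* `cbm` : RBm → CBm
* `lalb` : **RBm → LALB Dom.Ad**
* `val` : **RBm → `Cfgx416.VAL`**
-/

set_option autoImplicit false

noncomputable section

namespace Crest.Agent.R143.D3Nx802

open Crest.Agent.R143.D3Jx802 Crest.Agent.R143.B0Dx346

theorem cbm (h : RBmx838.RBm) : CBm := by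
  intro C4 hC4
  obtain ⟨p, c1, c2, K, h1, h2, h3, h4, h5, hm⟩ := RBmx838.cbm h C4 hC4
  exact ⟨p, c1, c2, K, h1, h2, h3, h4, h5, fun S z0 r d hr hD hM hd V hV =>
    hm S z0 r d hr hD hM hd V hV⟩

theorem lalb (h : RBmx838.RBm) : Spinex422.LALB Dom.Ad := D3Kx802.lalb_of_bde (bdem (cbm h))

theorem val (h : RBmx838.RBm) : Cfgx416.VAL :=
  D3Lx802.val_of_bde (bdem (cbm h)) D3Ix802.intf D3Mx802.mono

end Crest.Agent.R143.D3Nx802
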