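import Crest.Agent.R143.D3C_802

/-!
# Row 143 (S0194), block D3: the cross-section of a tentacle (helper802)

* `cross_gen` : half of the cross-section of the cone `k` at the radius `3 L / 4` : it joins the axis
  to the region `k` (left) or `k - 1` (right) and stays away from all other regions
* `cross_pair` : a set `M` of inner sites which contains all its inner neighbours of the tentacle and
  a site at the axis has a neighbour in the class of the region
-/

set_option autoImplicit false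

noncomputable section

open scoped Classical

namespace Crest.Agent.R143.D3Xx802

open Set MeasureTheory
open Crest.ProbabilityR.Voronoi
open Crest.Agent.R143.B0x346 Crest.Agent.R143.B0Dx346
open Crest.Agent.R143.DelGx806 Crest.Agent.R143.Circx63
open Crest.Agent.R143.Locx922 Crest.Agent.R143.Cfgx416
open Crest.Agent.R143.Ex0x922 Crest.Agent.R143.D3Ax802
open Crest.Agent.R143.Sidesx697 Crest.Agent.R143.G6Wx723
open Crest.Agent.R143.D3Bx802 Crest.Agent.R143.D3Cx802

variable {n : ℕ} {C : Cfg n} {S : Finset ℂ} {δ d : ℝ} {i : ZMod 3} {p : ℂ} {R0 s K : ℝ}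
  {G T : Set ℂ}

/-- point of the circle of radius `3 L / 4` -/
def yy (C : Cfg n) (k : ZMod n) (sg ψ : ℝ) : ℂ :=
  C.c + ((3 / 4 * C.L : ℝ) : ℂ) * C.q k * Complex.exp ((sg * ψ : ℝ) * Complex.I)

theorem yy_cont (C : Cfg n) (k : ZMod n) (sg : ℝ) : Continuous (yy C k sg) := by
  unfold yy; fun_prop

theorem yy_norm (hC : C.OK δ) (k : ZMod n) (sg ψ : ℝ) : ‖yy C k sg ψ - C.c‖ = 3 / 4 * C.L := by
  have hL := hC.Lpos
  unfold yy
  rw [add_sub_cancel_left, norm_mul, norm_mul, hC.qn, Complex.norm_exp_ofReal_mul_I,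
    Complex.norm_real, Real.norm_of_nonneg (by positivity)]
  ring

/-- distance to the axis -/
theorem yy_axis (hC : C.OK δ) (k : ZMod n) {sg : ℝ} (hsg : sg = 1 ∨ sg = -1) (ψ : ℝ) :
    ‖yy C k sg ψ - (C.c + ((3 / 4 * C.L * Real.cos ψ : ℝ) : ℂ) * C.q k)‖ =
      3 / 4 * C.L * |Real.sin ψ| := by
  have hL := hC.Lpos
  have hc : Real.cos (sg * ψ) = Real.cos ψ := by
    rcases hsg with rfl | rfl
    · rw [one_mul]
    · rw [neg_one_mul, Real.cos_neg]
  have hs : |Real.sin (sg * ψ)| = |Real.sin ψ| := by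
    rcases hsg with rfl | rfl
    · rw [one_mul]
    · rw [neg_one_mul, Real.sin_neg, abs_neg]
  have e : yy C k sg ψ - (C.c + ((3 / 4 * C.L * Real.cos ψ : ℝ) : ℂ) * C.q k) =
      ((3 / 4 * C.L : ℝ) : ℂ) * C.q k * (((Real.sin (sg * ψ) : ℝ) : ℂ) * Complex.I) := by
    unfold yy
    rw [Complex.exp_mul_I, ← Complex.ofReal_cos, ← Complex.ofReal_sin, hc]
    push_cast
    ring
  rw [e, norm_mul, norm_mul, hC.qn, norm_mul, Complex.norm_I, Complex.norm_real,
    Complex.norm_real, Real.norm_of_nonneg (by positivity), Real.norm_eq_abs, hs]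
  ring

theorem cross_gen (hC : C.OK δ) (k j0 : ZMod n) (sg : ℝ)
    (hsg : sg = 1 ∧ j0 = k ∨ sg = -1 ∧ j0 = k - 1) :
    ∃ κ > 0, ∃ A : Set ℂ, IsPreconnected A ∧ C.c + ((3 / 4 * C.L : ℝ) : ℂ) * C.q k ∈ A ∧
      (A ∩ C.R j0).Nonempty ∧ A ⊆ Metric.closedBall C.c (3 / 4 * C.L) ∧
      (∀ y ∈ A, ∀ w, dist y w < κ → ∀ j, w ∈ C.R j → j = j0) ∧
      ∀ y ∈ A, y ∈ C.cone δ k ∨ y ∈ C.R j0 := by
  have hL := hC.Lpos
  have hδ := hC.dpos
  have hδL := DomEx722.cfg_lt hC
  have hsg' : sg = 1 ∨ sg = -1 := hsg.imp And.left And.left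
  have hη0 : 0 < δ / C.L := div_pos hδ hL
  have hη1 : δ / C.L < 1 := (div_lt_one hL).2 hδL
  set α := Real.arcsin (δ / C.L) with hα
  have hsα : Real.sin α = δ / C.L := Real.sin_arcsin (by linarith) hη1.le
  have hα0 : 0 < α := Real.arcsin_pos.2 hη0
  have hα1 : α < Real.pi / 2 := Real.arcsin_lt_pi_div_two.2 hη1
  obtain ⟨e, he, hsec⟩ := hC.sect k (3 / 4 * C.L) (by linarith)
  have hR : ∀ ψ, α < ψ → ψ < α + e → yy C k sg ψ ∈ C.R j0 := by
    intro ψ h1 h2
    obtain ⟨r1, r2⟩ := hsec ψ h1 h2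
    unfold yy
    rcases hsg with ⟨rfl, rfl⟩ | ⟨rfl, rfl⟩
    · rw [one_mul]; exact r1
    · have e1 : (((-1 * ψ : ℝ) : ℂ) * Complex.I) = -(ψ * Complex.I) := by push_cast; ring
      rw [e1]; exact r2
  set A := yy C k sg '' Icc 0 (α + e / 2) with hA
  have hAc : IsCompact A := isCompact_Icc.image (yy_cont C k sg)
  have hsin : ∀ ψ, 0 ≤ ψ → ψ ≤ α → 0 ≤ Real.sin ψ := fun ψ h0 h1 =>
    Real.sin_nonneg_of_nonneg_of_le_pi h0 (by linarith [Real.pi_pos])
  -- the closure of the other regions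
  set F : Set ℂ := closure (⋃ j ∈ {j : ZMod n | j ≠ j0}, C.R j) with hF
  have hcl1 : ∀ y ∈ closure (C.R j0), y ∉ F := by
    intro y hy hyF
    obtain ⟨w, hw, hwy⟩ := Metric.mem_closure_iff.1 hy (δ / 2) (by linarith)
    obtain ⟨w', hw', hwy'⟩ := Metric.mem_closure_iff.1 hyF (δ / 2) (by linarith)
    simp only [mem_iUnion] at hw'
    obtain ⟨j, hj, hw'⟩ := hw'
    have h1 := hC.far j j0 hj w' hw' w hw
    rw [← dist_eq_norm] at h1
    have h2 := dist_triangle w' y w
    rw [dist_comm w' y] at h2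
    linarith
  have hdisj : ∀ y ∈ A, y ∉ F := by
    rintro _ ⟨ψ, ⟨h0, h1⟩, rfl⟩
    rcases lt_or_ge ψ α with h2 | h2
    · -- inside the cone
      intro hyF
      set U : Set ℂ := {z | C.L / 2 < ‖z - C.c‖ ∧
        ‖z - (C.c + ((3 / 4 * C.L * Real.cos ψ : ℝ) : ℂ) * C.q k)‖ < δ / C.L * ‖z - C.c‖} with hU
      have hUo : IsOpen U := by
        have c1 : Continuous fun z : ℂ => ‖z - C.c‖ := by fun_prop
        have c2 : Continuous fun z : ℂ =>
            ‖z - (C.c + ((3 / 4 * C.L * Real.cos ψ : ℝ) : ℂ) * C.q k)‖ := by fun_prop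
        exact (isOpen_lt continuous_const c1).inter (isOpen_lt c2 (continuous_const.mul c1))
      have hyU : yy C k sg ψ ∈ U := by
        refine ⟨by rw [yy_norm hC]; linarith, ?_⟩
        rw [yy_axis hC k hsg', yy_norm hC, abs_of_nonneg (hsin ψ h0 h2.le)]
        have h3 : Real.sin ψ < δ / C.L := by
          rw [← hsα]
          exact Real.sin_lt_sin_of_lt_of_le_pi_div_two (by linarith [Real.pi_pos]) hα1.le h2
        rw [mul_comm (δ / C.L)]
        exact mul_lt_mul_of_pos_left h3 (by positivity)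
      obtain ⟨w, hwU, hw⟩ := mem_closure_iff.1 hyF U hUo hyU
      simp only [mem_iUnion] at hw
      obtain ⟨j, -, hw⟩ := hw
      have hcos : 0 ≤ Real.cos ψ := Real.cos_nonneg_of_mem_Icc ⟨by linarith [Real.pi_pos], by linarith⟩
      exact (hC.tent w hwU.1).2 ⟨k, 3 / 4 * C.L * Real.cos ψ, by positivity, hwU.2.le⟩ j hw
    · apply hcl1
      rcases h2.eq_or_lt with h3 | h3
      · rw [Metric.mem_closure_iff]
        intro r hr
        have hcont := (yy_cont C k sg).continuousAt (x := ψ)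
        rw [Metric.continuousAt_iff] at hcont
        obtain ⟨r', hr', hb⟩ := hcont r hr
        set ψ' := ψ + min (r' / 2) (e / 2) with hψ'
        have hm : 0 < min (r' / 2) (e / 2) := lt_min (by linarith) (by linarith)
        have hm1 := min_le_left (r' / 2) (e / 2)
        have hm2 := min_le_right (r' / 2) (e / 2)
        refine ⟨yy C k sg ψ', hR ψ' (by linarith) (by linarith), ?_⟩
        rw [dist_comm]
        apply hb
        rw [Real.dist_eq, hψ', add_sub_cancel_left, abs_of_pos hm]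
        linarith
      · exact subset_closure (hR ψ h3 (by linarith))
  obtain ⟨κ, hκ, hthick⟩ := hAc.exists_thickening_subset_open (isClosed_closure (s := ⋃ j ∈ {j : ZMod n | j ≠ j0}, C.R j)).isOpen_compl
    (fun y hy => hdisj y hy)
  refine ⟨κ, hκ, A, isPreconnected_Icc.image _ (yy_cont C k sg).continuousOn, ?_, ?_, ?_, ?_, ?_⟩
  · refine ⟨0, ⟨le_rfl, by linarith⟩, ?_⟩
    unfold yy
    simp
  · exact ⟨yy C k sg (α + e / 2), ⟨_, ⟨by linarith, le_rfl⟩, rfl⟩,
      hR _ (by linarith) (by linarith)⟩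
  · rintro _ ⟨ψ, -, rfl⟩
    rw [mem_closedBall_iff_norm, yy_norm hC]
  · intro y hy w hw j hj
    by_contra hne
    have h1 : w ∈ Metric.thickening κ A := by
      rw [Metric.mem_thickening_iff]
      exact ⟨y, hy, by rw [dist_comm]; exact hw⟩
    exact hthick h1 (subset_closure (mem_biUnion (x := j) hne hj))
  · rintro _ ⟨ψ, ⟨h0, h1⟩, rfl⟩
    rcases le_or_gt ψ α with h2 | h2
    · left
      have hcos : 0 ≤ Real.cos ψ := Real.cos_nonneg_of_mem_Icc ⟨by linarith [Real.pi_pos], by linarith⟩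
      refine ⟨by rw [yy_norm hC]; linarith, 3 / 4 * C.L * Real.cos ψ, by positivity, ?_⟩
      rw [yy_axis hC k hsg', yy_norm hC, abs_of_nonneg (hsin ψ h0 h2), mul_comm (δ / C.L)]
      apply mul_le_mul_of_nonneg_left _ (by positivity)
      rw [← hsα]
      exact Real.sin_le_sin_of_le_of_le_pi_div_two (by linarith [Real.pi_pos]) hα1.le h2
    · exact Or.inr (hR ψ h2 (by linarith))

/-- **the end of the component at the wall `j0` of the tentacle** -/
theorem cross_pair (H : Geo C S δ d i p R0 s K G T) {k j0 : ZMod n} (hcone : C.cone δ k ⊆ T)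
    {κ : ℝ} (hκ : 2 * d ≤ κ) {A : Set ℂ} (hA : IsPreconnected A)
    (hq : C.c + ((3 / 4 * C.L : ℝ) : ℂ) * C.q k ∈ A) (hAR : (A ∩ C.R j0).Nonempty)
    (hAb : A ⊆ Metric.closedBall C.c (3 / 4 * C.L))
    (hsep : ∀ y ∈ A, ∀ w, dist y w < κ → ∀ j, w ∈ C.R j → j = j0)
    (hAc : ∀ y ∈ A, y ∈ C.cone δ k ∨ y ∈ C.R j0)
    {M : Set ℂ} (hM : ∀ v ∈ M, v ∈ C.inn S)
    (hcl : ∀ v ∈ M, ∀ v', JColx54.Adj S v v' → v' ∈ Yt C S T → v' ∈ M)
    {v0 : ℂ} (hv0 : v0 ∈ M) (hv0q : C.c + ((3 / 4 * C.L : ℝ) : ℂ) * C.q k ∈ cell S v0) :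
    ∃ v ∈ M, ∃ u ∈ C.cls S j0, JColx54.Adj S v u := by
  have hd := H.dpos
  have hv0S : v0 ∈ S := (DomEx722.mem_inn.1 (hM v0 hv0)).1
  obtain ⟨x, hxA, hxR⟩ := hAR
  obtain ⟨u0, hu0, hxu⟩ := exists_cell (S := S) ⟨v0, hv0S⟩ x
  have hu0j : u0 ∈ C.cls S j0 := Or.inl ⟨hu0, x, hxu, hxR⟩
  have h3 : 3 ≤ S.card := three_le hd H.hol (w := C.c) (by
    rw [Metric.mem_closedBall, dist_self]; linarith [H.dL])
  have hch := chain_of_conn_fin H.out.gp h3 hA hv0S hu0 ⟨_, hq, hv0q⟩ ⟨x, hxA, hxu⟩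
  by_contra hcon
  push Not at hcon
  have hall : u0 ∈ M := by
    clear hxu hu0j hu0
    induction hch with
    | refl => exact hv0
    | @tail v u _ hs ih =>
      obtain ⟨hadj, y, hy1, hyA⟩ := hs
      have huS : u ∈ S := hadj.mem.2
      have hyu : y ∈ cell S u := vedge_sub_cell' hy1
      by_cases hui : u ∈ C.inn S
      · apply hcl v ih u hadj
        refine ⟨hui, y, hyu, ?_⟩
        rcases hAc y hyA with h1 | h1
        · exact hcone h1
        · exact absurd (Or.inl ⟨huS, y, hyu, h1⟩) ((DomEx722.mem_inn.1 hui).2 j0)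
      · exfalso
        rw [DomEx722.mem_inn] at hui
        push Not at hui
        obtain ⟨j, hj⟩ := hui huS
        apply hcon v ih u _ hadj
        have hyb := Metric.mem_closedBall.1 (hAb hyA)
        have hyW : y ∈ WD C d := Metric.mem_closedBall.2 (by linarith [H.dL])
        have h5 : ‖y - u‖ < d := cell_dist (H.hol y hyW y (by simp; exact hd.le)) hyu
        have huW : u ∈ WD C d := by
          apply Metric.mem_closedBall.2
          have := dist_triangle u y C.c
          rw [dist_eq_norm u y, norm_sub_rev] at this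
          linarith [H.dL]
        rcases hj with ⟨-, w, hw, hwR⟩ | hj
        · have h6 := cell_sub_ball hd H.hol huW hw
          have h7 := norm_tri y u w
          rw [norm_sub_rev u w] at h7
          have h8 := hsep y hyA w (by rw [dist_eq_norm]; linarith) j hwR
          rw [← h8]
          exact Or.inl ⟨huS, w, hw, hwR⟩
        · exact absurd hj (not_harc H huW j)
  exact (DomEx722.mem_inn.1 (hM u0 hall)).2 j0 hu0j

end Crest.Agent.R143.D3Xx802
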