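import Crest.Agent.R143.M5_304
import Crest.Agent.R143.PoisM3c_501
import Crest.Agent.R143.EQ5_63
import Crest.Agent.R143.Cfg_416

/-!
# Row 143 (S0194), leaf D4COL, part A : good positions (helper304)

* `posOf`, `colOf` : positions and colours of a sample; `posOf_mp`
* `PG C K ε ω` : good positions (general position, no holes, no site on the rays)
* `GP0 C K ε : Set Pos` measurable set of good positions, `Pm C K ε = posOf ⁻¹' GP0`
* `pm_prob`, `pm_env` : the clauses (1)-(3) of `D4COL`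
* `pg_dns`, `pg_ray` : dense sites, existence and uniqueness of the ray edges
-/

set_option autoImplicit false
set_option linter.all false

noncomputable section

open scoped Classical

namespace Crest.Agent.R143.D4Ax304

open MeasureTheory Set Filter Topology
open Crest.ProbabilityR.Voronoi
open Crest.Agent.R143.B0x346 Crest.Agent.R143.B0Dx346 Crest.Agent.R143.DelGx806
  Crest.Agent.R143.DelRx806 Crest.Agent.R143.DomAx722 Crest.Agent.R143.Measx304
  Crest.Agent.R143.Lawx831 Crest.Agent.R143.Y5Dx831 Crest.Agent.R143.Y8Dx831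
  Crest.Agent.R143.PP1x831 Crest.Agent.R143.Cfgx416 Crest.Agent.R143.M5x304

local notation "smk" => Crest.Agent.R143.Lawx831.mk

/-! ### positions and colours -/

/-- the positions of a sample -/
def posOf (ω : Sample) : Pos := fun k => (ω.1 k, fun j => (ω.2 k j 0, ω.2 k j 1))

/-- the colours of a sample -/
def colOf (ω : Sample) : Col := fun i => ω.2 i.1 i.2 2

theorem mk_pos_col (ω : Sample) : smk (posOf ω) (colOf ω) = ω := by
  unfold Crest.Agent.R143.Lawx831.mk posOf colOf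
  refine Prod.ext rfl ?_
  funext k j i
  fin_cases i <;> rfl

theorem posOf_mk (p : Pos) (c : Col) : posOf (smk p c) = p := by
  unfold Crest.Agent.R143.Lawx831.mk posOf
  funext k
  exact Prod.ext rfl (funext fun j => rfl)

theorem posOf_meas : Measurable posOf := by
  refine measurable_pi_iff.2 fun k => Measurable.prodMk ?_ (measurable_pi_iff.2 fun j => ?_)
  · exact (measurable_pi_apply k).comp measurable_fst
  · have h : Measurable fun ω : Sample => ω.2 k j :=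
      (measurable_pi_apply j).comp ((measurable_pi_apply k).comp measurable_snd)
    exact ((measurable_pi_apply 0).comp h).prodMk ((measurable_pi_apply 1).comp h)

theorem posOf_mp : MeasurePreserving posOf sampleLaw posLaw := by
  refine mp_of_comp mp_mk posOf_meas ?_
  have e : posOf ∘ (fun q : Pos × Col => smk q.1 q.2) = Prod.fst := by
    funext q
    exact posOf_mk q.1 q.2
  rw [e]
  exact measurePreserving_fst

/-! ### good positions -/

/-- good positions for `C` -/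
structure PG (C : Cfg 4) (K ε : ℝ) (ω : Sample) : Prop where
  gp : GP (points ε ω)
  inj : ∀ p ∈ present ω, ∀ q ∈ present ω,
    point ε ω (p.1, p.2.1) p.2.2 = point ε ω (q.1, q.2.1) q.2.2 → p = q
  fin : ∀ r : ℝ, (points ε ω ∩ Metric.closedBall 0 r).Finite
  hole : ∀ z ∈ Metric.closedBall (0 : ℂ) (‖C.c‖ + C.L),
    (points ε ω ∩ Metric.ball z (rad K ε)).Nonempty
  ray : ∀ k : ZMod 4, ∀ v ∈ points ε ω, ∀ t : ℝ, v ≠ C.c + t * C.q k

variable {C : Cfg 4} {K ε : ℝ} {ω : Sample}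

theorem points_c (ε : ℝ) (p : Pos) (c c' : Col) : points ε (smk p c) = points ε (smk p c') := by
  rw [points_mk, points_mk]

theorem pg_mk_imp {p : Pos} {c c' : Col} (h : PG C K ε (smk p c)) : PG C K ε (smk p c') := by
  have e := points_c ε p c c'
  refine ⟨?_, ?_, ?_, ?_, ?_⟩
  · rw [← e]; exact h.gp
  · intro i hi j hj hij
    refine h.inj i ?_ j ?_ ?_
    · rw [present_mk] at hi ⊢; exact hi
    · rw [present_mk] at hj ⊢; exact hj
    · rw [point_mk, point_mk] at hij ⊢; exact hij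
  · rw [← e]; exact h.fin
  · rw [← e]; exact h.hole
  · rw [← e]; exact h.ray

theorem pg_mk (p : Pos) (c c' : Col) : PG C K ε (smk p c) ↔ PG C K ε (smk p c') :=
  ⟨pg_mk_imp, pg_mk_imp⟩

/-- the measurable set of good positions -/
def GP0 (C : Cfg 4) (K ε : ℝ) : Set Pos :=
  (toMeasurable posLaw {p | ¬ PG C K ε (smk p fun _ => 0)})ᶜ

theorem GP0_meas (C : Cfg 4) (K ε : ℝ) : MeasurableSet (GP0 C K ε) :=
  (measurableSet_toMeasurable _ _).compl

theorem pg_of_GP0 {p : Pos} (h : p ∈ GP0 C K ε) (c : Col) : PG C K ε (smk p c) := by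
  have h1 : PG C K ε (smk p fun _ => 0) := by
    by_contra hcon
    exact h (subset_toMeasurable _ _ hcon)
  exact pg_mk_imp h1

/-- the good samples -/
def Pm (C : Cfg 4) (K ε : ℝ) : Set Sample := posOf ⁻¹' GP0 C K ε

theorem Pm_meas (C : Cfg 4) (K ε : ℝ) : MeasurableSet (Pm C K ε) := posOf_meas (GP0_meas C K ε)

theorem mk_mem_Pm (p : Pos) (c : Col) : smk p c ∈ Pm C K ε ↔ p ∈ GP0 C K ε := by
  unfold Pm
  rw [mem_preimage, posOf_mk]

theorem pg_of_Pm (h : ω ∈ Pm C K ε) : PG C K ε ω := by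
  have := pg_of_GP0 h (colOf ω)
  rwa [mk_pos_col] at this

/-- the probability of the bad positions is at most the (outer) probability of the bad samples -/
theorem Pm_compl_le (C : Cfg 4) (K ε : ℝ) :
    sampleLaw (Pm C K ε)ᶜ ≤ sampleLaw {ω | ¬ PG C K ε ω} := by
  have e1 : (Pm C K ε)ᶜ = posOf ⁻¹' (toMeasurable posLaw {p | ¬ PG C K ε (smk p fun _ => 0)}) := by
    unfold Pm GP0
    rw [preimage_compl, compl_compl]
  rw [e1, posOf_mp.measure_preimage (measurableSet_toMeasurable _ _).nullMeasurableSet,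
    measure_toMeasurable]
  have e2 : posLaw {p | ¬ PG C K ε (smk p fun _ => 0)} =
      (posLaw.prod colLaw) ({p | ¬ PG C K ε (smk p fun _ => 0)} ×ˢ univ) := by
    rw [Measure.prod_prod, measure_univ, mul_one]
  rw [e2]
  have e3 : ({p | ¬ PG C K ε (smk p fun _ => 0)} ×ˢ univ : Set (Pos × Col)) =
      (fun q : Pos × Col => smk q.1 q.2) ⁻¹' {ω | ¬ PG C K ε ω} := by
    ext ⟨p, c⟩
    simp only [mem_prod, mem_univ, and_true, mem_preimage, mem_ofPred_eq]
    exact not_congr (pg_mk p _ _)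
  rw [e3]
  have h := Measure.le_map_apply (μ := posLaw.prod colLaw) (measurable_mk.aemeasurable)
    {ω | ¬ PG C K ε ω}
  rw [mp_mk.map_eq] at h
  exact h

theorem ev_small {L : ℝ} (hL : 0 < L) (K : ℝ) (hK : 0 < K) :
    ∀ᶠ ε : ℝ in 𝓝[>] 0, 0 < ε ∧ 0 < rad K ε ∧ rad K ε < L := by
  have h8 : ∀ᶠ ε : ℝ in 𝓝[>] 0, rad K ε < L := (rad_small K).eventually_lt_const hL
  have h1 : ∀ᶠ ε : ℝ in 𝓝[>] 0, ε < 1 := by
    refine nhdsWithin_le_nhds ?_
    exact Iio_mem_nhds one_pos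
  filter_upwards [h8, h1, self_mem_nhdsWithin] with ε h8 h1 hpos
  have hpos' : (0 : ℝ) < ε := hpos
  refine ⟨hpos', ?_, h8⟩
  unfold rad
  have : 0 < Real.log (1 / ε) := Real.log_pos (by rw [lt_div_iff₀ hpos']; linarith)
  positivity

/-- **clause (2)** -/
theorem pm_prob (C : Cfg 4) (hq : ∀ k, ‖C.q k‖ = 1) : ∃ K : ℝ, 0 < K ∧
    ∀ᶠ ε : ℝ in 𝓝[>] 0, sampleLaw (Pm C K ε)ᶜ ≤ ENNReal.ofReal (ε ^ (10 : ℝ)) := by
  obtain ⟨K, hK, hev⟩ := Crest.Agent.R143.PoisM3cx501.m3c (‖C.c‖ + C.L) 10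
  refine ⟨K, hK, ?_⟩
  filter_upwards [hev, self_mem_nhdsWithin] with ε hε hpos
  have hpos' : (0 : ℝ) < ε := hpos
  refine (Pm_compl_le C K ε).trans (le_trans (measure_mono_ae ?_) hε)
  have hray : ∀ k : ZMod 4, ∀ᵐ ω ∂sampleLaw, ∀ v ∈ points ε ω, ∀ t : ℝ, v ≠ C.c + t * C.q k :=
    fun k => ray_null hpos' C.c (fun h => by
      have := hq k; rw [h, norm_zero] at this; norm_num at this)
  filter_upwards [Crest.Agent.R143.PoisM3x930.m3a ε hpos', ae_all_iff.2 hray] with ω h1 h2 hn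
  by_contra hcon
  apply hn
  refine ⟨h1.1, h1.2.1, h1.2.2, fun z hz => ?_, h2⟩
  rw [Set.nonempty_iff_ne_empty]
  exact fun h => hcon ⟨z, hz, h⟩

/-- **clause (3)** -/
theorem pm_env {K : ℝ} (hK : 0 < K) (C : Cfg 4) {d : ℝ} (hd : 0 < d) :
    ∀ᶠ ε : ℝ in 𝓝[>] 0, ∀ ω ∈ Pm C K ε, ∃ M : ℝ, Env ε d M C.c C.L ω := by
  filter_upwards [ev_small hd K hK] with ε hε ω hω
  have h := pg_of_Pm hω
  exact Crest.Agent.R143.EQ5x63.env_of (D := C.dom) (R := ‖C.c‖ + C.L) le_rfl hd h.gp h.fin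
    fun z hz => (h.hole z hz).mono (inter_subset_inter_right _
      (Metric.ball_subset_ball hε.2.2.le))

/-! ### the ray edges -/

theorem pg_finD (h : PG C K ε ω) :
    (points ε ω ∩ Metric.closedBall C.dom.c C.dom.L).Finite := by
  refine (h.fin (‖C.c‖ + C.L)).subset ?_
  rintro z ⟨hz, hz2⟩
  refine ⟨hz, ?_⟩
  rw [Metric.mem_closedBall, dist_eq_norm] at hz2 ⊢
  change ‖z - C.c‖ ≤ C.L at hz2
  rw [sub_zero]
  calc ‖z‖ = ‖C.c + (z - C.c)‖ := by congr 1; ring
    _ ≤ ‖C.c‖ + ‖z - C.c‖ := norm_add_le _ _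
    _ ≤ _ := by linarith

theorem pg_dns (h : PG C K ε ω) (hr : 0 < rad K ε) (h8 : rad K ε < C.L / 8) :
    Dns (C.dom.sites ε ω) C.c C.L (rad K ε) := by
  have hfin := pg_finD h
  refine ⟨gp_mono (fun s hs => ((mem_sites hfin).1 hs).1) h.gp, hr, by linarith,
    fun s hs => ((mem_sites hfin).1 hs).2, fun z hz => ?_⟩
  have hL : 0 < C.L := by linarith
  have hz0 : z ∈ Metric.closedBall (0 : ℂ) (‖C.c‖ + C.L) := by
    rw [Metric.mem_closedBall, dist_eq_norm, sub_zero]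
    calc ‖z‖ = ‖C.c + (z - C.c)‖ := by congr 1; ring
      _ ≤ ‖C.c‖ + ‖z - C.c‖ := norm_add_le _ _
      _ ≤ _ := by linarith
  obtain ⟨s, hs1, hs2⟩ := h.hole z hz0
  rw [Metric.mem_ball, dist_eq_norm] at hs2
  refine ⟨s, (mem_sites hfin).2 ⟨hs1, ?_⟩, hs2⟩
  change ‖s - C.c‖ ≤ C.L
  calc ‖s - C.c‖ = ‖(s - z) + (z - C.c)‖ := by congr 1; ring
    _ ≤ ‖s - z‖ + ‖z - C.c‖ := norm_add_le _ _
    _ ≤ C.L := by linarith

theorem pg_uniq (h : PG C K ε ω) (hr : 0 < rad K ε) (h8 : rad K ε < C.L / 8) (k : ZMod 4)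
    {p p' : ℂ × ℂ} (hp : crossRay (C.dom.sites ε ω) C.c (C.q k) p)
    (hp' : crossRay (C.dom.sites ε ω) C.c (C.q k) p') : p = p' := by
  have hS := pg_dns h hr h8
  have hfin := pg_finD h
  refine uniq_cross hS.gp (fun a b hab => ?_) (fun s hs t ht => ?_) hp hp'
  · have h1 := edge_dist hS hab
    have h2 : 0 < ‖b - a‖ := norm_pos_iff.2 (sub_ne_zero.2 (hullE.ne hab).symm)
    have h3 := hS.dpos
    have h4 := hS.dL
    exact lt_of_lt_of_le (mul_pos (by linarith) h2) h1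
  · exact (h.ray k s ((mem_sites hfin).1 hs).1 t).symm

theorem pg_ray (h : PG C K ε ω) (hq : ∀ k, ‖C.q k‖ = 1) (hr : 0 < rad K ε)
    (h8 : rad K ε < C.L / 8) (k : ZMod 4) :
    crossRay (C.dom.sites ε ω) C.c (C.q k) (C.ray (C.dom.sites ε ω) k) :=
  rayMark_spec (crossRay_exists (pg_dns h hr h8) (hq k))

theorem pg_ray_iff (h : PG C K ε ω) (hq : ∀ k, ‖C.q k‖ = 1) (hr : 0 < rad K ε)
    (h8 : rad K ε < C.L / 8) (k : ZMod 4) (p : ℂ × ℂ) :
    C.ray (C.dom.sites ε ω) k = p ↔ crossRay (C.dom.sites ε ω) C.c (C.q k) p := by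
  constructor
  · rintro rfl
    exact pg_ray h hq hr h8 k
  · intro hp
    exact pg_uniq h hr h8 k (pg_ray h hq hr h8 k) hp

end Crest.Agent.R143.D4Ax304
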