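import Crest.Agent.R143.D4A_304

/-!
# Row 143 (S0194), leaf D4COL, part B : measurability (helper304)

* `Dt V` : the finite data (Delaunay triangles, cells meeting the regions, ray edges, black sites)
* `clsV`, `innV`, `crsV`, `prV` : classes, inner sites, crossings, probability in terms of the data
* `cls_img`, `inn_img`, `crs_img`, `pr_img` : transport from the sites
* `aesm_pr`, `meas_NX` : measurability on `Pm`
-/

set_option autoImplicit false
set_option linter.all false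

noncomputable section

open scoped Classical

namespace Crest.Agent.R143.D4Bx304

open MeasureTheory Set Filter Topology
open Crest.ProbabilityR.Voronoi
open Crest.Agent.R143.B0x346 Crest.Agent.R143.B0Dx346 Crest.Agent.R143.DelGx806
  Crest.Agent.R143.DelRx806 Crest.Agent.R143.DomAx722 Crest.Agent.R143.Measx304
  Crest.Agent.R143.Lawx831 Crest.Agent.R143.Y5Dx831 Crest.Agent.R143.Y8Dx831
  Crest.Agent.R143.PP1x831 Crest.Agent.R143.Cfgx416 Crest.Agent.R143.M5x304
  Crest.Agent.R143.D4Ax304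

/-! ### the finite data -/

/-- data on the finite vertex set `V` : triangles, cells meeting regions, ray edges, black sites -/
abbrev Dt (V : Type) : Type :=
  (V → V → V → Prop) × (V → ZMod 4 → Prop) × (ZMod 4 → V → V → Prop) × (V → Prop)

variable {V : Type}

def adjV (d : Dt V) (i j : V) : Prop := ∃ k, d.1 i j k ∨ d.1 j i k

def hullV (d : Dt V) (i j : V) : Prop := (∃ k, d.1 i j k) ∧ ∀ k, ¬ d.1 j i k

def harcV (d : Dt V) (k : ZMod 4) (v : V) : Prop := ∃ a r, d.2.2.1 k a r ∧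
  Relation.ReflTransGen (fun a b => hullV d a b ∧ ∀ k', ¬ d.2.2.1 k' a b) r v

def clsV (d : Dt V) (i : ZMod 4) (v : V) : Prop := d.2.1 v i ∨ harcV d i v

def innV [Fintype V] (d : Dt V) : Finset V := Finset.univ.filter fun v => ∀ i, ¬ clsV d i v

def crsV (d : Dt V) (T : Set V) (i : ZMod 4) : Prop := ∃ a b, clsV d i a ∧ clsV d (i + 2) b ∧
  Relation.ReflTransGen (fun x y => adjV d x y ∧ (y ∈ T ∨ clsV d i y ∨ clsV d (i + 2) y)) a b

def prV [Fintype V] (d : Dt V) (i : ZMod 4) : ℝ :=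
  (((innV d).powerset.filter fun T : Finset V => crsV d (T : Set V) i).card : ℝ) /
    2 ^ (innV d).card

/-! ### transport -/

theorem rtg_img {x : V → ℂ} {R : ℂ → ℂ → Prop} (hR : ∀ a b, R a b → b ∈ range x) {i : V} {b : ℂ} :
    Relation.ReflTransGen R (x i) b ↔
      ∃ j, b = x j ∧ Relation.ReflTransGen (fun a b => R (x a) (x b)) i j := by
  constructor
  · intro h
    induction h with
    | refl => exact ⟨i, rfl, Relation.ReflTransGen.refl⟩
    | tail _ h2 ih =>
      obtain ⟨j, rfl, hj⟩ := ih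
      obtain ⟨k, hk⟩ := hR _ _ h2
      subst hk
      exact ⟨k, rfl, hj.tail h2⟩
  · rintro ⟨j, rfl, hj⟩
    induction hj with
    | refl => exact Relation.ReflTransGen.refl
    | tail _ h2 ih => exact ih.tail h2

variable [Fintype V]

/-- the data of the configuration `x` with the black sites `B` -/
def dat (C : Cfg 4) (x : V → ℂ) (B : V → Prop) : Dt V :=
  (fun i j k => DelX x i j k,
    fun i r => (voronoiCell (range x) (x i) ∩ C.R r).Nonempty,
    fun k i j => HullX x i j ∧ SegX C.c (C.q k) x i j, B)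

/-- the ray edges of the configuration are unique -/
def RayOK (C : Cfg 4) (x : V → ℂ) : Prop := ∀ k p, C.ray (Finset.univ.image x) k = p ↔
  crossRay (Finset.univ.image x) C.c (C.q k) p

variable {C : Cfg 4} {x : V → ℂ} {B : V → Prop}

theorem adj_img (i j : V) : Adj (Finset.univ.image x) (x i) (x j) ↔ adjV (dat C x B) i j := by
  unfold Adj adjV
  constructor
  · rintro ⟨c, hc⟩
    have hm : c ∈ Finset.univ.image x := by
      rcases hc with hc | hc
      · obtain ⟨o, hc⟩ := mem_delT_iff.1 hc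
        exact hc.mc
      · obtain ⟨o, hc⟩ := mem_delT_iff.1 hc
        exact hc.mc
    obtain ⟨k, -, rfl⟩ := Finset.mem_image.1 hm
    refine ⟨k, ?_⟩
    rwa [delT_img, delT_img] at hc
  · rintro ⟨k, hk⟩
    refine ⟨x k, ?_⟩
    rwa [delT_img, delT_img]

theorem adj_mem {a b : ℂ} (h : Adj (Finset.univ.image x) a b) : b ∈ range x := by
  obtain ⟨c, hc⟩ := h
  have hm : b ∈ Finset.univ.image x := by
    rcases hc with hc | hc
    · obtain ⟨o, hc⟩ := mem_delT_iff.1 hc
      exact hc.mb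
    · obtain ⟨o, hc⟩ := mem_delT_iff.1 hc
      exact hc.ma
  obtain ⟨k, -, rfl⟩ := Finset.mem_image.1 hm
  exact ⟨k, rfl⟩

theorem hull_mem {a b : ℂ} (h : hullE (Finset.univ.image x) a b) : a ∈ range x ∧ b ∈ range x := by
  obtain ⟨h1, h2⟩ := hullE.mem h
  obtain ⟨i, -, rfl⟩ := Finset.mem_image.1 h1
  obtain ⟨j, -, rfl⟩ := Finset.mem_image.1 h2
  exact ⟨⟨i, rfl⟩, ⟨j, rfl⟩⟩

theorem harc_img (hr : RayOK C x) (i : ZMod 4) (v : V) (hx : Function.Injective x) :
    x v ∈ C.harc (Finset.univ.image x) i ↔ harcV (dat C x B) i v := by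
  have hrel : (fun a b : V => hullE (Finset.univ.image x) (x a) (x b) ∧
      ∀ k, C.ray (Finset.univ.image x) k ≠ (x a, x b)) =
      fun a b => hullV (dat C x B) a b ∧ ∀ k', ¬ (dat C x B).2.2.1 k' a b := by
    funext a b
    refine propext (and_congr (hullE_img x a b) (forall_congr' fun k => not_congr ?_))
    rw [hr k, crossRay_img]
    rfl
  have hray := (hr i (C.ray (Finset.univ.image x) i)).1 rfl
  obtain ⟨a, r, har⟩ := crossRay_ex hray
  unfold Cfg.harc harcV
  rw [mem_ofPred_eq, har]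
  have key := rtg_img (x := x) (R := fun a b => hullE (Finset.univ.image x) a b ∧
    ∀ k, C.ray (Finset.univ.image x) k ≠ (a, b)) (fun a b h => (hull_mem h.1).2) (i := r)
    (b := x v)
  dsimp only
  rw [key]
  constructor
  · rintro ⟨j, hj, h⟩
    have := hx hj
    subst this
    refine ⟨a, r, ?_, ?_⟩
    · rw [har] at hray
      exact (crossRay_img x _ _ _ _).1 hray
    · rw [← hrel]
      exact h
  · rintro ⟨a', r', h1, h2⟩
    have h3 : crossRay (Finset.univ.image x) C.c (C.q i) (x a', x r') :=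
      (crossRay_img x _ _ _ _).2 h1
    have h4 := (hr i _).2 h3
    rw [har] at h4
    have h5 := hx (Prod.ext_iff.1 h4).2
    subst h5
    refine ⟨v, rfl, ?_⟩
    rw [← hrel] at h2
    exact h2

theorem harc_sub (hr : RayOK C x) (i : ZMod 4) : C.harc (Finset.univ.image x) i ⊆ range x := by
  have hray := (hr i (C.ray (Finset.univ.image x) i)).1 rfl
  obtain ⟨a, r, har⟩ := crossRay_ex hray
  intro v hv
  unfold Cfg.harc at hv
  rw [mem_ofPred_eq, har] at hv
  have key := rtg_img (x := x) (R := fun a b => hullE (Finset.univ.image x) a b ∧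
    ∀ k, C.ray (Finset.univ.image x) k ≠ (a, b)) (fun a b h => (hull_mem h.1).2) (i := r)
    (b := v)
  obtain ⟨j, rfl, -⟩ := key.1 hv
  exact ⟨j, rfl⟩

theorem cls_img (hr : RayOK C x) (hx : Function.Injective x) (i : ZMod 4) (v : V) :
    x v ∈ C.cls (Finset.univ.image x) i ↔ clsV (dat C x B) i v := by
  unfold Cfg.cls clsV
  rw [mem_union, harc_img (B := B) hr i v hx]
  refine or_congr ?_ Iff.rfl
  rw [mem_ofPred_eq]
  unfold cell
  rw [coe_img]
  constructor
  · rintro ⟨-, h⟩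
    exact h
  · intro h
    exact ⟨Finset.mem_image_of_mem x (Finset.mem_univ v), h⟩

theorem cls_sub (hr : RayOK C x) (i : ZMod 4) : C.cls (Finset.univ.image x) i ⊆ range x := by
  rintro v (⟨hv, -⟩ | hv)
  · obtain ⟨j, -, rfl⟩ := Finset.mem_image.1 hv
    exact ⟨j, rfl⟩
  · exact harc_sub hr i hv

theorem inn_img (hr : RayOK C x) (hx : Function.Injective x) :
    C.inn (Finset.univ.image x) = (innV (dat C x B)).image x := by
  ext v
  unfold Cfg.inn innV
  simp only [Finset.mem_filter, Finset.mem_image, Finset.mem_univ, true_and]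
  constructor
  · rintro ⟨⟨j, rfl⟩, h⟩
    exact ⟨j, fun i hi => h i ((cls_img hr hx i j).2 hi), rfl⟩
  · rintro ⟨j, h, rfl⟩
    exact ⟨⟨j, rfl⟩, fun i hi => h i ((cls_img hr hx i j).1 hi)⟩

theorem crs_img (hr : RayOK C x) (hx : Function.Injective x) (T : Set ℂ) (i : ZMod 4) :
    C.Crs (Finset.univ.image x) T i ↔ crsV (dat C x B) {v | x v ∈ T} i := by
  have hrel : (fun a b : V => Adj (Finset.univ.image x) (x a) (x b) ∧
      (x b ∈ T ∨ x b ∈ C.cls (Finset.univ.image x) i ∨
        x b ∈ C.cls (Finset.univ.image x) (i + 2))) =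
      fun a b => adjV (dat C x B) a b ∧ (b ∈ {v | x v ∈ T} ∨ clsV (dat C x B) i b ∨
        clsV (dat C x B) (i + 2) b) := by
    funext a b
    refine propext (and_congr (adj_img a b) (or_congr Iff.rfl (or_congr ?_ ?_)))
    · exact cls_img hr hx i b
    · exact cls_img hr hx (i + 2) b
  have key := fun (a : V) (b : ℂ) => rtg_img (x := x) (R := fun a b =>
    Adj (Finset.univ.image x) a b ∧ (b ∈ T ∨ b ∈ C.cls (Finset.univ.image x) i ∨
        b ∈ C.cls (Finset.univ.image x) (i + 2))) (fun a b h => adj_mem h.1) (i := a) (b := b)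
  unfold Cfg.Crs crsV
  constructor
  · rintro ⟨a, ha, b, hb, h⟩
    obtain ⟨a, rfl⟩ := cls_sub hr i ha
    obtain ⟨j, rfl, hj⟩ := (key a b).1 h
    refine ⟨a, j, (cls_img hr hx i a).1 ha, (cls_img hr hx (i + 2) j).1 hb, ?_⟩
    rw [← hrel]
    exact hj
  · rintro ⟨a, b, ha, hb, h⟩
    refine ⟨x a, (cls_img hr hx i a).2 ha, x b, (cls_img hr hx (i + 2) b).2 hb, ?_⟩
    rw [← hrel] at h
    exact (key a (x b)).2 ⟨b, rfl, h⟩

theorem pr_img (hr : RayOK C x) (hx : Function.Injective x) (i : ZMod 4) :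
    C.pr (Finset.univ.image x) i = prV (dat C x B) i := by
  unfold Cfg.pr prV
  rw [inn_img (B := B) hr hx, Finset.card_image_of_injective _ hx]
  congr 2
  norm_cast
  symm
  refine Finset.card_bij (fun T _ => T.image x) ?_ ?_ ?_
  · intro T hT
    rw [Finset.mem_filter, Finset.mem_powerset] at hT ⊢
    refine ⟨Finset.image_subset_image hT.1, ?_⟩
    rw [crs_img (B := B) hr hx]
    have e : {v | x v ∈ ((T.image x : Finset ℂ) : Set ℂ)} = (T : Set V) := by
      ext v
      rw [mem_ofPred_eq, Finset.mem_coe, Finset.mem_image, Finset.mem_coe]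
      constructor
      · rintro ⟨w, hw, h⟩
        rw [← hx h]; exact hw
      · intro h
        exact ⟨v, h, rfl⟩
    rw [e]
    exact hT.2
  · intro T _ T' _ h
    exact Finset.image_injective hx h
  · intro T hT
    rw [Finset.mem_filter, Finset.mem_powerset] at hT
    obtain ⟨hT1, hT2⟩ := hT
    refine ⟨(innV (dat C x B)).filter fun v => x v ∈ T, ?_, ?_⟩
    · rw [Finset.mem_filter, Finset.mem_powerset]
      refine ⟨Finset.filter_subset _ _, ?_⟩
      rw [crs_img (B := B) hr hx] at hT2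
      have e : {v | x v ∈ (T : Set ℂ)} =
          (((innV (dat C x B)).filter fun v => x v ∈ T : Finset V) : Set V) := by
        ext v
        rw [mem_ofPred_eq, Finset.mem_coe, Finset.mem_coe, Finset.mem_filter]
        constructor
        · intro h
          have := hT1 h
          obtain ⟨w, hw, hwv⟩ := Finset.mem_image.1 this
          rw [← hx hwv]
          exact ⟨hw, hwv ▸ h⟩
        · exact fun h => h.2
      rw [← e]
      exact hT2
    · ext v
      rw [Finset.mem_image]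
      constructor
      · rintro ⟨w, hw, rfl⟩
        exact (Finset.mem_filter.1 hw).2
      · intro h
        have := hT1 h
        obtain ⟨w, hw, rfl⟩ := Finset.mem_image.1 this
        exact ⟨w, Finset.mem_filter.2 ⟨hw, h⟩, rfl⟩

/-! ### measurability -/

theorem cellX_meas {U : Set ℂ} (hU : IsOpen U) (i : V) :
    MeasurableSet {x : V → ℂ | (voronoiCell (range x) (x i) ∩ U).Nonempty} := by
  have h2 : MeasurableSet {x : V → ℂ | ∃ o ∈ U, (x, o) ∈ {p : (V → ℂ) × ℂ |
      ∀ l, ‖p.2 - p.1 i‖ ≤ ‖p.2 - p.1 l‖}} := by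
    apply proj_meas (sigmaCompact_open hU)
    have e : {p : (V → ℂ) × ℂ | ∀ l, ‖p.2 - p.1 i‖ ≤ ‖p.2 - p.1 l‖} =
        ⋂ l, {p : (V → ℂ) × ℂ | ‖p.2 - p.1 i‖ ≤ ‖p.2 - p.1 l‖} := by
      ext p
      simp only [mem_iInter, mem_ofPred_eq]
    rw [e]
    exact isClosed_iInter fun l => isClosed_le (by fun_prop) (by fun_prop)
  convert h2 using 1
  ext x
  unfold voronoiCell
  simp only [mem_ofPred_eq, mem_range, forall_exists_index, forall_apply_eq_imp_iff]
  constructor
  · rintro ⟨z, h, hz⟩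
    exact ⟨z, hz, h⟩
  · rintro ⟨z, hz, h⟩
    exact ⟨z, h, hz⟩

theorem dt_singl (V : Type) [Finite V] : MeasurableSingletonClass (Dt V) := by
  unfold Dt
  infer_instance

theorem dt_finite (V : Type) [Finite V] : Finite (Dt V) := by
  unfold Dt
  infer_instance

/-- black index -/
def blkI (I : Finset Ix) (ω : Sample) (i : I) : Prop := (ω.2 i.1.1 i.1.2 2 : ℝ) < 1 / 2

/-- the data of the sample on the index set `I` -/
def datI (C : Cfg 4) (ε : ℝ) (I : Finset Ix) (ω : Sample) : Dt I :=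
  dat C (xI ε I ω) (blkI I ω)

theorem datI_meas (hR : ∀ i, IsOpen (C.R i)) (ε : ℝ) (I : Finset Ix) :
    Measurable (datI C ε I) := by
  have hx := xI_meas ε I
  refine Measurable.prodMk ?_ (Measurable.prodMk ?_ (Measurable.prodMk ?_ ?_))
  · refine measurable_pi_iff.2 fun i => measurable_pi_iff.2 fun j => measurable_pi_iff.2 fun k => ?_
    exact measurableSet_setOfPred.1 (hx (delX_meas i j k))
  · refine measurable_pi_iff.2 fun i => measurable_pi_iff.2 fun r => ?_
    exact measurableSet_setOfPred.1 (hx (cellX_meas (hR r) i))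
  · refine measurable_pi_iff.2 fun k => measurable_pi_iff.2 fun i => measurable_pi_iff.2 fun j => ?_
    exact measurableSet_setOfPred.1 (hx ((hullX_meas i j).inter (segX_meas C.c (C.q k) i j)))
  · refine measurable_pi_iff.2 fun i => ?_
    have h1 : Measurable fun ω : Sample => (ω.2 i.1.1 i.1.2 2 : ℝ) := by
      have h : Measurable fun ω : Sample => ω.2 i.1.1 i.1.2 2 :=
        (measurable_pi_apply 2).comp ((measurable_pi_apply i.1.2).comp
          ((measurable_pi_apply i.1.1).comp measurable_snd))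
      exact measurable_subtype_coe.comp h
    exact measurableSet_setOfPred.1 (measurableSet_lt h1 measurable_const)

theorem meas_of_datI (hR : ∀ i, IsOpen (C.R i)) (ε : ℝ) (I : Finset Ix) (A : Set (Dt I)) :
    MeasurableSet (datI C ε I ⁻¹' A) := by
  have hfin : Finite (Dt I) := dt_finite I
  have hm : MeasurableSingletonClass (Dt I) := dt_singl I
  exact datI_meas hR ε I (Set.toFinite A).measurableSet

/-! ### the sample -/

variable {K ε : ℝ} {ω : Sample}

theorem gsites_img (h : PG C K ε ω) {I : Finset Ix} (hI : ω ∈ AI C.dom ε I) :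
    C.dom.sites ε ω = Finset.univ.image (xI ε I ω) := by
  ext s
  rw [Crest.Agent.R143.DomAx722.mem_sites (pg_finD h), Finset.mem_image]
  constructor
  · rintro ⟨⟨p, hp, rfl⟩, h2⟩
    have h3 : ((p.1, p.2.1), p.2.2) ∈ I := (hI _).2 ⟨hp, by
      rw [Metric.mem_closedBall, dist_eq_norm]; exact h2⟩
    exact ⟨⟨_, h3⟩, Finset.mem_univ _, rfl⟩
  · rintro ⟨⟨i, hi⟩, -, rfl⟩
    have h3 := (hI i).1 hi
    refine ⟨⟨(i.1.1, i.1.2, i.2), h3.1, rfl⟩, ?_⟩
    have := h3.2
    rw [Metric.mem_closedBall, dist_eq_norm] at this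
    exact this

theorem gxI_inj (h : PG C K ε ω) {I : Finset Ix} (hI : ω ∈ AI C.dom ε I) :
    Function.Injective (xI ε I ω) := by
  rintro ⟨i, hi⟩ ⟨j, hj⟩ hij
  have h1 := h.inj (i.1.1, i.1.2, i.2) ((hI i).1 hi).1 (j.1.1, j.1.2, j.2) ((hI j).1 hj).1 hij
  simp only [Prod.mk.injEq] at h1
  exact Subtype.ext (Prod.ext (Prod.ext h1.1 h1.2.1) h1.2.2)

theorem exists_gAI (h : PG C K ε ω) : ∃ I, ω ∈ AI C.dom ε I := by
  have hfin : {i : Ix | InD C.dom ε ω i}.Finite := by
    refine Set.Finite.of_finite_image (f := fun i : Ix => point ε ω i.1 i.2)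
      ((pg_finD h).subset ?_) ?_
    · rintro z ⟨i, hi, rfl⟩
      exact ⟨⟨(i.1.1, i.1.2, i.2), hi.1, rfl⟩, hi.2⟩
    · intro i hi j hj hij
      have h1 := h.inj (i.1.1, i.1.2, i.2) hi.1 (j.1.1, j.1.2, j.2) hj.1 hij
      simp only [Prod.mk.injEq] at h1
      exact Prod.ext (Prod.ext h1.1 h1.2.1) h1.2.2
  refine ⟨hfin.toFinset, fun i => ?_⟩
  rw [Set.Finite.mem_toFinset]
  rfl

theorem grayOK (h : PG C K ε ω) (hq : ∀ k, ‖C.q k‖ = 1) (hr : 0 < rad K ε)
    (h8 : rad K ε < C.L / 8) {I : Finset Ix} (hI : ω ∈ AI C.dom ε I) : RayOK C (xI ε I ω) := by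
  intro k p
  rw [← gsites_img h hI]
  exact pg_ray_iff h hq hr h8 k p

theorem gpr (h : PG C K ε ω) (hq : ∀ k, ‖C.q k‖ = 1) (hr : 0 < rad K ε)
    (h8 : rad K ε < C.L / 8) {I : Finset Ix} (hI : ω ∈ AI C.dom ε I) (i : ZMod 4) :
    C.pr (C.dom.sites ε ω) i = prV (datI C ε I ω) i := by
  rw [gsites_img h hI]
  exact pr_img (grayOK h hq hr h8 hI) (gxI_inj h hI) i

theorem blk_iff (h : PG C K ε ω) {I : Finset Ix} (hI : ω ∈ AI C.dom ε I) (i : I) :
    xI ε I ω i ∈ Crest.Agent.R143.G6Vx408.blk ε ω ↔ blkI I ω i := by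
  rw [Crest.Agent.R143.G6Vx408.mem_blk]
  constructor
  · rintro ⟨p, hp, h1, h2⟩
    have h3 := h.inj p hp (i.1.1.1, i.1.1.2, i.1.2) ((hI i).1 i.2).1 h2
    rw [h3] at h1
    exact h1
  · intro h1
    exact ⟨(i.1.1.1, i.1.1.2, i.1.2), ((hI i).1 i.2).1, h1, rfl⟩

theorem gNX (h : PG C K ε ω) (hq : ∀ k, ‖C.q k‖ = 1) (hr : 0 < rad K ε)
    (h8 : rad K ε < C.L / 8) {I : Finset Ix} (hI : ω ∈ AI C.dom ε I) (i : ZMod 4) :
    ω ∈ C.NX i ε ↔
      crsV (datI C ε I ω) {v | (datI C ε I ω).2.2.2 v ∧ v ∈ innV (datI C ε I ω)} i := by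
  have hR := grayOK h hq hr h8 hI
  have hx := gxI_inj h hI
  unfold Cfg.NX
  rw [mem_ofPred_eq, gsites_img h hI, crs_img (B := blkI I ω) hR hx]
  have e : {v | xI ε I ω v ∈ Crest.Agent.R143.G6Vx408.blk ε ω ∩
      (C.inn (Finset.univ.image (xI ε I ω)) : Set ℂ)} =
      {v | (datI C ε I ω).2.2.2 v ∧ v ∈ innV (datI C ε I ω)} := by
    ext v
    rw [mem_ofPred_eq, mem_ofPred_eq, mem_inter_iff, blk_iff h hI, Finset.mem_coe,
      inn_img (B := blkI I ω) hR hx, Finset.mem_image]
    refine and_congr Iff.rfl ?_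
    constructor
    · rintro ⟨w, hw, hwv⟩
      rw [← hx hwv]
      exact hw
    · intro hv
      exact ⟨v, hv, rfl⟩
  rw [e]
  rfl

/-- **measurability of the network crossing** -/
theorem meas_NX (hq : ∀ k, ‖C.q k‖ = 1) (hR : ∀ i, IsOpen (C.R i)) (hr : 0 < rad K ε)
    (h8 : rad K ε < C.L / 8) (i : ZMod 4) : MeasurableSet (C.NX i ε ∩ Pm C K ε) := by
  have e : C.NX i ε ∩ Pm C K ε = ⋃ I : Finset Ix, (AI C.dom ε I ∩ Pm C K ε) ∩ (datI C ε I ⁻¹'
      {d | crsV d {v | d.2.2.2 v ∧ v ∈ innV d} i}) := by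
    ext ω
    rw [mem_iUnion]
    constructor
    · rintro ⟨h1, h2⟩
      have h := pg_of_Pm h2
      obtain ⟨I, hI⟩ := exists_gAI h
      exact ⟨I, ⟨hI, h2⟩, (gNX h hq hr h8 hI i).1 h1⟩
    · rintro ⟨I, ⟨hI, h2⟩, h3⟩
      exact ⟨(gNX (pg_of_Pm h2) hq hr h8 hI i).2 h3, h2⟩
  rw [e]
  exact MeasurableSet.iUnion fun I => ((AI_meas C.dom ε I).inter (Pm_meas C K ε)).inter
    (meas_of_datI hR ε I _)

/-- **measurability of the crossing probability** -/
theorem aesm_pr (hq : ∀ k, ‖C.q k‖ = 1) (hR : ∀ i, IsOpen (C.R i)) (hr : 0 < rad K ε)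
    (h8 : rad K ε < C.L / 8) (i : ZMod 4) :
    AEStronglyMeasurable (fun ω => C.pr (C.dom.sites ε ω) i) (sampleLaw.restrict (Pm C K ε)) := by
  have hcov : ∀ᵐ ω ∂(sampleLaw.restrict (Pm C K ε)), ω ∈ ⋃ I : Finset Ix, AI C.dom ε I := by
    rw [ae_restrict_iff' (Pm_meas C K ε)]
    refine Eventually.of_forall fun ω h2 => ?_
    obtain ⟨I, hI⟩ := exists_gAI (pg_of_Pm h2)
    exact mem_iUnion.2 ⟨I, hI⟩
  rw [← Measure.restrict_eq_self_of_ae_mem hcov]
  refine aestronglyMeasurable_iUnion_iff.2 fun I => ?_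
  have hg : Measurable fun ω : Sample => prV (datI C ε I ω) i := by
    intro A _
    exact meas_of_datI hR ε I {d | prV d i ∈ A}
  refine hg.aestronglyMeasurable.congr ?_
  rw [Filter.EventuallyEq, ae_restrict_iff' (AI_meas C.dom ε I),
    ae_restrict_iff' (Pm_meas C K ε)]
  exact Eventually.of_forall fun ω h2 hI => (gpr (pg_of_Pm h2) hq hr h8 hI i).symm

end Crest.Agent.R143.D4Bx304
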