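import Crest.Agent.R143.Y6B_831
import Crest.Agent.R143.Y1_126
import Crest.Agent.R143.Asm_336

/-!
# R143, block Y (helper831): literal leaves of the concentration step

* `Y8` : geometry of the deletion of one block in a good environment (deterministic)
* `M5Y` : measurability of the observable on the good positions
* `M6` : no block near the origin with more than `η log(1/ε)` points
* `M7` : no site on a given ray
* `YOUT` : the output (concentration of the mollified derivatives of the reference observable)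
-/

set_option autoImplicit false

noncomputable section

open scoped Classical

namespace Crest.Agent.R143.Y8Dx831

open MeasureTheory Set Filter Topology
open Crest.ProbabilityR.Voronoi
open Crest.Agent.R143.B0x346 Crest.Agent.R143.B0Dx346 Crest.Agent.R143.PP1x831
open Crest.Agent.R143.Y0x831 Crest.Agent.R143.Lawx831 Crest.Agent.R143.Varx831
open Crest.Agent.R143.Var3x831 Crest.Agent.R143.Y5Dx831 Crest.Agent.R143.Y6Ax831
open Crest.Agent.R143.Y6Bx831 Crest.Agent.R143.B1cx796 Crest.Agent.R143.Y1x126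
open Crest.Agent.R143.Mollx887 Crest.Agent.R143.Asmx336
open scoped ENNReal

local notation "smk" => Crest.Agent.R143.Lawx831.mk
local notation "Tk" => Crest.Agent.R143.Var2x831.Tk
local notation "del" => Crest.Agent.R143.Var2x831.del

/-- the closed cell `k` of the lattice at scale `ε` -/
def cellS (ε : ℝ) (k : ℤ × ℤ) : Set ℂ :=
  {z | ∃ x y : ℝ, 0 ≤ x ∧ x ≤ 1 ∧ 0 ≤ y ∧ y ≤ 1 ∧
    z = (ε : ℂ) * ((((k.1 : ℝ) + x : ℝ) : ℂ) + (((k.2 : ℝ) + y : ℝ) : ℂ) * Complex.I)}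

/-- `R1` is a radius of the free disc of `D` -/
structure Free1 (D : Dom) (R1 : ℝ) : Prop where
  pos : 0 < R1
  out : Metric.closedBall D.c (4 * R1) ∩ D.out = ∅
  le : 8 * R1 ≤ D.L

/-- **leaf EXJ0** (395, 922): in a good environment all half edges in the free disc have joins -/
def EXJ0 (D : Dom) (R1 : ℝ) : Prop := ∃ d0 : ℝ, 0 < d0 ∧ ∀ (ε d M : ℝ) (ω : Sample),
  0 < ε → 0 < d → d ≤ d0 → Env ε d M D.c D.L ω → ∀ a b c : ℂ, (a, b, c) ∈ delT (D.sites ε ω) →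
    a ∈ Metric.closedBall D.c (2 * R1) → b ∈ Metric.closedBall D.c (2 * R1) →
    ((D.netS (D.sites ε ω)).hj a b).card ≠ 0

/-- **leaf Y8** (geometry of the deletion of one block). `D`, `R1` fixed, `d → 0`. -/
def Y8 : Prop := ARC → Y3c → ∀ (D : Dom) (δ R1 : ℝ), D.OK δ → Free1 D R1 → EXJ0 D R1 →
  ∃ d0 : ℝ, 0 < d0 ∧ ∀ (ε d M : ℝ) (p : Pos), 0 < ε → ε ≤ d → d ≤ d0 →
    Env ε d M D.c D.L (smk p fun _ => 0) → InjP ε p →
    YG D ε p ∧
    (∀ᵐ z : ℂ, ‖z - D.c‖ < R1 → ∃ t ∈ delT (SP D ε p), z ∈ opn t) ∧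
    (∀ k' : ℤ × ℤ, cellS ε k' ⊆ Metric.closedBall D.c (2 * R1) →
      YG D ε (del k' p) ∧ BlkOK D ε p k' ∧
      (∃ M' : ℝ, Env ε (3 * d) M' D.c D.L (smk (del k' p) fun _ => 0))) ∧
    (∀ z : ℂ, ‖z - D.c‖ < R1 → ∀ t ∈ delT (SP D ε p), z ∈ opn t →
      (∀ x ∈ ({t.1, t.2.1, t.2.2} : Set ℂ), x ∈ Metric.closedBall D.c (2 * R1)) ∧
      ∃ s0 s1 s2 : ℂ × ℂ × ℂ, ∀ k' : ℤ × ℤ, cellS ε k' ⊆ Metric.closedBall D.c (2 * R1) →
        (∀ w ∈ cellS ε k', 5 * d ≤ ‖z - w‖) → TriD D ε p k' t s0 s1 s2)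

/-- positions on which the observable is a measurable function -/
structure GdP (D : Dom) (ε d : ℝ) (p : Pos) : Prop where
  env : ∃ M : ℝ, Env ε d M D.c D.L (smk p fun _ => 0)
  inj : InjP ε p
  /-- no site on the three rays -/
  ray : ∀ k : ZMod 3, ∀ v ∈ points ε (smk p fun _ => 0), ∀ t : ℝ, 0 ≤ t → v ≠ D.c + t * D.q k

/-- **leaf M5Y** : the observable is a measurable function on the good positions -/
def M5Y : Prop := ∀ (D : Dom) (δ : ℝ), D.OK δ → ∃ d0 : ℝ, 0 < d0 ∧ ∀ ε : ℝ, 0 < ε →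
  ∃ f : Pos × ℂ → ℂ, Measurable f ∧ (∀ q, ‖f q‖ ≤ 3) ∧
    ∀ (d : ℝ) (p : Pos), 0 < d → d ≤ d0 → GdP D ε d p → ∀ z : ℂ,
      f (p, z) = D.h ε (smk p fun _ => 0) z

/-- **leaf M6** : number of points in a block -/
def M6 : Prop := ∀ R A η : ℝ, 0 < η → ∀ᶠ ε : ℝ in 𝓝[>] 0,
  posLaw {p | ∃ k : ℤ × ℤ, (cellS ε k ∩ Metric.closedBall (0 : ℂ) R).Nonempty ∧
    η * Real.log (1 / ε) < ((p k).1 : ℝ)} ≤ ENNReal.ofReal (ε ^ A)

/-- **leaf M7** : no site on a given ray -/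
def M7 : Prop := ∀ (ε : ℝ) (c q : ℂ), 0 < ε → ‖q‖ = 1 →
  ∀ᵐ p ∂posLaw, ∀ v ∈ points ε (smk p fun _ => 0), ∀ t : ℝ, v ≠ c + t * q

/-- the square of the cells around the origin, side `2 n` -/
def Ksq (n : ℤ) : Set (ℤ × ℤ) := Ico (-n) n ×ˢ Ico (-n) n

/-- **OUTPUT of block Y**: `D` is a domain with centre `0` and free disc of radius `4 R1`; the cells
outside the square of half side `R1` are frozen (`ω0`). `s`, `e` are the expectations of the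
mollified `∂̄` and `∂` of the observable. `c1` does not depend on `κ`. -/
def YOUT : Prop := ∀ (D : Dom) (δ R1 : ℝ), D.OK δ → D.c = 0 → Free1 D R1 → EXJ0 D R1 →
  ∀ A : ℝ, 0 < A → ∃ C K a C4 c1 κ0 : ℝ, 0 < C ∧ 0 < K ∧ 0 < a ∧ 0 < C4 ∧ 0 < c1 ∧ 0 < κ0 ∧
    ∀ κ : ℝ, 0 < κ → κ ≤ κ0 → ∀ᶠ ε : ℝ in 𝓝[>] 0,
      ∃ (ω0 : Sample) (s e : ℂ) (Y Z : Sample → ℂ) (E : Set Sample), Measurable Y ∧ Measurable Z ∧
        MeasurableSet E ∧ sampleLaw Eᶜ ≤ ENNReal.ofReal (ε ^ A) ∧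
        (∀ ω ∈ E, Good D ε C K a C4 (fr (Ksq ⌊R1 / ε⌋) ω ω0) ∧
          Y ω = Sb (ε ^ κ) (D.h ε (fr (Ksq ⌊R1 / ε⌋) ω ω0)) 0 ∧
          Z ω = Db (ε ^ κ) (D.h ε (fr (Ksq ⌊R1 / ε⌋) ω ω0)) 0) ∧
        ∫⁻ ω, ‖Y ω - s‖ₑ ∂sampleLaw ≤ ENNReal.ofReal (ε ^ c1) ∧
        ∫⁻ ω, ‖Z ω - e‖ₑ ∂sampleLaw ≤ ENNReal.ofReal (ε ^ c1)

end Crest.Agent.R143.Y8Dx831
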