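import Crest.Agent.R143.Meas_304
import Crest.Agent.R143.Y8D_831
import Crest.Agent.R143.Spine_422
import Crest.Agent.R143.Ad_422
import Crest.Agent.R143.PoisM3c_501

/-!
# Row 143 (S0194), leaf M5 : `M5Y` and `LGood` (helper304)

* `uniq_cross` : the hull edge crossed by a ray from the centre is unique
* `gm_of` : good samples (`Meas_304.GM`)
* `m5y` : the literal leaf `M5Y`
-/

set_option autoImplicit false
set_option linter.all false

noncomputable section

open scoped Classical

namespace Crest.Agent.R143.M5x304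

open MeasureTheory Set Filter Topology
open Crest.ProbabilityR.Voronoi
open Crest.Agent.R143.B0x346 Crest.Agent.R143.B0Dx346 Crest.Agent.R143.DelGx806
  Crest.Agent.R143.DelRx806 Crest.Agent.R143.DomAx722 Crest.Agent.R143.Measx304
  Crest.Agent.R143.Lawx831 Crest.Agent.R143.Y5Dx831 Crest.Agent.R143.Y8Dx831
  Crest.Agent.R143.PP1x831

/-- an affine function on a segment -/
theorem cr_seg {a b a' b' z : ℂ} (hz : z ∈ segment ℝ a' b') : ∃ s : ℝ, 0 ≤ s ∧ s ≤ 1 ∧
    z = (1 - s : ℝ) * a' + (s : ℝ) * b' ∧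
    cr (b - a) (z - a) = (1 - s) * cr (b - a) (a' - a) + s * cr (b - a) (b' - a) := by
  rw [segment_eq_image] at hz
  obtain ⟨s, ⟨hs0, hs1⟩, rfl⟩ := hz
  refine ⟨s, hs0, hs1, ?_, ?_⟩
  · simp only [Complex.real_smul]
  · simp only [Complex.real_smul]
    unfold cr
    simp only [Complex.add_re, Complex.add_im, Complex.sub_re, Complex.sub_im, Complex.mul_re,
      Complex.mul_im, Complex.ofReal_re, Complex.ofReal_im]
    ring

/-- **the crossed hull edge is unique** -/
theorem uniq_cross {S : Finset ℂ} {c q : ℂ} (hS : GP (S : Set ℂ))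
    (hc : ∀ a b, hullE S a b → 0 < cr (b - a) (c - a))
    (hray : ∀ s ∈ S, ∀ t : ℝ, 0 ≤ t → c + t * q ≠ s) {p p' : ℂ × ℂ} (h : crossRay S c q p)
    (h' : crossRay S c q p') : p = p' := by
  obtain ⟨a, b⟩ := p
  obtain ⟨a', b'⟩ := p'
  obtain ⟨h1, t, ht, hz⟩ := h
  obtain ⟨h1', t', ht', hz'⟩ := h'
  dsimp only at h1 h1' hz hz'
  have hA : ∀ t : ℝ, ∀ a b : ℂ, cr (b - a) (c + t * q - a) = cr (b - a) (c - a) + t * cr (b - a) q := by
    intro t a b
    unfold cr
    simp only [Complex.add_re, Complex.add_im, Complex.sub_re, Complex.sub_im, Complex.mul_re,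
      Complex.mul_im, Complex.ofReal_re, Complex.ofReal_im]
    ring
  have key : ∀ {a b a' b' : ℂ} {t t' : ℝ}, hullE S a b → hullE S a' b' → 0 ≤ t → 0 ≤ t' →
      c + t * q ∈ segment ℝ a b → c + t' * q ∈ segment ℝ a' b' → t' ≤ t := by
    intro a b a' b' t t' h1 h1' ht ht' hz hz'
    obtain ⟨s, -, -, -, e⟩ := cr_seg (a := a) (b := b) hz
    obtain ⟨s', hs0, hs1, -, e'⟩ := cr_seg (a := a) (b := b) hz'
    rw [cr_left, cr_right, hA] at e
    rw [hA] at e'
    have k1 := hull_side h1 a' (hullE.mem h1').1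
    have k2 := hull_side h1 b' (hullE.mem h1').2
    have k3 := hc a b h1
    have k4 : 0 ≤ cr (b - a) (c - a) + t' * cr (b - a) q := by
      rw [e']
      have := mul_nonneg (sub_nonneg.2 hs1) k1
      have := mul_nonneg hs0 k2
      linarith
    have k5 : cr (b - a) (c - a) + t * cr (b - a) q = 0 := by rw [e]; ring
    by_contra hcon
    push Not at hcon
    have hm : cr (b - a) q < 0 := by
      by_contra hm
      push Not at hm
      have := mul_nonneg ht hm
      linarith
    have := mul_lt_mul_of_neg_right hcon hm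
    linarith
  have hle := key h1 h1' ht ht' hz hz'
  have hge := key h1' h1 ht' ht hz' hz
  have htt : t = t' := le_antisymm hge hle
  subst htt
  -- the crossing point is on the line `a' b'`
  obtain ⟨s, hs0, hs1, ez, e⟩ := cr_seg (a := a') (b := b') hz
  obtain ⟨s', -, -, -, e'⟩ := cr_seg (a := a') (b := b') hz'
  rw [cr_left, cr_right, e] at e'
  have k1 := hull_side h1' a (hullE.mem h1).1
  have k2 := hull_side h1' b (hullE.mem h1).2
  have s0 : 0 < s := by
    rcases hs0.lt_or_eq with h | h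
    · exact h
    · exfalso
      apply hray a (hullE.mem h1).1 t ht
      rw [ez, ← h]
      push_cast
      ring
  have s1 : s < 1 := by
    rcases hs1.lt_or_eq with h | h
    · exact h
    · exfalso
      apply hray b (hullE.mem h1).2 t ht
      rw [ez, h]
      push_cast
      ring
  have m1 := mul_nonneg (sub_nonneg.2 hs1) k1
  have m2 := mul_nonneg hs0 k2
  have z1 : cr (b' - a') (a - a') = 0 := by
    have : (1 - s) * cr (b' - a') (a - a') = 0 := by linarith
    exact (mul_eq_zero.1 this).resolve_left (by linarith)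
  have z2 : cr (b' - a') (b - a') = 0 := by
    have : s * cr (b' - a') (b - a') = 0 := by linarith
    exact (mul_eq_zero.1 this).resolve_left (by linarith)
  have hab := hullE.ne h1
  have hab' := hullE.ne h1'
  have mem : ∀ x ∈ S, cr (b' - a') (x - a') = 0 → x = a' ∨ x = b' := by
    intro x hx h0
    by_contra hcon
    push Not at hcon
    exact hS.line a' (hullE.mem h1').1 b' (hullE.mem h1').2 x hx hab' hcon.2.symm hcon.1.symm h0
  rcases mem a (hullE.mem h1).1 z1 with ha | ha
  · rcases mem b (hullE.mem h1).2 z2 with hb | hb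
    · exact absurd (ha.trans hb.symm) hab
    · rw [ha, hb]
  · rcases mem b (hullE.mem h1).2 z2 with hb | hb
    · exfalso
      rw [ha, hb] at h1
      obtain ⟨e1, he1⟩ := h1.1
      exact h1'.2 e1 he1
    · exact absurd (ha.trans hb.symm) hab

/-- **good samples** -/
theorem gm_of {D : Dom} {δ ε d : ℝ} {ω : Sample} (hD : D.W δ)
    (hfin : (points ε ω ∩ Metric.closedBall D.c D.L).Finite)
    (hinj : ∀ p ∈ present ω, ∀ q ∈ present ω,
      point ε ω (p.1, p.2.1) p.2.2 = point ε ω (q.1, q.2.1) q.2.2 → p = q)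
    (hS : Dns (D.sites ε ω) D.c D.L d)
    (hray : ∀ k : ZMod 3, ∀ v ∈ points ε ω, ∀ t : ℝ, 0 ≤ t → v ≠ D.c + t * D.q k) :
    GM D ε ω where
  fin := hfin
  inj := hinj
  gp := hS.gp
  ex k := crossRay_exists hS (hD.qn k)
  uniq k p p' h h' := by
    refine uniq_cross hS.gp (fun a b hab => ?_) (fun s hs t ht => ?_) h h'
    · have h1 := edge_dist hS hab
      have h2 : 0 < ‖b - a‖ := norm_pos_iff.2 (sub_ne_zero.2 (hullE.ne hab).symm)
      have h3 := hS.dpos
      have h4 := hS.dL
      exact lt_of_lt_of_le (mul_pos (by linarith) h2) h1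
    · exact (hray k s ((mem_sites hfin).1 hs).1 t ht).symm

theorem out_open {D : Dom} {δ : ℝ} (hD : D.W δ) : IsOpen D.out := isOpen_iUnion hD.opn

theorem mk_meas : Measurable fun p : Pos => Crest.Agent.R143.Lawx831.mk p fun _ => 0 := by
  unfold Crest.Agent.R143.Lawx831.mk
  refine Measurable.prodMk ?_ ?_
  · exact measurable_pi_iff.2 fun k => measurable_fst.comp (measurable_pi_apply k)
  · refine measurable_pi_iff.2 fun k => measurable_pi_iff.2 fun j => measurable_pi_iff.2 fun i => ?_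
    have h : Measurable fun p : Pos => (p k).2 j :=
      (measurable_pi_apply j).comp (measurable_snd.comp (measurable_pi_apply k))
    fin_cases i
    · exact measurable_fst.comp h
    · exact measurable_snd.comp h
    · exact measurable_const

/-- **leaf M5Y** -/
theorem m5y : M5Y := by
  intro D δ hD
  refine ⟨D.L / 8, by have := hD.Lpos; positivity, fun ε hε => ?_⟩
  obtain ⟨f, hf, hf2⟩ := exists_meas (out_open hD.w) ε
  refine ⟨fun q => if ‖f (Crest.Agent.R143.Lawx831.mk q.1 fun _ => 0, q.2)‖ ≤ 3 then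
    f (Crest.Agent.R143.Lawx831.mk q.1 fun _ => 0, q.2) else 0, ?_, ?_, ?_⟩
  · have h1 : Measurable fun q : Pos × ℂ =>
        f (Crest.Agent.R143.Lawx831.mk q.1 fun _ => 0, q.2) :=
      hf.comp ((mk_meas.comp measurable_fst).prodMk measurable_snd)
    exact Measurable.ite (measurableSet_le h1.norm measurable_const) h1 measurable_const
  · intro q
    dsimp only
    split_ifs with h
    · exact h
    · rw [norm_zero]; norm_num
  · intro d p hd hd0 hG z
    obtain ⟨M, hE⟩ := hG.env
    have hGM : GM D ε (Crest.Agent.R143.Lawx831.mk p fun _ => 0) := by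
      refine gm_of hD.w hE.fin ?_ (dns_of_env hD.Lpos (by linarith) hE) hG.ray
      intro i hi j hj hij
      have h1 := hG.inj ((present_mk p _ i).1 hi) ((present_mk p _ j).1 hj) (by
        rw [← point_mk, ← point_mk]
        exact hij)
      simp only [Prod.mk.injEq] at h1
      exact Prod.ext h1.1.1 (Prod.ext h1.1.2 h1.2)
    have h2 := hf2 _ hGM z
    dsimp only
    rw [h2, if_pos (Crest.Agent.R143.Spinex422.norm_h_le D ε _ z)]

/-! ### LGood -/

theorem ray_null {ε : ℝ} (hε : 0 < ε) (c : ℂ) {q : ℂ} (hq : q ≠ 0) :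
    ∀ᵐ ω ∂sampleLaw, ∀ v ∈ points ε ω, ∀ t : ℝ, v ≠ c + t * q := by
  have h1 : ∀ᵐ x ∂Crest.Agent.R143.PoisM3x930.nu, ∀ i : Ix,
      cr q (Crest.Agent.R143.PoisM3x930.q ε x i - c) ≠ 0 := by
    rw [ae_all_iff]
    intro i
    refine Crest.Agent.R143.PoisM3x930.fresh hε i (fun x z => cr q (z - c)) ?_ (fun x m z => rfl)
      (Eventually.of_forall fun x => Crest.Agent.R143.PoisM3x930.line_null hq c)
    exact Crest.Agent.R143.PoisM3x930.measurable_cr measurable_const
      (measurable_snd.sub measurable_const)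
  filter_upwards [Crest.Agent.R143.PoisM3x930.marks_ae h1] with ω hω
  rintro v ⟨p, -, rfl⟩ t ht
  apply hω ((p.1, p.2.1), p.2.2)
  rw [← Crest.Agent.R143.PoisM3x930.point_eq]
  show cr q (point ε ω (p.1, p.2.1) p.2.2 - c) = 0
  dsimp only at ht
  rw [ht]
  unfold cr
  simp only [Complex.add_re, Complex.add_im, Complex.sub_re, Complex.sub_im, Complex.mul_re,
    Complex.mul_im, Complex.ofReal_re, Complex.ofReal_im]
  ring

theorem rad_small (C : ℝ) : Tendsto (fun ε : ℝ => rad C ε) (𝓝[>] 0) (𝓝 0) := by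
  have h1 : Tendsto (fun ε : ℝ => ε * Real.sqrt (Real.log (1 / ε))) (𝓝[>] 0) (𝓝 0) := by
    have h2 : Tendsto (fun ε : ℝ => Real.log ε * ε ^ (1 : ℝ)) (𝓝[>] 0) (𝓝 0) :=
      tendsto_log_mul_rpow_nhdsGT_zero zero_lt_one
    have h3 : Tendsto (fun ε : ℝ => Real.sqrt (ε * (-(Real.log ε * ε ^ (1 : ℝ))))) (𝓝[>] 0)
        (𝓝 (Real.sqrt (0 * (-0)))) := by
      refine (Real.continuous_sqrt.tendsto _).comp (Tendsto.mul ?_ h2.neg)
      exact tendsto_nhdsWithin_of_tendsto_nhds tendsto_id
    rw [zero_mul, Real.sqrt_zero] at h3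
    refine h3.congr' ?_
    filter_upwards [self_mem_nhdsWithin] with ε hε
    have hε' : (0 : ℝ) < ε := hε
    rw [Real.rpow_one, one_div, Real.log_inv]
    have e : ε * -(Real.log ε * ε) = ε ^ 2 * (-Real.log ε) := by ring
    rw [e, Real.sqrt_mul (by positivity), Real.sqrt_sq hε'.le]
  have h4 : (fun ε : ℝ => rad C ε) = fun ε : ℝ => C * (ε * Real.sqrt (Real.log (1 / ε))) := by
    funext ε
    unfold rad
    ring
  rw [h4]
  simpa using h1.const_mul C

/-- **leaf LGood** (from M3c) -/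
theorem lgood (hM3c : M3c) {Adm : Dom → ℝ → Prop} (hA : ∀ D δ, Adm D δ → D.W δ) :
    Crest.Agent.R143.Spinex422.LGood Adm := by
  intro D δ hDA
  have hD := hA D δ hDA
  obtain ⟨C, hC, hev⟩ := hM3c (‖D.c‖ + D.L) 10
  have hGM : ∀ᶠ ε : ℝ in 𝓝[>] 0,
      sampleLaw {ω | ¬ GM D ε ω} ≤ ENNReal.ofReal (ε ^ (10 : ℝ)) := by
    have hL := hD.Lpos
    have h8 : ∀ᶠ ε : ℝ in 𝓝[>] 0, rad C ε < D.L / 8 :=
      (rad_small C).eventually_lt_const (by positivity)
    have h1 : ∀ᶠ ε : ℝ in 𝓝[>] 0, ε < 1 := by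
      refine nhdsWithin_le_nhds ?_
      exact Iio_mem_nhds one_pos
    filter_upwards [hev, h8, h1, self_mem_nhdsWithin] with ε hε h8 h1 hpos
    have hpos' : (0 : ℝ) < ε := hpos
    have hrad : 0 < rad C ε := by
      unfold rad
      have : 0 < Real.log (1 / ε) := Real.log_pos (by rw [lt_div_iff₀ hpos']; linarith)
      positivity
    have hray : ∀ k : ZMod 3, ∀ᵐ ω ∂sampleLaw, ∀ v ∈ points ε ω, ∀ t : ℝ, v ≠ D.c + t * D.q k :=
      fun k => ray_null hpos' D.c (fun h => by have := hD.qn k; rw [h, norm_zero] at this; norm_num at this)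
    have hae : ∀ᵐ ω ∂sampleLaw, ¬ GM D ε ω → ω ∈ {ω | ∃ z ∈ Metric.closedBall (0 : ℂ) (‖D.c‖ + D.L),
        points ε ω ∩ Metric.ball z (rad C ε) = ∅} := by
      filter_upwards [Crest.Agent.R143.PoisM3x930.m3a ε hpos', ae_all_iff.2 hray] with ω hω hr hn
      by_contra hcon
      apply hn
      have hfin : (points ε ω ∩ Metric.closedBall D.c D.L).Finite := by
        refine (hω.2.2 (‖D.c‖ + D.L)).subset ?_
        rintro z ⟨hz, hz2⟩
        refine ⟨hz, ?_⟩
        rw [Metric.mem_closedBall, dist_eq_norm] at hz2 ⊢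
        rw [sub_zero]
        calc ‖z‖ = ‖D.c + (z - D.c)‖ := by congr 1; ring
          _ ≤ ‖D.c‖ + ‖z - D.c‖ := norm_add_le _ _
          _ ≤ _ := by linarith
      refine gm_of (d := rad C ε) hD hfin hω.2.1 ?_ (fun k v hv t _ => hr k v hv t)
      refine ⟨gp_mono (fun s hs => ((mem_sites hfin).1 hs).1) hω.1, hrad, by linarith,
        fun s hs => ((mem_sites hfin).1 hs).2, fun z hz => ?_⟩
      have hz0 : z ∈ Metric.closedBall (0 : ℂ) (‖D.c‖ + D.L) := by
        rw [Metric.mem_closedBall, dist_eq_norm, sub_zero]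
        calc ‖z‖ = ‖D.c + (z - D.c)‖ := by congr 1; ring
          _ ≤ ‖D.c‖ + ‖z - D.c‖ := norm_add_le _ _
          _ ≤ _ := by linarith
      have hne : (points ε ω ∩ Metric.ball z (rad C ε)).Nonempty := by
        rw [Set.nonempty_iff_ne_empty]
        exact fun h => hcon ⟨z, hz0, h⟩
      obtain ⟨s, hs1, hs2⟩ := hne
      rw [Metric.mem_ball, dist_eq_norm] at hs2
      refine ⟨s, (mem_sites hfin).2 ⟨hs1, ?_⟩, hs2⟩
      calc ‖s - D.c‖ = ‖(s - z) + (z - D.c)‖ := by congr 1; ring
        _ ≤ ‖s - z‖ + ‖z - D.c‖ := norm_add_le _ _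
        _ ≤ D.L := by linarith
    exact (measure_mono_ae hae).trans hε
  have hsub : ∀ ε, ∀ ω ∈ (toMeasurable sampleLaw {ω | ¬ GM D ε ω})ᶜ, GM D ε ω := by
    intro ε ω hω
    by_contra hcon
    exact hω (subset_toMeasurable _ _ hcon)
  have hae : ∀ ε, ∀ᵐ ω ∂(sampleLaw.restrict (toMeasurable sampleLaw {ω | ¬ GM D ε ω})ᶜ),
      GM D ε ω := by
    intro ε
    rw [ae_restrict_iff' (measurableSet_toMeasurable _ _).compl]
    exact Eventually.of_forall fun ω hω => hsub ε ω hω
  haveI : IsProbabilityMeasure sampleLaw := by unfold sampleLaw; infer_instance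
  refine ⟨fun ε => (toMeasurable sampleLaw {ω | ¬ GM D ε ω})ᶜ,
    fun ε => (measurableSet_toMeasurable _ _).compl, ?_, ?_, ?_⟩
  · filter_upwards [hGM] with ε hε
    rw [compl_compl, measure_toMeasurable]
    exact hε
  · exact Eventually.of_forall fun ε z => hm1 (out_open hD) (hae ε) z
  · exact Eventually.of_forall fun ε => hm2 (out_open hD) (hae ε)

/-- **leaf LGood** -/
theorem lgood' {Adm : Dom → ℝ → Prop} (hA : ∀ D δ, Adm D δ → D.W δ) :
    Crest.Agent.R143.Spinex422.LGood Adm := lgood Crest.Agent.R143.PoisM3cx501.m3c hA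

end Crest.Agent.R143.M5x304
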