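import Crest.Agent.R143.B0D_346
import Crest.Agent.R143.DelG_806

/-!
# Row 143, block M, leaf M5 part A (helper606): deterministic transport of the observable

* `F_map` : the observable `F` of a network is transported by an injective relabelling of the
  vertices which respects triangles, killed edges (on edges) and marks.
* `hval_eq` : for sites `x : Fin n → ℂ` in general position, `hval (D.netS S) z` is a finite sum over
  the triangles of an abstract network on `Fin n`.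
-/

set_option autoImplicit false

noncomputable section

open scoped Classical

namespace Crest.Agent.R143.M5Ax606

open Crest.Agent.R143.B0x346 Crest.Agent.R143.B0Dx346

variable {V W : Type}

/-- the embedding on pairs -/
def pe (f : V ↪ W) : V × V ↪ W × W := f.prodMap f

@[simp] theorem pe_apply (f : V ↪ W) (p : V × V) : pe f p = (f p.1, f p.2) := rfl

theorem pe_mem_map (f : V ↪ W) (J : Finset (V × V)) (a b : V) :
    (f a, f b) ∈ J.map (pe f) ↔ (a, b) ∈ J := by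
  have : (f a, f b) = pe f (a, b) := rfl
  rw [this, Finset.mem_map' (pe f)]

/-- the embedding on joins -/
def je (f : V ↪ W) : Finset (V × V) ↪ Finset (W × W) := (Finset.mapEmbedding (pe f)).toEmbedding

@[simp] theorem je_apply (f : V ↪ W) (J : Finset (V × V)) : je f J = J.map (pe f) := rfl

/-- relabelling of triangulations -/
structure TMap (f : V ↪ W) (G : Trg V) (G' : Trg W) : Prop where
  iff : ∀ a b c, (f a, f b, f c) ∈ G'.T ↔ (a, b, c) ∈ G.T
  surj : ∀ t ∈ G'.T, ∃ a b c, t = (f a, f b, f c)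

variable {f : V ↪ W} {G : Trg V} {G' : Trg W}

theorem mem_E {G : Trg V} {a b : V} :
    (a, b) ∈ G.E ↔ (∃ c, (a, b, c) ∈ G.T) ∨ (∃ c, (b, a, c) ∈ G.T) := by
  unfold Trg.E
  simp only [Finset.mem_union, Finset.mem_image, Prod.exists, Prod.mk.injEq]
  constructor
  · rintro (⟨x, y, z, h, rfl, rfl⟩ | ⟨x, y, z, h, rfl, rfl⟩)
    · exact Or.inl ⟨z, h⟩
    · exact Or.inr ⟨z, h⟩
  · rintro (⟨c, h⟩ | ⟨c, h⟩)
    · exact Or.inl ⟨a, b, c, h, rfl, rfl⟩
    · exact Or.inr ⟨b, a, c, h, rfl, rfl⟩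

theorem E_symm {G : Trg V} {a b : V} (h : (a, b) ∈ G.E) : (b, a) ∈ G.E := by
  rw [mem_E] at h ⊢; exact h.symm

theorem TMap.third (h : TMap f G G') {a b : V} {c' : W} (hc : (f a, f b, c') ∈ G'.T) :
    ∃ c, c' = f c ∧ (a, b, c) ∈ G.T := by
  obtain ⟨x, y, z, e⟩ := h.surj _ hc
  simp only [Prod.mk.injEq] at e
  obtain ⟨e1, e2, e3⟩ := e
  have e1 := f.injective e1
  have e2 := f.injective e2
  subst e1; subst e2; subst e3
  exact ⟨z, rfl, (h.iff _ _ _).1 hc⟩

theorem TMap.memE (h : TMap f G G') {a b : V} : (f a, f b) ∈ G'.E ↔ (a, b) ∈ G.E := by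
  rw [mem_E, mem_E]
  constructor
  · rintro (⟨c, hc⟩ | ⟨c, hc⟩)
    · obtain ⟨c, -, hc1⟩ := h.third hc; exact Or.inl ⟨c, hc1⟩
    · obtain ⟨c, -, hc1⟩ := h.third hc; exact Or.inr ⟨c, hc1⟩
  · rintro (⟨c, hc⟩ | ⟨c, hc⟩)
    · exact Or.inl ⟨f c, (h.iff _ _ _).2 hc⟩
    · exact Or.inr ⟨f c, (h.iff _ _ _).2 hc⟩

theorem TMap.E_surj (h : TMap f G G') {a' b' : W} (he : (a', b') ∈ G'.E) :
    ∃ a b, a' = f a ∧ b' = f b := by
  rw [mem_E] at he
  rcases he with ⟨c, hc⟩ | ⟨c, hc⟩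
  · obtain ⟨x, y, z, e⟩ := h.surj _ hc
    simp only [Prod.mk.injEq] at e
    exact ⟨x, y, e.1, e.2.1⟩
  · obtain ⟨x, y, z, e⟩ := h.surj _ hc
    simp only [Prod.mk.injEq] at e
    exact ⟨y, x, e.2.1, e.1⟩

theorem TMap.E_eq (h : TMap f G G') : G'.E = G.E.map (pe f) := by
  ext ⟨a', b'⟩
  constructor
  · intro he
    obtain ⟨a, b, rfl, rfl⟩ := h.E_surj he
    rw [pe_mem_map]; exact h.memE.1 he
  · intro he
    rw [Finset.mem_map] at he
    obtain ⟨⟨a, b⟩, hm, e⟩ := he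
    rw [← e]; exact h.memE.2 hm

/-- pairs not in the range are not in a mapped set -/
theorem mem_map_range {J : Finset (V × V)} {a' b' : W} (h : (a', b') ∈ J.map (pe f)) :
    ∃ a b, a' = f a ∧ b' = f b ∧ (a, b) ∈ J := by
  rw [Finset.mem_map] at h
  obtain ⟨⟨a, b⟩, hm, e⟩ := h
  simp only [pe_apply, Prod.mk.injEq] at e
  exact ⟨a, b, e.1.symm, e.2.symm, hm⟩

theorem TMap.isJoin (h : TMap f G G') {kl : Set (V × V)} {kl' : Set (W × W)}
    (hk : ∀ a b, (a, b) ∈ G.E → ((f a, f b) ∈ kl' ↔ (a, b) ∈ kl))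
    {O : Set (V × V × V)} {O' : Set (W × W × W)}
    (hO : ∀ a b c, (f a, f b, f c) ∈ O' ↔ (a, b, c) ∈ O)
    {D : Set (V × V)} {D' : Set (W × W)}
    (hD : ∀ a b, (f a, f b) ∈ D' ↔ (a, b) ∈ D) (hD' : ∀ p ∈ D', ∃ a b, p = (f a, f b))
    (J : Finset (V × V)) :
    IsJoin G' kl' O' D' (J.map (pe f)) ↔ IsJoin G kl O D J := by
  constructor
  · intro H
    refine ⟨?_, ?_, ?_, ?_, ?_, ?_⟩
    · rintro ⟨a, b⟩ hab
      have := H.sub ((pe_mem_map f J a b).2 hab)
      exact h.memE.1 this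
    · intro a b h1 h2
      have := H.sym (f a) (f b) (by rwa [hD]) (by rwa [hD])
      rwa [pe_mem_map, pe_mem_map] at this
    · intro a b h1
      have := H.mark (f a) (f b) (by rwa [hD])
      rwa [pe_mem_map, pe_mem_map] at this
    · intro a b h1 h2
      have := H.bdr (f a) (f b) (fun c' hc => by
        obtain ⟨c, -, hc1⟩ := h.third hc
        exact h1 c hc1) (by rwa [hD])
      rwa [pe_mem_map, pe_mem_map] at this
    · intro a b h1 h2 h3
      by_cases he : (a, b) ∈ G.E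
      · have := H.kill (f a) (f b) ((hk a b he).2 h1) (by rwa [hD]) (by rwa [hD])
        rwa [pe_mem_map, pe_mem_map] at this
      · constructor
        · intro hab
          exact he (h.memE.1 (H.sub ((pe_mem_map f J a b).2 hab)))
        · intro hab
          exact he (E_symm (h.memE.1 (H.sub ((pe_mem_map f J b a).2 hab))))
    · intro a b c hc
      have := H.par (f a) (f b) (f c) ((h.iff _ _ _).2 hc)
      simp only [pe_mem_map, hO] at this
      exact this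
  · intro H
    refine ⟨?_, ?_, ?_, ?_, ?_, ?_⟩
    · rw [h.E_eq]
      exact Finset.map_subset_map.2 H.sub
    · intro a' b' h1 h2
      constructor
      · intro hab
        obtain ⟨a, b, rfl, rfl, hm⟩ := mem_map_range hab
        rw [pe_mem_map]
        exact (H.sym a b (by rwa [← hD]) (by rwa [← hD])).1 hm
      · intro hab
        obtain ⟨b, a, rfl, rfl, hm⟩ := mem_map_range hab
        rw [pe_mem_map]
        exact (H.sym a b (by rwa [← hD]) (by rwa [← hD])).2 hm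
    · intro a' b' h1
      obtain ⟨a, b, e⟩ := hD' _ h1
      simp only [Prod.mk.injEq] at e
      obtain ⟨rfl, rfl⟩ := e
      rw [pe_mem_map, pe_mem_map]
      exact H.mark a b (by rwa [← hD])
    · intro a' b' h1 h2
      constructor
      · intro hab
        obtain ⟨a, b, rfl, rfl, hm⟩ := mem_map_range hab
        exact (H.bdr a b (fun c hc => h1 (f c) ((h.iff _ _ _).2 hc)) (by rwa [← hD])).1 hm
      · intro hab
        obtain ⟨b, a, rfl, rfl, hm⟩ := mem_map_range hab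
        exact (H.bdr a b (fun c hc => h1 (f c) ((h.iff _ _ _).2 hc)) (by rwa [← hD])).2 hm
    · intro a' b' h1 h2 h3
      constructor
      · intro hab
        obtain ⟨a, b, rfl, rfl, hm⟩ := mem_map_range hab
        exact (H.kill a b ((hk a b (H.sub hm)).1 h1) (by rwa [← hD]) (by rwa [← hD])).1 hm
      · intro hab
        obtain ⟨b, a, rfl, rfl, hm⟩ := mem_map_range hab
        exact (H.kill a b ((hk a b (E_symm (H.sub hm))).1 h1) (by rwa [← hD]) (by rwa [← hD])).2 hm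
    · intro a' b' c' hc
      obtain ⟨a, b, c, e⟩ := h.surj _ hc
      simp only [Prod.mk.injEq] at e
      obtain ⟨rfl, rfl, rfl⟩ := e
      simp only [pe_mem_map, hO]
      exact H.par a b c ((h.iff _ _ _).1 hc)

theorem TMap.joins_eq (h : TMap f G G') {kl : Set (V × V)} {kl' : Set (W × W)}
    (hk : ∀ a b, (a, b) ∈ G.E → ((f a, f b) ∈ kl' ↔ (a, b) ∈ kl))
    {O : Set (V × V × V)} {O' : Set (W × W × W)}
    (hO : ∀ a b c, (f a, f b, f c) ∈ O' ↔ (a, b, c) ∈ O)
    {D : Set (V × V)} {D' : Set (W × W)}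
    (hD : ∀ a b, (f a, f b) ∈ D' ↔ (a, b) ∈ D) (hD' : ∀ p ∈ D', ∃ a b, p = (f a, f b)) :
    joins G' kl' O' D' = (joins G kl O D).map (je f) := by
  ext J'
  simp only [joins, Finset.mem_filter, Finset.mem_powerset, Finset.mem_map, je_apply]
  constructor
  · rintro ⟨h1, h2⟩
    rw [h.E_eq] at h1
    obtain ⟨J, hJ, rfl⟩ := Finset.subset_map_iff.1 h1
    exact ⟨J, ⟨hJ, (h.isJoin hk hO hD hD' J).1 h2⟩, rfl⟩
  · rintro ⟨J, ⟨h1, h2⟩, rfl⟩
    refine ⟨?_, (h.isJoin hk hO hD hD' J).2 h2⟩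
    rw [h.E_eq]
    exact Finset.map_subset_map.2 h1

theorem TMap.step (h : TMap f G G') {O : Set (V × V × V)} {O' : Set (W × W × W)}
    (hO : ∀ a b c, (f a, f b, f c) ∈ O' ↔ (a, b, c) ∈ O)
    {D : Set (V × V)} {D' : Set (W × W)}
    (hD : ∀ a b, (f a, f b) ∈ D' ↔ (a, b) ∈ D) (J : Finset (V × V)) (p : V × V) (q' : W × W) :
    Step G' O' D' (J.map (pe f)) (pe f p) q' ↔ ∃ q, q' = pe f q ∧ Step G O D J p q := by
  obtain ⟨a, b⟩ := p
  simp only [Step, pe_apply]
  constructor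
  · rintro ⟨c', h1, h2, h3, h4⟩
    obtain ⟨c, rfl, hc⟩ := h.third h1
    rw [hO] at h2
    rw [hD] at h3
    simp only [pe_mem_map] at h4
    rcases h4 with ⟨h4, rfl⟩ | ⟨h4, h5, rfl⟩
    · exact ⟨(c, b), rfl, c, hc, h2, h3, Or.inl ⟨h4, rfl⟩⟩
    · exact ⟨(a, c), rfl, c, hc, h2, h3, Or.inr ⟨h4, h5, rfl⟩⟩
  · rintro ⟨q, rfl, c, h1, h2, h3, h4⟩
    refine ⟨f c, (h.iff _ _ _).2 h1, by rwa [hO], by rwa [hD], ?_⟩
    simp only [pe_mem_map]
    rcases h4 with ⟨h4, rfl⟩ | ⟨h4, h5, rfl⟩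
    · exact Or.inl ⟨h4, rfl⟩
    · exact Or.inr ⟨h4, h5, rfl⟩

theorem TMap.leads (h : TMap f G G') {O : Set (V × V × V)} {O' : Set (W × W × W)}
    (hO : ∀ a b c, (f a, f b, f c) ∈ O' ↔ (a, b, c) ∈ O)
    {D : Set (V × V)} {D' : Set (W × W)}
    (hD : ∀ a b, (f a, f b) ∈ D' ↔ (a, b) ∈ D) (J : Finset (V × V)) (p q : V × V) :
    Leads G' O' D' (J.map (pe f)) (pe f p) (pe f q) ↔ Leads G O D J p q := by
  constructor
  · intro H
    have key : ∀ r' : W × W, Leads G' O' D' (J.map (pe f)) (pe f p) r' →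
        ∃ r, r' = pe f r ∧ Leads G O D J p r := by
      intro r' hr
      induction hr with
      | refl => exact ⟨p, rfl, Relation.ReflTransGen.refl⟩
      | tail _ hst ih =>
        obtain ⟨r, rfl, hr⟩ := ih
        obtain ⟨s, rfl, hs⟩ := (h.step hO hD J r _).1 hst
        exact ⟨s, rfl, Relation.ReflTransGen.tail hr hs⟩
    obtain ⟨r, e, hr⟩ := key _ H
    rw [(pe f).injective e]; exact hr
  · intro H
    induction H with
    | refl => exact Relation.ReflTransGen.refl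
    | tail _ hst ih => exact Relation.ReflTransGen.tail ih ((h.step hO hD J _ _).2 ⟨_, rfl, hst⟩)

/-- relabelling of networks -/
structure NMap (f : V ↪ W) (N : Net V) (N' : Net W) : Prop extends TMap f N.toTrg N'.toTrg where
  kl : ∀ a b, (a, b) ∈ N.toTrg.E → ((f a, f b) ∈ N'.kl ↔ (a, b) ∈ N.kl)
  ex : ∀ k, N'.ex k = (f (N.ex k).1, f (N.ex k).2)

variable {N : Net V} {N' : Net W}

theorem NMap.exS (h : NMap f N N') (a b : V) : (f a, f b) ∈ N'.exS ↔ (a, b) ∈ N.exS := by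
  simp only [Net.exS, Set.mem_range, h.ex]
  constructor
  · rintro ⟨k, e⟩
    simp only [Prod.mk.injEq] at e
    exact ⟨k, Prod.ext (f.injective e.1) (f.injective e.2)⟩
  · rintro ⟨k, e⟩
    exact ⟨k, by rw [e]⟩

theorem NMap.exS_range (h : NMap f N N') : ∀ p ∈ N'.exS, ∃ a b, p = (f a, f b) := by
  rintro p ⟨k, rfl⟩
  exact ⟨_, _, h.ex k⟩

theorem NMap.exSu (h : NMap f N N') (x y a b : V) :
    (f a, f b) ∈ N'.exS ∪ {(f x, f y)} ↔ (a, b) ∈ N.exS ∪ {(x, y)} := by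
  simp only [Set.mem_union, h.exS, Set.mem_singleton_iff, Prod.mk.injEq, f.injective.eq_iff]

theorem NMap.exSu_range (h : NMap f N N') (x y : V) :
    ∀ p ∈ N'.exS ∪ {(f x, f y)}, ∃ a b, p = (f a, f b) := by
  rintro p (hp | hp)
  · exact h.exS_range p hp
  · exact ⟨x, y, hp⟩

theorem NMap.hj (h : NMap f N N') (x y : V) : N'.hj (f x) (f y) = (N.hj x y).map (je f) :=
  h.toTMap.joins_eq h.kl (by simp) (h.exSu x y) (h.exSu_range x y)

theorem NMap.ends (h : NMap f N N') (x y : V) (J : Finset (V × V)) (k : ZMod 3) :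
    Ends N'.toTrg ∅ (N'.exS ∪ {(f x, f y)}) (J.map (pe f)) (f x, f y) (N'.ex k) ↔
      Ends N.toTrg ∅ (N.exS ∪ {(x, y)}) J (x, y) (N.ex k) := by
  have := h.toTMap.leads (O := ∅) (O' := ∅) (by simp) (h.exSu x y) J (x, y)
    ((N.ex k).2, (N.ex k).1)
  unfold Ends
  rw [h.ex k]
  exact this

theorem NMap.cnt (h : NMap f N N') (x y : V) (k : ZMod 3) :
    N'.cnt (f x) (f y) k = N.cnt x y k := by
  unfold Net.cnt
  rw [h.hj, Finset.filter_map, Finset.card_map]
  congr 1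
  apply Finset.filter_congr
  intro J _
  exact h.ends x y J k

theorem NMap.card_hj (h : NMap f N N') (x y : V) : (N'.hj (f x) (f y)).card = (N.hj x y).card := by
  rw [h.hj, Finset.card_map]

theorem NMap.Fob (h : NMap f N N') (x y : V) : N'.Fob (f x) (f y) = N.Fob x y := by
  unfold Net.Fob
  simp only [h.cnt, h.card_hj]

theorem NMap.F (h : NMap f N N') (x y : V) : N'.F (f x) (f y) = N.F x y := by
  have e : (fun k => N'.ex k = (f x, f y) ∨ N'.ex k = (f y, f x)) =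
      fun k => N.ex k = (x, y) ∨ N.ex k = (y, x) := by
    funext k
    rw [h.ex]
    simp only [f.injective.eq_iff, Prod.ext_iff]
  unfold Net.F
  rw [h.Fob]
  simp only [e]

/-- **(A1)** literal -/
theorem F_map {f : V → W} (hf : Function.Injective f) (N : Net V) (N' : Net W)
    (hT : ∀ a b c, (f a, f b, f c) ∈ N'.T ↔ (a, b, c) ∈ N.T)
    (hS : ∀ t ∈ N'.T, ∃ a b c, t = (f a, f b, f c))
    (hk : ∀ a b, (a, b) ∈ N.toTrg.E → ((f a, f b) ∈ N'.kl ↔ (a, b) ∈ N.kl))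
    (hex : ∀ k, N'.ex k = (f (N.ex k).1, f (N.ex k).2)) (a b : V) :
    N'.F (f a) (f b) = N.F a b :=
  NMap.F (f := ⟨f, hf⟩) ⟨⟨hT, hS⟩, hk, hex⟩ a b

/-! ### (A2) -/

theorem rot_inTri {z a b c : ℂ} (h : InTri z a b c) : InTri z b c a := ⟨h.2.1, h.2.2, h.1⟩

/-- uniqueness of the triangle containing `z` -/
theorem tri_unique {S : Finset ℂ} (hS : GP (S : Set ℂ)) {z : ℂ} {t t' : ℂ × ℂ × ℂ}
    (h : t ∈ delT S) (h' : t' ∈ delT S) (hz : InTri z t.1 t.2.1 t.2.2)
    (hz' : InTri z t'.1 t'.2.1 t'.2.2) : t' ∈ rots t := by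
  obtain ⟨a, b, c⟩ := t
  obtain ⟨a', b', c'⟩ := t'
  obtain ⟨o, ho⟩ := DelGx806.mem_delT_iff.1 h
  obtain ⟨o', ho'⟩ := DelGx806.mem_delT_iff.1 h'
  exact DelGx806.disj hS ho ho' hz (DelGx806.InO.inT hz')

/-- **(A2)** general form: `N₀` a network on the Delaunay triangulation of `S`, `N` a copy of it on
labels -/
theorem hval_copy {S : Finset ℂ} (hS : GP (S : Set ℂ)) (N₀ : Net ℂ) (h0 : N₀.T = delT S)
    {f : V ↪ ℂ} {N : Net V} (h : NMap f N N₀) (z : ℂ) :
    hval N₀ z = ∑ t ∈ N.T, if InTri z (f t.1) (f t.2.1) (f t.2.2) then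
      (N.F t.1 t.2.1 + N.F t.2.1 t.2.2 + N.F t.2.2 t.1) / 9 else 0 := by
  rw [← Finset.sum_filter]
  by_cases hz : ∃ t : ℂ × ℂ × ℂ, t ∈ N₀.T ∧ InTri z t.1 t.2.1 t.2.2
  · unfold hval
    rw [dif_pos hz]
    obtain ⟨h1, h2⟩ := hz.choose_spec
    obtain ⟨i, j, k, e⟩ := h.surj _ h1
    rw [e] at h1 h2 ⊢
    simp only at h2 ⊢
    have hm : (i, j, k) ∈ N.T := (h.iff _ _ _).1 h1
    have hij : i ≠ j := N.ne hm
    have hjk : j ≠ k := N.ne (N.rot hm)
    have hki : k ≠ i := N.ne (N.rot (N.rot hm))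
    have hfil : N.T.filter (fun t => InTri z (f t.1) (f t.2.1) (f t.2.2)) =
        {(i, j, k), (j, k, i), (k, i, j)} := by
      ext ⟨a, b, c⟩
      simp only [Finset.mem_filter, Finset.mem_insert, Finset.mem_singleton]
      constructor
      · rintro ⟨g1, g2⟩
        have g3 : ((f a, f b, f c) : ℂ × ℂ × ℂ) ∈ N₀.T := (h.iff _ _ _).2 g1
        rw [h0] at g3 h1
        have := tri_unique (t := (f i, f j, f k)) (t' := (f a, f b, f c)) hS h1 g3 h2 g2
        simp only [rots, Set.mem_insert_iff, Set.mem_singleton_iff, Prod.mk.injEq,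
          f.injective.eq_iff] at this
        simp only [Prod.mk.injEq]
        exact this
      · rintro (g | g | g)
        · simp only [Prod.mk.injEq] at g
          obtain ⟨rfl, rfl, rfl⟩ := g
          exact ⟨hm, h2⟩
        · simp only [Prod.mk.injEq] at g
          obtain ⟨rfl, rfl, rfl⟩ := g
          exact ⟨N.rot hm, rot_inTri h2⟩
        · simp only [Prod.mk.injEq] at g
          obtain ⟨rfl, rfl, rfl⟩ := g
          exact ⟨N.rot (N.rot hm), rot_inTri (rot_inTri h2)⟩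
    rw [hfil, Finset.sum_insert, Finset.sum_insert, Finset.sum_singleton]
    · simp only [h.F]
      ring
    · simp only [Finset.mem_singleton, Prod.mk.injEq]
      rintro ⟨e1, -, -⟩
      exact hjk e1
    · simp only [Finset.mem_insert, Finset.mem_singleton, Prod.mk.injEq]
      rintro (⟨e1, -, -⟩ | ⟨e1, -, -⟩)
      · exact hij e1
      · exact hki e1.symm
  · unfold hval
    rw [dif_neg hz, Finset.filter_eq_empty_iff.2, Finset.sum_empty]
    intro t ht hin
    exact hz ⟨(f t.1, f t.2.1, f t.2.2), (h.iff _ _ _).2 ht, hin⟩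

theorem netS_T {D : Dom} {S : Finset ℂ} (hS : GP (S : Set ℂ)) : (D.netS S).T = delT S := by
  unfold Dom.netS
  rw [dif_pos (DelGx806.g1 S hS)]
  rfl

/-- **(A2)** literal -/
theorem hval_eq {n : ℕ} (D : Dom) {x : Fin n → ℂ} (hx : Function.Injective x)
    (hGP : GP (Set.range x)) (N : Net (Fin n))
    (hT : ∀ i j k, (i, j, k) ∈ N.T ↔ Del (Set.range x) (x i) (x j) (x k))
    (hk : ∀ i j, (i, j) ∈ N.toTrg.E →
      ((i, j) ∈ N.kl ↔ (x i, x j) ∈ (D.netS (Finset.univ.image x)).kl))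
    (hex : ∀ k, (D.netS (Finset.univ.image x)).ex k = (x (N.ex k).1, x (N.ex k).2)) (z : ℂ) :
    hval (D.netS (Finset.univ.image x)) z =
      ∑ t ∈ N.T, if InTri z (x t.1) (x t.2.1) (x t.2.2) then
        (N.F t.1 t.2.1 + N.F t.2.1 t.2.2 + N.F t.2.2 t.1) / 9 else 0 := by
  have hc : ((Finset.univ.image x : Finset ℂ) : Set ℂ) = Set.range x := by simp
  have hS : GP ((Finset.univ.image x : Finset ℂ) : Set ℂ) := by rw [hc]; exact hGP
  have hT0 := netS_T (D := D) hS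
  refine hval_copy (f := ⟨x, hx⟩) hS _ hT0 ⟨⟨?_, ?_⟩, ?_, ?_⟩ z
  · intro a b c
    rw [hT0, DelGx806.mem_delT, hc, hT]
    rfl
  · rintro ⟨a, b, c⟩ ht
    rw [hT0, DelGx806.mem_delT, hc] at ht
    obtain ⟨⟨i, rfl⟩, ⟨j, rfl⟩, ⟨k, rfl⟩, -⟩ := ht
    exact ⟨i, j, k, rfl⟩
  · intro a b hab
    exact (hk a b hab).symm
  · intro k
    exact hex k

end Crest.Agent.R143.M5Ax606
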