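import Crest.Agent.R143.B0D_346
import Crest.Agent.R143.DelR_806
import Crest.Agent.R143.Loc_922
import Crest.Agent.R143.PoisM3_930
import Crest.Agent.R143.M5A_606
import Crest.Agent.R143.DomA_722

/-!
# Row 143 (S0194), leaf M5, part B : measurability (helper304)

* `proj_meas` : the projection of a closed set along a sigma-compact set is measurable
* `DelX`, `VedX`, `CrsX` : the combinatorial predicates as functions of the configuration
  `x : V → ℂ` (`V` finite); they are measurable sets of configurations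
-/

set_option autoImplicit false
set_option linter.all false

noncomputable section

open scoped Classical

namespace Crest.Agent.R143.Measx304

open MeasureTheory Set Filter Topology
open Crest.ProbabilityR.Voronoi
open Crest.Agent.R143.B0x346 Crest.Agent.R143.B0Dx346 Crest.Agent.R143.DelGx806
  Crest.Agent.R143.DelRx806

/-! ### projections -/

theorem proj_closed {X Y : Type*} [TopologicalSpace X] [TopologicalSpace Y] {K : Set Y}
    (hK : IsCompact K) {C : Set (X × Y)} (hC : IsClosed C) : IsClosed {x | ∃ y ∈ K, (x, y) ∈ C} := by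
  haveI : CompactSpace K := isCompact_iff_compactSpace.1 hK
  have h1 : IsClosed {p : X × K | (p.1, (p.2 : Y)) ∈ C} :=
    hC.preimage (continuous_fst.prodMk (continuous_subtype_val.comp continuous_snd))
  have h2 := isClosedMap_fst_of_compactSpace (X := X) (Y := K) _ h1
  convert h2 using 1
  ext x
  constructor
  · rintro ⟨y, hy, h⟩
    exact ⟨(x, ⟨y, hy⟩), h, rfl⟩
  · rintro ⟨⟨x', y⟩, h, rfl⟩
    exact ⟨y, y.2, h⟩

theorem proj_meas {X Y : Type*} [TopologicalSpace X] [MeasurableSpace X] [OpensMeasurableSpace X]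
    [TopologicalSpace Y] {U : Set Y} (hU : IsSigmaCompact U) {C : Set (X × Y)} (hC : IsClosed C) :
    MeasurableSet {x | ∃ y ∈ U, (x, y) ∈ C} := by
  obtain ⟨K, hK, rfl⟩ := hU
  have : {x | ∃ y ∈ ⋃ n, K n, (x, y) ∈ C} = ⋃ n, {x | ∃ y ∈ K n, (x, y) ∈ C} := by
    ext x
    simp only [mem_iUnion, mem_ofPred_eq]
    constructor
    · rintro ⟨y, ⟨n, hn⟩, h⟩
      exact ⟨n, y, hn, h⟩
    · rintro ⟨n, y, hn, h⟩
      exact ⟨y, ⟨n, hn⟩, h⟩
  rw [this]
  exact MeasurableSet.iUnion fun n => (proj_closed (hK n) hC).measurableSet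

theorem sigmaCompact_open {Y : Type*} [PseudoEMetricSpace Y] [SigmaCompactSpace Y] {U : Set Y}
    (hU : IsOpen U) : IsSigmaCompact U := by
  obtain ⟨F, hF, -, h, -⟩ := hU.exists_iUnion_isClosed
  rw [← h]
  exact isSigmaCompact_iUnion _ fun n => IsSigmaCompact.of_isClosed_subset isSigmaCompact_univ (hF n) (subset_univ _)

theorem sigmaCompact_closed {Y : Type*} [TopologicalSpace Y] [SigmaCompactSpace Y] {U : Set Y}
    (hU : IsClosed U) : IsSigmaCompact U :=
  IsSigmaCompact.of_isClosed_subset isSigmaCompact_univ hU (subset_univ _)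

/-! ### configurations -/

variable {V : Type} [Fintype V]

/-- Delaunay triangle of the configuration -/
def DelX (x : V → ℂ) (i j k : V) : Prop := Del (range x) (x i) (x j) (x k)

theorem delX_meas (i j k : V) : MeasurableSet {x : V → ℂ | DelX x i j k} := by
  have h1 : MeasurableSet {x : V → ℂ | 0 < cr (x j - x i) (x k - x i)} := by
    apply IsOpen.measurableSet
    apply isOpen_lt continuous_const
    unfold cr
    fun_prop
  have h2 : MeasurableSet {x : V → ℂ | ∃ o ∈ (univ : Set ℂ), (x, o) ∈ {p : (V → ℂ) × ℂ |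
      ‖p.1 j - p.2‖ = ‖p.1 i - p.2‖ ∧ ‖p.1 k - p.2‖ = ‖p.1 i - p.2‖ ∧
        ∀ l, ‖p.1 i - p.2‖ ≤ ‖p.1 l - p.2‖}} := by
    apply proj_meas isSigmaCompact_univ
    have e : {p : (V → ℂ) × ℂ | ‖p.1 j - p.2‖ = ‖p.1 i - p.2‖ ∧ ‖p.1 k - p.2‖ = ‖p.1 i - p.2‖ ∧
        ∀ l, ‖p.1 i - p.2‖ ≤ ‖p.1 l - p.2‖} =
        {p : (V → ℂ) × ℂ | ‖p.1 j - p.2‖ = ‖p.1 i - p.2‖} ∩
        ({p : (V → ℂ) × ℂ | ‖p.1 k - p.2‖ = ‖p.1 i - p.2‖} ∩
        ⋂ l, {p : (V → ℂ) × ℂ | ‖p.1 i - p.2‖ ≤ ‖p.1 l - p.2‖}) := by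
      ext p
      simp only [mem_inter_iff, mem_iInter, mem_ofPred_eq]
    rw [e]
    refine (isClosed_eq (by fun_prop) (by fun_prop)).inter
      ((isClosed_eq (by fun_prop) (by fun_prop)).inter
        (isClosed_iInter fun l => isClosed_le (by fun_prop) (by fun_prop)))
  convert h1.inter h2 using 1
  ext x
  unfold DelX Del
  simp only [mem_inter_iff, mem_ofPred_eq, mem_univ, true_and, mem_range, exists_apply_eq_apply,
    forall_exists_index, forall_apply_eq_imp_iff]

/-- the Voronoi edge meets `U` -/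
def VedX (U : Set ℂ) (x : V → ℂ) (i j : V) : Prop := (vedge (range x) (x i) (x j) ∩ U).Nonempty

theorem vedX_meas {U : Set ℂ} (hU : IsOpen U) (i j : V) :
    MeasurableSet {x : V → ℂ | VedX U x i j} := by
  have h2 : MeasurableSet {x : V → ℂ | ∃ o ∈ U, (x, o) ∈ {p : (V → ℂ) × ℂ |
      ‖p.2 - p.1 i‖ = ‖p.2 - p.1 j‖ ∧ ∀ l, ‖p.2 - p.1 i‖ ≤ ‖p.2 - p.1 l‖}} := by
    apply proj_meas (sigmaCompact_open hU)
    have e : {p : (V → ℂ) × ℂ | ‖p.2 - p.1 i‖ = ‖p.2 - p.1 j‖ ∧ ∀ l, ‖p.2 - p.1 i‖ ≤ ‖p.2 - p.1 l‖} =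
        {p : (V → ℂ) × ℂ | ‖p.2 - p.1 i‖ = ‖p.2 - p.1 j‖} ∩
        ⋂ l, {p : (V → ℂ) × ℂ | ‖p.2 - p.1 i‖ ≤ ‖p.2 - p.1 l‖} := by
      ext p
      simp only [mem_inter_iff, mem_iInter, mem_ofPred_eq]
    rw [e]
    exact (isClosed_eq (by fun_prop) (by fun_prop)).inter
        (isClosed_iInter fun l => isClosed_le (by fun_prop) (by fun_prop))
  convert h2 using 1
  ext x
  unfold VedX vedge
  simp only [mem_ofPred_eq, mem_range, forall_exists_index, forall_apply_eq_imp_iff]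
  constructor
  · rintro ⟨z, h, hz⟩
    exact ⟨z, hz, h⟩
  · rintro ⟨z, hz, h⟩
    exact ⟨z, h, hz⟩

/-- the ray crosses the segment -/
def SegX (c q : ℂ) (x : V → ℂ) (i j : V) : Prop :=
  ∃ t : ℝ, 0 ≤ t ∧ c + t * q ∈ segment ℝ (x i) (x j)

theorem segX_meas (c q : ℂ) (i j : V) : MeasurableSet {x : V → ℂ | SegX c q x i j} := by
  have h2 : MeasurableSet {x : V → ℂ | ∃ p ∈ (Ici (0 : ℝ)) ×ˢ (Icc (0 : ℝ) 1),
      (x, p) ∈ {p : (V → ℂ) × (ℝ × ℝ) |
        c + (p.2.1 : ℂ) * q = (1 - (p.2.2 : ℂ)) * p.1 i + (p.2.2 : ℂ) * p.1 j}} := by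
    apply proj_meas (sigmaCompact_closed (isClosed_Ici.prod isClosed_Icc))
    exact isClosed_eq (by fun_prop) (by fun_prop)
  convert h2 using 1
  ext x
  unfold SegX
  simp only [mem_ofPred_eq, mem_prod, mem_Ici]
  constructor
  · rintro ⟨t, ht, h⟩
    rw [segment_eq_image] at h
    obtain ⟨s, hs, h⟩ := h
    refine ⟨(t, s), ⟨ht, hs⟩, ?_⟩
    simp only [Complex.real_smul] at h
    rw [← h]
    push_cast
    rfl
  · rintro ⟨⟨t, s⟩, ⟨ht, hs⟩, h⟩
    refine ⟨t, ht, ?_⟩
    rw [segment_eq_image]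
    refine ⟨s, hs, ?_⟩
    simp only [Complex.real_smul]
    dsimp only at h
    rw [h]
    push_cast
    rfl

/-! ### the fibers -/

/-- hull edge of the configuration -/
def HullX (x : V → ℂ) (i j : V) : Prop := (∃ k, DelX x i j k) ∧ ∀ k, ¬ DelX x j i k

/-- the configuration `x` has the combinatorics `N` -/
structure FibX (D : Dom) (N : Net V) (x : V → ℂ) : Prop where
  T : ∀ i j k, (i, j, k) ∈ N.T ↔ DelX x i j k
  kl : ∀ i j, (i, j) ∈ N.kl ↔ (VedX D.out x i j ∧ (∀ k, N.ex k ≠ (i, j)) ∧ ∀ k, N.ex k ≠ (j, i))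
  ex : ∀ k, HullX x (N.ex k).1 (N.ex k).2 ∧ SegX D.c (D.q k) x (N.ex k).1 (N.ex k).2

theorem hullX_meas (i j : V) : MeasurableSet {x : V → ℂ | HullX x i j} := by
  have h1 : Measurable fun x : V → ℂ => HullX x i j := by
    unfold HullX
    exact (Measurable.exists fun k => measurableSet_setOfPred.1 (delX_meas i j k)).and
      (Measurable.forall fun k => (measurableSet_setOfPred.1 (delX_meas j i k)).not)
  exact measurableSet_setOfPred.2 h1

theorem fibX_meas {D : Dom} (hD : IsOpen D.out) (N : Net V) :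
    MeasurableSet {x : V → ℂ | FibX D N x} := by
  have e : {x : V → ℂ | FibX D N x} = {x : V → ℂ | (∀ i j k, (i, j, k) ∈ N.T ↔ DelX x i j k) ∧
      (∀ i j, (i, j) ∈ N.kl ↔
        (VedX D.out x i j ∧ (∀ k, N.ex k ≠ (i, j)) ∧ ∀ k, N.ex k ≠ (j, i))) ∧
      ∀ k, HullX x (N.ex k).1 (N.ex k).2 ∧ SegX D.c (D.q k) x (N.ex k).1 (N.ex k).2} := by
    ext x
    exact ⟨fun h => ⟨h.T, h.kl, h.ex⟩, fun h => ⟨h.1, h.2.1, h.2.2⟩⟩
  rw [e]
  refine measurableSet_setOfPred.2 (Measurable.and ?_ (Measurable.and ?_ ?_))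
  · refine Measurable.forall fun i => Measurable.forall fun j => Measurable.forall fun k => ?_
    exact measurable_const.iff (measurableSet_setOfPred.1 (delX_meas i j k))
  · refine Measurable.forall fun i => Measurable.forall fun j => ?_
    exact measurable_const.iff ((measurableSet_setOfPred.1 (vedX_meas hD i j)).and measurable_const)
  · refine Measurable.forall fun k => ?_
    exact (measurableSet_setOfPred.1 (hullX_meas _ _)).and
      (measurableSet_setOfPred.1 (segX_meas _ _ _ _))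

theorem coe_img (x : V → ℂ) : ((Finset.univ.image x : Finset ℂ) : Set ℂ) = range x := by simp

theorem delT_img (x : V → ℂ) (i j k : V) :
    (x i, x j, x k) ∈ delT (Finset.univ.image x) ↔ DelX x i j k := by
  rw [mem_delT, coe_img]
  rfl

theorem hullE_img (x : V → ℂ) (i j : V) :
    hullE (Finset.univ.image x) (x i) (x j) ↔ HullX x i j := by
  have hm : ∀ {a b c : ℂ}, (a, b, c) ∈ delT (Finset.univ.image x) → ∃ k, x k = c := by
    intro a b c h
    obtain ⟨o, h⟩ := mem_delT_iff.1 h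
    obtain ⟨k, -, hk⟩ := Finset.mem_image.1 h.mc
    exact ⟨k, hk⟩
  unfold hullE HullX
  constructor
  · rintro ⟨⟨c, hc⟩, h2⟩
    obtain ⟨k, rfl⟩ := hm hc
    exact ⟨⟨k, (delT_img x i j k).1 hc⟩, fun k hk => h2 (x k) ((delT_img x j i k).2 hk)⟩
  · rintro ⟨⟨k, hk⟩, h2⟩
    refine ⟨⟨x k, (delT_img x i j k).2 hk⟩, fun c hc => ?_⟩
    obtain ⟨k', rfl⟩ := hm hc
    exact h2 k' ((delT_img x j i k').1 hc)

theorem crossRay_img (x : V → ℂ) (c q : ℂ) (i j : V) :
    crossRay (Finset.univ.image x) c q (x i, x j) ↔ HullX x i j ∧ SegX c q x i j := by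
  unfold crossRay SegX
  dsimp only
  rw [hullE_img]

theorem crossRay_ex {x : V → ℂ} {c q : ℂ} {p : ℂ × ℂ}
    (h : crossRay (Finset.univ.image x) c q p) : ∃ i j, p = (x i, x j) := by
  obtain ⟨h1, h2⟩ := hullE.mem h.1
  obtain ⟨i, -, hi⟩ := Finset.mem_image.1 h1
  obtain ⟨j, -, hj⟩ := Finset.mem_image.1 h2
  exact ⟨i, j, Prod.ext hi.symm hj.symm⟩

/-- **every good configuration is in a fiber** -/
theorem exists_fib (D : Dom) {x : V → ℂ} (hx : Function.Injective x) (hS : GP (range x))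
    (hc : ∀ k, ∃ p, crossRay (Finset.univ.image x) D.c (D.q k) p) : ∃ N : Net V, FibX D N x := by
  have hS' : GP ((Finset.univ.image x : Finset ℂ) : Set ℂ) := by rw [coe_img]; exact hS
  have hc' : ∀ k, ∃ p : V × V, HullX x p.1 p.2 ∧ SegX D.c (D.q k) x p.1 p.2 := by
    intro k
    obtain ⟨p, hp⟩ := hc k
    obtain ⟨i, j, rfl⟩ := crossRay_ex hp
    exact ⟨(i, j), (crossRay_img x _ _ i j).1 hp⟩
  choose e he using hc'
  obtain ⟨g1a, g1b, g1c⟩ := g1 _ hS'
  let G : Trg V :=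
    { T := Finset.univ.filter fun t => DelX x t.1 t.2.1 t.2.2
      rot := by
        intro a b c h
        rw [Finset.mem_filter] at h ⊢
        exact ⟨Finset.mem_univ _, (delT_img x b c a).1 (g1a _ _ _ ((delT_img x a b c).2 h.2))⟩
      uniq := by
        intro a b c d h h'
        rw [Finset.mem_filter] at h h'
        exact hx (g1b _ _ _ _ ((delT_img x a b c).2 h.2) ((delT_img x a b d).2 h'.2))
      ne := by
        intro a b c h
        rw [Finset.mem_filter] at h
        exact fun h' => g1c _ _ _ ((delT_img x a b c).2 h.2) (by rw [h']) }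
  refine ⟨{ toTrg := G, kl := {p | VedX D.out x p.1 p.2 ∧ (∀ k, e k ≠ (p.1, p.2)) ∧
      ∀ k, e k ≠ (p.2, p.1)}, klsym := ?_, ex := e }, ?_, ?_, he⟩
  · rintro a b ⟨⟨z, hz, hz'⟩, h2, h3⟩
    refine ⟨⟨z, ?_, hz'⟩, h3, h2⟩
    rw [Crest.Agent.R143.Locx922.vedge_symm]
    exact hz
  · intro i j k
    show (i, j, k) ∈ Finset.univ.filter (fun t : V × V × V => DelX x t.1 t.2.1 t.2.2) ↔ _
    rw [Finset.mem_filter]
    simp only [Finset.mem_univ, true_and]
  · intro i j
    exact Iff.rfl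

/-- the observable of the configuration `x` with the combinatorics `N` at the point `z` -/
def gN (N : Net V) (x : V → ℂ) (z : ℂ) : ℂ :=
  ∑ t ∈ N.T, if InTri z (x t.1) (x t.2.1) (x t.2.2) then
    (N.F t.1 t.2.1 + N.F t.2.1 t.2.2 + N.F t.2.2 t.1) / 9 else 0

theorem gN_meas (N : Net V) : Measurable fun p : (V → ℂ) × ℂ => gN N p.1 p.2 := by
  unfold gN
  refine Finset.measurable_fun_sum _ fun t _ => ?_
  refine Measurable.ite ?_ measurable_const measurable_const
  have h : IsOpen {p : (V → ℂ) × ℂ | InTri p.2 (p.1 t.1) (p.1 t.2.1) (p.1 t.2.2)} := by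
    have key : ∀ i j : V, IsOpen {p : (V → ℂ) × ℂ | Lft p.2 (p.1 i) (p.1 j)} := by
      intro i j
      unfold Lft
      apply isOpen_lt continuous_const
      unfold cr
      fun_prop
    exact (key _ _).inter ((key _ _).inter (key _ _))
  exact h.measurableSet

/-- **the observable on the fiber** -/
theorem hval_fib (D : Dom) {x : V → ℂ} (hx : Function.Injective x) (hS : GP (range x))
    (hu : ∀ k p p', crossRay (Finset.univ.image x) D.c (D.q k) p →
      crossRay (Finset.univ.image x) D.c (D.q k) p' → p = p') {N : Net V} (hN : FibX D N x)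
    (z : ℂ) : hval (D.netS (Finset.univ.image x)) z = gN N x z := by
  have hS' : GP ((Finset.univ.image x : Finset ℂ) : Set ℂ) := by rw [coe_img]; exact hS
  have hT0 := Crest.Agent.R143.DomAx722.netS_T (D := D) hS'
  have hex : ∀ k, rayMark (Finset.univ.image x) D.c (D.q k) = (x (N.ex k).1, x (N.ex k).2) := by
    intro k
    have h1 : crossRay (Finset.univ.image x) D.c (D.q k) (x (N.ex k).1, x (N.ex k).2) :=
      (crossRay_img x _ _ _ _).2 (hN.ex k)
    exact hu k _ _ (Crest.Agent.R143.DomAx722.rayMark_spec ⟨_, h1⟩) h1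
  refine Crest.Agent.R143.M5Ax606.hval_copy (f := ⟨x, hx⟩) hS' _ hT0 ⟨⟨?_, ?_⟩, ?_, ?_⟩ z
  · intro a b c
    rw [hT0, hN.T]
    exact delT_img x a b c
  · rintro ⟨a, b, c⟩ ht
    rw [hT0, DelGx806.mem_delT, coe_img] at ht
    obtain ⟨⟨i, rfl⟩, ⟨j, rfl⟩, ⟨k, rfl⟩, -⟩ := ht
    exact ⟨i, j, k, rfl⟩
  · intro a b hab
    rw [hN.kl, Crest.Agent.R143.DomAx722.netS_kl (D := D) hS']
    have e1 : ((⟨x, hx⟩ : V ↪ ℂ) a, (⟨x, hx⟩ : V ↪ ℂ) b) ∈ D.kl (Finset.univ.image x) ↔
        VedX D.out x a b := by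
      unfold Dom.kl VedX
      rw [coe_img]
      rfl
    rw [e1]
    simp only [hex]
    refine and_congr_right fun _ => and_congr (forall_congr' fun k => ?_)
      (forall_congr' fun k => ?_)
    · refine not_congr ?_
      constructor
      · intro h
        have h' := Prod.ext_iff.1 h
        exact Prod.ext (hx h'.1) (hx h'.2)
      · intro h
        rw [h]
        rfl
    · refine not_congr ?_
      constructor
      · intro h
        have h' := Prod.ext_iff.1 h
        exact Prod.ext (hx h'.1) (hx h'.2)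
      · intro h
        rw [h]
        rfl
  · intro k
    rw [Crest.Agent.R143.DomAx722.netS_ex (D := D) hS', hex]
    rfl

instance : Finite (Net V) := by
  have hinj : Function.Injective fun N : Net V => (N.T, N.kl, N.ex) := by
    rintro ⟨⟨T, h1, h2, h3⟩, kl, h4, ex⟩ ⟨⟨T', h1', h2', h3'⟩, kl', h4', ex'⟩ h
    simp only [Prod.mk.injEq] at h
    obtain ⟨rfl, rfl, rfl⟩ := h
    rfl
  exact Finite.of_injective _ hinj

/-! ### partition by the indices of the sites -/

/-- indices of points -/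
abbrev Ix : Type := (ℤ × ℤ) × ℕ

/-- the index `i` is present and its point is in the big disc -/
def InD (D : Dom) (ε : ℝ) (ω : Sample) (i : Ix) : Prop :=
  i.2 < ω.1 i.1 ∧ point ε ω i.1 i.2 ∈ Metric.closedBall D.c D.L

/-- `I` is the set of the indices in the big disc -/
def AI (D : Dom) (ε : ℝ) (I : Finset Ix) : Set Sample := {ω | ∀ i : Ix, i ∈ I ↔ InD D ε ω i}

/-- the configuration of the indices in `I` -/
def xI (ε : ℝ) (I : Finset Ix) (ω : Sample) (i : I) : ℂ := point ε ω i.1.1 i.1.2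

theorem point_meas (ε : ℝ) (i : Ix) : Measurable fun ω : Sample => point ε ω i.1 i.2 := by
  have h : Measurable Crest.Agent.R143.PoisM3x930.marks := by
    refine measurable_pi_iff.2 fun i => ?_
    exact (measurable_pi_apply i.2).comp ((measurable_pi_apply i.1).comp measurable_snd)
  exact (Crest.Agent.R143.PoisM3x930.measurable_q ε i).comp h

theorem xI_meas (ε : ℝ) (I : Finset Ix) : Measurable (xI ε I) :=
  measurable_pi_iff.2 fun i => point_meas ε i

theorem AI_meas (D : Dom) (ε : ℝ) (I : Finset Ix) : MeasurableSet (AI D ε I) := by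
  refine measurableSet_setOfPred.2 (Measurable.forall fun i => measurable_const.iff ?_)
  refine Measurable.and ?_ ?_
  · have h : Measurable fun ω : Sample => ω.1 i.1 := (measurable_pi_apply i.1).comp measurable_fst
    exact measurableSet_setOfPred.1 (h (measurableSet_Ioi (a := i.2)))
  · exact measurableSet_setOfPred.1 (point_meas ε i Metric.isClosed_closedBall.measurableSet)

/-- good samples for the measurability -/
structure GM (D : Dom) (ε : ℝ) (ω : Sample) : Prop where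
  fin : (points ε ω ∩ Metric.closedBall D.c D.L).Finite
  inj : ∀ p ∈ present ω, ∀ q ∈ present ω,
    point ε ω (p.1, p.2.1) p.2.2 = point ε ω (q.1, q.2.1) q.2.2 → p = q
  gp : GP (D.sites ε ω : Set ℂ)
  ex : ∀ k, ∃ p, crossRay (D.sites ε ω) D.c (D.q k) p
  uniq : ∀ k p p', crossRay (D.sites ε ω) D.c (D.q k) p → crossRay (D.sites ε ω) D.c (D.q k) p' →
    p = p'

variable {D : Dom} {ε : ℝ} {ω : Sample}

theorem sites_img (h : GM D ε ω) {I : Finset Ix} (hI : ω ∈ AI D ε I) :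
    D.sites ε ω = Finset.univ.image (xI ε I ω) := by
  ext s
  rw [Crest.Agent.R143.DomAx722.mem_sites h.fin, Finset.mem_image]
  constructor
  · rintro ⟨⟨p, hp, rfl⟩, h2⟩
    have h3 : ((p.1, p.2.1), p.2.2) ∈ I := (hI _).2 ⟨hp, by
      rw [Metric.mem_closedBall, dist_eq_norm]; exact h2⟩
    exact ⟨⟨_, h3⟩, Finset.mem_univ _, rfl⟩
  · rintro ⟨⟨i, hi⟩, -, rfl⟩
    have h3 := (hI i).1 hi
    refine ⟨⟨(i.1.1, i.1.2, i.2), h3.1, rfl⟩, ?_⟩
    have := h3.2
    rw [Metric.mem_closedBall, dist_eq_norm] at this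
    exact this

theorem xI_inj (h : GM D ε ω) {I : Finset Ix} (hI : ω ∈ AI D ε I) :
    Function.Injective (xI ε I ω) := by
  rintro ⟨i, hi⟩ ⟨j, hj⟩ hij
  have h1 := h.inj (i.1.1, i.1.2, i.2) ((hI i).1 hi).1 (j.1.1, j.1.2, j.2) ((hI j).1 hj).1 hij
  simp only [Prod.mk.injEq] at h1
  exact Subtype.ext (Prod.ext (Prod.ext h1.1 h1.2.1) h1.2.2)

theorem exists_AI (h : GM D ε ω) : ∃ I, ω ∈ AI D ε I := by
  have hfin : {i : Ix | InD D ε ω i}.Finite := by
    refine Set.Finite.of_finite_image (f := fun i : Ix => point ε ω i.1 i.2) (h.fin.subset ?_) ?_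
    · rintro z ⟨i, hi, rfl⟩
      exact ⟨⟨(i.1.1, i.1.2, i.2), hi.1, rfl⟩, hi.2⟩
    · intro i hi j hj hij
      have h1 := h.inj (i.1.1, i.1.2, i.2) hi.1 (j.1.1, j.1.2, j.2) hj.1 hij
      simp only [Prod.mk.injEq] at h1
      exact Prod.ext (Prod.ext h1.1 h1.2.1) h1.2.2
  refine ⟨hfin.toFinset, fun i => ?_⟩
  rw [Set.Finite.mem_toFinset]
  rfl

theorem h_fib (h : GM D ε ω) {I : Finset Ix} (hI : ω ∈ AI D ε I) {N : Net I}
    (hN : FibX D N (xI ε I ω)) (z : ℂ) : D.h ε ω z = gN N (xI ε I ω) z := by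
  have e := sites_img h hI
  unfold Dom.h
  rw [e]
  refine hval_fib D (xI_inj h hI) ?_ ?_ hN z
  · rw [← coe_img, ← e]
    exact h.gp
  · rw [← e]
    exact h.uniq

theorem exists_cover (h : GM D ε ω) :
    ∃ i : (Σ I : Finset Ix, Net I), ω ∈ AI D ε i.1 ∧ FibX D i.2 (xI ε i.1 ω) := by
  obtain ⟨I, hI⟩ := exists_AI h
  have e := sites_img h hI
  obtain ⟨N, hN⟩ := exists_fib D (xI_inj h hI) (by rw [← coe_img, ← e]; exact h.gp)
    (by rw [← e]; exact h.ex)
  exact ⟨⟨I, N⟩, hI, hN⟩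

/-- the index set of the pieces -/
abbrev Pc : Type := Σ I : Finset Ix, Net I

instance : Countable Pc := by
  unfold Pc
  infer_instance

/-- the pieces -/
def CP (D : Dom) (ε : ℝ) (i : Pc) : Set Sample :=
  AI D ε i.1 ∩ (xI ε i.1) ⁻¹' {x | FibX D i.2 x}

theorem CP_meas (hD : IsOpen D.out) (ε : ℝ) (i : Pc) : MeasurableSet (CP D ε i) :=
  (AI_meas D ε i.1).inter (xI_meas ε i.1 (fibX_meas hD i.2))

/-- the observable on a piece -/
def gC (ε : ℝ) (i : Pc) (p : Sample × ℂ) : ℂ := gN i.2 (xI ε i.1 p.1) p.2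

theorem gC_meas (ε : ℝ) (i : Pc) : Measurable (gC ε i) := by
  obtain ⟨I, N⟩ := i
  have h0 : Measurable fun p : Sample × ℂ => xI ε I p.1 := (xI_meas ε I).comp measurable_fst
  have h1 : Measurable fun p : Sample × ℂ => (xI ε I p.1, p.2) := h0.prodMk measurable_snd
  have h2 := (gN_meas N).comp h1
  exact h2

theorem h_gC (h : GM D ε ω) {i : Pc} (hi : ω ∈ CP D ε i) (z : ℂ) : D.h ε ω z = gC ε i (ω, z) :=
  h_fib h hi.1 hi.2 z

theorem exists_CP (h : GM D ε ω) : ∃ i : Pc, ω ∈ CP D ε i := exists_cover h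

/-- **joint measurability of the observable** -/
theorem h_aesm (hD : IsOpen D.out) {ρ : Measure (Sample × ℂ)} (h : ∀ᵐ p ∂ρ, GM D ε p.1) :
    AEStronglyMeasurable (fun p : Sample × ℂ => D.h ε p.1 p.2) ρ := by
  have hcov : ∀ᵐ p ∂ρ, p ∈ ⋃ i : Pc, (Prod.fst ⁻¹' CP D ε i : Set (Sample × ℂ)) := by
    filter_upwards [h] with p hp
    obtain ⟨i, hi⟩ := exists_CP hp
    exact mem_iUnion.2 ⟨i, hi⟩
  rw [← Measure.restrict_eq_self_of_ae_mem hcov]
  refine aestronglyMeasurable_iUnion_iff.2 fun i => ?_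
  have hm : MeasurableSet (Prod.fst ⁻¹' CP D ε i : Set (Sample × ℂ)) :=
    measurable_fst (CP_meas hD ε i)
  have hae : (fun p : Sample × ℂ => D.h ε p.1 p.2) =ᵐ[ρ.restrict (Prod.fst ⁻¹' CP D ε i)]
      gC ε i := by
    rw [Filter.EventuallyEq, ae_restrict_iff' hm]
    filter_upwards [h] with p hp hpC
    exact h_gC hp hpC p.2
  exact (gC_meas ε i).aestronglyMeasurable.congr hae.symm

theorem hm1 (hD : IsOpen D.out) {μ : Measure Sample} (h : ∀ᵐ ω ∂μ, GM D ε ω) (z : ℂ) :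
    AEStronglyMeasurable (fun ω => D.h ε ω z) μ := by
  have hm : Measurable fun ω : Sample => (ω, z) := measurable_id.prodMk measurable_const
  have h1 : ∀ᵐ p ∂(μ.map fun ω : Sample => (ω, z)), GM D ε p.1 := by
    rw [ae_iff] at h ⊢
    obtain ⟨t, ht, htm, h0⟩ := exists_measurable_superset_of_null h
    refine measure_mono_null (t := Prod.fst ⁻¹' t) (fun p hp => ht hp) ?_
    rw [Measure.map_apply hm (measurable_fst htm)]
    exact h0
  exact (h_aesm hD h1).comp_measurable hm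

theorem hm2 (hD : IsOpen D.out) {μ : Measure Sample} [SFinite μ] (h : ∀ᵐ ω ∂μ, GM D ε ω) :
    AEStronglyMeasurable (fun p : Sample × ℂ => D.h ε p.1 p.2) (μ.prod volume) :=
  h_aesm hD (Measure.quasiMeasurePreserving_fst.ae h)

/-- **one measurable function for all good samples** -/
theorem exists_meas (hD : IsOpen D.out) (ε : ℝ) : ∃ f : Sample × ℂ → ℂ, Measurable f ∧
    ∀ ω, GM D ε ω → ∀ z, f (ω, z) = D.h ε ω z := by
  rcases isEmpty_or_nonempty Pc with he | hne
  · exact ⟨fun _ => 0, measurable_const, fun ω h => (he.false (exists_CP h).choose).elim⟩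
  obtain ⟨g, hg⟩ := exists_surjective_nat Pc
  set t : ℕ → Set (Sample × ℂ) := fun n => Prod.fst ⁻¹' CP D ε (g n) with ht
  have htm : ∀ n, MeasurableSet (t n) := fun n => measurable_fst (CP_meas hD ε (g n))
  obtain ⟨f, hf, hf2⟩ := exists_measurable_piecewise (disjointed t)
    (fun n => MeasurableSet.disjointed htm n) (fun n => gC ε (g n)) (fun n => gC_meas ε (g n)) (by
      intro i j hij p hp
      exact absurd hp.2 (Set.disjoint_left.1 (disjoint_disjointed t hij) hp.1))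
  refine ⟨f, hf, fun ω h z => ?_⟩
  obtain ⟨i, hi⟩ := exists_CP h
  obtain ⟨n, rfl⟩ := hg i
  have h1 : ((ω, z) : Sample × ℂ) ∈ ⋃ n, disjointed t n := by
    rw [iUnion_disjointed]
    exact mem_iUnion.2 ⟨n, hi⟩
  obtain ⟨m, hm⟩ := mem_iUnion.1 h1
  rw [hf2 m hm]
  exact (h_gC h (disjointed_subset t m hm) z).symm

end Crest.Agent.R143.Measx304
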