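import Crest.Agent.R143.Cfg_416
import Crest.Agent.R143.Meas_304
import Crest.Agent.R143.M5_304

/-!
# Row 143 (S0194), leaf D4COL, part A (helper606): transport of the classes and of the network
crossing to combinatorial data on a finite index type; measurable pieces
-/

set_option autoImplicit false

noncomputable section

open scoped Classical

namespace Crest.Agent.R143.D4Cx606

open MeasureTheory Set Filter Topology
open Crest.ProbabilityR.Voronoi
open Crest.Agent.R143.B0x346 Crest.Agent.R143.B0Dx346 Crest.Agent.R143.DelGx806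
  Crest.Agent.R143.DelRx806 Crest.Agent.R143.DomAx722 Crest.Agent.R143.Measx304
  Crest.Agent.R143.Cfgx416

variable {n : ℕ} {V : Type}

/-- combinatorial data of a configuration -/
structure CN (n : ℕ) (V : Type) where
  T : V → V → V → Prop
  cm : ZMod n → V → Prop
  ray : ZMod n → V × V

namespace CN

variable (N : CN n V)

def hull (i j : V) : Prop := (∃ k, N.T i j k) ∧ ∀ k, ¬ N.T j i k

def harc (i : ZMod n) : Set V :=
  {v | Relation.ReflTransGen (fun a b => N.hull a b ∧ ∀ k, N.ray k ≠ (a, b)) (N.ray i).2 v}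

def cls (i : ZMod n) : Set V := {v | N.cm i v} ∪ N.harc i

def inn : Set V := {v | ∀ i, v ∉ N.cls i}

def Adj (a b : V) : Prop := ∃ c, N.T a b c ∨ N.T b a c

def Crs (T : Set V) (i j : ZMod n) : Prop :=
  ∃ a ∈ N.cls i, ∃ b ∈ N.cls j, Relation.ReflTransGen
    (fun x y => N.Adj x y ∧ (y ∈ T ∨ y ∈ N.cls i ∨ y ∈ N.cls j)) a b

end CN

/-- transport of chains along a map -/
theorem rtg_iff {A B : Type} {x : A → B} {R : A → A → Prop} {R' : B → B → Prop}
    (h1 : ∀ a b', R' (x a) b' → ∃ b, b' = x b ∧ R a b) (h2 : ∀ a b, R a b → R' (x a) (x b))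
    (a : A) (b' : B) :
    Relation.ReflTransGen R' (x a) b' ↔ ∃ b, b' = x b ∧ Relation.ReflTransGen R a b := by
  constructor
  · intro h
    induction h with
    | refl => exact ⟨a, rfl, Relation.ReflTransGen.refl⟩
    | tail _ h ih =>
      obtain ⟨b, rfl, hb⟩ := ih
      obtain ⟨c, rfl, hc⟩ := h1 _ _ h
      exact ⟨c, rfl, hb.tail hc⟩
  · rintro ⟨b, rfl, h⟩
    induction h with
    | refl => exact Relation.ReflTransGen.refl
    | tail _ h ih => exact ih.tail (h2 _ _ h)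

section fib

variable [Fintype V]

/-- the cell of `x v` meets `U` -/
def CelX (U : Set ℂ) (x : V → ℂ) (v : V) : Prop := (voronoiCell (range x) (x v) ∩ U).Nonempty

theorem celX_meas {U : Set ℂ} (hU : IsOpen U) (v : V) :
    MeasurableSet {x : V → ℂ | CelX U x v} := by
  have h2 : MeasurableSet {x : V → ℂ | ∃ o ∈ U, (x, o) ∈ {p : (V → ℂ) × ℂ |
      ∀ l, ‖p.2 - p.1 v‖ ≤ ‖p.2 - p.1 l‖}} := by
    apply proj_meas (sigmaCompact_open hU)
    have e : {p : (V → ℂ) × ℂ | ∀ l, ‖p.2 - p.1 v‖ ≤ ‖p.2 - p.1 l‖} =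
        ⋂ l, {p : (V → ℂ) × ℂ | ‖p.2 - p.1 v‖ ≤ ‖p.2 - p.1 l‖} := by
      ext p
      simp only [mem_iInter, mem_ofPred_eq]
    rw [e]
    exact isClosed_iInter fun l => isClosed_le (by fun_prop) (by fun_prop)
  convert h2 using 1
  ext x
  unfold CelX voronoiCell
  simp only [mem_ofPred_eq, Set.Nonempty, mem_inter_iff, mem_range, forall_exists_index,
    forall_apply_eq_imp_iff]
  constructor
  · rintro ⟨z, h, hz⟩
    exact ⟨z, hz, h⟩
  · rintro ⟨z, hz, h⟩
    exact ⟨z, h, hz⟩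

/-- the configuration `x` has the combinatorics `N` -/
structure FibC (C : Cfg n) (N : CN n V) (x : V → ℂ) : Prop where
  T : ∀ i j k, N.T i j k ↔ DelX x i j k
  cm : ∀ i v, N.cm i v ↔ CelX (C.R i) x v
  ray : ∀ k, HullX x (N.ray k).1 (N.ray k).2 ∧ SegX C.c (C.q k) x (N.ray k).1 (N.ray k).2

theorem fibC_meas [NeZero n] {C : Cfg n} (hC : ∀ i, IsOpen (C.R i)) (N : CN n V) :
    MeasurableSet {x : V → ℂ | FibC C N x} := by
  have e : {x : V → ℂ | FibC C N x} = {x : V → ℂ | (∀ i j k, N.T i j k ↔ DelX x i j k) ∧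
      (∀ i v, N.cm i v ↔ CelX (C.R i) x v) ∧
      ∀ k, HullX x (N.ray k).1 (N.ray k).2 ∧ SegX C.c (C.q k) x (N.ray k).1 (N.ray k).2} := by
    ext x
    exact ⟨fun h => ⟨h.T, h.cm, h.ray⟩, fun h => ⟨h.1, h.2.1, h.2.2⟩⟩
  rw [e]
  haveI : Countable (ZMod n) := Finite.to_countable
  refine measurableSet_setOfPred.2 (Measurable.and ?_ (Measurable.and ?_ ?_))
  · refine Measurable.forall fun i => Measurable.forall fun j => Measurable.forall fun k => ?_
    exact measurable_const.iff (measurableSet_setOfPred.1 (delX_meas i j k))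
  · refine Measurable.forall fun i => Measurable.forall fun v => ?_
    exact measurable_const.iff (measurableSet_setOfPred.1 (celX_meas (hC i) v))
  · refine Measurable.forall fun k => ?_
    exact (measurableSet_setOfPred.1 (hullX_meas _ _)).and
      (measurableSet_setOfPred.1 (segX_meas _ _ _ _))

/-- every good configuration is in a fiber -/
theorem exists_fibC (C : Cfg n) {x : V → ℂ}
    (hc : ∀ k, ∃ p, crossRay (Finset.univ.image x) C.c (C.q k) p) :
    ∃ N : CN n V, FibC C N x := by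
  have hc' : ∀ k, ∃ p : V × V, HullX x p.1 p.2 ∧ SegX C.c (C.q k) x p.1 p.2 := by
    intro k
    obtain ⟨p, hp⟩ := hc k
    obtain ⟨i, j, rfl⟩ := crossRay_ex hp
    exact ⟨(i, j), (crossRay_img x _ _ i j).1 hp⟩
  choose e he using hc'
  exact ⟨⟨fun i j k => DelX x i j k, fun i v => CelX (C.R i) x v, e⟩, fun _ _ _ => Iff.rfl,
    fun _ _ => Iff.rfl, he⟩

variable {C : Cfg n} {N : CN n V} {x : V → ℂ}

theorem ray_eq (hF : FibC C N x) (hu : ∀ k p p',
    crossRay (Finset.univ.image x) C.c (C.q k) p → crossRay (Finset.univ.image x) C.c (C.q k) p' →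
    p = p') (k : ZMod n) : C.ray (Finset.univ.image x) k = (x (N.ray k).1, x (N.ray k).2) := by
  have h1 : crossRay (Finset.univ.image x) C.c (C.q k) (x (N.ray k).1, x (N.ray k).2) :=
    (crossRay_img x _ _ _ _).2 (hF.ray k)
  unfold Cfg.ray rayMark
  rw [dif_pos ⟨_, h1⟩]
  exact hu k _ _ (Exists.choose_spec (p := fun p => crossRay _ _ _ p) ⟨_, h1⟩) h1

theorem hull_iff (hF : FibC C N x) (i j : V) :
    hullE (Finset.univ.image x) (x i) (x j) ↔ N.hull i j := by
  rw [hullE_img]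
  unfold HullX CN.hull
  simp only [hF.T]

theorem mem_img {a : ℂ} : a ∈ (Finset.univ.image x) ↔ ∃ v, x v = a := by simp

theorem harc_eq (hx : Function.Injective x) (hF : FibC C N x) (hu : ∀ k p p',
    crossRay (Finset.univ.image x) C.c (C.q k) p → crossRay (Finset.univ.image x) C.c (C.q k) p' →
    p = p') (i : ZMod n) : C.harc (Finset.univ.image x) i = x '' N.harc i := by
  ext v
  have key := rtg_iff (x := x) (R := fun a b => N.hull a b ∧ ∀ k, N.ray k ≠ (a, b))
    (R' := fun a b => hullE (Finset.univ.image x) a b ∧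
      ∀ k, C.ray (Finset.univ.image x) k ≠ (a, b)) ?_ ?_ (N.ray i).2 v
  · show Relation.ReflTransGen _ (C.ray (Finset.univ.image x) i).2 v ↔ _
    rw [ray_eq hF hu i]
    dsimp only
    rw [key]
    constructor
    · rintro ⟨b, rfl, h⟩
      exact ⟨b, h, rfl⟩
    · rintro ⟨b, h, rfl⟩
      exact ⟨b, rfl, h⟩
  · rintro a b' ⟨h1, h2⟩
    obtain ⟨b, rfl⟩ := mem_img.1 (hullE.mem h1).2
    refine ⟨b, rfl, (hull_iff hF a b).1 h1, fun k hk => h2 k ?_⟩
    rw [ray_eq hF hu k, hk]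
  · rintro a b ⟨h1, h2⟩
    refine ⟨(hull_iff hF a b).2 h1, fun k hk => h2 k ?_⟩
    rw [ray_eq hF hu k] at hk
    have h3 := Prod.ext_iff.1 hk
    exact Prod.ext (hx h3.1) (hx h3.2)

theorem cls_eq (hx : Function.Injective x) (hF : FibC C N x) (hu : ∀ k p p',
    crossRay (Finset.univ.image x) C.c (C.q k) p → crossRay (Finset.univ.image x) C.c (C.q k) p' →
    p = p') (i : ZMod n) : C.cls (Finset.univ.image x) i = x '' N.cls i := by
  unfold Cfg.cls CN.cls
  rw [harc_eq hx hF hu, image_union]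
  congr 1
  ext v
  constructor
  · rintro ⟨h1, h2⟩
    obtain ⟨a, rfl⟩ := mem_img.1 h1
    refine ⟨a, (hF.cm i a).2 ?_, rfl⟩
    unfold cell at h2
    rw [coe_img] at h2
    exact h2
  · rintro ⟨a, ha, rfl⟩
    refine ⟨mem_img.2 ⟨a, rfl⟩, ?_⟩
    unfold cell
    rw [coe_img]
    exact (hF.cm i a).1 ha

theorem mem_cls (hx : Function.Injective x) (hF : FibC C N x) (hu : ∀ k p p',
    crossRay (Finset.univ.image x) C.c (C.q k) p → crossRay (Finset.univ.image x) C.c (C.q k) p' →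
    p = p') (i : ZMod n) (v : V) : x v ∈ C.cls (Finset.univ.image x) i ↔ v ∈ N.cls i := by
  rw [cls_eq hx hF hu, hx.mem_set_image]

theorem inn_eq (hx : Function.Injective x) (hF : FibC C N x) (hu : ∀ k p p',
    crossRay (Finset.univ.image x) C.c (C.q k) p → crossRay (Finset.univ.image x) C.c (C.q k) p' →
    p = p') : C.inn (Finset.univ.image x) =
      (Finset.univ.filter fun v => v ∈ N.inn).map ⟨x, hx⟩ := by
  ext s
  unfold Cfg.inn
  rw [Finset.mem_filter, mem_img, Finset.mem_map]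
  constructor
  · rintro ⟨⟨v, rfl⟩, h⟩
    refine ⟨v, ?_, rfl⟩
    rw [Finset.mem_filter]
    exact ⟨Finset.mem_univ _, fun i hi => h i ((mem_cls hx hF hu i v).2 hi)⟩
  · rintro ⟨v, hv, rfl⟩
    rw [Finset.mem_filter] at hv
    exact ⟨⟨v, rfl⟩, fun i hi => hv.2 i ((mem_cls hx hF hu i v).1 hi)⟩

theorem adj_iff (hF : FibC C N x) (a b : V) :
    Adj (Finset.univ.image x) (x a) (x b) ↔ N.Adj a b := by
  unfold Adj CN.Adj
  constructor
  · rintro ⟨c, h⟩
    have hm : ∃ k, x k = c := by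
      rcases h with h | h <;>
      · obtain ⟨o, h⟩ := mem_delT_iff.1 h
        obtain ⟨k, -, hk⟩ := Finset.mem_image.1 h.mc
        exact ⟨k, hk⟩
    obtain ⟨k, rfl⟩ := hm
    rw [delT_img, delT_img, ← hF.T, ← hF.T] at h
    exact ⟨k, h⟩
  · rintro ⟨k, h⟩
    refine ⟨x k, ?_⟩
    rw [delT_img, delT_img, ← hF.T, ← hF.T]
    exact h

theorem adj_mem {S : Finset ℂ} {a b : ℂ} (h : Adj S a b) : b ∈ S := by
  obtain ⟨c, h | h⟩ := h
  · obtain ⟨o, h⟩ := mem_delT_iff.1 h
    exact h.mb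
  · obtain ⟨o, h⟩ := mem_delT_iff.1 h
    exact h.ma

theorem crs_eq {C : Cfg 4} {N : CN 4 V} (hx : Function.Injective x) (hF : FibC C N x)
    (hu : ∀ k p p', crossRay (Finset.univ.image x) C.c (C.q k) p →
      crossRay (Finset.univ.image x) C.c (C.q k) p' → p = p') (T : Set ℂ) (i : ZMod 4) :
    C.Crs (Finset.univ.image x) T i ↔ N.Crs (x ⁻¹' T) i (i + 2) := by
  unfold Cfg.Crs CN.Crs
  have key := fun a b' => rtg_iff (x := x)
    (R := fun a b => N.Adj a b ∧ (b ∈ x ⁻¹' T ∨ b ∈ N.cls i ∨ b ∈ N.cls (i + 2)))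
    (R' := fun a b => Adj (Finset.univ.image x) a b ∧ (b ∈ T ∨
      b ∈ C.cls (Finset.univ.image x) i ∨ b ∈ C.cls (Finset.univ.image x) (i + 2))) ?_ ?_ a b'
  · constructor
    · rintro ⟨a, ha, b, hb, h⟩
      have ha' := ha
      rw [cls_eq hx hF hu] at ha'
      obtain ⟨a, ha1, rfl⟩ := ha'
      obtain ⟨b, rfl, hab⟩ := (key a b).1 h
      exact ⟨a, ha1, b, (mem_cls hx hF hu _ _).1 hb, hab⟩
    · rintro ⟨a, ha, b, hb, h⟩
      exact ⟨x a, (mem_cls hx hF hu _ _).2 ha, x b, (mem_cls hx hF hu _ _).2 hb,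
        (key a (x b)).2 ⟨b, rfl, h⟩⟩
  · rintro a b' ⟨h1, h2⟩
    obtain ⟨b, rfl⟩ := mem_img.1 (adj_mem h1)
    rw [mem_cls hx hF hu, mem_cls hx hF hu] at h2
    exact ⟨b, rfl, (adj_iff hF a b).1 h1, h2⟩
  · rintro a b ⟨h1, h2⟩
    rw [mem_cls hx hF hu, mem_cls hx hF hu]
    exact ⟨(adj_iff hF a b).2 h1, h2⟩

/-- the abstract probability -/
def CN.pr (N : CN 4 V) (i : ZMod 4) : ℝ :=
  (((Finset.univ.filter fun v => v ∈ N.inn).powerset.filter fun T : Finset V =>
    N.Crs (T : Set V) i (i + 2)).card : ℝ) / 2 ^ (Finset.univ.filter fun v => v ∈ N.inn).card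

theorem pr_eq {C : Cfg 4} {N : CN 4 V} (hx : Function.Injective x) (hF : FibC C N x)
    (hu : ∀ k p p', crossRay (Finset.univ.image x) C.c (C.q k) p →
      crossRay (Finset.univ.image x) C.c (C.q k) p' → p = p') (i : ZMod 4) :
    C.pr (Finset.univ.image x) i = N.pr i := by
  unfold Cfg.pr CN.pr
  rw [inn_eq hx hF hu, Finset.card_map]
  congr 2
  refine (Finset.card_bij (fun T _ => T.map ⟨x, hx⟩) ?_ ?_ ?_).symm
  · intro T hT
    rw [Finset.mem_filter, Finset.mem_powerset] at hT ⊢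
    refine ⟨Finset.map_subset_map.2 hT.1, ?_⟩
    rw [crs_eq hx hF hu]
    have e : x ⁻¹' ((T.map ⟨x, hx⟩ : Finset ℂ) : Set ℂ) = (T : Set V) := by
      rw [Finset.coe_map]
      exact Set.preimage_image_eq _ hx
    rw [e]
    exact hT.2
  · intro T _ T' _ h
    exact Finset.map_injective _ h
  · intro T hT
    rw [Finset.mem_filter, Finset.mem_powerset, Finset.subset_map_iff] at hT
    obtain ⟨⟨T', hT', rfl⟩, h2⟩ := hT
    refine ⟨T', ?_, rfl⟩
    rw [Finset.mem_filter, Finset.mem_powerset]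
    refine ⟨hT', ?_⟩
    rw [crs_eq hx hF hu] at h2
    have e : x ⁻¹' ((T'.map ⟨x, hx⟩ : Finset ℂ) : Set ℂ) = (T' : Set V) := by
      rw [Finset.coe_map]
      exact Set.preimage_image_eq _ hx
    rwa [e] at h2

end fib

end Crest.Agent.R143.D4Cx606
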