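import Crest.Agent.R143.D4A_304
import Crest.Agent.R143.D4B_304
import Crest.Agent.R143.Har_315

/-!
# Row 143 (S0194), leaf D4COL, the law (helper606)

* `fib_pr` : given the positions, the probability of the network crossing is `Cfg.pr`
* `aesm_pr` : measurability of `pr` from the measurability of `NX ∩ Pm`
* `law_eq` : the clause (4) of `D4COL`
-/

set_option autoImplicit false

noncomputable section

open scoped Classical

namespace Crest.Agent.R143.D4Lx606

open MeasureTheory Set Filter Topology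
open Crest.ProbabilityR.Voronoi
open Crest.Agent.R143.B0x346 Crest.Agent.R143.B0Dx346 Crest.Agent.R143.DomAx722
  Crest.Agent.R143.Measx304 Crest.Agent.R143.Lawx831 Crest.Agent.R143.Y5Dx831
  Crest.Agent.R143.Cfgx416 Crest.Agent.R143.D4Ax304 Crest.Agent.R143.G6Vx408

local notation "smk" => Crest.Agent.R143.Lawx831.mk

variable {C : Cfg 4} {K ε : ℝ}

theorem mem_SP {p : Pos} (hp : PG C K ε (smk p fun _ => 0)) {v : ℂ} (hv : v ∈ SP C.dom ε p) :
    ∃ j ∈ presP p, ptP ε p j = v := by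
  have h1 : v ∈ points ε (smk p fun _ => 0) := ((mem_sites (pg_finD hp)).1 hv).1
  rw [points_mk] at h1
  exact h1

theorem inj_P {p : Pos} (hp : PG C K ε (smk p fun _ => 0)) {j j' : Idx} (hj : j ∈ presP p)
    (hj' : j' ∈ presP p) (h : ptP ε p j = ptP ε p j') : j = j' := by
  have h1 := hp.inj (j.1.1, j.1.2, j.2) ((present_mk p _ _).2 hj) (j'.1.1, j'.1.2, j'.2)
    ((present_mk p _ _).2 hj') (by rw [point_mk, point_mk]; exact h)
  simp only [Prod.mk.injEq] at h1
  exact Prod.ext (Prod.ext h1.1 h1.2.1) h1.2.2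

theorem inn_sub {n : ℕ} {C : Cfg n} {S : Finset ℂ} {v : ℂ} (h : v ∈ C.inn S) : v ∈ S := by
  unfold Cfg.inn at h
  rw [Finset.mem_filter] at h
  exact h.1

/-- the colour of a site -/
theorem blk_iff {p : Pos} (hp : PG C K ε (smk p fun _ => 0)) {j : Idx} (hj : j ∈ presP p)
    (c : Col) : ptP ε p j ∈ blk ε (smk p c) ↔ ((c j : unitInterval) : ℝ) < 1 / 2 := by
  rw [mem_blk]
  constructor
  · rintro ⟨q, hq, h1, h2⟩
    rw [point_mk] at h2
    have h3 : ((q.1, q.2.1), q.2.2) = j := inj_P hp ((present_mk p c q).1 hq) hj h2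
    rw [← h3]
    exact h1
  · intro h
    refine ⟨(j.1.1, j.1.2, j.2), (present_mk p c _).2 hj, h, ?_⟩
    rw [point_mk]

/-- **the fibre identity** -/
theorem fib_pr {p : Pos} (hp : PG C K ε (smk p fun _ => 0)) (i : ZMod 4) :
    colLaw.real {c | smk p c ∈ C.NX i ε} = C.pr (SP C.dom ε p) i := by
  set S := SP C.dom ε p with hS
  have hix0 : ∀ v : ℂ, ∃ j : Idx, v ∈ C.inn S → j ∈ presP p ∧ ptP ε p j = v := by
    intro v
    by_cases hv : v ∈ C.inn S
    · obtain ⟨j, h1, h2⟩ := mem_SP hp (inn_sub hv)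
      exact ⟨j, fun _ => ⟨h1, h2⟩⟩
    · exact ⟨((0, 0), 0), fun h => absurd h hv⟩
  choose ix hix using hix0
  have hinj : Set.InjOn ix (C.inn S) := by
    intro v hv w hw h
    rw [← (hix v hv).2, ← (hix w hw).2, h]
  have hset : {c : Col | smk p c ∈ C.NX i ε} =
      {c : Col | (fun β : Finset ℂ => (fun T : Finset ℂ => C.Crs S (T : Set ℂ) i) (C.inn S \ β))
        (Y5ax315.wht (C.inn S) ix c)} := by
    ext c
    simp only [Set.mem_ofPred_eq]
    unfold Cfg.NX
    rw [Set.mem_ofPred_eq, sites_mk, ← hS]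
    have e : blk ε (smk p c) ∩ ((C.inn S : Finset ℂ) : Set ℂ) =
        ((C.inn S \ Y5ax315.wht (C.inn S) ix c : Finset ℂ) : Set ℂ) := by
      ext v
      rw [Finset.mem_coe, Finset.mem_sdiff, Y5ax315.mem_wht, Set.mem_inter_iff, Finset.mem_coe]
      constructor
      · rintro ⟨h1, h2⟩
        refine ⟨h2, fun h3 => h3.2 ?_⟩
        rw [← (hix v h2).2] at h1
        exact (blk_iff hp (hix v h2).1 c).1 h1
      · rintro ⟨h1, h2⟩
        refine ⟨?_, h1⟩
        have h3 : ((c (ix v) : unitInterval) : ℝ) < 1 / 2 := by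
          by_contra hcon
          exact h2 ⟨h1, hcon⟩
        have h4 := (blk_iff hp (hix v h1).1 c).2 h3
        rwa [(hix v h1).2] at h4
    rw [e]
  rw [hset]
  have h1 := Harx315.real_eq_pr hinj
    (fun β : Finset ℂ => (fun T : Finset ℂ => C.Crs S (T : Set ℂ) i) (C.inn S \ β))
  have h2 := Harx315.pr_flip (C.inn S) (fun T : Finset ℂ => C.Crs S (T : Set ℂ) i)
  rw [h2] at h1
  exact h1

/-- sections of `NX ∩ Pm` -/
theorem section_eq (p : Pos) (i : ZMod 4) :
    colLaw.real {c | smk p c ∈ C.NX i ε ∩ Pm C K ε} =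
      (GP0 C K ε).indicator (fun p => C.pr (SP C.dom ε p) i) p := by
  by_cases hp : p ∈ GP0 C K ε
  · rw [indicator_of_mem hp, ← fib_pr (pg_of_GP0 hp _)]
    congr 1
    ext c
    simp only [Set.mem_ofPred_eq, Set.mem_inter_iff, mk_mem_Pm, hp, and_true]
  · rw [indicator_of_notMem hp]
    have : {c : Col | smk p c ∈ C.NX i ε ∩ Pm C K ε} = ∅ := by
      ext c
      simp only [Set.mem_ofPred_eq, Set.mem_inter_iff, mk_mem_Pm, hp, and_false,
        Set.mem_empty_iff_false]
    rw [this]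
    simp

/-- the conditional probability is a measurable function of the positions -/
theorem meas_g {i : ZMod 4} (hNX : MeasurableSet (C.NX i ε ∩ Pm C K ε)) :
    Measurable ((GP0 C K ε).indicator fun p => C.pr (SP C.dom ε p) i) := by
  have h1 : MeasurableSet ((fun q : Pos × Col => smk q.1 q.2) ⁻¹' (C.NX i ε ∩ Pm C K ε)) :=
    measurable_mk hNX
  have h2 : Measurable fun p : Pos =>
      colLaw (Prod.mk p ⁻¹' ((fun q : Pos × Col => smk q.1 q.2) ⁻¹' (C.NX i ε ∩ Pm C K ε))) :=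
    measurable_measure_prodMk_left h1
  have h3 := h2.ennreal_toReal
  convert h3 using 1
  funext p
  exact (section_eq p i).symm

theorem sites_posOf (ω : Sample) : C.dom.sites ε ω = SP C.dom ε (posOf ω) := by
  have h := sites_mk C.dom ε (posOf ω) (colOf ω)
  rwa [mk_pos_col] at h

theorem pr_eq_on {i : ZMod 4} {ω : Sample} (h : ω ∈ Pm C K ε) :
    C.pr (C.dom.sites ε ω) i =
      (GP0 C K ε).indicator (fun p => C.pr (SP C.dom ε p) i) (posOf ω) := by
  have h' : posOf ω ∈ GP0 C K ε := h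
  rw [indicator_of_mem h', sites_posOf]

theorem aesm_pr {i : ZMod 4} (hNX : MeasurableSet (C.NX i ε ∩ Pm C K ε)) :
    AEStronglyMeasurable (fun ω => C.pr (C.dom.sites ε ω) i)
      (sampleLaw.restrict (Pm C K ε)) := by
  refine ⟨fun ω => (GP0 C K ε).indicator (fun p => C.pr (SP C.dom ε p) i) (posOf ω),
    ((meas_g hNX).comp posOf_meas).stronglyMeasurable, ?_⟩
  exact (ae_restrict_iff' (Pm_meas C K ε)).2 (Eventually.of_forall fun ω h => pr_eq_on h)

/-- **the clause (4)** -/
theorem law_eq {i : ZMod 4} (hNX : MeasurableSet (C.NX i ε ∩ Pm C K ε)) :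
    ∫ ω in Pm C K ε, C.pr (C.dom.sites ε ω) i ∂sampleLaw =
      sampleLaw.real (C.NX i ε ∩ Pm C K ε) := by
  set G : Pos → ℝ := (GP0 C K ε).indicator fun p => C.pr (SP C.dom ε p) i with hG
  have hGm : Measurable G := meas_g hNX
  have h1 : MeasurableSet ((fun q : Pos × Col => smk q.1 q.2) ⁻¹' (C.NX i ε ∩ Pm C K ε)) :=
    measurable_mk hNX
  -- right hand side
  have e1 : sampleLaw (C.NX i ε ∩ Pm C K ε) = ∫⁻ p, colLaw (Prod.mk p ⁻¹'
      ((fun q : Pos × Col => smk q.1 q.2) ⁻¹' (C.NX i ε ∩ Pm C K ε))) ∂posLaw := by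
    rw [← mp_mk.measure_preimage hNX.nullMeasurableSet, Measure.prod_apply h1]
  have e2 : sampleLaw.real (C.NX i ε ∩ Pm C K ε) = ∫ p, G p ∂posLaw := by
    rw [Measure.real, e1, ← integral_toReal]
    · refine integral_congr_ae (Eventually.of_forall fun p => ?_)
      exact section_eq p i
    · exact (measurable_measure_prodMk_left h1).aemeasurable
    · exact Eventually.of_forall fun p => measure_lt_top _ _
  -- left hand side
  have e3 : ∫ ω in Pm C K ε, C.pr (C.dom.sites ε ω) i ∂sampleLaw =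
      ∫ ω, G (posOf ω) ∂sampleLaw := by
    rw [← integral_indicator (Pm_meas C K ε)]
    refine integral_congr_ae (Eventually.of_forall fun ω => ?_)
    dsimp only
    by_cases h : ω ∈ Pm C K ε
    · rw [indicator_of_mem h, pr_eq_on h]
    · rw [indicator_of_notMem h]
      have h' : posOf ω ∉ GP0 C K ε := h
      rw [hG, indicator_of_notMem h']
  have e4 : ∫ ω, G (posOf ω) ∂sampleLaw = ∫ p, G p ∂posLaw := by
    rw [← posOf_mp.map_eq, integral_map posOf_meas.aemeasurable]
    rw [posOf_mp.map_eq]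
    exact hGm.aestronglyMeasurable
  rw [e3, e4, e2]

/-- **D4COL** -/
theorem d4col : D4COL := by
  intro C δ hC i
  obtain ⟨K, hK, hP⟩ := pm_prob C hC.qn
  refine ⟨fun ε => Pm C K ε, fun ε => Pm_meas C K ε, hP, fun d hd => pm_env hK C hd, ?_⟩
  have hL8 : 0 < C.L / 8 := by have := hC.Lpos; positivity
  filter_upwards [ev_small hL8 K hK] with ε hε
  have hNX := D4Bx304.meas_NX (C := C) (K := K) (ε := ε) hC.qn hC.opn hε.2.1 hε.2.2 i
  exact ⟨aesm_pr hNX, hNX, law_eq hNX⟩

end Crest.Agent.R143.D4Lx606
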