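import Crest.Agent.R143.SumA_389
import Crest.Agent.R143.Meet_707
import Crest.Agent.R143.Asm4_414

/-!
# Row 143 (S0194), hedge block H, input [A] (helper389): majorant form on the sample

* `cK`, `coinsS` : the coins of 304's `chiS`
* `DatA` : everything [A] needs at one set `A` of sites: windows, cores, tubes, ring data, macroscopic
  blocks
* **`majA`** : `MajQ ε B g (8 * mean of Phi) (const * E ε)` with `∫ E ε → 0`
-/

set_option autoImplicit false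
set_option linter.unusedSectionVars false

noncomputable section

open scoped Classical

namespace Crest.Agent.R143.MajAx389

open MeasureTheory Filter Topology
open Crest.ProbabilityR.Voronoi
open Crest.Agent.R143.B0x346 Crest.Agent.R143.SumScx302 Crest.Agent.R143.Mass1x302
  Crest.Agent.R143.Mass2x302 Crest.Agent.R143.PP0x831 Crest.Agent.R143.HGluex136
  Crest.Agent.R143.JColx54 Crest.Agent.R143.MassPx304 Crest.Agent.R143.FinCx811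
  Crest.Agent.R143.Dblx609 Crest.Agent.R143.Dbl2x609 Crest.Agent.R143.SmallAx304
  Crest.Agent.R143.Asm4x414
open Crest.Agent.R143.DelGx806 Crest.Agent.R143.DelRx806 Crest.Agent.R143.Frame10x395
  Crest.Agent.R143.Histx389 Crest.Agent.R143.Frame1x395 Crest.Agent.R143.Frame2x395
  Crest.Agent.R143.Frame8x395 Crest.Agent.R143.Frame9x395
  Crest.Agent.R143.Mass4x302 Crest.Agent.R143.Mass5x302 Crest.Agent.R143.Mass3x302
  Crest.Agent.R143.Harx315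
open Crest.Agent.R143.Chord2x355 Crest.Agent.R143.H2x355 Crest.Agent.R143.RevCx389
  Crest.Agent.R143.RevEx389 Crest.Agent.R143.SumAx389 Crest.Agent.R143.Meetx707
open scoped ENNReal

variable {A : Finset ℂ} {hS : GP (A : Set ℂ)} {h3 : 3 ≤ A.card}

/-- the coin of a cell -/
def cK (hS : GP (A : Set ℂ)) (h3 : 3 ≤ A.card) (c : Cs hS) : Finset ℂ := {(rp hS h3 c).1}

theorem coinsS : Coins A (chiS hS h3) (cK hS h3) := by
  intro c b b' _ _ h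
  have h1 : (rp hS h3 c).1 ∈ b ↔ (rp hS h3 c).1 ∈ b' := by
    have h2 : (rp hS h3 c).1 ∈ b ∩ cK hS h3 c ↔ (rp hS h3 c).1 ∈ b' ∩ cK hS h3 c := by rw [h]
    unfold cK at h2
    simpa using h2
  unfold chiS
  by_cases h2 : (rp hS h3 c).1 ∈ b
  · rw [if_pos h2, if_pos (h1.1 h2)]
  · rw [if_neg h2, if_neg fun h => h2 (h1.2 h)]

theorem cK_sub (c : Cs hS) : cK hS h3 c ⊆ A := by
  intro y hy
  rw [Finset.mem_singleton.1 hy]
  exact (rp hS h3 c).2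

theorem cK_dis (c c' : Cs hS) (y : ℂ) (h : y ∈ cK hS h3 c) (h' : y ∈ cK hS h3 c') : c = c' :=
  rp_inj hS h3 (Subtype.ext ((Finset.mem_singleton.1 h).symm.trans (Finset.mem_singleton.1 h')))

/-- data of [A] at the set `A` of sites -/
structure DatA (P U : Set ℂ) (k : ℝ) (hS : GP (A : Set ℂ)) (h3 : 3 ≤ A.card) (e0 : D0 A)
    (a : D0 A → ℂ) (γ : Finset ℂ → ℝ≥0∞) (Gf : Rg (D0 A) (Cs hS)) (G : ℕ → Rg (D0 A) (Cs hS))
    (m₀ : ℕ) {ι : Type} (Z : Finset ι) (Co : ι → Set (Cs hS)) (I : Finset (D0 A × ℕ))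
    (T : ℕ → ι → Finset ℂ → Prop) (c : ℝ) : Prop where
  hin : ∀ v ∈ A, v ∈ U → ¬ OnHull A v
  fld : ∀ t : T3, Fc P U t.1 t.2.1 t.2.2 → a (gd (dl e0) t) = Nn t
  hTh : ∀ i, i < m₀ → ∀ c, c ∈ (G i).Dw → c ∉ (G i).Th
  hLe : ∀ i, i < m₀ → Le (G i) Gf
  h0 : ∀ s, OnHull A s → sr hS h3 s = Gf.h0
  rd : ∀ b, b ⊆ A → γ b ≠ 0 → ∃ r, Rd (rc0 hS) Gf G m₀ (chiS hS h3 b) r
  tb : ∀ i, i < m₀ → ∀ z ∈ Z, c ≤ pr A (T i z)
  mt : ∀ i, i < m₀ → ∀ z ∈ Z, ∀ b b', b ⊆ A → b' ⊆ A →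
    Ow (rc0 hS) (G i) A (chiS hS h3) (cK hS h3) b → T i z b' → ∀ k n,
      Cd (rc0 hS) (cfg (rc0 hS) (chiS hS h3 b)) (p0 (rc0 hS) (G i) (chiS hS h3 b))
        (ln (rc0 hS) (G i) (chiS hS h3 b)) (Cw (rc0 hS) (G i) (chiS hS h3 b)) k n →
      RevCx389.gd (rc0 hS) (G i) (Co z) (chiS hS h3 b) k n →
      Meet (rc0 hS) (G i) (chiS hS h3) b b' k n
  bg : ∀ i, i < m₀ → ∀ z ∈ Z, ∀ b, b ⊆ A →
    Ow (rc0 hS) (G i) A (chiS hS h3) (cK hS h3) b → ∀ q ∈ I,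
      Jc (rc0 hS) (cfg (rc0 hS) (chiS hS h3 b)) (p0 (rc0 hS) (G i) (chiS hS h3 b))
        (ln (rc0 hS) (G i) (chiS hS h3 b)) (Cw (rc0 hS) (G i) (chiS hS h3 b)) q.1 q.2 →
      RevCx389.gd (rc0 hS) (G i) (Co z) (chiS hS h3 b) q.1 q.2 →
      blk (rc0 hS) (cfg (rc0 hS) (chiS hS h3 b)) q.1 ∈
        bigB P U (rc0 hS) (dl e0) k (cfg (rc0 hS) (chiS hS h3 b))

/-- quenched form -/
theorem DatA.sum {P U : Set ℂ} {k : ℝ} {e0 : D0 A} {a : D0 A → ℂ} {γ : Finset ℂ → ℝ≥0∞}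
    {Gf : Rg (D0 A) (Cs hS)} {G : ℕ → Rg (D0 A) (Cs hS)} {m₀ : ℕ} {ι : Type} {Z : Finset ι}
    {Co : ι → Set (Cs hS)} {I : Finset (D0 A × ℕ)} {T : ℕ → ι → Finset ℂ → Prop} {c : ℝ}
    (H : DatA P U k hS h3 e0 a γ Gf G m₀ Z Co I T c) (hc0 : 0 < c) (hg : ∀ b, γ b ≤ 1) :
    ∑ b ∈ A.powerset, γ b * av A (Ra (rc0 hS) Gf A (chiS hS h3) (cK hS h3) b)
        (fun b => ENNReal.ofReal (Phi (rc0 hS) G m₀ (⋃ z ∈ Z, Co z) I a (chiS hS h3 b))) b ≤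
      ENNReal.ofReal (c⁻¹ * ((m₀ : ℝ) * Z.card)) *
        ∑ b ∈ A.powerset, Hb P U (rc0 hS) (dl e0) k a (chiS hS h3) b := by
  refine sumA coinsS cK_sub cK_dis H.hTh H.hLe (fun i hi d hd => ?_) hg H.rd Z Co I a hc0 H.tb H.mt
    (fun b => bigB P U (rc0 hS) (dl e0) k (cfg (rc0 hS) (chiS hS h3 b))) H.bg
  refine (pl_rc0 hS h3).gen (h0 := Gf.h0) H.h0 ?_
  rw [(H.hLe i hi).h0]
  exact hd

/-- **[A], majorant form** -/
theorem majA {k : ℝ} (hk : 0 < k) {U : Set ℂ} (hU : Bornology.IsBounded U) :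
    ∃ E : ℝ → Sample → ℝ≥0∞, (∀ ε, 0 < ε → Measurable (E ε)) ∧
      Tendsto (fun ε : ℝ => ∫⁻ ω, E ε ω ∂sampleLaw) (𝓝[>] 0) (𝓝 0) ∧
      ∀ ε : ℝ, 0 < ε → ∀ B : Set ℂ, Bornology.IsBounded B → U ⊆ B →
      ∀ g : Set (ℂ × Bool) → ℝ≥0∞, (∀ X, g X ≤ 1) → ∀ (Ψ : Finset ℂ → Finset ℂ → ℝ≥0∞) (L : ℝ≥0∞),
      (∀ᵐ ω ∂sampleLaw, (∀ β ∈ (Ap ε B ω).powerset, g (paint (Ap ε B ω) β) = 0) ∨
        ∃ (hS : GP ((Ap ε B ω : Finset ℂ) : Set ℂ)) (h3 : 3 ≤ (Ap ε B ω).card)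
          (e0 : D0 (Ap ε B ω)) (a : D0 (Ap ε B ω) → ℂ) (Gf : Rg (D0 (Ap ε B ω)) (Cs hS))
          (G : ℕ → Rg (D0 (Ap ε B ω)) (Cs hS)) (m₀ : ℕ) (ι : Type) (Z : Finset ι)
          (Co : ι → Set (Cs hS)) (I : Finset (D0 (Ap ε B ω) × ℕ))
          (T : ℕ → ι → Finset ℂ → Prop) (c : ℝ),
          DatA (points ε ω) U k hS h3 e0 a (fun β => g (paint (Ap ε B ω) β)) Gf G m₀ Z Co I T c ∧
          0 < c ∧ ENNReal.ofReal (8 * (c⁻¹ * ((m₀ : ℝ) * Z.card))) ≤ L ∧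
          ∀ β ∈ (Ap ε B ω).powerset, g (paint (Ap ε B ω) β) ≠ 0 → Ψ (Ap ε B ω) β ≤
            8 * av (Ap ε B ω) (Ra (rc0 hS) Gf (Ap ε B ω) (chiS hS h3) (cK hS h3) β)
              (fun b => ENNReal.ofReal
                (Phi (rc0 hS) G m₀ (⋃ z ∈ Z, Co z) I a (chiS hS h3 b))) β) →
      MajQ ε B g Ψ fun ω => L * E ε ω := by
  obtain ⟨E, h1, h2, -, h4⟩ := sum_rule_meas hk hU
  refine ⟨E, h1, h2, ?_⟩
  intro ε hε B hB hUB g hg Ψ L hQ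
  refine ⟨(h1 ε hε).aemeasurable.const_mul L, ?_⟩
  have hGP : ∀ᵐ ω ∂sampleLaw, GP (points ε ω) := by
    filter_upwards [PoisM3x930.m3a ε hε] with ω h using h.1
  filter_upwards [hGP, hQ] with ω hP hq
  have hA := coe_Ap hε hB ω
  have hPS : ∀ z ∈ U, z ∈ points ε ω ↔ z ∈ ((Ap ε B ω : Finset ℂ) : Set ℂ) := by
    intro z hz
    rw [hA]
    exact ⟨fun h => ⟨h, hUB hz⟩, fun h => h.1⟩
  rcases hq with hq | ⟨hS, h3, e0, a, Gf, G, m₀, ι, Z, Co, I, T, c, H, hc, hL, hΨ⟩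
  · rw [Finset.sum_eq_zero fun β hβ => by rw [hq β hβ, zero_mul]]
    exact zero_le
  · have A := agr_restr (agr0 hP hS hPS H.hin e0) e0
    have h5 := h4 ε ω (D0 (Ap ε B ω)) (Cs hS) (rc0 hS) (dl e0) _ A a H.fld
    have h6 := real_le hS h3 h5
    have h7 : ∑ β ∈ (Ap ε B ω).powerset,
        Hb (points ε ω) U (rc0 hS) (dl e0) k a (chiS hS h3) β ≤
        (2 : ℝ≥0∞) ^ (Ap ε B ω).card * E ε ω := by
      have h8 := mul_le_mul_right h6 ((2 : ℝ≥0∞) ^ (Ap ε B ω).card)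
      rwa [pow_inv_mul] at h8
    have h8 := H.sum hc (fun β => hg _)
    calc ∑ β ∈ (Ap ε B ω).powerset, g (paint (Ap ε B ω) β) * Ψ (Ap ε B ω) β
        ≤ ∑ β ∈ (Ap ε B ω).powerset, 8 * (g (paint (Ap ε B ω) β) *
            av (Ap ε B ω) (Ra (rc0 hS) Gf (Ap ε B ω) (chiS hS h3) (cK hS h3) β)
              (fun b => ENNReal.ofReal
                (Phi (rc0 hS) G m₀ (⋃ z ∈ Z, Co z) I a (chiS hS h3 b))) β) := by
          refine Finset.sum_le_sum fun β hβ => ?_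
          by_cases h0 : g (paint (Ap ε B ω) β) = 0
          · rw [h0, zero_mul, zero_mul, mul_zero]
          · rw [mul_left_comm]
            exact mul_le_mul_right (hΨ β hβ h0) _
      _ ≤ 8 * (ENNReal.ofReal (c⁻¹ * ((m₀ : ℝ) * Z.card)) *
            ((2 : ℝ≥0∞) ^ (Ap ε B ω).card * E ε ω)) := by
          rw [← Finset.mul_sum]
          gcongr
          exact h8.trans (by gcongr)
      _ = (2 : ℝ≥0∞) ^ (Ap ε B ω).card *
            (ENNReal.ofReal (8 * (c⁻¹ * ((m₀ : ℝ) * Z.card))) * E ε ω) := by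
          rw [ENNReal.ofReal_mul (by norm_num : (0 : ℝ) ≤ 8),
            show ENNReal.ofReal 8 = 8 by norm_num]
          ring
      _ ≤ _ := by gcongr

end Crest.Agent.R143.MajAx389
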