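import Crest.Agent.R143.MajA_136
import Crest.Agent.R143.MajA_389

/-!
# Row 143 (S0194), block H: 389's `DatA` from the geometry of the sites (helper136)

* `datA_of` : `GeoA` (MajA_136) + field + ring data `Rd` ==> `DatA` (MajA_389): `tb`, `mt`, `bg`
-/

set_option autoImplicit false

noncomputable section

open scoped Classical ENNReal

namespace Crest.Agent.R143.DatIx136

open Crest.ProbabilityR.Voronoi
open Crest.Agent.R143.B0x346 Crest.Agent.R143.DelGx806 Crest.Agent.R143.DelRx806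
  Crest.Agent.R143.Mass1x302 Crest.Agent.R143.Mass2x302 Crest.Agent.R143.Mass3x302
  Crest.Agent.R143.Mass4x302 Crest.Agent.R143.Mass5x302
  Crest.Agent.R143.SmallAx304 Crest.Agent.R143.Frame10x395 Crest.Agent.R143.RevCx389
  Crest.Agent.R143.SumAx389 Crest.Agent.R143.Meetx707 Crest.Agent.R143.Meet2x707
  Crest.Agent.R143.MajAx389 Crest.Agent.R143.MajAx136
open Crest.Agent.R143.TubeWx707 (TW)
open Crest.Agent.R143.Multix838 (Rect)
open Crest.Agent.R143.FinCx811 (Cs rc0)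

variable {W0 U : Set ℂ} {k c : ℝ} {m₀ : ℕ} {ι : Type} {A : Finset ℂ} {hS : GP (A : Set ℂ)}
  {h3 : 3 ≤ A.card} {G : ℕ → Rg (D0 A) (Cs hS)} {Gf : Rg (D0 A) (Cs hS)} {V : Finset ℂ}
  {Z : Finset ι} {cz : ι → ℂ} {rz : ι → ℝ} {z2 : ℂ} {r2 : ℝ} {q : ℕ → ι → Rect}

/-- **389's data from the geometry of the sites** -/
theorem datA_of (hPS : ∀ z ∈ U, z ∈ W0 ↔ z ∈ (A : Set ℂ))
    (H : GeoA U k c m₀ A hS h3 G Gf V Z cz rz z2 r2 q)
    (h0 : ∀ s, OnHull A s → sr hS h3 s = Gf.h0) (e0 : D0 A) {a : D0 A → ℂ}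
    (fld : ∀ t : T3, Fc W0 U t.1 t.2.1 t.2.2 → a (gd (dl e0) t) = Nn t)
    {γ : Finset ℂ → ℝ≥0∞}
    (rd : ∀ b, b ⊆ A → γ b ≠ 0 → ∃ r, Rd (rc0 hS) Gf G m₀ (chiS hS h3 b) r)
    (I : Finset (D0 A × ℕ)) :
    DatA W0 U k hS h3 e0 a γ Gf G m₀ Z (fun z => core A (sr hS h3) (cz z) (rz z)) I
      (fun i z => TW A V (cz z) (rz z) (q i z)) c where
  hin := H.inn
  fld := fld
  hTh := H.th
  hLe := H.le
  h0 := h0
  rd := rd
  tb i hi z hz := (H.pr i hi z hz).trans (pr_tw H.sub).ge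
  mt i hi z hz _ _ _ _ hO hT _ _ hcd hg :=
    meet_cd' (pl_rc0 hS h3) h3 (H.h0 i hi) (fre_chiS H.sub H.vin) (H.geo i hi z hz) hO hT hcd hg
  bg _ hi _ hz _ _ hO _ _ J hg := hbig hPS H e0 hi hz hO J hg

end Crest.Agent.R143.DatIx136
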