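import Crest.Agent.R143.Prod_609
import Crest.Agent.R143.ColSum_304

/-!
# Row 143 (S0194), box R8: a second colouring on the same sample (helper609)

* `mcf d ε ω` : the marked configuration `{(position, d (seed))}` for a map `d` of the colour seed;
  `mcf dec = cfg`; `law`, `two`, `indep` : Poisson law, independence of disjoint regions
* `dec2` : the second binary digit of the seed; `dd = (dec, dec2)`, `map_dd` : two fair independent bits
* `dcf ε ω = mcf dd ε ω : Set (ℂ × (Bool × Bool))`, `cfg2 ε ω = mcf dec2 ε ω` : the second colouring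
  (same points); `p1_dcf : p1 (dcf) = cfg`, `p2_dcf : p2 (dcf) = cfg2`
-/

set_option autoImplicit false
set_option linter.unusedSectionVars false

noncomputable section

namespace Crest.Agent.R143.Dblx609

open MeasureTheory Set Filter Topology
open Crest.ProbabilityR.Voronoi
open Crest.Agent.R143.PP0x831 Crest.Agent.R143.Poisx304 Crest.Agent.R143.Janx304
open Crest.Agent.R143.Prodx609 Crest.Agent.R143.ColSumx304
open scoped ENNReal Nat

section mark

variable {M : Type*} [MeasurableSpace M]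

/-- the part over `B` -/
def ovM (M : Type*) (B : Set ℂ) : Set (ℂ × M) := {p | p.1 ∈ B}

theorem ovM_eq (B : Set ℂ) : ovM M B = B ×ˢ (univ : Set M) := by
  ext p; simp [ovM]

theorem ovM_bool (B : Set ℂ) : ovM Bool B = ovr B := rfl

theorem meas_ovM {B : Set ℂ} (hB : MeasurableSet B) : MeasurableSet (ovM M B) := by
  rw [ovM_eq]; exact hB.prod MeasurableSet.univ

/-- the marked configuration -/
def mcf (d : unitInterval → M) (ε : ℝ) (ω : Sample) : Set (ℂ × M) :=
  (fun p : ℤ × ℤ × ℕ => (point ε ω (p.1, p.2.1) p.2.2, d (ω.2 (p.1, p.2.1) p.2.2 2))) '' present ω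

theorem mcf_dec (ε : ℝ) (ω : Sample) : mcf dec ε ω = cfg ε ω := rfl

variable {d : unitInterval → M}

/-- position and mark -/
def pd (d : unitInterval → M) (ε : ℝ) (k : ℤ × ℤ) (m : Mk) : ℂ × M := (pos ε k (m 0, m 1), d (m 2))

theorem meas_pd (hd : Measurable d) (ε : ℝ) (k : ℤ × ℤ) : Measurable (pd d ε k) :=
  ((measurable_pos ε k).comp ((measurable_pi_apply 0).prodMk (measurable_pi_apply 1))).prodMk
    (hd.comp (measurable_pi_apply 2))

theorem map_pd (hd : Measurable d) {ε : ℝ} (hε : 0 < ε) (k : ℤ × ℤ) :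
    mk3.map (pd d ε k) =
      ((ENNReal.ofReal (ε ^ 2))⁻¹ • volume.restrict (fl ε ⁻¹' {k})).prod
        ((volume : Measure unitInterval).map d) := by
  have h1 : pd d ε k ∘ Lawx831.v3 = Prod.map (pos ε k) d := rfl
  have hp : IsProbabilityMeasure ((volume : Measure unitInterval).map d) :=
    Measure.isProbabilityMeasure_map hd.aemeasurable
  unfold mk3
  rw [← Lawx831.v3_mp.map_eq, Measure.map_map (meas_pd hd ε k) Lawx831.v3_mp.measurable, h1,
    ← Measure.map_prod_map _ _ (measurable_pos ε k) hd, map_pos hε k]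

def bd (d : unitInterval → M) (ε : ℝ) (k : ℤ × ℤ) (x : Bl) : Set (ℂ × M) :=
  (fun j => pd d ε k (x.2 j)) '' {j | j < x.1}

theorem bd_frs (hd : Measurable d) (ε : ℝ) (k : ℤ × ℤ) : FRS (bd d ε k) :=
  ⟨fun x => x.1, fun j x => pd d ε k (x.2 j), measurable_fst,
    fun j => (meas_pd hd ε k).comp ((measurable_pi_apply j).comp measurable_snd), fun _ => rfl⟩

theorem mcf_eq (ε : ℝ) (ω : Sample) : mcf d ε ω = ⋃ k : ℤ × ℤ, bd d ε k (zipS ω k) := by
  ext e
  simp only [mcf, present, bd, zipS, mem_image, mem_ofPred_eq, mem_iUnion]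
  constructor
  · rintro ⟨⟨k1, k2, j⟩, hj, rfl⟩
    exact ⟨(k1, k2), j, hj, rfl⟩
  · rintro ⟨⟨k1, k2⟩, j, hj, rfl⟩
    exact ⟨(k1, k2, j), hj, rfl⟩

theorem mcf_inter {ε : ℝ} {B : Set ℂ} {K : Finset (ℤ × ℤ)}
    (hK : ∀ k : ℤ × ℤ, ∀ p, pos ε k p ∈ B → k ∈ K) (ω : Sample) :
    mcf d ε ω ∩ ovM M B = (⋃ k ∈ K, bd d ε k (zipS ω k)) ∩ ovM M B := by
  rw [mcf_eq]
  ext e
  simp only [mem_inter_iff, mem_iUnion, exists_prop]
  constructor
  · rintro ⟨⟨k, hk⟩, he⟩
    refine ⟨⟨k, ?_, hk⟩, he⟩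
    obtain ⟨j, hj, rfl⟩ := hk
    exact hK k _ he
  · rintro ⟨⟨k, -, hk⟩, he⟩
    exact ⟨⟨k, hk⟩, he⟩

/-- intensity measure -/
def muM (d : unitInterval → M) (ε : ℝ) (B : Set ℂ) : Measure (ℂ × M) :=
  ((ENNReal.ofReal (ε ^ 2))⁻¹ • (volume : Measure ℂ).restrict B).prod
    ((volume : Measure unitInterval).map d)

theorem muM_dec (ε : ℝ) (B : Set ℂ) : muM dec ε B = muB ε B := by
  unfold muM muB
  rw [map_dec]

theorem muM_finite (hd : Measurable d) {ε : ℝ} (hε : 0 < ε) {B : Set ℂ}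
    (hb : Bornology.IsBounded B) : IsFiniteMeasure (muM d ε B) := by
  have := finite_mu hε hb
  have hp : IsProbabilityMeasure ((volume : Measure unitInterval).map d) :=
    Measure.isProbabilityMeasure_map hd.aemeasurable
  unfold muM
  infer_instance

theorem frs_mcf (hd : Measurable d) {ε : ℝ} (hε : 0 < ε) {B : Set ℂ} (hB : MeasurableSet B)
    (hb : Bornology.IsBounded B) [Nonempty M] : FRS fun ω : Sample => mcf d ε ω ∩ ovM M B := by
  obtain ⟨K, h1, -⟩ := exists_cells hε hb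
  have h2 : (fun ω : Sample => mcf d ε ω ∩ ovM M B) =
      fun ω => (⋃ k ∈ K, bd d ε k (zipS ω k)) ∩ ovM M B := by
    funext ω
    exact mcf_inter h1 ω
  rw [h2]
  have hfrs : FRS fun x : ℤ × ℤ → Bl => ⋃ k ∈ K, bd d ε k (x k) :=
    FRS.biUnion K (fun k (x : ℤ × ℤ → Bl) => bd d ε k (x k))
      fun k => (bd_frs hd ε k).comp (measurable_pi_apply k)
  exact frs_inter (hfrs.comp zipS_mp.measurable) (meas_ovM hB)

theorem J_interM {μ : Measure (ℂ × M)} [IsFiniteMeasure μ] {A : Set (ℂ × M)}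
    (h : μ Aᶜ = 0) (G : Set (ℂ × M) → ℝ≥0∞) :
    J μ (fun S => G (S ∩ A)) = J μ G := by
  unfold J Q P
  congr 1
  refine tsum_congr fun n => ?_
  congr 1
  have hae : ∀ᵐ z ∂(Measure.pi fun _ : Fin n => μ), ∀ i, z i ∈ A := by
    rw [ae_all_iff]
    intro i
    exact (Measure.quasiMeasurePreserving_eval (fun _ : Fin n => μ) i).ae h
  refine lintegral_congr_ae ?_
  filter_upwards [hae] with z hz
  have : range z ∩ A = range z := inter_eq_left.2 (by rintro _ ⟨i, rfl⟩; exact hz i)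
  simp only [this]

theorem muM_compl {ε : ℝ} {B : Set ℂ} (hB : MeasurableSet B) (hd : Measurable d) :
    muM d ε B (ovM M B)ᶜ = 0 := by
  have hp : IsProbabilityMeasure ((volume : Measure unitInterval).map d) :=
    Measure.isProbabilityMeasure_map hd.aemeasurable
  have h : (ovM M B)ᶜ = Bᶜ ×ˢ (univ : Set M) := by
    ext p; simp [ovM]
  rw [h]
  unfold muM
  rw [Measure.prod_prod, Measure.smul_apply, Measure.restrict_apply hB.compl, compl_inter_self,
    measure_empty, smul_zero, zero_mul]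

theorem restrictM (hd : Measurable d) {ε : ℝ} (hε : 0 < ε) {B : Set ℂ} (hB : MeasurableSet B)
    (hb : Bornology.IsBounded B) {K : Finset (ℤ × ℤ)} (hK : ∀ z ∈ B, fl ε z ∈ K) :
    (∑ k ∈ K, mk3.map (pd d ε k)).restrict (ovM M B) = muM d ε B := by
  have := finite_mu hε hb
  have hp : IsProbabilityMeasure ((volume : Measure unitInterval).map d) :=
    Measure.isProbabilityMeasure_map hd.aemeasurable
  symm
  unfold muM
  apply Measure.prod_eq
  intro s t hs ht
  rw [ovM_eq, Measure.restrict_apply (hs.prod ht), Set.prod_inter_prod, Set.inter_univ,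
    Measure.finsetSum_apply]
  have h1 : ∀ k ∈ K, mk3.map (pd d ε k) ((s ∩ B) ×ˢ t) =
      (ENNReal.ofReal (ε ^ 2))⁻¹ * volume ((s ∩ B) ∩ fl ε ⁻¹' {k}) *
        (volume : Measure unitInterval).map d t := by
    intro k _
    rw [map_pd hd hε k, Measure.prod_prod, Measure.smul_apply, smul_eq_mul,
      Measure.restrict_apply (hs.inter hB)]
  rw [Finset.sum_congr rfl h1, ← Finset.sum_mul, ← Finset.mul_sum, Measure.smul_apply, smul_eq_mul,
    Measure.restrict_apply hs]
  congr 2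
  rw [← measure_biUnion_finset]
  · congr 1
    ext z
    simp only [mem_iUnion, mem_inter_iff, mem_preimage, mem_singleton_iff, exists_prop]
    constructor
    · rintro ⟨k, -, h, -⟩; exact h
    · rintro h; exact ⟨fl ε z, hK z h.2, h, rfl⟩
  · intro k _ l _ hkl
    rw [Function.onFun, Set.disjoint_left]
    rintro z ⟨-, h1⟩ ⟨-, h2⟩
    exact hkl (h1.symm.trans h2)
  · intro k _
    exact (hs.inter hB).inter (measurable_fl ε (measurableSet_singleton k))

/-- **the law of the marked configuration in `B`** -/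
theorem law (hd : Measurable d) [Nonempty M] {ε : ℝ} (hε : 0 < ε) {B : Set ℂ}
    (hB : MeasurableSet B) (hb : Bornology.IsBounded B) {G : Set (ℂ × M) → ℝ≥0∞} (hG : FM G) :
    ∫⁻ ω, G (mcf d ε ω ∩ ovM M B) ∂sampleLaw = J (muM d ε B) G := by
  have := muM_finite hd hε hb
  obtain ⟨K, h1, h2⟩ := exists_cells hε hb
  have hF : FM fun S => G (S ∩ ovM M B) := FMe.inter (F := G) hG (meas_ovM hB)
  have hfrs : FRS fun x : ℤ × ℤ → Bl => ⋃ k ∈ K, bd d ε k (x k) :=
    FRS.biUnion K (fun k (x : ℤ × ℤ → Bl) => bd d ε k (x k))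
      fun k => (bd_frs hd ε k).comp (measurable_pi_apply k)
  simp only [mcf_inter h1]
  have h3 := zipS_mp.lintegral_comp (hfrs.meas hF)
  rw [h3]
  have hfin : ∀ k, IsFiniteMeasure (mk3.map (pd d ε k)) := fun k => by infer_instance
  have h4 := blocks blLaw (bd d ε) (bd_frs hd ε) (fun k => mk3.map (pd d ε k))
    (fun k G hG => poisson_block mk3 (pd d ε k) (meas_pd hd ε k) hG) K _ hF
  rw [h4, J_local _ (meas_ovM hB) hF, restrictM hd hε hB hb h2]
  · exact J_interM (muM_compl hB hd) G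
  · intro S
    show G (S ∩ ovM M B) = G (S ∩ ovM M B ∩ ovM M B)
    rw [inter_assoc, inter_self]

theorem muM_union (hd : Measurable d) {ε : ℝ} (hε : 0 < ε) {B B' : Set ℂ}
    (hB' : MeasurableSet B') (hb : Bornology.IsBounded B) (hb' : Bornology.IsBounded B')
    (hdis : Disjoint B B') : muM d ε (B ∪ B') = muM d ε B + muM d ε B' := by
  have hp : IsProbabilityMeasure ((volume : Measure unitInterval).map d) :=
    Measure.isProbabilityMeasure_map hd.aemeasurable
  have := finite_mu hε hb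
  have := finite_mu hε hb'
  unfold muM
  rw [Measure.restrict_union hdis hB', smul_add, Measure.add_prod]

theorem J_cmul {E : Type*} [MeasurableSpace E] (μ : Measure E) (c : ℝ≥0∞) {K : Set E → ℝ≥0∞}
    (hK : FM K) : J μ (fun T => c * K T) = c * J μ K := by
  unfold J Q P
  have h : ∀ n : ℕ, ∫⁻ z, c * K (range z) ∂(Measure.pi fun _ : Fin n => μ) =
      c * ∫⁻ z, K (range z) ∂(Measure.pi fun _ : Fin n => μ) := fun n =>
    lintegral_const_mul _ (hK n)
  simp only [h]
  have h2 : ∀ n : ℕ, ((n ! : ℕ) : ℝ≥0∞)⁻¹ *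
      (c * ∫⁻ z, K (range z) ∂(Measure.pi fun _ : Fin n => μ)) =
      c * (((n ! : ℕ) : ℝ≥0∞)⁻¹ * ∫⁻ z, K (range z) ∂(Measure.pi fun _ : Fin n => μ)) := fun n => by
    ring
  simp only [h2]
  rw [ENNReal.tsum_mul_left]
  ring

theorem ovM_inter_union {C U : Set ℂ} (X : Set (ℂ × M)) :
    X ∩ ovM M (C ∪ U) ∩ ovM M C = X ∩ ovM M C := by
  ext p
  simp only [mem_inter_iff, ovM, mem_ofPred_eq, mem_union]
  tauto

theorem ovM_inter_union' {C U : Set ℂ} (X : Set (ℂ × M)) :
    X ∩ ovM M (C ∪ U) ∩ ovM M U = X ∩ ovM M U := by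
  ext p
  simp only [mem_inter_iff, ovM, mem_ofPred_eq, mem_union]
  tauto

theorem glue_left {C U : Set ℂ} (h : Disjoint C U) (X Y : Set (ℂ × M)) :
    ((X ∩ ovM M C) ∪ (Y ∩ ovM M U)) ∩ ovM M C = X ∩ ovM M C := by
  ext p
  simp only [mem_inter_iff, ovM, mem_ofPred_eq, mem_union]
  constructor
  · rintro ⟨h1 | h1, h2⟩
    · exact h1
    · exact absurd h1.2 (Set.disjoint_left.1 h h2)
  · rintro ⟨h1, h2⟩; exact ⟨Or.inl ⟨h1, h2⟩, h2⟩

theorem glue_right {C U : Set ℂ} (h : Disjoint C U) (X Y : Set (ℂ × M)) :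
    ((X ∩ ovM M C) ∪ (Y ∩ ovM M U)) ∩ ovM M U = Y ∩ ovM M U := by
  rw [union_comm]
  exact glue_left h.symm Y X

/-- **disjoint regions, product form** -/
theorem two (hd : Measurable d) [Nonempty M] {ε : ℝ} (hε : 0 < ε) {C U : Set ℂ}
    (hC : MeasurableSet C) (hbC : Bornology.IsBounded C) (hU : MeasurableSet U)
    (hbU : Bornology.IsBounded U) (hdis : Disjoint C U) {F G : Set (ℂ × M) → ℝ≥0∞}
    (hF : FM F) (hG : FM G) :
    ∫⁻ ω, F (mcf d ε ω ∩ ovM M C) * G (mcf d ε ω ∩ ovM M U) ∂sampleLaw =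
      (∫⁻ ω, F (mcf d ε ω ∩ ovM M C) ∂sampleLaw) *
        ∫⁻ ω, G (mcf d ε ω ∩ ovM M U) ∂sampleLaw := by
  have f1 := muM_finite hd hε hbC
  have f2 := muM_finite hd hε hbU
  set H : Set (ℂ × M) → ℝ≥0∞ := fun S => F (S ∩ ovM M C) * G (S ∩ ovM M U) with hH
  have hF' : FM fun S => F (S ∩ ovM M C) := FMe.inter (F := F) hF (meas_ovM hC)
  have hG' : FM fun S => G (S ∩ ovM M U) := FMe.inter (F := G) hG (meas_ovM hU)
  have hHm : FM H := fun n => (hF' n).mul (hG' n)
  have e1 := law hd hε (hC.union hU) (hbC.union hbU) hHm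
  simp only [hH, ovM_inter_union, ovM_inter_union'] at e1
  rw [e1, muM_union hd hε hU hbC hbU hdis, J_add _ _ hHm, law hd hε hC hbC hF,
    law hd hε hU hbU hG]
  rw [← J_interM (muM_compl hC hd) fun S => J (muM d ε U) fun T => H (S ∪ T)]
  have e2 : ∀ S : Set (ℂ × M), J (muM d ε U) (fun T => H (S ∩ ovM M C ∪ T)) =
      F (S ∩ ovM M C) * J (muM d ε U) G := by
    intro S
    rw [← J_interM (muM_compl hU hd) fun T => H (S ∩ ovM M C ∪ T)]
    simp only [hH, glue_left hdis, glue_right hdis]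
    rw [J_cmul _ _ hG', J_interM (muM_compl hU hd) G]
  simp only [e2]
  have e3 : ∀ S : Set (ℂ × M), F (S ∩ ovM M C) * J (muM d ε U) G =
      J (muM d ε U) G * F (S ∩ ovM M C) := fun S => mul_comm _ _
  simp only [e3]
  rw [J_cmul _ _ hF', J_interM (muM_compl hC hd) F, mul_comm]

theorem meas_mcf (hd : Measurable d) [Nonempty M] {ε : ℝ} (hε : 0 < ε) {B : Set ℂ}
    (hB : MeasurableSet B) (hb : Bornology.IsBounded B) {C : Type*} [MeasurableSpace C]
    {F : Set (ℂ × M) → C} (hF : FMe F) :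
    Measurable fun ω : Sample => F (mcf d ε ω ∩ ovM M B) :=
  FRS.measE (frs_mcf hd hε hB hb) hF

/-- **disjoint regions, independence** -/
theorem indepM (hd : Measurable d) [Nonempty M] {ε : ℝ} (hε : 0 < ε) {C U : Set ℂ}
    (hC : MeasurableSet C) (hbC : Bornology.IsBounded C) (hU : MeasurableSet U)
    (hbU : Bornology.IsBounded U) (hdis : Disjoint C U) {X Y : Type*} [MeasurableSpace X]
    [MeasurableSpace Y] {F : Set (ℂ × M) → X} {G : Set (ℂ × M) → Y} (hF : FMe F) (hG : FMe G) :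
    ProbabilityTheory.IndepFun (fun ω => F (mcf d ε ω ∩ ovM M C))
      (fun ω => G (mcf d ε ω ∩ ovM M U)) sampleLaw := by
  rw [ProbabilityTheory.indepFun_iff_measure_inter_preimage_eq_mul]
  intro s t hs ht
  have h := two hd hε hC hbC hU hbU hdis
    (F := fun S => s.indicator (fun _ => (1 : ℝ≥0∞)) (F S))
    (G := fun S => t.indicator (fun _ => (1 : ℝ≥0∞)) (G S))
    (fun n => (measurable_const.indicator hs).comp (hF n))
    (fun n => (measurable_const.indicator ht).comp (hG n))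
  have mf := meas_mcf hd hε hC hbC hF
  have mg := meas_mcf hd hε hU hbU hG
  have e1 : ∫⁻ ω, s.indicator (fun _ => (1 : ℝ≥0∞)) (F (mcf d ε ω ∩ ovM M C)) ∂sampleLaw =
      sampleLaw ((fun ω => F (mcf d ε ω ∩ ovM M C)) ⁻¹' s) := by
    rw [← lintegral_indicator_one (mf hs)]; rfl
  have e2 : ∫⁻ ω, t.indicator (fun _ => (1 : ℝ≥0∞)) (G (mcf d ε ω ∩ ovM M U)) ∂sampleLaw =
      sampleLaw ((fun ω => G (mcf d ε ω ∩ ovM M U)) ⁻¹' t) := by
    rw [← lintegral_indicator_one (mg ht)]; rfl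
  have e3 : ∫⁻ ω, s.indicator (fun _ => (1 : ℝ≥0∞)) (F (mcf d ε ω ∩ ovM M C)) *
      t.indicator (fun _ => (1 : ℝ≥0∞)) (G (mcf d ε ω ∩ ovM M U)) ∂sampleLaw =
      sampleLaw ((fun ω => F (mcf d ε ω ∩ ovM M C)) ⁻¹' s ∩
        (fun ω => G (mcf d ε ω ∩ ovM M U)) ⁻¹' t) := by
    rw [← lintegral_indicator_one ((mf hs).inter (mg ht))]
    refine lintegral_congr fun ω => ?_
    classical
    by_cases h1 : F (mcf d ε ω ∩ ovM M C) ∈ s <;> by_cases h2 : G (mcf d ε ω ∩ ovM M U) ∈ t <;>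
      simp [h1, h2, Set.indicator]
  rw [← e1, ← e2, ← e3]
  exact h

/-- Bochner form -/
theorem int_two (hd : Measurable d) [Nonempty M] {ε : ℝ} (hε : 0 < ε) {C U : Set ℂ}
    (hC : MeasurableSet C) (hbC : Bornology.IsBounded C) (hU : MeasurableSet U)
    (hbU : Bornology.IsBounded U) (hdis : Disjoint C U) {𝕜 : Type*} [RCLike 𝕜]
    {F G : Set (ℂ × M) → 𝕜} (hF : FMe F) (hG : FMe G) :
    ∫ ω, F (mcf d ε ω ∩ ovM M C) * G (mcf d ε ω ∩ ovM M U) ∂sampleLaw =
      (∫ ω, F (mcf d ε ω ∩ ovM M C) ∂sampleLaw) *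
        ∫ ω, G (mcf d ε ω ∩ ovM M U) ∂sampleLaw :=
  (indepM hd hε hC hbC hU hbU hdis hF hG).integral_fun_mul_eq_mul_integral
    (meas_mcf hd hε hC hbC hF).aestronglyMeasurable
    (meas_mcf hd hε hU hbU hG).aestronglyMeasurable

end mark

/-! ### the second colouring -/

/-- second binary digit of the seed -/
def dec2 (u : unitInterval) : Bool :=
  decide ((u : ℝ) < 1 / 4 ∨ (1 / 2 ≤ (u : ℝ) ∧ (u : ℝ) < 3 / 4))

/-- two colours -/
def dd (u : unitInterval) : Bool × Bool := (dec u, dec2 u)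

theorem measurable_dec2 : Measurable dec2 := by
  unfold dec2
  apply measurable_to_bool
  have : (fun u : unitInterval => decide ((u : ℝ) < 1 / 4 ∨ (1 / 2 ≤ (u : ℝ) ∧ (u : ℝ) < 3 / 4)))
      ⁻¹' {true} = {u : unitInterval | (u : ℝ) < 1 / 4} ∪
        ({u : unitInterval | 1 / 2 ≤ (u : ℝ)} ∩ {u : unitInterval | (u : ℝ) < 3 / 4}) := by
    ext u; simp
  rw [this]
  exact (measurableSet_lt measurable_subtype_coe measurable_const).union
    ((measurableSet_le measurable_const measurable_subtype_coe).inter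
      (measurableSet_lt measurable_subtype_coe measurable_const))

theorem measurable_dd : Measurable dd := measurable_dec.prodMk measurable_dec2

theorem vol_Ico {a b : ℝ} (ha : 0 ≤ a) (hb : b ≤ 1) :
    (volume : Measure unitInterval) {u | a ≤ (u : ℝ) ∧ (u : ℝ) < b} = ENNReal.ofReal (b - a) := by
  rw [unitInterval.volume_apply]
  have : Subtype.val '' {u : unitInterval | a ≤ (u : ℝ) ∧ (u : ℝ) < b} = Ico a b := by
    ext t
    simp only [mem_image, mem_ofPred_eq, Subtype.exists, mem_Ico]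
    constructor
    · rintro ⟨x, hx, h, rfl⟩; exact h
    · rintro ⟨h0, h1⟩; exact ⟨t, ⟨ha.trans h0, (h1.le.trans hb)⟩, ⟨h0, h1⟩, rfl⟩
  rw [this, Real.volume_Ico]

theorem vol_Icc {a : ℝ} (ha : 0 ≤ a) :
    (volume : Measure unitInterval) {u | a ≤ (u : ℝ)} = ENNReal.ofReal (1 - a) := by
  rw [unitInterval.volume_apply]
  have : Subtype.val '' {u : unitInterval | a ≤ (u : ℝ)} = Icc a 1 := by
    ext t
    simp only [mem_image, mem_ofPred_eq, Subtype.exists, mem_Icc]
    constructor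
    · rintro ⟨x, hx, h, rfl⟩; exact ⟨h, hx.2⟩
    · rintro ⟨h0, h1⟩; exact ⟨t, ⟨ha.trans h0, h1⟩, h0, rfl⟩
  rw [this, Real.volume_Icc]

theorem quarter : ENNReal.ofReal (1 / 4) = (2⁻¹ : ℝ≥0∞) * 2⁻¹ := by
  rw [show (1 / 4 : ℝ) = (2⁻¹ : ℝ) * 2⁻¹ by norm_num, ENNReal.ofReal_mul (by norm_num),
    ENNReal.ofReal_inv_of_pos (by norm_num)]
  simp

theorem coin_sing (b : Bool) : coin {b} = 2⁻¹ := by
  unfold coin
  rw [Measure.smul_apply, Measure.count_singleton, smul_eq_mul, mul_one]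

theorem map_dd : (volume : Measure unitInterval).map dd = coin.prod coin := by
  apply Measure.ext_of_singleton
  rintro ⟨b, b'⟩
  rw [Measure.map_apply measurable_dd (measurableSet_singleton _), ← singleton_prod_singleton,
    Measure.prod_prod, coin_sing, coin_sing, ← quarter]
  cases b <;> cases b'
  · have : dd ⁻¹' ({false} ×ˢ {false}) = {u : unitInterval | 3 / 4 ≤ (u : ℝ)} := by
      ext u
      simp only [dd, dec, dec2, mem_preimage, mem_prod, mem_singleton_iff, decide_eq_false_iff_not,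
        mem_ofPred_eq]
      constructor
      · rintro ⟨h1, h2⟩
        by_contra h
        exact h2 (Or.inr ⟨not_lt.1 h1, not_le.1 h⟩)
      · intro h
        refine ⟨by linarith, ?_⟩
        rintro (h' | h')
        · linarith
        · linarith [h'.2]
    rw [this, vol_Icc (by norm_num)]
    norm_num
  · have : dd ⁻¹' ({false} ×ˢ {true}) = {u : unitInterval | 1 / 2 ≤ (u : ℝ) ∧ (u : ℝ) < 3 / 4} := by
      ext u
      simp only [dd, dec, dec2, mem_preimage, mem_prod, mem_singleton_iff, decide_eq_false_iff_not,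
        decide_eq_true_eq, mem_ofPred_eq]
      constructor
      · rintro ⟨h1, h2 | h2⟩
        · exact absurd (by linarith) h1
        · exact h2
      · intro h
        exact ⟨by linarith [h.1], Or.inr h⟩
    rw [this, vol_Ico (by norm_num) (by norm_num)]
    norm_num
  · have : dd ⁻¹' ({true} ×ˢ {false}) = {u : unitInterval | 1 / 4 ≤ (u : ℝ) ∧ (u : ℝ) < 1 / 2} := by
      ext u
      simp only [dd, dec, dec2, mem_preimage, mem_prod, mem_singleton_iff, decide_eq_false_iff_not,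
        decide_eq_true_eq, mem_ofPred_eq]
      constructor
      · rintro ⟨h1, h2⟩
        exact ⟨not_lt.1 fun h => h2 (Or.inl h), h1⟩
      · rintro ⟨h1, h2⟩
        refine ⟨h2, ?_⟩
        rintro (h' | h')
        · linarith
        · linarith [h'.1]
    rw [this, vol_Ico (by norm_num) (by norm_num)]
    norm_num
  · have : dd ⁻¹' ({true} ×ˢ {true}) = {u : unitInterval | 0 ≤ (u : ℝ) ∧ (u : ℝ) < 1 / 4} := by
      ext u
      simp only [dd, dec, dec2, mem_preimage, mem_prod, mem_singleton_iff, decide_eq_true_eq,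
        mem_ofPred_eq]
      constructor
      · rintro ⟨h1, h2 | h2⟩
        · exact ⟨u.2.1, h2⟩
        · exact absurd h2.1 (by linarith)
      · rintro ⟨-, h2⟩
        exact ⟨by linarith, Or.inl h2⟩
    rw [this, vol_Ico (by norm_num) (by norm_num)]
    norm_num

theorem map_dec2 : (volume : Measure unitInterval).map dec2 = coin := by
  have h : dec2 = Prod.snd ∘ dd := rfl
  rw [h, ← Measure.map_map measurable_snd measurable_dd, map_dd, Measure.map_snd_prod, measure_univ,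
    one_smul]

/-- the doubly coloured configuration -/
def dcf (ε : ℝ) (ω : Sample) : Set (ℂ × (Bool × Bool)) := mcf dd ε ω

/-- **the second colouring of the same points** -/
def cfg2 (ε : ℝ) (ω : Sample) : Set (ℂ × Bool) := mcf dec2 ε ω

def p1 (X : Set (ℂ × (Bool × Bool))) : Set (ℂ × Bool) := (fun q => (q.1, q.2.1)) '' X

def p2 (X : Set (ℂ × (Bool × Bool))) : Set (ℂ × Bool) := (fun q => (q.1, q.2.2)) '' X

theorem p1_dcf (ε : ℝ) (ω : Sample) : p1 (dcf ε ω) = cfg ε ω := by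
  unfold p1 dcf mcf
  rw [image_image]
  rfl

theorem p2_dcf (ε : ℝ) (ω : Sample) : p2 (dcf ε ω) = cfg2 ε ω := by
  unfold p2 dcf cfg2 mcf
  rw [image_image]
  rfl

theorem p1_inter (X : Set (ℂ × (Bool × Bool))) (B : Set ℂ) :
    p1 (X ∩ ovM (Bool × Bool) B) = p1 X ∩ ovr B := by
  ext q
  simp only [p1, mem_image, mem_inter_iff, ovM, ovr, mem_ofPred_eq]
  constructor
  · rintro ⟨x, ⟨h1, h2⟩, rfl⟩; exact ⟨⟨x, h1, rfl⟩, h2⟩
  · rintro ⟨⟨x, h1, rfl⟩, h2⟩; exact ⟨x, ⟨h1, h2⟩, rfl⟩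

theorem p2_inter (X : Set (ℂ × (Bool × Bool))) (B : Set ℂ) :
    p2 (X ∩ ovM (Bool × Bool) B) = p2 X ∩ ovr B := by
  ext q
  simp only [p2, mem_image, mem_inter_iff, ovM, ovr, mem_ofPred_eq]
  constructor
  · rintro ⟨x, ⟨h1, h2⟩, rfl⟩; exact ⟨⟨x, h1, rfl⟩, h2⟩
  · rintro ⟨⟨x, h1, rfl⟩, h2⟩; exact ⟨x, ⟨h1, h2⟩, rfl⟩

theorem p1_range {n : ℕ} (z : Fin n → ℂ × (Bool × Bool)) :
    p1 (range z) = range fun i => ((z i).1, (z i).2.1) := by
  unfold p1
  rw [← range_comp]
  rfl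

theorem p2_range {n : ℕ} (z : Fin n → ℂ × (Bool × Bool)) :
    p2 (range z) = range fun i => ((z i).1, (z i).2.2) := by
  unfold p2
  rw [← range_comp]
  rfl

section fme

variable {C : Type*} [MeasurableSpace C]

theorem fme_p1 {F : Set (ℂ × Bool) → C} (hF : FMe F) : FMe fun X => F (p1 X) := fun n => by
  simp only [p1_range]
  refine (hF n).comp (measurable_pi_iff.2 fun i => ?_)
  have h : Measurable fun z : Fin n → ℂ × (Bool × Bool) => z i := measurable_pi_apply i
  exact (measurable_fst.comp h).prodMk (measurable_fst.comp (measurable_snd.comp h))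

theorem fme_p2 {F : Set (ℂ × Bool) → C} (hF : FMe F) : FMe fun X => F (p2 X) := fun n => by
  simp only [p2_range]
  refine (hF n).comp (measurable_pi_iff.2 fun i => ?_)
  have h : Measurable fun z : Fin n → ℂ × (Bool × Bool) => z i := measurable_pi_apply i
  exact (measurable_fst.comp h).prodMk (measurable_snd.comp (measurable_snd.comp h))

end fme

/-- the points of the second colouring -/
theorem fst_cfg2 (ε : ℝ) (ω : Sample) : Prod.fst '' cfg2 ε ω = points ε ω := by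
  unfold cfg2 mcf points
  rw [image_image]

theorem fst_cfg (ε : ℝ) (ω : Sample) : Prod.fst '' cfg ε ω = points ε ω := by
  unfold cfg points
  rw [image_image]

/-- the second colouring has the law of the first -/
theorem law_cfg2 {ε : ℝ} (hε : 0 < ε) {B : Set ℂ} (hB : MeasurableSet B)
    (hb : Bornology.IsBounded B) {G : Set (ℂ × Bool) → ℝ≥0∞} (hG : FM G) :
    ∫⁻ ω, G (cfg2 ε ω ∩ ovr B) ∂sampleLaw = ∫⁻ ω, G (cfg ε ω ∩ ovr B) ∂sampleLaw := by
  rw [law1 hε hB hb hG]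
  have h := law measurable_dec2 hε hB hb hG
  have e : muM dec2 ε B = muB ε B := by unfold muM muB; rw [map_dec2]
  rw [e] at h
  exact h

/-! ### (R8) corridor and inside -/

section R8

variable {ε : ℝ} {C U : Set ℂ}

/-- (R8) nonnegative: a functional of both colourings in `C` and one of both colourings in `U` -/
theorem R8_lint (hε : 0 < ε) (hC : MeasurableSet C) (hbC : Bornology.IsBounded C)
    (hU : MeasurableSet U) (hbU : Bornology.IsBounded U) (hdis : Disjoint C U)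
    {F G : Set (ℂ × (Bool × Bool)) → ℝ≥0∞} (hF : FM F) (hG : FM G) :
    ∫⁻ ω, F (dcf ε ω ∩ ovM _ C) * G (dcf ε ω ∩ ovM _ U) ∂sampleLaw =
      (∫⁻ ω, F (dcf ε ω ∩ ovM _ C) ∂sampleLaw) * ∫⁻ ω, G (dcf ε ω ∩ ovM _ U) ∂sampleLaw :=
  two measurable_dd hε hC hbC hU hbU hdis hF hG

/-- (R8) Bochner -/
theorem R8_int {𝕜 : Type*} [RCLike 𝕜] (hε : 0 < ε) (hC : MeasurableSet C)
    (hbC : Bornology.IsBounded C)
    (hU : MeasurableSet U) (hbU : Bornology.IsBounded U) (hdis : Disjoint C U)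
    {F G : Set (ℂ × (Bool × Bool)) → 𝕜} (hF : FMe F) (hG : FMe G) :
    ∫ ω, F (dcf ε ω ∩ ovM _ C) * G (dcf ε ω ∩ ovM _ U) ∂sampleLaw =
      (∫ ω, F (dcf ε ω ∩ ovM _ C) ∂sampleLaw) * ∫ ω, G (dcf ε ω ∩ ovM _ U) ∂sampleLaw :=
  int_two measurable_dd hε hC hbC hU hbU hdis hF hG

/-- (R8) independence -/
theorem R8_indep (hε : 0 < ε) (hC : MeasurableSet C) (hbC : Bornology.IsBounded C)
    (hU : MeasurableSet U) (hbU : Bornology.IsBounded U) (hdis : Disjoint C U)
    {X Y : Type*} [MeasurableSpace X] [MeasurableSpace Y]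
    {F : Set (ℂ × (Bool × Bool)) → X} {G : Set (ℂ × (Bool × Bool)) → Y} (hF : FMe F) (hG : FMe G) :
    ProbabilityTheory.IndepFun (fun ω => F (dcf ε ω ∩ ovM _ C))
      (fun ω => G (dcf ε ω ∩ ovM _ U)) sampleLaw :=
  indepM measurable_dd hε hC hbC hU hbU hdis hF hG

/-- (R8): first colouring in the corridor, second colouring in the inside; the first factor has its
usual mean, the second factor too -/
theorem R8 {𝕜 : Type*} [RCLike 𝕜] (hε : 0 < ε) (hC : MeasurableSet C)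
    (hbC : Bornology.IsBounded C) (hU : MeasurableSet U) (hbU : Bornology.IsBounded U)
    (hdis : Disjoint C U) {F G : Set (ℂ × Bool) → 𝕜} (hF : FMe F) (hG : FMe G) :
    ∫ ω, F (cfg ε ω ∩ ovr C) * G (cfg2 ε ω ∩ ovr U) ∂sampleLaw =
      (∫ ω, F (cfg ε ω ∩ ovr C) ∂sampleLaw) * ∫ ω, G (cfg2 ε ω ∩ ovr U) ∂sampleLaw := by
  have h := R8_int hε hC hbC hU hbU hdis (fme_p1 hF) (fme_p2 hG)
  simp only [p1_inter, p2_inter, p1_dcf, p2_dcf] at h
  exact h

theorem R8l (hε : 0 < ε) (hC : MeasurableSet C)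
    (hbC : Bornology.IsBounded C) (hU : MeasurableSet U) (hbU : Bornology.IsBounded U)
    (hdis : Disjoint C U) {F G : Set (ℂ × Bool) → ℝ≥0∞} (hF : FM F) (hG : FM G) :
    ∫⁻ ω, F (cfg ε ω ∩ ovr C) * G (cfg2 ε ω ∩ ovr U) ∂sampleLaw =
      (∫⁻ ω, F (cfg ε ω ∩ ovr C) ∂sampleLaw) * ∫⁻ ω, G (cfg ε ω ∩ ovr U) ∂sampleLaw := by
  have h := R8_lint hε hC hbC hU hbU hdis (F := fun X => F (p1 X)) (G := fun X => G (p2 X))
    (fme_p1 hF) (fme_p2 hG)
  simp only [p1_inter, p2_inter, p1_dcf, p2_dcf] at h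
  rw [h, law_cfg2 hε hU hbU hG]

theorem R8_indep' (hε : 0 < ε) (hC : MeasurableSet C) (hbC : Bornology.IsBounded C)
    (hU : MeasurableSet U) (hbU : Bornology.IsBounded U) (hdis : Disjoint C U)
    {X Y : Type*} [MeasurableSpace X] [MeasurableSpace Y]
    {F : Set (ℂ × Bool) → X} {G : Set (ℂ × Bool) → Y} (hF : FMe F) (hG : FMe G) :
    ProbabilityTheory.IndepFun (fun ω => F (cfg ε ω ∩ ovr C))
      (fun ω => G (cfg2 ε ω ∩ ovr U)) sampleLaw := by
  have h := R8_indep hε hC hbC hU hbU hdis (fme_p1 hF) (fme_p2 hG)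
  simp only [p1_inter, p2_inter, p1_dcf, p2_dcf] at h
  exact h

end R8

/-- the mean of a functional of the second colouring is the mean of the functional of the first -/
theorem law_map2 {X : Type*} [MeasurableSpace X] {ε : ℝ} (hε : 0 < ε) {B : Set ℂ}
    (hB : MeasurableSet B) (hb : Bornology.IsBounded B) {G : Set (ℂ × Bool) → X} (hG : FMe G) :
    sampleLaw.map (fun ω => G (cfg2 ε ω ∩ ovr B)) = sampleLaw.map fun ω => G (cfg ε ω ∩ ovr B) := by
  have m1 : Measurable fun ω => G (cfg2 ε ω ∩ ovr B) := meas_mcf measurable_dec2 hε hB hb hG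
  have m2 : Measurable fun ω => G (cfg ε ω ∩ ovr B) := meas_mcf measurable_dec hε hB hb hG
  ext t ht
  rw [Measure.map_apply m1 ht, Measure.map_apply m2 ht]
  have h := law_cfg2 hε hB hb (G := fun S => t.indicator (fun _ => (1 : ℝ≥0∞)) (G S))
    (fun n => (measurable_const.indicator ht).comp (hG n))
  have e1 : ∫⁻ ω, t.indicator (fun _ => (1 : ℝ≥0∞)) (G (cfg2 ε ω ∩ ovr B)) ∂sampleLaw =
      sampleLaw ((fun ω => G (cfg2 ε ω ∩ ovr B)) ⁻¹' t) := by
    rw [← lintegral_indicator_one (m1 ht)]; rfl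
  have e2 : ∫⁻ ω, t.indicator (fun _ => (1 : ℝ≥0∞)) (G (cfg ε ω ∩ ovr B)) ∂sampleLaw =
      sampleLaw ((fun ω => G (cfg ε ω ∩ ovr B)) ⁻¹' t) := by
    rw [← lintegral_indicator_one (m2 ht)]; rfl
  rw [← e1, ← e2]
  exact h

theorem int_cfg2 {E : Type*} [NormedAddCommGroup E] [NormedSpace ℝ E] [MeasurableSpace E]
    [BorelSpace E] [SecondCountableTopology E] {ε : ℝ} (hε : 0 < ε) {B : Set ℂ}
    (hB : MeasurableSet B) (hb : Bornology.IsBounded B) {G : Set (ℂ × Bool) → E} (hG : FMe G) :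
    ∫ ω, G (cfg2 ε ω ∩ ovr B) ∂sampleLaw = ∫ ω, G (cfg ε ω ∩ ovr B) ∂sampleLaw := by
  have m1 : Measurable fun ω => G (cfg2 ε ω ∩ ovr B) := meas_mcf measurable_dec2 hε hB hb hG
  have m2 : Measurable fun ω => G (cfg ε ω ∩ ovr B) := meas_mcf measurable_dec hε hB hb hG
  have h1 := integral_map (f := fun z : E => z) m1.aemeasurable
    aestronglyMeasurable_id (μ := sampleLaw)
  have h2 := integral_map (f := fun z : E => z) m2.aemeasurable
    aestronglyMeasurable_id (μ := sampleLaw)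
  rw [← h1, ← h2, law_map2 hε hB hb hG]

end Crest.Agent.R143.Dblx609
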