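import Crest.Agent.R143.PotP_263

/-!
# Row 143 (S0194), block H (helper263): the far deep chords, pointwise decomposition

`W : RW ..` (355: ring loop, giant, windows `i < m₀`), `Q : RQ ..` (regions `F l` on the ring loop, `PotP_263`),
linear law of the charges `‖∑_{k ∈ [i, j)} Vg k - κ (w j - w i)‖² ≤ B` (239's `lin_le`).
* `chord_law` : one chord: `‖∑_γ φ‖² ≤ 4 ‖cv_i φ‖² + 56 ∑_{l < n} (‖cv_i φ_l‖² + ‖∑_γ φ_l‖²) + 16 B + 4 K`
* **`dec_far`** : the sum over the far deep chords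
-/

set_option autoImplicit false

noncomputable section

open scoped Classical

namespace Crest.Agent.R143.DecPx263

open Crest.Agent.R143.Frame1x395 Crest.Agent.R143.Frame2x395 Crest.Agent.R143.Frame3x395
  Crest.Agent.R143.Frame8x395 Crest.Agent.R143.Frame9x395 Crest.Agent.R143.Frame11x395
  Crest.Agent.R143.NonXx592 Crest.Agent.R143.Coarsex166 Crest.Agent.R143.Budx432
  Crest.Agent.R143.Bud2x432 Crest.Agent.R143.RevCx389
  Crest.Agent.R143.ChordCx357 Crest.Agent.R143.Chord2x355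
  Crest.Agent.R143.H2x355 Crest.Agent.R143.Ox355 Crest.Agent.R143.Winx355
  Crest.Agent.R143.Win2x355 Crest.Agent.R143.PotKx263 Crest.Agent.R143.PotPx263
open Crest.Agent.R143.Splx117 (arc_of)
open Crest.Agent.R143.Sptx169 (rst)
open Crest.Agent.R143.Chordx355 (lc)

variable {D C C' : Type} [Fintype D] {M : CMap D C} {ψ : C → ZMod 2} {π : C → C'}
  {hπ : ClsCon M π} {o : C'} {P₀ : D} {N n : ℕ} {T : ℕ → ℕ} {Reg : ℕ → Set C} {h l m₀ : ℕ}
  {G : ℕ → Rg D C} {tp tq : ℕ → ℕ} {F : ℕ → Set D}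

omit [Fintype D] in
/-- the chord with its window: touch times and tiles -/
theorem chord_win (W : RW M ψ π o P₀ N n T Reg h l m₀ G tp tq) (h6 : 6 ≤ h) (hl1 : 1 ≤ l)
    {i : ℕ} (hi : i < m₀) {k : D} {m : ℕ} {Co : Set C}
    (hc : Cd M (cfg M ψ) (RevCx389.p0 M (G i) ψ) (RevCx389.ln M (G i) ψ) (Cw M (G i) ψ) k m)
    (hg : gd M (G i) Co ψ k m) :
    ∃ a a' : ℕ, tp i ≤ a' ∧ a' ≤ a ∧ a ≤ tq i ∧
      M.cell (P M (cfg M ψ) (P M (cfg M ψ) P₀ (T (h * i + l))) a) = M.cell (M.rho k) ∧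
      M.cell (P M (cfg M ψ) (P M (cfg M ψ) P₀ (T (h * i + l))) a') =
        M.cell (P M (cfg M ψ) (M.rho k) m) ∧
      tq i ≤ T (h * i + l + (n - 1)) - T (h * i + l) := by
  have hmono := W.rl.mono
  have hn := W.hn
  have hm := W.hm
  have hl := W.hl
  have e1 : h * 2 ≤ h * m₀ := Nat.mul_le_mul_left h hm
  have htp := W.htp i hi
  have htq1 := W.htq1 i hi
  have htq2 := W.htq2 i hi
  have le := fun {a b : ℕ} (h : a ≤ b) => hmono.monotone h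
  have hpq : tp i ≤ tq i := by
    have := le (show h * i + l + 3 ≤ h * i + n - 3 by omega)
    omega
  obtain ⟨b, hb, eb⟩ := hc.c1
  have hln := W.ln i hi
  obtain ⟨b', hb1, hb2, eb'⟩ := hg.2.1 b hb eb
  have hp0 := W.p0 i hi
  have key : ∀ u, P M (cfg M ψ) (RevCx389.p0 M (G i) ψ) u =
      P M (cfg M ψ) (P M (cfg M ψ) P₀ (T (h * i + l))) (tp i + u) := by
    intro u
    rw [hp0, ← P_add, ← P_add]
    congr 1
    omega
  have eb2 : M.cell (P M (cfg M ψ) (RevCx389.p0 M (G i) ψ) b) =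
    M.cell (P M (cfg M ψ) (M.rho k) m) := eb
  have eb2' : M.cell (P M (cfg M ψ) (RevCx389.p0 M (G i) ψ) b') = M.cell (M.rho k) := eb'
  rw [key] at eb2 eb2'
  refine ⟨tp i + b', tp i + b, by omega, by omega, by omega, eb2', eb2, ?_⟩
  have := le (show h * i + n ≤ h * i + l + (n - 1) by omega)
  omega

/-- **one chord** -/
theorem chord_law (W : RW M ψ π o P₀ N n T Reg h l m₀ G tp tq)
    (Q : RQ M (cfg M ψ) P₀ N n T F) (h6 : 6 ≤ h) (hl1 : 1 ≤ l)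
    {i : ℕ} (hi : i < m₀) {k : D} {m : ℕ} {Co : Set C}
    (hc : Cd M (cfg M ψ) (RevCx389.p0 M (G i) ψ) (RevCx389.ln M (G i) ψ) (Cw M (G i) ψ) k m)
    (hg : gd M (G i) Co ψ k m) {φ : D → ℂ} {w : ℕ → ℂ} {κ : ℂ} {B K : ℝ}
    (hw : ∀ j, w (j + n) = w j) (hB : ∀ i j, i ≤ j → j ≤ n →
      ‖∑ k ∈ Finset.Ico i j, Vg M (cfg M ψ) P₀ T n φ F k - κ * (w j - w i)‖ ^ 2 ≤ B)
    (hK : ∀ i j, ‖κ * (w j - w i)‖ ^ 2 ≤ K) :
    ‖∑ d ∈ cset M (P M (cfg M ψ) (M.rho k)) 0 m, φ d‖ ^ 2 ≤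
      4 * ‖cv M (cfg M ψ) (RevCx389.p0 M (G i) ψ) (RevCx389.ln M (G i) ψ) φ k m‖ ^ 2 +
      56 * ∑ j ∈ Finset.range n,
        (‖cv M (cfg M ψ) (RevCx389.p0 M (G i) ψ) (RevCx389.ln M (G i) ψ) (rst φ (F j)) k m‖ ^ 2 +
          ‖∑ d ∈ cset M (P M (cfg M ψ) (M.rho k)) 0 m, rst φ (F j) d‖ ^ 2) + (16 * B + 4 * K) := by
  obtain ⟨a, a', h1, h2, h3, ea, ea', h4⟩ := chord_win W h6 hl1 hi hc hg
  set bs := h * i + l with hbs
  set x := cfg M ψ with hx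
  have hxc : IsC M ∅ x := cfg_isC ψ
  have RC := Q.regC bs
  have hn := Q.n3
  have hr : x (P M x P₀ (T bs)) = 1 := P_occ hxc Q.L.occ _
  have hp0 : RevCx389.p0 M (G i) ψ = P M x (P M x P₀ (T bs)) (tp i) := by
    rw [W.p0 i hi, ← P_add, Nat.add_comm]
  obtain ⟨ka, -, ka1, ka2, ka3⟩ := arc_of (T := fun k => T (bs + k) - T bs) (a := 0) (b := n - 1)
    (u := a') (by omega) (by simp) (by show a' ≤ T (bs + (n - 1)) - T bs; omega)
  obtain ⟨kb, -, kb1, kb2, kb3⟩ := arc_of (T := fun k => T (bs + k) - T bs) (a := 0) (b := n - 1)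
    (u := a) (by omega) (by simp) (by show a ≤ T (bs + (n - 1)) - T bs; omega)
  have key := RC.cv_sq (φ := φ) (p₀ := RevCx389.p0 M (G i) ψ) (b := RevCx389.ln M (G i) ψ)
    hxc hr hp0 (W.ln i hi) h4 h1 h2 h3 ka2 ka3 (by omega) kb2 kb3 (by omega) ea ea'
  -- the full charges
  have e1 : ∑ j ∈ Finset.Ico (ka + 2) (kb - 1),
      VR M x (P M x P₀ (T bs)) (fun k => T (bs + k) - T bs) n φ (fun l => F (bs + l)) j =
      ∑ j ∈ Finset.Ico (ka + 2) (kb - 1), Vg M x P₀ T n φ F (bs + j) :=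
    Finset.sum_congr rfl fun j _ => Q.vr_eq bs j
  rw [e1] at key
  set V := ∑ j ∈ Finset.Ico (ka + 2) (kb - 1), Vg M x P₀ T n φ F (bs + j) with hV
  have hB0 : 0 ≤ B := (sq_nonneg _).trans (hB 0 0 le_rfl (Nat.zero_le n))
  have hK0 : 0 ≤ K := (sq_nonneg _).trans (hK 0 0)
  have hVb : ‖V‖ ^ 2 ≤ 8 * B + 2 * K := by
    rcases Nat.lt_or_ge (ka + 2) (kb - 1) with c | c
    · -- reduce the interval to `[bs mod n, ..)`
      set s := bs % n with hs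
      have hsn : s < n := Nat.mod_lt _ (by omega)
      have hper : ∀ j, Vg M x P₀ T n φ F (bs + j) = Vg M x P₀ T n φ F (s + j) := by
        intro j
        have h5 : ∀ q j, Vg M x P₀ T n φ F (j + n * q) = Vg M x P₀ T n φ F j := by
          intro q j
          induction q with
          | zero => rw [Nat.mul_zero, Nat.add_zero]
          | succ q ih => rw [Nat.mul_succ, ← Nat.add_assoc, Q.vg_per, ih]
        have h6 : bs + j = s + j + n * (bs / n) := by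
          have := Nat.mod_add_div bs n
          omega
        rw [h6, h5]
      have e2 : V = ∑ j ∈ Finset.Ico (s + (ka + 2)) (s + (kb - 1)), Vg M x P₀ T n φ F j := by
        rw [hV, Finset.sum_congr rfl fun j _ => hper j]
        have := Finset.sum_Ico_add (fun j => Vg M x P₀ T n φ F j) (ka + 2) (kb - 1) s
        rw [this]
        congr 1
        congr 1 <;> omega
      have h7 := lin_per (n := n) (V := fun j => Vg M x P₀ T n φ F j) (w := w) (κ := κ) (B := B)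
        (fun k => Q.vg_per k) hw hB (i := s + (ka + 2)) (j := s + (kb - 1)) (by omega) (by omega)
      have h8 := hK (s + (ka + 2)) (s + (kb - 1))
      have h9 := nsq_add (V - κ * (w (s + (kb - 1)) - w (s + (ka + 2))))
        (κ * (w (s + (kb - 1)) - w (s + (ka + 2))))
      rw [sub_add_cancel] at h9
      rw [← e2] at h7
      linarith
    · have : V = 0 := by
        rw [hV, Finset.Ico_eq_empty (by omega), Finset.sum_empty]
      rw [this, norm_zero, zero_pow two_ne_zero]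
      linarith
  -- the partial regions
  set f : ℕ → ℝ := fun j =>
    ‖cv M x (RevCx389.p0 M (G i) ψ) (RevCx389.ln M (G i) ψ) (rst φ (F j)) k m‖ ^ 2 +
      ‖∑ d ∈ cset M (P M x (M.rho k)) 0 m, rst φ (F j) d‖ ^ 2 with hf
  have hf0 : ∀ j, 0 ≤ f j := fun j => by positivity
  have e3 : ∑ j ∈ En n ka kb, (‖cv M x (RevCx389.p0 M (G i) ψ) (RevCx389.ln M (G i) ψ)
      (rst φ (F (bs + j))) k m‖ ^ 2 +
      ‖∑ d ∈ cset M (P M x (M.rho k)) 0 m, rst φ (F (bs + j)) d‖ ^ 2) ≤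
      ∑ j ∈ Finset.range n, f j := by
    have h5 : ∑ j ∈ En n ka kb, f (bs + j) ≤ ∑ j ∈ Finset.range n, f (bs + j) :=
      Finset.sum_le_sum_of_subset_of_nonneg (Finset.filter_subset _ _) fun j _ _ => hf0 _
    have h6 : ∑ j ∈ Finset.range n, f (bs + j) = ∑ j ∈ Finset.range n, f j :=
      sum_per (by omega) (fun j => by rw [hf]; dsimp only; rw [Q.perF]) bs
    rw [h6] at h5
    exact h5
  have h9 := nsq_sub (∑ d ∈ cset M (P M x (M.rho k)) 0 m, φ d + V) V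
  rw [add_sub_cancel_right] at h9
  have key' : ‖∑ d ∈ cset M (P M x (M.rho k)) 0 m, φ d + V‖ ^ 2 ≤
      2 * ‖cv M x (RevCx389.p0 M (G i) ψ) (RevCx389.ln M (G i) ψ) φ k m‖ ^ 2 +
      28 * ∑ j ∈ Finset.range n, f j := by
    refine key.trans ?_
    linarith
  linarith

/-- **the far deep chords** -/
theorem dec_far (W : RW M ψ π o P₀ N n T Reg h l m₀ G tp tq)
    (Q : RQ M (cfg M ψ) P₀ N n T F) (h6 : 6 ≤ h) (hl1 : 1 ≤ l) (Co : Set C)
    (I : Finset (D × ℕ)) {𝒟 : Finset (Finset D)} (h𝒟 : 𝒟 ⊆ chd M π hπ o (cfg M (fil π o ψ)))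
    (hG : ∀ β ∈ 𝒟, ∀ k ∈ β, ∀ m, Gc M π o (cfg M (fil π o ψ)) k m → (k, m) ∈ I ∧
      FarC Reg n h (M.cell (M.rho k)) (M.cell (P M (cfg M ψ) (M.rho k) m)) ∧
      ∃ u, u ≤ m ∧ lc M (cfg M ψ) (M.rho k) u ∈ Co) {φ : D → ℂ} {w : ℕ → ℂ} {κ : ℂ} {B K : ℝ}
    (hw : ∀ j, w (j + n) = w j) (hB : ∀ i j, i ≤ j → j ≤ n →
      ‖∑ k ∈ Finset.Ico i j, Vg M (cfg M ψ) P₀ T n φ F k - κ * (w j - w i)‖ ^ 2 ≤ B)
    (hK : ∀ i j, ‖κ * (w j - w i)‖ ^ 2 ≤ K) :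
    ∑ β ∈ 𝒟, ‖∑ d ∈ β, φ d‖ ^ 2 ≤
      ∑ i ∈ Finset.range m₀, ∑ q ∈ I,
        (if Cd M (cfg M ψ) (RevCx389.p0 M (G i) ψ) (RevCx389.ln M (G i) ψ) (Cw M (G i) ψ) q.1 q.2 ∧
          gd M (G i) Co ψ q.1 q.2 then
          4 * ‖cv M (cfg M ψ) (RevCx389.p0 M (G i) ψ) (RevCx389.ln M (G i) ψ) φ q.1 q.2‖ ^ 2 +
          56 * ∑ j ∈ Finset.range n, ‖cv M (cfg M ψ) (RevCx389.p0 M (G i) ψ)
            (RevCx389.ln M (G i) ψ) (rst φ (F j)) q.1 q.2‖ ^ 2 else 0) +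
      56 * ∑ j ∈ Finset.range n, ∑ β ∈ 𝒟, ‖∑ d ∈ β, rst φ (F j) d‖ ^ 2 +
      𝒟.card * (16 * B + 4 * K) := by
  have hx' : IsC (coarse M π hπ) ∅ (cfg M (fil π o ψ)) := fil_isC W.gt ψ
  -- the start gap and the length of a chord
  have ch : ∀ β, β ∈ 𝒟 → ∃ q : D × ℕ, q.1 ∈ β ∧ Gc M π o (cfg M (fil π o ψ)) q.1 q.2 ∧
      β = cset M (P M (cfg M ψ) (M.rho q.1)) 0 q.2 := by
    intro β hβ
    obtain ⟨k, hk, m, h1, h2⟩ := chd_gc hx' W.gt (h𝒟 hβ)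
    refine ⟨(k, m), hk, h1, h2.trans ?_⟩
    exact cset_congr (Q := P M (cfg M (fil π o ψ)) (M.rho k)) (Q' := P M (cfg M ψ) (M.rho k))
      fun s _ _ => (Rim.P W.rim h1.gp.2 s).symm
  have : Nonempty (D × ℕ) := ⟨(P₀, 0)⟩
  choose! e he using ch
  set g : ℕ → D × ℕ → ℝ := fun i q =>
    if Cd M (cfg M ψ) (RevCx389.p0 M (G i) ψ) (RevCx389.ln M (G i) ψ) (Cw M (G i) ψ) q.1 q.2 ∧
          gd M (G i) Co ψ q.1 q.2 then
          4 * ‖cv M (cfg M ψ) (RevCx389.p0 M (G i) ψ) (RevCx389.ln M (G i) ψ) φ q.1 q.2‖ ^ 2 +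
          56 * ∑ j ∈ Finset.range n, ‖cv M (cfg M ψ) (RevCx389.p0 M (G i) ψ)
            (RevCx389.ln M (G i) ψ) (rst φ (F j)) q.1 q.2‖ ^ 2 else 0 with hgdef
  have hg0 : ∀ i q, 0 ≤ g i q := by
    intro i q
    rw [hgdef]
    dsimp only
    split_ifs
    · positivity
    · exact le_rfl
  have one : ∀ β ∈ 𝒟, ‖∑ d ∈ β, φ d‖ ^ 2 ≤ ∑ i ∈ Finset.range m₀, g i (e β) +
      56 * ∑ j ∈ Finset.range n, ‖∑ d ∈ β, rst φ (F j) d‖ ^ 2 + (16 * B + 4 * K) := by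
    intro β hβ
    obtain ⟨h1, h2, h3⟩ := he β hβ
    obtain ⟨h4, h5, h7⟩ := hG β hβ (e β).1 h1 (e β).2 h2
    obtain ⟨i, hi, h8, h9⟩ := W.window h2 h5
    have h10 := h9 Co h7
    have h11 := chord_law W Q h6 hl1 hi h8 h10 hw hB hK (φ := φ)
    rw [← h3] at h11
    rw [Finset.sum_add_distrib] at h11
    have h12 : g i (e β) ≤ ∑ i ∈ Finset.range m₀, g i (e β) :=
      Finset.single_le_sum (f := fun i => g i (e β)) (fun i _ => hg0 i _) (Finset.mem_range.2 hi)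
    have h13 : g i (e β) =
        4 * ‖cv M (cfg M ψ) (RevCx389.p0 M (G i) ψ) (RevCx389.ln M (G i) ψ) φ
          (e β).1 (e β).2‖ ^ 2 +
          56 * ∑ j ∈ Finset.range n, ‖cv M (cfg M ψ) (RevCx389.p0 M (G i) ψ)
            (RevCx389.ln M (G i) ψ) (rst φ (F j)) (e β).1 (e β).2‖ ^ 2 := by
      rw [hgdef]
      exact if_pos ⟨h8, h10⟩
    linarith
  refine (Finset.sum_le_sum one).trans ?_
  rw [Finset.sum_add_distrib, Finset.sum_add_distrib, Finset.sum_const, nsmul_eq_mul,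
    ← Finset.mul_sum, Finset.sum_comm (s := 𝒟) (t := Finset.range n)]
  have hinj : Set.InjOn e (𝒟 : Set (Finset D)) := by
    intro β hβ β' hβ' h1
    rw [(he β hβ).2.2, (he β' hβ').2.2, h1]
  have h14 : ∑ β ∈ 𝒟, ∑ i ∈ Finset.range m₀, g i (e β) ≤ ∑ i ∈ Finset.range m₀, ∑ q ∈ I, g i q := by
    rw [Finset.sum_comm]
    refine Finset.sum_le_sum fun i _ => ?_
    rw [← Finset.sum_image (f := fun q => g i q) hinj]
    refine Finset.sum_le_sum_of_subset_of_nonneg ?_ fun q _ _ => hg0 i q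
    intro q hq
    obtain ⟨β, hβ, rfl⟩ := Finset.mem_image.1 hq
    exact (hG β hβ _ (he β hβ).1 _ (he β hβ).2.1).1
  linarith

end Crest.Agent.R143.DecPx263
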