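import Crest.Agent.R143.Y5D_831
import Crest.Agent.R143.DelR_806
import Crest.Agent.R143.Loc_922
import Crest.Agent.R143.Cav_780

/-!
# Row 143 (S0194), block Y, leaves Y4, Y4a : deletion of a deep inner site (helper304)

* `CF S u` : the facts on the cavity of `u` (Delaunay triangles of `S \ {u}` which are no triangles
  of `S`); they are proved in `Cav_780`
* `kl_erase`, `ex_erase`, `kls_erase` : killed edges and marks do not change
* `arc_erase` : the arcs do not change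
* `sim` : simulation of the chain of triangles
-/

set_option autoImplicit false
set_option linter.all false

noncomputable section

open scoped Classical

namespace Crest.Agent.R143.Del4x304

open Crest.ProbabilityR.Voronoi
open Crest.Agent.R143.B0x346 Crest.Agent.R143.B0Dx346 Crest.Agent.R143.DelGx806
  Crest.Agent.R143.DelRx806 Crest.Agent.R143.Y0x831

/-- `u` is on no hull edge -/
def Inn (S : Finset ℂ) (u : ℂ) : Prop := ∀ x y : ℂ, hullE S x y → x ≠ u ∧ y ≠ u

/-- cavity triangle -/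
def Cav (S : Finset ℂ) (u : ℂ) (t : ℂ × ℂ × ℂ) : Prop := t ∈ delT (S.erase u) ∧ t ∉ delT S

/-- one step in the cavity -/
def CavStep (S : Finset ℂ) (u : ℂ) (s s' : ℂ × ℂ × ℂ) : Prop :=
  Cav S u s' ∧ (s' = (s.2.1, s.2.2, s.1) ∨ (s'.1 = s.2.1 ∧ s'.2.1 = s.1))

/-- the facts on the cavity -/
structure CF (S : Finset ℂ) (u : ℂ) : Prop where
  persist : ∀ {a b c : ℂ}, (a, b, c) ∈ delT S → a ≠ u → b ≠ u → c ≠ u →
    (a, b, c) ∈ delT (S.erase u)
  hull : ∀ x y : ℂ, hullE (S.erase u) x y ↔ hullE S x y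
  nbs : ∀ {x y z : ℂ}, Cav S u (x, y, z) → x ∈ nbs S u ∧ y ∈ nbs S u ∧ z ∈ nbs S u
  link : ∀ {x y : ℂ}, (y, x, u) ∈ delT S → ∃ z, Cav S u (y, x, z)
  new : ∀ {x y z z' : ℂ}, Cav S u (x, y, z) → Cav S u (y, x, z') → ∀ e : ℂ,
    (x, y, e) ∉ delT S ∧ (y, x, e) ∉ delT S
  conn : ∀ {s s' : ℂ × ℂ × ℂ}, Cav S u s → Cav S u s' →
    Relation.ReflTransGen (CavStep S u) s s'

variable {S : Finset ℂ} {u : ℂ}

theorem mem_E {G : Trg ℂ} {x y : ℂ} : (x, y) ∈ G.E ↔ ∃ z, (x, y, z) ∈ G.T ∨ (y, x, z) ∈ G.T := by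
  unfold Trg.E
  simp only [Finset.mem_union, Finset.mem_image, Prod.mk.injEq]
  constructor
  · rintro (⟨⟨a, b, c⟩, h, rfl, rfl⟩ | ⟨⟨a, b, c⟩, h, rfl, rfl⟩)
    · exact ⟨c, Or.inl h⟩
    · exact ⟨c, Or.inr h⟩
  · rintro ⟨z, h | h⟩
    · exact Or.inl ⟨_, h, rfl, rfl⟩
    · exact Or.inr ⟨_, h, rfl, rfl⟩

theorem gp_erase (hS : GP (S : Set ℂ)) : GP ((S.erase u : Finset ℂ) : Set ℂ) :=
  Crest.Agent.R143.Locx922.GP.mono hS fun s hs =>
    Finset.mem_coe.2 (Finset.mem_of_mem_erase (Finset.mem_coe.1 hs))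

theorem card3 {a b c : ℂ} (h : (a, b, c) ∈ delT S) : 3 ≤ S.card := by
  obtain ⟨o, h⟩ := mem_delT_iff.1 h
  have : ({a, b, c} : Finset ℂ) ⊆ S := by
    intro x hx
    simp only [Finset.mem_insert, Finset.mem_singleton] at hx
    rcases hx with rfl | rfl | rfl
    · exact h.ma
    · exact h.mb
    · exact h.mc
  have h2 := Finset.card_le_card this
  rwa [Finset.card_eq_three.2 ⟨a, b, c, h.ne.1, h.ne.2.2, h.ne.2.1, rfl⟩] at h2

/-! ### killed edges and marks -/

theorem vedge_erase {a b z : ℂ} (hz : z ∈ vedge ((S.erase u : Finset ℂ) : Set ℂ) a b) :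
    z ∈ vedge (S : Set ℂ) a b ∨ z ∈ voronoiCell (S : Set ℂ) u := by
  obtain ⟨h1, h2⟩ := hz
  by_cases h : ‖z - a‖ ≤ ‖z - u‖
  · left
    refine ⟨h1, fun s hs => ?_⟩
    by_cases hsu : s = u
    · rw [hsu]; exact h
    · exact h2 s (Finset.mem_coe.2 (Finset.mem_erase.2 ⟨hsu, Finset.mem_coe.1 hs⟩))
  · right
    intro s hs
    by_cases hsu : s = u
    · rw [hsu]
    · exact (lt_of_not_ge h).le.trans
        (h2 s (Finset.mem_coe.2 (Finset.mem_erase.2 ⟨hsu, Finset.mem_coe.1 hs⟩)))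

theorem vedge_mono {a b z : ℂ} (hz : z ∈ vedge (S : Set ℂ) a b) :
    z ∈ vedge ((S.erase u : Finset ℂ) : Set ℂ) a b :=
  ⟨hz.1, fun s hs => hz.2 s (Finset.mem_coe.2 (Finset.mem_of_mem_erase (Finset.mem_coe.1 hs)))⟩

/-- the killed edges do not change -/
theorem kl_erase {D : Dom} (hd : voronoiCell (S : Set ℂ) u ∩ D.out = ∅) :
    D.kl (S.erase u) = D.kl S := by
  ext ⟨a, b⟩
  unfold Dom.kl
  simp only [Set.mem_ofPred_eq]
  constructor
  · rintro ⟨z, h1, h2⟩
    rcases vedge_erase h1 with h | h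
    · exact ⟨z, h, h2⟩
    · exact absurd (Set.mem_inter h h2) (by rw [hd]; exact Set.notMem_empty _)
  · rintro ⟨z, h1, h2⟩
    exact ⟨z, vedge_mono h1, h2⟩

theorem ray_erase (hF : CF S u) (c q : ℂ) : rayMark (S.erase u) c q = rayMark S c q := by
  have h : crossRay (S.erase u) c q = crossRay S c q := by
    funext p
    unfold crossRay
    rw [hF.hull]
  unfold rayMark
  rw [h]

theorem ex_erase (hS : GP (S : Set ℂ)) (hF : CF S u) (D : Dom) :
    (D.netS (S.erase u)).ex = (D.netS S).ex := by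
  funext k
  rw [Crest.Agent.R143.Locx922.netS_ex D hS, Crest.Agent.R143.Locx922.netS_ex D (gp_erase hS),
    ray_erase hF]

theorem kls_erase (hS : GP (S : Set ℂ)) (hF : CF S u) {D : Dom}
    (hd : voronoiCell (S : Set ℂ) u ∩ D.out = ∅) :
    (D.netS (S.erase u)).kl = (D.netS S).kl := by
  rw [Crest.Agent.R143.Locx922.netS_kl D hS, Crest.Agent.R143.Locx922.netS_kl D (gp_erase hS),
    kl_erase hd]
  simp only [ray_erase hF]

/-! ### edges -/

theorem cav_of {x y z : ℂ} (h : (x, y, z) ∈ delT (S.erase u)) : (x, y, z) ∈ delT S ∨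
    Cav S u (x, y, z) := by
  by_cases h1 : (x, y, z) ∈ delT S
  · exact Or.inl h1
  · exact Or.inr ⟨h, h1⟩

/-- an edge of `S` not at `u` is an edge of `S \ {u}` -/
theorem edge_persist (hS : GP (S : Set ℂ)) (hF : CF S u) {x y z : ℂ} (h : (x, y, z) ∈ delT S)
    (hx : x ≠ u) (hy : y ≠ u) : ∃ z', (x, y, z') ∈ delT (S.erase u) := by
  by_cases hz : z = u
  · subst hz
    obtain ⟨z', h'⟩ := hF.link h
    exact ⟨z', h'.1⟩
  · exact ⟨z, hF.persist h hx hy hz⟩

/-! ### arcs -/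

theorem arcRel_iff (hS : GP (S : Set ℂ)) (hF : CF S u) (hu : Inn S u) {D : Dom}
    (hd : voronoiCell (S : Set ℂ) u ∩ D.out = ∅) (x y : ℂ) :
    ArcRel (D.netS (S.erase u)) x y ↔ ArcRel (D.netS S) x y := by
  have hT := Crest.Agent.R143.Locx922.netS_T D hS
  have hT' := Crest.Agent.R143.Locx922.netS_T D (gp_erase (u := u) hS)
  have hhull : ∀ x y : ℂ, ((x, y) ∈ (D.netS (S.erase u)).toTrg.E ∧
      ∀ d, (y, x, d) ∉ (D.netS (S.erase u)).T) ↔
      ((x, y) ∈ (D.netS S).toTrg.E ∧ ∀ d, (y, x, d) ∉ (D.netS S).T) := by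
    intro x y
    have h1 := hF.hull x y
    have key : ∀ F : Finset ℂ, (D.netS F).T = delT F → (((x, y) ∈ (D.netS F).toTrg.E ∧
        ∀ d, (y, x, d) ∉ (D.netS F).T) ↔ hullE F x y) := by
      intro F hF
      rw [mem_E, hF]
      unfold hullE
      constructor
      · rintro ⟨⟨z, hz | hz⟩, h⟩
        · exact ⟨⟨z, hz⟩, h⟩
        · exact absurd hz (h z)
      · rintro ⟨⟨z, hz⟩, h⟩
        exact ⟨⟨z, Or.inl hz⟩, h⟩
    rw [key _ hT', key _ hT]
    exact h1
  have hhull' : ∀ x y : ℂ, ((x, y) ∈ (D.netS (S.erase u)).toTrg.E ∧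
      ∀ d, (x, y, d) ∉ (D.netS (S.erase u)).T) ↔
      ((x, y) ∈ (D.netS S).toTrg.E ∧ ∀ d, (x, y, d) ∉ (D.netS S).T) := by
    intro x y
    have h2 : ∀ G : Trg ℂ, ((x, y) ∈ G.E ↔ (y, x) ∈ G.E) := by
      intro G
      rw [mem_E, mem_E]
      exact exists_congr fun z => or_comm
    rw [h2, h2]
    exact hhull y x
  have hkl : ((x, y) ∈ (D.netS (S.erase u)).toTrg.E ∧ (x, y) ∈ (D.netS (S.erase u)).kl) ↔
      ((x, y) ∈ (D.netS S).toTrg.E ∧ (x, y) ∈ (D.netS S).kl) := by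
    rw [kls_erase hS hF hd, mem_E, mem_E, hT, hT']
    refine and_congr_left fun hk => ?_
    rw [Crest.Agent.R143.Locx922.netS_kl D hS] at hk
    obtain ⟨z, hz, hzo⟩ := hk.1
    constructor
    · rintro ⟨c, hc⟩
      have hcard : 3 ≤ (S.erase u).card := by
        rcases hc with hc | hc
        · exact card3 hc
        · exact card3 hc
      have h3 : 3 ≤ S.card := hcard.trans (Finset.card_le_card (Finset.erase_subset _ _))
      have hm : x ∈ S ∧ y ∈ S ∧ x ≠ y := by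
        rcases hc with hc | hc
        · obtain ⟨o, hc⟩ := mem_delT_iff.1 hc
          exact ⟨Finset.mem_of_mem_erase hc.ma, Finset.mem_of_mem_erase hc.mb, hc.ne.1⟩
        · obtain ⟨o, hc⟩ := mem_delT_iff.1 hc
          exact ⟨Finset.mem_of_mem_erase hc.mb, Finset.mem_of_mem_erase hc.ma, hc.ne.1.symm⟩
      rcases vedge_del hS h3 hm.1 hm.2.1 hm.2.2 hz with ⟨c, h⟩ | ⟨c, h⟩
      · exact ⟨c, Or.inl h⟩
      · exact ⟨c, Or.inr h⟩
    · rintro ⟨c, hc⟩
      have hxu : x ≠ u := by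
        rintro rfl
        have : z ∈ voronoiCell (S : Set ℂ) x := fun s hs => hz.2 s hs
        exact absurd (Set.mem_inter this hzo) (by rw [hd]; exact Set.notMem_empty _)
      have hyu : y ≠ u := by
        rintro rfl
        have : z ∈ voronoiCell (S : Set ℂ) y := fun s hs => by
          rw [← hz.1]; exact hz.2 s hs
        exact absurd (Set.mem_inter this hzo) (by rw [hd]; exact Set.notMem_empty _)
      rcases hc with hc | hc
      · obtain ⟨z', h⟩ := edge_persist hS hF hc hxu hyu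
        exact ⟨z', Or.inl h⟩
      · obtain ⟨z', h⟩ := edge_persist hS hF hc hyu hxu
        exact ⟨z', Or.inr h⟩
  have hex : (D.netS (S.erase u)).exS = (D.netS S).exS := by
    unfold Net.exS
    rw [ex_erase hS hF]
  unfold ArcRel
  rw [and_or_left, and_or_left, ← and_assoc, ← and_assoc, and_or_left, and_or_left, ← and_assoc,
    ← and_assoc, hkl, hhull, hhull', hex]

theorem arc_erase (hS : GP (S : Set ℂ)) (hF : CF S u) (hu : Inn S u) {D : Dom}
    (hd : voronoiCell (S : Set ℂ) u ∩ D.out = ∅) (k : ZMod 3) :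
    arcN (D.netS (S.erase u)) k = arcN (D.netS S) k := by
  have h : ArcRel (D.netS (S.erase u)) = ArcRel (D.netS S) := by
    funext x y
    exact propext (arcRel_iff hS hF hu hd x y)
  unfold arcN
  rw [h, ex_erase hS hF]

/-! ### simulation of the chain -/

theorem nb_of_nbs {G : Trg ℂ} (hG : G.T = delT S) (hS : GP (S : Set ℂ)) {x : ℂ}
    (h : x ∈ nbs S u) : Nb G x u ∧ Nb G u x := by
  obtain ⟨c, hc⟩ := mem_nbs.1 h
  unfold Nb
  rw [mem_E, mem_E, hG]
  exact ⟨⟨c, Or.inr hc⟩, ⟨c, Or.inl hc⟩⟩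

theorem Cl_sub {N N' : Net ℂ} (hS : GP (S : Set ℂ)) (hF : CF S u) (hT : N.T = delT S)
    (hT' : N'.T = delT (S.erase u)) {w : Set ℂ} (hu : u ∈ w) (r : ℂ) :
    Cl N'.toTrg (w \ {u}) r ⊆ Cl N.toTrg w r := by
  rintro v ⟨hr, hv⟩
  refine ⟨hr.1, ?_⟩
  induction hv with
  | refl => exact Relation.ReflTransGen.refl
  | tail _ hbc ih =>
    obtain ⟨hnb, hc⟩ := hbc
    unfold Nb at hnb
    rw [mem_E, hT'] at hnb
    obtain ⟨z, hz⟩ := hnb
    rcases hz with hz | hz
    · rcases cav_of hz with hz | hz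
      · refine ih.tail ⟨?_, hc.1⟩
        unfold Nb
        rw [mem_E, hT]
        exact ⟨z, Or.inl hz⟩
      · have h := hF.nbs hz
        exact (ih.tail ⟨(nb_of_nbs hT hS h.1).1, hu⟩).tail ⟨(nb_of_nbs hT hS h.2.1).2, hc.1⟩
    · rcases cav_of hz with hz | hz
      · refine ih.tail ⟨?_, hc.1⟩
        unfold Nb
        rw [mem_E, hT]
        exact ⟨z, Or.inr hz⟩
      · have h := hF.nbs hz
        exact (ih.tail ⟨(nb_of_nbs hT hS h.2.1).1, hu⟩).tail ⟨(nb_of_nbs hT hS h.1).2, hc.1⟩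

theorem Free.mono {W W' : Set ℂ} (h : W' ⊆ W) {t : ℂ × ℂ × ℂ} (ht : Free W t) : Free W' t :=
  ⟨fun h1 => ht.1 (h h1), fun h1 => ht.2.1 (h h1), fun h1 => ht.2.2 (h h1)⟩

/-- `t` does not contain `u` -/
def Av (u : ℂ) (t : ℂ × ℂ × ℂ) : Prop := t.1 ≠ u ∧ t.2.1 ≠ u ∧ t.2.2 ≠ u

theorem sim {N N' : Net ℂ} (hS : GP (S : Set ℂ)) (hF : CF S u) (hT : N.T = delT S)
    (hT' : N'.T = delT (S.erase u)) (hex : N'.ex = N.ex) (hkl : N'.kl = N.kl)
    (hnew : ∀ x y z z' : ℂ, Cav S u (x, y, z) → Cav S u (y, x, z') → (x, y) ∉ N.kl)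
    (hm : ∀ k, ∀ z, ((N.ex k).1, (N.ex k).2, z) ∈ delT S → (N.ex k).1 ≠ u ∧ (N.ex k).2 ≠ u)
    {k : ZMod 3} {w : Set ℂ} {t : ℂ × ℂ × ℂ} (ht : Av u t) (hu : u ∈ w) (h : SS N k w t) :
    t ∈ delT (S.erase u) ∧ SS N' k (w \ {u}) t := by
  obtain ⟨htT, hfree, t', ht', hch⟩ := h
  have hsub := Cl_sub hS hF hT hT' hu (N.ex (k + 1)).2
  rw [hT] at htT
  have htT' : t ∈ delT (S.erase u) := hF.persist htT ht.1 ht.2.1 ht.2.2
  refine ⟨htT', by rw [hT']; exact htT', ?_, ?_⟩
  · rw [hex]; exact Free.mono hsub hfree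
  rw [hex, hkl]
  set W := Cl N.toTrg w (N.ex (k + 1)).2 with hW
  set W' := Cl N'.toTrg (w \ {u}) (N.ex (k + 1)).2 with hW'
  by_cases huW : u ∈ W
  · -- no triangle of the chain contains `u`
    have key : ∀ s, Relation.ReflTransGen (CStep N.toTrg N.kl W) t s →
        Av u s ∧ Relation.ReflTransGen (CStep N'.toTrg N.kl W') t s := by
      intro s hs
      induction hs with
      | refl => exact ⟨ht, Relation.ReflTransGen.refl⟩
      | tail _ hst ih =>
        obtain ⟨h1, h2, h3⟩ := hst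
        have hav : Av u _ := ⟨fun h => h2.1 (h ▸ huW), fun h => h2.2.1 (h ▸ huW),
          fun h => h2.2.2 (h ▸ huW)⟩
        refine ⟨hav, ih.2.tail ⟨?_, Free.mono hsub h2, h3⟩⟩
        rw [hT'] 
        rw [hT] at h1
        exact hF.persist h1 hav.1 hav.2.1 hav.2.2
    exact ⟨t', ht', (key t' hch).2⟩
  · -- no neighbour of `u` is in `W`
    have hnbW : ∀ x ∈ nbs S u, x ∉ W := by
      intro x hx hxW
      exact huW ⟨hxW.1, hxW.2.tail ⟨(nb_of_nbs hT hS hx).1, hu⟩⟩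
    have hcavF : ∀ c, Cav S u c → Free W' c := by
      rintro ⟨x, y, z⟩ hc
      have h := hF.nbs hc
      exact ⟨fun h1 => hnbW x h.1 (hsub h1), fun h1 => hnbW y h.2.1 (hsub h1),
        fun h1 => hnbW z h.2.2 (hsub h1)⟩
    -- the cavity is connected
    have hconn : ∀ c c', Cav S u c → Cav S u c' →
        Relation.ReflTransGen (CStep N'.toTrg N.kl W') c c' := by
      intro c c' hc hc'
      have hcc := hF.conn hc hc'
      have key : ∀ s, Relation.ReflTransGen (CavStep S u) c s →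
          Cav S u s ∧ Relation.ReflTransGen (CStep N'.toTrg N.kl W') c s := by
        intro s hs
        induction hs with
        | refl => exact ⟨hc, Relation.ReflTransGen.refl⟩
        | @tail s s' _ hst ih =>
          obtain ⟨h1, h2⟩ := hst
          refine ⟨h1, ih.2.tail ⟨by rw [hT']; exact h1.1, hcavF _ h1, ?_⟩⟩
          rcases h2 with h2 | h2
          · exact Or.inl h2
          · refine Or.inr ⟨h2.1, h2.2, ?_⟩
            obtain ⟨x, y, z⟩ := s
            obtain ⟨x', y', z'⟩ := s'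
            dsimp only at h2 ⊢
            obtain ⟨rfl, rfl⟩ := h2
            exact hnew _ _ _ _ ih.1 h1
      exact (key c' hcc).2
    have key : ∀ s, Relation.ReflTransGen (CStep N.toTrg N.kl W) t s → s ∈ delT S ∧
        ((Av u s ∧ Relation.ReflTransGen (CStep N'.toTrg N.kl W') t s) ∨
        (¬ Av u s ∧ ∀ c, Cav S u c → Relation.ReflTransGen (CStep N'.toTrg N.kl W') t c)) := by
      intro s hs
      induction hs with
      | refl => exact ⟨htT, Or.inl ⟨ht, Relation.ReflTransGen.refl⟩⟩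
      | @tail s s' _ hst ih =>
        obtain ⟨h1, h2, h3⟩ := hst
        rw [hT] at h1
        refine ⟨h1, ?_⟩
        obtain ⟨ihT, ih⟩ := ih
        obtain ⟨x, y, z⟩ := s
        obtain ⟨x', y', z'⟩ := s'
        rcases h3 with h3 | ⟨h3, h4, h5⟩
        · -- rotation
          simp only [Prod.mk.injEq] at h3
          obtain ⟨rfl, rfl, rfl⟩ := h3
          rcases ih with ⟨hav, ih⟩ | ⟨hav, ih⟩
          · have hav' : Av u (x', y', z') := ⟨hav.2.1, hav.2.2, hav.1⟩
            refine Or.inl ⟨hav', ih.tail ⟨?_, Free.mono hsub h2, Or.inl rfl⟩⟩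
            rw [hT']
            exact hF.persist h1 hav'.1 hav'.2.1 hav'.2.2
          · exact Or.inr ⟨fun h => hav ⟨h.2.2, h.1, h.2.1⟩, ih⟩
        · -- crossing
          dsimp only at h3 h4 h5
          subst h3 h4
          by_cases hav' : Av u (x', y', z')
          · refine Or.inl ⟨hav', ?_⟩
            have hm' : (x', y', z') ∈ delT (S.erase u) :=
              hF.persist h1 hav'.1 hav'.2.1 hav'.2.2
            rcases ih with ⟨hav, ih⟩ | ⟨hav, ih⟩
            · exact ih.tail ⟨by rw [hT']; exact hm', Free.mono hsub h2, Or.inr ⟨rfl, rfl, h5⟩⟩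
            · have hz : z = u := by
                by_contra hz
                exact hav ⟨hav'.2.1, hav'.1, hz⟩
              subst hz
              obtain ⟨z1, hz1⟩ := hF.link ihT
              exact (ih _ hz1).tail ⟨by rw [hT']; exact hm', Free.mono hsub h2,
                Or.inr ⟨rfl, rfl, h5⟩⟩
          · refine Or.inr ⟨hav', ?_⟩
            rcases ih with ⟨hav, ih⟩ | ⟨hav, ih⟩
            · have hz : z' = u := by
                by_contra hz
                exact hav' ⟨hav.2.1, hav.1, hz⟩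
              subst hz
              obtain ⟨z1, hz1⟩ := hF.link h1
              intro c hc
              exact (ih.tail (b := (y', x', z)) (c := (x', y', z1))
                ⟨by rw [hT']; exact hz1.1, hcavF _ hz1, Or.inr ⟨rfl, rfl, h5⟩⟩).trans
                (hconn _ _ hz1 hc)
            · exact ih
    obtain ⟨hT1, h1⟩ := key t' hch
    rcases h1 with ⟨-, h1⟩ | ⟨hav, h1⟩
    · exact ⟨t', ht', h1⟩
    · obtain ⟨x, y, z⟩ := t'
      dsimp only at ht'
      have hxy := hm k z (by rw [← ht']; exact hT1)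
      rw [← ht'] at hxy
      have hz : z = u := by
        by_contra hz
        exact hav ⟨hxy.1, hxy.2, hz⟩
      subst hz
      obtain ⟨z1, hz1⟩ := hF.link hT1
      exact ⟨_, by rw [← ht'], h1 _ hz1⟩

/-! ### Y4, Y4a -/

theorem mark_ne (hS : GP (S : Set ℂ)) (hu : Inn S u) (D : Dom) (k : ZMod 3) (z : ℂ)
    (h : (((D.netS S).ex k).1, ((D.netS S).ex k).2, z) ∈ delT S) :
    ((D.netS S).ex k).1 ≠ u ∧ ((D.netS S).ex k).2 ≠ u := by
  rw [Crest.Agent.R143.Locx922.netS_ex D hS] at h ⊢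
  by_cases hex : ∃ p, crossRay S D.c (D.q k) p
  · unfold rayMark
    rw [dif_pos hex]
    exact hu _ _ hex.choose_spec.1
  · unfold rayMark at h
    rw [dif_neg hex] at h
    obtain ⟨o, h⟩ := mem_delT_iff.1 h
    exact absurd rfl h.ne.1

theorem new_live (hS : GP (S : Set ℂ)) (hF : CF S u) (D : Dom) {x y z z' : ℂ}
    (h : Cav S u (x, y, z)) (h' : Cav S u (y, x, z')) : (x, y) ∉ (D.netS S).kl := by
  rw [Crest.Agent.R143.Locx922.netS_kl D hS]
  rintro ⟨⟨v, hv, -⟩, -⟩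
  obtain ⟨o, hc⟩ := mem_delT_iff.1 h.1
  have h3 : 3 ≤ S.card := (card3 h.1).trans (Finset.card_le_card (Finset.erase_subset _ _))
  rcases vedge_del hS h3 (Finset.mem_of_mem_erase hc.ma) (Finset.mem_of_mem_erase hc.mb) hc.ne.1 hv
    with ⟨c, h1⟩ | ⟨c, h1⟩
  · exact (hF.new h h' c).1 h1
  · exact (hF.new h h' c).2 h1

theorem y4_of (hcf : ∀ (S : Finset ℂ) (u : ℂ), GP (S : Set ℂ) → u ∈ S → Inn S u → CF S u) :
    Y4 := by
  intro D S u a b c hS huS hu hd habc hau hbu hcu k w t ht h1 h2 h3 huw h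
  have hF := hcf S u hS huS hu
  have key := sim (N := killE (D.netS S) a b) (N' := killE (D.netS (S.erase u)) a b) hS hF
    (Crest.Agent.R143.Locx922.netS_T D hS) (Crest.Agent.R143.Locx922.netS_T D (gp_erase hS))
    (ex_erase hS hF D) (by
      show (D.netS (S.erase u)).kl ∪ _ = (D.netS S).kl ∪ _
      rw [kls_erase hS hF hd]) (by
      intro x y z z' h h'
      rintro (hk | hk)
      · exact new_live hS hF D h h' hk
      · simp only [Set.mem_insert_iff, Set.mem_singleton_iff, Prod.mk.injEq] at hk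
        rcases hk with ⟨hk1, hk2⟩ | ⟨hk1, hk2⟩
        · exact (hF.new h h' c).1 (by rw [hk1, hk2]; exact habc)
        · exact (hF.new h h' c).2 (by rw [hk1, hk2]; exact habc)) (mark_ne hS hu D) ⟨h1, h2, h3⟩ huw h
  exact ⟨key.1, ex_erase hS hF D, key.2⟩

theorem y4a_of (hcf : ∀ (S : Finset ℂ) (u : ℂ), GP (S : Set ℂ) → u ∈ S → Inn S u → CF S u) :
    Crest.Agent.R143.Y5Dx831.Y4a := by
  intro D S u hS huS hu hd
  have hF := hcf S u hS huS hu
  exact ⟨arc_erase hS hF hu hd, fun t ht h1 h2 h3 => hF.persist ht h1 h2 h3, hF.hull⟩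

/-- the facts on the cavity, from `Cav_780` -/
theorem cf (S : Finset ℂ) (u : ℂ) (hS : GP (S : Set ℂ)) (huS : u ∈ S) (hu : Inn S u) : CF S u := by
  have hI : Crest.Agent.R143.Cavx780.Inn S u := ⟨hS, huS, hu⟩
  have hc3 : ∀ {t : ℂ × ℂ × ℂ}, t ∈ delT (S.erase u) → 3 ≤ S.card := fun {t} ht =>
    (card3 (a := t.1) (b := t.2.1) (c := t.2.2) ht).trans
      (Finset.card_le_card (Finset.erase_subset _ _))
  refine ⟨fun h ha hb hc => Crest.Agent.R143.Cavx780.persist h ha hb hc, fun x y => ?_,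
    fun {x y z} h => Crest.Agent.R143.Cavx780.New.nbs hI h,
    fun {x y} h => Crest.Agent.R143.Cavx780.link hI (card3 h) h, fun {x y z z'} h h' e => ?_,
    fun {s s'} h h' => ?_⟩
  · constructor
    · intro h
      obtain ⟨c, hc⟩ := h.1
      exact (Crest.Agent.R143.Cavx780.hull_iff_erase hI (hc3 hc)).1 h
    · intro h
      obtain ⟨c, hc⟩ := h.1
      exact (Crest.Agent.R143.Cavx780.hull_iff_erase hI (card3 hc)).2 h
  · have h1 := Crest.Agent.R143.Cavx780.not_edge hI (hc3 h.1) h h'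
    first
      | exact ⟨fun h2 => h1.1 e h2, fun h2 => h1.2 e h2⟩
      | exact ⟨fun h2 => h1.1 ⟨e, h2⟩, fun h2 => h1.2 ⟨e, h2⟩⟩
  · have h1 := Crest.Agent.R143.Cavx780.conn hI (hc3 h.1) h h'
    have h2 : Crest.Agent.R143.Cavx780.NStep S u ≤ CavStep S u := fun s s' hs => ⟨hs.2.1, hs.2.2⟩
    exact Relation.ReflTransGen.mono h2 _ _ h1

/-- **leaf Y4** -/
theorem y4 : Y4 := y4_of cf

/-- **leaf Y4a** -/
theorem y4a : Crest.Agent.R143.Y5Dx831.Y4a := y4a_of cf

end Crest.Agent.R143.Del4x304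

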