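import Crest.Agent.R143.DelS_806

/-!
# Row 143, block G, leaf G4: the first stages of the shelling (helper806)

* `stage_tri`  : `x` in an open Delaunay triangle `(a, b, c)`
* `stage_star` : `x = v` a site which is not on the hull, `D` = all the triangles at `v`, the ring
  with lifted directions `th`
* `shell_tri`, `shell_star` : the whole shelling from there
-/

set_option autoImplicit false

noncomputable section

open scoped Classical

namespace Crest.Agent.R143.DelSx806

open Crest.Agent.R143.B0x346 Crest.Agent.R143.DelGx806 Crest.Agent.R143.DelRx806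

variable {S : Finset ℂ}

theorem dir_arg {x c : ℂ} (h : c ≠ x) : Dir x c (c - x).arg := by
  refine ⟨‖c - x‖, norm_pos_iff.2 (sub_ne_zero.2 h), ?_⟩
  exact (Complex.norm_mul_exp_arg_mul_I (c - x)).symm

theorem three_le {a b c o : ℂ} (h : Tri S a b c o) : 3 ≤ S.card := by
  obtain ⟨d1, d2, d3⟩ := h.ne
  have h1 : ({a, b, c} : Finset ℂ).card = 3 := Finset.card_eq_three.2 ⟨a, b, c, d1, d3, d2, rfl⟩
  rw [← h1]
  refine Finset.card_le_card ?_
  intro s hs
  simp only [Finset.mem_insert, Finset.mem_singleton] at hs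
  rcases hs with rfl | rfl | rfl
  · exact h.ma
  · exact h.mb
  · exact h.mc

theorem inHull_of_inT {a b c o x : ℂ} (ht : Tri S a b c o) (hx : InT x a b c) : InHull S x := by
  obtain ⟨h1, h2, h3⟩ := hx
  intro u w huw
  have k1 := hull_side huw a ht.ma
  have k2 := hull_side huw b ht.mb
  have k3 := hull_side huw c ht.mc
  have e := bary a b c x (-(w.re - u.re) * u.im + (w.im - u.im) * u.re) (-(w.im - u.im))
    (w.re - u.re)
  have e0 : ∀ y : ℂ, -(w.re - u.re) * u.im + (w.im - u.im) * u.re + -(w.im - u.im) * y.re +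
      (w.re - u.re) * y.im = cr (w - u) (y - u) := fun y => by rw [cr_sub]; ring
  rw [e0, e0, e0, e0] at e
  have hp := ht.pos
  have y1 := mul_nonneg h2 k1
  have y2 := mul_nonneg h3 k2
  have y3 := mul_nonneg h1 k3
  by_contra hcon
  push Not at hcon
  have := mul_neg_of_pos_of_neg hp hcon
  linarith

/-- the triangle which contains `x` has the smallest power -/
theorem min_power (hS : GP (S : Set ℂ)) {a b c o x : ℂ} (ht : Tri S a b c o) (hx : InO x a b c)
    {a' b' c' o' : ℂ} (h' : Tri S a' b' c' o') : pw o a x ≤ pw o' a' x := by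
  obtain ⟨p, q, r, o1, k1, k2, k3⟩ := cover hS (three_le ht) (inHull_of_inT ht hx.inT)
  have h1 := disj hS ht k1 hx k2
  have h2 := k3 _ _ _ _ h'
  have e : pw o1 p x = pw o a x := by
    unfold rots at h1
    simp only [Set.mem_insert_iff, Set.mem_singleton_iff, Prod.mk.injEq] at h1
    rcases h1 with ⟨rfl, rfl, rfl⟩ | ⟨rfl, rfl, rfl⟩ | ⟨rfl, rfl, rfl⟩
    · rw [ht.centre k1.pb k1.pc]
    · rw [← ht.rot.centre k1.pb k1.pc, pw_base ht.pb]
    · rw [← ht.rot.rot.centre k1.pb k1.pc, pw_base ht.pc]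
  rw [← e]
  exact h2

/-- **first stage, `x` in an open triangle** -/
theorem stage_tri (hS : GP (S : Set ℂ)) {a b c x : ℂ} (ht : (a, b, c) ∈ delT S)
    (hx : InO x a b c) (hxS : x ∉ S) :
    ∃ θa θb θc : ℝ, Stage S x (rotF (a, b, c)) [(a, θa), (b, θb), (c, θc)] := by
  obtain ⟨o, hT⟩ := mem_delT_iff.1 ht
  obtain ⟨d1, d2, d3⟩ := hT.ne
  have xa : a ≠ x := fun h => hxS (h ▸ hT.ma)
  have hab : 0 < cr (a - x) (b - x) := by rw [← cr_rot']; exact hx.1
  have hbc : 0 < cr (b - x) (c - x) := by rw [← cr_rot']; exact hx.2.1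
  have hca : 0 < cr (c - x) (a - x) := by rw [← cr_rot']; exact hx.2.2
  have ha := dir_arg xa
  obtain ⟨θb, b1, b2, hb⟩ := exists_dir ha hab
  obtain ⟨θc, c1, c2, hc⟩ := exists_dir hb hbc
  obtain ⟨θd, e1, e2, hd⟩ := exists_dir hc hca
  set θa := (a - x).arg with hθ
  have hpi := Real.pi_pos
  have hθd : θd = θa + 2 * Real.pi := by
    obtain ⟨n, hn⟩ := ha.unique hd
    have h1 : (0 : ℝ) < n := by
      by_contra hcon
      push Not at hcon
      nlinarith
    have h2 : (n : ℝ) < 2 := by
      by_contra hcon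
      push Not at hcon
      nlinarith
    have h3 : (0 : ℤ) < n := by exact_mod_cast h1
    have h4 : n < (2 : ℤ) := by exact_mod_cast h2
    have h5 : n = 1 := by omega
    rw [hn, h5]
    push_cast
    ring
  refine ⟨θa, θb, θc, ?_, ?_, ?_, ?_, ?_, ?_, ?_⟩
  · intro t h
    rcases mem_rotF.1 h with rfl | rfl | rfl
    · exact ht
    · exact mem_delT_iff.2 ⟨o, hT.rot⟩
    · exact mem_delT_iff.2 ⟨o, hT.rot.rot⟩
  · intro p q r h
    rw [mem_rotF] at h ⊢
    rcases h with h | h | h <;> simp only [Prod.mk.injEq] at h ⊢ <;>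
      obtain ⟨rfl, rfl, rfl⟩ := h <;> simp
  · intro p q r o1 p' q' r' o2 k1 k2 k3 hlt
    exfalso
    have h1 := min_power hS hT hx k1
    have h2 : pw o2 p' x = pw o a x := by
      rcases mem_rotF.1 k2 with h | h | h <;> simp only [Prod.mk.injEq] at h <;>
        obtain ⟨rfl, rfl, rfl⟩ := h
      · rw [hT.centre k3.pb k3.pc]
      · rw [← hT.rot.centre k3.pb k3.pc, pw_base hT.pb]
      · rw [← hT.rot.rot.centre k3.pb k3.pc, pw_base hT.pc]
    rw [h2] at hlt
    linarith
  · intro p q h
    exact absurd (mem_delT.1 h).1 hxS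
  · exact ⟨a, b, c, mem_rotF.2 (Or.inl rfl), hx.inT⟩
  · refine ⟨by simp, fun p hp => ?_, ?_⟩
    · simp only [List.mem_cons, List.not_mem_nil, or_false] at hp
      rcases hp with rfl | rfl | rfl
      · exact ha
      · exact hb
      · exact hc
    · change List.IsChain Nx [(a, θa), (b, θb), (c, θc), shift (a, θa)]
      rw [List.isChain_cons_cons, List.isChain_cons_cons, List.isChain_pair]
      refine ⟨⟨b1, b2⟩, ⟨c1, c2⟩, ?_, ?_⟩
      · change θc < θa + 2 * Real.pi
        rw [← hθd]; exact e1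
      · change θa + 2 * Real.pi < θc + Real.pi
        rw [← hθd]; exact e2
  · intro u w
    have he : edg (cyc [(a, θa), (b, θb), (c, θc)]) = [(a, b), (b, c), (c, a)] := rfl
    rw [he]
    simp only [List.mem_cons, Prod.mk.injEq, List.not_mem_nil, or_false]
    constructor
    · rintro ⟨⟨c', h⟩, -⟩
      rcases mem_rotF.1 h with h | h | h <;> simp only [Prod.mk.injEq] at h <;>
        obtain ⟨rfl, rfl, rfl⟩ := h <;> simp
    · rintro (⟨rfl, rfl⟩ | ⟨rfl, rfl⟩ | ⟨rfl, rfl⟩)
      · refine ⟨⟨c, mem_rotF.2 (Or.inl rfl)⟩, fun c' h => ?_⟩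
        rcases mem_rotF.1 h with h | h | h <;> simp only [Prod.mk.injEq] at h
        · exact d1 h.2.1
        · exact d3 h.2.1
        · exact d2 h.1
      · refine ⟨⟨a, mem_rotF.2 (Or.inr (Or.inl rfl))⟩, fun c' h => ?_⟩
        rcases mem_rotF.1 h with h | h | h <;> simp only [Prod.mk.injEq] at h
        · exact d3 h.1.symm
        · exact d2 h.2.1
        · exact d1 h.2.1.symm
      · refine ⟨⟨b, mem_rotF.2 (Or.inr (Or.inr rfl))⟩, fun c' h => ?_⟩
        rcases mem_rotF.1 h with h | h | h <;> simp only [Prod.mk.injEq] at h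
        · exact d2 h.2.1.symm
        · exact d1 h.1
        · exact d3 h.1

/-- generic points: a site is not on a line through two other sites -/
theorem gen_site (hS : GP (S : Set ℂ)) {v : ℂ} (hv : v ∈ S) : Gen S v := by
  intro a ha b hb hab hav hbv h
  exact hS.line a ha b hb v hv hab hbv hav h

/-! ### the star of a site -/

/-- the triangles at `v` -/
def starF (S : Finset ℂ) (v : ℂ) : Finset (ℂ × ℂ × ℂ) :=
  (delT S).filter fun t => t.1 = v ∨ t.2.1 = v ∨ t.2.2 = v

theorem edg_range (f : ℕ → ℂ × ℝ) (d : ℕ) :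
    edg ((List.range (d + 1)).map f) = (List.range d).map fun i => ((f i).1, (f (i + 1)).1) := by
  induction d with
  | zero => simp
  | succ d ih =>
    rw [List.range_succ, List.map_append, List.map_singleton, List.range_succ, List.map_append,
      List.map_singleton, edg_append]
    have : List.map f (List.range d) ++ [f d] = List.map f (List.range (d + 1)) := by
      rw [List.range_succ, List.map_append, List.map_singleton]
    rw [this, ih, List.map_append, List.map_singleton]

theorem isChain_range_map {R : ℂ × ℝ → ℂ × ℝ → Prop} {f : ℕ → ℂ × ℝ}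
    (h : ∀ i, R (f i) (f (i + 1))) (d : ℕ) : List.IsChain R ((List.range d).map f) := by
  induction d with
  | zero => simp
  | succ d ih =>
    rw [List.range_succ, List.map_append, List.map_singleton, List.isChain_append]
    refine ⟨ih, List.isChain_singleton _, fun x hx y hy => ?_⟩
    rcases d with _ | d
    · simp at hx
    · rw [List.range_succ, List.map_append, List.map_singleton, List.getLast?_append] at hx
      simp only [List.getLast?_singleton, Option.some_or, Option.mem_def,
        Option.some.injEq] at hx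
      simp only [List.head?_cons, Option.mem_def, Option.some.injEq] at hy
      rw [← hx, ← hy]
      exact h d

/-- strictly inside a sector -/
theorem Dir.sector {v a b : ℂ} {θ θ' φ : ℝ} (ha : Dir v a θ) (hb : Dir v b θ')
    (h1 : θ < φ) (h2 : φ < θ') (h3 : θ' < θ + Real.pi) :
    0 < B0x346.cr (a - v) (Complex.exp (φ * Complex.I)) ∧
      0 < B0x346.cr (Complex.exp (φ * Complex.I)) (b - v) := by
  have he : Dir v (v + Complex.exp (φ * Complex.I)) φ := ⟨1, one_pos, by simp⟩
  obtain ⟨k, hk, e1⟩ := ha.cr he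
  obtain ⟨k', hk', e2⟩ := he.cr hb
  rw [add_sub_cancel_left] at e1 e2
  rw [e1, e2]
  constructor
  · exact mul_pos hk (Real.sin_pos_of_pos_of_lt_pi (by linarith) (by linarith))
  · exact mul_pos hk' (Real.sin_pos_of_pos_of_lt_pi (by linarith) (by linarith))

/-- **first stage, `x = v` a site with a closed ring** -/
theorem stage_star (hS : GP (S : Set ℂ)) {v : ℂ} (hvS : v ∈ S) {d : ℕ} {u : ℤ → ℂ} {G : Trg ℂ}
    (hG : G.T = delT S) (hr : Ring G v d u)
    (hall : ∀ a b, (v, a, b) ∈ delT S → ∃ i : ℤ, u i = a ∧ u (i + 1) = b) :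
    ∃ th : ℕ → ℝ, th d = th 0 + 2 * Real.pi ∧
      (∀ i, th i < th (i + 1) ∧ th (i + 1) < th i + Real.pi) ∧ (∀ i : ℕ, Dir v (u i) (th i)) ∧
      Stage S v (starF S v) ((List.range d).map fun i : ℕ => (u i, th i)) := by
  obtain ⟨hd, hper, hinj, hmem⟩ := hr
  rw [hG] at hmem
  have hpos : ∀ i : ℤ, 0 < cr (u i - v) (u (i + 1) - v) := fun i => (mem_delT.1 (hmem i)).2.2.2.1
  have hne : ∀ i : ℤ, u i ≠ v := by
    intro i h
    have := hpos i
    rw [h, sub_self] at this
    unfold cr at this
    simp at this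
  -- the lifted directions
  have hex : ∀ (i : ℕ) (θ : ℝ), Dir v (u i) θ → ∃ θ', θ < θ' ∧ θ' < θ + Real.pi ∧
      Dir v (u (i + 1)) θ' := fun i θ h => exists_dir h (hpos i)
  choose! nx hnx using hex
  let th : ℕ → ℝ := fun n => Nat.rec (u 0 - v).arg (fun i θ => nx i θ) n
  have hdir : ∀ i : ℕ, Dir v (u i) (th i) := by
    intro i
    induction i with
    | zero => exact_mod_cast dir_arg (hne 0)
    | succ i ih =>
      have := (hnx i _ ih).2.2
      exact_mod_cast this
  have hstep : ∀ i, th i < th (i + 1) ∧ th (i + 1) < th i + Real.pi := fun i =>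
    ⟨(hnx i _ (hdir i)).1, (hnx i _ (hdir i)).2.1⟩
  have hmono : StrictMono th := strictMono_nat_of_lt_succ fun i => (hstep i).1
  have hpi := Real.pi_pos
  have hud : u d = u 0 := by
    have := hper 0
    rwa [zero_add] at this
  -- the total turning
  have htot : th d = th 0 + 2 * Real.pi := by
    have h1 : Dir v (u 0) (th d) := by rw [← hud]; exact hdir d
    obtain ⟨n, hn⟩ := (show Dir v (u 0) (th 0) by exact_mod_cast hdir 0).unique h1
    have h2 : th 0 < th d := hmono hd
    have h3 : (0 : ℝ) < n := by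
      by_contra hcon
      push Not at hcon
      nlinarith
    have h4 : (0 : ℤ) < n := by exact_mod_cast h3
    have h5 : n < 2 := by
      by_contra hcon
      push Not at hcon
      have h6 : (2 : ℝ) ≤ n := by exact_mod_cast hcon
      have h7 : th 0 + 2 * Real.pi < th d := by nlinarith
      -- the last index before one full turn
      have hex2 : ∃ j, th 0 + 2 * Real.pi < th j := ⟨d, h7⟩
      obtain ⟨j, hj, hj'⟩ : ∃ j, th j ≤ th 0 + 2 * Real.pi ∧ th 0 + 2 * Real.pi < th (j + 1) := by
        have hf := Nat.find_spec hex2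
        have hm := fun m hm => Nat.find_min hex2 (m := m) hm
        rcases hk : Nat.find hex2 with _ | k
        · rw [hk] at hf
          linarith
        · rw [hk] at hf
          refine ⟨k, ?_, hf⟩
          have := hm k (by rw [hk]; exact Nat.lt_succ_self k)
          push Not at this
          exact this
      have hjd : j < d := by
        by_contra hcon
        push Not at hcon
        have := hmono.monotone hcon
        linarith
      have hj0 : 0 < j := by
        rcases Nat.eq_zero_or_pos j with h | h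
        · rw [h] at hj'
          have := (hstep 0).2
          linarith
        · exact h
      have h01 : th 0 < th 1 := (hstep 0).1
      -- a direction just after one full turn
      obtain ⟨ε, hε, hε1, hε2⟩ : ∃ ε > 0, th 0 + 2 * Real.pi + ε < th (j + 1) ∧
          ε < th 1 - th 0 := by
        refine ⟨min (th (j + 1) - (th 0 + 2 * Real.pi)) (th 1 - th 0) / 2, ?_, ?_, ?_⟩
        · have : 0 < min (th (j + 1) - (th 0 + 2 * Real.pi)) (th 1 - th 0) :=
            lt_min (by linarith) (by linarith)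
          linarith
        · have k1 := min_le_left (th (j + 1) - (th 0 + 2 * Real.pi)) (th 1 - th 0)
          linarith
        · have k1 := min_le_right (th (j + 1) - (th 0 + 2 * Real.pi)) (th 1 - th 0)
          linarith
      have s1 := Dir.sector (hdir j) (hdir (j + 1)) (φ := th 0 + 2 * Real.pi + ε) (by linarith)
        hε1 (hstep j).2
      have s0 := Dir.sector (hdir 0) (hdir 1) (φ := th 0 + ε) (by linarith) (by linarith)
        (hstep 0).2
      have he : Complex.exp (((th 0 + 2 * Real.pi + ε : ℝ) : ℂ) * Complex.I) =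
          Complex.exp (((th 0 + ε : ℝ) : ℂ) * Complex.I) := by
        have : (((th 0 + 2 * Real.pi + ε : ℝ) : ℂ) * Complex.I) =
            ((th 0 + ε : ℝ) : ℂ) * Complex.I + 2 * Real.pi * Complex.I := by
          push_cast; ring
        rw [this, Complex.exp_add, Complex.exp_two_pi_mul_I, mul_one]
      rw [he] at s1
      have hm0 : (v, u ((0 : ℕ) : ℤ), u ((1 : ℕ) : ℤ)) ∈ delT S := by
        have := hmem 0
        simpa using this
      have hmj : (v, u (j : ℤ), u ((j + 1 : ℕ) : ℤ)) ∈ delT S := by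
        have := hmem j
        push_cast
        exact this
      have := (sector_unique hS hm0 hmj s0.1 s0.2 s1.1.le s1.2.le).1
      have := hinj 0 j le_rfl (by exact_mod_cast hd) (by positivity) (by exact_mod_cast hjd)
        (by simpa using this)
      omega
    have h6 : n = 1 := by omega
    rw [hn, h6]
    push_cast
    ring
  refine ⟨th, htot, hstep, hdir, ?_⟩
  -- the closed list
  have hcyc : cyc ((List.range d).map fun i : ℕ => ((u i, th i) : ℂ × ℝ)) =
      (List.range (d + 1)).map fun i : ℕ => ((u i, th i) : ℂ × ℝ) := by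
    obtain ⟨m, rfl⟩ : ∃ m, d = m + 1 := ⟨d - 1, by omega⟩
    have e1 : (List.range (m + 1)).map (fun i : ℕ => ((u i, th i) : ℂ × ℝ)) =
        (u ((0 : ℕ) : ℤ), th 0) :: (List.range m).map (fun i : ℕ =>
          ((u ((i + 1 : ℕ) : ℤ), th (i + 1)) : ℂ × ℝ)) := by
      rw [List.range_succ_eq_map, List.map_cons, List.map_map]
      rfl
    have e2 : (List.range (m + 1 + 1)).map (fun i : ℕ => ((u i, th i) : ℂ × ℝ)) =
        (List.range (m + 1)).map (fun i : ℕ => ((u i, th i) : ℂ × ℝ)) ++
          [(u ((m + 1 : ℕ) : ℤ), th (m + 1))] := by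
      rw [List.range_succ, List.map_append, List.map_singleton]
    have e3 : shift (u ((0 : ℕ) : ℤ), th 0) = (u ((m + 1 : ℕ) : ℤ), th (m + 1)) := by
      refine Prod.ext ?_ htot.symm
      change u ((0 : ℕ) : ℤ) = u ((m + 1 : ℕ) : ℤ)
      rw [hud]
      rfl
    rw [e2, e1]
    change _ :: (_ ++ [shift (u ((0 : ℕ) : ℤ), th 0)]) = _
    rw [e3]
    rfl
  have hmodd : ∀ i : ℤ, ∃ j : ℕ, j < d ∧ u i = u j ∧ u (i + 1) = u ((j + 1 : ℕ) : ℤ) := by
    intro i
    have hdz : (0 : ℤ) < d := by exact_mod_cast hd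
    have h1 := Int.emod_nonneg i hdz.ne'
    have h2 := Int.emod_lt_of_pos i hdz
    obtain ⟨j, hj⟩ := Int.eq_ofNat_of_zero_le h1
    refine ⟨j, by omega, ?_, ?_⟩
    · rw [← hj]; exact (mod_per hd hper i).symm
    · push_cast
      rw [← hj, ← mod_per hd hper (i + 1), ← mod_per hd hper (i % d + 1)]
      congr 1
      exact (Int.emod_add_emod i d 1).symm
  have hmemD : ∀ a b c, (a, b, c) ∈ starF S v ↔
      (a, b, c) ∈ delT S ∧ (a = v ∨ b = v ∨ c = v) := by
    intro a b c
    unfold starF
    rw [Finset.mem_filter]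
  have hrot := (g1 S hS).1
  refine ⟨?_, ?_, ?_, ?_, ?_, ?_, ?_⟩
  · exact Finset.filter_subset _ _
  · intro a b c h
    rw [hmemD] at h ⊢
    exact ⟨hrot _ _ _ h.1, by tauto⟩
  · intro a b c o a' b' c' o' h h1 h' hlt
    exfalso
    have h2 := h.emp v hvS
    rw [hmemD] at h1
    have h3 : pw o' a' v = 0 := by
      rcases h1.2 with rfl | rfl | rfl
      · exact pw_self _ _
      · exact h'.pb
      · exact h'.pc
    linarith
  · intro b c h
    rw [hmemD]
    exact ⟨h, Or.inl rfl⟩
  · refine ⟨v, u 0, u (0 + 1), (hmemD _ _ _).2 ⟨hmem 0, Or.inl rfl⟩, ?_, ?_, ?_⟩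
    · rw [sub_self]; unfold cr; simp
    · rw [cr_rot']
      exact (hpos 0).le
    · exact le_of_eq (cr_right _ _).symm
  · refine ⟨?_, ?_, ?_⟩
    · intro h
      have := congrArg List.length h
      simp at this
      omega
    · intro p hp
      obtain ⟨i, -, rfl⟩ := List.mem_map.1 hp
      exact hdir i
    · rw [hcyc]
      exact isChain_range_map (R := Nx) (f := fun i : ℕ => (u i, th i)) (fun i => hstep i) (d + 1)
  · intro a b
    rw [hcyc, edg_range (fun i : ℕ => (u i, th i))]
    rw [List.mem_map]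
    constructor
    · rintro ⟨⟨c, h1⟩, h2⟩
      rw [hmemD] at h1
      obtain ⟨h1, h3⟩ := h1
      rcases h3 with rfl | rfl | rfl
      · exfalso
        obtain ⟨i, rfl, -⟩ := hall _ _ h1
        have := hmem (i - 1)
        rw [sub_add_cancel] at this
        exact h2 (u (i - 1)) ((hmemD _ _ _).2
          ⟨hrot _ _ _ (hrot _ _ _ this), Or.inr (Or.inl rfl)⟩)
      · exfalso
        obtain ⟨i, rfl, rfl⟩ := hall _ _ (hrot _ _ _ h1)
        exact h2 _ ((hmemD _ _ _).2 ⟨hmem (i + 1), Or.inl rfl⟩)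
      · obtain ⟨i, rfl, rfl⟩ := hall _ _ (hrot _ _ _ (hrot _ _ _ h1))
        obtain ⟨j, hj, e1, e2⟩ := hmodd i
        exact ⟨j, List.mem_range.2 hj, Prod.ext e1.symm e2.symm⟩
    · rintro ⟨j, -, he⟩
      obtain ⟨rfl, rfl⟩ := Prod.ext_iff.1 he
      dsimp only
      have hj : (v, u (j : ℤ), u ((j + 1 : ℕ) : ℤ)) ∈ delT S := by
        have := hmem j
        push_cast
        exact this
      refine ⟨⟨v, (hmemD _ _ _).2 ⟨hrot _ _ _ hj, Or.inr (Or.inr rfl)⟩⟩, fun c hc => ?_⟩
      rw [hmemD] at hc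
      obtain ⟨h1, h2⟩ := hc
      rcases h2 with h2 | h2 | rfl
      · exact hne _ h2
      · exact hne _ h2
      · have k1 := (mem_delT.1 (hrot _ _ _ (hrot _ _ _ h1))).2.2.2.1
        have k2 := (mem_delT.1 hj).2.2.2.1
        rw [cr_swap'] at k1
        linarith

/-- **the shelling from an open triangle** -/
theorem shell_tri (hS : GP (S : Set ℂ)) {a b c x : ℂ} (ht : (a, b, c) ∈ delT S)
    (hx : InO x a b c) (hxS : x ∉ S) (hg : Gen S x) :
    ∃ θa θb θc : ℝ, ∃ L, Relation.ReflTransGen (ShStep S x)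
      (rotF (a, b, c), [(a, θa), (b, θb), (c, θc)]) (delT S, L) ∧
      Stage S x (rotF (a, b, c)) [(a, θa), (b, θb), (c, θc)] ∧ Stage S x (delT S) L := by
  obtain ⟨θa, θb, θc, h⟩ := stage_tri hS ht hx hxS
  obtain ⟨L, h1, h2⟩ := shelling hS hg h
  exact ⟨θa, θb, θc, L, h1, h, h2⟩

/-- **the shelling from a site which is not on the hull** -/
theorem shell_star (hS : GP (S : Set ℂ)) {v u0 : ℂ} (hvS : v ∈ S) (hu0 : u0 ∈ nbs S v)
    (hv : ∀ a, ¬ hullE S a v) {G : Trg ℂ} (hG : G.T = delT S) :
    ∃ (d : ℕ) (u : ℤ → ℂ) (th : ℕ → ℝ) (L : List (ℂ × ℝ)), Ring G v d u ∧ u 0 = u0 ∧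
      (∀ a b, (v, a, b) ∈ delT S → ∃ i : ℤ, u i = a ∧ u (i + 1) = b) ∧
      th d = th 0 + 2 * Real.pi ∧ (∀ i, th i < th (i + 1) ∧ th (i + 1) < th i + Real.pi) ∧
      (∀ i : ℕ, Dir v (u i) (th i)) ∧
      Stage S v (starF S v) ((List.range d).map fun i : ℕ => (u i, th i)) ∧
      Relation.ReflTransGen (ShStep S v)
        (starF S v, (List.range d).map fun i : ℕ => (u i, th i)) (delT S, L) ∧
      Stage S v (delT S) L := by
  obtain ⟨d, u, hr, h0, hall⟩ := ring_exists hS hu0 hv hG
  obtain ⟨th, h1, h2, h3, h4⟩ := stage_star hS hvS hG hr hall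
  obtain ⟨L, h5, h6⟩ := shelling hS (gen_site hS hvS) h4
  exact ⟨d, u, th, L, hr, h0, hall, h1, h2, h3, h4, h5, h6⟩

end Crest.Agent.R143.DelSx806
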