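import Crest.Agent.R143.DelR_806

/-!
# Row 143, block G, leaf G4: SHELLING of the Delaunay triangulation from a point `x` (helper806)

The triangles sorted by the power of `x`: every new triangle is glued along one side (SPLIT) or along
two consecutive sides (MERGE).  The boundary of the union is a cyclic list of sites with lifted
directions seen from `x`, increasing, total turning `2π` (star-shaped).

* `cyc`, `edg`, `Star x L` : cyclic lists with lifted directions
* `ShStep S x (D, L) (D', L')` : rotation of the list, SPLIT, MERGE (always at the head of the list)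
* `Stage S x D L` : `D` = set of triangles closed downwards in the power order, `L` = its boundary
* `stage_step`  : a stage which is not complete has a next stage
* `shelling`    : every stage leads to the complete triangulation by steps
* `stage_tri`   : first stage, `x` in an open triangle
* `stage_star`  : first stage, `x = v` a site which is not on the hull (ring of `v`)
-/

set_option autoImplicit false

noncomputable section

open scoped Classical

namespace Crest.Agent.R143.DelSx806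

open Crest.Agent.R143.B0x346 Crest.Agent.R143.DelGx806 Crest.Agent.R143.DelRx806

/-! ### cyclic lists with lifted directions -/

/-- one turn further -/
def shift (p : ℂ × ℝ) : ℂ × ℝ := (p.1, p.2 + 2 * Real.pi)

/-- the list closed up -/
def cyc : List (ℂ × ℝ) → List (ℂ × ℝ)
  | [] => []
  | p :: M => p :: (M ++ [shift p])

/-- consecutive pairs -/
def edg : List (ℂ × ℝ) → List (ℂ × ℂ)
  | [] => []
  | [_] => []
  | p :: q :: M => (p.1, q.1) :: edg (q :: M)

@[simp] theorem edg_cons_cons (p q : ℂ × ℝ) (M : List (ℂ × ℝ)) :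
    edg (p :: q :: M) = (p.1, q.1) :: edg (q :: M) := rfl

@[simp] theorem edg_single (p : ℂ × ℝ) : edg [p] = [] := rfl

theorem edg_append (A : List (ℂ × ℝ)) (p q : ℂ × ℝ) :
    edg (A ++ [p] ++ [q]) = edg (A ++ [p]) ++ [(p.1, q.1)] := by
  induction A with
  | nil => simp
  | cons a A ih =>
    rcases A with _ | ⟨b, A⟩
    · simp
    · have : a :: b :: A ++ [p] ++ [q] = a :: (b :: (A ++ [p] ++ [q])) := by simp
      rw [this, edg_cons_cons]
      have h2 : b :: (A ++ [p] ++ [q]) = (b :: A) ++ [p] ++ [q] := by simp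
      rw [h2, ih]
      simp

/-- first components of the edges -/
theorem edg_fst (M : List (ℂ × ℝ)) (q : ℂ × ℝ) :
    (edg (M ++ [q])).map Prod.fst = M.map Prod.fst := by
  induction M with
  | nil => simp
  | cons a M ih =>
    rcases M with _ | ⟨b, M⟩
    · simp
    · have : a :: b :: M ++ [q] = a :: b :: (M ++ [q]) := by simp
      rw [this, edg_cons_cons]
      have h2 : b :: (M ++ [q]) = (b :: M) ++ [q] := by simp
      rw [h2, List.map_cons, ih]
      simp

theorem edg_cyc_fst {L : List (ℂ × ℝ)} : (edg (cyc L)).map Prod.fst = L.map Prod.fst := by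
  rcases L with _ | ⟨p, M⟩
  · rfl
  · change (edg (p :: (M ++ [shift p]))).map Prod.fst = _
    have : p :: (M ++ [shift p]) = (p :: M) ++ [shift p] := by simp
    rw [this, edg_fst]

/-- the next point in the ring: less than half a turn -/
def Nx (p q : ℂ × ℝ) : Prop := p.2 < q.2 ∧ q.2 < p.2 + Real.pi

/-- `c` is in the direction `θ`, seen from `x` -/
def Dir (x c : ℂ) (θ : ℝ) : Prop := ∃ r : ℝ, 0 < r ∧ c - x = (r : ℂ) * Complex.exp (θ * Complex.I)

theorem Dir.shift {x c : ℂ} {θ : ℝ} (h : Dir x c θ) : Dir x c (θ + 2 * Real.pi) := by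
  obtain ⟨r, hr, h⟩ := h
  refine ⟨r, hr, ?_⟩
  rw [h]
  congr 1
  push_cast
  rw [add_mul, Complex.exp_add]
  simp [Complex.exp_two_pi_mul_I]

theorem Dir.cr {x c c' : ℂ} {θ θ' : ℝ} (h : Dir x c θ) (h' : Dir x c' θ') :
    ∃ k : ℝ, 0 < k ∧ cr (c - x) (c' - x) = k * Real.sin (θ' - θ) := by
  obtain ⟨r, hr, h⟩ := h
  obtain ⟨r', hr', h'⟩ := h'
  refine ⟨r * r', by positivity, ?_⟩
  rw [h, h', Real.sin_sub]
  unfold B0x346.cr
  simp only [Complex.mul_re, Complex.mul_im, Complex.ofReal_re, Complex.ofReal_im,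
    Complex.exp_ofReal_mul_I_re, Complex.exp_ofReal_mul_I_im]
  ring

theorem Dir.unique {x c : ℂ} {θ θ' : ℝ} (h : Dir x c θ) (h' : Dir x c θ') :
    ∃ n : ℤ, θ' = θ + n * (2 * Real.pi) := by
  obtain ⟨r, hr, h⟩ := h
  obtain ⟨r', hr', h'⟩ := h'
  have hn : r = r' := by
    have h1 : ‖c - x‖ = r := by
      rw [h, norm_mul, Complex.norm_exp_ofReal_mul_I, mul_one, Complex.norm_real,
        Real.norm_of_nonneg hr.le]
    have h2 : ‖c - x‖ = r' := by
      rw [h', norm_mul, Complex.norm_exp_ofReal_mul_I, mul_one, Complex.norm_real,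
        Real.norm_of_nonneg hr'.le]
    rw [← h1, ← h2]
  subst hn
  rw [h] at h'
  have hr0 : (r : ℂ) ≠ 0 := by exact_mod_cast hr.ne'
  have h3 := mul_left_cancel₀ hr0 h'
  rw [Complex.exp_eq_exp_iff_exists_int] at h3
  obtain ⟨n, hn⟩ := h3
  refine ⟨-n, ?_⟩
  have h4 : ((θ : ℂ)) = θ' + n * (2 * Real.pi) := by
    have h5 : Complex.I ≠ 0 := Complex.I_ne_zero
    apply mul_right_cancel₀ h5
    rw [hn]; ring
  have h6 : θ = θ' + n * (2 * Real.pi) := by exact_mod_cast h4
  rw [h6]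
  push_cast
  ring

/-- a left turn of less than half a turn -/
theorem exists_dir {x b c : ℂ} {θ : ℝ} (h : Dir x b θ) (hc : 0 < cr (b - x) (c - x)) :
    ∃ θ', θ < θ' ∧ θ' < θ + Real.pi ∧ Dir x c θ' := by
  have hb : b - x ≠ 0 := by
    intro h0
    rw [h0] at hc
    unfold cr at hc
    simp at hc
  have hc0 : c - x ≠ 0 := by
    intro h0
    rw [h0] at hc
    unfold cr at hc
    simp at hc
  set z := (c - x) / (b - x) with hz
  have hzi : 0 < z.im := by
    rw [hz, Complex.div_im]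
    have hn : 0 < Complex.normSq (b - x) := Complex.normSq_pos.2 hb
    unfold cr at hc
    rw [← sub_div]
    apply div_pos _ hn
    linarith
  have h1 : 0 < z.arg := by
    rcases lt_or_eq_of_le (Complex.arg_nonneg_iff.2 hzi.le) with h | h
    · exact h
    · exfalso
      have := Complex.arg_eq_zero_iff.1 h.symm
      rw [this.2] at hzi
      exact lt_irrefl _ hzi
  have h2 : z.arg < Real.pi := by
    rcases lt_or_eq_of_le (Complex.arg_le_pi z) with h | h
    · exact h
    · exfalso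
      have := Complex.arg_eq_pi_iff.1 h
      rw [this.2] at hzi
      exact lt_irrefl _ hzi
  obtain ⟨r, hr, h⟩ := h
  refine ⟨θ + z.arg, by linarith, by linarith, r * ‖z‖, ?_, ?_⟩
  · have : z ≠ 0 := div_ne_zero hc0 hb
    have := norm_pos_iff.2 this
    positivity
  · have e1 : c - x = z * (b - x) := by rw [hz]; field_simp
    rw [e1, h]
    conv_lhs => rw [← Complex.norm_mul_exp_arg_mul_I z]
    push_cast
    rw [add_mul, Complex.exp_add]
    ring

/-- a star-shaped ring around `x` -/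
structure Star (x : ℂ) (L : List (ℂ × ℝ)) : Prop where
  ne : L ≠ []
  dir : ∀ p ∈ L, Dir x p.1 p.2
  chain : List.IsChain Nx (cyc L)

/-- the directions are increasing and make less than one turn -/
theorem Star.pairwise {x : ℂ} {L : List (ℂ × ℝ)} (h : Star x L) :
    L.Pairwise fun p q => p.2 < q.2 ∧ q.2 < p.2 + 2 * Real.pi := by
  obtain ⟨hne, -, hc⟩ := h
  rcases L with _ | ⟨p, M⟩
  · exact absurd rfl hne
  have h1 : List.IsChain (fun p q : ℂ × ℝ => p.2 < q.2) (cyc (p :: M)) :=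
    hc.imp fun _ _ h => h.1
  have : Trans (fun p q : ℂ × ℝ => p.2 < q.2) (fun p q : ℂ × ℝ => p.2 < q.2)
      (fun p q : ℂ × ℝ => p.2 < q.2) := ⟨fun h h' => lt_trans h h'⟩
  rw [List.isChain_iff_pairwise] at h1
  change List.Pairwise _ (p :: (M ++ [shift p])) at h1
  rw [List.pairwise_cons, List.pairwise_append] at h1
  obtain ⟨h2, h3, -, h4⟩ := h1
  have h5 : ∀ q ∈ M, q.2 < p.2 + 2 * Real.pi := fun q hq =>
    h4 q hq (shift p) (List.mem_singleton.2 rfl)
  rw [List.pairwise_cons]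
  refine ⟨fun q hq => ⟨h2 q (List.mem_append_left _ hq), h5 q hq⟩, ?_⟩
  refine h3.imp_of_mem fun {a b} ha hb hab => ⟨hab, ?_⟩
  have h6 := h5 b hb
  have h7 := h2 a (List.mem_append_left _ ha)
  linarith

theorem Star.nodup {x : ℂ} {L : List (ℂ × ℝ)} (h : Star x L) : (L.map Prod.fst).Nodup := by
  unfold List.Nodup
  rw [List.pairwise_map]
  refine h.pairwise.imp_of_mem fun {p q} hp hq hpq he => ?_
  have h1 := h.dir p hp
  have h2 := h.dir q hq
  rw [← he] at h2
  obtain ⟨n, hn⟩ := h1.unique h2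
  have hpi := Real.pi_pos
  obtain ⟨h3, h4⟩ := hpq
  rw [hn] at h3 h4
  have h5 : (0 : ℝ) < n := by
    by_contra hcon
    push Not at hcon
    nlinarith
  have h6 : (n : ℝ) < 1 := by
    by_contra hcon
    push Not at hcon
    nlinarith
  have h7 : (0 : ℤ) < n := by exact_mod_cast h5
  have h8 : n < (1 : ℤ) := by exact_mod_cast h6
  omega

/-- an edge of the ring is determined by its first site -/
theorem Star.edge_unique {x : ℂ} {L : List (ℂ × ℝ)} (h : Star x L) {a b b' : ℂ}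
    (h1 : (a, b) ∈ edg (cyc L)) (h2 : (a, b') ∈ edg (cyc L)) : b = b' := by
  have hn : ((edg (cyc L)).map Prod.fst).Nodup := by rw [edg_cyc_fst]; exact h.nodup
  have := List.inj_on_of_nodup_map hn h1 h2 rfl
  exact (Prod.ext_iff.1 this).2

/-! ### steps -/

/-- the rotations of an oriented triangle -/
def rotF (t : ℂ × ℂ × ℂ) : Finset (ℂ × ℂ × ℂ) := {t, (t.2.1, t.2.2, t.1), (t.2.2, t.1, t.2.1)}

/-- **steps of the shelling**: rotation of the list, SPLIT, MERGE -/
inductive ShStep (S : Finset ℂ) (x : ℂ) : Finset (ℂ × ℂ × ℂ) × List (ℂ × ℝ) →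
    Finset (ℂ × ℂ × ℂ) × List (ℂ × ℝ) → Prop
  | rot (D : Finset (ℂ × ℂ × ℂ)) (p : ℂ × ℝ) (M : List (ℂ × ℝ)) :
      ShStep S x (D, p :: M) (D, M ++ [shift p])
  | split (D : Finset (ℂ × ℂ × ℂ)) (B : List (ℂ × ℝ)) (a b c : ℂ) (θa θb θc : ℝ)
      (ht : (a, b, c) ∈ delT S) (hD : (a, b, c) ∉ D) (hs : splitAt x a b c) (h1 : θb < θc)
      (h2 : θc < θa) (hc : Dir x c θc) :
      ShStep S x (D, (b, θb) :: (a, θa) :: B)
        (D ∪ rotF (a, b, c), (b, θb) :: (c, θc) :: (a, θa) :: B)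
  | merge (D : Finset (ℂ × ℂ × ℂ)) (B : List (ℂ × ℝ)) (a b c : ℂ) (θa θb θc : ℝ)
      (ht : (a, b, c) ∈ delT S) (hD : (a, b, c) ∉ D) (hm : mergeAt x a b c) :
      ShStep S x (D, (c, θc) :: (b, θb) :: (a, θa) :: B)
        (D ∪ rotF (a, b, c), (c, θc) :: (a, θa) :: B)

/-- **stage**: `D` is closed downwards in the power order, `L` is its boundary -/
structure Stage (S : Finset ℂ) (x : ℂ) (D : Finset (ℂ × ℂ × ℂ)) (L : List (ℂ × ℝ)) : Prop where
  sub : D ⊆ delT S
  rot : ∀ a b c, (a, b, c) ∈ D → (b, c, a) ∈ D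
  down : ∀ a b c o a' b' c' o', Tri S a b c o → (a', b', c') ∈ D → Tri S a' b' c' o' →
    pw o a x < pw o' a' x → (a, b, c) ∈ D
  vert : ∀ b c, (x, b, c) ∈ delT S → (x, b, c) ∈ D
  inn : ∃ a b c, (a, b, c) ∈ D ∧ InT x a b c
  star : Star x L
  edge : ∀ a b, ((∃ c, (a, b, c) ∈ D) ∧ ∀ c, (b, a, c) ∉ D) ↔ (a, b) ∈ edg (cyc L)

section steps

variable {S : Finset ℂ} {x : ℂ} {D : Finset (ℂ × ℂ × ℂ)} {L : List (ℂ × ℝ)}

theorem Nx.shift {p q : ℂ × ℝ} (h : Nx p q) : Nx (shift p) (shift q) := by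
  unfold Nx DelSx806.shift at *
  constructor
  · dsimp only; linarith [h.1]
  · dsimp only; linarith [h.2]

/-- rotation of the list -/
theorem Star.rotate {p : ℂ × ℝ} {M : List (ℂ × ℝ)} (h : Star x (p :: M)) :
    Star x (M ++ [shift p]) ∧ ∀ e, e ∈ edg (cyc (M ++ [shift p])) ↔ e ∈ edg (cyc (p :: M)) := by
  obtain ⟨-, hd, hc⟩ := h
  have hdir : ∀ q ∈ M ++ [shift p], Dir x q.1 q.2 := by
    intro q hq
    rcases List.mem_append.1 hq with h | h
    · exact hd q (List.mem_cons_of_mem _ h)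
    · rw [List.mem_singleton.1 h]
      exact (hd p (List.mem_cons_self)).shift
  rcases M with _ | ⟨q, M⟩
  · -- impossible
    exfalso
    change List.IsChain Nx [p, shift p] at hc
    rw [List.isChain_pair] at hc
    have := hc.2
    unfold shift at this
    dsimp only at this
    linarith [Real.pi_pos]
  change List.IsChain Nx (p :: (q :: M ++ [shift p])) at hc
  have hc' : List.IsChain Nx (p :: q :: (M ++ [shift p])) := by simpa using hc
  rw [List.isChain_cons_cons] at hc'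
  have e1 : cyc (q :: M ++ [shift p]) = q :: (M ++ [shift p] ++ [shift q]) := rfl
  have e2 : cyc (p :: q :: M) = p :: q :: (M ++ [shift p]) := rfl
  refine ⟨⟨by simp, hdir, ?_⟩, fun e => ?_⟩
  · rw [e1]
    have : q :: (M ++ [shift p] ++ [shift q]) = (q :: M) ++ shift p :: shift q :: [] := by simp
    rw [this, List.isChain_append_cons_cons]
    refine ⟨by simpa using hc'.2, hc'.1.shift, List.isChain_singleton _⟩
  · rw [e1, e2]
    have h3 : q :: (M ++ [shift p] ++ [shift q]) = (q :: M) ++ [shift p] ++ [shift q] := by simp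
    rw [h3, edg_append, edg_cons_cons]
    have h4 : (q :: M) ++ [shift p] = q :: (M ++ [shift p]) := by simp
    rw [h4, List.mem_append, List.mem_singleton, List.mem_cons]
    have h5 : ((shift p).1, (shift q).1) = (p.1, q.1) := rfl
    rw [h5]
    tauto

theorem Stage.rotate {p : ℂ × ℝ} {M : List (ℂ × ℝ)} (h : Stage S x D (p :: M)) :
    Stage S x D (M ++ [shift p]) where
  sub := h.sub
  rot := h.rot
  down := h.down
  vert := h.vert
  inn := h.inn
  star := h.star.rotate.1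
  edge a b := by rw [h.edge, h.star.rotate.2]

/-- bring a site to the head of the list -/
theorem Stage.to_head (A B : List (ℂ × ℝ)) (h : Stage S x D (A ++ B)) :
    ∃ A' : List (ℂ × ℝ), A'.map Prod.fst = A.map Prod.fst ∧ Stage S x D (B ++ A') ∧
      Relation.ReflTransGen (ShStep S x) (D, A ++ B) (D, B ++ A') := by
  induction A generalizing B with
  | nil => exact ⟨[], rfl, by simpa using h, by simpa using Relation.ReflTransGen.refl⟩
  | cons p A ih =>
    have h1 : Stage S x D (A ++ (B ++ [shift p])) := by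
      have := h.rotate (M := A ++ B)
      simpa using this
    obtain ⟨A', hA, h2, h3⟩ := ih _ h1
    refine ⟨shift p :: A', by rw [List.map_cons, List.map_cons, hA]; rfl, by simpa using h2, ?_⟩
    have h4 : ShStep S x (D, p :: A ++ B) (D, A ++ (B ++ [shift p])) := by
      have := ShStep.rot (S := S) (x := x) D p (A ++ B)
      simpa using this
    refine Relation.ReflTransGen.head h4 ?_
    simpa using h3

/-- **bring an edge to the head of the list** -/
theorem Stage.edge_head {a b : ℂ} (h : Stage S x D L) (hab : (a, b) ∈ edg (cyc L)) :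
    ∃ θ θ' : ℝ, ∃ B : List (ℂ × ℝ), Stage S x D ((a, θ) :: (b, θ') :: B) ∧
      Relation.ReflTransGen (ShStep S x) (D, L) (D, (a, θ) :: (b, θ') :: B) := by
  have ha : a ∈ L.map Prod.fst := by
    rw [← edg_cyc_fst]
    exact List.mem_map.2 ⟨_, hab, rfl⟩
  obtain ⟨p, hp, rfl⟩ := List.mem_map.1 ha
  obtain ⟨A, B, rfl⟩ := List.append_of_mem hp
  obtain ⟨A', -, h1, h2⟩ := h.to_head A (p :: B)
  rcases hM : B ++ A' with _ | ⟨q, M⟩
  · exfalso
    have h3 := h1.star
    rw [List.cons_append, hM] at h3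
    have hc := h3.chain
    change List.IsChain Nx [p, shift p] at hc
    rw [List.isChain_pair] at hc
    have := hc.2
    unfold shift at this
    dsimp only at this
    linarith [Real.pi_pos]
  · rw [List.cons_append, hM] at h1 h2
    have h3 : (p.1, b) ∈ edg (cyc (p :: q :: M)) := by
      rw [← h1.edge, h.edge]
      exact hab
    have h4 : (p.1, q.1) ∈ edg (cyc (p :: q :: M)) := by
      change _ ∈ edg (p :: q :: (M ++ [shift p]))
      rw [edg_cons_cons]
      exact List.mem_cons_self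
    have h5 := h1.star.edge_unique h3 h4
    subst h5
    exact ⟨p.2, q.2, M, h1, h2⟩

/-! ### visible and invisible sides -/

/-- `x` is on no line through two other sites -/
def Gen (S : Finset ℂ) (x : ℂ) : Prop :=
  ∀ a ∈ S, ∀ b ∈ S, a ≠ b → a ≠ x → b ≠ x → cr (b - a) (x - a) ≠ 0

theorem mem_rotF {a b c : ℂ} {t : ℂ × ℂ × ℂ} :
    t ∈ rotF (a, b, c) ↔ t = (a, b, c) ∨ t = (b, c, a) ∨ t = (c, a, b) := by
  unfold rotF
  simp only [Finset.mem_insert, Finset.mem_singleton]

/-- invisible sides are not glued -/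
theorem Stage.invis (hS : GP (S : Set ℂ)) (h : Stage S x D L) {a b c o : ℂ} (ht : Tri S a b c o)
    (hD : (a, b, c) ∉ D) (hv : 0 < cr (b - a) (x - a)) (e : ℂ) : (b, a, e) ∉ D := by
  intro he
  obtain ⟨o', h'⟩ := mem_delT_iff.1 (h.sub he)
  exact hD (h.down _ _ _ _ _ _ _ _ ht he h' (ht.pow_lt hS h' hv))

/-- `x` is in the convex hull -/
theorem Stage.inHull (h : Stage S x D L) : InHull S x := by
  obtain ⟨a, b, c, hD, h1, h2, h3⟩ := h.inn
  obtain ⟨o, ht⟩ := mem_delT_iff.1 (h.sub hD)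
  intro u w huw
  have k1 := hull_side huw a ht.ma
  have k2 := hull_side huw b ht.mb
  have k3 := hull_side huw c ht.mc
  have e := bary a b c x (-(w.re - u.re) * u.im + (w.im - u.im) * u.re) (-(w.im - u.im))
    (w.re - u.re)
  have e0 : ∀ y : ℂ, -(w.re - u.re) * u.im + (w.im - u.im) * u.re + -(w.im - u.im) * y.re +
      (w.re - u.re) * y.im = cr (w - u) (y - u) := fun y => by rw [cr_sub]; ring
  rw [e0, e0, e0, e0] at e
  have hp := ht.pos
  have y1 := mul_nonneg h2 k1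
  have y2 := mul_nonneg h3 k2
  have y3 := mul_nonneg h1 k3
  by_contra hcon
  push Not at hcon
  have := mul_neg_of_pos_of_neg hp hcon
  linarith

/-- visible sides are glued -/
theorem Stage.vis (hS : GP (S : Set ℂ)) (h : Stage S x D L) {a b c o : ℂ} (ht : Tri S a b c o)
    (hD : (a, b, c) ∉ D) (hmin : ∀ a' b' c' o', Tri S a' b' c' o' → pw o' a' x < pw o a x →
      (a', b', c') ∈ D) (hv : cr (b - a) (x - a) < 0) :
    (∃ e, (b, a, e) ∈ D) ∧ (b, a) ∈ edg (cyc L) := by
  have hex : ∃ e o', Tri S b a e o' := by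
    by_contra hcon
    push Not at hcon
    have hh : hullE S a b := ⟨⟨c, mem_delT_iff.2 ⟨o, ht⟩⟩, fun e he => by
      obtain ⟨o', he⟩ := mem_delT_iff.1 he
      exact hcon e o' he⟩
    have := h.inHull a b hh
    linarith
  obtain ⟨e, o', h'⟩ := hex
  have h1 := h'.pow_lt hS ht (x := x) (by unfold Lft; rw [cr_swap]; linarith)
  have h2 : (b, a, e) ∈ D := by
    refine hmin _ _ _ _ h' ?_
    exact h1
  refine ⟨⟨e, h2⟩, ?_⟩
  rw [← h.edge]
  refine ⟨⟨e, h2⟩, fun c' hc' => hD ?_⟩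
  obtain ⟨o'', k⟩ := mem_delT_iff.1 (h.sub hc')
  rw [ht.uniq hS k]
  exact hc'

/-- the union with a new triangle: everything but the boundary -/
theorem Stage.union_aux (h : Stage S x D L) {a b c o : ℂ} (ht : Tri S a b c o)
    (hmin : ∀ a' b' c' o', Tri S a' b' c' o' → pw o' a' x < pw o a x → (a', b', c') ∈ D)
    {L' : List (ℂ × ℝ)} (hst : Star x L')
    (hed : ∀ u w, ((∃ c', (u, w, c') ∈ D ∪ rotF (a, b, c)) ∧
      ∀ c', (w, u, c') ∉ D ∪ rotF (a, b, c)) ↔ (u, w) ∈ edg (cyc L')) :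
    Stage S x (D ∪ rotF (a, b, c)) L' where
  sub := by
    intro t htt
    rcases Finset.mem_union.1 htt with h1 | h1
    · exact h.sub h1
    · rcases mem_rotF.1 h1 with rfl | rfl | rfl
      · exact mem_delT_iff.2 ⟨o, ht⟩
      · exact mem_delT_iff.2 ⟨o, ht.rot⟩
      · exact mem_delT_iff.2 ⟨o, ht.rot.rot⟩
  rot p q r hpq := by
    rcases Finset.mem_union.1 hpq with h1 | h1
    · exact Finset.mem_union_left _ (h.rot _ _ _ h1)
    · refine Finset.mem_union_right _ (mem_rotF.2 ?_)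
      rcases mem_rotF.1 h1 with h1 | h1 | h1 <;> simp only [Prod.mk.injEq] at h1 ⊢ <;>
        obtain ⟨rfl, rfl, rfl⟩ := h1 <;> simp
  down p q r o1 p' q' r' o2 k1 hD' k2 hlt := by
    rcases Finset.mem_union.1 hD' with h1 | h1
    · exact Finset.mem_union_left _ (h.down _ _ _ _ _ _ _ _ k1 h1 k2 hlt)
    · refine Finset.mem_union_left _ (hmin _ _ _ _ k1 (lt_of_lt_of_eq hlt ?_))
      rcases mem_rotF.1 h1 with h1 | h1 | h1 <;> simp only [Prod.mk.injEq] at h1 <;>
        obtain ⟨rfl, rfl, rfl⟩ := h1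
      · rw [ht.centre k2.pb k2.pc]
      · rw [ht.rot.centre k2.pb k2.pc, pw_base (by rw [← ht.rot.centre k2.pb k2.pc]; exact ht.pb)]
      · have e := ht.rot.rot.centre k2.pb k2.pc
        rw [← e, ← pw_base ht.pc]
  vert p q hpq := Finset.mem_union_left _ (h.vert _ _ hpq)
  inn := by
    obtain ⟨p, q, r, h1, h2⟩ := h.inn
    exact ⟨p, q, r, Finset.mem_union_left _ h1, h2⟩
  star := hst
  edge := hed

/-- sides of the new triangle -/
theorem mem_union_side {a b c u w : ℂ} :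
    (∃ c', (u, w, c') ∈ D ∪ rotF (a, b, c)) ↔ (∃ c', (u, w, c') ∈ D) ∨
      ((u = a ∧ w = b) ∨ (u = b ∧ w = c) ∨ (u = c ∧ w = a)) := by
  constructor
  · rintro ⟨c', h⟩
    rcases Finset.mem_union.1 h with h | h
    · exact Or.inl ⟨c', h⟩
    · right
      rcases mem_rotF.1 h with h | h | h <;> simp only [Prod.mk.injEq] at h <;>
        obtain ⟨rfl, rfl, rfl⟩ := h <;> simp
  · rintro (⟨c', h⟩ | h)
    · exact ⟨c', Finset.mem_union_left _ h⟩
    · rcases h with ⟨rfl, rfl⟩ | ⟨rfl, rfl⟩ | ⟨rfl, rfl⟩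
      · exact ⟨c, Finset.mem_union_right _ (mem_rotF.2 (Or.inl rfl))⟩
      · exact ⟨a, Finset.mem_union_right _ (mem_rotF.2 (Or.inr (Or.inl rfl)))⟩
      · exact ⟨b, Finset.mem_union_right _ (mem_rotF.2 (Or.inr (Or.inr rfl)))⟩

/-- the new directed sides are not sides of `D` -/
theorem Stage.new_side (hS : GP (S : Set ℂ)) (h : Stage S x D L) {a b c o : ℂ}
    (ht : Tri S a b c o) (hD : (a, b, c) ∉ D) : ¬ ∃ c', (a, b, c') ∈ D := by
  rintro ⟨c', hc'⟩
  obtain ⟨o', k⟩ := mem_delT_iff.1 (h.sub hc')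
  rw [← ht.uniq hS k] at hc'
  exact hD hc'

/-- **SPLIT** -/
theorem Stage.split (hS : GP (S : Set ℂ)) (h : Stage S x D L) {a b c o : ℂ} (ht : Tri S a b c o)
    (hD : (a, b, c) ∉ D) (hmin : ∀ a' b' c' o', Tri S a' b' c' o' → pw o' a' x < pw o a x →
      (a', b', c') ∈ D) (s1 : cr (b - a) (x - a) < 0) (s2 : 0 < cr (c - b) (x - b))
    (s3 : 0 < cr (a - c) (x - c)) :
    ∃ L', Relation.ReflTransGen (ShStep S x) (D, L) (D ∪ rotF (a, b, c), L') ∧
      Stage S x (D ∪ rotF (a, b, c)) L' := by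
  obtain ⟨hP, hE⟩ := h.vis hS ht hD hmin s1
  obtain ⟨θb, θa, B, h1, h2⟩ := h.edge_head hE
  have hdb : Dir x b θb := h1.star.dir (b, θb) List.mem_cons_self
  have hda : Dir x a θa := h1.star.dir (a, θa) (List.mem_cons_of_mem _ List.mem_cons_self)
  have hbc : 0 < cr (b - x) (c - x) := by rw [← cr_rot']; exact s2
  have hca : 0 < cr (c - x) (a - x) := by rw [← cr_rot']; exact s3
  obtain ⟨θc, k1, k2, k3⟩ := exists_dir hdb hbc
  have hch := h1.star.chain
  change List.IsChain Nx ((b, θb) :: (a, θa) :: (B ++ [shift (b, θb)])) at hch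
  rw [List.isChain_cons_cons] at hch
  have hba : θb < θa ∧ θa < θb + Real.pi := hch.1
  have k4 : θc < θa := by
    obtain ⟨k, hk, he⟩ := k3.cr hda
    rw [he] at hca
    have hs : 0 < Real.sin (θa - θc) := by
      by_contra hcon
      push Not at hcon
      have := mul_nonpos_of_nonneg_of_nonpos hk.le hcon
      linarith
    by_contra hcon
    push Not at hcon
    have := Real.sin_nonpos_of_nonpos_of_neg_pi_le (x := θa - θc) (by linarith) (by linarith)
    linarith
  have hstep : ShStep S x (D, (b, θb) :: (a, θa) :: B)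
      (D ∪ rotF (a, b, c), (b, θb) :: (c, θc) :: (a, θa) :: B) :=
    ShStep.split D B a b c θa θb θc (mem_delT_iff.2 ⟨o, ht⟩) hD
      ⟨by unfold Lft; rw [cr_swap]; linarith, s2, s3⟩ k1 k4 k3
  have hst : Star x ((b, θb) :: (c, θc) :: (a, θa) :: B) := by
    refine ⟨by simp, fun p hp => ?_, ?_⟩
    · rcases List.mem_cons.1 hp with rfl | hp
      · exact hdb
      rcases List.mem_cons.1 hp with rfl | hp
      · exact k3
      · exact h1.star.dir p (List.mem_cons_of_mem _ hp)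
    · change List.IsChain Nx ((b, θb) :: (c, θc) :: (a, θa) :: (B ++ [shift (b, θb)]))
      rw [List.isChain_cons_cons, List.isChain_cons_cons]
      exact ⟨⟨k1, k2⟩, ⟨k4, by change θa < θc + Real.pi; linarith [hba.2]⟩, hch.2⟩
  refine ⟨_, h2.tail hstep, h1.union_aux ht hmin hst fun u w => ?_⟩
  rw [show (∀ c', (w, u, c') ∉ D ∪ rotF (a, b, c)) ↔
      ¬ ∃ c', (w, u, c') ∈ D ∪ rotF (a, b, c) by push Not; rfl, mem_union_side, mem_union_side]
  -- the known sides
  have n1 := h1.new_side hS ht hD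
  have n2 := h1.new_side hS ht.rot (fun hh => hD (h1.rot _ _ _ (h1.rot _ _ _ hh)))
  have n3 := h1.new_side hS ht.rot.rot (fun hh => hD (h1.rot _ _ _ hh))
  have i2 : ¬ ∃ e, (c, b, e) ∈ D := fun ⟨e, he⟩ =>
    h1.invis hS ht.rot (fun hh => hD (h1.rot _ _ _ (h1.rot _ _ _ hh))) s2 e he
  have i3 : ¬ ∃ e, (a, c, e) ∈ D := fun ⟨e, he⟩ =>
    h1.invis hS ht.rot.rot (fun hh => hD (h1.rot _ _ _ hh)) s3 e he
  obtain ⟨d1, d2, d3⟩ := ht.ne
  -- the edges
  have hold : ∀ u w, ((∃ c', (u, w, c') ∈ D) ∧ ¬ ∃ c', (w, u, c') ∈ D) ↔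
      (u, w) = (b, a) ∨ (u, w) ∈ edg ((a, θa) :: (B ++ [shift (b, θb)])) := by
    intro u w
    have := h1.edge u w
    rw [show (∀ c', (w, u, c') ∉ D) ↔ ¬ ∃ c', (w, u, c') ∈ D by push Not; rfl] at this
    rw [this]
    change (u, w) ∈ edg ((b, θb) :: (a, θa) :: (B ++ [shift (b, θb)])) ↔ _
    rw [edg_cons_cons, List.mem_cons]
  have hnew : (u, w) ∈ edg (cyc ((b, θb) :: (c, θc) :: (a, θa) :: B)) ↔
      (u, w) = (b, c) ∨ (u, w) = (c, a) ∨ (u, w) ∈ edg ((a, θa) :: (B ++ [shift (b, θb)])) := by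
    change (u, w) ∈ edg ((b, θb) :: (c, θc) :: (a, θa) :: (B ++ [shift (b, θb)])) ↔ _
    rw [edg_cons_cons, edg_cons_cons, List.mem_cons, List.mem_cons]
  have hnba : (b, a) ∉ edg ((a, θa) :: (B ++ [shift (b, θb)])) := by
    intro hcon
    have hn := h1.star.nodup
    rw [List.map_cons, List.nodup_cons] at hn
    apply hn.1
    have := List.mem_map_of_mem (f := Prod.fst) hcon
    have e : (a, θa) :: (B ++ [shift (b, θb)]) = ((a, θa) :: B) ++ [shift (b, θb)] := by simp
    rw [e, edg_fst] at this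
    exact this
  rw [hnew]
  have hh := hold u w
  simp only [Prod.mk.injEq] at hh ⊢
  constructor
  · rintro ⟨hl, hr⟩
    push Not at hr
    obtain ⟨hr1, hr2, hr3, hr4⟩ := hr
    rcases hl with hl | ⟨rfl, rfl⟩ | ⟨rfl, rfl⟩ | ⟨rfl, rfl⟩
    · rcases hh.1 ⟨hl, fun ⟨c', hc'⟩ => hr1 c' hc'⟩ with ⟨rfl, rfl⟩ | h5
      · exact absurd rfl (hr2 rfl)
      · exact Or.inr (Or.inr h5)
    · obtain ⟨e, he⟩ := hP
      exact absurd he (hr1 e)
    · exact Or.inl ⟨rfl, rfl⟩
    · exact Or.inr (Or.inl ⟨rfl, rfl⟩)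
  · rintro (⟨rfl, rfl⟩ | ⟨rfl, rfl⟩ | h5)
    · refine ⟨Or.inr (Or.inr (Or.inl ⟨rfl, rfl⟩)), ?_⟩
      rintro (hx | ⟨h6, -⟩ | ⟨h6, -⟩ | ⟨-, h6⟩)
      · exact i2 hx
      · exact d3 h6.symm
      · exact d2 h6.symm
      · exact d1 h6.symm
    · refine ⟨Or.inr (Or.inr (Or.inr ⟨rfl, rfl⟩)), ?_⟩
      rintro (hx | ⟨-, h6⟩ | ⟨h6, -⟩ | ⟨h6, -⟩)
      · exact i3 hx
      · exact d2 h6.symm
      · exact d1 h6
      · exact d3 h6
    · obtain ⟨h6, h7⟩ := hh.2 (Or.inr h5)
      refine ⟨Or.inl h6, ?_⟩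
      rintro (hx | ⟨rfl, rfl⟩ | ⟨rfl, rfl⟩ | ⟨rfl, rfl⟩)
      · exact h7 hx
      · exact hnba h5
      · exact i2 h6
      · exact i3 h6

/-- **MERGE** -/
theorem Stage.merge (hS : GP (S : Set ℂ)) (h : Stage S x D L) {a b c o : ℂ} (ht : Tri S a b c o)
    (hD : (a, b, c) ∉ D) (hmin : ∀ a' b' c' o', Tri S a' b' c' o' → pw o' a' x < pw o a x →
      (a', b', c') ∈ D) (s1 : cr (b - a) (x - a) < 0) (s2 : cr (c - b) (x - b) < 0)
    (s3 : 0 < cr (a - c) (x - c)) :
    ∃ L', Relation.ReflTransGen (ShStep S x) (D, L) (D ∪ rotF (a, b, c), L') ∧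
      Stage S x (D ∪ rotF (a, b, c)) L' := by
  have hminr : ∀ a' b' c' o', Tri S a' b' c' o' → pw o' a' x < pw o b x → (a', b', c') ∈ D := by
    intro a' b' c' o' k hlt
    rw [pw_base ht.pb] at hlt
    exact hmin _ _ _ _ k hlt
  obtain ⟨hP, hE⟩ := h.vis hS ht hD hmin s1
  obtain ⟨hP', hE'⟩ := h.vis hS ht.rot (fun hh => hD (h.rot _ _ _ (h.rot _ _ _ hh))) hminr s2
  obtain ⟨θc, θb, B, h1, h2⟩ := h.edge_head hE'
  -- the next site is `a`
  have hE1 : (b, a) ∈ edg (cyc ((c, θc) :: (b, θb) :: B)) := by rw [← h1.edge, h.edge]; exact hE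
  rcases B with _ | ⟨⟨a', θa⟩, B⟩
  · exfalso
    have hch := h1.star.chain
    change List.IsChain Nx ((c, θc) :: (b, θb) :: [shift (c, θc)]) at hch
    rw [List.isChain_cons_cons, List.isChain_pair] at hch
    have k1 := hch.1.2
    have k2 := hch.2.2
    unfold shift at k2
    dsimp only at k1 k2
    linarith
  have hE2 : (b, a') ∈ edg (cyc ((c, θc) :: (b, θb) :: (a', θa) :: B)) := by
    change _ ∈ edg ((c, θc) :: (b, θb) :: (a', θa) :: (B ++ [shift (c, θc)]))
    rw [edg_cons_cons, edg_cons_cons]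
    exact List.mem_cons_of_mem _ List.mem_cons_self
  obtain rfl := h1.star.edge_unique hE1 hE2
  have hdc : Dir x c θc := h1.star.dir (c, θc) List.mem_cons_self
  have hda : Dir x a θa := h1.star.dir (a, θa)
    (List.mem_cons_of_mem _ (List.mem_cons_of_mem _ List.mem_cons_self))
  have hca : 0 < cr (c - x) (a - x) := by rw [← cr_rot']; exact s3
  have hch := h1.star.chain
  change List.IsChain Nx ((c, θc) :: (b, θb) :: (a, θa) :: (B ++ [shift (c, θc)])) at hch
  rw [List.isChain_cons_cons, List.isChain_cons_cons] at hch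
  obtain ⟨⟨c1, c2⟩, ⟨c3, c4⟩, c5⟩ := hch
  dsimp only at c1 c2 c3 c4
  have k4 : θa < θc + Real.pi := by
    obtain ⟨k, hk, he⟩ := hdc.cr hda
    rw [he] at hca
    have hs : 0 < Real.sin (θa - θc) := by
      by_contra hcon
      push Not at hcon
      have := mul_nonpos_of_nonneg_of_nonpos hk.le hcon
      linarith
    by_contra hcon
    push Not at hcon
    have e : Real.sin (θa - θc) = - Real.sin (θa - θc - Real.pi) := by
      rw [Real.sin_sub_pi]; ring
    have := Real.sin_nonneg_of_nonneg_of_le_pi (x := θa - θc - Real.pi) (by linarith)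
      (by linarith)
    linarith
  have hstep : ShStep S x (D, (c, θc) :: (b, θb) :: (a, θa) :: B)
      (D ∪ rotF (a, b, c), (c, θc) :: (a, θa) :: B) :=
    ShStep.merge D B a b c θa θb θc (mem_delT_iff.2 ⟨o, ht⟩) hD
      ⟨by unfold Lft; rw [cr_swap]; linarith, by unfold Lft; rw [cr_swap]; linarith, s3⟩
  have hst : Star x ((c, θc) :: (a, θa) :: B) := by
    refine ⟨by simp, fun p hp => ?_, ?_⟩
    · rcases List.mem_cons.1 hp with rfl | hp
      · exact hdc
      · exact h1.star.dir p (List.mem_cons_of_mem _ (List.mem_cons_of_mem _ hp))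
    · change List.IsChain Nx ((c, θc) :: (a, θa) :: (B ++ [shift (c, θc)]))
      rw [List.isChain_cons_cons]
      exact ⟨⟨by change θc < θa; linarith, k4⟩, c5⟩
  refine ⟨_, h2.tail hstep, h1.union_aux ht hmin hst fun u w => ?_⟩
  rw [show (∀ c', (w, u, c') ∉ D ∪ rotF (a, b, c)) ↔
      ¬ ∃ c', (w, u, c') ∈ D ∪ rotF (a, b, c) by push Not; rfl, mem_union_side, mem_union_side]
  have i3 : ¬ ∃ e, (a, c, e) ∈ D := fun ⟨e, he⟩ =>
    h1.invis hS ht.rot.rot (fun hh => hD (h1.rot _ _ _ hh)) s3 e he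
  obtain ⟨d1, d2, d3⟩ := ht.ne
  have hold : ∀ u w, ((∃ c', (u, w, c') ∈ D) ∧ ¬ ∃ c', (w, u, c') ∈ D) ↔
      (u, w) = (c, b) ∨ (u, w) = (b, a) ∨
        (u, w) ∈ edg ((a, θa) :: (B ++ [shift (c, θc)])) := by
    intro u w
    have := h1.edge u w
    rw [show (∀ c', (w, u, c') ∉ D) ↔ ¬ ∃ c', (w, u, c') ∈ D by push Not; rfl] at this
    rw [this]
    change (u, w) ∈ edg ((c, θc) :: (b, θb) :: (a, θa) :: (B ++ [shift (c, θc)])) ↔ _
    rw [edg_cons_cons, edg_cons_cons, List.mem_cons, List.mem_cons]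
  have hnew : (u, w) ∈ edg (cyc ((c, θc) :: (a, θa) :: B)) ↔
      (u, w) = (c, a) ∨ (u, w) ∈ edg ((a, θa) :: (B ++ [shift (c, θc)])) := by
    change (u, w) ∈ edg ((c, θc) :: (a, θa) :: (B ++ [shift (c, θc)])) ↔ _
    rw [edg_cons_cons, List.mem_cons]
  have hnd := h1.star.nodup
  rw [List.map_cons, List.nodup_cons, List.map_cons, List.nodup_cons] at hnd
  have hfst : ∀ p q : ℂ, (p, q) ∈ edg ((a, θa) :: (B ++ [shift (c, θc)])) →
      p ∈ List.map Prod.fst ((a, θa) :: B) := by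
    intro p q hpq
    have := List.mem_map_of_mem (f := Prod.fst) hpq
    have e : (a, θa) :: (B ++ [shift (c, θc)]) = ((a, θa) :: B) ++ [shift (c, θc)] := by simp
    rw [e, edg_fst] at this
    exact this
  have hnba : (b, a) ∉ edg ((a, θa) :: (B ++ [shift (c, θc)])) := fun hcon =>
    hnd.2.1 (hfst _ _ hcon)
  have hncb : (c, b) ∉ edg ((a, θa) :: (B ++ [shift (c, θc)])) := fun hcon =>
    hnd.1 (List.mem_cons_of_mem _ (hfst _ _ hcon))
  rw [hnew]
  have hh := hold u w
  simp only [Prod.mk.injEq] at hh ⊢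
  constructor
  · rintro ⟨hl, hr⟩
    push Not at hr
    obtain ⟨hr1, hr2, hr3, hr4⟩ := hr
    rcases hl with hl | ⟨rfl, rfl⟩ | ⟨rfl, rfl⟩ | ⟨rfl, rfl⟩
    · rcases hh.1 ⟨hl, fun ⟨c', hc'⟩ => hr1 c' hc'⟩ with ⟨rfl, rfl⟩ | ⟨rfl, rfl⟩ | h5
      · exact absurd rfl (hr3 rfl)
      · exact absurd rfl (hr2 rfl)
      · exact Or.inr h5
    · obtain ⟨e, he⟩ := hP
      exact absurd he (hr1 e)
    · obtain ⟨e, he⟩ := hP'
      exact absurd he (hr1 e)
    · exact Or.inl ⟨rfl, rfl⟩
  · rintro (⟨rfl, rfl⟩ | h5)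
    · refine ⟨Or.inr (Or.inr (Or.inr ⟨rfl, rfl⟩)), ?_⟩
      rintro (hx | ⟨-, h6⟩ | ⟨h6, -⟩ | ⟨h6, -⟩)
      · exact i3 hx
      · exact d2 h6.symm
      · exact d1 h6
      · exact d3 h6
    · obtain ⟨h6, h7⟩ := hh.2 (Or.inr (Or.inr h5))
      refine ⟨Or.inl h6, ?_⟩
      rintro (hx | ⟨rfl, rfl⟩ | ⟨rfl, rfl⟩ | ⟨rfl, rfl⟩)
      · exact h7 hx
      · exact hnba h5
      · exact hncb h5
      · exact i3 h6

/-- **one more triangle** -/
theorem stage_step (hS : GP (S : Set ℂ)) (hx : Gen S x) (h : Stage S x D L) (hne : D ≠ delT S) :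
    ∃ D' L', Relation.ReflTransGen (ShStep S x) (D, L) (D', L') ∧ Stage S x D' L' ∧
      D.card < D'.card := by
  have hch : ∀ t ∈ delT S, ∃ o, Tri S t.1 t.2.1 t.2.2 o := fun t ht => mem_delT_iff.1 ht
  choose! ctr hctr using hch
  have hne' : (delT S \ D).Nonempty := by
    rw [Finset.nonempty_iff_ne_empty]
    intro h0
    exact hne (Finset.Subset.antisymm h.sub (Finset.sdiff_eq_empty_iff_subset.1 h0))
  obtain ⟨⟨a, b, c⟩, ht, hm⟩ := Finset.exists_min_image _ (fun t => pw (ctr t) t.1 x) hne'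
  rw [Finset.mem_sdiff] at ht
  obtain ⟨htS, hD⟩ := ht
  have hT := hctr _ htS
  dsimp only at hT
  have hmin : ∀ a' b' c' o', Tri S a' b' c' o' → pw o' a' x < pw (ctr (a, b, c)) a x →
      (a', b', c') ∈ D := by
    intro a' b' c' o' k hlt
    by_contra hcon
    have h1 := mem_delT_iff.2 ⟨o', k⟩
    have h2 := hm _ (Finset.mem_sdiff.2 ⟨h1, hcon⟩)
    have h3 := hctr _ h1
    dsimp only at h2 h3
    rw [← k.centre h3.pb h3.pc] at h2
    linarith
  -- `x` is not a vertex
  have hrot : ∀ p q r, (p, q, r) ∉ D → (q, r, p) ∉ D := fun p q r hh hh' =>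
    hh (h.rot _ _ _ (h.rot _ _ _ hh'))
  have hD1 := hrot _ _ _ hD
  have hD2 := hrot _ _ _ hD1
  have xa : a ≠ x := by
    rintro rfl
    exact hD (h.vert _ _ htS)
  have xb : b ≠ x := by
    rintro rfl
    exact hD1 (h.vert _ _ (mem_delT_iff.2 ⟨_, hT.rot⟩))
  have xc : c ≠ x := by
    rintro rfl
    exact hD2 (h.vert _ _ (mem_delT_iff.2 ⟨_, hT.rot.rot⟩))
  obtain ⟨d1, d2, d3⟩ := hT.ne
  have g1 := hx a hT.ma b hT.mb d1 xa xb
  have g2 := hx b hT.mb c hT.mc d2 xb xc
  have g3 := hx c hT.mc a hT.ma d3.symm xc xa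
  -- the sum of the three areas
  have hsum : cr (b - a) (x - a) + cr (c - b) (x - b) + cr (a - c) (x - c) =
      cr (b - a) (c - a) := by
    rw [cr_sub, cr_sub, cr_sub, cr_sub]; ring
  have hp := hT.pos
  -- not all three sides invisible
  have hvis : ¬ (0 < cr (b - a) (x - a) ∧ 0 < cr (c - b) (x - b) ∧ 0 < cr (a - c) (x - c)) := by
    intro hin
    obtain ⟨a', b', c', hin1, hin2⟩ := h.inn
    obtain ⟨o', k⟩ := mem_delT_iff.1 (h.sub hin1)
    have := disj hS hT k hin hin2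
    unfold rots at this
    simp only [Set.mem_insert_iff, Set.mem_singleton_iff] at this
    rcases this with e | e | e
    · rw [e] at hin1; exact hD hin1
    · rw [e] at hin1; exact hD1 hin1
    · rw [e] at hin1; exact hD2 hin1
  have hmin1 : ∀ a' b' c' o', Tri S a' b' c' o' → pw o' a' x < pw (ctr (a, b, c)) b x →
      (a', b', c') ∈ D := by
    intro a' b' c' o' k hlt
    rw [pw_base hT.pb] at hlt
    exact hmin _ _ _ _ k hlt
  have hmin2 : ∀ a' b' c' o', Tri S a' b' c' o' → pw o' a' x < pw (ctr (a, b, c)) c x →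
      (a', b', c') ∈ D := by
    intro a' b' c' o' k hlt
    rw [pw_base hT.pc] at hlt
    exact hmin _ _ _ _ k hlt
  have fin : ∀ p q r : ℂ, (p, q, r) ∉ D → (∃ L', Relation.ReflTransGen (ShStep S x) (D, L)
      (D ∪ rotF (p, q, r), L') ∧ Stage S x (D ∪ rotF (p, q, r)) L') →
      ∃ D' L', Relation.ReflTransGen (ShStep S x) (D, L) (D', L') ∧ Stage S x D' L' ∧
        D.card < D'.card := by
    rintro p q r hpq ⟨L', k1, k2⟩
    refine ⟨_, L', k1, k2, Finset.card_lt_card ⟨Finset.subset_union_left, fun hsub => hpq ?_⟩⟩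
    exact hsub (Finset.mem_union_right _ (mem_rotF.2 (Or.inl rfl)))
  rcases lt_or_gt_of_ne g1 with s1 | s1 <;> rcases lt_or_gt_of_ne g2 with s2 | s2 <;>
    rcases lt_or_gt_of_ne g3 with s3 | s3
  · linarith
  · exact fin _ _ _ hD (h.merge hS hT hD hmin s1 s2 s3)
  · exact fin _ _ _ hD2 (h.merge hS hT.rot.rot hD2 hmin2 s3 s1 s2)
  · exact fin _ _ _ hD (h.split hS hT hD hmin s1 s2 s3)
  · exact fin _ _ _ hD1 (h.merge hS hT.rot hD1 hmin1 s2 s3 s1)
  · exact fin _ _ _ hD1 (h.split hS hT.rot hD1 hmin1 s2 s3 s1)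
  · exact fin _ _ _ hD2 (h.split hS hT.rot.rot hD2 hmin2 s3 s1 s2)
  · exact absurd ⟨s1, s2, s3⟩ hvis

/-- **SHELLING** -/
theorem shelling (hS : GP (S : Set ℂ)) (hx : Gen S x) (h : Stage S x D L) :
    ∃ L', Relation.ReflTransGen (ShStep S x) (D, L) (delT S, L') ∧ Stage S x (delT S) L' := by
  obtain ⟨n, hn⟩ : ∃ n, (delT S).card - D.card ≤ n := ⟨_, le_rfl⟩
  induction n generalizing D L with
  | zero =>
    have : D = delT S := Finset.eq_of_subset_of_card_le h.sub (by omega)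
    subst this
    exact ⟨L, Relation.ReflTransGen.refl, h⟩
  | succ n ih =>
    by_cases hD : D = delT S
    · subst hD
      exact ⟨L, Relation.ReflTransGen.refl, h⟩
    · obtain ⟨D', L', h1, h2, h3⟩ := stage_step hS hx h hD
      have h4 := Finset.card_le_card h2.sub
      obtain ⟨L'', h5, h6⟩ := ih h2 (by omega)
      exact ⟨L'', h1.trans h5, h6⟩

/-- the boundary of the last stage is the hull -/
theorem Stage.hull (h : Stage S x (delT S) L) (a b : ℂ) : hullE S a b ↔ (a, b) ∈ edg (cyc L) :=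
  h.edge a b

end steps

end Crest.Agent.R143.DelSx806
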