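import Crest.Agent.R143.Part_778

/-!
# Row 143 (S0194), RIG: density of the resampled configuration, first entrance form (helper311)

(notes 3646, 3970 (R-f)).  `O` = stopping set (strand + revealed white side), `K` = stopping rule
(the two ends of the strand up to the first entrance into the window, + revealed white side).
On the event `G`: `K ⊆ O` and all the other revealed cells `O \ K` are in the fixed set `T` (the
tiles around the window); the weight `g` does not depend on the colours in `T`.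

* `dens2` : `∑ σ τ, 1_G(σ) g(σ) F(σ, mix O σ τ) ≤ ∑ σ τ, g(σ) F(σ, glue (K σ) σ τ)`, `F` depends on
  `σ` only through `K σ`, `σ` on `K σ`
* `part2` : conditional frame relative to the weight of the other gates and tiles (replaces
  `Partx778.part`, whose hypothesis `O σ \ T = K (r σ)` does not hold in the model)
-/

set_option autoImplicit false
set_option linter.unusedSectionVars false

open scoped Classical

noncomputable section

namespace Crest.Agent.R143.Dens2x311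

open Crest.Agent.R143.Resax778

section dens2

variable {S B : Type*} [Fintype S] [Fintype B]

/-- **density, first entrance form** -/
theorem dens2 {O K : (S → B) → Finset S} (hO : StopSet O) (hK : StopSet K) {T : Finset S}
    {G : (S → B) → Prop} (hKO : ∀ σ, G σ → K σ ⊆ O σ) (hT : ∀ σ, G σ → O σ \ K σ ⊆ T)
    {g : (S → B) → ℝ} (hg0 : ∀ σ, 0 ≤ g σ)
    (hg : ∀ σ τ, (∀ s, s ∉ T → τ s = σ s) → g τ = g σ)
    {F : (S → B) → (S → B) → ℝ} (hF0 : ∀ σ μ, 0 ≤ F σ μ)
    (hF : ∀ σ τ μ, (∀ s ∈ K σ, τ s = σ s) → F τ μ = F σ μ) :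
    ∑ σ, ∑ τ, (if G σ then g σ * F σ (mix O σ τ) else 0) ≤
      ∑ σ, ∑ τ, g σ * F σ (glue (K σ) σ τ) := by
  -- exchange off `O`
  have h1 : ∑ σ, ∑ τ, (if G σ then g σ * F σ (mix O σ τ) else 0) =
      ∑ μ, ∑ ρ, (if G (mix O μ ρ) then g (mix O μ ρ) * F (mix O μ ρ) μ else 0) := by
    rw [← sum_sw hO fun μ ρ =>
      (if G (mix O μ ρ) then g (mix O μ ρ) * F (mix O μ ρ) μ else 0)]
    refine Finset.sum_congr rfl fun σ _ => Finset.sum_congr rfl fun τ _ => ?_
    have e : mix O (mix O σ τ) (glue (O σ) τ σ) = σ := congrArg Prod.fst (sw_sw hO (σ, τ))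
    rw [e]
  -- exchange off `K`
  have h2 : ∑ σ, ∑ τ, g σ * F σ (glue (K σ) σ τ) = ∑ μ, ∑ ρ, g (mix K μ ρ) * F μ μ := by
    rw [← sum_sw hK fun μ ρ => g (mix K μ ρ) * F μ μ]
    refine Finset.sum_congr rfl fun σ _ => Finset.sum_congr rfl fun τ _ => ?_
    have e : mix K (mix K σ τ) (glue (K σ) τ σ) = σ := congrArg Prod.fst (sw_sw hK (σ, τ))
    rw [e, hF σ (mix K σ τ) _ fun s hs => mix_on hs]
    rfl
  rw [h1, h2]
  refine Finset.sum_le_sum fun μ _ => Finset.sum_le_sum fun ρ _ => ?_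
  by_cases hGr : G (mix O μ ρ)
  · rw [if_pos hGr]
    set σ := mix O μ ρ with hσ
    have eO : O σ = O μ := stop_mix hO μ ρ
    have hKσ : ∀ s ∈ K σ, μ s = σ s := fun s hs => by
      have : s ∈ O μ := by
        rw [← eO]
        exact hKO σ hGr hs
      rw [hσ, mix_on this]
    have eK : K μ = K σ := hK σ μ hKσ
    have eF : F σ μ = F μ μ := (hF σ μ μ hKσ).symm
    have eg : g σ = g (mix K μ ρ) := by
      refine hg _ _ fun s hs => ?_
      by_cases h : s ∈ O μ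
      · have h3 : s ∈ K μ := by
          by_contra h4
          refine hs (hT σ hGr (Finset.mem_sdiff.2 ⟨?_, ?_⟩))
          · rw [eO]; exact h
          · rw [← eK]; exact h4
        rw [hσ, mix_on h, mix_on h3]
      · have h3 : s ∉ K μ := fun h4 => h (by
          rw [← eO]
          exact hKO σ hGr (by rw [← eK]; exact h4))
        rw [hσ, mix_off h, mix_off h3]
    rw [eF, eg]
  · rw [if_neg hGr]
    exact mul_nonneg (hg0 _) (hF0 _ _)

end dens2

section part2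

open Crest.Agent.R143.Frame1x395 Crest.Agent.R143.Frame2x395 Crest.Agent.R143.Frame3x395
  Crest.Agent.R143.Frame4x395 Crest.Agent.R143.Frame8x395 Crest.Agent.R143.NonXx592
  Crest.Agent.R143.Coarsex166 Crest.Agent.R143.Giantx46 Crest.Agent.R143.Partx778

variable {D C : Type} [Fintype D] [Fintype C] {M : CMap D C}

theorem gts_congr {C' : Type} {π : C → C'} {E : Finset C} {χ χ' : C → ZMod 2} {A : Finset C'}
    {v : C' → ZMod 2} (H : Gts π E χ A v) (h : ∀ c ∈ E, χ' c = χ c) : Gts π E χ' A v :=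
  ⟨H.surj, H.inj, H.mem, H.ex, fun c hc => by rw [h c hc]; exact H.col c hc⟩

/-- **PARTIAL TILES, first entrance form**: bound relative to the weight `g` of the other tiles and
gates. `r σ` = the explored data (function of `K σ` and of the colours on `K σ`) -/
theorem part2 {w : ℂ} (w3 : w ^ 3 = 1) (w1 : w ≠ 1) (wc : (starRingEnd ℂ) w = w ^ 2)
    {O K : (C → ZMod 2) → Finset C} (hO : StopSet O) (hK : StopSet K) {T : Finset C} {R : Type}
    {r : (C → ZMod 2) → R} (hr : ∀ σ τ, (∀ s ∈ K σ, τ s = σ s) → r τ = r σ)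
    {G : (C → ZMod 2) → Prop} (hKO : ∀ σ, G σ → K σ ⊆ O σ) (hT : ∀ σ, G σ → O σ \ K σ ⊆ T)
    {g : (C → ZMod 2) → ℝ} (hg0 : ∀ σ, 0 ≤ g σ)
    (hg : ∀ σ τ, (∀ s, s ∉ T → τ s = σ s) → g τ = g σ)
    {C' : R → Type} [∀ q, Fintype (C' q)] {π : ∀ q, C → C' q} {hπ : ∀ q, ClsCon M (π q)}
    {A : ∀ q, Finset (C' q)} {v : ∀ q, C' q → ZMod 2} {m : ℕ} (hA : ∀ q, (A q).card ≤ m)
    (HG : ∀ σ, G σ → Gts (π (r σ)) (K σ) σ (A (r σ)) (v (r σ)))
    {a : R → D → ℂ} (ha : ∀ q, Spin M w (a q))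
    {X : (C → ZMod 2) → (C → ZMod 2) → ℝ}
    (hX : ∀ σ τ, G σ → X σ τ ≤
      ∑ β ∈ blks (coarse M (π (r σ)) (hπ (r σ))) (cfg M (mix O σ τ)), ‖∑ k ∈ β, a (r σ) k‖ ^ 2) :
    ∑ σ, ∑ τ, (if G σ then g σ * X σ τ else 0) ≤
      (2 : ℝ) ^ m / 4 * Fintype.card (C → ZMod 2) * ∑ σ, g σ * ∑ k, ‖a (r σ) k‖ ^ 2 := by
  -- cylinders which meet `G`
  set G' : (C → ZMod 2) → Prop := fun σ => ∃ ρ, G ρ ∧ ∀ s ∈ K ρ, σ s = ρ s with hG'
  have hG'c : ∀ σ τ, (∀ s ∈ K σ, τ s = σ s) → (G' τ ↔ G' σ) := by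
    intro σ τ h
    have e : K τ = K σ := hK σ τ h
    constructor
    · rintro ⟨ρ, h1, h2⟩
      have e2 : K τ = K ρ := hK ρ τ h2
      refine ⟨ρ, h1, fun s hs => ?_⟩
      rw [← h2 s hs]
      exact (h s (by rw [← e, e2]; exact hs)).symm
    · rintro ⟨ρ, h1, h2⟩
      have e2 : K σ = K ρ := hK ρ σ h2
      refine ⟨ρ, h1, fun s hs => ?_⟩
      rw [← h2 s hs]
      exact h s (by rw [e2]; exact hs)
  set F : (C → ZMod 2) → (C → ZMod 2) → ℝ := fun σ μ => if G' σ then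
    ∑ β ∈ blks (coarse M (π (r σ)) (hπ (r σ))) (cfg M μ), ‖∑ k ∈ β, a (r σ) k‖ ^ 2 else 0 with hF
  have h1 : ∑ σ, ∑ τ, (if G σ then g σ * X σ τ else 0) ≤
      ∑ σ, ∑ τ, (if G σ then g σ * F σ (mix O σ τ) else 0) := by
    refine Finset.sum_le_sum fun σ _ => Finset.sum_le_sum fun τ _ => ?_
    by_cases h : G σ
    · rw [if_pos h, if_pos h]
      refine mul_le_mul_of_nonneg_left ?_ (hg0 σ)
      show X σ τ ≤ if G' σ then _ else _
      rw [if_pos ⟨σ, h, fun _ _ => rfl⟩]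
      exact hX σ τ h
    · rw [if_neg h, if_neg h]
  have h2 := dens2 (S := C) (B := ZMod 2) hO hK hKO hT hg0 hg (F := F)
    (fun σ μ => by
      show 0 ≤ if G' σ then _ else _
      split_ifs
      · exact Finset.sum_nonneg fun β _ => by positivity
      · exact le_rfl)
    (fun σ τ μ h => by
      have e := hr σ τ h
      have e' := hG'c σ τ h
      show (if G' τ then ∑ β ∈ blks (coarse M (π (r τ)) (hπ (r τ))) (cfg M μ),
        ‖∑ k ∈ β, a (r τ) k‖ ^ 2 else 0) =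
        if G' σ then ∑ β ∈ blks (coarse M (π (r σ)) (hπ (r σ))) (cfg M μ),
          ‖∑ k ∈ β, a (r σ) k‖ ^ 2 else 0
      rw [e]
      by_cases h' : G' σ
      · rw [if_pos h', if_pos (e'.2 h')]
      · rw [if_neg h', if_neg fun h'' => h' (e'.1 h'')])
  refine (h1.trans h2).trans ?_
  rw [Finset.mul_sum]
  refine Finset.sum_le_sum fun σ _ => ?_
  rw [← Finset.mul_sum]
  have hE : 0 ≤ ∑ k, ‖a (r σ) k‖ ^ 2 := Finset.sum_nonneg fun k _ => by positivity
  by_cases h' : G' σ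
  · obtain ⟨ρ, hρ, hs⟩ := h'
    have eK : K σ = K ρ := hK ρ σ hs
    have er : r σ = r ρ := hr ρ σ hs
    have hGt : Gts (π (r σ)) (K σ) σ (A (r σ)) (v (r σ)) := by
      have := gts_congr (HG ρ hρ) hs
      rw [eK, er]
      exact this
    have h3 := hGt.frame (M := M) (hπ := hπ (r σ)) w3 w1 wc (ha (r σ))
    have e4 : ∀ τ, F σ (glue (K σ) σ τ) =
        ∑ β ∈ blks (coarse M (π (r σ)) (hπ (r σ))) (cfg M (glue (K σ) σ τ)),
          ‖∑ k ∈ β, a (r σ) k‖ ^ 2 := fun τ => if_pos ⟨ρ, hρ, hs⟩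
    calc g σ * ∑ τ, F σ (glue (K σ) σ τ)
        ≤ g σ * ((2 : ℝ) ^ (A (r σ)).card / 4 * Fintype.card (C → ZMod 2) *
          ∑ k, ‖a (r σ) k‖ ^ 2) := by
          refine mul_le_mul_of_nonneg_left ?_ (hg0 σ)
          rw [Finset.sum_congr rfl fun τ _ => e4 τ]
          exact h3
      _ ≤ g σ * ((2 : ℝ) ^ m / 4 * Fintype.card (C → ZMod 2) *
          ∑ k, ‖a (r σ) k‖ ^ 2) := by
          refine mul_le_mul_of_nonneg_left ?_ (hg0 σ)
          have h5 : (2 : ℝ) ^ (A (r σ)).card ≤ 2 ^ m := pow_le_pow_right₀ (by norm_num) (hA _)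
          gcongr
      _ = _ := by ring
  · have e4 : ∀ τ, F σ (glue (K σ) σ τ) = 0 := fun τ => if_neg h'
    rw [Finset.sum_congr rfl fun τ _ => e4 τ, Finset.sum_const_zero, mul_zero]
    have := hg0 σ
    positivity

end part2

end Crest.Agent.R143.Dens2x311
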