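import Crest.Agent.R143.ArmsE_377
import Crest.Agent.R143.PolyU_346
import Crest.Agent.R143.Hex_877

/-!
# Row 143 (S0194), VIS: the deterministic statement at one `S` (helper877)

`DETV z` : environment facts at one finite `S` (722's `Dns`, 377's `HM`, `Arms`), a proper
counterclockwise triple without small centre ⇒ the static total is close to the total of a labelled
brick polygon of unit `2⁻ⁿ` in the disc.
-/

set_option autoImplicit false

noncomputable section

open scoped Classical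

namespace Crest.Agent.R143.VisDx877

open Crest.Agent.R143.K33x877 (Tr)
open Crest.Agent.R143.Hexx877 (Ccw)
open Crest.Agent.R143.NetUx346 (TS)
open Crest.Agent.R143.NetVx346 (TU)
open Crest.Agent.R143.PolyUx346 (Poly)
open Crest.Agent.R143.DomAx722 (Dns)
open Crest.Agent.R143.Mabx377 (HM Arms Sm1)

/-- **deterministic VIS** -/
def DETV (z : ℂ → ℂ) : Prop :=
  ∀ (x0 : ℂ) (L C4 C c : ℝ), 0 < L → 0 ≤ C4 → 1 ≤ C → 0 < c → ∀ ρ > 0, ∀ η > 0,
    ∃ (n : ℕ) (b0 : ℝ), 0 < b0 ∧ ∀ (S : Finset ℂ) (e e' : ℝ), Dns S x0 L e → e ≤ e' → e' ≤ b0 →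
      HM S x0 L C4 b0 → Arms S x0 L C c b0 → ∀ A : ZMod 3 → Set ℂ, Tr S A → Ccw S A →
        ¬ Sm1 S A ρ → ∃ u : Poly, u.n = n ∧ u.P ⊆ Metric.closedBall x0 L ∧
          ‖TS S A z - TU S u.P e' u.Lab z‖ ≤ η

end Crest.Agent.R143.VisDx877
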