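import Crest.Agent.R143.Frame8_395

/-!
# Row 143 (S0194), dichotomy without part A, 1 (helper831): root blocks in a closed map

* `root_sum` : block sums against a function supported on the root face
* `root_bil` : the product with a spin function of the same spin = amplitudes of thetas
* `root_off` : the product with a spin function of the other spin vanishes
* `Rr`, `Br` : first moment and tail probability of a sum over the root block
-/

set_option autoImplicit false

noncomputable section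

open scoped Classical

namespace Crest.Agent.R143.DicAx831

open Crest.Agent.R143.Frame1x395 Crest.Agent.R143.Frame2x395 Crest.Agent.R143.Frame3x395
  Crest.Agent.R143.Frame4x395 Crest.Agent.R143.Frame8x395

variable {D C : Type} [Fintype D] {M : CMap D C} {x : D → ZMod 2}

/-- the sum of `f` over the block of the gap `g` -/
def bs (M : CMap D C) (x : D → ZMod 2) (f : D → ℂ) (g : D) : ℂ := ∑ k ∈ blk M x g, f k

/-- the gaps of the root face -/
def rg (M : CMap D C) (x : D → ZMod 2) (o : D) : Finset D := (gaps M x).filter (· ∈ Fa M o)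

theorem mem_rg {o g : D} : g ∈ rg M x o ↔ Gp M x g ∧ g ∈ Fa M o := by
  unfold rg
  rw [Finset.mem_filter, mem_gaps]

/-- block sums against a function which is supported on the root face -/
theorem root_sum (hx : IsC M ∅ x) {o : D} {A f : D → ℂ} (hA : ∀ g, g ∉ Fa M o → A g = 0) :
    ∑ β ∈ blks M x, (∑ g ∈ β, A g) * (∑ h ∈ β, f h) = ∑ g ∈ rg M x o, A g * bs M x f g := by
  calc ∑ β ∈ blks M x, (∑ g ∈ β, A g) * (∑ h ∈ β, f h)
      = ∑ β ∈ blks M x, ∑ g ∈ β, A g * ∑ h ∈ β, f h := by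
        refine Finset.sum_congr rfl fun β _ => ?_
        rw [Finset.sum_mul]
    _ = ∑ g ∈ gaps M x, A g * ∑ h ∈ blk M x g, f h :=
        sum_blks hx (F := fun g β => A g * ∑ h ∈ β, f h)
    _ = ∑ g ∈ rg M x o, A g * bs M x f g := by
        unfold rg bs
        rw [Finset.sum_filter]
        refine Finset.sum_congr rfl fun g _ => ?_
        by_cases hg : g ∈ Fa M o
        · rw [if_pos hg]
        · rw [if_neg hg, hA g hg, zero_mul]

/-- at most one gap at the root face -/
theorem rg_card (hx : IsC M ∅ x) (o : D) : (rg M x o).card ≤ 1 := by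
  rw [Finset.card_le_one]
  intro a ha b hb
  rw [mem_rg] at ha hb
  by_contra hne
  have h1 := gp_fa hx ha.1 hb.1 hne
  apply h1
  have e : Fa M a = Fa M o := by
    rcases ha.2 with h | h | h
    · rw [h]
    · rw [h, fa_rot]
    · rw [h, fa_rot, fa_rot]
  rw [e]
  exact hb.2

/-- first moment of the sum over the root block (not normalised) -/
def Rr (M : CMap D C) (o : D) (f : D → ℂ) : ℝ := ∑ x ∈ ev M, ∑ g ∈ rg M x o, ‖bs M x f g‖

/-- number of configurations where the sum over the root block is large -/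
def Br (M : CMap D C) (o : D) (f : D → ℂ) (η : ℝ) : ℕ :=
  ((ev M).filter fun x => ∃ g ∈ rg M x o, η < ‖bs M x f g‖).card

theorem root_norm {o : D} {A f : D → ℂ} (hA : ∀ g, g ∉ Fa M o → A g = 0) (hA1 : ∀ g, ‖A g‖ ≤ 1) :
    ‖∑ x ∈ ev M, ∑ β ∈ blks M x, (∑ g ∈ β, A g) * (∑ h ∈ β, f h)‖ ≤ Rr M o f := by
  unfold Rr
  refine (norm_sum_le _ _).trans (Finset.sum_le_sum fun x hx => ?_)
  rw [mem_ev] at hx
  rw [root_sum hx hA]
  refine (norm_sum_le _ _).trans (Finset.sum_le_sum fun g _ => ?_)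
  rw [norm_mul]
  exact mul_le_of_le_one_left (norm_nonneg _) (hA1 g)

/-- **other spin**: the product vanishes -/
theorem root_off {w : ℂ} (w3 : w ^ 3 = 1) (w1 : w ≠ 1) {o : D} {A f : D → ℂ}
    (hA : ∀ g, g ∉ Fa M o → A g = 0) (sA : Spin M w A) (sf : Spin M (w ^ 2) f)
    (hf : ∀ g ∈ Fa M o, f g = 0) :
    ∑ x ∈ ev M, ∑ β ∈ blks M x, (∑ g ∈ β, A g) * (∑ h ∈ β, f h) = 0 := by
  rw [i1 w3 w1 sA sf]
  refine Finset.sum_eq_zero fun g _ => ?_
  by_cases hg : g ∈ Fa M o
  · rw [hf g hg]; ring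
  · rw [hA g hg]; ring

/-- the amplitude of a dart seen from the root -/
def amp (M : CMap D C) (w : ℂ) (o h : D) : ℂ :=
  (nT M o h : ℂ) + w * nT M o (M.rho h) + w ^ 2 * nT M o (M.rho (M.rho h))

/-- sums of functions which are supported on one face -/
theorem sum_face {o : D} {F : D → ℂ} (hF : ∀ g, g ∉ Fa M o → F g = 0) :
    ∑ g, F g = F o + F (M.rho o) + F (M.rho (M.rho o)) := by
  have n1 := M.rho_ne o
  have n2 := rho2_ne M o
  have n3 : M.rho (M.rho o) ≠ M.rho o := M.rho_ne (M.rho o)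
  have e : ∑ g, F g = ∑ g ∈ ({o, M.rho o, M.rho (M.rho o)} : Finset D), F g := by
    symm
    refine Finset.sum_subset (Finset.subset_univ _) fun g _ hg => hF g fun h => hg ?_
    simp only [Finset.mem_insert, Finset.mem_singleton]
    exact h
  rw [e, Finset.sum_insert, Finset.sum_insert, Finset.sum_singleton, add_assoc]
  · rw [Finset.mem_singleton]; exact n3.symm
  · simp only [Finset.mem_insert, Finset.mem_singleton, not_or]
    exact ⟨n1.symm, n2.symm⟩

/-- **same spin**: the product is the sum of the amplitudes -/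
theorem root_bil {w : ℂ} (w3 : w ^ 3 = 1) {o : D} {A f : D → ℂ}
    (hA : ∀ g, g ∉ Fa M o → A g = 0) (sA : Spin M w A) (hf : ∀ g ∈ Fa M o, f g = 0) :
    ∑ x ∈ ev M, ∑ β ∈ blks M x, (∑ g ∈ β, A g) * (∑ h ∈ β, f h) =
      A o * ∑ h, f h * amp M w o h := by
  rw [pairs, sum_face (M := M) (o := o)
    (F := fun g => ∑ h, A g * f h * (nP M g h : ℂ)) (fun g hg => by
      refine Finset.sum_eq_zero fun h _ => ?_
      rw [hA g hg]; ring)]
  rw [← Finset.sum_add_distrib, ← Finset.sum_add_distrib, Finset.mul_sum]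
  refine Finset.sum_congr rfl fun h _ => ?_
  by_cases hh : h ∈ Fa M o
  · rw [hf h hh]; ring
  · have hA1 : A (M.rho o) = w * A o := sA o
    have hA2 : A (M.rho (M.rho o)) = w ^ 2 * A o := by
      rw [sA, sA]; ring
    have h1 : h ∉ Fa M (M.rho o) := by rwa [fa_rot]
    have h2 : h ∉ Fa M (M.rho (M.rho o)) := by rwa [fa_rot, fa_rot]
    obtain ⟨e1, e2, -⟩ := nT_three (M := M) (g := o) (h := h)
    rw [nP_eq hh, nP_eq h1, nP_eq h2, e1, e2, hA1, hA2]
    unfold amp
    ring

/-- spin of the amplitude -/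
theorem amp_rho {w : ℂ} (w3 : w ^ 3 = 1) (o h : D) :
    amp M w o (M.rho h) = w ^ 2 * amp M w o h := by
  unfold amp
  rw [M.rho3]
  linear_combination (-(nT M o (M.rho h) : ℂ) - w * nT M o (M.rho (M.rho h))) * w3

/-! ### second moment -/

/-- second moment of the sum over the root block -/
theorem root_sq {w : ℂ} (w3 : w ^ 3 = 1) (w1 : w ≠ 1) (wc : (starRingEnd ℂ) w = w ^ 2) {o : D}
    {f : D → ℂ} (sf : Spin M w f) :
    ∑ x ∈ ev M, ∑ g ∈ rg M x o, ‖bs M x f g‖ ^ 2 ≤ ∑ g, ‖f g‖ ^ 2 * (nG M g : ℝ) := by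
  rw [← i1_norm w3 w1 wc sf]
  refine Finset.sum_le_sum fun x hx => ?_
  rw [mem_ev] at hx
  have h1 : rg M x o = ∅ ∨ ∃ a, rg M x o = {a} := by
    rcases Nat.le_one_iff_eq_zero_or_eq_one.1 (rg_card hx o) with h | h
    · exact Or.inl (Finset.card_eq_zero.1 h)
    · exact Or.inr (Finset.card_eq_one.1 h)
  have h0 : ∀ β ∈ blks M x, (0 : ℝ) ≤ ‖∑ g ∈ β, f g‖ ^ 2 := fun _ _ => sq_nonneg _
  rcases h1 with h | ⟨a, h⟩
  · rw [h, Finset.sum_empty]
    exact Finset.sum_nonneg h0
  · rw [h, Finset.sum_singleton]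
    have ha : a ∈ rg M x o := by rw [h]; exact Finset.mem_singleton_self a
    have h2 : blk M x a ∈ blks M x := by
      unfold blks
      exact Finset.mem_image_of_mem _ (mem_gaps.2 (mem_rg.1 ha).1)
    exact Finset.single_le_sum (f := fun β => ‖∑ g ∈ β, f g‖ ^ 2) h0 h2

theorem nG_le_nE (g : D) : nG M g ≤ nE M := by
  unfold nG nE
  refine Finset.card_le_card fun x hx => ?_
  rw [Finset.mem_filter] at hx ⊢
  exact ⟨hx.1, hx.2.1⟩

theorem ev_card : (ev M).card = nE M := rfl

/-- truncation: `Rr ≤ η * nE + (second moment) * K⁻¹ + K * Br`, all `K > 0` -/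
theorem Rr_le {o : D} {f : D → ℂ} {η K V : ℝ} (hη : 0 ≤ η) (hK : 0 < K)
    (hV : ∑ x ∈ ev M, ∑ g ∈ rg M x o, ‖bs M x f g‖ ^ 2 ≤ V) :
    Rr M o f ≤ η * nE M + K * Br M o f η + V / K := by
  have one : ∀ x ∈ ev M, ∑ g ∈ rg M x o, ‖bs M x f g‖ ≤
      η + K * (if ∃ g ∈ rg M x o, η < ‖bs M x f g‖ then 1 else 0) +
        (∑ g ∈ rg M x o, ‖bs M x f g‖ ^ 2) / K := by
    intro x hx
    rw [mem_ev] at hx
    rcases Nat.le_one_iff_eq_zero_or_eq_one.1 (rg_card hx o) with h | h
    · rw [Finset.card_eq_zero.1 h]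
      simp [hη]
    · obtain ⟨a, h⟩ := Finset.card_eq_one.1 h
      rw [h, Finset.sum_singleton, Finset.sum_singleton]
      set y := ‖bs M x f a‖ with hy
      have hy0 : 0 ≤ y := norm_nonneg _
      have hyK : 0 ≤ y ^ 2 / K := by positivity
      by_cases hc : η < y
      · rw [if_pos ⟨a, Finset.mem_singleton_self a, hc⟩, mul_one]
        rcases le_total y K with h2 | h2
        · linarith
        · have : y ≤ y ^ 2 / K := by
            rw [le_div_iff₀ hK]
            nlinarith
          linarith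
      · push Not at hc
        have h3 : 0 ≤ K * (if ∃ g ∈ ({a} : Finset D), η < ‖bs M x f g‖ then (1 : ℝ) else 0) := by
          split_ifs <;> simp [hK.le]
        linarith
  calc Rr M o f ≤ ∑ x ∈ ev M, (η + K * (if ∃ g ∈ rg M x o, η < ‖bs M x f g‖ then 1 else 0) +
        (∑ g ∈ rg M x o, ‖bs M x f g‖ ^ 2) / K) := Finset.sum_le_sum one
    _ = η * nE M + K * Br M o f η + (∑ x ∈ ev M, ∑ g ∈ rg M x o, ‖bs M x f g‖ ^ 2) / K := by
        rw [Finset.sum_add_distrib, Finset.sum_add_distrib, Finset.sum_const, ev_card,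
          nsmul_eq_mul, ← Finset.mul_sum, Finset.sum_boole, ← Finset.sum_div]
        unfold Br
        ring
    _ ≤ _ := by gcongr

end Crest.Agent.R143.DicAx831
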