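import Crest.Agent.R143.DicD_831
import Crest.Agent.R143.M5_304

/-!
# Row 143 (S0194), dichotomy without part A, 5 (helper831): annealed end leaf

* `y_aesm` : for every measurable weight `w`, `ω ↦ ∑ t, Q t * w t` is measurable on good samples
* `Gc` : canonical good environments, `goodfam_gc`
* `yb_bdd` : `‖Yb‖, ‖Yd‖ ≤ B` on good environments
* `YG` : **annealed leaf** (means over a good set of environments chosen by the prover)
* `lmin_of_yg` : `YG → LMinW`, `yg_of_yw` : `YW → YG`, `yg_of_ye` : `YE → YG`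
-/

set_option autoImplicit false
set_option linter.all false

noncomputable section

open scoped Classical

namespace Crest.Agent.R143.DicEx831

open Complex Set Filter Topology MeasureTheory
open scoped ENNReal
open Crest.ProbabilityR.Voronoi
open Crest.Agent.R143.B0x346 Crest.Agent.R143.B0Dx346 Crest.Agent.R143.PP1x831
open Crest.Agent.R143.Mollx887 Crest.Agent.R143.EndBx336
open Crest.Agent.R143.Asmx336
open Crest.Agent.R143.Y0x831 (Good)
open Crest.Agent.R143.Spinex422 (Room Linked GoodFam HG norm_h_le)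
open Crest.Agent.R143.B6Ix903 (net)
open Crest.Agent.R143.DicBx831 Crest.Agent.R143.DicCx831 Crest.Agent.R143.DicDx831
open Crest.Agent.R143.Measx304
open Crest.Agent.R143.M5Ax606 (NMap TMap pe je pe_mem_map)

/-! ### transport of `Q` -/

section transport

variable {V W : Type} {f : V ↪ W} {N : Net V} {N' : Net W}

theorem rots_map (f : V ↪ W) (x y z a b c : V) :
    (f a, f b, f c) ∈ rots (f x, f y, f z) ↔ (a, b, c) ∈ rots (x, y, z) := by
  simp only [rots, Set.mem_insert_iff, Set.mem_singleton_iff, Prod.mk.injEq, f.injective.eq_iff]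

theorem nmap_tj (h : NMap f N N') (x y z : V) :
    N'.tj (f x, f y, f z) = (N.tj (x, y, z)).map (je f) :=
  h.toTMap.joins_eq h.kl (rots_map f x y z) h.exS h.exS_range

theorem nmap_ends (h : NMap f N N') (x y z : V) (J : Finset (V × V)) (p : V × V) (k : ZMod 3) :
    Ends N'.toTrg (rots (f x, f y, f z)) N'.exS (J.map (pe f)) (f p.1, f p.2) (N'.ex k) ↔
      Ends N.toTrg (rots (x, y, z)) N.exS J p (N.ex k) := by
  have := h.toTMap.leads (O := rots (x, y, z)) (O' := rots (f x, f y, f z)) (rots_map f x y z)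
    h.exS J p ((N.ex k).2, (N.ex k).1)
  unfold Ends
  rw [h.ex k]
  exact this

theorem nmap_tri3 (h : NMap f N N') (x y z : V) (k : ZMod 3) (J : Finset (V × V)) :
    N'.Tri3 (f x, f y, f z) k (J.map (pe f)) ↔ N.Tri3 (x, y, z) k J := by
  unfold Net.Tri3
  simp only [pe_mem_map]
  rw [← nmap_ends h x y z J (y, x), ← nmap_ends h x y z J (z, y), ← nmap_ends h x y z J (x, z)]

theorem nmap_triA (h : NMap f N N') (x y z : V) (k : ZMod 3) :
    N'.triA (f x, f y, f z) k = N.triA (x, y, z) k := by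
  unfold Net.triA
  rw [nmap_tj h, Finset.filter_map, Finset.card_map, Finset.card_map]
  congr 3
  apply Finset.filter_congr
  intro J _
  exact nmap_tri3 h x y z k J

theorem nmap_Q (h : NMap f N N') (x y z : V) : N'.Q (f x, f y, f z) = N.Q (x, y, z) := by
  unfold Net.Q
  simp only [nmap_triA h]

theorem nmap_sum (h : NMap f N N') {w : W × W × W → ℂ} :
    ∑ t ∈ N'.T, N'.Q t * w t = ∑ t ∈ N.T, N.Q t * w (f t.1, f t.2.1, f t.2.2) := by
  symm
  refine Finset.sum_nbij (fun t => (f t.1, f t.2.1, f t.2.2)) ?_ ?_ ?_ ?_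
  · rintro ⟨a, b, c⟩ ht
    exact (h.iff a b c).2 ht
  · rintro ⟨a, b, c⟩ - ⟨a', b', c'⟩ - e
    simp only [Prod.mk.injEq, f.injective.eq_iff] at e
    obtain ⟨rfl, rfl, rfl⟩ := e
    rfl
  · intro t ht
    obtain ⟨a, b, c, rfl⟩ := h.surj t ht
    exact ⟨(a, b, c), (h.iff a b c).1 ht, rfl⟩
  · rintro ⟨a, b, c⟩ -
    rw [nmap_Q h a b c]

end transport

/-! ### the sum on a piece -/

section fib

variable {V : Type} [Fintype V]

/-- the network of a configuration is a copy of the network of its piece -/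
theorem nmap_fib (D : Dom) {x : V → ℂ} (hx : Function.Injective x) (hS : GP (range x))
    (hu : ∀ k p p', crossRay (Finset.univ.image x) D.c (D.q k) p →
      crossRay (Finset.univ.image x) D.c (D.q k) p' → p = p') {N : Net V} (hN : FibX D N x) :
    NMap ⟨x, hx⟩ N (D.netS (Finset.univ.image x)) := by
  have hS' : GP ((Finset.univ.image x : Finset ℂ) : Set ℂ) := by rw [coe_img]; exact hS
  have hT0 := Crest.Agent.R143.DomAx722.netS_T (D := D) hS'
  have hex : ∀ k, rayMark (Finset.univ.image x) D.c (D.q k) = (x (N.ex k).1, x (N.ex k).2) := by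
    intro k
    have h1 : crossRay (Finset.univ.image x) D.c (D.q k) (x (N.ex k).1, x (N.ex k).2) :=
      (crossRay_img x _ _ _ _).2 (hN.ex k)
    exact hu k _ _ (Crest.Agent.R143.DomAx722.rayMark_spec ⟨_, h1⟩) h1
  refine ⟨⟨?_, ?_⟩, ?_, ?_⟩
  · intro a b c
    rw [hT0, hN.T]
    exact delT_img x a b c
  · rintro ⟨a, b, c⟩ ht
    rw [hT0, DelGx806.mem_delT, coe_img] at ht
    obtain ⟨⟨i, rfl⟩, ⟨j, rfl⟩, ⟨k, rfl⟩, -⟩ := ht
    exact ⟨i, j, k, rfl⟩
  · intro a b hab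
    rw [hN.kl, Crest.Agent.R143.DomAx722.netS_kl (D := D) hS']
    have e1 : ((⟨x, hx⟩ : V ↪ ℂ) a, (⟨x, hx⟩ : V ↪ ℂ) b) ∈ D.kl (Finset.univ.image x) ↔
        VedX D.out x a b := by
      unfold Dom.kl VedX
      rw [coe_img]
      rfl
    rw [e1]
    simp only [hex]
    refine and_congr_right fun _ => and_congr (forall_congr' fun k => ?_)
      (forall_congr' fun k => ?_)
    · refine not_congr ?_
      constructor
      · intro h
        have h' := Prod.ext_iff.1 h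
        exact Prod.ext (hx h'.1) (hx h'.2)
      · intro h
        rw [h]
        rfl
    · refine not_congr ?_
      constructor
      · intro h
        have h' := Prod.ext_iff.1 h
        exact Prod.ext (hx h'.1) (hx h'.2)
      · intro h
        rw [h]
        rfl
  · intro k
    rw [Crest.Agent.R143.DomAx722.netS_ex (D := D) hS', hex]
    rfl

/-- the sum of the configuration `x` with the combinatorics `N` -/
def yN (N : Net V) (w : ℂ × ℂ × ℂ → ℂ) (x : V → ℂ) : ℂ :=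
  ∑ t ∈ N.T, N.Q t * w (x t.1, x t.2.1, x t.2.2)

theorem yN_meas (N : Net V) {w : ℂ × ℂ × ℂ → ℂ} (hw : Measurable w) : Measurable (yN N w) := by
  unfold yN
  refine Finset.measurable_fun_sum _ fun t _ => ?_
  refine measurable_const.mul (hw.comp ?_)
  exact (measurable_pi_apply _).prodMk ((measurable_pi_apply _).prodMk (measurable_pi_apply _))

end fib

/-- the sum over the triangles with the weight `w` -/
def Yw (D : Dom) (ε : ℝ) (ω : Sample) (w : ℂ × ℂ × ℂ → ℂ) : ℂ :=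
  ∑ t ∈ delT (D.sites ε ω), (net D ε ω).Q t * w t

theorem yw_fib {D : Dom} {ε : ℝ} {ω : Sample} (h : GM D ε ω) {I : Finset Ix} (hI : ω ∈ AI D ε I)
    {N : Net I} (hN : FibX D N (xI ε I ω)) (w : ℂ × ℂ × ℂ → ℂ) :
    Yw D ε ω w = yN N w (xI ε I ω) := by
  have e := sites_img h hI
  have hu := h.uniq
  have hgp := h.gp
  rw [e] at hu hgp
  rw [coe_img] at hgp
  have h1 := nmap_sum (nmap_fib D (xI_inj h hI) hgp hu hN) (w := w)
  have hS' : GP ((Finset.univ.image (xI ε I ω) : Finset ℂ) : Set ℂ) := by rw [coe_img]; exact hgp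
  rw [Crest.Agent.R143.DomAx722.netS_T (D := D) hS'] at h1
  unfold Yw net
  rw [e]
  exact h1

/-- **measurability** -/
theorem y_aesm {D : Dom} {ε : ℝ} (hD : IsOpen D.out) {μ : Measure Sample} (h : ∀ᵐ ω ∂μ, GM D ε ω)
    {w : ℂ × ℂ × ℂ → ℂ} (hw : Measurable w) :
    AEStronglyMeasurable (fun ω => Yw D ε ω w) μ := by
  have hcov : ∀ᵐ ω ∂μ, ω ∈ ⋃ i : Pc, CP D ε i := by
    filter_upwards [h] with p hp
    obtain ⟨i, hi⟩ := exists_CP hp
    exact mem_iUnion.2 ⟨i, hi⟩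
  rw [← Measure.restrict_eq_self_of_ae_mem hcov]
  refine aestronglyMeasurable_iUnion_iff.2 fun i => ?_
  have hm : MeasurableSet (CP D ε i) := CP_meas hD ε i
  have hae : (fun ω => Yw D ε ω w) =ᵐ[μ.restrict (CP D ε i)]
      fun ω => yN i.2 w (xI ε i.1 ω) := by
    rw [Filter.EventuallyEq, ae_restrict_iff' hm]
    filter_upwards [h] with p hp hpC
    exact yw_fib hp hpC.1 hpC.2 w
  exact ((yN_meas i.2 hw).comp (xI_meas ε i.1)).aestronglyMeasurable.congr hae.symm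

theorem cc_meas : Measurable cc := by
  unfold cc
  exact ((measurable_fst.add (measurable_fst.comp measurable_snd)).add
    (measurable_snd.comp measurable_snd)).div_const 3

theorem tst_meas (r : ℝ) (z : ℂ) : Measurable (tst r z) := by
  obtain h := ker_continuous r
  unfold tst
  exact h.measurable.comp (measurable_id.sub_const z)

theorem yb_eq (D : Dom) (ε : ℝ) (ω : Sample) (φ : ℂ → ℝ) :
    Yb D ε ω φ = Yw D ε ω fun t => (t.2.1 - t.1) * (φ (cc t) : ℂ) := rfl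

theorem yd_eq (D : Dom) (ε : ℝ) (ω : Sample) (φ : ℂ → ℝ) :
    Yd D ε ω φ = Yw D ε ω fun t => (starRingEnd ℂ) (t.2.1 - t.1) * (φ (cc t) : ℂ) := rfl

theorem yb_aesm {D : Dom} {ε : ℝ} (hD : IsOpen D.out) {μ : Measure Sample}
    (h : ∀ᵐ ω ∂μ, GM D ε ω) {φ : ℂ → ℝ} (hφ : Measurable φ) :
    AEStronglyMeasurable (fun ω => Yb D ε ω φ) μ := by
  refine y_aesm hD h (w := fun t => (t.2.1 - t.1) * (φ (cc t) : ℂ)) ?_
  exact ((measurable_fst.comp measurable_snd).sub measurable_fst).mul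
    (Complex.measurable_ofReal.comp (hφ.comp cc_meas))

theorem yd_aesm {D : Dom} {ε : ℝ} (hD : IsOpen D.out) {μ : Measure Sample}
    (h : ∀ᵐ ω ∂μ, GM D ε ω) {φ : ℂ → ℝ} (hφ : Measurable φ) :
    AEStronglyMeasurable (fun ω => Yd D ε ω φ) μ := by
  refine y_aesm hD h (w := fun t => (starRingEnd ℂ) (t.2.1 - t.1) * (φ (cc t) : ℂ)) ?_
  exact (Complex.continuous_conj.measurable.comp
    ((measurable_fst.comp measurable_snd).sub measurable_fst)).mul
    (Complex.measurable_ofReal.comp (hφ.comp cc_meas))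


/-! ### canonical good environments -/

instance : IsProbabilityMeasure sampleLaw := by unfold sampleLaw; infer_instance

/-- good environments for the measurability and for the estimates -/
def Gok (D : Dom) (ε C K a C4 : ℝ) (ω : Sample) : Prop := GM D ε ω ∧ Good D ε C K a C4 ω

/-- the canonical measurable set of good environments -/
def Gc (D : Dom) (C K a C4 ε : ℝ) : Set Sample :=
  (toMeasurable sampleLaw {ω | ¬ Gok D ε C K a C4 ω})ᶜ

theorem gc_meas (D : Dom) (C K a C4 ε : ℝ) : MeasurableSet (Gc D C K a C4 ε) :=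
  (measurableSet_toMeasurable _ _).compl

theorem gc_sub {D : Dom} {C K a C4 ε : ℝ} {ω : Sample} (h : ω ∈ Gc D C K a C4 ε) :
    Gok D ε C K a C4 ω := by
  by_contra hcon
  exact h (subset_toMeasurable _ _ hcon)

/-- environments of a fixed domain, with the probability `ε ^ 30` -/
theorem good_ev30 (D : Dom) (hL : 0 < D.L) : ∃ C K a C4 : ℝ, 0 < C ∧ 0 < K ∧ 0 < a ∧ 0 < C4 ∧
    ∀ᶠ ε : ℝ in 𝓝[>] 0,
      sampleLaw {ω | ¬ Good D ε C K a C4 ω} ≤ ENNReal.ofReal (ε ^ (30 : ℝ)) := by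
  obtain ⟨C, K, a, C4, hC, hK, ha, hC4, hMP⟩ := MGx501.mg (‖D.c‖ + D.L) 30
    (by positivity) (by norm_num)
  refine ⟨C, K, a, C4, hC, hK, ha, hC4, ?_⟩
  unfold B6Ix903.MP at hMP
  filter_upwards [hMP] with ε h1
  have hsub : {ω | ¬ Good D ε C K a C4 ω} ⊆
      {ω | ¬ B6Ix903.GoodB (‖D.c‖ + D.L) ε C K a C4 ω} := by
    intro ω hω h
    refine hω ?_
    have h3 : ∀ s : ℝ, Metric.closedBall D.c (D.L - s) ⊆
        Metric.closedBall (0 : ℂ) (‖D.c‖ + D.L - s) := by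
      intro s
      refine Metric.closedBall_subset_closedBall' ?_
      rw [dist_zero_right]
      linarith
    have h0 : Metric.closedBall D.c D.L ⊆ Metric.closedBall (0 : ℂ) (‖D.c‖ + D.L) := by
      refine Metric.closedBall_subset_closedBall' ?_
      rw [dist_zero_right]
      linarith
    exact ⟨⟨h.env.fin.subset (inter_subset_inter_right _ h0), h.env.gp,
      fun z hz => h.env.hole z (h3 _ hz), fun z hz => h.env.cnt z (h0 hz)⟩,
      fun z hz => h.diam z (h0 hz)⟩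
  exact (measure_mono hsub).trans h1

/-- **good environments are likely** -/
theorem gok_ev {D : Dom} {δ : ℝ} (hD : D.W δ) : ∃ C K a C4 : ℝ, 0 < C ∧ 0 < K ∧ 0 < a ∧ 0 < C4 ∧
    ∀ᶠ ε : ℝ in 𝓝[>] 0, sampleLaw (Gc D C K a C4 ε)ᶜ ≤ ENNReal.ofReal (ε ^ (30 : ℝ)) := by
  obtain ⟨C, K, a, C4, hC, hK, ha, hC4, hgood⟩ := good_ev30 D hD.Lpos
  refine ⟨C, K, a, C4, hC, hK, ha, hC4, ?_⟩
  have hL := hD.Lpos
  have h8 : ∀ᶠ ε : ℝ in 𝓝[>] 0, rad C ε < D.L / 8 :=
    (rad_small C).eventually_lt_const (by positivity)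
  filter_upwards [hgood, h8, self_mem_nhdsWithin] with ε h1 h8 hpos
  have hpos' : (0 : ℝ) < ε := hpos
  unfold Gc
  rw [compl_compl, measure_toMeasurable]
  have hray : ∀ k : ZMod 3, ∀ᵐ ω ∂sampleLaw, ∀ v ∈ points ε ω, ∀ t : ℝ, v ≠ D.c + t * D.q k :=
    fun k => M5x304.ray_null hpos' D.c
      (fun h => by have := hD.qn k; rw [h, norm_zero] at this; norm_num at this)
  have hae : ∀ᵐ ω ∂sampleLaw, ¬ Gok D ε C K a C4 ω → ω ∈ {ω | ¬ Good D ε C K a C4 ω} := by
    filter_upwards [Crest.Agent.R143.PoisM3x930.m3a ε hpos', ae_all_iff.2 hray] with ω hω hr hn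
    by_contra hcon
    have hg : Good D ε C K a C4 ω := hcon
    refine hn ⟨?_, hg⟩
    have hfin := hg.env.fin
    exact M5x304.gm_of (d := rad C ε) hD hfin hω.2.1
      (DomAx722.dns_of_env hL (by linarith) hg.env) (fun k v hv t _ => hr k v hv t)
  exact (measure_mono_ae hae).trans h1

/-- the canonical family is a `GoodFam` -/
theorem goodfam_gc {D : Dom} {δ : ℝ} (hD : D.W δ) {C K a C4 : ℝ}
    (h : ∀ᶠ ε : ℝ in 𝓝[>] 0, sampleLaw (Gc D C K a C4 ε)ᶜ ≤ ENNReal.ofReal (ε ^ (30 : ℝ))) :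
    GoodFam D (Gc D C K a C4) := by
  have hae : ∀ ε, ∀ᵐ ω ∂(sampleLaw.restrict (Gc D C K a C4 ε)), GM D ε ω := by
    intro ε
    rw [ae_restrict_iff' (gc_meas D C K a C4 ε)]
    exact Eventually.of_forall fun ω hω => (gc_sub hω).1
  refine ⟨fun ε => gc_meas D C K a C4 ε, ?_, ?_, ?_⟩
  · filter_upwards [h, ev_unit] with ε h1 h2
    refine h1.trans (ENNReal.ofReal_le_ofReal ?_)
    exact Real.rpow_le_rpow_of_exponent_ge h2.1 h2.2.le (by norm_num)
  · exact Eventually.of_forall fun ε z => hm1 (M5x304.out_open hD) (hae ε) z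
  · exact Eventually.of_forall fun ε => hm2 (M5x304.out_open hD) (hae ε)

/-! ### boundedness -/

/-- a common bound of the mollified observables -/
theorem sb_bdd {r r' : ℝ} (hr : 0 < r) (hr' : 0 < r') : ∃ B : ℝ, 0 ≤ B ∧
    (∀ (D : Dom) (ε : ℝ) (ω : Sample) (z : ℂ), ‖Sb r (D.h ε ω) z‖ ≤ B) ∧
    ∀ (D : Dom) (ε : ℝ) (ω : Sample) (z : ℂ), ‖Db r' (D.h ε ω) z‖ ≤ B := by
  have h1 : ∀ (D : Dom) (ε : ℝ) (ω : Sample) (z : ℂ), ‖Sb r (D.h ε ω) z‖ ≤ CS / r * 3 :=
    fun D ε ω z => B6x654.Sb_le (B6bx903.hval_BM _) hr z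
  have h2 : ∀ (D : Dom) (ε : ℝ) (ω : Sample) (z : ℂ), ‖Db r' (D.h ε ω) z‖ ≤ CS / r' * 3 :=
    fun D ε ω z => B6x654.Db_le (B6bx903.hval_BM _) hr' z
  refine ⟨max (|CS / r * 3|) (|CS / r' * 3|), le_max_of_le_left (abs_nonneg _),
    fun D ε ω z => ?_, fun D ε ω z => ?_⟩
  · exact (h1 D ε ω z).trans ((le_abs_self _).trans (le_max_left _ _))
  · exact (h2 D ε ω z).trans ((le_abs_self _).trans (le_max_right _ _))

/-- **the two sums are bounded on good environments** -/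
theorem yb_bdd {D : Dom} {δ C K a C4 : ℝ} (hD : D.W δ) (hC : 0 < C) (hC4 : 0 ≤ C4) {r : ℝ}
    (hr : 0 < r) {z : ℂ} (hz : Room D (4 * r) z) : ∃ B : ℝ, 0 ≤ B ∧ ∀ᶠ ε : ℝ in 𝓝[>] 0,
      ∀ ω : Sample, Good D ε C K a C4 ω →
        ‖Yb D ε ω (tst r z)‖ ≤ B ∧ ‖Yd D ε ω (tst r z)‖ ≤ B := by
  obtain ⟨X, hX, hX1⟩ := ynear (K := K) (a := a) hD hC hC4 hr hz
  obtain ⟨B, hB0, hB1, hB2⟩ := sb_bdd hr hr
  refine ⟨2 * (B + 1), by positivity, ?_⟩
  filter_upwards [hX1, hX.eventually (ge_mem_nhds one_pos)] with ε h1 h2 ω hω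
  obtain ⟨h3, h4⟩ := h1 ω hω
  constructor
  · have e : (I / 2) * Yb D ε ω (tst r z) =
        (Sb r (D.h ε ω) z + (I / 2) * Yb D ε ω (tst r z)) - Sb r (D.h ε ω) z := by ring
    have h5 := half_I (Yb D ε ω (tst r z))
    rw [e] at h5
    have h6 := norm_sub_le (Sb r (D.h ε ω) z + (I / 2) * Yb D ε ω (tst r z)) (Sb r (D.h ε ω) z)
    have h7 := hB1 D ε ω z
    linarith
  · have e : (I / 2) * Yd D ε ω (tst r z) =
        Db r (D.h ε ω) z - (Db r (D.h ε ω) z - (I / 2) * Yd D ε ω (tst r z)) := by ring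
    have h5 := half_I (Yd D ε ω (tst r z))
    rw [e] at h5
    have h6 := norm_sub_le (Db r (D.h ε ω) z) (Db r (D.h ε ω) z - (I / 2) * Yd D ε ω (tst r z))
    have h7 := hB2 D ε ω z
    linarith

/-! ### annealed leaves -/

/-- admissible sets of environments -/
structure GS (D : Dom) (ε C K a C4 η : ℝ) (G : Set Sample) : Prop where
  meas : MeasurableSet G
  prob : sampleLaw Gᶜ ≤ ENNReal.ofReal η
  ok : ∀ ω ∈ G, Gok D ε C K a C4 ω

/-- **leaf YG**: for every `ε`, the mean over a large set of good environments of one of the two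
sums is small. The set `G` is chosen by the prover of the leaf. -/
def YG (Adm : Dom → ℝ → Prop) : Prop := ∀ (D : Dom) (δ : ℝ), Adm D δ → ∀ m > 0,
  ∀ r > 0, ∀ z : ℂ, Room D (4 * r) z → Linked D m z →
  ∀ r' > 0, ∀ z' : ℂ, Room D (4 * r') z' → Linked D m z' →
  ∃ C K a C4 : ℝ, 0 < C ∧ 0 < K ∧ 0 < a ∧ 0 < C4 ∧ ∀ η > 0, ∀ᶠ ε : ℝ in 𝓝[>] 0,
    ∃ G : Set Sample, GS D ε C K a C4 η G ∧
      (‖∫ ω in G, Yb D ε ω (tst r z) ∂sampleLaw‖ ≤ η ∨
        ‖∫ ω in G, Yd D ε ω (tst r' z') ∂sampleLaw‖ ≤ η)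

/-- integrals over two large sets -/
theorem int_two {Ω : Type*} [MeasurableSpace Ω] (μ : Measure Ω) [IsProbabilityMeasure μ]
    {A B : Set Ω} (hA : MeasurableSet A) (hB : MeasurableSet B) {f : Ω → ℂ} {M : ℝ} (hM : 0 ≤ M)
    (hf : ∀ ω, ‖f ω‖ ≤ M) (h1 : AEStronglyMeasurable f (μ.restrict A))
    (h2 : AEStronglyMeasurable f (μ.restrict B)) {α β : ℝ} (hα : 0 ≤ α) (hβ : 0 ≤ β)
    (h3 : μ Aᶜ ≤ ENNReal.ofReal α) (h4 : μ Bᶜ ≤ ENNReal.ofReal β) :
    ‖∫ ω in A, f ω ∂μ - ∫ ω in B, f ω ∂μ‖ ≤ M * (α + β) := by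
  have i1 : IntegrableOn f A μ := Integrable.of_bound h1 M (Eventually.of_forall hf)
  have i2 : IntegrableOn f B μ := Integrable.of_bound h2 M (Eventually.of_forall hf)
  have e1 := integral_inter_add_diff (μ := μ) (f := f) hB i1
  have e2 := integral_inter_add_diff (μ := μ) (f := f) hA i2
  rw [inter_comm] at e2
  have b1 : ‖∫ ω in A \ B, f ω ∂μ‖ ≤ M * β := by
    refine (norm_setIntegral_le_of_norm_le_const (measure_lt_top _ _)
      (fun ω _ => hf ω)).trans ?_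
    refine mul_le_mul_of_nonneg_left ?_ hM
    exact ENNReal.toReal_le_of_le_ofReal hβ ((measure_mono fun ω hω => hω.2).trans h4)
  have b2 : ‖∫ ω in B \ A, f ω ∂μ‖ ≤ M * α := by
    refine (norm_setIntegral_le_of_norm_le_const (measure_lt_top _ _)
      (fun ω _ => hf ω)).trans ?_
    refine mul_le_mul_of_nonneg_left ?_ hM
    exact ENNReal.toReal_le_of_le_ofReal hα ((measure_mono fun ω hω => hω.2).trans h3)
  have e3 : ∫ ω in A, f ω ∂μ - ∫ ω in B, f ω ∂μ =
      ∫ ω in A \ B, f ω ∂μ - ∫ ω in B \ A, f ω ∂μ := by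
    rw [← e1, ← e2]; ring
  rw [e3]
  refine (norm_sub_le _ _).trans ?_
  linarith

/-- the mean of the error -/
theorem int_err {Ω : Type*} [MeasurableSpace Ω] (μ : Measure Ω) [IsProbabilityMeasure μ]
    {G : Set Ω} (hG : MeasurableSet G) {f g : Ω → ℂ} {M x : ℝ} {c : ℂ} (hx : 0 ≤ x)
    (hf : ∀ ω, ‖f ω‖ ≤ M) (h1 : AEStronglyMeasurable f (μ.restrict G))
    (h2 : AEStronglyMeasurable g (μ.restrict G)) (hc : ‖c‖ = 1 / 2)
    (h3 : ∀ ω ∈ G, ‖f ω - c * g ω‖ ≤ x) :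
    ‖∫ ω in G, f ω ∂μ‖ ≤ ‖∫ ω in G, g ω ∂μ‖ / 2 + x := by
  have i1 : IntegrableOn f G μ := Integrable.of_bound h1 M (Eventually.of_forall hf)
  have hae : ∀ᵐ ω ∂(μ.restrict G), ‖f ω - c * g ω‖ ≤ x := by
    rw [ae_restrict_iff' hG]
    exact Eventually.of_forall h3
  have i2 : IntegrableOn (fun ω => f ω - c * g ω) G μ :=
    Integrable.of_bound (h1.sub (h2.const_mul c)) x hae
  have i3 : IntegrableOn (fun ω => c * g ω) G μ := by
    have := i1.sub i2
    refine this.congr (Eventually.of_forall fun ω => ?_)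
    simp only [Pi.sub_apply]
    ring
  have e1 : ∫ ω in G, f ω ∂μ = ∫ ω in G, (f ω - c * g ω) ∂μ + c * ∫ ω in G, g ω ∂μ := by
    rw [← integral_const_mul, ← integral_add i2 i3]
    refine integral_congr_ae (Eventually.of_forall fun ω => ?_)
    simp only
    ring
  rw [e1]
  refine (norm_add_le _ _).trans ?_
  rw [norm_mul, hc]
  have b1 : ‖∫ ω in G, (f ω - c * g ω) ∂μ‖ ≤ x := by
    refine (norm_integral_le_of_norm_le_const hae).trans ?_
    rw [measureReal_restrict_apply_univ]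
    have : μ.real G ≤ 1 := measureReal_le_one
    nlinarith
  linarith

/-- **the core leaf from `YG`** -/
theorem lmin_of_yg {Adm : Dom → ℝ → Prop} (hAdm : ∀ D δ, Adm D δ → D.W δ) (h : YG Adm) :
    LMinW Adm := by
  intro D δ hD G hG m hm r hr z hz hl r' hr' z' hz' hl'
  have hW := hAdm D δ hD
  obtain ⟨C, K, a, C4, hC, hK, ha, hC4, hY⟩ := h D δ hD m hm r hr z hz hl r' hr' z' hz' hl'
  obtain ⟨X, hX, hX1⟩ := ynear (K := K) (a := a) hW hC hC4.le hr hz
  obtain ⟨X', hX', hX1'⟩ := ynear (K := K) (a := a) hW hC hC4.le hr' hz'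
  rw [Metric.tendsto_nhds]
  intro e he
  obtain ⟨B, hB0, hB1, hB2⟩ := sb_bdd hr hr'
  set η : ℝ := e / (4 * (1 + B)) with hη
  have hη0 : 0 < η := by positivity
  have hηe : η * (4 * (1 + B)) = e := by
    rw [hη]; field_simp
  filter_upwards [hX1, hX1', hY η hη0, hX.eventually (ge_mem_nhds hη0),
    hX'.eventually (ge_mem_nhds hη0), hG.hm2, hG.prob, ev_unit,
    (tendsto_id.mono_left nhdsWithin_le_nhds : Tendsto (fun ε : ℝ => ε) (𝓝[>] 0) (𝓝 0)).eventually
      (ge_mem_nhds hη0)] with ε e1 e1' e3 e4 e4' e5 e5' e6 e7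
  obtain ⟨G', hG', e3⟩ := e3
  have hs : Sb r (HG D G ε) z = ∫ ω in G ε, Sb r (D.h ε ω) z ∂sampleLaw :=
    (Sb_integral (sampleLaw.restrict (G ε)) e5 (fun ω z => norm_h_le D ε ω z) hr z).symm
  have hd : Db r' (HG D G ε) z' = ∫ ω in G ε, Db r' (D.h ε ω) z' ∂sampleLaw :=
    (Db_integral (sampleLaw.restrict (G ε)) e5 (fun ω z => norm_h_le D ε ω z) hr' z').symm
  have hcjn : ‖Sb r' (cj (HG D G ε)) z'‖ = ‖Db r' (HG D G ε) z'‖ := by
    unfold Asmx336.Db
    rw [Complex.norm_conj]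
  have hP : sampleLaw (G ε)ᶜ ≤ ENNReal.ofReal η := by
    refine e5'.trans (ENNReal.ofReal_le_ofReal ?_)
    have h4 := Real.rpow_le_rpow_of_exponent_ge e6.1 e6.2.le (show (1 : ℝ) ≤ 10 by norm_num)
    rw [Real.rpow_one] at h4
    exact h4.trans e7
  have hgm : ∀ᵐ ω ∂(sampleLaw.restrict G'), GM D ε ω := by
    rw [ae_restrict_iff' hG'.meas]
    exact Eventually.of_forall fun ω hω => (hG'.ok ω hω).1
  have hout := M5x304.out_open hW
  have m2 := hm2 (ε := ε) (D := D) hout (μ := sampleLaw.restrict G') hgm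
  have hfin : B * (η + η) + (η / 2 + η) < e := by
    rw [← hηe]
    nlinarith
  have hmin : 0 ≤ min ‖Sb r (HG D G ε) z‖ ‖Sb r' (cj (HG D G ε)) z'‖ :=
    le_min (norm_nonneg _) (norm_nonneg _)
  rw [Real.dist_eq, sub_zero, abs_of_nonneg hmin]
  rcases e3 with e3 | e3
  · refine (min_le_left _ _).trans_lt (lt_of_le_of_lt ?_ hfin)
    rw [hs]
    have k1 := int_two sampleLaw (hG.meas ε) hG'.meas hB0 (fun ω => hB1 D ε ω z)
      (B6x654.Sb_aesm_at _ e5 r z) (B6x654.Sb_aesm_at _ m2 r z) hη0.le hη0.le hP hG'.prob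
    have k2 := int_err sampleLaw hG'.meas (x := η) (c := -(I / 2)) hη0.le (fun ω => hB1 D ε ω z)
      (B6x654.Sb_aesm_at _ m2 r z) (yb_aesm hout hgm (tst_meas r z))
      (by rw [norm_neg, norm_div, Complex.norm_I]; norm_num) (fun ω hω => by
        have := (e1 ω (hG'.ok ω hω).2).1
        rw [neg_mul, sub_neg_eq_add]
        exact this.trans e4)
    have k3 := norm_sub_norm_le (∫ ω in G ε, Sb r (D.h ε ω) z ∂sampleLaw)
      (∫ ω in G', Sb r (D.h ε ω) z ∂sampleLaw)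
    linarith
  · refine (min_le_right _ _).trans_lt (lt_of_le_of_lt ?_ hfin)
    rw [hcjn, hd]
    have k1 := int_two sampleLaw (hG.meas ε) hG'.meas hB0 (fun ω => hB2 D ε ω z')
      (B6x654.Db_aesm_at _ e5 r' z') (B6x654.Db_aesm_at _ m2 r' z') hη0.le hη0.le hP hG'.prob
    have k2 := int_err sampleLaw hG'.meas (x := η) (c := I / 2) hη0.le (fun ω => hB2 D ε ω z')
      (B6x654.Db_aesm_at _ m2 r' z') (yd_aesm hout hgm (tst_meas r' z'))
      (by rw [norm_div, Complex.norm_I]; norm_num) (fun ω hω =>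
        ((e1' ω (hG'.ok ω hω).2).2).trans e4')
    have k3 := norm_sub_norm_le (∫ ω in G ε, Db r' (D.h ε ω) z' ∂sampleLaw)
      (∫ ω in G', Db r' (D.h ε ω) z' ∂sampleLaw)
    linarith

/-- the annealed leaf in the form of 422 -/
def YE (Adm : Dom → ℝ → Prop) : Prop := ∀ (D : Dom) (δ : ℝ), Adm D δ →
  ∀ G : ℝ → Set Sample, GoodFam D G → ∀ m > 0,
  ∀ r > 0, ∀ z : ℂ, Room D (4 * r) z → Linked D m z →
  ∀ r' > 0, ∀ z' : ℂ, Room D (4 * r') z' → Linked D m z' →
    Tendsto (fun ε : ℝ => min ‖∫ ω in G ε, Yb D ε ω (tst r z) ∂sampleLaw‖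
      ‖∫ ω in G ε, Yd D ε ω (tst r' z') ∂sampleLaw‖) (𝓝[>] 0) (𝓝 0)

theorem yg_of_ye {Adm : Dom → ℝ → Prop} (hAdm : ∀ D δ, Adm D δ → D.W δ) (h : YE Adm) :
    YG Adm := by
  intro D δ hD m hm r hr z hz hl r' hr' z' hz' hl'
  have hW := hAdm D δ hD
  obtain ⟨C, K, a, C4, hC, hK, ha, hC4, hg⟩ := gok_ev hW
  refine ⟨C, K, a, C4, hC, hK, ha, hC4, fun η hη => ?_⟩
  have h1 := h D δ hD _ (goodfam_gc hW hg) m hm r hr z hz hl r' hr' z' hz' hl'
  filter_upwards [h1.eventually (ge_mem_nhds hη), hg, ev_unit,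
    (tendsto_id.mono_left nhdsWithin_le_nhds : Tendsto (fun ε : ℝ => ε) (𝓝[>] 0) (𝓝 0)).eventually
      (ge_mem_nhds hη)] with ε e1 e2 e3 e4
  refine ⟨Gc D C K a C4 ε, ⟨gc_meas D C K a C4 ε, e2.trans (ENNReal.ofReal_le_ofReal ?_),
    fun ω hω => gc_sub hω⟩, min_le_iff.1 e1⟩
  have h4 := Real.rpow_le_rpow_of_exponent_ge e3.1 e3.2.le (show (1 : ℝ) ≤ 30 by norm_num)
  rw [Real.rpow_one] at h4
  exact h4.trans e4

/-- small in probability and bounded ⇒ small mean -/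
theorem yg_of_yw {Adm : Dom → ℝ → Prop} (hAdm : ∀ D δ, Adm D δ → D.W δ) (h : YW Adm) :
    YG Adm := by
  intro D δ hD m hm r hr z hz hl r' hr' z' hz' hl'
  have hW := hAdm D δ hD
  obtain ⟨C, K, a, C4, hC, hK, ha, hC4, hg⟩ := gok_ev hW
  refine ⟨C, K, a, C4, hC, hK, ha, hC4, fun η hη => ?_⟩
  obtain ⟨B, hB0, hB⟩ := yb_bdd (K := K) (a := a) hW hC hC4.le hr hz
  obtain ⟨B', hB0', hB'⟩ := yb_bdd (K := K) (a := a) hW hC hC4.le hr' hz'
  set s : ℝ := η / (2 * (1 + B + B')) with hs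
  have hs0 : 0 < s := by positivity
  have hse : s * (2 * (1 + B + B')) = η := by rw [hs]; field_simp
  filter_upwards [hB, hB', hg, ev_unit, h D δ hD m hm r hr z hz hl r' hr' z' hz' hl' s hs0,
    (tendsto_id.mono_left nhdsWithin_le_nhds : Tendsto (fun ε : ℝ => ε) (𝓝[>] 0) (𝓝 0)).eventually
      (ge_mem_nhds hη)] with ε e1 e1' e2 e3 e5 e4
  refine ⟨Gc D C K a C4 ε, ⟨gc_meas D C K a C4 ε, e2.trans (ENNReal.ofReal_le_ofReal ?_),
    fun ω hω => gc_sub hω⟩, ?_⟩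
  · have h4 := Real.rpow_le_rpow_of_exponent_ge e3.1 e3.2.le (show (1 : ℝ) ≤ 30 by norm_num)
    rw [Real.rpow_one] at h4
    exact h4.trans e4
  · -- cut the function off the good set
    have cut : ∀ {f : Sample → ℂ} {b : ℝ}, 0 ≤ b → b ≤ B + B' →
        (∀ ω ∈ Gc D C K a C4 ε, ‖f ω‖ ≤ b) → sampleLaw {ω | s < ‖f ω‖} ≤ ENNReal.ofReal s →
        ‖∫ ω in Gc D C K a C4 ε, f ω ∂sampleLaw‖ ≤ η := by
      intro f b hb hbB hf hp
      have e : ∫ ω in Gc D C K a C4 ε, f ω ∂sampleLaw =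
          ∫ ω in Gc D C K a C4 ε, (Gc D C K a C4 ε).indicator f ω ∂sampleLaw := by
        refine setIntegral_congr_fun (gc_meas D C K a C4 ε) fun ω hω => ?_
        exact (indicator_of_mem hω f).symm
      rw [e]
      refine (int_le sampleLaw (Bad := {ω | s < ‖f ω‖}) (c := s) (B := b) (β := s) hs0.le hb
        hs0.le ?_ ?_ hp).trans ?_
      · intro ω
        by_cases hω : ω ∈ Gc D C K a C4 ε
        · rw [indicator_of_mem hω]; exact hf ω hω
        · rw [indicator_of_notMem hω, norm_zero]; exact hb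
      · intro ω hω
        by_cases hω' : ω ∈ Gc D C K a C4 ε
        · rw [indicator_of_mem hω']; exact not_lt.1 hω
        · rw [indicator_of_notMem hω', norm_zero]; exact hs0.le
      · rw [← hse]
        nlinarith
    rcases e5 with e5 | e5
    · exact Or.inl (cut hB0 (by linarith) (fun ω hω => (e1 ω (gc_sub hω).2).1) e5)
    · exact Or.inr (cut hB0' (by linarith) (fun ω hω => (e1' ω (gc_sub hω).2).2) e5)

theorem lmin_of_ye {Adm : Dom → ℝ → Prop} (hAdm : ∀ D δ, Adm D δ → D.W δ) (h : YE Adm) :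
    LMinW Adm := lmin_of_yg hAdm (yg_of_ye hAdm h)

end Crest.Agent.R143.DicEx831
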