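import Crest.Agent.R143.DicE_831

/-!
# Row 143 (S0194), dichotomy without part A, 6 (helper831): entrance of STEP 4

* `alt_fin` : pairwise minima of two finite families small ⇒ one of the two families is small
* `YL` : **leaf in L¹ form**: `∫_G ‖Yb‖ ≤ η` or `∫_G ‖Yd‖ ≤ η` for a large set `G` of good
  environments chosen by the prover; `yg_of_yl`, `lmin_of_yl`
-/

set_option autoImplicit false
set_option linter.all false

noncomputable section

open scoped Classical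

namespace Crest.Agent.R143.DicFx831

open Complex Set Filter Topology MeasureTheory
open scoped ENNReal
open Crest.ProbabilityR.Voronoi
open Crest.Agent.R143.B0x346 Crest.Agent.R143.B0Dx346 Crest.Agent.R143.PP1x831
open Crest.Agent.R143.Y0x831 (Good)
open Crest.Agent.R143.Spinex422 (Room Linked GoodFam HG norm_h_le)
open Crest.Agent.R143.B6Ix903 (net)
open Crest.Agent.R143.DicBx831 Crest.Agent.R143.DicCx831 Crest.Agent.R143.DicDx831
open Crest.Agent.R143.DicEx831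

/-- one of the two alternatives for two finite families (one value of the mesh) -/
theorem alt_one {ι κ α : Type*} [LinearOrder α] {F : Set ι} {G : Set κ} {a : ι → α} {b : κ → α}
    {e : α} (h : ∀ i ∈ F, ∀ j ∈ G, min (a i) (b j) ≤ e) :
    (∀ i ∈ F, a i ≤ e) ∨ ∀ j ∈ G, b j ≤ e := by
  by_cases h1 : ∀ i ∈ F, a i ≤ e
  · exact Or.inl h1
  · push Not at h1
    obtain ⟨i, hi, hlt⟩ := h1
    refine Or.inr fun j hj => ?_
    rcases min_le_iff.1 (h i hi j hj) with h2 | h2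
    · exact absurd h2 (not_le.2 hlt)
    · exact h2

/-- **pairwise minima → alternative**, along a filter -/
theorem alt_fin {ι κ α Ω : Type*} [LinearOrder α] {l : Filter Ω} {F : Set ι} {G : Set κ}
    (hF : F.Finite) (hG : G.Finite) {a : ι → Ω → α} {b : κ → Ω → α} {e : α}
    (h : ∀ i ∈ F, ∀ j ∈ G, ∀ᶠ x in l, min (a i x) (b j x) ≤ e) :
    ∀ᶠ x in l, (∀ i ∈ F, a i x ≤ e) ∨ ∀ j ∈ G, b j x ≤ e := by
  have h1 : ∀ᶠ x in l, ∀ i ∈ F, ∀ j ∈ G, min (a i x) (b j x) ≤ e := by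
    rw [eventually_all_finite hF]
    intro i hi
    rw [eventually_all_finite hG]
    intro j hj
    exact h i hi j hj
  filter_upwards [h1] with x hx
  exact alt_one hx

/-- **leaf YL** (L¹ form, the set of environments is chosen by the prover) -/
def YL (Adm : Dom → ℝ → Prop) : Prop := ∀ (D : Dom) (δ : ℝ), Adm D δ → ∀ m > 0,
  ∀ r > 0, ∀ z : ℂ, Room D (4 * r) z → Linked D m z →
  ∀ r' > 0, ∀ z' : ℂ, Room D (4 * r') z' → Linked D m z' →
  ∃ C K a C4 : ℝ, 0 < C ∧ 0 < K ∧ 0 < a ∧ 0 < C4 ∧ ∀ η > 0, ∀ᶠ ε : ℝ in 𝓝[>] 0,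
    ∃ G : Set Sample, GS D ε C K a C4 η G ∧
      (∫⁻ ω in G, ENNReal.ofReal ‖Yb D ε ω (tst r z)‖ ∂sampleLaw ≤ ENNReal.ofReal η ∨
        ∫⁻ ω in G, ENNReal.ofReal ‖Yd D ε ω (tst r' z')‖ ∂sampleLaw ≤ ENNReal.ofReal η)

theorem yg_of_yl {Adm : Dom → ℝ → Prop} (h : YL Adm) : YG Adm := by
  intro D δ hD m hm r hr z hz hl r' hr' z' hz' hl'
  obtain ⟨C, K, a, C4, hC, hK, ha, hC4, hY⟩ := h D δ hD m hm r hr z hz hl r' hr' z' hz' hl'
  refine ⟨C, K, a, C4, hC, hK, ha, hC4, fun η hη => ?_⟩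
  filter_upwards [hY η hη] with ε h1
  obtain ⟨G, hG, h2⟩ := h1
  have key : ∀ f : Sample → ℂ, ∫⁻ ω in G, ENNReal.ofReal ‖f ω‖ ∂sampleLaw ≤ ENNReal.ofReal η →
      ‖∫ ω in G, f ω ∂sampleLaw‖ ≤ η := by
    intro f hf
    have h3 := (enorm_integral_le_lintegral_enorm (μ := sampleLaw.restrict G) f)
    have h4 : ∫⁻ ω in G, ‖f ω‖ₑ ∂sampleLaw ≤ ENNReal.ofReal η := by
      refine le_trans (le_of_eq (lintegral_congr fun ω => ?_)) hf
      rw [ofReal_norm_eq_enorm]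
    have h5 := ENNReal.toReal_le_of_le_ofReal hη.le (h3.trans h4)
    simpa [toReal_enorm] using h5
  exact ⟨G, hG, h2.imp (key _) (key _)⟩

theorem lmin_of_yl {Adm : Dom → ℝ → Prop} (hAdm : ∀ D δ, Adm D δ → D.W δ) (h : YL Adm) :
    LMinW Adm := lmin_of_yg hAdm (yg_of_yl h)

/-- pointwise bound on the good set ⇒ bound of the integral -/
theorem lint_of_le {G : Set Sample} (hG : MeasurableSet G) {f g : Sample → ℝ} {η : ℝ}
    (h : ∀ ω ∈ G, f ω ≤ g ω) (hg : ∫⁻ ω in G, ENNReal.ofReal (g ω) ∂sampleLaw ≤ ENNReal.ofReal η) :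
    ∫⁻ ω in G, ENNReal.ofReal (f ω) ∂sampleLaw ≤ ENNReal.ofReal η := by
  refine le_trans (setLIntegral_mono' hG fun ω hω => ENNReal.ofReal_le_ofReal (h ω hω)) hg

end Crest.Agent.R143.DicFx831
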