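import Crest.Agent.R143.Spine7_422

/-!
# Row 143 (S0194): the dichotomy for one test function at a time (helper854)

The set of test functions `φ` with `∫ HG ∂̄φ → 0` and the set with `∫ HG ∂φ → 0` are linear
subspaces, so it is enough to have the alternative for each single `φ`; in 831's form of the
dichotomy the number `κ` may depend on `φ` and on the wanted precision.

* `lminW_of_single` : `min |∫ HG ∂̄φ| |∫ HG ∂φ| → 0` for each single `φ ≥ 0` ⟹ `LMinW`
* `lminW_of_dich1` : `κ` chosen after `φ`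
* `lminW_of_dicheta` : `κ` chosen after `φ` and `η`, errors `≤ η` for small `ε`
-/

set_option autoImplicit false

noncomputable section

namespace Crest.Agent.R143.Dich1x854

open Complex Set Filter Topology MeasureTheory
open Crest.ProbabilityR.Voronoi
open Crest.Agent.R143.B0x346 Crest.Agent.R143.B0Dx346 Crest.Agent.R143.PP1x831
open Crest.Agent.R143.BC0x336 Crest.Agent.R143.EndAx336 Crest.Agent.R143.EndBx336
open Crest.Agent.R143.Mollx887 Crest.Agent.R143.Spinex422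

theorem two {a b : ℂ} {m s t : ℝ} (hs : 0 ≤ s) (hs2 : s ≤ 2) (hst : s + 1 ≤ t)
    (h1 : ‖a + (s : ℂ) * b‖ ≤ m) (h2 : ‖a + (t : ℂ) * b‖ ≤ m) : ‖a‖ ≤ 5 * m ∧ ‖b‖ ≤ 2 * m := by
  have e1 : ((t - s : ℝ) : ℂ) * b = (a + (t : ℂ) * b) - (a + (s : ℂ) * b) := by
    push_cast; ring
  have h3 : (t - s) * ‖b‖ ≤ 2 * m := by
    have h4 := norm_sub_le (a + (t : ℂ) * b) (a + (s : ℂ) * b)
    rw [← e1, norm_mul, Complex.norm_real, Real.norm_of_nonneg (by linarith)] at h4
    linarith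
  have hb : ‖b‖ ≤ 2 * m := by nlinarith [norm_nonneg b]
  refine ⟨?_, hb⟩
  have e2 : a = (a + (s : ℂ) * b) - (s : ℂ) * b := by ring
  have h5 := norm_sub_le (a + (s : ℂ) * b) ((s : ℂ) * b)
  rw [← e2, norm_mul, Complex.norm_real, Real.norm_of_nonneg hs] at h5
  nlinarith [norm_nonneg b]

/-- three linear combinations are enough -/
theorem pick {a b a' b' : ℂ} {m : ℝ} (h1 : min ‖a + (1 : ℝ) * b‖ ‖a' + (1 : ℝ) * b'‖ ≤ m)
    (h2 : min ‖a + (2 : ℝ) * b‖ ‖a' + (2 : ℝ) * b'‖ ≤ m)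
    (h3 : min ‖a + (3 : ℝ) * b‖ ‖a' + (3 : ℝ) * b'‖ ≤ m) : min ‖a‖ ‖b'‖ ≤ 5 * m := by
  have hm : 0 ≤ m := le_trans (le_min (norm_nonneg _) (norm_nonneg _)) h1
  rcases min_le_iff.1 h1 with k1 | k1
  · rcases min_le_iff.1 h2 with k2 | k2
    · exact (min_le_left _ _).trans (two (by norm_num) (by norm_num) (by norm_num) k1 k2).1
    · rcases min_le_iff.1 h3 with k3 | k3
      · exact (min_le_left _ _).trans (two (by norm_num) (by norm_num) (by norm_num) k1 k3).1
      · refine (min_le_right _ _).trans ?_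
        have := (two (by norm_num) (by norm_num) (by norm_num) k2 k3).2
        linarith
  · rcases min_le_iff.1 h2 with k2 | k2
    · rcases min_le_iff.1 h3 with k3 | k3
      · exact (min_le_left _ _).trans (two (by norm_num) (by norm_num) (by norm_num) k2 k3).1
      · refine (min_le_right _ _).trans ?_
        have := (two (by norm_num) (by norm_num) (by norm_num) k1 k3).2
        linarith
    · refine (min_le_right _ _).trans ?_
      have := (two (by norm_num) (by norm_num) (by norm_num) k1 k2).2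
      linarith

/-! ### linearity -/

section lin

variable {f g : ℂ → ℂ}

theorem dbar_cont (hf : ContDiff ℝ 1 f) : Continuous (dbar f) := by
  have h1 : Continuous (fderiv ℝ f) := hf.continuous_fderiv (by norm_num)
  exact ((h1.clm_apply continuous_const).add
    (continuous_const.mul (h1.clm_apply continuous_const))).div_const 2

theorem del_cont (hf : ContDiff ℝ 1 f) : Continuous (del f) := by
  have h1 : Continuous (fderiv ℝ f) := hf.continuous_fderiv (by norm_num)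
  exact ((h1.clm_apply continuous_const).sub
    (continuous_const.mul (h1.clm_apply continuous_const))).div_const 2

theorem dbar_cs (hf : HasCompactSupport f) : HasCompactSupport (dbar f) := by
  have h1 : HasCompactSupport (fderiv ℝ f) := hf.fderiv (𝕜 := ℝ)
  exact h1.comp_left (g := fun L : ℂ →L[ℝ] ℂ => (L 1 + I * L I) / 2) (by simp)

theorem del_cs (hf : HasCompactSupport f) : HasCompactSupport (del f) := by
  have h1 : HasCompactSupport (fderiv ℝ f) := hf.fderiv (𝕜 := ℝ)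
  exact h1.comp_left (g := fun L : ℂ →L[ℝ] ℂ => (L 1 - I * L I) / 2) (by simp)

theorem dbar_lin (hf : ContDiff ℝ 1 f) (hg : ContDiff ℝ 1 g) (s : ℝ) (z : ℂ) :
    dbar (fun w => f w + (s : ℂ) * g w) z = dbar f z + (s : ℂ) * dbar g z := by
  have h1 : DifferentiableAt ℝ f z := hf.differentiable (by norm_num) z
  have h2 : DifferentiableAt ℝ g z := hg.differentiable (by norm_num) z
  unfold dbar
  rw [fderiv_fun_add h1 (h2.const_mul _), fderiv_const_mul h2]
  simp only [add_apply, smul_apply, smul_eq_mul]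
  ring

theorem del_lin (hf : ContDiff ℝ 1 f) (hg : ContDiff ℝ 1 g) (s : ℝ) (z : ℂ) :
    del (fun w => f w + (s : ℂ) * g w) z = del f z + (s : ℂ) * del g z := by
  have h1 : DifferentiableAt ℝ f z := hf.differentiable (by norm_num) z
  have h2 : DifferentiableAt ℝ g z := hg.differentiable (by norm_num) z
  unfold del
  rw [fderiv_fun_add h1 (h2.const_mul _), fderiv_const_mul h2]
  simp only [add_apply, smul_apply, smul_eq_mul]
  ring

theorem int_mul {h : ℂ → ℂ} {M : ℝ} (hh : BM h M) {k : ℂ → ℂ} (hk : Continuous k)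
    (hk' : HasCompactSupport k) : Integrable fun z => h z * k z :=
  (hk.integrable_of_hasCompactSupport hk').bdd_mul hh.meas (ae_of_all _ fun z => hh.bd z)

theorem int_lin {h : ℂ → ℂ} {M : ℝ} (hh : BM h M) {k k' : ℂ → ℂ} (hk : Continuous k)
    (hks : HasCompactSupport k) (hk' : Continuous k') (hks' : HasCompactSupport k') (s : ℝ) :
    ∫ z, h z * (k z + (s : ℂ) * k' z) = (∫ z, h z * k z) + (s : ℂ) * ∫ z, h z * k' z := by
  rw [← integral_const_mul, ← integral_add (int_mul hh hk hks) ((int_mul hh hk' hks').const_mul _)]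
  refine integral_congr_ae (ae_of_all _ fun z => ?_)
  simp only
  ring

end lin

/-! ### the reductions -/

/-- **the alternative for each single test function is enough** -/
theorem lminW_of_single {Adm : Dom → ℝ → Prop} (h : ∀ (D : Dom) (δ : ℝ), Adm D δ →
    ∀ G : ℝ → Set Sample, GoodFam D G → ∀ m > 0, ∀ ρ > 0, ∀ φ : ℂ → ℝ,
    (∀ n : ℕ∞, ContDiff ℝ n φ) → HasCompactSupport φ → (∀ z, 0 ≤ φ z) →
    (∀ z ∈ tsupport φ, Room D ρ z ∧ Linked D m z) →
    Tendsto (fun ε : ℝ => min ‖∫ z, HG D G ε z * dbar (fun w => (φ w : ℂ)) z‖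
      ‖∫ z, HG D G ε z * del (fun w => (φ w : ℂ)) z‖) (𝓝[>] 0) (𝓝 0)) : LMinW Adm := by
  apply lminW_of_test
  intro D δ hD G hG m hm ρ hρ φ ψ h1 h2 h2' h3 h4 h4' h5 h6
  -- the combinations
  have key : ∀ s : ℝ, 0 ≤ s → Tendsto (fun ε : ℝ =>
      min ‖(∫ z, HG D G ε z * dbar (fun w => (φ w : ℂ)) z) +
          (s : ℂ) * ∫ z, HG D G ε z * dbar (fun w => (ψ w : ℂ)) z‖
        ‖(∫ z, HG D G ε z * del (fun w => (φ w : ℂ)) z) +
          (s : ℂ) * ∫ z, HG D G ε z * del (fun w => (ψ w : ℂ)) z‖) (𝓝[>] 0) (𝓝 0) := by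
    intro s hs
    have hsupp : tsupport (fun w => φ w + s * ψ w) ⊆ tsupport φ ∪ tsupport ψ := by
      refine closure_minimal (fun w hw => ?_) ((isClosed_tsupport _).union (isClosed_tsupport _))
      by_contra hcon
      rw [mem_union, not_or] at hcon
      have e1 : φ w = 0 := image_eq_zero_of_notMem_tsupport hcon.1
      have e2 : ψ w = 0 := image_eq_zero_of_notMem_tsupport hcon.2
      apply hw
      simp only [e1, e2, mul_zero, add_zero]
    have h7 := h D δ hD G hG m hm ρ hρ (fun w => φ w + s * ψ w)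
      (fun n => (h1 n).add (contDiff_const.mul (h3 n)))
      (h2.add (h4.mul_left))
      (fun z => add_nonneg (h2' z) (mul_nonneg hs (h4' z)))
      (fun z hz => (hsupp hz).elim (h5 z) (h6 z))
    refine h7.congr' ?_
    filter_upwards [hG.hm2] with ε hε
    have hb := bm_HG hε
    have cφ : ContDiff ℝ 1 (fun w => (φ w : ℂ)) := Complex.ofRealCLM.contDiff.comp (h1 1)
    have cψ : ContDiff ℝ 1 (fun w => (ψ w : ℂ)) := Complex.ofRealCLM.contDiff.comp (h3 1)
    have sφ : HasCompactSupport (fun w => (φ w : ℂ)) := h2.comp_left (g := Complex.ofReal) rfl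
    have sψ : HasCompactSupport (fun w => (ψ w : ℂ)) := h4.comp_left (g := Complex.ofReal) rfl
    have e0 : (fun w => ((φ w + s * ψ w : ℝ) : ℂ)) = fun w => (φ w : ℂ) + (s : ℂ) * (ψ w : ℂ) := by
      funext w
      push_cast
      rfl
    rw [e0]
    simp_rw [dbar_lin cφ cψ, del_lin cφ cψ]
    rw [int_lin hb (dbar_cont cφ) (dbar_cs sφ) (dbar_cont cψ) (dbar_cs sψ),
      int_lin hb (del_cont cφ) (del_cs sφ) (del_cont cψ) (del_cs sψ)]
  have k1 := key 1 (by norm_num)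
  have k2 := key 2 (by norm_num)
  have k3 := key 3 (by norm_num)
  have k4 := ((k1.add k2).add k3).const_mul 5
  rw [add_zero, add_zero, mul_zero] at k4
  refine squeeze_zero (fun ε => le_min (norm_nonneg _) (norm_nonneg _)) (fun ε => ?_) k4
  refine pick (b := ∫ z, HG D G ε z * dbar (fun w => (ψ w : ℂ)) z)
    (a' := ∫ z, HG D G ε z * del (fun w => (φ w : ℂ)) z) ?_ ?_ ?_
  · have n2 : ∀ x y x' y' : ℂ, 0 ≤ min ‖x + y‖ ‖x' + y'‖ :=
      fun _ _ _ _ => le_min (norm_nonneg _) (norm_nonneg _)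
    rw [add_assoc]
    exact le_add_of_nonneg_right (add_nonneg (n2 _ _ _ _) (n2 _ _ _ _))
  · have n2 : ∀ x y x' y' : ℂ, 0 ≤ min ‖x + y‖ ‖x' + y'‖ :=
      fun _ _ _ _ => le_min (norm_nonneg _) (norm_nonneg _)
    refine le_trans ?_ (le_add_of_nonneg_right (n2 _ _ _ _))
    exact le_add_of_nonneg_left (n2 _ _ _ _)
  · have n2 : ∀ x y x' y' : ℂ, 0 ≤ min ‖x + y‖ ‖x' + y'‖ :=
      fun _ _ _ _ => le_min (norm_nonneg _) (norm_nonneg _)
    exact le_add_of_nonneg_left (add_nonneg (n2 _ _ _ _) (n2 _ _ _ _))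

theorem sqrt3_le (k : ℂ) : Real.sqrt 3 ≤ ‖k + Real.sqrt 3 / 2‖ + ‖k - Real.sqrt 3 / 2‖ := by
  have h8 := norm_sub_le (k + Real.sqrt 3 / 2) (k - Real.sqrt 3 / 2)
  have h9 : (k + Real.sqrt 3 / 2) - (k - Real.sqrt 3 / 2) = ((Real.sqrt 3 : ℝ) : ℂ) := by
    ring
  rw [h9, Complex.norm_real, Real.norm_of_nonneg (Real.sqrt_nonneg _)] at h8
  exact h8

theorem min_le_of {k a b : ℂ} {η : ℝ} (h1 : ‖(k + Real.sqrt 3 / 2) * a‖ ≤ η)
    (h2 : ‖(k - Real.sqrt 3 / 2) * b‖ ≤ η) : min ‖a‖ ‖b‖ ≤ 2 * η := by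
  have hs : (3 : ℝ) / 2 ≤ Real.sqrt 3 := by
    rw [Real.le_sqrt' (by norm_num)]
    norm_num
  have h7 := sqrt3_le k
  rw [norm_mul] at h1 h2
  have hA := norm_nonneg a
  have hB := norm_nonneg b
  rcases le_total (3 / 4) ‖k + Real.sqrt 3 / 2‖ with h8 | h8
  · refine (min_le_left _ _).trans ?_
    nlinarith
  · refine (min_le_right _ _).trans ?_
    have h9 : 3 / 4 ≤ ‖k - Real.sqrt 3 / 2‖ := by linarith
    nlinarith

/-- dichotomy with `κ` chosen after the test function and the precision -/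
theorem lminW_of_dicheta {Adm : Dom → ℝ → Prop} (h : ∀ (D : Dom) (δ : ℝ), Adm D δ →
    ∀ G : ℝ → Set Sample, GoodFam D G → ∀ m > 0, ∀ ρ > 0, ∀ φ : ℂ → ℝ,
    (∀ n : ℕ∞, ContDiff ℝ n φ) → HasCompactSupport φ → (∀ z, 0 ≤ φ z) →
    (∀ z ∈ tsupport φ, Room D ρ z ∧ Linked D m z) → ∀ η > 0,
    ∃ κ : ℝ → ℂ, ∀ᶠ ε : ℝ in 𝓝[>] 0,
      ‖(κ ε + Real.sqrt 3 / 2) * ∫ z, HG D G ε z * dbar (fun w => (φ w : ℂ)) z‖ ≤ η ∧
      ‖(κ ε - Real.sqrt 3 / 2) * ∫ z, HG D G ε z * del (fun w => (φ w : ℂ)) z‖ ≤ η) :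
    LMinW Adm := by
  apply lminW_of_single
  intro D δ hD G hG m hm ρ hρ φ h1 h2 h2' h5
  rw [Metric.tendsto_nhds]
  intro η hη
  obtain ⟨κ, hκ⟩ := h D δ hD G hG m hm ρ hρ φ h1 h2 h2' h5 (η / 4) (by linarith)
  filter_upwards [hκ] with ε hε
  have h6 := min_le_of hε.1 hε.2
  rw [Real.dist_eq, sub_zero, abs_of_nonneg (le_min (norm_nonneg _) (norm_nonneg _))]
  linarith

/-- dichotomy with `κ` chosen after the test function -/
theorem lminW_of_dich1 {Adm : Dom → ℝ → Prop} (h : ∀ (D : Dom) (δ : ℝ), Adm D δ →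
    ∀ G : ℝ → Set Sample, GoodFam D G → ∀ m > 0, ∀ ρ > 0, ∀ φ : ℂ → ℝ,
    (∀ n : ℕ∞, ContDiff ℝ n φ) → HasCompactSupport φ → (∀ z, 0 ≤ φ z) →
    (∀ z ∈ tsupport φ, Room D ρ z ∧ Linked D m z) → ∃ κ : ℝ → ℂ,
    Tendsto (fun ε : ℝ => (κ ε + Real.sqrt 3 / 2) *
      ∫ z, HG D G ε z * dbar (fun w => (φ w : ℂ)) z) (𝓝[>] 0) (𝓝 0) ∧
    Tendsto (fun ε : ℝ => (κ ε - Real.sqrt 3 / 2) *
      ∫ z, HG D G ε z * del (fun w => (φ w : ℂ)) z) (𝓝[>] 0) (𝓝 0)) : LMinW Adm := by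
  apply lminW_of_dicheta
  intro D δ hD G hG m hm ρ hρ φ h1 h2 h2' h5 η hη
  obtain ⟨κ, hκ1, hκ2⟩ := h D δ hD G hG m hm ρ hρ φ h1 h2 h2' h5
  refine ⟨κ, ?_⟩
  filter_upwards [Metric.tendsto_nhds.1 hκ1 η hη, Metric.tendsto_nhds.1 hκ2 η hη] with ε h6 h7
  rw [dist_zero_right] at h6 h7
  exact ⟨h6.le, h7.le⟩

end Crest.Agent.R143.Dich1x854
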