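import Mathlib

/-!
# Row 143 (S0194): the dichotomy `κ → 0` or `κ → -c₀` (helper106, note 3019 (4) of helper782)

Pure algebra in a normed space `E` (`E = ℂ` for numbers, `E = L²` or `L¹` of the environment for
quenched quantities). `τ` is a primitive third root of unity, `κ` the unknown constant of the
corridor (it may depend on the mesh and on the corridor), `T, T'` the two totals of a net,
`D₀, D₁` two of its three mean displacements.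

* `quant`    : `‖T - κ D₀‖, ‖τ⁻¹ T - κ D₁‖, ‖T' - (κ + c₀) D₀‖, ‖τ T' - (κ + c₀) D₁‖ ≤ s`
               `⟹ ‖κ‖ ‖κ + c₀‖ √3 ‖D₀‖ ≤ 2 s (‖κ‖ + ‖κ + c₀‖)`
* `quant_min`: `⟹ min ‖κ‖ ‖κ + c₀‖ ≤ K s` as soon as `‖D₀‖ ≥ c`
* `dich`     : family of nets `U`, one net `U₀` with `‖D₀(U₀)‖ ≥ c`:
               `min (∑_{U ∈ F} ‖T U‖) (∑_{U ∈ F'} ‖T' U‖) → 0` for all finite families `F, F'`
-/

set_option autoImplicit false

noncomputable section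

namespace Crest.Agent.R143.Dichx106

open Filter Topology

variable {E : Type*} [SeminormedAddCommGroup E] [NormedSpace ℂ E]

/-- `‖τ - τ⁻¹‖ = √3` for a primitive third root of unity -/
theorem norm_sub_inv {τ : ℂ} (h3 : τ ^ 3 = 1) (h1 : τ ≠ 1) : ‖τ - τ⁻¹‖ = Real.sqrt 3 := by
  have h0 : τ ≠ 0 := by
    rintro rfl
    norm_num at h3
  have hq : τ ^ 2 + τ + 1 = 0 := by
    have h : (τ - 1) * (τ ^ 2 + τ + 1) = 0 := by linear_combination h3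
    rcases mul_eq_zero.1 h with h | h
    · exact absurd (sub_eq_zero.1 h) h1
    · exact h
  have hi : τ⁻¹ = τ ^ 2 := by
    field_simp
    linear_combination -h3
  have hs : (τ - τ⁻¹) ^ 2 = -3 := by
    rw [hi]
    linear_combination (τ ^ 2 - 3 * τ + 3) * hq
  have hn : ‖τ - τ⁻¹‖ ^ 2 = 3 := by
    rw [← norm_pow, hs, norm_neg]
    norm_num
  rw [← hn, Real.sqrt_sq (norm_nonneg _)]

theorem norm_tau {τ : ℂ} (h3 : τ ^ 3 = 1) : ‖τ‖ = 1 :=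
  Complex.norm_eq_one_of_pow_eq_one h3 (by norm_num)

/-- **quantitative dichotomy** -/
theorem quant {τ : ℂ} (h3 : τ ^ 3 = 1) (h1 : τ ≠ 1) (κ c0 : ℂ) (T T' D0 D1 : E) {s : ℝ}
    (e0 : ‖T - κ • D0‖ ≤ s) (e1 : ‖τ⁻¹ • T - κ • D1‖ ≤ s)
    (f0 : ‖T' - (κ + c0) • D0‖ ≤ s) (f1 : ‖τ • T' - (κ + c0) • D1‖ ≤ s) :
    ‖κ‖ * ‖κ + c0‖ * (Real.sqrt 3 * ‖D0‖) ≤ 2 * s * (‖κ‖ + ‖κ + c0‖) := by
  have hτ := norm_tau h3
  have hτi : ‖τ⁻¹‖ = 1 := by rw [norm_inv, hτ, inv_one]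
  have a1 : ‖κ • D1 - (τ⁻¹ * κ) • D0‖ ≤ 2 * s := by
    have h : κ • D1 - (τ⁻¹ * κ) • D0 = τ⁻¹ • (T - κ • D0) - (τ⁻¹ • T - κ • D1) := by
      rw [smul_sub, smul_smul]
      abel
    rw [h]
    calc ‖τ⁻¹ • (T - κ • D0) - (τ⁻¹ • T - κ • D1)‖
        ≤ ‖τ⁻¹ • (T - κ • D0)‖ + ‖τ⁻¹ • T - κ • D1‖ := norm_sub_le _ _
      _ ≤ s + s := by
          refine add_le_add ?_ e1
          rw [norm_smul, hτi, one_mul]
          exact e0
      _ = 2 * s := by ring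
  have a2 : ‖(κ + c0) • D1 - (τ * (κ + c0)) • D0‖ ≤ 2 * s := by
    have h : (κ + c0) • D1 - (τ * (κ + c0)) • D0 =
        τ • (T' - (κ + c0) • D0) - (τ • T' - (κ + c0) • D1) := by
      rw [smul_sub, smul_smul]
      abel
    rw [h]
    calc ‖τ • (T' - (κ + c0) • D0) - (τ • T' - (κ + c0) • D1)‖
        ≤ ‖τ • (T' - (κ + c0) • D0)‖ + ‖τ • T' - (κ + c0) • D1‖ := norm_sub_le _ _
      _ ≤ s + s := by
          refine add_le_add ?_ f1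
          rw [norm_smul, hτ, one_mul]
          exact f0
      _ = 2 * s := by ring
  have key : (κ * (κ + c0) * (τ - τ⁻¹)) • D0 =
      (κ + c0) • (κ • D1 - (τ⁻¹ * κ) • D0) - κ • ((κ + c0) • D1 - (τ * (κ + c0)) • D0) := by
    simp only [smul_sub, smul_smul]
    rw [mul_comm (κ + c0) κ]
    have h5 : κ * (τ * (κ + c0)) = κ * (κ + c0) * (τ - τ⁻¹) + (κ + c0) * (τ⁻¹ * κ) := by ring
    rw [h5, add_smul]
    abel
  calc ‖κ‖ * ‖κ + c0‖ * (Real.sqrt 3 * ‖D0‖)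
      = ‖(κ * (κ + c0) * (τ - τ⁻¹)) • D0‖ := by
        rw [norm_smul, norm_mul, norm_mul, norm_sub_inv h3 h1]
        ring
    _ ≤ ‖(κ + c0) • (κ • D1 - (τ⁻¹ * κ) • D0)‖ +
          ‖κ • ((κ + c0) • D1 - (τ * (κ + c0)) • D0)‖ := by
        rw [key]
        exact norm_sub_le _ _
    _ ≤ ‖κ + c0‖ * (2 * s) + ‖κ‖ * (2 * s) := by
        rw [norm_smul, norm_smul]
        gcongr
    _ = 2 * s * (‖κ‖ + ‖κ + c0‖) := by ring

/-- **one of the two constants is small** -/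
theorem quant_min {τ : ℂ} (h3 : τ ^ 3 = 1) (h1 : τ ≠ 1) (κ c0 : ℂ) (hc0 : c0 ≠ 0)
    (T T' D0 D1 : E) {s c M : ℝ} (hc : 0 < c) (hD : c ≤ ‖D0‖) (hT : ‖T‖ ≤ M) (hs1 : s ≤ 1)
    (e0 : ‖T - κ • D0‖ ≤ s) (e1 : ‖τ⁻¹ • T - κ • D1‖ ≤ s)
    (f0 : ‖T' - (κ + c0) • D0‖ ≤ s) (f1 : ‖τ • T' - (κ + c0) • D1‖ ≤ s) :
    min ‖κ‖ ‖κ + c0‖ ≤ (4 * (2 * ((M + 1) / c) + ‖c0‖) / (c * ‖c0‖)) * s := by
  have hs0 : 0 ≤ s := (norm_nonneg _).trans e0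
  have hc0' : 0 < ‖c0‖ := norm_pos_iff.2 hc0
  have hM0 : 0 ≤ M := (norm_nonneg _).trans hT
  have hκ : ‖κ‖ ≤ (M + 1) / c := by
    rw [le_div_iff₀ hc]
    calc ‖κ‖ * c ≤ ‖κ‖ * ‖D0‖ := by gcongr
      _ = ‖κ • D0‖ := (norm_smul _ _).symm
      _ = ‖T - (T - κ • D0)‖ := by rw [sub_sub_cancel]
      _ ≤ ‖T‖ + ‖T - κ • D0‖ := norm_sub_le _ _
      _ ≤ M + 1 := add_le_add hT (e0.trans hs1)
  have hq := quant h3 h1 κ c0 T T' D0 D1 e0 e1 f0 f1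
  have hsum : ‖κ‖ + ‖κ + c0‖ ≤ 2 * ((M + 1) / c) + ‖c0‖ := by
    have := norm_add_le κ c0
    linarith
  have hmax : ‖c0‖ / 2 ≤ max ‖κ‖ ‖κ + c0‖ := by
    have h : ‖c0‖ ≤ ‖κ‖ + ‖κ + c0‖ := by
      have := norm_sub_le (κ + c0) κ
      rw [add_sub_cancel_left] at this
      linarith
    have h1 := le_max_left ‖κ‖ ‖κ + c0‖
    have h2 := le_max_right ‖κ‖ ‖κ + c0‖
    linarith
  have h3' : (1 : ℝ) ≤ Real.sqrt 3 := by
    rw [Real.one_le_sqrt]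
    norm_num
  have hB : ‖κ‖ * ‖κ + c0‖ * c ≤ 2 * s * (2 * ((M + 1) / c) + ‖c0‖) := by
    calc ‖κ‖ * ‖κ + c0‖ * c ≤ ‖κ‖ * ‖κ + c0‖ * (Real.sqrt 3 * ‖D0‖) := by
          refine mul_le_mul_of_nonneg_left ?_ (by positivity)
          calc c ≤ ‖D0‖ := hD
            _ ≤ Real.sqrt 3 * ‖D0‖ := le_mul_of_one_le_left (norm_nonneg _) h3'
      _ ≤ 2 * s * (‖κ‖ + ‖κ + c0‖) := hq
      _ ≤ 2 * s * (2 * ((M + 1) / c) + ‖c0‖) := by gcongr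
  have hmm : min ‖κ‖ ‖κ + c0‖ * max ‖κ‖ ‖κ + c0‖ = ‖κ‖ * ‖κ + c0‖ := min_mul_max _ _
  have hm0 : 0 ≤ min ‖κ‖ ‖κ + c0‖ := le_min (norm_nonneg _) (norm_nonneg _)
  have h6 : min ‖κ‖ ‖κ + c0‖ * (c * ‖c0‖) ≤ 4 * (2 * ((M + 1) / c) + ‖c0‖) * s := by
    have h7 : min ‖κ‖ ‖κ + c0‖ * (‖c0‖ / 2) ≤ ‖κ‖ * ‖κ + c0‖ := by
      rw [← hmm]
      gcongr
    calc min ‖κ‖ ‖κ + c0‖ * (c * ‖c0‖) = 2 * (min ‖κ‖ ‖κ + c0‖ * (‖c0‖ / 2)) * c := by ring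
      _ ≤ 2 * (‖κ‖ * ‖κ + c0‖) * c := by gcongr
      _ = 2 * (‖κ‖ * ‖κ + c0‖ * c) := by ring
      _ ≤ 2 * (2 * s * (2 * ((M + 1) / c) + ‖c0‖)) := by gcongr
      _ = 4 * (2 * ((M + 1) / c) + ‖c0‖) * s := by ring
  rw [div_mul_eq_mul_div, le_div_iff₀ (by positivity)]
  exact h6

/-- closeness of a net to the corridor constant `κ` (both fields, two of the three displacements) -/
structure Near (τ κ c0 : ℂ) (T T' D0 D1 : E) (s : ℝ) : Prop where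
  e0 : ‖T - κ • D0‖ ≤ s
  e1 : ‖τ⁻¹ • T - κ • D1‖ ≤ s
  f0 : ‖T' - (κ + c0) • D0‖ ≤ s
  f1 : ‖τ • T' - (κ + c0) • D1‖ ≤ s

/-- **dichotomy for a family of nets**: the same alternative for all of them -/
theorem dich {ι P : Type*} {l : Filter ι} {τ : ℂ} (h3 : τ ^ 3 = 1) (h1 : τ ≠ 1) {c0 : ℂ}
    (hc0 : c0 ≠ 0) (T T' D0 D1 : P → ι → E) (U0 : P) {c M : ℝ} (hc : 0 < c)
    (hD : ∀ᶠ n in l, c ≤ ‖D0 U0 n‖) (hT : ∀ᶠ n in l, ‖T U0 n‖ ≤ M)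
    (hL : ∀ U, ∃ L : ℝ, ∀ᶠ n in l, ‖D0 U n‖ ≤ L)
    (H : ∀ F : Finset P, ∀ s > 0, ∀ᶠ n in l, ∃ κ : ℂ, ∀ U ∈ F,
      Near τ κ c0 (T U n) (T' U n) (D0 U n) (D1 U n) s) (F F' : Finset P) :
    Tendsto (fun n => min (∑ U ∈ F, ‖T U n‖) (∑ U ∈ F', ‖T' U n‖)) l (𝓝 0) := by
  classical
  choose L hL using hL
  set K : ℝ := 4 * (2 * ((M + 1) / c) + ‖c0‖) / (c * ‖c0‖) with hK
  -- the final constant
  set A : ℝ := (∑ U ∈ F, (1 + |L U| * |K|)) + (∑ U ∈ F', (1 + |L U| * |K|)) with hA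
  have hA0 : 0 ≤ A := by positivity
  rw [Metric.tendsto_nhds]
  intro η hη
  set s : ℝ := min 1 (η / (2 * (A + 1))) with hs
  have hs0 : 0 < s := lt_min one_pos (by positivity)
  have hs1 : s ≤ 1 := min_le_left _ _
  have hsA : A * s < η := by
    have h5 : s ≤ η / (2 * (A + 1)) := min_le_right _ _
    calc A * s ≤ A * (η / (2 * (A + 1))) := by gcongr
      _ ≤ (A + 1) * (η / (2 * (A + 1))) := by
          refine mul_le_mul_of_nonneg_right (by linarith) (by positivity)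
      _ = η / 2 := by
          field_simp
      _ < η := by linarith
  have hF : ∀ᶠ n in l, ∀ U ∈ F ∪ F', ‖D0 U n‖ ≤ L U := by
    rw [Filter.eventually_all_finset]
    exact fun U _ => hL U
  filter_upwards [hD, hT, hF, H (insert U0 (F ∪ F')) s hs0] with n h4 h5 h6 h7
  obtain ⟨κ, hκ⟩ := h7
  have h8 := hκ U0 (Finset.mem_insert_self _ _)
  have h9 : min ‖κ‖ ‖κ + c0‖ ≤ K * s :=
    quant_min h3 h1 κ c0 hc0 (T U0 n) (T' U0 n) (D0 U0 n) (D1 U0 n) hc h4 h5 hs1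
      h8.e0 h8.e1 h8.f0 h8.f1
  have h9' : min ‖κ‖ ‖κ + c0‖ ≤ |K| * s :=
    h9.trans (mul_le_mul_of_nonneg_right (le_abs_self K) hs0.le)
  have b0 : 0 ≤ min (∑ U ∈ F, ‖T U n‖) (∑ U ∈ F', ‖T' U n‖) :=
    le_min (Finset.sum_nonneg fun _ _ => norm_nonneg _)
      (Finset.sum_nonneg fun _ _ => norm_nonneg _)
  rw [Real.dist_eq, sub_zero, abs_of_nonneg b0]
  refine lt_of_le_of_lt ?_ hsA
  have bd : ∀ (q : ℂ) (X Y : E), ‖X - q • Y‖ ≤ s → ∀ B : ℝ, ‖Y‖ ≤ B → ‖q‖ ≤ |K| * s →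
      ‖X‖ ≤ (1 + |B| * |K|) * s := by
    intro q X Y hXY B hB hq
    calc ‖X‖ = ‖(X - q • Y) + q • Y‖ := by rw [sub_add_cancel]
      _ ≤ ‖X - q • Y‖ + ‖q • Y‖ := norm_add_le _ _
      _ ≤ s + (|K| * s) * |B| := by
          rw [norm_smul]
          have : ‖Y‖ ≤ |B| := hB.trans (le_abs_self B)
          gcongr
      _ = (1 + |B| * |K|) * s := by ring
  rcases min_le_iff.1 (le_refl (min ‖κ‖ ‖κ + c0‖)) with hm | hm
  · -- κ small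
    have hk : ‖κ‖ ≤ |K| * s := hm.trans h9'
    refine (min_le_left _ _).trans ?_
    calc ∑ U ∈ F, ‖T U n‖ ≤ ∑ U ∈ F, (1 + |L U| * |K|) * s := by
          refine Finset.sum_le_sum fun U hU => ?_
          exact bd κ _ _ (hκ U (by simp [hU])).e0 (L U) (h6 U (by simp [hU])) hk
      _ = (∑ U ∈ F, (1 + |L U| * |K|)) * s := by rw [Finset.sum_mul]
      _ ≤ A * s := by
          refine mul_le_mul_of_nonneg_right ?_ hs0.le
          rw [hA]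
          have : 0 ≤ ∑ U ∈ F', (1 + |L U| * |K|) := by positivity
          linarith
  · have hk : ‖κ + c0‖ ≤ |K| * s := hm.trans h9'
    refine (min_le_right _ _).trans ?_
    calc ∑ U ∈ F', ‖T' U n‖ ≤ ∑ U ∈ F', (1 + |L U| * |K|) * s := by
          refine Finset.sum_le_sum fun U hU => ?_
          exact bd (κ + c0) _ _ (hκ U (by simp [hU])).f0 (L U) (h6 U (by simp [hU])) hk
      _ = (∑ U ∈ F', (1 + |L U| * |K|)) * s := by rw [Finset.sum_mul]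
      _ ≤ A * s := by
          refine mul_le_mul_of_nonneg_right ?_ hs0.le
          rw [hA]
          have : 0 ≤ ∑ U ∈ F, (1 + |L U| * |K|) := by positivity
          linarith

end Crest.Agent.R143.Dichx106
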