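import Mathlib

/-!
# Row 143 (S0194), CORE-C end game (helper222, after 782's 3019 (4) and 660's note 3160 (1a), (1b))

* `dich` : if `D i = (w ^ i * T' - w ^ (-i) * T) / c` (exact) and `w ^ (-i) * T = κ * D i + O(δ)` for
  `i = 0, 1, 2`, then `(c + κ) * T = O(δ)` and `κ * T' = O(δ)` ;
* `Tp_lower` : for end points on the two sides of a square and above the diagonal
  (`m0 = x`, `m1 = 1 + i y`, `m2 = X + i Y`, `Y ≥ X`) the combination which vanishes exactly for the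
  equilateral triangles of the wrong orientation is bounded below;
* `dich_end` : hence `κ` and `T` are small.
-/

set_option autoImplicit false

noncomputable section

namespace Crest.Agent.R143.Dichx222

/-- the primitive third root of unity in Cartesian form -/
def om : ℂ := ⟨-1 / 2, Real.sqrt 3 / 2⟩

theorem sq3 : Real.sqrt 3 * Real.sqrt 3 = 3 := Real.mul_self_sqrt (by norm_num)

theorem om_sum : 1 + om + om ^ 2 = 0 := by
  apply Complex.ext
  · simp [om, pow_two]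
    nlinarith [sq3]
  · simp [om, pow_two]
    ring

theorem om3 : om ^ 3 = 1 := by
  have h := om_sum
  linear_combination (om - 1) * h

theorem om_norm : ‖om‖ = 1 := by
  have h : ‖om‖ ^ 3 = 1 := by rw [← norm_pow, om3, norm_one]
  exact (pow_eq_one_iff_of_nonneg (norm_nonneg _) (by norm_num)).1 h

/-- **dichotomy**: the algebra of the colour switching. `w` any primitive third root of unity. -/
theorem dich {w : ℂ} (w0 : 1 + w + w ^ 2 = 0) {T T' κ c : ℂ} {D : Fin 3 → ℂ} {δ : ℝ}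
    (h0 : c * D 0 = T' - T) (h1 : c * D 1 = w * T' - w ^ 2 * T)
    (h2 : c * D 2 = w ^ 2 * T' - w * T)
    (e0 : ‖T - κ * D 0‖ ≤ δ) (e1 : ‖w ^ 2 * T - κ * D 1‖ ≤ δ) (e2 : ‖w * T - κ * D 2‖ ≤ δ) :
    ‖(c + κ) * T‖ ≤ ‖c‖ * δ ∧ ‖κ * T'‖ ≤ ‖c‖ * δ := by
  have w3 : w ^ 3 = 1 := by linear_combination (w - 1) * w0
  have wn : ‖w‖ = 1 := by
    have h : ‖w‖ ^ 3 = 1 := by rw [← norm_pow, w3, norm_one]
    exact (pow_eq_one_iff_of_nonneg (norm_nonneg _) (by norm_num)).1 h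
  have wn2 : ‖w ^ 2‖ = 1 := by rw [norm_pow, wn, one_pow]
  have hc := norm_nonneg c
  constructor
  · have key : 3 * ((c + κ) * T) = c * ((T - κ * D 0) + w * (w ^ 2 * T - κ * D 1)
        + w ^ 2 * (w * T - κ * D 2)) := by
      have e : c * ((T - κ * D 0) + w * (w ^ 2 * T - κ * D 1) + w ^ 2 * (w * T - κ * D 2))
          = c * (1 + w ^ 3 + w ^ 3) * T - κ * ((c * D 0) + w * (c * D 1) + w ^ 2 * (c * D 2)) := by
        ring
      rw [e, h0, h1, h2, w3]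
      have e2 : (T' - T) + w * (w * T' - w ^ 2 * T) + w ^ 2 * (w ^ 2 * T' - w * T)
          = (1 + w ^ 2 + w * w ^ 3) * T' - (1 + w ^ 3 + w ^ 3) * T := by ring
      rw [e2, w3]
      have e3 : 1 + w ^ 2 + w * 1 = 0 := by rw [mul_one]; linear_combination w0
      rw [e3]
      ring
    have hn : ‖3 * ((c + κ) * T)‖ ≤ ‖c‖ * (δ + δ + δ) := by
      rw [key, norm_mul]
      refine mul_le_mul_of_nonneg_left ?_ hc
      refine (norm_add_le _ _).trans (add_le_add ((norm_add_le _ _).trans (add_le_add e0 ?_)) ?_)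
      · rw [norm_mul, wn, one_mul]; exact e1
      · rw [norm_mul, wn2, one_mul]; exact e2
    rw [norm_mul] at hn
    have h3 : ‖(3 : ℂ)‖ = 3 := by simp
    rw [h3] at hn
    nlinarith
  · have key : 3 * (κ * T') = -(c * ((T - κ * D 0) + w ^ 2 * (w ^ 2 * T - κ * D 1)
        + w * (w * T - κ * D 2))) := by
      have e : c * ((T - κ * D 0) + w ^ 2 * (w ^ 2 * T - κ * D 1) + w * (w * T - κ * D 2))
          = c * (1 + w * w ^ 3 + w ^ 2) * T
            - κ * ((c * D 0) + w ^ 2 * (c * D 1) + w * (c * D 2)) := by ring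
      rw [e, h0, h1, h2, w3]
      have e3 : 1 + w * 1 + w ^ 2 = 0 := by rw [mul_one]; exact w0
      rw [e3]
      have e2 : (T' - T) + w ^ 2 * (w * T' - w ^ 2 * T) + w * (w ^ 2 * T' - w * T)
          = (1 + w ^ 3 + w ^ 3) * T' - (1 + w * w ^ 3 + w ^ 2) * T := by ring
      rw [e2, w3, e3]
      ring
    have hn : ‖3 * (κ * T')‖ ≤ ‖c‖ * (δ + δ + δ) := by
      rw [key, norm_neg, norm_mul]
      refine mul_le_mul_of_nonneg_left ?_ hc
      refine (norm_add_le _ _).trans (add_le_add ((norm_add_le _ _).trans (add_le_add e0 ?_)) ?_)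
      · rw [norm_mul, wn2, one_mul]; exact e1
      · rw [norm_mul, wn, one_mul]; exact e2
    rw [norm_mul] at hn
    have h3 : ‖(3 : ℂ)‖ = 3 := by simp
    rw [h3] at hn
    nlinarith

/-- exact value of the wrong equilateral combination: `a = m1 - m0`, `b = m2 - m0` ;
`|a|² + |b|² - a·b + √3 (a × b)` -/
theorem wrong_sq (x y X Y : ℝ) :
    Complex.normSq ((⟨x, 0⟩ : ℂ) + om ^ 2 * ⟨1, y⟩ + om * ⟨X, Y⟩)
      = (1 - x) ^ 2 + y ^ 2 + (X - x) ^ 2 + Y ^ 2 - ((1 - x) * (X - x) + y * Y)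
        + Real.sqrt 3 * ((1 - x) * Y - y * (X - x)) := by
  have h2 : om ^ 2 = ⟨-1 / 2, -(Real.sqrt 3 / 2)⟩ := by
    apply Complex.ext
    · simp [om, pow_two]
      nlinarith [sq3]
    · simp [om, pow_two]
      ring
  rw [h2, Complex.normSq_apply]
  simp [om]
  linear_combination ((y - Y) ^ 2 / 4 + (X - 1) ^ 2 / 4) * sq3

/-- the wrong equilateral combination for `m0 = x`, `m1 = 1 + i y`, `m2 = X + i Y`, `X ≤ Y`, is
bounded below -/
theorem wrong_lower {x y X Y : ℝ} (hx0 : 0 ≤ x) (hx1 : x ≤ 1) (hy0 : 0 ≤ y) (hy1 : y ≤ 1)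
    (hX0 : 0 ≤ X) (hX1 : X ≤ 1) (hXY : X ≤ Y) :
    (2 : ℝ) / 5 ≤ ‖(⟨x, 0⟩ : ℂ) + om ^ 2 * ⟨1, y⟩ + om * ⟨X, Y⟩‖ := by
  have harea : 0 ≤ (1 - x) * Y - y * (X - x) := by
    have h1 : (1 - x) * X ≤ (1 - x) * Y := mul_le_mul_of_nonneg_left hXY (by linarith)
    rcases le_total X x with h | h
    · have : 0 ≤ y * (x - X) := mul_nonneg hy0 (by linarith)
      nlinarith [mul_nonneg (sub_nonneg.2 hx1) hX0]
    · have h2 : y * (X - x) ≤ 1 * (X - x) := mul_le_mul_of_nonneg_right hy1 (by linarith)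
      nlinarith [mul_nonneg hx0 (sub_nonneg.2 hX1)]
  have hs : 0 ≤ Real.sqrt 3 := Real.sqrt_nonneg 3
  have hn : (1 : ℝ) / 6 ≤ Complex.normSq ((⟨x, 0⟩ : ℂ) + om ^ 2 * ⟨1, y⟩ + om * ⟨X, Y⟩) := by
    rw [wrong_sq]
    have h1 := mul_nonneg hs harea
    have hYX : X ^ 2 ≤ Y ^ 2 := by nlinarith
    nlinarith [sq_nonneg ((1 - x) - (X - x)), sq_nonneg (y - Y), sq_nonneg (2 * X - x),
      sq_nonneg (3 * x - 2)]
  rw [Complex.normSq_eq_norm_sq] at hn
  nlinarith [norm_nonneg ((⟨x, 0⟩ : ℂ) + om ^ 2 * ⟨1, y⟩ + om * ⟨X, Y⟩)]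

/-- **end game**: with the lower bound `‖T'‖ ≥ a` for one domain, `κ` is small, and then `T` is small
for all domains -/
theorem dich_end {T κ c : ℂ} {a δ : ℝ} (hc : 0 < ‖c‖) (ha : 0 < a) (hδ : δ ≤ a / 2)
    (hκ : ‖κ‖ * a ≤ ‖c‖ * δ) (hT : ‖(c + κ) * T‖ ≤ ‖c‖ * δ) : ‖T‖ ≤ 2 * δ := by
  have h1 : ‖κ‖ ≤ ‖c‖ / 2 := by
    have : ‖κ‖ * a ≤ ‖c‖ / 2 * a := by nlinarith
    exact le_of_mul_le_mul_right this ha
  have h2 : ‖c‖ / 2 ≤ ‖c + κ‖ := by
    have := norm_sub_le_norm_add c κ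
    linarith
  rw [norm_mul] at hT
  have h3 : ‖c‖ / 2 * ‖T‖ ≤ ‖c‖ * δ :=
    (mul_le_mul_of_nonneg_right h2 (norm_nonneg _)).trans hT
  have h4 : ‖c‖ / 2 * ‖T‖ ≤ ‖c‖ / 2 * (2 * δ) := by linarith
  exact le_of_mul_le_mul_left h4 (by linarith)

end Crest.Agent.R143.Dichx222
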