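import Crest.Agent.R143.B0_346

/-!
# Row 143 (S0194), route without part A: the final algebra (helper434, after 782, 848, 660)

`m k` : mean end point on the arc `A k` of a net with three marks (counterclockwise).
* `Zp m = m 0 + om m 1 + om² m 2` (proportional to `T(U)`), `Zm m = m 0 + om² m 1 + om m 2`
* `Dm m i` : mean displacement `m (i+2) - m (i+1)` of the crossing block of the type `i`
* `i3_Dm` : `i √3 D i = om^i Zm - om^(-i) Zp`
* `conv` : the unit square with marks at three corners has `1/6 ≤ ‖Zm‖²` (no percolation input)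
* `dich` : if `om^(-i) Zp = κ D i + O(e)`, `i = 0,1,2`, with ONE `κ` for the square and for `m`,
  then `Zp m = O(e)`
-/

set_option autoImplicit false

noncomputable section

namespace Crest.Agent.R143.Dichx434

open Crest.Agent.R143.B0x346

theorem om_re : om.re = -1 / 2 := by
  have h : om = Complex.exp (((2 * Real.pi / 3 : ℝ) : ℂ) * Complex.I) := rfl
  rw [h, Complex.exp_ofReal_mul_I_re]
  have h1 : (2 * Real.pi / 3 : ℝ) = Real.pi - Real.pi / 3 := by ring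
  rw [h1, Real.cos_pi_sub, Real.cos_pi_div_three]
  norm_num

theorem om_im : om.im = Real.sqrt 3 / 2 := by
  have h : om = Complex.exp (((2 * Real.pi / 3 : ℝ) : ℂ) * Complex.I) := rfl
  rw [h, Complex.exp_ofReal_mul_I_im]
  have h1 : (2 * Real.pi / 3 : ℝ) = Real.pi - Real.pi / 3 := by ring
  rw [h1, Real.sin_pi_sub, Real.sin_pi_div_three]

theorem om_sq : om ^ 2 = -1 - om := by
  have h3 : Real.sqrt 3 * Real.sqrt 3 = 3 := Real.mul_self_sqrt (by norm_num)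
  apply Complex.ext
  · rw [sq, Complex.mul_re, om_re, om_im]
    simp only [Complex.sub_re, Complex.neg_re, Complex.one_re, om_re]
    nlinarith
  · rw [sq, Complex.mul_im, om_re, om_im]
    simp only [Complex.sub_im, Complex.neg_im, Complex.one_im, om_im]
    ring

theorem om_cube : om ^ 3 = 1 := by
  have h : om ^ 3 = om * om ^ 2 := by ring
  rw [h, om_sq]
  have h2 : om * (-1 - om) = -om - om ^ 2 := by ring
  rw [h2, om_sq]
  ring

theorem norm_om : ‖om‖ = 1 := Complex.norm_exp_ofReal_mul_I _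

/-- proportional to `T(U)` -/
def Zp (m : ZMod 3 → ℂ) : ℂ := m 0 + om * m 1 + om ^ 2 * m 2

/-- the combination which vanishes in the wrong case -/
def Zm (m : ZMod 3 → ℂ) : ℂ := m 0 + om ^ 2 * m 1 + om * m 2

/-- mean displacement of the crossing block of the type `i` -/
def Dm (m : ZMod 3 → ℂ) (i : ZMod 3) : ℂ := m (i + 2) - m (i + 1)

theorem om_i3 : om - om ^ 2 = Complex.I * (Real.sqrt 3 : ℝ) := by
  rw [om_sq]
  apply Complex.ext
  · simp only [Complex.sub_re, Complex.neg_re, Complex.one_re, om_re, Complex.mul_re,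
      Complex.I_re, Complex.I_im, Complex.ofReal_re, Complex.ofReal_im]
    norm_num
  · simp only [Complex.sub_im, Complex.neg_im, Complex.one_im, om_im, Complex.mul_im,
      Complex.I_re, Complex.I_im, Complex.ofReal_re, Complex.ofReal_im]
    ring

/-- `i √3 D i = om^i Zm - om^(-i) Zp` -/
theorem i3_Dm (m : ZMod 3 → ℂ) (i : ZMod 3) :
    (om - om ^ 2) * Dm m i = omz i * Zm m - omz (-i) * Zp m := by
  have h3 := om_cube
  have h4 : om ^ 4 = om := by
    have : om ^ 4 = om ^ 3 * om := by ring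
    rw [this, h3, one_mul]
  have e1 : (1 : ZMod 3).val = 1 := rfl
  have e2 : (2 : ZMod 3).val = 2 := rfl
  unfold Dm Zm Zp omz
  fin_cases i
  · show (om - om ^ 2) * (m (0 + 2) - m (0 + 1)) =
      om ^ (0 : ZMod 3).val * _ - om ^ (-0 : ZMod 3).val * _
    have a1 : (0 : ZMod 3) + 2 = 2 := rfl
    have a2 : (0 : ZMod 3) + 1 = 1 := rfl
    have a3 : (-0 : ZMod 3) = 0 := rfl
    have a4 : (0 : ZMod 3).val = 0 := rfl
    rw [a1, a2, a3, a4]
    ring
  · show (om - om ^ 2) * (m (1 + 2) - m (1 + 1)) =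
      om ^ (1 : ZMod 3).val * _ - om ^ (-1 : ZMod 3).val * _
    have a1 : (1 : ZMod 3) + 2 = 0 := rfl
    have a2 : (1 : ZMod 3) + 1 = 2 := rfl
    have a3 : (-1 : ZMod 3) = 2 := rfl
    rw [a1, a2, a3, e1, e2]
    linear_combination m 2 * h4
  · show (om - om ^ 2) * (m (2 + 2) - m (2 + 1)) =
      om ^ (2 : ZMod 3).val * _ - om ^ (-2 : ZMod 3).val * _
    have a1 : (2 : ZMod 3) + 2 = 1 := rfl
    have a2 : (2 : ZMod 3) + 1 = 0 := rfl
    have a3 : (-2 : ZMod 3) = 1 := rfl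
    rw [a1, a2, a3, e1, e2]
    linear_combination (-m 1) * h4

/-- `‖Zm‖² + ‖Zp‖² = ∑ ‖m i - m j‖²` -/
theorem Zsum (m : ZMod 3 → ℂ) : ‖Zm m‖ ^ 2 + ‖Zp m‖ ^ 2 =
    ‖m 0 - m 1‖ ^ 2 + ‖m 1 - m 2‖ ^ 2 + ‖m 2 - m 0‖ ^ 2 := by
  have h3 : Real.sqrt 3 * Real.sqrt 3 = 3 := Real.mul_self_sqrt (by norm_num)
  have h2 : Real.sqrt 3 ^ 2 = 3 := by rw [sq]; exact h3
  unfold Zm Zp
  rw [om_sq]
  simp only [← Complex.normSq_eq_norm_sq, Complex.normSq_apply, Complex.add_re, Complex.add_im,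
    Complex.sub_re, Complex.sub_im, Complex.mul_re, Complex.mul_im, Complex.neg_re, Complex.neg_im,
    Complex.one_re, Complex.one_im, om_re, om_im]
  ring_nf
  rw [h2]
  ring

/-- `‖Zm‖² - ‖Zp‖² = 2 √3` times the oriented area (twice) of the triangle `m` -/
theorem Zdiff (m : ZMod 3 → ℂ) : ‖Zm m‖ ^ 2 - ‖Zp m‖ ^ 2 =
    2 * Real.sqrt 3 * cr (m 1 - m 0) (m 2 - m 0) := by
  have h3 : Real.sqrt 3 * Real.sqrt 3 = 3 := Real.mul_self_sqrt (by norm_num)
  have h2 : Real.sqrt 3 ^ 2 = 3 := by rw [sq]; exact h3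
  unfold Zm Zp cr
  rw [om_sq]
  simp only [← Complex.normSq_eq_norm_sq, Complex.normSq_apply, Complex.add_re, Complex.add_im,
    Complex.sub_re, Complex.sub_im, Complex.mul_re, Complex.mul_im, Complex.neg_re, Complex.neg_im,
    Complex.one_re, Complex.one_im, om_re, om_im]
  ring_nf

/-- **the wrong case is excluded by convexity** (660): a rectangle-like region with three marks;
`m 0` on the bottom side, `m 1` on the right side, `m 2` above the diagonal -/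
theorem conv (m : ZMod 3 → ℂ) (h0 : (m 0).im = 0) (h0' : 0 ≤ (m 0).re) (h0'' : (m 0).re ≤ 1)
    (h1 : (m 1).re = 1) (h1' : 0 ≤ (m 1).im) (h1'' : (m 1).im ≤ 1)
    (h2 : (m 2).re ≤ (m 2).im) (h2' : 0 ≤ (m 2).re) (h2'' : (m 2).im ≤ 1) :
    1 / 6 ≤ ‖Zm m‖ ^ 2 := by
  have hs : 0 < Real.sqrt 3 := by positivity
  have e1 := Zsum m
  have e2 := Zdiff m
  have hcr : 0 ≤ cr (m 1 - m 0) (m 2 - m 0) := by
    unfold cr
    simp only [Complex.sub_re, Complex.sub_im, h0, h1]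
    nlinarith [mul_nonneg h0' h1', mul_nonneg (sub_nonneg.2 h0'') (sub_nonneg.2 h1''),
      mul_nonneg (sub_nonneg.2 h0'') (sub_nonneg.2 h2), mul_nonneg h1' (sub_nonneg.2 h2),
      mul_nonneg (sub_nonneg.2 h0'') h2', mul_nonneg h1' h2',
      mul_nonneg h0' (sub_nonneg.2 h2''), mul_nonneg (sub_nonneg.2 h1'') h2']
  have h5 : 1 / 3 ≤ ‖m 0 - m 1‖ ^ 2 + ‖m 1 - m 2‖ ^ 2 + ‖m 2 - m 0‖ ^ 2 := by
    simp only [← Complex.normSq_eq_norm_sq, Complex.normSq_apply, Complex.sub_re, Complex.sub_im,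
      h0, h1]
    nlinarith [sq_nonneg ((m 0).re - 1), sq_nonneg (1 - (m 2).re + ((m 1).im - (m 2).im)),
      sq_nonneg ((m 2).re - (m 0).re), sq_nonneg ((m 2).im), sq_nonneg (3 * (m 1).im - 1)]
  have h6 : 0 ≤ 2 * Real.sqrt 3 * cr (m 1 - m 0) (m 2 - m 0) := by positivity
  linarith

theorem norm_j : ‖om - om ^ 2‖ = Real.sqrt 3 := by
  rw [om_i3, norm_mul, Complex.norm_I, one_mul, Complex.norm_real, Real.norm_eq_abs,
    abs_of_nonneg (Real.sqrt_nonneg _)]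

/-- the two identities behind the dichotomy -/
theorem alg {κ e0 e1 : ℂ} {m : ZMod 3 → ℂ} (h0 : Zp m = κ * Dm m 0 + e0)
    (h1 : om ^ 2 * Zp m = κ * Dm m 1 + e1) :
    κ * (1 - om ^ 2) * Zm m = (om - om ^ 2) * (om * e1 - e0) ∧
      (om - om ^ 2 + κ) * Zp m = κ * Zm m + (om - om ^ 2) * e0 := by
  have h3 := om_cube
  have a0 : (om - om ^ 2) * Dm m 0 = Zm m - Zp m := by
    have h := i3_Dm m 0
    have b1 : omz 0 = 1 := by
      unfold omz
      show om ^ 0 = 1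
      simp
    rw [neg_zero, b1, one_mul, one_mul] at h
    exact h
  have a1 : (om - om ^ 2) * Dm m 1 = om * Zm m - om ^ 2 * Zp m := by
    have h := i3_Dm m 1
    have b1 : omz 1 = om := by
      unfold omz
      show om ^ 1 = om
      simp
    have b2 : omz (-1) = om ^ 2 := rfl
    rw [b1, b2] at h
    exact h
  constructor
  · linear_combination -(κ * (a0 - om * a1)) - (om - om ^ 2) * (h0 - om * h1) -
      ((om - om ^ 2) * Zp m + κ * Zp m) * h3
  · linear_combination (om - om ^ 2) * h0 + κ * a0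

/-- **dichotomy**: `κ ‖Zm‖` is small -/
theorem kappa_small {κ : ℂ} {m : ZMod 3 → ℂ} {e : ℝ}
    (h0 : ‖Zp m - κ * Dm m 0‖ ≤ e) (h1 : ‖om ^ 2 * Zp m - κ * Dm m 1‖ ≤ e) :
    ‖κ‖ * ‖Zm m‖ ≤ 2 * e ∧ ‖om - om ^ 2 + κ‖ * ‖Zp m‖ ≤ 4 * e := by
  have he : 0 ≤ e := (norm_nonneg _).trans h0
  have hs : 0 < Real.sqrt 3 := by positivity
  have hs2 : Real.sqrt 3 ≤ 2 := by
    rw [Real.sqrt_le_left (by norm_num)]
    norm_num
  obtain ⟨k1, k2⟩ := alg (κ := κ) (m := m) (e0 := Zp m - κ * Dm m 0)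
    (e1 := om ^ 2 * Zp m - κ * Dm m 1) (by ring) (by ring)
  have hj2 : ‖(1 : ℂ) - om ^ 2‖ = Real.sqrt 3 := by
    have h3 := om_cube
    have h4 : (1 : ℂ) - om ^ 2 = -om * (om - om ^ 2) := by
      linear_combination (-1 : ℂ) * h3
    rw [h4, norm_mul, norm_j, norm_neg, norm_om, one_mul]
  have k3 : ‖κ‖ * Real.sqrt 3 * ‖Zm m‖ ≤ Real.sqrt 3 * (e + e) := by
    have h := congrArg norm k1
    rw [norm_mul, norm_mul, hj2, norm_mul, norm_j] at h
    rw [h]
    refine mul_le_mul_of_nonneg_left ((norm_sub_le _ _).trans ?_) hs.le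
    rw [norm_mul, norm_om, one_mul]
    exact add_le_add h1 h0
  have k4 : ‖κ‖ * ‖Zm m‖ ≤ 2 * e := by
    have h : Real.sqrt 3 * (‖κ‖ * ‖Zm m‖) ≤ Real.sqrt 3 * (2 * e) := by nlinarith
    exact le_of_mul_le_mul_left h hs
  refine ⟨k4, ?_⟩
  rw [← norm_mul, k2]
  refine (norm_add_le _ _).trans ?_
  rw [norm_mul, norm_mul, norm_j]
  have h5 : Real.sqrt 3 * ‖Zp m - κ * Dm m 0‖ ≤ 2 * e :=
    mul_le_mul hs2 h0 (norm_nonneg _) (by norm_num)
  linarith

/-- **the right alternative**: one net `m0` with `s ≤ ‖Zm m0‖` decides for all -/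
theorem dich {κ : ℂ} {m0 m : ZMod 3 → ℂ} {e s : ℝ} (hs : s ≤ ‖Zm m0‖) (he : 4 * e < s)
    (h0 : ‖Zp m0 - κ * Dm m0 0‖ ≤ e) (h1 : ‖om ^ 2 * Zp m0 - κ * Dm m0 1‖ ≤ e)
    (g0 : ‖Zp m - κ * Dm m 0‖ ≤ e) (g1 : ‖om ^ 2 * Zp m - κ * Dm m 1‖ ≤ e) :
    ‖Zp m‖ ≤ 4 * e := by
  have he0 : 0 ≤ e := (norm_nonneg _).trans h0
  have hs0 : 0 < s := by linarith
  have hk : ‖κ‖ ≤ 1 / 2 := by
    have h := (kappa_small h0 h1).1
    by_contra hc
    push Not at hc
    have : 1 / 2 * s < ‖κ‖ * ‖Zm m0‖ := by nlinarith [norm_nonneg κ]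
    linarith
  have h2 := (kappa_small g0 g1).2
  have h3 : 1 ≤ ‖om - om ^ 2 + κ‖ := by
    have h4 := norm_sub_norm_le (om - om ^ 2) (-κ)
    rw [norm_neg, sub_neg_eq_add, norm_j] at h4
    have h5 : (3 / 2 : ℝ) ≤ Real.sqrt 3 := Real.le_sqrt_of_sq_le (by norm_num)
    linarith
  nlinarith [norm_nonneg (Zp m)]

end Crest.Agent.R143.Dichx434
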