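import Crest.Agent.R143.DisI_749
import Crest.Agent.R143.RigZ_609

/-!
# Row 143 (S0194), RIG: the field `dis` of 609's `Op` (helper749)

* `num_a`, `num_ab`, `num_b0`, `num_b` : the numbers of `TData` (`A' = 12 η`, `B' = 52 η`, `h = 100 η`)
* **`disU`** : `DisU Z u w hN he` for all `N ≥ u.n + 4`, `ε > 0`; **`dis_ev`** : the field `dis`
* `CW_off_Wn`, `off_Wn_ev` : the corridor is off the window `Wn u ε`; `CW_UU` : it is in `UU u`
* `hS_CW` : the sites of the corridor are in `SU u ε ω`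
-/

set_option autoImplicit false
set_option linter.unusedSectionVars false

noncomputable section

open scoped Classical

namespace Crest.Agent.R143.DisZx749

open MeasureTheory Set Filter Topology
open Crest.ProbabilityR.Voronoi
open Crest.Agent.R143.PP0x831 Crest.Agent.R143.B0x346
open Crest.Agent.R143.MeasPx609 Crest.Agent.R143.PolyUx346
open Crest.Agent.R143.CorEx133 Crest.Agent.R143.LayUx416
open Crest.Agent.R143.TileRx228 Crest.Agent.R143.CorNx765
open Crest.Agent.R143.RigPx854 Crest.Agent.R143.RigZdx609 Crest.Agent.R143.RigZx609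
open Crest.Agent.R143.DisIx749

variable (Z : TData) {N : ℕ} {ε : ℝ} {u : Poly} {w : ZMod 3}

theorem num_a (N : ℕ) (ε : ℝ) : (Z.D N ε).A' < hN N := by
  have h1 := et_pos N
  rw [(Z.num N ε).A', ← et_h N]
  linarith

theorem num_gap (N : ℕ) (ε : ℝ) : hN N - (Z.D N ε).A' = 88 * et N := by
  rw [(Z.num N ε).A', ← et_h N]
  ring

theorem num_ab (N : ℕ) (ε : ℝ) : (Z.D N ε).A' ≤ (Z.D N ε).B' := by
  have h1 := et_pos N
  rw [(Z.num N ε).A', (Z.num N ε).B']
  linarith

theorem num_b0 (N : ℕ) (ε : ℝ) : 0 ≤ (Z.D N ε).B' := by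
  have h1 := et_pos N
  rw [(Z.num N ε).B']
  linarith

theorem num_b (N : ℕ) (ε : ℝ) : (Z.D N ε).B' ≤ hN N := by
  have h1 := et_pos N
  rw [(Z.num N ε).B', ← et_h N]
  linarith

theorem CW_eq' (hn : u.n + 4 ≤ N) (he : 0 < ε) :
    CW Z u w hn he = Rall (Z.D N ε).A' (Z.D N ε).B' (hN N) (ly u N).W := by
  rw [CW_eq, Z.h_eq]

theorem CW_UU (hn : u.n + 4 ≤ N) (he : 0 < ε) : CW Z u w hn he ⊆ UU u := by
  rw [CW_eq']
  exact sub_UU (ly_spec hn) (mN_hN (by omega)) (num_a Z N ε) (num_ab Z N ε) (num_b0 Z N ε)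
    (num_b Z N ε)

/-- **the field `dis`** -/
theorem disU (hn : u.n + 4 ≤ N) (he : 0 < ε) : DisU Z u w hn he where
  dis := by
    rw [CW_eq']
    exact off_P (ly_spec hn) (mN_hN (by omega)) (num_a Z N ε) (num_ab Z N ε) (num_b0 Z N ε)
      (num_b Z N ε)
  sub := (CW_UU Z hn he).trans UU_RU

/-- **the field `dis` of `Op`** -/
theorem dis_ev (u : Poly) (w : ZMod 3) : Ev u fun _ _ hn he => DisU Z u w hn he :=
  Eventually.of_forall fun _ => Eventually.of_forall fun _ hn he => disU Z hn he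

/-- the corridor is off the window of the touches -/
theorem CW_off_Wn (hn : u.n + 4 ≤ N) (he : 0 < ε) (h : 100 * √ε < 88 * et N) :
    Disjoint (CW Z u w hn he) (Wn u ε) := by
  rw [CW_eq']
  refine off_Wn (ly_spec hn) (mN_hN (by omega)) (num_a Z N ε) (num_ab Z N ε) (num_b0 Z N ε)
    (num_b Z N ε) ?_
  rw [num_gap]
  exact h

theorem off_Wn_ev (u : Poly) (w : ZMod 3) :
    Ev u fun _ ε hn he => Disjoint (CW Z u w hn he) (Wn u ε) := by
  refine Eventually.of_forall fun N => ?_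
  have h1 := et_pos N
  filter_upwards [sqrt_small (c := 88 * et N / 200) (by linarith)] with ε h2 hn he
  exact CW_off_Wn Z hn he (by linarith)

/-- the sites of the corridor are in `SU` -/
theorem hS_CW (hn : u.n + 4 ≤ N) (he : 0 < ε) (ω : Sample) :
    (SU u ε ω : Set ℂ) ⊆ points ε ω ∧ points ε ω ∩ CW Z u w hn he ⊆ SU u ε ω :=
  hS_SU he (disU Z hn he).sub ω

end Crest.Agent.R143.DisZx749
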