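import Crest.Agent.R143.Disp_951

/-!
# Row 143 (S0194), CONT, (K7), MARK : labels near the first half of a mark edge (helper951)

* `near_fh` : near `FH u b` neither the position label nor the label of an edge is `b + 1`
* `near_md` : near the middle of the edge `j` only the edge `j`
-/

set_option autoImplicit false

noncomputable section

open scoped Classical

namespace Crest.Agent.R143.Dispx951

open Set
open Crest.Agent.R158.Sp896 (V lc rc pt ed sq Cyc)
open Crest.Agent.R143.PolyUx346 (Poly)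
open Crest.Agent.R143.ArcPx571 Crest.Agent.R143.K7Dx359

variable {u : Poly} {l : V → V → ZMod 3}

/-- the first half of the mark edge in parameters -/
theorem mem_FH {b : Fin 3} {y : ℂ} : y ∈ FH u b ↔ ∃ t : ℝ, 0 ≤ t ∧ t ≤ 1 / 2 ∧ y = bp u (u.k b) t := by
  unfold FH
  rw [mid_eq, ← ep_zero, bp, seg_ep, segment_eq_Icc (by norm_num : (0 : ℝ) ≤ 1 / 2)]
  constructor
  · rintro ⟨t, ht, rfl⟩
    exact ⟨t, ht.1, ht.2, rfl⟩
  · rintro ⟨t, h0, h1, rfl⟩
    exact ⟨t, ⟨h0, h1⟩, rfl⟩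

/-- sup distance from norm -/
theorem sup_lt {z w : ℂ} {r : ℝ} (h : ‖z - w‖ < r) : |z.re - w.re| < r ∧ |z.im - w.im| < r := by
  constructor
  · rw [← Complex.sub_re]
    exact lt_of_le_of_lt (Complex.abs_re_le_norm _) h
  · rw [← Complex.sub_im]
    exact lt_of_le_of_lt (Complex.abs_im_le_norm _) h

theorem near_pt {x : ℂ} {T : Set ℂ} (hT : T.Nonempty) {r r' : ℝ} (h : Metric.infDist x T ≤ r)
    (hr : r < r') : ∃ y ∈ T, ‖x - y‖ < r' := by
  obtain ⟨y, hy, h1⟩ := (Metric.infDist_lt_iff hT).1 (lt_of_le_of_lt h hr)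
  exact ⟨y, hy, by rwa [← dist_eq_norm]⟩

/-- a boundary point near the first half of the mark edge `b` -/
theorem fh_edge {b : Fin 3} {κ : ℕ} {t t' : ℝ} (h0 : 0 ≤ t) (h1 : t ≤ 1 / 2) (h0' : 0 ≤ t')
    (h1' : t' ≤ 1) (hd : ‖bp u (u.k b) t - bp u κ t'‖ < u.s / 2) :
    u.k b ≡ κ [MOD u.L] ∨ (κ + 1 ≡ u.k b [MOD u.L] ∧ 1 / 2 < t') := by
  have hs := u.s_pos
  have C := u.cyc
  obtain ⟨hre, him⟩ := sup_lt hd
  rcases ep_sep C hs h0 (by linarith) h0' h1' (by linarith) (by linarith) with g | g | g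
  · exact Or.inl g
  · exfalso
    rw [bp, bp, ← ep_mod C g t'] at hre him
    rcases nb_sep C hs (u.k b) (by linarith) h0' (Or.inl h1) with g1 | g1 <;> linarith
  · right
    refine ⟨g.symm, ?_⟩
    by_contra hcon
    push Not at hcon
    rw [bp, bp, ep_mod C g t, abs_sub_comm] at hre
    rw [bp, bp, ep_mod C g t, abs_sub_comm] at him
    rcases nb_sep C hs κ h1' h0 (Or.inl hcon) with g1 | g1 <;> linarith

theorem fin3_cases (b j : Fin 3) : j = b ∨ ((j : ℕ) : ZMod 3) = ((b : ℕ) : ZMod 3) + 2 ∨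
    ((j : ℕ) : ZMod 3) = ((b : ℕ) : ZMod 3) + 1 := by
  revert b j; decide

/-- the edges with the label of the arc `j` -/
theorem near_edge (h : Int3 u l) {b : Fin 3} {x : ℂ}
    (hx : Metric.infDist x (FH u b) ≤ 3 / 16 * u.s) {κ : ℕ}
    (hκ : Metric.infDist x (ed u.s (u.v κ) (u.v (κ + 1))) ≤ u.s / 8) :
    l (u.v κ) (u.v (κ + 1)) ≠ ((b : ℕ) : ZMod 3) + 1 := by
  have hs := u.s_pos
  obtain ⟨y, hy, hxy⟩ := near_pt (FH_nonempty u b) hx (by linarith : 3 / 16 * u.s < 1 / 5 * u.s)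
  obtain ⟨z, hz, hxz⟩ := near_pt ⟨_, left_mem_segment ℝ _ _⟩ hκ (by linarith : u.s / 8 < 1 / 5 * u.s)
  obtain ⟨t, t0, t1, rfl⟩ := mem_FH.1 hy
  obtain ⟨t', t0', t1', rfl⟩ := mem_ed.1 hz
  have hd : ‖bp u (u.k b) t - bp u κ t'‖ < u.s / 2 := by
    have e : bp u (u.k b) t - bp u κ t' = -(x - bp u (u.k b) t) + (x - ep u.s u.v κ t') := by
      unfold bp; ring
    rw [e]
    refine lt_of_le_of_lt (norm_add_le _ _) ?_
    rw [norm_neg]
    linarith
  rcases fh_edge t0 t1 t0' t1' hd with g | ⟨g, -⟩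
  · have := lb_at h b g.symm
    unfold lb at this
    rw [this]
    exact z3b b
  · have := lb_prev h b g
    unfold lb at this
    rw [this]
    exact z3d b

/-- the position label near the first half of the mark edge -/
theorem near_lab' {b : Fin 3} {x : ℂ} (hx : Metric.infDist x (FH u b) ≤ 3 / 16 * u.s) :
    u.Lab x ≠ ((b : ℕ) : ZMod 3) + 1 := by
  have hs := u.s_pos
  intro hcon
  obtain ⟨j, hnear, hlab, -⟩ := Poly.near_lab (u := u) x
  rw [hlab] at hcon
  obtain ⟨y, hy, hxy⟩ := near_pt (FH_nonempty u b) hx (by linarith : 3 / 16 * u.s < 1 / 5 * u.s)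
  obtain ⟨t, t0, t1, rfl⟩ := mem_FH.1 hy
  obtain ⟨i, hi⟩ := cover_arc (u := u) (u.k b) t0 (by linarith)
  have h2 : Metric.infDist x (u.Arc j) < 1 / 5 * u.s := by
    refine lt_of_le_of_lt (hnear i) (lt_of_le_of_lt (Metric.infDist_le_dist_of_mem hi) ?_)
    rw [dist_eq_norm]; exact hxy
  have hne' : (u.Arc j).Nonempty := by
    refine ⟨bp u (u.k j) (1 / 2), arc_iff.2 ⟨u.k j, 1 / 2, by norm_num, by norm_num, le_rfl, ?_, rfl⟩⟩
    have : (u.k j : ℝ) ≤ u.k' j := by exact_mod_cast (k_lt j).le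
    linarith
  obtain ⟨z, hz, hxz⟩ := (Metric.infDist_lt_iff hne').1 h2
  rw [dist_eq_norm] at hxz
  obtain ⟨a, t', t0', t1', ha, ha', rfl⟩ := arc_iff.1 hz
  have hd : ‖bp u (u.k b) t - bp u a t'‖ < u.s / 2 := by
    have e : bp u (u.k b) t - bp u a t' = -(x - bp u (u.k b) t) + (x - bp u a t') := by ring
    rw [e]
    refine lt_of_le_of_lt (norm_add_le _ _) ?_
    rw [norm_neg]
    linarith
  have a1 : u.k j ≤ a := by
    by_contra hcon
    push Not at hcon
    have : (a : ℝ) + 1 ≤ u.k j := by exact_mod_cast hcon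
    linarith
  have a2 : a ≤ u.k' j := by
    by_contra hcon
    push Not at hcon
    have : (u.k' j : ℝ) + 1 ≤ a := by exact_mod_cast hcon
    linarith
  have k1 := u.k01
  have k2 := u.k12
  have k3 := u.k20
  have e0 : u.k' 0 = u.k 1 := by unfold Poly.k'; simp
  have e1 : u.k' 1 = u.k 2 := by unfold Poly.k'; simp
  have e2 : u.k' 2 = u.k 0 + u.L := by unfold Poly.k'; simp
  -- an index in an interval of length `< L`
  have uniq : ∀ p q : ℕ, p ≡ q [MOD u.L] → q ≤ p → p < q + u.L → p = q := by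
    intro p q h1 h2 h3
    have h4 : u.L ∣ p - q := (Nat.modEq_iff_dvd' h2).1 h1.symm
    have h5 : p - q = 0 := Nat.eq_zero_of_dvd_of_lt h4 (by omega)
    omega
  rcases fh_edge t0 t1 t0' t1' hd with g | ⟨g, g'⟩
  · -- the arc `b + 1` does not contain points of the edge `k b`
    have hb3 : b = 0 ∨ b = 1 ∨ b = 2 := by omega
    have hj3 : j = 0 ∨ j = 1 ∨ j = 2 := by omega
    rcases hb3 with rfl | rfl | rfl <;> rcases hj3 with rfl | rfl | rfl
    all_goals first
      | exact absurd hcon (by decide)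
      | skip
    · -- b = 0, j = 1
      rw [e1] at a2
      have := uniq a (u.k 0) g.symm (by omega) (by omega)
      omega
    · -- b = 1, j = 2
      rw [e2] at a2
      have := uniq a (u.k 1) g.symm (by omega) (by omega)
      omega
    · -- b = 2, j = 0
      rw [e0] at a2
      have h1 : a + u.L ≡ u.k 2 [MOD u.L] := by
        refine Nat.ModEq.trans ?_ g.symm
        show (a + u.L) % u.L = a % u.L
        simp
      have := uniq (a + u.L) (u.k 2) h1 (by omega) (by omega)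
      omega
  · -- the edge before the mark edge: only its second half is near
    have hb3 : b = 0 ∨ b = 1 ∨ b = 2 := by omega
    have hj3 : j = 0 ∨ j = 1 ∨ j = 2 := by omega
    rcases hb3 with rfl | rfl | rfl <;> rcases hj3 with rfl | rfl | rfl
    all_goals first
      | exact absurd hcon (by decide)
      | skip
    · -- b = 0, j = 1 : `a + 1 ≡ k 0`, `k 1 ≤ a ≤ k 2`
      rw [e1] at a2 ha'
      have h1 : a + 1 = u.k 0 + u.L := by
        have h2 : a + 1 ≡ u.k 0 + u.L [MOD u.L] := by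
          refine g.trans ?_
          show u.k 0 % u.L = (u.k 0 + u.L) % u.L
          simp
        rcases Nat.lt_or_ge (a + 1) (u.k 0 + u.L) with h3 | h3
        · have := uniq (u.k 0 + u.L) (a + 1) h2.symm (by omega) (by omega)
          omega
        · omega
      have h3 : a = u.k 2 := by omega
      have h4 : (a : ℝ) = u.k 2 := by rw [h3]
      linarith
    · -- b = 1, j = 2 : `a + 1 ≡ k 1`, `k 2 ≤ a ≤ k 0 + L`
      rw [e2] at a2 ha'
      have h1 : a + 1 = u.k 1 + u.L := by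
        have h2 : a + 1 ≡ u.k 1 + u.L [MOD u.L] := by
          refine g.trans ?_
          show u.k 1 % u.L = (u.k 1 + u.L) % u.L
          simp
        have := uniq (u.k 1 + u.L) (a + 1) h2.symm (by omega) (by omega)
        omega
      have h3 : a = u.k 0 + u.L := by omega
      have h4 : (a : ℝ) = ((u.k 0 + u.L : ℕ) : ℝ) := by rw [h3]
      linarith
    · -- b = 2, j = 0 : `a + 1 ≡ k 2`, `k 0 ≤ a ≤ k 1`
      rw [e0] at a2 ha'
      have h1 : a + 1 = u.k 2 := by
        have := uniq (u.k 2) (a + 1) g.symm (by omega) (by omega)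
        omega
      have h3 : a = u.k 1 := by omega
      have h4 : (a : ℝ) = u.k 1 := by rw [h3]
      linarith

/-- **near the first half of the mark edge `b` there is no label `b + 1`** -/
theorem near_fh (h : Int3 u l) {b : Fin 3} {x : ℂ}
    (hx : Metric.infDist x (FH u b) ≤ 3 / 16 * u.s) :
    u.Lab x ≠ ((b : ℕ) : ZMod 3) + 1 ∧
      ∀ κ, Metric.infDist x (ed u.s (u.v κ) (u.v (κ + 1))) ≤ u.s / 8 →
        l (u.v κ) (u.v (κ + 1)) ≠ ((b : ℕ) : ZMod 3) + 1 :=
  ⟨near_lab' hx, fun _ hκ => near_edge h hx hκ⟩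

/-- **near the middle of the edge `j` there is only the edge `j`** -/
theorem near_md {j κ : ℕ} {x : ℂ} (hx : ‖x - u.mid j‖ ≤ u.s / 8)
    (hκ : Metric.infDist x (ed u.s (u.v κ) (u.v (κ + 1))) ≤ u.s / 8) :
    j ≡ κ [MOD u.L] := by
  have hs := u.s_pos
  obtain ⟨z, hz, hxz⟩ := near_pt ⟨_, left_mem_segment ℝ _ _⟩ hκ (by linarith : u.s / 8 < 1 / 5 * u.s)
  obtain ⟨t', t0', t1', rfl⟩ := mem_ed.1 hz
  have hd : ‖ep u.s u.v κ t' - u.mid j‖ < u.s / 2 := by
    have e : ep u.s u.v κ t' - u.mid j = -(x - ep u.s u.v κ t') + (x - u.mid j) := by ring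
    rw [e]
    refine lt_of_le_of_lt (norm_add_le _ _) ?_
    rw [norm_neg]
    linarith
  obtain ⟨hre, him⟩ := sup_lt hd
  rw [mid_eq, bp] at hre him
  exact mid_sep u.cyc hs t0' t1' hre him

theorem near_md_lb {j κ : ℕ} {x : ℂ} (hx : ‖x - u.mid j‖ ≤ u.s / 8)
    (hκ : Metric.infDist x (ed u.s (u.v κ) (u.v (κ + 1))) ≤ u.s / 8) :
    l (u.v κ) (u.v (κ + 1)) = l (u.v j) (u.v (j + 1)) :=
  lb_mod (near_md hx hκ).symm

end Crest.Agent.R143.Dispx951
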