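import Crest.Agent.R143.TlA_58
import Crest.Agent.R143.MeasD_609

/-!
# Row 143 (S0194), RIG: the field `disp` of `EnvIx279.Inp.env` for the frozen polygons (helper840)

On 798's core `Disp_798` and 58's tiles `TlA_58`.

* `tel'` : 798's telescoping with positions `a ≤ b + c'`
* `nuq` : no unique hit triple; `fracQ` : fraction of the colourings without unique hit
* `dispB`, `dispQ` : 798's `dispV` for tile functions `tx`, `ty` of the end points
* **`disp_env`** : one environment, any window `Wd`, tiles `ta`, `tb` of 58;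
  `zl l = gate l - gate (l + 1)` since `D w = m (w + 2) - m (w + 1) = y - x`
* **`disp_DI`** : 609's `DI` (window `u.P`)
* **`disp_field`** : the hypotheses `idd`, `edd`, `disp` of `Inp.env`
-/

set_option autoImplicit false
set_option linter.unusedSectionVars false

noncomputable section

open scoped Classical

namespace Crest.Agent.R143.DispIx840

open MeasureTheory Filter Topology
open Crest.ProbabilityR.Voronoi
open Crest.Agent.R143.B0x346 Crest.Agent.R143.NetUx346 Crest.Agent.R143.NetVx346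
open Crest.Agent.R143.PolyUx346
open Crest.Agent.R143.Dispx798
open Crest.Agent.R143.IndLoc3x279 (clr cav)
open Crest.Agent.R143.FinTx609 (Sf Sf_clr bl_clr ps_clr)
open Crest.Agent.R143.FinUx609 (hitsV_inter exC_all)
open Crest.Agent.R143.MeasPx609 (Wn yP)
open Crest.Agent.R143.EnvIx279 (qo onF)

/-! ### telescoping with slack -/

section tel

variable {g : ℕ → ℂ} {h : ℝ} {n : ℕ}

theorem norm_tel (hh : ∀ k < n, ‖g (k + 1) - g k‖ ≤ h) {b a : ℕ} (hab : b ≤ a) (ha : a ≤ n) :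
    ‖g a - g b‖ ≤ ((a - b : ℕ) : ℝ) * h := by
  obtain ⟨t, rfl⟩ := Nat.exists_eq_add_of_le hab
  rw [Nat.add_sub_cancel_left]
  clear hab
  induction t with
  | zero => simp
  | succ t ih =>
    have h1 := ih (by omega)
    have h2 := hh (b + t) (by omega)
    have e : g (b + (t + 1)) - g b = (g (b + t + 1) - g (b + t)) + (g (b + t) - g b) := by
      rw [← add_assoc]; ring
    rw [e]
    refine (norm_add_le _ _).trans ?_
    push_cast
    linarith

theorem tel' {zz : ℕ → ℂ} {J : Finset ℕ} (hJ : J ⊆ Finset.range n)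
    (hz : ∀ k ∈ J, zz k = g (k + 1) - g k) (hh : ∀ k < n, ‖g (k + 1) - g k‖ ≤ h) (hh0 : 0 ≤ h)
    {a b c' : ℕ} (ha : a ≤ n) (hb : b ≤ n) (hab : a ≤ b + c') :
    ‖(g b - g a) - ∑ k ∈ J, zz k * (Dispx798.btw a b k : ℂ)‖ ≤
      (((Finset.range n \ J).card : ℝ) + c') * h := by
  have p1 : 0 ≤ ((Finset.range n \ J).card : ℝ) * h := by positivity
  have p2 : 0 ≤ (c' : ℝ) * h := by positivity
  rcases le_or_gt a b with h1 | h1
  · have := tel hJ hz hh h1 hb
    linarith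
  · have e : ∑ k ∈ J, zz k * (Dispx798.btw a b k : ℂ) = 0 := by
      refine Finset.sum_eq_zero fun k _ => ?_
      have : Dispx798.btw a b k = 0 := by
        unfold Dispx798.btw
        rw [if_neg (by omega)]
      rw [this]
      simp
    rw [e, sub_zero, ← norm_neg, neg_sub]
    have h2 := norm_tel hh h1.le ha
    have h3 : ((a - b : ℕ) : ℝ) ≤ c' := by
      have : a - b ≤ c' := by omega
      exact_mod_cast this
    have h4 := mul_le_mul_of_nonneg_right h3 hh0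
    linarith

end tel

/-! ### one environment, colourings of `V` -/

section one

variable {S V : Finset ℂ} {B : ZMod 3 → Set ℂ}

/-- no unique hit triple of the type `j` in the colouring `T` -/
def nuq (S V : Finset ℂ) (B : ZMod 3 → Set ℂ) (j : ZMod 3) (T : Set ℂ) : Prop :=
  (hitsV S V B j T).card ≠ 1

/-- fraction of the colourings without unique hit -/
def fracQ (S V : Finset ℂ) (B : ZMod 3 → Set ℂ) (j : ZMod 3) : ℝ :=
  frac V fun T => nuq S V B j (T : Set ℂ)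

theorem frac_nonneg (V : Finset ℂ) (bad : Finset ℂ → Prop) : 0 ≤ frac V bad := by
  unfold frac
  refine div_nonneg (Finset.sum_nonneg fun T _ => ?_) (by positivity)
  split_ifs <;> norm_num

theorem frac_le_one (V : Finset ℂ) (bad : Finset ℂ → Prop) : frac V bad ≤ 1 := by
  unfold frac
  have h4 : (0 : ℝ) < 2 ^ V.card := by positivity
  rw [div_le_one h4]
  refine (Finset.sum_le_card_nsmul _ _ (1 : ℝ) fun T _ => ?_).trans ?_
  · split_ifs <;> norm_num
  · rw [Finset.card_powerset, nsmul_eq_mul, mul_one]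
    push_cast
    exact le_rfl

theorem frac_mono {V : Finset ℂ} {p q : Finset ℂ → Prop} (h : ∀ T ⊆ V, p T → q T) :
    frac V p ≤ frac V q := by
  unfold frac
  refine div_le_div_of_nonneg_right (Finset.sum_le_sum fun T hT => ?_) (by positivity)
  have hT' := Finset.mem_powerset.1 hT
  by_cases hp : p T
  · rw [if_pos hp, if_pos (h T hT' hp)]
  · rw [if_neg hp]
    split_ifs <;> norm_num

theorem frac_or {V : Finset ℂ} {p q : Finset ℂ → Prop} :
    frac V (fun T => p T ∨ q T) ≤ frac V p + frac V q := by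
  unfold frac
  rw [← add_div, ← Finset.sum_add_distrib]
  refine div_le_div_of_nonneg_right (Finset.sum_le_sum fun T _ => ?_) (by positivity)
  by_cases hp : p T
  · rw [if_pos (Or.inl hp), if_pos hp]
    split_ifs <;> norm_num
  · by_cases hq : q T
    · rw [if_pos (Or.inr hq), if_neg hp, if_pos hq]
      norm_num
    · rw [if_neg (by tauto), if_neg hp, if_neg hq]
      norm_num

theorem frac_compl {V : Finset ℂ} (p : Finset ℂ → Prop) :
    frac V (fun T => p (V \ T)) = frac V p := by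
  unfold frac
  congr 1
  refine Finset.sum_nbij' (fun T => V \ T) (fun T => V \ T) ?_ ?_ ?_ ?_ ?_
  · intro T _
    exact Finset.mem_powerset.2 Finset.sdiff_subset
  · intro T _
    exact Finset.mem_powerset.2 Finset.sdiff_subset
  · intro T hT
    exact Finset.sdiff_sdiff_eq_self (Finset.mem_powerset.1 hT)
  · intro T hT
    exact Finset.sdiff_sdiff_eq_self (Finset.mem_powerset.1 hT)
  · intro T _
    rfl

/-- the value at a unique hit is the value at a point of the class -/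
theorem zV_mem {j : ZMod 3} {T : Set ℂ} (h : ¬ nuq S V B j T) : zV S V B j T id ∈ B j := by
  unfold nuq at h
  push Not at h
  unfold zV
  rw [if_pos h]
  obtain ⟨t, ht⟩ := Finset.card_eq_one.1 h
  rw [ht, Finset.sum_singleton]
  have : t ∈ hitsV S V B j T := by rw [ht]; exact Finset.mem_singleton_self t
  exact (mem_hitsV.1 this).2.1

/-- **798's `dispV` for tile functions `tx`, `ty` of the end points** -/
theorem dispB {g : ℕ → ℂ} {zz : ℕ → ℂ} {h c M : ℝ} {n c' : ℕ} {J : Finset ℕ}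
    (hJ : J ⊆ Finset.range n) (hz : ∀ k ∈ J, zz k = g (k + 1) - g k)
    (hh : ∀ k < n, ‖g (k + 1) - g k‖ ≤ h) (hh0 : 0 ≤ h) (hc : 0 ≤ c) (hM : 0 ≤ M)
    (w : ZMod 3) (tx ty : ℂ → ℕ) (txn : ∀ v, tx v ≤ n) (tyn : ∀ v, ty v ≤ n)
    (hx : ∀ v ∈ B (w + 1), ‖v - g (tx v)‖ ≤ c)
    (hy : ∀ v ∈ B (w + 2), ‖v - g (ty v)‖ ≤ c)
    (hxy : ∀ v ∈ B (w + 2), ∀ v' ∈ B (w + 1), ty v ≤ tx v' + c')
    (hB : ∀ j, ∀ v ∈ B j, ‖v‖ ≤ M) (bad : Finset ℂ → Prop)
    (hb : ∀ T ⊆ V, ¬ bad T → xV S V B w T ∈ B (w + 1) ∧ yV S V B w T ∈ B (w + 2)) :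
    ‖(EV S V B id (w + 1) - EV S V B id (w + 2)) -
        ∑ k ∈ J, zz k * exC V (fun T => ((Dispx798.btw (ty (yV S V B w T)) (tx (xV S V B w T)) k : ℝ) : ℂ))‖ ≤
      (2 * c + (((Finset.range n \ J).card : ℝ) + c') * h) + (2 * M + n * h) * frac V bad := by
  have e : (EV S V B id (w + 1) - EV S V B id (w + 2)) -
        ∑ k ∈ J, zz k * exC V (fun T => ((Dispx798.btw (ty (yV S V B w T)) (tx (xV S V B w T)) k : ℝ) : ℂ)) =
      exC V fun T => (xV S V B w T - yV S V B w T) -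
        ∑ k ∈ J, zz k * ((Dispx798.btw (ty (yV S V B w T)) (tx (xV S V B w T)) k : ℝ) : ℂ) := by
    rw [EV_x, EV_y, exC_sub, exC_sub, exC_sum]
    congr 1
    exact Finset.sum_congr rfl fun k _ => (exC_mul _ _ _).symm
  rw [e]
  refine norm_exC_bad bad (by positivity) (by positivity) (fun T hT hn => ?_) fun T hT _ => ?_
  · obtain ⟨m1, m2⟩ := hb T hT hn
    have h1 := hx _ m1
    have h2 := hy _ m2
    have h5 := tel' hJ hz hh hh0 (tyn (yV S V B w T)) (txn (xV S V B w T)) (hxy _ m2 _ m1)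
    set a := ty (yV S V B w T)
    set b := tx (xV S V B w T)
    have e2 : (xV S V B w T - yV S V B w T) - ∑ k ∈ J, zz k * ((Dispx798.btw a b k : ℝ) : ℂ) =
        (xV S V B w T - g b) - (yV S V B w T - g a) +
          ((g b - g a) - ∑ k ∈ J, zz k * ((Dispx798.btw a b k : ℝ) : ℂ)) := by ring
    rw [e2]
    refine (norm_add_le _ _).trans ?_
    have h6 := norm_sub_le (xV S V B w T - g b) (yV S V B w T - g a)
    linarith
  · have h5 : ‖∑ k ∈ J, zz k * ((Dispx798.btw (ty (yV S V B w T)) (tx (xV S V B w T)) k : ℝ) : ℂ)‖ ≤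
        n * h := by
      refine (norm_sum_le _ _).trans ?_
      have h6 : ∑ k ∈ J, ‖zz k * ((Dispx798.btw (ty (yV S V B w T)) (tx (xV S V B w T)) k : ℝ) : ℂ)‖ ≤
          ∑ k ∈ J, h := by
        refine Finset.sum_le_sum fun k hk => ?_
        rw [norm_mul, Complex.norm_real, Real.norm_of_nonneg (btw_nonneg _ _ _), hz k hk]
        have h7 := hh k (Finset.mem_range.1 (hJ hk))
        have h8 := btw_le (ty (yV S V B w T)) (tx (xV S V B w T)) k
        have h9 := btw_nonneg (ty (yV S V B w T)) (tx (xV S V B w T)) k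
        have h10 := norm_nonneg (g (k + 1) - g k)
        nlinarith
      refine h6.trans ?_
      rw [Finset.sum_const, nsmul_eq_mul]
      refine mul_le_mul_of_nonneg_right ?_ hh0
      have := Finset.card_le_card hJ
      rw [Finset.card_range] at this
      exact_mod_cast this
    have h3 : ‖xV S V B w T‖ ≤ M := norm_zV hM (hB _)
    have h4 : ‖yV S V B w T‖ ≤ M := norm_zV hM (hB _)
    have h6 := norm_sub_le (xV S V B w T - yV S V B w T)
      (∑ k ∈ J, zz k * ((Dispx798.btw (ty (yV S V B w T)) (tx (xV S V B w T)) k : ℝ) : ℂ))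
    have h7 := norm_sub_le (xV S V B w T) (yV S V B w T)
    linarith

/-- the same, error = fraction of the colourings without unique hit -/
theorem dispQ {g : ℕ → ℂ} {zz : ℕ → ℂ} {h c M : ℝ} {n c' : ℕ} {J : Finset ℕ}
    (hJ : J ⊆ Finset.range n) (hz : ∀ k ∈ J, zz k = g (k + 1) - g k)
    (hh : ∀ k < n, ‖g (k + 1) - g k‖ ≤ h) (hh0 : 0 ≤ h) (hc : 0 ≤ c) (hM : 0 ≤ M)
    (w : ZMod 3) (tx ty : ℂ → ℕ) (txn : ∀ v, tx v ≤ n) (tyn : ∀ v, ty v ≤ n)
    (hx : ∀ v ∈ B (w + 1), ‖v - g (tx v)‖ ≤ c)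
    (hy : ∀ v ∈ B (w + 2), ‖v - g (ty v)‖ ≤ c)
    (hxy : ∀ v ∈ B (w + 2), ∀ v' ∈ B (w + 1), ty v ≤ tx v' + c')
    (hB : ∀ j, ∀ v ∈ B j, ‖v‖ ≤ M) :
    ‖(EV S V B id (w + 1) - EV S V B id (w + 2)) -
        ∑ k ∈ J, zz k * exC V (fun T => ((Dispx798.btw (ty (yV S V B w T)) (tx (xV S V B w T)) k : ℝ) : ℂ))‖ ≤
      (2 * c + (((Finset.range n \ J).card : ℝ) + c') * h) +
        (2 * M + n * h) * (fracQ S V B (w + 1) + fracQ S V B (w + 2)) := by
  have h1 := dispB hJ hz hh hh0 hc hM w tx ty txn tyn hx hy hxy hB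
    (fun T => nuq S V B (w + 1) (T : Set ℂ) ∨ nuq S V B (w + 2) ((V \ T : Finset ℂ) : Set ℂ))
    fun T _ hn => by
      simp only [not_or] at hn
      exact ⟨zV_mem hn.1, zV_mem hn.2⟩
  refine h1.trans (add_le_add le_rfl ?_)
  refine mul_le_mul_of_nonneg_left ?_ (by positivity)
  refine frac_or.trans (le_of_eq ?_)
  unfold fracQ
  rw [frac_compl fun T : Finset ℂ => nuq S V B (w + 2) (T : Set ℂ)]

end one

/-! ### the environment -/

section env

open Crest.Agent.R143.TlAx58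
open Crest.Agent.R143.TileRx228 (FPath gz ge gz_succ norm_ge)
open Crest.Agent.R143.Layx416 (Lay rr nn al)
open Crest.Agent.R143.Dbl2x609 (Ap coe_Ap)
open Crest.Agent.R143.MeasDx609 (mI DI)
open Crest.Agent.R143.MeasPx609 (isCompact_P)

variable {u : Poly} {N M : ℕ} {m : ℤ} {p W : ℤ → ℤ × ℤ} {A e : ℤ → ℤ} {ε d h : ℝ} {Wd : Set ℂ}
  {w : ZMod 3}

/-- displacement of the tile `l`, against the corridor: `D w = y - x` -/
def zl (h : ℝ) (W : ℤ → ℤ × ℤ) (A e : ℤ → ℤ) (w : ZMod 3) (l : ℕ) : ℂ :=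
  gt h W A e w l - gt h W A e w (l + 1)

theorem norm_gt_succ (P : FPath M W) (hh : 0 ≤ h) (k : ℕ) :
    ‖gt h W A e w (k + 1) - gt h W A e w k‖ ≤ h := by
  unfold gt
  have e1 : al A e w + ((k + 1 : ℕ) : ℤ) = al A e w + k + 1 := by push_cast; ring
  rw [e1, gz_succ, add_sub_cancel_left, norm_mul, Complex.norm_real, Real.norm_of_nonneg hh,
    norm_div, Complex.norm_ofNat]
  have h1 := norm_add_le (ge W (al A e w + k)) (ge W (al A e w + k + 1))
  rw [norm_ge P, norm_ge P] at h1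
  have h2 : ‖ge W (al A e w + k) + ge W (al A e w + k + 1)‖ / 2 ≤ 1 := by linarith
  calc _ ≤ h * 1 := mul_le_mul_of_nonneg_left h2 hh
    _ = h := mul_one h

/-- **one environment**: window `Wd`, tiles of 58 -/
theorem disp_env (H : Lay N M m p W A e) (hh : 0 ≤ h) {J : Finset ℕ}
    (hJ : J ⊆ Finset.range (nn A e w)) {c R : ℝ} (hc : 0 ≤ c) (hR : 0 ≤ R)
    (S : Sample → Finset ℂ) (ω : Sample)
    (hx : ∀ v ∈ Bw u d Wd (S ω) (w + 1),
      dist (gt h W A e w (tlz (gt h W A e w) (rr A e w) (nn A e w) v)) v ≤ c)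
    (hy : ∀ v ∈ Bw u d Wd (S ω) (w + 2),
      dist (gt h W A e w (tlz (gt h W A e w) 0 (rr A e w) v)) v ≤ c)
    (hB : ∀ j, ∀ v ∈ Bw u d Wd (S ω) j, ‖v‖ ≤ R) :
    ‖(EV (Sw Wd (S ω)) (Vw u d Wd (S ω)) (Bw u d Wd (S ω)) id (w + 2) -
        EV (Sw Wd (S ω)) (Vw u d Wd (S ω)) (Bw u d Wd (S ω)) id (w + 1)) -
        ∑ l ∈ J, zl h W A e w l *
          ((qo S (ta u d h Wd W A e w) (tb u d h Wd W A e w) l ω : ℝ) : ℂ)‖ ≤
      (2 * c + ((Finset.range (nn A e w) \ J).card : ℝ) * h) + (2 * R + nn A e w * h) *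
        (fracQ (Sw Wd (S ω)) (Vw u d Wd (S ω)) (Bw u d Wd (S ω)) (w + 1) +
          fracQ (Sw Wd (S ω)) (Vw u d Wd (S ω)) (Bw u d Wd (S ω)) (w + 2)) := by
  have hrn := rr_le_nn w H
  have h1 := dispQ (S := Sw Wd (S ω)) (V := Vw u d Wd (S ω)) (B := Bw u d Wd (S ω))
    (g := gt h W A e w) (zz := fun k => gt h W A e w (k + 1) - gt h W A e w k) (h := h) (c := c)
    (M := R) (n := nn A e w) (c' := 0) (J := J) hJ (fun _ _ => rfl)
    (fun k _ => norm_gt_succ H.fp hh k) hh hc hR w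
    (fun v => tlz (gt h W A e w) (rr A e w) (nn A e w) v)
    (fun v => tlz (gt h W A e w) 0 (rr A e w) v)
    (fun v => tlz_le _ hrn _) (fun v => (tlz_le _ (Nat.zero_le _) _).trans hrn)
    (fun v hv => by rw [← dist_eq_norm, dist_comm]; exact hx v hv)
    (fun v hv => by rw [← dist_eq_norm, dist_comm]; exact hy v hv)
    (fun v _ v' _ => by
      rw [add_zero]
      exact (tlz_le _ (Nat.zero_le _) _).trans (le_tlz _ hrn _)) hB
  have e1 : (EV (Sw Wd (S ω)) (Vw u d Wd (S ω)) (Bw u d Wd (S ω)) id (w + 2) -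
        EV (Sw Wd (S ω)) (Vw u d Wd (S ω)) (Bw u d Wd (S ω)) id (w + 1)) -
        ∑ l ∈ J, zl h W A e w l *
          ((qo S (ta u d h Wd W A e w) (tb u d h Wd W A e w) l ω : ℝ) : ℂ) =
      -((EV (Sw Wd (S ω)) (Vw u d Wd (S ω)) (Bw u d Wd (S ω)) id (w + 1) -
        EV (Sw Wd (S ω)) (Vw u d Wd (S ω)) (Bw u d Wd (S ω)) id (w + 2)) -
        ∑ k ∈ J, (gt h W A e w (k + 1) - gt h W A e w k) *
          exC (Vw u d Wd (S ω)) (fun T => ((Dispx798.btw
            (tlz (gt h W A e w) 0 (rr A e w) (yV (Sw Wd (S ω)) (Vw u d Wd (S ω))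
              (Bw u d Wd (S ω)) w T))
            (tlz (gt h W A e w) (rr A e w) (nn A e w) (xV (Sw Wd (S ω)) (Vw u d Wd (S ω))
              (Bw u d Wd (S ω)) w T)) k : ℝ) : ℂ))) := by
    have e2 : ∑ l ∈ J, zl h W A e w l *
          ((qo S (ta u d h Wd W A e w) (tb u d h Wd W A e w) l ω : ℝ) : ℂ) =
        -∑ k ∈ J, (gt h W A e w (k + 1) - gt h W A e w k) *
          exC (Vw u d Wd (S ω)) (fun T => ((Dispx798.btw
            (tlz (gt h W A e w) 0 (rr A e w) (yV (Sw Wd (S ω)) (Vw u d Wd (S ω))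
              (Bw u d Wd (S ω)) w T))
            (tlz (gt h W A e w) (rr A e w) (nn A e w) (xV (Sw Wd (S ω)) (Vw u d Wd (S ω))
              (Bw u d Wd (S ω)) w T)) k : ℝ) : ℂ)) := by
      rw [← Finset.sum_neg_distrib]
      refine Finset.sum_congr rfl fun l _ => ?_
      rw [TlAx58.qo_exC]
      unfold zl ca cb
      ring
    rw [e2]
    ring
  rw [e1, norm_neg]
  simpa using h1

/-- sites of the window `u.P` -/
theorem Sw_eq (hε : 0 < ε) {S : Finset ℂ} {ω : Sample} (h1 : (S : Set ℂ) ⊆ points ε ω)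
    (h2 : points ε ω ∩ u.P ⊆ S) : Sw u.P S = Ap ε u.P ω := by
  rw [← Finset.coe_inj, coe_Ap hε (isCompact_P u).isBounded]
  ext x
  simp only [Sw, Finset.coe_filter, Set.mem_ofPred_eq, Set.mem_inter_iff]
  exact ⟨fun h => ⟨h1 h.1, h.2⟩, fun h => ⟨h2 h, h.2⟩⟩

/-- free sites and labels of the points in `u.P` -/
def Vp (u : Poly) (ε : ℝ) (ω : Sample) : Finset ℂ := Vin (Ap ε u.P ω) u.P √ε
def Bp (u : Poly) (ε : ℝ) (ω : Sample) : ZMod 3 → Set ℂ :=
  NetVx346.Bl (Ap ε u.P ω) (Vp u ε ω) u.Lab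

theorem DI_eq (u : Poly) (ε : ℝ) (ω : Sample) (w : ZMod 3) :
    DI u ε ω w = EV (Ap ε u.P ω) (Vp u ε ω) (Bp u ε ω) id (w + 2) -
      EV (Ap ε u.P ω) (Vp u ε ω) (Bp u ε ω) id (w + 1) := rfl

theorem Bp_P (hε : 0 < ε) {ω : Sample} {j : ZMod 3} {v : ℂ} (hv : v ∈ Bp u ε ω j) : v ∈ u.P := by
  have h1 : v ∈ (Ap ε u.P ω : Set ℂ) := hv.1
  rw [coe_Ap hε (isCompact_P u).isBounded] at h1
  exact h1.2

/-- **`disp` for 609's `DI`**, one environment -/
theorem disp_DI (hε : 0 < ε) (H : Lay N M m p W A e) (hh : 0 ≤ h) {J : Finset ℕ}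
    (hJ : J ⊆ Finset.range (nn A e w)) {c R : ℝ} (hc : 0 ≤ c) (hR : 0 ≤ R)
    (hRP : ∀ v ∈ u.P, ‖v‖ ≤ R) (S : Sample → Finset ℂ) (ω : Sample)
    (h1 : (S ω : Set ℂ) ⊆ points ε ω) (h2 : points ε ω ∩ u.P ⊆ S ω)
    (hx : ∀ v ∈ Bp u ε ω (w + 1),
      dist (gt h W A e w (tlz (gt h W A e w) (rr A e w) (nn A e w) v)) v ≤ c)
    (hy : ∀ v ∈ Bp u ε ω (w + 2),
      dist (gt h W A e w (tlz (gt h W A e w) 0 (rr A e w) v)) v ≤ c) :
    ‖DI u ε ω w - ∑ l ∈ J, zl h W A e w l *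
          ((qo S (ta u √ε h u.P W A e w) (tb u √ε h u.P W A e w) l ω : ℝ) : ℂ)‖ ≤
      (2 * c + ((Finset.range (nn A e w) \ J).card : ℝ) * h) + (2 * R + nn A e w * h) *
        (fracQ (Ap ε u.P ω) (Vp u ε ω) (Bp u ε ω) (w + 1) +
          fracQ (Ap ε u.P ω) (Vp u ε ω) (Bp u ε ω) (w + 2)) := by
  have hS := Sw_eq hε h1 h2
  have eV : Vw u √ε u.P (S ω) = Vp u ε ω := by
    unfold Vw Vp
    rw [hS]
  have eB : Bw u √ε u.P (S ω) = Bp u ε ω := by
    unfold Bw Bp
    rw [hS, eV]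
  have h3 := disp_env (u := u) (d := √ε) (Wd := u.P) (w := w) H hh hJ hc hR S ω
    (by rw [eB]; exact hx) (by rw [eB]; exact hy)
    (by rw [eB]; exact fun j v hv => hRP v (Bp_P hε hv))
  rw [hS, eV, eB] at h3
  rw [DI_eq]
  exact h3

/-- **the hypotheses `disp`, `idd`, `edd` of `EnvIx279.Inp.env`** -/
theorem disp_field (hε : 0 < ε) (H : Lay N M m p W A e) (hh : 0 ≤ h) {J : Finset ℕ}
    (hJ : J ⊆ Finset.range (nn A e w)) {c R θ : ℝ} (hc : 0 ≤ c) (hR : 0 ≤ R) (hθ : 0 ≤ θ)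
    (hRP : ∀ v ∈ u.P, ‖v‖ ≤ R) (S : Sample → Finset ℂ)
    (hS : ∀ᵐ ω ∂sampleLaw, (S ω : Set ℂ) ⊆ points ε ω ∧ points ε ω ∩ u.P ⊆ S ω)
    (hx : ∀ᵐ ω ∂sampleLaw, ∀ v ∈ Bp u ε ω (w + 1),
      dist (gt h W A e w (tlz (gt h W A e w) (rr A e w) (nn A e w) v)) v ≤ c)
    (hy : ∀ᵐ ω ∂sampleLaw, ∀ v ∈ Bp u ε ω (w + 2),
      dist (gt h W A e w (tlz (gt h W A e w) 0 (rr A e w) v)) v ≤ c)
    {bad : Set Sample} (mbad : MeasurableSet bad)
    (hq : ∀ᵐ ω ∂sampleLaw, ω ∉ bad →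
      fracQ (Ap ε u.P ω) (Vp u ε ω) (Bp u ε ω) (w + 1) ≤ θ ∧
        fracQ (Ap ε u.P ω) (Vp u ε ω) (Bp u ε ω) (w + 2) ≤ θ) :
    let dd : Sample → ℝ := fun ω => (2 * c + ((Finset.range (nn A e w) \ J).card : ℝ) * h) +
      (2 * R + nn A e w * h) * (2 * θ + 2 * bad.indicator 1 ω)
    Integrable dd sampleLaw ∧
      (∫ ω, dd ω ∂sampleLaw = (2 * c + ((Finset.range (nn A e w) \ J).card : ℝ) * h) +
        (2 * R + nn A e w * h) * (2 * θ + 2 * sampleLaw.real bad)) ∧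
      ∀ᵐ ω ∂sampleLaw, ‖DI u ε ω w - ∑ l ∈ J, zl h W A e w l *
          ((qo S (ta u √ε h u.P W A e w) (tb u √ε h u.P W A e w) l ω : ℝ) : ℂ)‖ ≤ dd ω := by
  intro dd
  have : IsProbabilityMeasure sampleLaw := by unfold sampleLaw; infer_instance
  have ib : Integrable (bad.indicator (1 : Sample → ℝ)) sampleLaw :=
    (integrable_const (1 : ℝ)).indicator mbad
  have i1 : Integrable (fun ω => 2 * θ + 2 * bad.indicator 1 ω) sampleLaw :=
    (integrable_const _).add (ib.const_mul 2)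
  have i2 : Integrable (fun ω => (2 * R + nn A e w * h) * (2 * θ + 2 * bad.indicator 1 ω))
      sampleLaw := i1.const_mul _
  refine ⟨(integrable_const _).add i2, ?_, ?_⟩
  · show ∫ ω, ((2 * c + ((Finset.range (nn A e w) \ J).card : ℝ) * h) +
      (2 * R + nn A e w * h) * (2 * θ + 2 * bad.indicator 1 ω)) ∂sampleLaw = _
    have j1 : ∫ ω, bad.indicator (1 : Sample → ℝ) ω ∂sampleLaw = sampleLaw.real bad :=
      integral_indicator_one mbad
    have j2 : ∫ ω, (2 * θ + 2 * bad.indicator (1 : Sample → ℝ) ω) ∂sampleLaw =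
        2 * θ + 2 * sampleLaw.real bad := by
      rw [integral_add (integrable_const _) (ib.const_mul 2), integral_const_mul 2
        (bad.indicator (1 : Sample → ℝ)), j1]
      simp
    rw [integral_add (integrable_const _) i2, integral_const_mul, j2]
    simp
  · filter_upwards [hS, hx, hy, hq] with ω h1 h2 h3 h4
    refine (disp_DI hε H hh hJ hc hR hRP S ω h1.1 h1.2 h2 h3).trans ?_
    refine add_le_add le_rfl (mul_le_mul_of_nonneg_left ?_ (by positivity))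
    by_cases hω : ω ∈ bad
    · rw [Set.indicator_of_mem hω, Pi.one_apply]
      have q1 : fracQ (Ap ε u.P ω) (Vp u ε ω) (Bp u ε ω) (w + 1) ≤ 1 := frac_le_one _ _
      have q2 : fracQ (Ap ε u.P ω) (Vp u ε ω) (Bp u ε ω) (w + 2) ≤ 1 := frac_le_one _ _
      linarith
    · rw [Set.indicator_of_notMem hω]
      obtain ⟨q1, q2⟩ := h4 hω
      linarith

end env

end Crest.Agent.R143.DispIx840
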