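import Crest.Agent.R143.TlA_58

/-!
# Row 143 (S0194), RIG: fields `disp`, `edd`, the environments without unique hit (helper798)

The fraction of the colourings of the free sites of the polygon without a unique hit is a function
of the configuration in `U`; the corridor weight is independent of it. On `{G > 0}` off `bad` some
colouring has a corridor (`0 < g`), hence a proper net, hence the fraction is `≤ θ`. Therefore

* `exists_N` : one measurable set `N` with `P(N) g₀ ≤ P(bad)`, and off `N` the fraction is `≤ θ`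
  (no corridor is needed at `ω ∉ N`)
* `nuI u d W i X` : `0` if the hit of the type `i` is unique, `1` otherwise; `nuI_loc`, `nuI_meas`,
  `nuI_clr`, `cav_nuI` : its quenched mean is `pr V (card hitsV ≠ 1)`
* `exists_pos` : `0 < G ω` gives a colouring with `0 < g`
* **`exists_badN`** : the three types together, on 279's `Inp`
* **`dd_field`** : `‖X‖ ≤ e + C frac` off `badM`, `‖X‖ ≤ e + C` everywhere gives `dd` with
  `∫ dd ≤ e + C (θ + P(N) + P(badM))`
-/

set_option autoImplicit false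

noncomputable section

open scoped Classical

namespace Crest.Agent.R143.Eddx798

open MeasureTheory Set
open Crest.ProbabilityR.Voronoi
open Crest.Agent.R143.PP0x831 Crest.Agent.R143.Janx304 Crest.Agent.R143.Prodx609
open Crest.Agent.R143.FinMx609 Crest.Agent.R143.FinTx609 Crest.Agent.R143.FinUx609
open Crest.Agent.R143.MeasPx609
open Crest.Agent.R143.NetUx346 Crest.Agent.R143.NetVx346 Crest.Agent.R143.PolyUx346
open Crest.Agent.R143.IndLocx279 Crest.Agent.R143.IndLoc2x279
open Crest.Agent.R143.IndLoc3x279 (fs clr cav)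
open Crest.Agent.R143.EnvIx279 Crest.Agent.R143.TlAx58
open Crest.Agent.R143.Harx315 (pr)

attribute [local instance] probS

variable {ε : ℝ} {C U : Set ℂ} {n : ℕ} {S : Sample → Finset ℂ} {g : Set (ℂ × Bool) → ℝ}
  {V : ℕ → Set (ℂ × Bool) → ℂ} {a b : Set (ℂ × Bool) → ℕ}

/-! ### the set `N` -/

/-- a positive mean gives a positive value -/
theorem exists_pos {F : Set (ℂ × Bool) → ℝ} {S : Finset ℂ} (h : 0 < cav F S) :
    ∃ β, β ⊆ S ∧ 0 < F (clr S β) := by
  by_contra hcon
  push Not at hcon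
  rw [cav_av] at h
  unfold CorMx970.av at h
  have h1 : ∑ β ∈ S.powerset, F (clr S β) ≤ 0 :=
    Finset.sum_nonpos fun β hβ => hcon β (Finset.mem_powerset.1 hβ)
  have h2 : (0 : ℝ) ≤ ((S.powerset.card : ℝ))⁻¹ := by positivity
  rw [smul_eq_mul] at h
  have := mul_nonpos_of_nonneg_of_nonpos h2 h1
  linarith

/-- **the set `N` of one functional of the inside** -/
theorem exists_N (h : Inp ε C U n S g V a b) {nu : Set (ℂ × Bool) → ℝ} (nl : LocalOn U nu)
    (nm : FinMeas nu) {θ : ℝ} {bad : Set Sample} (mbad : MeasurableSet bad)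
    (H : ∀ᵐ ω ∂sampleLaw, ω ∉ bad → 0 < qG S g ω → cav nu (S ω) ≤ θ) :
    ∃ N : Set Sample, MeasurableSet N ∧ (∀ᵐ ω ∂sampleLaw, ω ∉ N → cav nu (S ω) ≤ θ) ∧
      sampleLaw.real N * ∫ ω, g (cfg ε ω) ∂sampleLaw ≤ sampleLaw.real bad := by
  obtain ⟨Y, hY, e⟩ := mz_cav h.hU nl nm h.hSU
  set N : Set Sample := {ω | θ < Y ω} with hN
  have mN' : MeasurableSet[sig ε U] N := hY measurableSet_Ioi
  have mN : MeasurableSet N := sig_le h.hε h.hU h.hUb _ mN'
  refine ⟨N, mN, ?_, ?_⟩
  · filter_upwards [e] with ω hω hn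
    have hω' : cav nu (S ω) = Y ω := hω
    rw [hω']
    exact not_lt.1 hn
  · have i1 : Integrable (N.indicator (fun _ => (1 : ℝ))) sampleLaw :=
      (integrable_const (1 : ℝ)).indicator mN
    have z1 : Mz ε U (N.indicator (fun _ => (1 : ℝ))) :=
      mz_of (measurable_const.indicator mN')
    obtain ⟨i2, e2⟩ := prod_int h.hε h.hC h.hCb h.hU h.hUb h.hd h.mzG z1 h.iG i1
    have e3 : ∫ ω, N.indicator (fun _ => (1 : ℝ)) ω ∂sampleLaw = sampleLaw.real N :=
      integral_indicator_one mN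
    rw [h.eG, e3] at e2
    have i3 : Integrable (bad.indicator (fun _ => (1 : ℝ))) sampleLaw :=
      (integrable_const (1 : ℝ)).indicator mbad
    have key : ∫ ω, qG S g ω * N.indicator (fun _ => (1 : ℝ)) ω ∂sampleLaw ≤
        ∫ ω, bad.indicator (fun _ => (1 : ℝ)) ω ∂sampleLaw := by
      refine integral_mono_ae i2 i3 ?_
      filter_upwards [e, H] with ω hω hH
      have hω' : cav nu (S ω) = Y ω := hω
      have q0 : 0 ≤ qG S g ω := cav_nonneg h.g0 _
      have q1 : qG S g ω ≤ 1 := cav_le_one h.g1 _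
      by_cases hb : ω ∈ bad
      · rw [indicator_of_mem hb]
        have h3 : N.indicator (fun _ => (1 : ℝ)) ω ≤ 1 :=
          indicator_le_self' (fun _ _ => zero_le_one) ω
        have h4 : 0 ≤ N.indicator (fun _ => (1 : ℝ)) ω :=
          indicator_nonneg (fun _ _ => zero_le_one) ω
        nlinarith
      · rw [indicator_of_notMem hb]
        by_cases hn : ω ∈ N
        · rw [indicator_of_mem hn, mul_one]
          by_contra hq
          have h5 := hH hb (not_le.1 hq)
          rw [hω'] at h5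
          exact absurd hn (not_lt.2 h5)
        · rw [indicator_of_notMem hn, mul_zero]
    have e4 : ∫ ω, bad.indicator (fun _ => (1 : ℝ)) ω ∂sampleLaw = sampleLaw.real bad :=
      integral_indicator_one mbad
    rw [e4, e2] at key
    rw [mul_comm]
    exact key

/-! ### uniqueness of the hit -/

/-- `0` if the hit of the type `i` is unique, `1` otherwise -/
def nuI (u : Poly) (d : ℝ) (W : Set ℂ) (i : ZMod 3) (X : Set (ℂ × Bool)) : ℝ :=
  if yP u d W (fun _ => 1) i X = 1 then 0 else 1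

variable {u : Poly} {d : ℝ} {W : Set ℂ} {i : ZMod 3}

theorem nuI_01 (X : Set (ℂ × Bool)) : 0 ≤ nuI u d W i X ∧ nuI u d W i X ≤ 1 := by
  unfold nuI; split_ifs <;> norm_num

theorem nuI_loc : LocalOn W (nuI u d W i) := by
  intro X
  have h1 := loc_yP u d W (fun _ => 1) i X
  simp only [nuI]
  rw [← h1]

theorem nuI_meas (hW : MeasurableSet W) : FinMeas (nuI u d W i) := by
  intro k
  have h1 := fme_yP u d hW (z := fun _ => (1 : ℂ)) measurable_const i k
  have h2 : Measurable fun z : ℂ => if z = 1 then (0 : ℝ) else 1 :=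
    Measurable.ite (measurableSet_singleton _) measurable_const measurable_const
  exact h2.comp h1

/-- `zV` of the constant `1` -/
theorem zV_one {S V : Finset ℂ} {B : ZMod 3 → Set ℂ} {T : Set ℂ} :
    zV S V B i T (fun _ => 1) = 1 ↔ (hitsV S V B i T).card = 1 := by
  unfold zV
  split_ifs with h
  · rw [Finset.sum_const, h, one_smul]
    exact ⟨fun _ => rfl, fun _ => rfl⟩
  · exact ⟨fun h0 => absurd h0 (by norm_num), fun h0 => absurd h0 h⟩

theorem nuI_clr {S β : Finset ℂ} (hβ : β ⊆ S) : nuI u d W i (clr S β) =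
    if (hitsV (Sw W S) (Vw u d W S) (Bw u d W S) i
      ((β ∩ Vw u d W S : Finset ℂ) : Set ℂ)).card = 1 then 0 else 1 := by
  unfold nuI
  rw [yP_clr i hβ]
  exact if_congr zV_one rfl rfl

/-- fraction of the colourings without unique hit of the type `i` -/
def fU (u : Poly) (d : ℝ) (W : Set ℂ) (i : ZMod 3) (S : Finset ℂ) : ℝ :=
  pr (Vw u d W S) fun T => (hitsV (Sw W S) (Vw u d W S) (Bw u d W S) i (T : Set ℂ)).card ≠ 1

/-- a probability as a mean -/
theorem pr_exC (V : Finset ℂ) (P : Finset ℂ → Prop) :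
    ((pr V P : ℝ) : ℂ) = exC V fun T => (((if P T then 1 else 0 : ℝ)) : ℂ) := by
  have h1 : (Crest.Agent.R143.Harx315.nb V P : ℝ) = ∑ T ∈ V.powerset, if P T then (1 : ℝ) else 0 := by
    rw [Finset.sum_ite, Finset.sum_const_zero, add_zero, Finset.sum_const, nsmul_eq_mul, mul_one]
    rfl
  unfold pr exC
  rw [h1]
  push_cast
  rfl

/-- **the quenched mean of `nuI`** -/
theorem cav_nuI (S : Finset ℂ) : cav (nuI u d W i) S = fU u d W i S := by
  have h1 : ((cav (nuI u d W i) S : ℝ) : ℂ) = ((fU u d W i S : ℝ) : ℂ) := by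
    unfold fU
    rw [cav_ofReal, pr_exC]
    refine cav_exC Vw_sub fun β hβ => ?_
    show ((nuI u d W i (clr S β) : ℝ) : ℂ) = _
    rw [nuI_clr hβ]
    congr 1
    by_cases hc : (hitsV (Sw W S) (Vw u d W S) (Bw u d W S) i
      ((β ∩ Vw u d W S : Finset ℂ) : Set ℂ)).card = 1
    · rw [if_pos hc, if_neg (not_not.2 hc)]
    · rw [if_neg hc, if_pos hc]
  exact_mod_cast h1

theorem fU_01 (S : Finset ℂ) : 0 ≤ fU u d W i S ∧ fU u d W i S ≤ 1 := by
  rw [← cav_nuI]
  exact ⟨cav_nonneg (fun X => (nuI_01 X).1) S, cav_le_one (fun X => (nuI_01 X).2) S⟩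

/-- `Z₂` symmetry of the colourings -/
theorem fU_compl (S : Finset ℂ) : fU u d W i S = pr (Vw u d W S) fun T =>
    (hitsV (Sw W S) (Vw u d W S) (Bw u d W S) i
      ((Vw u d W S \ T : Finset ℂ) : Set ℂ)).card ≠ 1 := by
  have h1 : ((fU u d W i S : ℝ) : ℂ) = ((pr (Vw u d W S) fun T =>
    (hitsV (Sw W S) (Vw u d W S) (Bw u d W S) i
      ((Vw u d W S \ T : Finset ℂ) : Set ℂ)).card ≠ 1 : ℝ) : ℂ) := by
    unfold fU
    rw [pr_exC, pr_exC, ← Dispx798.exC_compl]
  exact_mod_cast h1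

/-- **environments without unique hits**: off `N` (of probability `≤ 3 P(bad) / g₀`) the hits of
the three types are unique for all colourings but a fraction `θ`; the hypothesis is used only at
environments with a corridor (`0 < g` for some colouring) -/
theorem exists_badN (h : Inp ε C U n S g V a b) (hW : MeasurableSet W) (hWU : W ⊆ U) {θ : ℝ}
    {bad : Set Sample} (mbad : MeasurableSet bad)
    (H : ∀ᵐ ω ∂sampleLaw, ω ∉ bad → ∀ β ⊆ S ω, 0 < g (clr (S ω) β) →
      ∀ i, fU u d W i (S ω) ≤ θ) :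
    ∃ N : Set Sample, MeasurableSet N ∧
      (∀ᵐ ω ∂sampleLaw, ω ∉ N → ∀ i, fU u d W i (S ω) ≤ θ) ∧
      sampleLaw.real N * ∫ ω, g (cfg ε ω) ∂sampleLaw ≤ 3 * sampleLaw.real bad := by
  have h1 : ∀ i : ZMod 3, ∃ N : Set Sample, MeasurableSet N ∧
      (∀ᵐ ω ∂sampleLaw, ω ∉ N → fU u d W i (S ω) ≤ θ) ∧
      sampleLaw.real N * ∫ ω, g (cfg ε ω) ∂sampleLaw ≤ sampleLaw.real bad := by
    intro i
    obtain ⟨N, m1, m2, m3⟩ := exists_N h (nu := nuI u d W i) (θ := θ)
      (TlAx58.LocalOn.mono nuI_loc hWU) (nuI_meas hW) mbad (by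
        filter_upwards [H] with ω hH hb hg
        obtain ⟨β, h2, h3⟩ := exists_pos hg
        rw [cav_nuI]
        exact hH hb β h2 h3 i)
    refine ⟨N, m1, ?_, m3⟩
    filter_upwards [m2] with ω h2 hn
    rw [← cav_nuI]
    exact h2 hn
  choose N m1 m2 m3 using h1
  refine ⟨⋃ i, N i, MeasurableSet.iUnion m1, ?_, ?_⟩
  · have := ae_all_iff.2 m2
    filter_upwards [this] with ω hω hn i
    exact hω i fun hc => hn (mem_iUnion.2 ⟨i, hc⟩)
  · have g0 : 0 ≤ ∫ ω, g (cfg ε ω) ∂sampleLaw := integral_nonneg fun ω => h.g0 _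
    have h2 : sampleLaw.real (⋃ i, N i) ≤ ∑ i : ZMod 3, sampleLaw.real (N i) :=
      measureReal_iUnion_fintype_le N
    have h3 : ∑ i : ZMod 3, sampleLaw.real (N i) * ∫ ω, g (cfg ε ω) ∂sampleLaw ≤
        ∑ i : ZMod 3, sampleLaw.real bad := Finset.sum_le_sum fun i _ => m3 i
    rw [← Finset.sum_mul, Finset.sum_const, Finset.card_univ, ZMod.card, nsmul_eq_mul] at h3
    push_cast at h3
    exact (mul_le_mul_of_nonneg_right h2 g0).trans h3

/-- **the majorant `dd`** -/
theorem dd_field {X : Sample → ℂ} {e C' θ : ℝ} {fr : Sample → ℝ} {N M : Set Sample} (he : 0 ≤ e)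
    (hC : 0 ≤ C') (hθ : 0 ≤ θ) (mN : MeasurableSet N) (mM : MeasurableSet M)
    (hN : ∀ᵐ ω ∂sampleLaw, ω ∉ N → fr ω ≤ θ)
    (h1 : ∀ᵐ ω ∂sampleLaw, ω ∉ M → ‖X ω‖ ≤ e + C' * fr ω)
    (h2 : ∀ᵐ ω ∂sampleLaw, ‖X ω‖ ≤ e + C') :
    ∃ dd : Sample → ℝ, Integrable dd sampleLaw ∧
      ∫ ω, dd ω ∂sampleLaw ≤ e + C' * (θ + sampleLaw.real N + sampleLaw.real M) ∧
      ∀ᵐ ω ∂sampleLaw, ‖X ω‖ ≤ dd ω := by
  have iN : Integrable (N.indicator (fun _ => (1 : ℝ))) sampleLaw :=
    (integrable_const (1 : ℝ)).indicator mN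
  have iM : Integrable (M.indicator (fun _ => (1 : ℝ))) sampleLaw :=
    (integrable_const (1 : ℝ)).indicator mM
  have e1 : ∫ ω, N.indicator (fun _ => (1 : ℝ)) ω ∂sampleLaw = sampleLaw.real N :=
    integral_indicator_one mN
  have e2 : ∫ ω, M.indicator (fun _ => (1 : ℝ)) ω ∂sampleLaw = sampleLaw.real M :=
    integral_indicator_one mM
  have i3 : Integrable (fun ω => N.indicator (fun _ => (1 : ℝ)) ω +
    M.indicator (fun _ => (1 : ℝ)) ω) sampleLaw := iN.add iM
  have e3 : ∫ ω, (N.indicator (fun _ => (1 : ℝ)) ω + M.indicator (fun _ => (1 : ℝ)) ω) ∂sampleLaw =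
      sampleLaw.real N + sampleLaw.real M := by
    rw [← e1, ← e2]
    exact integral_add iN iM
  have e4 : ∫ ω, ((e + C' * θ) + C' * (N.indicator (fun _ => (1 : ℝ)) ω +
      M.indicator (fun _ => (1 : ℝ)) ω)) ∂sampleLaw =
      (e + C' * θ) + C' * (sampleLaw.real N + sampleLaw.real M) := by
    rw [← e3, ← integral_const_mul]
    have e5 : ∫ _ω : Sample, (e + C' * θ) ∂sampleLaw = e + C' * θ := by
      rw [integral_const, probReal_univ, one_smul]
    conv_rhs => rw [← e5]
    exact integral_add (integrable_const _) (i3.const_mul _)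
  refine ⟨fun ω => (e + C' * θ) + C' * (N.indicator (fun _ => (1 : ℝ)) ω +
    M.indicator (fun _ => (1 : ℝ)) ω), ?_, ?_, ?_⟩
  · exact (integrable_const _).add (i3.const_mul _)
  · refine e4.le.trans (le_of_eq ?_)
    ring
  · filter_upwards [hN, h1, h2] with ω a1 a2 a3
    have n0 : 0 ≤ N.indicator (fun _ => (1 : ℝ)) ω := indicator_nonneg (fun _ _ => zero_le_one) ω
    have m0 : 0 ≤ M.indicator (fun _ => (1 : ℝ)) ω := indicator_nonneg (fun _ _ => zero_le_one) ω
    have hCθ : 0 ≤ C' * θ := mul_nonneg hC hθ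
    by_cases hn : ω ∈ N
    · rw [indicator_of_mem hn]
      nlinarith [mul_nonneg hC m0]
    by_cases hm : ω ∈ M
    · rw [indicator_of_mem hm]
      nlinarith [mul_nonneg hC n0]
    · have := a2 hm
      have h5 := mul_le_mul_of_nonneg_left (a1 hn) hC
      nlinarith [mul_nonneg hC m0, mul_nonneg hC n0]

end Crest.Agent.R143.Eddx798
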