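import Crest.Agent.R143.DispJ_840
import Crest.Agent.R143.TlH_58
import Crest.Agent.R143.Edd_798
import Crest.Agent.R143.InpJ_609
import Crest.Agent.R143.RigP_854

/-!
# Row 143 (S0194), RIG: the fields `idd`, `edd`, `disp`, final form for one `(u, type)` (helper840)

* `fq_eq_fU` : the fraction of `DispJ_840` is 798's `fU`
* **`disp_in`** : layout of 416 + 279's `Inp` (window `U ⊇ u.P`) + environment (unique hits for
  every colouring with a corridor off `bad`, `P(bad) ≤ ρ g₀`) give `dd` for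
  `DI u ε ω w`, `z l = zl l = gate l - gate (l + 1)`
* **`disp_mv`** : the same for `dI (mv u ε ω) i`, `w = i + 2`, `z l = gate (l + 1) - gate l`:
  the fields `idd`, `edd`, `disp` of 609's `l1d_of` with `c = cD ..`
* **`cD_t3`** : `c` is small in the triple limit (854's layout) if `θ`, `ρ` are
-/

set_option autoImplicit false
set_option linter.unusedSectionVars false

noncomputable section

open scoped Classical

namespace Crest.Agent.R143.DispKx840

open MeasureTheory Filter Topology Set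
open Crest.ProbabilityR.Voronoi
open Crest.Agent.R143.PP0x831
open Crest.Agent.R143.B0x346 Crest.Agent.R143.NetUx346 Crest.Agent.R143.NetVx346
open Crest.Agent.R143.PolyUx346
open Crest.Agent.R143.DispIx840 Crest.Agent.R143.DispJx840
open Crest.Agent.R143.MeasPx609 Crest.Agent.R143.MeasDx609
open Crest.Agent.R143.InpIx609 (Mb Mb_pos norm_Wn)
open Crest.Agent.R143.InpJx609 (mv dv_eq)
open Crest.Agent.R143.EnvIx279
open Crest.Agent.R143.IndLoc3x279 (clr cav)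
open Crest.Agent.R143.TlAx58
open Crest.Agent.R143.Layx416 (Lay rr nn al)
open Crest.Agent.R143.LayUx416 (LayU)
open Crest.Agent.R143.Dbl2x609 (Ap coe_Ap)
open Crest.Agent.R143.RigCx654 (dI tI)
open Crest.Agent.R143.Locx922 (Hol)
open Crest.Agent.R143.LocUx700 (deep)
open Crest.Agent.R143.Harx315 (pr)
open Crest.Agent.R143.Eddx798 (fU exists_badN)

attribute [local instance] probS

/-! ### the two fractions -/

theorem pr_frac (V : Finset ℂ) (P : Finset ℂ → Prop) : pr V P = Dispx798.frac V P := by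
  unfold pr Dispx798.frac
  have h1 : (Harx315.nb V P : ℝ) = ∑ T ∈ V.powerset, if P T then (1 : ℝ) else 0 := by
    rw [Finset.sum_ite, Finset.sum_const_zero, add_zero, Finset.sum_const, nsmul_eq_mul, mul_one]
    rfl
  rw [h1]

section one

variable {u : Poly} {ε d : ℝ} {Wd : Set ℂ} {ω : Sample}

theorem fq_eq_fU (hε : 0 < ε) (hb : Bornology.IsBounded Wd) {S : Finset ℂ}
    (h1 : (S : Set ℂ) ⊆ points ε ω) (h2 : points ε ω ∩ Wd ⊆ S) (j : ZMod 3) :
    fq u ε Wd j ω = fU u √ε Wd j S := by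
  unfold fU fq fracQ
  rw [pr_frac]
  unfold Vw Bw Vs Bs Vw Vs
  rw [Sw_eqW hε hb h1 h2]
  rfl

end one

/-! ### the field -/

/-- the displacement error -/
def cD (u : Poly) (h ε : ℝ) (n : ℕ) (J : Finset ℕ) (θ ρ : ℝ) : ℝ :=
  (2 * (8 * h + 2 * √ε) + ((Finset.range n \ J).card : ℝ) * h) +
    (2 * Mb u + n * h) * (2 * θ + 3 * ρ)

section field

variable {u : Poly} {ε h : ℝ} {m M : ℕ} {p W : ℤ → ℤ × ℤ} {A e : ℤ → ℤ} {C U : Set ℂ} {n : ℕ}
  {S : Sample → Finset ℂ} {g : Set (ℂ × Bool) → ℝ} {V : ℕ → Set (ℂ × Bool) → ℂ}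
  {a b : Set (ℂ × Bool) → ℕ}

/-- **`idd`, `edd`, `disp`** for `DI` -/
theorem disp_in (H : LayU u m M p W A e) (hm : (m : ℝ) * h = u.s) (w : ZMod 3) {J : Finset ℕ}
    (hJ : J ⊆ Finset.range (nn A e w)) (I : Inp ε C U n S g V a b) (hU : u.P ⊆ U) {θ ρ : ℝ}
    (hθ : 0 ≤ θ) {bad : Set Sample} (mbad : MeasurableSet bad)
    (g0_pos : 0 < ∫ ω, g (cfg ε ω) ∂sampleLaw)
    (hbad : sampleLaw.real bad ≤ ρ * ∫ ω, g (cfg ε ω) ∂sampleLaw)
    (uq : ∀ᵐ ω ∂sampleLaw, ω ∉ bad → ∀ β ⊆ S ω, 0 < g (clr (S ω) β) →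
      ∀ i, fU u √ε u.P i (S ω) ≤ θ) :
    ∃ dd : Sample → ℝ, Integrable dd sampleLaw ∧
      ∫ ω, dd ω ∂sampleLaw ≤ cD u h ε (nn A e w) J θ ρ ∧
      ∀ᵐ ω ∂sampleLaw, ‖DI u ε ω w - ∑ l ∈ J, zl h W A e w l *
          ((qo S (ta u √ε h u.P W A e w) (tb u √ε h u.P W A e w) l ω : ℝ) : ℂ)‖ ≤ dd ω := by
  have hε := I.hε
  have hPb := (isCompact_P u).isBounded
  have hPm := (isCompact_P u).isClosed.measurableSet
  have hh := H.h_pos hm
  have hS : ∀ᵐ ω ∂sampleLaw, (S ω : Set ℂ) ⊆ points ε ω ∧ points ε ω ∩ u.P ⊆ S ω := by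
    filter_upwards [I.hS] with ω h1
    exact ⟨h1.1, fun x hx => h1.2 ⟨hx.1, Or.inr (hU hx.2)⟩⟩
  obtain ⟨N, mN, N1, N2⟩ := exists_badN I (u := u) (d := √ε) hPm hU mbad uq
  have pN : sampleLaw.real N ≤ 3 * ρ := by
    have h1 : sampleLaw.real N * ∫ ω, g (cfg ε ω) ∂sampleLaw ≤
        (3 * ρ) * ∫ ω, g (cfg ε ω) ∂sampleLaw := by nlinarith
    exact le_of_mul_le_mul_right h1 g0_pos
  have hR : ∀ v ∈ u.P, ‖v‖ ≤ Mb u := fun v hv => norm_Wn u zero_le_one (P_sub_Wn u 0 hv)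
  obtain ⟨d1, d2, d3⟩ := disp_fieldW (u := u) (Wd := u.P) (w := w) (c := 8 * h + 2 * √ε)
    (R := Mb u) (θ := θ) (bad := N) hε H.lay hh.le hPb hJ (by positivity) (Mb_pos u).le hθ
    hR S hS mN (ae_of_all _ fun ω _ => TlHx58.hx_P hε H hm w ω)
    (ae_of_all _ fun ω _ => TlHx58.hy_P hε H hm w ω) (by
      filter_upwards [hS, N1] with ω h1 h2 h3
      have h4 := h2 h3
      rw [fq_eq_fU hε hPb h1.1 h1.2, fq_eq_fU hε hPb h1.1 h1.2]
      exact ⟨h4 _, h4 _⟩)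
  refine ⟨_, d1, d2.le.trans ?_, d3⟩
  unfold cD
  have q1 : 0 ≤ 2 * Mb u + nn A e w * h := by
    have := (Mb_pos u).le
    positivity
  have q2 := mul_le_mul_of_nonneg_left (show 2 * θ + sampleLaw.real N ≤ 2 * θ + 3 * ρ by
    linarith) q1
  linarith

/-- **`idd`, `edd`, `disp`** for 654's `dI` of the points in `P` -/
theorem disp_mv (H : LayU u m M p W A e) (hm : (m : ℝ) * h = u.s) (i : ZMod 3) {J : Finset ℕ}
    (hJ : J ⊆ Finset.range (nn A e (i + 2))) (I : Inp ε C U n S g V a b) (hU : u.P ⊆ U) {θ ρ : ℝ}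
    (hθ : 0 ≤ θ) {bad : Set Sample} (mbad : MeasurableSet bad)
    (g0_pos : 0 < ∫ ω, g (cfg ε ω) ∂sampleLaw)
    (hbad : sampleLaw.real bad ≤ ρ * ∫ ω, g (cfg ε ω) ∂sampleLaw)
    (uq : ∀ᵐ ω ∂sampleLaw, ω ∉ bad → ∀ β ⊆ S ω, 0 < g (clr (S ω) β) →
      ∀ i, fU u √ε u.P i (S ω) ≤ θ) :
    ∃ dd : Sample → ℝ, Integrable dd sampleLaw ∧
      ∫ ω, dd ω ∂sampleLaw ≤ cD u h ε (nn A e (i + 2)) J θ ρ ∧
      ∀ᵐ ω ∂sampleLaw, ‖dI (mv u ε ω) i - ∑ l ∈ J,
          (gt h W A e (i + 2) (l + 1) - gt h W A e (i + 2) l) *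
          ((qo S (ta u √ε h u.P W A e (i + 2)) (tb u √ε h u.P W A e (i + 2)) l ω : ℝ) : ℂ)‖ ≤
            dd ω := by
  obtain ⟨dd, h1, h2, h3⟩ := disp_in H hm (i + 2) hJ I hU hθ mbad g0_pos hbad uq
  refine ⟨dd, h1, h2, ?_⟩
  filter_upwards [h3] with ω h4
  rw [dv_eq]
  have e2 : ∑ l ∈ J, (gt h W A e (i + 2) (l + 1) - gt h W A e (i + 2) l) *
          ((qo S (ta u √ε h u.P W A e (i + 2)) (tb u √ε h u.P W A e (i + 2)) l ω : ℝ) : ℂ) =
      -∑ l ∈ J, zl h W A e (i + 2) l *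
          ((qo S (ta u √ε h u.P W A e (i + 2)) (tb u √ε h u.P W A e (i + 2)) l ω : ℝ) : ℂ) := by
    rw [← Finset.sum_neg_distrib]
    refine Finset.sum_congr rfl fun l _ => ?_
    rw [← neg_zl]
    ring
  rw [e2]
  have e1 : -DI u ε ω (i + 2) - -∑ l ∈ J, zl h W A e (i + 2) l *
          ((qo S (ta u √ε h u.P W A e (i + 2)) (tb u √ε h u.P W A e (i + 2)) l ω : ℝ) : ℂ) =
      -(DI u ε ω (i + 2) - ∑ l ∈ J, zl h W A e (i + 2) l *
          ((qo S (ta u √ε h u.P W A e (i + 2)) (tb u √ε h u.P W A e (i + 2)) l ω : ℝ) : ℂ)) := by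
    ring
  rw [e1, norm_neg]
  exact h4

end field

/-! ### the triple limit -/

section lim

open Crest.Agent.R143.RigPx854 Crest.Agent.R143.PolyEx854

theorem cD_le {u : Poly} (i : ZMod 3) {N : ℕ} (hN' : u.n + 4 ≤ N) {ε θ ρ : ℝ} :
    cD u (hN N) ε (nT u i N) (JT u i N) θ ρ ≤
      ((16 + (3 * u.L + 4)) * hN N + 4 * √ε) +
        (2 * Mb u + 2 * u.L * u.s) * max (2 * θ + 3 * ρ) 0 := by
  have h0 := hN_pos N
  have h1 : ((Finset.range (nT u i N) \ JT u i N).card : ℝ) ≤ 3 * u.L + 4 := by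
    have h2 := JT_card i hN'
    have h3 := Finset.card_sdiff_add_card_eq_card (JT_sub u i N)
    rw [Finset.card_range] at h3
    have h4 : ((Finset.range (nT u i N) \ JT u i N).card : ℝ) + (JT u i N).card = nT u i N := by
      exact_mod_cast h3
    linarith
  have h5 := mul_le_mul_of_nonneg_right h1 h0.le
  have h6 := nT_le i hN'
  have h7 : (2 * Mb u + nT u i N * hN N) * (2 * θ + 3 * ρ) ≤
      (2 * Mb u + 2 * u.L * u.s) * max (2 * θ + 3 * ρ) 0 := by
    have h8 : 0 ≤ 2 * Mb u + nT u i N * hN N := by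
      have := (Mb_pos u).le
      positivity
    exact (mul_le_mul_of_nonneg_left (le_max_left _ _) h8).trans
      (mul_le_mul_of_nonneg_right (by linarith) (le_max_right _ _))
  unfold cD
  linarith

/-- **the displacement error is small in the triple limit** -/
theorem cD_t3 {u : Poly} {i : ZMod 3} {θ ρ : ℝ → ℕ → ℝ → ℝ} (hθ : T3 atTop θ)
    (hρ : T3 atTop ρ) : T3 atTop fun e0 N ε =>
      cD u (hN N) ε (nT u i N) (JT u i N) (θ e0 N ε) (ρ e0 N ε) := by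
  have t1 : T3 atTop fun _ N _ => (16 + (3 * u.L + 4)) * hN N := by
    intro η hη
    refine Eventually.of_forall fun _ => ?_
    have h1 : Tendsto (fun N : ℕ => (16 + (3 * (u.L : ℝ) + 4)) * hN N) atTop (𝓝 0) := by
      have := hN_tendsto.const_mul (16 + (3 * (u.L : ℝ) + 4))
      rwa [mul_zero] at this
    filter_upwards [h1.eventually (ge_mem_nhds hη)] with N h2
    exact Eventually.of_forall fun _ => h2
  have t2 : T3 (I := ℕ) atTop fun _ _ ε => 4 * √ε := by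
    intro η hη
    refine Eventually.of_forall fun _ => Eventually.of_forall fun _ => ?_
    have h1 : Tendsto (fun ε : ℝ => 4 * √ε) (𝓝[>] 0) (𝓝 0) := by
      have h2 := ((Real.continuous_sqrt.tendsto 0).const_mul 4)
      rw [Real.sqrt_zero, mul_zero] at h2
      exact h2.mono_left nhdsWithin_le_nhds
    exact h1.eventually (ge_mem_nhds hη)
  have t3 : T3 atTop fun e0 N ε => (2 * Mb u + 2 * u.L * u.s) *
      max (2 * θ e0 N ε + 3 * ρ e0 N ε) 0 := by
    have h1 := (Mb_pos u).le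
    have h2 := u.s_pos.le
    exact (t3_max0 ((hθ.const_mul (by norm_num)).add (hρ.const_mul (by norm_num)))).const_mul
      (by positivity)
  refine ((t1.add t2).add t3).mono ?_
  refine Eventually.of_forall fun _ => ?_
  filter_upwards [eventually_ge_atTop (u.n + 4)] with N hN'
  exact Eventually.of_forall fun _ => cD_le i hN'

/-- nonnegative -/
theorem cD_nonneg {u : Poly} {h ε : ℝ} {n : ℕ} {J : Finset ℕ} {θ ρ : ℝ} (hh : 0 ≤ h)
    (hθ : 0 ≤ θ) (hρ : 0 ≤ ρ) : 0 ≤ cD u h ε n J θ ρ := by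
  unfold cD
  have := (Mb_pos u).le
  positivity

end lim

end Crest.Agent.R143.DispKx840
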