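import Crest.Agent.R143.DispK_840
import Crest.Agent.R143.RigZ_609
import Crest.Agent.R143.R10N_930

/-!
# Row 143 (S0194), RIG: the field `disp` for the objects of the last layer (helper840)

* `thU C c K u N = C (hN N / Du u K) ^ c` : 930's bound of the fraction without unique hit;
  `thU_nonneg`, `thU_t3`
* `cZ` : displacement error; `cZ_nonneg`, **`cZ_t3`**
* **`dispZ`** : white label `w`, `DI u ε ω w`, `z l = -zL u w N l`
* **`dispZ'`** : type `i = w + 1`, `dI (mv u ε ω) (w + 1)`, `z l = zL u w N l`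
* **`disp_op`** : the fields `disp`, `hcd` of 609's `Op`, from `PosP`, `mom`, `hbad` and 930's `Con`
  off `bad`
-/

set_option autoImplicit false
set_option linter.unusedSectionVars false

noncomputable section

open scoped Classical

namespace Crest.Agent.R143.DispZx840

open MeasureTheory Filter Topology Set
open Crest.ProbabilityR.Voronoi
open Crest.Agent.R143.PP0x831
open Crest.Agent.R143.B0x346 Crest.Agent.R143.NetUx346 Crest.Agent.R143.NetVx346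
open Crest.Agent.R143.PolyUx346
open Crest.Agent.R143.DispIx840 Crest.Agent.R143.DispJx840 Crest.Agent.R143.DispKx840
open Crest.Agent.R143.MeasPx609 Crest.Agent.R143.MeasDx609
open Crest.Agent.R143.InpJx609 (mv dv_eq)
open Crest.Agent.R143.EnvIx279
open Crest.Agent.R143.IndLoc3x279 (clr cav)
open Crest.Agent.R143.RigCx654 (dI tI)
open Crest.Agent.R143.PolyEx854 (T3)
open Crest.Agent.R143.RigPx854 Crest.Agent.R143.RigZdx609
open Crest.Agent.R143.CorEx133 (Rp RU UU SU)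
open Crest.Agent.R143.R10Nx930 (Du Du_pos Con)

/-! ### the errors -/

/-- 930's bound of the fraction of colourings without unique hit -/
def thU (C c K : ℝ) (u : Poly) (N : ℕ) : ℝ := C * (hN N / Du u K) ^ c

theorem thU_nonneg {C c K : ℝ} (hC : 0 ≤ C) (hK : 0 ≤ K) (u : Poly) (N : ℕ) :
    0 ≤ thU C c K u N :=
  mul_nonneg hC (Real.rpow_nonneg (div_nonneg (hN_pos N).le (Du_pos u hK).le) _)

theorem thU_tendsto {C c K : ℝ} (hc : 0 < c) (u : Poly) :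
    Tendsto (thU C c K u) atTop (𝓝 0) := by
  have h1 : Tendsto (fun N : ℕ => hN N / Du u K) atTop (𝓝 0) := by
    have := hN_tendsto.div_const (Du u K)
    rwa [zero_div] at this
  have h2 := (Real.continuousAt_rpow_const 0 c (Or.inr hc.le)).tendsto.comp h1
  rw [Real.zero_rpow hc.ne'] at h2
  have h3 := h2.const_mul C
  rw [mul_zero] at h3
  exact h3

theorem thU_t3 {C c K : ℝ} (hc : 0 < c) (u : Poly) :
    T3 atTop fun _ N _ => thU C c K u N := by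
  intro η hη
  refine Eventually.of_forall fun _ => ?_
  filter_upwards [(thU_tendsto (C := C) (K := K) hc u).eventually (ge_mem_nhds hη)] with N h1
  exact Eventually.of_forall fun _ => h1

/-- **the displacement error** -/
def cZ (C c K : ℝ) (u : Poly) (w : ZMod 3) (ρ : ℝ → ℕ → ℝ → ℝ) (e0 : ℝ) (N : ℕ) (ε : ℝ) : ℝ :=
  cD u (hN N) ε (nT u w N) (JT u w N) (thU C c K u N) (ρ e0 N ε)

theorem cZ_t3 {C c K : ℝ} (hc : 0 < c) (u : Poly) (w : ZMod 3) {ρ : ℝ → ℕ → ℝ → ℝ}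
    (hρ : T3 atTop ρ) : T3 atTop (cZ C c K u w ρ) :=
  cD_t3 (i := w) (thU_t3 (C := C) (K := K) hc u) hρ

theorem cZ_nonneg {C c K : ℝ} (hC : 0 ≤ C) (hK : 0 ≤ K) (u : Poly) (w : ZMod 3)
    {ρ : ℝ → ℕ → ℝ → ℝ} {e0 : ℝ} {N : ℕ} {ε : ℝ} (hρ : 0 ≤ ρ e0 N ε) :
    0 ≤ cZ C c K u w ρ e0 N ε :=
  cD_nonneg (hN_pos N).le (thU_nonneg hC hK u N) hρ

/-! ### the field -/

section field

variable (Z : TData) {N : ℕ} {ε : ℝ} {u : Poly} {w : ZMod 3}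

/-- **`idd`, `edd`, `disp`** at the white label `w`: `T := aI`, `D := DI w`, `z l = -zL l` -/
theorem dispZ {f : ℂ × ℂ × ℂ → ℂ} (hf : Measurable f) (hN' : u.n + 4 ≤ N) (hε : 0 < ε)
    (V2 : ∀ l ∈ Finset.range (nT u w N),
      Integrable (fun ω => gW Z u w hN' hε (cfg ε ω) * ‖VL Z f u w ε hN' l (cfg ε ω)‖ ^ 2)
        sampleLaw)
    {C c K ρ : ℝ} (hC : 0 ≤ C) (hK : 0 ≤ K) {bad : Set Sample} (mbad : MeasurableSet bad)
    (g0_pos : 0 < g0 Z u w hN' hε) (hbad : sampleLaw.real bad ≤ ρ * g0 Z u w hN' hε)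
    (con : ∀ᵐ ω ∂sampleLaw, ω ∉ bad → ∀ β ⊆ SU u ε ω,
      0 < gW Z u w hN' hε (clr (SU u ε ω) β) →
      ∃ A : ZMod 3 → Set ℂ, Con C c K u ε (hN N) ω A u.P) :
    ∃ dd : Sample → ℝ, Integrable dd sampleLaw ∧
      ∫ ω, dd ω ∂sampleLaw ≤ cD u (hN N) ε (nT u w N) (JT u w N) (thU C c K u N) ρ ∧
      ∀ᵐ ω ∂sampleLaw, ‖DI u ε ω w - ∑ l ∈ JT u w N, -zL u w N l *
          ((qo (SU u ε) (tA u w N ε) (tB u w N ε) l ω : ℝ) : ℂ)‖ ≤ dd ω := by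
  obtain ⟨dd, h1, h2, h3⟩ := disp_in (ly_spec hN') (mN_hN (u := u) (N := N) (by omega)) w
    (J := JT u w N) (JT_sub u w N) (inp Z hf hN' hε V2) subset_rfl (θ := thU C c K u N)
    (ρ := ρ) (thU_nonneg hC hK u N) mbad g0_pos hbad (by
      filter_upwards [con] with ω h1 h2 β h3 h4 i
      obtain ⟨A, h5⟩ := h1 h2 β h3 h4
      exact h5.2 i)
  refine ⟨dd, h1, h2, ?_⟩
  filter_upwards [h3] with ω h4
  refine le_trans (le_of_eq ?_) h4
  congr 2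
  refine Finset.sum_congr rfl fun l _ => ?_
  rw [zL_eq, neg_neg]
  rfl

/-- **`idd`, `edd`, `disp`** at the type `w + 1`: `D := dI (mv u ε ·) (w + 1)`, `z l = zL l` -/
theorem dispZ' {f : ℂ × ℂ × ℂ → ℂ} (hf : Measurable f) (hN' : u.n + 4 ≤ N) (hε : 0 < ε)
    (V2 : ∀ l ∈ Finset.range (nT u w N),
      Integrable (fun ω => gW Z u w hN' hε (cfg ε ω) * ‖VL Z f u w ε hN' l (cfg ε ω)‖ ^ 2)
        sampleLaw)
    {C c K ρ : ℝ} (hC : 0 ≤ C) (hK : 0 ≤ K) {bad : Set Sample} (mbad : MeasurableSet bad)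
    (g0_pos : 0 < g0 Z u w hN' hε) (hbad : sampleLaw.real bad ≤ ρ * g0 Z u w hN' hε)
    (con : ∀ᵐ ω ∂sampleLaw, ω ∉ bad → ∀ β ⊆ SU u ε ω,
      0 < gW Z u w hN' hε (clr (SU u ε ω) β) →
      ∃ A : ZMod 3 → Set ℂ, Con C c K u ε (hN N) ω A u.P) :
    ∃ dd : Sample → ℝ, Integrable dd sampleLaw ∧
      ∫ ω, dd ω ∂sampleLaw ≤ cD u (hN N) ε (nT u w N) (JT u w N) (thU C c K u N) ρ ∧
      ∀ᵐ ω ∂sampleLaw, ‖dI (mv u ε ω) (w + 1) - ∑ l ∈ JT u w N, zL u w N l *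
          ((qo (SU u ε) (tA u w N ε) (tB u w N ε) l ω : ℝ) : ℂ)‖ ≤ dd ω := by
  obtain ⟨dd, h1, h2, h3⟩ := dispZ Z hf hN' hε V2 hC hK mbad g0_pos hbad con
  refine ⟨dd, h1, h2, ?_⟩
  filter_upwards [h3] with ω h4
  rw [dv_eq]
  have ew : ∀ w : ZMod 3, w + 1 + 2 = w := by decide
  rw [ew w]
  have e2 : ∑ l ∈ JT u w N, -zL u w N l *
        ((qo (SU u ε) (tA u w N ε) (tB u w N ε) l ω : ℝ) : ℂ) =
      -∑ l ∈ JT u w N, zL u w N l *
        ((qo (SU u ε) (tA u w N ε) (tB u w N ε) l ω : ℝ) : ℂ) := by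
    rw [← Finset.sum_neg_distrib]
    exact Finset.sum_congr rfl fun l _ => neg_mul _ _
  rw [e2] at h4
  have e1 : -DI u ε ω w - ∑ l ∈ JT u w N, zL u w N l *
        ((qo (SU u ε) (tA u w N ε) (tB u w N ε) l ω : ℝ) : ℂ) =
      -(DI u ε ω w - -∑ l ∈ JT u w N, zL u w N l *
        ((qo (SU u ε) (tA u w N ε) (tB u w N ε) l ω : ℝ) : ℂ)) := by ring
  rw [e1, norm_neg]
  exact h4

end field

/-! ### the fields of `Op` -/

section op

open Crest.Agent.R143.RigZx609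
open Crest.Agent.R143.LimSx133 (msb msb_meas sub_msb msb_real dl_bad)
open Crest.Agent.R143.PolyEx854 (t3_of_dl)
open Crest.Agent.R143.SpMx169 (fP fP_meas)

/-- relative probability of the bad set (609's `Op.rho`) -/
def rhoZ (Z : TData) (u : Poly) (w : ZMod 3) (bad : ℝ → ℕ → ℝ → Set Sample) (e0 : ℝ) (N : ℕ)
    (ε : ℝ) : ℝ := sampleLaw.real (bad e0 N ε) / gt0 Z u w N ε

theorem rhoZ_t3 {Z : TData} (hp : PosP Z) (u : Poly) (w : ZMod 3)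
    {bad : ℝ → ℕ → ℝ → Set Sample}
    (hbad : ∀ᶠ e0 : ℝ in 𝓝[>] 0, ∀ᶠ N : ℕ in atTop, ∀ η > 0, ∀ᶠ ε : ℝ in 𝓝[>] 0,
      sampleLaw (bad e0 N ε) ≤ ENNReal.ofReal η) : T3 atTop (rhoZ Z u w bad) := by
  refine t3_of_dl ?_
  filter_upwards [hbad] with e0 h
  exact dl_bad (lowN hp u w) h

/-- **the fields `hcd`, `disp` of `Op`** -/
theorem disp_op {Z : TData} (hp : PosP Z) {u : Poly} {w : ZMod 3} {C c K : ℝ} (hC : 0 ≤ C)
    (hc : 0 < c) (hK : 0 ≤ K)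
    (mom : Ev u fun N ε hn he => ∀ l ∈ Finset.range (nT u w N),
      Integrable (fun ω => gW Z u w hn he (cfg ε ω) * ‖VL Z fP u w ε hn l (cfg ε ω)‖ ^ 2)
        sampleLaw) {bad : ℝ → ℕ → ℝ → Set Sample}
    (hbad : ∀ᶠ e0 : ℝ in 𝓝[>] 0, ∀ᶠ N : ℕ in atTop, ∀ η > 0, ∀ᶠ ε : ℝ in 𝓝[>] 0,
      sampleLaw (bad e0 N ε) ≤ ENNReal.ofReal η)
    (con : ∀ᶠ e0 : ℝ in 𝓝[>] 0, Ev u fun N ε hn he => ∀ᵐ ω ∂sampleLaw, ω ∉ bad e0 N ε →
      ∀ β ⊆ SU u ε ω, 0 < gW Z u w hn he (clr (SU u ε ω) β) →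
        ∃ A : ZMod 3 → Set ℂ, Con C c K u ε (hN N) ω A u.P) :
    T3 atTop (cZ C c K u w (rhoZ Z u w bad)) ∧
    ∀ᶠ e0 : ℝ in 𝓝[>] 0, Ev u fun N ε _ _ => ∃ dd : Sample → ℝ, Integrable dd sampleLaw ∧
      ∫ ω, dd ω ∂sampleLaw ≤ cZ C c K u w (rhoZ Z u w bad) e0 N ε ∧
        ∀ᵐ ω ∂sampleLaw, ‖dI (mv u ε ω) (w + 1) - ∑ l ∈ JT u w N, zL u w N l *
          (qo (SU u ε) (tA u w N ε) (tB u w N ε) l ω : ℂ)‖ ≤ dd ω := by
  refine ⟨cZ_t3 hc u w (rhoZ_t3 hp u w hbad), ?_⟩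
  filter_upwards [con] with e0 h1
  have h5 := h1.and mom
  unfold Ev at h5 ⊢
  filter_upwards [h5, lowN hp u w] with N g1 g2
  filter_upwards [g1, g2.pos] with ε k1 k2 hn he
  obtain ⟨m1, m2⟩ := k1 hn he
  have hg : 0 < g0 Z u w hn he := by
    rw [gt0_eq hn he] at k2
    exact k2
  refine dispZ' Z fP_meas hn he m2 hC hK (bad := msb (bad e0 N ε)) (msb_meas _) hg ?_ ?_
  · rw [msb_real]
    unfold rhoZ
    rw [gt0_eq hn he, div_mul_cancel₀ _ hg.ne']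
  · filter_upwards [m1] with ω p1 p2
    exact p1 fun h => p2 (sub_msb _ h)

end op

end Crest.Agent.R143.DispZx840
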