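import Crest.Agent.R143.K7D_359
import Crest.Agent.R143.ArcP_571

/-!
# Row 143 (S0194), CONT, (K7), MARK : disputed sites (DISP, helper951)

* `corner` : a point near two consecutive edges is near their common vertex
* `cover_arc` : every boundary point is on an arc
* `FH u b` : first half of the mark edge `k b`
* **`disp`** : a point at distance `≤ s / 8` from the boundary edge `k` has the position label of this
  edge, or it is near `FH u b` for some mark `b` and both labels are `≠ b + 1`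
* **`lab_field`** : the field `lab` of `Mks`
-/

set_option autoImplicit false

noncomputable section

open scoped Classical

namespace Crest.Agent.R143.Dispx951

open Set
open Crest.Agent.R158.Sp896 (V lc rc pt ed sq Cyc)
open Crest.Agent.R143.JColx54 (Adj)
open Crest.Agent.R143.K33x877 (Tr fr)
open Crest.Agent.R143.Brkx478 (Bk Nb Conn cells)
open Crest.Agent.R143.Tenx416 (Pg)
open Crest.Agent.R143.NetVx346 (Vin Bl)
open Crest.Agent.R143.PolyUx346 (Poly)
open Crest.Agent.R143.ArcPx571 Crest.Agent.R143.K7Dx359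

/-! ### two consecutive edges -/

section walk

variable {F : Set V} {L : ℕ} {v : ℕ → V} {s : ℝ}

/-- a point near two consecutive edges is near their common vertex -/
theorem corner (C : Cyc F L v) (hs : 0 < s) (a : ℕ) {t t' : ℝ} (h1 : t ≤ 1) (h0' : 0 ≤ t')
    {x : ℂ} (hx : ‖x - ep s v a t‖ < 13 / 100 * s) (hx' : ‖x - ep s v (a + 1) t'‖ < 13 / 100 * s) :
    ‖x - pt s (v (a + 1))‖ ≤ 3 / 16 * s := by
  have hne := ne_two C a
  have hne' : ¬ (((v (a + 1 + 1)).1 : ℝ) = (v a).1 ∧ ((v (a + 1 + 1)).2 : ℝ) = (v a).2) := by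
    rintro ⟨e1, e2⟩
    exact hne (Prod.ext (by exact_mod_cast e1) (by exact_mod_cast e2))
  have sq1 : ∀ z : ℂ, ‖z‖ ^ 2 = z.re ^ 2 + z.im ^ 2 := by
    intro z; rw [Complex.sq_norm, Complex.normSq_apply]; ring
  have n1 : (x - ep s v a t).re ^ 2 + (x - ep s v a t).im ^ 2 < (13 / 100 * s) ^ 2 := by
    rw [← sq1]
    have := norm_nonneg (x - ep s v a t)
    nlinarith
  have n2 : (x - ep s v (a + 1) t').re ^ 2 + (x - ep s v (a + 1) t').im ^ 2 <
      (13 / 100 * s) ^ 2 := by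
    rw [← sq1]
    have := norm_nonneg (x - ep s v (a + 1) t')
    nlinarith
  have h3 : (x - pt s (v (a + 1))).re ^ 2 + (x - pt s (v (a + 1))).im ^ 2 ≤
      2 * (13 / 100 * s) ^ 2 := by
    simp only [Complex.sub_re, Complex.sub_im, ep_re, ep_im] at n1 n2
    simp only [Complex.sub_re, Complex.sub_im, pt]
    have s1 := step_real C a
    have s2 := step_real C (a + 1)
    have hα : 0 ≤ s * (1 - t) := mul_nonneg hs.le (by linarith)
    have hβ : 0 ≤ s * t' := mul_nonneg hs.le h0'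
    generalize ((v a).1 : ℝ) = x0 at *
    generalize ((v a).2 : ℝ) = y0 at *
    generalize ((v (a + 1)).1 : ℝ) = x1 at *
    generalize ((v (a + 1)).2 : ℝ) = y1 at *
    generalize ((v (a + 1 + 1)).1 : ℝ) = x2 at *
    generalize ((v (a + 1 + 1)).2 : ℝ) = y2 at *
    have k0 : ∀ p q α β R : ℝ, 0 ≤ α → 0 ≤ β → (p + α) ^ 2 + q ^ 2 < R → (p - β) ^ 2 + q ^ 2 < R →
        p ^ 2 + q ^ 2 ≤ 2 * R := by
      intro p q α β R ha hb g1 g2
      rcases le_total 0 p with hp | hp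
      · nlinarith [mul_nonneg hp ha, sq_nonneg α, sq_nonneg p, sq_nonneg q]
      · nlinarith [mul_nonneg (neg_nonneg.2 hp) hb, sq_nonneg β, sq_nonneg p, sq_nonneg q]
    have k1 : ∀ p q α β R : ℝ, (p + α) ^ 2 + q ^ 2 < R → p ^ 2 + (q + β) ^ 2 < R →
        p ^ 2 + q ^ 2 ≤ 2 * R := by
      intro p q α β R g1 g2
      nlinarith [sq_nonneg (p + α), sq_nonneg (q + β)]
    rcases s1 with (⟨e1, e2⟩ | ⟨e1, e2⟩) | (⟨e1, e2⟩ | ⟨e1, e2⟩) <;>
      rcases s2 with (⟨g1, g2⟩ | ⟨g1, g2⟩) | (⟨g1, g2⟩ | ⟨g1, g2⟩) <;>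
      subst g1 g2 <;> subst e1 e2
    · refine k0 _ _ (s * (1 - t)) (s * t') _ hα hβ ?_ ?_
      · convert n1 using 2 <;> ring
      · convert n2 using 2 <;> ring
    · exact absurd ⟨by ring, rfl⟩ hne'
    · refine k1 _ _ (s * (1 - t)) (-(s * t')) _ ?_ ?_
      · convert n1 using 2 <;> ring
      · convert n2 using 2 <;> ring
    · refine k1 _ _ (s * (1 - t)) (s * t') _ ?_ ?_
      · convert n1 using 2 <;> ring
      · convert n2 using 2 <;> ring
    · exact absurd ⟨by ring, rfl⟩ hne'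
    · refine k0 _ _ (s * t') (s * (1 - t)) _ hβ hα ?_ ?_
      · convert n2 using 2 <;> ring
      · convert n1 using 2 <;> ring
    · refine k1 _ _ (-(s * (1 - t))) (-(s * t')) _ ?_ ?_
      · convert n1 using 2 <;> ring
      · convert n2 using 2 <;> ring
    · refine k1 _ _ (-(s * (1 - t))) (s * t') _ ?_ ?_
      · convert n1 using 2 <;> ring
      · convert n2 using 2 <;> ring
    · rw [add_comm]
      refine k1 _ _ (s * (1 - t)) (-(s * t')) _ ?_ ?_
      · rw [add_comm]; convert n1 using 2 <;> ring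
      · rw [add_comm]; convert n2 using 2 <;> ring
    · rw [add_comm]
      refine k1 _ _ (s * (1 - t)) (s * t') _ ?_ ?_
      · rw [add_comm]; convert n1 using 2 <;> ring
      · rw [add_comm]; convert n2 using 2 <;> ring
    · rw [add_comm]
      refine k0 _ _ (s * (1 - t)) (s * t') _ hα hβ ?_ ?_
      · rw [add_comm]; convert n1 using 2 <;> ring
      · rw [add_comm]; convert n2 using 2 <;> ring
    · exact absurd ⟨rfl, by ring⟩ hne'
    · rw [add_comm]
      refine k1 _ _ (-(s * (1 - t))) (-(s * t')) _ ?_ ?_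
      · rw [add_comm]; convert n1 using 2 <;> ring
      · rw [add_comm]; convert n2 using 2 <;> ring
    · rw [add_comm]
      refine k1 _ _ (-(s * (1 - t))) (s * t') _ ?_ ?_
      · rw [add_comm]; convert n1 using 2 <;> ring
      · rw [add_comm]; convert n2 using 2 <;> ring
    · exact absurd ⟨rfl, by ring⟩ hne'
    · rw [add_comm]
      refine k0 _ _ (s * t') (s * (1 - t)) _ hβ hα ?_ ?_
      · rw [add_comm]; convert n2 using 2 <;> ring
      · rw [add_comm]; convert n1 using 2 <;> ring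
  rw [← sq1] at h3
  have h4 : ‖x - pt s (v (a + 1))‖ ^ 2 ≤ (3 / 16 * s) ^ 2 := by nlinarith
  exact abs_le_of_sq_le_sq' h4 (by positivity) |>.2

end walk

/-! ### arcs -/

variable {u : Poly}

/-- every boundary point is on an arc -/
theorem cover_arc (κ : ℕ) {t : ℝ} (h0 : 0 ≤ t) (h1 : t ≤ 1) : ∃ j, bp u κ t ∈ u.Arc j := by
  have hL : 0 < u.L := by have := u.cyc.four_le; omega
  have k1 := u.k01
  have k2 := u.k12
  have k3 := u.k20
  have e0 : u.k' 0 = u.k 1 := by unfold Poly.k'; simp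
  have e1 : u.k' 1 = u.k 2 := by unfold Poly.k'; simp
  have e2 : u.k' 2 = u.k 0 + u.L := by unfold Poly.k'; simp
  -- representative in `[k 0, k 0 + L)`
  obtain ⟨c, hc1, hc2, hc3⟩ : ∃ c, u.k 0 ≤ c ∧ c < u.k 0 + u.L ∧ κ ≡ c [MOD u.L] := by
    refine ⟨u.k 0 + (κ + (u.L - u.k 0 % u.L)) % u.L, by omega,
      by have := Nat.mod_lt (κ + (u.L - u.k 0 % u.L)) hL; omega, ?_⟩
    have h3 : u.k 0 % u.L < u.L := Nat.mod_lt _ hL
    have h4 := Nat.mod_add_div (u.k 0) u.L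
    unfold Nat.ModEq
    rw [Nat.add_mod_mod]
    have h5 : u.k 0 + (κ + (u.L - u.k 0 % u.L)) = κ + u.L * (u.k 0 / u.L + 1) := by
      rw [Nat.mul_add, Nat.mul_one]; omega
    rw [h5, Nat.add_mul_mod_self_left]
  have hb : bp u κ t = bp u c t := ep_mod u.cyc hc3 t
  rw [hb]
  have c1 : (u.k 0 : ℝ) ≤ c := by exact_mod_cast hc1
  have c2 : (c : ℝ) + 1 ≤ u.k 0 + u.L := by exact_mod_cast hc2
  have k1' : (u.k 0 : ℝ) + 1 ≤ u.k 1 := by exact_mod_cast k1
  have k2' : (u.k 1 : ℝ) + 1 ≤ u.k 2 := by exact_mod_cast k2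
  have k3' : (u.k 2 : ℝ) + 1 ≤ u.k 0 + u.L := by exact_mod_cast k3
  rcases le_total ((u.k 0 : ℝ) + 1 / 2) (c + t) with g | g
  · rcases le_total ((c : ℝ) + t) (u.k 1 + 1 / 2) with g1 | g1
    · exact ⟨0, arc_iff.2 ⟨c, t, h0, h1, g, by rw [e0]; exact g1, rfl⟩⟩
    · rcases le_total ((c : ℝ) + t) (u.k 2 + 1 / 2) with g2 | g2
      · exact ⟨1, arc_iff.2 ⟨c, t, h0, h1, g1, by rw [e1]; exact g2, rfl⟩⟩
      · refine ⟨2, arc_iff.2 ⟨c, t, h0, h1, g2, ?_, rfl⟩⟩
        rw [e2]; push_cast; linarith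
  · -- first half of the edge `k 0`
    have hm : c ≡ c + u.L [MOD u.L] := by unfold Nat.ModEq; simp
    refine ⟨2, arc_iff.2 ⟨c + u.L, t, h0, h1, ?_, ?_, ep_mod u.cyc hm t⟩⟩
    · push_cast; linarith
    · rw [e2]; push_cast; linarith

/-- first half of the mark edge -/
def FH (u : Poly) (b : Fin 3) : Set ℂ := segment ℝ (pt u.s (u.v (u.k b))) (u.mid (u.k b))

theorem FH_nonempty (u : Poly) (b : Fin 3) : (FH u b).Nonempty := ⟨_, left_mem_segment ℝ _ _⟩

/-- the vertex at the beginning of the mark edge -/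
theorem near_vertex {b : Fin 3} {a : ℕ} (ha : a ≡ u.k b [MOD u.L]) {x : ℂ}
    (hx : ‖x - pt u.s (u.v a)‖ ≤ 3 / 16 * u.s) : Metric.infDist x (FH u b) ≤ 3 / 16 * u.s := by
  refine (Metric.infDist_le_dist_of_mem (left_mem_segment ℝ _ _)).trans ?_
  rw [dist_eq_norm, ← vmod u.cyc ha]
  exact hx

/-- the first half of the mark edge in parameters -/
theorem near_half {b : Fin 3} {a : ℕ} {t : ℝ} (ha : a ≡ u.k b [MOD u.L]) (h0 : 0 ≤ t)
    (h1 : t ≤ 1 / 2) {x : ℂ} (hx : ‖x - bp u a t‖ ≤ 3 / 16 * u.s) :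
    Metric.infDist x (FH u b) ≤ 3 / 16 * u.s := by
  have hm : bp u a t ∈ FH u b := by
    unfold FH
    rw [mid_eq, ← ep_zero, bp, bp, seg_ep, ep_mod u.cyc ha t]
    exact ⟨t, by rw [segment_eq_Icc (by norm_num : (0 : ℝ) ≤ 1 / 2)]; exact ⟨h0, h1⟩, rfl⟩
  refine (Metric.infDist_le_dist_of_mem hm).trans ?_
  rw [dist_eq_norm]
  exact hx

section main

variable {l : V → V → ZMod 3}

/-- label of the edge `κ` -/
abbrev lb (u : Poly) (l : V → V → ZMod 3) (κ : ℕ) : ZMod 3 := l (u.v κ) (u.v (κ + 1))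

theorem lb_mod {a b : ℕ} (h : a ≡ b [MOD u.L]) : lb u l a = lb u l b := by
  unfold lb
  rw [vmod u.cyc h, vmod u.cyc (h.add_right 1)]

/-- the three intervals -/
def Int3 (u : Poly) (l : V → V → ZMod 3) : Prop :=
  ∀ (j : Fin 3) (κ : ℕ), u.k j ≤ κ → κ < u.k' j → lb u l κ = ((j : ℕ) : ZMod 3)

theorem int3 (h0 : ∀ j, u.k 0 ≤ j → j < u.k 1 → l (u.v j) (u.v (j + 1)) = 0)
    (h1 : ∀ j, u.k 1 ≤ j → j < u.k 2 → l (u.v j) (u.v (j + 1)) = 1)
    (h2 : ∀ j, u.k 2 ≤ j → j < u.k 0 + u.L → l (u.v j) (u.v (j + 1)) = 2) : Int3 u l := by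
  have e0 : u.k' 0 = u.k 1 := by unfold Poly.k'; simp
  have e1 : u.k' 1 = u.k 2 := by unfold Poly.k'; simp
  have e2 : u.k' 2 = u.k 0 + u.L := by unfold Poly.k'; simp
  intro j κ hj hj'
  have hj3 : j = 0 ∨ j = 1 ∨ j = 2 := by omega
  rcases hj3 with rfl | rfl | rfl
  · rw [e0] at hj'; simpa using h0 κ hj hj'
  · rw [e1] at hj'; simpa using h1 κ hj hj'
  · rw [e2] at hj'; simpa using h2 κ hj hj'

/-- next mark -/
def nx (j : Fin 3) : Fin 3 := j + 1

theorem k'_mod (j : Fin 3) : u.k' j ≡ u.k (nx j) [MOD u.L] := by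
  have hj3 : j = 0 ∨ j = 1 ∨ j = 2 := by omega
  unfold nx Poly.k'
  rcases hj3 with rfl | rfl | rfl
  · exact Nat.ModEq.refl _
  · exact Nat.ModEq.refl _
  · show (u.k 0 + u.L) % u.L = u.k 0 % u.L
    simp

theorem nx_cast (j : Fin 3) : (((nx j : Fin 3) : ℕ) : ZMod 3) = ((j : ℕ) : ZMod 3) + 1 := by
  have hj3 : j = 0 ∨ j = 1 ∨ j = 2 := by omega
  rcases hj3 with rfl | rfl | rfl <;> decide

/-- label of the edge before the mark `j` -/
theorem lb_prev (h : Int3 u l) (j : Fin 3) {κ : ℕ} (hκ : κ + 1 ≡ u.k j [MOD u.L]) :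
    lb u l κ = ((j : ℕ) : ZMod 3) + 2 := by
  have hL : 0 < u.L := by have := u.cyc.four_le; omega
  have k1 := u.k01
  have k2 := u.k12
  have k3 := u.k20
  have e0 : u.k' 0 = u.k 1 := by unfold Poly.k'; simp
  have e1 : u.k' 1 = u.k 2 := by unfold Poly.k'; simp
  have e2 : u.k' 2 = u.k 0 + u.L := by unfold Poly.k'; simp
  have key : ∀ (i : Fin 3) (c : ℕ), u.k i ≤ c → c < u.k' i → c + 1 ≡ u.k j [MOD u.L] →
      lb u l κ = ((i : ℕ) : ZMod 3) := by
    intro i c h1 h2 h3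
    have h4 : κ ≡ c [MOD u.L] := Nat.ModEq.add_right_cancel' 1 (hκ.trans h3.symm)
    rw [lb_mod h4]
    exact h i c h1 h2
  have hj3 : j = 0 ∨ j = 1 ∨ j = 2 := by omega
  rcases hj3 with rfl | rfl | rfl
  · rw [key 2 (u.k 0 + u.L - 1) (by omega) (by omega) (by
      rw [Nat.sub_add_cancel (by omega)]
      show (u.k 0 + u.L) % u.L = u.k 0 % u.L
      simp)]
    decide
  · rw [key 0 (u.k 1 - 1) (by omega) (by omega) (by
      rw [Nat.sub_add_cancel (by omega)])]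
    decide
  · rw [key 1 (u.k 2 - 1) (by omega) (by omega) (by
      rw [Nat.sub_add_cancel (by omega)])]
    decide

/-- label of the edge of the mark `j` -/
theorem lb_at (h : Int3 u l) (j : Fin 3) {κ : ℕ} (hκ : κ ≡ u.k j [MOD u.L]) :
    lb u l κ = ((j : ℕ) : ZMod 3) := by
  rw [lb_mod hκ]
  exact h j _ le_rfl (k_lt j)

theorem z3a : ∀ j : Fin 3, ((j : ℕ) : ZMod 3) + 1 ≠ ((j : ℕ) : ZMod 3) + 2 := by decide
theorem z3b : ∀ j : Fin 3, ((j : ℕ) : ZMod 3) ≠ ((j : ℕ) : ZMod 3) + 1 := by decide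
theorem z3c : ∀ j : Fin 3, ((j : ℕ) : ZMod 3) ≠ ((j : ℕ) : ZMod 3) + 1 + 1 := by decide
theorem z3d : ∀ j : Fin 3, ((j : ℕ) : ZMod 3) + 2 ≠ ((j : ℕ) : ZMod 3) + 1 := by decide
theorem z3e : ∀ j : Fin 3, ((j : ℕ) : ZMod 3) + 1 ≠ ((j : ℕ) : ZMod 3) + 1 + 1 := by decide

/-- **disputed points** -/
theorem disp (h : Int3 u l) {x : ℂ} {κ : ℕ}
    (hx : Metric.infDist x (ed u.s (u.v κ) (u.v (κ + 1))) ≤ u.s / 8) :
    u.Lab x = l (u.v κ) (u.v (κ + 1)) ∨ ∃ b : Fin 3,
      l (u.v κ) (u.v (κ + 1)) ≠ ((b : ℕ) : ZMod 3) + 1 ∧ u.Lab x ≠ ((b : ℕ) : ZMod 3) + 1 ∧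
      Metric.infDist x (FH u b) ≤ 3 / 16 * u.s := by
  have hs := u.s_pos
  have C := u.cyc
  obtain ⟨j, hnear, hlab, -⟩ := Poly.near_lab (u := u) x
  -- a point of the edge
  have hne : (ed u.s (u.v κ) (u.v (κ + 1))).Nonempty := ⟨_, left_mem_segment ℝ _ _⟩
  obtain ⟨y, hy, hxy⟩ := (Metric.infDist_lt_iff hne).1
    (lt_of_le_of_lt hx (by linarith : u.s / 8 < 13 / 100 * u.s))
  obtain ⟨t, t0, t1, rfl⟩ := mem_ed.1 hy
  obtain ⟨i, hi⟩ := cover_arc (u := u) κ t0 t1
  -- a point of the nearest arc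
  have h2 : Metric.infDist x (u.Arc j) < 13 / 100 * u.s :=
    lt_of_le_of_lt (hnear i) (lt_of_le_of_lt (Metric.infDist_le_dist_of_mem hi) hxy)
  have hne' : (u.Arc j).Nonempty := by
    refine ⟨bp u (u.k j) (1 / 2), arc_iff.2 ⟨u.k j, 1 / 2, by norm_num, by norm_num, le_rfl, ?_, rfl⟩⟩
    have : (u.k j : ℝ) ≤ u.k' j := by exact_mod_cast (k_lt j).le
    linarith
  obtain ⟨z, hz, hxz⟩ := (Metric.infDist_lt_iff hne').1 h2
  obtain ⟨a, t', t0', t1', ha, ha', rfl⟩ := arc_iff.1 hz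
  have a1 : u.k j ≤ a := by
    by_contra hcon
    push Not at hcon
    have : (a : ℝ) + 1 ≤ u.k j := by exact_mod_cast hcon
    linarith
  have a2 : a ≤ u.k' j := by
    by_contra hcon
    push Not at hcon
    have : (u.k' j : ℝ) + 1 ≤ a := by exact_mod_cast hcon
    linarith
  rw [dist_eq_norm] at hxy hxz
  have hd : ‖ep u.s u.v κ t - bp u a t'‖ < u.s / 2 := by
    have e : ep u.s u.v κ t - bp u a t' = -(x - ep u.s u.v κ t) + (x - bp u a t') := by ring
    rw [e]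
    refine lt_of_le_of_lt (norm_add_le _ _) ?_
    rw [norm_neg]
    linarith
  have hre : |(ep u.s u.v κ t).re - (ep u.s u.v a t').re| < u.s / 2 := by
    rw [← Complex.sub_re]
    exact lt_of_le_of_lt (Complex.abs_re_le_norm _) hd
  have him : |(ep u.s u.v κ t).im - (ep u.s u.v a t').im| < u.s / 2 := by
    rw [← Complex.sub_im]
    exact lt_of_le_of_lt (Complex.abs_im_le_norm _) hd
  rw [hlab]
  rcases ep_sep C hs t0 t1 t0' t1' (by linarith) (by linarith) with g | g | g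
  · -- same edge
    rcases Nat.lt_or_ge a (u.k' j) with ha3 | ha3
    · left
      exact (((lb_mod g).trans (h j a a1 ha3))).symm
    · right
      have e : a = u.k' j := le_antisymm a2 ha3
      have hm : a ≡ u.k (nx j) [MOD u.L] := by rw [e]; exact k'_mod j
      have hl : l (u.v κ) (u.v (κ + 1)) = ((j : ℕ) : ZMod 3) + 1 := by
        rw [← nx_cast]
        exact (lb_at h (nx j) (g.trans hm))
      refine ⟨nx j, ?_, ?_, near_half hm t0' ?_ (by linarith)⟩
      · rw [hl, nx_cast]; exact z3e j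
      · rw [nx_cast]; exact z3c j
      · have : (a : ℝ) = u.k' j := by rw [e]
        linarith
  · -- the edge `κ` is before the edge `a`
    rcases Nat.lt_or_ge (u.k j) a with ha3 | ha3
    · left
      have g' : κ ≡ a - 1 [MOD u.L] := by
        refine Nat.ModEq.add_right_cancel' 1 ?_
        rw [Nat.sub_add_cancel (by omega)]
        exact g
      exact ((lb_mod g').trans (h j (a - 1) (by omega) (by omega))).symm
    · right
      have e : a = u.k j := le_antisymm ha3 a1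
      have hm : a ≡ u.k j [MOD u.L] := by rw [e]
      have hl : l (u.v κ) (u.v (κ + 1)) = ((j : ℕ) : ZMod 3) + 2 := lb_prev h j (g.trans hm)
      refine ⟨j, ?_, z3b j, near_vertex (g.trans hm) ?_⟩
      · rw [hl]; exact z3d j
      · refine corner C hs κ t1 t0' hxy ?_
        rw [ep_mod C g t']
        exact hxz
  · -- the edge `κ` is after the edge `a`
    rcases Nat.lt_trichotomy (a + 1) (u.k' j) with ha3 | ha3 | ha3
    · left
      exact ((lb_mod g).trans (h j (a + 1) (by omega) ha3)).symm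
    · right
      have hm : a + 1 ≡ u.k (nx j) [MOD u.L] := by rw [ha3]; exact k'_mod j
      have hl : l (u.v κ) (u.v (κ + 1)) = ((j : ℕ) : ZMod 3) + 1 := by
        rw [← nx_cast]
        exact (lb_at h (nx j) (g.trans hm))
      refine ⟨nx j, ?_, ?_, near_vertex hm ?_⟩
      · rw [hl, nx_cast]; exact z3e j
      · rw [nx_cast]; exact z3c j
      · refine corner C hs a t1' t0 hxz ?_
        rw [← ep_mod C g t]
        exact hxy
    · -- the end of the arc is in the first half of its last edge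
      exfalso
      have e : a = u.k' j := by omega
      have e' : (a : ℝ) = u.k' j := by rw [e]
      rw [ep_mod C g t] at hre him
      rw [abs_sub_comm] at hre him
      rcases nb_sep C hs a t1' t0 (Or.inl (by linarith)) with g1 | g1 <;> linarith

variable {S : Finset ℂ} {A' : ZMod 3 → Set ℂ} {d s : ℝ} {N De : Fin 3 → Set ℂ}

/-- **the field `lab` of `Mks`** -/
theorem lab_field (hT : Tr S A') (hs : u.s = s) (hB : Bd S A' d s u.U l u.L u.v)
    (h0 : ∀ j, u.k 0 ≤ j → j < u.k 1 → l (u.v j) (u.v (j + 1)) = 0)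
    (h1 : ∀ j, u.k 1 ≤ j → j < u.k 2 → l (u.v j) (u.v (j + 1)) = 1)
    (h2 : ∀ j, u.k 2 ≤ j → j < u.k 0 + u.L → l (u.v j) (u.v (j + 1)) = 2)
    (hfr : ∀ x ∈ fr S A', x ∉ Vin S u.P d → ∀ v ∈ Vin S u.P d, ¬ Adj S x v)
    (hN : ∀ b, ∀ x ∈ S, x ∉ Vin S u.P d → Metric.infDist x (FH u b) ≤ 3 / 16 * u.s →
      ∀ v ∈ Vin S u.P d, Adj S x v → v ∈ N b ∨ v ∈ De b) :
    ∀ x ∈ S, x ∉ Vin S u.P d → (∃ v ∈ Vin S u.P d, Adj S x v) →
      (∀ l, x ∈ A' l ↔ x ∈ Bl S (Vin S u.P d) u.Lab l) ∨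
      ∃ b, (∀ v ∈ Vin S u.P d, Adj S x v → v ∈ N b ∨ v ∈ De b) ∧
        x ∉ A' (((b : ℕ) : ZMod 3) + 1) ∧
        x ∉ Bl S (Vin S u.P d) u.Lab (((b : ℕ) : ZMod 3) + 1) := by
  intro x hxS hxV hex
  subst hs
  -- the class of `x`
  obtain ⟨i, hi⟩ : ∃ i, x ∈ A' i := by
    by_contra hcon
    push Not at hcon
    obtain ⟨v, hv, hxv⟩ := hex
    exact hfr x ⟨hxS, hcon⟩ hxV v hv hxv
  have hA : ∀ l', x ∈ A' l' ↔ l' = i := by
    intro l'
    constructor
    · intro h'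
      by_contra hne
      exact Set.disjoint_left.1 (hT.disj l' i hne) h' hi
    · rintro rfl; exact hi
  have hBl : ∀ l', x ∈ Bl S (Vin S u.P d) u.Lab l' ↔ u.Lab x = l' := by
    intro l'
    constructor
    · exact fun h' => h'.2.2.2
    · exact fun h' => ⟨hxS, hxV, hex, h'⟩
  obtain ⟨κ, hκ, hd⟩ := hB.lab i x hi hex
  rcases disp (int3 h0 h1 h2) hd with h | ⟨b, hb1, hb2, hb3⟩
  · left
    intro l'
    rw [hA, hBl, h, hκ]
    exact eq_comm
  · right
    refine ⟨b, hN b x hxS hxV hb3, ?_, ?_⟩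
    · rw [hA]
      intro e
      exact hb1 (hκ.trans e.symm)
    · rw [hBl]
      exact hb2

end main

end Crest.Agent.R143.Dispx951
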