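import Crest.Agent.R143.Two3_565

/-!
# Row 143 (S0194), block H, H5 (helper565): the cells read for the start do not matter

* `RingK.dk` : `Dk` with `Q` = `Tch T₂ \ Tch T₁` = `Dk` with `∅`
* `RingK.q0`, `flk_q0`, `jdk_q0` : `RingK`, `FlK`, `JdK` with `Q := ∅` (same flipped configuration)
-/

set_option autoImplicit false
set_option linter.unusedSectionVars false

noncomputable section

open scoped Classical

namespace Crest.Agent.R143.DkQx565

open Crest.Agent.R143.Frame1x395 Crest.Agent.R143.Frame2x395 Crest.Agent.R143.Frame3x395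
  Crest.Agent.R143.Frame8x395 Crest.Agent.R143.Frame9x395 Crest.Agent.R143.Frame11x395
  Crest.Agent.R143.NonXx592 Crest.Agent.R143.Chordx355 Crest.Agent.R143.ChordCx357
  Crest.Agent.R143.Chord2x355 Crest.Agent.R143.Junx43 Crest.Agent.R143.Jun3x565
  Crest.Agent.R143.Two3x565

variable {D C : Type} {M : CMap D C} {χ χ' : C → ZMod 2} {p : D} {N T₁ T₂ a : ℕ} {S : Set ℕ}
  {Q : Set C}

theorem dk_empty {x : D → ZMod 2} : Dk M x p ∅ T₁ T₂ = Tch M x p T₂ \ Tch M x p T₁ := by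
  unfold Dk Ov
  rw [Set.empty_union, Set.empty_union]

/-- the cells read for the start are not touched between the marks -/
theorem dk_of (oq : ∀ n, T₁ ≤ n → n ≤ T₂ → lc M (cfg M χ) p n ∉ Q ∧ rc M (cfg M χ) p n ∉ Q) :
    Dk M (cfg M χ) p Q T₁ T₂ = Dk M (cfg M χ) p ∅ T₁ T₂ := by
  rw [dk_empty]
  ext c
  constructor
  · rintro ⟨h1, h2⟩
    refine ⟨?_, fun h => h2 (Or.inr h)⟩
    rcases h1 with h1 | h1
    · exact absurd (Or.inl h1) h2
    · exact h1
  · rintro ⟨h1, h2⟩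
    refine ⟨Or.inr h1, ?_⟩
    rintro (h3 | h3)
    · obtain ⟨u, hu, e⟩ := h1
      have hu1 : T₁ ≤ u := by
        by_contra hc
        exact h2 ⟨u, by omega, e⟩
      obtain ⟨q1, q2⟩ := oq u hu1 hu
      rcases e with e | e
      · exact q1 (by rw [e]; exact h3)
      · exact q2 (by rw [e]; exact h3)
    · exact h2 h3

theorem RingK.dk (R : RingK M χ p N T₁ T₂ a S Q) :
    Dk M (cfg M χ) p Q T₁ T₂ = Dk M (cfg M χ) p ∅ T₁ T₂ := dk_of R.oq

/-- **the same ring with `Q := ∅`** -/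
theorem RingK.q0 (R : RingK M χ p N T₁ T₂ a S Q) : RingK M χ p N T₁ T₂ a S ∅ :=
  ⟨R.lp, R.sN, R.sep, R.prv, R.e0, R.e1, R.e2, R.h1, R.h2, R.h3,
    fun _ _ _ => ⟨Set.notMem_empty _, Set.notMem_empty _⟩,
    fun n h1 h2 => by rw [← RingK.dk R]; exact R.o2 n h1 h2⟩

theorem flk_q0 (R : RingK M χ p N T₁ T₂ a S Q) :
    FlK M χ p Q T₁ T₂ χ' ↔ FlK M χ p ∅ T₁ T₂ χ' := by
  unfold FlK
  rw [RingK.dk R]

theorem jdk_q0 (R : RingK M χ p N T₁ T₂ a S Q) :
    JdK M χ p T₁ T₂ a S Q χ' ↔ JdK M χ p T₁ T₂ a S ∅ χ' := by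
  unfold JdK
  rw [RingK.dk R]

end Crest.Agent.R143.DkQx565
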