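import Crest.Agent.R143.Spl3_117

/-!
# Row 143 (S0194), part B without E3: splitting of a block, file 4: open corridor (helper117)

* `Corr M x n p R` : states `p 0, .., p n`, `R k` contains one of the two arcs between `p k` and
  `p (k + 1)` and no other `p j`
* `Corr.dir`, `Corr.dir'` : all arcs have the same direction (the direction of one arc decides)
* `Corr.fwd` : the loop through `p 0` passes `p 0, .., p n` in this order in one period
* `cut_links` : the cut hypothesis from links
* `Corr.main` : additivity of the block path along the corridor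
* `Corr.rev` : the corridor in the opposite direction
-/

set_option autoImplicit false

noncomputable section

open scoped Classical

namespace Crest.Agent.R143.Splx117

open Crest.Agent.R143.Frame1x395 Crest.Agent.R143.Frame2x395 Crest.Agent.R143.Frame3x395
  Crest.Agent.R143.Frame4x395 Crest.Agent.R143.Frame8x395 Crest.Agent.R143.Frame9x395
  Crest.Agent.R143.Frame11x395

variable {D C : Type} {M : CMap D C} {x : D → ZMod 2} {N : ℕ} {c : C}

/-- an open corridor -/
structure Corr (M : CMap D C) (x : D → ZMod 2) (n : ℕ) (p : ℕ → D) (R : ℕ → Set D) : Prop where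
  even : IsC M ∅ x
  n1 : 1 ≤ n
  occ : ∀ k, k ≤ n → x (p k) = 1
  ne : ∀ k, k < n → p k ≠ p (k + 1)
  far : ∀ k j, k < n → j ≤ n → j ≠ k → j ≠ k + 1 → p j ∉ R k
  arc : ∀ k, k < n → FA M x (R k) (p k) (p (k + 1)) ∨ FA M x (R k) (p (k + 1)) (p k)

variable {n : ℕ} {p : ℕ → D} {R : ℕ → Set D}

theorem Corr.no_turn1 (A : Corr M x n p R) {k : ℕ} (hk : k + 1 < n)
    (h1 : FA M x (R k) (p k) (p (k + 1)))
    (h2 : FA M x (R (k + 1)) (p (k + 1 + 1)) (p (k + 1))) : False := by
  obtain ⟨m, a1, a2⟩ := h1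
  obtain ⟨m', b1, b2⟩ := h2
  have e1 : p k ∉ R (k + 1) := A.far _ _ hk (by omega) (by omega) (by omega)
  have e2 : p (k + 1 + 1) ∉ R k := A.far _ _ (by omega) (by omega) (by omega) (by omega)
  rcases lt_or_ge m m' with hl | hl
  · have e : p k = (stp M x)^[m' - m] (p (k + 1 + 1)) := by
      apply it_inj A.even (A.occ _ (by omega)) (occ_it A.even (A.occ _ (by omega)) _) m
      rw [← Function.iterate_add_apply, show m + (m' - m) = m' by omega, a1, b1]
    exact e1 (e ▸ b2 (m' - m) (by omega))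
  · have e : (stp M x)^[m - m'] (p k) = p (k + 1 + 1) := by
      apply it_inj A.even (occ_it A.even (A.occ _ (by omega)) _) (A.occ _ (by omega)) m'
      rw [← Function.iterate_add_apply, show m' + (m - m') = m by omega, a1, b1]
    exact e2 (e ▸ a2 (m - m') (by omega))

theorem Corr.no_turn2 (A : Corr M x n p R) {k : ℕ} (hk : k + 1 < n)
    (h1 : FA M x (R k) (p (k + 1)) (p k))
    (h2 : FA M x (R (k + 1)) (p (k + 1)) (p (k + 1 + 1))) : False := by
  obtain ⟨m, a1, a2⟩ := h1
  obtain ⟨m', b1, b2⟩ := h2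
  have e1 : p k ∉ R (k + 1) := A.far _ _ hk (by omega) (by omega) (by omega)
  have e2 : p (k + 1 + 1) ∉ R k := A.far _ _ (by omega) (by omega) (by omega) (by omega)
  rcases le_or_gt m m' with hl | hl
  · exact e1 (a1 ▸ b2 m hl)
  · exact e2 (b1 ▸ a2 m' hl.le)

/-- if one arc is not forward, all arcs are backward -/
theorem Corr.dir_back (A : Corr M x n p R) {k0 : ℕ} (hk0 : k0 < n)
    (h0 : ¬ FA M x (R k0) (p k0) (p (k0 + 1))) :
    (∀ k, k < n → FA M x (R k) (p (k + 1)) (p k)) ∧
      ∀ k, k < n → ¬ FA M x (R k) (p k) (p (k + 1)) := by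
  have nx : ∀ k, k + 1 < n → FA M x (R k) (p k) (p (k + 1)) →
      FA M x (R (k + 1)) (p (k + 1)) (p (k + 1 + 1)) := by
    intro k hk h
    rcases A.arc (k + 1) hk with h1 | h1
    · exact h1
    · exact (A.no_turn1 hk h h1).elim
  have pv : ∀ k, k + 1 < n → FA M x (R (k + 1)) (p (k + 1)) (p (k + 1 + 1)) →
      FA M x (R k) (p k) (p (k + 1)) := by
    intro k hk h
    rcases A.arc k (by omega) with h1 | h1
    · exact h1
    · exact (A.no_turn2 hk h1 h).elim
  have up : ∀ j k, k + j < n → FA M x (R k) (p k) (p (k + 1)) →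
      FA M x (R (k + j)) (p (k + j)) (p (k + j + 1)) := by
    intro j
    induction j with
    | zero => intro k _ h; exact h
    | succ j ih => intro k hk h; exact nx (k + j) (by omega) (ih k (by omega) h)
  have dn : ∀ j k, k + j < n → FA M x (R (k + j)) (p (k + j)) (p (k + j + 1)) →
      FA M x (R k) (p k) (p (k + 1)) := by
    intro j
    induction j with
    | zero => intro k _ h; exact h
    | succ j ih => intro k hk h; exact ih k (by omega) (pv (k + j) (by omega) h)
  have hno : ∀ k, k < n → ¬ FA M x (R k) (p k) (p (k + 1)) := by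
    intro k hk h
    apply h0
    rcases le_total k k0 with hl | hl
    · have := up (k0 - k) k (by omega) h
      rwa [show k + (k0 - k) = k0 by omega] at this
    · exact dn (k - k0) k0 (by omega) (by rwa [show k0 + (k - k0) = k by omega])
  refine ⟨fun k hk => ?_, hno⟩
  rcases A.arc k hk with h | h
  · exact absurd h (hno k hk)
  · exact h

/-- **all arcs forward** -/
theorem Corr.fwd [Finite D] (A : Corr M x n p R)
    (hf : ∀ k, k < n → FA M x (R k) (p k) (p (k + 1))) :
    ∃ (N : ℕ) (T : ℕ → ℕ), Lp M x (p 0) N ∧ T 0 = 0 ∧ T n < N ∧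
      (∀ k, T (k + 1) = T k + ft M x (p k) (p (k + 1))) ∧
      (∀ k, k < n → T k < T (k + 1)) ∧ (∀ k, k ≤ n → (stp M x)^[T k] (p 0) = p k) ∧
      ∀ k, k < n → ∀ i, T k ≤ i → i ≤ T (k + 1) → (stp M x)^[i] (p 0) ∈ R k := by
  have hn := A.n1
  have hex : ∀ k, k < n → ∃ m, (stp M x)^[m] (p k) = p (k + 1) := fun k hk => by
    obtain ⟨m, h, -⟩ := hf k hk
    exact ⟨m, h⟩
  set f : ℕ → ℕ := fun k => ft M x (p k) (p (k + 1)) with hfdef
  have f1 : ∀ k, k < n → (stp M x)^[f k] (p k) = p (k + 1) := fun k hk => ft_spec (hex k hk)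
  have f2 : ∀ k, k < n → ∀ i ≤ f k, (stp M x)^[i] (p k) ∈ R k := by
    intro k hk i hi
    obtain ⟨m, h1, h2⟩ := hf k hk
    exact h2 i (hi.trans (ft_min h1))
  have f3 : ∀ k, k < n → 0 < f k := by
    intro k hk
    rcases Nat.eq_zero_or_pos (f k) with h | h
    · exfalso
      have h1 := f1 k hk
      rw [h] at h1
      exact A.ne k hk h1
    · exact h
  set T : ℕ → ℕ := fun k => ∑ i ∈ Finset.range k, f i with hT
  have Ts : ∀ k, T (k + 1) = T k + f k := fun k => Finset.sum_range_succ _ _
  have T0 : T 0 = 0 := Finset.sum_range_zero _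
  have Tp : ∀ k, k ≤ n → (stp M x)^[T k] (p 0) = p k := by
    intro k
    induction k with
    | zero => intro _; rw [T0]; rfl
    | succ k ih =>
      intro hk
      rw [Ts, Nat.add_comm, Function.iterate_add_apply, ih (by omega), f1 k (by omega)]
  have Tlt : ∀ k, k < n → T k < T (k + 1) := fun k hk => by
    rw [Ts]
    have := f3 k hk
    omega
  have TR : ∀ k, k < n → ∀ i, T k ≤ i → i ≤ T (k + 1) → (stp M x)^[i] (p 0) ∈ R k := by
    intro k hk i h1 h2
    rw [Ts] at h2
    have h3 := f2 k hk (i - T k) (by omega)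
    rw [← Tp k hk.le, ← Function.iterate_add_apply, show i - T k + T k = i by omega] at h3
    exact h3
  obtain ⟨N, L⟩ := lp_exists A.even (A.occ 0 (by omega))
  refine ⟨N, T, L, T0, ?_, Ts, Tlt, Tp, TR⟩
  by_contra hlt
  push Not at hlt
  obtain ⟨k, -, hk, h1, h2⟩ := arc_of (T := T) (a := 0) (b := n) (u := N) (by omega)
    (by rw [T0]; exact Nat.zero_le _) hlt
  have hmem := TR k hk N h1 h2
  rw [L.per] at hmem
  have hk0 : k = 0 := by
    by_contra hc
    exact A.far k 0 hk (by omega) (by omega) (by omega) hmem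
  subst hk0
  rw [zero_add] at h2
  have h5 : (stp M x)^[T 1 - N] (p 0) = p 1 := by
    have h6 := Tp 1 (by omega)
    rw [show T 1 = (T 1 - N) + N by omega, Function.iterate_add_apply, L.per] at h6
    exact h6
  have h7 : f 0 ≤ T 1 - N := ft_min h5
  have h8 := Ts 0
  rw [T0, zero_add, zero_add] at h8
  have := L.pos
  have := f3 0 (by omega)
  omega

/-- links of an open corridor -/
def LinksO (M : CMap D C) (x : D → ZMod 2) (n : ℕ) (p : ℕ → D) : Prop :=
  ∀ k k' c, k < k' → k' < n → (k' = k + 1 ∧ c = M.cell (p k')) ∨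
    ConA M x c (M.cell (p k)) (M.cell (p (k + 1))) ∨
    ConA M x c (M.cell (p k')) (M.cell (p (k' + 1)))

/-- the cut hypothesis from links, genuine cells only on the arcs -/
theorem cut_links {q : D} (L : Lp M x q N) {a b : ℕ} {T : ℕ → ℕ}
    (G : ∀ i, T a ≤ i → i ≤ T b → Gen M (lc M x q i))
    (Tn : T b ≤ T a + N) (hmono : ∀ k, a ≤ k → k < b → T k ≤ T (k + 1))
    (hl : ∀ k k' c, a ≤ k → k < k' → k' < b → (k' = k + 1 ∧ c = lc M x q (T k')) ∨
      ConA M x c (lc M x q (T k)) (lc M x q (T (k + 1))) ∨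
      ConA M x c (lc M x q (T k')) (lc M x q (T (k' + 1)))) : Cut M x q T a b := by
  intro k k' h0 h1 h2 u v a1 a2 a3 a4 e
  have e1 := mono_of hmono (show a ≤ k + 1 by omega) (show k + 1 ≤ k' by omega) (by omega)
  have e2 := mono_of hmono (show a ≤ k' + 1 by omega) (show k' + 1 ≤ b by omega) le_rfl
  have e3 := mono_of hmono le_rfl h0 (by omega)
  have e4 := mono_of hmono (show a ≤ k' by omega) (show k' ≤ b by omega) le_rfl
  obtain ⟨h3, h4⟩ := two_arcs L (G u (by omega) (by omega)) (c := lc M x q u) (A := T k)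
    (B := T (k + 1)) (A' := T k') (B' := T (k' + 1)) a1 a2 e1 a3 a4 (by omega) rfl e.symm
  rcases hl k k' (lc M x q u) h0 h1 h2 with h | h | h
  · exact h
  · exact absurd h h3
  · exact absurd h h4

theorem Cut.sub {q : D} {T : ℕ → ℕ} {a b a' b' : ℕ} (h : Cut M x q T a b) (ha : a ≤ a')
    (hb : b' ≤ b) : Cut M x q T a' b' :=
  fun k k' h1 h2 h3 => h k k' (by omega) h2 (by omega)

/-- a gap of the tile `k` is on the block path of the corridor iff it is on the block path of the
tile -/
theorem ink_tile {q : D} {T : ℕ → ℕ} {a b k i : ℕ} (hmono : ∀ k, a ≤ k → k < b → T k ≤ T (k + 1))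
    (hcut : Cut M x q T a b) (h1 : a ≤ k) (h2 : k < b) (h3 : T k ≤ i) (h4 : i < T (k + 1)) :
    InK M x q (T a) (T b) i ↔ InK M x q (T k) (T (k + 1)) i := by
  rw [ink_sum (by omega) hmono hcut]
  constructor
  · rintro ⟨k', b1, b2, b3⟩
    have e1 := b3.lo
    have e2 := b3.hi
    have hkk : k' = k := by
      rcases lt_trichotomy k' k with h | h | h
      · have := mono_of hmono (show a ≤ k' + 1 by omega) (show k' + 1 ≤ k by omega) (by omega)
        omega
      · exact h
      · have := mono_of hmono (show a ≤ k + 1 by omega) (show k + 1 ≤ k' by omega) (by omega)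
        omega
    rw [← hkk]
    exact b3
  · intro h
    exact ⟨k, h1, h2, h⟩

/-- **the open corridor, all arcs forward** -/
theorem Corr.main [Finite D] (A : Corr M x n p R)
    (hf : ∀ k, k < n → FA M x (R k) (p k) (p (k + 1)))
    (G : ∀ k, k < n → ∀ d ∈ R k, Gen M (M.cell d)) (hl : LinksO M x n p) :
    ∃ (N : ℕ) (T : ℕ → ℕ), Lp M x (p 0) N ∧ T 0 = 0 ∧ T n < N ∧
      (∀ k, k < n → T (k + 1) = T k + ft M x (p k) (p (k + 1))) ∧
      (∀ k, k < n → T k < T (k + 1)) ∧ (∀ k, k ≤ n → (stp M x)^[T k] (p 0) = p k) ∧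
      (∀ k, k < n → ∀ i, T k ≤ i → i ≤ T (k + 1) → (stp M x)^[i] (p 0) ∈ R k) ∧
      Cut M x (p 0) T 0 n ∧
      ∀ {A : Type} [AddCommMonoid A] (w : D → A) (k : ℕ), k < n →
        KS M x (p 0) w (T k) (T (k + 1)) = ZZ M x w (R k) (p k) (p (k + 1)) := by
  obtain ⟨N, T, L, T0, TN, Ts, Tlt, Tp, TR⟩ := A.fwd hf
  have lcT : ∀ k, k ≤ n → lc M x (p 0) (T k) = M.cell (p k) := fun k hk => by
    unfold lc
    rw [Tp k hk]
  refine ⟨N, T, L, T0, TN, fun k _ => Ts k, Tlt, Tp, TR, ?_, fun w k hk => ?_⟩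
  · refine cut_links L (fun i h1 h2 => ?_) (by omega) (fun k _ hk => (Tlt k hk).le) ?_
    · obtain ⟨k, -, hk, h3, h4⟩ := arc_of (T := T) (a := 0) (b := n) (u := i)
        (by have := A.n1; omega) h1 h2
      exact G k hk _ (TR k hk i h3 h4)
    · intro k k' c _ h1 h2
      rw [lcT k (by omega), lcT (k + 1) (by omega), lcT k' (by omega), lcT (k' + 1) (by omega)]
      exact hl k k' c h1 h2
  · have h1 := ks_shift (M := M) (x := x) (q := p 0) (w := w) (t := T k) (a := 0)
      (b := ft M x (p k) (p (k + 1)))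
    rw [Tp k hk.le] at h1
    unfold ZZ
    rw [if_pos (hf k hk), h1, Ts, zero_add, Nat.add_comm (T k)]

/-- the opposite direction -/
theorem Corr.rev (A : Corr M x n p R) :
    Corr M x n (fun k => p (n - k)) fun k => R (n - 1 - k) where
  even := A.even
  n1 := A.n1
  occ := fun k _ => A.occ _ (by omega)
  ne := fun k hk => by
    have h1 := A.ne (n - 1 - k) (by omega)
    rw [show n - 1 - k + 1 = n - k by omega, show n - 1 - k = n - (k + 1) by omega] at h1
    exact h1.symm
  far := fun k j hk hj h1 h2 => A.far _ _ (by omega) (by omega) (by omega) (by omega)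
  arc := fun k hk => by
    have h1 := A.arc (n - 1 - k) (by omega)
    rw [show n - 1 - k + 1 = n - k by omega] at h1
    rw [show n - (k + 1) = n - 1 - k by omega]
    exact h1.symm

theorem LinksO.rev (h : LinksO M x n p) : LinksO M x n fun k => p (n - k) := by
  intro k k' c h1 h2
  have key := h (n - 1 - k') (n - 1 - k) c (by omega) (by omega)
  rw [show n - 1 - k' = n - (k' + 1) by omega, show n - (k' + 1) + 1 = n - k' by omega,
    show n - 1 - k = n - (k + 1) by omega, show n - (k + 1) + 1 = n - k by omega] at key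
  rcases key with ⟨b1, b2⟩ | b | b
  · left
    refine ⟨by omega, ?_⟩
    rw [b2, show n - (k + 1) = n - k' by omega]
  · right; right
    exact b.symm
  · right; left
    exact b.symm

end Crest.Agent.R143.Splx117
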