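import Crest.Agent.R143.Part_778
import Crest.Agent.R143.ChordC_357
import Crest.Agent.R143.Gnt_535
import Crest.Agent.R143.Spl4_117

/-!
# Row 143 (S0194), RIG, R6 second half: full tiles (helper683; 778, 176)

The block path of the out arc in a tile, as a block of the net in which the two revealed parts
`K_left`, `K_right` (and what joins them inside) are ONE black giant.

* `chord_c` : 357's `chord_coarse` with `single` only for the left cells of the chord (other giants,
  e.g. white ones, are allowed)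
* `ks_chord` : the block path sum `KS` (117) of an arc with joined ends in the giant = sum over one
  block of the coarse map
* `ks_agree` : `KS` depends only on the colours of the left and right cells of the arc
* `Gts.isC` ; `chord_le` : **the deterministic bound for a tile**, the colours off the arc are
  arbitrary
* `tile_sum` : the sum over the colours (weight of the other tubes and gates), form of 778's `part`
* `tile` : both together
-/

set_option autoImplicit false
set_option linter.unusedSectionVars false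

noncomputable section

open scoped Classical

namespace Crest.Agent.R143.TileMx683

open Crest.Agent.R143.Frame1x395 Crest.Agent.R143.Frame2x395 Crest.Agent.R143.Frame3x395
  Crest.Agent.R143.Frame4x395 Crest.Agent.R143.Frame8x395 Crest.Agent.R143.Frame9x395
  Crest.Agent.R143.NonXx592
  Crest.Agent.R143.Coarsex166 Crest.Agent.R143.Coarse2x166 Crest.Agent.R143.Giantx46
  Crest.Agent.R143.Resax778 Crest.Agent.R143.Partx778 Crest.Agent.R143.ChordCx357
  Crest.Agent.R143.Splx117

section chord

variable {D C C' : Type} {M : CMap D C} {x : D → ZMod 2} {π : C → C'} {hπ : ClsCon M π}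

/-- **the block of the coarse map through the giant = the chord** (357), several giants allowed -/
theorem chord_c [Fintype D] (hx : IsC (coarse M π hπ) ∅ x) {o : C'} {p : D} (hp : x p = 1)
    {t₁ t₂ : ℕ} (h12 : t₁ < t₂)
    (single : ∀ u v, t₁ < u → u < v → v < t₂ →
      π (M.cell (P M x p u)) = π (M.cell (P M x p v)) → M.cell (P M x p u) = M.cell (P M x p v))
    {k₀ : D} (hk₀ : Gp M x k₀) (hk₁ : M.rho k₀ = P M x p t₁)
    (h1 : π (M.cell (P M x p t₁)) = o) (h2 : π (M.cell (P M x p t₂)) = o)
    (hin : ∀ u, t₁ < u → u < t₂ → π (M.cell (P M x p u)) ≠ o) :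
    blk (coarse M π hπ) x k₀ = cset M (P M x p) t₁ t₂ := by
  set K := coarse M π hπ with hK
  have hxM : IsC M ∅ x := IsC.of_coarse hx
  have hgK : Gp K x k₀ := hk₀
  obtain ⟨N, hNpos, hN, hinj, hlast⟩ := exists_period hx hgK
  have base : ∀ n, P M x (out M k₀) n = P M x p (t₁ + 1 + n) := by
    intro n
    have e1 : out M k₀ = P M x p (t₁ + 1) := by
      rw [P_succ, ← hk₁, hk₀.stp hxM]
    rw [e1, ← P_add]
    congr 1
    omega
  have baseK : ∀ n, P K x (out K k₀) n = P M x p (t₁ + 1 + n) := base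
  obtain ⟨m, rfl⟩ := Nat.exists_eq_add_of_lt h12
  -- the return
  have hm : π (M.cell (P M x (out M k₀) m)) = o := by
    rw [base m, show t₁ + 1 + m = t₁ + m + 1 by omega]; exact h2
  have hlt : ∀ u, u < m → π (M.cell (P M x (out M k₀) u)) ≠ o := by
    intro u hu
    rw [base u]
    exact hin _ (by omega) (by omega)
  have hlo : π (M.cell (P M x (out M k₀) (N - 1))) = o := by
    have : M.rho k₀ = P M x (out M k₀) (N - 1) := hlast
    rw [← this, hk₁]; exact h1
  have hmN : m ≤ N - 1 := by
    by_contra hc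
    exact hlt (N - 1) (by omega) hlo
  have c0 : π (M.cell (M.rho k₀)) = o := by rw [hk₁]; exact h1
  rcases Nat.eq_zero_or_pos m with rfl | hmpos
  · -- direct transition between two cells of the giant
    have e1 : K.cell k₀ = K.cell (K.rho k₀) := by
      show π (M.cell k₀) = π (M.cell (M.rho k₀))
      rw [c0, ← Frame9x395.cell_out hxM hk₀]
      exact hm
    rw [blk_single hx hgK e1]
    ext h
    rw [Finset.mem_singleton, mem_cset]
    constructor
    · rintro rfl
      refine ⟨t₁, le_rfl, h12, hk₁, ?_, fun u v a1 a2 a3 a4 => by omega⟩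
      rw [P_succ, ← hk₁, hk₀.stp hxM]
    · rintro ⟨s, a1, a2, a3, -, -⟩
      have : s = t₁ := by omega
      subst this
      exact rho_inj M (a3.trans hk₁.symm)
  · ext h
    rw [mem_cset]
    constructor
    · intro hh
      by_cases hhk : h = k₀
      · subst hhk
        refine ⟨t₁, le_rfl, h12, hk₁, ?_, fun u v a1 a2 a3 a4 => by omega⟩
        rw [P_succ, ← hk₁, hk₀.stp hxM]
      · obtain ⟨b, hbN, hhb⟩ := blk_time hx hgK hNpos hN hlast hh hhk
        obtain ⟨gh, rh⟩ := mem_blk.1 hh
        have hr := (rel_loop hx hgK hN hinj hlast hbN gh hhb).1 rh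
        have hbm : b < m := by
          by_contra hc
          refine hr m (by omega) (N - 1) (by omega) (by omega) ?_
          show π (M.cell (P M x (out M k₀) m)) = π (M.cell (P M x (out M k₀) (N - 1)))
          rw [hm, hlo]
        have hhb' : M.rho h = P M x (out M k₀) b := hhb
        refine ⟨t₁ + 1 + b, by omega, by omega, hhb'.trans (base b), ?_, ?_⟩
        · have gh' : Gp M x h := gh
          rw [← gh'.stp hxM, hhb', base b, ← P_succ]
        · intro u v a1 a2 a3 a4 e
          refine hr (u - (t₁ + 1)) (by omega) (v - (t₁ + 1)) (by omega) (by omega) ?_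
          show π (M.cell (P M x (out M k₀) (u - (t₁ + 1)))) =
            π (M.cell (P M x (out M k₀) (v - (t₁ + 1))))
          rw [base, base, show t₁ + 1 + (u - (t₁ + 1)) = u by omega,
            show t₁ + 1 + (v - (t₁ + 1)) = v by omega, e]
    · rintro ⟨s, a1, a2, a3, a4, a5⟩
      have gh : Gp M x h := gp_of_out hxM (P_occ hxM hp s) a3 (by rw [a4, P_succ])
      rcases Nat.eq_or_lt_of_le a1 with e | hs
      · subst e
        have : h = k₀ := rho_inj M (a3.trans hk₁.symm)
        rw [this]
        exact Frame8x395.self_mem hgK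
      · have hb : M.rho h = P M x (out M k₀) (s - (t₁ + 1)) := by
          rw [base, show t₁ + 1 + (s - (t₁ + 1)) = s by omega]; exact a3
        refine mem_blk.2 ⟨gh, (rel_loop hx hgK hN hinj hlast (by omega) gh hb).2 ?_⟩
        intro u hu v hv1 hv2 e
        have e' : π (M.cell (P M x (out M k₀) u)) = π (M.cell (P M x (out M k₀) v)) := e
        have hu' : π (M.cell (P M x (out M k₀) u)) ≠ o := hlt u (by omega)
        rcases lt_trichotomy v m with c1 | c1 | c1
        · rw [base, base] at e'
          have e2 := single _ _ (by omega) (by omega) (by omega) e'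
          exact a5 (t₁ + 1 + u) (t₁ + 1 + v) (by omega) (by omega) (by omega) (by omega) e2
        · rw [c1, hm] at e'
          exact hu' e'
        · rcases Nat.eq_or_lt_of_le (show v ≤ N - 1 by omega) with c2 | c2
          · rw [c2, hlo] at e'
            exact hu' e'
          · -- crossing
            have sh : ∀ n, P K x (K.rho k₀) (n + 1) = P K x (out K k₀) n := by
              intro n
              rw [P_add]
              congr 1
              show stp K x (K.rho k₀) = out K k₀
              exact hgK.stp hx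
            have h0 : P K x (K.rho k₀) 0 = P K x (out K k₀) (N - 1) := hlast
            have hcross := noncross hx (M := K) (p := K.rho k₀) hgK.2 (k := u + 1) (j := m + 1)
              (l := v + 1) (by omega) (by omega) (by omega) ?_ ?_ ?_
            · rw [sh] at hcross
              exact hu' (hcross.trans c0)
            · intro a b hab hbl
              obtain ⟨b', rfl⟩ : ∃ b', b = b' + 1 := ⟨b - 1, by omega⟩
              rw [sh]
              cases a with
              | zero =>
                rw [h0]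
                exact (hinj b' (N - 1) (by omega) (by omega)).symm
              | succ a =>
                rw [sh]
                exact hinj a b' (by omega) (by omega)
            · rw [sh]
              exact hm.trans c0.symm
            · rw [sh, sh]
              exact e

/-- **the block path of an arc whose ends are in the giant** -/
theorem ks_chord [Fintype D] {q : D} {N : ℕ} (L : Lp M x q N) (hx : IsC (coarse M π hπ) ∅ x)
    {o : C'} {A0 A1 A2 A3 m : ℕ} (h01 : A0 ≤ A1) (h1m : A1 ≤ m) (hm2 : m ≤ A2) (h23 : A2 ≤ A3)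
    (hN : A3 < A0 + N)
    (hcut : ∀ u v, A0 ≤ u → u ≤ A1 → A2 ≤ v → v ≤ A3 → lc M x q u ≠ lc M x q v)
    (o0 : π (lc M x q A0) = o) (o3 : π (lc M x q A3) = o) (om : π (lc M x q m) ≠ o)
    (ho : ∀ u, A0 ≤ u → u ≤ A3 → π (lc M x q u) = o →
      (u ≤ A1 ∧ lc M x q u = lc M x q A0) ∨ (A2 ≤ u ∧ lc M x q u = lc M x q A3))
    (single : ∀ u v, A0 ≤ u → u ≤ A3 → A0 ≤ v → v ≤ A3 → π (lc M x q u) ≠ o →
      π (lc M x q u) = π (lc M x q v) → lc M x q u = lc M x q v) :
    ∃ k₀, Gp M x k₀ ∧ ∀ {E : Type} [AddCommMonoid E] (w : D → E),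
      KS M x q w A0 A3 = ∑ k ∈ blk (coarse M π hπ) x k₀, w k := by
  have hne0 : A0 ≠ m := by rintro rfl; exact om o0
  have hne3 : m ≠ A3 := by rintro rfl; exact om o3
  obtain ⟨t1, b1, b2, b3, b4⟩ := last_time (Q := fun i => π (lc M x q i) = o)
    (show A0 < m by omega) o0 om
  obtain ⟨t2, c1, c2, c3, c4⟩ := first_time (Q := fun i => π (lc M x q i) = o)
    (show m < A3 by omega) o3 om
  have e1 : t1 ≤ A1 ∧ lc M x q t1 = lc M x q A0 := by
    rcases ho t1 b1 (by omega) b3 with h | h
    · exact h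
    · omega
  have e2 : A2 ≤ t2 ∧ lc M x q t2 = lc M x q A3 := by
    rcases ho t2 (by omega) c2 c3 with h | h
    · omega
    · exact h
  have hav : ∀ u, t1 < u → u < t2 → π (lc M x q u) ≠ o := by
    intro u h1 h2
    rcases Nat.lt_or_ge m u with h | h
    · exact c4 u h.le h2
    · exact b4 u h1 h
  have xk : x (gp M x q t1) = 0 := L.gap_of_ne (by
    intro e
    exact hav (t1 + 1) (by omega) (by omega) (by rw [e]; exact b3))
  have hk : Gp M x (gp M x q t1) := L.gap xk
  refine ⟨gp M x q t1, hk, fun {E} _ w => ?_⟩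
  have hb := chord_c (hπ := hπ) hx (o := o) L.occ (t₁ := t1) (t₂ := t2) (by omega)
    (fun u v h1 h2 h3 e => single u v (by omega) (by omega) (by omega) (by omega)
      (hav u h1 (by omega)) e) hk (rho_gp t1) b3 c3 hav
  rw [hb]
  have hinj : ∀ a b, A0 ≤ a → a < b → b ≤ A3 → (stp M x)^[a] q ≠ (stp M x)^[b] q :=
    fun a b h1 h2 h3 => L.ne h2 (by omega)
  have hP : ∀ a b, P M x ((stp M x)^[a] q) b = (stp M x)^[b + a] q := fun a b =>
    (Function.iterate_add_apply _ _ _ _).symm
  -- the times of the chord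
  have key : ∀ s, (A0 ≤ s ∧ s < A3 ∧ InK M x q A0 A3 s) ↔
      (t1 ≤ s ∧ s < t2 ∧ x (gp M x q s) = 0 ∧
        ∀ u v, t1 < u → u ≤ s → s < v → v < t2 → lc M x q u ≠ lc M x q v) := by
    intro s
    constructor
    · rintro ⟨a1, a2, hK⟩
      refine ⟨?_, ?_, hK.gap, fun u v d1 d2 d3 d4 => hK.sep u v (by omega) d2 d3 (by omega)⟩
      · by_contra hc
        push Not at hc
        exact hK.sep A0 t1 le_rfl a1 hc (by omega) e1.2.symm
      · by_contra hc
        push Not at hc
        exact hK.sep t2 A3 (by omega) hc a2 le_rfl e2.2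
    · rintro ⟨a1, a2, a3, a4⟩
      refine ⟨by omega, by omega, by omega, by omega, a3, fun j l d1 d2 d3 d4 e => ?_⟩
      rcases Nat.lt_or_ge t1 j with hj | hj
      · rcases Nat.lt_or_ge l t2 with hl | hl
        · exact a4 j l hj d2 d3 hl e
        · -- `j : c`, `t2 : o`, `l : c`, `A3 : o`
          have hjo : π (lc M x q j) ≠ o := hav j hj (by omega)
          have hl2 : l ≠ t2 := by rintro rfl; exact hjo (by rw [e]; exact c3)
          have hl3 : l ≠ A3 := by rintro rfl; exact hjo (by rw [e]; exact o3)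
          have hc := noncross L.even (p := (stp M x)^[j] q) (L.st j) (k := t2 - j) (j := l - j)
            (l := A3 - j) (by omega) (by omega) (by omega) ?_ ?_ ?_
          · rw [hP, show t2 - j + j = t2 by omega] at hc
            exact hjo (by rw [← show lc M x q t2 = lc M x q j from hc]; exact c3)
          · intro a b hab hbl
            rw [hP, hP]
            exact hinj _ _ (by omega) (by omega) (by omega)
          · rw [hP, show l - j + j = l by omega]
            exact e.symm
          · rw [hP, hP, show t2 - j + j = t2 by omega, show A3 - j + j = A3 by omega]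
            exact e2.2
      · rcases Nat.lt_or_ge l t2 with hl | hl
        · -- `A0 : o`, `j : c`, `t1 : o`, `l : c`
          have hlo : π (lc M x q l) ≠ o := hav l (by omega) hl
          have hj1 : j ≠ t1 := by rintro rfl; exact hlo (by rw [← e]; exact b3)
          have hj0 : j ≠ A0 := by rintro rfl; exact hlo (by rw [← e]; exact o0)
          have hc := noncross L.even (p := (stp M x)^[A0] q) (L.st A0) (k := j - A0) (j := t1 - A0)
            (l := l - A0) (by omega) (by omega) (by omega) ?_ ?_ ?_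
          · rw [hP, show j - A0 + A0 = j by omega] at hc
            exact hlo (by rw [← e, show lc M x q j = lc M x q A0 from hc]; exact o0)
          · intro a b hab hbl
            rw [hP, hP]
            exact hinj _ _ (by omega) (by omega) (by omega)
          · rw [hP, show t1 - A0 + A0 = t1 by omega]
            exact e1.2
          · rw [hP, hP, show j - A0 + A0 = j by omega, show l - A0 + A0 = l by omega]
            exact e
        · exact hcut j l d1 (by omega) (by omega) d4 e
  have himg : cset M (P M x q) t1 t2 =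
      ((Finset.Ico A0 A3).filter (InK M x q A0 A3)).image (gp M x q) := by
    ext h
    rw [mem_cset, Finset.mem_image]
    constructor
    · rintro ⟨s, a1, a2, a3, a4, a5⟩
      have hg : Gp M x h := gp_of_out L.even (L.st s) a3 (by
        rw [a4]; exact Function.iterate_succ_apply' _ _ _)
      have e : h = gp M x q s := L.eq_gp a3.symm
      obtain ⟨d1, d2, d3⟩ := (key s).2 ⟨a1, a2, by rw [← e]; exact hg.1, a5⟩
      exact ⟨s, Finset.mem_filter.2 ⟨Finset.mem_Ico.2 ⟨d1, d2⟩, d3⟩, e.symm⟩
    · rintro ⟨s, hs, rfl⟩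
      rw [Finset.mem_filter, Finset.mem_Ico] at hs
      obtain ⟨d1, d2, d3, d4⟩ := (key s).1 ⟨hs.1.1, hs.1.2, hs.2⟩
      exact ⟨s, d1, d2, rho_gp s, L.out_eq d3, d4⟩
  rw [himg, Finset.sum_image]
  · rfl
  · intro a ha b hb' e
    rw [Finset.mem_coe, Finset.mem_filter, Finset.mem_Ico] at ha hb'
    rcases lt_trichotomy a b with h | h | h
    · exact absurd e (L.gp_ne h (by omega))
    · exact h
    · exact absurd e.symm (L.gp_ne h (by omega))

end chord

/-! ### sums over the colours -/

section sums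

variable {D C : Type} [Fintype D] [Fintype C] {M : CMap D C}

/-- **TILES.** `T` = cells of the window; `r σ` = what is seen off `T`; `g (r σ)` = weight of the
tubes and gates off the window; `E q` = recoloured cells (off `T`), `χ₀ q` = their new colours,
`A q` = their giants. -/
theorem tile_sum {w : ℂ} (w3 : w ^ 3 = 1) (w1 : w ≠ 1) (wc : (starRingEnd ℂ) w = w ^ 2)
    {T : Finset C} {R : Type} {r : (C → ZMod 2) → R}
    (hr : ∀ σ τ, (∀ s, s ∉ T → τ s = σ s) → r τ = r σ)
    {G : (C → ZMod 2) → Prop} {g : R → ℝ} (hg0 : ∀ σ, 0 ≤ g (r σ))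
    {C' : R → Type} [∀ q, Fintype (C' q)] {π : ∀ q, C → C' q} {hπ : ∀ q, ClsCon M (π q)}
    {E : R → Finset C} {χ₀ : ∀ _ : R, C → ZMod 2}
    {A : ∀ q, Finset (C' q)} {v : ∀ q, C' q → ZMod 2} {m : ℕ} (hA : ∀ q, (A q).card ≤ m)
    (HG : ∀ σ, g (r σ) ≠ 0 → Gts (π (r σ)) (E (r σ)) (χ₀ (r σ)) (A (r σ)) (v (r σ)))
    {a : R → D → ℂ} (ha : ∀ q, Spin M w (a q))
    {X : (C → ZMod 2) → (C → ZMod 2) → ℝ}
    (hX : ∀ σ τ, G σ → g (r σ) ≠ 0 → X σ τ ≤
      ∑ β ∈ blks (coarse M (π (r σ)) (hπ (r σ)))
        (cfg M (glue (E (r σ)) (χ₀ (r σ)) (glue T σ τ))), ‖∑ k ∈ β, a (r σ) k‖ ^ 2) :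
    ∑ σ, ∑ τ, (if G σ then g (r σ) * X σ τ else 0) ≤
      (2 : ℝ) ^ m / 4 * Fintype.card (C → ZMod 2) * ∑ σ, g (r σ) * ∑ k, ‖a (r σ) k‖ ^ 2 := by
  set F : R → (C → ZMod 2) → ℝ := fun q τ =>
    ∑ β ∈ blks (coarse M (π q) (hπ q)) (cfg M (glue (E q) (χ₀ q) τ)), ‖∑ k ∈ β, a q k‖ ^ 2 with hF
  have hF0 : ∀ q τ, 0 ≤ F q τ := fun q τ => Finset.sum_nonneg fun β _ => by positivity
  have h1 : ∑ σ, ∑ τ, (if G σ then g (r σ) * X σ τ else 0) ≤
      ∑ σ, ∑ τ, g (r σ) * F (r σ) (glue T σ τ) := by
    refine Finset.sum_le_sum fun σ _ => Finset.sum_le_sum fun τ _ => ?_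
    by_cases h : G σ
    · rw [if_pos h]
      by_cases h' : g (r σ) = 0
      · rw [h', zero_mul, zero_mul]
      · exact mul_le_mul_of_nonneg_left (hX σ τ h h') (hg0 σ)
    · rw [if_neg h]
      exact mul_nonneg (hg0 σ) (hF0 _ _)
  -- exchange of the colours on the window
  have hT : StopSet (S := C) (B := ZMod 2) fun _ => T := fun _ _ _ => rfl
  have h3 : ∑ σ, ∑ τ, g (r σ) * F (r σ) (glue T σ τ) = ∑ σ, ∑ τ, g (r σ) * F (r σ) τ := by
    have h2 := sum_sw (S := C) (B := ZMod 2) hT fun τ' σ' => g (r σ') * F (r σ') τ'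
    rw [Finset.sum_comm (f := fun σ τ => g (r σ) * F (r σ) τ), ← h2]
    refine Finset.sum_congr rfl fun σ _ => Finset.sum_congr rfl fun τ _ => ?_
    have e : r (glue T τ σ) = r σ := hr σ _ fun s hs => glue_off hs
    show _ = g (r (glue T τ σ)) * F (r (glue T τ σ)) (glue T σ τ)
    rw [e]
  refine (h1.trans h3.le).trans ?_
  rw [Finset.mul_sum]
  refine Finset.sum_le_sum fun σ _ => ?_
  rw [← Finset.mul_sum]
  by_cases h' : g (r σ) = 0
  · rw [h', zero_mul, zero_mul, mul_zero]
  have h4 := (HG σ h').frame (M := M) (hπ := hπ (r σ)) w3 w1 wc (ha (r σ))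
  calc g (r σ) * ∑ τ, F (r σ) τ
      ≤ g (r σ) * ((2 : ℝ) ^ (A (r σ)).card / 4 * Fintype.card (C → ZMod 2) *
        ∑ k, ‖a (r σ) k‖ ^ 2) := mul_le_mul_of_nonneg_left h4 (hg0 σ)
    _ ≤ g (r σ) * ((2 : ℝ) ^ m / 4 * Fintype.card (C → ZMod 2) *
        ∑ k, ‖a (r σ) k‖ ^ 2) := by
        refine mul_le_mul_of_nonneg_left ?_ (hg0 σ)
        have h5 : (2 : ℝ) ^ (A (r σ)).card ≤ 2 ^ m := pow_le_pow_right₀ (by norm_num) (hA _)
        gcongr
    _ = _ := by ring

/-! ### one giant: everything off the window is one black class -/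

/-- the contraction of the cells off the window -/
def piT (T : Finset C) (c : C) : Option {c // c ∈ T} := if h : c ∈ T then some ⟨c, h⟩ else none

theorem piT_on {T : Finset C} {c : C} (h : c ∈ T) : piT T c = some ⟨c, h⟩ := dif_pos h

theorem piT_off {T : Finset C} {c : C} (h : c ∉ T) : piT T c = none := dif_neg h

theorem piT_inj {T : Finset C} {c c' : C} (h : c ∈ T) (e : piT T c = piT T c') : c = c' := by
  rw [piT_on h] at e
  by_cases h' : c' ∈ T
  · rw [piT_on h'] at e
    exact congrArg Subtype.val (Option.some.inj e)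
  · rw [piT_off h'] at e
    exact absurd e (Option.some_ne_none _)

theorem piT_ne {T : Finset C} {c : C} (h : c ∈ T) : piT T c ≠ none := by
  rw [piT_on h]; exact Option.some_ne_none _

theorem gts_piT {T : Finset C} (hne : ∃ c, c ∉ T) :
    Gts (piT T) (Finset.univ \ T) (fun _ => 1) {none} (fun _ => 1) where
  surj := by
    intro b
    cases b with
    | none =>
      obtain ⟨c, hc⟩ := hne
      exact ⟨c, piT_off hc⟩
    | some b => exact ⟨b.1, piT_on b.2⟩
  inj := fun c c' hc e => piT_inj (by
    by_contra h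
    exact hc (Finset.mem_sdiff.2 ⟨Finset.mem_univ _, h⟩)) e
  mem := fun c hc => by
    rw [piT_off (Finset.mem_sdiff.1 hc).2]
    exact Finset.mem_singleton_self _
  ex := by
    intro b hb
    obtain ⟨c, hc⟩ := hne
    exact ⟨c, Finset.mem_sdiff.2 ⟨Finset.mem_univ _, hc⟩, by
      rw [piT_off hc, Finset.mem_singleton.1 hb]⟩
  col := fun _ _ => rfl

/-- `σ` on the window, black elsewhere -/
def bl (T : Finset C) (σ : C → ZMod 2) : C → ZMod 2 := fun c => if c ∈ T then σ c else 1

theorem glue_bl (T : Finset C) (σ τ : C → ZMod 2) :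
    glue (Finset.univ \ T) (fun _ => 1) (glue T σ τ) = bl T σ := by
  funext c
  unfold bl
  by_cases h : c ∈ T
  · rw [if_pos h, glue_off (fun h' => (Finset.mem_sdiff.1 h').2 h), glue_on h]
  · rw [if_neg h]
    exact glue_on (Finset.mem_sdiff.2 ⟨Finset.mem_univ _, h⟩)

/-- the coarse configuration is even -/
theorem isC_bl {T : Finset C} (hne : ∃ c, c ∉ T) (h : ClsCon M (piT T)) (σ : C → ZMod 2) :
    IsC (coarse M (piT T) h) ∅ (cfg M (bl T σ)) := by
  obtain ⟨c0, hc0⟩ := hne
  have e : cfg M (bl T σ) = cfg (coarse M (piT T) h)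
      (fun b => match b with | none => 1 | some c => σ c.1) := by
    funext d
    have key : ∀ c : C, bl T σ c = (match piT T c with | none => 1 | some c => σ c.1) := by
      intro c
      unfold bl
      by_cases h' : c ∈ T
      · rw [if_pos h', piT_on h']
      · rw [if_neg h', piT_off h']
    show bl T σ (M.cell d) + bl T σ (M.cell (M.rho d)) = _
    rw [key, key]
    rfl
  rw [e]
  exact cfg_isC _

/-- **TILES, one giant** (490's map): window `T`, everything off the window is one black class -/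
theorem tile_one {w : ℂ} (w3 : w ^ 3 = 1) (w1 : w ≠ 1) (wc : (starRingEnd ℂ) w = w ^ 2)
    {T : Finset C} (hne : ∃ c, c ∉ T) (hT : ClsCon M (piT T)) {R : Type}
    {r : (C → ZMod 2) → R} (hr : ∀ σ τ, (∀ s, s ∉ T → τ s = σ s) → r τ = r σ)
    {G : (C → ZMod 2) → Prop} {g : R → ℝ} (hg0 : ∀ σ, 0 ≤ g (r σ))
    {a : D → ℂ} (ha : Spin M w a) {X : (C → ZMod 2) → ℝ}
    (hX : ∀ σ, G σ → g (r σ) ≠ 0 → X σ ≤
      ∑ β ∈ blks (coarse M (piT T) hT) (cfg M (bl T σ)), ‖∑ k ∈ β, a k‖ ^ 2) :
    ∑ σ, (if G σ then g (r σ) * X σ else 0) ≤ 1 / 2 * ∑ σ, g (r σ) * ∑ k, ‖a k‖ ^ 2 := by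
  have h1 := tile_sum (M := M) w3 w1 wc (T := T) hr (G := G) hg0 (C' := fun _ => _)
    (π := fun _ => piT T) (hπ := fun _ => hT) (E := fun _ => Finset.univ \ T)
    (χ₀ := fun _ _ => 1) (A := fun _ => {none}) (v := fun _ _ => 1) (m := 1)
    (fun _ => by rw [Finset.card_singleton]) (fun _ _ => gts_piT hne) (a := fun _ => a)
    (fun _ => ha) (X := fun σ _ => X σ) (fun σ τ h h' => by
      rw [glue_bl]; exact hX σ h h')
  have h2 : ∀ σ, ∑ _τ : C → ZMod 2, (if G σ then g (r σ) * X σ else 0) =
      Fintype.card (C → ZMod 2) * (if G σ then g (r σ) * X σ else 0) := fun σ => by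
    rw [Finset.sum_const, Finset.card_univ, nsmul_eq_mul]
  rw [Finset.sum_congr rfl fun σ _ => h2 σ, ← Finset.mul_sum] at h1
  have h3 : (0 : ℝ) < Fintype.card (C → ZMod 2) := by exact_mod_cast Fintype.card_pos
  refine le_of_mul_le_mul_left (h1.trans (le_of_eq ?_)) h3
  ring

end sums

/-! ### the block path depends on the colours along the arc -/

section agree

open Crest.Agent.R143.Gntx535

variable {D C : Type} [Fintype D] {M : CMap D C}

theorem ink_agree {σ μ : C → ZMod 2} {q : D} (hq : cfg M σ q = 1) {n : ℕ}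
    (hag : ∀ c ∈ wl M (cfg M σ) q n ∪ wr M (cfg M σ) q n, μ c = σ c) {i : ℕ} :
    InK M (cfg M μ) q 0 n i ↔ InK M (cfg M σ) q 0 n i := by
  obtain ⟨-, h1⟩ := walk_agree hq hag
  have h1' : ∀ j ≤ n, (stp M (cfg M μ))^[j] q = (stp M (cfg M σ))^[j] q := h1
  have e1 : ∀ j ≤ n, lc M (cfg M μ) q j = lc M (cfg M σ) q j := fun j hj => by
    unfold lc; rw [h1' j hj]
  have e2 : ∀ j ≤ n, gp M (cfg M μ) q j = gp M (cfg M σ) q j := fun j hj => by
    unfold gp; rw [h1' j hj]
  have e3 : ∀ j < n, cfg M μ (gp M (cfg M μ) q j) = cfg M σ (gp M (cfg M σ) q j) := by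
    intro j hj
    rw [e2 j hj.le]
    have a1 : μ (M.cell (gp M (cfg M σ) q j)) = σ (M.cell (gp M (cfg M σ) q j)) := by
      apply hag
      have h2 := third_mem (cfg_isC σ) hq j
      rw [Finset.mem_union] at h2 ⊢
      rcases h2 with h2 | h2
      · left
        obtain ⟨i, hi, e⟩ := mem_wl.1 h2
        exact mem_wl.2 ⟨i, by omega, e⟩
      · right
        obtain ⟨i, hi, e⟩ := mem_wr.1 h2
        exact mem_wr.2 ⟨i, by omega, e⟩
    have a2 : μ (M.cell (M.rho (gp M (cfg M σ) q j))) =
        σ (M.cell (M.rho (gp M (cfg M σ) q j))) := by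
      rw [rho_gp]
      exact hag _ (Finset.mem_union.2 (Or.inl (mem_wl.2 ⟨j, hj.le, rfl⟩)))
    show μ (M.cell (gp M (cfg M σ) q j)) + μ (M.cell (M.rho (gp M (cfg M σ) q j))) = _
    rw [a1, a2]
    rfl
  constructor
  · intro h
    have h2 := h.hi
    refine ⟨h.lo, h.hi, by rw [← e3 i h2]; exact h.gap, fun j l b1 b2 b3 b4 => ?_⟩
    rw [← e1 j (by omega), ← e1 l b4]
    exact h.sep j l b1 b2 b3 b4
  · intro h
    have h2 := h.hi
    refine ⟨h.lo, h.hi, by rw [e3 i h2]; exact h.gap, fun j l b1 b2 b3 b4 => ?_⟩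
    rw [e1 j (by omega), e1 l b4]
    exact h.sep j l b1 b2 b3 b4

/-- **locality of the block path sum** -/
theorem ks_agree {σ μ : C → ZMod 2} {q : D} (hq : cfg M σ q = 1) {n : ℕ}
    (hag : ∀ c ∈ wl M (cfg M σ) q n ∪ wr M (cfg M σ) q n, μ c = σ c) {E : Type}
    [AddCommMonoid E] (w : D → E) :
    KS M (cfg M μ) q w 0 n = KS M (cfg M σ) q w 0 n := by
  obtain ⟨-, h1⟩ := walk_agree hq hag
  have h1' : ∀ j ≤ n, (stp M (cfg M μ))^[j] q = (stp M (cfg M σ))^[j] q := h1
  unfold KS
  rw [Finset.filter_congr fun i _ => ink_agree hq hag]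
  refine Finset.sum_congr rfl fun i hi => ?_
  rw [Finset.mem_filter, Finset.mem_Ico] at hi
  unfold gp
  rw [h1' i hi.1.2.le]

end agree

end Crest.Agent.R143.TileMx683
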