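import Crest.Agent.R143.TileR_176
import Crest.Agent.R143.Eng_490
import Crest.Agent.R143.TileM_683

/-!
# Row 143 (S0194), box R6, glue (helper176): from the inequalities on the closed map `rc (cm0 hS)`
to the sample

* `cells2_le` : real inequality between sums over the colourings of the cells ⟹ sums over the
  colourings of the sites
* `av_part` : conclusion of 778's `part` at one environment ⟹ `av (g · av X) ≤ K Qf` (any `Fintype`
  instance on the colourings of the cells)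
* `QF` : what the deterministic half must supply at one environment for a full tile (683's `tile_one`,
  490's `TileW`); `QF.le`
* `tileF` : `c^#J₀ ∏ E a_i · E[g F] ≤ C s² E g`
-/

set_option autoImplicit false
set_option linter.unusedSectionVars false

noncomputable section

open scoped Classical

namespace Crest.Agent.R143.TileFx176

open MeasureTheory Set Filter Topology
open Crest.ProbabilityR.Voronoi
open Crest.Agent.R143.PP0x831 Crest.Agent.R143.Poisx304 Crest.Agent.R143.Janx304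
open Crest.Agent.R143.Prodx609 Crest.Agent.R143.ColSumx304 Crest.Agent.R143.Lawx831
open Crest.Agent.R143.Dblx609 Crest.Agent.R143.Dbl2x609
open Crest.Agent.R143.IndLocx279 Crest.Agent.R143.PWx978 Crest.Agent.R143.TilePx176
  Crest.Agent.R143.TileQx176 Crest.Agent.R143.TileRx176
open Crest.Agent.R143.B0x346 Crest.Agent.R143.DelGx806 Crest.Agent.R143.FinCx811
  Crest.Agent.R143.Engx490 Crest.Agent.R143.Mass3x302 Crest.Agent.R143.Mass4x302
open Crest.Agent.R143.Frame1x395 Crest.Agent.R143.Frame2x395 Crest.Agent.R143.Frame3x395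
  Crest.Agent.R143.Frame4x395
open Crest.Agent.R143.Frame8x395 hiding cfg
open Crest.Agent.R143.Frame10x395
open Crest.Agent.R143.Frame5x395 (sd mem_sd th th_spec)
open Crest.Agent.R143.Coarsex166 Crest.Agent.R143.TileMx683
open Crest.Agent.R143.SumScx302 (sq)
open Crest.Agent.R143.Mass1x302 (T3 Nn)
open Crest.Agent.R143.FinMx609 (cen3 rad3)
open Crest.Agent.R143.CorMx970 (av)
open scoped ENNReal

variable {S : Finset ℂ}

/-- the inner sites are different cells -/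
theorem ni_le (hS : GP (S : Set ℂ)) (h3 : 3 ≤ S.card) : ni S ≤ Fintype.card (Cs hS) := by
  have hc : Fintype.card {v : {v // v ∈ S} // ¬ OnHull S v.1} = ni S := by
    unfold ni
    rw [Fintype.card_subtype]
    rw [← Finset.card_map (Function.Embedding.subtype _)]
    congr 1
    ext v
    simp only [Finset.mem_map, Finset.mem_filter, Finset.mem_univ, true_and,
      Function.Embedding.coe_subtype, Subtype.exists, exists_and_left, exists_prop,
      exists_eq_right_right]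
    tauto
  rw [← hc]
  exact Fintype.card_le_of_injective (fun v => cs hS h3 v.1) fun v w h =>
    (Subtype.ext (cs_inj hS h3 v.2 h)).symm

theorem ni_le_card (S : Finset ℂ) : ni S ≤ S.card := Finset.card_filter_le _ _

/-- **two colourings, real inequalities relative to a weight** -/
theorem cells2_le (hS : GP (S : Set ℂ)) (h3 : 3 ≤ S.card) {gO : Finset ℂ → ℝ}
    {Φ : Finset ℂ → Finset ℂ → ℝ}
    (hg : ∀ b c, b ⊆ S → c ⊆ S → Eqi S b c → gO b = gO c)
    (hΦ : ∀ b c b' c', b ⊆ S → c ⊆ S → b' ⊆ S → c' ⊆ S → Eqi S b c → Eqi S b' c' →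
      Φ b b' = Φ c c') {K : ℝ}
    (h : ∑ σ : Cs hS → ZMod 2, ∑ τ : Cs hS → ZMod 2, Φ (bk hS h3 σ) (bk hS h3 τ) ≤
      K * (Fintype.card (Cs hS → ZMod 2) * ∑ σ : Cs hS → ZMod 2, gO (bk hS h3 σ))) :
    ∑ β ∈ S.powerset, ∑ β' ∈ S.powerset, Φ β β' ≤
      K * ((2 : ℝ) ^ S.card * ∑ β ∈ S.powerset, gO β) := by
  have e1 := sum_cells2 hS h3 Φ hΦ
  have e2 := sum_cells hS h3 gO hg
  have n1 := ni_le hS h3
  have n2 := ni_le_card S
  set n := ni S with hn
  set m := Fintype.card (Cs hS) with hm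
  obtain ⟨p, hp⟩ := Nat.exists_eq_add_of_le n1
  obtain ⟨q, hq⟩ := Nat.exists_eq_add_of_le n2
  have hp' : m - n = p := by omega
  have hq' : S.card - n = q := by omega
  rw [hp', hq', nsmul_eq_mul, nsmul_eq_mul] at e1 e2
  push_cast at e1 e2
  have hC : (Fintype.card (Cs hS → ZMod 2) : ℝ) = 2 ^ m := by
    rw [Fintype.card_fun, ZMod.card]; push_cast; rfl
  rw [hC] at h
  have h4 : (0 : ℝ) < 4 ^ p := by positivity
  have h5 : (0 : ℝ) < 4 ^ q := by positivity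
  refine le_of_mul_le_mul_left ?_ h4
  rw [← e1]
  have e3 : (4 : ℝ) ^ q = 2 ^ q * 2 ^ q := by rw [← mul_pow]; norm_num
  have e4 : (4 : ℝ) ^ p = 2 ^ p * 2 ^ p := by rw [← mul_pow]; norm_num
  calc (4 : ℝ) ^ q * ∑ σ : Cs hS → ZMod 2, ∑ τ : Cs hS → ZMod 2, Φ (bk hS h3 σ) (bk hS h3 τ)
      ≤ 4 ^ q * (K * (2 ^ m * ∑ σ : Cs hS → ZMod 2, gO (bk hS h3 σ))) :=
        mul_le_mul_of_nonneg_left h h5.le
    _ = K * (2 ^ q * 2 ^ m * (2 ^ q * ∑ σ : Cs hS → ZMod 2, gO (bk hS h3 σ))) := by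
        rw [e3]; ring
    _ = K * (2 ^ q * 2 ^ m * (2 ^ p * ∑ β ∈ S.powerset, gO β)) := by rw [e2]
    _ = 4 ^ p * (K * (2 ^ S.card * ∑ β ∈ S.powerset, gO β)) := by
        rw [e4, hp, hq, pow_add, pow_add]; ring

/-- one colouring -/
theorem cells_le (hS : GP (S : Set ℂ)) (h3 : 3 ≤ S.card) {gO Φ : Finset ℂ → ℝ}
    (hg : ∀ b c, b ⊆ S → c ⊆ S → Eqi S b c → gO b = gO c)
    (hΦ : ∀ b c, b ⊆ S → c ⊆ S → Eqi S b c → Φ b = Φ c) {K : ℝ}
    (h : ∑ σ : Cs hS → ZMod 2, Φ (bk hS h3 σ) ≤ K * ∑ σ : Cs hS → ZMod 2, gO (bk hS h3 σ)) :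
    ∑ β ∈ S.powerset, Φ β ≤ K * ∑ β ∈ S.powerset, gO β := by
  have e1 := sum_cells hS h3 Φ hΦ
  have e2 := sum_cells hS h3 gO hg
  rw [nsmul_eq_mul, nsmul_eq_mul] at e1 e2
  push_cast at e1 e2
  have h4 : (0 : ℝ) < 2 ^ (Fintype.card (Cs hS) - ni S) := by positivity
  have h5 : (0 : ℝ) < 2 ^ (S.card - ni S) := by positivity
  refine le_of_mul_le_mul_left ?_ h4
  rw [← e1]
  calc (2 : ℝ) ^ (S.card - ni S) * ∑ σ : Cs hS → ZMod 2, Φ (bk hS h3 σ)
      ≤ 2 ^ (S.card - ni S) * (K * ∑ σ : Cs hS → ZMod 2, gO (bk hS h3 σ)) :=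
        mul_le_mul_of_nonneg_left h h5.le
    _ = K * (2 ^ (S.card - ni S) * ∑ σ : Cs hS → ZMod 2, gO (bk hS h3 σ)) := by ring
    _ = K * (2 ^ (Fintype.card (Cs hS) - ni S) * ∑ β ∈ S.powerset, gO β) := by rw [e2]
    _ = _ := by ring

/-! ### energy, real form -/

theorem energy' {D : Set ℂ} {d : ℝ} {a : D0 S → ℂ}
    (ha : ∀ g : D0 S, ‖a g‖ ≤ ‖Nn (g.1.2, th S g.1, g.1.1)‖)
    (hs : ∀ g : D0 S, a g ≠ 0 → cen3 (fc S g) ∈ D ∧ rad3 (fc S g) ≤ d) (β : Finset ℂ) :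
    ∑ g, ‖a g‖ ^ 2 ≤ 9 * (Hd D d (paint S β)).toReal := by
  have h := energy (A := D) (d := d) (X := paint S β) (ps_paint S β) ha hs
  have ht : (9 : ℝ≥0∞) * Hd D d (paint S β) ≠ ∞ :=
    ENNReal.mul_ne_top (by simp) (Hd_fin (paint_finite S β))
  have h1 := (ENNReal.ofReal_le_iff_le_toReal ht).1 h
  rwa [ENNReal.toReal_mul, ENNReal.toReal_ofNat] at h1

/-! ### partial tiles -/

section net

variable {ε : ℝ} {ι κ : Type*} (M : Net ε ι κ)
variable {I I₁ : Finset ι} {J J₁ : Finset κ} {D W B : Set ℂ} {d : ℝ}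

/-- **PARTIAL TILES at one environment**: the conclusion of 778's `part` (`c = 2^m / 4`) with
`g (r σ) = (g_off (paint S (bk σ))).toReal` gives the majorant -/
theorem av_part (hI : I₁ ⊆ I) (hJ : J₁ ⊆ J) (hN : ∀ k ∈ J, M.N k ⊆ I)
    (hN₁ : ∀ k ∈ J \ J₁, M.N k ⊆ I \ I₁) {ω : Sample} (hi : ∀ c, Inj ε (toPos ω) c)
    (hA : (S : Set ℂ) = points ε ω ∩ B) (hS : GP (S : Set ℂ)) (h3 : 3 ≤ S.card)
    {X : Finset ℂ → Finset ℂ → ℝ} (hX0 : ∀ b b', 0 ≤ X b b')
    (ig : Inn S (M.gw (I \ I₁) (J \ J₁))) (iw : Inn S (win M I₁ J₁))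
    (hX : ∀ b c b' c', b ⊆ S → c ⊆ S → b' ⊆ S → c' ⊆ S → Eqi S b c → Eqi S b' c' →
      win M I₁ J₁ (paint S b) ≠ 0 → X b b' = X c c')
    {a : D0 S → ℂ} (ha : ∀ g : D0 S, ‖a g‖ ≤ ‖Nn (g.1.2, th S g.1, g.1.1)‖)
    (hs : ∀ g : D0 S, a g ≠ 0 → cen3 (fc S g) ∈ D ∧ rad3 (fc S g) ≤ d)
    [iF : Fintype (Cs hS → ZMod 2)] {G : (Cs hS → ZMod 2) → Prop} {c : ℝ} (hc : 0 ≤ c)
    (hG : ∀ σ, win M I₁ J₁ (paint S (bk hS h3 σ)) ≠ 0 → G σ)
    (h : ∑ σ : Cs hS → ZMod 2, ∑ τ : Cs hS → ZMod 2, (if G σ then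
        (M.gw (I \ I₁) (J \ J₁) (paint S (bk hS h3 σ))).toReal * X (bk hS h3 σ) (bk hS h3 τ) else 0) ≤
      c * Fintype.card (Cs hS → ZMod 2) * ∑ σ : Cs hS → ZMod 2,
        (M.gw (I \ I₁) (J \ J₁) (paint S (bk hS h3 σ))).toReal * ∑ k, ‖a k‖ ^ 2) :
    av S.powerset (fun β => (M.gw I J (paint S β)).toReal * av S.powerset (X β)) ≤
      9 * c * (Qf M I I₁ J J₁ D d B ω).toReal := by
  obtain rfl : iF = Pi.instFintype := Subsingleton.elim _ _
  refine av_le M hI hJ hN hN₁ hi hA (fun b _ b' _ => hX0 b b') ?_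
  set E : ℝ := (Hd D d (paint S ∅)).toReal with hE
  have hEb : ∀ β, (Hd D d (paint S β)).toReal = E := fun β => by rw [hE, Hd_paint D d S β ∅]
  have key := cells2_le hS h3 (K := 9 * c)
    (gO := fun b => (M.gw (I \ I₁) (J \ J₁) (paint S b)).toReal * (Hd D d (paint S b)).toReal)
    (Φ := fun b b' => (M.gw (I \ I₁) (J \ J₁) (paint S b)).toReal *
      ((win M I₁ J₁ (paint S b)).toReal * X b b'))
    (fun b c hb hc h => by simp only [hEb]; rw [ig b c hb hc h])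
    (fun b c b' c' hb hc hb' hc' h h' => by
      have e1 := ig b c hb hc h
      have e2 := iw b c hb hc h
      by_cases h0 : win M I₁ J₁ (paint S b) = 0
      · rw [← e2, h0]; simp
      · rw [e1, e2, hX b c b' c' hb hc hb' hc' h h' h0])
    ?_
  · exact key
  simp only [hEb]
  calc ∑ σ : Cs hS → ZMod 2, ∑ τ : Cs hS → ZMod 2,
        (M.gw (I \ I₁) (J \ J₁) (paint S (bk hS h3 σ))).toReal *
          ((win M I₁ J₁ (paint S (bk hS h3 σ))).toReal * X (bk hS h3 σ) (bk hS h3 τ))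
      ≤ ∑ σ : Cs hS → ZMod 2, ∑ τ : Cs hS → ZMod 2, (if G σ then
        (M.gw (I \ I₁) (J \ J₁) (paint S (bk hS h3 σ))).toReal *
          X (bk hS h3 σ) (bk hS h3 τ) else 0) := by
        refine Finset.sum_le_sum fun σ _ => Finset.sum_le_sum fun τ _ => ?_
        by_cases h0 : win M I₁ J₁ (paint S (bk hS h3 σ)) = 0
        · rw [h0, ENNReal.toReal_zero, zero_mul, mul_zero]
          split_ifs
          · exact mul_nonneg ENNReal.toReal_nonneg (hX0 _ _)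
          · exact le_rfl
        · rw [if_pos (hG σ h0)]
          refine mul_le_mul_of_nonneg_left ?_ ENNReal.toReal_nonneg
          refine mul_le_of_le_one_left (hX0 _ _) ?_
          have := ENNReal.toReal_mono ENNReal.one_ne_top (win_le_one M (I₁ := I₁) (J₁ := J₁)
            (paint S (bk hS h3 σ)))
          simpa using this
    _ ≤ _ := h
    _ ≤ c * Fintype.card (Cs hS → ZMod 2) * ∑ σ : Cs hS → ZMod 2,
        (M.gw (I \ I₁) (J \ J₁) (paint S (bk hS h3 σ))).toReal * (9 * E) := by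
        gcongr with σ _
        exact (energy' ha hs ∅)
    _ = _ := by
        rw [← Finset.sum_mul, ← Finset.sum_mul]
        ring

end net

/-! ### full tiles -/

/-- **what the deterministic half must supply for a full tile at one environment** `S`: `w` = the
weight of the window, `F` = the square of the charge, `D`, `d` = region and radius of the field -/
def QF (S : Finset ℂ) (w F : Cf → ℝ≥0∞) (D : Set ℂ) (d : ℝ) : Prop :=
  (∀ β ⊆ S, w (paint S β) * F (paint S β) = 0) ∨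
  ∃ (hS : GP (S : Set ℂ)) (h3 : 3 ≤ S.card) (T : Finset (Cs hS)) (_ : ∃ c, c ∉ T)
    (hT : ClsCon (restr (cm0 hS)) (piT T)) (a : D0 S → ℂ),
    Inn S (fun Y => w Y * F Y) ∧ Spin (cm0 hS) om a ∧
    (∀ g : D0 S, ‖a g‖ ≤ ‖Nn (g.1.2, th S g.1, g.1.1)‖) ∧
    (∀ g : D0 S, a g ≠ 0 → cen3 (fc S g) ∈ D ∧ rad3 (fc S g) ≤ d) ∧
    ∀ σ : Cs hS → ZMod 2, w (paint S (bk hS h3 σ)) ≠ 0 → F (paint S (bk hS h3 σ)) ≤
      ENNReal.ofReal (∑ β ∈ blks (coarse (restr (cm0 hS)) (piT T) hT)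
        (Frame8x395.cfg (restr (cm0 hS)) (bl T σ)), ‖∑ k ∈ β, a k‖ ^ 2)

/-- 683's `tile_one` without weight -/
theorem tile_all {D C : Type} [Fintype D] [Fintype C] {M : CMap D C} {T : Finset C}
    (hne : ∃ c, c ∉ T) (hT : ClsCon M (piT T)) {a : D → ℂ} (ha : Spin M om a) :
    ∑ σ : C → ZMod 2, ∑ β ∈ blks (coarse M (piT T) hT) (Frame8x395.cfg M (bl T σ)),
        ‖∑ k ∈ β, a k‖ ^ 2 ≤
      1 / 2 * (Fintype.card (C → ZMod 2) * ∑ k, ‖a k‖ ^ 2) := by
  have key := tile_one (M := M) om3 om_ne om_conj hne hT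
    (r := fun _ => ()) (fun _ _ _ => rfl) (G := fun _ => True) (g := fun _ => 1)
    (fun _ => zero_le_one) (a := a) ha
    (X := fun σ => ∑ β ∈ blks (coarse M (piT T) hT) (Frame8x395.cfg M (bl T σ)),
      ‖∑ k ∈ β, a k‖ ^ 2) (fun σ _ _ => le_rfl)
  simp only [if_true, one_mul] at key
  rwa [Finset.sum_const, Finset.card_univ, nsmul_eq_mul] at key

theorem tile_all' {D C : Type} [Fintype D] [Fintype C] [iF : Fintype (C → ZMod 2)]
    {M : CMap D C} {T : Finset C} (hne : ∃ c, c ∉ T) (hT : ClsCon M (piT T)) {a : D → ℂ}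
    (ha : Spin M om a) :
    ∑ σ : C → ZMod 2, ∑ β ∈ blks (coarse M (piT T) hT) (Frame8x395.cfg M (bl T σ)),
        ‖∑ k ∈ β, a k‖ ^ 2 ≤
      1 / 2 * (Fintype.card (C → ZMod 2) * ∑ k, ‖a k‖ ^ 2) := by
  have h := tile_all hne hT ha
  rw [Subsingleton.elim iF Pi.instFintype]
  exact h

theorem QF.le {w F : Cf → ℝ≥0∞} {D : Set ℂ} {d : ℝ} (h : QF S w F D d)
    (hw : ∀ Y, w Y ≤ 1) :
    ∑ β ∈ S.powerset, w (paint S β) * F (paint S β) ≤
      5 * ∑ β ∈ S.powerset, Hd D d (paint S β) := by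
  rcases h with h | ⟨hS, h3, T, hne, hT, a, hI, ha, hn, hs, hX⟩
  · rw [Finset.sum_eq_zero fun β hβ => h β (Finset.mem_powerset.1 hβ)]
    exact zero_le
  set E : ℝ≥0∞ := Hd D d (paint S ∅) with hE
  have hEb : ∀ β, Hd D d (paint S β) = E := fun β => by rw [hE, Hd_paint D d S β ∅]
  have hEt : E ≠ ∞ := Hd_fin (paint_finite S ∅)
  set bb : (Cs hS → ZMod 2) → ℝ := fun σ =>
    ∑ β ∈ blks (coarse (restr (cm0 hS)) (piT T) hT)
      (Frame8x395.cfg (restr (cm0 hS)) (bl T σ)), ‖∑ k ∈ β, a k‖ ^ 2 with hbb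
  have hbb0 : ∀ σ, 0 ≤ bb σ := fun σ => Finset.sum_nonneg fun β _ => by positivity
  have key : ∑ σ : Cs hS → ZMod 2, bb σ ≤
      1 / 2 * (Fintype.card (Cs hS → ZMod 2) * ∑ k, ‖a k‖ ^ 2) := by
    exact tile_all' (D := D0 S) (C := Cs hS) (M := restr (cm0 hS)) hne hT ha
  have hsum : ∑ σ : Cs hS → ZMod 2, w (paint S (bk hS h3 σ)) * F (paint S (bk hS h3 σ)) ≤
      5 * ∑ _σ : Cs hS → ZMod 2, E := by
    calc ∑ σ : Cs hS → ZMod 2, w (paint S (bk hS h3 σ)) * F (paint S (bk hS h3 σ))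
        ≤ ∑ σ : Cs hS → ZMod 2, ENNReal.ofReal (bb σ) := by
          refine Finset.sum_le_sum fun σ _ => ?_
          by_cases h0 : w (paint S (bk hS h3 σ)) = 0
          · rw [h0, zero_mul]; exact zero_le
          · calc w (paint S (bk hS h3 σ)) * F (paint S (bk hS h3 σ)) ≤
                  1 * ENNReal.ofReal (bb σ) := by
                  gcongr
                  · exact hw _
                  · exact hX σ h0
              _ = _ := one_mul _
      _ = ENNReal.ofReal (∑ σ : Cs hS → ZMod 2, bb σ) :=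
          (ENNReal.ofReal_sum_of_nonneg fun σ _ => hbb0 σ).symm
      _ ≤ ENNReal.ofReal (5 * (Fintype.card (Cs hS → ZMod 2) * E.toReal)) := by
          refine ENNReal.ofReal_le_ofReal (key.trans ?_)
          have h1 := energy' (S := S) hn hs ∅
          rw [hEb ∅] at h1
          have h2 : (0 : ℝ) ≤ Fintype.card (Cs hS → ZMod 2) := Nat.cast_nonneg _
          have h4 : 0 ≤ E.toReal := ENNReal.toReal_nonneg
          nlinarith
      _ = _ := by
          rw [ENNReal.ofReal_mul (by norm_num), ENNReal.ofReal_mul (Nat.cast_nonneg _),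
            ENNReal.ofReal_natCast, ENNReal.ofReal_toReal hEt, Finset.sum_const, Finset.card_univ,
            nsmul_eq_mul, ENNReal.ofReal_ofNat]
  have h5 := le_paint hS h3 (Φ := fun Y => w Y * F Y) (Ψ := Hd D d) hI
    (fun b c _ _ _ => Hd_paint D d S b c) (K := 5) (by
      simp only [hEb]
      exact hsum)
  exact h5

/-- **FULL TILES**: box R6 for a local functional of a window -/
theorem tileF : ∃ C : ℝ≥0∞, C ≠ ∞ ∧ ∀ {ε s : ℝ} {ι κ : Type} [DecidableEq ι] [DecidableEq κ]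
    (M : Net ε ι κ) (I I₀ : Finset ι) (J J₀ : Finset κ), ε ≤ s → I₀ ⊆ I → J₀ ⊆ J →
    (∀ k ∈ J, M.N k ⊆ I) → (∀ k ∈ J₀, M.N k ⊆ I₀) →
    ∀ (z : ℂ) (D B : Set ℂ) (d : ℝ), MeasurableSet D → MeasurableSet B →
    Bornology.IsBounded B → M.reg I₀ J₀ ⊆ B →
    (∀ o ∈ D, Metric.closedBall o d ⊆ sq z s ∩ B) →
    ∀ F : Cf → ℝ≥0∞, LocalOn (M.reg I₀ J₀) F → FinMeas F →
    (∀ᵐ ω ∂sampleLaw, QF (Ap ε B ω) (win M I₀ J₀) F D d) →
    (M.c ^ J₀.card * ∏ i ∈ I₀, ∫⁻ ω, M.a i (cfg ε ω) ∂sampleLaw) *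
        ∫⁻ ω, M.gw I J (cfg ε ω) * F (cfg ε ω) ∂sampleLaw ≤
      C * ENNReal.ofReal (s ^ 2) * ∫⁻ ω, M.gw I J (cfg ε ω) ∂sampleLaw := by
  obtain ⟨C, hC, h⟩ := Hd_mean
  refine ⟨5 * C, ENNReal.mul_ne_top (by simp) hC, ?_⟩
  intro ε s ι κ _ _ M I I₀ J J₀ hs hI hJ hN hN₀ z D B d hD hB hBb hregB hDW F hF hFm hX
  refine (M.upper hI hJ hN hN₀ hF hFm).trans ?_
  have w0 : LocalOn (M.reg I₀ J₀) (win M I₀ J₀) := by
    refine LocalOn.mul (M.a_local (I := I₀) (J := J₀)) (local_prod' J₀ fun k hk =>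
      LocalOn.mono ?_ (M.el k))
    exact union_subset_union (biUnion_subset_biUnion_left (hN₀ k hk))
      (subset_biUnion_of_mem (u := M.C) hk)
  have hwF : LocalOn B fun Y => win M I₀ J₀ Y * F Y :=
    LocalOn.mono hregB (LocalOn.mul w0 hF)
  have h0 : LocalOn B (Hd D d) := Hd_local fun o ho => (hDW o ho).trans inter_subset_right
  have key := quench1 (ε := ε) (B := B) M.eps hB hBb (Φ := fun Y => win M I₀ J₀ Y * F Y)
    (Ψ := Hd D d) (fun n => Hd_meas hD d n) (K := 5) (by simp) (by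
      filter_upwards [hX] with ω hω
      exact hω.le fun Y => win_le_one M Y)
  have e1 : ∀ ω, win M I₀ J₀ (cfg ε ω ∩ ovr B) * F (cfg ε ω ∩ ovr B) =
      win M I₀ J₀ (cfg ε ω) * F (cfg ε ω) := fun ω => (hwF (cfg ε ω)).symm
  have e2 : ∀ ω, Hd D d (cfg ε ω ∩ ovr B) = Hd D d (cfg ε ω) := fun ω => (h0 (cfg ε ω)).symm
  simp only [e1, e2] at key
  have h1 := h ε s M.eps hs z D d fun o ho => (hDW o ho).trans inter_subset_left
  calc (∫⁻ ω, M.gw I J (cfg ε ω) ∂sampleLaw) *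
        ∫⁻ ω, ((∏ i ∈ I₀, M.a i (cfg ε ω)) * ∏ k ∈ J₀, M.e k (cfg ε ω)) * F (cfg ε ω) ∂sampleLaw
      ≤ (∫⁻ ω, M.gw I J (cfg ε ω) ∂sampleLaw) * (5 * (C * ENNReal.ofReal (s ^ 2))) := by
        gcongr
        exact key.trans (by gcongr)
    _ = _ := by ring

end Crest.Agent.R143.TileFx176
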