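import Crest.Agent.R143.GWX_597
import Crest.Agent.R143.Hq_304
import Crest.Agent.R143.TileF_176

/-!
# Row 143 (S0194), box Q2 (helper597): field `hQ` of 654's `Quen` from the inequalities on the cells

No symmetry (`Eqi`) of the charges is needed: with 304's `chiS` the mean over the black sets is the
mean over the colourings of the cells (`GWXx597.av_chiS`).

* `qf_cells` : 176's majorant `Qf` as a mean over the colourings of the cells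
* **`av_cells`** : conclusion of 535's / 810's inequality (cells) at one environment ⟹
  `av (g · av X) ≤ 9 c Qf` (mean over the colourings of the cells; `g` = weight of the net)
* **`hQ_cells`** : the same for the windows of 304 (`Wnd`): the field `hQ` of `QuenC` with
  `Q = Qt M I J n I₁ J₁ D d B (9 c) ω`
* `hQ_sites` : field `hQ` of 654's `Quen` for `W l (chiS β) (chiS β')`
-/

set_option autoImplicit false
set_option linter.unusedSectionVars false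

noncomputable section

open scoped Classical

namespace Crest.Agent.R143.DryQx597

open MeasureTheory Set Filter Topology
open Crest.ProbabilityR.Voronoi
open Crest.Agent.R143.PP0x831 Crest.Agent.R143.Poisx304 Crest.Agent.R143.Janx304
open Crest.Agent.R143.Prodx609 Crest.Agent.R143.ColSumx304 Crest.Agent.R143.Lawx831
open Crest.Agent.R143.Dblx609 Crest.Agent.R143.Dbl2x609
open Crest.Agent.R143.IndLocx279 Crest.Agent.R143.PWx978 Crest.Agent.R143.TilePx176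
  Crest.Agent.R143.TileQx176 Crest.Agent.R143.TileRx176
open Crest.Agent.R143.B0x346 Crest.Agent.R143.DelGx806 Crest.Agent.R143.FinCx811
  Crest.Agent.R143.Mass3x302 Crest.Agent.R143.Mass4x302
open Crest.Agent.R143.Frame1x395 Crest.Agent.R143.Frame2x395 Crest.Agent.R143.Frame3x395
  Crest.Agent.R143.Frame4x395
open Crest.Agent.R143.Frame8x395 hiding cfg
open Crest.Agent.R143.Frame10x395
open Crest.Agent.R143.Frame5x395 (sd mem_sd th th_spec)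
open Crest.Agent.R143.SumScx302 (sq)
open Crest.Agent.R143.Mass1x302 (T3 Nn)
open Crest.Agent.R143.FinMx609 (cen3 rad3)
open Crest.Agent.R143.Engx490 (fc)
open Crest.Agent.R143.CorMx970 (av)
open Crest.Agent.R143.ColXx829 (Xc fin_Xc)
open Crest.Agent.R143.SmallAx304 (chiS)
open Crest.Agent.R143.GWXx597
open Crest.Agent.R143.IndLoc3x279 (clr)
open scoped ENNReal

section net

variable {S : Finset ℂ} {ε : ℝ} {ι κ : Type*} [DecidableEq ι] [DecidableEq κ] (M : Net ε ι κ)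
variable {I I₁ : Finset ι} {J J₁ : Finset κ} {D W B : Set ℂ} {d : ℝ}

/-- the majorant as a mean over the colourings of the cells -/
theorem qf_cells (hN₁ : ∀ k ∈ J \ J₁, M.N k ⊆ I \ I₁) {ω : Sample}
    (hi : ∀ c, Inj ε (toPos ω) c) (hA : (S : Set ℂ) = points ε ω ∩ B)
    (hS : GP (S : Set ℂ)) (h3 : 3 ≤ S.card)
    (off : ∀ v ∈ S, v ∈ M.reg (I \ I₁) (J \ J₁) → ¬ OnHull S v)
    [fi : Fintype (Cs hS → ZMod 2)] :
    (Qf M I I₁ J J₁ D d B ω).toReal = av (Finset.univ : Finset (Cs hS → ZMod 2)) fun σ =>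
      (M.gw (I \ I₁) (J \ J₁) (Xc hS h3 σ)).toReal * (Hd D d (paint S ∅)).toReal := by
  rw [toReal_Qf M hN₁ hi hA, ← av_chiS (h3 := h3)]
  unfold av
  rw [Finset.card_powerset, smul_eq_mul]
  push_cast
  congr 1
  refine Finset.sum_congr rfl fun β _ => ?_
  rw [loc_chiS (M.gw_local hN₁) off, Hd_paint D d S β ∅]
  rfl

/-- **PARTIAL TILES at one environment, colourings of the cells** -/
theorem av_cells (hI : I₁ ⊆ I) (hJ : J₁ ⊆ J) (hN : ∀ k ∈ J, M.N k ⊆ I)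
    (hN₁ : ∀ k ∈ J \ J₁, M.N k ⊆ I \ I₁) {ω : Sample}
    (hi : ∀ c, Inj ε (toPos ω) c) (hA : (S : Set ℂ) = points ε ω ∩ B)
    (hS : GP (S : Set ℂ)) (h3 : 3 ≤ S.card)
    (off : ∀ v ∈ S, v ∈ M.reg (I \ I₁) (J \ J₁) → ¬ OnHull S v)
    [fi : Fintype (Cs hS → ZMod 2)] {X : (Cs hS → ZMod 2) → (Cs hS → ZMod 2) → ℝ}
    (hX0 : ∀ σ τ, 0 ≤ X σ τ) {a : D0 S → ℂ}
    (ha : ∀ g : D0 S, ‖a g‖ ≤ ‖Nn (g.1.2, th S g.1, g.1.1)‖)
    (hs : ∀ g : D0 S, a g ≠ 0 → cen3 (fc S g) ∈ D ∧ rad3 (fc S g) ≤ d)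
    {G : (Cs hS → ZMod 2) → Prop} {c : ℝ} (hc : 0 ≤ c)
    (hG : ∀ σ, win M I₁ J₁ (Xc hS h3 σ) ≠ 0 → G σ)
    (h : ∑ σ : Cs hS → ZMod 2, ∑ τ : Cs hS → ZMod 2, (if G σ then
        (M.gw (I \ I₁) (J \ J₁) (Xc hS h3 σ)).toReal * X σ τ else 0) ≤
      c * Fintype.card (Cs hS → ZMod 2) * ∑ σ : Cs hS → ZMod 2,
        (M.gw (I \ I₁) (J \ J₁) (Xc hS h3 σ)).toReal * ∑ k, ‖a k‖ ^ 2) :
    av (Finset.univ : Finset (Cs hS → ZMod 2)) (fun σ => (M.gw I J (Xc hS h3 σ)).toReal *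
      av (Finset.univ : Finset (Cs hS → ZMod 2)) (X σ)) ≤
      9 * c * (Qf M I I₁ J J₁ D d B ω).toReal := by
  set E : ℝ := (Hd D d (paint S ∅)).toReal with hE
  have hE0 : 0 ≤ E := ENNReal.toReal_nonneg
  set w : (Cs hS → ZMod 2) → ℝ := fun σ => (M.gw (I \ I₁) (J \ J₁) (Xc hS h3 σ)).toReal with hw
  have hw0 : ∀ σ, 0 ≤ w σ := fun σ => ENNReal.toReal_nonneg
  set N : ℝ := (Fintype.card (Cs hS → ZMod 2) : ℝ) with hNc
  have hNp : 0 < N := by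
    rw [hNc]
    exact_mod_cast Fintype.card_pos
  -- the weight
  have h1 : ∀ σ, (M.gw I J (Xc hS h3 σ)).toReal * ∑ τ, X σ τ ≤
      ∑ τ, (if G σ then w σ * X σ τ else 0) := by
    intro σ
    have f1 : M.gw (I \ I₁) (J \ J₁) (Xc hS h3 σ) ≠ ∞ :=
      ne_top_of_le_ne_top ENNReal.one_ne_top (gw_fin_one M hN₁ fin_Xc)
    have f2 : win M I₁ J₁ (Xc hS h3 σ) ≠ ∞ :=
      ne_top_of_le_ne_top ENNReal.one_ne_top (win_le_one M _)
    have f3 : (M.gw I J (Xc hS h3 σ)).toReal ≤ w σ * (win M I₁ J₁ (Xc hS h3 σ)).toReal := by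
      rw [hw, ← ENNReal.toReal_mul]
      exact ENNReal.toReal_mono (ENNReal.mul_ne_top f1 f2) (gw_off_fin M hI hJ hN fin_Xc)
    have f4 : 0 ≤ ∑ τ, X σ τ := Finset.sum_nonneg fun τ _ => hX0 σ τ
    by_cases h0 : win M I₁ J₁ (Xc hS h3 σ) = 0
    · rw [h0, ENNReal.toReal_zero, mul_zero] at f3
      have f5 : (M.gw I J (Xc hS h3 σ)).toReal = 0 := le_antisymm f3 ENNReal.toReal_nonneg
      rw [f5, zero_mul]
      refine Finset.sum_nonneg fun τ _ => ?_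
      split_ifs
      · exact mul_nonneg (hw0 σ) (hX0 σ τ)
      · exact le_rfl
    · rw [Finset.sum_congr rfl fun τ _ => if_pos (hG σ h0), ← Finset.mul_sum]
      refine mul_le_mul_of_nonneg_right (f3.trans ?_) f4
      refine mul_le_of_le_one_right (hw0 σ) ?_
      have := ENNReal.toReal_mono ENNReal.one_ne_top (win_le_one M (I₁ := I₁) (J₁ := J₁)
        (Xc hS h3 σ))
      simpa using this
  have h2 : ∑ σ, (M.gw I J (Xc hS h3 σ)).toReal * ∑ τ, X σ τ ≤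
      9 * c * (N * ∑ σ, w σ * E) := by
    refine (Finset.sum_le_sum fun σ _ => h1 σ).trans (h.trans ?_)
    have h3' : ∑ k, ‖a k‖ ^ 2 ≤ 9 * E := TileFx176.energy' ha hs ∅
    calc c * N * ∑ σ, w σ * ∑ k, ‖a k‖ ^ 2 ≤ c * N * ∑ σ, w σ * (9 * E) := by
          gcongr with σ _
      _ = _ := by
          rw [← Finset.sum_mul, ← Finset.sum_mul]
          ring
  rw [qf_cells M hN₁ hi hA hS h3 off]
  unfold av
  simp only [smul_eq_mul, Finset.card_univ]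
  show N⁻¹ * ∑ σ, (M.gw I J (Xc hS h3 σ)).toReal * (N⁻¹ * ∑ τ, X σ τ) ≤
    9 * c * (N⁻¹ * ∑ σ, w σ * E)
  have e1 : ∑ σ, (M.gw I J (Xc hS h3 σ)).toReal * (N⁻¹ * ∑ τ, X σ τ) =
      N⁻¹ * ∑ σ, (M.gw I J (Xc hS h3 σ)).toReal * ∑ τ, X σ τ := by
    rw [Finset.mul_sum]
    exact Finset.sum_congr rfl fun σ _ => by ring
  rw [e1]
  calc N⁻¹ * (N⁻¹ * ∑ σ, (M.gw I J (Xc hS h3 σ)).toReal * ∑ τ, X σ τ)
      ≤ N⁻¹ * (N⁻¹ * (9 * c * (N * ∑ σ, w σ * E))) := by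
        have := inv_nonneg.2 hNp.le
        gcongr
    _ = 9 * c * (N⁻¹ * (N⁻¹ * N) * ∑ σ, w σ * E) := by ring
    _ = 9 * c * (N⁻¹ * ∑ σ, w σ * E) := by
        rw [inv_mul_cancel₀ hNp.ne', mul_one]

/-- **field `hQ` of `QuenC`** from the inequalities of the windows -/
theorem hQ_cells {ι κ : Type} [DecidableEq ι] [DecidableEq κ] {M : Net ε ι κ} {I : Finset ι}
    {J : Finset κ} {n : ℕ} {I₁ : ℕ → Finset ι} {J₁ : ℕ → Finset κ} {D : ℕ → Set ℂ} {s : ℝ}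
    {m0 : ℝ≥0∞} (h : Hqx304.Wnd M I J n I₁ J₁ D d s B m0) {ω : Sample}
    (hi : ∀ c, Inj ε (toPos ω) c) (hA : (S : Set ℂ) = points ε ω ∩ B)
    (hS : GP (S : Set ℂ)) (h3 : 3 ≤ S.card) (off : ∀ v ∈ S, v ∈ M.reg I J → ¬ OnHull S v)
    [fi : Fintype (Cs hS → ZMod 2)] {X : ℕ → (Cs hS → ZMod 2) → (Cs hS → ZMod 2) → ℝ}
    (hX0 : ∀ l < n, ∀ σ τ, 0 ≤ X l σ τ) {a : ℕ → D0 S → ℂ}
    (ha : ∀ l < n, ∀ g : D0 S, ‖a l g‖ ≤ ‖Nn (g.1.2, th S g.1, g.1.1)‖)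
    (hs : ∀ l < n, ∀ g : D0 S, a l g ≠ 0 → cen3 (fc S g) ∈ D l ∧ rad3 (fc S g) ≤ d)
    {G : ℕ → (Cs hS → ZMod 2) → Prop} {c : ℝ} (hc : 0 ≤ c)
    (hG : ∀ l < n, ∀ σ, win M (I₁ l) (J₁ l) (Xc hS h3 σ) ≠ 0 → G l σ)
    (hq : ∀ l < n, ∑ σ : Cs hS → ZMod 2, ∑ τ : Cs hS → ZMod 2, (if G l σ then
        (M.gw (I \ I₁ l) (J \ J₁ l) (Xc hS h3 σ)).toReal * X l σ τ else 0) ≤
      c * Fintype.card (Cs hS → ZMod 2) * ∑ σ : Cs hS → ZMod 2,
        (M.gw (I \ I₁ l) (J \ J₁ l) (Xc hS h3 σ)).toReal * ∑ k, ‖a l k‖ ^ 2) :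
    ∑ l ∈ Finset.range n, av (Finset.univ : Finset (Cs hS → ZMod 2)) (fun σ =>
      (M.gw I J (Xc hS h3 σ)).toReal * av (Finset.univ : Finset (Cs hS → ZMod 2)) (X l σ)) ≤
      Hqx304.Qt M I J n I₁ J₁ D d B (9 * c) ω := by
  unfold Hqx304.Qt
  refine Finset.sum_le_sum fun l hl => ?_
  have hl' := Finset.mem_range.1 hl
  exact av_cells M (h.hI l hl') (h.hJ l hl') h.hN (h.hN₁ l hl') hi hA hS h3
    (fun v hv hr => off v hv (M.reg_mono Finset.sdiff_subset Finset.sdiff_subset hr))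
    (hX0 l hl') (ha l hl') (hs l hl') hc (hG l hl') (hq l hl')

/-- **field `hQ` of 654's `Quen`** for `W l (chiS β) (chiS β')` -/
theorem hQ_sites {ι κ : Type} [DecidableEq ι] [DecidableEq κ] {M : Net ε ι κ} {I : Finset ι}
    {J : Finset κ} {n : ℕ} {I₁ : ℕ → Finset ι} {J₁ : ℕ → Finset κ} {D : ℕ → Set ℂ} {s : ℝ}
    {m0 : ℝ≥0∞} (h : Hqx304.Wnd M I J n I₁ J₁ D d s B m0) {ω : Sample}
    (hi : ∀ c, Inj ε (toPos ω) c) (hA : (S : Set ℂ) = points ε ω ∩ B)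
    (hS : GP (S : Set ℂ)) (h3 : 3 ≤ S.card) (off : ∀ v ∈ S, v ∈ M.reg I J → ¬ OnHull S v)
    [fi : Fintype (Cs hS → ZMod 2)] {W : ℕ → (Cs hS → ZMod 2) → (Cs hS → ZMod 2) → ℂ}
    {a : ℕ → D0 S → ℂ}
    (ha : ∀ l < n, ∀ g : D0 S, ‖a l g‖ ≤ ‖Nn (g.1.2, th S g.1, g.1.1)‖)
    (hs : ∀ l < n, ∀ g : D0 S, a l g ≠ 0 → cen3 (fc S g) ∈ D l ∧ rad3 (fc S g) ≤ d)
    {G : ℕ → (Cs hS → ZMod 2) → Prop} {c : ℝ} (hc : 0 ≤ c)
    (hG : ∀ l < n, ∀ σ, win M (I₁ l) (J₁ l) (Xc hS h3 σ) ≠ 0 → G l σ)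
    (hq : ∀ l < n, ∑ σ : Cs hS → ZMod 2, ∑ τ : Cs hS → ZMod 2, (if G l σ then
        (M.gw (I \ I₁ l) (J \ J₁ l) (Xc hS h3 σ)).toReal * ‖W l σ τ‖ ^ 2 else 0) ≤
      c * Fintype.card (Cs hS → ZMod 2) * ∑ σ : Cs hS → ZMod 2,
        (M.gw (I \ I₁ l) (J \ J₁ l) (Xc hS h3 σ)).toReal * ∑ k, ‖a l k‖ ^ 2) :
    ∑ l ∈ Finset.range n, av S.powerset (fun β => (M.gw I J (clr S β)).toReal *
      av S.powerset fun β' => ‖W l (chiS hS h3 β) (chiS hS h3 β')‖ ^ 2) ≤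
      Hqx304.Qt M I J n I₁ J₁ D d B (9 * c) ω := by
  refine le_trans (le_of_eq ?_) (hQ_cells h hi hA hS h3 off (X := fun l σ τ => ‖W l σ τ‖ ^ 2)
    (fun _ _ _ _ => by positivity) ha hs hc hG hq)
  refine Finset.sum_congr rfl fun l _ => ?_
  rw [← av_chiS (h3 := h3)]
  refine CorMx970.av_congr fun β _ => ?_
  rw [av_chiS (h3 := h3) fun τ => ‖W l (chiS hS h3 β) τ‖ ^ 2, loc_chiS (M.gw_local h.hN) off]

end net

end Crest.Agent.R143.DryQx597
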