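import Crest.Agent.R143.PLT_535
import Crest.Agent.R143.QuS2_176
import Crest.Agent.R143.QuA_66
import Crest.Agent.R143.SysD_166

/-!
# Row 143 (S0194), box Q2, dry run (helper829): the landed pieces compose to the field `hQ` of
`SysDx166.quen_of` (= 654's `Quen.hQ`)

* `Lc hS h3 U` : the cells of the sites in `U`; `loc_Lc` : a weight local on `U` is a function of
  their colours (hypothesis `hgL` of 535's `wr_sys`)
* `wd_wr` : 166's `Wd` is the charge `Wr` for every `Tm` with `Tm 0 = 0`, `Tm nn = na`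
* `TileD` : **what the geometry must supply for ONE tile**: zones, window cells, `Fix`, support,
  `Sb` where the whole weight is not zero
* `cell_le` : 535's `wr_sys` for `Wd`, constant 48
* **`hQ_env`** : field `hQ` of `quen_of` at one environment, `Qq = Qt .. (9 * 48) ω`
-/

set_option autoImplicit false
set_option linter.unusedSectionVars false

noncomputable section

open scoped Classical

namespace Crest.Agent.R143.DryQx829

open MeasureTheory Set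
open Crest.ProbabilityR.Voronoi
open Crest.Agent.R143.PP0x831 Crest.Agent.R143.Poisx304 Crest.Agent.R143.Janx304
open Crest.Agent.R143.ColSumx304 Crest.Agent.R143.Lawx831 Crest.Agent.R143.Dbl2x609
open Crest.Agent.R143.IndLocx279 Crest.Agent.R143.IndLoc3x279 Crest.Agent.R143.PWx978
  Crest.Agent.R143.TilePx176 Crest.Agent.R143.TileQx176 Crest.Agent.R143.TileRx176
  Crest.Agent.R143.Hqx304
open Crest.Agent.R143.B0x346 Crest.Agent.R143.DelGx806 Crest.Agent.R143.FinCx811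
  Crest.Agent.R143.Engx490 Crest.Agent.R143.SmallAx304
open Crest.Agent.R143.Frame1x395 Crest.Agent.R143.Frame2x395 Crest.Agent.R143.Frame3x395
  Crest.Agent.R143.Frame4x395
open Crest.Agent.R143.Frame8x395 hiding cfg
open Crest.Agent.R143.Frame10x395
open Crest.Agent.R143.Resax778 (mix mix_on mix_off)
open Crest.Agent.R143.OutSx358 Crest.Agent.R143.SysCx166 Crest.Agent.R143.QuSx166
open Crest.Agent.R143.CorMx970 (av)
open Sptx169 (rst)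
open Sptx832 (FQ)
open scoped ENNReal

variable {S : Finset ℂ}

/-! ### the cells of a region -/

section loc

variable (hS : GP (S : Set ℂ)) (h3 : 3 ≤ S.card)

/-- the cells of the sites of a region -/
def Lc (U : Set ℂ) : Finset (Cs hS) :=
  Finset.univ.filter fun c => ∃ v, ∃ hv : v ∈ S, v ∈ U ∧ cs hS h3 ⟨v, hv⟩ = c

theorem mem_Lc {U : Set ℂ} {c : Cs hS} :
    c ∈ Lc hS h3 U ↔ ∃ v, ∃ hv : v ∈ S, v ∈ U ∧ cs hS h3 ⟨v, hv⟩ = c := by
  unfold Lc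
  rw [Finset.mem_filter]
  exact ⟨fun h => h.2, fun h => ⟨Finset.mem_univ _, h⟩⟩

/-- **a local weight is a function of the colours of the cells of its region** -/
theorem loc_Lc {E : Type*} {Φ : Set (ℂ × Bool) → E} {U : Set ℂ} (hΦ : LocalOn U Φ)
    {σ τ : Cs hS → ZMod 2} (h : ∀ c ∈ Lc hS h3 U, τ c = σ c) :
    Φ (paint S (bk hS h3 τ)) = Φ (paint S (bk hS h3 σ)) := by
  rw [hΦ (paint S (bk hS h3 τ)), hΦ (paint S (bk hS h3 σ))]
  congr 1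
  ext ⟨v, t⟩
  have key : v ∈ S → v ∈ U → (v ∈ bk hS h3 τ ↔ v ∈ bk hS h3 σ) := by
    intro hv hU
    rw [mem_bk hv, mem_bk hv, h _ ((mem_Lc hS h3).2 ⟨v, hv, hU, rfl⟩)]
  constructor
  · rintro ⟨⟨h1, h2⟩, h4⟩
    exact ⟨⟨h1, h2.trans (key h1 h4)⟩, h4⟩
  · rintro ⟨⟨h1, h2⟩, h4⟩
    exact ⟨⟨h1, h2.trans (key h1 h4).symm⟩, h4⟩

end loc

/-! ### 166's `Wd` is `Wr` -/

section wd

variable {D C ι : Type} [Fintype D] [Fintype C] {M : CMap D C} {H R : Set C} {Q : Set D}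
  {pa : ι → (C → ZMod 2) → D} {na : ι → (C → ZMod 2) → ℕ} {Ev : ι → (C → ZMod 2) → Prop}
  {σ τ : C → ZMod 2} {i : ι} {k : ZMod 3} {nn : ℕ} {Tm : ℕ → ℕ} {F : ℕ → Set D} {w : D → ℂ}
  {d₀ : D} {l : ℕ}

theorem wd_wr (Y : Sys M H R Q pa na Ev) (h : Ev i σ) (h0 : Tm 0 = 0) (hn : Tm nn = na i σ) :
    Wd M H R Q pa na Ev k d₀ w F l σ τ =
      Wr M σ (mix (OO M H R pa na Ev) σ τ) (pa i σ) (na i σ) (rt M Q pa na i σ) Tm nn w F l := by
  obtain ⟨h1, h2⟩ := Y.hE (τ := τ) h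
  unfold Wd
  rw [Y.vg (k := k) h, (Y.ex h).wr_eq (QuFx778.cq ((Y.ex h).gi (i := k))) h0 hn h1 w l]
  unfold Vb
  rw [Y.gR_eq d₀ h]

end wd

/-! ### one tile -/

section tile

variable (hS : GP (S : Set ℂ)) (h3 : 3 ≤ S.card) {ι : Type} (H R : Set (Cs hS))
  (pa : ι → (Cs hS → ZMod 2) → D0 S) (na : ι → (Cs hS → ZMod 2) → ℕ)
  (Ev : ι → (Cs hS → ZMod 2) → Prop)

/-- **what the geometry must supply for one tile**: `U` = region of the weight off the window, `G` =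
"the whole weight is not zero", `a` = cut field of the tile -/
def TileD (U : Set ℂ) (G : (Cs hS → ZMod 2) → Prop) (a : D0 S → ℂ) : Prop :=
  ∃ (κ : Type) (_ : Fintype κ) (Z : κ → Uniqx323.Zn (rc0 hS)) (T : Set (Cs hS)),
    Fintype.card κ ≤ 2 ∧ PLx535.Fix (rc0 hS) H R T Z ∧
    (∀ h, a h ≠ 0 → ∀ k, ¬ ((rc0 hS).cell h ∈ (Z k).R ∧
      (rc0 hS).cell ((rc0 hS).rho h) ∈ (Z k).R ∧
      (rc0 hS).cell ((rc0 hS).rho ((rc0 hS).rho h)) ∈ (Z k).R)) ∧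
    ∀ σ, G σ → ∃ i, Ev i σ ∧ ∃ q : κ → D0 S × ℕ,
      PLSx535.Sb (rc0 hS) H R T Z (Lc hS h3 U) (pa i σ) (na i σ) σ q

variable {H R pa na Ev} {Q : Set (D0 S)} {d₀ : D0 S} {k : ZMod 3} {F : ℕ → Set (D0 S)}
  {z : D0 S → ℂ} {l : ℕ}

/-- 535's inequality for 166's `Wd` -/
theorem cell_le (Y : Sys (rc0 hS) H R Q pa na Ev) {w₀ : ℂ} (w3 : w₀ ^ 3 = 1) (w1 : w₀ ≠ 1)
    (wc : (starRingEnd ℂ) w₀ = w₀ ^ 2) (ha : Spin (rc0 hS) w₀ (rst z (F l)))
    {g0 : Set (ℂ × Bool) → ℝ≥0∞} {U : Set ℂ} (hg : LocalOn U g0)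
    {G G' : (Cs hS → ZMod 2) → Prop}
    (hGG : ∀ σ, G' σ → (g0 (paint S (bk hS h3 σ))).toReal ≠ 0 → G σ)
    (T : TileD hS h3 H R pa na Ev U G (rst z (F l))) :
    ∑ σ, ∑ τ, (if G' σ then
        (g0 (paint S (bk hS h3 σ))).toReal *
          ‖Wd (rc0 hS) H R Q pa na Ev k d₀ z F l σ τ‖ ^ 2 else 0) ≤
      48 * Fintype.card (Cs hS → ZMod 2) *
        ∑ σ : Cs hS → ZMod 2, (g0 (paint S (bk hS h3 σ))).toReal *
          ∑ k, ‖rst z (F l) k‖ ^ 2 := by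
  obtain ⟨κ, iκ, Z, T, hκ, hF, sup, hW⟩ := T
  have key := PLTx535.wr_sys Y hF w3 w1 wc (G := G')
    (g' := fun σ => (g0 (paint S (bk hS h3 σ))).toReal) (L := Lc hS h3 U)
    (fun σ => ENNReal.toReal_nonneg)
    (fun σ τ h => congrArg ENNReal.toReal (loc_Lc hS h3 hg h)) ha sup d₀
    (Y := fun σ τ => Wd (rc0 hS) H R Q pa na Ev k d₀ z F l σ τ)
    (fun σ h1 h2 => by
      obtain ⟨i, h4, q, h5⟩ := hW σ (hGG σ h1 h2)
      exact ⟨i, h4, ⟨q, h5⟩, 1, fun j => j * na i σ, by simp, by simp,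
        fun τ => wd_wr Y h4 (by simp) (by simp)⟩)
  refine key.trans ?_
  have h7 : (2 : ℝ) ^ (2 * Fintype.card κ + 1) ≤ 2 ^ 5 :=
    pow_le_pow_right₀ (by norm_num) (by omega)
  have h8 : 0 ≤ ∑ σ : Cs hS → ZMod 2, (g0 (paint S (bk hS h3 σ))).toReal *
      ∑ k, ‖rst z (F l) k‖ ^ 2 :=
    Finset.sum_nonneg fun σ _ => mul_nonneg ENNReal.toReal_nonneg
      (Finset.sum_nonneg fun _ _ => by positivity)
  refine mul_le_mul_of_nonneg_right (mul_le_mul_of_nonneg_right ?_ (Nat.cast_nonneg _)) h8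
  linarith

end tile

/-! ### the field `hQ` -/

section env

variable {ε : ℝ} {ι₁ κ₁ ι : Type} [DecidableEq ι₁] [DecidableEq κ₁] {M : Net ε ι₁ κ₁}
  {I : Finset ι₁} {J : Finset κ₁} {n : ℕ} {I₁ : ℕ → Finset ι₁} {J₁ : ℕ → Finset κ₁}
  {d s : ℝ} {B : Set ℂ} {m0 : ℝ≥0∞}
variable (hS : GP (S : Set ℂ)) (h3 : 3 ≤ S.card) {H R : Set (Cs hS)} {Q : Set (D0 S)}
  {pa : ι → (Cs hS → ZMod 2) → D0 S} {na : ι → (Cs hS → ZMod 2) → ℕ}
  {Ev : ι → (Cs hS → ZMod 2) → Prop} {d₀ : D0 S} {k : ZMod 3} {m : ℕ} {Qr : ℕ → Set ℂ}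

/-- **FIELD `hQ` OF `quen_of` at one environment**, from the landed pieces and `TileD` for every
tile -/
theorem hQ_env (hW : Wnd M I J n I₁ J₁ Qr d s B m0) {ω : Sample}
    (hi : ∀ c, Inj ε (toPos ω) c) (hA : (S : Set ℂ) = points ε ω ∩ B)
    (hin : ∀ v ∈ S, v ∈ M.reg I J → ¬ OnHull S v) {g : Set (ℂ × Bool) → ℝ}
    (hg0 : ∀ β ∈ S.powerset, 0 ≤ g (clr S β))
    (hg : ∀ β ∈ S.powerset, g (clr S β) ≤ (M.gw I J (paint S β)).toReal)
    (hd : 0 < d) (hH : ∀ l < n, Locx922.Hol (S : Set ℂ) (Qr l) d)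
    (hoff : ∀ l < n, ∀ z ∈ Qr l, ∀ v, ‖v - z‖ < d → ¬ OnHull S v)
    (Y : Sys (rc0 hS) H R Q pa na Ev)
    (T : ∀ l < n, TileD hS h3 H R pa na Ev (M.reg (I \ I₁ l) (J \ J₁ l))
      (fun σ => M.gw I J (paint S (bk hS h3 σ)) ≠ 0)
      (rst (Coarse2x166.zs (rc0 hS) om (C2SDx395.zc hS id)) (FQ S m Qr l))) :
    ∑ l ∈ Finset.range n, av S.powerset (fun β => g (clr S β) * av S.powerset fun β' =>
      ‖Wd (rc0 hS) H R Q pa na Ev k d₀ (Coarse2x166.zs (rc0 hS) om (C2SDx395.zc hS id))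
        (FQ S m Qr) l (chiS hS h3 β) (chiS hS h3 β')‖ ^ 2) ≤
      Qt M I J n I₁ J₁ Qr d B (9 * 48) ω := by
  obtain ⟨w3, w1, wc⟩ := QuAx66.om2_adm
  refine QuS2x176.hQ_cells hS h3 (M := M) (c := 48) hW hi hA hin hg0 hg
    (a := fun l => rst (Coarse2x166.zs (rc0 hS) om (C2SDx395.zc hS id)) (FQ S m Qr l))
    (fun l hl => (QuAx66.fldZ hS hd (hH l hl) (hoff l hl)).2.1)
    (fun l hl => (QuAx66.fldZ hS hd (hH l hl) (hoff l hl)).2.2)
    (X := fun l σ τ => ‖Wd (rc0 hS) H R Q pa na Ev k d₀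
      (Coarse2x166.zs (rc0 hS) om (C2SDx395.zc hS id)) (FQ S m Qr) l σ τ‖ ^ 2)
    (fun l _ σ τ => by positivity)
    (G := fun _ σ => M.gw I J (paint S (bk hS h3 σ)) ≠ 0) (by norm_num)
    (fun l _ σ h => h) fun l hl => ?_
  exact cell_le hS h3 Y w3 w1 wc (QuAx66.fldZ hS hd (hH l hl) (hoff l hl)).1
    (M.gw_local (hW.hN₁ l hl)) (fun σ h _ => h) (T l hl)

end env

end Crest.Agent.R143.DryQx829
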