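import Crest.Agent.R143.JCol_54

/-!
# Row 143 (S0194), block X: the Delaunay complex of the sites of a disc is simply connected (helper877)

* `between` : `c` Delaunay neighbour of `v`, between two sites `u`, `u'` of the closed disc with
  centre `z0` and `v` on its boundary: `c` is in the open disc
* `disc_chain` : the neighbours of `v` in the closed disc are connected by triangles at `v` in it
* `exact_disc` : `A` = set of sites which contains all sites closer to `z0` than one of its members
  (disc): every closed antisymmetric edge function on the Delaunay triangles with corners in `A` is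
  the difference of a function of the sites
-/

set_option autoImplicit false

noncomputable section

open scoped Classical

namespace Crest.Agent.R143.Dscx877

open Crest.Agent.R143.B0x346 Crest.Agent.R143.DelGx806 Crest.Agent.R143.DelRx806
  Crest.Agent.R143.B0Dx346 Crest.Agent.R143.JColx54

variable {S : Finset ℂ}

/-- a Delaunay edge has an empty circle -/
theorem adj_circ {v c : ℂ} (h : Adj S v c) :
    ∃ o : ℂ, Complex.normSq (c - o) = Complex.normSq (v - o) ∧
      ∀ s ∈ S, Complex.normSq (v - o) ≤ Complex.normSq (s - o) := by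
  have key : ∀ a b e : ℂ, (a, b, e) ∈ delT S → ∃ o : ℂ,
      Complex.normSq (b - o) = Complex.normSq (a - o) ∧
      ∀ s ∈ S, Complex.normSq (a - o) ≤ Complex.normSq (s - o) := by
    intro a b e h
    obtain ⟨o, h1, _, h3⟩ := (mem_delT.1 h).2.2.2.2
    refine ⟨o, ?_, fun s hs => ?_⟩
    · rw [Complex.normSq_eq_norm_sq, Complex.normSq_eq_norm_sq, h1]
    · rw [Complex.normSq_eq_norm_sq, Complex.normSq_eq_norm_sq]
      exact pow_le_pow_left₀ (norm_nonneg _) (h3 s hs) 2
  rcases h with ⟨e, h⟩ | ⟨e, h⟩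
  · exact key _ _ _ h
  · obtain ⟨o, h1, h2⟩ := key _ _ _ h
    exact ⟨o, h1.symm, fun s hs => by rw [h1]; exact h2 s hs⟩

/-- **between** -/
theorem between (hS : GP (S : Set ℂ)) {v u u' c z0 : ℂ} (hv : v ∈ S) (hu : u ∈ S) (hu' : u' ∈ S)
    (huv : u ≠ v) (huv' : u' ≠ v) (hc : Adj S v c)
    (d1 : Complex.normSq (u - z0) ≤ Complex.normSq (v - z0))
    (d2 : Complex.normSq (u' - z0) ≤ Complex.normSq (v - z0))
    (c1 : 0 < cr (u - v) (c - v)) (c2 : 0 < cr (c - v) (u' - v))
    (c3 : 0 < cr (u - v) (u' - v)) : Complex.normSq (c - z0) < Complex.normSq (v - z0) := by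
  by_contra hcon
  push Not at hcon
  obtain ⟨o, ho, hemp⟩ := adj_circ hc
  have hcS : c ∈ S := hc.mem.2
  -- the linear function
  set A : ℝ := 2 * (z0.re - o.re) with hA
  set B : ℝ := 2 * (z0.im - o.im) with hB
  have hlin : ∀ s : ℂ, (Complex.normSq (s - o) - Complex.normSq (v - o)) -
      (Complex.normSq (s - z0) - Complex.normSq (v - z0)) = A * (s - v).re + B * (s - v).im := by
    intro s
    rw [hA, hB]
    simp only [Complex.normSq_apply, Complex.sub_re, Complex.sub_im]
    ring
  have lu := hlin u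
  have lu' := hlin u'
  have lc := hlin c
  have pu := hemp u hu
  have pu' := hemp u' hu'
  have h1 : 0 ≤ A * (u - v).re + B * (u - v).im := by linarith
  have h2 : 0 ≤ A * (u' - v).re + B * (u' - v).im := by linarith
  have h3 : A * (c - v).re + B * (c - v).im ≤ 0 := by rw [← lc]; linarith
  -- c - v is a positive combination
  have hcomb : cr (u - v) (u' - v) * (A * (c - v).re + B * (c - v).im) =
      cr (c - v) (u' - v) * (A * (u - v).re + B * (u - v).im) +
      cr (u - v) (c - v) * (A * (u' - v).re + B * (u' - v).im) := by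
    unfold cr
    ring
  have k1 : 0 ≤ cr (c - v) (u' - v) * (A * (u - v).re + B * (u - v).im) := mul_nonneg c2.le h1
  have k2 : 0 ≤ cr (u - v) (c - v) * (A * (u' - v).re + B * (u' - v).im) := mul_nonneg c1.le h2
  have k3 : cr (u - v) (u' - v) * (A * (c - v).re + B * (c - v).im) ≤ 0 :=
    mul_nonpos_of_nonneg_of_nonpos c3.le h3
  have e1 : A * (u - v).re + B * (u - v).im = 0 := by
    rcases mul_eq_zero.1 (show cr (c - v) (u' - v) * (A * (u - v).re + B * (u - v).im) = 0 by
      linarith) with h | h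
    · exact absurd h c2.ne'
    · exact h
  have e2 : A * (u' - v).re + B * (u' - v).im = 0 := by
    rcases mul_eq_zero.1 (show cr (u - v) (c - v) * (A * (u' - v).re + B * (u' - v).im) = 0 by
      linarith) with h | h
    · exact absurd h c1.ne'
    · exact h
  have e3 : A * (c - v).re + B * (c - v).im = 0 := by
    rcases mul_eq_zero.1 (show cr (u - v) (u' - v) * (A * (c - v).re + B * (c - v).im) = 0 by
      linarith) with h | h
    · exact absurd h c3.ne'
    · exact h
  -- all four sites are on the circle around `o`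
  have q1 : Complex.normSq (u - o) = Complex.normSq (v - o) := by linarith
  have q2 : Complex.normSq (u' - o) = Complex.normSq (v - o) := by linarith
  have hn : ∀ {a b : ℂ}, Complex.normSq a = Complex.normSq b → ‖a‖ = ‖b‖ := by
    intro a b h
    rw [Complex.normSq_eq_norm_sq, Complex.normSq_eq_norm_sq] at h
    exact (sq_eq_sq₀ (norm_nonneg _) (norm_nonneg _)).1 h
  have hself : ∀ w : ℂ, cr w w = 0 := by intro w; unfold cr; ring
  have hcv : c ≠ v := by rintro rfl; simp [cr] at c1
  have huc : u ≠ c := by rintro rfl; rw [hself] at c1; exact lt_irrefl _ c1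
  have huc' : u' ≠ c := by rintro rfl; rw [hself] at c2; exact lt_irrefl _ c2
  have huu : u ≠ u' := by rintro rfl; rw [hself] at c3; exact lt_irrefl _ c3
  exact hS.circ v hv u hu u' hu' c hcS huv.symm huv'.symm hcv.symm huu huc huc' o
    ⟨hn q1, hn q2, hn ho⟩

/-- the sites of the closed disc around `z0` with `v` on the boundary are in an open half plane -/
theorem disc_half {v s z0 : ℂ} (hsv : s ≠ v)
    (h : Complex.normSq (s - z0) ≤ Complex.normSq (v - z0)) : 0 < dt (s - v) (z0 - v) := by
  have h1 : Complex.normSq (s - z0) = Complex.normSq (s - v) - 2 * dt (s - v) (z0 - v) +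
      Complex.normSq (v - z0) := by
    unfold dt
    simp only [Complex.normSq_apply, Complex.sub_re, Complex.sub_im]
    ring
  have h2 : 0 < Complex.normSq (s - v) := Complex.normSq_pos.2 (sub_ne_zero.2 hsv)
  linarith

/-- the neighbours of `v` in the closed disc are connected by triangles at `v` with corners in the
closed disc; the intermediate sites are in the open disc -/
theorem disc_chain (hS : GP (S : Set ℂ)) {v z0 : ℂ} (hv : v ∈ S) {L : Set ℂ}
    (hL : ∀ s ∈ S, Complex.normSq (s - z0) < Complex.normSq (v - z0) → s ∈ L)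
    (hL' : ∀ s ∈ L, s ∈ S ∧ s ≠ v ∧ Complex.normSq (s - z0) ≤ Complex.normSq (v - z0)) :
    ∀ (n : ℕ) (u u' : ℂ), (S.filter fun s => 0 < dt (s - v) (z0 - v) ∧
      0 ≤ cr (u - v) (s - v)).card ≤ n →
    Adj S v u → Adj S v u' → u ∈ L → u' ∈ L → 0 ≤ cr (u - v) (u' - v) →
    Relation.ReflTransGen (fun x y => (v, x, y) ∈ delT S ∧ x ∈ L ∧ y ∈ L) u u' := by
  intro n
  induction n with
  | zero =>
    intro u u' hn hu hu' he he' hc
    exfalso
    have : u ∈ S.filter fun s => 0 < dt (s - v) (z0 - v) ∧ 0 ≤ cr (u - v) (s - v) := by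
      rw [Finset.mem_filter]
      obtain ⟨h1, h2, h3⟩ := hL' u he
      refine ⟨h1, disc_half h2 h3, ?_⟩
      unfold cr; nlinarith
    rw [Nat.le_zero, Finset.card_eq_zero] at hn
    rw [hn] at this
    exact absurd this (Finset.notMem_empty _)
  | succ n ih =>
    intro u u' hn hu hu' he he' hc
    by_cases huu : u = u'
    · rw [huu]
    obtain ⟨uS, uv, ud⟩ := hL' u he
    obtain ⟨uS', uv', ud'⟩ := hL' u' he'
    have hed := disc_half uv ud
    have hed' := disc_half uv' ud'
    have hne : cr (u - v) (u' - v) ≠ 0 :=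
      hS.line v hv u hu.mem.2 u' hu'.mem.2 hu.ne huu hu'.ne
    have hc : 0 < cr (u - v) (u' - v) := lt_of_le_of_ne hc hne.symm
    -- the next triangle
    obtain ⟨c, hc1⟩ : ∃ c, (v, u, c) ∈ delT S := by
      rcases hu with h | ⟨c', h⟩
      · exact h
      · obtain ⟨o, h⟩ := mem_delT_iff.1 h
        obtain ⟨c, o', h'⟩ := h.across ⟨u', hu'.mem.2, by
          rw [cr_swap]; linarith⟩
        exact ⟨c, mem_delT_iff.2 ⟨o', h'⟩⟩
    have hpos : 0 < cr (u - v) (c - v) := (mem_delT.1 hc1).2.2.2.1
    have hcv : Adj S v c := (adj_tri'' hS hc1).symm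
    -- `c` is not beyond `u'`
    have hcu' : 0 ≤ cr (c - v) (u' - v) := by
      by_contra hcon
      push Not at hcon
      have hcon : 0 < cr (u' - v) (c - v) := by rw [cr_swap']; linarith
      have hself : cr (u' - v) (u' - v) = 0 := by unfold cr; ring
      rcases hu' with ⟨b', h'⟩ | ⟨b', h'⟩
      · have := sector_unique hS hc1 h' hc hcon hself.ge (mem_delT.1 h').2.2.2.1.le
        exact huu this.1
      · have h2 := delT_rot hS h'
        have := sector_unique hS hc1 h2 hc hcon (mem_delT.1 h2).2.2.2.1.le hself.ge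
        rw [this.2] at hcon
        linarith
    -- `c` is in `L`
    have hcL : c ∈ L := by
      by_cases hcu : c = u'
      · rw [hcu]; exact he'
      · have h1 : cr (c - v) (u' - v) ≠ 0 :=
          hS.line v hv c hcv.mem.2 u' hu'.mem.2 hcv.ne hcu hu'.ne
        exact hL c hcv.mem.2 (between hS hv uS uS' uv uv' hcv ud ud' hpos
          (lt_of_le_of_ne hcu' h1.symm) hc)
    obtain ⟨cS, cv, cd⟩ := hL' c hcL
    have hce := disc_half cv cd
    refine Relation.ReflTransGen.head ⟨hc1, he, hcL⟩ (ih c u' ?_ hcv hu' hcL he' hcu')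
    have hlt : (S.filter fun s => 0 < dt (s - v) (z0 - v) ∧ 0 ≤ cr (c - v) (s - v)) ⊂
        S.filter fun s => 0 < dt (s - v) (z0 - v) ∧ 0 ≤ cr (u - v) (s - v) := by
      rw [Finset.ssubset_iff_of_subset]
      · refine ⟨u, ?_, ?_⟩
        · rw [Finset.mem_filter]
          exact ⟨hu.mem.2, hed, by unfold cr; nlinarith⟩
        · rw [Finset.mem_filter]
          rintro ⟨-, -, h⟩
          rw [cr_swap'] at h
          linarith
      · intro s hs
        rw [Finset.mem_filter] at hs ⊢
        refine ⟨hs.1, hs.2.1, ?_⟩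
        have h1 := cr3 (u - v) (c - v) (s - v) (z0 - v)
        have h2 : 0 ≤ cr (u - v) (c - v) * dt (s - v) (z0 - v) := mul_nonneg hpos.le hs.2.1.le
        have h3 : 0 ≤ cr (c - v) (s - v) * dt (u - v) (z0 - v) := mul_nonneg hs.2.2 hed.le
        by_contra hcon
        push Not at hcon
        have := mul_neg_of_neg_of_pos hcon hce
        linarith
    have := Finset.card_lt_card hlt
    omega

/-- symmetric version -/
theorem disc_conn (hS : GP (S : Set ℂ)) {v z0 : ℂ} (hv : v ∈ S) {L : Set ℂ}
    (hL : ∀ s ∈ S, Complex.normSq (s - z0) < Complex.normSq (v - z0) → s ∈ L)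
    (hL' : ∀ s ∈ L, s ∈ S ∧ s ≠ v ∧ Complex.normSq (s - z0) ≤ Complex.normSq (v - z0))
    {u u' : ℂ} (hu : Adj S v u) (hu' : Adj S v u') (he : u ∈ L) (he' : u' ∈ L) :
    Relation.EqvGen (fun x y => (v, x, y) ∈ delT S ∧ x ∈ L ∧ y ∈ L) u u' := by
  have key : ∀ x y : ℂ, Relation.ReflTransGen
      (fun x y => (v, x, y) ∈ delT S ∧ x ∈ L ∧ y ∈ L) x y →
      Relation.EqvGen (fun x y => (v, x, y) ∈ delT S ∧ x ∈ L ∧ y ∈ L) x y := by
    intro x y h
    induction h with
    | refl => exact Relation.EqvGen.refl _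
    | tail _ h ih => exact Relation.EqvGen.trans _ _ _ ih (Relation.EqvGen.rel _ _ h)
  rcases le_total 0 (cr (u - v) (u' - v)) with h | h
  · exact key _ _ (disc_chain hS hv hL hL' _ u u' le_rfl hu hu' he he' h)
  · refine Relation.EqvGen.symm _ _
      (key _ _ (disc_chain hS hv hL hL' _ u' u le_rfl hu' hu he' he ?_))
    rw [cr_swap']; linarith

/-- **simple connectivity of the Delaunay complex of a disc** -/
theorem exact_disc (hS : GP (S : Set ℂ)) {A : Type} [AddCommGroup A] (z0 : ℂ) {f : ℂ → ℂ → A} :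
    ∀ (n : ℕ) (L : Finset ℂ), L.card = n → L ⊆ S →
      (∀ s ∈ L, ∀ s' ∈ S, Complex.normSq (s' - z0) < Complex.normSq (s - z0) → s' ∈ L) →
      (∀ a b, a ∈ L → b ∈ L → Adj S a b → f b a = - f a b) →
      (∀ a b c, a ∈ L → b ∈ L → c ∈ L → (a, b, c) ∈ delT S → f a b + f b c + f c a = 0) →
      ∃ σ : ℂ → A, ∀ a b, a ∈ L → b ∈ L → Adj S a b → f a b = σ b - σ a := by
  intro n
  induction n with
  | zero =>
    intro L hL _ _ _ _
    rw [Finset.card_eq_zero] at hL
    exact ⟨fun _ => 0, fun a b ha => by rw [hL] at ha; exact absurd ha (Finset.notMem_empty _)⟩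
  | succ n ih =>
    intro L hL hLS hup anti closed
    have hne : L.Nonempty := by
      rw [← Finset.card_pos]; omega
    obtain ⟨v, hv, hmax⟩ := Finset.exists_max_image L (fun s => Complex.normSq (s - z0)) hne
    obtain ⟨σ, hσ⟩ := ih (L.erase v) (by rw [Finset.card_erase_of_mem hv]; omega)
      ((Finset.erase_subset _ _).trans hLS) (by
        intro s hs s' hs' h
        rw [Finset.mem_erase] at hs ⊢
        refine ⟨?_, hup s hs.2 s' hs' h⟩
        rintro rfl
        have := hmax s hs.2
        linarith)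
      (fun a b ha hb => anti a b (Finset.mem_of_mem_erase ha) (Finset.mem_of_mem_erase hb))
      (fun a b c ha hb hc => closed a b c (Finset.mem_of_mem_erase ha)
        (Finset.mem_of_mem_erase hb) (Finset.mem_of_mem_erase hc))
    have hL1 : ∀ s ∈ S, Complex.normSq (s - z0) < Complex.normSq (v - z0) →
        s ∈ ((L.erase v : Finset ℂ) : Set ℂ) := by
      intro s hs h
      rw [Finset.mem_coe, Finset.mem_erase]
      refine ⟨?_, hup v hv s hs h⟩
      rintro rfl
      exact lt_irrefl _ h
    have hL2 : ∀ s ∈ ((L.erase v : Finset ℂ) : Set ℂ), s ∈ S ∧ s ≠ v ∧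
        Complex.normSq (s - z0) ≤ Complex.normSq (v - z0) := by
      intro s hs
      rw [Finset.mem_coe, Finset.mem_erase] at hs
      exact ⟨hLS hs.2, hs.1, hmax s hs.2⟩
    have heq : ∀ u u', Adj S v u → Adj S v u' → u ∈ L.erase v → u' ∈ L.erase v →
        σ u + f u v = σ u' + f u' v := by
      intro u u' hu hu' h h'
      have hc := disc_conn hS (hLS hv) hL1 hL2 hu hu' h h'
      clear hu hu' h h'
      induction hc with
      | rel x y hxy =>
        obtain ⟨ht, hx, hy⟩ := hxy
        have hx' := Finset.mem_of_mem_erase (Finset.mem_coe.1 hx)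
        have hy' := Finset.mem_of_mem_erase (Finset.mem_coe.1 hy)
        have a1 := adj_tri ht
        have a2 := adj_tri' hS ht
        have h1 := closed _ _ _ hv hx' hy' ht
        have h2 := hσ x y (Finset.mem_coe.1 hx) (Finset.mem_coe.1 hy) a2
        have h4 := anti _ _ hv hx' a1
        rw [h2] at h1
        rw [h4]
        have h5 : f y v = -(f v x + (σ y - σ x)) := eq_neg_of_add_eq_zero_right h1
        rw [h5]
        abel
      | refl x => rfl
      | symm x y _ ih => exact ih.symm
      | trans x y z _ _ ih1 ih2 => exact ih1.trans ih2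
    set w : A := if h : ∃ u, Adj S v u ∧ u ∈ L.erase v then σ h.choose + f h.choose v else 0
      with hw
    have hwu : ∀ u, Adj S v u → u ∈ L.erase v → w = σ u + f u v := by
      intro u hu h
      have hex : ∃ u, Adj S v u ∧ u ∈ L.erase v := ⟨u, hu, h⟩
      rw [hw, dif_pos hex]
      exact heq _ _ hex.choose_spec.1 hu hex.choose_spec.2 h
    refine ⟨Function.update σ v w, fun a b ha hb hab => ?_⟩
    by_cases hav : a = v
    · subst hav
      have hbv : b ≠ a := hab.ne.symm
      rw [Function.update_self, Function.update_of_ne hbv,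
        hwu b hab (Finset.mem_erase.2 ⟨hbv, hb⟩), anti _ _ ha hb hab]
      abel
    · by_cases hbv : b = v
      · subst hbv
        rw [Function.update_self, Function.update_of_ne hav,
          hwu a hab.symm (Finset.mem_erase.2 ⟨hav, ha⟩)]
        abel
      · rw [Function.update_of_ne hav, Function.update_of_ne hbv]
        exact hσ a b (Finset.mem_erase.2 ⟨hav, ha⟩) (Finset.mem_erase.2 ⟨hbv, hb⟩) hab

/-- form for discs: symmetric edge set which is even at the triangles with corners in the disc -/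
theorem colour_disc (hS : GP (S : Set ℂ)) (z0 : ℂ) (ρ : ℝ) {K : Set (ℂ × ℂ)}
    (sym : ∀ a b, ‖a - z0‖ < ρ → ‖b - z0‖ < ρ → Adj S a b → ((a, b) ∈ K ↔ (b, a) ∈ K))
    (even : ∀ a b c, ‖a - z0‖ < ρ → ‖b - z0‖ < ρ → ‖c - z0‖ < ρ → (a, b, c) ∈ delT S →
      ((if (a, b) ∈ K then 1 else 0) + (if (b, c) ∈ K then 1 else 0) +
        (if (c, a) ∈ K then 1 else 0) : ZMod 2) = 0) :
    ∃ φ : ℂ → ZMod 2, ∀ a b, ‖a - z0‖ < ρ → ‖b - z0‖ < ρ → Adj S a b →
      ((a, b) ∈ K ↔ φ a ≠ φ b) := by
  set L := S.filter fun s => ‖s - z0‖ < ρ with hL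
  have hm : ∀ s, s ∈ L ↔ s ∈ S ∧ ‖s - z0‖ < ρ := fun s => by rw [hL, Finset.mem_filter]
  obtain ⟨σ, hσ⟩ := exact_disc hS z0 (f := fun a b => if (a, b) ∈ K then (1 : ZMod 2) else 0)
    L.card L rfl (Finset.filter_subset _ _)
    (by
      intro s hs s' hs' h
      rw [hm] at hs ⊢
      refine ⟨hs', lt_of_le_of_lt ?_ hs.2⟩
      rw [Complex.normSq_eq_norm_sq, Complex.normSq_eq_norm_sq] at h
      exact le_of_lt (lt_of_pow_lt_pow_left₀ 2 (norm_nonneg _) h))
    (by
      intro a b ha hb hab
      rw [hm] at ha hb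
      have h1 := sym a b ha.2 hb.2 hab
      simp only [h1]
      split_ifs <;> decide)
    (by
      intro a b c ha hb hc h
      rw [hm] at ha hb hc
      exact even a b c ha.2 hb.2 hc.2 h)
  refine ⟨σ, fun a b ha hb hab => ?_⟩
  have h1 := hσ a b ((hm a).2 ⟨hab.mem.1, ha⟩) ((hm b).2 ⟨hab.mem.2, hb⟩) hab
  constructor
  · intro h h2
    rw [if_pos h, h2, sub_self] at h1
    exact one_ne_zero h1
  · intro h
    by_contra hcon
    rw [if_neg hcon] at h1
    exact h (sub_eq_zero.1 h1.symm).symm

end Crest.Agent.R143.Dscx877
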