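import Crest.Agent.R143.DtaR_440

/-!
# Row 143 (S0194), block H, H5 (helper440): 828's `Dta` from representatives (box B1)

The ring data of `β` are the data `D b⋆` of a member `b⋆` with `G0` of the class of `β` with respect to
a stopping set `Rf`. `D` is any function (nothing is proved decided).
* `bs` : the representative; `dB` : the ring data
* `Fb` : facts of one colouring with `G0`; `InB` : the inputs
* **`InB.dta : Dta hS (dB ..) (Ev ..)`**; `InB.bst` : facts of the representative; `SameB`,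
  `InB.same` : `β` has the states, giants, free sites of the representative
-/

set_option autoImplicit false
set_option linter.unusedSectionVars false

noncomputable section

open scoped Classical ComplexConjugate

namespace Crest.Agent.R143.DtaBx440

open Crest.Agent.R143.Frame1x395 Crest.Agent.R143.Frame2x395 Crest.Agent.R143.Frame3x395
  Crest.Agent.R143.Frame4x395 Crest.Agent.R143.Frame8x395 Crest.Agent.R143.Frame9x395
  Crest.Agent.R143.NonXx592 Crest.Agent.R143.Coarsex166 Crest.Agent.R143.Coarse2x166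
  Crest.Agent.R143.Flipx166 Crest.Agent.R143.R5bx166 Crest.Agent.R143.R5qx166
  Crest.Agent.R143.Patx828 Crest.Agent.R143.S1x828 Crest.Agent.R143.DtaRx440

open Splx117 (Lp InK gp)
open C2SBx395 (Cq Root Free Rc Pin)
open K33x137 (Cn Lk Ed)

open Crest.Agent.R143.B0x346 Crest.Agent.R143.DelGx806 Crest.Agent.R143.DelRx806
  Crest.Agent.R143.JColx54 Crest.Agent.R143.Frame10x395 Crest.Agent.R143.C2SCx395
  Crest.Agent.R143.C2SDx395
open Crest.Agent.R143.NetUx346 (ff Ey TS mem_ff)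
open Crest.Agent.R143.FinCx811 (Cs rc0 cell_mem)
open Crest.Agent.R143.Freshx829 (scol Inn rep rep_spec rep_eq)
open Crest.Agent.R143.K33x877 (fr CtrX)
open Crest.Agent.R143.Harx315 (IsStop)

variable {S : Finset ℂ} (hS : GP (S : Set ℂ)) (D : Finset ℂ → Dt S) (Rf : Finset ℂ → Finset ℂ)
  (G0 : Finset ℂ → Prop)

/-- the representative of the class of `β` -/
def bs (S : Finset ℂ) (Rf : Finset ℂ → Finset ℂ) (G0 : Finset ℂ → Prop) (β : Finset ℂ) : Finset ℂ :=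
  if h : Ev S Rf G0 β then h.choose else ∅

theorem bs_spec {S : Finset ℂ} {Rf : Finset ℂ → Finset ℂ} {G0 : Finset ℂ → Prop} {β : Finset ℂ}
    (h : Ev S Rf G0 β) : bs S Rf G0 β ⊆ S ∧ bs S Rf G0 β ∩ Rf β = β ∩ Rf β ∧ G0 (bs S Rf G0 β) := by
  unfold bs
  rw [dif_pos h]
  exact h.choose_spec

/-- the representative depends on the class only -/
theorem bs_eq {S : Finset ℂ} {Rf : Finset ℂ → Finset ℂ} {G0 : Finset ℂ → Prop} {β β' : Finset ℂ}
    (hR : Rf β' = Rf β) (h : β' ∩ Rf β = β ∩ Rf β) : bs S Rf G0 β' = bs S Rf G0 β := by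
  unfold bs Ev
  rw [hR, h]

/-- **the ring data** -/
def dB (β : Finset ℂ) : Dt S := D (bs S Rf G0 β)

/-- facts of one colouring with `G0` -/
structure Fb (β : Finset ℂ) : Prop where
  ring : Rg3 (rc0 hS) (scol hS (β : Set ℂ)) (D β).p (D β).N (D β).r
  look : ∀ u,
    (Inn hS ((rc0 hS).cell (P (rc0 hS) (cfg (rc0 hS) (scol hS (β : Set ℂ))) (D β).p u)) →
      rep hS ((rc0 hS).cell (P (rc0 hS) (cfg (rc0 hS) (scol hS (β : Set ℂ))) (D β).p u)) ∈
        Rf β) ∧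
    (Inn hS ((rc0 hS).cell ((rc0 hS).rho
        (P (rc0 hS) (cfg (rc0 hS) (scol hS (β : Set ℂ))) (D β).p u))) →
      rep hS ((rc0 hS).cell ((rc0 hS).rho
        (P (rc0 hS) (cfg (rc0 hS) (scol hS (β : Set ℂ))) (D β).p u))) ∈ Rf β)
  frees : Rf β ⊆ S \ dF hS D β
  hull : ∀ c : Cs hS, ∀ v, OnHull S v → c.1 = Quot.mk (hullE S) v →
    c ∈ Wc (rc0 hS) (cfg (rc0 hS) (scol hS (β : Set ℂ))) (D β).p
  far : ∀ d : D0 S, OnHull S d.1.1 →
    (rc0 hS).cell d ∈ Wc (rc0 hS) (cfg (rc0 hS) (scol hS (β : Set ℂ))) (D β).p ∧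
    (rc0 hS).cell ((rc0 hS).rho d) ∈ Wc (rc0 hS) (cfg (rc0 hS) (scol hS (β : Set ℂ))) (D β).p ∧
    (rc0 hS).cell ((rc0 hS).rho ((rc0 hS).rho d)) ∈
      Wc (rc0 hS) (cfg (rc0 hS) (scol hS (β : Set ℂ))) (D β).p
  ctr : ∃ X, CtrX S (st (dA hS D β 0)) X

/-- **the inputs** -/
structure InB : Prop where
  stop : IsStop S Rf
  fc : ∀ β ⊆ S, G0 β → Fb hS D Rf β

variable {hS} {D} {Rf} {G0}

/-- colourings with the same outcome agree on the inner cells with looked site -/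
theorem scol_agree {β b : Finset ℂ} (h : b ∩ Rf β = β ∩ Rf β) {c : Cs hS}
    (hc : Inn hS c → rep hS c ∈ Rf β) : scol hS (β : Set ℂ) c = scol hS (b : Set ℂ) c := by
  unfold Freshx829.scol
  by_cases hi : Inn hS c
  · have h1 := hc hi
    have h2 : rep hS c ∈ (β : Set ℂ) ↔ rep hS c ∈ (b : Set ℂ) := by
      rw [Finset.mem_coe, Finset.mem_coe]
      constructor
      · intro h3
        have : rep hS c ∈ b ∩ Rf β := by rw [h]; exact Finset.mem_inter.2 ⟨h3, h1⟩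
        exact (Finset.mem_inter.1 this).1
      · intro h3
        have : rep hS c ∈ β ∩ Rf β := by rw [← h]; exact Finset.mem_inter.2 ⟨h3, h1⟩
        exact (Finset.mem_inter.1 this).1
    simp only [hi, h2]
  · rw [if_neg fun h' => hi h'.1, if_neg fun h' => hi h'.1]

/-- `β` and the colouring `b` have the same ring (`d` = the ring data) -/
structure SameB (hS : GP (S : Set ℂ)) (d : Dt S) (β b : Finset ℂ) : Prop where
  tg : Tg (rc0 hS) (scol hS (b : Set ℂ)) (scol hS (β : Set ℂ)) d.p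
  occ : cfg (rc0 hS) (scol hS (b : Set ℂ)) d.p = 1
  w : ∀ u, P (rc0 hS) (cfg (rc0 hS) (scol hS (β : Set ℂ))) d.p u =
    P (rc0 hS) (cfg (rc0 hS) (scol hS (b : Set ℂ))) d.p u
  A : ∀ k, AP (rc0 hS) (cfg (rc0 hS) (scol hS (β : Set ℂ))) d.p d.N d.r k =
    AP (rc0 hS) (cfg (rc0 hS) (scol hS (b : Set ℂ))) d.p d.N d.r k
  g : ∀ u, gp (rc0 hS) (cfg (rc0 hS) (scol hS (β : Set ℂ))) d.p u =
    gp (rc0 hS) (cfg (rc0 hS) (scol hS (b : Set ℂ))) d.p u
  W : Wc (rc0 hS) (cfg (rc0 hS) (scol hS (β : Set ℂ))) d.p =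
    Wc (rc0 hS) (cfg (rc0 hS) (scol hS (b : Set ℂ))) d.p

theorem same_of (hJ : IsStop S Rf) {β b : Finset ℂ} (hβ : β ⊆ S) (hb : b ⊆ S)
    (h : b ∩ Rf β = β ∩ Rf β) (F : Fb hS D Rf b) : SameB hS (D b) β b := by
  have eR : Rf b = Rf β := hJ.stop β b hβ hb h.symm
  have X := F.ring
  have hT : Tg (rc0 hS) (scol hS (b : Set ℂ)) (scol hS (β : Set ℂ)) (D b).p := by
    intro u
    have h1 := F.look u
    rw [eR] at h1
    exact ⟨scol_agree h h1.1, scol_agree h h1.2⟩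
  have occ := X.L.occ
  exact ⟨hT, occ, fun u => hT.walk occ u, fun k => ap2 hT occ k, fun u => gp2 hT occ u,
    wc2 hT occ⟩

/-- the same for two members of the class -/
theorem SameB.trans {d : Dt S} {β b c : Finset ℂ} (h : SameB hS d β b) (h' : SameB hS d c b) :
    ∀ u, P (rc0 hS) (cfg (rc0 hS) (scol hS (β : Set ℂ))) d.p u =
      P (rc0 hS) (cfg (rc0 hS) (scol hS (c : Set ℂ))) d.p u := fun u => by rw [h.w, h'.w]

namespace InB

variable (H : InB hS D Rf G0) {β β' : Finset ℂ}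

include H

/-- **the facts of the representative** -/
theorem bst (hβ : β ⊆ S) (hE : Ev S Rf G0 β) : bs S Rf G0 β ⊆ S ∧
    bs S Rf G0 β ∩ Rf β = β ∩ Rf β ∧ G0 (bs S Rf G0 β) ∧ Rf (bs S Rf G0 β) = Rf β ∧
    Fb hS D Rf (bs S Rf G0 β) ∧ SameB hS (dB D Rf G0 β) β (bs S Rf G0 β) := by
  obtain ⟨h1, h2, h3⟩ := bs_spec hE
  have F := H.fc _ h1 h3
  exact ⟨h1, h2, h3, H.stop.stop β _ hβ h1 h2.symm, F, same_of H.stop hβ h1 h2 F⟩

theorem ev (_hβ : β ⊆ S) (h : G0 β) : Ev S Rf G0 β := ⟨β, _hβ, rfl, h⟩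

/-- same giants -/
theorem eA (hβ : β ⊆ S) (hE : Ev S Rf G0 β) (k : ZMod 3) :
    dA hS (dB D Rf G0) β k = dA hS D (bs S Rf G0 β) k :=
  (H.bst hβ hE).2.2.2.2.2.A k

theorem eF (hβ : β ⊆ S) (hE : Ev S Rf G0 β) :
    dF hS (dB D Rf G0) β = dF hS D (bs S Rf G0 β) := by
  unfold dF
  rw [H.eA hβ hE]

theorem eg (hβ : β ⊆ S) (hE : Ev S Rf G0 β) (k : ZMod 3) :
    dg hS (dB D Rf G0) β k = dg hS D (bs S Rf G0 β) k :=
  (H.bst hβ hE).2.2.2.2.2.g _

/-- the looked sites are not free -/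
theorem frees (hβ : β ⊆ S) (hE : Ev S Rf G0 β) : Rf β ⊆ S \ dF hS (dB D Rf G0) β := by
  obtain ⟨-, -, -, h4, F, -⟩ := H.bst hβ hE
  rw [H.eF hβ hE, ← h4]
  exact F.frees

/-- same outcome of the outside ==> same outcome of `Rf` -/
theorem sub_out (hβ : β ⊆ S) (hE : Ev S Rf G0 β)
    (h : β' ∩ (S \ dF hS (dB D Rf G0) β) = β ∩ (S \ dF hS (dB D Rf G0) β)) :
    β' ∩ Rf β = β ∩ Rf β := by
  have hsub := H.frees hβ hE
  ext v
  have h5 : v ∈ β' ∩ (S \ dF hS (dB D Rf G0) β) ↔ v ∈ β ∩ (S \ dF hS (dB D Rf G0) β) := by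
    rw [h]
  simp only [Finset.mem_inter] at h5 ⊢
  constructor
  · rintro ⟨h6, h7⟩
    exact ⟨(h5.1 ⟨h6, hsub h7⟩).1, h7⟩
  · rintro ⟨h6, h7⟩
    exact ⟨(h5.2 ⟨h6, hsub h7⟩).1, h7⟩

/-- **828's `Dta`** -/
theorem dta : Dta hS (dB D Rf G0) (Ev S Rf G0) where
  ring := by
    intro β hβ hE
    obtain ⟨-, -, -, -, F, Sm⟩ := H.bst hβ hE
    exact stab2 F.ring Sm.tg
  hull := by
    intro β hβ hE c v h1 h2
    obtain ⟨-, -, -, -, F, Sm⟩ := H.bst hβ hE
    rw [Sm.W]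
    exact F.hull c v h1 h2
  far := by
    intro β hβ hE d hd
    obtain ⟨-, -, -, -, F, Sm⟩ := H.bst hβ hE
    rw [Sm.W]
    exact F.far d hd
  ctr := by
    intro β hβ hE
    obtain ⟨-, -, -, -, F, Sm⟩ := H.bst hβ hE
    rw [H.eA hβ hE]
    exact F.ctr
  out := by
    intro β hβ hE β' hβ' h
    have h4 := H.sub_out hβ hE h
    have h5 : Rf β' = Rf β := H.stop.stop β β' hβ hβ' h4.symm
    have e := bs_eq (S := S) (G0 := G0) h5 h4
    obtain ⟨b1, b2, b3⟩ := bs_spec hE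
    refine ⟨⟨bs S Rf G0 β, b1, ?_, b3⟩, ?_⟩
    · rw [h5, b2, h4]
    · unfold dB
      rw [e]

/-- members of one class of the outside have the same representative -/
theorem bs_out (hβ : β ⊆ S) (hE : Ev S Rf G0 β) (hβ' : β' ⊆ S)
    (h : β' ∩ (S \ dF hS (dB D Rf G0) β) = β ∩ (S \ dF hS (dB D Rf G0) β)) :
    bs S Rf G0 β' = bs S Rf G0 β := by
  have h4 := H.sub_out hβ hE h
  exact bs_eq (H.stop.stop β β' hβ hβ' h4.symm) h4

end InB

end Crest.Agent.R143.DtaBx440
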