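import Crest.Agent.R143.S1_828

/-!
# Row 143 (S0194), block H, H5 (helper440): the decided choice of the ring data (instance of `Dta`)

* `Tg M σ μ p` : the colourings agree on the left and right cells of the loop of `p`;
  `Tg.walk`, `stab2`, `gc2`, `wc2`, `ap2`, `gp2` : same states, same `Rg3`, same giants
* `Rf` stopping set, start rule `p` decided by `Rf`; `wk` states, `per` minimal period, `Adm` admissible
  times of the junctions (`Rg3` and any property `Pos` of the walk), `dR` the ring data (choice),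
  `Ev` : the `Rf`-class contains a colouring with `G0` (`G0 b` = `g (paint S b) ≠ 0`)
* `Fc` : facts of one colouring with `G0`; `In` : the inputs
* **`In.dta : Dta hS (dR ..) (Ev ..)`**, `In.rep` : the data of `β` are those of a `b` with `G0`
-/

set_option autoImplicit false
set_option linter.unusedSectionVars false

noncomputable section

open scoped Classical ComplexConjugate

namespace Crest.Agent.R143.DtaRx440

open Crest.Agent.R143.Frame1x395 Crest.Agent.R143.Frame2x395 Crest.Agent.R143.Frame3x395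
  Crest.Agent.R143.Frame4x395 Crest.Agent.R143.Frame8x395 Crest.Agent.R143.Frame9x395
  Crest.Agent.R143.NonXx592 Crest.Agent.R143.Coarsex166 Crest.Agent.R143.Coarse2x166
  Crest.Agent.R143.Flipx166 Crest.Agent.R143.R5bx166 Crest.Agent.R143.R5qx166
  Crest.Agent.R143.Patx828 Crest.Agent.R143.S1x828

open Splx117 (Lp InK gp)
open C2SBx395 (Cq Root Free Rc Pin)
open K33x137 (Cn Lk Ed)

section cmap

variable {D C : Type} {M : CMap D C} {σ μ : C → ZMod 2} {p : D} {N : ℕ} {r : ZMod 3 → ℕ}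
  {k : ZMod 3}

/-- the colourings agree on the left and right cells of the loop -/
def Tg (M : CMap D C) (σ μ : C → ZMod 2) (p : D) : Prop := ∀ u,
  μ (M.cell (P M (cfg M σ) p u)) = σ (M.cell (P M (cfg M σ) p u)) ∧
    μ (M.cell (M.rho (P M (cfg M σ) p u))) = σ (M.cell (M.rho (P M (cfg M σ) p u)))

variable [Fintype D]

theorem Tg.walk (h : Tg M σ μ p) (hσ : cfg M σ p = 1) (u : ℕ) :
    P M (cfg M μ) p u = P M (cfg M σ) p u :=
  walk_eq hσ (n := u) (fun v _ => h v) le_rfl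

theorem Tg.symm (h : Tg M σ μ p) (hσ : cfg M σ p = 1) : Tg M μ σ p := by
  intro u
  rw [h.walk hσ u]
  exact ⟨(h u).1.symm, (h u).2.symm⟩

theorem Tg.occ (h : Tg M σ μ p) (hσ : cfg M σ p = 1) : cfg M μ p = 1 := by
  obtain ⟨h1, h2⟩ := h 0
  rw [← hσ]
  exact cfg_congr h1 h2

theorem Tg.left (h : Tg M σ μ p) {c : C} (hc : c ∈ Lf M (cfg M σ) p) : μ c = σ c := by
  obtain ⟨u, rfl⟩ := hc
  exact (h u).1

/-- **the same ring** -/
theorem stab2 (X : Rg3 M σ p N r) (h : Tg M σ μ p) : Rg3 M μ p N r := by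
  have hw : ∀ u, P M (cfg M μ) p u = P M (cfg M σ) p u := h.walk X.L.occ
  have hw' : ∀ u, (stp M (cfg M μ))^[u] p = (stp M (cfg M σ))^[u] p := hw
  have hg : ∀ u, gp M (cfg M μ) p u = gp M (cfg M σ) p u := fun u => by
    unfold Splx117.gp
    rw [hw']
  have hlc : ∀ u, lc M (cfg M μ) p u = lc M (cfg M σ) p u := fun u => congrArg M.cell (hw u)
  have hocc : cfg M μ p = 1 := h.occ X.L.occ
  have L : Lp M (cfg M μ) p N := by
    refine ⟨cfg_isC μ, hocc, X.L.pos, ?_, ?_⟩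
    · rw [hw']; exact X.L.per
    · intro a b h1 h2
      rw [hw', hw']; exact X.L.inj a b h1 h2
  have hgap : ∀ j, cfg M μ (gp M (cfg M μ) p (r j)) = 0 := by
    intro j
    obtain ⟨h1, h2, -⟩ := X.junction j
    rw [hg, cfg_congr (h.left (gc_lf h1)) (h.left (gc_lf h2))]
    exact X.gap j
  have hG : ∀ j, Gp M (cfg M μ) (gp M (cfg M μ) p (r j)) := fun j => L.gap (hgap j)
  have h1 := X.r01
  have h2 := X.r12
  have h3 := X.r2N
  refine ⟨L, ?_, h1, h2, h3, hgap, ?_, ?_⟩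
  · have h0 : μ (M.cell p) = σ (M.cell p) := (h 0).1
    rw [h0]
    exact X.col
  · refine ((loop_of L).rel h1 (by omega) (hG 0) (hG 1) (Splx117.rho_gp _)
      (Splx117.rho_gp _)).2 ?_
    intro u hu1 hu2 v hv1 hv2
    rw [hlc, hlc]
    exact ((loop_of X.L).rel h1 (by omega) (X.gpx 0) (X.gpx 1) (Splx117.rho_gp _)
      (Splx117.rho_gp _)).1 X.rel u hu1 hu2 v hv1 hv2
  · refine ((loop_of L).rel h2 (by omega) (hG 1) (hG 2) (Splx117.rho_gp _)
      (Splx117.rho_gp _)).2 ?_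
    intro u hu1 hu2 v hv1 hv2
    rw [hlc, hlc]
    exact ((loop_of X.L).rel h2 (by omega) (X.gpx 1) (X.gpx 2) (Splx117.rho_gp _)
      (Splx117.rho_gp _)).1 X.rel' u hu1 hu2 v hv1 hv2

theorem lf2 (h : Tg M σ μ p) (hσ : cfg M σ p = 1) : Lf M (cfg M μ) p = Lf M (cfg M σ) p := by
  ext c
  constructor
  · rintro ⟨u, e⟩
    exact ⟨u, by rw [← e]; exact (congrArg M.cell (h.walk hσ u)).symm⟩
  · rintro ⟨u, e⟩
    exact ⟨u, by rw [← e]; exact congrArg M.cell (h.walk hσ u)⟩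

theorem gc2 (h : Tg M σ μ p) (hσ : cfg M σ p = 1) :
    Gc M (cfg M μ) p N r = Gc M (cfg M σ) p N r := by
  funext j
  ext c
  constructor
  · rintro ⟨u, hu, e⟩
    exact ⟨u, hu, by rw [← e]; exact (congrArg M.cell (h.walk hσ u)).symm⟩
  · rintro ⟨u, hu, e⟩
    exact ⟨u, hu, by rw [← e]; exact congrArg M.cell (h.walk hσ u)⟩

theorem wc2 (h : Tg M σ μ p) (hσ : cfg M σ p = 1) : Wc M (cfg M μ) p = Wc M (cfg M σ) p := by
  unfold Patx828.Wc
  rw [lf2 h hσ]

/-- **same giants** -/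
theorem ap2 (h : Tg M σ μ p) (hσ : cfg M σ p = 1) (k : ZMod 3) :
    AP M (cfg M μ) p N r k = AP M (cfg M σ) p N r k := by
  rw [ap_eq, ap_eq, gc2 h hσ, wc2 h hσ]

theorem gp2 (h : Tg M σ μ p) (hσ : cfg M σ p = 1) (u : ℕ) :
    gp M (cfg M μ) p u = gp M (cfg M σ) p u := by
  unfold Splx117.gp
  rw [show (stp M (cfg M μ))^[u] p = (stp M (cfg M σ))^[u] p from h.walk hσ u]

end cmap

/-! ### sites -/

open Crest.Agent.R143.B0x346 Crest.Agent.R143.DelGx806 Crest.Agent.R143.DelRx806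
  Crest.Agent.R143.JColx54 Crest.Agent.R143.Frame10x395 Crest.Agent.R143.C2SCx395
  Crest.Agent.R143.C2SDx395
open Crest.Agent.R143.NetUx346 (ff Ey TS mem_ff)
open Crest.Agent.R143.FinCx811 (Cs rc0 cell_mem)
open Crest.Agent.R143.Freshx829 (scol Inn rep rep_spec rep_eq)
open Crest.Agent.R143.K33x877 (fr CtrX)
open Crest.Agent.R143.Harx315 (IsStop)
open Crest.Agent.R143.Histx389 (DecF)

variable {S : Finset ℂ} (hS : GP (S : Set ℂ)) (p : Finset ℂ → D0 S) (Rf : Finset ℂ → Finset ℂ)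
  (Pos : (ℕ → D0 S) → ℕ → (ZMod 3 → ℕ) → Prop) (G0 : Finset ℂ → Prop)

/-- states -/
def wk (β : Finset ℂ) (u : ℕ) : D0 S := P (rc0 hS) (cfg (rc0 hS) (scol hS (β : Set ℂ))) (p β) u

/-- minimal period -/
def per (β : Finset ℂ) : ℕ := sInf {n | 0 < n ∧ wk hS p β n = p β}

/-- admissible times of the junctions -/
def Adm (β : Finset ℂ) (r : ZMod 3 → ℕ) : Prop :=
  Rg3 (rc0 hS) (scol hS (β : Set ℂ)) (p β) (per hS p β) r ∧ Pos (wk hS p β) (per hS p β) r

/-- the times of the junctions -/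
def rr (β : Finset ℂ) : ZMod 3 → ℕ := if h : ∃ r, Adm hS p Pos β r then h.choose else fun _ => 0

/-- **the ring data** -/
def dR (β : Finset ℂ) : Dt S := ⟨p β, per hS p β, rr hS p Pos β⟩

/-- the class of `β` contains a colouring with `G0` -/
def Ev (S : Finset ℂ) (Rf : Finset ℂ → Finset ℂ) (G0 : Finset ℂ → Prop) (β : Finset ℂ) : Prop :=
  ∃ b, b ⊆ S ∧ b ∩ Rf β = β ∩ Rf β ∧ G0 b

/-- facts of one colouring with `G0` -/
structure Fc (β : Finset ℂ) : Prop where
  adm : ∃ r, Adm hS p Pos β r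
  look : ∀ u, (Inn hS ((rc0 hS).cell (wk hS p β u)) → rep hS ((rc0 hS).cell (wk hS p β u)) ∈ Rf β) ∧
    (Inn hS ((rc0 hS).cell ((rc0 hS).rho (wk hS p β u))) →
      rep hS ((rc0 hS).cell ((rc0 hS).rho (wk hS p β u))) ∈ Rf β)
  frees : Rf β ⊆ S \ dF hS (dR hS p Pos) β
  hull : ∀ c : Cs hS, ∀ v, OnHull S v → c.1 = Quot.mk (hullE S) v →
    c ∈ Wc (rc0 hS) (cfg (rc0 hS) (scol hS (β : Set ℂ))) (p β)
  far : ∀ d : D0 S, OnHull S d.1.1 →
    (rc0 hS).cell d ∈ Wc (rc0 hS) (cfg (rc0 hS) (scol hS (β : Set ℂ))) (p β) ∧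
    (rc0 hS).cell ((rc0 hS).rho d) ∈ Wc (rc0 hS) (cfg (rc0 hS) (scol hS (β : Set ℂ))) (p β) ∧
    (rc0 hS).cell ((rc0 hS).rho ((rc0 hS).rho d)) ∈
      Wc (rc0 hS) (cfg (rc0 hS) (scol hS (β : Set ℂ))) (p β)
  ctr : ∃ X, CtrX S (st (dA hS (dR hS p Pos) β 0)) X

/-- **the inputs** -/
structure In : Prop where
  stop : IsStop S Rf
  dec : DecF S Rf p
  fc : ∀ β ⊆ S, G0 β → Fc hS p Rf Pos β

variable {hS} {p} {Rf} {Pos} {G0}

/-- everything is the same -/
structure Same (hS : GP (S : Set ℂ)) (p : Finset ℂ → D0 S)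
    (Pos : (ℕ → D0 S) → ℕ → (ZMod 3 → ℕ) → Prop) (β b : Finset ℂ) : Prop where
  ep : p β = p b
  ew : wk hS p β = wk hS p b
  ed : dR hS p Pos β = dR hS p Pos b
  A : ∀ k, dA hS (dR hS p Pos) β k = dA hS (dR hS p Pos) b k
  g : ∀ k, dg hS (dR hS p Pos) β k = dg hS (dR hS p Pos) b k
  F : dF hS (dR hS p Pos) β = dF hS (dR hS p Pos) b
  W : Wc (rc0 hS) (cfg (rc0 hS) (scol hS (β : Set ℂ))) (dR hS p Pos β).p =
    Wc (rc0 hS) (cfg (rc0 hS) (scol hS (b : Set ℂ))) (dR hS p Pos b).p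
  adm : Adm hS p Pos β = Adm hS p Pos b

theorem same_of (hJ : IsStop S Rf) (hd : DecF S Rf p) {β b : Finset ℂ} (hβ : β ⊆ S) (hb : b ⊆ S)
    (h : b ∩ Rf β = β ∩ Rf β) (F : Fc hS p Rf Pos b) : Same hS p Pos β b := by
  have eR : Rf b = Rf β := hJ.stop β b hβ hb h.symm
  have ep : p β = p b := hd β b hβ hb h.symm
  obtain ⟨r0, X, -⟩ := F.adm
  have hT : Tg (rc0 hS) (scol hS (b : Set ℂ)) (scol hS (β : Set ℂ)) (p b) := by
    have key : ∀ c : Cs hS, (Inn hS c → rep hS c ∈ Rf b) →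
        scol hS (β : Set ℂ) c = scol hS (b : Set ℂ) c := by
      intro c hc
      unfold Freshx829.scol
      by_cases hi : Inn hS c
      · have h1 := hc hi
        rw [eR] at h1
        have h2 : rep hS c ∈ (β : Set ℂ) ↔ rep hS c ∈ (b : Set ℂ) := by
          rw [Finset.mem_coe, Finset.mem_coe]
          constructor
          · intro h3
            have : rep hS c ∈ b ∩ Rf β := by rw [h]; exact Finset.mem_inter.2 ⟨h3, h1⟩
            exact (Finset.mem_inter.1 this).1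
          · intro h3
            have : rep hS c ∈ β ∩ Rf β := by rw [← h]; exact Finset.mem_inter.2 ⟨h3, h1⟩
            exact (Finset.mem_inter.1 this).1
        simp only [hi, h2]
      · rw [if_neg fun h' => hi h'.1, if_neg fun h' => hi h'.1]
    intro u
    exact ⟨key _ (F.look u).1, key _ (F.look u).2⟩
  have occ := X.L.occ
  have hT' := hT.symm occ
  have occ' := hT.occ occ
  have ew : wk hS p β = wk hS p b := by
    funext u
    unfold wk
    rw [ep]
    exact hT.walk occ u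
  have eper : per hS p β = per hS p b := by
    unfold per
    rw [ew, ep]
  have eadm : Adm hS p Pos β = Adm hS p Pos b := by
    funext r
    apply propext
    unfold Adm
    rw [ew, eper, ep]
    constructor
    · rintro ⟨h1, h2⟩
      exact ⟨stab2 h1 hT', h2⟩
    · rintro ⟨h1, h2⟩
      exact ⟨stab2 h1 hT, h2⟩
  have er : rr hS p Pos β = rr hS p Pos b := by
    unfold rr
    rw [eadm]
  have edt : dR hS p Pos β = dR hS p Pos b := by
    unfold dR
    rw [ep, eper, er]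
  have eA : ∀ k, dA hS (dR hS p Pos) β k = dA hS (dR hS p Pos) b k := by
    intro k
    unfold dA
    rw [edt]
    exact ap2 hT occ k
  refine ⟨ep, ew, edt, eA, ?_, ?_, ?_, eadm⟩
  · intro k
    unfold dg
    rw [edt]
    exact gp2 hT occ _
  · unfold dF
    rw [eA]
  · rw [edt]
    exact wc2 hT occ

namespace In

variable (H : In hS p Rf Pos G0) {β β' : Finset ℂ}

include H

/-- the data of a class are those of a colouring with `G0` -/
theorem rep (hβ : β ⊆ S) (hE : Ev S Rf G0 β) : ∃ b, b ⊆ S ∧ b ∩ Rf β = β ∩ Rf β ∧ G0 b ∧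
    Rf b = Rf β ∧ Fc hS p Rf Pos b ∧ Same hS p Pos β b := by
  obtain ⟨b, hb, h, h0⟩ := hE
  have F := H.fc b hb h0
  exact ⟨b, hb, h, h0, H.stop.stop β b hβ hb h.symm, F, same_of H.stop H.dec hβ hb h F⟩

theorem ev (_hβ : β ⊆ S) (h : G0 β) : Ev S Rf G0 β := ⟨β, _hβ, rfl, h⟩

/-- **828's `Dta`** -/
theorem dta : Dta hS (dR hS p Pos) (Ev S Rf G0) where
  ring := by
    intro β hβ hE
    obtain ⟨b, -, -, -, -, F, Sm⟩ := H.rep hβ hE
    have h1 : ∃ r, Adm hS p Pos β r := by rw [Sm.adm]; exact F.adm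
    have e : (dR hS p Pos β).r = h1.choose := by
      show rr hS p Pos β = _
      unfold rr
      rw [dif_pos h1]
    rw [e]
    exact h1.choose_spec.1
  hull := by
    intro β hβ hE c v h1 h2
    obtain ⟨b, -, -, -, -, F, Sm⟩ := H.rep hβ hE
    rw [Sm.W]
    exact F.hull c v h1 h2
  far := by
    intro β hβ hE d hd
    obtain ⟨b, -, -, -, -, F, Sm⟩ := H.rep hβ hE
    rw [Sm.W]
    exact F.far d hd
  ctr := by
    intro β hβ hE
    obtain ⟨b, -, -, -, -, F, Sm⟩ := H.rep hβ hE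
    rw [Sm.A]
    exact F.ctr
  out := by
    intro β hβ hE β' hβ' h
    obtain ⟨b, hb, h1, h2, h3, F, Sm⟩ := H.rep hβ hE
    have hsub : Rf β ⊆ S \ dF hS (dR hS p Pos) β := by
      rw [Sm.F, ← h3]
      exact F.frees
    have h4 : β' ∩ Rf β = β ∩ Rf β := by
      ext v
      have h5 : v ∈ β' ∩ (S \ dF hS (dR hS p Pos) β) ↔ v ∈ β ∩ (S \ dF hS (dR hS p Pos) β) := by
        rw [h]
      simp only [Finset.mem_inter] at h5 ⊢
      constructor
      · rintro ⟨h6, h7⟩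
        exact ⟨(h5.1 ⟨h6, hsub h7⟩).1, h7⟩
      · rintro ⟨h6, h7⟩
        exact ⟨(h5.2 ⟨h6, hsub h7⟩).1, h7⟩
    have h5 : Rf β' = Rf β := H.stop.stop β β' hβ hβ' h4.symm
    have h6 : b ∩ Rf β' = β' ∩ Rf β' := by rw [h5, h1, h4]
    refine ⟨⟨b, hb, h6, h2⟩, ?_⟩
    rw [(same_of H.stop H.dec hβ' hb h6 F).ed, Sm.ed]

end In

end Crest.Agent.R143.DtaRx440
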