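import Crest.Agent.R143.RadG_707
import Crest.Agent.R143.RevE_389

/-!
# Row 143 (S0194), block H: the regions of the ring on a square path (helper707)

* `SqR h hR W zB` : closed lattice path on the boundary of the square `sup (s - zB) = hR`
* `arm_lev`, `rr_lev` : the tiles are at the levels `hR - A' .. hR + A'`
* `rg` : **the literal record of regions** (`Far`, `Ann`, `Dw`, `Th`, `Dp`); `sec` = sector over the
  window (`fun _ => False` for the full exploration)
* `lev_rg`, `off_rg`, `dwf_rg`, `out_rg`, `th_rg`, `le_rg` : fields of 389's `RX` / `DatA`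
* `win_idx` : the vertices of a straight stretch; `off_win` : the tiles off the window miss the sector
* `ra_rg` : radial chains beside the window; `geo_rg` : 707's `Geo` for every core
* `sqr_sqW` : 503's square path
-/

set_option autoImplicit false

noncomputable section

open scoped Classical

namespace Crest.Agent.R143.RegGx707

open Crest.Agent.R143.B0x346 Crest.Agent.R143.DelGx806 Crest.Agent.R143.DelRx806
open Crest.Agent.R143.Blkx838 Crest.Agent.R143.Harx315 Crest.Agent.R143.ToolWx838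
open Crest.Agent.R143.ToolW2x838 Crest.Agent.R143.ToolW3x838 Crest.Agent.R143.Circ4x838
open Crest.Agent.R143.RB0x838 Crest.Agent.R143.CircPx838 Crest.Agent.R143.Gatex838
open Crest.Agent.R143.Multix838 Crest.Agent.R143.RBmx838
open Crest.Agent.R143.Frame1x395 Crest.Agent.R143.Frame10x395
open Crest.Agent.R143.Tubex707 Crest.Agent.R143.Exitx707 Crest.Agent.R143.TubeWx707
open Crest.Agent.R143.RevCx389 Crest.Agent.R143.Meetx707 Crest.Agent.R143.Stripx707
open Crest.Agent.R143.AnnCx707 Crest.Agent.R143.RadGx707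
open Crest.Agent.R143.RingWx389 (Rad)
open Crest.Agent.R143.RevEx389 (Le)
open Crest.Agent.R143.TileRx228 (FPath cen RR Arm U4 cz)

/-! ### the square path -/

/-- closed lattice path on the boundary of a square -/
structure SqR (h hR : ℝ) (W : ℤ → ℤ × ℤ) (zB : ℂ) : Prop where
  stp : ∀ a, U4 (W (a + 1) - W a)
  turn : ∀ a, W (a + 2) ≠ W a
  bd : ∀ a, sup (cen h W a - zB) = hR
  edge : ∀ a, ∃ u, Dir u ∧ X zB u (cen h W a) = -hR ∧ X zB u (cen h W (a + 1)) = -hR

variable {h hR : ℝ} {W : ℤ → ℤ × ℤ} {zB u : ℂ} {A' B' : ℝ}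

theorem dir_cz {v : ℤ × ℤ} (hv : U4 v) : Dir (cz v) := by
  rcases hv with rfl | rfl | rfl | rfl
  · left; apply Complex.ext <;> simp [cz]
  · right; left; apply Complex.ext <;> simp [cz]
  · right; right; left; apply Complex.ext <;> simp [cz]
  · right; right; right; apply Complex.ext <;> simp [cz]

theorem u4_neg {a : ℤ} (hW : ∀ a, U4 (W (a + 1) - W a)) : U4 (W (a - 1) - W a) := by
  have h1 := hW (a - 1)
  rw [sub_add_cancel] at h1
  unfold U4 at h1 ⊢
  rcases h1 with h1 | h1 | h1 | h1 <;>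
  · rw [Prod.ext_iff] at h1
    simp only [Prod.fst_sub, Prod.snd_sub] at h1
    obtain ⟨h1, h2⟩ := h1
    simp only [Prod.ext_iff, Prod.fst_sub, Prod.snd_sub]
    omega

/-- two lattice neighbours on one side -/
theorem quarter (hu : Dir u) (hh : 0 < h) {a b : ℤ} (hv : U4 (W b - W a))
    (ha : X zB u (cen h W a) = -hR) (hb : X zB u (cen h W b) = -hR) :
    ∃ e : ℝ, (e = 1 ∨ e = -1) ∧ cz (W b - W a) = (e : ℂ) * (u * Complex.I) ∧
      Y zB u (cen h W b) = Y zB u (cen h W a) + e * h := by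
  have h1 : cen h W b - cen h W a = (h : ℂ) * cz (W b - W a) := by
    unfold cen cz
    apply Complex.ext <;> simp <;> ring
  have h2 : ((h : ℂ) * cz (W b - W a) / u).re = 0 := by
    rw [← h1]
    have : (cen h W b - cen h W a) / u = (cen h W b - zB) / u - (cen h W a - zB) / u := by ring
    rw [this, Complex.sub_re]
    show X zB u (cen h W b) - X zB u (cen h W a) = 0
    rw [ha, hb, sub_self]
  have h3 : Y zB u (cen h W b) = Y zB u (cen h W a) + ((h : ℂ) * cz (W b - W a) / u).im := by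
    rw [← h1]
    have : (cen h W b - zB) / u = (cen h W a - zB) / u + (cen h W b - cen h W a) / u := by ring
    unfold Y
    rw [this, Complex.add_im]
  have hd := dir_cz hv
  have hc : (cz (W b - W a) / u).re = 0 := by
    have : (h : ℂ) * cz (W b - W a) / u = (h : ℂ) * (cz (W b - W a) / u) := by ring
    rw [this, Complex.re_ofReal_mul] at h2
    rcases mul_eq_zero.1 h2 with h4 | h4
    · exact absurd h4 hh.ne'
    · exact h4
  have h4 : (h : ℂ) * cz (W b - W a) / u = (h : ℂ) * (cz (W b - W a) / u) := by ring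
  rw [h4, Complex.im_ofReal_mul] at h3
  have key : cz (W b - W a) / u = Complex.I ∨ cz (W b - W a) / u = -Complex.I := by
    rcases hd with hd | hd | hd | hd <;> rcases hu with rfl | rfl | rfl | rfl <;>
      rw [hd] at hc ⊢ <;> simp [Complex.ext_iff, Complex.div_re, Complex.div_im, Complex.normSq] at hc ⊢
  rcases key with key | key
  · refine ⟨1, Or.inl rfl, ?_, ?_⟩
    · rw [div_eq_iff hu.ne] at key
      rw [key]; push_cast; ring
    · rw [h3, key, Complex.I_im]; ring
  · refine ⟨-1, Or.inr rfl, ?_, ?_⟩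
    · rw [div_eq_iff hu.ne] at key
      rw [key]; push_cast; ring
    · rw [h3, key, Complex.neg_im, Complex.I_im]; ring

/-- the sites of an arm along a side -/
theorem arm_lev (hu : Dir u) (hh : 0 < h) (_hA : A' ≤ B') (hB : B' ≤ h)
    (hbd : ∀ a, sup (cen h W a - zB) = hR) {a b : ℤ} (hv : U4 (W b - W a))
    (ha : X zB u (cen h W a) = -hR) (hb : X zB u (cen h W b) = -hR) {s : ℂ}
    (hs : s ∈ Arm A' B' (cen h W a) (cz (W b - W a))) :
    |X zB u s + hR| < A' ∧ |Y zB u s| < hR + A' := by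
  obtain ⟨e, he, h1, h2⟩ := quarter hu hh hv ha hb
  obtain ⟨⟨h3, h4⟩, h5⟩ := hs
  have hve : cz (W b - W a) ≠ 0 := (dir_cz hv).ne
  set ξ := X (cen h W a) (cz (W b - W a)) s with hξ
  set ζ := Y (cen h W a) (cz (W b - W a)) s with hζ
  have h6 : (s - zB) / u = (cen h W a - zB) / u + (e : ℂ) * Complex.I * ((ξ : ℂ) + Complex.I * ζ) := by
    have h7 : (s - cen h W a) / cz (W b - W a) = (ξ : ℂ) + Complex.I * ζ := by
      rw [hξ, hζ]
      unfold X Y
      rw [mul_comm]
      exact (Complex.re_add_im _).symm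
    have h8 : s - cen h W a = ((ξ : ℂ) + Complex.I * ζ) * ((e : ℂ) * (u * Complex.I)) := by
      rw [← h7, ← h1, div_mul_cancel₀ _ hve]
    have h9 : s - zB = (cen h W a - zB) + (s - cen h W a) := by ring
    rw [h9, h8]
    field_simp [hu.ne]
  have hX : X zB u s = X zB u (cen h W a) - e * ζ := by
    unfold X
    rw [h6]
    simp
    ring
  have hY : Y zB u s = Y zB u (cen h W a) + e * ξ := by
    unfold Y
    rw [h6]
    simp
  have hsa := hbd a
  have hsb := hbd b
  rw [hu.sup] at hsa hsb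
  have ya := (le_max_right |X zB u (cen h W a)| |Y zB u (cen h W a)|).trans hsa.le
  have yb := (le_max_right |X zB u (cen h W b)| |Y zB u (cen h W b)|).trans hsb.le
  rw [abs_le] at ya yb
  rw [abs_lt] at h5
  rcases he with rfl | rfl
  · rw [hX, hY, ha]
    rw [h2] at yb
    constructor
    · rw [abs_lt]; constructor <;> linarith
    · rw [abs_lt]; constructor <;> linarith
  · rw [hX, hY, ha]
    rw [h2] at yb
    constructor
    · rw [abs_lt]; constructor <;> linarith
    · rw [abs_lt]; constructor <;> linarith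

/-- **the levels of a tile** -/
theorem rr_lev (Q : SqR h hR W zB) (hh : 0 < h) (hA : A' ≤ B') (hB : B' ≤ h) (a : ℤ) {s : ℂ}
    (hs : s ∈ RR A' B' h W a) : hR - A' < sup (s - zB) ∧ sup (s - zB) < hR + A' := by
  have key : ∀ (u : ℂ) (b : ℤ), Dir u → U4 (W b - W a) → X zB u (cen h W a) = -hR →
      X zB u (cen h W b) = -hR → s ∈ Arm A' B' (cen h W a) (cz (W b - W a)) →
      hR - A' < sup (s - zB) ∧ sup (s - zB) < hR + A' := by
    intro u b hu hv h1 h2 h3
    obtain ⟨h4, h5⟩ := arm_lev hu hh hA hB Q.bd hv h1 h2 h3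
    rw [abs_lt] at h4
    rw [hu.sup]
    constructor
    · refine lt_of_lt_of_le ?_ (le_max_left _ _)
      refine lt_of_lt_of_le ?_ (neg_le_abs _)
      linarith
    · apply max_lt _ h5
      rw [abs_lt]
      constructor
      · linarith
      · have h6 := Q.bd a
        have h7 : (0:ℝ) ≤ hR := by rw [← h6]; exact (abs_nonneg _).trans (le_max_left _ _)
        linarith
  rcases hs with hs | hs
  · obtain ⟨u, hu, h1, h2⟩ := Q.edge (a - 1)
    rw [sub_add_cancel] at h2
    exact key u (a - 1) hu (u4_neg Q.stp) h2 h1 hs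
  · obtain ⟨u, hu, h1, h2⟩ := Q.edge a
    exact key u (a + 1) hu (Q.stp a) h1 h2 hs

/-! ### the regions -/

variable {S : Finset ℂ} {C : Type} {M : CMap (D0 S) C} {σ : ℂ → C} {hS : GP (S : Set ℂ)}

/-- **the regions**: levels `A1 ≤ A2` outside, `D1` inside, sector `sec` over the window -/
def rg (S : Finset ℂ) (σ : ℂ → C) (h0 : C) (zB : ℂ) (A1 A2 D1 : ℝ) (sec : ℂ → Prop)
    (La Lb : ℕ → D0 S) : Rg (D0 S) C where
  h0 := h0
  Far := insert h0 (cel S σ fun s => A2 ≤ sup (s - zB))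
  Ann := cel S σ fun s => A1 ≤ sup (s - zB) ∧ sup (s - zB) < A2
  Dw := cel S σ fun s => sup (s - zB) < A2 ∧ ¬ sec s
  Th := cel S σ sec
  Dp := cel S σ fun s => sup (s - zB) ≤ D1
  La := La
  Lb := Lb

variable {h0 : C} {A1 A2 D1 : ℝ} {sec sec' : ℂ → Prop} {La Lb La' Lb' : ℕ → D0 S}

theorem lev_rg (hh : ∀ s, OnHull S s → σ s = h0) (hl : ∀ s ∈ S, OnHull S s → A2 ≤ sup (s - zB)) :
    Lev S σ (rg S σ h0 zB A1 A2 D1 sec La Lb) zB A1 A2 := ⟨hh, rfl, rfl, hl⟩

/-- field `hLe` of 389's `DatA` -/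
theorem le_rg (hs : ∀ s, sec' s → sec s) :
    Le (rg S σ h0 zB A1 A2 D1 sec La Lb) (rg S σ h0 zB A1 A2 D1 sec' La' Lb') :=
  ⟨rfl, rfl, rfl, cel_mono fun s _ _ h => ⟨h.1, fun h' => h.2 (hs s h')⟩⟩

/-- field `hTh` -/
theorem th_rg (H : Pl hS M σ) : ∀ c, c ∈ (rg S σ h0 zB A1 A2 D1 sec La Lb).Dw →
    c ∉ (rg S σ h0 zB A1 A2 D1 sec La Lb).Th := by
  rintro c ⟨s, h1, h2, h3, rfl⟩ hc
  exact h3.2 ((mem_cel H h1 h2).1 hc)

/-- fields `off`, `dw`, `dp` for the cell of a site of a tile -/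
theorem off_rg (H : Pl hS M σ) (h3 : 3 ≤ S.card) (hh : ∀ s, OnHull S s → σ s = h0)
    (hl : ∀ s ∈ S, OnHull S s → A2 ≤ sup (s - zB)) {s : ℂ} (hs : s ∈ S)
    (h1 : sup (s - zB) < A1) (h12 : A1 ≤ A2) :
    σ s ∉ (rg S σ h0 zB A1 A2 D1 sec La Lb).Far ∧ σ s ∉ (rg S σ h0 zB A1 A2 D1 sec La Lb).Ann := by
  have hin : ¬ OnHull S s := fun h => absurd (hl s hs h) (not_le.2 (by linarith))
  constructor
  · rintro (h | h)
    · exact hin (hull_of_h0 H h3 hh hs h)
    · rw [mem_cel H hs hin] at h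
      linarith
  · intro h
    have := ((mem_cel H hs hin).1 h).1
    linarith

/-- field `out` for the cell of a site of a tile off the window -/
theorem out_rg (H : Pl hS M σ) (hl : ∀ s ∈ S, OnHull S s → A2 ≤ sup (s - zB)) {s : ℂ} (hs : s ∈ S)
    (h1 : D1 < sup (s - zB)) (h2 : sup (s - zB) < A2) (hsec : ¬ sec s) :
    σ s ∈ (rg S σ h0 zB A1 A2 D1 sec La Lb).Dw ∧ σ s ∉ (rg S σ h0 zB A1 A2 D1 sec La Lb).Th ∧
      σ s ∉ (rg S σ h0 zB A1 A2 D1 sec La Lb).Dp := by
  have hin : ¬ OnHull S s := fun h => absurd (hl s hs h) (not_le.2 (by linarith))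
  refine ⟨⟨s, hs, hin, ⟨h2, hsec⟩, rfl⟩, ?_, ?_⟩
  · intro h
    exact hsec ((mem_cel H hs hin).1 h)
  · intro h
    have := (mem_cel H hs hin).1 h
    linarith

/-! ### the window -/

/-- one more step on a side keeps the direction -/
theorem step_on (Q : SqR h hR W zB) (hu : Dir u) (hh : 0 < h) {a : ℤ}
    (h1 : X zB u (cen h W a) = -hR) (h2 : X zB u (cen h W (a + 1)) = -hR)
    (h3 : X zB u (cen h W (a + 2)) = -hR) :
    Y zB u (cen h W (a + 2)) - Y zB u (cen h W (a + 1)) =
      Y zB u (cen h W (a + 1)) - Y zB u (cen h W a) := by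
  obtain ⟨e, he, -, h4⟩ := quarter hu hh (Q.stp a) h1 h2
  have hq : U4 (W (a + 2) - W (a + 1)) := by
    have := Q.stp (a + 1)
    rwa [show a + 1 + 1 = a + 2 by ring] at this
  obtain ⟨e', he', -, h5⟩ := quarter hu hh hq h2 h3
  have hee : e = e' := by
    by_contra hne
    have h6 : e' = -e := by
      rcases he with rfl | rfl <;> rcases he' with rfl | rfl
      · exact absurd rfl hne
      · rfl
      · norm_num
      · exact absurd rfl hne
    have h7 : cen h W (a + 2) = cen h W a := by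
      have h8 : (cen h W (a + 2) - zB) / u = (cen h W a - zB) / u := by
        apply Complex.ext
        · show X zB u (cen h W (a + 2)) = X zB u (cen h W a)
          rw [h3, h1]
        · show Y zB u (cen h W (a + 2)) = Y zB u (cen h W a)
          rw [h5, h4, h6]; ring
      have h9 := (div_left_inj' hu.ne).1 h8
      linear_combination h9
    have hhc : (h : ℂ) ≠ 0 := by exact_mod_cast hh.ne'
    have h8 : cz (W (a + 2)) = cz (W a) := mul_left_cancel₀ hhc h7
    unfold cz at h8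
    rw [Complex.mk.injEq] at h8
    exact Q.turn a (Prod.ext (by exact_mod_cast h8.1) (by exact_mod_cast h8.2))
  rw [h5, h4, ← hee]
  ring

/-- **the vertices of a straight stretch** -/
theorem win_idx (Q : SqR h hR W zB) (hu : Dir u) (hh : 0 < h) {ac : ℤ} {J : ℕ} (hJ : 1 ≤ J)
    (hst : ∀ i : ℤ, |i| ≤ J → X zB u (cen h W (ac + i)) = -hR) :
    ∃ e : ℝ, (e = 1 ∨ e = -1) ∧ ∀ i : ℤ, |i| ≤ J →
      Y zB u (cen h W (ac + i)) = Y zB u (cen h W ac) + e * h * i := by
  have hJ' : (1 : ℤ) ≤ J := by exact_mod_cast hJ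
  obtain ⟨e, he, -, h1⟩ := quarter hu hh (Q.stp (ac - J)) (by
    have := hst (-J) (by rw [abs_neg, abs_of_nonneg (by omega)])
    rwa [← sub_eq_add_neg] at this) (by
    have := hst (-J + 1) (by rw [abs_le]; omega)
    rwa [show ac + (-(J : ℤ) + 1) = ac - J + 1 by ring] at this)
  have key : ∀ n : ℕ, n ≤ 2 * J → Y zB u (cen h W (ac - J + n)) =
      Y zB u (cen h W (ac - J)) + e * h * n ∧ (n + 1 ≤ 2 * J →
      Y zB u (cen h W (ac - J + (n + 1))) = Y zB u (cen h W (ac - J + n)) + e * h) := by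
    intro n
    induction n with
    | zero =>
      intro _
      refine ⟨by simp, fun _ => ?_⟩
      simp only [Nat.cast_zero, add_zero, zero_add]
      exact h1
    | succ n ih =>
      intro hn
      obtain ⟨i1, i2⟩ := ih (by omega)
      have i3 := i2 (by omega)
      refine ⟨?_, fun hn2 => ?_⟩
      · rw [show ac - J + ((n + 1 : ℕ) : ℤ) = ac - J + (n + 1) by push_cast; ring, i3, i1]
        push_cast; ring
      · have h4 := step_on Q hu hh (a := ac - J + n) (by
          have := hst (-J + n) (by rw [abs_le]; omega)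
          rwa [show ac + (-(J : ℤ) + n) = ac - J + n by ring] at this) (by
          have := hst (-J + n + 1) (by rw [abs_le]; omega)
          rwa [show ac + (-(J : ℤ) + n + 1) = ac - J + n + 1 by ring] at this) (by
          have := hst (-J + n + 2) (by rw [abs_le]; omega)
          rwa [show ac + (-(J : ℤ) + n + 2) = ac - J + n + 2 by ring] at this)
        rw [show ac - (J : ℤ) + (n + 1) = ac - J + n + 1 by ring] at i3
        rw [show ac - (J : ℤ) + (((n + 1 : ℕ) : ℤ) + 1) = ac - J + n + 2 by push_cast; ring,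
          show ac - (J : ℤ) + ((n + 1 : ℕ) : ℤ) = ac - J + n + 1 by push_cast; ring]
        linarith
  refine ⟨e, he, fun i hi => ?_⟩
  rw [abs_le] at hi
  have h4 := (key (i + J).toNat (by omega)).1
  have h5 := (key J (by omega)).1
  rw [show (((i + J).toNat : ℕ) : ℤ) = i + J from Int.toNat_of_nonneg (by omega),
    show ac - (J : ℤ) + (i + J) = ac + i by ring] at h4
  rw [show ac - (J : ℤ) + (J : ℕ) = ac by push_cast; ring] at h5
  have h6 : (((i + J).toNat : ℕ) : ℝ) = (i : ℝ) + J := by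
    have : (((i + J).toNat : ℕ) : ℤ) = i + J := Int.toNat_of_nonneg (by omega)
    exact_mod_cast this
  rw [h4, h5, h6]
  ring

/-- **the tiles off the window miss the sector** -/
theorem off_win (Q : SqR h hR W zB) (hu : Dir u) (hh : 0 < h) (hA : A' ≤ B') (hB : B' < h)
    {ac : ℤ} {J j : ℕ} (hJ : 1 ≤ J) (hjJ : j < J)
    (hst : ∀ i : ℤ, |i| ≤ J → X zB u (cen h W (ac + i)) = -hR) {hB' t0 l : ℝ}
    (hl : l ≤ h * j) (ht : B' ≤ hB' - t0) {a : ℤ}
    (hno : ∀ i : ℤ, |i| ≤ j → W a ≠ W (ac + i)) {s : ℂ} (hs : s ∈ RR A' B' h W a) :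
    ¬ Sec u zB hB' t0 (Y zB u (cen h W ac)) l s := by
  rintro ⟨h1, h2⟩
  obtain ⟨e, he, hy⟩ := win_idx Q hu hh hJ hst
  have hbd := Q.bd
  have h3 := rr_near hA Q.stp a hs
  have h4 : sup (s - cen h W a) = max |X (cen h W a) u s| |Y (cen h W a) u s| := hu.sup _ _
  rw [h4, max_lt_iff] at h3
  have hX : X (cen h W a) u s = X zB u s - X zB u (cen h W a) := by
    unfold X; rw [← Complex.sub_re]; congr 1; ring
  have hY : Y (cen h W a) u s = Y zB u s - Y zB u (cen h W a) := by
    unfold Y; rw [← Complex.sub_im]; congr 1; ring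
  rw [hX, hY, abs_lt, abs_lt] at h3
  rw [abs_le] at h2
  have hj1 : |Y zB u (cen h W a) - Y zB u (cen h W ac)| < h * (j + 1) := by
    rw [abs_lt]
    constructor
    · linarith [h3.2.2]
    · linarith [h3.2.1]
  -- the centre is far from the corners
  have hYc : |Y zB u (cen h W ac)| + h * J ≤ hR := by
    have a1 := hy J (by rw [abs_of_nonneg (by omega)])
    have a2 := hy (-J) (by rw [abs_neg, abs_of_nonneg (by omega)])
    have b1 := hbd (ac + J)
    have b2 := hbd (ac + -J)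
    rw [hu.sup] at b1 b2
    have c1 := (le_max_right |X zB u (cen h W (ac + J))| |Y zB u (cen h W (ac + J))|).trans b1.le
    have c2 := (le_max_right |X zB u (cen h W (ac + -J))| |Y zB u (cen h W (ac + -J))|).trans b2.le
    rw [a1, abs_le] at c1
    rw [a2, abs_le] at c2
    push_cast at c1 c2
    rcases le_total 0 (Y zB u (cen h W ac)) with d | d
    · rw [abs_of_nonneg d]
      rcases he with rfl | rfl
      · linarith [c1.2]
      · linarith [c2.2]
    · rw [abs_of_nonpos d]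
      rcases he with rfl | rfl
      · linarith [c2.1]
      · linarith [c1.1]
  have hjJ' : (j : ℝ) + 1 ≤ J := by exact_mod_cast hjJ
  have hYa : |Y zB u (cen h W a)| < hR := by
    have h5 : |Y zB u (cen h W a)| ≤ |Y zB u (cen h W a) - Y zB u (cen h W ac)| +
        |Y zB u (cen h W ac)| := by
      have := abs_add_le (Y zB u (cen h W a) - Y zB u (cen h W ac)) (Y zB u (cen h W ac))
      rwa [sub_add_cancel] at this
    have h6 : h * (j + 1) ≤ h * J := mul_le_mul_of_nonneg_left hjJ' hh.le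
    linarith
  have hxa : X zB u (cen h W a) = -hR := by
    have b := hbd a
    rw [hu.sup] at b
    have hxa : |X zB u (cen h W a)| = hR := by
      rcases max_choice |X zB u (cen h W a)| |Y zB u (cen h W a)| with h6 | h6
      · rw [← h6]; exact b
      · rw [h6] at b
        linarith
    rcases le_total 0 (X zB u (cen h W a)) with h6 | h6
    · rw [abs_of_nonneg h6] at hxa
      have h7 : 0 < hR := (abs_nonneg _).trans_lt hYa
      linarith [h3.1.1]
    · rw [abs_of_nonpos h6] at hxa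
      linarith
  obtain ⟨i, hi⟩ := lat_y (zB := zB) (h := h) (W := W) hu a ac
  have hij : |i| ≤ j := by
    rw [hi, abs_mul, abs_of_pos hh] at hj1
    have h6 : |(i : ℝ)| < (j : ℝ) + 1 := lt_of_mul_lt_mul_left hj1 hh.le
    have h7 : |i| < (j : ℤ) + 1 := by exact_mod_cast h6
    omega
  -- the vertex of the stretch with the same coordinate
  have hfin : ∀ i' : ℤ, |i'| ≤ j → Y zB u (cen h W (ac + i')) = Y zB u (cen h W a) → False := by
    intro i' hi' hYi
    apply hno i' hi'
    have hcen : cen h W a = cen h W (ac + i') := by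
      have h6 : (cen h W a - zB) / u = (cen h W (ac + i') - zB) / u := by
        apply Complex.ext
        · show X zB u (cen h W a) = X zB u (cen h W (ac + i'))
          rw [hxa, hst i' (by omega)]
        · exact hYi.symm
      have h7 := (div_left_inj' hu.ne).1 h6
      linear_combination h7
    have hhc : (h : ℂ) ≠ 0 := by exact_mod_cast hh.ne'
    have h8 : cz (W a) = cz (W (ac + i')) := mul_left_cancel₀ hhc hcen
    unfold cz at h8
    rw [Complex.mk.injEq] at h8
    exact Prod.ext (by exact_mod_cast h8.1) (by exact_mod_cast h8.2)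
  rcases he with rfl | rfl
  · refine hfin i hij ?_
    rw [hy i (by omega)]
    linarith
  · refine hfin (-i) (by rw [abs_neg]; exact hij) ?_
    rw [hy (-i) (by rw [abs_neg]; omega)]
    push_cast
    linarith

/-- the vertices of the stretch are far from the corners -/
theorem stretch_y (Q : SqR h hR W zB) (hu : Dir u) (hh : 0 < h) {ac : ℤ} {J : ℕ} (hJ : 1 ≤ J)
    (hst : ∀ i : ℤ, |i| ≤ J → X zB u (cen h W (ac + i)) = -hR) {i : ℤ} {n : ℕ} (hi : |i| ≤ n)
    (hn : n ≤ J) : |Y zB u (cen h W (ac + i))| ≤ hR - h * (J - n) := by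
  obtain ⟨e, he, hy⟩ := win_idx Q hu hh hJ hst
  have a1 := hy J (by rw [abs_of_nonneg (by omega)])
  have a2 := hy (-J) (by rw [abs_neg, abs_of_nonneg (by omega)])
  have b1 := Q.bd (ac + J)
  have b2 := Q.bd (ac + -J)
  rw [hu.sup] at b1 b2
  have c1 := (le_max_right |X zB u (cen h W (ac + J))| |Y zB u (cen h W (ac + J))|).trans b1.le
  have c2 := (le_max_right |X zB u (cen h W (ac + -J))| |Y zB u (cen h W (ac + -J))|).trans b2.le
  rw [a1, abs_le] at c1
  rw [a2, abs_le] at c2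
  push_cast at c1 c2
  have hi' : |(i : ℝ)| ≤ n := by exact_mod_cast hi
  rw [abs_le] at hi'
  have h1 : h * i ≤ h * n := mul_le_mul_of_nonneg_left hi'.2 hh.le
  have h2 : -(h * n) ≤ h * i := by
    have := mul_le_mul_of_nonneg_left hi'.1 hh.le
    linarith
  rw [hy i (by omega), abs_le]
  rcases he with rfl | rfl
  · constructor <;> linarith [c1.1, c1.2, c2.1, c2.2]
  · constructor <;> linarith [c1.1, c1.2, c2.1, c2.2]

variable {G : Rg (D0 S) C} {et : ℝ}

/-- **fields `ra`, `rb`**: radial chain at the vertex `ac + i0`, `|i0| = j + 2`, beside the window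
`|i| ≤ j` -/
theorem ra_rg (H : Pl hS M σ) (h3 : 3 ≤ S.card) (hh0 : ∀ s, OnHull S s → σ s = h0)
    (hl0 : ∀ s ∈ S, OnHull S s → A2 ≤ sup (s - zB)) (Q : SqR h hR W zB) (hu : Dir u) (hh : 0 < h)
    (hA : A' ≤ B') (hAB : A' + B' < h) (het0 : 0 < et) (het : et ≤ A') {ac i0 : ℤ} {J j : ℕ}
    (hi0 : |i0| = j + 2) (hjJ : j + 5 ≤ J)
    (hst : ∀ i : ℤ, |i| ≤ J → X zB u (cen h W (ac + i)) = -hR) {hB' t0 l E1 E2 : ℝ}
    (hl : l ≤ h * j)
    (hq : (radq u zB (Y zB u (cen h W (ac + i0))) hR (hR - E1) (hR + E2) et).Ev S S)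
    (e1 : hR - E1 ≤ D1) (e2 : A2 ≤ hR + E2) (e3 : D1 < A2) (e4 : hR - 3 * h + et ≤ D1)
    (e5 : et ≤ 2 * (hR - E1)) (e6 : hR + A' ≤ A2)
    {B : ℕ → Set C} {n : ℕ} {ok : ℕ → Prop} {tl : ℕ → ℤ}
    (hB : ∀ k, k < n → ∀ c ∈ B k, ∃ s ∈ S, s ∈ RR A' B' h W (tl k) ∧ σ s = c)
    (hok : ∀ k, k < n → W (tl k) = W (ac + i0) → ok k) :
    ∃ Lc : ℕ → D0 S, Rad M (rg S σ h0 zB A1 A2 D1
      (Sec u zB hB' t0 (Y zB u (cen h W ac)) l) La Lb) B n ok Lc := by
  have hJ1 : 1 ≤ J := by omega
  obtain ⟨e, he, hy⟩ := win_idx Q hu hh hJ1 hst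
  have hiJ : |i0| ≤ J := by rw [hi0]; omega
  have hca := stretch_y Q hu hh hJ1 hst (i := i0) (n := j + 2) (by rw [hi0]; push_cast; rfl)
    (by omega)
  have hJr : (j : ℝ) + 5 ≤ J := by exact_mod_cast hjJ
  have hca3 : |Y zB u (cen h W (ac + i0))| ≤ hR - 3 * h := by
    push_cast at hca
    have : h * 3 ≤ h * ((J : ℝ) - (j + 2)) := mul_le_mul_of_nonneg_left (by linarith) hh.le
    linarith
  have hdist : h * (j + 2) ≤ |Y zB u (cen h W (ac + i0)) - Y zB u (cen h W ac)| := by
    rw [hy i0 hiJ]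
    have h5 : |(i0 : ℝ)| = (j : ℝ) + 2 := by exact_mod_cast hi0
    have h6 : |Y zB u (cen h W ac) + e * h * i0 - Y zB u (cen h W ac)| = h * (j + 2) := by
      rw [add_sub_cancel_left, abs_mul, abs_mul, abs_of_pos hh, h5]
      rcases he with rfl | rfl
      · rw [abs_one, one_mul]
      · rw [abs_neg, abs_one, one_mul]
    rw [h6]
  have L := lev_rg (A1 := A1) (D1 := D1) (La := La) (Lb := Lb)
    (sec := Sec u zB hB' t0 (Y zB u (cen h W ac)) l) hh0 hl0
  refine rad_side H h3 L hu hq e2 e1 e3 (by linarith) e5 subset_rfl ?_ ?_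
  · refine cel_mono fun s _ _ hs => ⟨hs.2.2, fun hsec => ?_⟩
    have h5 := abs_lt.1 hs.1
    have h6 := abs_le.1 hsec.2
    have h7 : |Y zB u (cen h W (ac + i0)) - Y zB u (cen h W ac)| < l + et := by
      rw [abs_lt]
      constructor <;> linarith [h5.1, h5.2, h6.1, h6.2]
    have h8 : et < h := by linarith
    have h9 : h * (j + 2) = h * j + 2 * h := by ring
    linarith
  · intro s hs h5 h6 k hk h7
    obtain ⟨s', hs', hr, he'⟩ := hB k hk _ h7
    have hlev := rr_lev Q hh hA (by linarith) (tl k) hr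
    have hin : ¬ OnHull S s' := fun h => absurd (hl0 s' hs' h) (not_le.2 (by linarith))
    have hss : s = s' := H.inj s s' hs hs' hin he'
    rw [← hss] at hr
    refine hok k hk (one_tile (zB := zB) (hR := hR) (et := et) hu Q.stp Q.bd hh hA hAB ?_ het
      (hst i0 hiJ) ?_ h5 ?_ hr)
    · have : h ≤ hR := by
        have h10 := abs_nonneg (Y zB u (cen h W (ac + i0)))
        linarith
      linarith
    · linarith
    · have h10 := abs_nonneg (Y zB u (cen h W (ac + i0)))
      linarith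

/-- **707's `Geo` for every core** -/
theorem geo_rg {V : Finset ℂ} {z1 : ℂ} {c0 d0 l t0 a2 r1 E : ℝ}
    (P : Par hR d0 l t0 a2 r1 et E) (Qp : Pos u zB z1 hR d0 l c0) (h1 : A2 ≤ hR + a2)
    (h2 : hR - t0 ≤ D1) (hV : V ⊆ S) (hVi : ∀ s ∈ V, ¬ OnHull S s) :
    Geo S V σ (rg S σ h0 zB A1 A2 D1 (Sec u zB hR t0 c0 l) La Lb) z1 zB r1 (hR + a2)
      (strip u zB hR c0 z1 E et) :=
  geo P Qp (fun _ ⟨s, a1, a2, a3, a4⟩ => Or.inr ⟨s, a1, a2, h1.trans a3, a4⟩) subset_rfl
    (cel_mono fun _ _ _ h => h.trans h2) hV hVi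

/-! ### 503's square path -/

open Crest.Agent.R143.SqPx503 (sq0 sqW sq_fpath)

/-- direction of the side `p` -/
def du (p : Fin 4) : ℂ :=
  match p with
  | 0 => 1
  | 1 => -Complex.I
  | 2 => -1
  | 3 => Complex.I

theorem dir_du (p : Fin 4) : Dir (du p) := by
  fin_cases p
  · exact Or.inl rfl
  · exact Or.inr (Or.inr (Or.inr rfl))
  · exact Or.inr (Or.inr (Or.inl rfl))
  · exact Or.inr (Or.inl rfl)

/-- the shifted square path -/
def sqs (K : ℕ) (j0 : ℤ) (a : ℤ) : ℤ × ℤ := sqW K a - (j0, j0)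

/-- the centre of the square -/
def zq (h : ℝ) (K : ℕ) (j0 : ℤ) : ℂ := ⟨h * ((K : ℝ) / 2 - j0), h * ((K : ℝ) / 2 - j0)⟩

theorem cen_sub (h : ℝ) (K : ℕ) (j0 a : ℤ) :
    cen h (sqs K j0) a - zq h K j0 =
      ⟨h * (((sqW K a).1 : ℝ) - (K : ℝ) / 2), h * (((sqW K a).2 : ℝ) - (K : ℝ) / 2)⟩ := by
  unfold cen cz zq sqs
  apply Complex.ext
  · simp; ring
  · simp; ring

theorem sqW_bd {K : ℕ} (hK : 1 ≤ K) (a : ℤ) : 0 ≤ (sqW K a).1 ∧ (sqW K a).1 ≤ K ∧
    0 ≤ (sqW K a).2 ∧ (sqW K a).2 ≤ K := by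
  have hK' : (1 : ℤ) ≤ K := by exact_mod_cast hK
  have h0 := Int.emod_nonneg a (show (4 * K : ℤ) ≠ 0 by omega)
  have h1 := Int.emod_lt_of_pos a (show (0 : ℤ) < 4 * K by omega)
  unfold sqW sq0
  split_ifs <;> simp only <;> omega

/-- coordinates of the vertices of the side `p` -/
theorem sqW_at {K : ℕ} (hK : 1 ≤ K) (a q : ℤ) :
    (4 * K * q ≤ a → a ≤ 4 * K * q + K → (sqW K a).1 = 0) ∧
    (4 * K * q + K ≤ a → a ≤ 4 * K * q + 2 * K → (sqW K a).2 = K) ∧
    (4 * K * q + 2 * K ≤ a → a ≤ 4 * K * q + 3 * K → (sqW K a).1 = K) ∧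
    (4 * K * q + 3 * K ≤ a → a ≤ 4 * K * q + 4 * K → (sqW K a).2 = 0) := by
  have hK' : (1 : ℤ) ≤ K := by exact_mod_cast hK
  have key : ∀ r : ℤ, 0 ≤ r → r < 4 * K → a = r + (4 * K) * q → sqW K a = sq0 K r := by
    intro r h1 h2 h3
    unfold sqW
    rw [h3, Int.add_mul_emod_self_left, Int.emod_eq_of_lt h1 h2]
  refine ⟨fun h1 h2 => ?_, fun h1 h2 => ?_, fun h1 h2 => ?_, fun h1 h2 => ?_⟩
  · rw [key (a - 4 * K * q) (by linarith) (by linarith) (by ring)]
    unfold sq0
    have h3 : 0 ≤ a - 4 * K * q := by linarith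
    have h4 : a - 4 * K * q ≤ K := by linarith
    generalize a - 4 * K * q = r at h3 h4
    split_ifs <;> simp only <;> omega
  · rw [key (a - 4 * K * q) (by linarith) (by linarith) (by ring)]
    unfold sq0
    have h3 : (K : ℤ) ≤ a - 4 * K * q := by linarith
    have h4 : a - 4 * K * q ≤ 2 * K := by linarith
    generalize a - 4 * K * q = r at h3 h4
    split_ifs <;> simp only <;> omega
  · rw [key (a - 4 * K * q) (by linarith) (by linarith) (by ring)]
    unfold sq0
    have h3 : 2 * (K : ℤ) ≤ a - 4 * K * q := by linarith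
    have h4 : a - 4 * K * q ≤ 3 * K := by linarith
    generalize a - 4 * K * q = r at h3 h4
    split_ifs <;> simp only <;> omega
  · rcases lt_or_eq_of_le h2 with h5 | h5
    · rw [key (a - 4 * K * q) (by linarith) (by linarith) (by ring)]
      unfold sq0
      have h3 : 3 * (K : ℤ) ≤ a - 4 * K * q := by linarith
      have h4 : a - 4 * K * q < 4 * K := by linarith
      generalize a - 4 * K * q = r at h3 h4
      split_ifs <;> simp only <;> omega
    · have : sqW K a = sq0 K 0 := by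
        unfold sqW
        rw [h5, show (4 : ℤ) * K * q + 4 * K = 0 + (4 * K) * (q + 1) by ring,
          Int.add_mul_emod_self_left, Int.emod_eq_of_lt le_rfl (by omega)]
      rw [this]
      unfold sq0
      split_ifs <;> simp only <;> omega

/-- **the side `p`** -/
theorem side_x {K : ℕ} (hK : 1 ≤ K) (h : ℝ) (j0 : ℤ) (p : Fin 4) (q : ℤ) {a : ℤ}
    (h1 : 4 * K * q + p * K ≤ a) (h2 : a ≤ 4 * K * q + (p + 1) * K) :
    X (zq h K j0) (du p) (cen h (sqs K j0) a) = -(h * K / 2) := by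
  obtain ⟨s0, s1, s2, s3⟩ := sqW_at hK a q
  unfold X
  rw [cen_sub]
  fin_cases p
  · have e := s0 (by simpa using h1) (by simpa using h2)
    show ((⟨h * (((sqW K a).1 : ℝ) - (K : ℝ) / 2), h * (((sqW K a).2 : ℝ) - (K : ℝ) / 2)⟩ : ℂ) /
      1).re = _
    rw [div_one, e]; simp; ring
  · have e := s1 (by simpa using h1) (by
      have : (4 : ℤ) * K * q + 2 * K = 4 * K * q + ((1 : ℤ) + 1) * K := by ring
      rw [this]; simpa using h2)
    show ((⟨h * (((sqW K a).1 : ℝ) - (K : ℝ) / 2), h * (((sqW K a).2 : ℝ) - (K : ℝ) / 2)⟩ : ℂ) /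
      -Complex.I).re = _
    rw [div_negI, e]; simp; ring
  · have e := s2 (by simpa using h1) (by
      have : (4 : ℤ) * K * q + 3 * K = 4 * K * q + ((2 : ℤ) + 1) * K := by ring
      rw [this]; simpa using h2)
    show ((⟨h * (((sqW K a).1 : ℝ) - (K : ℝ) / 2), h * (((sqW K a).2 : ℝ) - (K : ℝ) / 2)⟩ : ℂ) /
      -1).re = _
    rw [div_neg1, e]; simp; ring
  · have e := s3 (by simpa using h1) (by
      have : (4 : ℤ) * K * q + 4 * K = 4 * K * q + ((3 : ℤ) + 1) * K := by ring
      rw [this]; simpa using h2)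
    show ((⟨h * (((sqW K a).1 : ℝ) - (K : ℝ) / 2), h * (((sqW K a).2 : ℝ) - (K : ℝ) / 2)⟩ : ℂ) /
      Complex.I).re = _
    rw [div_I_re, e]; simp; ring

/-- every index is on a side together with its successor -/
theorem side_ex {K : ℕ} (hK : 1 ≤ K) (a : ℤ) : ∃ (p : Fin 4) (q : ℤ),
    4 * K * q + p * K ≤ a ∧ a + 1 ≤ 4 * K * q + (p + 1) * K := by
  have hK' : (1 : ℤ) ≤ K := by exact_mod_cast hK
  have h0 := Int.emod_nonneg a (show (4 * K : ℤ) ≠ 0 by omega)
  have h1 := Int.emod_lt_of_pos a (show (0 : ℤ) < 4 * K by omega)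
  have h2 := Int.mul_ediv_add_emod a (4 * K : ℤ)
  set r := a % (4 * K : ℤ) with hr
  set q := a / (4 * K : ℤ) with hq
  rcases lt_or_ge r K with h3 | h3
  · exact ⟨0, q, by simp; linarith, by simp; linarith⟩
  rcases lt_or_ge r (2 * K) with h4 | h4
  · exact ⟨1, q, by simp; linarith, by simp; linarith⟩
  rcases lt_or_ge r (3 * K) with h5 | h5
  · exact ⟨2, q, by simp; linarith, by simp; linarith⟩
  · exact ⟨3, q, by simp; linarith, by simp; linarith⟩

/-- **503's square path is a square path** -/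
theorem sqr_sqW {K : ℕ} (hK : 1 ≤ K) {h : ℝ} (hh : 0 < h) (j0 : ℤ) :
    SqR h (h * K / 2) (sqs K j0) (zq h K j0) where
  stp a := by
    have := (sq_fpath hK).step a
    unfold sqs
    rwa [sub_sub_sub_cancel_right]
  turn a := by
    intro e
    unfold sqs at e
    exact (sq_fpath hK).turn a (sub_left_injective e)
  bd a := by
    obtain ⟨p, q, h1, h2⟩ := side_ex hK a
    have h3 := side_x hK h j0 p q h1 (by linarith)
    obtain ⟨b1, b2, b3, b4⟩ := sqW_bd hK a
    have c1 : (0 : ℝ) ≤ (sqW K a).1 := by exact_mod_cast b1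
    have c2 : ((sqW K a).1 : ℝ) ≤ K := by exact_mod_cast b2
    have c3 : (0 : ℝ) ≤ (sqW K a).2 := by exact_mod_cast b3
    have c4 : ((sqW K a).2 : ℝ) ≤ K := by exact_mod_cast b4
    apply le_antisymm
    · unfold CircPx838.sup
      rw [cen_sub]
      apply max_le
      · show |h * (((sqW K a).1 : ℝ) - (K : ℝ) / 2)| ≤ h * K / 2
        rw [abs_mul, abs_of_pos hh, mul_div_assoc]
        refine mul_le_mul_of_nonneg_left ?_ hh.le
        rw [abs_le]; constructor <;> linarith
      · show |h * (((sqW K a).2 : ℝ) - (K : ℝ) / 2)| ≤ h * K / 2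
        rw [abs_mul, abs_of_pos hh, mul_div_assoc]
        refine mul_le_mul_of_nonneg_left ?_ hh.le
        rw [abs_le]; constructor <;> linarith
    · rw [(dir_du p).sup]
      refine le_trans ?_ (le_max_left _ _)
      rw [h3, abs_neg]
      exact le_abs_self _
  edge a := by
    obtain ⟨p, q, h1, h2⟩ := side_ex hK a
    exact ⟨du p, dir_du p, side_x hK h j0 p q h1 (by linarith), side_x hK h j0 p q (by linarith) h2⟩

end Crest.Agent.R143.RegGx707
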