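import Crest.Agent.R143.FactI_432
import Crest.Agent.R143.RegG_707

/-!
# Row 143 (S0194), block H (helper432): the literal full exploration of the ring

The regions are 707's `rg` without a window.
* `hv`, `ed` : a hull site, a dart; `Gf zB A1 A2 D1 hS h3` : the regions; `gf_h0`, `gf_lev`, `gf_dw`,
  `gf_le` (389's `Le`)
* `Rf zB A1 A2 D1` : the revealed sites; `rf_eq`, `rf_stop`
* `facts_rf` : `facts_ra` for `Rf`
-/

set_option autoImplicit false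

noncomputable section

open scoped Classical

namespace Crest.Agent.R143.EFamx432

open Crest.Agent.R143.B0x346 Crest.Agent.R143.SumScx302 Crest.Agent.R143.Mass1x302
  Crest.Agent.R143.Mass2x302 Crest.Agent.R143.Mass3x302
  Crest.Agent.R143.Mass4x302 Crest.Agent.R143.Mass5x302 Crest.Agent.R143.DelGx806
  Crest.Agent.R143.DelRx806 Crest.Agent.R143.JColx54
open Crest.Agent.R143.Frame1x395 Crest.Agent.R143.Frame2x395 Crest.Agent.R143.Frame3x395
  Crest.Agent.R143.Frame4x395 Crest.Agent.R143.Frame8x395 Crest.Agent.R143.Frame9x395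
  Crest.Agent.R143.Frame10x395 Crest.Agent.R143.NonXx592
  Crest.Agent.R143.FinCx811 Crest.Agent.R143.SmallAx304 Crest.Agent.R143.GiantEx197
  Crest.Agent.R143.StgIx432 Crest.Agent.R143.HRevx432 Crest.Agent.R143.WLocx713
  Crest.Agent.R143.RingDx117 Crest.Agent.R143.RcTx422 Crest.Agent.R143.FactIx432
open Crest.Agent.R143.Harx315 (IsStop)
open Crest.Agent.R143.RevCx389 (Rg Xs Fs Cw Ra ra_stop)
open Crest.Agent.R143.RevEx389 (Le)
open Crest.Agent.R143.Meetx707 (cel mem_cel sr pl_rc0 Pl)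
open Crest.Agent.R143.AnnCx707 (Lev hull_ex)
open Crest.Agent.R143.RegGx707 (rg lev_rg le_rg)
open Crest.Agent.R143.CircPx838 (sup)

variable {A β : Finset ℂ}

/-! ### the regions of the full exploration -/

/-- a hull site -/
def hv (hS : GP (A : Set ℂ)) (h3 : 3 ≤ A.card) : ℂ := (hull_ex hS h3).choose

theorem hv_mem (hS : GP (A : Set ℂ)) (h3 : 3 ≤ A.card) : hv hS h3 ∈ A :=
  (hull_ex hS h3).choose_spec.1

theorem hv_hull (hS : GP (A : Set ℂ)) (h3 : 3 ≤ A.card) : OnHull A (hv hS h3) :=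
  (hull_ex hS h3).choose_spec.2

/-- a dart -/
def ed (hS : GP (A : Set ℂ)) (h3 : 3 ≤ A.card) : D0 A := (exists_dart hS h3).some

/-- **the regions of the full exploration** -/
def Gf (zB : ℂ) (A1 A2 D1 : ℝ) (hS : GP (A : Set ℂ)) (h3 : 3 ≤ A.card) : Rg (D0 A) (Cs hS) :=
  rg A (sr hS h3) (sr hS h3 (hv hS h3)) zB A1 A2 D1 (fun _ => False) (fun _ => ed hS h3)
    (fun _ => ed hS h3)

theorem onHull_mem {u : ℂ} (hu : OnHull A u) : u ∈ A := by
  obtain ⟨a, ha⟩ := hu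
  exact (hullE.mem ha).2

/-- the cell of a site, as a class -/
theorem sr_val {hS : GP (A : Set ℂ)} {h3 : 3 ≤ A.card} {v : ℂ} (hv : v ∈ A) :
    (sr hS h3 v).1 = Quot.mk _ v := by
  unfold sr
  rw [dif_pos hv]
  rfl

/-- all hull sites have the cell `h0` -/
theorem sr_hull (hS : GP (A : Set ℂ)) (h3 : 3 ≤ A.card) {s : ℂ} (hs : OnHull A s) :
    sr hS h3 s = sr hS h3 (hv hS h3) := by
  apply Subtype.ext
  rw [sr_val (onHull_mem hs), sr_val (hv_mem hS h3)]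
  exact hull_mem hS h3 (hv_hull hS h3) hs

variable {zB : ℂ} {A1 A2 D1 : ℝ}

theorem gf_h0 (hS : GP (A : Set ℂ)) (h3 : 3 ≤ A.card) :
    ∀ s, OnHull A s → sr hS h3 s = (Gf zB A1 A2 D1 hS h3).h0 := fun _ hs => sr_hull hS h3 hs

/-- **707's levels**, if the hull is far -/
theorem gf_lev (hS : GP (A : Set ℂ)) (h3 : 3 ≤ A.card)
    (hl : ∀ s ∈ A, OnHull A s → A2 ≤ sup (s - zB)) :
    Lev A (sr hS h3) (Gf zB A1 A2 D1 hS h3) zB A1 A2 :=
  lev_rg (fun _ hs => sr_hull hS h3 hs) hl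

/-- the sites below the level `A2` are in `Dw` -/
theorem gf_dw (hS : GP (A : Set ℂ)) (h3 : 3 ≤ A.card)
    (hl : ∀ s ∈ A, OnHull A s → A2 ≤ sup (s - zB)) {w : ℂ} (hw : w ∈ A)
    (h : sup (w - zB) < A2) : sr hS h3 w ∈ (Gf zB A1 A2 D1 hS h3).Dw :=
  ⟨w, hw, fun hh => absurd (hl w hw hh) (not_le.2 h), ⟨h, fun hf => hf⟩, rfl⟩

/-- **the exploration of a window (707's `rg` with the same levels) is a part**, 389's `Le` -/
theorem gf_le (hS : GP (A : Set ℂ)) (h3 : 3 ≤ A.card) {h0 : Cs hS} {D1' : ℝ} {sec : ℂ → Prop}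
    {La Lb : ℕ → D0 A} (hh : h0 = sr hS h3 (hv hS h3)) :
    Le (rg A (sr hS h3) h0 zB A1 A2 D1' sec La Lb) (Gf zB A1 A2 D1 hS h3) := by
  subst hh
  obtain ⟨e1, e2, e3, e4⟩ := le_rg (S := A) (σ := sr hS h3) (h0 := sr hS h3 (hv hS h3)) (zB := zB)
    (A1 := A1) (A2 := A2) (D1 := D1') (sec := sec) (sec' := fun _ => False) (La := La) (Lb := Lb)
    (La' := fun _ => ed hS h3) (Lb' := fun _ => ed hS h3) (fun _ h => h.elim)
  exact ⟨e1, e2, e3, e4⟩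

/-! ### the exploration -/

/-- **the revealed sites** -/
def Rf (zB : ℂ) (A1 A2 D1 : ℝ) (A β : Finset ℂ) : Finset ℂ :=
  if h : ∃ _ : GP (A : Set ℂ), 3 ≤ A.card then
    Ra (rc0 h.choose) (Gf zB A1 A2 D1 h.choose h.choose_spec) A (chiS h.choose h.choose_spec)
      (Kc h.choose h.choose_spec) β
  else ∅

theorem rf_eq (hS : GP (A : Set ℂ)) (h3 : 3 ≤ A.card) :
    Rf zB A1 A2 D1 A β =
      Ra (rc0 hS) (Gf zB A1 A2 D1 hS h3) A (chiS hS h3) (Kc hS h3) β := by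
  have h : ∃ _ : GP (A : Set ℂ), 3 ≤ A.card := ⟨hS, h3⟩
  unfold Rf
  rw [dif_pos h]

/-- **the exploration stops** -/
theorem rf_stop (zB : ℂ) (A1 A2 D1 : ℝ) (A : Finset ℂ) : IsStop A (Rf zB A1 A2 D1 A) := by
  by_cases h : ∃ _ : GP (A : Set ℂ), 3 ≤ A.card
  · obtain ⟨hS, h3⟩ := h
    have e : Rf zB A1 A2 D1 A =
        Ra (rc0 hS) (Gf zB A1 A2 D1 hS h3) A (chiS hS h3) (Kc hS h3) :=
      funext fun β => rf_eq hS h3
    rw [e]
    exact ra_stop (coins_rc hS h3) (kc_sub hS h3)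
  · have e : Rf zB A1 A2 D1 A = fun _ => ∅ := funext fun β => dif_neg h
    rw [e]
    exact ⟨fun _ _ => Finset.empty_subset _, fun _ _ _ _ _ => rfl⟩

/-- **the family form of `facts_ra`** -/
theorem facts_rf {U Bx : Set ℂ} {hS : GP (A : Set ℂ)} (h3 : 3 ≤ A.card) {u : ℂ} (hu : OnHull A u)
    {p0 : D0 A} {N : ℕ} (L : Lp0 (rc0 hS) (Gf zB A1 A2 D1 hS h3) (chiS hS h3 β) p0 N)
    (out : ∀ v ∈ A, v ∈ U → ¬ OnHull A v)
    (fac : ∀ a b c, (a, b, c) ∈ delT A →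
      (Quot.mk _ a : Quot (hullE A)) ∉ Eg (cm0 hS) (Quot.mk _ u)
        (Lf (cm0 hS) (cfg (rc0 hS) (chiS hS h3 β)) p0 N) → cdisc (a, b, c) ⊆ U)
    (box : ∀ v ∈ A, v ∈ Bx →
      (Quot.mk _ v : Quot (hullE A)) ∉ Eg (cm0 hS) (Quot.mk _ u)
        (Lf (cm0 hS) (cfg (rc0 hS) (chiS hS h3 β)) p0 N)) :
    Facts U Bx A β (Rf zB A1 A2 D1 A β)
      (Eg (cm0 hS) (Quot.mk _ u) (Lf (cm0 hS) (cfg (rc0 hS) (chiS hS h3 β)) p0 N)) := by
  rw [rf_eq hS h3]
  refine facts_ra h3 hu ?_ L out fac box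
  show (sr hS h3 (hv hS h3)).1 = _
  rw [sr_val (hv_mem hS h3)]
  exact hull_mem hS h3 hu (hv_hull hS h3)

end Crest.Agent.R143.EFamx432
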