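import Crest.Agent.R143.En12A_395
import Crest.Agent.R143.EQ5_63
import Crest.Agent.R143.B6I_903

/-!
# Row 143 (S0194), part B: the leaves `En12` and `ENB` for admissible domains (helper395)

* `en12` : `E3 → EQ5x63.En12`
* `enb` : `E3 → B6Ix903.ENB`
-/

set_option autoImplicit false

noncomputable section

namespace Crest.Agent.R143.ENBAx395

open Set MeasureTheory Filter Topology
open scoped Classical
open Crest.ProbabilityR.Voronoi
open Crest.Agent.R143.B0x346 Crest.Agent.R143.B0Dx346
open Crest.Agent.R143.Sidesx697 Crest.Agent.R143.En12Ax395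
open Crest.Agent.R143.PP1x831 (rad)

/-- **leaf En12** -/
theorem en12 (hE : E3) : EQ5x63.En12 := En12Ax395.en12 hE

/-- **leaf ENB** -/
theorem enb (hE : E3) : B6Ix903.ENB := by
  intro π δ hδ
  have hL := π.Lpos
  have hc : 0 < δ ^ 6 / (40000 * π.L ^ 5) := by positivity
  have h1 := (EQ5x63.rad_lim π.C).eventually (gt_mem_nhds hc)
  filter_upwards [h1] with ε hε D ω z hAt
  have hD := hAt.ok
  have hLD := hD.Lpos
  have hle : D.L ^ 5 ≤ π.L ^ 5 := pow_le_pow_left₀ hLD.le hAt.len 5
  have hω := hAt.good.env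
  have hr : 0 < rad π.C ε := by
    by_contra hcon
    push Not at hcon
    obtain ⟨s, -, hs⟩ := hω.hole D.c (by rw [Metric.mem_closedBall, dist_self]; linarith)
    rw [Metric.mem_ball] at hs
    have := dist_nonneg (x := s) (y := D.c)
    linarith
  refine energy_dom hE hD hω ?_ (Finset.Subset.refl _)
  rw [lt_div_iff₀ (by positivity)] at hε
  calc 40000 * D.L ^ 5 * rad π.C ε ≤ 40000 * π.L ^ 5 * rad π.C ε := by gcongr
    _ = rad π.C ε * (40000 * π.L ^ 5) := by ring
    _ ≤ δ ^ 6 := hε.le

end Crest.Agent.R143.ENBAx395
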