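import Crest.Agent.R143.Frame7_395
import Crest.Agent.R143.En12A_395
import Crest.Agent.R143.EQ5_63
import Crest.Agent.R143.B6I_903

/-!
# Row 143 (S0194), part B: the leaves `En12` and `ENB` WITHOUT E3 (helper395)

* `energy_dom` : `∑ ‖Q t‖ ^ 2 ≤ 1` for representatives, `energy_dom3` : `≤ 3`
* `en12 : EQ5x63.En12`, `enb : B6Ix903.ENB` (no hypothesis)
-/

set_option autoImplicit false

noncomputable section

namespace Crest.Agent.R143.ENBFx395

open Set MeasureTheory Filter Topology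
open scoped Classical
open Crest.ProbabilityR.Voronoi
open Crest.Agent.R143.B0x346 Crest.Agent.R143.B0Dx346
open Crest.Agent.R143.Sidesx697 Crest.Agent.R143.En12Ax395
open Crest.Agent.R143.PP1x831 (rad)

/-- energy of the network of a domain -/
theorem energy_dom {D : Dom} {δ ε d M : ℝ} {ω : Sample} (hD : D.Ad δ)
    (hω : Env ε d M D.c D.L ω) (hd : 40000 * D.L ^ 5 * d ≤ δ ^ 6)
    {U : Finset (ℂ × ℂ × ℂ)} (hU : U ⊆ delT (D.sites ε ω))
    (hrep : ∀ s ∈ U, ∀ t ∈ U, s ≠ t → t ∉ rots s) :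
    ∑ t ∈ U, ‖(D.netS (D.sites ε ω)).Q t‖ ^ 2 ≤ 1 :=
  Frame7x395.frame (dom_data hD hω hd).2.1 hU hrep

theorem energy_dom3 {D : Dom} {δ ε d M : ℝ} {ω : Sample} (hD : D.Ad δ)
    (hω : Env ε d M D.c D.L ω) (hd : 40000 * D.L ^ 5 * d ≤ δ ^ 6)
    {U : Finset (ℂ × ℂ × ℂ)} (hU : U ⊆ delT (D.sites ε ω)) :
    ∑ t ∈ U, ‖(D.netS (D.sites ε ω)).Q t‖ ^ 2 ≤ 3 :=
  Frame7x395.frame3 (dom_data hD hω hd).2.1 hU

/-- **leaf En12**, without E3 -/
theorem en12 : EQ5x63.En12 := by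
  intro D δ hD ρ _ m _
  have hL := hD.Lpos
  have hδ := hD.dpos
  refine ⟨δ ^ 6 / (40000 * D.L ^ 5), by positivity, ?_⟩
  intro ε d M ω hω _ hd z _ _ U hU
  refine (energy_dom3 hD hω ?_ hU).trans (by norm_num)
  rw [le_div_iff₀ (by positivity)] at hd
  linarith

/-- **leaf ENB**, without E3 -/
theorem enb : B6Ix903.ENB := by
  intro π δ hδ
  have hL := π.Lpos
  have hc : 0 < δ ^ 6 / (40000 * π.L ^ 5) := by positivity
  have h1 := (EQ5x63.rad_lim π.C).eventually (gt_mem_nhds hc)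
  filter_upwards [h1] with ε hε D ω z hAt
  have hD := hAt.ok
  have hLD := hD.Lpos
  have hle : D.L ^ 5 ≤ π.L ^ 5 := pow_le_pow_left₀ hLD.le hAt.len 5
  have hω := hAt.good.env
  have hr : 0 < rad π.C ε := by
    by_contra hcon
    push Not at hcon
    obtain ⟨s, -, hs⟩ := hω.hole D.c (by rw [Metric.mem_closedBall, dist_self]; linarith)
    rw [Metric.mem_ball] at hs
    have := dist_nonneg (x := s) (y := D.c)
    linarith
  refine (energy_dom3 hD hω ?_ (Finset.Subset.refl _)).trans (by norm_num)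
  rw [lt_div_iff₀ (by positivity)] at hε
  calc 40000 * D.L ^ 5 * rad π.C ε ≤ 40000 * π.L ^ 5 * rad π.C ε := by gcongr
    _ = rad π.C ε * (40000 * π.L ^ 5) := by ring
    _ ≤ δ ^ 6 := hε.le

end Crest.Agent.R143.ENBFx395
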