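import Crest.Agent.R143.Qd3_54

/-!
# Row 143 (S0194), CONT, HARM: the energy principle for curves on concentric circles (helper496)

* `epc` : 54's `epl` for curves `C ρ` (any connected subset of the circle of radius `ρ`)
-/

set_option autoImplicit false

noncomputable section

open scoped Classical

namespace Crest.Agent.R143.EPCx496

open Set
open Crest.Agent.R143.B0x346 Crest.Agent.R143.B0Dx346 Crest.Agent.R143.DelGx806
  Crest.Agent.R143.DelRx806 Crest.Agent.R143.Oscx63 Crest.Agent.R143.Rswx63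
  Crest.Agent.R143.Circx63 Crest.Agent.R143.Famx930
  Crest.Agent.R143.Crsx117 Crest.Agent.R143.JCardx872
open Crest.Agent.R143.RB2x54 (rot3 Vt vt_of_side net0)
open Crest.Agent.R143.Scalx63 (dm)
open Crest.Agent.R143.Harx315 (pr)
open Crest.Agent.R143.RE0x723 (Pth fre Crq)
open Crest.Agent.R143.JColx54 (Adj)
open Crest.Agent.R143.Qd3x54

variable {S : Finset ℂ} {n : ℕ} {w : ℤ → ℂ} {i0 i1 i2 i3 : ℤ} {B : ZMod 4 → Finset ℂ}


/-- **energy principle for curves on circles**: if the curves `C ρ` (on the circle with centre `x` and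
radius `ρ`), `ρ ∈ [r, R]`, go from the
class `0` to the class `2`, then there is a crossing with probability `≥ 1/3` -/
theorem epc (h : RE0x723.Qd S n w i0 i1 i2 i3 B) (x : ℂ) (C : ℝ → Set ℂ) {r R b C4 : ℝ} (hr : 0 < r)
    (hrR : 2 * r ≤ R) (hRb : R ≤ b) (hlog : 96 * C4 ≤ Real.log (R / r))
    (hC : ∀ ρ ∈ Icc r R, ∀ y ∈ C ρ, ‖y - x‖ = ρ) (hconn : ∀ ρ ∈ Icc r R, IsPreconnected (C ρ))
    (hcov : ∀ ρ ∈ Icc r R, ∀ y ∈ C ρ, ∃ t ∈ delT S, y ∈ cT t)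
    (hvert : ∀ ρ ∈ Icc r R, ∀ t ∈ delT S, (cT t ∩ C ρ).Nonempty →
      ∀ v, Vt t v → v ∈ B 0 ∨ v ∈ B 2 ∨ v ∈ fre S B)
    (hfst : ∀ ρ ∈ Icc r R, ∃ t ∈ delT S, (cT t ∩ C ρ).Nonempty ∧ ∃ v, Vt t v ∧ v ∈ B 0)
    (hlst : ∀ ρ ∈ Icc r R, ∃ t ∈ delT S, (cT t ∩ C ρ).Nonempty ∧ ∃ v, Vt t v ∧ v ∈ B 2)
    (hM : ∀ b' ∈ Icc r b, ∑ t ∈ (delT S).filter
      (fun t => (cT t ∩ Metric.closedBall x b').Nonempty), dm t ^ 2 ≤ C4 * b' ^ 2) :
    1 / 3 ≤ pr (fre S B) (Crq S B 0) := by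
  have O := toQd h
  have hS := O.gp
  rw [← pr_eq h]
  by_cases hadj : ∃ a ∈ B 0, ∃ b ∈ B 2, Adj S a b
  · obtain ⟨a, ha, b, hb, hab⟩ := hadj
    rw [Qd2x54.pr_one O ha hb hab]
    norm_num
  push Not at hadj
  -- representatives
  obtain ⟨U, hUT, hrep, hcovU⟩ := T6Dx697.reps (delT S)
  have hR0 : 0 < R := by linarith
  have hlogpos : 0 < Real.log (R / r) := Real.log_pos (by rw [lt_div_iff₀ hr]; linarith)
  have hIc : ∀ h ∈ Icc (Real.log r) (Real.log R), Real.exp h ∈ Icc r R := by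
    intro h hh
    exact ⟨by rw [← Real.exp_log hr]; exact Real.exp_le_exp.2 hh.1,
      by rw [← Real.exp_log hR0]; exact Real.exp_le_exp.2 hh.2⟩
  obtain ⟨J, lam, p, hG, -, hsq⟩ := Halfx930.circles U hUT x (fun h => C (Real.exp h)) hr hrR hRb
    (fun h hh y hy => hC _ (hIc h hh) y hy) hM
  have hrad : ∀ s ∈ J, Real.exp (p s) ∈ Icc r R := by
    intro s hs
    have h1 := hG.mem s hs
    exact ⟨by rw [← Real.exp_log hr]; exact Real.exp_le_exp.2 h1.1,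
      by rw [← Real.exp_log hR0]; exact Real.exp_le_exp.2 h1.2⟩
  have hmeet : ∀ s ∈ J, ∀ t ∈ s, t ∈ delT S ∧ ∃ ρ ∈ Icc r R, (cT t ∩ C ρ).Nonempty := by
    intro s hs t ht
    obtain ⟨q, hq, hm⟩ := hG.meet s hs t ht
    refine ⟨hUT (hG.sub s hs ht), Real.exp q, ⟨?_, ?_⟩, hm⟩
    · rw [← Real.exp_log hr]; exact Real.exp_le_exp.2 hq.1
    · rw [← Real.exp_log hR0]; exact Real.exp_le_exp.2 hq.2
  have hno : ∀ s ∈ J, ∀ t ∈ s, ∀ v v', Vt t v → Vt t v' → v ∈ cs B 0 → v' ∉ cs B 2 := by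
    intro s hs t ht v v' hv hv' h1 h2
    have hne : v ≠ v' := by
      rintro rfl
      exact absurd (O.uniq h1 h2) (by decide)
    exact hadj v h1 v' h2 (Qd2x54.adj_of_vt hS (hmeet s hs t ht).1 hv hv' hne)
  have side_at : ∀ t : ℂ × ℂ × ℂ, ∀ v, Vt t v → ∃ e, LSide (net0 O.N) t e ∧ e.1 = v := by
    rintro ⟨a, b, c⟩ v hv
    rcases hv with h | h | h
    · exact ⟨(a, b), ⟨fun h => h, Or.inl rfl⟩, h.symm⟩
    · exact ⟨(b, c), ⟨fun h => h, Or.inr (Or.inl rfl)⟩, h.symm⟩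
    · exact ⟨(c, a), ⟨fun h => h, Or.inr (Or.inr (Or.inl rfl))⟩, h.symm⟩
  have hmain := Qd2x54.ep_gen O (U := U) hUT hrep
    hG.nn hG.sum hG.sub ?_ hno ?_
  · have h1 : Real.sqrt (∑ t ∈ U, cw J lam (fun s => s) t ^ 2) ≤ 1 / 2 := by
      rw [show (1 / 2 : ℝ) = Real.sqrt (1 / 4) by
        rw [show (1 / 4 : ℝ) = (1 / 2) ^ 2 by norm_num, Real.sqrt_sq (by norm_num)]]
      apply Real.sqrt_le_sqrt
      refine hsq.trans ?_
      rw [div_le_iff₀ hlogpos]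
      linarith
    have h3 : Real.sqrt 3 * Real.sqrt 3 = 3 := Real.mul_self_sqrt (by norm_num)
    have h3p : 0 < Real.sqrt 3 := Real.sqrt_pos.2 (by norm_num)
    have h3l : Real.sqrt 3 ≤ 9 / 5 := by
      rw [Real.sqrt_le_left (by norm_num)]; norm_num
    set P := Qdx54.Qd.pr S (fre S B) (cs B) 0 with hP
    have h2 : 3 / 2 ≤ Real.sqrt 3 * P + Real.sqrt 3 * (1 / 2) := by
      have := mul_le_mul_of_nonneg_left h1 h3p.le
      linarith
    by_contra hcon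
    push Not at hcon
    have h4 : Real.sqrt 3 * P < Real.sqrt 3 * (1 / 3) := mul_lt_mul_of_pos_left hcon h3p
    nlinarith
  · intro s hs t ht v hv
    obtain ⟨h1, ρ, h2, h3⟩ := hmeet s hs t ht
    rcases hvert ρ h2 t h1 h3 v hv with h4 | h4 | h4
    · exact Or.inl h4
    · exact Or.inr (Or.inl h4)
    · exact Or.inr (Or.inr h4)
  · intro s hs
    obtain ⟨t1, ht1, hm1, v1, hv1, hv1c⟩ := hfst _ (hrad s hs)
    obtain ⟨t2, ht2, hm2, v2, hv2, hv2c⟩ := hlst _ (hrad s hs)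
    have hAc : ∀ t ∈ delT S, (cT t ∩ C (Real.exp (p s))).Nonempty →
        ∃ t' ∈ s, t' ∈ rots t := by
      intro t ht hm
      obtain ⟨t', ht', hr'⟩ := hcovU t ht
      refine ⟨t', hG.hit s hs t' ht' ?_, hr'⟩
      show (cT t' ∩ C (Real.exp (p s))).Nonempty
      rwa [cT_rots hr']
    -- the first triangle in `s`
    obtain ⟨t1', ht1', hr1⟩ := hAc t1 ht1 hm1
    have hv1' : Vt t1' v1 := cT_vt hr1 hv1
    have ht1S : t1' ∈ delT S := (hmeet s hs t1' ht1').1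
    have hm1' : (cT t1' ∩ C (Real.exp (p s))).Nonempty := by rwa [cT_rots hr1]
    obtain ⟨g, hg1, hg2⟩ := side_at t1' v1 hv1'
    obtain ⟨g', hg1', hg2'⟩ := side_at t2 v2 hv2
    refine ⟨g, g', ?_, Or.inl (by rw [hg2]; exact hv1c), Or.inl (by rw [hg2']; exact hv2c),
      t1', ht1', hg1⟩
    exact conn_all (N := net0 O.N) hS (hconn _ (hrad s hs)) (hcov _ (hrad s hs)) (hG.off s hs)
      (fun _ _ _ _ _ _ _ h => h) hAc ht1S hm1' ht2 hm2 hg1 hg1'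


end Crest.Agent.R143.EPCx496
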