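import Crest.Agent.R143.Gauge3_950

/-!
# Row 143 (S0194), block X, GAUGE part 4 (helper950): tubes and axes

* `Bt` : sites of a tube; `tube_cn` : the tip triangle and the port triangle are connected by edges
  at the sites of the tube
* `axis_fun` : the part of an axis between two heights as a mod 2 function
-/

set_option autoImplicit false

noncomputable section

open scoped Classical

namespace Crest.Agent.R143.Gax950

open Crest.Agent.R143.B0x346 Crest.Agent.R143.DelGx806 Crest.Agent.R143.DelRx806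
open Crest.Agent.R143.JColx54 Crest.Agent.R143.JCol2x54 Crest.Agent.R143.Planarx54
open Crest.Agent.R143.Planar2x54 Crest.Agent.R143.ToolWx838
open Crest.Agent.R143.X0Bx683 Crest.Agent.R143.JCardx872 Crest.Agent.R143.JWalkx872
open Crest.Agent.R143.Circx63 Crest.Agent.R143.XLegx126 Crest.Agent.R143.Gatex838
open Crest.Agent.R143.RB0x838 Crest.Agent.R143.CircPx838 Crest.Agent.R143.XDx697

variable {S : Finset ℂ} {z0 e : ℂ} {c y R1 d ρ : ℝ} {W : Set ℂ} {h : ℝ} {n : ℕ} {l : ℕ → ℂ}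
  {th : ℕ → ℝ}

/-- sites of a tube -/
def Bt (S : Finset ℂ) (W : Set ℂ) (h : ℝ) (n : ℕ) (l : ℕ → ℂ) : Set ℂ :=
  {s | s ∈ S ∧ s ∈ W ∧ ∃ k ≤ n, ‖s - l k‖ ≤ 5 / 8 * h}

theorem ns (x y : ℂ) : ‖x - y‖ = ‖y - x‖ := norm_sub_rev x y

theorem tr (x y z : ℂ) : ‖x - z‖ ≤ ‖x - y‖ + ‖y - z‖ := norm_sub_le_norm_sub_add_norm_sub x y z

/-- a nearest site -/
theorem exists_near (hD : LDns S z0 R1 d) {p : ℂ} (hp : ‖p - z0‖ ≤ R1) :
    ∃ w ∈ S, (∀ s ∈ S, ‖p - w‖ ≤ ‖p - s‖) ∧ ‖p - w‖ < d := by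
  obtain ⟨s, hs, hsd⟩ := hD.hole p hp
  obtain ⟨w, hw, hmin⟩ := S.exists_min_image (fun s => ‖p - s‖) ⟨s, hs⟩
  exact ⟨w, hw, hmin, lt_of_le_of_lt (hmin s hs) (by rw [ns]; exact hsd)⟩

/-- **the tube connects the tip triangle and the port triangle** -/
theorem tube_cn (hD : LDns S z0 R1 d) (T : Tube W z0 h n l th)
    (hd : 64 * d ≤ h) (hρ : ρ + h + d ≤ R1) (hl : ∀ k ≤ n, ‖l k - z0‖ ≤ ρ)
    (hend : ∀ s, ‖s - l n‖ ≤ h / 8 → s ∈ W) (h0S : l 0 ∈ S) (h0W : l 0 ∈ W)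
    {t t' : ℂ × ℂ × ℂ} (ht : t ∈ delT S) (ht' : t' ∈ delT S) (htv : Vtx (l 0) t) {v : ℂ}
    (hv : Vtx v t') (hvn : ‖v - l n‖ ≤ h / 24) : Cn S (Bt S W h n l) t t' := by
  have hdp := hD.dpos
  have hS := hD.gp
  have hh : 0 < h := by linarith
  have hH := XFx903.hol_ldns hD (ρ := ρ + h) (by linarith)
  have hρ0 : 0 ≤ ρ := (norm_nonneg _).trans (hl 0 (Nat.zero_le _))
  have h3 : 3 ≤ S.card := Locx922.three_le hdp hH (w := z0) (by
    rw [Metric.mem_closedBall, dist_self]; linarith)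
  have hin : ∀ v ∈ Bt S W h n l, ∀ a, ¬ hullE S a v := by
    rintro v ⟨-, -, k, hk, hv⟩ a
    refine (Locx922.not_hull hdp hH (a := v) ?_ a).2
    rw [Metric.mem_closedBall, dist_eq_norm]
    have := tr v (l k) z0
    have := hl k hk
    linarith
  -- the sites next to the points of the tube
  have key : ∀ k, k ≤ n → ∀ w ∈ S, (∀ s ∈ S, ‖l k - w‖ ≤ ‖l k - s‖) →
      w ∈ Bt S W h n l ∧ ∀ t' ∈ delT S, Vtx w t' → Cn S (Bt S W h n l) t t' := by
    intro k
    induction k with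
    | zero =>
      intro _ w hw hmin
      have h1 := hmin _ h0S
      rw [sub_self, norm_zero] at h1
      have h2 : w = l 0 := (sub_eq_zero.1 (norm_le_zero_iff.1 h1)).symm
      subst h2
      have hB : l 0 ∈ Bt S W h n l := ⟨h0S, h0W, 0, Nat.zero_le _, by
        rw [sub_self, norm_zero]; positivity⟩
      exact ⟨hB, fun t' ht' hv => Cn.vtx hS (hin _ hB) hB ht ht' htv hv⟩
    | succ k ih =>
      intro hk w hw hmin
      obtain ⟨u, hu, hmin', hud⟩ := exists_near hD (p := l k) ((hl k (by omega)).trans (by linarith))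
      obtain ⟨hB, hc⟩ := ih (by omega) u hu hmin'
      obtain ⟨s, hs, hsv⟩ : ∃ s ∈ delT S, Vtx u s := by
        obtain ⟨x, hx⟩ := exists_tri_at hS h3 hu
        obtain ⟨z, hz⟩ := mem_nbs.1 hx
        exact ⟨_, hz, Or.inl rfl⟩
      have hg := greedy hS h3 hu hw hmin
      have hstep := T.step k (by omega)
      have hchain : Relation.ReflTransGen (fun x y => Adj S x y ∧ y ∈ Bt S W h n l) u w := by
        refine Relation.ReflTransGen.mono (fun a b hab => ⟨hab.1, hab.1.mem.2, ?_, k + 1, hk, ?_⟩)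
          _ _ hg
        · rcases Nat.eq_zero_or_pos k with h0 | h0
          · subst h0
            apply T.fst
            rw [Metric.mem_closedBall, dist_eq_norm]
            have h1 := hmin' _ h0S
            rw [sub_self, norm_zero] at h1
            have h2 : u = l 0 := (sub_eq_zero.1 (norm_le_zero_iff.1 h1)).symm
            have := hab.2
            rw [h2, ns (l 0)] at this
            exact this
          · apply T.dep k h0 (by omega)
            rw [Metric.mem_closedBall, dist_eq_norm]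
            have h1 := tr u (l k) (l (k + 1))
            have h2 := hab.2
            rw [ns u (l k), ns (l k) (l (k + 1))] at h1
            linarith
        · have h1 := tr u (l k) (l (k + 1))
          have h2 := hab.2
          rw [ns u (l k), ns (l k) (l (k + 1))] at h1
          linarith
      obtain ⟨h1, h2⟩ := Cn.chain hS hin hB hchain hs hsv
      exact ⟨h1, fun t' ht' hv => (hc s hs hsv).trans (h2 t' ht' hv)⟩
  -- the end
  obtain ⟨w, hw, hmin, hwd⟩ := exists_near hD (p := l n) ((hl n le_rfl).trans (by linarith))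
  obtain ⟨hB, hc⟩ := key n le_rfl w hw hmin
  obtain ⟨s, hs, hsv⟩ : ∃ s ∈ delT S, Vtx w s := by
    obtain ⟨x, hx⟩ := exists_tri_at hS h3 hw
    obtain ⟨z, hz⟩ := mem_nbs.1 hx
    exact ⟨_, hz, Or.inl rfl⟩
  have hvS : v ∈ S := by
    obtain ⟨a, b, h1, -⟩ := hv.rot hS ht'
    exact (adj_tri h1).mem.1
  have hg := greedy hS h3 (y := v) hw hvS (fun s _ => by
    rw [sub_self, norm_zero]; exact norm_nonneg _)
  have hwv := tr w (l n) v
  rw [ns w (l n), ns (l n) v] at hwv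
  have hchain : Relation.ReflTransGen (fun x y => Adj S x y ∧ y ∈ Bt S W h n l) w v := by
    refine Relation.ReflTransGen.mono (fun a b hab => ?_) _ _ hg
    have h1 := tr b v (l n)
    have h2 := hab.2
    exact ⟨hab.1, hab.1.mem.2, hend b (by linarith), n, le_rfl, by linarith⟩
  obtain ⟨-, h2⟩ := Cn.chain hS hin hB hchain hs hsv
  exact (hc s hs hsv).trans (h2 t' ht' hv)

theorem sup_le_norm (z : ℂ) : sup z ≤ ‖z‖ := max_le (Complex.abs_re_le_norm z) (Complex.abs_im_le_norm z)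

/-- the middle of a short edge -/
theorem mid_sub (a b x : ℂ) : ‖mid (a, b) - x‖ ≤ ‖a - x‖ + ‖b - a‖ / 2 := by
  have : mid (a, b) - x = (a - x) + (b - a) / 2 := by unfold mid; simp only; ring
  rw [this]
  refine (norm_add_le _ _).trans ?_
  rw [norm_div, Complex.norm_ofNat]

/-- an edge of the tube is near a point of the tube -/
theorem bt_mid (hD : LDns S z0 R1 d) (hd : 64 * d ≤ h) (hρ : ρ + h + d ≤ R1)
    (hl : ∀ k ≤ n, ‖l k - z0‖ ≤ ρ) {a b : ℂ} (hab : Adj S a b)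
    (hB : a ∈ Bt S W h n l ∨ b ∈ Bt S W h n l) :
    ∃ k ≤ n, sup (mid (a, b) - l k) ≤ 3 / 4 * h := by
  have key : ∀ {a b : ℂ}, Adj S a b → a ∈ Bt S W h n l →
      ∃ k ≤ n, sup (mid (a, b) - l k) ≤ 3 / 4 * h := by
    rintro a b hab ⟨-, -, k, hk, ha⟩
    have hdp := hD.dpos
    refine ⟨k, hk, (sup_le_norm _).trans ((mid_sub a b (l k)).trans ?_)⟩
    have h1 := adj_len (ρ := ρ + h) hD (by linarith) hab (by
      have := tr a (l k) z0
      have := hl k hk
      linarith)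
    linarith
  rcases hB with hB | hB
  · exact key hab hB
  · obtain ⟨k, hk, h1⟩ := key hab.symm hB
    refine ⟨k, hk, ?_⟩
    have : mid (a, b) = mid (b, a) := by unfold mid; simp only; ring
    rw [this]
    exact h1

/-! ### rays -/

theorem norm_pnt (he : ‖e‖ = 1) (c y : ℝ) : ‖pnt z0 e c y - z0‖ ≤ |c| + |y| := by
  unfold pnt
  rw [add_sub_cancel_left, norm_mul, he, one_mul]
  exact Complex.norm_le_abs_re_add_abs_im _

theorem pnt_sub (he : ‖e‖ = 1) (c y c' y' : ℝ) :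
    ‖pnt z0 e c y - pnt z0 e c' y'‖ ≤ |c - c'| + |y - y'| := by
  have : pnt z0 e c y - pnt z0 e c' y' = e * (⟨c - c', y - y'⟩ : ℂ) := by
    unfold pnt
    have : (⟨c - c', y - y'⟩ : ℂ) = (⟨c, y⟩ : ℂ) - ⟨c', y'⟩ := by
      apply Complex.ext <;> simp
    rw [this]; ring
  rw [this, norm_mul, he, one_mul]
  exact Complex.norm_le_abs_re_add_abs_im _

/-- **the start of a ray** -/
theorem ray_exists (hD : LDns S z0 R1 d) (he : ‖e‖ = 1) (hc : |c| ≤ d)
    (hne : ∀ s ∈ S, X z0 e s ≠ c) {y1 y2 : ℝ} (h0 : 0 ≤ y1) (hy : y1 < y2)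
    (hR : y2 + 2 * d ≤ R1) :
    ∃ y, y1 < y ∧ y < y2 ∧ ∃ t ∈ delT S, (∀ v, Vtx v t → ‖v - pnt z0 e c y‖ < 2 * d) ∧
      ∀ a b z, (a, b, z) ∈ delT S → ds (Hx z0 e c (pnt z0 e c y)) a b z = it t (a, b, z) := by
  obtain ⟨y, hy1, hy2, hg⟩ := exists_gen he hne hy
  have hdp := hD.dpos
  obtain ⟨t, ht, hin, hv⟩ := exists_in (ρ := y2 + d) hD (by linarith) hg (by
    have := norm_pnt (z0 := z0) he c y
    rw [abs_of_nonneg (a := y) (by linarith)] at this
    linarith)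
  refine ⟨y, hy1, hy2, t, ht, hv, fun a b z h => ?_⟩
  rw [H_ds hg h, it_of_in hD.gp ht hin h]

/-- the difference of two rays of the same line -/
def ax (z0 e : ℂ) (c y y' : ℝ) (a b : ℂ) : ZMod 2 :=
  Hx z0 e c (pnt z0 e c y) a b + Hx z0 e c (pnt z0 e c y') a b

theorem ax_symm (z0 e : ℂ) (c y y' : ℝ) (a b : ℂ) : ax z0 e c y y' b a = ax z0 e c y y' a b := by
  unfold ax
  rw [Hx_symm (pnt z0 e c y) a b, Hx_symm (pnt z0 e c y') a b]

/-- a nonzero value: the edge crosses the line between the two heights -/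
theorem ax_ne (he : ‖e‖ = 1) (hne : ∀ s ∈ S, X z0 e s ≠ c ∧ (c < X z0 e s ↔ 0 ≤ X z0 e s))
    {y y' : ℝ} (hy : y < y') {a b : ℂ} (ha : a ∈ S) (hb : b ∈ S) (h : ax z0 e c y y' a b ≠ 0) :
    ¬ (0 ≤ X z0 e a ↔ 0 ≤ X z0 e b) ∧
      ∃ y0, y < y0 ∧ y0 ≤ y' ∧ pnt z0 e c y0 ∈ segment ℝ a b := by
  have he0 : e ≠ 0 := by
    intro h
    rw [h, norm_zero] at he
    exact zero_ne_one he
  have hne' : ∀ s ∈ S, X z0 e s ≠ c := fun s hs => (hne s hs).1
  have hsg : ¬ (0 ≤ X z0 e a ↔ 0 ≤ X z0 e b) := by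
    intro hs
    rw [← (hne a ha).2, ← (hne b hb).2] at hs
    apply h
    unfold ax
    rw [Hx_zero hne' ha hb hs, Hx_zero hne' ha hb hs, add_zero]
  refine ⟨hsg, ?_⟩
  rw [← (hne a ha).2, ← (hne b hb).2] at hsg
  obtain ⟨y0, hy0, hx⟩ := exists_cross' he hne' ha hb hsg
  have h1 := hx (pnt z0 e c y) (X_pnt he0)
  have h2 := hx (pnt z0 e c y') (X_pnt he0)
  rw [Y_pnt he0] at h1 h2
  unfold ax at h
  refine ⟨y0, ?_, ?_, hy0⟩
  · by_contra hcon
    have g1 : Hx z0 e c (pnt z0 e c y) a b = 0 := (z2 _).resolve_right fun g => hcon (h1.1 g)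
    have g2 : Hx z0 e c (pnt z0 e c y') a b = 0 := (z2 _).resolve_right fun g => by
      have := h2.1 g
      linarith
    rw [g1, g2, add_zero] at h
    exact h rfl
  · by_contra hcon
    push Not at hcon
    rw [h1.2 (by linarith), h2.2 hcon] at h
    exact h (by decide)

/-- an edge which crosses the line between the two heights -/
theorem ax_one (he : ‖e‖ = 1) (hne : ∀ s ∈ S, X z0 e s ≠ c ∧ (c < X z0 e s ↔ 0 ≤ X z0 e s))
    {y y' : ℝ} {a b : ℂ} (ha : a ∈ S) (hb : b ∈ S)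
    (hsg : ¬ (0 ≤ X z0 e a ↔ 0 ≤ X z0 e b))
    (h : ∀ y0, pnt z0 e c y0 ∈ segment ℝ a b → y < y0 ∧ y0 ≤ y') : ax z0 e c y y' a b ≠ 0 := by
  have he0 : e ≠ 0 := by
    intro h
    rw [h, norm_zero] at he
    exact zero_ne_one he
  have hne' : ∀ s ∈ S, X z0 e s ≠ c := fun s hs => (hne s hs).1
  rw [← (hne a ha).2, ← (hne b hb).2] at hsg
  obtain ⟨y0, hy0, hx⟩ := exists_cross' he hne' ha hb hsg
  have h1 := hx (pnt z0 e c y) (X_pnt he0)
  have h2 := hx (pnt z0 e c y') (X_pnt he0)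
  rw [Y_pnt he0] at h1 h2
  obtain ⟨h3, h4⟩ := h y0 hy0
  unfold ax
  have g2 : Hx z0 e c (pnt z0 e c y') a b = 0 := (z2 _).resolve_right fun g => by
    have := h2.1 g
    linarith
  rw [h1.2 h3, g2]
  decide

/-! ### the three axes -/

theorem X_e0 (z0 s : ℂ) : X z0 (ed 0) s = -(s - z0).im := by
  unfold X ed
  have : (s - z0) / (-Complex.I * Complex.I ^ (0 : ZMod 3).val) = Complex.I * (s - z0) := by
    rw [show (0 : ZMod 3).val = 0 from rfl, pow_zero, mul_one, div_eq_iff (by simp)]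
    linear_combination (s - z0) * Complex.I_sq
  rw [this]; simp

theorem Y_e0 (z0 s : ℂ) : Y z0 (ed 0) s = (s - z0).re := by
  unfold Y ed
  have : (s - z0) / (-Complex.I * Complex.I ^ (0 : ZMod 3).val) = Complex.I * (s - z0) := by
    rw [show (0 : ZMod 3).val = 0 from rfl, pow_zero, mul_one, div_eq_iff (by simp)]
    linear_combination (s - z0) * Complex.I_sq
  rw [this]; simp

theorem ed1 : ed 1 = 1 := by
  unfold ed
  rw [show (1 : ZMod 3).val = 1 from rfl, pow_one, neg_mul, Complex.I_mul_I, neg_neg]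

theorem ed2 : ed 2 = Complex.I := by
  unfold ed
  rw [show (2 : ZMod 3).val = 2 from rfl, Complex.I_sq]
  ring

theorem X_e1 (z0 s : ℂ) : X z0 (ed 1) s = (s - z0).re := by
  unfold X
  rw [ed1, div_one]

theorem Y_e1 (z0 s : ℂ) : Y z0 (ed 1) s = (s - z0).im := by
  unfold Y
  rw [ed1, div_one]

theorem X_e2 (z0 s : ℂ) : X z0 (ed 2) s = (s - z0).im := by
  unfold X
  rw [ed2, Complex.div_I]
  simp

theorem Y_e2 (z0 s : ℂ) : Y z0 (ed 2) s = -(s - z0).re := by
  unfold Y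
  rw [ed2, Complex.div_I]
  simp

theorem norm_ed (k : ZMod 3) : ‖ed k‖ = 1 := by
  unfold ed
  rw [norm_mul, norm_pow, norm_neg, Complex.norm_I, one_pow, one_mul]

theorem port_eq (z0 : ℂ) (y : ℝ) (k : ZMod 3) : port z0 y k = pnt z0 (ed k) 0 y := by
  unfold port pnt ed
  have : (⟨0, y⟩ : ℂ) = (y : ℂ) * Complex.I := by
    apply Complex.ext <;> simp
  rw [this]
  linear_combination ((y : ℂ) * Complex.I ^ k.val) * Complex.I_sq

theorem abs_X (he : ‖e‖ = 1) (s t : ℂ) : |X z0 e s - X z0 e t| ≤ ‖s - t‖ := by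
  have h1 : X z0 e s - X z0 e t = ((s - t) / e).re := by
    unfold X
    rw [← Complex.sub_re]
    congr 1
    ring
  rw [h1]
  refine (Complex.abs_re_le_norm _).trans ?_
  rw [norm_div, he, div_one]

theorem abs_Y (he : ‖e‖ = 1) (s t : ℂ) : |Y z0 e s - Y z0 e t| ≤ ‖s - t‖ := by
  have h1 : Y z0 e s - Y z0 e t = ((s - t) / e).im := by
    unfold Y
    rw [← Complex.sub_im]
    congr 1
    ring
  rw [h1]
  refine (Complex.abs_im_le_norm _).trans ?_
  rw [norm_div, he, div_one]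

theorem norm_XY (he : ‖e‖ = 1) (s : ℂ) : ‖s - z0‖ ≤ |X z0 e s| + |Y z0 e s| := by
  have h1 : ‖s - z0‖ = ‖(s - z0) / e‖ := by rw [norm_div, he, div_one]
  rw [h1]
  exact Complex.norm_le_abs_re_add_abs_im _

theorem Y_le_norm (he : ‖e‖ = 1) (s : ℂ) : |Y z0 e s| ≤ ‖s - z0‖ := by
  have h1 : ‖s - z0‖ = ‖(s - z0) / e‖ := by rw [norm_div, he, div_one]
  rw [h1]
  exact Complex.abs_im_le_norm _

theorem X_le_norm (he : ‖e‖ = 1) (s : ℂ) : |X z0 e s| ≤ ‖s - z0‖ := by
  have h1 : ‖s - z0‖ = ‖(s - z0) / e‖ := by rw [norm_div, he, div_one]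
  rw [h1]
  exact Complex.abs_re_le_norm _

/-- two ends on different sides: the first coordinate is small -/
theorem X_small (he : ‖e‖ = 1) {a b : ℂ} (h : ¬ (0 ≤ X z0 e a ↔ 0 ≤ X z0 e b)) :
    |X z0 e a| ≤ ‖b - a‖ := by
  have h1 := abs_X (z0 := z0) he b a
  rw [abs_le] at h1 ⊢
  by_cases h2 : 0 ≤ X z0 e a
  · have h3 : X z0 e b < 0 := by
      by_contra hcon
      push Not at hcon
      exact h ⟨fun _ => hcon, fun _ => h2⟩
    constructor <;> linarith
  · push Not at h2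
    have h3 : 0 ≤ X z0 e b := by
      by_contra hcon
      push Not at hcon
      exact h ⟨fun h' => by linarith, fun h' => by linarith⟩
    constructor <;> linarith

/-- a short edge far from `z0` crosses at most one axis -/
theorem ax_excl {a b : ℂ} {d q : ℝ} (hd : ‖b - a‖ ≤ 2 * d) (hq : 16 * d ≤ q)
    (hq0 : 0 < q) (ha : q ≤ ‖a - z0‖)
    {k k' : ZMod 3} (h1 : 0 < Y z0 (ed k) (mid (a, b)))
    (h2 : ¬ (0 ≤ X z0 (ed k) a ↔ 0 ≤ X z0 (ed k) b))
    (h1' : 0 < Y z0 (ed k') (mid (a, b)))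
    (h2' : ¬ (0 ≤ X z0 (ed k') a ↔ 0 ≤ X z0 (ed k') b)) : k = k' := by
  have s1 := X_small (norm_ed k) h2
  have s2 := X_small (norm_ed k') h2'
  have m1 := abs_Y (z0 := z0) (norm_ed k) (mid (a, b)) a
  have m2 := abs_Y (z0 := z0) (norm_ed k') (mid (a, b)) a
  have hm : ‖mid (a, b) - a‖ ≤ d := by
    have := mid_sub a b a
    rw [sub_self, norm_zero] at this
    linarith
  have n1 := norm_XY (z0 := z0) (norm_ed k) a
  have n2 := norm_XY (z0 := z0) (norm_ed k') a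
  have z3 : ∀ i : ZMod 3, i = 0 ∨ i = 1 ∨ i = 2 := by decide
  rcases z3 k with rfl | rfl | rfl <;> rcases z3 k' with rfl | rfl | rfl <;>
    first
      | rfl
      | exfalso
        simp only [X_e0, X_e1, X_e2, Y_e0, Y_e1, Y_e2, abs_neg] at s1 s2 m1 m2 n1 n2 h1 h1'
        rw [abs_le] at m1 m2
        rcases abs_cases (a - z0).re with ⟨e1, -⟩ | ⟨e1, -⟩ <;>
          rcases abs_cases (a - z0).im with ⟨e2, -⟩ | ⟨e2, -⟩ <;>
          rw [e1, e2] at n1 <;> rw [e1] at * <;> rw [e2] at * <;> linarith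

end Crest.Agent.R143.Gax950
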