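import Crest.Agent.R143.XV5_796

/-!
# Row 143, block X: three gates in one annulus, existence of the loop (helper796)

`hasG` : the colours `VP` and a join of the form `JF` have a loop with three gates
-/

set_option autoImplicit false

noncomputable section

open scoped Classical

namespace Crest.Agent.R143.XV6x796

open Crest.Agent.R143.B0x346 Crest.Agent.R143.DelGx806 Crest.Agent.R143.DelRx806
open Crest.Agent.R143.ToolWx838 Crest.Agent.R143.Blkx838 Crest.Agent.R143.ToolW2x838
open Crest.Agent.R143.ToolW3x838 Crest.Agent.R143.Circ4x838 Crest.Agent.R143.Harx315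
open Crest.Agent.R143.RB0x838 Crest.Agent.R143.CircPx838 Crest.Agent.R143.Gatex838
open Crest.Agent.R143.X0Bx683
open Crest.Agent.R143.XDx697 (AxE)
open Crest.Agent.R143.XV1x796 Crest.Agent.R143.XV2x796 Crest.Agent.R143.XV3x796
open Crest.Agent.R143.XG3x796 Crest.Agent.R143.XV5x796

variable {S V : Finset ℂ} {z0 : ℂ} {q : ℝ} {β : Finset ℂ} {J : Finset (ℂ × ℂ)}

theorem pass_bx {c a : ℂ} {k : ℕ} {g : ℂ × ℂ} {Pa Pb : List ℂ} (hq : 0 < q)
    (h : Pass S z0 q J k c a g Pa Pb) : Bx z0 q k g.1 ∧ Bx z0 q k g.2 := by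
  obtain ⟨⟨a1, a2, a3, a4⟩, b1, b2, b3, b4⟩ := h.pos
  refine ⟨⟨?_, by linarith, by linarith⟩, ?_, by linarith, by linarith⟩
  · rw [abs_le]; constructor <;> linarith
  · rw [abs_le]; constructor <;> linarith

theorem mem_pass {c a : ℂ} {k : ℕ} {g : ℂ × ℂ} {Pa Pb : List ℂ} (h : Pass S z0 q J k c a g Pa Pb)
    {p : ℂ × ℂ} : p ∈ prs (Pa ++ Pb) ↔ p ∈ prs Pa ∨ p = g ∨ p ∈ prs Pb := by
  rw [prs_pass h, List.mem_append, List.mem_cons]

theorem mem_cat_left {l m : List ℂ} {s : ℂ} (h : s ∈ l) : s ∈ cat l m := List.mem_append_left _ h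

theorem mem_cat_right {l m : List ℂ} {b s : ℂ} (h1 : l.getLast? = some b) (h2 : m.head? = some b)
    (h : s ∈ m) : s ∈ cat l m := by
  rw [cat_eq h1 h2]
  exact List.mem_append_right _ h

/-- **existence of the loop with three gates** -/
theorem g3_exists (hq : 0 < q) (hS : GP (S : Set ℂ)) (hβ : β ⊆ A1 S z0 q) (hJ : JF S z0 q J β)
    (hV : VP S (A1 S z0 q) z0 q (Dax S z0 q) β) : ∃ c gt, G3E S z0 q J c gt := by
  obtain ⟨l0, hl0⟩ := hV.arms.al 0 (by norm_num)
  obtain ⟨l1, hl1⟩ := hV.arms.al 1 (by norm_num)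
  obtain ⟨l2, hl2⟩ := hV.arms.al 2 (by norm_num)
  obtain ⟨r0, hr0⟩ := hV.arms.ar 0 (by norm_num)
  obtain ⟨r1, hr1⟩ := hV.arms.ar 1 (by norm_num)
  obtain ⟨r2, hr2⟩ := hV.arms.ar 2 (by norm_num)
  obtain ⟨bb, hbb⟩ := hV.arms.ab
  obtain ⟨s1, s1a, s1b⟩ := corner (k := 0) hq hS hl0 (by linarith) hr1 (by linarith)
  obtain ⟨s2, s2a, s2b⟩ := corner (k := 1) hq hS hl1 (by linarith) hr2 (by linarith)
  obtain ⟨s3, s3a, s3b⟩ := corner (k := 2) hq hS hl2 (by linarith) hbb (by linarith)
  have hr0' : HC S z0 (ed (3 + 1)) (6 * q) (111 * q) (107 * q) (111 * q) (2 * q) β r0 := by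
    have e : ed (3 + 1) = ed 0 := by
      have := ed_four 0
      rw [zero_add] at this
      exact this
    rw [e]
    exact hr0
  obtain ⟨s4, s4a, s4b⟩ := corner (k := 3) hq hS hbb (by linarith) hr0' (by linarith)
  -- the three passages
  have hp : ∀ k < 3, ∃ g Pa Pb, Pass S z0 q J k (if k = 0 then s4 else if k = 1 then s1 else s2)
      (if k = 0 then s1 else if k = 1 then s2 else s3) g Pa Pb := by
    intro k hk
    interval_cases k
    · exact pass hq hS hβ hJ (by norm_num) (hV.gate 0 (by norm_num)) hl0 hr0 s1a s4b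
    · exact pass hq hS hβ hJ (by norm_num) (hV.gate 1 (by norm_num)) hl1 hr1 s2a s1b
    · exact pass hq hS hβ hJ (by norm_num) (hV.gate 2 (by norm_num)) hl2 hr2 s3a s2b
  choose! g Pa Pb hp using hp
  have p0 := hp 0 (by norm_num)
  have p1 := hp 1 (by norm_num)
  have p2 := hp 2 (by norm_num)
  simp only [if_true, one_ne_zero, if_false, OfNat.ofNat_ne_zero, OfNat.ofNat_ne_one] at p0 p1 p2
  -- the bottom
  obtain ⟨mB, kB⟩ := Cn.sub (S := S) (J := J) (Q := fun s => s ∈ A1 S z0 q ∧
    102 * q < Y z0 (ed 3) s ∧ Y z0 (ed 3) s < 141 * q) s3b s4a hbb.adj (by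
      intro p hp
      have i1 := (mem_of_prs hp).1
      have i2 := (mem_of_prs hp).2
      have y1 := hbb.strip _ i1
      have y2 := hbb.strip _ i2
      exact ⟨jf_free hJ (hbb.adj p hp) (hβ (hbb.col _ i1)) (hβ (hbb.col _ i2))
        (axe_bot (by linarith) (by linarith)) (hbb.col _ i1) (hbb.col _ i2),
        jf_free (p := p.swap) hJ (hbb.adj p hp).symm (hβ (hbb.col _ i2)) (hβ (hbb.col _ i1))
        (axe_bot (p := p.swap) (by change 0 < Y z0 (ed 3) p.2; linarith)
          (by change 0 < Y z0 (ed 3) p.1; linarith)) (hbb.col _ i2) (hbb.col _ i1)⟩) (fun s hs => by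
      have h1 := hbb.strip s hs
      exact ⟨hβ (hbb.col s hs), by linarith, by linarith⟩)
  set F : ℕ → List ℂ := fun k => Pa k ++ Pb k with hF
  have F1h : (F 1).head? = some s1 := pass_head p1
  have F1l : (F 1).getLast? = some s2 := pass_last p1
  have F2h : (F 2).head? = some s2 := pass_head p2
  have F2l : (F 2).getLast? = some s3 := pass_last p2
  have F0h : (F 0).head? = some s4 := pass_head p0
  have F0l : (F 0).getLast? = some s1 := pass_last p0
  have n1 : F 1 ≠ [] := by intro h; rw [h] at F1h; simp at F1h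
  have e2 : (cat (F 1) (F 2)).getLast? = some s3 := by rw [cat_last F1l F2h]; exact F2l
  have n2 : cat (F 1) (F 2) ≠ [] := by intro h; rw [h] at e2; simp at e2
  have e3 : (cat (cat (F 1) (F 2)) mB).getLast? = some s4 := by
    rw [cat_last e2 kB.head]; exact kB.last
  have n3 : cat (cat (F 1) (F 2)) mB ≠ [] := by intro h; rw [h] at e3; simp at e3
  set c : List ℂ := cat (cat (cat (F 1) (F 2)) mB) (F 0) with hc
  have hprs : prs c = prs (F 1) ++ prs (F 2) ++ prs mB ++ prs (F 0) := by
    rw [hc, prs_cat e3 F0h, prs_cat e2 kB.head, prs_cat F1l F2h]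
  have hcl : c.head? = c.getLast? := by
    rw [hc, cat_last e3 F0h, F0l, cat_head n3, cat_head n2, cat_head n1, F1h]
  have hmem : ∀ s ∈ c, (∃ k < 3, s ∈ F k) ∨ s ∈ mB := by
    intro s hs
    rcases mem_cat hs with hs | hs
    · rcases mem_cat hs with hs | hs
      · rcases mem_cat hs with hs | hs
        · exact Or.inl ⟨1, by norm_num, hs⟩
        · exact Or.inl ⟨2, by norm_num, hs⟩
      · exact Or.inr hs
    · exact Or.inl ⟨0, by norm_num, hs⟩
  have hmem' : ∀ k < 3, ∀ s ∈ F k, s ∈ c := by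
    intro k hk s hs
    interval_cases k
    · exact mem_cat_right e3 F0h hs
    · exact mem_cat_left (mem_cat_left (mem_cat_left hs))
    · exact mem_cat_left (mem_cat_left (mem_cat_right F1l F2h hs))
  have hprs_mem : ∀ p, p ∈ prs c ↔ (∃ k < 3, p ∈ prs (F k)) ∨ p ∈ prs mB := by
    intro p
    rw [hprs]
    simp only [List.mem_append]
    constructor
    · rintro (((h | h) | h) | h)
      · exact Or.inl ⟨1, by norm_num, h⟩
      · exact Or.inl ⟨2, by norm_num, h⟩
      · exact Or.inr h
      · exact Or.inl ⟨0, by norm_num, h⟩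
    · rintro (⟨k, hk, h⟩ | h)
      · interval_cases k
        · exact Or.inr h
        · exact Or.inl (Or.inl (Or.inl h))
        · exact Or.inl (Or.inl (Or.inr h))
      · exact Or.inl (Or.inr h)
  have hFk : ∀ k < 3, ∀ p, p ∈ prs (F k) ↔ p ∈ prs (Pa k) ∨ p = g k ∨ p ∈ prs (Pb k) :=
    fun k hk p => mem_pass (hp k hk)
  have gne : ∀ j < 3, ∀ k < 3, g j = g k → j = k := by
    intro j hj k hk h
    have h1 := (pass_bx hq (hp j hj)).1
    have h2 := (pass_bx hq (hp k hk)).1
    rw [h] at h1
    exact bx_unique hq hj hk h1 h2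
  have gsw : ∀ j < 3, ∀ k < 3, (g j).swap ≠ g k := by
    intro j hj k hk h
    have h1 := (pass_bx hq (hp j hj)).2
    have h2 := (pass_bx hq (hp k hk)).1
    have e : (g k).1 = (g j).2 := by rw [← h]; rfl
    rw [e] at h2
    have := bx_unique hq hj hk h1 h2
    subst this
    exact (hp j hj).ne (by rw [e])
  -- occupied edges of the parts
  have fa : ∀ k < 3, ∀ j < 3, g k ∉ prs (Pa j) := fun k hk j hj h =>
    ((hp j hj).pa.free _ h).1 (hp k hk).occ.1
  have fb : ∀ k < 3, ∀ j < 3, g k ∉ prs (Pb j) := fun k hk j hj h =>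
    ((hp j hj).pb.free _ h).1 (hp k hk).occ.1
  have fB : ∀ k < 3, g k ∉ prs mB := fun k hk h => (kB.free _ h).1 (hp k hk).occ.1
  have cF : ∀ k < 3, ∀ j < 3, (prs (F j)).count (g k) = if j = k then 1 else 0 := by
    intro k hk j hj
    have e := prs_pass (hp j hj)
    change (prs (Pa j ++ Pb j)).count (g k) = _
    rw [e, List.count_append, List.count_cons, List.count_eq_zero_of_not_mem (fa k hk j hj),
      List.count_eq_zero_of_not_mem (fb k hk j hj)]
    by_cases h : j = k
    · subst h; simp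
    · have : g j ≠ g k := fun h' => h (gne j hj k hk h')
      simp [h, this]
  have hcnt : ∀ k < 3, (prs c).count (g k) = 1 := by
    intro k hk
    rw [hprs, List.count_append, List.count_append, List.count_append, cF k hk 1 (by norm_num),
      cF k hk 2 (by norm_num), cF k hk 0 (by norm_num), List.count_eq_zero_of_not_mem (fB k hk)]
    interval_cases k <;> norm_num
  have hval : ∀ k : ZMod 3, k.val < 3 := fun k => ZMod.val_lt k
  refine ⟨c, fun k => g k.val, fun k => Pa k.val, fun k => Pb k.val, ⟨hcl, ?_⟩, ?_, ?_,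
    fun k => (hp _ (hval k)).occ, fun k => ⟨hcnt _ (hval k), ?_⟩, ?_, fun k => (hp _ (hval k)).pa.ne,
    fun k => (hp _ (hval k)).pb.ne, fun k => (hp _ (hval k)).pa.last,
    fun k => (hp _ (hval k)).pb.head, ?_, ?_, fun k => (hp _ (hval k)).pa.free,
    fun k => (hp _ (hval k)).pb.free, ?_, ?_, ?_, ?_, fun k => (hp _ (hval k)).pos⟩
  · -- Delaunay edges
    intro p h
    rcases (hprs_mem p).1 h with ⟨k, hk, h⟩ | h
    · rcases (hFk k hk p).1 h with h | rfl | h
      · exact (hp k hk).pa.adj p h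
      · exact (hp k hk).de
      · exact (hp k hk).pb.adj p h
    · exact kB.adj p h
  · -- sites of the annulus
    intro s hs
    rcases hmem s hs with ⟨k, hk, h⟩ | h
    · exact (pass_mem (hp k hk) h).1
    · exact (kB.mem s h).1
  · -- winding
    intro z hz1 hz2
    rw [abs_le] at hz1 hz2
    rw [hc, asum_cat e3 F0h, asum_cat e2 kB.head, asum_cat F1l F2h]
    refine asum_glue F1h F1l F2h F2l kB.head kB.last F0h F0l ?_ ?_ ?_ ?_
    · intro s hs
      have h1 := (pass_mem p1 hs).2.1
      have h2 := (coords z0 s).1.2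
      have h3 := coords0 z0 s
      linarith
    · intro s hs
      have h1 := (pass_mem p2 hs).2.1
      have h2 := (coords z0 s).2.1.2
      have h3 := coords0 z0 s
      linarith
    · intro s hs
      have h1 := (kB.mem s hs).2.1
      have h2 := (coords z0 s).2.2.2
      have h3 := coords0 z0 s
      linarith
    · intro s hs
      have h1 := (pass_mem p0 hs).2.1
      have h3 := coords0 z0 s
      linarith
  · -- the reversed gates
    intro h
    rcases (hprs_mem _).1 h with ⟨j, hj, h⟩ | h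
    · rcases (hFk j hj _).1 h with h | h | h
      · exact ((hp j hj).pa.free _ h).1 (hp _ (hval k)).occ.2
      · exact gsw _ (hval k) j hj h
      · exact ((hp j hj).pb.free _ h).1 (hp _ (hval k)).occ.2
    · exact (kB.free _ h).1 (hp _ (hval k)).occ.2
  · -- only the gates
    intro p h hpJ
    rcases (hprs_mem p).1 h with ⟨k, hk, h⟩ | h
    · rcases (hFk k hk p).1 h with h | h | h
      · have := (hp k hk).pa.free p h
        tauto
      · refine ⟨(k : ZMod 3), ?_⟩
        rw [ZMod.val_natCast, Nat.mod_eq_of_lt hk]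
        exact h
      · have := (hp k hk).pb.free p h
        tauto
    · have := kB.free p h
      tauto
  · intro k p h
    exact (hprs_mem p).2 (Or.inl ⟨_, hval k, (hFk _ (hval k) p).2 (Or.inl h)⟩)
  · intro k p h
    exact (hprs_mem p).2 (Or.inl ⟨_, hval k, (hFk _ (hval k) p).2 (Or.inr (Or.inr h))⟩)
  · intro k s hs
    have h1 := (hp _ (hval k)).pa.mem s hs
    exact ⟨hmem' _ (hval k) s (List.mem_append_left _ hs), h1.2⟩
  · intro k s hs
    have h1 := (hp _ (hval k)).pb.mem s hs
    exact ⟨hmem' _ (hval k) s (List.mem_append_right _ hs), h1.2⟩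
  · -- the head of `Pa`
    intro k s hs
    have h1 := (hp _ (hval k)).pa.head
    rw [hs, Option.some.injEq] at h1
    rw [edz]
    have hv := hval k
    generalize k.val = m at h1 hv
    subst h1
    interval_cases m
    · simp only [if_true]
      have h2 := hbb.strip s4 s4a
      have h3 := coords z0 s4
      linarith [h3.2.2.2]
    · simp only [one_ne_zero, if_true, if_false]
      have h2 := hl0.strip s1 s1a
      have h3 := coords z0 s1
      linarith [h3.1.1]
    · simp only [OfNat.ofNat_ne_zero, OfNat.ofNat_ne_one, if_false]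
      have h2 := hl1.strip s2 s2a
      have h3 := coords z0 s2
      linarith [h3.2.1.1, h3.1.2]
  · intro k s hs
    have h1 := (hp _ (hval k)).pb.last
    rw [hs, Option.some.injEq] at h1
    rw [edz]
    have hv := hval k
    generalize k.val = m at h1 hv
    subst h1
    interval_cases m
    · simp only [if_true]
      have h2 := hr1.strip s1 s1b
      have h3 := coords z0 s1
      linarith [h3.1.2]
    · simp only [one_ne_zero, if_true, if_false]
      have h2 := hr2.strip s2 s2b
      have h3 := coords z0 s2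
      linarith [h3.2.1.2, h3.1.1]
    · simp only [OfNat.ofNat_ne_zero, OfNat.ofNat_ne_one, if_false]
      have h2 := hbb.strip s3 s3b
      have h3 := coords z0 s3
      linarith [h3.2.1.1, h3.2.2.2]

/-- **the canonical loop exists** -/
theorem hasG (hq : 0 < q) (hS : GP (S : Set ℂ)) (hβ : β ⊆ A1 S z0 q) (hJ : JF S z0 q J β)
    (hV : VP S (A1 S z0 q) z0 q (Dax S z0 q) β) : HasG S z0 q J := by
  obtain ⟨c, gt, h⟩ := g3_exists hq hS hβ hJ hV
  exact HasG.of h

/-- only the colours of `A1` matter -/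
theorem jf_inter : JF S z0 q J (β ∩ A1 S z0 q) ↔ JF S z0 q J β := by
  unfold JF
  refine forall_congr' fun p => ?_
  constructor
  · intro h hde h1 h2
    have := h hde h1 h2
    rw [Finset.mem_inter, Finset.mem_inter] at this
    rw [this]
    tauto
  · intro h hde h1 h2
    have := h hde h1 h2
    rw [Finset.mem_inter, Finset.mem_inter, this]
    tauto

/-- the form `JF` from the gauge of `XD_697` -/
theorem jf_of {G : Trg ℂ} (hG : G.T = delT S) {G0 : Finset (ℂ × ℂ)} {a b : ℝ} (ha : a ≤ 100 * q)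
    (hb : 200 * q ≤ b) (hax : ∀ p ∈ G.E, XDx697.Bet z0 a b p → (p ∈ G0 ↔ AxE z0 p)) (σ : Finset ℂ) :
    JF S z0 q (flip G G0 σ) σ := by
  intro p hde h1 h2
  rw [mem_A1] at h1 h2
  have hE : p ∈ G.E := by
    unfold Trg.E
    rw [Finset.mem_union, Finset.mem_image, Finset.mem_image, hG]
    rcases hde with ⟨c, h⟩ | ⟨c, h⟩
    · exact Or.inl ⟨_, h, rfl⟩
    · exact Or.inr ⟨_, h, rfl⟩
  have h3 := hax p hE ⟨⟨by linarith, by linarith⟩, by linarith, by linarith⟩
  unfold X0Bx683.flip bd
  rw [Finset.mem_symmDiff, Finset.mem_filter, h3]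
  tauto

end Crest.Agent.R143.XV6x796
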