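import Crest.Agent.R143.J8_872
import Crest.Agent.R143.XV6_796
import Crest.Agent.R143.Gauge4_950
import Crest.Agent.R143.EQE1_63

/-!
# Row 143 (S0194), leaf EQE, part 2 (helper63): the gauge and the chain with one gate

* `loc_full` : the join = the boundary of a colouring plus the cut of a branch of the argument
* `JF1` : form of the join in the annulus `A1`, `jf1_exists`
* `G1` : closed chain of sites of `A1` with one gate, `g1_exists`
-/

set_option autoImplicit false

noncomputable section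

open scoped Classical

namespace Crest.Agent.R143.EQE2x63

open Crest.Agent.R143.B0x346 Crest.Agent.R143.DelGx806 Crest.Agent.R143.DelRx806
open Crest.Agent.R143.ToolWx838 hiding ang
open Crest.Agent.R143.Blkx838 Crest.Agent.R143.ToolW2x838
open Crest.Agent.R143.ToolW3x838 Crest.Agent.R143.Circ4x838 Crest.Agent.R143.Harx315
open Crest.Agent.R143.RB0x838 Crest.Agent.R143.CircPx838 Crest.Agent.R143.Gatex838
open Crest.Agent.R143.X0Bx683
open Crest.Agent.R143.XV1x796 Crest.Agent.R143.XV2x796 Crest.Agent.R143.XV3x796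
open Crest.Agent.R143.XG3x796 Crest.Agent.R143.XV5x796 Crest.Agent.R143.XV6x796
open Crest.Agent.R143.JColx54 Crest.Agent.R143.JCol2x54 Crest.Agent.R143.Planarx54
open Crest.Agent.R143.Planar2x54 Crest.Agent.R143.J8x872
open Crest.Agent.R143.XDx697 (AxE)
open Crest.Agent.R143.XV2x796 (ed)

variable {S V : Finset ℂ} {N : Net ℂ} {z0 : ℂ} {q : ℝ} {β : Finset ℂ} {J : Finset (ℂ × ℂ)}

/-- **gauge**: the join and the cut of the branch `B` -/
theorem loc_full (H : HNet S N) {t : ℂ × ℂ × ℂ} (ht : t ∈ delT S) {x : ℂ} (hx : InO' x t)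
    (hJ : J ∈ N.tj t) (B : ℂ → ℝ)
    (hB : ∀ a b, Adj S a b → ∃ k : ℤ, ang x a b = B b - B a + k * (2 * Real.pi)) :
    ∃ σ : ℂ → ZMod 2, ∀ a b, Adj S a b → ∀ n : ℤ, ang x a b = B b - B a + n * (2 * Real.pi) →
      (if (a, b) ∈ J ∨ (b, a) ∈ J then 1 else 0) + (n : ZMod 2) = σ b - σ a := by
  have hJ' : IsJoin N.toTrg N.kl (rots t) N.exS J := JCardx872.mem_joins.1 hJ
  have hpi := Real.pi_pos
  choose! n hn using hB
  have hadd : ∀ a b, Adj S a b → n b a = - n a b := by
    intro a b hab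
    have h1 := hn a b hab
    have h2 := hn b a hab.symm
    have h3 := adj_anti H.gp ht hx hab
    have h4 : ((n b a + n a b : ℤ) : ℝ) * (2 * Real.pi) = 0 := by
      push_cast
      linarith
    have h5 : ((n b a + n a b : ℤ) : ℝ) = 0 := by
      rcases mul_eq_zero.1 h4 with h | h
      · exact h
      · exact absurd h (by positivity)
    have h6 : n b a + n a b = 0 := by exact_mod_cast h5
    omega
  have htri : ∀ a b c, (a, b, c) ∈ delT S →
      n a b + n b c + n c a = if (a, b, c) ∈ rots t then 1 else 0 := by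
    intro a b c h
    have h1 := hn a b (adj_tri h)
    have h2 := hn b c (adj_tri' H.gp h)
    have h3 := hn c a (adj_tri'' H.gp h)
    have h4 := ang_tri H.gp ht hx h
    have h5 : ((n a b + n b c + n c a : ℤ) : ℝ) * (2 * Real.pi) =
        (if (a, b, c) ∈ rots t then 1 else 0) * (2 * Real.pi) := by
      push_cast
      split_ifs at h4 ⊢ <;> linarith
    have h6 : ((n a b + n b c + n c a : ℤ) : ℝ) = if (a, b, c) ∈ rots t then 1 else 0 :=
      mul_right_cancel₀ (by positivity) h5
    split_ifs at h6 ⊢ <;> exact_mod_cast h6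
  obtain ⟨σ, hσ⟩ := exact H.gp (A := ZMod 2)
    (f := fun a b => (if (a, b) ∈ J ∨ (b, a) ∈ J then 1 else 0) + (n a b : ZMod 2))
    (by
      intro a b hab
      have e : ((b, a) ∈ J ∨ (a, b) ∈ J) ↔ ((a, b) ∈ J ∨ (b, a) ∈ J) := or_comm
      simp only [e, hadd a b hab]
      push_cast
      generalize ((n a b : ℤ) : ZMod 2) = u
      split_ifs <;> revert u <;> decide)
    (by
      intro a b c h
      have hG' : (a, b, c) ∈ N.T := by rw [H.tri]; exact h
      have h1 := occ_iff H.tri (exS_hull H) hJ' h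
      have h2 := occ_iff H.tri (exS_hull H) hJ' (delT_rot H.gp h)
      have h3 := occ_iff H.tri (exS_hull H) hJ' (delT_rot H.gp (delT_rot H.gp h))
      have hp := hJ'.par a b c hG'
      have hk := congrArg (fun z : ℤ => (z : ZMod 2)) (htri a b c h)
      simp only [h1, h2, h3]
      push_cast at hk
      generalize ((n a b : ℤ) : ZMod 2) = u at hk ⊢
      generalize ((n b c : ℤ) : ZMod 2) = v at hk ⊢
      generalize ((n c a : ℤ) : ZMod 2) = w at hk ⊢
      by_cases hr : (a, b, c) ∈ rots t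
      · simp only [hr, if_true] at hp hk
        by_cases x1 : (a, b) ∈ J <;> by_cases x2 : (b, c) ∈ J <;> by_cases x3 : (c, a) ∈ J <;>
          simp only [x1, x2, x3, if_true, if_false] at hp ⊢ <;>
          first
            | omega
            | (revert hk; revert u v w; decide)
      · simp only [hr, if_false] at hp hk
        by_cases x1 : (a, b) ∈ J <;> by_cases x2 : (b, c) ∈ J <;> by_cases x3 : (c, a) ∈ J <;>
          simp only [x1, x2, x3, if_true, if_false] at hp ⊢ <;>
          first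
            | omega
            | (revert hk; revert u v w; decide))
  refine ⟨σ, fun a b hab m hm => ?_⟩
  have h := hσ a b hab
  have h0 : n a b = m := by
    have h1 := hn a b hab
    have h2 : ((n a b - m : ℤ) : ℝ) * (2 * Real.pi) = 0 := by push_cast; linarith
    rcases mul_eq_zero.1 h2 with h3 | h3
    · have : n a b - m = 0 := by exact_mod_cast h3
      omega
    · exact absurd h3 (by positivity)
  rw [← h0]
  exact h

/-! ### the cut -/

/-- the edges which cross the axis of the side `0` -/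
def Ax1 (z0 : ℂ) (p : ℂ × ℂ) : Prop := (0 < Y z0 (ed 0) p.1 ∧ 0 < Y z0 (ed 0) p.2) ∧
  ¬ (0 ≤ X z0 (ed 0) p.1 ↔ 0 ≤ X z0 (ed 0) p.2)

/-- the form of the join `J` in the annulus `A1`, colours `β` -/
def JF1 (S : Finset ℂ) (z0 : ℂ) (q : ℝ) (J : Finset (ℂ × ℂ)) (β : Finset ℂ) : Prop :=
  ∀ p : ℂ × ℂ, DE S p.1 p.2 → p.1 ∈ A1 S z0 q → p.2 ∈ A1 S z0 q →
    (p ∈ J ↔ ¬ (Ax1 z0 p ↔ ¬ (p.1 ∈ β ↔ p.2 ∈ β)))

theorem L_coord (z0 y : ℂ) : L (-1) z0 y = Complex.arg (-(Y z0 (ed 0) y : ℂ) + X z0 (ed 0) y * Complex.I) := by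
  unfold L
  congr 1
  obtain ⟨h1, h2⟩ := coords0 z0 y
  rw [h1, h2, div_neg, div_one]
  apply Complex.ext <;> simp

/-- the branch of the argument near the annulus -/
theorem cut_par {a b : ℂ} {n : ℤ} (hn : ang z0 a b = L (-1) z0 b - L (-1) z0 a + n * (2 * Real.pi))
    (h : (0 < X z0 (ed 0) a ∧ 0 < X z0 (ed 0) b) ∨ (X z0 (ed 0) a < 0 ∧ X z0 (ed 0) b < 0) ∨
      (Y z0 (ed 0) a < 0 ∧ Y z0 (ed 0) b < 0) ∨ (0 < Y z0 (ed 0) a ∧ 0 < Y z0 (ed 0) b)) :
    (n : ZMod 2) = if Ax1 z0 (a, b) then 1 else 0 := by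
  have hpi := Real.pi_pos
  rw [L_coord, L_coord] at hn
  have hang1 := Complex.neg_pi_lt_arg ((b - z0) / (a - z0))
  have hang2 := Complex.arg_le_pi ((b - z0) / (a - z0))
  change ang z0 a b ≤ _ at hang2
  change _ < ang z0 a b at hang1
  set xa := X z0 (ed 0) a
  set xb := X z0 (ed 0) b
  set ya := Y z0 (ed 0) a
  set yb := Y z0 (ed 0) b
  set wa : ℂ := -(ya : ℂ) + xa * Complex.I with hwa
  set wb : ℂ := -(yb : ℂ) + xb * Complex.I with hwb
  have ra : wa.re = -ya := by rw [hwa]; simp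
  have ia : wa.im = xa := by rw [hwa]; simp
  have rb : wb.re = -yb := by rw [hwb]; simp
  have ib : wb.im = xb := by rw [hwb]; simp
  have ua := Complex.neg_pi_lt_arg wa
  have va := Complex.arg_le_pi wa
  have ub := Complex.neg_pi_lt_arg wb
  have vb := Complex.arg_le_pi wb
  -- conclusion from the bounds
  have zero : |wb.arg - wa.arg| < Real.pi → n = 0 := by
    intro hh
    rw [abs_lt] at hh
    have h1 : (n : ℝ) < 1 := by
      by_contra hc
      push Not at hc
      nlinarith
    have h2 : (-1 : ℝ) < n := by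
      by_contra hc
      push Not at hc
      nlinarith
    have h1' : n < 1 := by exact_mod_cast h1
    have h2' : -1 < n := by exact_mod_cast h2
    omega
  have hz2 : ∀ m : ℤ, m = 0 → (m : ZMod 2) = 0 := by rintro m rfl; simp
  rcases h with h | h | h | h
  · -- both above
    rw [if_neg (fun hx => hx.2 ⟨fun _ => h.2.le, fun _ => h.1.le⟩)]
    apply hz2
    apply zero
    have a1 : 0 ≤ wa.arg := Complex.arg_nonneg_iff.2 (by rw [ia]; exact h.1.le)
    have b1 : 0 ≤ wb.arg := Complex.arg_nonneg_iff.2 (by rw [ib]; exact h.2.le)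
    have a2 : wa.arg ≠ 0 := fun h0 => by
      have := (Complex.arg_eq_zero_iff.1 h0).2
      rw [ia] at this; linarith [h.1]
    have b2 : wb.arg ≠ 0 := fun h0 => by
      have := (Complex.arg_eq_zero_iff.1 h0).2
      rw [ib] at this; linarith [h.2]
    have a3 : wa.arg ≠ Real.pi := fun h0 => by
      have := (Complex.arg_eq_pi_iff.1 h0).2
      rw [ia] at this; linarith [h.1]
    have b3 : wb.arg ≠ Real.pi := fun h0 => by
      have := (Complex.arg_eq_pi_iff.1 h0).2
      rw [ib] at this; linarith [h.2]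
    have a4 := lt_of_le_of_ne a1 (Ne.symm a2)
    have b4 := lt_of_le_of_ne b1 (Ne.symm b2)
    have a5 := lt_of_le_of_ne va a3
    have b5 := lt_of_le_of_ne vb b3
    rw [abs_lt]; constructor <;> linarith
  · rw [if_neg (fun hx => hx.2 ⟨fun h' => absurd h.1 (not_lt.2 h'),
      fun h' => absurd h.2 (not_lt.2 h')⟩)]
    apply hz2
    apply zero
    have a1 : wa.arg < 0 := Complex.arg_neg_iff.2 (by rw [ia]; exact h.1)
    have b1 : wb.arg < 0 := Complex.arg_neg_iff.2 (by rw [ib]; exact h.2)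
    rw [abs_lt]; constructor <;> linarith
  · rw [if_neg (fun hx => absurd h.1 (not_lt.2 hx.1.1.le))]
    apply hz2
    apply zero
    have a1 : |wa.arg| < Real.pi / 2 := Complex.abs_arg_lt_pi_div_two_iff.2 (Or.inl (by
      rw [ra]; linarith [h.1]))
    have b1 : |wb.arg| < Real.pi / 2 := Complex.abs_arg_lt_pi_div_two_iff.2 (Or.inl (by
      rw [rb]; linarith [h.2]))
    rw [abs_lt] at a1 b1
    rw [abs_lt]; constructor <;> linarith
  · -- near the axis
    have big : ∀ w : ℂ, w.re < 0 → 0 ≤ w.im → Real.pi / 2 < w.arg := by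
      intro w h1 h2
      by_contra hc
      push Not at hc
      rcases Complex.arg_le_pi_div_two_iff.1 hc with h3 | h3 <;> linarith
    have small : ∀ w : ℂ, w.re < 0 → w.im < 0 → w.arg < -(Real.pi / 2) := by
      intro w h1 h2
      by_contra hc
      push Not at hc
      rcases Complex.neg_pi_div_two_le_arg_iff.1 hc with h3 | h3 <;> linarith
    have rea : wa.re < 0 := by rw [ra]; linarith [h.1]
    have reb : wb.re < 0 := by rw [rb]; linarith [h.2]
    by_cases hxa : 0 ≤ xa
    · have Aa := big wa rea (by rw [ia]; exact hxa)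
      by_cases hxb : 0 ≤ xb
      · have Ab := big wb reb (by rw [ib]; exact hxb)
        rw [if_neg (fun hx => hx.2 ⟨fun _ => hxb, fun _ => hxa⟩)]
        apply hz2
        apply zero
        rw [abs_lt]; constructor <;> linarith
      · have Ab := small wb reb (by rw [ib]; exact not_le.1 hxb)
        rw [if_pos ⟨h, fun hx => hxb (hx.1 hxa)⟩]
        have h1 : (0 : ℝ) < n := by
          by_contra hc
          push Not at hc
          nlinarith
        have h2 : (n : ℝ) < 2 := by
          by_contra hc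
          push Not at hc
          nlinarith
        have h1' : 0 < n := by exact_mod_cast h1
        have h2' : n < 2 := by exact_mod_cast h2
        have : n = 1 := by omega
        rw [this]; simp
    · have Aa := small wa rea (by rw [ia]; exact not_le.1 hxa)
      by_cases hxb : 0 ≤ xb
      · have Ab := big wb reb (by rw [ib]; exact hxb)
        rw [if_pos ⟨h, fun hx => hxa (hx.2 hxb)⟩]
        have h1 : (n : ℝ) < 0 := by
          by_contra hc
          push Not at hc
          nlinarith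
        have h2 : (-2 : ℝ) < n := by
          by_contra hc
          push Not at hc
          nlinarith
        have h1' : n < 0 := by exact_mod_cast h1
        have h2' : -2 < n := by exact_mod_cast h2
        have : n = -1 := by omega
        rw [this]; decide
      · have Ab := small wb reb (by rw [ib]; exact not_le.1 hxb)
        rw [if_neg (fun hx => hx.2 ⟨fun h' => absurd h' hxa, fun h' => absurd h' hxb⟩)]
        apply hz2
        apply zero
        rw [abs_lt]; constructor <;> linarith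

/-- a short edge of the annulus is on one side of a line through `z0` -/
theorem one_side {a b : ℂ} (hq : 0 < q) (ha : 100 * q ≤ ‖a - z0‖) (hab : ‖b - a‖ < 10 * q) :
    (0 < X z0 (ed 0) a ∧ 0 < X z0 (ed 0) b) ∨ (X z0 (ed 0) a < 0 ∧ X z0 (ed 0) b < 0) ∨
      (Y z0 (ed 0) a < 0 ∧ Y z0 (ed 0) b < 0) ∨ (0 < Y z0 (ed 0) a ∧ 0 < Y z0 (ed 0) b) := by
  have h1 := XV2x796.norm_XY z0 0 a
  have hx : |X z0 (ed 0) b - X z0 (ed 0) a| ≤ ‖b - a‖ := Gax950.abs_X (XV2x796.norm_ed 0) b a
  have hy : |Y z0 (ed 0) b - Y z0 (ed 0) a| ≤ ‖b - a‖ := Gax950.abs_Y (XV2x796.norm_ed 0) b a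
  rw [abs_le] at hx hy
  by_contra hcon
  push Not at hcon
  obtain ⟨c1, c2, c3, c4⟩ := hcon
  have k1 : X z0 (ed 0) a ≤ 10 * q := by
    by_contra hc
    push Not at hc
    have := c1 (by linarith)
    linarith
  have k2 : -(10 * q) ≤ X z0 (ed 0) a := by
    by_contra hc
    push Not at hc
    have := c2 (by linarith)
    linarith
  have k3 : -(10 * q) ≤ Y z0 (ed 0) a := by
    by_contra hc
    push Not at hc
    have := c3 (by linarith)
    linarith
  have k4 : Y z0 (ed 0) a ≤ 10 * q := by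
    by_contra hc
    push Not at hc
    have := c4 (by linarith)
    linarith
  nlinarith [norm_nonneg (a - z0)]

/-- **existence of the gauge** -/
theorem jf1_exists (H : HNet S N) {t : ℂ × ℂ × ℂ} (ht : t ∈ delT S) (hx : InO' z0 t)
    (hJ : J ∈ N.tj t) {R1 d : ℝ} (hq : 0 < q) (hD : LDns S z0 R1 d) (hR : 200 * q + d ≤ R1)
    (hd : d ≤ q)
    (hin : ∀ a b : ℂ, ‖a - z0‖ < 200 * q → ¬ hullE S a b ∧ ¬ hullE S b a) :
    ∃ σ : Finset ℂ, σ ⊆ A1 S z0 q ∧ JF1 S z0 q J σ := by
  obtain ⟨σ, hσ⟩ := loc_full H ht hx hJ (L (-1) z0)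
    (fun a b h => branch_L H.gp ht hx (by norm_num) h)
  refine ⟨(A1 S z0 q).filter fun s => σ s = 1, Finset.filter_subset _ _, ?_⟩
  rintro ⟨a, b⟩ hde ha hb
  simp only at hde ha hb ⊢
  have hJ' : IsJoin N.toTrg N.kl (rots t) N.exS J := JCardx872.mem_joins.1 hJ
  have ha' := mem_A1.1 ha
  have hb' := mem_A1.1 hb
  have hnm : ∀ a b : ℂ, ‖a - z0‖ < 200 * q → (a, b) ∉ N.exS ∧ (b, a) ∉ N.exS := by
    intro a b h
    constructor
    · rintro ⟨k, hk⟩
      have := H.hex k
      rw [hk] at this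
      exact (hin a b h).1 this
    · rintro ⟨k, hk⟩
      have := H.hex k
      rw [hk] at this
      exact (hin a b h).2 this
  have hocc : ((a, b) ∈ J ∨ (b, a) ∈ J) ↔ (a, b) ∈ J := by
    have := hJ'.sym a b (hnm a b ha'.2.2).1 (hnm a b ha'.2.2).2
    tauto
  have hlen : ‖b - a‖ < 10 * q := by
    have := Gax950.adj_len hD hR hde ha'.2.2.le
    linarith
  obtain ⟨n, hn⟩ := branch_L H.gp ht hx (d := -1) (by norm_num) hde
  have h1 := hσ a b hde n hn
  rw [cut_par hn (one_side hq ha'.2.1 hlen)] at h1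
  simp only [hocc] at h1
  simp only [Finset.mem_filter, ha, hb, true_and]
  generalize σ a = u at h1 ⊢
  generalize σ b = v at h1 ⊢
  by_cases hA : Ax1 z0 (a, b)
  · by_cases hJab : (a, b) ∈ J
    · simp only [hA, hJab, if_true, true_iff, not_not] at h1 ⊢
      revert h1; revert u v; decide
    · simp only [hA, hJab, if_true, if_false, false_iff, not_not, true_iff] at h1 ⊢
      revert h1; revert u v; decide
  · by_cases hJab : (a, b) ∈ J
    · simp only [hA, hJab, if_true, if_false, true_iff, false_iff, not_not] at h1 ⊢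
      revert h1; revert u v; decide
    · simp only [hA, hJab, if_false, false_iff, not_not] at h1 ⊢
      revert h1; revert u v; decide

/-! ### the chain with one gate -/

/-- closed chain (counterclockwise) of sites of `A1` with at most one occupied edge -/
structure G1 (S : Finset ℂ) (z0 : ℂ) (q : ℝ) (J : Finset (ℂ × ℂ)) (c : List ℂ) (g : ℂ × ℂ) :
    Prop where
  loop : Loop S c
  ann : ∀ s ∈ c, s ∈ A1 S z0 q
  wind : ∀ z : ℂ, |z.re - z0.re| ≤ 100 * q → |z.im - z0.im| ≤ 100 * q → asum z c = 2 * Real.pi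
  only : ∀ p ∈ prs c, (p ∈ J ∨ p.swap ∈ J) → p = g

/-- the event on the colours of the annulus -/
structure VP1 (S V : Finset ℂ) (z0 : ℂ) (q : ℝ) (β : Finset ℂ) : Prop where
  gate : GateE S V z0 q (Dax S z0 q) 0 β
  al : AL S z0 q 0 107 111 β
  ar : AR S z0 q 0 107 111 β
  sd : ∀ k ∈ ({1, 2, 3} : Finset ℕ),
    ∃ l, HC S z0 (ed k) (-(111 * q)) (111 * q) (107 * q) (111 * q) (2 * q) β l

/-- the join of the form `JF` with the same colours -/
def JT (S : Finset ℂ) (z0 : ℂ) (q : ℝ) (β : Finset ℂ) : Finset (ℂ × ℂ) :=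
  (A1 S z0 q ×ˢ A1 S z0 q).filter fun p => ¬ (AxE z0 p ↔ ¬ (p.1 ∈ β ↔ p.2 ∈ β))

theorem jt_jf (β : Finset ℂ) : JF S z0 q (JT S z0 q β) β := by
  intro p _ h1 h2
  unfold JT
  rw [Finset.mem_filter, Finset.mem_product]
  tauto

/-- the two forms agree near the side `0` -/
theorem jt_iff (hJ : JF1 S z0 q J β) {p : ℂ × ℂ} (hde : DE S p.1 p.2) (m1 : p.1 ∈ A1 S z0 q)
    (m2 : p.2 ∈ A1 S z0 q) (h1 : 0 < Y z0 (ed 0) p.1) (h2 : 0 < Y z0 (ed 0) p.2) :
    p ∈ JT S z0 q β ↔ p ∈ J := by
  rw [hJ p hde m1 m2, jt_jf β p hde m1 m2, axe_iff (k := 0) (by norm_num) h1 h2]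
  unfold Ax1
  tauto

theorem cn_of {a b : ℂ} {Q : ℂ → Prop} {m : List ℂ} (hJ : JF1 S z0 q J β)
    (h : XV5x796.Cn S (JT S z0 q β) a b Q m) (hQ : ∀ s, Q s → s ∈ A1 S z0 q ∧ 0 < Y z0 (ed 0) s) :
    XV5x796.Cn S J a b Q m := by
  refine ⟨h.head, h.last, h.adj, fun p hp => ?_, h.mem⟩
  have i1 := hQ _ (h.mem _ (mem_of_prs hp).1)
  have i2 := hQ _ (h.mem _ (mem_of_prs hp).2)
  have hde := h.adj p hp
  have hf := h.free p hp
  rw [jt_iff hJ hde i1.1 i2.1 i1.2 i2.2, jt_iff (p := p.swap) hJ hde.symm i2.1 i1.1 i2.2 i1.2] at hf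
  exact hf

theorem side_axis {k : ℕ} (hk : k ∈ ({1, 2, 3} : Finset ℕ)) {p : ℂ × ℂ}
    (h1 : 0 < Y z0 (ed k) p.1) (h2 : 0 < Y z0 (ed k) p.2) : ¬ Ax1 z0 p := by
  obtain ⟨⟨a1, a2⟩, ⟨a3, a4⟩, a5, a6⟩ := coords z0 p.1
  obtain ⟨⟨b1, b2⟩, ⟨b3, b4⟩, b5, b6⟩ := coords z0 p.2
  rintro ⟨⟨y1, y2⟩, hx⟩
  apply hx
  simp only [Finset.mem_insert, Finset.mem_singleton] at hk
  rcases hk with rfl | rfl | rfl
  · exact ⟨fun h => by linarith, fun h => by linarith⟩
  · exact absurd y1 (by linarith)
  · exact ⟨fun _ => by linarith, fun _ => by linarith⟩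

/-- part of a chain of one of the sides `1, 2, 3` -/
theorem side_cn (hβ : β ⊆ A1 S z0 q) (hJ : JF1 S z0 q J β) (hq : 0 < q) {k : ℕ}
    (hk : k ∈ ({1, 2, 3} : Finset ℕ)) {l : List ℂ}
    (hl : HC S z0 (ed k) (-(111 * q)) (111 * q) (107 * q) (111 * q) (2 * q) β l) {a b : ℂ}
    (ha : a ∈ l) (hb : b ∈ l) :
    ∃ m, XV5x796.Cn S J a b (fun s => s ∈ A1 S z0 q ∧ 102 * q < Y z0 (ed k) s) m := by
  refine XV5x796.Cn.sub ha hb hl.adj (fun p hp => ?_) (fun s hs => ?_)
  · have i1 := (mem_of_prs hp).1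
    have i2 := (mem_of_prs hp).2
    have y1 := (hl.strip _ i1).1
    have y2 := (hl.strip _ i2).1
    have n1 := side_axis hk (p := p) (z0 := z0) (by linarith) (by linarith)
    have n2 := side_axis hk (p := p.swap) (z0 := z0) (by
      change 0 < Y z0 (ed k) p.2; linarith) (by change 0 < Y z0 (ed k) p.1; linarith)
    have c1 := hl.col _ i1
    have c2 := hl.col _ i2
    rw [hJ p (hl.adj p hp) (hβ c1) (hβ c2), hJ p.swap (hl.adj p hp).symm (hβ c2) (hβ c1)]
    simp only [Prod.fst_swap, Prod.snd_swap]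
    tauto
  · have h1 := hl.strip s hs
    exact ⟨hβ (hl.col s hs), by linarith⟩

/-- **existence of the chain with one gate** -/
theorem g1_exists (hq : 0 < q) (hS : GP (S : Set ℂ)) (hβ : β ⊆ A1 S z0 q)
    (hJ : JF1 S z0 q J β) (hV : VP1 S (A1 S z0 q) z0 q β) : ∃ c g, G1 S z0 q J c g := by
  obtain ⟨l0, hl0⟩ := hV.al
  obtain ⟨r0, hr0⟩ := hV.ar
  obtain ⟨b1, hb1⟩ := hV.sd 1 (by simp)
  obtain ⟨b2, hb2⟩ := hV.sd 2 (by simp)
  obtain ⟨b3, hb3⟩ := hV.sd 3 (by simp)
  obtain ⟨s1, s1a, s1b⟩ := corner (k := 0) hq hS hl0 (by linarith) hb1 (by linarith)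
  obtain ⟨s2, s2a, s2b⟩ := corner (k := 1) hq hS hb1 (by linarith) hb2 (by linarith)
  obtain ⟨s3, s3a, s3b⟩ := corner (k := 2) hq hS hb2 (by linarith) hb3 (by linarith)
  have hr0' : HC S z0 (ed (3 + 1)) (6 * q) (111 * q) (107 * q) (111 * q) (2 * q) β r0 := by
    have e : ed (3 + 1) = ed 0 := by
      have := ed_four 0
      rw [zero_add] at this
      exact this
    rw [e]
    exact hr0
  obtain ⟨s4, s4a, s4b⟩ := corner (k := 3) hq hS hb3 (by linarith) hr0' (by linarith)
  obtain ⟨g, Pa, Pb, hp⟩ := pass hq hS hβ (jt_jf β) (k := 0) (by norm_num) hV.gate hl0 hr0 s1a s4b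
  have pa := cn_of hJ hp.pa (fun s h => ⟨h.1, by linarith [h.2.2.1]⟩)
  have pb := cn_of hJ hp.pb (fun s h => ⟨h.1, by linarith [h.2.2.1]⟩)
  obtain ⟨m1, k1⟩ := side_cn hβ hJ hq (k := 1) (by simp) hb1 s1b s2a
  obtain ⟨m2, k2⟩ := side_cn hβ hJ hq (k := 2) (by simp) hb2 s2b s3a
  obtain ⟨m3, k3⟩ := side_cn hβ hJ hq (k := 3) (by simp) hb3 s3b s4a
  set F : List ℂ := Pa ++ Pb with hF
  have F0h : F.head? = some s4 := pass_head hp
  have F0l : F.getLast? = some s1 := pass_last hp
  have n1 := k1.ne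
  have e2 : (cat m1 m2).getLast? = some s3 := by rw [cat_last k1.last k2.head]; exact k2.last
  have n2 : cat m1 m2 ≠ [] := by intro h; rw [h] at e2; simp at e2
  have e3 : (cat (cat m1 m2) m3).getLast? = some s4 := by
    rw [cat_last e2 k3.head]; exact k3.last
  have n3 : cat (cat m1 m2) m3 ≠ [] := by intro h; rw [h] at e3; simp at e3
  have hprs : prs (cat (cat (cat m1 m2) m3) F) = prs m1 ++ prs m2 ++ prs m3 ++ prs F := by
    rw [prs_cat e3 F0h, prs_cat e2 k3.head, prs_cat k1.last k2.head]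
  have hFp : ∀ p, p ∈ prs F ↔ p ∈ prs Pa ∨ p = g ∨ p ∈ prs Pb := fun p => mem_pass hp
  refine ⟨cat (cat (cat m1 m2) m3) F, g, ⟨?_, ?_⟩, ?_, ?_, ?_⟩
  · rw [cat_last e3 F0h, F0l, cat_head n3, cat_head n2, cat_head n1, k1.head]
  · intro p h
    rw [hprs] at h
    simp only [List.mem_append] at h
    rcases h with ((h | h) | h) | h
    · exact k1.adj p h
    · exact k2.adj p h
    · exact k3.adj p h
    · rcases (hFp p).1 h with h | rfl | h
      · exact pa.adj p h
      · exact hp.de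
      · exact pb.adj p h
  · intro s hs
    rcases mem_cat hs with hs | hs
    · rcases mem_cat hs with hs | hs
      · rcases mem_cat hs with hs | hs
        · exact (k1.mem s hs).1
        · exact (k2.mem s hs).1
      · exact (k3.mem s hs).1
    · exact (pass_mem hp hs).1
  · intro z hz1 hz2
    rw [abs_le] at hz1 hz2
    rw [asum_cat e3 F0h, asum_cat e2 k3.head, asum_cat k1.last k2.head]
    refine asum_glue k1.head k1.last k2.head k2.last k3.head k3.last F0h F0l ?_ ?_ ?_ ?_
    · intro s hs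
      have h1 := (k1.mem s hs).2
      have h2 := (coords z0 s).1.2
      have h3 := coords0 z0 s
      linarith
    · intro s hs
      have h1 := (k2.mem s hs).2
      have h2 := (coords z0 s).2.1.2
      have h3 := coords0 z0 s
      linarith
    · intro s hs
      have h1 := (k3.mem s hs).2
      have h2 := (coords z0 s).2.2.2
      have h3 := coords0 z0 s
      linarith
    · intro s hs
      have h1 := (pass_mem hp hs).2.1
      have h3 := coords0 z0 s
      linarith
  · intro p h hpJ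
    rw [hprs] at h
    simp only [List.mem_append] at h
    rcases h with ((h | h) | h) | h
    · have := k1.free p h; tauto
    · have := k2.free p h; tauto
    · have := k3.free p h; tauto
    · rcases (hFp p).1 h with h | h | h
      · have := pa.free p h; tauto
      · exact h
      · have := pb.free p h; tauto

end Crest.Agent.R143.EQE2x63
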