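import Crest.Agent.R143.EQE2_63
import Crest.Agent.R143.RBm_838

/-!
# Row 143 (S0194), leaf EQE, part 3 (helper63): probability of a chain with one gate

* `vp1_pr` : the event `VP1` has probability `≥ p ^ 10`
* `has_pr` : given the colours outside, a chain with one gate exists in `A1` with probability `≥ p ^ 10`
* `no_gate` : `n` annuli
* `hh_close` : the values of the observable at two triangles inside `n` annuli differ by at most
  `6 (1 - p ^ 10) ^ n`
-/

set_option autoImplicit false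

noncomputable section

open scoped Classical

namespace Crest.Agent.R143.EQE3x63

open Crest.Agent.R143.B0x346 Crest.Agent.R143.DelGx806 Crest.Agent.R143.DelRx806
open Crest.Agent.R143.ToolWx838 hiding ang
open Crest.Agent.R143.Blkx838 Crest.Agent.R143.ToolW2x838
open Crest.Agent.R143.ToolW3x838 Crest.Agent.R143.Circ4x838 Crest.Agent.R143.Harx315
open Crest.Agent.R143.RB0x838 Crest.Agent.R143.CircPx838 Crest.Agent.R143.Gatex838
open Crest.Agent.R143.X0Bx683
open Crest.Agent.R143.XV1x796 Crest.Agent.R143.XV2x796 Crest.Agent.R143.XV3x796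
open Crest.Agent.R143.XV4x796 Crest.Agent.R143.XG3x796 Crest.Agent.R143.XV5x796
open Crest.Agent.R143.JColx54 Crest.Agent.R143.JCol2x54 Crest.Agent.R143.Planarx54
open Crest.Agent.R143.Planar2x54 Crest.Agent.R143.J8x872
open Crest.Agent.R143.J1x872 Crest.Agent.R143.XFx903
open Crest.Agent.R143.EQE1x63 Crest.Agent.R143.EQE2x63
open Crest.Agent.R143.XV2x796 (ed)

variable {S V : Finset ℂ} {N : Net ℂ} {z0 : ℂ} {q p : ℝ} {β : Finset ℂ} {J : Finset (ℂ × ℂ)}

/-! ### the event -/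

theorem vt_empty : VT S ∅ ∅ z0 q = A1 S z0 q := by
  unfold VT; simp

/-- the increasing part of `VP1` -/
def U1 (S : Finset ℂ) (z0 : ℂ) (q : ℝ) (β : Finset ℂ) : Prop :=
  (AL S z0 q 0 107 111 β ∧ AR S z0 q 0 107 111 β) ∧
    ((∃ l, HC S z0 (ed 1) (-(111 * q)) (111 * q) (107 * q) (111 * q) (2 * q) β l) ∧
      (∃ l, HC S z0 (ed 2) (-(111 * q)) (111 * q) (107 * q) (111 * q) (2 * q) β l) ∧
      ∃ l, HC S z0 (ed 3) (-(111 * q)) (111 * q) (107 * q) (111 * q) (2 * q) β l)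

theorem ue_u1 (hq : 0 < q) (hp : 0 ≤ p) (hP : HP S (A1 S z0 q) z0 q p) :
    UE (A1 S z0 q) (ZZ (A1 S z0 q) z0 q) p 5 (U1 S z0 q) := by
  have nz : ∀ k < 4, ∀ s ∈ A1 S z0 q, 107 * q < Y z0 (ed k) s → Y z0 (ed k) s < 111 * q →
      s ∉ ZZ (A1 S z0 q) z0 q := by
    intro k hk s _ h1 h2 hz
    obtain ⟨⟨-, m3, m4⟩, -⟩ := zz_coord hq hz hk (by linarith)
    linarith
  have el : UE (A1 S z0 q) (ZZ (A1 S z0 q) z0 q) p 1 (AL S z0 q 0 107 111) := by
    refine ue_hc hP (bq' hq (by norm_num)) (bq' hq (by norm_num)) (bq hq (by norm_num))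
      (bq hq (by norm_num)) (by linarith)
      (by ring) (fun s hs b1 b2 b3 b4 => a1_of hq hs (by linarith) (by linarith) ?_)
      (fun s hs b1 b2 _ _ => nz 0 (by omega) s hs b1 b2)
    rw [abs_le]; constructor <;> linarith
  have er : UE (A1 S z0 q) (ZZ (A1 S z0 q) z0 q) p 1 (AR S z0 q 0 107 111) := by
    refine ue_hc hP (bq hq (by norm_num)) (bq hq (by norm_num)) (bq hq (by norm_num))
      (bq hq (by norm_num)) (by linarith)
      (by ring) (fun s hs b1 b2 b3 b4 => a1_of hq hs (by linarith) (by linarith) ?_)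
      (fun s hs b1 b2 _ _ => nz 0 (by omega) s hs b1 b2)
    rw [abs_le]; constructor <;> linarith
  have eb : ∀ k < 4, UE (A1 S z0 q) (ZZ (A1 S z0 q) z0 q) p 1 (fun β =>
      ∃ l, HC S z0 (ed k) (-(111 * q)) (111 * q) (107 * q) (111 * q) (2 * q) β l) := by
    intro k hk
    refine ue_hc hP (bq' hq (by norm_num)) (bq hq (by norm_num)) (bq hq (by norm_num))
      (bq hq (by norm_num)) (by linarith)
      (by ring) (fun s hs b1 b2 b3 b4 => a1_of hq hs (by linarith) (by linarith) ?_)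
      (fun s hs b1 b2 _ _ => nz k hk s hs b1 b2)
    rw [abs_le]; constructor <;> linarith
  exact (el.and hp er).and hp ((eb 1 (by norm_num)).and hp ((eb 2 (by norm_num)).and hp
    (eb 3 (by norm_num))))

theorem vp1_pr (hq : 0 < q) (hS : GP (S : Set ℂ)) (hp : 0 ≤ p) (hP : HP S (A1 S z0 q) z0 q p) :
    p ^ 10 ≤ pr (A1 S z0 q) (VP1 S (A1 S z0 q) z0 q) := by
  have hD := dok (S := S) (z0 := z0) hq
  have hU := ue_u1 hq hp hP
  have hg := gateE_pr hq hS hp hP hD (k := 0) (by norm_num)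
  have hZ : Zk (A1 S z0 q) z0 q 0 ⊆ A1 S z0 q := Finset.filter_subset _ _
  have dU : Dep (A1 S z0 q) (A1 S z0 q \ Zk (A1 S z0 q) z0 q 0) (U1 S z0 q) :=
    hU.dep.mono (Finset.sdiff_subset_sdiff subset_rfl
      (fun s hs => mem_ZZ.2 ⟨0, by norm_num, hs⟩))
  have H := harris_mz hZ (Finset.empty_subset (A1 S z0 q)) (Finset.disjoint_empty_right _)
    (gate_mz (S := S) hq hD (k := 0) (by norm_num))
    (gate_dep (S := S) hq hD (k := 0) (W := A1 S z0 q \ ∅) (by norm_num)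
      (fun s hs _ => Finset.mem_sdiff.2 ⟨hs, Finset.notMem_empty s⟩))
    (MZ.of_up (W := ∅) hU.up) dU
  calc p ^ 10 = p ^ 5 * p ^ 5 := by ring
    _ ≤ _ := mul_le_mul hg hU.le (by positivity) pr_nonneg
    _ ≤ _ := H
    _ ≤ _ := pr_mono fun β _ h => ⟨h.1, h.2.1.1, h.2.1.2, by
      intro k hk
      simp only [Finset.mem_insert, Finset.mem_singleton] at hk
      rcases hk with rfl | rfl | rfl
      · exact h.2.2.1
      · exact h.2.2.2.1
      · exact h.2.2.2.2⟩

/-- there is a chain with one gate -/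
def Has (S : Finset ℂ) (z0 : ℂ) (q : ℝ) (J : Finset (ℂ × ℂ)) : Prop := ∃ c g, G1 S z0 q J c g

theorem Has.congr {J' : Finset (ℂ × ℂ)} (h : Has S z0 q J)
    (hJ : ∀ p : ℂ × ℂ, DE S p.1 p.2 → p.1 ∈ A1 S z0 q → p.2 ∈ A1 S z0 q → (p ∈ J ↔ p ∈ J')) :
    Has S z0 q J' := by
  obtain ⟨c, g, h⟩ := h
  refine ⟨c, g, h.loop, h.ann, h.wind, fun p hp hpJ => h.only p hp ?_⟩
  have i1 := h.ann _ (mem_of_prs hp).1
  have i2 := h.ann _ (mem_of_prs hp).2
  have hde := h.loop.del p hp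
  rw [hJ p hde i1 i2, hJ p.swap hde.symm i2 i1]
  exact hpJ

theorem mem_flip {G : Trg ℂ} (hG : G.T = delT S) {p : ℂ × ℂ} (hde : DE S p.1 p.2) :
    p ∈ X0Bx683.flip G J β ↔ ¬ (p ∈ J ↔ ¬ (p.1 ∈ β ↔ p.2 ∈ β)) := by
  have h : (p.1, p.2) ∈ X0Bx683.bd G β ↔ _ := J8x872.mem_bd hG
  unfold X0Bx683.flip
  rw [Finset.mem_symmDiff]
  have hA : Adj S p.1 p.2 := hde
  have h' : p ∈ X0Bx683.bd G β ↔ ¬ (p.1 ∈ β ↔ p.2 ∈ β) := by
    rw [show p = (p.1, p.2) from rfl, h]
    tauto
  rw [h']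
  tauto

theorem has_dep {G : Trg ℂ} (hG : G.T = delT S) (J : Finset (ℂ × ℂ)) :
    Dep V (A1 S z0 q) (fun β => Has S z0 q (X0Bx683.flip G J β)) := by
  intro β _
  have key : ∀ p : ℂ × ℂ, DE S p.1 p.2 → p.1 ∈ A1 S z0 q → p.2 ∈ A1 S z0 q →
      (p ∈ X0Bx683.flip G J β ↔ p ∈ X0Bx683.flip G J (β ∩ A1 S z0 q)) := by
    intro p hde h1 h2
    rw [mem_flip hG hde, mem_flip hG hde, Finset.mem_inter, Finset.mem_inter]
    tauto
  exact ⟨fun h => h.congr key, fun h => h.congr fun p a b c => (key p a b c).symm⟩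

/-- **one annulus** -/
theorem has_pr {G : Trg ℂ} (hG : G.T = delT S) (hq : 0 < q) (hS : GP (S : Set ℂ)) (hp : 0 ≤ p)
    (hP : HP S (A1 S z0 q) z0 q p) {σ : Finset ℂ} (hσ : σ ⊆ A1 S z0 q) (hJ : JF1 S z0 q J σ) :
    p ^ 10 ≤ pr (A1 S z0 q) (fun β => Has S z0 q (X0Bx683.flip G J β)) := by
  refine (vp1_pr hq hS hp hP).trans ?_
  rw [← pr_symm hσ (VP1 S (A1 S z0 q) z0 q)]
  refine pr_mono fun β hβ h => ?_
  have hsub : symmDiff β σ ⊆ A1 S z0 q := by
    intro x hx
    rcases Finset.mem_symmDiff.1 hx with h | h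
    · exact hβ h.1
    · exact hσ h.1
  refine g1_exists hq hS hsub ?_ h
  intro p hde h1 h2
  rw [mem_flip hG hde, hJ p hde h1 h2, Finset.mem_symmDiff, Finset.mem_symmDiff]
  tauto

/-- **`n` annuli** -/
theorem no_gate {G : Trg ℂ} (hG : G.T = delT S) (hq : 0 < q) (hS : GP (S : Set ℂ)) (hp : 0 ≤ p)
    {n : ℕ} (hP : ∀ j < n, HP S (A1 S z0 (2 ^ j * q)) z0 (2 ^ j * q) p)
    (hJ : ∀ j < n, ∃ σ : Finset ℂ, σ ⊆ A1 S z0 (2 ^ j * q) ∧ JF1 S z0 (2 ^ j * q) J σ)
    (hV : ∀ j < n, A1 S z0 (2 ^ j * q) ⊆ V) :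
    pr V (fun β => ∀ j ∈ Finset.range n, ¬ Has S z0 (2 ^ j * q) (X0Bx683.flip G J β)) ≤
      (1 - p ^ 10) ^ n := by
  have hdis : ∀ i ∈ Finset.range n, ∀ j ∈ Finset.range n, i ≠ j →
      Disjoint (A1 S z0 (2 ^ i * q)) (A1 S z0 (2 ^ j * q)) := by
    have key : ∀ i j : ℕ, i < j → Disjoint (A1 S z0 (2 ^ i * q)) (A1 S z0 (2 ^ j * q)) := by
      intro i j hij
      rw [Finset.disjoint_left]
      intro s h1 h2
      rw [mem_A1] at h1 h2
      have h3 : (2 : ℝ) ^ (i + 1) ≤ 2 ^ j := pow_le_pow_right₀ (by norm_num) hij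
      rw [pow_succ] at h3
      have := mul_le_mul_of_nonneg_right h3 hq.le
      linarith [h1.2.2, h2.2.1]
    intro i _ j _ hij
    rcases lt_or_gt_of_ne hij with h | h
    · exact key i j h
    · exact (key j i h).symm
  rw [pr_indep_prod (Finset.range n) hdis (fun j _ => (has_dep hG J).not)]
  have h1 : ∀ j ∈ Finset.range n,
      pr V (fun β => ¬ Has S z0 (2 ^ j * q) (X0Bx683.flip G J β)) ≤ 1 - p ^ 10 := by
    intro j hj
    rw [Finset.mem_range] at hj
    rw [pr_not, pr_dep (hV j hj) (has_dep hG J)]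
    obtain ⟨σ, hσ, hJF⟩ := hJ j hj
    have := has_pr (J := J) hG (q := 2 ^ j * q) (by positivity) hS hp (hP j hj) hσ hJF
    linarith
  refine (Finset.prod_le_prod (fun j _ => pr_nonneg) h1).trans ?_
  rw [Finset.prod_const, Finset.card_range]

/-! ### the observable -/

/-- value of the leg -/
def zt (N : Net ℂ) (t : ℂ × ℂ × ℂ) (J : Finset (ℂ × ℂ)) : ℂ :=
  ∑ k : ZMod 3, if Rk N t J k then omz k else 0

theorem norm_omz (k : ZMod 3) : ‖omz k‖ = 1 := by
  unfold omz om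
  rw [norm_pow, Complex.norm_exp_ofReal_mul_I, one_pow]

theorem norm_zt (t : ℂ × ℂ × ℂ) (J : Finset (ℂ × ℂ)) : ‖zt N t J‖ ≤ 3 := by
  unfold zt
  refine (norm_sum_le _ _).trans ?_
  have h : ∀ k ∈ (Finset.univ : Finset (ZMod 3)), ‖(if Rk N t J k then omz k else 0 : ℂ)‖ ≤ 1 := by
    intro k _
    split_ifs
    · rw [norm_omz]
    · rw [norm_zero]; exact zero_le_one
  refine (Finset.sum_le_sum h).trans ?_
  rw [Finset.sum_const, Finset.card_univ, ZMod.card]
  norm_num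

theorem hh_zt (t : ℂ × ℂ × ℂ) : hh N t = (∑ J ∈ N.tj t, zt N t J) / ((N.tj t).card : ℂ) := by
  unfold hh zt
  congr 1
  rw [Finset.sum_comm]
  refine Finset.sum_congr rfl fun k _ => ?_
  rw [← Finset.sum_filter, Finset.sum_const, nsmul_eq_mul]

/-- network which is standard in the disc `B(z0, R)` -/
structure Wd (S : Finset ℂ) (N : Net ℂ) (z0 : ℂ) (R d : ℝ) : Prop where
  hnet : HNet S N
  dns : LDns S z0 (R + d) d
  live : ∀ a b : ℂ, ‖a - z0‖ < R → (a, b) ∉ N.kl
  inner : ∀ a b : ℂ, ‖a - z0‖ < R → ¬ hullE S a b ∧ ¬ hullE S b a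

variable {R d : ℝ}

theorem Wd.free (W : Wd S N z0 R d) : FreeS S N.kl (Fs S z0 R) := by
  intro s hs x
  have hs' : ‖s - z0‖ < R := (Finset.mem_filter.1 hs).2
  exact ⟨W.live s x hs', fun h' => W.live s x hs' (N.klsym x s h'), (W.inner s x hs').1,
    (W.inner s x hs').2⟩

theorem a1_fs {n j : ℕ} (hq : 0 < q) (hR : 100 * (2 ^ n * q) ≤ R) (hj : j < n) :
    A1 S z0 (2 ^ j * q) ⊆ Fs S z0 R := by
  intro s hs
  obtain ⟨h1, -, h3⟩ := mem_A1.1 hs
  refine Finset.mem_filter.2 ⟨h1, h3.trans_le ?_⟩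
  have h4 : (2 : ℝ) ^ (j + 1) ≤ 2 ^ n := pow_le_pow_right₀ (by norm_num) hj
  rw [pow_succ] at h4
  have := mul_le_mul_of_nonneg_right h4 hq.le
  linarith

/-- winding of a chain with one gate around the near triangles -/
theorem G1.wind_gc {c : List ℂ} {g : ℂ × ℂ} (h : G1 S z0 q J c g) {T : ℂ × ℂ × ℂ}
    (hc : Cor z0 (100 * q) T) : asum (gc T) c = 2 * Real.pi := by
  have h1 := gc_near hc
  have h2 := (Complex.abs_re_le_norm (gc T - z0)).trans h1.le
  have h3 := (Complex.abs_im_le_norm (gc T - z0)).trans h1.le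
  rw [Complex.sub_re] at h2
  rw [Complex.sub_im] at h3
  exact h.wind _ h2 h3

theorem has_le_one (hp : 0 ≤ p) (hP : HP S (A1 S z0 (2 ^ 0 * q)) z0 (2 ^ 0 * q) p)
    (hq : 0 < q) : p ^ 10 ≤ 1 := by
  have hq' : 0 < 2 ^ 0 * q := by simpa using hq
  have h := (ue_u1 hq' hp hP).le.trans pr_le_one
  calc p ^ 10 = p ^ 5 * p ^ 5 := by ring
    _ ≤ 1 * 1 := mul_le_mul h h (by positivity) zero_le_one
    _ = 1 := by norm_num

/-- **the values of the observable at two triangles inside `n` annuli** -/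
theorem hh_close (W : Wd S N z0 R d) (hq : 0 < q) (hd : d ≤ q) {n : ℕ} (hn : 0 < n)
    (hR : 100 * (2 ^ n * q) ≤ R) (hp : 0 ≤ p)
    (hP : ∀ j < n, HP S (A1 S z0 (2 ^ j * q)) z0 (2 ^ j * q) p) {t t' : ℂ × ℂ × ℂ}
    (ht : t ∈ delT S) (ht' : t' ∈ delT S) (hx : InO' z0 t) (hc : Cor z0 (90 * q) t)
    (hc' : Cor z0 (90 * q) t') : ‖hh N t - hh N t'‖ ≤ 6 * (1 - p ^ 10) ^ n := by
  have H := W.hnet
  have hS := H.gp
  have hd0 := W.dns.dpos
  have h2n : (2 : ℝ) ≤ 2 ^ n := by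
    calc (2 : ℝ) = 2 ^ 1 := by norm_num
      _ ≤ 2 ^ n := pow_le_pow_right₀ (by norm_num) hn
  have hRq : 200 * q ≤ R := by
    have := mul_le_mul_of_nonneg_right h2n hq.le
    linarith
  have hgood := good_of_hnet H
  -- the reference path
  obtain ⟨gam, hg1, hg2⟩ := exists_gam H.tri W.dns W.live (r0 := 90 * q) (r := 94 * q) (by linarith)
    (by linarith) (by linarith) ht ht' hc hc'
  have hAT : ∀ u ∈ Af S z0 (94 * q), u ∈ N.T := fun u hu => by
    rw [H.tri]; exact (Finset.mem_filter.1 hu).1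
  have hAc : ∀ u ∈ Af S z0 (94 * q), Cor z0 (94 * q) u := fun u hu => (Finset.mem_filter.1 hu).2
  have hgn : ∀ p ∈ gam, ‖p.1 - z0‖ < 94 * q ∧ ‖p.2 - z0‖ < 94 * q := by
    intro p hp
    obtain ⟨u, hu, he⟩ := hg1 p hp
    exact sd_near hAc hu he
  have hpth := hg2 N.toTrg N.kl hAT (fun u hu e he => by
    have := (sd_near hAc hu he).1
    exact W.live e.1 e.2 (by linarith))
  have hav : ∀ x ∈ N.exS, x ∉ gam := by
    rintro x ⟨k, rfl⟩
    refine JCardx872.avoid_bdry hpth _ _ fun c => ?_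
    rw [H.tri]
    exact (H.hex k).2 c
  set T : Finset (ℂ × ℂ) → Finset (ℂ × ℂ) := fun J => symmDiff J gam with hT
  have hTT : ∀ J, T (T J) = J := fun J => by rw [hT]; exact symmDiff_symmDiff_cancel_right _ _
  have hm : ∀ J, J ∈ N.tj t → T J ∈ N.tj t' := by
    intro J hJ
    have h := JCardx872.xor_isJoin hpth hav (tj_join hJ)
    rw [symmDiff_symmDiff_cancel_left, symmDiff_comm] at h
    exact JCardx872.mem_joins.2 h
  have hm' : ∀ J, J ∈ N.tj t' → T J ∈ N.tj t := by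
    intro J hJ
    have h := JCardx872.xor_isJoin hpth hav (tj_join hJ)
    rw [symmDiff_comm (rots t), symmDiff_symmDiff_cancel_left, symmDiff_comm] at h
    exact JCardx872.mem_joins.2 h
  have hcard : (N.tj t).card = (N.tj t').card :=
    Finset.card_bij' (fun J _ => T J) (fun J _ => T J) hm hm' (fun J _ => hTT J) (fun J _ => hTT J)
  have hsum : ∑ J ∈ N.tj t', zt N t' J = ∑ J ∈ N.tj t, zt N t' (T J) :=
    Finset.sum_bij' (fun J _ => T J) (fun J _ => T J) hm' hm (fun J _ => hTT J) (fun J _ => hTT J)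
      (fun J _ => by rw [hTT])
  -- good joins
  set B : Finset (ℂ × ℂ) → Prop := fun J => ∀ j ∈ Finset.range n, ¬ Has S z0 (2 ^ j * q) J with hB
  have hgoodJ : ∀ J ∈ N.tj t, ¬ B J → zt N t J = zt N t' (T J) := by
    intro J hJ hnB
    rw [hB] at hnB
    push Not at hnB
    obtain ⟨j, hjr, c, g, hG⟩ := hnB
    rw [Finset.mem_range] at hjr
    have h1j : (1 : ℝ) ≤ 2 ^ j := one_le_pow₀ (by norm_num)
    have hqj : q ≤ 2 ^ j * q := le_mul_of_one_le_left hq.le h1j
    have hA1 : ∀ s ∈ c, 100 * q ≤ ‖s - z0‖ := fun s hs => by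
      have := (mem_A1.1 (hG.ann s hs)).2.1
      linarith
    have hnotg : ∀ p ∈ prs c, p ∉ gam ∧ p.swap ∉ gam := by
      intro p hp
      have i1 := hA1 _ (mem_of_prs hp).1
      have i2 := hA1 _ (mem_of_prs hp).2
      exact ⟨fun h => by linarith [(hgn _ h).1], fun h => by
        have : ‖p.2 - z0‖ < 94 * q := (hgn _ h).1
        linarith⟩
    have hGt : Gt1 S J c g := ⟨hG.loop, fun s hs => (mem_A1.1 (hG.ann s hs)).1,
      fun p hp h => Or.inl (hG.only p hp h)⟩
    have hmono : ∀ {T : ℂ × ℂ × ℂ} {r : ℝ}, Cor z0 r T → r ≤ 100 * (2 ^ j * q) →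
        asum (gc T) c ≠ 0 := by
      intro T r hT hr
      have hT' : Cor z0 (100 * (2 ^ j * q)) T :=
        ⟨hT.1.trans_le hr, hT.2.1.trans_le hr, hT.2.2.trans_le hr⟩
      rw [G1.wind_gc hG hT']
      exact (by positivity : (0 : ℝ) < 2 * Real.pi).ne'
    have hex : ∀ k, Avoid c (N.ex k) := by
      intro k
      have hh := H.hex k
      have key : ∀ p ∈ prs c, ¬ hullE S p.1 p.2 ∧ ¬ hullE S p.2 p.1 := by
        intro p hp
        have i1 := (mem_A1.1 (hG.ann _ (mem_of_prs hp).1)).2.2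
        exact W.inner p.1 p.2 (Finset.mem_filter.1 (a1_fs hq hR hjr
          (hG.ann _ (mem_of_prs hp).1))).2
      exact ⟨fun h => (key _ h).1 hh, fun h => (key _ h).2 hh⟩
    have hiff : ∀ k, Rk N t J k ↔ Rk N t' (T J) k := by
      intro k
      refine rk_iff H ht ht' hJ (hm J hJ) hGt (fun p hp => ?_) hex (hmono hc (by linarith))
        (hmono hc' (by linarith)) (fun a b x habx h0 => ?_) k
      · have := hnotg p hp
        rw [hT]
        simp only [Finset.mem_symmDiff]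
        tauto
      · have hab : (a, b) ∉ gam := by
          intro h
          obtain ⟨n1, n2⟩ := hgn _ h
          simp only at n1 n2
          refine hmono (T := (a, b, x)) (r := 97 * q) ⟨?_, ?_, ?_⟩ (by linarith) h0
          · simp only; linarith
          · simp only; linarith
          · simp only
            have h3 := Gax950.adj_len W.dns (ρ := R) le_rfl (a := a) (b := x)
              (adj_tri'' hS habx).symm (by linarith)
            have : x - z0 = (x - a) + (a - z0) := by ring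
            rw [this]
            refine (norm_add_le _ _).trans_lt ?_
            linarith
        rw [hT]
        simp only [Finset.mem_symmDiff]
        tauto
    unfold zt
    refine Finset.sum_congr rfl fun k _ => ?_
    simp only [hiff k]
  -- probability
  have hbad : (((N.tj t).filter B).card : ℝ) ≤ (N.tj t).card * (1 - p ^ 10) ^ n := by
    have hct : (((N.tj t).filter B).card : ℝ) =
        ∑ J ∈ N.tj t, pr (Fs S z0 R) (fun β => B (X0Bx683.flip N.toTrg J β)) := by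
      convert card_tj H W.free t B
    rw [hct]
    have h1 : ∀ J ∈ N.tj t, pr (Fs S z0 R) (fun β => B (X0Bx683.flip N.toTrg J β)) ≤
        (1 - p ^ 10) ^ n := by
      intro J hJ
      refine no_gate H.tri hq hS hp hP (fun j hj => ?_) (fun j hj => a1_fs hq hR hj)
      have h1j : (1 : ℝ) ≤ 2 ^ j := one_le_pow₀ (by norm_num)
      have hqj : q ≤ 2 ^ j * q := le_mul_of_one_le_left hq.le h1j
      have h4 : (2 : ℝ) ^ (j + 1) ≤ 2 ^ n := pow_le_pow_right₀ (by norm_num) hj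
      rw [pow_succ] at h4
      have h5 := mul_le_mul_of_nonneg_right h4 hq.le
      have h6 : 200 * (2 ^ j * q) ≤ R := by linarith
      exact jf1_exists H ht hx hJ (by positivity) W.dns (by linarith) (by linarith)
        (fun a b hab => W.inner a b (by linarith))
    refine (Finset.sum_le_sum h1).trans ?_
    rw [Finset.sum_const, nsmul_eq_mul]
  -- conclusion
  rcases Nat.eq_zero_or_pos (N.tj t).card with h0 | h0
  · rw [hh_zt, hh_zt, ← hcard, h0]
    simp only [Nat.cast_zero, div_zero, sub_self, norm_zero]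
    have : p ^ 10 ≤ 1 := has_le_one hp (hP 0 hn) hq
    have : 0 ≤ 1 - p ^ 10 := by linarith
    positivity
  · rw [hh_zt, hh_zt, ← hcard, hsum, ← sub_div, ← Finset.sum_sub_distrib, norm_div,
      Complex.norm_natCast, div_le_iff₀ (by exact_mod_cast h0)]
    refine (norm_sum_le _ _).trans ?_
    have h1 : ∀ J ∈ N.tj t, ‖zt N t J - zt N t' (T J)‖ ≤ if B J then 6 else 0 := by
      intro J hJ
      split_ifs with h
      · have a1 := norm_zt (N := N) t J
        have a2 := norm_zt (N := N) t' (T J)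
        have a3 := norm_sub_le (zt N t J) (zt N t' (T J))
        linarith
      · rw [hgoodJ J hJ h, sub_self, norm_zero]
    refine (Finset.sum_le_sum h1).trans ?_
    rw [← Finset.sum_filter, Finset.sum_const, nsmul_eq_mul]
    nlinarith

end Crest.Agent.R143.EQE3x63
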