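import Crest.Agent.R143.EQE3_63
import Crest.Agent.R143.EQ5_63
import Crest.Agent.R143.M3e_63
import Crest.Agent.R143.PoisM3c_501
import Crest.Agent.R143.PoisM3_930
import Crest.Agent.R143.B1_991

/-!
# Row 143 (S0194), leaf EQE, part 4 (helper63): `LEqui` from the quenched rectangle crossings `RBm`

* `mesh_of_env` : the mesh bound at one scale from M4
* `wd_of_env` : a point with room has a standard disc
* `hp_of_rbm` : crossing probabilities
* `hval_hh` : the observable at a point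
* `quenched` : the quenched estimate
* `lequi_rbm : RBm → LEqui Adm`
-/

set_option autoImplicit false

noncomputable section

namespace Crest.Agent.R143.EQE4x63

open Set MeasureTheory Filter Topology
open scoped Classical ENNReal
open Crest.ProbabilityR.Voronoi
open Crest.Agent.R143.B0x346 Crest.Agent.R143.B0Dx346 Crest.Agent.R143.Scalx63
open Crest.Agent.R143.DelGx806 Crest.Agent.R143.Circx63
open Crest.Agent.R143.Locx922
open Crest.Agent.R143.PP1x831 Crest.Agent.R143.PoisM4x501 Crest.Agent.R143.Spinex422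
open Crest.Agent.R143.EQ5x63
open Crest.Agent.R143.RB0x838 Crest.Agent.R143.RBmx838 Crest.Agent.R143.Harx315
open Crest.Agent.R143.XV2x796 Crest.Agent.R143.XV3x796
open Crest.Agent.R143.J1x872 Crest.Agent.R143.XFx903
open Crest.Agent.R143.EQE3x63
open Crest.Agent.R143.XV2x796 (ed)

variable {D : Dom} {ε d M : ℝ} {ω : Sample}

/-- **mesh bound** at one scale -/
theorem mesh_of_env (hd : 0 < d) (h : Env ε d M D.c D.L ω) {x : ℂ} {b C : ℝ} (hC : 0 ≤ C)
    (hx : Metric.closedBall x b ⊆ Metric.closedBall D.c (D.L - 2 * d)) (hdb : 2 * d ≤ b)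
    (hM : diamSum (points ε ω) (Metric.ball x (2 * b)) ≤ ENNReal.ofReal (C * (2 * b) ^ 2)) :
    ∑ t ∈ (delT (D.sites ε ω)).filter (fun t => (cT t ∩ Metric.closedBall x b).Nonempty),
      dm t ^ 2 ≤ 16 * C * b ^ 2 := by
  set F := (delT (D.sites ε ω)).filter
    (fun t => (cT t ∩ Metric.closedBall x b).Nonempty) with hF
  set P : Set (ℂ × ℂ × ℂ) := {t : ℂ × ℂ × ℂ | Del (points ε ω) t.1 t.2.1 t.2.2 ∧
    ((voronoiCell (points ε ω) t.1 ∪ voronoiCell (points ε ω) t.2.1 ∪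
      voronoiCell (points ε ω) t.2.2) ∩ Metric.ball x (2 * b)).Nonempty} with hP
  -- every triangle of `F`
  have key : ∀ t ∈ F, t ∈ P ∧
      ENNReal.ofReal (dm t ^ 2) ≤ 4 * (Metric.ediam (voronoiCell (points ε ω) t.1)) ^ 2 := by
    rintro ⟨a, b', c⟩ ht
    rw [hF, Finset.mem_filter] at ht
    obtain ⟨htS, y, hy, hyb⟩ := ht
    obtain ⟨o', hT⟩ := mem_delT_iff.1 htS
    have hyx : ‖y - x‖ ≤ b := by rw [mem_closedBall_iff_norm] at hyb; exact hyb
    have hyW : y ∈ Metric.closedBall D.c (D.L - 2 * d) := hx hyb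
    have hyT : InT y a b' c := hy
    have hDel : Del (points ε ω) a b' c := (Env.mem_delT hd h hyW hyT).1 htS
    obtain ⟨o, h1, h2, h3, h4, h5, ga, gb, gc⟩ := del_small hd (Env.hol h) hyW
      (InT.inD hT.pos hyT) hDel
    constructor
    · refine ⟨hDel, a, Or.inl (Or.inl ?_), ?_⟩
      · intro s hs
        simp
      · rw [mem_ball_iff_norm]
        have := norm_tri a y x
        linarith
    · have hdm : dm (a, b', c) ≤ 2 * ‖a - o‖ := EQ4x63.dm_le le_rfl h1.le h2.le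
      have hdm0 : 0 ≤ dm (a, b', c) := le_max_of_le_right (norm_nonneg _)
      have ha : a ∈ voronoiCell (points ε ω) a := fun s hs => by simp
      have ho : o ∈ voronoiCell (points ε ω) a := by
        intro s hs
        rw [norm_sub_rev o a, norm_sub_rev o s]
        exact h3 s hs
      have h6 : ENNReal.ofReal ‖a - o‖ ≤ Metric.ediam (voronoiCell (points ε ω) a) := by
        have := Metric.edist_le_ediam_of_mem ha ho
        rwa [edist_dist, dist_eq_norm] at this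
      calc ENNReal.ofReal (dm (a, b', c) ^ 2) ≤ ENNReal.ofReal (4 * ‖a - o‖ ^ 2) := by
            apply ENNReal.ofReal_le_ofReal
            nlinarith [norm_nonneg (a - o)]
        _ = 4 * (ENNReal.ofReal ‖a - o‖) ^ 2 := by
            rw [ENNReal.ofReal_mul (by norm_num), ENNReal.ofReal_pow (norm_nonneg _)]
            norm_num
        _ ≤ 4 * (Metric.ediam (voronoiCell (points ε ω) a)) ^ 2 := by gcongr
  have hsum : ∑ t ∈ F, ENNReal.ofReal (dm t ^ 2) ≤
      4 * diamSum (points ε ω) (Metric.ball x (2 * b)) := by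
    have e1 : diamSum (points ε ω) (Metric.ball x (2 * b)) =
        ∑' t : ℂ × ℂ × ℂ, P.indicator
          (fun t => (Metric.ediam (voronoiCell (points ε ω) t.1)) ^ 2) t := by
      rw [← tsum_subtype]
      rfl
    rw [e1]
    calc ∑ t ∈ F, ENNReal.ofReal (dm t ^ 2)
        ≤ ∑ t ∈ F, 4 * P.indicator
          (fun t => (Metric.ediam (voronoiCell (points ε ω) t.1)) ^ 2) t := by
          apply Finset.sum_le_sum
          intro t ht
          rw [Set.indicator_of_mem (key t ht).1]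
          exact (key t ht).2
      _ = 4 * ∑ t ∈ F, P.indicator
          (fun t => (Metric.ediam (voronoiCell (points ε ω) t.1)) ^ 2) t := by
          rw [Finset.mul_sum]
      _ ≤ _ := by
          gcongr
          exact ENNReal.sum_le_tsum _
  have h7 : ENNReal.ofReal (∑ t ∈ F, dm t ^ 2) ≤ ENNReal.ofReal (16 * C * b ^ 2) := by
    rw [ENNReal.ofReal_sum_of_nonneg fun t _ => sq_nonneg _]
    refine hsum.trans ((mul_le_mul_right hM 4).trans (le_of_eq ?_))
    have e2 : (4 : ℝ≥0∞) = ENNReal.ofReal 4 := by norm_num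
    rw [e2, ← ENNReal.ofReal_mul (by norm_num)]
    congr 1
    ring
  exact (ENNReal.ofReal_le_ofReal_iff (by positivity)).1 h7

/-- **a point with room has a standard disc** -/
theorem wd_of_env (hd : 0 < d) (h : Env ε d M D.c D.L ω)
    (hN : HNet (D.sites ε ω) (D.netS (D.sites ε ω))) {z : ℂ} {ρ R : ℝ} (hR : Spinex422.Room D ρ z)
    (hRρ : R + 2 * d ≤ ρ) (hdL : 4 * d ≤ D.L) :
    Wd (D.sites ε ω) (D.netS (D.sites ε ω)) z R d := by
  set S := D.sites ε ω with hS
  set W := Metric.closedBall D.c (D.L - 2 * d) with hW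
  have hH : Hol (S : Set ℂ) W d := Env.hol_sites h
  have hin : ∀ y, ‖y - z‖ ≤ ρ → ‖y - D.c‖ ≤ D.L / 2 := by
    intro y hy
    have := hR.2 (show y ∈ Metric.closedBall z ρ by rw [mem_closedBall_iff_norm]; exact hy)
    rwa [mem_closedBall_iff_norm] at this
  have hinW : ∀ y, ‖y - z‖ ≤ ρ → y ∈ W := by
    intro y hy
    rw [hW, mem_closedBall_iff_norm]
    linarith [hin y hy]
  refine ⟨hN, ⟨hN.gp, hd, ?_⟩, ?_, ?_⟩
  · intro y hy
    have h1 := hin y (by linarith)
    obtain ⟨s, hs, hsy⟩ := h.hole y (by rw [mem_closedBall_iff_norm]; linarith)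
    rw [mem_ball_iff_norm] at hsy
    refine ⟨s, (mem_sites h.fin).2 ⟨hs, ?_⟩, hsy⟩
    have := norm_tri s y D.c
    linarith
  · intro a b ha hk
    have haW := hinW a (by linarith)
    have h1 : (a, b) ∈ D.kl S := ((netS_kl_W hd hN hH haW).1).1 hk
    obtain ⟨p, hpv, hpo⟩ := h1
    have h2 := (vedge_sub_ball hd hH haW hpv).1
    have h3 := norm_tri p a z
    exact Set.disjoint_left.1 hR.1 (show p ∈ Metric.closedBall z ρ by
      rw [mem_closedBall_iff_norm]; linarith) hpo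
  · intro a b ha
    exact not_hull hd hH (hinW a (by linarith)) b

/-- **crossing probabilities** -/
theorem hp_of_rbm (hRB : RBm) : ∀ C4 : ℝ, 0 ≤ C4 → ∃ p c1 c2 K : ℝ, 0 < p ∧ 0 < c1 ∧ 0 < c2 ∧
    c2 ≤ 1 ∧ 0 < K ∧
    ∀ (S : Finset ℂ) (z0 : ℂ) (q d : ℝ), 0 < q → NvA S z0 (K * q) c2 (100 * q) d C4 →
    d ≤ c1 * q → ∀ V : Finset ℂ, V ⊆ S → HP S V z0 q p := by
  intro C4 hC4
  obtain ⟨p, c1, c2, K, hp, hc1, hc2, hc2', hK, h⟩ := rb_hcm hRB 25 (by norm_num) C4 hC4
  obtain ⟨p', c1', c3, K', hp', hc1', hc3, hc3', hK', h'⟩ := rb_vcm hRB 25 (by norm_num) C4 hC4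
  refine ⟨min p p', 100 * min c1 c1', min c2 c3, 100 * max K K', by positivity, by positivity,
    by positivity, (min_le_left _ _).trans hc2', by positivity, ?_⟩
  intro S z0 q d hq hN hd V hV
  have hq100 : 0 < 100 * q := by positivity
  have mn : ∀ {K1 c : ℝ}, K1 ≤ max K K' → min c2 c3 ≤ c →
      NvA S z0 (K1 * (100 * q)) c (100 * q) d C4 := by
    intro K1 c hK1 hc
    have e : K1 * (100 * q) ≤ 100 * max K K' * q := by nlinarith
    refine ⟨⟨hN.dns.gp, hN.dns.dpos, fun z hz => hN.dns.hole z (hz.trans e)⟩, ?_⟩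
    intro b' h1 h2 z hz
    exact hN.mesh b' ((mul_le_mul_of_nonneg_right hc hq100.le).trans h1) h2 z (hz.trans e)
  have n1 := mn (le_max_left K K') (min_le_left c2 c3)
  have n2 := mn (le_max_right K K') (min_le_right c2 c3)
  have d1 : d ≤ c1 * (100 * q) := hd.trans (by
    have := min_le_left c1 c1'
    nlinarith)
  have d2 : d ≤ c1' * (100 * q) := hd.trans (by
    have := min_le_right c1 c1'
    nlinarith)
  constructor
  · intro k x0 x1 y0 y1 a1 a2 a3 a4 a5 a6 hr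
    exact (min_le_left _ _).trans (h S z0 (100 * q) d (by positivity) n1 d1 (ed k) x0 x1 y0 y1 (2 * q)
      (norm_ed k) (by linarith) (by linarith) (by linarith) (by linarith) (by linarith)
      (by linarith) (by linarith) (by linarith) V hV hr)
  · intro k x0 x1 y0 y1 a1 a2 a3 a4 a5 a6 hr
    exact (min_le_right _ _).trans (h' S z0 (100 * q) d (by positivity) n2 d2 (ed k) x0 x1 y0 y1
      (2 * q) (norm_ed k) (by linarith) (by linarith) (by linarith) (by linarith) (by linarith)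
      (by linarith) (by linarith) (by linarith) V hV hr)

/-- **the observable at a point** of an open triangle with live sides, no mark -/
theorem hval_hh {S : Finset ℂ} {N : Net ℂ} (H : HNet S N) {z : ℂ}
    (hex : ∃ t : ℂ × ℂ × ℂ, t ∈ N.T ∧ InTri z t.1 t.2.1 t.2.2)
    (hgood : ∀ a b c, (a, b, c) ∈ delT S → InT z a b c → (a, b) ∉ N.kl ∧ (a, b) ∉ N.exS) :
    ∃ t ∈ delT S, InTri z t.1 t.2.1 t.2.2 ∧ hval N z = hh N t := by
  have hsp : ∃ a b c, (a, b, c) ∈ N.T ∧ InTri z a b c ∧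
      hval N z = (N.F a b + N.F b c + N.F c a) / 3 := by
    unfold hval
    rw [dif_pos hex]
    exact ⟨hex.choose.1, hex.choose.2.1, hex.choose.2.2, hex.choose_spec.1, hex.choose_spec.2, rfl⟩
  obtain ⟨a, b, c, h1, h2, h3⟩ := hsp
  have hg := good_of_hnet H
  have ht : (a, b, c) ∈ delT S := by rw [← H.tri]; exact h1
  have hT : InT z a b c := ⟨h2.1.le, h2.2.1.le, h2.2.2.le⟩
  have r1 := Blkx838.rot_mem ht
  have r2 := Blkx838.rot_mem r1
  have g1 := hgood a b c ht hT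
  have g2 := hgood b c a r1 ⟨hT.2.1, hT.2.2, hT.1⟩
  have g3 := hgood c a b r2 ⟨hT.2.2, hT.1, hT.2.1⟩
  refine ⟨(a, b, c), ht, h2, ?_⟩
  have ks : ∀ x y : ℂ, (x, y) ∉ N.kl → (y, x) ∉ N.kl := fun x y h h' => h (N.klsym _ _ h')
  have e1 := F_side (t := (a, b, c)) hg h1 (Rel2x63.p1all N S H _ ht) g1.1 (ks _ _ g1.1) (Or.inr g1.2)
  have e2 := F_side (t := (b, c, a)) hg (N.rot h1) (Rel2x63.p1all N S H _ r1) g2.1 (ks _ _ g2.1)
    (Or.inr g2.2)
  have e3 := F_side (t := (c, a, b)) hg (N.rot (N.rot h1)) (Rel2x63.p1all N S H _ r2) g3.1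
    (ks _ _ g3.1) (Or.inr g3.2)
  simp only at e1 e2 e3
  rw [hh_rot] at e2
  rw [hh_rot b c a, hh_rot a b c] at e3
  rw [q_rot] at e2
  rw [q_rot b c a, q_rot a b c] at e3
  rw [h3, e1, e2, e3]
  have hom : 1 + om + om * om = 0 := by
    have := B1x991.om_sum
    rwa [pow_two] at this
  have : hh N (a, b, c) + N.Q (a, b, c) + (hh N (a, b, c) + om * N.Q (a, b, c)) +
      (hh N (a, b, c) + om * (om * N.Q (a, b, c))) =
      3 * hh N (a, b, c) + (1 + om + om * om) * N.Q (a, b, c) := by ring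
  rw [this, hom]
  ring

/-- scale of the estimate -/
def q0 (ρ K : ℝ) (n : ℕ) : ℝ := min ρ 1 / (4 * 2 ^ n * (K + 200))

theorem q0_pos {ρ K : ℝ} (hρ : 0 < ρ) (hK : 0 < K) (n : ℕ) : 0 < q0 ρ K n := by
  unfold q0; positivity

theorem q0_le {ρ K : ℝ} (hK : 0 < K) (n : ℕ) : 4 * (K + 200) * (2 ^ n * q0 ρ K n) = min ρ 1 := by
  unfold q0
  have : (0 : ℝ) < 2 ^ n := by positivity
  field_simp

/-- **the quenched estimate** -/
theorem quenched {p c1 c2 K : ℝ} (hp : 0 < p) (hc1 : 0 < c1) (hc2 : 0 < c2) (hc2' : c2 ≤ 1)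
    (hK : 0 < K)
    (hHP : ∀ (S : Finset ℂ) (z0 : ℂ) (q d : ℝ), 0 < q →
      NvA S z0 (K * q) c2 (100 * q) d (16 * CM) →
      d ≤ c1 * q → ∀ V : Finset ℂ, V ⊆ S → HP S V z0 q p)
    {ρ : ℝ} (hρ : 0 < ρ) {n : ℕ} (hn : 0 < n) {D : Dom} {δ : ℝ} (hOK : D.Ad δ) :
    ∃ c3 > 0, ∀ (ε d M : ℝ) (ω : Sample), Env ε d M D.c D.L ω → 0 < d → d ≤ c3 →
      (∀ z ∈ Metric.closedBall (0 : ℂ) (‖D.c‖ + D.L + 1), ∀ r : ℝ,
        200 * c2 * q0 ρ K n ≤ r → r ≤ 1 →
        diamSum (points ε ω) (Metric.ball z r) ≤ ENNReal.ofReal (CM * r ^ 2)) →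
      ∀ z w : ℂ, Spinex422.Room D ρ z → ‖w - z‖ < q0 ρ K n →
      (∀ a ∈ points ε ω, ∀ b ∈ points ε ω, a ≠ b → cr (b - a) (z - a) ≠ 0) →
      (∀ a ∈ points ε ω, ∀ b ∈ points ε ω, a ≠ b → cr (b - a) (w - a) ≠ 0) →
      ‖D.h ε ω z - D.h ε ω w‖ ≤ 6 * (1 - p ^ 10) ^ n := by
  set q := q0 ρ K n with hqdef
  have hq : 0 < q := q0_pos hρ hK n
  have hqe : 4 * (K + 200) * (2 ^ n * q) = min ρ 1 := q0_le hK n
  have hL := hOK.Lpos
  have hδ := hOK.dpos
  refine ⟨min (min (c1 * q) (q / 2)) (min (D.L / 8) (min (50 * c2 * q)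
    (min (ρ / 8) (δ ^ 6 / (40000 * D.L ^ 5))))), ?_, ?_⟩
  · have h1 : 0 < δ ^ 6 / (40000 * D.L ^ 5) := by positivity
    positivity
  intro ε d M ω h hd hdc hM z w hRoom hzw hz hw
  have d1 : d ≤ c1 * q := hdc.trans ((min_le_left _ _).trans (min_le_left _ _))
  have d2 : d ≤ q / 2 := hdc.trans ((min_le_left _ _).trans (min_le_right _ _))
  have d3 : d ≤ D.L / 8 := hdc.trans ((min_le_right _ _).trans (min_le_left _ _))
  have d4 : d ≤ 50 * c2 * q :=
    hdc.trans ((min_le_right _ _).trans ((min_le_right _ _).trans (min_le_left _ _)))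
  have d5 : d ≤ ρ / 8 := hdc.trans ((min_le_right _ _).trans ((min_le_right _ _).trans
    ((min_le_right _ _).trans (min_le_left _ _))))
  have d6 : d ≤ δ ^ 6 / (40000 * D.L ^ 5) := hdc.trans ((min_le_right _ _).trans
    ((min_le_right _ _).trans ((min_le_right _ _).trans (min_le_right _ _))))
  have d7 : 40000 * D.L ^ 5 * d ≤ δ ^ 6 := by
    rw [le_div_iff₀ (by positivity)] at d6
    linarith
  have hN : HNet (D.sites ε ω) (D.netS (D.sites ε ω)) := Adx422.d1 hOK.w h d7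
  set S := D.sites ε ω with hSdef
  have hW : Wd S (D.netS S) z (ρ / 2) d :=
    wd_of_env hd h hN hRoom (by linarith) (by linarith)
  have hmin1 : min ρ 1 ≤ ρ := min_le_left _ _
  have hmin2 : min ρ 1 ≤ 1 := min_le_right _ _
  have h2n : (1 : ℝ) ≤ 2 ^ n := one_le_pow₀ (by norm_num)
  have hin : ∀ y, ‖y - z‖ ≤ ρ → ‖y - D.c‖ ≤ D.L / 2 := by
    intro y hy
    have := hRoom.2 (show y ∈ Metric.closedBall z ρ by rw [mem_closedBall_iff_norm]; exact hy)
    rwa [mem_closedBall_iff_norm] at this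
  -- scales
  have hsc : ∀ j < n, 4 * (K + 200) * (2 ^ j * q) ≤ min ρ 1 := by
    intro j hj
    have h1 : (2 : ℝ) ^ j ≤ 2 ^ n := pow_le_pow_right₀ (by norm_num) hj.le
    rw [← hqe]
    gcongr
  have hP : ∀ j < n, HP S (A1 S z (2 ^ j * q)) z (2 ^ j * q) p := by
    intro j hj
    have h1 := hsc j hj
    have h1j : (1 : ℝ) ≤ 2 ^ j := one_le_pow₀ (by norm_num)
    have hqj : q ≤ 2 ^ j * q := le_mul_of_one_le_left hq.le h1j
    set u := 2 ^ j * q with hu
    have hu0 : 0 < u := by positivity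
    have hKu : 4 * (K * u) + 800 * u ≤ min ρ 1 := by
      calc 4 * (K * u) + 800 * u = 4 * (K + 200) * u := by ring
        _ ≤ _ := h1
    refine hHP S z u d hu0 ⟨⟨hW.dns.gp, hd, fun y hy => hW.dns.hole y ?_⟩, ?_⟩
      (d1.trans (mul_le_mul_of_nonneg_left hqj hc1.le)) _ (Finset.filter_subset _ _)
    · nlinarith
    · intro b' hb1 hb2 y hy
      have hb0 : 200 * c2 * q ≤ 2 * b' := by
        have : c2 * (100 * q) ≤ c2 * (100 * u) := by gcongr
        linarith
      have hyz : ‖y - z‖ ≤ K * u := hy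
      refine mesh_of_env hd h CM_nonneg ?_ (by linarith) (hM y ?_ (2 * b') hb0 (by nlinarith [mul_pos hK hu0]))
      · intro x hx
        rw [mem_closedBall_iff_norm] at hx ⊢
        have e1 := norm_tri x y z
        have := hin x (by nlinarith)
        linarith
      · have e1 := hin y (by nlinarith [mul_pos hK hu0])
        rw [mem_closedBall_zero_iff]
        have := norm_add_le (y - D.c) D.c
        rw [sub_add_cancel] at this
        linarith
  -- the triangles
  have hH : Hol (S : Set ℂ) (Metric.closedBall D.c (D.L - 2 * d)) d := Env.hol_sites h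
  have hsites : ∀ s ∈ S, s ∈ points ε ω := fun s hs => ((mem_sites h.fin).1 hs).1
  have key : ∀ y : ℂ, ‖y - z‖ < q →
      (∀ a ∈ points ε ω, ∀ b ∈ points ε ω, a ≠ b → cr (b - a) (y - a) ≠ 0) →
      ∃ t ∈ delT S, InTri y t.1 t.2.1 t.2.2 ∧ D.h ε ω y = hh (D.netS S) t ∧ Cor z (90 * q) t := by
    intro y hy hl
    have hq4 : 800 * q ≤ ρ := by
      have h3 : 4 * (K + 200) * q ≤ 4 * (K + 200) * (2 ^ n * q) := by
        have : q ≤ 2 ^ n * q := le_mul_of_one_le_left hq.le h2n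
        gcongr
      have h4 : 0 < K * q := mul_pos hK hq
      nlinarith
    have hyW : y ∈ Metric.closedBall D.c (D.L - 2 * d) := by
      rw [mem_closedBall_iff_norm]
      have := hin y (by linarith)
      linarith
    have small : ∀ a b c, (a, b, c) ∈ delT S → InT y a b c →
        ‖a - y‖ < 2 * d ∧ ‖b - y‖ < 2 * d ∧ ‖c - y‖ < 2 * d := by
      intro a b c ht hyt
      obtain ⟨o', hT⟩ := mem_delT_iff.1 ht
      have hDel : Del (S : Set ℂ) a b c := mem_delT.1 ht
      obtain ⟨o, g1, g2, g3, g4, g5, g6, g7, g8⟩ :=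
        del_small hd hH hyW (InT.inD hT.pos hyt) hDel
      exact ⟨g6, g7, g8⟩
    obtain ⟨a0, b0, e0, h0, h0'⟩ := exists_tri_W hN.gp hd hH hyW
    obtain ⟨t0, ht0, hyt0⟩ := EQ4x63.inTri_of (t := (a0, b0, e0)) h0 h0'
      (fun a ha b hb => hl a (hsites a ha) b (hsites b hb))
    have hex : ∃ t : ℂ × ℂ × ℂ, t ∈ (D.netS S).T ∧ InTri y t.1 t.2.1 t.2.2 :=
      ⟨t0, by rw [hN.tri]; exact ht0, hyt0⟩
    obtain ⟨t, ht, hyt, hv⟩ := hval_hh hN hex (by
      intro a b c habc hyabc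
      have s1 := (small a b c habc hyabc).1
      have s2 := norm_tri a y z
      have s3 : ‖a - z‖ < ρ / 2 := by linarith
      refine ⟨hW.live a b s3, ?_⟩
      rintro ⟨k, hk⟩
      have := hN.hex k
      rw [hk] at this
      exact (hW.inner a b s3).1 this)
    obtain ⟨s1, s2, s3⟩ := small t.1 t.2.1 t.2.2 ht ⟨hyt.1.le, hyt.2.1.le, hyt.2.2.le⟩
    refine ⟨t, ht, hyt, hv, ?_, ?_, ?_⟩
    · have := norm_tri t.1 y z; linarith
    · have := norm_tri t.2.1 y z; linarith
    · have := norm_tri t.2.2 y z; linarith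
  obtain ⟨t, ht, hzt, ez, cz⟩ := key z (by simpa using hq) hz
  obtain ⟨t', ht', -, ew, cw⟩ := key w hzw hw
  rw [ez, ew]
  refine hh_close hW hq (by linarith) hn ?_ hp.le hP ht ht' hzt cz cw
  have h3 : 0 < K * (2 ^ n * q) := by positivity
  nlinarith

/-- **leaf LEqui of the spine, from `RBm` only** -/
theorem lequi_of (hRB : RBm) (hM3a : M3a) (hM3c : M3c) (hM3e : M3e)
    {Adm : Dom → ℝ → Prop} (hAdm : ∀ D δ, Adm D δ → D.Ad δ) : LEqui Adm := by
  intro ρ hρ η hη
  have hCM : (0 : ℝ) ≤ 16 * CM := by have := CM_nonneg; positivity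
  obtain ⟨p, c1, c2, K, hp, hc1, hc2, hc2', hK, hHP⟩ := hp_of_rbm hRB (16 * CM) hCM
  set p' := min p 1 with hp'def
  have hp' : 0 < p' := by positivity
  have hp'1 : p' ≤ 1 := min_le_right _ _
  have hHP' : ∀ (S : Finset ℂ) (z0 : ℂ) (q d : ℝ), 0 < q →
      NvA S z0 (K * q) c2 (100 * q) d (16 * CM) →
      d ≤ c1 * q → ∀ V : Finset ℂ, V ⊆ S → HP S V z0 q p' := by
    intro S z0 q d hq hNv hd V hV
    have h := hHP S z0 q d hq hNv hd V hV
    constructor
    · intro k x0 x1 y0 y1 a1 a2 a3 a4 a5 a6 hr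
      exact (min_le_left _ _).trans (h.1 k x0 x1 y0 y1 a1 a2 a3 a4 a5 a6 hr)
    · intro k x0 x1 y0 y1 a1 a2 a3 a4 a5 a6 hr
      exact (min_le_left _ _).trans (h.2 k x0 x1 y0 y1 a1 a2 a3 a4 a5 a6 hr)
  have hp10 : 0 < p' ^ 10 := by positivity
  have hp10' : p' ^ 10 ≤ 1 := pow_le_one₀ hp'.le hp'1
  -- number of scales
  obtain ⟨n0, hn0⟩ := exists_pow_lt_of_lt_one (show 0 < η / 12 by positivity)
    (show 1 - p' ^ 10 < 1 by linarith)
  set n := n0 + 1 with hndef
  have hn1 : 0 < n := Nat.succ_pos _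
  have hom : 6 * (1 - p' ^ 10) ^ n ≤ η / 2 := by
    have h1 : (1 - p' ^ 10) ^ n ≤ (1 - p' ^ 10) ^ n0 :=
      pow_le_pow_of_le_one (by linarith) (by linarith) (Nat.le_succ _)
    linarith
  have hq0 : 0 < q0 ρ K n := q0_pos hρ hK n
  refine ⟨q0 ρ K n, hq0, ?_⟩
  intro D δ hOK' G hG m hm
  have hOK := hAdm D δ hOK'
  obtain ⟨c3, hc3, hquen⟩ := quenched hp' hc1 hc2 hc2' hK hHP' hρ hn1 hOK
  set R := ‖D.c‖ + D.L + 1 with hRdef
  obtain ⟨C0, hC0, hhole⟩ := hM3c R 1
  have hrad := rad_lim C0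
  have e1 : ∀ᶠ ε : ℝ in 𝓝[>] 0, 0 < ε := eventually_mem_nhdsWithin
  have e2 : ∀ᶠ ε : ℝ in 𝓝[>] 0, ε < min (1 / 2) (η / 24) :=
    nhdsWithin_le_nhds (eventually_lt_nhds (by positivity))
  have e3 : ∀ᶠ ε : ℝ in 𝓝[>] 0, rad C0 ε < c3 := hrad.eventually_lt_const hc3
  have e4 : ∀ᶠ ε : ℝ in 𝓝[>] 0, ε * Real.log (1 / ε) ^ (8 : ℕ) < 200 * c2 * q0 ρ K n :=
    scale_lim.eventually_lt_const (by positivity)
  filter_upwards [e1, e2, e3, e4, hhole, m4u R 1, hG.hm1] with ε h1 h2 h3 h4 h5 h6 h7 z w hRz hRw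
    hLz hLw hzw
  have hε1 : ε < 1 / 2 := h2.trans_le (min_le_left _ _)
  have hε2 : ε < η / 24 := h2.trans_le (min_le_right _ _)
  have hdpos : 0 < rad C0 ε := by
    unfold rad
    have : 0 < Real.log (1 / ε) := Real.log_pos (by
      rw [lt_div_iff₀ h1]; linarith)
    positivity
  -- the bad event
  set B1 : Set Sample := {ω | ∃ z ∈ Metric.closedBall (0 : ℂ) R,
    points ε ω ∩ Metric.ball z (rad C0 ε) = ∅} with hB1
  set B2 : Set Sample := {ω | ¬ ∀ z ∈ Metric.closedBall (0 : ℂ) R, ∀ ρ : ℝ,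
      ε * Real.log (1 / ε) ^ (8 : ℕ) ≤ ρ → ρ ≤ 1 →
      diamSum (points ε ω) (Metric.ball z ρ) ≤ ENNReal.ofReal (CM * ρ ^ 2)} with hB2
  set B := toMeasurable sampleLaw (B1 ∪ B2) with hB
  have hBm : MeasurableSet B := measurableSet_toMeasurable _ _
  have hBs : B1 ∪ B2 ⊆ B := subset_toMeasurable _ _
  have hBp : sampleLaw B ≤ ENNReal.ofReal (2 * ε) := by
    rw [hB, measure_toMeasurable]
    refine (measure_union_le _ _).trans ?_
    rw [Real.rpow_one] at h5 h6
    refine (add_le_add h5 h6).trans (le_of_eq ?_)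
    rw [← ENNReal.ofReal_add h1.le h1.le]
    congr 1
    ring
  -- pointwise
  have hpt : ∀ᵐ ω ∂(sampleLaw.restrict (G ε)),
      ‖D.h ε ω z - D.h ε ω w‖ ≤ η / 2 + B.indicator (fun _ => (6 : ℝ)) ω := by
    apply ae_restrict_of_ae
    filter_upwards [hM3a ε h1, hM3e ε h1 z, hM3e ε h1 w] with ω g1 g2 g3
    by_cases hω : ω ∈ B
    · rw [Set.indicator_of_mem hω]
      have a1 := norm_h_le D ε ω z
      have a2 := norm_h_le D ε ω w
      have a3 := norm_sub_le (D.h ε ω z) (D.h ε ω w)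
      linarith
    · rw [Set.indicator_of_notMem hω, add_zero]
      have b1 : ω ∉ B1 := fun h => hω (hBs (Or.inl h))
      have b2 : ω ∉ B2 := fun h => hω (hBs (Or.inr h))
      have hholes : ∀ z ∈ Metric.closedBall (0 : ℂ) R,
          (points ε ω ∩ Metric.ball z (rad C0 ε)).Nonempty := by
        intro z hz
        by_contra hcon
        rw [Set.not_nonempty_iff_eq_empty] at hcon
        exact b1 ⟨z, hz, hcon⟩
      obtain ⟨M, hEnv⟩ := env_of (D := D) (R := R) (by linarith) hdpos g1.1 g1.2.2 hholes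
      rw [hB2, Set.mem_ofPred_eq, not_not] at b2
      refine (hquen ε (rad C0 ε) M ω hEnv hdpos h3.le ?_ z w hRz ?_ g2 g3).trans hom
      · intro y hy r hr hr1
        exact b2 y hy r (h4.le.trans hr) hr1
      · rw [← dist_eq_norm, dist_comm]; exact hzw
  -- integrals
  have hfin : IsFiniteMeasure (sampleLaw.restrict (G ε)) := by infer_instance
  have i1 : Integrable (fun ω => D.h ε ω z) (sampleLaw.restrict (G ε)) :=
    Integrable.of_bound (h7 z) 3 (ae_of_all _ fun ω => norm_h_le D ε ω z)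
  have i2 : Integrable (fun ω => D.h ε ω w) (sampleLaw.restrict (G ε)) :=
    Integrable.of_bound (h7 w) 3 (ae_of_all _ fun ω => norm_h_le D ε ω w)
  have i3 : Integrable (fun ω => η / 2 + B.indicator (fun _ => (6 : ℝ)) ω)
      (sampleLaw.restrict (G ε)) :=
    (integrable_const _).add ((integrable_const _).indicator hBm)
  unfold HG
  rw [dist_eq_norm, ← integral_sub i1 i2]
  refine (norm_integral_le_of_norm_le i3 hpt).trans ?_
  rw [integral_add (integrable_const _) ((integrable_const _).indicator hBm), integral_const,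
    integral_indicator hBm, integral_const, smul_eq_mul, smul_eq_mul]
  have p1 : (sampleLaw.restrict (G ε)).real univ ≤ 1 := by
    rw [measureReal_def, Measure.restrict_apply_univ]
    exact ENNReal.toReal_le_of_le_ofReal zero_le_one (by simpa using prob_le_one)
  have p2 : ((sampleLaw.restrict (G ε)).restrict B).real univ ≤ 2 * ε := by
    rw [measureReal_def, Measure.restrict_apply_univ]
    apply ENNReal.toReal_le_of_le_ofReal (by linarith)
    exact (Measure.restrict_apply_le _ _).trans hBp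
  nlinarith

/-- **leaf LEqui of the spine, from `RBm` only** -/
theorem lequi_rbm (hRB : RBm) {Adm : Dom → ℝ → Prop} (hAdm : ∀ D δ, Adm D δ → D.Ad δ) :
    LEqui Adm :=
  lequi_of hRB PoisM3x930.m3a PoisM3cx501.m3c M3ex63.m3e hAdm

end Crest.Agent.R143.EQE4x63
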