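import Crest.Agent.R143.Edd_798
import Crest.Agent.R143.DispJ_840
import Crest.Agent.R143.TlG_58
import Crest.Agent.R143.InpI_609

/-!
# Row 143 (S0194), RIG: the fields `idd`, `edd`, `disp` of 609's `envX_of` (helper798)

* `hitsV_local` : the hits of the position labels depend on the sites in `P` only; `hitsV_Sw`
* `fS u d j S` : fraction of the colourings without unique hit of the type `j` in the environment
  `S` (no window); `fU_fS`, `fq_fS` : every window `⊇ u.P` has this fraction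
* `fS_of_ex` : from 930's `uo` (`∃ i, card ≠ 1`) to every type
* `badN` : `exists_badN` for `fS`
* **`disp_edd`** : `idd`, `edd`, `disp` of `envX_of` (window `Wn u ε`, tiles `ta`, `tb` of 58,
  `z l = gate (l + 1) - gate l`) from: `Inp`, layers, density off `bad`, and the bound of the
  fraction at the environments off `bad` with a corridor (`0 < g` for some colouring)
* `disp_eddW` : the same for the displacement `DW` in any window `u.P ⊆ Wd ⊆ U`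
-/

set_option autoImplicit false

noncomputable section

open scoped Classical

namespace Crest.Agent.R143.Edd2x798

open MeasureTheory Set
open Crest.ProbabilityR.Voronoi
open Crest.Agent.R143.PP0x831 Crest.Agent.R143.Prodx609
open Crest.Agent.R143.NetUx346 Crest.Agent.R143.NetVx346 Crest.Agent.R143.PolyUx346
open Crest.Agent.R143.IndLoc3x279 (clr cav)
open Crest.Agent.R143.EnvIx279 Crest.Agent.R143.TlAx58
open Crest.Agent.R143.Harx315 (pr nb)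
open Crest.Agent.R143.Locx922 (Hol)
open Crest.Agent.R143.LocUx700 (deep)
open Crest.Agent.R143.Layx416 (Lay rr nn al)
open Crest.Agent.R143.LayUx416 (LayU)
open Crest.Agent.R143.MeasPx609 (Wn bdd_Wn closed_Wn P_sub_Wn)
open Crest.Agent.R143.DispIx840 (fracQ nuq zl)
open Crest.Agent.R143.DispJx840 (Vs Bs fq DW Sw_eqW disp_dI disp_fieldW)
open Crest.Agent.R143.RigCx654 (dI)
open Crest.Agent.R143.Eddx798

attribute [local instance] Crest.Agent.R143.EnvIx279.probS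

/-! ### locality of the hits -/

section loc

variable {S S' : Finset ℂ} {P Wd : Set ℂ} {L : ℂ → ZMod 3} {d : ℝ}

/-- **the hits depend on the sites in `P` only** -/
theorem hitsV_local (hd : 0 < d) (hH : Hol (S : Set ℂ) (deep P d) d)
    (h : ∀ x ∈ P, x ∈ S ↔ x ∈ S') (i : ZMod 3) (T : Set ℂ) :
    hitsV S (Vin S P d) (NetVx346.Bl S (Vin S P d) L) i T =
      hitsV S' (Vin S' P d) (NetVx346.Bl S' (Vin S' P d) L) i T := by
  rw [← LocUx700.Vin_eq hd h, LocUx700.hitsV_eq, LocUx700.hitsV_eq]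
  exact (LocTx700.sameT_local hd hH (LocUx700.agr_deep hd h)
    fun v hv => (LocUx700.mem_Vin.1 (Finset.mem_coe.1 hv)).2).hits_eq (fun _ _ => rfl) i T

theorem mem_Sw_iff (hPW : P ⊆ Wd) : ∀ x ∈ P, x ∈ S ↔ x ∈ Sw Wd S := fun x hx => by
  rw [Sw, Finset.mem_filter]
  exact ⟨fun h => ⟨h, hPW hx⟩, fun h => h.1⟩

theorem Vw_eq {u : Poly} (hd : 0 < d) (hPW : u.P ⊆ Wd) : Vw u d Wd S = Vin S u.P d :=
  (LocUx700.Vin_eq hd (mem_Sw_iff hPW)).symm

/-- **every window `⊇ u.P`** -/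
theorem hitsV_Sw {u : Poly} (hd : 0 < d) (hH : Hol (S : Set ℂ) (deep u.P d) d) (hPW : u.P ⊆ Wd)
    (i : ZMod 3) (T : Set ℂ) :
    hitsV (Sw Wd S) (Vw u d Wd S) (Bw u d Wd S) i T =
      hitsV S (Vin S u.P d) (NetVx346.Bl S (Vin S u.P d) u.Lab) i T :=
  (hitsV_local hd hH (mem_Sw_iff hPW) i T).symm

end loc

/-! ### the fraction -/

section fr

variable {V : Finset ℂ} {p q : Finset ℂ → Prop}

theorem frac_pr (V : Finset ℂ) (p : Finset ℂ → Prop) : Dispx798.frac V p = pr V p := by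
  have h1 : (nb V p : ℝ) = ∑ T ∈ V.powerset, if p T then (1 : ℝ) else 0 := by
    rw [Finset.sum_ite, Finset.sum_const_zero, add_zero, Finset.sum_const, nsmul_eq_mul, mul_one]
    rfl
  unfold pr Dispx798.frac
  rw [h1]

theorem pr_mono (h : ∀ T ⊆ V, p T → q T) : pr V p ≤ pr V q := by
  rw [← frac_pr, ← frac_pr]
  exact DispIx840.frac_mono h

/-- fraction of the colourings of the free sites without unique hit of the type `j` -/
def fS (u : Poly) (d : ℝ) (j : ZMod 3) (S : Finset ℂ) : ℝ :=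
  pr (Vin S u.P d) fun T =>
    (hitsV S (Vin S u.P d) (NetVx346.Bl S (Vin S u.P d) u.Lab) j (T : Set ℂ)).card ≠ 1

variable {u : Poly} {d θ : ℝ} {S : Finset ℂ} {Wd : Set ℂ} {j : ZMod 3}

/-- **from 930's `uo` to every type** -/
theorem fS_of_ex (h : pr (Vin S u.P d) (fun T => ∃ i,
    (hitsV S (Vin S u.P d) (NetVx346.Bl S (Vin S u.P d) u.Lab) i (T : Set ℂ)).card ≠ 1) ≤ θ)
    (j : ZMod 3) : fS u d j S ≤ θ :=
  (pr_mono fun _ _ hT => ⟨j, hT⟩).trans h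

theorem fU_fS (hd : 0 < d) (hH : Hol (S : Set ℂ) (deep u.P d) d) (hPW : u.P ⊆ Wd) :
    fU u d Wd j S = fS u d j S := by
  unfold fU fS
  rw [Vw_eq hd hPW]
  congr 1
  funext T
  rw [← Vw_eq (S := S) hd hPW, hitsV_Sw hd hH hPW, Vw_eq hd hPW]

/-- 840's fraction is `fU` -/
theorem fq_fU {ε : ℝ} (hε : 0 < ε) (hb : Bornology.IsBounded Wd) {ω : Sample}
    (h1 : (S : Set ℂ) ⊆ points ε ω) (h2 : points ε ω ∩ Wd ⊆ S) :
    fq u ε Wd j ω = fU u √ε Wd j S := by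
  unfold fq fracQ fU Vs Bs Vs Vw Bw Vw
  rw [frac_pr, Sw_eqW hε hb h1 h2]
  rfl

theorem fq_fS {ε : ℝ} (hε : 0 < ε) (hb : Bornology.IsBounded Wd) {ω : Sample}
    (h1 : (S : Set ℂ) ⊆ points ε ω) (h2 : points ε ω ∩ Wd ⊆ S)
    (hH : Hol (S : Set ℂ) (deep u.P √ε) √ε) (hPW : u.P ⊆ Wd) :
    fq u ε Wd j ω = fS u √ε j S := by
  rw [fq_fU hε hb h1 h2, fU_fS (Real.sqrt_pos.2 hε) hH hPW]

end fr

/-! ### the field -/

section field

variable {u : Poly} {ε : ℝ} {C U Wd : Set ℂ} {n : ℕ} {S : Sample → Finset ℂ}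
  {g : Set (ℂ × Bool) → ℝ} {V : ℕ → Set (ℂ × Bool) → ℂ} {a b : Set (ℂ × Bool) → ℕ}
  {m M : ℕ} {p W : ℤ → ℤ × ℤ} {A e : ℤ → ℤ} {h₀ θ ρ : ℝ} {i w : ZMod 3} {J : Finset ℕ}
  {bad : Set Sample}

/-- **one exceptional set**: density, and the fraction without unique hits, off `N` with
`P(N) ≤ 4 ρ`; the bound of the fraction is needed only at environments off `bad` with a corridor -/
theorem badN (h : Inp ε C U n S g V a b) (hWd : MeasurableSet Wd) (hb : Bornology.IsBounded Wd)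
    (hPW : u.P ⊆ Wd) (hWU : Wd ⊆ U) (g0 : 0 < ∫ ω, g (cfg ε ω) ∂sampleLaw)
    (mbad : MeasurableSet bad)
    (hbad : sampleLaw.real bad ≤ ρ * ∫ ω, g (cfg ε ω) ∂sampleLaw)
    (hH : ∀ᵐ ω ∂sampleLaw, ω ∉ bad → Hol (S ω : Set ℂ) (deep u.P √ε) √ε)
    (hG : ∀ᵐ ω ∂sampleLaw, ω ∉ bad → ∀ β ⊆ S ω, 0 < g (clr (S ω) β) →
      ∀ j, fS u √ε j (S ω) ≤ θ) :
    ∃ N : Set Sample, MeasurableSet N ∧ sampleLaw.real N ≤ 4 * ρ ∧
      ∀ᵐ ω ∂sampleLaw, ω ∉ N → Hol (S ω : Set ℂ) (deep u.P √ε) √ε ∧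
        ∀ j, fS u √ε j (S ω) ≤ θ ∧ fq u ε Wd j ω ≤ θ := by
  have hd : 0 < √ε := Real.sqrt_pos.2 h.hε
  obtain ⟨N, m1, m2, m3⟩ := exists_badN (u := u) (d := √ε) (W := Wd) (θ := θ) h hWd hWU mbad (by
    filter_upwards [hH, hG] with ω h1 h2 h3 β h4 h5 j
    rw [fU_fS hd (h1 h3) hPW]
    exact h2 h3 β h4 h5 j)
  have g1 : ∫ ω, g (cfg ε ω) ∂sampleLaw ≤ 1 := by
    have h1 : ∫ ω, g (cfg ε ω) ∂sampleLaw ≤ ∫ _ω, (1 : ℝ) ∂sampleLaw := by
      refine integral_mono_of_nonneg (ae_of_all _ fun ω => h.g0 _) (integrable_const _)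
        (ae_of_all _ fun ω => h.g1 _)
    refine h1.trans (le_of_eq ?_)
    rw [integral_const, probReal_univ, one_smul]
  have ρ0 : 0 ≤ ρ := by
    by_contra hc
    have h1 := measureReal_nonneg (μ := sampleLaw) (s := bad)
    have h2 := mul_neg_of_neg_of_pos (not_le.1 hc) g0
    linarith
  have hN : sampleLaw.real N ≤ 3 * ρ := by
    by_contra hc
    have h1 := mul_lt_mul_of_pos_right (not_le.1 hc) g0
    linarith
  have hb' : sampleLaw.real bad ≤ ρ := by nlinarith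
  refine ⟨N ∪ bad, m1.union mbad, ?_, ?_⟩
  · have h1 := measureReal_union_le (μ := sampleLaw) N bad
    linarith
  · filter_upwards [m2, hH, h.hSU] with ω h1 h2 h3 h4
    rw [mem_union, not_or] at h4
    have h5 := h2 h4.2
    refine ⟨h5, fun j => ?_⟩
    have h6 := h1 h4.1 j
    have h7 := fq_fU (u := u) (j := j) h.hε hb h3.1 ((inter_subset_inter_right _ hWU).trans h3.2)
    rw [h7, ← fU_fS (Wd := Wd) hd h5 hPW]
    exact ⟨h6, h6⟩

/-- the labelled sites are near their gates -/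
theorem gates_near (hε : 0 < ε) (H : LayU u m M p W A e) (hh : (m : ℝ) * h₀ = u.s)
    (hb : Bornology.IsBounded Wd) (hPW : u.P ⊆ Wd) {S : Finset ℂ} {ω : Sample}
    (h1 : (S : Set ℂ) ⊆ points ε ω) (h2 : points ε ω ∩ Wd ⊆ S)
    (hH : Hol (S : Set ℂ) (deep u.P √ε) √ε) :
    (∀ v ∈ Bs u ε Wd ω (w + 1),
      dist (gt h₀ W A e w (tlz (gt h₀ W A e w) (rr A e w) (nn A e w) v)) v ≤ 8 * h₀ + 2 * √ε) ∧
    (∀ v ∈ Bs u ε Wd ω (w + 2),
      dist (gt h₀ W A e w (tlz (gt h₀ W A e w) 0 (rr A e w) v)) v ≤ 8 * h₀ + 2 * √ε) := by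
  have hd : 0 < √ε := Real.sqrt_pos.2 hε
  have h3 : Hol ((Dbl2x609.Ap ε Wd ω : Finset ℂ) : Set ℂ) (deep u.P √ε) √ε := by
    rw [← Sw_eqW hε hb h1 h2]
    exact TlGx58.hol_Sw hPW hH
  exact ⟨fun v hv => TlGx58.tl_near2 H hh hd h3 hv, fun v hv => TlGx58.tl_near1 H hh hd h3 hv⟩

/-- **the fields `idd`, `edd`, `disp`** for the displacement in any window `u.P ⊆ Wd ⊆ U` -/
theorem disp_eddW (h : Inp ε C U n S g V a b) (hWd : MeasurableSet Wd)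
    (hb : Bornology.IsBounded Wd) (hPW : u.P ⊆ Wd) (hWU : Wd ⊆ U)
    (H : LayU u m M p W A e) (hh : (m : ℝ) * h₀ = u.s)
    (hJ : J ⊆ Finset.range (nn A e w)) {R : ℝ} (hR : 0 ≤ R) (hRW : ∀ v ∈ Wd, ‖v‖ ≤ R)
    (hθ : 0 ≤ θ) (g0 : 0 < ∫ ω, g (cfg ε ω) ∂sampleLaw) (mbad : MeasurableSet bad)
    (hbad : sampleLaw.real bad ≤ ρ * ∫ ω, g (cfg ε ω) ∂sampleLaw)
    (hH : ∀ᵐ ω ∂sampleLaw, ω ∉ bad → Hol (S ω : Set ℂ) (deep u.P √ε) √ε)
    (hG : ∀ᵐ ω ∂sampleLaw, ω ∉ bad → ∀ β ⊆ S ω, 0 < g (clr (S ω) β) →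
      ∀ j, fS u √ε j (S ω) ≤ θ) :
    ∃ dd : Sample → ℝ, Integrable dd sampleLaw ∧
      ∫ ω, dd ω ∂sampleLaw ≤
        (2 * (8 * h₀ + 2 * √ε) + ((Finset.range (nn A e w) \ J).card : ℝ) * h₀) +
          (2 * R + nn A e w * h₀) * (2 * θ + 4 * ρ) ∧
      ∀ᵐ ω ∂sampleLaw, ‖DW u ε Wd ω w - ∑ l ∈ J, zl h₀ W A e w l *
          ((qo S (ta u √ε h₀ Wd W A e w) (tb u √ε h₀ Wd W A e w) l ω : ℝ) : ℂ)‖ ≤ dd ω := by
  obtain ⟨N, mN, hN, hN'⟩ := badN (u := u) (θ := θ) h hWd hb hPW hWU g0 mbad hbad hH hG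
  have h0 : 0 ≤ h₀ := (H.h_pos hh).le
  have hS : ∀ᵐ ω ∂sampleLaw, (S ω : Set ℂ) ⊆ points ε ω ∧ points ε ω ∩ Wd ⊆ S ω := by
    filter_upwards [h.hSU] with ω h3
    exact ⟨h3.1, (inter_subset_inter_right _ hWU).trans h3.2⟩
  have hc : 0 ≤ 8 * h₀ + 2 * √ε := by positivity
  obtain ⟨i1, i2, i3⟩ := disp_fieldW (u := u) (w := w) (c := 8 * h₀ + 2 * √ε) h.hε H.lay h0 hb hJ
    hc hR hθ hRW S hS mN
    (by
      filter_upwards [hS, hN'] with ω h1 h2 h3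
      exact (gates_near h.hε H hh hb hPW h1.1 h1.2 (h2 h3).1).1)
    (by
      filter_upwards [hS, hN'] with ω h1 h2 h3
      exact (gates_near h.hε H hh hb hPW h1.1 h1.2 (h2 h3).1).2)
    (by
      filter_upwards [hN'] with ω h2 h3
      exact ⟨((h2 h3).2 _).2, ((h2 h3).2 _).2⟩)
  refine ⟨_, i1, ?_, i3⟩
  rw [i2]
  have h5 : 0 ≤ 2 * R + nn A e w * h₀ := by positivity
  have h6 := mul_le_mul_of_nonneg_left (show 2 * θ + sampleLaw.real N ≤ 2 * θ + 4 * ρ by linarith)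
    h5
  linarith

/-- **the fields `idd`, `edd`, `disp` of 609's `envX_of`** at the type `i` (`w = i + 2`) -/
theorem disp_edd (h : Inp ε C U n S g V a b) (hε1 : ε ≤ 1) (hWU : Wn u ε ⊆ U)
    (H : LayU u m M p W A e) (hh : (m : ℝ) * h₀ = u.s) (hw : w = i + 2)
    (hJ : J ⊆ Finset.range (nn A e w))
    (hθ : 0 ≤ θ) (g0 : 0 < ∫ ω, g (cfg ε ω) ∂sampleLaw) (mbad : MeasurableSet bad)
    (hbad : sampleLaw.real bad ≤ ρ * ∫ ω, g (cfg ε ω) ∂sampleLaw)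
    (hH : ∀ᵐ ω ∂sampleLaw, ω ∉ bad → Hol (S ω : Set ℂ) (deep u.P √ε) √ε)
    (hG : ∀ᵐ ω ∂sampleLaw, ω ∉ bad → ∀ β ⊆ S ω, 0 < g (clr (S ω) β) →
      ∀ j, fS u √ε j (S ω) ≤ θ) :
    ∃ dd : Sample → ℝ, Integrable dd sampleLaw ∧
      ∫ ω, dd ω ∂sampleLaw ≤
        (2 * (8 * h₀ + 2 * √ε) + ((Finset.range (nn A e w) \ J).card : ℝ) * h₀) +
          (2 * InpIx609.Mb u + nn A e w * h₀) * (2 * θ + 4 * ρ) ∧
      ∀ᵐ ω ∂sampleLaw, ‖dI (PolyMx346.m u ε ω) i -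
          ∑ l ∈ J, (gt h₀ W A e w (l + 1) - gt h₀ W A e w l) *
          ((qo S (ta u √ε h₀ (Wn u ε) W A e w) (tb u √ε h₀ (Wn u ε) W A e w) l ω : ℝ) : ℂ)‖ ≤
            dd ω := by
  have hPW := P_sub_Wn u ε
  have hb := bdd_Wn u ε
  obtain ⟨N, mN, hN, hN'⟩ := badN (u := u) (θ := θ) h (closed_Wn u ε).measurableSet hb hPW hWU g0
    mbad hbad hH hG
  have h0 : 0 ≤ h₀ := (H.h_pos hh).le
  have hS : ∀ᵐ ω ∂sampleLaw, (S ω : Set ℂ) ⊆ points ε ω ∧ points ε ω ∩ Wn u ε ⊆ S ω := by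
    filter_upwards [h.hSU] with ω h3
    exact ⟨h3.1, (inter_subset_inter_right _ hWU).trans h3.2⟩
  have hc : 0 ≤ 8 * h₀ + 2 * √ε := by positivity
  have hR : 0 ≤ InpIx609.Mb u := (InpIx609.Mb_pos u).le
  obtain ⟨i1, i2, i3⟩ := disp_dI (u := u) (w := w) (c := 8 * h₀ + 2 * √ε) h.hε H.lay h0 hw hJ
    hc hR hθ (fun v hv => InpIx609.norm_Wn u hε1 hv) S hS mN
    (by
      filter_upwards [hS, hN'] with ω h1 h2 h3
      exact (gates_near h.hε H hh hb hPW h1.1 h1.2 (h2 h3).1).1)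
    (by
      filter_upwards [hS, hN'] with ω h1 h2 h3
      exact (gates_near h.hε H hh hb hPW h1.1 h1.2 (h2 h3).1).2)
    (by
      filter_upwards [hN'] with ω h2 h3
      exact ⟨((h2 h3).2 _).2, ((h2 h3).2 _).2⟩)
  refine ⟨_, i1, ?_, i3⟩
  rw [i2]
  have h5 : 0 ≤ 2 * InpIx609.Mb u + nn A e w * h₀ := by positivity
  have h6 := mul_le_mul_of_nonneg_left (show 2 * θ + sampleLaw.real N ≤ 2 * θ + 4 * ρ by linarith)
    h5
  linarith

end field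

end Crest.Agent.R143.Edd2x798
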