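import Crest.Agent.R143.Blk_838

/-!
# Row 143 (S0194), LOCX (C5): a Delaunay edge through a dense region is short (helper165)

* **`short_edge`** : if every point within `d` of `w` has a site of `S` at distance `< d`, then both
  ends of a Delaunay edge which contains `w` are at distance `< 3 d` from `w`
  (`short_edge'` : the form `< 4 d` of 776's list)
* `short_edge_hol` : the same with `Hol`-type hypothesis on a set
-/

set_option autoImplicit false

noncomputable section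

open scoped Classical

namespace Crest.Agent.R143.EdgSx165

open Crest.Agent.R143.B0x346 Crest.Agent.R143.DelGx806
open Crest.Agent.R143.Blkx838 (DE)

variable {S : Finset ℂ}

/-- the empty disc of a Delaunay edge -/
theorem disc {u v : ℂ} (h : DE S u v) : ∃ c : ℂ, ‖v - c‖ = ‖u - c‖ ∧ ∀ s ∈ S, ‖u - c‖ ≤ ‖s - c‖ := by
  rcases h with ⟨c, h⟩ | ⟨c, h⟩
  · obtain ⟨-, -, -, -, o, h1, -, h3⟩ := mem_delT.1 h
    exact ⟨o, h1, h3⟩
  · obtain ⟨-, -, -, -, o, h1, -, h3⟩ := mem_delT.1 h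
    exact ⟨o, h1.symm, fun s hs => by rw [h1]; exact h3 s hs⟩

/-- **a Delaunay edge through a dense region is short** -/
theorem short_edge3 {d : ℝ} {w u v : ℂ} (hd : 0 < d)
    (hol : ∀ z : ℂ, ‖z - w‖ ≤ d → ∃ s ∈ S, ‖s - z‖ < d) (h : DE S u v)
    (hw : w ∈ segment ℝ u v) : ‖u - w‖ < 3 * d ∧ ‖v - w‖ < 3 * d := by
  obtain ⟨c, h1, h2⟩ := disc h
  -- the point is in the disc
  have hwc : ‖w - c‖ ≤ ‖u - c‖ := by
    have hb : segment ℝ u v ⊆ Metric.closedBall c ‖u - c‖ :=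
      (convex_closedBall c ‖u - c‖).segment_subset
        (by rw [Metric.mem_closedBall, dist_eq_norm]) (by rw [Metric.mem_closedBall, dist_eq_norm, h1])
    have := hb hw
    rwa [Metric.mem_closedBall, dist_eq_norm] at this
  -- the centre is near
  have hlt : ‖w - c‖ < d := by
    by_contra hc
    push Not at hc
    have h0 : 0 < ‖w - c‖ := lt_of_lt_of_le hd hc
    have hne : (‖w - c‖ : ℂ) ≠ 0 := by exact_mod_cast h0.ne'
    obtain ⟨s, hs, hsz⟩ := hol (w + ((d / ‖w - c‖ : ℝ) : ℂ) * (c - w)) (by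
      rw [add_sub_cancel_left, norm_mul, Complex.norm_real, Real.norm_eq_abs,
        abs_of_nonneg (div_nonneg hd.le h0.le), norm_sub_rev c w, div_mul_cancel₀ _ h0.ne'])
    have h3 : ‖w + ((d / ‖w - c‖ : ℝ) : ℂ) * (c - w) - c‖ = ‖w - c‖ - d := by
      have e : w + ((d / ‖w - c‖ : ℝ) : ℂ) * (c - w) - c
          = (((1 - d / ‖w - c‖ : ℝ)) : ℂ) * (w - c) := by
        push_cast
        ring
      rw [e, norm_mul, Complex.norm_real, Real.norm_eq_abs, abs_of_nonneg, sub_mul, one_mul,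
        div_mul_cancel₀ _ h0.ne']
      have : d / ‖w - c‖ ≤ 1 := (div_le_one h0).2 hc
      linarith
    have h4 := h2 s hs
    have h5 : ‖s - c‖ ≤ ‖s - (w + ((d / ‖w - c‖ : ℝ) : ℂ) * (c - w))‖
        + ‖w + ((d / ‖w - c‖ : ℝ) : ℂ) * (c - w) - c‖ := norm_sub_le_norm_sub_add_norm_sub _ _ _
    linarith
  -- the disc is small
  obtain ⟨s, hs, hsw⟩ := hol w (by rw [sub_self, norm_zero]; exact hd.le)
  have h4 := h2 s hs
  have h5 : ‖s - c‖ ≤ ‖s - w‖ + ‖w - c‖ := norm_sub_le_norm_sub_add_norm_sub _ _ _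
  have h6 : ‖u - w‖ ≤ ‖u - c‖ + ‖c - w‖ := norm_sub_le_norm_sub_add_norm_sub _ _ _
  have h7 : ‖v - w‖ ≤ ‖v - c‖ + ‖c - w‖ := norm_sub_le_norm_sub_add_norm_sub _ _ _
  rw [norm_sub_rev c w] at h6 h7
  constructor <;> linarith

/-- **776's (C5)** -/
theorem short_edge {d : ℝ} {w u v : ℂ} (hd : 0 < d)
    (hol : ∀ z : ℂ, ‖z - w‖ ≤ d → ∃ s ∈ S, ‖s - z‖ < d) (h : DE S u v)
    (hw : w ∈ segment ℝ u v) : ‖u - w‖ < 4 * d ∧ ‖v - w‖ < 4 * d := by
  obtain ⟨h1, h2⟩ := short_edge3 hd hol h hw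
  constructor <;> linarith

/-- contrapositive : `w` at distance `≥ 4 d` from one of the ends is not on the edge -/
theorem far_edge {d : ℝ} {w u v : ℂ} (hd : 0 < d)
    (hol : ∀ z : ℂ, ‖z - w‖ ≤ d → ∃ s ∈ S, ‖s - z‖ < d) (h : DE S u v)
    (hf : 4 * d ≤ ‖u - w‖ ∨ 4 * d ≤ ‖v - w‖) : w ∉ segment ℝ u v := fun hw => by
  obtain ⟨h1, h2⟩ := short_edge hd hol h hw
  rcases hf with hf | hf <;> linarith

end Crest.Agent.R143.EdgSx165
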