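import Crest.Agent.R143.Tiling2_395
import Crest.Agent.R143.DomB_722

/-!
# Row 143 (S0194), part B: the energy bound for the networks of a domain (helper395)

* `Cls N cls` : classes of boundary sites: disjoint, connected through walls, containing the ends of
  the marks, every wall is in one class.
* `Cls.sides` : `Sides2`.
* `ClsP` : the classes exist for the networks of a domain (block D2, helper722).
* `energy_dom`, `dis_dom` : T2, T1 (for `D.OK`; the final forms are in `En12A_395`, `ENBA_395`).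
-/

set_option autoImplicit false

noncomputable section

namespace Crest.Agent.R143.En12x395

open Set MeasureTheory Filter Topology
open scoped Classical
open Crest.ProbabilityR.Voronoi
open Crest.Agent.R143.B0x346 Crest.Agent.R143.B0Dx346 Crest.Agent.R143.Sidesx697
open Crest.Agent.R143.Tiling2x395 Crest.Agent.R143.DomAx722 Crest.Agent.R143.DomBx722

/-- the classes of boundary sites -/
structure Cls (N : Net ℂ) (cls : ZMod 3 → Set ℂ) : Prop where
  dis : ∀ i j, i ≠ j → Disjoint (cls i) (cls j)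
  con : ∀ k, ∀ x ∈ cls k, ∀ y ∈ cls k, Relation.ReflTransGen (Wall N) x y
  e1 : ∀ k, (N.ex k).1 ∈ cls (k - 1)
  e2 : ∀ k, (N.ex k).2 ∈ cls k
  wall : ∀ x y, Wall N x y → ∃ k, x ∈ cls k ∧ y ∈ cls k

theorem Cls.side_iff {N : Net ℂ} {cls : ZMod 3 → Set ℂ} (h : Cls N cls) {k : ZMod 3} {v : ℂ} :
    Side N k v ↔ v ∈ cls k := by
  constructor
  · intro hs
    unfold Side at hs
    induction hs with
    | refl => exact h.e2 k
    | tail _ hw ih =>
      obtain ⟨j, h1, h2⟩ := h.wall _ _ hw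
      have : j = k := by
        by_contra hne
        exact Set.disjoint_left.1 (h.dis j k hne) h1 ih
      rwa [this] at h2
  · intro hv
    exact h.con k _ (h.e2 k) _ hv

/-- the description of the boundary from the classes -/
theorem Cls.sides {S : Finset ℂ} {N : Net ℂ} (hN : HNet S N) {cls : ZMod 3 → Set ℂ}
    (h : Cls N cls) : Sides2 N (innS S N) (arcS N) := by
  apply sides2_of hN
  · intro v i j hi hj
    rw [h.side_iff] at hi hj
    by_contra hne
    exact Set.disjoint_left.1 (h.dis i j hne) hi hj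
  · intro a b c ht hk
    have hw : Wall N a b := by
      refine ⟨(JCardx872.mem_E_of_tri ht).1, ?_, not_sw hN ht, Or.inl hk⟩
      rintro ⟨k, e⟩
      exact hN.live k (e ▸ hk)
    obtain ⟨k, h1, -⟩ := h.wall _ _ hw
    exact ⟨k, h.side_iff.2 h1⟩

/-- **the classes exist** (block D2) -/
def ClsP : Prop := ∀ (D : Dom) (δ d : ℝ) (S : Finset ℂ), D.OK δ → Dns S D.c D.L d →
  400 * (D.L * d) ≤ δ ^ 2 → HNet S (D.netS S) → ∃ cls, Cls (D.netS S) cls

/-- the boundary of the network of a domain -/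
theorem sides_dom (hC : ClsP) {D : Dom} {δ d : ℝ} {S : Finset ℂ} (hD : D.OK δ)
    (hS : Dns S D.c D.L d) (hd : 400 * (D.L * d) ≤ δ ^ 2) (hN : HNet S (D.netS S)) :
    Sides2 (D.netS S) (innS S (D.netS S)) (arcS (D.netS S)) := by
  obtain ⟨cls, h⟩ := hC D δ d S hD hS hd hN
  exact h.sides hN

theorem small_of {L δ d : ℝ} (hL : 0 < L) (hδ : 0 < δ) (hδL : δ < L) (hd : 0 < d)
    (h : 40000 * L ^ 5 * d ≤ δ ^ 6) : 8 * d ≤ L ∧ 400 * (L * d) ≤ δ ^ 2 := by
  have h1 : δ ^ 4 ≤ L ^ 4 := pow_le_pow_left₀ hδ.le hδL.le 4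
  have h2 : δ ^ 6 ≤ δ ^ 2 * L ^ 4 := by
    calc δ ^ 6 = δ ^ 2 * δ ^ 4 := by ring
      _ ≤ δ ^ 2 * L ^ 4 := mul_le_mul_of_nonneg_left h1 (by positivity)
  have h3 : (40000 * (L * d)) * L ^ 4 ≤ δ ^ 2 * L ^ 4 := by
    calc (40000 * (L * d)) * L ^ 4 = 40000 * L ^ 5 * d := by ring
      _ ≤ δ ^ 6 := h
      _ ≤ _ := h2
  have h4 : 40000 * (L * d) ≤ δ ^ 2 := le_of_mul_le_mul_right h3 (by positivity)
  have h5 : δ ^ 2 ≤ L ^ 2 := pow_le_pow_left₀ hδ.le hδL.le 2
  have h6 : 0 < L * d := by positivity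
  refine ⟨?_, by linarith⟩
  have h7 : L * (40000 * d) ≤ L * L := by nlinarith
  have h8 := le_of_mul_le_mul_left h7 hL
  linarith

/-- dense sites, network and boundary for a good environment -/
theorem dom_data (hC : ClsP) {D : Dom} {δ ε d M : ℝ} {ω : Sample} (hD : D.OK δ)
    (hω : Env ε d M D.c D.L ω) (hd : 40000 * D.L ^ 5 * d ≤ δ ^ 6) :
    Dns (D.sites ε ω) D.c D.L d ∧ 400 * (D.L * d) ≤ δ ^ 2 ∧
      HNet (D.sites ε ω) (D.netS (D.sites ε ω)) ∧
      Sides2 (D.netS (D.sites ε ω)) (innS (D.sites ε ω) (D.netS (D.sites ε ω)))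
        (arcS (D.netS (D.sites ε ω))) := by
  have hS := dns_of_env hD.Lpos (small_d hD.Lpos hD.dpos (lt_L hD).le hd) hω
  obtain ⟨-, h400⟩ := small_of hD.Lpos hD.dpos (lt_L hD) hS.dpos hd
  have hN := d1 hD hω hd
  exact ⟨hS, h400, hN, sides_dom hC hD hS h400 hN⟩

/-- **energy bound for a domain** -/
theorem energy_dom (hE : E3) (hC : ClsP) {D : Dom} {δ ε d M : ℝ} {ω : Sample} (hD : D.OK δ)
    (hω : Env ε d M D.c D.L ω) (hd : 40000 * D.L ^ 5 * d ≤ δ ^ 6)
    {U : Finset (ℂ × ℂ × ℂ)} (hU : U ⊆ delT (D.sites ε ω)) :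
    ∑ t ∈ U, ‖(D.netS (D.sites ε ω)).Q t‖ ^ 2 ≤ 12 := by
  obtain ⟨-, -, hN, hB⟩ := dom_data hC hD hω hd
  exact energy2 hN hE hB hU

/-- **T1 for a domain**: the drawn triangles are disjoint -/
theorem dis_dom (hE : E3) (hC : ClsP) {D : Dom} {δ ε d M : ℝ} {ω : Sample} (hD : D.OK δ)
    (hω : Env ε d M D.c D.L ω) (hd : 40000 * D.L ^ 5 * d ≤ δ ^ 6)
    {U : Finset (ℂ × ℂ × ℂ)} (hU : U ⊆ delT (D.sites ε ω))
    (hrep : ∀ s ∈ U, ∀ t ∈ U, s ≠ t → t ∉ rots s) :
    Rswx63.Dis U (Rswx63.hcen (D.netS (D.sites ε ω))) (D.netS (D.sites ε ω)).Q := by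
  obtain ⟨-, -, hN, hB⟩ := dom_data hC hD hω hd
  exact dis2 hN hE hB hU hrep

end Crest.Agent.R143.En12x395
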