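import Crest.Agent.R143.BC0_336

/-!
# Row 143 (S0194), BC6: the end theorem of the analysis (helper336)

* `ulim` : pointwise limits of bounded families along an ultrafilter
* `unif_of_equi` : asymptotic equicontinuity makes the pointwise limit along an ultrafilter
  uniform on compact sets
* `end_core` : END THEOREM : the discrete observables `H i`, smooth approximations `g i` with
  vanishing `dbar`, asymptotic boundary conditions, and the value `c i` (crossing probability)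
  read off near `b` : `c i → crossingFormula x`
-/

set_option autoImplicit false

noncomputable section

namespace Crest.Agent.R143.EndAx336

open Complex Set Filter Topology MeasureTheory
open Crest.ProbabilityR.Voronoi Crest.Agent.R143.BC0x336

variable {ι : Type} {D : Set ℂ} {H : ι → ℂ → ℂ} {M : ℝ}

/-- pointwise limits of bounded families along an ultrafilter -/
theorem exists_ulim (U : Ultrafilter ι) (hM : ∀ i, ∀ z ∈ D, ‖H i z‖ ≤ M) :
    ∃ h : ℂ → ℂ, (∀ z ∈ D, ‖h z‖ ≤ M) ∧ ∀ z ∈ D, Tendsto (fun i => H i z) U (𝓝 (h z)) := by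
  have key : ∀ z : ℂ, ∃ y : ℂ, z ∈ D → (‖y‖ ≤ M ∧ Tendsto (fun i => H i z) U (𝓝 y)) := by
    intro z
    by_cases hz : z ∈ D
    · have h1 : ((U.map fun i => H i z : Ultrafilter ℂ) : Filter ℂ) ≤
          𝓟 (Metric.closedBall 0 M) := by
        rw [le_principal_iff]
        show (fun i => H i z) ⁻¹' Metric.closedBall 0 M ∈ (U : Filter ι)
        refine Filter.univ_mem' fun i => ?_
        show H i z ∈ Metric.closedBall 0 M
        rw [mem_closedBall_zero_iff]
        exact hM i z hz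
      obtain ⟨y, hy, hy2⟩ := (isCompact_closedBall (0 : ℂ) M).ultrafilter_le_nhds _ h1
      refine ⟨y, fun _ => ⟨by rwa [mem_closedBall_zero_iff] at hy, hy2⟩⟩
    · exact ⟨0, fun h => absurd h hz⟩
  choose h hh using key
  exact ⟨h, fun z hz => (hh z hz).1, fun z hz => (hh z hz).2⟩

/-- asymptotic equicontinuity on compact sets -/
def AEqui (D : Set ℂ) (l : Filter ι) (H : ι → ℂ → ℂ) : Prop :=
  ∀ K, IsCompact K → K ⊆ D → ∀ η > 0, ∃ δ > 0, ∀ᶠ i in l, ∀ z ∈ K, ∀ w ∈ K, dist z w < δ →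
    dist (H i z) (H i w) ≤ η

theorem AEqui.mono {l l' : Filter ι} (h : AEqui D l H) (hl : l' ≤ l) : AEqui D l' H := by
  intro K hK hKD η hη
  obtain ⟨δ, hδ, h1⟩ := h K hK hKD η hη
  exact ⟨δ, hδ, hl h1⟩

/-- pointwise convergence and asymptotic equicontinuity give uniform convergence on compact sets -/
theorem unif_of_equi {l : Filter ι} [l.NeBot] (he : AEqui D l H) {h : ℂ → ℂ}
    (hp : ∀ z ∈ D, Tendsto (fun i => H i z) l (𝓝 (h z))) {K : Set ℂ} (hK : IsCompact K)
    (hKD : K ⊆ D) : TendstoUniformlyOn H h l K := by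
  rw [Metric.tendstoUniformlyOn_iff]
  intro η hη
  obtain ⟨δ, hδ, h1⟩ := he K hK hKD (η / 4) (by linarith)
  -- modulus of continuity of the limit
  have h2 : ∀ z ∈ K, ∀ w ∈ K, dist z w < δ → dist (h z) (h w) ≤ η / 4 := by
    intro z hz w hw hzw
    refine le_of_tendsto ((hp z (hKD hz)).dist (hp w (hKD hw))) ?_
    filter_upwards [h1] with i hi using hi z hz w hw hzw
  obtain ⟨t, htK, htf, ht⟩ := hK.finite_cover_balls hδ
  have h3 : ∀ᶠ i in l, ∀ z ∈ t, dist (h z) (H i z) < η / 4 := by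
    rw [eventually_all_finite htf]
    intro z hz
    have := (hp z (hKD (htK hz)))
    filter_upwards [Metric.tendsto_nhds.1 this (η / 4) (by linarith)] with i hi
    rwa [dist_comm]
  filter_upwards [h1, h3] with i hi1 hi3 z hz
  obtain ⟨c, hc, hzc⟩ : ∃ c ∈ t, z ∈ Metric.ball c δ := by simpa using ht hz
  have hzc' : dist z c < δ := hzc
  calc dist (h z) (H i z) ≤ dist (h z) (h c) + dist (h c) (H i c) + dist (H i c) (H i z) :=
        dist_triangle4 _ _ _ _
    _ ≤ η / 4 + η / 4 + η / 4 := by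
        refine add_le_add (add_le_add (h2 z hz c (htK hc) hzc') (hi3 c hc).le) ?_
        exact hi1 c (htK hc) z hz (by rwa [dist_comm])
    _ < η := by linarith

/-- asymptotic boundary condition at `p` -/
def ALB (D : Set ℂ) (l : Filter ι) (H : ι → ℂ → ℂ) (A B p : ℂ) : Prop :=
  ∀ η > 0, ∃ δ > 0, ∀ᶠ i in l, ∀ z ∈ D, dist z p < δ → |((H i z - A) / B).im| ≤ η

theorem ALB.mono {l l' : Filter ι} {A B p : ℂ} (h : ALB D l H A B p) (hl : l' ≤ l) :
    ALB D l' H A B p := by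
  intro η hη
  obtain ⟨δ, hδ, h1⟩ := h η hη
  exact ⟨δ, hδ, hl h1⟩

theorem ALB.LB {l : Filter ι} [l.NeBot] {A B p : ℂ} (hA : ALB D l H A B p) {h : ℂ → ℂ}
    (hp : ∀ z ∈ D, Tendsto (fun i => H i z) l (𝓝 (h z))) : LB D h A B p := by
  unfold BC0x336.LB
  rw [Metric.tendsto_nhds]
  intro η hη
  obtain ⟨δ, hδ, h1⟩ := hA (η / 2) (by linarith)
  have h2 : Metric.ball p δ ∩ D ∈ 𝓝[D] p := by
    rw [inter_comm]
    exact inter_mem_nhdsWithin D (Metric.ball_mem_nhds p hδ)
  filter_upwards [h2] with z hz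
  have h3 : Tendsto (fun i => |((H i z - A) / B).im|) l (𝓝 |((h z - A) / B).im|) := by
    have h4 : Continuous fun y : ℂ => |((y - A) / B).im| := by fun_prop
    exact (h4.tendsto _).comp (hp z hz.2)
  have h5 : |((h z - A) / B).im| ≤ η / 2 := by
    refine le_of_tendsto h3 ?_
    filter_upwards [h1] with i hi using hi z hz.2 hz.1
  rw [Real.dist_eq, sub_zero]
  linarith

/-- the hypotheses of the end theorem -/
structure EndH (D : Set ℂ) (φ : ℂ → ℂ) (d b : ℂ) (l : Filter ι) (H g : ι → ℂ → ℂ) (c : ι → ℝ) :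
    Prop where
  bd : ∃ M : ℝ, ∀ i, ∀ z ∈ D, ‖H i z‖ ≤ M
  equi : AEqui D l H
  smooth : ∀ i, ContDiff ℝ 1 (g i)
  close : ∀ K, IsCompact K → K ⊆ D → ∀ η > 0, ∀ᶠ i in l, ∀ z ∈ K, dist (g i z) (H i z) ≤ η
  dbar0 : ∀ K, IsCompact K → K ⊆ D → Tendsto (fun i => ∫ z in K, ‖dbar (g i) z‖) l (𝓝 0)
  b1 : ∀ p ∈ frontier D, p ≠ d → (φ p).im = 0 → 0 < (φ p).re → (φ p).re < 1 →
    ALB D l H 1 (tau3 - 1) p
  b2 : ∀ p ∈ frontier D, p ≠ d → (φ p).im = 0 → 1 < (φ p).re →
    ALB D l H tau3 (tau3 ^ 2 - tau3) p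
  b3 : ∀ p ∈ frontier D, p ≠ d → (φ p).im = 0 → (φ p).re < 0 →
    ALB D l H (tau3 ^ 2) (1 - tau3 ^ 2) p
  /-- the value near `b` is the crossing probability -/
  val : ∀ η > 0, ∃ δ > 0, ∀ᶠ i in l, ∀ z ∈ D, dist z b < δ →
    dist (H i z) (1 + (c i : ℂ) * (tau3 - 1)) ≤ η

theorem EndH.mono {φ : ℂ → ℂ} {d b : ℂ} {l l' : Filter ι} {g : ι → ℂ → ℂ} {c : ι → ℝ}
    (h : EndH D φ d b l H g c) (hl : l' ≤ l) : EndH D φ d b l' H g c where
  bd := h.bd
  equi := h.equi.mono hl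
  smooth := h.smooth
  close K hK hKD η hη := hl (h.close K hK hKD η hη)
  dbar0 K hK hKD := (h.dbar0 K hK hKD).mono_left hl
  b1 p hp h1 h2 h3 h4 := (h.b1 p hp h1 h2 h3 h4).mono hl
  b2 p hp h1 h2 h3 := (h.b2 p hp h1 h2 h3).mono hl
  b3 p hp h1 h2 h3 := (h.b3 p hp h1 h2 h3).mono hl
  val η hη := by
    obtain ⟨δ, hδ, h1⟩ := h.val η hη
    exact ⟨δ, hδ, hl h1⟩

theorem tau3_eq : tau3 = ⟨-1/2, Real.sqrt 3 / 2⟩ := by
  have h : (2 * Real.pi / 3 : ℝ) = Real.pi - Real.pi / 3 := by ring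
  apply Complex.ext
  · rw [tau3, Complex.exp_ofReal_mul_I_re, h, Real.cos_pi_sub, Real.cos_pi_div_three]; norm_num
  · rw [tau3, Complex.exp_ofReal_mul_I_im, h, Real.sin_pi_sub, Real.sin_pi_div_three]

theorem tau3_ne_one : tau3 - 1 ≠ 0 := by
  rw [tau3_eq, sub_ne_zero]
  intro h
  have := congrArg Complex.re h
  simp at this
  norm_num at this

/-- **END THEOREM** of the analysis -/
theorem end_core (hbc3 : BC3) (hD : IsOpen D) {φ : ℂ → ℂ} {d b : ℂ} (hid : Ident D φ d)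
    (hb : b ∈ frontier D) (hbd : b ≠ d) {x : ℝ} (hx0 : 0 < x) (hx1 : x < 1) (hφb : φ b = x)
    {l : Filter ι} {g : ι → ℂ → ℂ} {c : ι → ℝ} (h : EndH D φ d b l H g c) :
    Tendsto c l (𝓝 (crossingFormula x)) := by
  rw [tendsto_iff_ultrafilter]
  intro U hU
  have hU' := h.mono hU
  obtain ⟨M, hM⟩ := h.bd
  obtain ⟨f, hfM, hf⟩ := exists_ulim U hM
  have hunif : ∀ K, IsCompact K → K ⊆ D → TendstoUniformlyOn H f U K := fun K hK hKD =>
    unif_of_equi hU'.equi hf hK hKD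
  have hg : TendstoLocallyUniformlyOn g f U D := by
    rw [tendstoLocallyUniformlyOn_iff_forall_isCompact hD]
    intro K hKD hK
    rw [Metric.tendstoUniformlyOn_iff]
    intro η hη
    have h1 := Metric.tendstoUniformlyOn_iff.1 (hunif K hK hKD) (η / 2) (by linarith)
    filter_upwards [h1, hU'.close K hK hKD (η / 3) (by linarith)] with i hi1 hi2 z hz
    calc dist (f z) (g i z) ≤ dist (f z) (H i z) + dist (H i z) (g i z) := dist_triangle _ _ _
      _ ≤ η / 2 + η / 3 := add_le_add (hi1 z hz).le (by rw [dist_comm]; exact hi2 z hz)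
      _ < η := by linarith
  have hol : DifferentiableOn ℂ f D :=
    hbc3 D hD ι U inferInstance g f hU'.smooth hg hU'.dbar0
  have htri : TriBC D φ d f :=
    ⟨⟨M, hfM⟩, fun p hp h1 h2 h3 h4 => (hU'.b1 p hp h1 h2 h3 h4).LB hf,
      fun p hp h1 h2 h3 => (hU'.b2 p hp h1 h2 h3).LB hf,
      fun p hp h1 h2 h3 => (hU'.b3 p hp h1 h2 h3).LB hf⟩
  have hlim := hid f htri (Or.inl hol) b hb hbd x hx0 hx1 hφb
  -- compare with the crossing probabilities near `b`
  have hne : (𝓝[D] b).NeBot := by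
    rw [← mem_closure_iff_nhdsWithin_neBot]
    exact frontier_subset_closure hb
  have hT : 0 < ‖tau3 - 1‖ := norm_pos_iff.2 tau3_ne_one
  rw [Metric.tendsto_nhds]
  intro η hη
  set η' := η * ‖tau3 - 1‖ / 4 with hη'
  have hη'0 : 0 < η' := by positivity
  obtain ⟨δ, hδ, h1⟩ := hU'.val η' hη'0
  have h2 := Metric.tendsto_nhds.1 hlim η' hη'0
  have h3 : Metric.ball b δ ∩ D ∈ 𝓝[D] b := by
    rw [inter_comm]
    exact inter_mem_nhdsWithin D (Metric.ball_mem_nhds b hδ)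
  obtain ⟨z, hz1, hz2, hz3⟩ := (h2.and h3).exists
  have h4 := Metric.tendsto_nhds.1 (hf z hz3) η' hη'0
  filter_upwards [h1, h4] with i hi1 hi4
  have e1 : dist (1 + (c i : ℂ) * (tau3 - 1)) (1 + (crossingFormula x : ℂ) * (tau3 - 1)) <
      4 * η' := by
    calc dist (1 + (c i : ℂ) * (tau3 - 1)) (1 + (crossingFormula x : ℂ) * (tau3 - 1))
        ≤ dist (1 + (c i : ℂ) * (tau3 - 1)) (H i z) + dist (H i z) (f z) +
          dist (f z) (1 + (crossingFormula x : ℂ) * (tau3 - 1)) := dist_triangle4 _ _ _ _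
      _ ≤ η' + η' + η' := by
          refine add_le_add (add_le_add ?_ hi4.le) hz1.le
          rw [dist_comm]; exact hi1 z hz3 hz2
      _ < 4 * η' := by linarith
  have e2 : dist (1 + (c i : ℂ) * (tau3 - 1)) (1 + (crossingFormula x : ℂ) * (tau3 - 1)) =
      dist (c i) (crossingFormula x) * ‖tau3 - 1‖ := by
    rw [dist_add_left, dist_eq_norm, ← sub_mul, norm_mul, Real.dist_eq, ← Complex.ofReal_sub,
      Complex.norm_real, Real.norm_eq_abs]
  rw [e2, hη'] at e1
  have e3 : dist (c i) (crossingFormula x) * ‖tau3 - 1‖ < η * ‖tau3 - 1‖ := by linarith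
  exact lt_of_mul_lt_mul_right e3 hT.le

/-! ### the front of S0194 -/

/-- the law of a sample is a probability measure -/
instance : IsProbabilityMeasure sampleLaw := by
  unfold sampleLaw
  infer_instance

/-- **FRONT** : two families (inner and outer discrete domains) whose crossing probabilities
squeeze the crossing probability of `D` asymptotically -/
theorem front (hbc3 : BC3) (hD : IsOpen D) {φ : ℂ → ℂ} {d b : ℂ} (hid : Ident D φ d)
    (hb : b ∈ frontier D) (hbd : b ≠ d) {x : ℝ} (hx0 : 0 < x) (hx1 : x < 1) (hφb : φ b = x)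
    {l : Filter ℝ} {A₁ A₂ : Set ℂ} {H g H' g' : ℝ → ℂ → ℂ} {c c' : ℝ → ℝ}
    (h : EndH D φ d b l H g c) (h' : EndH D φ d b l H' g' c')
    (hle : ∀ η > 0, ∀ᶠ ε in l, c ε - η ≤ (sampleLaw (crossingEvent ε D A₁ A₂)).toReal)
    (hle' : ∀ η > 0, ∀ᶠ ε in l, (sampleLaw (crossingEvent ε D A₁ A₂)).toReal ≤ c' ε + η) :
    Tendsto (fun ε : ℝ => sampleLaw (crossingEvent ε D A₁ A₂)) l
      (𝓝 (ENNReal.ofReal (crossingFormula x))) := by
  have h1 := end_core hbc3 hD hid hb hbd hx0 hx1 hφb h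
  have h2 := end_core hbc3 hD hid hb hbd hx0 hx1 hφb h'
  have h3 : Tendsto (fun ε : ℝ => (sampleLaw (crossingEvent ε D A₁ A₂)).toReal) l
      (𝓝 (crossingFormula x)) := by
    rw [Metric.tendsto_nhds]
    intro η hη
    filter_upwards [Metric.tendsto_nhds.1 h1 (η / 2) (by linarith),
      Metric.tendsto_nhds.1 h2 (η / 2) (by linarith), hle (η / 2) (by linarith),
      hle' (η / 2) (by linarith)] with ε e1 e2 e3 e4
    rw [Real.dist_eq, abs_lt] at e1 e2 ⊢
    constructor <;> linarith [e1.1, e1.2, e2.1, e2.2]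
  have h4 := ENNReal.tendsto_ofReal h3
  refine h4.congr fun ε => ?_
  exact ENNReal.ofReal_toReal (measure_ne_top _ _)

end Crest.Agent.R143.EndAx336
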