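import Crest.Agent.R143.MmO_88
import Crest.Agent.R143.ArmP_930

/-!
# Row 143 (S0194), block H, H5 (c): the end points of the root block are not close to the marks
(helper298)

Static language of `NetU_346`: three giants `A` on the sites `S`, free sites `ff S A`.

* `MK S A m lab ρ d` : at the mark `m j` the giant `lab j` is at distance `≥ ρ` (next to the free
  sites), the edges at the free sites are shorter than `d`, no rainbow triangle of giants;
* `hit_near` : a hit vertex within `r` of the mark `m j` gives an arm of one colour across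
  `A(m j; r + d, ρ - d)`; `hit_near'` : the same for the inverted colours;
* `NearM` : some hit (for the colouring or for the inverted colouring) is within `r` of a mark;
  `pr_near` : its probability is at most the sum of the probabilities of the arms;
* `pr_near_arm` : `≤ 2 * #marks * C ((r + d) / (ρ - d)) ^ c` (930's arm);
* `cs` : Cauchy-Schwarz for the mean over the colourings of `f * 1_P`.
-/

set_option autoImplicit false

noncomputable section

open scoped Classical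

namespace Crest.Agent.R143.MarkHx298

open Crest.Agent.R143.B0x346 Crest.Agent.R143.DelGx806 Crest.Agent.R143.DelRx806
open Crest.Agent.R143.JColx54 (Adj delT_rot adj_tri adj_tri' adj_tri'')
open Crest.Agent.R143.RE0x723 (Pth)
open Crest.Agent.R143.K33x877 (Clu Hit fr)
open Crest.Agent.R143.NetUx346
open Crest.Agent.R143.MmOx88
open Crest.Agent.R143.D3Fx802 (CArm)
open Crest.Agent.R143.CNTx930 (Arm2)
open Crest.Agent.R143.Lawx872 (ConnIn)
open Crest.Agent.R143.Harx315 (pr nb fl pr_or_le pr_mono)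
open Crest.Agent.R143.RB0x838 (LDns Mesh)

variable {S : Finset ℂ} {A : ZMod 3 → Set ℂ} {ι : Type*} {m : ι → ℂ} {lab : ι → ZMod 3}
  {r ρ d : ℝ}

/-- three giants and marks -/
structure MK (S : Finset ℂ) (A : ZMod 3 → Set ℂ) {ι : Type*} (m : ι → ℂ) (lab : ι → ZMod 3)
    (ρ d : ℝ) : Prop where
  gp : GP (S : Set ℂ)
  /-- no positive rainbow triangle of giants -/
  nr : ∀ t ∈ delT S, ∀ i, ¬ (t.1 ∈ A i ∧ t.2.1 ∈ A (i + 1) ∧ t.2.2 ∈ A (i + 2))
  /-- the giant `lab j` does not occur near the mark `j` -/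
  near : ∀ x, Nx S (fr S A) x → ∀ j, ‖x - m j‖ < ρ → x ∉ A (lab j)
  len : ∀ x y, Adj S x y → x ∈ fr S A ∨ Nx S (fr S A) x → ‖x - y‖ ≤ d

/-- **a hit near a mark gives an arm** -/
theorem hit_near (H : MK S A m lab ρ d) (hr : r + d < ρ) {T : Finset ℂ} (hT : T ⊆ ff S A)
    {i : ZMod 3} {t : ℂ × ℂ × ℂ} (ht : HitO S A i (T : Set ℂ) t) {j : ι}
    (hu : ‖t.1 - m j‖ ≤ r) (hd : 0 ≤ d) :
    Arm2 S (ff S A) (m j) (r + d) (ρ - d) T := by
  obtain ⟨u, b, v⟩ := t
  have hW : (T : Set ℂ) ⊆ fr S A := fun x hx => mem_ff.1 (hT hx)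
  have hW' : ((ff S A \ T : Finset ℂ) : Set ℂ) ⊆ fr S A := by
    rw [← diff_eq]
    exact Set.sdiff_subset
  obtain ⟨ht, hu1, hb, hv⟩ := ht
  simp only at ht hu1 hb hv hu
  rw [inter_eq hT] at hb
  rw [diff_eq] at hv
  obtain ⟨c, hc⟩ := clu_iff.1 hb
  obtain ⟨c', hc'⟩ := clu_iff.1 hv
  have hub := adj_tri ht
  have hbv := adj_tri' H.gp ht
  have hvu := adj_tri'' H.gp ht
  have key : b ∈ fr S A ∨ v ∈ fr S A := by
    rcases ft_mem hW hc with ⟨hb1, -⟩ | hb1
    · rcases ft_mem hW' hc' with ⟨hv1, -⟩ | hv1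
      · exact absurd ⟨hu1, hb1, hv1⟩ (H.nr _ ht i)
      · exact Or.inr hv1
    · exact Or.inl hb1
  have hNu : Nx S (fr S A) u := by
    rcases key with h | h
    · exact ⟨b, h, hub⟩
    · exact ⟨v, h, hvu.symm⟩
  have hNc : Nx S (fr S A) c := by
    refine ft_nx hW hc fun e => ?_
    rcases key with h | h
    · rw [e] at h
      exact absurd h (not_fr hc.1)
    · exact ⟨v, h, e ▸ hbv⟩
  have hNc' : Nx S (fr S A) c' := by
    refine ft_nx hW' hc' fun e => ?_
    rcases key with h | h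
    · exact ⟨b, h, e ▸ hbv.symm⟩
    · rw [e] at h
      exact absurd h (not_fr hc'.1)
  have hlT : ∀ w ∈ T, ∀ x, Adj S w x → ‖w - x‖ ≤ d :=
    fun w hw x hx => H.len w x hx (Or.inl (mem_ff.1 (hT hw)))
  have hlT' : ∀ w ∈ ff S A \ T, ∀ x, Adj S w x → ‖w - x‖ ≤ d :=
    fun w hw x hx => H.len w x hx (Or.inl (mem_ff.1 (Finset.sdiff_subset hw)))
  have hub' : ‖u - b‖ ≤ d := H.len u b hub (Or.inr hNu)
  have huv' : ‖u - v‖ ≤ d := H.len u v hvu.symm (Or.inr hNu)
  have hi : i ≠ lab j := fun e => H.near u hNu j (by linarith) (e ▸ hu1)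
  rcases ne3 i (lab j) hi with e | e
  · left
    refine arm_out hlT hub' hc hu ?_ hr
    by_contra hlt
    exact H.near c hNc j (not_le.1 hlt) (e ▸ hc.1)
  · right
    refine arm_out hlT' huv' hc' hu ?_ hr
    by_contra hlt
    exact H.near c' hNc' j (not_le.1 hlt) (e ▸ hc'.1)

theorem arm2_compl {V T : Finset ℂ} (hT : T ⊆ V) {p : ℂ} {a b : ℝ} :
    Arm2 S V p a b (V \ T) ↔ Arm2 S V p a b T := by
  unfold Arm2
  rw [Finset.sdiff_sdiff_eq_self hT]
  exact or_comm

/-- the inverted colours -/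
theorem hit_near' (H : MK S A m lab ρ d) (hr : r + d < ρ) {T : Finset ℂ} (hT : T ⊆ ff S A)
    {i : ZMod 3} {t : ℂ × ℂ × ℂ} (ht : HitO S A i ((ff S A \ T : Finset ℂ) : Set ℂ) t) {j : ι}
    (hu : ‖t.1 - m j‖ ≤ r) (hd : 0 ≤ d) :
    Arm2 S (ff S A) (m j) (r + d) (ρ - d) T :=
  (arm2_compl hT).1 (hit_near H hr Finset.sdiff_subset ht hu hd)

/-- some hit is near a mark -/
def NearM (S : Finset ℂ) (A : ZMod 3 → Set ℂ) {ι : Type*} (m : ι → ℂ) (r : ℝ) (T : Finset ℂ) :
    Prop :=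
  ∃ j i t, (HitO S A i (T : Set ℂ) t ∨ HitO S A i ((ff S A \ T : Finset ℂ) : Set ℂ) t) ∧
    ‖t.1 - m j‖ ≤ r

theorem near_arm (H : MK S A m lab ρ d) (hr : r + d < ρ) (hd : 0 ≤ d) {T : Finset ℂ}
    (hT : T ⊆ ff S A) (h : NearM S A m r T) : ∃ j, Arm2 S (ff S A) (m j) (r + d) (ρ - d) T := by
  obtain ⟨j, i, t, h1 | h1, h2⟩ := h
  · exact ⟨j, hit_near H hr hT h1 h2 hd⟩
  · exact ⟨j, hit_near' H hr hT h1 h2 hd⟩

theorem pr_mono' {V : Finset ℂ} {P Q : Finset ℂ → Prop} (h : ∀ T ⊆ V, P T → Q T) :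
    pr V P ≤ pr V Q := by
  unfold Crest.Agent.R143.Harx315.pr Crest.Agent.R143.Harx315.nb Crest.Agent.R143.Harx315.fl
  refine div_le_div_of_nonneg_right ?_ (by positivity)
  exact_mod_cast Finset.card_le_card fun T hT =>
    Finset.mem_filter.2 ⟨(Finset.mem_filter.1 hT).1,
      h T (Finset.mem_powerset.1 (Finset.mem_filter.1 hT).1) (Finset.mem_filter.1 hT).2⟩

/-- **a hit near a mark is not probable** -/
theorem pr_near [Fintype ι] (H : MK S A m lab ρ d) (hr : r + d < ρ) (hd : 0 ≤ d) :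
    pr (ff S A) (NearM S A m r) ≤ ∑ j, pr (ff S A) (Arm2 S (ff S A) (m j) (r + d) (ρ - d)) := by
  have h := pr_ex (V := ff S A) Finset.univ (fun (j : ι) T =>
    Arm2 S (ff S A) (m j) (r + d) (ρ - d) T)
  refine le_trans (pr_mono' fun T hT h1 => ?_) h
  obtain ⟨j, hj⟩ := near_arm H hr hd hT h1
  exact ⟨j, Finset.mem_univ _, hj⟩

/-- both colours -/
theorem pr_arm2 {V : Finset ℂ} {p : ℂ} {a b q : ℝ} (h : pr V (fun T => CArm S T p a b) ≤ q) :
    pr V (Arm2 S V p a b) ≤ 2 * q := by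
  have h1 : pr V (fun T => CArm S (V \ T) p a b) ≤ q := by
    rw [Crest.Agent.R143.Harx315.pr_flip V (fun T => CArm S T p a b)]
    exact h
  have h2 : pr V (Arm2 S V p a b) ≤ pr V (fun T => CArm S T p a b) +
      pr V (fun T => CArm S (V \ T) p a b) := Crest.Agent.R143.Harx315.pr_or_le
  linarith

/-- **the marks, with the power of the one-arm bound** -/
theorem pr_near_arm : ∀ C4 : ℝ, 0 ≤ C4 → ∃ C c c1 c2 K : ℝ, 0 < C ∧ 0 < c ∧ 0 < c1 ∧ 0 < c2 ∧
    c2 ≤ 1 ∧ 1 ≤ K ∧ ∀ (S : Finset ℂ) (A : ZMod 3 → Set ℂ) (ι : Type) [Fintype ι] (m : ι → ℂ)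
    (lab : ι → ZMod 3) (ρ d r : ℝ), MK S A m lab ρ d → 0 ≤ d → 0 < r → r + d ≤ ρ - d →
    (∀ j, LDns S (m j) (K * (ρ - d)) d) →
    (∀ j b, c2 * (r + d) ≤ b → b ≤ ρ - d → Mesh S (m j) (K * (ρ - d)) b C4) →
    d ≤ c1 * (r + d) →
    pr (ff S A) (NearM S A m r) ≤ 2 * Fintype.card ι * (C * ((r + d) / (ρ - d)) ^ c) := by
  intro C4 hC4
  obtain ⟨C, c, c1, c2, K, h1, h2, h3, h4, h5, h6, Hm⟩ := ArmPx930.arm C4 hC4
  refine ⟨C, c, c1, c2, K, h1, h2, h3, h4, h5, h6, ?_⟩
  intro S A ι _ m lab ρ d r H hd hr hρ hL hM hdc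
  have hV : ff S A ⊆ S := Finset.filter_subset _ _
  rcases eq_or_lt_of_le hd with hd0 | hd0
  · -- degenerate: `d = 0` is excluded by the density
    by_cases hι : Nonempty ι
    · obtain ⟨j⟩ := hι
      exact absurd (hL j).dpos (by rw [← hd0]; exact lt_irrefl _)
    · have : IsEmpty ι := not_nonempty_iff.1 hι
      have e : pr (ff S A) (NearM S A m r) ≤ 0 := by
        have hz : pr (ff S A) (NearM S A m r) = 0 := by
          unfold Crest.Agent.R143.Harx315.pr Crest.Agent.R143.Harx315.nb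
            Crest.Agent.R143.Harx315.fl
          rw [Finset.filter_false_of_mem fun T _ h => by obtain ⟨j, -⟩ := h; exact this.elim j]
          simp
        rw [hz]
      refine e.trans ?_
      rw [Fintype.card_eq_zero]
      simp
  · have key : ∀ j, pr (ff S A) (Arm2 S (ff S A) (m j) (r + d) (ρ - d)) ≤
        2 * (C * ((r + d) / (ρ - d)) ^ c) := fun j =>
      pr_arm2 (Hm S (m j) d (r + d) (ρ - d) (by linarith) hρ (hL j) (hM j) hdc _ hV)
    refine (pr_near H (by linarith) hd).trans ((Finset.sum_le_sum fun j _ => key j).trans ?_)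
    rw [Finset.sum_const, Finset.card_univ, nsmul_eq_mul]
    exact le_of_eq (by ring)

/-- **Cauchy-Schwarz** for the mean over the colourings -/
theorem cs {V : Finset ℂ} {P : Finset ℂ → Prop} {f : Finset ℂ → ℝ} {K q : ℝ}
    (hK : ∑ T ∈ V.powerset, f T ^ 2 ≤ K * 2 ^ V.card) (hK0 : 0 ≤ K) (hP : pr V P ≤ q) :
    ∑ T ∈ V.powerset, (if P T then f T else 0) ≤ Real.sqrt (K * q) * 2 ^ V.card := by
  have h1 : (∑ T ∈ V.powerset, (if P T then f T else 0)) ^ 2 ≤
      (∑ T ∈ V.powerset, f T ^ 2) * ∑ T ∈ V.powerset, (if P T then (1 : ℝ) else 0) ^ 2 := by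
    have e : ∑ T ∈ V.powerset, (if P T then f T else 0) =
        ∑ T ∈ V.powerset, f T * (if P T then (1 : ℝ) else 0) :=
      Finset.sum_congr rfl fun T _ => by split_ifs <;> ring
    rw [e]
    exact Finset.sum_mul_sq_le_sq_mul_sq _ _ _
  have h2 : ∑ T ∈ V.powerset, (if P T then (1 : ℝ) else 0) ^ 2 ≤ q * 2 ^ V.card := by
    have e : ∑ T ∈ V.powerset, (if P T then (1 : ℝ) else 0) ^ 2 =
        ((V.powerset.filter P).card : ℝ) := by
      rw [Finset.card_filter]
      push_cast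
      exact Finset.sum_congr rfl fun T _ => by split_ifs <;> norm_num
    rw [e]
    unfold Crest.Agent.R143.Harx315.pr Crest.Agent.R143.Harx315.nb
      Crest.Agent.R143.Harx315.fl at hP
    rwa [div_le_iff₀ (by positivity)] at hP
  have hq : 0 ≤ q := le_trans (by unfold Crest.Agent.R143.Harx315.pr; positivity) hP
  have h3 : (∑ T ∈ V.powerset, (if P T then f T else 0)) ^ 2 ≤
      (Real.sqrt (K * q) * 2 ^ V.card) ^ 2 := by
    refine h1.trans ?_
    rw [mul_pow, Real.sq_sqrt (mul_nonneg hK0 hq)]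
    calc (∑ T ∈ V.powerset, f T ^ 2) * ∑ T ∈ V.powerset, (if P T then (1 : ℝ) else 0) ^ 2
        ≤ (K * 2 ^ V.card) * (q * 2 ^ V.card) := by
          refine mul_le_mul hK h2 (Finset.sum_nonneg fun _ _ => by positivity) (by positivity)
      _ = K * q * (2 ^ V.card) ^ 2 := by ring
  exact le_of_sq_le_sq h3 (by positivity)

end Crest.Agent.R143.MarkHx298
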