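import Crest.Agent.R143.C2SC_395
import Crest.Agent.R143.MarkH_298
import Crest.Agent.R143.Loc8_277

/-!
# Row 143 (S0194), block H, H5 (S3): the end points of the root block of the coarse map of the ring
are hit vertices (helper298)

`M = rc0 hS`, giants `A` (cells), `st A` = their sites (C2SC_395), `π` = contraction of the giants
(`Cq`), root face `g` (`Root`), `χ` = colours of the coarse cells, `bs` = black free sites.

* `ends` : the two end gaps `kB`, `rho kA` of the root block are oriented hits of `A i`, `A (i+1)`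
  (colours `χ`, inverted colours), or with the colours exchanged
* `near_kB`, `near_kA` : an end within `r` of a mark gives `NearM` (MarkH_298)
* `nr_ctr`, `mk_ctr` : no rainbow triangle of giants, from a free centre (K33)
-/

set_option autoImplicit false

noncomputable section

open scoped Classical

namespace Crest.Agent.R143.EndHx298

open Crest.Agent.R143.B0x346 Crest.Agent.R143.DelGx806 Crest.Agent.R143.DelRx806
open Crest.Agent.R143.JColx54 (Adj)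
open Crest.Agent.R143.Frame1x395 Crest.Agent.R143.Frame2x395 Crest.Agent.R143.Frame3x395
  Crest.Agent.R143.Frame4x395 Crest.Agent.R143.Frame8x395 Crest.Agent.R143.Frame9x395
  Crest.Agent.R143.Frame10x395
open Crest.Agent.R143.Frame5x395 (sd mem_sd th th_spec)
open Crest.Agent.R143.FinCx811 (Cs rc0)
open Crest.Agent.R143.Coarsex166 Crest.Agent.R143.Coarse2x166
open Crest.Agent.R143.C2Sx395
open Crest.Agent.R143.C2SBx395
open Crest.Agent.R143.C2SCx395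
open Crest.Agent.R143.NetUx346 (ff HitO G3 Hex mem_ff)
open Crest.Agent.R143.K33x877 (Clu fr CtrT CtrX Tr)
open Crest.Agent.R143.MmOx88 (Nx)
open Crest.Agent.R143.MarkHx298 (MK NearM)
open Crest.Agent.R143.RB2x54 (Vt)

variable {S : Finset ℂ} {hS : GP (S : Set ℂ)} {A : ZMod 3 → Set (Cs hS)} {i j₀ : ZMod 3}
  {C' : Type} {π : Cs hS → C'} {hπ : ClsCon (rc0 hS) π} {χ : C' → ZMod 2} {g : D0 S}
  {T : Finset ℂ}

/-- the triangle of a dart -/
def tr (S : Finset ℂ) (k : D0 S) : ℂ × ℂ × ℂ := (k.1.1, k.1.2, th S k.1)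

theorem tr_mem (k : D0 S) : (k.1.1, k.1.2, th S k.1) ∈ delT S := th_spec k.2

/-- black free sites of the colouring `χ` of the coarse cells -/
def bs (A : ZMod 3 → Set (Cs hS)) (π : Cs hS → C') (χ : C' → ZMod 2) : Finset ℂ :=
  (ff S (st A)).filter fun v => ∃ c : Cs hS, c.1 = Quot.mk (hullE S) v ∧ χ (π c) = 1

theorem bs_sub : bs A π χ ⊆ ff S (st A) := Finset.filter_subset _ _

theorem cmp_bs : Cmp A (bs A π χ : Set ℂ) {c | χ (π c) = 1} := by
  intro v hv c e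
  constructor
  · intro h
    exact Finset.mem_coe.2 (Finset.mem_filter.2 ⟨mem_ff.2 hv, c, e, h⟩)
  · intro h
    obtain ⟨-, c', e', h'⟩ := Finset.mem_filter.1 (Finset.mem_coe.1 h)
    have : c = c' := Subtype.ext (e.trans e'.symm)
    rw [this]
    exact h'

theorem cmp_compl {T' : Set (Cs hS)} (h : Cmp A (T : Set ℂ) T') :
    Cmp A ((ff S (st A) \ T : Finset ℂ) : Set ℂ) T'ᶜ := by
  intro v hv c e
  rw [Finset.coe_sdiff]
  constructor
  · exact fun h' => ⟨Finset.mem_coe.2 (mem_ff.2 hv), fun h'' => h' ((h v hv c e).2 h'')⟩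
  · exact fun h' h'' => h'.2 ((h v hv c e).1 h'')

theorem cfg_add (χ : C' → ZMod 2) : cfg (coarse (rc0 hS) π hπ) (fun c => χ c + 1) =
    cfg (coarse (rc0 hS) π hπ) χ := by
  funext d
  show χ _ + 1 + (χ _ + 1) = χ _ + χ _
  generalize χ _ = p
  generalize χ _ = q
  revert p q
  decide

theorem compl_add (χ : C' → ZMod 2) : ({c : Cs hS | χ (π c) = 1} : Set (Cs hS))ᶜ =
    {c | (fun c => χ c + 1) (π c) = 1} := by
  ext c
  show ¬ χ (π c) = 1 ↔ χ (π c) + 1 = 1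
  generalize χ (π c) = p
  revert p
  decide

/-- a hit of the closed map is an oriented hit of the sites -/
theorem hitO_of (H : Hl A j₀) {T : Set ℂ} {T' : Set (Cs hS)} (hT : Cmp A T T') {k : D0 S}
    (h : Hit (rc0 hS) A i T' k) : HitO S (st A) i T (tr S k) :=
  (hitO_hit H hT (tr_mem k)).2 h

/-- **the two end gaps of the root block are hits** (root colours `1, 1, 0`) -/
theorem ends1 (G : Gi (rc0 hS) A) (H : Hl A j₀) (R : Root (rc0 hS) A i g) (Q : Cq π A)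
    (h0 : χ (π ((rc0 hS).cell g)) = 1)
    (h1 : χ (π ((rc0 hS).cell ((rc0 hS).rho g))) = 1)
    (h2 : χ (π ((rc0 hS).cell ((rc0 hS).rho ((rc0 hS).rho g)))) = 0)
    (hT : Cmp A (T : Set ℂ) {c | χ (π c) = 1}) :
    HitO S (st A) i (T : Set ℂ)
        (tr S (kB (coarse (rc0 hS) π hπ) (cfg (coarse (rc0 hS) π hπ) χ) g)) ∧
      HitO S (st A) (i + 1) ((ff S (st A) \ T : Finset ℂ) : Set ℂ)
        (tr S ((rc0 hS).rho (kA (coarse (rc0 hS) π hπ) (cfg (coarse (rc0 hS) π hπ) χ) g))) :=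
  ⟨hitO_of H hT (kB_hit (hπ := hπ) R Q G h0 h1 h2),
    hitO_of H (cmp_compl hT) (kA_hit (hπ := hπ) R Q G h0 h1 h2)⟩

/-- **(S3) the two end gaps of the root block are hits** -/
theorem ends (G : Gi (rc0 hS) A) (H : Hl A j₀) (R : Root (rc0 hS) A i g) (Q : Cq π A)
    (hg : Gp (coarse (rc0 hS) π hπ) (cfg (coarse (rc0 hS) π hπ) χ) g)
    (hTf : T ⊆ ff S (st A)) (hT : Cmp A (T : Set ℂ) {c | χ (π c) = 1}) :
    (HitO S (st A) i (T : Set ℂ)
        (tr S (kB (coarse (rc0 hS) π hπ) (cfg (coarse (rc0 hS) π hπ) χ) g)) ∧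
      HitO S (st A) (i + 1) ((ff S (st A) \ T : Finset ℂ) : Set ℂ)
        (tr S ((rc0 hS).rho (kA (coarse (rc0 hS) π hπ) (cfg (coarse (rc0 hS) π hπ) χ) g)))) ∨
    (HitO S (st A) i ((ff S (st A) \ T : Finset ℂ) : Set ℂ)
        (tr S (kB (coarse (rc0 hS) π hπ) (cfg (coarse (rc0 hS) π hπ) χ) g)) ∧
      HitO S (st A) (i + 1) (T : Set ℂ)
        (tr S ((rc0 hS).rho (kA (coarse (rc0 hS) π hπ) (cfg (coarse (rc0 hS) π hπ) χ) g)))) := by
  have e1 : χ (π ((rc0 hS).cell g)) + χ (π ((rc0 hS).cell ((rc0 hS).rho g))) = 0 := hg.1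
  have e2 : χ (π ((rc0 hS).cell ((rc0 hS).rho g))) +
    χ (π ((rc0 hS).cell ((rc0 hS).rho ((rc0 hS).rho g)))) = 1 := hg.2
  have key : (χ (π ((rc0 hS).cell g)) = 1 ∧ χ (π ((rc0 hS).cell ((rc0 hS).rho g))) = 1 ∧
      χ (π ((rc0 hS).cell ((rc0 hS).rho ((rc0 hS).rho g)))) = 0) ∨
      (χ (π ((rc0 hS).cell g)) + 1 = 1 ∧ χ (π ((rc0 hS).cell ((rc0 hS).rho g))) + 1 = 1 ∧
      χ (π ((rc0 hS).cell ((rc0 hS).rho ((rc0 hS).rho g)))) + 1 = 0) := by
    revert e1 e2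
    generalize χ (π ((rc0 hS).cell g)) = p
    generalize χ (π ((rc0 hS).cell ((rc0 hS).rho g))) = q
    generalize χ (π ((rc0 hS).cell ((rc0 hS).rho ((rc0 hS).rho g)))) = r
    revert p q r
    decide
  rcases key with ⟨h0, h1, h2⟩ | ⟨h0, h1, h2⟩
  · exact Or.inl (ends1 (hπ := hπ) G H R Q h0 h1 h2 hT)
  · right
    have hT' : Cmp A ((ff S (st A) \ T : Finset ℂ) : Set ℂ)
        {c | (fun c => χ c + 1) (π c) = 1} := by
      rw [← compl_add]
      exact cmp_compl hT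
    have h3 := ends1 (hπ := hπ) (χ := fun c => χ c + 1) G H R Q h0 h1 h2 hT'
    rw [cfg_add, Finset.sdiff_sdiff_eq_self hTf] at h3
    exact h3

section near

variable {ι : Type*} {m : ι → ℂ} {r : ℝ} {j : ι}

/-- **the end at `A i` near a mark** -/
theorem near_kB (G : Gi (rc0 hS) A) (H : Hl A j₀) (R : Root (rc0 hS) A i g) (Q : Cq π A)
    (hg : Gp (coarse (rc0 hS) π hπ) (cfg (coarse (rc0 hS) π hπ) χ) g)
    (hTf : T ⊆ ff S (st A)) (hT : Cmp A (T : Set ℂ) {c | χ (π c) = 1})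
    (hr : ‖(kB (coarse (rc0 hS) π hπ) (cfg (coarse (rc0 hS) π hπ) χ) g).1.1 - m j‖ ≤ r) :
    NearM S (st A) m r T := by
  rcases ends (hπ := hπ) G H R Q hg hTf hT with ⟨h, -⟩ | ⟨h, -⟩
  · exact ⟨j, _, _, Or.inl h, hr⟩
  · exact ⟨j, _, _, Or.inr h, hr⟩

/-- **the end at `A (i + 1)` near a mark** -/
theorem near_kA (G : Gi (rc0 hS) A) (H : Hl A j₀) (R : Root (rc0 hS) A i g) (Q : Cq π A)
    (hg : Gp (coarse (rc0 hS) π hπ) (cfg (coarse (rc0 hS) π hπ) χ) g)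
    (hTf : T ⊆ ff S (st A)) (hT : Cmp A (T : Set ℂ) {c | χ (π c) = 1})
    (hr : ‖((rc0 hS).rho (kA (coarse (rc0 hS) π hπ)
      (cfg (coarse (rc0 hS) π hπ) χ) g)).1.1 - m j‖ ≤ r) :
    NearM S (st A) m r T := by
  rcases ends (hπ := hπ) G H R Q hg hTf hT with ⟨-, h⟩ | ⟨-, h⟩
  · exact ⟨j, _, _, Or.inr h, hr⟩
  · exact ⟨j, _, _, Or.inl h, hr⟩

end near

/-! ### no rainbow triangle -/

/-- a free centre excludes the rainbow triangles of the giants -/
theorem nr_ctr {A : ZMod 3 → Set ℂ} (K : Loc8x277.K3 S A) {X : Set ℂ} (hX : CtrX S A X) :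
    ∀ t ∈ delT S, ∀ i, ¬ (t.1 ∈ A i ∧ t.2.1 ∈ A (i + 1) ∧ t.2.2 ∈ A (i + 2)) := by
  rintro t ht i ⟨h1, h2, h3⟩
  refine K.tx t X ⟨ht, fun k => ?_⟩ hX
  have z : ∀ i k : ZMod 3, k = i ∨ k = i + 1 ∨ k = i + 2 := by decide
  rcases z i k with rfl | rfl | rfl
  · exact ⟨t.1, Or.inl rfl, h1⟩
  · exact ⟨t.2.1, Or.inr (Or.inl rfl), h2⟩
  · exact ⟨t.2.2, Or.inr (Or.inr rfl), h3⟩

/-- **`MK` from a free centre** -/
theorem mk_ctr {A : ZMod 3 → Set ℂ} (K : Loc8x277.K3 S A) {X : Set ℂ} (hX : CtrX S A X)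
    {ι : Type*} {m : ι → ℂ} {lab : ι → ZMod 3} {ρ d : ℝ}
    (near : ∀ x, Nx S (fr S A) x → ∀ j, ‖x - m j‖ < ρ → x ∉ A (lab j))
    (len : ∀ x y, Adj S x y → x ∈ fr S A ∨ Nx S (fr S A) x → ‖x - y‖ ≤ d) :
    MK S A m lab ρ d := ⟨K.gp, nr_ctr K hX, near, len⟩

end Crest.Agent.R143.EndHx298
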