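import Mathlib
import Crest.Agent.R143.B0_346
import Crest.Agent.R143.Osc_63

/-!
# Row 143 (S0194), leaves T1, T2 : discrete argument principle and energy bound (helper395)

* `ang w x y` : signed angle under which the segment `[x, y]` is seen from `w`.
* `Til` : the deterministic data: live edges, mid-edge function `F` with local identity at live
  triangles (J1, J2), convex polygons at inner vertices (E3), values on the sides of the big triangle
  at the other vertices (P2).
* `Til.main` : for `w` off finitely many segments the sum of the winding numbers of the triangles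
  `F(t)` is at most `1`, and `0` if `w` is outside of the big triangle.
* `Til.disj`, `Til.ball_sub`, `Til.energy`, `Til.energy_le`.
-/

set_option autoImplicit false

noncomputable section

namespace Crest.Agent.R143.Energyx395

open Set MeasureTheory
open scoped Classical
open Crest.Agent.R143.B0x346 Crest.Agent.R143.Oscx63

/-! ### angles -/

/-- signed angle of the segment `[x, y]` seen from `w` -/
def ang (w x y : ℂ) : ℝ := ((y - w) / (x - w)).arg

theorem ne_of_off {w x y : ℂ} (h : w ∉ segment ℝ x y) : x - w ≠ 0 ∧ y - w ≠ 0 := by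
  constructor
  · intro h1
    apply h
    rw [← sub_eq_zero.mp h1]
    exact left_mem_segment ℝ x y
  · intro h1
    apply h
    rw [← sub_eq_zero.mp h1]
    exact right_mem_segment ℝ x y

theorem slit {w x y : ℂ} (h : w ∉ segment ℝ x y) : (y - w) / (x - w) ∈ Complex.slitPlane := by
  obtain ⟨hx, hy⟩ := ne_of_off h
  by_contra hc
  rw [Complex.mem_slitPlane_iff, not_or, not_lt, not_not] at hc
  obtain ⟨hre, him⟩ := hc
  set r : ℝ := -((y - w) / (x - w)).re with hr
  have hr0 : 0 ≤ r := by rw [hr]; linarith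
  have h1 : (y - w) / (x - w) = ((-r : ℝ) : ℂ) := by
    apply Complex.ext
    · simp [hr]
    · simp [him]
  have h2 : y - w = ((-r : ℝ) : ℂ) * (x - w) := by
    rw [← h1]; field_simp
  apply h
  rw [segment_eq_image]
  have h1r : (1 + r) ≠ 0 := by positivity
  refine ⟨1 / (1 + r), ⟨by positivity, ?_⟩, ?_⟩
  · rw [div_le_one (by positivity)]; linarith
  · have h1c : (1 + (r : ℂ)) ≠ 0 := by
      intro h0
      apply h1r
      exact_mod_cast h0
    simp only [Complex.real_smul]
    push_cast at h2 ⊢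
    field_simp
    linear_combination h2

theorem ang_lt {w x y : ℂ} (h : w ∉ segment ℝ x y) : ang w x y < Real.pi := by
  have h1 := slit h
  rw [Complex.mem_slitPlane_iff_arg] at h1
  exact lt_of_le_of_ne (Complex.arg_le_pi _) h1.1

theorem lt_ang {w x y : ℂ} : -Real.pi < ang w x y := Complex.neg_pi_lt_arg _

theorem ang_self {w x : ℂ} : ang w x x = 0 := by
  unfold ang
  by_cases h : x - w = 0
  · rw [h]; simp
  · rw [div_self h]; simp

theorem ang_swap {w x y : ℂ} (h : w ∉ segment ℝ x y) : ang w y x = - ang w x y := by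
  unfold ang
  have h1 : (x - w) / (y - w) = ((y - w) / (x - w))⁻¹ := by rw [inv_div]
  rw [h1, Complex.arg_inv, if_neg]
  have h2 := slit h
  rw [Complex.mem_slitPlane_iff_arg] at h2
  exact h2.1

theorem im_div' (a b : ℂ) : (a / b).im = cr b a / Complex.normSq b := by
  rw [Complex.div_im]
  unfold cr
  ring

theorem ang_neg_iff {w x y : ℂ} (hx : x - w ≠ 0) : ang w x y < 0 ↔ cr (x - w) (y - w) < 0 := by
  unfold ang
  rw [Complex.arg_neg_iff, im_div']
  have : 0 < Complex.normSq (x - w) := Complex.normSq_pos.mpr hx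
  rw [div_lt_iff₀ this, zero_mul]

theorem ang_nonneg_iff {w x y : ℂ} (hx : x - w ≠ 0) : 0 ≤ ang w x y ↔ 0 ≤ cr (x - w) (y - w) := by
  rw [← not_lt, ang_neg_iff hx, not_lt]

theorem sum3_int {w x y z : ℂ} (hx : x - w ≠ 0) (hy : y - w ≠ 0) (hz : z - w ≠ 0) :
    ∃ n : ℤ, ang w x y + ang w y z + ang w z x = 2 * Real.pi * n := by
  have h1 : ((ang w x y + ang w y z + ang w z x : ℝ) : Real.Angle) = ((0 : ℝ) : Real.Angle) := by
    unfold ang
    rw [Real.Angle.coe_add, Real.Angle.coe_add]
    rw [← Complex.arg_mul_coe_angle (div_ne_zero hy hx) (div_ne_zero hz hy)]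
    rw [← Complex.arg_mul_coe_angle (mul_ne_zero (div_ne_zero hy hx) (div_ne_zero hz hy))
      (div_ne_zero hx hz)]
    have : (y - w) / (x - w) * ((z - w) / (y - w)) * ((x - w) / (z - w)) = 1 := by
      field_simp
    rw [this]
    simp
  rw [Real.Angle.angle_eq_iff_two_pi_dvd_sub] at h1
  obtain ⟨k, hk⟩ := h1
  exact ⟨k, by linarith⟩

theorem cr_sum3 (w x y z : ℂ) :
    cr (x - w) (y - w) + cr (y - w) (z - w) + cr (z - w) (x - w) = cr (y - x) (z - x) := by
  unfold cr
  simp only [Complex.sub_re, Complex.sub_im]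
  ring

/-- a positively oriented triangle has winding number `≥ 0` -/
theorem tri_nonneg {w x y z : ℂ} (h : 0 ≤ cr (y - x) (z - x)) (h1 : w ∉ segment ℝ x y)
    (h2 : w ∉ segment ℝ y z) :
    0 ≤ ang w x y + ang w y z + ang w z x := by
  obtain ⟨hx, hy⟩ := ne_of_off h1
  obtain ⟨-, hz⟩ := ne_of_off h2
  obtain ⟨n, hn⟩ := sum3_int hx hy hz
  by_contra hc
  push Not at hc
  have hn0 : n ≤ -1 := by
    rw [hn] at hc
    have : (n : ℝ) < 0 := by
      by_contra h0
      push Not at h0
      have := mul_nonneg (by positivity : (0 : ℝ) ≤ 2 * Real.pi) h0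
      linarith
    have h4 : n < 0 := by exact_mod_cast this
    omega
  have hs : ang w x y + ang w y z + ang w z x ≤ -(2 * Real.pi) := by
    rw [hn]
    have : (n : ℝ) ≤ -1 := by exact_mod_cast hn0
    nlinarith [Real.pi_pos]
  have a1 := @lt_ang w x y
  have a2 := @lt_ang w y z
  have a3 := @lt_ang w z x
  have b1 : ang w x y < 0 := by linarith
  have b2 : ang w y z < 0 := by linarith
  have b3 : ang w z x < 0 := by linarith
  rw [ang_neg_iff hx] at b1
  rw [ang_neg_iff hy] at b2
  rw [ang_neg_iff hz] at b3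
  have := cr_sum3 w x y z
  linarith

/-- from the inside the winding number is one -/
theorem tri_eq {w x y z : ℂ} (h1 : 0 < cr (x - w) (y - w)) (h2 : 0 < cr (y - w) (z - w))
    (h3 : 0 < cr (z - w) (x - w)) (g1 : w ∉ segment ℝ x y)
    (g2 : w ∉ segment ℝ y z) (g3 : w ∉ segment ℝ z x) :
    ang w x y + ang w y z + ang w z x = 2 * Real.pi := by
  obtain ⟨hx, hy⟩ := ne_of_off g1
  obtain ⟨-, hz⟩ := ne_of_off g2
  obtain ⟨n, hn⟩ := sum3_int hx hy hz
  have pos : ∀ {a b : ℂ}, a - w ≠ 0 → 0 < cr (a - w) (b - w) → 0 < ang w a b := by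
    intro a b ha hab
    have h4 : 0 ≤ ang w a b := (ang_nonneg_iff ha).mpr hab.le
    rcases h4.lt_or_eq with h5 | h5
    · exact h5
    · exfalso
      unfold ang at h5
      have h6 : ((b - w) / (a - w)).im = 0 := (Complex.arg_eq_zero_iff.mp h5.symm).2
      rw [im_div'] at h6
      have : 0 < Complex.normSq (a - w) := Complex.normSq_pos.mpr ha
      have h7 := div_pos hab this
      linarith
  have p1 := pos hx h1
  have p2 := pos hy h2
  have p3 := pos hz h3
  have q1 := ang_lt g1
  have q2 := ang_lt g2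
  have q3 := ang_lt g3
  have n1 : 0 < (n : ℝ) := by
    by_contra h0
    push Not at h0
    nlinarith [Real.pi_pos]
  have n2 : (n : ℝ) < 2 := by
    by_contra h0
    push Not at h0
    nlinarith [Real.pi_pos]
  have n3 : n = 1 := by
    have : 0 < n := by exact_mod_cast n1
    have : n < 2 := by exact_mod_cast n2
    omega
  rw [hn, n3]; simp

/-- three points on a line not through `w` -/
theorem line_add {w p q : ℂ} (h : cr (p - w) (q - w) ≠ 0) {x y z : ℂ} (hx : x ∈ segment ℝ p q)
    (hy : y ∈ segment ℝ p q) (hz : z ∈ segment ℝ p q) :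
    ang w x y + ang w y z + ang w z x = 0 := by
  rw [segment_eq_image'] at hx hy hz
  obtain ⟨s, -, rfl⟩ := hx
  obtain ⟨t, -, rfl⟩ := hy
  obtain ⟨u, -, rfl⟩ := hz
  have key : ∀ a b : ℝ, cr (p + a • (q - p) - w) (p + b • (q - p) - w) =
      (b - a) * cr (p - w) (q - w) := by
    intro a b
    unfold cr
    simp only [Complex.sub_re, Complex.sub_im, Complex.add_re, Complex.add_im, Complex.real_smul,
      Complex.mul_re, Complex.mul_im, Complex.ofReal_re, Complex.ofReal_im]
    ring
  have hne : ∀ a : ℝ, p + a • (q - p) - w ≠ 0 := by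
    intro a h0
    have h1 := key a (a + 1)
    rw [h0] at h1
    apply h
    have : (a + 1 - a) * cr (p - w) (q - w) = cr (p - w) (q - w) := by ring
    rw [this] at h1
    rw [← h1]
    simp [cr]
  have hlt : ∀ a b : ℝ, ang w (p + a • (q - p)) (p + b • (q - p)) < Real.pi := by
    intro a b
    apply ang_lt
    intro hm
    rw [segment_eq_image'] at hm
    obtain ⟨c, -, hc⟩ := hm
    apply hne (a + c * (b - a))
    rw [← hc]
    simp only [Complex.real_smul]
    push_cast
    ring
  obtain ⟨n, hn⟩ := sum3_int (hne s) (hne t) (hne u)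
  set A1 := ang w (p + s • (q - p)) (p + t • (q - p)) with hA1
  set A2 := ang w (p + t • (q - p)) (p + u • (q - p)) with hA2
  set A3 := ang w (p + u • (q - p)) (p + s • (q - p)) with hA3
  have l1 : A1 < Real.pi := hlt s t
  have l2 : A2 < Real.pi := hlt t u
  have l3 : A3 < Real.pi := hlt u s
  have m1 : -Real.pi < A1 := lt_ang
  have m2 : -Real.pi < A2 := lt_ang
  have m3 : -Real.pi < A3 := lt_ang
  have s1 : 0 ≤ A1 ↔ 0 ≤ (t - s) * cr (p - w) (q - w) := by
    rw [hA1, ang_nonneg_iff (hne s), key]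
  have s2 : 0 ≤ A2 ↔ 0 ≤ (u - t) * cr (p - w) (q - w) := by
    rw [hA2, ang_nonneg_iff (hne t), key]
  have s3 : 0 ≤ A3 ↔ 0 ≤ (s - u) * cr (p - w) (q - w) := by
    rw [hA3, ang_nonneg_iff (hne u), key]
  have hsum : (t - s) * cr (p - w) (q - w) + (u - t) * cr (p - w) (q - w) +
      (s - u) * cr (p - w) (q - w) = 0 := by ring
  -- not all negative
  have nn : 0 ≤ A1 ∨ 0 ≤ A2 ∨ 0 ≤ A3 := by
    by_contra hc
    push Not at hc
    obtain ⟨c1, c2, c3⟩ := hc
    rw [← not_le, s1, not_le] at c1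
    rw [← not_le, s2, not_le] at c2
    rw [← not_le, s3, not_le] at c3
    linarith
  -- not all positive
  have np : A1 ≤ 0 ∨ A2 ≤ 0 ∨ A3 ≤ 0 := by
    by_contra hc
    push Not at hc
    obtain ⟨c1, c2, c3⟩ := hc
    have d1 := s1.mp c1.le
    have d2 := s2.mp c2.le
    have d3 := s3.mp c3.le
    have e1 : (t - s) * cr (p - w) (q - w) = 0 := by linarith
    have e2 : t = s := by
      rcases mul_eq_zero.mp e1 with e | e
      · linarith
      · exact absurd e h
    rw [hA1, e2, ang_self] at c1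
    exact lt_irrefl _ c1
  have n1 : (n : ℝ) < 1 := by
    by_contra h0
    push Not at h0
    have : 2 * Real.pi ≤ A1 + A2 + A3 := by rw [hn]; nlinarith [Real.pi_pos]
    rcases np with h | h | h <;> linarith
  have n2 : -1 < (n : ℝ) := by
    by_contra h0
    push Not at h0
    have : A1 + A2 + A3 ≤ -(2 * Real.pi) := by rw [hn]; nlinarith [Real.pi_pos]
    rcases nn with h | h | h <;> linarith
  have n3 : n = 0 := by
    have : n < 1 := by exact_mod_cast n1
    have : -1 < n := by exact_mod_cast n2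
    omega
  rw [hn, n3]; simp

/-! ### convex polygons -/

theorem cr_sum_left {ι : Type} (s : Finset ι) (f : ι → ℂ) (v : ℂ) :
    cr (∑ i ∈ s, f i) v = ∑ i ∈ s, cr (f i) v := by
  unfold cr
  rw [Complex.re_sum, Complex.im_sum, Finset.sum_mul, Finset.sum_mul, ← Finset.sum_sub_distrib]

theorem cr_exp (r s a b : ℝ) :
    cr ((r : ℂ) * Complex.exp ((a : ℂ) * Complex.I)) ((s : ℂ) * Complex.exp ((b : ℂ) * Complex.I)) =
      r * s * Real.sin (b - a) := by
  unfold cr
  rw [Complex.re_ofReal_mul, Complex.im_ofReal_mul, Complex.re_ofReal_mul, Complex.im_ofReal_mul,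
    Complex.exp_ofReal_mul_I_re, Complex.exp_ofReal_mul_I_im, Complex.exp_ofReal_mul_I_re,
    Complex.exp_ofReal_mul_I_im, Real.sin_sub]
  ring

theorem mono_of_step {al : ℤ → ℝ} (h : ∀ i, al i ≤ al (i + 1)) : Monotone al :=
  monotone_int_of_le_succ h

theorem cross_nonneg (P : ℤ → ℂ) (d : ℕ) (al : ℤ → ℝ) (hal : ∀ i, al i ≤ al (i + 1))
    (hper : ∀ i, al (i + d) = al i + 2 * Real.pi)
    (hr : ∀ i, ∃ r : ℝ, 0 ≤ r ∧ P (i + 1) - P i = (r : ℂ) * Complex.exp ((al i : ℂ) * Complex.I))
    (hP : ∀ i, P (i + d) = P i) (i : ℕ) (hi : i < d) :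
    0 ≤ cr (P i - P 0) (P ((i : ℤ) + 1) - P i) := by
  have hmono := mono_of_step hal
  choose r hr0 hrP using hr
  have tel : ∀ n : ℕ, P n - P 0 = ∑ j ∈ Finset.range n, (P ((j : ℤ) + 1) - P j) := by
    intro n
    induction n with
    | zero => simp
    | succ n ih =>
      rw [Finset.sum_range_succ, ← ih]
      push_cast
      ring
  rcases le_or_gt (al i) (al 0 + Real.pi) with hc | hc
  · rw [tel i, cr_sum_left]
    apply Finset.sum_nonneg
    intro j hj
    rw [hrP j, hrP i, cr_exp]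
    have hji : (j : ℤ) ≤ i := by exact_mod_cast (Finset.mem_range.mp hj).le
    have h0j : (0 : ℤ) ≤ j := by positivity
    have m1 := hmono hji
    have m2 := hmono h0j
    apply mul_nonneg (mul_nonneg (hr0 _) (hr0 _))
    apply Real.sin_nonneg_of_nonneg_of_le_pi <;> linarith
  · have hd : P d = P 0 := by simpa using hP 0
    have hPi : P i - P 0 = -∑ j ∈ Finset.Ico i d, (P ((j : ℤ) + 1) - P j) := by
      rw [Finset.sum_Ico_eq_sub _ hi.le, ← tel, ← tel, hd]
      ring
    rw [hPi]
    have hneg : cr (-∑ j ∈ Finset.Ico i d, (P ((j : ℤ) + 1) - P j)) (P ((i : ℤ) + 1) - P i) =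
        - ∑ j ∈ Finset.Ico i d, cr (P ((j : ℤ) + 1) - P j) (P ((i : ℤ) + 1) - P i) := by
      rw [← cr_sum_left]
      unfold cr
      simp only [Complex.neg_re, Complex.neg_im]
      ring
    rw [hneg, ← Finset.sum_neg_distrib]
    apply Finset.sum_nonneg
    intro j hj
    obtain ⟨h1, h2⟩ := Finset.mem_Ico.mp hj
    rw [hrP j, hrP i, cr_exp]
    have hji : (i : ℤ) ≤ j := by exact_mod_cast h1
    have hjd : (j : ℤ) ≤ 0 + d := by
      have : (j : ℤ) ≤ d := by exact_mod_cast h2.le
      linarith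
    have m1 := hmono hji
    have m2 := hmono hjd
    rw [hper 0] at m2
    have e : Real.sin (al i - al j) = - Real.sin (al j - al i) := by
      rw [← Real.sin_neg]; congr 1; ring
    rw [e]
    have : 0 ≤ Real.sin (al j - al i) := by
      apply Real.sin_nonneg_of_nonneg_of_le_pi <;> linarith
    have h3 := mul_nonneg (mul_nonneg (hr0 j) (hr0 i)) this
    linarith

/-- a convex polygon has winding number `≥ 0` -/
theorem poly_nonneg (P : ℤ → ℂ) (d : ℕ) (al : ℤ → ℝ) (hal : ∀ i, al i ≤ al (i + 1))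
    (hper : ∀ i, al (i + d) = al i + 2 * Real.pi)
    (hr : ∀ i, ∃ r : ℝ, 0 ≤ r ∧ P (i + 1) - P i = (r : ℂ) * Complex.exp ((al i : ℂ) * Complex.I))
    (hP : ∀ i, P (i + d) = P i) {w : ℂ} (hw : ∀ i j : ℤ, w ∉ segment ℝ (P i) (P j)) :
    0 ≤ ∑ i ∈ Finset.range d, ang w (P i) (P ((i : ℤ) + 1)) := by
  have h1 : ∑ i ∈ Finset.range d, ang w (P i) (P ((i : ℤ) + 1)) =
      ∑ i ∈ Finset.range d, (ang w (P 0) (P i) + ang w (P i) (P ((i : ℤ) + 1)) +
        ang w (P ((i : ℤ) + 1)) (P 0)) := by
    have h2 : ∑ i ∈ Finset.range d, (ang w (P 0) (P ((i + 1 : ℕ) : ℤ)) - ang w (P 0) (P (i : ℤ))) =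
        0 := by
      rw [Finset.sum_range_sub (fun i : ℕ => ang w (P 0) (P (i : ℤ)))]
      have hd : P d = P 0 := by simpa using hP 0
      simp [hd]
    have h3 : ∑ i ∈ Finset.range d, (ang w (P 0) (P i) + ang w (P i) (P ((i : ℤ) + 1)) +
        ang w (P ((i : ℤ) + 1)) (P 0)) = ∑ i ∈ Finset.range d, ang w (P i) (P ((i : ℤ) + 1)) -
        ∑ i ∈ Finset.range d, (ang w (P 0) (P ((i + 1 : ℕ) : ℤ)) - ang w (P 0) (P (i : ℤ))) := by
      rw [← Finset.sum_sub_distrib]
      apply Finset.sum_congr rfl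
      intro i _
      have e : ((i + 1 : ℕ) : ℤ) = (i : ℤ) + 1 := by push_cast; ring
      rw [e, ang_swap (hw 0 ((i : ℤ) + 1))]
      ring
    rw [h3, h2, sub_zero]
  rw [h1]
  apply Finset.sum_nonneg
  intro i hi
  apply tri_nonneg _ (hw _ _) (hw _ _)
  have h4 := cross_nonneg P d al hal hper hr hP i (Finset.mem_range.mp hi)
  have h5 : cr (P i - P 0) (P ((i : ℤ) + 1) - P 0) = cr (P i - P 0) (P ((i : ℤ) + 1) - P i) := by
    unfold cr
    simp only [Complex.sub_re, Complex.sub_im]
    ring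
  rw [h5]
  exact h4

/-! ### the deterministic data -/

variable {V : Type}

/-- convexity with real data -/
def ConvF (F : V → V → ℂ) (v : V) (d : ℕ) (u : ℤ → V) : Prop :=
  ∃ al : ℤ → ℝ, (∀ i, al i ≤ al (i + 1)) ∧ (∀ i, al (i + d) = al i + 2 * Real.pi) ∧
    ∀ i, ∃ r : ℝ, 0 ≤ r ∧ F v (u (i + 1)) - F v (u i) =
      (r : ℂ) * Complex.exp ((al i : ℂ) * Complex.I)

/-- a directed edge of the triangulation -/
def Edg (G : Trg V) (a b : V) : Prop := (∃ c, (a, b, c) ∈ G.T) ∨ ∃ c, (b, a, c) ∈ G.T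

/-- the deterministic data: `lv` live edges, `F` mid-edge function, `Q` amplitude of the triangles,
`ex` marks, `inn` inner vertices, `arc v` = the side to which the other vertices belong -/
structure Til (G : Trg V) (lv : V → V → Prop) (F : V → V → ℂ) (Q : V × V × V → ℂ)
    (ex : ZMod 3 → V × V) (inn : V → Prop) (arc : V → ZMod 3) : Prop where
  lvs : ∀ a b, lv a b → lv b a
  Fs : ∀ a b, F a b = F b a
  tri3 : ∀ a b c, (a, b, c) ∈ G.T → lv a b → lv b c → lv c a → ∃ h : ℂ,
    F a b = h + Q (a, b, c) ∧ F b c = h + om * Q (a, b, c) ∧ F c a = h + om ^ 2 * Q (a, b, c)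
  tri2 : ∀ a b c, (a, b, c) ∈ G.T → ¬ lv a b → lv b c → lv c a → F b c = F c a
  inner : ∀ v, inn v → ∃ (d : ℕ) (u : ℤ → V), Ring G v d u ∧ (∀ i, lv v (u i)) ∧
    (∀ x y, (v, x, y) ∈ G.T → ∃ i : ℤ, x = u i ∧ y = u (i + 1)) ∧ ConvF F v d u
  dead : ∀ a b c, (a, b, c) ∈ G.T → ¬ lv a b → lv b c ∨ lv c a →
    ¬ inn a ∧ ¬ inn b ∧ arc a = arc b
  side : ∀ a b, ¬ inn a → lv a b → Edg G a b → F a b ∈ segment ℝ (omz (arc a)) (omz (arc a + 1))
  hull : ∀ a b c, (a, b, c) ∈ G.T → (∀ x, (b, a, x) ∉ G.T) → lv a b → ∃ k, ex k = (a, b)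
  exI : Function.Injective ex
  exT : ∀ k, ∃ c, ((ex k).1, (ex k).2, c) ∈ G.T
  exH : ∀ k x, ((ex k).2, (ex k).1, x) ∉ G.T
  exl : ∀ k, lv (ex k).1 (ex k).2
  ex1 : ∀ k, ¬ inn (ex k).1 ∧ arc (ex k).1 = k - 1
  ex2 : ∀ k, ¬ inn (ex k).2 ∧ arc (ex k).2 = k
  exF : ∀ k, F (ex k).1 (ex k).2 = omz k

/-- `w` is in general position with respect to the values of `F` and the big triangle -/
structure Good (F : V → V → ℂ) (G : Trg V) (w : ℂ) : Prop where
  off : ∀ a b c e, Edg G a b → Edg G c e → w ∉ segment ℝ (F a b) (F c e)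
  big : ∀ k : ZMod 3, cr (omz k - w) (omz (k + 1) - w) ≠ 0

theorem Edg.symm {G : Trg V} {a b : V} (h : Edg G a b) : Edg G b a := Or.symm h

/-- rotation of the triples -/
def rotE : V × V × V ≃ V × V × V where
  toFun t := (t.2.1, t.2.2, t.1)
  invFun t := (t.2.2, t.1, t.2.1)
  left_inv t := by simp
  right_inv t := by simp

theorem sum_rot (G : Trg V) (g : V × V × V → ℝ) : ∑ t ∈ G.T, g (rotE t) = ∑ t ∈ G.T, g t := by
  apply Finset.sum_equiv rotE
  · rintro ⟨a, b, c⟩
    constructor
    · intro h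
      exact G.rot h
    · intro h
      exact G.rot (G.rot h)
  · intro i _
    rfl

theorem sum_rot3 (G : Trg V) (g : V × V × V → ℝ) :
    3 * ∑ t ∈ G.T, g t = ∑ t ∈ G.T, (g t + g (rotE t) + g (rotE (rotE t))) := by
  rw [Finset.sum_add_distrib, Finset.sum_add_distrib, sum_rot G g,
    sum_rot G (fun t => g (rotE t)), sum_rot G g]
  ring

/-- the corner term -/
def corner (lv : V → V → Prop) (F : V → V → ℂ) (w : ℂ) (t : V × V × V) : ℝ :=
  if lv t.1 t.2.1 ∧ lv t.1 t.2.2 then ang w (F t.1 t.2.1) (F t.1 t.2.2) else 0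

/-- the winding number (times `2π`) of the triangle `F(t)` -/
def wtri (lv : V → V → Prop) (F : V → V → ℂ) (w : ℂ) (t : V × V × V) : ℝ :=
  if lv t.1 t.2.1 ∧ lv t.2.1 t.2.2 ∧ lv t.2.2 t.1 then
    ang w (F t.1 t.2.1) (F t.2.1 t.2.2) + ang w (F t.2.1 t.2.2) (F t.2.2 t.1) +
      ang w (F t.2.2 t.1) (F t.1 t.2.1) else 0

section main

variable {G : Trg V} {lv : V → V → Prop} {F : V → V → ℂ} {Q : V × V × V → ℂ}
  {ex : ZMod 3 → V × V} {inn : V → Prop} {arc : V → ZMod 3}

theorem Til.lv_iff (H : Til G lv F Q ex inn arc) (a b : V) : lv a b ↔ lv b a :=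
  ⟨H.lvs a b, H.lvs b a⟩

theorem edg_of_mem {a b c : V} (h : (a, b, c) ∈ G.T) : Edg G a b ∧ Edg G b c ∧ Edg G c a :=
  ⟨Or.inl ⟨c, h⟩, Or.inl ⟨a, G.rot h⟩, Or.inl ⟨b, G.rot (G.rot h)⟩⟩

theorem Til.corner3 (H : Til G lv F Q ex inn arc) {w : ℂ} (hw : Good F G w) {t : V × V × V}
    (ht : t ∈ G.T) :
    corner lv F w t + corner lv F w (rotE t) + corner lv F w (rotE (rotE t)) =
      - wtri lv F w t := by
  obtain ⟨a, b, c⟩ := t
  obtain ⟨e1, e2, e3⟩ := edg_of_mem ht
  have r1 := G.rot ht
  have r2 := G.rot r1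
  unfold corner wtri
  simp only [rotE, Equiv.coe_fn_mk]
  simp only [H.lv_iff a c, H.lv_iff b a, H.lv_iff c b, H.Fs a c, H.Fs b a, H.Fs c b]
  have s1 := ang_swap (hw.off c a a b e3 e1)
  have s2 := ang_swap (hw.off a b b c e1 e2)
  have s3 := ang_swap (hw.off b c c a e2 e3)
  by_cases h1 : lv a b <;> by_cases h2 : lv b c <;> by_cases h3 : lv c a <;>
    simp only [h1, h2, h3, and_self, and_true, and_false, true_and, false_and, if_true, if_false,
      add_zero, zero_add, neg_zero]
  · rw [s1, s2, s3]; ring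
  · have := H.tri2 c a b r2 h3 h1 h2
    rw [this, ang_self]
  · have := H.tri2 b c a r1 h2 h3 h1
    rw [this, ang_self]
  · have := H.tri2 a b c ht h1 h2 h3
    rw [this, ang_self]

theorem Til.total (H : Til G lv F Q ex inn arc) {w : ℂ} (hw : Good F G w) :
    3 * ∑ t ∈ G.T, corner lv F w t = - ∑ t ∈ G.T, wtri lv F w t := by
  rw [sum_rot3, ← Finset.sum_neg_distrib]
  exact Finset.sum_congr rfl fun t ht => H.corner3 hw ht

/-- inner vertices contribute non negatively -/
theorem Til.inner_nonneg (H : Til G lv F Q ex inn arc) {w : ℂ} (hw : Good F G w) {v : V}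
    (hv : inn v) : 0 ≤ ∑ t ∈ G.T.filter (fun t => t.1 = v), corner lv F w t := by
  obtain ⟨d, u, hR, hl, hcov, al, hal, hper, hr⟩ := H.inner v hv
  have hE : ∀ i, Edg G v (u i) := fun i => Or.inl ⟨_, hR.mem i⟩
  have hperI : ∀ (n : ℤ) (i : ℤ), u (i + n * d) = u i := by
    intro n
    induction n using Int.induction_on with
    | zero => intro i; simp
    | succ n ih =>
      intro i
      have : i + ((n : ℤ) + 1) * d = (i + n * d) + d := by ring
      rw [this, hR.per, ih]
    | pred n ih =>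
      intro i
      have h1 := hR.per (i + (-(n : ℤ) - 1) * d)
      rw [← h1]
      have : i + (-(n : ℤ) - 1) * d + d = i + (-(n : ℤ)) * d := by ring
      rw [this, ih]
  have h1 : ∑ t ∈ G.T.filter (fun t => t.1 = v), corner lv F w t =
      ∑ i ∈ Finset.range d, ang w (F v (u i)) (F v (u ((i : ℤ) + 1))) := by
    symm
    apply Finset.sum_bij (fun (i : ℕ) _ => (v, u i, u ((i : ℤ) + 1)))
    · intro i _
      rw [Finset.mem_filter]
      exact ⟨hR.mem i, rfl⟩
    · intro i hi j hj hij
      have hij' : u i = u j := by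
        have := congrArg (fun t : V × V × V => t.2.1) hij
        exact this
      have := hR.inj i j (by positivity) (by exact_mod_cast Finset.mem_range.mp hi) (by positivity)
        (by exact_mod_cast Finset.mem_range.mp hj) hij'
      exact_mod_cast this
    · rintro ⟨x, y, z⟩ ht
      rw [Finset.mem_filter] at ht
      obtain ⟨ht, rfl⟩ := ht
      obtain ⟨i, h1, h2⟩ := hcov y z ht
      have hd : (0 : ℤ) < d := by exact_mod_cast hR.pos
      have h0 : 0 ≤ i % d := Int.emod_nonneg _ hd.ne'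
      have hlt : i % d < d := Int.emod_lt_of_pos _ hd
      have hdec : i = i % d + (i / d) * d := by
        have := Int.emod_add_mul_ediv i d
        linarith
      refine ⟨(i % d).toNat, ?_, ?_⟩
      · rw [Finset.mem_range]
        omega
      · have e : (((i % d).toNat : ℕ) : ℤ) = i % d := Int.toNat_of_nonneg h0
        rw [e]
        have e1 : u (i % d) = y := by
          rw [h1]
          conv_rhs => rw [hdec]
          rw [hperI]
        have e2 : u (i % d + 1) = z := by
          rw [h2]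
          have : i + 1 = (i % d + 1) + (i / d) * d := by linarith
          rw [this, hperI]
        rw [e1, e2]
    · intro i _
      unfold corner
      simp only [hl, and_self, if_true]
  rw [h1]
  exact poly_nonneg (fun i => F v (u i)) d al hal hper hr (fun i => by simp only [hR.per])
    (fun i j => hw.off _ _ _ _ (hE i) (hE j))

/-- the primitive on the sides -/
def prim (lv : V → V → Prop) (F : V → V → ℂ) (arc : V → ZMod 3) (w : ℂ) (a b : V) : ℝ :=
  if lv a b then ang w (omz (arc a)) (F a b) else 0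

/-- the defect -/
def defect (lv : V → V → Prop) (F : V → V → ℂ) (inn : V → Prop) (arc : V → ZMod 3) (w : ℂ)
    (t : V × V × V) : ℝ :=
  if inn t.1 then 0 else
    (if lv t.1 t.2.1 ∧ ¬ lv t.1 t.2.2 then prim lv F arc w t.1 t.2.1 else 0) -
    (if ¬ lv t.1 t.2.1 ∧ lv t.1 t.2.2 then prim lv F arc w t.1 t.2.2 else 0)

theorem Til.corner_out (H : Til G lv F Q ex inn arc) {w : ℂ} (hw : Good F G w) {t : V × V × V}
    (ht : t ∈ G.T) (hi : ¬ inn t.1) :
    corner lv F w t = prim lv F arc w t.1 t.2.2 - prim lv F arc w t.1 t.2.1 +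
      defect lv F inn arc w t := by
  obtain ⟨a, b, c⟩ := t
  obtain ⟨e1, e2, e3⟩ := edg_of_mem ht
  unfold corner defect prim
  simp only at hi ⊢
  by_cases h1 : lv a b <;> by_cases h2 : lv a c <;>
    simp only [h1, h2, hi, and_self, and_true, and_false, true_and, false_and, if_true, if_false,
      not_true_eq_false, not_false_eq_true, add_zero, zero_add, sub_zero, sub_self, zero_sub]
  · have hs1 := H.side a b hi h1 e1
    have hs2 := H.side a c hi h2 e3.symm
    have hb := hw.big (arc a)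
    have h3 := line_add hb (left_mem_segment ℝ _ _) hs1 hs2
    have hsw : ang w (F a c) (omz (arc a)) = - ang w (omz (arc a)) (F a c) := by
      have h4 := line_add hb (left_mem_segment ℝ _ _) hs2 (left_mem_segment ℝ _ _)
      rw [ang_self] at h4
      linarith
    rw [hsw] at h3
    linarith
  · ring
  · ring

theorem Til.defect3 (H : Til G lv F Q ex inn arc) (w : ℂ) {t : V × V × V} (ht : t ∈ G.T) :
    defect lv F inn arc w t + defect lv F inn arc w (rotE t) +
      defect lv F inn arc w (rotE (rotE t)) = 0 := by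
  obtain ⟨a, b, c⟩ := t
  have r1 := G.rot ht
  have r2 := G.rot r1
  unfold defect prim
  simp only [rotE, Equiv.coe_fn_mk]
  simp only [H.lv_iff a c, H.lv_iff b a, H.lv_iff c b, H.Fs a c, H.Fs b a, H.Fs c b]
  by_cases h1 : lv a b <;> by_cases h2 : lv b c <;> by_cases h3 : lv c a <;>
    simp only [h1, h2, h3, and_self, and_true, and_false, true_and, false_and, if_true, if_false,
      not_true_eq_false, not_false_eq_true, add_zero, zero_add, sub_zero, sub_self, ite_self,
      zero_sub]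
  · obtain ⟨i1, i2, i3⟩ := H.dead c a b r2 h3 (Or.inl h1)
    have := H.tri2 c a b r2 h3 h1 h2
    simp only [i1, i2, if_false, i3, this]
    ring
  · obtain ⟨i1, i2, i3⟩ := H.dead b c a r1 h2 (Or.inl h3)
    have := H.tri2 b c a r1 h2 h3 h1
    simp only [i1, i2, if_false, i3, this]
    ring
  · obtain ⟨i1, i2, i3⟩ := H.dead b c a r1 h2 (Or.inr h1)
    obtain ⟨j1, j2, j3⟩ := H.dead c a b r2 h3 (Or.inl h1)
    simp only [i1, i2, j2, if_false, i3, j3]
    ring
  · obtain ⟨i1, i2, i3⟩ := H.dead a b c ht h1 (Or.inl h2)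
    have := H.tri2 a b c ht h1 h2 h3
    simp only [i1, i2, if_false, i3, this]
    ring
  · obtain ⟨i1, i2, i3⟩ := H.dead a b c ht h1 (Or.inl h2)
    obtain ⟨j1, j2, j3⟩ := H.dead c a b r2 h3 (Or.inr h2)
    simp only [i1, i2, j1, if_false, ← i3, j3]
    ring
  · obtain ⟨i1, i2, i3⟩ := H.dead a b c ht h1 (Or.inr h3)
    obtain ⟨j1, j2, j3⟩ := H.dead b c a r1 h2 (Or.inl h3)
    simp only [i1, j2, if_false, i3, j3]
    ring

/-- `prim` at the non inner vertices -/
def primO (lv : V → V → Prop) (F : V → V → ℂ) (inn : V → Prop) (arc : V → ZMod 3) (w : ℂ)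
    (a b : V) : ℝ :=
  if inn a then 0 else prim lv F arc w a b

theorem Til.sum_out (H : Til G lv F Q ex inn arc) {w : ℂ} (hw : Good F G w) :
    ∑ t ∈ G.T, (if inn t.1 then 0 else corner lv F w t) =
      ∑ t ∈ G.T, (primO lv F inn arc w t.2.1 t.1 - primO lv F inn arc w t.1 t.2.1) := by
  have h1 : ∀ t ∈ G.T, (if inn t.1 then 0 else corner lv F w t) =
      (primO lv F inn arc w t.1 t.2.2 - primO lv F inn arc w t.1 t.2.1) +
        defect lv F inn arc w t := by
    intro t ht
    by_cases hi : inn t.1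
    · simp only [primO, defect, hi, if_true]; ring
    · simp only [primO, hi, if_false]
      exact H.corner_out hw ht hi
  rw [Finset.sum_congr rfl h1, Finset.sum_add_distrib, Finset.sum_sub_distrib,
    Finset.sum_sub_distrib]
  have h2 : ∑ t ∈ G.T, defect lv F inn arc w t = 0 := by
    have h3 := sum_rot3 G (defect lv F inn arc w)
    rw [Finset.sum_congr rfl fun t ht => H.defect3 w ht] at h3
    simpa using h3
  have h4 := sum_rot G (fun t => primO lv F inn arc w t.1 t.2.2)
  rw [h2, add_zero, ← h4]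
  rfl

theorem Til.sum_hull (H : Til G lv F Q ex inn arc) (w : ℂ) :
    ∑ t ∈ G.T, (primO lv F inn arc w t.2.1 t.1 - primO lv F inn arc w t.1 t.2.1) =
      - ∑ k : ZMod 3, ang w (omz (k - 1)) (omz k) := by
  set f : V × V → ℝ := fun e => primO lv F inn arc w e.2 e.1 - primO lv F inn arc w e.1 e.2 with hf
  set D : Finset (V × V) := G.T.image (fun t => (t.1, t.2.1)) with hD
  have h1 : ∑ t ∈ G.T, (primO lv F inn arc w t.2.1 t.1 - primO lv F inn arc w t.1 t.2.1) =
      ∑ e ∈ D, f e := by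
    rw [hD, Finset.sum_image]
    rintro ⟨a, b, c⟩ h ⟨a', b', c'⟩ h' he
    simp only [Prod.mk.injEq] at he
    obtain ⟨rfl, rfl⟩ := he
    have := G.uniq h h'
    rw [this]
  have hmem : ∀ a b : V, (a, b) ∈ D ↔ ∃ c, (a, b, c) ∈ G.T := by
    intro a b
    rw [hD, Finset.mem_image]
    constructor
    · rintro ⟨⟨x, y, z⟩, h, he⟩
      simp only [Prod.mk.injEq] at he
      obtain ⟨rfl, rfl⟩ := he
      exact ⟨z, h⟩
    · rintro ⟨c, h⟩
      exact ⟨(a, b, c), h, rfl⟩
  rw [h1, ← Finset.sum_filter_add_sum_filter_not D (fun e => (e.2, e.1) ∈ D)]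
  have h2 : ∑ e ∈ D.filter (fun e => (e.2, e.1) ∈ D), f e = 0 := by
    have h3 : ∑ e ∈ D.filter (fun e => (e.2, e.1) ∈ D), f e =
        ∑ e ∈ D.filter (fun e => (e.2, e.1) ∈ D), f (e.2, e.1) := by
      apply Finset.sum_equiv (Equiv.prodComm V V)
      · rintro ⟨a, b⟩
        simp only [Finset.mem_filter, Equiv.prodComm_apply, Prod.swap_prod_mk]
        tauto
      · rintro ⟨a, b⟩ _
        rfl
    have h4 : ∀ e ∈ D.filter (fun e => (e.2, e.1) ∈ D), f (e.2, e.1) = - f e := by
      rintro ⟨a, b⟩ _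
      simp only [hf]
      ring
    rw [Finset.sum_congr rfl h4, Finset.sum_neg_distrib] at h3
    linarith
  rw [h2, zero_add]
  have h5 : Finset.univ.image ex ⊆ D.filter (fun e => ¬ (e.2, e.1) ∈ D) := by
    intro e he
    rw [Finset.mem_image] at he
    obtain ⟨k, -, rfl⟩ := he
    rw [Finset.mem_filter]
    refine ⟨(hmem _ _).mpr (H.exT k), ?_⟩
    rw [hmem]
    rintro ⟨c, hc⟩
    exact H.exH k c hc
  rw [← Finset.sum_subset h5, Finset.sum_image (fun a _ b _ h => H.exI h),
    ← Finset.sum_neg_distrib]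
  · apply Finset.sum_congr rfl
    intro k _
    have hl := H.exl k
    have hl' := H.lvs _ _ hl
    obtain ⟨i1, a1⟩ := H.ex1 k
    obtain ⟨i2, a2⟩ := H.ex2 k
    simp only [hf, primO, prim, i1, i2, hl, hl', if_true, if_false, a1, a2]
    rw [H.Fs (ex k).2 (ex k).1, H.exF k, ang_self, zero_sub]
  · rintro ⟨a, b⟩ he hne
    rw [Finset.mem_filter] at he
    obtain ⟨he1, he2⟩ := he
    rw [hmem] at he1
    obtain ⟨c, hc⟩ := he1
    rw [hmem] at he2
    push Not at he2
    have hnl : ¬ lv a b := by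
      intro hl
      apply hne
      obtain ⟨k, hk⟩ := H.hull a b c hc he2 hl
      rw [Finset.mem_image]
      exact ⟨k, Finset.mem_univ _, hk⟩
    have hnl' : ¬ lv b a := fun h => hnl (H.lvs _ _ h)
    simp only [hf, primO, prim, hnl, hnl', if_false, ite_self, sub_zero]

/-- the number (times `2π`) of turns of the big triangle around `w` -/
def bigang (w : ℂ) : ℝ := ∑ k : ZMod 3, ang w (omz (k - 1)) (omz k)

/-- **T1** (discrete argument principle, inequality) -/
theorem Til.main (H : Til G lv F Q ex inn arc) {w : ℂ} (hw : Good F G w) :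
    ∑ t ∈ G.T, wtri lv F w t ≤ 3 * bigang w := by
  have h1 := H.total hw
  have h2 : ∑ t ∈ G.T, corner lv F w t = ∑ t ∈ G.T, (if inn t.1 then corner lv F w t else 0) +
      ∑ t ∈ G.T, (if inn t.1 then 0 else corner lv F w t) := by
    rw [← Finset.sum_add_distrib]
    apply Finset.sum_congr rfl
    intro t _
    by_cases hi : inn t.1 <;> simp [hi]
  have h3 : 0 ≤ ∑ t ∈ G.T, (if inn t.1 then corner lv F w t else 0) := by
    rw [← Finset.sum_filter]
    rw [← Finset.sum_fiberwise_of_maps_to (s := G.T.filter fun t => inn t.1)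
      (t := (G.T.filter fun t => inn t.1).image (fun t => t.1)) (g := fun t => t.1)
      (fun t ht => Finset.mem_image_of_mem _ ht)]
    apply Finset.sum_nonneg
    intro v hv
    rw [Finset.mem_image] at hv
    obtain ⟨t, ht, rfl⟩ := hv
    have hi : inn t.1 := (Finset.mem_filter.mp ht).2
    have h4 := H.inner_nonneg hw hi
    have h5 : (G.T.filter fun s => inn s.1).filter (fun s => s.1 = t.1) =
        G.T.filter (fun s => s.1 = t.1) := by
      ext s
      simp only [Finset.mem_filter]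
      constructor
      · rintro ⟨⟨a, -⟩, b⟩; exact ⟨a, b⟩
      · rintro ⟨a, b⟩; exact ⟨⟨a, b ▸ hi⟩, b⟩
    rw [h5]
    exact h4
  rw [H.sum_out hw, H.sum_hull w] at h2
  unfold bigang
  linarith

end main

/-! ### the big triangle -/

theorem off_of_cr {w p q : ℂ} (h : cr (p - w) (q - w) ≠ 0) : w ∉ segment ℝ p q := by
  intro hm
  rw [segment_eq_image'] at hm
  obtain ⟨s, -, rfl⟩ := hm
  apply h
  unfold cr
  simp only [Complex.sub_re, Complex.sub_im, Complex.add_re, Complex.add_im, Complex.real_smul,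
    Complex.mul_re, Complex.mul_im, Complex.ofReal_re, Complex.ofReal_im]
  ring

theorem bigang_eq (w : ℂ) : bigang w = ang w (omz 0) (omz 1) + ang w (omz 1) (omz 2) +
    ang w (omz 2) (omz 0) := by
  unfold bigang
  have h : (Finset.univ : Finset (ZMod 3)) = {0, 1, 2} := by decide
  rw [h, Finset.sum_insert (by decide), Finset.sum_insert (by decide), Finset.sum_singleton]
  have e0 : (0 : ZMod 3) - 1 = 2 := by decide
  have e1 : (1 : ZMod 3) - 1 = 0 := by decide
  have e2 : (2 : ZMod 3) - 1 = 1 := by decide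
  rw [e0, e1, e2]
  ring

theorem bigang_le {w : ℂ} (h : ∀ k : ZMod 3, cr (omz k - w) (omz (k + 1) - w) ≠ 0) :
    bigang w ≤ 2 * Real.pi := by
  rw [bigang_eq]
  have e0 : (0 : ZMod 3) + 1 = 1 := by decide
  have e1 : (1 : ZMod 3) + 1 = 2 := by decide
  have e2 : (2 : ZMod 3) + 1 = 0 := by decide
  have h0 := off_of_cr (h 0)
  have h1 := off_of_cr (h 1)
  have h2 := off_of_cr (h 2)
  rw [e0] at h0; rw [e1] at h1; rw [e2] at h2
  obtain ⟨n, hn⟩ := sum3_int (ne_of_off h0).1 (ne_of_off h1).1 (ne_of_off h2).1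
  have a0 := ang_lt h0
  have a1 := ang_lt h1
  have a2 := ang_lt h2
  have n2 : (n : ℝ) < 2 := by
    by_contra hc
    push Not at hc
    nlinarith [Real.pi_pos]
  have n3 : n ≤ 1 := by
    have : n < 2 := by exact_mod_cast n2
    omega
  rw [hn]
  have : (n : ℝ) ≤ 1 := by exact_mod_cast n3
  nlinarith [Real.pi_pos]

theorem bigang_out {w : ℂ} (h : ∀ k : ZMod 3, cr (omz k - w) (omz (k + 1) - w) ≠ 0)
    {k : ZMod 3} (hk : cr (omz k - w) (omz (k + 1) - w) < 0) : bigang w ≤ 0 := by
  have e0 : (0 : ZMod 3) + 1 = 1 := by decide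
  have e1 : (1 : ZMod 3) + 1 = 2 := by decide
  have e2 : (2 : ZMod 3) + 1 = 0 := by decide
  have h0 := off_of_cr (h 0)
  have h1 := off_of_cr (h 1)
  have h2 := off_of_cr (h 2)
  rw [e0] at h0; rw [e1] at h1; rw [e2] at h2
  obtain ⟨n, hn⟩ := sum3_int (ne_of_off h0).1 (ne_of_off h1).1 (ne_of_off h2).1
  have a0 := ang_lt h0
  have a1 := ang_lt h1
  have a2 := ang_lt h2
  have hneg : ang w (omz 0) (omz 1) < 0 ∨ ang w (omz 1) (omz 2) < 0 ∨
      ang w (omz 2) (omz 0) < 0 := by
    fin_cases k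
    · left
      exact (ang_neg_iff (ne_of_off h0).1).mpr hk
    · right; left
      exact (ang_neg_iff (ne_of_off h1).1).mpr hk
    · right; right
      exact (ang_neg_iff (ne_of_off h2).1).mpr hk
  have n2 : (n : ℝ) < 1 := by
    by_contra hc
    push Not at hc
    rcases hneg with h | h | h <;> nlinarith [Real.pi_pos]
  have n3 : n ≤ 0 := by
    have : n < 1 := by exact_mod_cast n2
    omega
  rw [bigang_eq, hn]
  have : (n : ℝ) ≤ 0 := by exact_mod_cast n3
  nlinarith [Real.pi_pos]

/-! ### disjointness -/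

/-- the three sides are live -/
def LiveT (lv : V → V → Prop) (t : V × V × V) : Prop :=
  lv t.1 t.2.1 ∧ lv t.2.1 t.2.2 ∧ lv t.2.2 t.1

/-- `w` is in the open triangle `F(t)` -/
def InsT (F : V → V → ℂ) (w : ℂ) (t : V × V × V) : Prop :=
  0 < cr (F t.1 t.2.1 - w) (F t.2.1 t.2.2 - w) ∧ 0 < cr (F t.2.1 t.2.2 - w) (F t.2.2 t.1 - w) ∧
    0 < cr (F t.2.2 t.1 - w) (F t.1 t.2.1 - w)

theorem om_im_pos : 0 < om.im := by
  rw [om, Complex.exp_ofReal_mul_I_im]
  apply Real.sin_pos_of_pos_of_lt_pi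
  · positivity
  · nlinarith [Real.pi_pos]

theorem om_im_sq : om.im ^ 2 = 3 / 4 := by
  have h1 : om.re ^ 2 + om.im ^ 2 = 1 := by
    have h := norm_om
    have h2 : Complex.normSq om = 1 := by rw [Complex.normSq_eq_norm_sq, h]; norm_num
    rw [Complex.normSq_apply] at h2
    nlinarith
  rw [om_re] at h1
  linarith

theorem om_sq : om ^ 2 = -1 - om := by
  apply Complex.ext
  · simp only [sq, Complex.mul_re, Complex.sub_re, Complex.neg_re, Complex.one_re]
    have := om_im_sq
    rw [om_re]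
    nlinarith
  · simp only [sq, Complex.mul_im, Complex.sub_im, Complex.neg_im, Complex.one_im]
    rw [om_re]
    ring

theorem cr_om (q : ℂ) : cr ((om - 1) * q) ((om ^ 2 - 1) * q) = 3 * om.im * Complex.normSq q := by
  rw [om_sq]
  unfold cr
  simp only [Complex.mul_re, Complex.mul_im, Complex.sub_re, Complex.sub_im, Complex.neg_re,
    Complex.neg_im, Complex.one_re, Complex.one_im, Complex.normSq_apply, om_re]
  ring

section disj

variable {G : Trg V} {lv : V → V → Prop} {F : V → V → ℂ} {Q : V × V × V → ℂ}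
  {ex : ZMod 3 → V × V} {inn : V → Prop} {arc : V → ZMod 3}

theorem Til.wtri_nonneg (H : Til G lv F Q ex inn arc) {w : ℂ} (hw : Good F G w) {t : V × V × V}
    (ht : t ∈ G.T) : 0 ≤ wtri lv F w t := by
  obtain ⟨a, b, c⟩ := t
  obtain ⟨e1, e2, e3⟩ := edg_of_mem ht
  unfold wtri
  split_ifs with h
  · obtain ⟨h1, h2, h3⟩ := h
    obtain ⟨h, f1, f2, f3⟩ := H.tri3 a b c ht h1 h2 h3
    apply tri_nonneg _ (hw.off _ _ _ _ e1 e2) (hw.off _ _ _ _ e2 e3)
    rw [f1, f2, f3]
    have g1 : h + om * Q (a, b, c) - (h + Q (a, b, c)) = (om - 1) * Q (a, b, c) := by ring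
    have g2 : h + om ^ 2 * Q (a, b, c) - (h + Q (a, b, c)) = (om ^ 2 - 1) * Q (a, b, c) := by ring
    rw [g1, g2, cr_om]
    have := om_im_pos
    have := Complex.normSq_nonneg (Q (a, b, c))
    positivity
  · exact le_refl _

theorem wtri_ins {w : ℂ} (hw : Good F G w) {t : V × V × V} (ht : t ∈ G.T) (hl : LiveT lv t)
    (hi : InsT F w t) : wtri lv F w t = 2 * Real.pi := by
  obtain ⟨a, b, c⟩ := t
  obtain ⟨e1, e2, e3⟩ := edg_of_mem ht
  unfold wtri
  refine (if_pos hl).trans ?_
  exact tri_eq hi.1 hi.2.1 hi.2.2 (hw.off _ _ _ _ e1 e2) (hw.off _ _ _ _ e2 e3)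
    (hw.off _ _ _ _ e3 e1)

theorem Til.card_le (H : Til G lv F Q ex inn arc) {w : ℂ} (hw : Good F G w) :
    (2 * Real.pi) * ((G.T.filter fun t => LiveT lv t ∧ InsT F w t).card : ℝ) ≤ 3 * bigang w := by
  refine le_trans ?_ (H.main hw)
  calc (2 * Real.pi) * ((G.T.filter fun t => LiveT lv t ∧ InsT F w t).card : ℝ)
      = ∑ t ∈ G.T.filter (fun t => LiveT lv t ∧ InsT F w t), 2 * Real.pi := by
        rw [Finset.sum_const, nsmul_eq_mul]; ring
    _ = ∑ t ∈ G.T.filter (fun t => LiveT lv t ∧ InsT F w t), wtri lv F w t := by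
        apply Finset.sum_congr rfl
        intro t ht
        rw [Finset.mem_filter] at ht
        exact (wtri_ins hw ht.1 ht.2.1 ht.2.2).symm
    _ ≤ ∑ t ∈ G.T, wtri lv F w t :=
        Finset.sum_le_sum_of_subset_of_nonneg (Finset.filter_subset _ _)
          fun t ht _ => H.wtri_nonneg hw ht

theorem Til.card_le3 (H : Til G lv F Q ex inn arc) {w : ℂ} (hw : Good F G w) :
    (G.T.filter fun t => LiveT lv t ∧ InsT F w t).card ≤ 3 := by
  have h1 := H.card_le hw
  have h2 := bigang_le hw.big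
  have h3 : (2 * Real.pi) * ((G.T.filter fun t => LiveT lv t ∧ InsT F w t).card : ℝ) ≤
      (2 * Real.pi) * 3 := by linarith
  have h4 := le_of_mul_le_mul_left h3 (by positivity)
  exact_mod_cast h4

/-- `w` is in the (closed) big triangle -/
def InBig (w : ℂ) : Prop := ∀ k : ZMod 3, 0 ≤ cr (omz k - w) (omz (k + 1) - w)

theorem Til.ins_big (H : Til G lv F Q ex inn arc) {w : ℂ} (hw : Good F G w) {t : V × V × V}
    (ht : t ∈ G.T) (hl : LiveT lv t) (hi : InsT F w t) : InBig w := by
  intro k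
  by_contra hk
  push Not at hk
  have h1 := H.card_le hw
  have h2 := bigang_out hw.big hk
  have h3 : (2 * Real.pi) * ((G.T.filter fun t => LiveT lv t ∧ InsT F w t).card : ℝ) ≤ 0 := by
    linarith
  have h4 : 0 < (G.T.filter fun t => LiveT lv t ∧ InsT F w t).card :=
    Finset.card_pos.mpr ⟨t, Finset.mem_filter.mpr ⟨ht, hl, hi⟩⟩
  have h5 : (0 : ℝ) < ((G.T.filter fun t => LiveT lv t ∧ InsT F w t).card : ℝ) := by
    exact_mod_cast h4
  have := mul_pos (by positivity : (0 : ℝ) < 2 * Real.pi) h5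
  linarith

theorem LiveT.rot {t : V × V × V} (h : LiveT lv t) : LiveT lv (rotE t) := ⟨h.2.1, h.2.2, h.1⟩

theorem InsT.rot {w : ℂ} {t : V × V × V} (h : InsT F w t) : InsT F w (rotE t) :=
  ⟨h.2.1, h.2.2, h.1⟩

theorem Til.unique (H : Til G lv F Q ex inn arc) {w : ℂ} (hw : Good F G w) {t t' : V × V × V}
    (ht : t ∈ G.T) (ht' : t' ∈ G.T) (hl : LiveT lv t) (hl' : LiveT lv t')
    (hi : InsT F w t) (hi' : InsT F w t') : t' ∈ rots t := by
  by_contra hc
  have h1 := H.card_le3 hw
  have hr : ∀ {s : V × V × V}, s ∈ G.T → rotE s ∈ G.T := by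
    rintro ⟨a, b, c⟩ h
    exact G.rot h
  have hsub : ({t, rotE t, rotE (rotE t), t'} : Finset (V × V × V)) ⊆
      G.T.filter (fun t => LiveT lv t ∧ InsT F w t) := by
    intro s hs
    simp only [Finset.mem_insert, Finset.mem_singleton] at hs
    rw [Finset.mem_filter]
    rcases hs with rfl | rfl | rfl | rfl
    · exact ⟨ht, hl, hi⟩
    · exact ⟨hr ht, hl.rot, hi.rot⟩
    · exact ⟨hr (hr ht), hl.rot.rot, hi.rot.rot⟩
    · exact ⟨ht', hl', hi'⟩
  have h2 := Finset.card_le_card hsub
  obtain ⟨a, b, c⟩ := t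
  have n1 := G.ne ht
  have n2 := G.ne (G.rot ht)
  have n3 := G.ne (G.rot (G.rot ht))
  have h3 : ({(a, b, c), rotE (a, b, c), rotE (rotE (a, b, c)), t'} : Finset (V × V × V)).card =
      4 := by
    simp only [rotE, Equiv.coe_fn_mk]
    simp only [rots, Set.mem_insert_iff, Set.mem_singleton_iff, not_or] at hc
    rw [Finset.card_insert_of_notMem, Finset.card_insert_of_notMem,
      Finset.card_insert_of_notMem, Finset.card_singleton]
    · simp only [Finset.mem_singleton]
      exact fun h => hc.2.2 h.symm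
    · simp only [Finset.mem_insert, Finset.mem_singleton, Prod.mk.injEq, not_or]
      refine ⟨?_, fun h => hc.2.1 h.symm⟩
      rintro ⟨h, -, -⟩
      exact n2 h
    · simp only [Finset.mem_insert, Finset.mem_singleton, Prod.mk.injEq, not_or]
      refine ⟨?_, ?_, fun h => hc.1 h.symm⟩
      · rintro ⟨h, -, -⟩
        exact n1 h
      · rintro ⟨h, -, -⟩
        exact n3 h.symm
  omega

/-- centre of the triangle `F(t)` -/
def cen (F : V → V → ℂ) (t : V × V × V) : ℂ :=
  (F t.1 t.2.1 + F t.2.1 t.2.2 + F t.2.2 t.1) / 3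

theorem cr_pos {u q : ℂ} (h : ‖u‖ < ‖q‖ / 2) : 0 < cr (u + q) (u + om * q) := by
  have hq : 0 < ‖q‖ := by
    have := norm_nonneg u
    linarith
  have h1 : cr (u + q) (u + om * q) = om.im * ‖q‖ ^ 2 + cr u ((om - 1) * q) := by
    rw [← Complex.normSq_eq_norm_sq]
    unfold cr
    simp only [Complex.add_re, Complex.add_im, Complex.mul_re, Complex.mul_im, Complex.sub_re,
      Complex.sub_im, Complex.one_re, Complex.one_im, Complex.normSq_apply]
    ring
  have h2 : |cr u ((om - 1) * q)| ≤ ‖u‖ * (Real.sqrt 3 * ‖q‖) := by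
    have e : cr u ((om - 1) * q) = ((starRingEnd ℂ) u * ((om - 1) * q)).im := by
      unfold cr
      simp only [Complex.mul_im, Complex.conj_re, Complex.conj_im]
      ring
    rw [e]
    refine (Complex.abs_im_le_norm _).trans ?_
    rw [norm_mul, norm_mul, Complex.norm_conj, norm_sub_rev, norm_one_sub_om]
  have h3 : om.im = Real.sqrt 3 / 2 := by
    have h4 := om_im_sq
    have h5 := om_im_pos
    have h6 : Real.sqrt 3 = 2 * om.im := by
      rw [show (3 : ℝ) = (2 * om.im) ^ 2 by rw [mul_pow, h4]; norm_num]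
      exact Real.sqrt_sq (by positivity)
    rw [h6]; ring
  have h7 : 0 < Real.sqrt 3 := by positivity
  have h8 : ‖u‖ * (Real.sqrt 3 * ‖q‖) < Real.sqrt 3 / 2 * ‖q‖ ^ 2 := by
    have : 0 < Real.sqrt 3 * ‖q‖ := by positivity
    nlinarith
  rw [h1, h3]
  have h9 := (abs_le.mp h2).1
  linarith

theorem Til.ins_of_ball (H : Til G lv F Q ex inn arc) {w : ℂ} {t : V × V × V}
    (ht : t ∈ G.T) (hl : LiveT lv t) (hb : w ∈ Metric.ball (cen F t) (‖Q t‖ / 2)) :
    InsT F w t := by
  obtain ⟨a, b, c⟩ := t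
  obtain ⟨h, f1, f2, f3⟩ := H.tri3 a b c ht hl.1 hl.2.1 hl.2.2
  have h3 := om_pow_three
  have hc : cen F (a, b, c) = h := by
    unfold cen
    simp only
    rw [f1, f2, f3]
    linear_combination (Q (a, b, c) / 3) * om_sq
  rw [hc, Metric.mem_ball, dist_eq_norm, norm_sub_rev] at hb
  have k0 : ‖h - w‖ < ‖Q (a, b, c)‖ / 2 := hb
  have k1 : ‖h - w‖ < ‖om * Q (a, b, c)‖ / 2 := by rw [norm_mul, norm_om, one_mul]; exact hb
  have k2 : ‖h - w‖ < ‖om ^ 2 * Q (a, b, c)‖ / 2 := by
    rw [norm_mul, norm_pow, norm_om, one_pow, one_mul]; exact hb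
  unfold InsT
  simp only
  rw [f1, f2, f3]
  refine ⟨?_, ?_, ?_⟩
  · have := cr_pos k0
    convert this using 2 <;> ring
  · have := cr_pos k1
    convert this using 2 <;> ring
  · have := cr_pos k2
    have e : om * (om ^ 2 * Q (a, b, c)) = Q (a, b, c) := by
      rw [← mul_assoc, ← pow_succ', h3, one_mul]
    rw [e] at this
    convert this using 2 <;> ring

end disj

/-! ### measure theory: almost every point is good -/

theorem line_null (p q : ℂ) : volume ((line[ℝ, p, q] : AffineSubspace ℝ ℂ) : Set ℂ) = 0 := by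
  apply Measure.addHaar_affineSubspace
  intro h
  by_cases hpq : p = q
  · subst hpq
    have h1 : p + 1 ∈ (line[ℝ, p, p] : AffineSubspace ℝ ℂ) := by rw [h]; trivial
    rw [mem_affineSpan_pair_iff_exists_lineMap_eq] at h1
    obtain ⟨r, hr⟩ := h1
    simp at hr
  · have h1 : p + Complex.I * (q - p) ∈ (line[ℝ, p, q] : AffineSubspace ℝ ℂ) := by
      rw [h]; trivial
    rw [mem_affineSpan_pair_iff_exists_lineMap_eq] at h1
    obtain ⟨r, hr⟩ := h1
    rw [AffineMap.lineMap_apply] at hr
    simp only [vsub_eq_sub, vadd_eq_add, Complex.real_smul] at hr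
    have h2 : (r : ℂ) * (q - p) = Complex.I * (q - p) := by linear_combination hr
    have h3 := mul_right_cancel₀ (sub_ne_zero.mpr (Ne.symm hpq)) h2
    have h4 := congrArg Complex.im h3
    simp at h4

theorem seg_null (p q : ℂ) : volume (segment ℝ p q) = 0 := by
  apply measure_mono_null _ (line_null p q)
  intro w hw
  rw [segment_eq_image_lineMap] at hw
  obtain ⟨t, -, rfl⟩ := hw
  exact AffineMap.lineMap_mem_affineSpan_pair t p q

theorem crz_null {p q : ℂ} (hpq : p ≠ q) : volume {w : ℂ | cr (p - w) (q - w) = 0} = 0 := by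
  apply measure_mono_null _ (line_null p q)
  intro w hw
  simp only [Set.mem_ofPred_eq] at hw
  have hne : q - p ≠ 0 := sub_ne_zero.mpr (Ne.symm hpq)
  have h1 : ((w - p) / (q - p)).im = 0 := by
    rw [im_div']
    have : cr (q - p) (w - p) = cr (p - w) (q - w) := by
      unfold cr
      simp only [Complex.sub_re, Complex.sub_im]
      ring
    rw [this, hw]; simp
  have h2 : AffineMap.lineMap p q (((w - p) / (q - p)).re) = w := by
    rw [AffineMap.lineMap_apply]
    simp only [vsub_eq_sub, vadd_eq_add, Complex.real_smul]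
    have h3 : ((((w - p) / (q - p)).re : ℝ) : ℂ) = (w - p) / (q - p) := by
      apply Complex.ext
      · simp
      · simp [h1]
    rw [h3]
    field_simp
    ring
  show w ∈ (line[ℝ, p, q] : AffineSubspace ℝ ℂ)
  rw [← h2]
  exact AffineMap.lineMap_mem_affineSpan_pair _ p q

theorem edg_iff (G : Trg V) (a b : V) : Edg G a b ↔ (a, b) ∈ G.E := by
  unfold Edg Trg.E
  rw [Finset.mem_union, Finset.mem_image, Finset.mem_image]
  constructor
  · rintro (⟨c, h⟩ | ⟨c, h⟩)
    · exact Or.inl ⟨_, h, rfl⟩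
    · exact Or.inr ⟨_, h, rfl⟩
  · rintro (⟨⟨x, y, z⟩, h, he⟩ | ⟨⟨x, y, z⟩, h, he⟩)
    · simp only [Prod.mk.injEq] at he
      obtain ⟨rfl, rfl⟩ := he
      exact Or.inl ⟨z, h⟩
    · simp only [Prod.mk.injEq] at he
      obtain ⟨rfl, rfl⟩ := he
      exact Or.inr ⟨z, h⟩

theorem omz_ne (k : ZMod 3) : omz k ≠ omz (k + 1) := by
  rw [omz_add_one]
  intro h
  have h0 : omz k ≠ 0 := by
    intro h1
    have h2 : ‖omz k‖ = 1 := by unfold omz; rw [norm_pow, norm_om, one_pow]
    rw [h1] at h2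
    simp at h2
  have h1 : om = 1 := by
    have h2 : (om - 1) * omz k = 0 := by linear_combination -h
    rcases mul_eq_zero.mp h2 with h3 | h3
    · linear_combination h3
    · exact absurd h3 h0
  have h2 := om_im_pos
  rw [h1] at h2
  simp at h2

theorem good_ae (G : Trg V) (F : V → V → ℂ) : ∀ᵐ w : ℂ, Good F G w := by
  have h1 : ∀ᵐ w : ℂ, ∀ p ∈ G.E, ∀ q ∈ G.E, w ∉ segment ℝ (F p.1 p.2) (F q.1 q.2) := by
    rw [Finset.eventually_all]
    intro p _
    rw [Finset.eventually_all]
    intro q _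
    have := seg_null (F p.1 p.2) (F q.1 q.2)
    rw [ae_iff]
    simpa using this
  have h2 : ∀ᵐ w : ℂ, ∀ k : ZMod 3, cr (omz k - w) (omz (k + 1) - w) ≠ 0 := by
    rw [ae_all_iff]
    intro k
    have := crz_null (omz_ne k)
    rw [ae_iff]
    simpa using this
  filter_upwards [h1, h2] with w g1 g2
  exact ⟨fun a b c e h h' => g1 (a, b) ((edg_iff G a b).mp h) (c, e) ((edg_iff G c e).mp h'), g2⟩

/-! ### T2 : energy -/

theorem exists_good (G : Trg V) (F : V → V → ℂ) {U : Set ℂ} (hU : IsOpen U) (hne : U.Nonempty) :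
    ∃ w ∈ U, Good F G w := by
  by_contra hc
  push Not at hc
  have h1 : U ⊆ {w | ¬ Good F G w} := fun w hw => hc w hw
  have h2 : volume {w | ¬ Good F G w} = 0 := by
    have := good_ae G F
    rwa [ae_iff] at this
  have h3 := measure_mono_null h1 h2
  have h4 := hU.measure_pos volume hne
  rw [h3] at h4
  exact lt_irrefl _ h4

theorem bary (a b c w : ℂ) : (cr (b - w) (c - w) : ℂ) * a + (cr (c - w) (a - w) : ℂ) * b +
    (cr (a - w) (b - w) : ℂ) * c = (cr (b - a) (c - a) : ℂ) * w := by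
  unfold cr
  apply Complex.ext
  · simp only [Complex.add_re, Complex.mul_re, Complex.ofReal_re, Complex.ofReal_im, Complex.sub_re,
      Complex.sub_im]
    ring
  · simp only [Complex.add_im, Complex.mul_im, Complex.ofReal_re, Complex.ofReal_im, Complex.sub_re,
      Complex.sub_im]
    ring

theorem omz_zero : omz 0 = 1 := by
  have : (0 : ZMod 3).val = 0 := rfl
  unfold omz
  rw [this, pow_zero]

theorem omz_one : omz 1 = om := by
  have : (1 : ZMod 3).val = 1 := rfl
  unfold omz
  rw [this, pow_one]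

theorem omz_two : omz 2 = om ^ 2 := by
  have : (2 : ZMod 3).val = 2 := rfl
  unfold omz
  rw [this]

theorem norm_omz (k : ZMod 3) : ‖omz k‖ = 1 := by
  unfold omz; rw [norm_pow, norm_om, one_pow]

theorem InBig.norm_le {w : ℂ} (h : InBig w) : ‖w‖ ≤ 1 := by
  have h0 := h 0
  have h1 := h 1
  have h2 := h 2
  have e0 : (0 : ZMod 3) + 1 = 1 := by decide
  have e1 : (1 : ZMod 3) + 1 = 2 := by decide
  have e2 : (2 : ZMod 3) + 1 = 0 := by decide
  rw [e0] at h0; rw [e1] at h1; rw [e2] at h2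
  have hb := bary (omz 0) (omz 1) (omz 2) w
  have hs := cr_sum3 w (omz 0) (omz 1) (omz 2)
  have ht : 0 < cr (omz 1 - omz 0) (omz 2 - omz 0) := by
    rw [omz_zero, omz_one, omz_two]
    have := cr_om 1
    simp only [mul_one, map_one] at this
    rw [this]
    have := om_im_pos
    positivity
  have hn : cr (omz 1 - omz 0) (omz 2 - omz 0) * ‖w‖ ≤ cr (omz 1 - omz 0) (omz 2 - omz 0) := by
    calc cr (omz 1 - omz 0) (omz 2 - omz 0) * ‖w‖
        = ‖(cr (omz 1 - omz 0) (omz 2 - omz 0) : ℂ) * w‖ := by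
          rw [norm_mul, Complex.norm_real, Real.norm_of_nonneg ht.le]
      _ ≤ cr (omz 1 - w) (omz 2 - w) + cr (omz 2 - w) (omz 0 - w) +
          cr (omz 0 - w) (omz 1 - w) := by
          rw [← hb]
          refine (norm_add_le _ _).trans (add_le_add ((norm_add_le _ _).trans
            (add_le_add ?_ ?_)) ?_)
          · rw [norm_mul, norm_omz, mul_one, Complex.norm_real, Real.norm_of_nonneg h1]
          · rw [norm_mul, norm_omz, mul_one, Complex.norm_real, Real.norm_of_nonneg h2]
          · rw [norm_mul, norm_omz, mul_one, Complex.norm_real, Real.norm_of_nonneg h0]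
      _ = cr (omz 1 - omz 0) (omz 2 - omz 0) := by linarith
  by_contra hc
  push Not at hc
  nlinarith

section energy

variable {G : Trg V} {lv : V → V → Prop} {F : V → V → ℂ} {Q : V × V × V → ℂ}
  {ex : ZMod 3 → V × V} {inn : V → Prop} {arc : V → ZMod 3}

/-- the disc inscribed in the triangle `F(t)` -/
def disc (F : V → V → ℂ) (Q : V × V × V → ℂ) (t : V × V × V) : Set ℂ :=
  Metric.ball (cen F t) (‖Q t‖ / 2)

/-- **T1, disjointness** of the inscribed discs -/
theorem Til.disj (H : Til G lv F Q ex inn arc) {t t' : V × V × V} (ht : t ∈ G.T)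
    (ht' : t' ∈ G.T) (hl : LiveT lv t) (hl' : LiveT lv t') (hne : t' ∉ rots t) :
    Disjoint (disc F Q t) (disc F Q t') := by
  rw [Set.disjoint_iff_inter_eq_empty]
  by_contra hc
  obtain ⟨w, hw, hg⟩ := exists_good G F (Metric.isOpen_ball.inter Metric.isOpen_ball)
    (Set.nonempty_iff_ne_empty.mpr hc)
  exact hne (H.unique hg ht ht' hl hl' (H.ins_of_ball ht hl hw.1) (H.ins_of_ball ht' hl' hw.2))

/-- **T1, disjointness** of the open triangles -/
theorem Til.disj_ins (H : Til G lv F Q ex inn arc) {t t' : V × V × V} (ht : t ∈ G.T)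
    (ht' : t' ∈ G.T) (hl : LiveT lv t) (hl' : LiveT lv t') (hne : t' ∉ rots t) (w : ℂ) :
    ¬ (InsT F w t ∧ InsT F w t') := by
  intro hw
  have hcont : ∀ a b : ℂ, Continuous fun w : ℂ => cr (a - w) (b - w) := by
    intro a b
    unfold cr
    fun_prop
  have hop : ∀ s : V × V × V, IsOpen {w : ℂ | InsT F w s} := by
    intro s
    unfold InsT
    exact (isOpen_lt continuous_const (hcont _ _)).inter
      ((isOpen_lt continuous_const (hcont _ _)).inter (isOpen_lt continuous_const (hcont _ _)))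
  obtain ⟨w', hw', hg⟩ := exists_good G F ((hop t).inter (hop t')) ⟨w, hw.1, hw.2⟩
  exact hne (H.unique hg ht ht' hl hl' hw'.1 hw'.2)

/-- **T1** : the triangles lie in the big triangle -/
theorem Til.ins_sub (H : Til G lv F Q ex inn arc) {t : V × V × V} (ht : t ∈ G.T)
    (hl : LiveT lv t) {w : ℂ} (hw : InsT F w t) : InBig w := by
  intro k
  by_contra hk
  push Not at hk
  have hcont : ∀ a b : ℂ, Continuous fun w : ℂ => cr (a - w) (b - w) := by
    intro a b
    unfold cr
    fun_prop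
  have hop : IsOpen {w : ℂ | InsT F w t} := by
    unfold InsT
    exact (isOpen_lt continuous_const (hcont _ _)).inter
      ((isOpen_lt continuous_const (hcont _ _)).inter (isOpen_lt continuous_const (hcont _ _)))
  have hop2 : IsOpen {w : ℂ | cr (omz k - w) (omz (k + 1) - w) < 0} :=
    isOpen_lt (hcont _ _) continuous_const
  obtain ⟨w', hw', hg⟩ := exists_good G F (hop.inter hop2) ⟨w, hw, hk⟩
  have h1 := H.ins_big hg ht hl hw'.1 k
  have h2 : cr (omz k - w') (omz (k + 1) - w') < 0 := hw'.2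
  linarith

theorem Til.disc_sub (H : Til G lv F Q ex inn arc) {t : V × V × V} (ht : t ∈ G.T)
    (hl : LiveT lv t) : disc F Q t ⊆ Metric.closedBall 0 1 := by
  intro w hw
  rw [mem_closedBall_zero_iff]
  exact (H.ins_sub ht hl (H.ins_of_ball ht hl hw)).norm_le

/-- **T2** (energy of a set of triangles) -/
theorem Til.energy (H : Til G lv F Q ex inn arc) (A : Finset (V × V × V)) (hA : A ⊆ G.T)
    (hQ : ∀ t ∈ A, LiveT lv t ∨ Q t = 0) :
    ∑ t ∈ A, ‖Q t‖ ^ 2 ≤ 12 / Real.pi * (volume (⋃ t ∈ A, disc F Q t)).toReal := by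
  have h1 : ∑ t ∈ A, volume (disc F Q t) ≤ 3 * volume (⋃ t ∈ A, disc F Q t) := by
    have hm : ∀ t, MeasurableSet (disc F Q t) := fun t => Metric.isOpen_ball.measurableSet
    have hmU : MeasurableSet (⋃ t ∈ A, disc F Q t) :=
      Finset.measurableSet_biUnion A fun t _ => hm t
    calc ∑ t ∈ A, volume (disc F Q t) = ∑ t ∈ A, ∫⁻ w, (disc F Q t).indicator 1 w := by
          apply Finset.sum_congr rfl
          intro t _
          rw [lintegral_indicator_one (hm t)]
      _ = ∫⁻ w, ∑ t ∈ A, (disc F Q t).indicator 1 w := by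
          rw [lintegral_finsetSum]
          intro t _
          exact measurable_one.indicator (hm t)
      _ ≤ ∫⁻ w, 3 * (⋃ t ∈ A, disc F Q t).indicator 1 w := by
          apply lintegral_mono_ae
          filter_upwards [good_ae G F] with w hw
          have h2 : ∑ t ∈ A, (disc F Q t).indicator (1 : ℂ → ENNReal) w =
              ((A.filter fun t => w ∈ disc F Q t).card : ENNReal) := by
            rw [Finset.card_filter]
            push_cast
            apply Finset.sum_congr rfl
            intro t _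
            by_cases h : w ∈ disc F Q t <;> simp [h]
          rw [h2]
          by_cases hU : w ∈ ⋃ t ∈ A, disc F Q t
          · rw [Set.indicator_of_mem hU]
            have h3 : (A.filter fun t => w ∈ disc F Q t) ⊆
                G.T.filter (fun t => LiveT lv t ∧ InsT F w t) := by
              intro t ht
              rw [Finset.mem_filter] at ht ⊢
              have hl : LiveT lv t := by
                rcases hQ t ht.1 with h | h
                · exact h
                · exfalso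
                  have := ht.2
                  unfold disc at this
                  rw [h] at this
                  simp at this
              exact ⟨hA ht.1, hl, H.ins_of_ball (hA ht.1) hl ht.2⟩
            have h4 := (Finset.card_le_card h3).trans (H.card_le3 hw)
            simp only [Pi.one_apply, mul_one]
            exact_mod_cast h4
          · have h3 : (A.filter fun t => w ∈ disc F Q t) = ∅ := by
              apply Finset.filter_eq_empty_iff.mpr
              intro t ht hwt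
              exact hU (Set.mem_biUnion ht hwt)
            rw [h3]
            simp
      _ = 3 * volume (⋃ t ∈ A, disc F Q t) := by
          rw [lintegral_const_mul _ (measurable_one.indicator hmU), lintegral_indicator_one hmU]
  have hfin : volume (⋃ t ∈ A, disc F Q t) ≠ ⊤ := by
    apply ne_of_lt
    apply (measure_biUnion_finset_le A _).trans_lt
    apply ENNReal.sum_lt_top.mpr
    intro t _
    exact measure_ball_lt_top
  have h5 : (∑ t ∈ A, volume (disc F Q t)).toReal = Real.pi / 4 * ∑ t ∈ A, ‖Q t‖ ^ 2 := by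
    have hf : ∀ t ∈ A, volume (disc F Q t) ≠ ⊤ := by
      intro t _
      unfold disc
      exact measure_ball_lt_top.ne
    rw [ENNReal.toReal_sum hf, Finset.mul_sum]
    apply Finset.sum_congr rfl
    intro t _
    unfold disc
    rw [Complex.volume_ball]
    simp only [ENNReal.toReal_mul, ENNReal.toReal_pow, ENNReal.coe_toReal, NNReal.coe_real_pi]
    rw [ENNReal.toReal_ofReal (by positivity)]
    ring
  have h6 := ENNReal.toReal_mono (ENNReal.mul_ne_top (by norm_num) hfin) h1
  rw [h5, ENNReal.toReal_mul] at h6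
  have h7 : (3 : ENNReal).toReal = 3 := by norm_num
  rw [h7] at h6
  have hpi := Real.pi_pos
  have h8 : ∑ t ∈ A, ‖Q t‖ ^ 2 = 4 / Real.pi * (Real.pi / 4 * ∑ t ∈ A, ‖Q t‖ ^ 2) := by
    field_simp
  rw [h8]
  calc 4 / Real.pi * (Real.pi / 4 * ∑ t ∈ A, ‖Q t‖ ^ 2)
      ≤ 4 / Real.pi * (3 * (volume (⋃ t ∈ A, disc F Q t)).toReal) :=
        mul_le_mul_of_nonneg_left h6 (by positivity)
    _ = 12 / Real.pi * (volume (⋃ t ∈ A, disc F Q t)).toReal := by ring

/-- **T2** with a ball -/
theorem Til.energy_ball (H : Til G lv F Q ex inn arc) (A : Finset (V × V × V)) (hA : A ⊆ G.T)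
    (hQ : ∀ t ∈ A, LiveT lv t ∨ Q t = 0) {z : ℂ} {r : ℝ} (hr : 0 ≤ r)
    (hb : ∀ t ∈ A, LiveT lv t → disc F Q t ⊆ Metric.closedBall z r) :
    ∑ t ∈ A, ‖Q t‖ ^ 2 ≤ 12 * r ^ 2 := by
  have h1 := H.energy A hA hQ
  have h2 : (⋃ t ∈ A, disc F Q t) ⊆ Metric.closedBall z r := by
    apply Set.iUnion₂_subset
    intro t ht
    rcases hQ t ht with h | h
    · exact hb t ht h
    · unfold disc
      rw [h]
      simp
  have h3 : (volume (⋃ t ∈ A, disc F Q t)).toReal ≤ Real.pi * r ^ 2 := by
    have h4 := ENNReal.toReal_mono (measure_closedBall_lt_top).ne (measure_mono (μ := volume) h2)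
    rw [Complex.volume_closedBall] at h4
    simp only [ENNReal.toReal_mul, ENNReal.toReal_pow, ENNReal.coe_toReal, NNReal.coe_real_pi] at h4
    rw [ENNReal.toReal_ofReal hr] at h4
    linarith
  have hpi := Real.pi_pos
  calc ∑ t ∈ A, ‖Q t‖ ^ 2 ≤ 12 / Real.pi * (volume (⋃ t ∈ A, disc F Q t)).toReal := h1
    _ ≤ 12 / Real.pi * (Real.pi * r ^ 2) := mul_le_mul_of_nonneg_left h3 (by positivity)
    _ = 12 * r ^ 2 := by field_simp

/-- **T2**, total energy (every triangle is counted three times) -/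
theorem Til.energy_le (H : Til G lv F Q ex inn arc) (A : Finset (V × V × V)) (hA : A ⊆ G.T)
    (hQ : ∀ t ∈ A, LiveT lv t ∨ Q t = 0) : ∑ t ∈ A, ‖Q t‖ ^ 2 ≤ 12 := by
  have := H.energy_ball A hA hQ (z := 0) (r := 1) zero_le_one fun t ht h => H.disc_sub (hA ht) h
  linarith

end energy

end Crest.Agent.R143.Energyx395
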