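import Crest.Agent.R143.Jan_304
import Crest.Agent.R143.B0D_346
import Crest.Agent.R143.PP1_831
import Crest.Agent.R143.PoisM3c_501

/-!
# Row 143 (S0194): the hull circle, probability half (helper66, for HullM_93)

* `void_le` : a bounded Borel set `B` contains no point of the configuration with probability at
  most `exp (- vol B / ε²)`
* `CapOK` : every cap of the disc `closedBall c L` with half chord at least `ε ^ (3/5)` contains a
  point; `cap_ok` : this holds with probability `→ 1`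
* `AnnOK` : at most `ε ^ (-11/10)` points in the annulus of width `a`; `ann_ok` : from `Env`
-/

set_option autoImplicit false

noncomputable section

namespace Crest.Agent.R143.HullEx66

open MeasureTheory Set Filter Topology
open scoped ENNReal NNReal ComplexConjugate
open Crest.ProbabilityR.Voronoi
open Crest.Agent.R143.PP0x831 Crest.Agent.R143.B0Dx346 Crest.Agent.R143.PP1x831

/-! ### void probability -/


/-- indicator of the configurations without point in `B` -/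
def vF (B : Set ℂ) (S : Set (ℂ × Bool)) : ℝ≥0∞ :=
  Set.indicator {S : Set (ℂ × Bool) | ∀ p ∈ S, p.1 ∉ B} (fun _ => (1 : ℝ≥0∞)) S

theorem vF_one {B : Set ℂ} {S : Set (ℂ × Bool)} (h : ∀ p ∈ S, p.1 ∉ B) : vF B S = 1 :=
  Set.indicator_of_mem (s := {S : Set (ℂ × Bool) | ∀ p ∈ S, p.1 ∉ B}) h _

theorem vF_zero {B : Set ℂ} {S : Set (ℂ × Bool)} (h : ¬ ∀ p ∈ S, p.1 ∉ B) : vF B S = 0 :=
  Set.indicator_of_notMem (s := {S : Set (ℂ × Bool) | ∀ p ∈ S, p.1 ∉ B}) h _

theorem vF_local (B : Set ℂ) : LocalOn B (vF B) := by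
  intro S
  by_cases h : ∀ p ∈ S, p.1 ∉ B
  · rw [vF_one h, vF_one fun p hp => h p hp.1]
  · have h2 : ¬ ∀ p ∈ S ∩ {p : ℂ × Bool | p.1 ∈ B}, p.1 ∉ B := fun h' =>
      h fun p hp hpB => h' p ⟨hp, hpB⟩ hpB
    exact (vF_zero h).trans (vF_zero h2).symm

theorem vF_meas {B : Set ℂ} (hB : MeasurableSet B) : FinMeas (vF B) := by
  intro n
  have h : (fun z : Fin n → ℂ × Bool => vF B (range z)) =
      Set.indicator (⋂ i, {z : Fin n → ℂ × Bool | (z i).1 ∈ B}ᶜ) (fun _ => (1 : ℝ≥0∞)) := by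
    funext z
    by_cases hz : ∀ i, (z i).1 ∉ B
    · rw [vF_one (by rintro p ⟨i, rfl⟩; exact hz i), Set.indicator_of_mem]
      exact mem_iInter.2 hz
    · rw [vF_zero (fun h' => hz fun i => h' (z i) (mem_range_self i)), Set.indicator_of_notMem]
      intro h'
      exact hz (mem_iInter.1 h')
  rw [h]
  refine measurable_const.indicator (MeasurableSet.iInter fun i => MeasurableSet.compl ?_)
  exact (measurable_fst.comp (measurable_pi_apply i)) hB

/-- **void probability** -/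
theorem void_le {ε : ℝ} (hε : 0 < ε) {B : Set ℂ} (hB : MeasurableSet B)
    (hb : Bornology.IsBounded B) :
    sampleLaw {ω | ∀ s ∈ points ε ω, s ∉ B} ≤
      ENNReal.ofReal (Real.exp (-((volume B).toReal / ε ^ 2))) := by
  obtain ⟨h1, h2⟩ := Janx304.jan ε hε B hB hb (vF B) (vF_local B) (vF_meas hB)
  have hfin : volume B ≠ ∞ := hb.measure_lt_top.ne
  have hset : {ω : Sample | ∀ s ∈ points ε ω, s ∉ B} = {ω | vF B (cfg ε ω) = 1} := by
    ext ω
    simp only [mem_ofPred_eq]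
    have e : (∀ s ∈ points ε ω, s ∉ B) ↔ ∀ p ∈ cfg ε ω, p.1 ∉ B := by
      constructor
      · rintro h p ⟨q, hq, rfl⟩
        exact h _ ⟨q, hq, rfl⟩
      · rintro h s ⟨q, hq, rfl⟩
        exact h _ ⟨q, hq, rfl⟩
    rw [e]
    constructor
    · exact vF_one
    · intro h
      by_contra hn
      rw [vF_zero hn] at h
      exact absurd h (by norm_num)
  have hlint : sampleLaw {ω : Sample | ∀ s ∈ points ε ω, s ∉ B} ≤
      ∫⁻ ω, vF B (cfg ε ω) ∂sampleLaw := by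
    rw [hset]
    have hm : MeasurableSet {ω : Sample | vF B (cfg ε ω) = 1} := h1 (measurableSet_singleton 1)
    calc sampleLaw {ω : Sample | vF B (cfg ε ω) = 1}
        = ∫⁻ ω, {ω : Sample | vF B (cfg ε ω) = 1}.indicator (fun _ => (1 : ℝ≥0∞)) ω ∂sampleLaw := by
          rw [lintegral_indicator hm, setLIntegral_const, one_mul]
      _ ≤ _ := by
          refine lintegral_mono fun ω => ?_
          by_cases hω : ω ∈ {ω : Sample | vF B (cfg ε ω) = 1}
          · rw [Set.indicator_of_mem hω]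
            exact (show vF B (cfg ε ω) = 1 from hω).ge
          · rw [Set.indicator_of_notMem hω]
            exact bot_le
  refine hlint.trans ?_
  rw [h2]
  unfold janossy
  have hsum : ∑' n : ℕ, (ENNReal.ofReal (ε ^ 2))⁻¹ ^ n / (n.factorial : ℝ≥0∞) *
      ∫⁻ z, vF B (range z) ∂(Measure.pi fun _ : Fin n => (volume.restrict B).prod coin) ≤ 1 := by
    rw [tsum_eq_single 0]
    · have : ∫⁻ z, vF B (range z) ∂(Measure.pi fun _ : Fin 0 => (volume.restrict B).prod coin) ≤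
          1 := by
        calc ∫⁻ z, vF B (range z) ∂(Measure.pi fun _ : Fin 0 => (volume.restrict B).prod coin)
            ≤ ∫⁻ z, 1 ∂(Measure.pi fun _ : Fin 0 => (volume.restrict B).prod coin) := by
              refine lintegral_mono fun z => ?_
              rw [vF_one (by rintro p ⟨i, rfl⟩; exact i.elim0)]
          _ = 1 := by simp
      calc _ ≤ (ENNReal.ofReal (ε ^ 2))⁻¹ ^ 0 / ((Nat.factorial 0 : ℕ) : ℝ≥0∞) * 1 := by gcongr
        _ = 1 := by simp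
    · intro n hn
      have hfm : IsFiniteMeasure ((volume : Measure ℂ).restrict B) :=
        ⟨by rw [Measure.restrict_apply_univ]; exact hb.measure_lt_top⟩
      have hae : ∀ᵐ z ∂(Measure.pi fun _ : Fin n => (volume.restrict B).prod coin),
          vF B (range z) = 0 := by
        have h3 : ∀ᵐ p : ℂ × Bool ∂((volume.restrict B).prod coin), p.1 ∈ B :=
          Measure.quasiMeasurePreserving_fst.ae (ae_restrict_mem hB)
        have h4 := (Measure.quasiMeasurePreserving_eval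
          (fun _ : Fin n => (volume.restrict B).prod coin)
          (⟨0, Nat.pos_of_ne_zero hn⟩ : Fin n)).ae h3
        filter_upwards [h4] with z hz
        exact vF_zero fun h' => h' _ (mem_range_self _) hz
      rw [lintegral_congr_ae hae]
      simp
  calc _ ≤ ENNReal.ofReal (Real.exp (-((ENNReal.ofReal (ε ^ 2))⁻¹ * volume B).toReal)) * 1 := by
        gcongr
    _ = _ := by
        rw [mul_one, ENNReal.toReal_mul, ENNReal.toReal_inv,
          ENNReal.toReal_ofReal (by positivity)]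
        congr 3
        rw [div_eq_inv_mul]

/-! ### rectangles -/

/-- rectangle in the frame with origin `c` and first axis `e` -/
def Rc (c e : ℂ) (x1 x2 y0 : ℝ) : Set ℂ :=
  {z | (x1 < ((z - c) * conj e).re ∧ ((z - c) * conj e).re < x2) ∧ |((z - c) * conj e).im| < y0}

/-- the same in the standard frame -/
def R0 (x1 x2 y0 : ℝ) : Set ℂ := {u | (x1 < u.re ∧ u.re < x2) ∧ |u.im| < y0}

theorem R0_meas (x1 x2 y0 : ℝ) : MeasurableSet (R0 x1 x2 y0) := by
  have h : IsOpen (R0 x1 x2 y0) := by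
    refine IsOpen.inter (IsOpen.inter ?_ ?_) ?_
    · exact isOpen_lt continuous_const Complex.continuous_re
    · exact isOpen_lt Complex.continuous_re continuous_const
    · exact isOpen_lt (continuous_abs.comp Complex.continuous_im) continuous_const
  exact h.measurableSet

theorem R0_vol (x1 x2 y0 : ℝ) :
    volume (R0 x1 x2 y0) = ENNReal.ofReal (x2 - x1) * ENNReal.ofReal (2 * y0) := by
  have h : R0 x1 x2 y0 = Complex.measurableEquivRealProd ⁻¹' (Ioo x1 x2 ×ˢ Ioo (-y0) y0) := by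
    ext u
    simp only [R0, mem_ofPred_eq, mem_preimage, Complex.measurableEquivRealProd_apply, mem_prod,
      mem_Ioo, abs_lt]
  rw [h, Complex.volume_preserving_equiv_real_prod.measure_preimage
    (measurableSet_Ioo.prod measurableSet_Ioo).nullMeasurableSet, Measure.volume_eq_prod,
    Measure.prod_prod, Real.volume_Ioo, Real.volume_Ioo]
  congr 2
  ring

theorem mp_frame (c : ℂ) {e : ℂ} (he : ‖e‖ = 1) :
    MeasurePreserving (fun z : ℂ => (z - c) * conj e) := by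
  have h1 : MeasurePreserving (fun z : ℂ => z - c) := measurePreserving_sub_right volume c
  have hr : ((Circle.exp (conj e).arg : Circle) : ℂ) = conj e := by
    rw [Circle.coe_exp]
    have h := Complex.norm_mul_exp_arg_mul_I (conj e)
    rwa [Complex.norm_conj, he, Complex.ofReal_one, one_mul] at h
  have h2 : MeasurePreserving (rotation (Circle.exp (conj e).arg)) :=
    (rotation (Circle.exp (conj e).arg)).measurePreserving
  have h3 := h2.comp h1
  have e3 : (⇑(rotation (Circle.exp (conj e).arg)) ∘ fun z : ℂ => z - c) =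
      fun z : ℂ => (z - c) * conj e := by
    funext z
    rw [Function.comp_apply, rotation_apply, hr, mul_comm]
  rw [e3] at h3
  exact h3

theorem Rc_eq (c e : ℂ) (x1 x2 y0 : ℝ) :
    Rc c e x1 x2 y0 = (fun z : ℂ => (z - c) * conj e) ⁻¹' R0 x1 x2 y0 := rfl

theorem Rc_meas (c : ℂ) {e : ℂ} (he : ‖e‖ = 1) (x1 x2 y0 : ℝ) :
    MeasurableSet (Rc c e x1 x2 y0) :=
  (mp_frame c he).measurable (R0_meas x1 x2 y0)

theorem Rc_vol (c : ℂ) {e : ℂ} (he : ‖e‖ = 1) (x1 x2 y0 : ℝ) :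
    volume (Rc c e x1 x2 y0) = ENNReal.ofReal (x2 - x1) * ENNReal.ofReal (2 * y0) := by
  rw [Rc_eq, (mp_frame c he).measure_preimage (R0_meas x1 x2 y0).nullMeasurableSet, R0_vol]

/-! ### caps -/

/-- **every cap of the disc with half chord at least `ε ^ (3/5)` contains a point** -/
def CapOK (ε : ℝ) (c : ℂ) (L : ℝ) (ω : Sample) : Prop :=
  ∀ e : ℂ, ‖e‖ = 1 → ∀ H w : ℝ, H ^ 2 + w ^ 2 = L ^ 2 → ε ^ (3 / 5 : ℝ) ≤ w →
    ∃ s ∈ points ε ω, ‖s - c‖ ≤ L ∧ H < ((s - c) * conj e).re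

/-- the rectangle of the direction `v` is in the cap of the direction `e` -/
theorem rect_cap {c e v z : ℂ} {L W H w : ℝ} (hL : 0 < L) (he : ‖e‖ = 1) (hv : ‖v‖ = 1)
    (hev : ‖e - v‖ ≤ W / (8 * L)) (hW : 0 < W) (hWL : W ≤ L)
    (hHw : H ^ 2 + w ^ 2 = L ^ 2) (hw : W ≤ w)
    (hz : z ∈ Rc c v (L - W ^ 2 / (4 * L)) (L - W ^ 2 / (16 * L)) (W / 4)) :
    ‖z - c‖ ≤ L ∧ H < ((z - c) * conj e).re := by
  obtain ⟨⟨h1, h2⟩, h3⟩ := hz
  set u : ℂ := (z - c) * conj v with hu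
  set q : ℂ := v * conj e with hq
  have hvv : v * conj v = 1 := by
    rw [Complex.mul_conj, Complex.normSq_eq_norm_sq, hv]; norm_num
  have hee : e * conj e = 1 := by
    rw [Complex.mul_conj, Complex.normSq_eq_norm_sq, he]; norm_num
  have hzc : z - c = u * v := by
    calc z - c = (z - c) * (v * conj v) := by rw [hvv, mul_one]
      _ = u * v := by rw [hu]; ring
  have hze : (z - c) * conj e = u * q := by rw [hzc, hq]; ring
  have hqn : ‖q‖ = 1 := by rw [hq, norm_mul, Complex.norm_conj, hv, he, one_mul]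
  have hq1 : ‖q - 1‖ ≤ W / (8 * L) := by
    have : q - 1 = (v - e) * conj e := by rw [sub_mul, hee]
    rw [this, norm_mul, Complex.norm_conj, he, mul_one, norm_sub_rev]
    exact hev
  have hun : ‖z - c‖ = ‖u‖ := by rw [hzc, norm_mul, hv, mul_one]
  -- components
  set x := u.re
  set y := u.im
  set a := q.re
  set b := q.im
  have hL2 : 0 < L ^ 2 := by positivity
  have hab : a ^ 2 + b ^ 2 = 1 := by
    have h := Complex.sq_norm_sub_sq_re q
    rw [hqn] at h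
    have : (1 : ℝ) ^ 2 - a ^ 2 = b ^ 2 := h
    linarith
  have hqs : (a - 1) ^ 2 + b ^ 2 ≤ (W / (8 * L)) ^ 2 := by
    have h := Complex.sq_norm_sub_sq_re (q - 1)
    have e1 : (q - 1).re = a - 1 := by simp [a]
    have e2 : (q - 1).im = b := by simp [b]
    rw [e1, e2] at h
    have h' : ‖q - 1‖ ^ 2 ≤ (W / (8 * L)) ^ 2 := pow_le_pow_left₀ (norm_nonneg _) hq1 2
    linarith
  have ha : 1 - (W / (8 * L)) ^ 2 / 2 ≤ a := by nlinarith
  have hb : |b| ≤ W / (8 * L) := by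
    refine abs_le_of_sq_le_sq ?_ (by positivity)
    nlinarith [sq_nonneg (a - 1)]
  have hW2 : W ^ 2 / L ≤ L := by
    rw [div_le_iff₀ hL]; nlinarith
  have k4 : W ^ 2 / (4 * L) = (W ^ 2 / L) / 4 := by field_simp
  have k16 : W ^ 2 / (16 * L) = (W ^ 2 / L) / 16 := by field_simp
  set k := W ^ 2 / L with hk
  have hk0 : 0 < k := by positivity
  have hkL : k * L = W ^ 2 := by rw [hk]; field_simp
  rw [k4] at h1
  rw [k16] at h2
  have hx0 : 0 ≤ x := by linarith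
  have hy2 : y ^ 2 < (W / 4) ^ 2 := by
    rw [sq_lt_sq, abs_of_pos (by positivity : (0 : ℝ) < W / 4)]
    exact h3
  constructor
  · rw [hun]
    have h4 : ‖u‖ ^ 2 = x ^ 2 + y ^ 2 := by
      have h := Complex.sq_norm_sub_sq_re u
      have : ‖u‖ ^ 2 - x ^ 2 = y ^ 2 := h
      linarith
    have h5 : x ^ 2 ≤ (L - k / 16) ^ 2 := pow_le_pow_left₀ hx0 h2.le 2
    have h6 : k ^ 2 ≤ k * L := by
      rw [sq]; exact mul_le_mul_of_nonneg_left hW2 hk0.le
    refine abs_le_of_sq_le_sq' ?_ hL.le |>.2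
    rw [h4]
    have e1 : (L - k / 16) ^ 2 = L ^ 2 - k * L / 8 + k ^ 2 / 256 := by ring
    have e2 : (W / 4) ^ 2 = k * L / 16 := by rw [hkL]; ring
    rw [e1] at h5
    rw [e2] at hy2
    have h7 : 0 < k * L := mul_pos hk0 hL
    linarith
  · have h6 : ((z - c) * conj e).re = x * a - y * b := by rw [hze, Complex.mul_re]
    have h7 : H ≤ L - k / 2 := by
      refine abs_le_of_sq_le_sq' ?_ (by linarith) |>.2
      have h8 : W ^ 2 ≤ w ^ 2 := pow_le_pow_left₀ hW.le hw 2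
      have e1 : (L - k / 2) ^ 2 = L ^ 2 - k * L + k ^ 2 / 4 := by ring
      rw [e1, hkL]
      have h9 : 0 ≤ k ^ 2 := sq_nonneg k
      linarith
    have h8 : y * b ≤ k / 32 := by
      have h9 : |y * b| ≤ (W / 4) * (W / (8 * L)) := by
        rw [abs_mul]
        exact mul_le_mul h3.le hb (abs_nonneg _) (by positivity)
      have h10 : (W / 4) * (W / (8 * L)) = k / 32 := by rw [hk]; field_simp; ring
      rw [h10] at h9
      exact (le_abs_self _).trans h9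
    have h11 : x * (1 - (W / (8 * L)) ^ 2 / 2) ≤ x * a := mul_le_mul_of_nonneg_left ha hx0
    have h12 : x * ((W / (8 * L)) ^ 2 / 2) ≤ k / 128 := by
      have h13 : L * ((W / (8 * L)) ^ 2 / 2) = k / 128 := by rw [hk]; field_simp; ring
      rw [← h13]
      exact mul_le_mul_of_nonneg_right (by linarith) (by positivity)
    rw [h6]
    nlinarith

/-! ### directions -/

/-- the direction number `j` of `N` -/
def dir (N j : ℕ) : ℂ := Complex.exp (((2 * Real.pi * j / N - Real.pi : ℝ) : ℂ) * Complex.I)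

theorem dir_norm (N j : ℕ) : ‖dir N j‖ = 1 := Complex.norm_exp_ofReal_mul_I _

theorem dir_net {N : ℕ} (hN : 0 < N) {e : ℂ} (he : ‖e‖ = 1) :
    ∃ j ∈ Finset.range (N + 1), ‖e - dir N j‖ ≤ 2 * Real.pi / N := by
  have hN' : (0 : ℝ) < N := Nat.cast_pos.2 hN
  have hπ := Real.pi_pos
  set θ := Complex.arg e with hθ
  have hθ1 : -Real.pi < θ := Complex.neg_pi_lt_arg e
  have hθ2 : θ ≤ Real.pi := Complex.arg_le_pi e
  have hee : e = Complex.exp ((θ : ℂ) * Complex.I) := by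
    have h := Complex.norm_mul_exp_arg_mul_I e
    rw [he, Complex.ofReal_one, one_mul] at h
    exact h.symm
  set t : ℝ := (θ + Real.pi) / (2 * Real.pi) * N with ht
  have ht0 : 0 ≤ t := mul_nonneg (div_nonneg (by linarith) (by linarith)) hN'.le
  have ht1 : t ≤ N := by
    have h1 : (θ + Real.pi) / (2 * Real.pi) ≤ 1 := by
      rw [div_le_one (by linarith)]; linarith
    calc t ≤ 1 * N := mul_le_mul_of_nonneg_right h1 hN'.le
      _ = N := one_mul _
  refine ⟨⌊t⌋₊, ?_, ?_⟩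
  · rw [Finset.mem_range, Nat.lt_succ_iff]
    exact Nat.floor_le_of_le ht1
  · have h1 := Nat.floor_le ht0
    have h2 := Nat.lt_floor_add_one t
    set n : ℝ := (⌊t⌋₊ : ℝ) with hn
    set φ : ℝ := 2 * Real.pi * n / N - Real.pi with hφ
    have h3 : θ - φ = (t - n) * (2 * Real.pi / N) := by
      rw [hφ, ht]; field_simp; ring
    have h4 : |θ - φ| ≤ 2 * Real.pi / N := by
      have h5 : 0 < 2 * Real.pi / N := by positivity
      rw [h3, abs_mul, abs_of_pos h5, abs_of_nonneg (by linarith)]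
      calc (t - n) * (2 * Real.pi / N) ≤ 1 * (2 * Real.pi / N) :=
            mul_le_mul_of_nonneg_right (by linarith) h5.le
        _ = _ := one_mul _
    have h6 : e - dir N ⌊t⌋₊ = dir N ⌊t⌋₊ * (Complex.exp (Complex.I * ((θ - φ : ℝ) : ℂ)) - 1) := by
      have h7 : dir N ⌊t⌋₊ = Complex.exp ((φ : ℂ) * Complex.I) := rfl
      rw [mul_sub, mul_one, h7, ← Complex.exp_add]
      conv_lhs => rw [hee]
      congr 2
      push_cast
      ring
    rw [h6, norm_mul, dir_norm, one_mul]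
    refine (Real.norm_exp_I_mul_ofReal_sub_one_le).trans ?_
    rw [Real.norm_eq_abs]
    exact h4

/-- the rectangles of the directions -/
def rct (ε : ℝ) (c : ℂ) (L : ℝ) (N j : ℕ) : Set ℂ :=
  Rc c (dir N j) (L - (ε ^ (3 / 5 : ℝ)) ^ 2 / (4 * L)) (L - (ε ^ (3 / 5 : ℝ)) ^ 2 / (16 * L))
    (ε ^ (3 / 5 : ℝ) / 4)

theorem cap_of_rct {ε : ℝ} (hε : 0 < ε) {c : ℂ} {L : ℝ} (hL : 0 < L) (hWL : ε ^ (3 / 5 : ℝ) ≤ L)
    {N : ℕ} (hN : 16 * Real.pi * L / ε ^ (3 / 5 : ℝ) ≤ N) {ω : Sample}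
    (h : ∀ j ∈ Finset.range (N + 1), ∃ s ∈ points ε ω, s ∈ rct ε c L N j) : CapOK ε c L ω := by
  have hW : 0 < ε ^ (3 / 5 : ℝ) := Real.rpow_pos_of_pos hε _
  have hπ := Real.pi_pos
  have hN0 : (0 : ℝ) < N := lt_of_lt_of_le (by positivity) hN
  intro e he H w hHw hw
  obtain ⟨j, hj, hje⟩ := dir_net (Nat.cast_pos.1 hN0) he
  obtain ⟨s, hs, hsr⟩ := h j hj
  refine ⟨s, hs, rect_cap hL he (dir_norm N j) (hje.trans ?_) hW hWL hHw hw hsr⟩
  rw [div_le_iff₀ hW] at hN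
  rw [div_le_div_iff₀ hN0 (by positivity)]
  linarith

theorem Rc_bdd (c : ℂ) {e : ℂ} (he : ‖e‖ = 1) (x1 x2 y0 : ℝ) :
    Bornology.IsBounded (Rc c e x1 x2 y0) := by
  refine Metric.isBounded_closedBall.subset
    (show Rc c e x1 x2 y0 ⊆ Metric.closedBall c (max |x1| |x2| + y0) from ?_)
  rintro z ⟨⟨h1, h2⟩, h3⟩
  rw [Metric.mem_closedBall, dist_eq_norm]
  have h4 : ‖z - c‖ = ‖(z - c) * conj e‖ := by rw [norm_mul, Complex.norm_conj, he, mul_one]
  rw [h4]
  refine (Complex.norm_le_abs_re_add_abs_im _).trans (add_le_add ?_ h3.le)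
  rw [abs_le]
  constructor
  · have a1 := neg_abs_le x1
    have a2 := le_max_left |x1| |x2|
    linarith
  · have a1 := le_abs_self x2
    have a2 := le_max_right |x1| |x2|
    linarith

theorem rct_bdd (ε : ℝ) (c : ℂ) (L : ℝ) (N j : ℕ) : Bornology.IsBounded (rct ε c L N j) :=
  Rc_bdd c (dir_norm N j) _ _ _

theorem cap_prob {ε : ℝ} (hε : 0 < ε) {c : ℂ} {L : ℝ} (hL : 0 < L) (hWL : ε ^ (3 / 5 : ℝ) ≤ L)
    {N : ℕ} (hN : 16 * Real.pi * L / ε ^ (3 / 5 : ℝ) ≤ N) :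
    sampleLaw {ω | ¬ CapOK ε c L ω} ≤
      ENNReal.ofReal ((N + 1) * Real.exp (-(3 / (32 * L) * ε ^ (-(1 / 5) : ℝ)))) := by
  have hW : 0 < ε ^ (3 / 5 : ℝ) := Real.rpow_pos_of_pos hε _
  have h1 : {ω | ¬ CapOK ε c L ω} ⊆
      ⋃ j ∈ Finset.range (N + 1), {ω | ∀ s ∈ points ε ω, s ∉ rct ε c L N j} := by
    intro ω hω
    by_contra hn
    refine hω (cap_of_rct hε hL hWL hN fun j hj => ?_)
    by_contra h2
    refine hn (mem_iUnion₂.2 ⟨j, hj, fun s hs hsr => h2 ⟨s, hs, hsr⟩⟩)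
  refine (measure_mono h1).trans ((measure_biUnion_finset_le _ _).trans ?_)
  have h2 : ∀ j ∈ Finset.range (N + 1), sampleLaw {ω | ∀ s ∈ points ε ω, s ∉ rct ε c L N j} ≤
      ENNReal.ofReal (Real.exp (-(3 / (32 * L) * ε ^ (-(1 / 5) : ℝ)))) := by
    intro j _
    refine (void_le hε (Rc_meas c (dir_norm N j) _ _ _) (rct_bdd ε c L N j)).trans (le_of_eq ?_)
    congr 3
    rw [Rc_vol c (dir_norm N j), ENNReal.toReal_mul]
    have e1 : L - (ε ^ (3 / 5 : ℝ)) ^ 2 / (16 * L) - (L - (ε ^ (3 / 5 : ℝ)) ^ 2 / (4 * L)) =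
        3 * (ε ^ (3 / 5 : ℝ)) ^ 2 / (16 * L) := by field_simp; ring
    rw [e1, ENNReal.toReal_ofReal (by positivity), ENNReal.toReal_ofReal (by positivity)]
    have e2 : 3 * (ε ^ (3 / 5 : ℝ)) ^ 2 / (16 * L) * (2 * (ε ^ (3 / 5 : ℝ) / 4)) / ε ^ 2 =
        3 / (32 * L) * ((ε ^ (3 / 5 : ℝ)) ^ 3 / ε ^ 2) := by field_simp; ring
    rw [e2]
    congr 1
    rw [← Real.rpow_natCast (ε ^ (3 / 5 : ℝ)) 3, ← Real.rpow_mul hε.le, ← Real.rpow_natCast ε 2,
      ← Real.rpow_sub hε]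
    norm_num
  refine (Finset.sum_le_sum h2).trans (le_of_eq ?_)
  rw [Finset.sum_const, Finset.card_range, nsmul_eq_mul, ENNReal.ofReal_mul (by positivity)]
  congr 1
  rw [ENNReal.ofReal_add (by positivity) (by positivity), ENNReal.ofReal_natCast,
    ENNReal.ofReal_one]
  push_cast
  rfl

/-- **the caps contain points with probability tending to 1** -/
theorem cap_ok (c : ℂ) {L : ℝ} (hL : 0 < L) {η : ℝ} (hη : 0 < η) :
    ∀ᶠ ε : ℝ in 𝓝[>] 0, sampleLaw {ω | ¬ CapOK ε c L ω} ≤ ENNReal.ofReal η := by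
  have hπ := Real.pi_pos
  have hc : 0 < 3 / (32 * L) := by positivity
  have ty : Tendsto (fun ε : ℝ => ε ^ (-(1 / 5) : ℝ)) (𝓝[>] 0) atTop :=
    tendsto_rpow_neg_nhdsGT_zero (by norm_num)
  have t3 := (tendsto_rpow_mul_exp_neg_mul_atTop_nhds_zero 3 _ hc).const_mul (16 * Real.pi * L)
  have t0 := (tendsto_rpow_mul_exp_neg_mul_atTop_nhds_zero 0 _ hc).const_mul 2
  have t := (t3.add t0).comp ty
  rw [mul_zero, mul_zero, add_zero] at t
  have tW : Tendsto (fun ε : ℝ => ε ^ (3 / 5 : ℝ)) (𝓝[>] 0) (𝓝 0) := by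
    have h1 := (Real.continuousAt_rpow_const 0 (3 / 5 : ℝ) (Or.inr (by norm_num))).tendsto
    rw [Real.zero_rpow (by norm_num)] at h1
    exact h1.mono_left nhdsWithin_le_nhds
  filter_upwards [self_mem_nhdsWithin, t.eventually (gt_mem_nhds hη),
    tW.eventually (gt_mem_nhds hL)] with ε hε ht hW
  have hε0 : (0 : ℝ) < ε := hε
  have hW0 : 0 < ε ^ (3 / 5 : ℝ) := Real.rpow_pos_of_pos hε0 _
  refine (cap_prob hε0 hL hW.le (Nat.le_ceil (16 * Real.pi * L / ε ^ (3 / 5 : ℝ)))).trans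
    (ENNReal.ofReal_le_ofReal (le_trans ?_ ht.le))
  rw [Function.comp_apply]
  have e0 : (ε ^ (-(1 / 5) : ℝ)) ^ (0 : ℝ) = 1 := Real.rpow_zero _
  have e3 : (ε ^ (-(1 / 5) : ℝ)) ^ (3 : ℝ) = 1 / ε ^ (3 / 5 : ℝ) := by
    rw [← Real.rpow_mul hε0.le, show (-(1 / 5) : ℝ) * 3 = -(3 / 5) by norm_num,
      Real.rpow_neg hε0.le, one_div]
  have h1 : ((⌈16 * Real.pi * L / ε ^ (3 / 5 : ℝ)⌉₊ : ℕ) : ℝ) < 16 * Real.pi * L / ε ^ (3 / 5 : ℝ) + 1 :=
    Nat.ceil_lt_add_one (by positivity)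
  have h2 : (((⌈16 * Real.pi * L / ε ^ (3 / 5 : ℝ)⌉₊ : ℕ) : ℝ) + 1) ≤
      16 * Real.pi * L * (1 / ε ^ (3 / 5 : ℝ)) + 2 := by
    rw [mul_one_div]; linarith
  refine (mul_le_mul_of_nonneg_right h2 (Real.exp_nonneg _)).trans (le_of_eq ?_)
  rw [e0, e3, ← neg_mul]
  ring

/-! ### the annulus -/

/-- few points in the annulus of width `a` -/
def AnnOK (ε : ℝ) (c : ℂ) (L a : ℝ) (ω : Sample) : Prop :=
  ((points ε ω ∩ {z | L - a ≤ ‖z - c‖ ∧ ‖z - c‖ ≤ L}).ncard : ℝ) ≤ ε ^ (-(11 / 10) : ℝ)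

/-- the centres of the balls -/
def ctr (c : ℂ) (L d : ℝ) (N : ℕ) (p : ℕ × ℕ) : ℂ :=
  c + ((L - p.1 * (d / 4) : ℝ) : ℂ) * dir N p.2

theorem ann_cover {c : ℂ} {L d A : ℝ} (hL : 0 < L) (hd : 0 < d) {N : ℕ}
    (hN : 8 * Real.pi * L / d ≤ N) {z : ℂ} (hz1 : L - A * d ≤ ‖z - c‖) (hz2 : ‖z - c‖ ≤ L) :
    ∃ p ∈ Finset.range (⌈4 * A⌉₊ + 1) ×ˢ Finset.range (N + 1),
      0 ≤ L - p.1 * (d / 4) ∧ z ∈ Metric.ball (ctr c L d N p) d := by
  have hπ := Real.pi_pos
  have hN0 : (0 : ℝ) < N := lt_of_lt_of_le (by positivity) hN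
  obtain ⟨e, he, hze⟩ : ∃ e : ℂ, ‖e‖ = 1 ∧ z - c = (‖z - c‖ : ℂ) * e := by
    by_cases h0 : z - c = 0
    · exact ⟨1, norm_one, by rw [h0]; simp⟩
    · have hn : (‖z - c‖ : ℂ) ≠ 0 := by exact_mod_cast norm_ne_zero_iff.2 h0
      refine ⟨(z - c) / ‖z - c‖, ?_, ?_⟩
      · rw [norm_div, Complex.norm_real, norm_norm, div_self (norm_ne_zero_iff.2 h0)]
      · field_simp
  set r := ‖z - c‖ with hr
  have hr0 : 0 ≤ r := norm_nonneg _
  obtain ⟨j, hj, hje⟩ := dir_net (Nat.cast_pos.1 hN0) he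
  set t : ℝ := (L - r) / (d / 4) with ht
  have ht0 : 0 ≤ t := div_nonneg (by linarith) (by positivity)
  have h1 := Nat.floor_le ht0
  have h2 := Nat.lt_floor_add_one t
  have htd : t * (d / 4) = L - r := by rw [ht]; field_simp
  set n : ℝ := (⌊t⌋₊ : ℝ) with hn
  have h3 : n * (d / 4) ≤ L - r := by
    rw [← htd]; exact mul_le_mul_of_nonneg_right h1 (by positivity)
  have h4 : L - r - d / 4 ≤ n * (d / 4) := by
    rw [← htd]; nlinarith
  refine ⟨(⌊t⌋₊, j), ?_, ?_, ?_⟩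
  · rw [Finset.mem_product]
    refine ⟨?_, hj⟩
    rw [Finset.mem_range, Nat.lt_succ_iff]
    refine (Nat.floor_le_floor ?_).trans (Nat.floor_le_ceil _)
    rw [ht, div_le_iff₀ (by positivity)]
    linarith
  · show 0 ≤ L - n * (d / 4)
    linarith
  · rw [Metric.mem_ball, dist_eq_norm]
    have e1 : z - ctr c L d N (⌊t⌋₊, j) =
        ((r - (L - n * (d / 4)) : ℝ) : ℂ) * e + ((L - n * (d / 4) : ℝ) : ℂ) * (e - dir N j) := by
      have : z - ctr c L d N (⌊t⌋₊, j) = (z - c) - ((L - n * (d / 4) : ℝ) : ℂ) * dir N j := by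
        unfold ctr; ring
      rw [this, hze]
      push_cast
      ring
    rw [e1]
    have h5 : |r - (L - n * (d / 4))| ≤ d / 4 := by
      rw [abs_le]; constructor <;> linarith
    have h6 : ‖e - dir N j‖ ≤ d / (4 * L) := by
      refine hje.trans ?_
      rw [div_le_iff₀ hd] at hN
      rw [div_le_div_iff₀ hN0 (by positivity)]
      linarith
    have h7 : ‖((L - n * (d / 4) : ℝ) : ℂ)‖ ≤ L := by
      rw [Complex.norm_real, Real.norm_eq_abs, abs_of_nonneg (by linarith)]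
      have : 0 ≤ n * (d / 4) := by positivity
      linarith
    calc ‖((r - (L - n * (d / 4)) : ℝ) : ℂ) * e + ((L - n * (d / 4) : ℝ) : ℂ) * (e - dir N j)‖
        ≤ ‖((r - (L - n * (d / 4)) : ℝ) : ℂ) * e‖ +
          ‖((L - n * (d / 4) : ℝ) : ℂ) * (e - dir N j)‖ := norm_add_le _ _
      _ ≤ d / 4 + L * (d / (4 * L)) := by
          rw [norm_mul, norm_mul, he, mul_one]
          refine add_le_add ?_ (mul_le_mul h7 h6 (norm_nonneg _) hL.le)
          rw [Complex.norm_real, Real.norm_eq_abs]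
          exact h5
      _ = d / 2 := by field_simp; ring
      _ < d := by linarith

/-- the number of points, deterministic -/
theorem ann_card {ε : ℝ} {c : ℂ} {L d A : ℝ} (hL : 0 < L) (hd : 0 < d) {N : ℕ}
    (hN : 8 * Real.pi * L / d ≤ N) {m : ℕ} {ω : Sample}
    (h : ∀ z ∈ Metric.closedBall c L, (points ε ω ∩ Metric.ball z d).encard ≤ (m : ℕ∞)) :
    (points ε ω ∩ {z | L - A * d ≤ ‖z - c‖ ∧ ‖z - c‖ ≤ L}).ncard ≤
      (⌈4 * A⌉₊ + 1) * (N + 1) * m := by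
  classical
  set F : Finset (ℕ × ℕ) := (Finset.range (⌈4 * A⌉₊ + 1) ×ˢ Finset.range (N + 1)).filter
    (fun p => 0 ≤ L - p.1 * (d / 4)) with hF
  have h1 : (points ε ω ∩ {z | L - A * d ≤ ‖z - c‖ ∧ ‖z - c‖ ≤ L}) ⊆
      ⋃ p ∈ F, (points ε ω ∩ Metric.ball (ctr c L d N p) d) := by
    rintro z ⟨hz, hz1, hz2⟩
    obtain ⟨p, hp, hp0, hpz⟩ := ann_cover hL hd hN hz1 hz2
    exact mem_iUnion₂.2 ⟨p, Finset.mem_filter.2 ⟨hp, hp0⟩, hz, hpz⟩
  have h2 : (points ε ω ∩ {z | L - A * d ≤ ‖z - c‖ ∧ ‖z - c‖ ≤ L}).encard ≤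
      (((⌈4 * A⌉₊ + 1) * (N + 1) * m : ℕ) : ℕ∞) := by
    refine (Set.encard_le_encard h1).trans ((Finset.set_encard_biUnion_le _ _).trans ?_)
    have h3 : ∀ p ∈ F, (points ε ω ∩ Metric.ball (ctr c L d N p) d).encard ≤ (m : ℕ∞) := by
      intro p hp
      rw [hF, Finset.mem_filter] at hp
      refine h _ ?_
      rw [Metric.mem_closedBall, dist_eq_norm]
      have : ctr c L d N p - c = ((L - p.1 * (d / 4) : ℝ) : ℂ) * dir N p.2 := by unfold ctr; ring
      rw [this, norm_mul, dir_norm, mul_one, Complex.norm_real, Real.norm_eq_abs,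
        abs_of_nonneg hp.2]
      have : 0 ≤ (p.1 : ℝ) * (d / 4) := by positivity
      linarith
    refine (Finset.sum_le_sum h3).trans ?_
    rw [Finset.sum_const, nsmul_eq_mul]
    have h4 : F.card ≤ (⌈4 * A⌉₊ + 1) * (N + 1) := by
      refine (Finset.card_filter_le _ _).trans (le_of_eq ?_)
      rw [Finset.card_product, Finset.card_range, Finset.card_range]
    calc ((F.card : ℕ) : ℕ∞) * (m : ℕ∞) = ((F.card * m : ℕ) : ℕ∞) := by push_cast; rfl
      _ ≤ _ := by exact_mod_cast Nat.mul_le_mul_right m h4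
  have h5 : (points ε ω ∩ {z | L - A * d ≤ ‖z - c‖ ∧ ‖z - c‖ ≤ L}).Finite :=
    Set.finite_of_encard_le_coe h2
  rw [← h5.cast_ncard_eq] at h2
  exact_mod_cast h2

/-- **few points in the annulus with probability tending to 1** -/
theorem ann_ok (c : ℂ) {L : ℝ} (hL : 0 < L) {C : ℝ} (hC : 0 < C) {A : ℝ} (hA : 0 ≤ A) {η : ℝ}
    (hη : 0 < η) :
    ∀ᶠ ε : ℝ in 𝓝[>] 0, sampleLaw {ω | ¬ AnnOK ε c L (A * rad C ε) ω} ≤ ENNReal.ofReal η := by
  have hπ := Real.pi_pos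
  obtain ⟨K, hK, h1⟩ := PoisM3cx501.m3d (‖c‖ + L) 1 C
  have f0 : ∀ᶠ ε : ℝ in 𝓝[>] (0 : ℝ), ε < η :=
    nhdsWithin_le_nhds (gt_mem_nhds hη)
  have f1 : ∀ᶠ ε : ℝ in 𝓝[>] (0 : ℝ), ε < Real.exp (-1) :=
    nhdsWithin_le_nhds (gt_mem_nhds (Real.exp_pos _))
  set B : ℝ := (4 * A + 2) * (8 * Real.pi * L / C + 2) * K with hB
  have hB0 : 0 < B := by positivity
  have f2 : ∀ᶠ ε : ℝ in 𝓝[>] (0 : ℝ), ‖Real.log ε‖ ≤ 1 / B * ‖ε ^ (-(1 / 10) : ℝ)‖ :=
    (isLittleO_log_rpow_nhdsGT_zero (r := (-(1 / 10) : ℝ)) (by norm_num)).bound (by positivity)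
  filter_upwards [self_mem_nhdsWithin, h1, f0, f1, f2] with ε hε h hεη h3 h4
  have hε0 : (0 : ℝ) < ε := hε
  have hε1 : ε < 1 := h3.trans (by
    rw [← Real.exp_zero]; exact Real.exp_lt_exp.2 (by norm_num))
  have hlog : 1 ≤ Real.log (1 / ε) := by
    rw [one_div, Real.log_inv]
    have := Real.log_lt_log hε0 h3
    rw [Real.log_exp] at this
    linarith
  have hsq : 1 ≤ √(Real.log (1 / ε)) := Real.one_le_sqrt.2 hlog
  have hd : C * ε ≤ rad C ε := by
    unfold rad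
    exact le_mul_of_one_le_right (by positivity) hsq
  have hd0 : 0 < rad C ε := lt_of_lt_of_le (by positivity) hd
  refine le_trans (measure_mono ?_) (h.trans (ENNReal.ofReal_le_ofReal ?_))
  swap
  · rw [Real.rpow_one]; exact hεη.le
  intro ω hω hn
  refine hω ?_
  unfold AnnOK
  have h5 := ann_card (A := A) (N := ⌈8 * Real.pi * L / rad C ε⌉₊) hL hd0 (Nat.le_ceil _)
    (m := ⌊K * Real.log (1 / ε)⌋₊) (ω := ω) (ε := ε) (c := c) (by
      intro z hz
      refine hn z ?_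
      rw [Metric.mem_closedBall, dist_eq_norm] at hz
      rw [mem_closedBall_zero_iff]
      calc ‖z‖ = ‖c + (z - c)‖ := by congr 1; ring
        _ ≤ ‖c‖ + ‖z - c‖ := norm_add_le _ _
        _ ≤ _ := by linarith)
  have h6 : ((points ε ω ∩ {z | L - A * rad C ε ≤ ‖z - c‖ ∧ ‖z - c‖ ≤ L}).ncard : ℝ) ≤
      ((⌈4 * A⌉₊ + 1) * (⌈8 * Real.pi * L / rad C ε⌉₊ + 1) * ⌊K * Real.log (1 / ε)⌋₊ : ℝ) := by
    exact_mod_cast h5
  refine h6.trans ?_
  have a1 : ((⌈4 * A⌉₊ : ℕ) : ℝ) + 1 ≤ 4 * A + 2 := by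
    have := Nat.ceil_lt_add_one (a := 4 * A) (by positivity)
    linarith
  have a2 : ((⌈8 * Real.pi * L / rad C ε⌉₊ : ℕ) : ℝ) + 1 ≤ (8 * Real.pi * L / C + 2) * ε⁻¹ := by
    have := Nat.ceil_lt_add_one (a := 8 * Real.pi * L / rad C ε) (by positivity)
    have b1 : 8 * Real.pi * L / rad C ε ≤ 8 * Real.pi * L / (C * ε) :=
      div_le_div_of_nonneg_left (by positivity) (by positivity) hd
    have b2 : 8 * Real.pi * L / (C * ε) = 8 * Real.pi * L / C * ε⁻¹ := by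
      rw [div_mul_eq_div_div, div_eq_mul_inv _ ε]
    have b3 : 1 ≤ ε⁻¹ := (one_le_inv₀ hε0).2 hε1.le
    rw [b2] at b1
    rw [add_mul]
    linarith
  have a3 : ((⌊K * Real.log (1 / ε)⌋₊ : ℕ) : ℝ) ≤ K * Real.log (1 / ε) :=
    Nat.floor_le (by positivity)
  have a4 : B * Real.log (1 / ε) ≤ ε ^ (-(1 / 10) : ℝ) := by
    have e1 : Real.log (1 / ε) = ‖Real.log ε‖ := by
      rw [one_div, Real.log_inv, Real.norm_eq_abs, abs_of_neg (Real.log_neg hε0 hε1)]
    rw [Real.norm_eq_abs (ε ^ (-(1 / 10) : ℝ)), abs_of_pos (Real.rpow_pos_of_pos hε0 _)] at h4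
    rw [e1]
    calc B * ‖Real.log ε‖ ≤ B * (1 / B * ε ^ (-(1 / 10) : ℝ)) :=
          mul_le_mul_of_nonneg_left h4 hB0.le
      _ = _ := by field_simp
  calc (((⌈4 * A⌉₊ : ℕ) : ℝ) + 1) * (((⌈8 * Real.pi * L / rad C ε⌉₊ : ℕ) : ℝ) + 1) *
        ((⌊K * Real.log (1 / ε)⌋₊ : ℕ) : ℝ)
      ≤ (4 * A + 2) * ((8 * Real.pi * L / C + 2) * ε⁻¹) * (K * Real.log (1 / ε)) := by
        refine mul_le_mul (mul_le_mul a1 a2 (by positivity) (by positivity)) a3 (by positivity)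
          (by positivity)
    _ = (B * Real.log (1 / ε)) * ε⁻¹ := by rw [hB]; ring
    _ ≤ ε ^ (-(1 / 10) : ℝ) * ε⁻¹ := mul_le_mul_of_nonneg_right a4 (by positivity)
    _ = ε ^ (-(11 / 10) : ℝ) := by
        rw [← Real.rpow_neg_one ε, ← Real.rpow_add hε0]
        norm_num

end Crest.Agent.R143.HullEx66
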