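import Crest.Agent.R143.TileF_176
import Crest.Agent.R143.HullE_66
import Crest.Agent.R143.Loc_922

/-!
# Row 143 (S0194), box R6 (helper176): full tiles, environments with holes

* `Nc U X` : number of sites in `U`; `mom4` : `E (Nc U)^4 ≤ 1200 (1 + vol U / ε²)^4`
* `Hz c ρ d X` : number of the empty balls of radius `d / 2` of a finite net of `closedBall c (ρ + d)`;
  `one_le_Hz` : it is at least `1` if `Hol (ps X) W d` fails for a `W ⊆ closedBall c ρ`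
* `Rh κ c ρ d X = κ (Nc (closedBall c ρ) X)^4 Hz c ρ d X`; `Rh_mean` : `E Rh ≤ κ Ce ρ d ε²`
* `tileG` : `tileF` with an error functional; **`tileH`** : `QF` only for environments without hole,
  crude bound `F ≤ κ Nc^4` ⟹ `c^#J₀ ∏ E a_i · E[g F] ≤ (C s² + κ Ce ρ d ε²) E g`
-/

set_option autoImplicit false
set_option linter.unusedSectionVars false

noncomputable section

open scoped Classical

namespace Crest.Agent.R143.TileGx176

open MeasureTheory Set Filter Topology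
open Crest.ProbabilityR.Voronoi
open Crest.Agent.R143.PP0x831 Crest.Agent.R143.Poisx304 Crest.Agent.R143.Janx304
open Crest.Agent.R143.Prodx609 Crest.Agent.R143.ColSumx304 Crest.Agent.R143.Lawx831
open Crest.Agent.R143.Dblx609 Crest.Agent.R143.Dbl2x609
open Crest.Agent.R143.IndLocx279 Crest.Agent.R143.PWx978 Crest.Agent.R143.TilePx176
  Crest.Agent.R143.TileQx176 Crest.Agent.R143.TileRx176 Crest.Agent.R143.TileFx176
open Crest.Agent.R143.HullEx66 (vF vF_one vF_zero vF_local vF_meas void_le)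
open Crest.Agent.R143.FinMx609 (ps fme_iso)
open Crest.Agent.R143.Locx922 (Hol)
open Crest.Agent.R143.SumScx302 (sq)
open scoped ENNReal

/-! ### number of sites -/

/-- number of sites in `U` -/
def Nc (U : Set ℂ) (X : Set (ℂ × Bool)) : ℕ := (ps (X ∩ ovr U)).ncard

theorem ps_ovr' (X : Set (ℂ × Bool)) (U : Set ℂ) : ps (X ∩ ovr U) = ps X ∩ U := ps_ovr X U

theorem Nc_local (U : Set ℂ) : LocalOn U (Nc U) := by
  intro X
  unfold Nc
  rw [ps_ovr', ps_ovr', ps_ovr X U, inter_assoc, inter_self]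

theorem Nc_meas {U : Set ℂ} (hU : MeasurableSet U) : FinMeas (Nc U) := by
  refine fme_iso (U := fun _ : Unit => U) (R := fun (a : Empty) _ => a.elim) (fun _ => hU)
    (fun a => a.elim) ?_
  intro X X' _ _ e h
  unfold Nc
  rw [ps_ovr', ps_ovr']
  have e1 : e '' (ps X ∩ U) = ps X' ∩ U := by
    ext y
    constructor
    · rintro ⟨x, ⟨h1, h2⟩, rfl⟩
      exact ⟨h.bij.mapsTo h1, (h.loc x h1 ()).1 h2⟩
    · rintro ⟨h1, h2⟩
      obtain ⟨x, hx, rfl⟩ := h.bij.surjOn h1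
      exact ⟨x, ⟨hx, (h.loc x hx ()).2 h2⟩, rfl⟩
  rw [← e1]
  exact (h.bij.injOn.mono inter_subset_left).ncard_image.symm

theorem Nc_mono {U U' : Set ℂ} (h : U ⊆ U') {X : Set (ℂ × Bool)} (hX : (ps X ∩ U').Finite) :
    Nc U X ≤ Nc U' X := by
  unfold Nc
  rw [ps_ovr', ps_ovr']
  exact ncard_le_ncard (inter_subset_inter_right _ h) hX

theorem Nc_range {U : Set ℂ} {n : ℕ} (z : Fin n → ℂ × Bool) : Nc U (range z) ≤ n := by
  unfold Nc
  have h1 : ps (range z ∩ ovr U) ⊆ range fun i => (z i).1 := by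
    rintro x ⟨p, ⟨⟨i, rfl⟩, -⟩, rfl⟩
    exact ⟨i, rfl⟩
  calc (ps (range z ∩ ovr U)).ncard ≤ (range fun i => (z i).1).ncard :=
        ncard_le_ncard h1 (finite_range _)
    _ ≤ n := by
        rw [← image_univ]
        refine (ncard_image_le (finite_univ)).trans ?_
        rw [ncard_univ, Nat.card_eq_fintype_card, Fintype.card_fin]

/-- exponential series with a fourth power -/
theorem ser4 {x : ℝ} (hx : 0 ≤ x) :
    ENNReal.ofReal (Real.exp (-x)) *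
      ∑' n : ℕ, ENNReal.ofReal (x ^ n / (n.factorial : ℝ) * (n : ℝ) ^ 4) ≤
      ENNReal.ofReal (1200 * (1 + x) ^ 4) := by
  set t : ℝ := 1 / (2 * (1 + x)) with ht
  have h1x : 0 < 1 + x := by linarith
  have ht0 : 0 < t := by rw [ht]; positivity
  have ht1 : t ≤ 1 / 2 := by
    rw [ht]
    apply one_div_le_one_div_of_le <;> linarith
  have htx : 2 * (t * (1 + x)) = 1 := by rw [ht]; field_simp
  -- the terms
  have term : ∀ n : ℕ, x ^ n / (n.factorial : ℝ) * (n : ℝ) ^ 4 ≤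
      24 / t ^ 4 * ((x * Real.exp t) ^ n / (n.factorial : ℝ)) := by
    intro n
    have e1 : (t * n) ^ 4 / 24 ≤ Real.exp (t * n) := by
      have := Real.pow_div_factorial_le_exp (t * n) (by positivity) 4
      simpa [Nat.factorial] using this
    have e2 : (n : ℝ) ^ 4 ≤ 24 / t ^ 4 * Real.exp (t * n) := by
      rw [div_mul_eq_mul_div, le_div_iff₀ (by positivity)]
      have : (t * n) ^ 4 = t ^ 4 * (n : ℝ) ^ 4 := by ring
      rw [div_le_iff₀ (by norm_num : (0 : ℝ) < 24), this] at e1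
      linarith
    have e3 : Real.exp (t * n) = Real.exp t ^ n := by
      rw [mul_comm, Real.exp_nat_mul]
    rw [e3] at e2
    have e4 : 0 ≤ x ^ n / (n.factorial : ℝ) := by positivity
    calc x ^ n / (n.factorial : ℝ) * (n : ℝ) ^ 4
        ≤ x ^ n / (n.factorial : ℝ) * (24 / t ^ 4 * Real.exp t ^ n) :=
          mul_le_mul_of_nonneg_left e2 e4
      _ = _ := by rw [mul_pow]; ring
  have hs : HasSum (fun n : ℕ => (x * Real.exp t) ^ n / (n.factorial : ℝ))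
      (Real.exp (x * Real.exp t)) := by
    rw [Real.exp_eq_exp_ℝ]
    exact NormedSpace.expSeries_div_hasSum_exp (x * NormedSpace.exp t)
  have hs2 := hs.mul_left (24 / t ^ 4)
  have h1 : ∑' n : ℕ, ENNReal.ofReal (x ^ n / (n.factorial : ℝ) * (n : ℝ) ^ 4) ≤
      ENNReal.ofReal (24 / t ^ 4 * Real.exp (x * Real.exp t)) := by
    calc ∑' n : ℕ, ENNReal.ofReal (x ^ n / (n.factorial : ℝ) * (n : ℝ) ^ 4)
        ≤ ∑' n : ℕ, ENNReal.ofReal (24 / t ^ 4 * ((x * Real.exp t) ^ n / (n.factorial : ℝ))) :=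
          ENNReal.tsum_le_tsum fun n => ENNReal.ofReal_le_ofReal (term n)
      _ = ENNReal.ofReal (∑' n : ℕ, 24 / t ^ 4 * ((x * Real.exp t) ^ n / (n.factorial : ℝ))) :=
          (ENNReal.ofReal_tsum_of_nonneg (fun n => by positivity) hs2.summable).symm
      _ = _ := by rw [hs2.tsum_eq]
  refine (mul_le_mul_right h1 _).trans ?_
  rw [← ENNReal.ofReal_mul (Real.exp_pos _).le]
  refine ENNReal.ofReal_le_ofReal ?_
  have e5 : Real.exp t ≤ 1 + 2 * t := by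
    have h2 := Real.one_sub_le_exp_neg t
    have h3 : Real.exp (-t) * Real.exp t = 1 := by rw [← Real.exp_add]; simp
    have h4 : (1 - t) * Real.exp t ≤ 1 :=
      (mul_le_mul_of_nonneg_right h2 (Real.exp_pos t).le).trans h3.le
    have h5 : (1 - t) * (1 + 2 * t) ≥ 1 := by nlinarith
    have h6 : 0 < 1 - t := by linarith
    nlinarith
  have e6 : -x + x * Real.exp t ≤ 1 := by
    have h7 : x * Real.exp t ≤ x * (1 + 2 * t) := mul_le_mul_of_nonneg_left e5 hx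
    nlinarith
  have e7 : Real.exp 1 ≤ 3 := by
    have := Real.exp_one_lt_d9
    linarith
  calc Real.exp (-x) * (24 / t ^ 4 * Real.exp (x * Real.exp t))
      = 24 / t ^ 4 * Real.exp (-x + x * Real.exp t) := by rw [Real.exp_add]; ring
    _ ≤ 24 / t ^ 4 * 3 := by
        refine mul_le_mul_of_nonneg_left ?_ (by positivity)
        exact (Real.exp_le_exp.2 e6).trans e7
    _ ≤ 1200 * (1 + x) ^ 4 := by
        have : 24 / t ^ 4 = 384 * (1 + x) ^ 4 := by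
          rw [ht]; field_simp; norm_num
        rw [this]
        have : 0 ≤ (1 + x) ^ 4 := by positivity
        nlinarith

theorem muB_univ {ε : ℝ} (hε : 0 < ε) {U : Set ℂ} (hb : Bornology.IsBounded U) :
    muB ε U univ = ENNReal.ofReal ((volume U).toReal / ε ^ 2) := by
  have hfin : volume U ≠ ∞ := hb.measure_lt_top.ne
  have hfm : IsFiniteMeasure ((ENNReal.ofReal (ε ^ 2))⁻¹ • (volume : Measure ℂ).restrict U) :=
    finite_mu hε hb
  unfold muB
  rw [← univ_prod_univ, Measure.prod_prod, measure_univ (μ := coin), mul_one, Measure.smul_apply,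
    Measure.restrict_apply_univ, smul_eq_mul, div_eq_inv_mul,
    ENNReal.ofReal_mul (by positivity), ENNReal.ofReal_toReal hfin,
    ENNReal.ofReal_inv_of_pos (by positivity)]

theorem ofr {x : ℝ} (hx : 0 ≤ x) (n : ℕ) :
    ENNReal.ofReal (x ^ n / (n.factorial : ℝ) * (n : ℝ) ^ 4) =
      ((n.factorial : ℕ) : ℝ≥0∞)⁻¹ * ((n : ℝ≥0∞) ^ 4 * ENNReal.ofReal x ^ n) := by
  rw [ENNReal.ofReal_mul (by positivity), ENNReal.ofReal_div_of_pos (by positivity),
    ENNReal.ofReal_pow hx, ENNReal.ofReal_pow (by positivity), ENNReal.ofReal_natCast,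
    ENNReal.ofReal_natCast, ENNReal.div_eq_inv_mul]
  ring

/-- **fourth moment of the number of sites** -/
theorem mom4 {ε : ℝ} (hε : 0 < ε) {U : Set ℂ} (hU : MeasurableSet U)
    (hb : Bornology.IsBounded U) :
    ∫⁻ ω, (Nc U (cfg ε ω) : ℝ≥0∞) ^ 4 ∂sampleLaw ≤
      ENNReal.ofReal (1200 * (1 + (volume U).toReal / ε ^ 2) ^ 4) := by
  have hfm := muB_finite hε hb
  have hm : FM fun X : Set (ℂ × Bool) => (Nc U X : ℝ≥0∞) ^ 4 := fun n =>
    ((measurable_from_top (f := fun k : ℕ => (k : ℝ≥0∞))).comp (Nc_meas hU n)).pow_const 4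
  have e1 : ∫⁻ ω, (Nc U (cfg ε ω) : ℝ≥0∞) ^ 4 ∂sampleLaw =
      ∫⁻ ω, (fun X => (Nc U X : ℝ≥0∞) ^ 4) (cfg ε ω ∩ ovr U) ∂sampleLaw := by
    refine lintegral_congr fun ω => ?_
    show (Nc U (cfg ε ω) : ℝ≥0∞) ^ 4 = (Nc U (cfg ε ω ∩ ovr U) : ℝ≥0∞) ^ 4
    rw [Nc_local U (cfg ε ω)]
    rfl
  rw [e1, law1 hε hU hb hm]
  set x : ℝ := (volume U).toReal / ε ^ 2 with hx
  have hx0 : 0 ≤ x := by rw [hx]; positivity
  have hmu : muB ε U univ = ENNReal.ofReal x := muB_univ hε hb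
  unfold Poisx304.J Poisx304.Q Poisx304.P
  rw [hmu, ENNReal.toReal_ofReal hx0]
  refine le_trans ?_ (ser4 hx0)
  gcongr with n
  calc ((n.factorial : ℕ) : ℝ≥0∞)⁻¹ * ∫⁻ z, (Nc U (range z) : ℝ≥0∞) ^ 4
        ∂(Measure.pi fun _ : Fin n => muB ε U)
      ≤ ((n.factorial : ℕ) : ℝ≥0∞)⁻¹ * ∫⁻ _z, (n : ℝ≥0∞) ^ 4
        ∂(Measure.pi fun _ : Fin n => muB ε U) := by
        gcongr with z
        exact Nc_range z
    _ = ((n.factorial : ℕ) : ℝ≥0∞)⁻¹ * ((n : ℝ≥0∞) ^ 4 * ENNReal.ofReal x ^ n) := by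
        rw [lintegral_const, Measure.pi_univ, Finset.prod_const, Finset.card_univ,
          Fintype.card_fin, hmu]
    _ = ENNReal.ofReal (x ^ n / (n.factorial : ℝ) * (n : ℝ) ^ 4) := (ofr hx0 n).symm

/-! ### holes -/

variable {c : ℂ} {ρ d ε : ℝ}

/-- centres of the net -/
def gz (c : ℂ) (d : ℝ) (k : ℤ × ℤ) : ℂ := c + ((d / 2 * k.1 : ℝ) + (d / 2 * k.2 : ℝ) * Complex.I)

/-- balls of the net -/
def bz (c : ℂ) (d : ℝ) (k : ℤ × ℤ) : Set ℂ := Metric.ball (gz c d k) (d / 2)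

/-- size of the net -/
def mz (ρ d : ℝ) : ℕ := ⌈2 * (ρ + d) / d⌉₊ + 1

/-- the net of `closedBall c (ρ + d)` -/
def nz (c : ℂ) (ρ d : ℝ) : Finset (ℤ × ℤ) :=
  (Finset.Icc (-(mz ρ d : ℤ)) (mz ρ d) ×ˢ Finset.Icc (-(mz ρ d : ℤ)) (mz ρ d)).filter
    fun k => ‖gz c d k - c‖ ≤ ρ + 2 * d

theorem nz_card (c : ℂ) (ρ d : ℝ) : (nz c ρ d).card ≤ (2 * mz ρ d + 1) ^ 2 := by
  unfold nz
  refine (Finset.card_filter_le _ _).trans ?_
  rw [Finset.card_product, Int.card_Icc]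
  have : (((mz ρ d : ℤ)) + 1 - -(mz ρ d : ℤ)).toNat = 2 * mz ρ d + 1 := by omega
  rw [this, pow_two]

theorem bz_sub {k : ℤ × ℤ} (hk : k ∈ nz c ρ d) :
    bz c d k ⊆ Metric.closedBall c (ρ + 3 * d) := by
  intro z hz
  unfold bz at hz
  rw [Metric.mem_ball, dist_eq_norm] at hz
  have h1 := (Finset.mem_filter.1 hk).2
  rw [Metric.mem_closedBall, dist_eq_norm]
  have h2 : ‖z - c‖ ≤ ‖z - gz c d k‖ + ‖gz c d k - c‖ := norm_sub_le_norm_sub_add_norm_sub _ _ _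
  have h3 : 0 ≤ ‖z - gz c d k‖ := norm_nonneg _
  linarith

theorem exists_gz (hd : 0 < d) {z : ℂ} (hz : ‖z - c‖ ≤ ρ + d) :
    ∃ k ∈ nz c ρ d, bz c d k ⊆ Metric.ball z d := by
  set k : ℤ × ℤ := (round (2 * (z - c).re / d), round (2 * (z - c).im / d)) with hk
  have hd2 : d ≠ 0 := hd.ne'
  have e1 : |(z - c).re - d / 2 * k.1| ≤ d / 4 := by
    have h := abs_sub_round (2 * (z - c).re / d)
    have e : (z - c).re - d / 2 * k.1 = d / 2 * (2 * (z - c).re / d - k.1) := by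
      field_simp
    rw [e, abs_mul, abs_of_pos (by positivity : 0 < d / 2)]
    calc d / 2 * |2 * (z - c).re / d - k.1| ≤ d / 2 * (1 / 2) :=
          mul_le_mul_of_nonneg_left h (by positivity)
      _ = d / 4 := by ring
  have e2 : |(z - c).im - d / 2 * k.2| ≤ d / 4 := by
    have h := abs_sub_round (2 * (z - c).im / d)
    have e : (z - c).im - d / 2 * k.2 = d / 2 * (2 * (z - c).im / d - k.2) := by
      field_simp
    rw [e, abs_mul, abs_of_pos (by positivity : 0 < d / 2)]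
    calc d / 2 * |2 * (z - c).im / d - k.2| ≤ d / 2 * (1 / 2) :=
          mul_le_mul_of_nonneg_left h (by positivity)
      _ = d / 4 := by ring
  have e3 : ‖z - gz c d k‖ ≤ d / 2 := by
    have h1 : z - gz c d k = (((z - c).re - d / 2 * k.1 : ℝ) : ℂ) +
        (((z - c).im - d / 2 * k.2 : ℝ) : ℂ) * Complex.I := by
      unfold gz
      apply Complex.ext <;> simp <;> ring
    rw [h1]
    refine (norm_add_le _ _).trans ?_
    rw [norm_mul, Complex.norm_I, mul_one, Complex.norm_real, Complex.norm_real,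
      Real.norm_eq_abs, Real.norm_eq_abs]
    linarith
  have e4 : ‖gz c d k - c‖ ≤ ρ + 2 * d := by
    have h2 : ‖gz c d k - c‖ ≤ ‖gz c d k - z‖ + ‖z - c‖ := norm_sub_le_norm_sub_add_norm_sub _ _ _
    rw [norm_sub_rev (gz c d k) z] at h2
    linarith
  have kb : ∀ x : ℝ, |x| ≤ ρ + d → round (2 * x / d) ∈ Finset.Icc (-(mz ρ d : ℤ)) (mz ρ d) := by
    intro x hx
    have h1 := abs_sub_round (2 * x / d)
    have h2 : |2 * x / d| ≤ 2 * (ρ + d) / d := by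
      rw [abs_div, abs_mul, abs_of_pos hd, abs_two]
      gcongr
    have h3 := Nat.le_ceil (2 * (ρ + d) / d)
    have h4 : (mz ρ d : ℝ) = (⌈2 * (ρ + d) / d⌉₊ : ℝ) + 1 := by unfold mz; push_cast; rfl
    have h5 : |(round (2 * x / d) : ℝ)| ≤ mz ρ d := by
      have h6 : |(round (2 * x / d) : ℝ)| ≤ |2 * x / d| + |2 * x / d - round (2 * x / d)| := by
        have := abs_sub_abs_le_abs_sub (round (2 * x / d) : ℝ) (2 * x / d)
        rw [abs_sub_comm] at this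
        linarith
      linarith
    rw [abs_le] at h5
    rw [Finset.mem_Icc]
    constructor
    · have := h5.1
      exact_mod_cast this
    · have := h5.2
      exact_mod_cast this
  refine ⟨k, Finset.mem_filter.2 ⟨Finset.mem_product.2 ⟨kb _ ((Complex.abs_re_le_norm _).trans hz),
    kb _ ((Complex.abs_im_le_norm _).trans hz)⟩, e4⟩, fun w hw => ?_⟩
  unfold bz at hw
  rw [Metric.mem_ball, dist_eq_norm] at hw ⊢
  have h2 : ‖w - z‖ ≤ ‖w - gz c d k‖ + ‖gz c d k - z‖ := norm_sub_le_norm_sub_add_norm_sub _ _ _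
  rw [norm_sub_rev (gz c d k) z] at h2
  linarith

/-- number of the empty balls of the net -/
def Hz (c : ℂ) (ρ d : ℝ) (X : Set (ℂ × Bool)) : ℝ≥0∞ := ∑ k ∈ nz c ρ d, vF (bz c d k) X

/-- **a hole gives an empty ball of the net** -/
theorem one_le_Hz (hd : 0 < d) {X : Set (ℂ × Bool)} {W : Set ℂ} (hW : W ⊆ Metric.closedBall c ρ)
    (h : ¬ Hol (ps X) W d) : 1 ≤ Hz c ρ d X := by
  unfold Hol at h
  push Not at h
  obtain ⟨w, hw, z, hz, hs⟩ := h
  have h1 : ‖z - c‖ ≤ ρ + d := by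
    have h2 := hW hw
    rw [Metric.mem_closedBall, dist_eq_norm] at h2
    have h3 : ‖z - c‖ ≤ ‖z - w‖ + ‖w - c‖ := norm_sub_le_norm_sub_add_norm_sub _ _ _
    linarith
  obtain ⟨k, hk, hb⟩ := exists_gz hd h1
  have h4 : vF (bz c d k) X = 1 := by
    refine vF_one fun p hp hpb => ?_
    have h5 := hb hpb
    rw [Metric.mem_ball, dist_eq_norm] at h5
    exact absurd h5 (not_lt.2 (hs p.1 ⟨p, hp, rfl⟩))
  unfold Hz
  rw [← h4]
  exact Finset.single_le_sum (f := fun k => vF (bz c d k) X) (fun _ _ => zero_le) hk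

theorem Hz_local : LocalOn (Metric.closedBall c (ρ + 3 * d)) (Hz c ρ d) := by
  intro X
  unfold Hz
  exact Finset.sum_congr rfl fun k hk => LocalOn.mono (bz_sub hk) (vF_local _) X

theorem Hz_meas : FinMeas (Hz c ρ d) := fun n =>
  Finset.measurable_fun_sum _ fun _ _ => vF_meas Metric.isOpen_ball.measurableSet n

/-- the error functional -/
def Rh (κ : ℝ≥0∞) (c : ℂ) (ρ d : ℝ) (X : Set (ℂ × Bool)) : ℝ≥0∞ :=
  κ * (Nc (Metric.closedBall c ρ) X : ℝ≥0∞) ^ 4 * Hz c ρ d X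

theorem Rh_local {κ : ℝ≥0∞} (hd : 0 ≤ d) : LocalOn (Metric.closedBall c (ρ + 3 * d)) (Rh κ c ρ d) := by
  intro X
  unfold Rh
  have h1 : LocalOn (Metric.closedBall c (ρ + 3 * d)) (Nc (Metric.closedBall c ρ)) :=
    LocalOn.mono (Metric.closedBall_subset_closedBall (by linarith)) (Nc_local _)
  rw [← h1 X, ← Hz_local X]

theorem Rh_meas {κ : ℝ≥0∞} : FinMeas (Rh κ c ρ d) := fun n =>
  ((((measurable_from_top (f := fun k : ℕ => (k : ℝ≥0∞))).comp
    (Nc_meas measurableSet_closedBall n)).pow_const 4).const_mul κ).mul (Hz_meas n)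

/-- void probability, integral form -/
theorem vF_mean (hε : 0 < ε) {b : Set ℂ} (hb : MeasurableSet b) (hbb : Bornology.IsBounded b) :
    ∫⁻ ω, vF b (cfg ε ω) ∂sampleLaw ≤
      ENNReal.ofReal (Real.exp (-((volume b).toReal / ε ^ 2))) := by
  refine le_trans ?_ (void_le hε hb hbb)
  refine le_trans (lintegral_mono fun ω => ?_) (lintegral_indicator_one_le _)
  by_cases h : ∀ p ∈ cfg ε ω, p.1 ∉ b
  · rw [indicator_of_mem (by
      rintro s ⟨q, hq, rfl⟩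
      exact h _ ⟨q, hq, rfl⟩)]
    rw [vF_one h]
    rfl
  · rw [vF_zero h]
    exact zero_le

/-- sites and a void ball -/
theorem Nc_void (hε : 0 < ε) {U b : Set ℂ} (hU : MeasurableSet U) (hUb : Bornology.IsBounded U)
    (hb : MeasurableSet b) (hbb : Bornology.IsBounded b) :
    ∫⁻ ω, (Nc U (cfg ε ω) : ℝ≥0∞) ^ 4 * vF b (cfg ε ω) ∂sampleLaw ≤
      ENNReal.ofReal (1200 * (1 + (volume U).toReal / ε ^ 2) ^ 4) *
        ENNReal.ofReal (Real.exp (-((volume b).toReal / ε ^ 2))) := by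
  have hm : ∀ V : Set ℂ, MeasurableSet V → FM fun X : Set (ℂ × Bool) => (Nc V X : ℝ≥0∞) ^ 4 :=
    fun V hV n => ((measurable_from_top (f := fun k : ℕ => (k : ℝ≥0∞))).comp
      (Nc_meas hV n)).pow_const 4
  have hfin : ∀ ω, (ps (cfg ε ω) ∩ U).Finite := fun ω => by
    rw [show ps (cfg ε ω) = points ε ω from fst_cfg ε ω]
    exact finite_points hε hUb ω
  have e0 : ∀ V ω, Nc V (cfg ε ω ∩ ovr V) = Nc V (cfg ε ω) := fun V ω => (Nc_local V _).symm
  calc ∫⁻ ω, (Nc U (cfg ε ω) : ℝ≥0∞) ^ 4 * vF b (cfg ε ω) ∂sampleLaw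
      ≤ ∫⁻ ω, (fun X => (Nc (U \ b) X : ℝ≥0∞) ^ 4) (cfg ε ω ∩ ovr (U \ b)) *
          (vF b) (cfg ε ω ∩ ovr b) ∂sampleLaw := by
        refine lintegral_mono fun ω => ?_
        show (Nc U (cfg ε ω) : ℝ≥0∞) ^ 4 * vF b (cfg ε ω) ≤
          (Nc (U \ b) (cfg ε ω ∩ ovr (U \ b)) : ℝ≥0∞) ^ 4 * vF b (cfg ε ω ∩ ovr b)
        rw [e0, show vF b (cfg ε ω ∩ ovr b) = vF b (cfg ε ω) from (vF_local b _).symm]
        by_cases h : ∀ p ∈ cfg ε ω, p.1 ∉ b
        · have e1 : Nc U (cfg ε ω) = Nc (U \ b) (cfg ε ω) := by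
            unfold Nc
            rw [ps_ovr', ps_ovr']
            congr 1
            ext x
            constructor
            · rintro ⟨⟨p, hp, rfl⟩, h2⟩
              exact ⟨⟨p, hp, rfl⟩, h2, h p hp⟩
            · rintro ⟨h1, h2⟩
              exact ⟨h1, h2.1⟩
          rw [e1]
        · rw [vF_zero h, mul_zero, mul_zero]
    _ = (∫⁻ ω, (fun X => (Nc (U \ b) X : ℝ≥0∞) ^ 4) (cfg ε ω ∩ ovr (U \ b)) ∂sampleLaw) *
          ∫⁻ ω, (vF b) (cfg ε ω ∩ ovr b) ∂sampleLaw :=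
        indep hε (hU.diff hb) (hUb.subset sdiff_subset) hb hbb disjoint_sdiff_left
          (hm _ (hU.diff hb)) (vF_meas hb)
    _ ≤ (∫⁻ ω, (Nc U (cfg ε ω) : ℝ≥0∞) ^ 4 ∂sampleLaw) * ∫⁻ ω, vF b (cfg ε ω) ∂sampleLaw := by
        refine mul_le_mul' (lintegral_mono fun ω => ?_) (lintegral_mono fun ω => ?_)
        · show (Nc (U \ b) (cfg ε ω ∩ ovr (U \ b)) : ℝ≥0∞) ^ 4 ≤ (Nc U (cfg ε ω) : ℝ≥0∞) ^ 4
          rw [e0]
          have h := Nc_mono (U := U \ b) sdiff_subset (hfin ω)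
          gcongr
        · exact ((vF_local b _).symm).le
    _ ≤ _ := by
        gcongr
        · exact mom4 hε hU hUb
        · exact vF_mean hε hb hbb

/-- the constant -/
def Ce (ρ d : ℝ) : ℝ :=
  (2 * (mz ρ d : ℝ) + 1) ^ 2 * (432000 * (1 + 4 * ρ ^ 2 / d ^ 2) ^ 4 / (Real.pi * d ^ 2 / 4))

theorem Ce_nonneg (ρ d : ℝ) : 0 ≤ Ce ρ d := by unfold Ce; positivity

theorem vol_cb {ρ : ℝ} (hρ : 0 ≤ ρ) (c : ℂ) :
    (volume (Metric.closedBall c ρ)).toReal = Real.pi * ρ ^ 2 := by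
  rw [Complex.volume_closedBall, ENNReal.toReal_mul, ENNReal.toReal_pow,
    ENNReal.toReal_ofReal hρ, ENNReal.coe_toReal, NNReal.coe_real_pi]
  ring

theorem vol_b {r : ℝ} (hr : 0 ≤ r) (c : ℂ) :
    (volume (Metric.ball c r)).toReal = Real.pi * r ^ 2 := by
  rw [Complex.volume_ball, ENNReal.toReal_mul, ENNReal.toReal_pow,
    ENNReal.toReal_ofReal hr, ENNReal.coe_toReal, NNReal.coe_real_pi]
  ring

theorem num {V v x : ℝ} (hV : 0 ≤ V) (hv : 0 < v) (hx : 0 < x) :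
    1200 * (1 + V * x) ^ 4 * Real.exp (-(v * x)) ≤
      432000 * (1 + V / v) ^ 4 / v / x := by
  set y := v * x with hy
  have hy0 : 0 < y := mul_pos hv hx
  have h1 : 1 + V * x ≤ (1 + V / v) * (1 + y) := by
    have e : (1 + V / v) * (1 + y) = 1 + V * x + (y + V / v) := by
      rw [hy]; field_simp; ring
    rw [e]
    have : 0 ≤ y + V / v := by positivity
    linarith
  have h2 : (1 + V * x) ^ 4 ≤ (1 + V / v) ^ 4 * (1 + y) ^ 4 := by
    rw [← mul_pow]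
    exact pow_le_pow_left₀ (by positivity) h1 4
  have h3 : (1 + y) ^ 5 / 120 ≤ Real.exp (1 + y) := by
    have := Real.pow_div_factorial_le_exp (1 + y) (by positivity) 5
    simpa [Nat.factorial] using this
  have h4 : (1 + y) ^ 4 * Real.exp (-y) ≤ 360 / y := by
    have e1 : Real.exp (1 + y) * Real.exp (-y) = Real.exp 1 := by rw [← Real.exp_add]; ring_nf
    have e2 : Real.exp 1 ≤ 3 := by
      have := Real.exp_one_lt_d9
      linarith
    have e3 : (1 + y) ^ 5 * Real.exp (-y) ≤ 360 := by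
      have h5 : (1 + y) ^ 5 ≤ 120 * Real.exp (1 + y) := by
        rw [div_le_iff₀ (by norm_num)] at h3
        linarith
      calc (1 + y) ^ 5 * Real.exp (-y) ≤ 120 * Real.exp (1 + y) * Real.exp (-y) :=
            mul_le_mul_of_nonneg_right h5 (Real.exp_pos _).le
        _ = 120 * Real.exp 1 := by rw [mul_assoc, e1]
        _ ≤ 360 := by linarith
    rw [le_div_iff₀ hy0]
    have h6 : 0 ≤ (1 + y) ^ 4 * Real.exp (-y) := by positivity
    calc (1 + y) ^ 4 * Real.exp (-y) * y ≤ (1 + y) ^ 4 * Real.exp (-y) * (1 + y) :=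
          mul_le_mul_of_nonneg_left (by linarith) h6
      _ = (1 + y) ^ 5 * Real.exp (-y) := by ring
      _ ≤ 360 := e3
  calc 1200 * (1 + V * x) ^ 4 * Real.exp (-(v * x))
      ≤ 1200 * ((1 + V / v) ^ 4 * (1 + y) ^ 4) * Real.exp (-(v * x)) := by gcongr
    _ = 1200 * (1 + V / v) ^ 4 * ((1 + y) ^ 4 * Real.exp (-y)) := by rw [hy]; ring
    _ ≤ 1200 * (1 + V / v) ^ 4 * (360 / y) := by
        refine mul_le_mul_of_nonneg_left h4 (by positivity)
    _ = 432000 * (1 + V / v) ^ 4 / v / x := by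
        rw [hy]; field_simp; ring

/-- **mean of the error functional** -/
theorem Rh_mean (hε : 0 < ε) (hd : 0 < d) (hρ : 0 ≤ ρ) (κ : ℝ≥0∞) (c : ℂ) :
    ∫⁻ ω, Rh κ c ρ d (cfg ε ω) ∂sampleLaw ≤ κ * ENNReal.ofReal (Ce ρ d * ε ^ 2) := by
  set U := Metric.closedBall c ρ with hU
  have hb1 : ∀ k, MeasurableSet (bz c d k) := fun k => Metric.isOpen_ball.measurableSet
  have hb2 : ∀ k, Bornology.IsBounded (bz c d k) := fun k => Metric.isBounded_ball
  have hUm : MeasurableSet U := measurableSet_closedBall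
  have hUb : Bornology.IsBounded U := Metric.isBounded_closedBall
  have hmN : Measurable fun ω => (Nc U (cfg ε ω) : ℝ≥0∞) ^ 4 :=
    meas_fun hε hUm hUb (f := fun X => (Nc U X : ℝ≥0∞) ^ 4)
      (LocalOn.comp (Nc_local U) fun k : ℕ => (k : ℝ≥0∞) ^ 4)
      fun n => ((measurable_from_top (f := fun k : ℕ => (k : ℝ≥0∞))).comp
        (Nc_meas hUm n)).pow_const 4
  have hmv : ∀ k, Measurable fun ω => vF (bz c d k) (cfg ε ω) := fun k =>
    meas_fun hε (hb1 k) (hb2 k) (vF_local _) (vF_meas (hb1 k))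
  have h1 : ∫⁻ ω, Rh κ c ρ d (cfg ε ω) ∂sampleLaw =
      κ * ∑ k ∈ nz c ρ d, ∫⁻ ω, (Nc U (cfg ε ω) : ℝ≥0∞) ^ 4 * vF (bz c d k) (cfg ε ω)
        ∂sampleLaw := by
    unfold Rh Hz
    have e : ∀ ω, κ * (Nc U (cfg ε ω) : ℝ≥0∞) ^ 4 * ∑ k ∈ nz c ρ d, vF (bz c d k) (cfg ε ω) =
        κ * ∑ k ∈ nz c ρ d, (Nc U (cfg ε ω) : ℝ≥0∞) ^ 4 * vF (bz c d k) (cfg ε ω) := fun ω => by
      rw [mul_assoc, Finset.mul_sum]
    simp only [← hU, e]
    have hp : ∀ k, Measurable fun ω => (Nc U (cfg ε ω) : ℝ≥0∞) ^ 4 * vF (bz c d k) (cfg ε ω) :=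
      fun k => hmN.mul (hmv k)
    rw [lintegral_const_mul _ (Finset.measurable_fun_sum _ fun k _ => hp k),
      lintegral_finsetSum _ fun k _ => hp k]
  rw [h1]
  refine mul_le_mul_right ?_ κ
  have h2 : ∀ k ∈ nz c ρ d, ∫⁻ ω, (Nc U (cfg ε ω) : ℝ≥0∞) ^ 4 * vF (bz c d k) (cfg ε ω)
      ∂sampleLaw ≤ ENNReal.ofReal (432000 * (1 + 4 * ρ ^ 2 / d ^ 2) ^ 4 /
        (Real.pi * d ^ 2 / 4) * ε ^ 2) := by
    intro k _
    refine (Nc_void hε hUm hUb (hb1 k) (hb2 k)).trans ?_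
    rw [← ENNReal.ofReal_mul (by positivity)]
    refine ENNReal.ofReal_le_ofReal ?_
    have hv : (volume (bz c d k)).toReal = Real.pi * (d / 2) ^ 2 := vol_b (by positivity) _
    have hV : (volume U).toReal = Real.pi * ρ ^ 2 := vol_cb hρ c
    rw [hv, hV]
    have h3 := num (V := Real.pi * ρ ^ 2) (v := Real.pi * (d / 2) ^ 2) (x := 1 / ε ^ 2)
      (by positivity) (by positivity) (by positivity)
    rw [mul_one_div, mul_one_div] at h3
    refine h3.trans (le_of_eq ?_)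
    have e1 : Real.pi * ρ ^ 2 / (Real.pi * (d / 2) ^ 2) = 4 * ρ ^ 2 / d ^ 2 := by
      have := Real.pi_pos.ne'
      field_simp
      try ring
    have e2 : Real.pi * (d / 2) ^ 2 = Real.pi * d ^ 2 / 4 := by ring
    rw [e1, e2, div_div_eq_mul_div, div_one]
  refine (Finset.sum_le_sum h2).trans ?_
  rw [Finset.sum_const, nsmul_eq_mul]
  have h4 : ((nz c ρ d).card : ℝ≥0∞) ≤ ENNReal.ofReal ((2 * (mz ρ d : ℝ) + 1) ^ 2) := by
    have h5 : ((nz c ρ d).card : ℝ≥0∞) ≤ (((2 * mz ρ d + 1) ^ 2 : ℕ) : ℝ≥0∞) := by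
      exact_mod_cast nz_card c ρ d
    refine h5.trans (le_of_eq ?_)
    rw [← ENNReal.ofReal_natCast]
    push_cast
    rfl
  calc ((nz c ρ d).card : ℝ≥0∞) * ENNReal.ofReal (432000 * (1 + 4 * ρ ^ 2 / d ^ 2) ^ 4 /
        (Real.pi * d ^ 2 / 4) * ε ^ 2)
      ≤ ENNReal.ofReal ((2 * (mz ρ d : ℝ) + 1) ^ 2) * ENNReal.ofReal (432000 *
        (1 + 4 * ρ ^ 2 / d ^ 2) ^ 4 / (Real.pi * d ^ 2 / 4) * ε ^ 2) := by gcongr
    _ = ENNReal.ofReal (Ce ρ d * ε ^ 2) := by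
        rw [← ENNReal.ofReal_mul (by positivity)]
        unfold Ce
        ring_nf

/-! ### full tiles -/

/-- **full tiles with an error functional** -/
theorem tileG : ∃ C : ℝ≥0∞, C ≠ ∞ ∧ ∀ {ε s : ℝ} {ι κ : Type} [DecidableEq ι] [DecidableEq κ]
    (M : Net ε ι κ) (I I₀ : Finset ι) (J J₀ : Finset κ), ε ≤ s → I₀ ⊆ I → J₀ ⊆ J →
    (∀ k ∈ J, M.N k ⊆ I) → (∀ k ∈ J₀, M.N k ⊆ I₀) →
    ∀ (z : ℂ) (D B : Set ℂ) (d : ℝ), MeasurableSet D → MeasurableSet B →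
    Bornology.IsBounded B → M.reg I₀ J₀ ⊆ B →
    (∀ o ∈ D, Metric.closedBall o d ⊆ sq z s ∩ B) →
    ∀ F R : Cf → ℝ≥0∞, LocalOn (M.reg I₀ J₀) F → FinMeas F → LocalOn B R → FinMeas R →
    (∀ᵐ ω ∂sampleLaw, QF (Ap ε B ω) (win M I₀ J₀) F D d ∨ ∀ β ⊆ Ap ε B ω,
      F (paint (Ap ε B ω) β) ≤ R (paint (Ap ε B ω) β)) →
    (M.c ^ J₀.card * ∏ i ∈ I₀, ∫⁻ ω, M.a i (cfg ε ω) ∂sampleLaw) *
        ∫⁻ ω, M.gw I J (cfg ε ω) * F (cfg ε ω) ∂sampleLaw ≤
      (C * ENNReal.ofReal (s ^ 2) + ∫⁻ ω, R (cfg ε ω) ∂sampleLaw) *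
        ∫⁻ ω, M.gw I J (cfg ε ω) ∂sampleLaw := by
  obtain ⟨C, hC, h⟩ := Hd_mean
  refine ⟨5 * C, ENNReal.mul_ne_top (by simp) hC, ?_⟩
  intro ε s ι κ _ _ M I I₀ J J₀ hs hI hJ hN hN₀ z D B d hD hB hBb hregB hDW F R hF hFm hR hRm hX
  refine (M.upper hI hJ hN hN₀ hF hFm).trans ?_
  have w0 : LocalOn (M.reg I₀ J₀) (win M I₀ J₀) := by
    refine LocalOn.mul (M.a_local (I := I₀) (J := J₀)) (local_prod' J₀ fun k hk =>
      LocalOn.mono ?_ (M.el k))
    exact union_subset_union (biUnion_subset_biUnion_left (hN₀ k hk))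
      (subset_biUnion_of_mem (u := M.C) hk)
  have hwF : LocalOn B fun Y => win M I₀ J₀ Y * F Y :=
    LocalOn.mono hregB (LocalOn.mul w0 hF)
  have h0 : LocalOn B (Hd D d) := Hd_local fun o ho => (hDW o ho).trans inter_subset_right
  have mHd : Measurable fun ω => Hd D d (cfg ε ω) := meas_fun M.eps hB hBb h0 (Hd_meas hD d)
  have mR : Measurable fun ω => R (cfg ε ω) := meas_fun M.eps hB hBb hR hRm
  have key := quench1 (ε := ε) (B := B) M.eps hB hBb (Φ := fun Y => win M I₀ J₀ Y * F Y)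
    (Ψ := fun Y => 5 * Hd D d Y + R Y) (fun n => ((Hd_meas hD d n).const_mul 5).add (hRm n))
    (K := 1) (by simp) (by
      filter_upwards [hX] with ω hω
      rw [one_mul, Finset.sum_add_distrib]
      rcases hω with hω | hω
      · refine (hω.le fun Y => win_le_one M Y).trans ?_
        rw [Finset.mul_sum]
        exact le_self_add
      · refine le_trans (Finset.sum_le_sum fun β hβ => ?_) le_add_self
        calc win M I₀ J₀ (paint (Ap ε B ω) β) * F (paint (Ap ε B ω) β)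
            ≤ 1 * R (paint (Ap ε B ω) β) := by
              gcongr
              · exact win_le_one M _
              · exact hω β (Finset.mem_powerset.1 hβ)
          _ = _ := one_mul _)
  have e1 : ∀ ω, win M I₀ J₀ (cfg ε ω ∩ ovr B) * F (cfg ε ω ∩ ovr B) =
      win M I₀ J₀ (cfg ε ω) * F (cfg ε ω) := fun ω => (hwF (cfg ε ω)).symm
  have e2 : ∀ ω, Hd D d (cfg ε ω ∩ ovr B) = Hd D d (cfg ε ω) := fun ω => (h0 (cfg ε ω)).symm
  have e3 : ∀ ω, R (cfg ε ω ∩ ovr B) = R (cfg ε ω) := fun ω => (hR (cfg ε ω)).symm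
  simp only [e1, e2, e3] at key
  rw [one_mul, lintegral_add_left (mHd.const_mul 5), lintegral_const_mul _ mHd] at key
  have h1 := h ε s M.eps hs z D d fun o ho => (hDW o ho).trans inter_subset_left
  calc (∫⁻ ω, M.gw I J (cfg ε ω) ∂sampleLaw) *
        ∫⁻ ω, ((∏ i ∈ I₀, M.a i (cfg ε ω)) * ∏ k ∈ J₀, M.e k (cfg ε ω)) * F (cfg ε ω) ∂sampleLaw
      ≤ (∫⁻ ω, M.gw I J (cfg ε ω) ∂sampleLaw) * (5 * (C * ENNReal.ofReal (s ^ 2)) +
          ∫⁻ ω, R (cfg ε ω) ∂sampleLaw) := by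
        gcongr
        exact key.trans (by gcongr)
    _ = _ := by ring

/-- **FULL TILES, environments with holes** : the quenched half `QF` is asked only if `Hol (Ap) V d'`
holds; otherwise the crude bound `F ≤ κ Nc^4` is used -/
theorem tileH : ∃ C : ℝ≥0∞, C ≠ ∞ ∧ ∀ {ε s : ℝ} {ι κ : Type} [DecidableEq ι] [DecidableEq κ]
    (M : Net ε ι κ) (I I₀ : Finset ι) (J J₀ : Finset κ), ε ≤ s → I₀ ⊆ I → J₀ ⊆ J →
    (∀ k ∈ J, M.N k ⊆ I) → (∀ k ∈ J₀, M.N k ⊆ I₀) →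
    ∀ (z : ℂ) (D B : Set ℂ) (d : ℝ), MeasurableSet D → MeasurableSet B →
    Bornology.IsBounded B → M.reg I₀ J₀ ⊆ B →
    (∀ o ∈ D, Metric.closedBall o d ⊆ sq z s ∩ B) →
    ∀ F : Cf → ℝ≥0∞, LocalOn (M.reg I₀ J₀) F → FinMeas F →
    ∀ (c : ℂ) (ρ d' : ℝ) (V : Set ℂ) (k : ℝ≥0∞), 0 < d' → 0 ≤ ρ →
    Metric.closedBall c (ρ + 3 * d') ⊆ B → V ⊆ Metric.closedBall c ρ →
    (∀ X : Cf, X.Finite → F X ≤ k * (Nc (Metric.closedBall c ρ) X : ℝ≥0∞) ^ 4) →
    (∀ᵐ ω ∂sampleLaw, Hol (Ap ε B ω : Set ℂ) V d' → QF (Ap ε B ω) (win M I₀ J₀) F D d) →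
    (M.c ^ J₀.card * ∏ i ∈ I₀, ∫⁻ ω, M.a i (cfg ε ω) ∂sampleLaw) *
        ∫⁻ ω, M.gw I J (cfg ε ω) * F (cfg ε ω) ∂sampleLaw ≤
      (C * ENNReal.ofReal (s ^ 2) + k * ENNReal.ofReal (Ce ρ d' * ε ^ 2)) *
        ∫⁻ ω, M.gw I J (cfg ε ω) ∂sampleLaw := by
  obtain ⟨C, hC, h⟩ := tileG
  refine ⟨C, hC, ?_⟩
  intro ε s ι κ _ _ M I I₀ J J₀ hs hI hJ hN hN₀ z D B d hD hB hBb hregB hDW F hF hFm c ρ d' V k
    hd' hρ hcB hVc hcr hX
  refine (h M I I₀ J J₀ hs hI hJ hN hN₀ z D B d hD hB hBb hregB hDW F (Rh k c ρ d') hF hFm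
    (LocalOn.mono hcB (Rh_local hd'.le)) Rh_meas ?_).trans ?_
  · filter_upwards [hX] with ω hω
    by_cases hh : Hol (Ap ε B ω : Set ℂ) V d'
    · exact Or.inl (hω hh)
    · refine Or.inr fun β _ => (hcr _ (paint_finite _ β)).trans ?_
      have e : ps (paint (Ap ε B ω) β) = (Ap ε B ω : Set ℂ) := ps_paint _ β
      have h1 : 1 ≤ Hz c ρ d' (paint (Ap ε B ω) β) := one_le_Hz hd' hVc (by rw [e]; exact hh)
      unfold Rh
      calc k * (Nc (Metric.closedBall c ρ) (paint (Ap ε B ω) β) : ℝ≥0∞) ^ 4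
          = k * (Nc (Metric.closedBall c ρ) (paint (Ap ε B ω) β) : ℝ≥0∞) ^ 4 * 1 :=
            (mul_one _).symm
        _ ≤ _ := by gcongr
  · gcongr
    exact Rh_mean M.eps hd' hρ k c

end Crest.Agent.R143.TileGx176
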