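import Crest.Agent.R143.SpM_169
import Crest.Agent.R143.HullM_93

/-!
# Row 143 (S0194), CORE-C, RIG, box R6 (holes): the crude bound of the spatial charges (helper169)

* `zC_sum`, `zC_le` : 713's charge is a sum over at most all Delaunay triangles
* `del_sq` : `#delT ≤ #²` if the third site is unique; 93's `#delT ≤ 6 #` in general position
* `reg3_ball` : the three tiles are in a ball of radius `D.h + D.B' + D.A'`
* `fP_diam`, `Nn_diam`
* **`VT_sq`** : `‖VT X‖ ≤ 3 c #²` for EVERY configuration; **`VT_lin`** : `≤ 18 c #` in general position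
* **`VT_crude`**, `VL_crude` : for the positions, `c = 4 (D.h + D.B' + D.A')`
-/

set_option autoImplicit false
set_option linter.all false

noncomputable section

open scoped Classical

namespace Crest.Agent.R143.VTcx169

open Set MeasureTheory
open Crest.ProbabilityR.Voronoi
open Crest.Agent.R143.B0x346 Crest.Agent.R143.DelGx806 Crest.Agent.R143.DelRx806
  Crest.Agent.R143.JColx54
open Crest.Agent.R143.Frame10x395
open Crest.Agent.R143.Locx922
open Crest.Agent.R143.PP0x831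
open Crest.Agent.R143.Janx304 (ovr)
open Crest.Agent.R143.FinMx609
open Crest.Agent.R143.WLocx713 Crest.Agent.R143.PWx978 Crest.Agent.R143.Tplx978
open Crest.Agent.R143.TileRx228 Crest.Agent.R143.PthFx765 Crest.Agent.R143.TplIx204
open Crest.Agent.R143.SpRx169 Crest.Agent.R143.Sptx832 Crest.Agent.R143.Sptx169
  Crest.Agent.R143.SpVx169 Crest.Agent.R143.SpMx169

/-! ### 713's charge -/

theorem mem3 {S : Finset ℂ} {t : ℂ × ℂ × ℂ} (h : t ∈ delT S) : t.1 ∈ S ∧ t.2.1 ∈ S ∧ t.2.2 ∈ S := by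
  unfold delT at h
  rw [Finset.mem_filter, Finset.mem_product, Finset.mem_product] at h
  exact ⟨h.1.1, h.1.2.1, h.1.2.2⟩

/-- the charge is a finite sum -/
theorem zC_sum (f : ℂ × ℂ × ℂ → ℂ) (W : Set ℂ) (St En : Set (ℂ × Bool) → ℂ × ℂ → Prop) (X : Cf) :
    zC f W St En X = ∑ t ∈ (delT (sX X)).filter (pC W St En X), f t := by
  unfold zC
  rw [← finsum_mem_coe_finset]
  refine finsum_congr fun t => finsum_congr_Prop ?_ fun _ => rfl
  rw [Finset.mem_coe, Finset.mem_filter]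
  apply propext
  refine ⟨fun h => ⟨?_, h⟩, fun h => h.2⟩
  obtain ⟨-, -, p, q, -, -, h⟩ := h
  exact h.mem

theorem zC_le {f : ℂ × ℂ × ℂ → ℂ} {W : Set ℂ} {St En : Set (ℂ × Bool) → ℂ × ℂ → Prop} {X : Cf}
    {c : ℝ} (hf : ∀ t ∈ delT (sX X), ‖f t‖ ≤ c) : ‖zC f W St En X‖ ≤ (delT (sX X)).card * c := by
  have hc : ∀ t ∈ delT (sX X), 0 ≤ c := fun t ht => (norm_nonneg _).trans (hf t ht)
  rw [zC_sum]
  refine (norm_sum_le _ _).trans ?_
  refine (Finset.sum_le_sum_of_subset_of_nonneg (Finset.filter_subset _ _) fun t _ _ =>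
    norm_nonneg _).trans ?_
  refine (Finset.sum_le_sum hf).trans ?_
  rw [Finset.sum_const, nsmul_eq_mul]

/-- the charge vanishes if the third site is not unique -/
theorem zC_not {f : ℂ × ℂ × ℂ → ℂ} {W : Set ℂ} {St En : Set (ℂ × Bool) → ℂ × ℂ → Prop} {X : Cf}
    (h : ¬ U3 (sX X)) : zC f W St En X = 0 := by
  rw [zC_sum]
  refine Finset.sum_eq_zero fun t ht => ?_
  exact absurd (Finset.mem_filter.1 ht).2.2.1 h

/-- number of triangles, the third site is unique -/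
theorem del_sq {S : Finset ℂ} (h : U3 S) : (delT S).card ≤ S.card ^ 2 := by
  have h1 : ((delT S).image fun t => (t.1, t.2.1)) ⊆ S ×ˢ S := by
    intro p hp
    obtain ⟨t, ht, rfl⟩ := Finset.mem_image.1 hp
    have := mem3 ht
    exact Finset.mem_product.2 ⟨this.1, this.2.1⟩
  have h2 := Finset.card_le_card h1
  rw [Finset.card_product, Finset.card_image_of_injOn] at h2
  · rw [pow_two]
    exact h2
  · intro t ht t' ht' e
    obtain ⟨a, b, c⟩ := t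
    obtain ⟨a', b', c'⟩ := t'
    simp only [Prod.mk.injEq] at e
    obtain ⟨rfl, rfl⟩ := e
    rw [h a b c c' ht ht']

/-! ### the regions -/

theorem cen_dist {M : ℕ} {W : ℤ → ℤ × ℤ} (P : FPath M W) {h : ℝ} (hh : 0 ≤ h) (a : ℤ) :
    ‖cen h W (a + 1) - cen h W a‖ = h := by
  unfold cen
  rw [← mul_sub, norm_mul, Complex.norm_real, Real.norm_of_nonneg hh]
  have : ‖cz (W (a + 1)) - cz (W a)‖ = 1 := by
    have h1 := norm_ge P (a + 1)
    unfold ge at h1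
    rw [add_sub_cancel_right] at h1
    rw [← h1]
    congr 1
    unfold cz
    apply Complex.ext <;> simp
  rw [this, mul_one]

variable {M : ℕ} {W : ℤ → ℤ × ℤ} (D : DT) (P : FPath M W) (r : ℝ)

include P in
/-- the three tiles are in a ball -/
theorem reg3_ball (hh : 0 ≤ D.h) (a : ℤ) {s : ℂ} (hs : s ∈ reg3 D W a) :
    ‖s - cen D.h W (a + 1)‖ ≤ D.h + (max D.A' D.B' + D.A') := by
  obtain ⟨j, hj, hs⟩ := mem_iUnion₂.1 hs
  have h1 := (RegBx523.RR_ball P hs).le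
  have h2 : ‖cen D.h W (a + (j : ℤ)) - cen D.h W (a + 1)‖ ≤ D.h := by
    have hj' := Finset.mem_range.1 hj
    interval_cases j
    · rw [Nat.cast_zero, add_zero, ← norm_neg, neg_sub, cen_dist P hh]
    · rw [Nat.cast_one, sub_self, norm_zero]
      exact hh
    · have e : a + ((2 : ℕ) : ℤ) = a + 1 + 1 := by push_cast; ring
      rw [e, cen_dist P hh]
  have h3 : s - cen D.h W (a + 1) = (s - cen D.h W (a + (j : ℤ))) +
      (cen D.h W (a + (j : ℤ)) - cen D.h W (a + 1)) := by ring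
  rw [h3]
  refine (norm_add_le _ _).trans ?_
  linarith

/-! ### the fields -/

theorem fP_diam {c : ℂ} {R : ℝ} {t : ℂ × ℂ × ℂ} (h1 : ‖t.1 - c‖ ≤ R) (h2 : ‖t.2.1 - c‖ ≤ R)
    (h3 : ‖t.2.2 - c‖ ≤ R) : ‖fP t‖ ≤ 4 * R := by
  have e : fP t = om * ((t.1 - c) - (t.2.2 - c)) + om ^ 2 * ((t.2.1 - c) - (t.2.2 - c)) := by
    unfold fP
    linear_combination t.2.2 * om_sum
  rw [e]
  refine (norm_add_le _ _).trans ?_
  rw [norm_mul, norm_mul, norm_pow, norm_om, one_pow, one_mul, one_mul]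
  have a1 := norm_sub_le (t.1 - c) (t.2.2 - c)
  have a2 := norm_sub_le (t.2.1 - c) (t.2.2 - c)
  linarith

theorem Nn_diam {c : ℂ} {R : ℝ} {t : ℂ × ℂ × ℂ} (h1 : ‖t.1 - c‖ ≤ R) (h2 : ‖t.2.1 - c‖ ≤ R)
    (h3 : ‖t.2.2 - c‖ ≤ R) : ‖Mass1x302.Nn t‖ ≤ 4 * R := by
  rw [← fP_norm]
  exact fP_diam h1 h2 h3

/-! ### the crude bound -/

/-- sites of the triangles of a cut -/
theorem del_cut {R : Set ℂ} {X : Cf} {t : ℂ × ℂ × ℂ} (ht : t ∈ delT (sX (X ∩ ovr R))) :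
    t.1 ∈ R ∧ t.2.1 ∈ R ∧ t.2.2 ∈ R := by
  have h0 := mem3 ht
  have key : ∀ s ∈ sX (X ∩ ovr R), s ∈ R := by
    intro s hs
    unfold sX at hs
    split_ifs at hs with hf
    · rw [Set.Finite.mem_toFinset] at hs
      obtain ⟨q, hq, rfl⟩ := hs
      exact hq.2
    · exact absurd hs (Finset.notMem_empty _)
  exact ⟨key _ h0.1, key _ h0.2.1, key _ h0.2.2⟩

/-- the bound by the number of triangles -/
theorem VT_del {f : ℂ × ℂ × ℂ → ℂ} {a : ℤ} {c : ℝ} (hc : 0 ≤ c)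
    (hf : ∀ t : ℂ × ℂ × ℂ, t.1 ∈ reg3 D W a → t.2.1 ∈ reg3 D W a → t.2.2 ∈ reg3 D W a →
      ‖f t‖ ≤ c) (X : Cf) :
    ‖VT D P r f a X‖ ≤ 3 * ((delT (sX (X ∩ ovr (reg3 D W a)))).card * c) := by
  unfold VT
  refine (norm_sum_le _ _).trans ?_
  refine (Finset.sum_le_sum (g := fun _ => ((delT (sX (X ∩ ovr (reg3 D W a)))).card : ℝ) * c)
    fun j hj => ?_).trans ?_
  · unfold AC
    refine zC_le fun t ht => ?_
    obtain ⟨h1, h2, h3⟩ := del_cut ht
    unfold fQ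
    split_ifs
    · exact hf t h1 h2 h3
    · rw [norm_zero]
      exact hc
  · rw [Finset.sum_const, Finset.card_range, nsmul_eq_mul]
    norm_num

/-- **every configuration** -/
theorem VT_sq {f : ℂ × ℂ × ℂ → ℂ} {a : ℤ} {c : ℝ} (hc : 0 ≤ c)
    (hf : ∀ t : ℂ × ℂ × ℂ, t.1 ∈ reg3 D W a → t.2.1 ∈ reg3 D W a → t.2.2 ∈ reg3 D W a →
      ‖f t‖ ≤ c) (X : Cf) :
    ‖VT D P r f a X‖ ≤ 3 * c * ((sX (X ∩ ovr (reg3 D W a))).card : ℝ) ^ 2 := by
  by_cases h : U3 (sX (X ∩ ovr (reg3 D W a)))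
  · refine (VT_del D P r hc hf X).trans ?_
    have h1 : ((delT (sX (X ∩ ovr (reg3 D W a)))).card : ℝ) ≤
        ((sX (X ∩ ovr (reg3 D W a))).card : ℝ) ^ 2 := by exact_mod_cast del_sq h
    have h2 := mul_le_mul_of_nonneg_right h1 hc
    linarith
  · have h0 : VT D P r f a X = 0 := by
      unfold VT AC
      exact Finset.sum_eq_zero fun j _ => zC_not h
    rw [h0, norm_zero]
    positivity

/-- **general position** -/
theorem VT_lin {f : ℂ × ℂ × ℂ → ℂ} {a : ℤ} {c : ℝ} (hc : 0 ≤ c)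
    (hf : ∀ t : ℂ × ℂ × ℂ, t.1 ∈ reg3 D W a → t.2.1 ∈ reg3 D W a → t.2.2 ∈ reg3 D W a →
      ‖f t‖ ≤ c) {X : Cf} (hX : GP (sX (X ∩ ovr (reg3 D W a)) : Set ℂ)) :
    ‖VT D P r f a X‖ ≤ 18 * c * (sX (X ∩ ovr (reg3 D W a))).card := by
  refine (VT_del D P r hc hf X).trans ?_
  have h1 : ((delT (sX (X ∩ ovr (reg3 D W a)))).card : ℝ) ≤
      6 * ((sX (X ∩ ovr (reg3 D W a))).card : ℝ) := by exact_mod_cast HullMx93.card_delT_le hX
  have h2 := mul_le_mul_of_nonneg_right h1 hc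
  linarith

/-- the size of the field of the positions on the three tiles -/
def cR (D : DT) : ℝ := 4 * (D.h + (max D.A' D.B' + D.A'))

include P in
theorem fP_reg3 (hh : 0 ≤ D.h) {a : ℤ} (t : ℂ × ℂ × ℂ) (h1 : t.1 ∈ reg3 D W a)
    (h2 : t.2.1 ∈ reg3 D W a) (h3 : t.2.2 ∈ reg3 D W a) : ‖fP t‖ ≤ cR D :=
  fP_diam (reg3_ball D P hh a h1) (reg3_ball D P hh a h2) (reg3_ball D P hh a h3)

include P in
theorem Nn_reg3 (hh : 0 ≤ D.h) {a : ℤ} (t : ℂ × ℂ × ℂ) (h1 : t.1 ∈ reg3 D W a)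
    (h2 : t.2.1 ∈ reg3 D W a) (h3 : t.2.2 ∈ reg3 D W a) : ‖Mass1x302.Nn t‖ ≤ cR D :=
  Nn_diam (reg3_ball D P hh a h1) (reg3_ball D P hh a h2) (reg3_ball D P hh a h3)

theorem cR_nn (hh : 0 ≤ D.h) (hA : 0 ≤ D.A') : 0 ≤ cR D := by
  unfold cR
  have := le_max_left D.A' D.B'
  linarith

/-- standard numbers: `cR = 656 η ≤ 7 h` -/
theorem cR_std {η : ℝ} (s : CorVx169.IsS D η) (hη : 0 ≤ η) : cR D = 656 * η := by
  unfold cR
  rw [s.h, s.A', s.B', max_eq_right (by linarith)]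
  ring

/-- **the field of the positions, every configuration** -/
theorem VT_crude (hh : 0 ≤ D.h) (hA : 0 ≤ D.A') (a : ℤ) (X : Cf) :
    ‖VT D P r fP a X‖ ≤ 3 * cR D * ((sX (X ∩ ovr (reg3 D W a))).card : ℝ) ^ 2 :=
  VT_sq D P r (cR_nn D hh hA) (fun t => fP_reg3 D P hh t) X

theorem VT_crude_gp (hh : 0 ≤ D.h) (hA : 0 ≤ D.A') (a : ℤ) {X : Cf}
    (hX : GP (sX (X ∩ ovr (reg3 D W a)) : Set ℂ)) :
    ‖VT D P r fP a X‖ ≤ 18 * cR D * (sX (X ∩ ovr (reg3 D W a))).card :=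
  VT_lin D P r (cR_nn D hh hA) (fun t => fP_reg3 D P hh t) hX

end Crest.Agent.R143.VTcx169
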