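import Crest.Agent.R143.RigZ_609
import Crest.Agent.R143.TileG_176
import Crest.Agent.R143.VTc_169
import Crest.Agent.R143.WndI_416

/-!
# Row 143 (S0194), RIG: the second moment of the tiles (helper854)

* `real_of` : real form (133's `gR`) of an upper bound of a local square
* `cen5`, `reg5` : the window of five tiles is in a ball of radius `3 h` round the middle vertex
* `QFD ρ0 d0` : the quenched input (176's `QF` for the five tiles `a, .., a + 4` of type `(·, true)`, almost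
  every environment without holes), 490
* **`tile_D`** : `c^5 (E A)^6 · E[g |VT|²] ≤ (C (2 h)² + e(ε)) · E g`
* **`mom`** : field `mom` of 609's `Op`, `C1` depends only on the template
-/

set_option autoImplicit false
set_option linter.unusedSectionVars false

noncomputable section

open scoped Classical

namespace Crest.Agent.R143.MomIx854

open MeasureTheory Set Filter Topology
open Crest.ProbabilityR.Voronoi
open Crest.Agent.R143.B0x346 Crest.Agent.R143.Locx922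
open Crest.Agent.R143.PP0x831 Crest.Agent.R143.Poisx304 Crest.Agent.R143.Janx304
open Crest.Agent.R143.FinMx609
open Crest.Agent.R143.WLocx713 (sX)
open Crest.Agent.R143.Dblx609 Crest.Agent.R143.Dbl2x609
open Crest.Agent.R143.IndLocx279 Crest.Agent.R143.PWx978 Crest.Agent.R143.Tplx978
open Crest.Agent.R143.TileRx228 Crest.Agent.R143.PthFx765 Crest.Agent.R143.TplIx204
open Crest.Agent.R143.CorNx765 Crest.Agent.R143.Layx416 Crest.Agent.R143.LayUx416
open Crest.Agent.R143.GPosCx348 (NumC)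
open Crest.Agent.R143.PolyUx346 (Poly)
open Crest.Agent.R143.TileFx176 Crest.Agent.R143.TileGx176
open Crest.Agent.R143.RigPx854 Crest.Agent.R143.RigZdx609 Crest.Agent.R143.RigZx609
open Crest.Agent.R143.LimSx133 (gR int_gR gR_cfg)
open Crest.Agent.R143.SpVx169 (VT VT_fm VT_local3 reg3)
open Crest.Agent.R143.SpRx169 (Rg)
open Crest.Agent.R143.SpMx169 (fP fP_meas)
open Crest.Agent.R143.SumScx302 (sq)
open scoped ENNReal

/-! ### real form -/

section real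

variable {ε : ℝ} {ι κ : Type} (M : Net ε ι κ)

/-- **real form of the upper bound of a local square** -/
theorem real_of {I : Finset ι} {J : Finset κ} (hN : ∀ k ∈ J, M.N k ⊆ I) {V : Cf → ℂ} {B : Set ℂ}
    (hB : MeasurableSet B) (hBb : Bornology.IsBounded B) (hVl : LocalOn B V) (hVm : FinMeas V)
    {m0 : ℝ≥0∞} {μ X : ℝ} (hμ : 0 < μ) (hm : ENNReal.ofReal μ ≤ m0) (hX : 0 ≤ X)
    (h : m0 * ∫⁻ ω, M.gw I J (cfg ε ω) * ENNReal.ofReal (‖V (cfg ε ω)‖ ^ 2) ∂sampleLaw ≤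
      ENNReal.ofReal X * ∫⁻ ω, M.gw I J (cfg ε ω) ∂sampleLaw) :
    Integrable (fun ω => gR M I J (cfg ε ω) * ‖V (cfg ε ω)‖ ^ 2) sampleLaw ∧
      ∫ ω, gR M I J (cfg ε ω) * ‖V (cfg ε ω)‖ ^ 2 ∂sampleLaw ≤
        X / μ * ∫ ω, gR M I J (cfg ε ω) ∂sampleLaw := by
  have vl : LocalOn B fun S => ENNReal.ofReal (‖V S‖ ^ 2) :=
    LocalOn.comp hVl fun v => ENNReal.ofReal (‖v‖ ^ 2)
  have vm : FinMeas fun S => ENNReal.ofReal (‖V S‖ ^ 2) :=
    fun k => ((hVm k).norm.pow_const 2).ennreal_ofReal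
  have e2 : ENNReal.ofReal μ *
      ∫⁻ ω, M.gw I J (cfg ε ω) * ENNReal.ofReal (‖V (cfg ε ω)‖ ^ 2) ∂sampleLaw ≤
      ENNReal.ofReal X * ∫⁻ ω, M.gw I J (cfg ε ω) ∂sampleLaw := le_trans (by gcongr) h
  have t1 : ENNReal.ofReal X * ∫⁻ ω, M.gw I J (cfg ε ω) ∂sampleLaw ≠ ∞ :=
    ENNReal.mul_ne_top ENNReal.ofReal_ne_top (LimSx133.mass_ne_top M hN)
  have hμ' : ENNReal.ofReal μ ≠ 0 := (ENNReal.ofReal_pos.2 hμ).ne'
  have t2 : ∫⁻ ω, M.gw I J (cfg ε ω) * ENNReal.ofReal (‖V (cfg ε ω)‖ ^ 2) ∂sampleLaw ≠ ∞ := by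
    intro hcon
    rw [hcon, ENNReal.mul_top hμ'] at e2
    exact t1 (top_le_iff.1 e2)
  have mg : Measurable fun ω => M.gw I J (cfg ε ω) :=
    meas_fun M.eps (M.reg_meas I J) (M.reg_bdd I J) (M.gw_local hN) (M.gw_meas I J)
  have mv : Measurable fun ω => ENNReal.ofReal (‖V (cfg ε ω)‖ ^ 2) :=
    meas_fun M.eps hB hBb vl vm
  have hm' : AEMeasurable (fun ω => M.gw I J (cfg ε ω) * ENNReal.ofReal (‖V (cfg ε ω)‖ ^ 2))
    sampleLaw := (mg.mul mv).aemeasurable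
  have e3 : (fun ω => gR M I J (cfg ε ω) * ‖V (cfg ε ω)‖ ^ 2) = fun ω =>
      (M.gw I J (cfg ε ω) * ENNReal.ofReal (‖V (cfg ε ω)‖ ^ 2)).toReal := by
    funext ω
    rw [ENNReal.toReal_mul, ENNReal.toReal_ofReal (by positivity), gR_cfg M hN]
  rw [e3]
  refine ⟨integrable_toReal_of_lintegral_ne_top hm' t2, ?_⟩
  rw [integral_toReal hm' (ae_lt_top' hm' t2), int_gR M hN]
  have e4 := ENNReal.toReal_mono t1 e2
  rw [ENNReal.toReal_mul, ENNReal.toReal_mul, ENNReal.toReal_ofReal hX,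
    ENNReal.toReal_ofReal hμ.le] at e4
  rw [div_mul_eq_mul_div, le_div_iff₀ hμ]
  linarith

end real

/-! ### five tiles -/

section five

variable {M : ℕ} {W : ℤ → ℤ × ℤ} {A B h ε : ℝ} {Ty : Type*} {T : Tpl ε Ty} {tu : Ty → Tn}

theorem cen5 (P : FPath M W) (hh : 0 ≤ h) (a : ℤ) {j : ℕ} (hj : j < 5) :
    ‖cen h W (a + (j : ℤ)) - cen h W (a + 2)‖ ≤ 2 * h := by
  have key := fun b => (VTcx169.cen_dist P hh b).le
  have k' : ∀ b, ‖cen h W b - cen h W (b + 1)‖ ≤ h := fun b => by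
    rw [norm_sub_rev]; exact key b
  interval_cases j
  · have e : cen h W (a + ((0 : ℕ) : ℤ)) - cen h W (a + 2) =
        (cen h W a - cen h W (a + 1)) + (cen h W (a + 1) - cen h W (a + 1 + 1)) := by
      rw [show a + 1 + 1 = a + 2 by ring, Nat.cast_zero, add_zero]; ring
    rw [e]
    refine (norm_add_le _ _).trans ?_
    linarith [k' a, k' (a + 1)]
  · have e : cen h W (a + ((1 : ℕ) : ℤ)) - cen h W (a + 2) =
        cen h W (a + 1) - cen h W (a + 1 + 1) := by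
      rw [show a + 1 + 1 = a + 2 by ring, Nat.cast_one]
    rw [e]
    linarith [k' (a + 1)]
  · rw [show a + ((2 : ℕ) : ℤ) = a + 2 by push_cast; ring, sub_self, norm_zero]
    linarith
  · have e : cen h W (a + ((3 : ℕ) : ℤ)) - cen h W (a + 2) =
        cen h W (a + 2 + 1) - cen h W (a + 2) := by
      rw [show a + ((3 : ℕ) : ℤ) = a + 2 + 1 by push_cast; ring]
    rw [e]
    linarith [key (a + 2)]
  · have e : cen h W (a + ((4 : ℕ) : ℤ)) - cen h W (a + 2) =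
        (cen h W (a + 2 + 1 + 1) - cen h W (a + 2 + 1)) +
          (cen h W (a + 2 + 1) - cen h W (a + 2)) := by
      rw [show a + ((4 : ℕ) : ℤ) = a + 2 + 1 + 1 by push_cast; ring]; ring
    rw [e]
    refine (norm_add_le _ _).trans ?_
    linarith [key (a + 2), key (a + 2 + 1)]

/-- **the window of five tiles is in the ball of radius `3 h`** -/
theorem reg5 (P : FPath M W) (H : Std T A B h tu) {ty : ZMod M → Ty} (hty : Typ W tu ty)
    (hn : Pr M 5) (a : ℤ) {τ : ℕ → Ty} (hτ : ∀ j : ℕ, j < 5 → ty ((a + (j : ℤ) : ℤ) : ZMod M) = τ j) :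
    (PthFx765.win P H hty hn a hτ).reg ⊆ Metric.closedBall (cen h W (a + 2)) (3 * h) := by
  have hA := H.hA
  have hAB := H.hAB
  have h1 := H.hh
  have hh : 0 ≤ h := by linarith
  have key : ∀ j : ℕ, j < 5 → RR A B h W (a + (j : ℤ)) ⊆
      Metric.closedBall (cen h W (a + 2)) (3 * h) := by
    intro j hj s hs
    have h2 := (RegBx523.RR_ball P hs).le
    rw [max_eq_right hAB] at h2
    have h3 := cen5 P hh a hj
    rw [Metric.mem_closedBall, dist_eq_norm]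
    have e : s - cen h W (a + 2) = (s - cen h W (a + (j : ℤ))) +
        (cen h W (a + (j : ℤ)) - cen h W (a + 2)) := by ring
    rw [e]
    refine (norm_add_le _ _).trans ?_
    linarith
  refine (PthFx765.reg_sub P H hty hn a hτ).trans (union_subset ?_ ?_)
  · refine iUnion₂_subset fun j hj => ?_
    have hj' := Finset.mem_range.1 hj
    by_cases h5 : j < 5
    · exact (GB_sub P hA H.hB _).trans (key j h5)
    · have e : j = 4 + 1 := by omega
      subst e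
      have h4 := GB_sub' (h := h) P hA H.hB (a + ((4 : ℕ) : ℤ))
      rw [show a + ((4 : ℕ) : ℤ) + 1 = a + ((4 + 1 : ℕ) : ℤ) by push_cast; ring] at h4
      exact h4.trans (key 4 (by norm_num))
  · exact iUnion₂_subset fun j hj => key j (Finset.mem_range.1 hj)

end five

/-! ### the quenched input -/

/-- **the quenched input of a full tile** (490): the window of the five tiles `a, .., a + 4` of type
`(·, true)`, almost every environment without holes; lengths in units of `η` -/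
def QFD (ρ0 d0 : ℝ) : Prop :=
  ∀ {η ε : ℝ} {D : DT}, NumC D η → ∀ (hε : 0 < ε) {c : ℝ≥0∞} (c0 : c ≠ 0) (c1 : c ≤ 1)
    (H : Std (D.raw ε hε c c0 c1).tpl D.A' D.B' D.h Prod.fst), (D.raw ε hε c c0 c1).AePos →
    ∀ {M : ℕ} {W : ℤ → ℤ × ℤ} (P : FPath M W) {ty : ZMod M → Tn × Bool} (hty : Typ W Prod.fst ty)
      (hn : Pr M 5) (a : ℤ) {τ : ℕ → Tn × Bool}
      (hτ : ∀ j : ℕ, j < 5 → ty ((a + (j : ℤ) : ℤ) : ZMod M) = τ j), (∀ j < 5, (τ j).2 = true) →
    ∀ {B : Set ℂ}, MeasurableSet B → Bornology.IsBounded B →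
      Metric.closedBall (cen D.h W (a + 2)) (ρ0 * η + 3 * (d0 * η)) ⊆ B →
    ∀ᵐ ω ∂sampleLaw,
      Hol (Ap ε B ω : Set ℂ) (Metric.closedBall (cen D.h W (a + 2)) (ρ0 * η)) (d0 * η) →
      QF (Ap ε B ω) (TilePx176.win (pth P H ty hty).net (PthFx765.win P H hty hn a hτ).I
        (PthFx765.win P H hty hn a hτ).J)
        (fun X => ENNReal.ofReal (‖VT D P (η / 2) fP (a + 1) X‖ ^ 2)) (Rg D.h W (a + 2)) (d0 * η)

theorem card_sX {X : Cf} (hX : X.Finite) (U : Set ℂ) : (sX (X ∩ ovr U)).card = Nc U X := by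
  have h1 : (ps (X ∩ ovr U)).Finite := (hX.subset inter_subset_left).image _
  unfold Nc sX
  rw [dif_pos h1, Set.ncard_eq_toFinset_card _ h1]

/-- **one full tile**: the second moment, error `e(ε)` of the environments with holes -/
theorem tile_D : ∃ C : ℝ≥0∞, C ≠ ∞ ∧ ∀ {ρ0 d0 : ℝ}, 300 ≤ ρ0 → 0 < d0 → d0 ≤ 40 → QFD ρ0 d0 →
    ∀ {η ε : ℝ} {D : DT}, NumC D η → ∀ (hε : 0 < ε) {c : ℝ≥0∞} (c0 : c ≠ 0) (c1 : c ≤ 1)
    (H : Std (D.raw ε hε c c0 c1).tpl D.A' D.B' D.h Prod.fst), (D.raw ε hε c c0 c1).AePos →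
    ∀ {M : ℕ} {W : ℤ → ℤ × ℤ} (P : FPath M W) {ty : ZMod M → Tn × Bool} (hty : Typ W Prod.fst ty)
      (hn : Pr M 5) (a : ℤ) {τ : ℕ → Tn × Bool}
      (hτ : ∀ j : ℕ, j < 5 → ty ((a + (j : ℤ) : ℤ) : ZMod M) = τ j), (∀ j < 5, (τ j).2 = true) →
    ε ≤ 200 * η → ∀ {I J : Finset (ZMod M)}, (PthFx765.win P H hty hn a hτ).I ⊆ I →
      (PthFx765.win P H hty hn a hτ).J ⊆ J → (∀ k ∈ J, (pth P H ty hty).net.N k ⊆ I) →
    (c ^ 5 * (∫⁻ ω, D.wA (cfg ε ω) ∂sampleLaw) ^ 6) *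
        ∫⁻ ω, (pth P H ty hty).net.gw I J (cfg ε ω) *
          ENNReal.ofReal (‖VT D P (η / 2) fP (a + 1) (cfg ε ω)‖ ^ 2) ∂sampleLaw ≤
      (C * ENNReal.ofReal ((200 * η) ^ 2) + ENNReal.ofReal (9 * (656 * η) ^ 2) *
        ENNReal.ofReal (Ce (ρ0 * η) (d0 * η) * ε ^ 2)) *
        ∫⁻ ω, (pth P H ty hty).net.gw I J (cfg ε ω) ∂sampleLaw := by
  obtain ⟨C, hC, ht⟩ := tileH
  refine ⟨C, hC, ?_⟩
  intro ρ0 d0 hρ0 hd0 hd0' hQ η ε D Nm hε c c0 c1 H hP M W P ty hty hn a τ hτ hτ2 hεη I J hI hJ hN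
  have h0 := Nm.pos
  set w5 := PthFx765.win P H hty hn a hτ with hw5
  set V : Cf → ℂ := VT D P (η / 2) fP (a + 1) with hV
  set cc : ℂ := cen D.h W (a + 2) with hcc
  set B : Set ℂ := Metric.closedBall cc (ρ0 * η + 3 * (d0 * η)) with hB
  have hh : D.h = 100 * η := Nm.h
  have hB0 : MeasurableSet B := Metric.isClosed_closedBall.measurableSet
  have hBb : Bornology.IsBounded B := Metric.isBounded_closedBall
  have hd1 : 0 < d0 * η := mul_pos hd0 h0
  have hd2 : d0 * η ≤ 40 * η := by nlinarith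
  have hρ1 : 300 * η ≤ ρ0 * η := by nlinarith
  have hreg : w5.reg ⊆ B := by
    refine (reg5 P H hty hn a hτ).trans (Metric.closedBall_subset_closedBall ?_)
    rw [hh]; linarith
  -- the field is local in the window
  have h3 : reg3 D W (a + 1) ⊆ w5.reg := by
    intro s hs
    obtain ⟨j, hj, hs⟩ := mem_iUnion₂.1 hs
    have hj' := Finset.mem_range.1 hj
    have h4 := PthFx765.RR_reg P H hty hn a hτ (j := 1 + j) (by omega)
    refine h4 ?_
    rwa [show a + ((1 + j : ℕ) : ℤ) = a + 1 + (j : ℤ) by push_cast; ring]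
  have hVl : LocalOn w5.reg V := IndLocx279.LocalOn.mono h3 (VT_local3 D P (η / 2) fP (a + 1))
  have hVm : FinMeas V := VT_fm D P (η / 2) fP_meas (a + 1)
  have hFl : LocalOn w5.reg fun X => ENNReal.ofReal (‖V X‖ ^ 2) :=
    LocalOn.comp hVl fun v => ENNReal.ofReal (‖v‖ ^ 2)
  have hFm : FinMeas fun X => ENNReal.ofReal (‖V X‖ ^ 2) :=
    fun k => ((hVm k).norm.pow_const 2).ennreal_ofReal
  -- the crude bound
  have hcr : ∀ X : Cf, X.Finite → ENNReal.ofReal (‖V X‖ ^ 2) ≤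
      ENNReal.ofReal (9 * (656 * η) ^ 2) * (Nc (Metric.closedBall cc (ρ0 * η)) X : ℝ≥0∞) ^ 4 := by
    intro X hX
    have e1 : VTcx169.cR D = 656 * η :=
      VTcx169.cR_std D ⟨Nm.g, Nm.A, Nm.B, Nm.A', Nm.B', Nm.h⟩ h0.le
    have h5 := VTcx169.VT_crude D P (η / 2) (by rw [hh]; positivity) (by rw [Nm.A']; positivity)
      (a + 1) X
    rw [e1, card_sX hX] at h5
    have h6 : Nc (reg3 D W (a + 1)) X ≤ Nc (Metric.closedBall cc (ρ0 * η)) X := by
      refine Nc_mono (h3.trans ((reg5 P H hty hn a hτ).trans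
        (Metric.closedBall_subset_closedBall ?_))) ?_
      · rw [hh]; linarith
      · exact (hX.image _).subset inter_subset_left
    have h7 : ‖V X‖ ≤ 3 * (656 * η) * ((Nc (Metric.closedBall cc (ρ0 * η)) X : ℕ) : ℝ) ^ 2 := by
      refine h5.trans ?_
      have : ((Nc (reg3 D W (a + 1)) X : ℕ) : ℝ) ≤
          ((Nc (Metric.closedBall cc (ρ0 * η)) X : ℕ) : ℝ) := by exact_mod_cast h6
      gcongr
    have h8 : ‖V X‖ ^ 2 ≤ 9 * (656 * η) ^ 2 *
        ((Nc (Metric.closedBall cc (ρ0 * η)) X : ℕ) : ℝ) ^ 4 := by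
      calc ‖V X‖ ^ 2 ≤ (3 * (656 * η) *
            ((Nc (Metric.closedBall cc (ρ0 * η)) X : ℕ) : ℝ) ^ 2) ^ 2 :=
            pow_le_pow_left₀ (norm_nonneg _) h7 2
        _ = _ := by ring
    refine (ENNReal.ofReal_le_ofReal h8).trans (le_of_eq ?_)
    rw [ENNReal.ofReal_mul (by positivity), ENNReal.ofReal_pow (Nat.cast_nonneg _),
      ENNReal.ofReal_natCast]
  -- the region of the field
  have hD : ∀ o ∈ Rg D.h W (a + 2), Metric.closedBall o (d0 * η) ⊆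
      sq (cc - ⟨D.h, D.h⟩) (200 * η) ∩ B := by
    intro o ho s hs
    have h9 := WndIx416.Rg_Sqr P D.h (a + 2) ho
    rw [Metric.mem_closedBall] at hs
    refine ⟨?_, ?_⟩
    · have h10 := WndIx416.thick_sq (W := W) (ρ := D.h / 2) (h := D.h) le_rfl (a + 2)
      have e2 : 2 * D.h = 200 * η := by rw [hh]; ring
      rw [e2] at h10
      refine h10 (Metric.mem_thickening_iff.2 ⟨o, h9, ?_⟩)
      rw [hh]; linarith
    · rw [hB, Metric.mem_closedBall]
      have h11 := FineDx576.dist_le_of (r := D.h / 2) (s := o) (x := cc) h9.1 h9.2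
      have h12 := dist_triangle s o cc
      rw [hh] at h11
      linarith
  have key := ht (pth P H ty hty).net I w5.I J w5.J (s := 200 * η) hεη hI hJ hN w5.hN
    (cc - ⟨D.h, D.h⟩) (Rg D.h W (a + 2)) B (d0 * η) (SpRx169.Rg_meas _ _ _) hB0 hBb hreg hD
    (fun X => ENNReal.ofReal (‖V X‖ ^ 2)) hFl hFm cc (ρ0 * η) (d0 * η)
    (Metric.closedBall cc (ρ0 * η)) (ENNReal.ofReal (9 * (656 * η) ^ 2)) hd1 (by positivity)
    Subset.rfl Subset.rfl hcr (hQ Nm hε c0 c1 H hP P hty hn a hτ hτ2 hB0 hBb Subset.rfl)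
  have e3 : (pth P H ty hty).net.c ^ w5.J.card *
      ∏ i ∈ w5.I, ∫⁻ ω, (pth P H ty hty).net.a i (cfg ε ω) ∂sampleLaw =
      c ^ 5 * (∫⁻ ω, D.wA (cfg ε ω) ∂sampleLaw) ^ 6 := by
    rw [← (pth P H ty hty).net.mass w5.hN]
    exact w5.mass_eq
  rw [e3] at key
  exact key

/-! ### the field `mom` -/

/-- types of the five tiles round an out tile -/
theorem ty5 {M : ℕ} {W : ℤ → ℤ × ℤ} {Ac e : ℤ → ℤ} (P : FPath M W) {w : ZMod 3}
    (hM : nn Ac e w < M) {l : ℕ} (h1 : 2 ≤ l) (h2 : l + 2 < nn Ac e w) (j : ℕ) (hj : j < 5) :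
    cty M W Ac e w ((al Ac e w + l - 2 + (j : ℤ) : ℤ) : ZMod M) =
      (tn W (al Ac e w + l - 2 + (j : ℤ)), true) := by
  obtain ⟨k, rfl⟩ := Nat.exists_eq_add_of_le h1
  have e1 : al Ac e w + ((2 + k : ℕ) : ℤ) - 2 + (j : ℤ) = al Ac e w + ((k + j : ℕ) : ℤ) := by
    push_cast; ring
  rw [e1, cty_add P w (by omega), decide_eq_true (by omega)]

/-- **field `mom` of 609's `Op`** -/
theorem mom {Z : TData} (hp : PosP Z) (hA : ∀ N, ∀ᶠ ε : ℝ in 𝓝[>] 0, ∀ he : 0 < ε, (Z.raw N he).AePos)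
    {ρ0 d0 : ℝ} (hρ0 : 300 ≤ ρ0) (hd0 : 0 < d0) (hd0' : d0 ≤ 40) (hQ : QFD ρ0 d0) :
    ∃ C1 : ℝ, 0 ≤ C1 ∧ ∀ (u : Poly) (w : ZMod 3), Ev u fun N ε hn he => ∀ l ∈ Finset.range (nT u w N),
      Integrable (fun ω => gW Z u w hn he (cfg ε ω) * ‖VL Z fP u w ε hn l (cfg ε ω)‖ ^ 2)
        sampleLaw ∧
      ∫ ω, gW Z u w hn he (cfg ε ω) * ‖VL Z fP u w ε hn l (cfg ε ω)‖ ^ 2 ∂sampleLaw ≤
        (C1 * hN N) ^ 2 * g0 Z u w hn he := by
  obtain ⟨C, hC, ht⟩ := tile_D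
  obtain ⟨cc, hcc, c0, hc0, hp⟩ := hp
  set μ : ℝ := cc ^ 5 * c0 ^ 6 with hμd
  have hμ : 0 < μ := by positivity
  refine ⟨√((4 * C.toReal + 1) / μ), Real.sqrt_nonneg _, ?_⟩
  intro u w
  refine Eventually.of_forall fun N => ?_
  have hη := et_pos N
  have hh := hN_pos N
  -- the error of the holes
  have hlim : Tendsto (fun ε : ℝ => 9 * (656 * et N) ^ 2 * (Ce (ρ0 * et N) (d0 * et N) * ε ^ 2))
      (𝓝[>] 0) (𝓝 0) := by
    have h1 : Tendsto (fun ε : ℝ => 9 * (656 * et N) ^ 2 * (Ce (ρ0 * et N) (d0 * et N) * ε ^ 2))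
        (𝓝 0) (𝓝 (9 * (656 * et N) ^ 2 * (Ce (ρ0 * et N) (d0 * et N) * (0 : ℝ) ^ 2))) := by
      have : Continuous fun ε : ℝ =>
          9 * (656 * et N) ^ 2 * (Ce (ρ0 * et N) (d0 * et N) * ε ^ 2) := by fun_prop
      exact this.tendsto 0
    have h2 : 9 * (656 * et N) ^ 2 * (Ce (ρ0 * et N) (d0 * et N) * (0 : ℝ) ^ 2) = 0 := by ring
    rw [h2] at h1
    exact h1.mono_left nhdsWithin_le_nhds
  filter_upwards [hp N, hA N, hlim.eventually (gt_mem_nhds (pow_pos hh 2)),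
    (tendsto_id.mono_left nhdsWithin_le_nhds : Tendsto (fun ε : ℝ => ε) (𝓝[>] 0) (𝓝 0)).eventually
      (gt_mem_nhds (show (0 : ℝ) < 200 * et N by positivity))] with ε h1 h2 h3 h4 hn he l hl
  obtain ⟨h5, h6⟩ := h1 he
  have hM : nT u w N < (ly u N).M := by
    have := (ly_spec hn).lay.nn_lt w
    unfold nT
    omega
  have hM5 : Pr (ly u N).M 5 := Or.inr (by
    have := (ly_spec hn).lay.M_pos
    omega)
  have hne := neM hn
  have hNu := hNu Z (w := w) hn he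
  have hX0 : 0 ≤ (4 * C.toReal + 1) * hN N ^ 2 := by positivity
  have hCW := (net Z u w hn he).reg_meas (uM hn) (uM hn)
  have hCb := (net Z u w hn he).reg_bdd (uM hn) (uM hn)
  have hK : (4 * C.toReal + 1) * hN N ^ 2 / μ = (√((4 * C.toReal + 1) / μ) * hN N) ^ 2 := by
    rw [mul_pow, Real.sq_sqrt (by positivity)]
    ring
  rw [← hK]
  refine real_of (net Z u w hn he) hNu hCW hCb (VL_local Z hn he l) (VL_fm Z fP_meas hn l)
    (m0 := Z.c N ε ^ 5 * (∫⁻ ω, (Z.D N ε).wA (cfg ε ω) ∂sampleLaw) ^ 6) hμ ?_ hX0 ?_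
  · rw [hμd, ENNReal.ofReal_mul (by positivity), ENNReal.ofReal_pow hcc.le,
      ENNReal.ofReal_pow hc0.le]
    exact mul_le_mul' (pow_le_pow_left' h5 5) (pow_le_pow_left' h6 6)
  by_cases hl2 : 2 ≤ l ∧ l + 2 < nT u w N
  · have key := ht hρ0 hd0 hd0' hQ (Z.num N ε) he (Z.c0 N ε) (Z.c1 N ε) (Z.std N he) (h2 he)
      (fp hn) (cty_typ w) hM5 (al (ly u N).A (ly u N).e w + l - 2)
      (ty5 (fp hn) hM hl2.1 hl2.2) (fun _ _ => rfl) h4.le (I := uM hn) (J := uM hn)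
      (Finset.subset_univ _) (Finset.subset_univ _) hNu
    have e1 : al (ly u N).A (ly u N).e w + (l : ℤ) - 2 + 1 = al (ly u N).A (ly u N).e w + l - 1 := by
      ring
    rw [e1] at key
    have e2 : VL Z fP u w ε hn l = VT (Z.D N ε) (fp hn) (et N / 2) fP
        (al (ly u N).A (ly u N).e w + l - 1) := by
      funext X
      exact if_pos hl2
    rw [e2]
    refine key.trans (mul_le_mul_left ?_ _)
    have e3 : (200 * et N) ^ 2 = 4 * hN N ^ 2 := by
      rw [← et_h]; ring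
    rw [e3, ← ENNReal.ofReal_mul (by positivity), ← ENNReal.ofReal_toReal hC,
      ← ENNReal.ofReal_mul ENNReal.toReal_nonneg, ← ENNReal.ofReal_add (by positivity)
        (mul_nonneg (by positivity) (mul_nonneg (Ce_nonneg _ _) (sq_nonneg _)))]
    refine ENNReal.ofReal_le_ofReal ?_
    rw [ENNReal.toReal_ofReal ENNReal.toReal_nonneg]
    linarith
  · have e2 : VL Z fP u w ε hn l = fun _ => 0 := by
      funext X
      exact if_neg hl2
    rw [e2]
    simp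

end Crest.Agent.R143.MomIx854
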