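import Crest.Agent.R143.FinK_894
import Crest.Agent.R143.MomI_854

/-!
# Row 143 (S0194): second moments at the concrete template (helper894)

* `aeZ` : almost sure positivity of the template; **`momZ_of : QFD 1000 (1 / 100) → MomZ`** (854)
-/

set_option autoImplicit false

noncomputable section

open scoped Classical

namespace Crest.Agent.R143.FinLx894

open MeasureTheory Set Filter Topology
open Crest.ProbabilityR.Voronoi
open Crest.Agent.R143.Finx894 Crest.Agent.R143.FinJx894 Crest.Agent.R143.FinKx894
open Crest.Agent.R143.MomIx854 (QFD)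

/-- almost sure positivity of the template -/
theorem aeZ (N : ℕ) : ∀ᶠ ε : ℝ in 𝓝[>] 0, ∀ he : 0 < ε, (Z.raw N he).AePos :=
  TDatx204.ae_of TQx73.tq N

/-- **(I) from the quenched bound of a full tile** -/
theorem momZ_of (h : QFD 1000 (1 / 100)) : MomZ := by
  obtain ⟨C1, h1, h2⟩ := MomIx854.mom posZ aeZ (ρ0 := 1000) (d0 := 1 / 100) (by norm_num)
    (by norm_num) (by norm_num) h
  exact fun u w => ⟨C1, h1, h2 u w⟩

/-- **the row** -/
theorem leaf_q (h : QFD 1000 (1 / 100)) (he : EnvZ) : Leaf894 := leaf_fin (momZ_of h) he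

end Crest.Agent.R143.FinLx894
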