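import Crest.Agent.R143.PLK_228
import Crest.Agent.R143.QuenJ_597

/-!
# Row 143 (S0194), RIG box Q2: the tiles of the concrete corridor (helper228)

Objects of 609's `RigZd_609`, one environment with 597's `Sx`.

* `qx_UU` : the balls round 169's regions are in `UU u`
* `gw_pos` : `net.gw ≠ 0` and 609's `gW`
* **`Cur`** : the only hypothesis: LOCX (`LXW`) for the strand of every good colouring, every tile
* **`tileI_of`** : 597's `TileI` for every tile
-/

set_option autoImplicit false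
set_option linter.unusedSectionVars false
set_option linter.style.haveILetI false

noncomputable section

open scoped Classical

namespace Crest.Agent.R143.PLLx228

open Crest.ProbabilityR.Voronoi
open Crest.Agent.R143.B0x346 Crest.Agent.R143.DelGx806 Crest.Agent.R143.DelRx806
open Crest.Agent.R143.FinCx811 Crest.Agent.R143.Resax778 Crest.Agent.R143.SmallAx304
open Crest.Agent.R143.Frame8x395 hiding cfg
open Crest.Agent.R143.Frame10x395
open Crest.Agent.R143.PP0x831 Crest.Agent.R143.PWx978 Crest.Agent.R143.Tplx978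
open Crest.Agent.R143.PolyUx346 (Poly)
open Crest.Agent.R143.CorEx133
open Crest.Agent.R143.RcTx422 (Hc RC Hc_eq)
open Crest.Agent.R143.RigPx854 (ly ly_spec mN mN_hN mN_10 hN hN_pos nT)
open Crest.Agent.R143.RigZdx609 Crest.Agent.R143.LayUx416 Crest.Agent.R143.Layx416
open Crest.Agent.R143.TileRx228
open Crest.Agent.R143.CorHx713 (CorH xx yy)
open Crest.Agent.R143.CorrIx831 (Ft tlt Rws SDS)
open Crest.Agent.R143.SpRx169 (QX)
open Crest.Agent.R143.ColXx829 (Xc)
open Crest.Agent.R143.Uniqx323 (Zn)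
open Crest.Agent.R143.ZnQx323 (T₁ env_of ht_env)
open Crest.Agent.R143.WndGx416 (wa wb col4 coln4)
open Crest.Agent.R143.QuenIx597
open Crest.Agent.R143.RigQx377 (I1 J1 DZ pZ qZ)
open Crest.Agent.R143.PLJx228 Crest.Agent.R143.PLKx228
open Crest.Agent.R143.HqPx304

variable {N : ℕ} {ε : ℝ} {u : Poly} {w : ZMod 3} {Z : TData} {hN : u.n + 4 ≤ N} {hε : 0 < ε}
  {ω : Sample} {hS : GP (SU u ε ω : Set ℂ)} {h3 : 3 ≤ (SU u ε ω).card} {h₀ : Cs hS}
  {R : Set (Cs hS)} {Zz : Zn (rc0 hS)} {K1 c2 ρ0 : ℝ}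

/-- the balls round 169's regions are in `UU u` -/
theorem qx_UU (hN : u.n + 4 ≤ N) (w : ZMod 3) {k : ℕ} (hk : k < nT u w N) {z : ℂ}
    (hz : z ∈ QX (100 * et N) (ly u N).W (oT u w N) (nT u w N) k) {v : ℂ}
    (hv : ‖v - z‖ ≤ et N) : v ∈ UU u := by
  refine dz_near (u := u) (w := w) hN (l := nT u w N - 1 - k) (z := z) ?_ hv
  unfold DZ
  rw [show nT u w N - 1 - (nT u w N - 1 - k) = k by omega, ← et_h]
  exact hz

/-- the weight of the net and 609's `gW` -/
theorem gw_pos {X : Set (ℂ × Bool)} (hX : X.Finite) :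
    0 < gW Z u w hN hε X ↔ (net Z u w hN hε).gw (uM hN) (uM hN) X ≠ 0 :=
  LimSx133.gR_pos (net Z u w hN hε) (hNu Z hN hε) hX

/-- `OneI` : 228's `One` for the concrete objects -/
abbrev OneI (w : ZMod 3) (N : ℕ) (hS : GP (SU u ε ω : Set ℂ))
    (h3 : 3 ≤ (SU u ε ω).card) (R : Set (Cs hS)) (Zz : Zn (rc0 hS)) (s : Cs hS → ZMod 2)
    (p : ℕ → D0 (SU u ε ω)) (q : D0 (SU u ε ω)) (k : ℕ) (T : ℕ → ℕ) : Prop :=
  One hS h3 (UU u) (ly u N).M (ly u N).W (et N) √ε (oT u w N) (nT u w N) (Hc hS) R (Qs w N) Zz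
    s p q k T

/-- **the only hypothesis**: LOCX for the strand of every good colouring, window of every tile -/
def CurI (w : ZMod 3) (Z : TData) (hN : u.n + 4 ≤ N) (hε : 0 < ε) (hS : GP (SU u ε ω : Set ℂ))
    (h3 : 3 ≤ (SU u ε ω).card) (R : Set (Cs hS)) (Zz : Zn (rc0 hS)) : Prop :=
  ∀ s, 0 < gW Z u w hN hε (Xc hS h3 s) → ∀ p q k T, OneI w N hS h3 R Zz s p q k T →
    ∀ j < nT u w N,
      LXW hS R (RC hS (T₁ (et N) (ly u N).W
          (oT u w N + wa (ly u N).A (ly u N).W (oT u w N) (nT u w N) (ly u N).M j)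
          (oT u w N + wb (ly u N).A (ly u N).W (oT u w N) (nT u w N) (ly u N).M j + 1)))
        (QuYx810.Lc hS h3 ((net Z u w hN hε).reg
          (uM hN \ Iw (ly u N).M
            (oT u w N + wa (ly u N).A (ly u N).W (oT u w N) (nT u w N) (ly u N).M j - 5)
            (oT u w N + wb (ly u N).A (ly u N).W (oT u w N) (nT u w N) (ly u N).M j + 5))
          (uM hN \ Jw (ly u N).M
            (oT u w N + wa (ly u N).A (ly u N).W (oT u w N) (nT u w N) (ly u N).M j - 5)
            (oT u w N + wb (ly u N).A (ly u N).W (oT u w N) (nT u w N) (ly u N).M j + 5))))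
        s q (T (nT u w N))

/-- **597's `TileI`, all tiles** -/
theorem tileI_of (X : Sx w Z hN hε hS h3 h₀ R Zz) (C : CorEnv u ε √ε K1 c2 ρ0 ω)
    (hd : 100 * √ε ≤ et N) (hm : 40 ≤ mN u N)
    (hR : R = RC hS (Rws (et N) (ly u N).W (oT u w N) (nT u w N) (ly u N).M))
    (hc : CurI w Z hN hε hS h3 R Zz) :
    ∀ l < nT u w N, TileI w Z hN hε hS h3 h₀ R Zz l := by
  have e0 := et_pos N
  have L := ly_spec hN
  have hh := mh hN
  have hs := Real.sqrt_nonneg ε
  have num := Z.num N ε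
  obtain ⟨x, hx, hxe⟩ := X.h0
  have E := env_of C L hh hd
  have eH := Hc_eq X.h0
  have hn16 : 16 ≤ nT u w N := by
    have hr1 := L.lay.rr_pos w
    have hr2 := L.lay.rr_lt w
    show 16 ≤ nn (ly u N).A (ly u N).e w
    omega
  have hm' : (40 : ℤ) ≤ (mN u N : ℕ) := by exact_mod_cast hm
  intro l hl
  obtain ⟨κ, fκ, Z', T', P⟩ := hP_of (hS := hS) (h3 := h3) (U := UU u) (h₀ := x) (Q := Qs w N)
    (Z₀ := Zz) (m' := nT u w N)
    (w := Coarse2x166.zs (rc0 hS) om (C2SDx395.zc hS id)) L.lay hm' w E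
    (Z.std N hε) num.A' num.B' num.h (uM hN) (uM hN) hx
    (o := oT u w N) (n := nT u w N) rfl rfl
    (fun s hs => by
      have hs' : 0 < gW Z u w hN hε (Xc hS h3 s) := (gw_pos ColXx829.fin_Xc).2 hs
      obtain ⟨p, q, k, T, h1, h2, h4⟩ := X.out s hs'
      refine ⟨p, q, k, T, X.cor s hs', h1, h2, ?_⟩
      have := h4.1
      rw [← hR, eH]
      exact this)
    (fun s hs p q k T O j hj => by
      rw [← hR] at O ⊢
      exact hc s ((gw_pos ColXx829.fin_Xc).2 hs) p q k T O j hj)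
    (fun g J hg hJ => by
      rcases hg with rfl | rfl
      · obtain ⟨k, k1, k2⟩ := col4 L.lay hm' w
        exact ht_env C L hh hd (by push_cast; exact k1) (by push_cast; exact k2) hJ hx
      · obtain ⟨k, k1, k2⟩ := coln4 L.lay hm' w
        have e : ((nT u w N - 4 : ℕ) : ℤ) = (nT u w N : ℤ) - 4 := by omega
        rw [e] at hJ ⊢
        refine ht_env C L hh hd (k := k) ?_ ?_ hJ hx
        · show (ly u N).A k + 4 ≤ al (ly u N).A (ly u N).e w +
            ((nn (ly u N).A (ly u N).e w : ℤ) - 4)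
          omega
        · show al (ly u N).A (ly u N).e w + ((nn (ly u N).A (ly u N).e w : ℤ) - 4) + 4 ≤
            (ly u N).A (k + 1)
          omega)
    (fun k hk => C.hol.mono fun z hz => qx_UU hN w hk hz (v := z) (by simp [e0.le]))
    (fun k hk z hz v hv => C.inn (qx_UU hN w hk hz (by linarith))) l hl
  rw [← hR, eH] at P
  exact ⟨κ, fκ, Z', T', P.two, P.fix, P.sup, P.sb⟩

end Crest.Agent.R143.PLLx228
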