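import Crest.Agent.R143.Spt_832
import Crest.Agent.R143.SpR2_169

/-!
# Row 143 (S0194), RIG, full tiles: the faces of a window of five tiles (helper683; for 490's `TileZ`)

`P : FPath M W`, `M = 0` or `5 < M`, tiles `o .. o + 4`, `Hol S (closedBall (cen (o + 2)) 1000 η) d`:
* `del_rad` : a face with a vertex in a hole free region has radius `< d`
* `rr_ball` : the five tiles are inside the ball
* **`hfar_std`** : the faces of the tiles `o`, `o + 4` have their centre off the region of `o + 2`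
* **`hrad_std`** : the faces of the five tiles have radius at most `d`
-/

set_option autoImplicit false

noncomputable section

open scoped Classical

namespace Crest.Agent.R143.TileUx683

open Set
open Crest.Agent.R143.B0x346 Crest.Agent.R143.DelGx806 Crest.Agent.R143.DelRx806
open Crest.Agent.R143.Locx922
open Crest.Agent.R143.Gatex838 (X Y)
open Crest.Agent.R143.FinMx609 (cen3 rad3 cen3_iff)
open Crest.Agent.R143.TileRx228 Crest.Agent.R143.SpRx169

variable {S : Finset ℂ} {V : Set ℂ} {M : ℕ} {W : ℤ → ℤ × ℤ} {η d h A B : ℝ} {a b c : ℂ}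

/-- a face with a vertex in a hole free region is small -/
theorem del_rad (hd : 0 < d) (hH : Hol (S : Set ℂ) V d) (ha : a ∈ V) (h : (a, b, c) ∈ delT S) :
    rad3 (a, b, c) < d := by
  have h1 : Del (S : Set ℂ) a b c := (Finset.mem_filter.1 h).2
  obtain ⟨o, h2, h3, -, -, h4, -⟩ := del_small hd hH ha (inD_self a b c) h1
  have h5 : o = cen3 (a, b, c) := (cen3_iff h1.2.2.2.1).1 ⟨h2, h3⟩
  show ‖a - cen3 (a, b, c)‖ < d
  rw [← h5]
  exact h4

theorem cen_steps (P : FPath M W) (hh : 0 ≤ h) (a : ℤ) (j : ℕ) :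
    ‖cen h W (a + j) - cen h W a‖ ≤ j * h := by
  induction j with
  | zero => simp
  | succ j ih =>
    have e : a + ((j + 1 : ℕ) : ℤ) = a + j + 1 := by push_cast; ring
    rw [e]
    have h1 : ‖cen h W (a + j + 1) - cen h W (a + j)‖ ≤ h := by
      obtain ⟨e1, e2⟩ := cen_sub h W (a + j) (a + j + 1)
      refine (Complex.norm_le_abs_re_add_abs_im _).trans ?_
      rw [e1, e2, abs_mul, abs_mul, abs_of_nonneg hh]
      have hs := P.step (a + j)
      have h3 : |(((W (a + j + 1)).1 - (W (a + j)).1 : ℤ) : ℝ)| +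
          |(((W (a + j + 1)).2 - (W (a + j)).2 : ℤ) : ℝ)| = 1 := by
        rcases hs with hs | hs | hs | hs
        all_goals
          have f1 := congrArg Prod.fst hs
          have f2 := congrArg Prod.snd hs
          simp only [Prod.fst_sub, Prod.snd_sub] at f1 f2
          rw [f1, f2]
          norm_num
      calc h * |(((W (a + j + 1)).1 - (W (a + j)).1 : ℤ) : ℝ)| +
            h * |(((W (a + j + 1)).2 - (W (a + j)).2 : ℤ) : ℝ)| = h * 1 := by rw [← h3]; ring
        _ ≤ h := by rw [mul_one]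
    calc ‖cen h W (a + j + 1) - cen h W a‖
        = ‖(cen h W (a + j + 1) - cen h W (a + j)) + (cen h W (a + j) - cen h W a)‖ := by
          ring_nf
      _ ≤ h + j * h := (norm_add_le _ _).trans (add_le_add h1 ih)
      _ = ((j + 1 : ℕ) : ℝ) * h := by push_cast; ring

/-- a tile is near its vertex -/
theorem rr_cen (P : FPath M W) (hAB : A ≤ B) {s : ℂ} {a : ℤ} (hs : s ∈ RR A B h W a) :
    ‖s - cen h W a‖ ≤ 2 * B := by
  have key : ∀ u : ℤ × ℤ, U4 u → s ∈ Arm A B (cen h W a) (cz u) → ‖s - cen h W a‖ ≤ 2 * B := by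
    intro u hu h1
    obtain ⟨⟨h2, h3⟩, h4⟩ := h1
    rw [X_cz hu] at h2 h3
    rw [Y_cz hu, abs_lt] at h4
    obtain ⟨h4, h5⟩ := h4
    refine (Complex.norm_le_abs_re_add_abs_im _).trans ?_
    rcases hu with rfl | rfl | rfl | rfl
    all_goals
      simp only [Int.cast_neg, Int.cast_one, Int.cast_zero, neg_mul, one_mul, zero_mul, zero_add,
        add_zero, sub_zero, zero_sub, neg_neg] at h2 h3 h4 h5
      have g1 : |(s - cen h W a).re| ≤ B := abs_le.2 ⟨by linarith, by linarith⟩
      have g2 : |(s - cen h W a).im| ≤ B := abs_le.2 ⟨by linarith, by linarith⟩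
      linarith
  rcases hs with hs | hs
  · exact key _ (P.step' a) hs
  · exact key _ (P.step a) hs

/-- the five tiles are inside the ball -/
theorem rr_ball (P : FPath M W) (hη : 0 < η) {A B : ℝ} (hAB : A ≤ B) (hB : B ≤ 100 * η) (o : ℤ)
    {k : ℕ} (hk : k < 5) {s : ℂ} (hs : s ∈ RR A B (100 * η) W (o + k)) :
    s ∈ Metric.closedBall (cen (100 * η) W (o + 2)) (1000 * η) := by
  have h1 := rr_cen P hAB hs
  have h2 : ‖cen (100 * η) W (o + k) - cen (100 * η) W (o + 2)‖ ≤ 2 * (100 * η) := by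
    rcases le_or_gt k 2 with hk2 | hk2
    · have := cen_steps P (h := 100 * η) (by positivity) (o + k) (2 - k)
      have e : o + (k : ℤ) + ((2 - k : ℕ) : ℤ) = o + 2 := by
        rw [Nat.cast_sub hk2]; push_cast; ring
      rw [e, norm_sub_rev] at this
      refine this.trans ?_
      have h3 : ((2 - k : ℕ) : ℝ) ≤ 2 := by exact_mod_cast Nat.sub_le 2 k
      exact mul_le_mul_of_nonneg_right h3 (by positivity)
    · have := cen_steps P (h := 100 * η) (by positivity) (o + 2) (k - 2)
      have e : o + 2 + ((k - 2 : ℕ) : ℤ) = o + k := by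
        rw [Nat.cast_sub hk2.le]; push_cast; ring
      rw [e] at this
      refine this.trans ?_
      have h3 : ((k - 2 : ℕ) : ℝ) ≤ 2 := by exact_mod_cast (by omega : k - 2 ≤ 2)
      exact mul_le_mul_of_nonneg_right h3 (by positivity)
  rw [Metric.mem_closedBall, dist_eq_norm]
  calc ‖s - cen (100 * η) W (o + 2)‖
      = ‖(s - cen (100 * η) W (o + k)) + (cen (100 * η) W (o + k) - cen (100 * η) W (o + 2))‖ := by
        ring_nf
    _ ≤ 2 * B + 2 * (100 * η) := (norm_add_le _ _).trans (add_le_add h1 h2)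
    _ ≤ 1000 * η := by linarith

/-- **(G5)** the faces of the five tiles are small -/
theorem hrad_std (hη : 0 < η) (hd : 0 < d) (P : FPath M W) {o : ℤ}
    (hH : Hol (S : Set ℂ) (Metric.closedBall (cen (100 * η) W (o + 2)) (1000 * η)) d) :
    ∀ k : ℕ, k < 5 → ∀ a b c, (a, b, c) ∈ delT S →
      a ∈ RR (9 * η + η / 2) (51 * η + η / 2) (100 * η) W (o + k) →
      b ∈ RR (9 * η + η / 2) (51 * η + η / 2) (100 * η) W (o + k) → rad3 (a, b, c) ≤ d :=
  fun k hk a b c h ha _ =>
    (del_rad hd hH (rr_ball P hη (by linarith) (by linarith) o hk ha) h).le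

/-- **(G4)** the faces of the two outer tiles have their centre off the region of the middle tile -/
theorem hfar_std (hη : 0 < η) (hd : 0 < d) (hdη : 100 * d ≤ η) (P : FPath M W)
    (hM : M = 0 ∨ 5 < M) {o : ℤ}
    (hH : Hol (S : Set ℂ) (Metric.closedBall (cen (100 * η) W (o + 2)) (1000 * η)) d) :
    ∀ k : ℕ, k = 0 ∨ k = 4 → ∀ a b c, (a, b, c) ∈ delT S →
      a ∈ RR (9 * η + η / 2) (51 * η + η / 2) (100 * η) W (o + k) →
      b ∈ RR (9 * η + η / 2) (51 * η + η / 2) (100 * η) W (o + k) →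
      cen3 (a, b, c) ∉ Rg (100 * η) W (o + 2) := by
  intro k hk a b c h ha hb hc
  have hk5 : k < 5 := by omega
  have h1 := hrad_std hη hd P hH k hk5 a b c h ha hb
  have h2 : ‖cen3 (a, b, c) - a‖ ≤ d := by
    rw [norm_sub_rev]
    exact h1
  have h3 : cen3 (a, b, c) ∈ Rg (100 * η) W (o + ((2 : ℕ) : ℤ)) := by
    push_cast
    exact hc
  have h4 := corr_near P (h := 100 * η) (by positivity) o hd.le (A := 9 * η + η / 2)
    (B := 51 * η + η / 2) (by positivity) (by linarith) (by linarith) (n := 5) (k := k) (l := 2)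
    (by omega) hk5 (by norm_num) ha h2 h3
  omega

end Crest.Agent.R143.TileUx683
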