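import Crest.Agent.R143.TileW_490
import Crest.Agent.R143.Eng_490
import Crest.Agent.R143.RcT_422
import Crest.Agent.R143.DCorF_713
import Crest.Agent.R143.Spt_832
import Crest.Agent.R143.ColX_829

/-!
# Row 143 (S0194), RIG, R6 full tiles: the instance on `cm0 hS` (helper683; 490, 176)

* `gen_restr`, `linksO_restr`, `corr_restr` : 117's corridor on `restr M`
* `dcorr_le` : 490's `corr_le` for 117's `DCorr` : the charge of the inner tiles `1 .. n - 2` squared is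
  at most the sum of the squares of the block sums of the window map
* `aD D d` : the field of 176's `QF`: `Nn` on the faces with centre in `D`, radius at most `d`
* **`dc_le`** : five tiles (a `DCorr` of a configuration `X`), the spatial charge `VX Nn 5 .. 2 X` of the
  middle tile: the last clause of 176's `QF`; **`evp_le`** : from 503's `Evp`, generic gates `LG (G a) (Q a)`
* `vx_eq` : `VX .. n .. l` of a longer corridor is the `VX .. 5 .. 2` of its window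
* `paint_eq` (490's `paint S (bk hS h3 σ)` = 829's `Xc hS h3 σ`), `sX_paint`, `cX_paint`, `hullC_paint`
-/

set_option autoImplicit false
set_option linter.unusedSectionVars false

noncomputable section

open scoped Classical

namespace Crest.Agent.R143.TileXx683

open Set
open Crest.Agent.R143.B0x346 Crest.Agent.R143.DelGx806 Crest.Agent.R143.DelRx806
  Crest.Agent.R143.JColx54
open Crest.Agent.R143.Frame1x395 Crest.Agent.R143.Frame2x395 Crest.Agent.R143.Frame3x395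
  Crest.Agent.R143.Frame4x395 Crest.Agent.R143.Frame8x395 Crest.Agent.R143.Frame9x395
  Crest.Agent.R143.Frame10x395 Crest.Agent.R143.Frame11x395
open Crest.Agent.R143.Frame5x395 (sd mem_sd th th_spec)
open Crest.Agent.R143.Coarsex166
open Crest.Agent.R143.Splx117 Crest.Agent.R143.WLocx713
open Crest.Agent.R143.RingDx117 (RD)
open Crest.Agent.R143.CorrDx117 (DCorr)
open Crest.Agent.R143.Mass3x302 (restr)
open Crest.Agent.R143.Mass1x302 (T3 Nn)
open Crest.Agent.R143.TileMx683 (piT bl)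
open Crest.Agent.R143.FinMx609 (cen3 rad3)
open Crest.Agent.R143.FinCx811 (Cs cs cell_mem)
open Crest.Agent.R143.Engx490 (fc tt nn cen3_tt rad3_tt cen_rho rad_rho bk mem_bk)
open Crest.Agent.R143.Sptx832 (fQ VX zz_zC0)
open Crest.Agent.R143.Sptx169 (Near mem_near)
open Crest.Agent.R143.RcTx422 (zz_restr fa_restr)

/-! ### 117's corridor on the map with finitely many cells -/

section restr

variable {D C : Type} {M : CMap D C} {x : D → ZMod 2} {n : ℕ} {p : ℕ → D} {R : ℕ → Set D}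

theorem gen_restr {c : Set.range M.cell} (h : Gen M c.1) : Gen (restr M) c where
  lv := fun a ha => h.lv a (congrArg Subtype.val ha)
  orb := fun a b ha hb => h.orb a b (congrArg Subtype.val ha) (congrArg Subtype.val hb)
  ne := fun a ha e => h.ne a (congrArg Subtype.val ha) (congrArg Subtype.val e)

theorem cona_restr {c a b : Set.range M.cell} (h : ConA M x c.1 a.1 b.1) :
    ConA (restr M) x c a b := by
  obtain ⟨h1, h2, h3⟩ := h
  refine ⟨fun e => h1 (congrArg Subtype.val e), fun e => h2 (congrArg Subtype.val e), ?_⟩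
  clear h1 h2
  obtain ⟨b, hb⟩ := b
  simp only at h3
  revert hb
  induction h3 with
  | refl => intro hb; exact .refl
  | @tail u v _ h5 ih =>
    intro hb
    obtain ⟨h6, h7, d, hd, h8⟩ := h5
    have hu : u ∈ Set.range M.cell := by
      rcases h8 with ⟨e1, -⟩ | ⟨-, e1⟩
      · exact ⟨_, e1⟩
      · exact ⟨_, e1⟩
    refine (ih hu).tail ⟨fun e => h6 (congrArg Subtype.val e), fun e => h7 (congrArg Subtype.val e),
      d, hd, ?_⟩
    rcases h8 with ⟨e1, e2⟩ | ⟨e1, e2⟩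
    · exact Or.inl ⟨Subtype.ext e1, Subtype.ext e2⟩
    · exact Or.inr ⟨Subtype.ext e1, Subtype.ext e2⟩

theorem linksO_restr (h : LinksO M x n p) : LinksO (restr M) x n p := by
  intro k k' c h1 h2
  rcases h k k' c.1 h1 h2 with ⟨h3, h4⟩ | h3 | h3
  · exact Or.inl ⟨h3, Subtype.ext h4⟩
  · exact Or.inr (Or.inl (cona_restr h3))
  · exact Or.inr (Or.inr (cona_restr h3))

theorem corr_restr (h : Corr M x n p R) : Corr (restr M) x n p R where
  even := Mass3x302.isC_restr.2 h.even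
  n1 := h.n1
  occ := h.occ
  ne := h.ne
  far := h.far
  arc := h.arc

end restr

/-! ### corridors on `cm0 hS` -/

section dc

variable {S : Finset ℂ} {χ : ℂ → ZMod 2} {hS : GP (S : Set ℂ)} {hχ : HullC S χ} {n : ℕ}
  {y z : ℕ → ℂ} {A B : ℕ → Set ℂ} {p : ℕ → D0 S}

/-- the colouring of the finitely many cells -/
def fcol (hS : GP (S : Set ℂ)) (hχ : HullC S χ) (c : Cs hS) : ZMod 2 := lift S hχ c.1

theorem cfg_fcol (hS : GP (S : Set ℂ)) (hχ : HullC S χ) :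
    cfg (restr (cm0 hS)) (fcol hS hχ) = xc hS hχ := rfl

/-- **490's bound for an open corridor of `cm0 hS`** -/
theorem dcorr_le (R : DCorr hS hχ n y z A B p) (n3 : 3 ≤ n)
    {T : Finset (Cs hS)} (hT : ClsCon (restr (cm0 hS)) (piT T))
    (hy : ∀ k, k ≤ n → χ (y k) = 1)
    (hin : ∀ k, 1 ≤ k → k + 1 < n → ∀ d ∈ RD S (B k), ((restr (cm0 hS)).cell d : Cs hS) ∈ T ∧
      ((restr (cm0 hS)).cell ((restr (cm0 hS)).rho d) : Cs hS) ∈ T)
    (h0 : ((restr (cm0 hS)).cell (p 0) : Cs hS) ∉ T)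
    (hn : ((restr (cm0 hS)).cell (p n) : Cs hS) ∉ T) {a : D0 S → ℂ}
    (hw : ∀ k, k = 0 ∨ k + 1 = n → ∀ d ∈ RD S (B k), ∀ e ∈ Fa (cm0 hS) d, a e = 0) :
    ‖∑ k ∈ Finset.Ico 1 (n - 1), ZZ (cm0 hS) (xc hS hχ) a (RD S (B k)) (p k) (p (k + 1))‖ ^ 2 ≤
      ∑ β ∈ blks (coarse (restr (cm0 hS)) (piT T) hT)
        (cfg (restr (cm0 hS)) (bl T (fcol hS hχ))), ‖∑ g ∈ β, a g‖ ^ 2 := by
  have key := TileWx490.corr_le (M := restr (cm0 hS)) (σ := fcol hS hχ) (T := T) hT n3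
    (p := p) (R := fun k => RD S (B k)) (corr_restr R.corr)
    (fun k hk d hd => gen_restr (R.gen k hk d hd)) (linksO_restr R.linksO)
    (fun k hk => by
      show χ (p k).1.1 = 1
      rw [R.st k hk]
      exact hy k hk) hin h0 hn (a := a) hw
  refine le_trans (le_of_eq ?_) key
  congr 2
  refine Finset.sum_congr rfl fun k _ => ?_
  exact zz_restr.symm

end dc

/-! ### the field of `QF` -/

/-- the field of 176's `QF` : `Nn` on the faces with centre in `D`, radius at most `d` -/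
def aD (S : Finset ℂ) (D : Set ℂ) (d : ℝ) (g : D0 S) : ℂ :=
  if cen3 (fc S g) ∈ D ∧ rad3 (fc S g) ≤ d then nn S g else 0

theorem aD_spin {S : Finset ℂ} (hS : GP (S : Set ℂ)) (D : Set ℂ) (d : ℝ) :
    Spin (cm0 hS) om (aD S D d) := Engx490.spin_nn_rad hS D d

theorem aD_le {S : Finset ℂ} (D : Set ℂ) (d : ℝ) (g : D0 S) :
    ‖aD S D d g‖ ≤ ‖Nn (g.1.2, th S g.1, g.1.1)‖ := by
  unfold aD
  split_ifs
  · exact le_rfl
  · rw [norm_zero]
    exact norm_nonneg _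

theorem aD_ne {S : Finset ℂ} {D : Set ℂ} {d : ℝ} {g : D0 S} (h : aD S D d g ≠ 0) :
    cen3 (fc S g) ∈ D ∧ rad3 (fc S g) ≤ d := by
  by_contra hc
  exact h (if_neg hc)

theorem aD_zero {S : Finset ℂ} {D : Set ℂ} {d : ℝ} {g : D0 S} (h : cen3 (fc S g) ∉ D) :
    aD S D d g = 0 := if_neg fun h' => h h'.1

/-- the field is constant (zero) along a face whose centre is off the region -/
theorem aD_face {S : Finset ℂ} (hS : GP (S : Set ℂ)) {D : Set ℂ} {d : ℝ} {g e : D0 S}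
    (h : cen3 (fc S g) ∉ D) (he : e ∈ Fa (cm0 hS) g) : aD S D d e = 0 := by
  apply aD_zero
  rcases he with rfl | rfl | rfl
  · exact h
  · rw [cen_rho hS]; exact h
  · rw [cen_rho hS, cen_rho hS]; exact h

theorem aD_fQ {S : Finset ℂ} {D : Set ℂ} {d : ℝ} {g : D0 S}
    (h : cen3 (fc S g) ∈ D → rad3 (fc S g) ≤ d) :
    aD S D d g = fQ Nn D (g.1.2, th S g.1, g.1.1) := by
  have e1 : cen3 (g.1.2, th S g.1, g.1.1) = cen3 (fc S g) := cen3_tt g
  unfold aD fQ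
  rw [e1]
  by_cases h1 : cen3 (fc S g) ∈ D
  · rw [if_pos ⟨h1, h h1⟩, if_pos h1]
    rfl
  · rw [if_neg fun h' => h1 h'.1, if_neg h1]

/-! ### five tiles of a configuration -/

section conf

open Crest.Agent.R143.PP0x831 Crest.Agent.R143.TileRx228 Crest.Agent.R143.DCorFx713
  Crest.Agent.R143.DCorGx713 Crest.Agent.R143.RingPx503 Crest.Agent.R143.PathGx503
  Crest.Agent.R143.PathDx503 Crest.Agent.R143.Locx922

variable {X : Set (ℂ × Bool)} {M : ℕ} {W : ℤ → ℤ × ℤ} {Q : ℤ → Set ℂ} {U : Set ℂ}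
  {h A B A' B' m τ κ bb : ℝ} {P : ℤ → Prop} {S : Finset ℂ}

/-- **FULL TILE**: the middle tile of an open corridor of five tiles (generic gates and regions) -/
theorem dc_le (hX : X.Finite) (hSX : sX X = S) (hS : GP (S : Set ℂ)) (h3 : 3 ≤ S.card)
    {σ : Cs hS → ZMod 2} (hσ : ∀ v (hv : v ∈ S), cX X v = σ (cs hS h3 ⟨v, hv⟩))
    (hχ : HullC S (cX X)) {y z : ℕ → ℂ} {Al Bl : ℕ → Set ℂ} {p : ℕ → D0 S}
    (R : DCorr hS hχ 5 y z Al Bl p) (hy : ∀ k, k ≤ 5 → cX X (y k) = 1)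
    {St : ℕ → Set (ℂ × Bool) → ℂ × ℂ → Prop} (hSt : ∀ k, k ≤ 5 → St k X (p k).1)
    (uSt : ∀ k, k ≤ 5 → ∀ q, St k X q → q = (p k).1)
    {T : Finset (Cs hS)} (hT : ClsCon (restr (cm0 hS)) (piT T))
    (hin : ∀ k : ℕ, 1 ≤ k → k < 4 → ∀ v (hv : v ∈ S), v ∈ Bl k → cs hS h3 ⟨v, hv⟩ ∈ T)
    (hout : ∀ v (hv : v ∈ S), (v = y 0 ∨ v = y 5) → cs hS h3 ⟨v, hv⟩ ∉ T)
    {D : Set ℂ} {ρ : ℝ}
    (hfar : ∀ k : ℕ, k = 0 ∨ k = 4 → ∀ a b c, (a, b, c) ∈ delT S → a ∈ Bl k → b ∈ Bl k →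
      cen3 (a, b, c) ∉ D)
    (hrad : ∀ k : ℕ, 1 ≤ k → k < 4 → ∀ a b c, (a, b, c) ∈ delT S → a ∈ Bl k → b ∈ Bl k →
      rad3 (a, b, c) ≤ ρ) :
    ‖VX Nn 5 Bl (fun _ => D) St 2 X‖ ^ 2 ≤
      ∑ β ∈ blks (coarse (restr (cm0 hS)) (piT T) hT) (cfg (restr (cm0 hS)) (bl T σ)),
        ‖∑ g ∈ β, aD S D ρ g‖ ^ 2 := by
  subst hSX
  have hcs : ∀ d : D0 (sX X), ((restr (cm0 hS)).cell d : Cs hS) =
      cs hS h3 ⟨d.1.1, (mem_delT.1 (th_spec d.2)).1⟩ := fun d => rfl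
  -- the colouring
  have eσ : fcol hS hχ = σ := by
    funext c
    obtain ⟨_, ⟨g, rfl⟩⟩ := c
    exact hσ g.1.1 (mem_delT.1 (th_spec g.2)).1
  have b0 : ((restr (cm0 hS)).cell (p 0) : Cs hS) ∉ T := by
    rw [hcs]
    exact hout _ _ (Or.inl (by rw [R.st 0 (by omega)]))
  have b5 : ((restr (cm0 hS)).cell (p 5) : Cs hS) ∉ T := by
    rw [hcs]
    exact hout _ _ (Or.inr (by rw [R.st 5 le_rfl]))
  -- the inner tiles
  have bin : ∀ k : ℕ, 1 ≤ k → k + 1 < 5 → ∀ d ∈ RD (sX X) (Bl k),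
      ((restr (cm0 hS)).cell d : Cs hS) ∈ T ∧
        ((restr (cm0 hS)).cell ((restr (cm0 hS)).rho d) : Cs hS) ∈ T := by
    intro k h1 h2 g hg'
    refine ⟨?_, ?_⟩
    · rw [hcs]
      exact hin k h1 (by omega) _ _ hg'.1
    · rw [hcs]
      exact hin k h1 (by omega) _ _ hg'.2
  -- the outer tiles
  have bw : ∀ k : ℕ, k = 0 ∨ k + 1 = 5 → ∀ g ∈ RD (sX X) (Bl k),
      ∀ e ∈ Fa (cm0 hS) g, aD (sX X) D ρ e = 0 := by
    intro k hk g hg' e he
    exact aD_face hS (hfar k (by omega) _ _ _ (th_spec g.2) hg'.1 hg'.2) he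
  have key := dcorr_le (hS := hS) (hχ := hχ) R (by omega) hT hy bin b0 b5 bw
  rw [eσ] at key
  refine le_trans (le_of_eq ?_) key
  congr 2
  have hz : ∀ k, k < 5 → ZZ (cm0 hS) (xc hS hχ) (aD (sX X) D ρ)
      (RD (sX X) (Bl k)) (p k) (p (k + 1)) = zC (fQ Nn D) (Bl k) (St k) (St (k + 1)) X := by
    intro k hk
    refine zz_zC0 (B := Bl) hX R hSt uSt (fun j hj e h1 h2 => ?_) hk
    have ht : (e.1.2, th (sX X) e.1, e.1.1) ∈ delT (sX X) := delT_rot hS (th_spec e.2)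
    rcases Nat.lt_or_ge 0 j with h5 | h5
    · rcases Nat.lt_or_ge j 4 with h6 | h6
      · refine aD_fQ fun _ => ?_
        rw [← rad3_tt]
        exact hrad j h5 h6 _ _ _ ht h1 h2
      · refine aD_fQ fun h7 => absurd h7 ?_
        rw [← cen3_tt]
        exact hfar j (by omega) _ _ _ ht h1 h2
    · refine aD_fQ fun h7 => absurd h7 ?_
      rw [← cen3_tt]
      exact hfar j (by omega) _ _ _ ht h1 h2
  unfold VX
  have e5 : Near 5 2 = Finset.Ico 1 (5 - 1) := by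
    ext k
    rw [mem_near, Finset.mem_Ico]
    omega
  rw [e5]
  refine Finset.sum_congr rfl fun k hk => ?_
  rw [Finset.mem_Ico] at hk
  exact (hz k (by omega)).symm

/-- the gate events of the corridor from `o` -/
def St (G : ℤ → GPar) (Q : ℤ → Set ℂ) (o : ℤ) (k : ℕ) : Set (ℂ × Bool) → ℂ × ℂ → Prop :=
  LG (G (o + k)) (Q (o + k))

/-- the arc regions of the corridor from `o` -/
def Bk (h A B : ℝ) (W : ℤ → ℤ × ℤ) (o : ℤ) (k : ℕ) : Set ℂ := RR A B h W (o + k)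

/-- **FULL TILE**, five tiles of a fine path (503's `Evp`), generic gates `LG (G a) (Q a)` -/
theorem evp_le {G : ℤ → GPar} {a0 a1 b0 b1 m' : ℝ} (hX : X.Finite) (hSX : sX X = S)
    (hS : GP (S : Set ℂ)) (h3 : 3 ≤ S.card)
    {σ : Cs hS → ZMod 2} (hσ : ∀ v (hv : v ∈ S), cX X v = σ (cs hS h3 ⟨v, hv⟩))
    (hχ : HullC S (cX X))
    (E : Evp S S (bX X) h A B a0 a1 b0 b1 m' W P (fun a => (dg (G a) (Q a) X).1)
      (fun a => (dg (G a) (Q a) X).2))
    (N : Num h A B κ bb a0 a1 b0 b1 m) (F : FPath M W) (hE : Envr S U m) (hτ : m < τ)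
    {o : ℤ} (hM : M = 0 ∨ 5 < M) (hP : ∀ k : ℕ, k < 5 → P (o + k))
    (hU : ∀ k : ℕ, k < 5 → RR (A + τ) (B + τ) h W (o + k) ⊆ U) (hA : bb ≤ A')
    (hB : h / 2 + κ ≤ B') (hA2 : A + τ ≤ A') (hB2 : B + τ ≤ B') (hD : Dsj A' B' h M W)
    (hLG : ∀ k : ℕ, k ≤ 5 → ∃ q, LG (G (o + k)) (Q (o + k)) X q)
    {T : Finset (Cs hS)} (hT : ClsCon (restr (cm0 hS)) (piT T))
    (hin : ∀ k : ℕ, 1 ≤ k → k < 4 → ∀ v (hv : v ∈ S), v ∈ RR (A + τ) (B + τ) h W (o + k) →
      cs hS h3 ⟨v, hv⟩ ∈ T)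
    (hout : ∀ v (hv : v ∈ S), (v ∈ Win (gz h W o) (ge W o) a0 a1 b0 b1 ∨
      v ∈ Win (gz h W (o + 5)) (ge W (o + 5)) a0 a1 b0 b1) → cs hS h3 ⟨v, hv⟩ ∉ T)
    {D : Set ℂ} {ρ : ℝ}
    (hfar : ∀ k : ℕ, k = 0 ∨ k = 4 → ∀ a b c, (a, b, c) ∈ delT S →
      a ∈ RR (A + τ) (B + τ) h W (o + k) → b ∈ RR (A + τ) (B + τ) h W (o + k) →
      cen3 (a, b, c) ∉ D)
    (hrad : ∀ k : ℕ, 1 ≤ k → k < 4 → ∀ a b c, (a, b, c) ∈ delT S →
      a ∈ RR (A + τ) (B + τ) h W (o + k) → b ∈ RR (A + τ) (B + τ) h W (o + k) →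
      rad3 (a, b, c) ≤ ρ) :
    ‖VX Nn 5 (Bk h (A + τ) (B + τ) W o) (fun _ => D) (St G Q o) 2 X‖ ^ 2 ≤
      ∑ β ∈ blks (coarse (restr (cm0 hS)) (piT T) hT) (cfg (restr (cm0 hS)) (bl T σ)),
        ‖∑ g ∈ β, aD S D ρ g‖ ^ 2 := by
  have bS : bX X ⊆ S := hSX ▸ bX_sub
  have bI : ∀ s ∈ S, cX X s = 1 ↔ s ∈ bX X := hSX ▸ bX_iff
  have hUP : ∀ k : ℕ, k ≤ 5 → P (o + k) ∨ P (o + k - 1) := by
    intro k hk
    rcases Nat.lt_or_ge k 5 with h1 | h1
    · exact Or.inl (hP k h1)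
    · right
      have e : o + (k : ℤ) - 1 = o + ((4 : ℕ) : ℤ) := by
        have : k = 5 := by omega
        subst this
        push_cast; ring
      rw [e]
      exact hP 4 (by omega)
  have hdg : ∀ k : ℕ, k ≤ 5 → LG (G (o + k)) (Q (o + k)) X (dg (G (o + k)) (Q (o + k)) X) :=
    fun k hk => dg_spec (hLG k hk)
  set p : ℕ → D0 S := fun k =>
    ⟨dg (G (o + (min k 5 : ℕ))) (Q (o + (min k 5 : ℕ))) X,
      neck_sd hχ (V := S) (b := 1) bI (E.gate _ (hUP _ (min_le_right k 5)))⟩ with hpd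
  have hp : ∀ k : ℕ, k ≤ 5 → (p k).1 = dg (G (o + k)) (Q (o + k)) X := by
    intro k hk
    show dg (G (o + (min k 5 : ℕ))) (Q (o + (min k 5 : ℕ))) X = _
    rw [min_eq_left hk]
  have R := Evp.corr (b := 1) E N F hS hχ bI bS hE hτ (n := 5) (by omega) hM o hP hU hA hB hA2
    hB2 hD (p := p) fun k hk => hp k hk
  refine dc_le (St := St G Q o) hX hSX hS h3 hσ hχ R (fun k hk => ?_) (fun k hk => ?_)
    (fun k hk q hq => ?_) hT hin (fun v hv h4 => hout v hv ?_) hfar hrad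
  · exact (neck_col (b := 1) bI (E.gate _ (hUP k hk))).1
  · show LG (G (o + k)) (Q (o + k)) X (p k).1
    rw [hp k hk]
    exact hdg k hk
  · have h1 : LG (G (o + k)) (Q (o + k)) X (p k).1 := by
      rw [hp k hk]
      exact hdg k hk
    exact h1.uniq hq
  · rcases h4 with rfl | rfl
    · left
      have h1 := neck_win (E.gate _ (hUP 0 (by omega)))
      simpa using h1
    · right
      have h1 := neck_win (E.gate _ (hUP 5 le_rfl))
      simpa using h1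

/-- the window of a longer corridor -/
theorem vx_eq {G : ℤ → GPar} {f : ℂ × ℂ × ℂ → ℂ} {n l : ℕ} (hl : 2 ≤ l) (hn : l + 2 < n) (o : ℤ)
    {Qr : ℕ → Set ℂ} {D : Set ℂ} (hD : Qr l = D) :
    VX f n (Bk h A B W o) Qr (St G Q o) l X =
      VX f 5 (Bk h A B W (o + ((l - 2 : ℕ) : ℤ))) (fun _ => D)
        (St G Q (o + ((l - 2 : ℕ) : ℤ))) 2 X := by
  have e1 : ∀ j : ℕ, Bk h A B W (o + ((l - 2 : ℕ) : ℤ)) j = Bk h A B W o (l - 2 + j) := by
    intro j
    unfold Bk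
    push_cast
    rw [add_assoc]
  have e2 : ∀ j : ℕ, St G Q (o + ((l - 2 : ℕ) : ℤ)) j = St G Q o (l - 2 + j) := by
    intro j
    unfold St
    have : o + ((l - 2 : ℕ) : ℤ) + j = o + ((l - 2 + j : ℕ) : ℤ) := by push_cast; ring
    rw [this]
  unfold VX
  rw [hD]
  refine Finset.sum_bij' (fun k _ => k - (l - 2)) (fun k _ => l - 2 + k) ?_ ?_ ?_ ?_ ?_
  · intro k hk
    rw [mem_near] at hk ⊢
    omega
  · intro k hk
    rw [mem_near] at hk ⊢
    omega
  · intro k hk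
    rw [mem_near] at hk
    omega
  · intro k hk
    rw [mem_near] at hk
    omega
  · intro k hk
    rw [mem_near] at hk
    rw [e1, e2, e2, show l - 2 + (k - (l - 2)) = k by omega,
      show l - 2 + (k - (l - 2) + 1) = k + 1 by omega]

end conf

/-! ### the configuration of a colouring of the cells -/

section paint

open Crest.Agent.R143.Engx490 (bk)
open Crest.Agent.R143.Dbl2x609 (paint)
open Crest.Agent.R143.ColXx829 (Xc)
open Crest.Agent.R143.PP0x831 Crest.Agent.R143.WLocx713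

variable {S : Finset ℂ} (hS : GP (S : Set ℂ)) (h3 : 3 ≤ S.card) (σ : Cs hS → ZMod 2)

theorem paint_eq : paint S (bk hS h3 σ) = Xc hS h3 σ := rfl

theorem fin_paint : (paint S (bk hS h3 σ)).Finite := ColXx829.fin_Xc

theorem sX_paint : sX (paint S (bk hS h3 σ)) = S := ColXx829.sX_Xc

theorem cX_paint {v : ℂ} (hv : v ∈ S) :
    cX (paint S (bk hS h3 σ)) v = σ (cs hS h3 ⟨v, hv⟩) := ColXx829.cX_Xc hv

theorem hullC_paint : HullC S (cX (paint S (bk hS h3 σ))) := ColXx829.hullC_Xc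

end paint

end Crest.Agent.R143.TileXx683
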