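import Crest.Agent.R143.TileZ_490
import Crest.Agent.R143.TileX_683
import Crest.Agent.R143.TileF_176
import Crest.Agent.R143.CorV_169
import Crest.Agent.R143.VTc_169
import Crest.Agent.R143.TileU_683
import Crest.Agent.R143.GPosC_348

/-!
# Row 143 (S0194), RIG, R6: the literal `QF` of a full tile (helper490)

* `WEn S M W η d o` : the environment of the window of the tiles `o, .., o + 4` (any path, open or
  closed), no hole of radius `d` in the ball `UW η W o`
* `EvW η W o X` : the five full tile events; `WEn.evp` : 503's events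
* `VT_norm` : `fP` and `Nn` give the same modulus
* `WEn.vt_le` : the charge of the middle tile is bounded by the block sums of the window map
* **`WEn.qf`** : 176's `QF` for `‖VT D P (η / 2) fP (o + 1) X‖ ^ 2`
-/

set_option autoImplicit false

noncomputable section

open scoped Classical

namespace Crest.Agent.R143.QFZx490

open Crest.Agent.R143.Gatex838 (X Y)
open Crest.Agent.R143.TileRx228 Crest.Agent.R143.TileZx490
open Crest.Agent.R143.FarEkx88 (sp Cout cout_pre sp_lip sp_cont)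

variable {M : ℕ} {W : ℤ → ℤ × ℤ} {h ρ A B : ℝ} {a : ℤ}

/-! ### the environment of the window -/

section env

open Crest.Agent.R143.B0x346 Crest.Agent.R143.DelGx806 Crest.Agent.R143.DelRx806
  Crest.Agent.R143.JColx54
open Crest.Agent.R143.Frame10x395
open Crest.Agent.R143.Locx922 Crest.Agent.R143.WLocx713
open Crest.Agent.R143.Blkx838 (DE)
open Crest.Agent.R143.Neckx921 (Neck NeckD Tile Lk)
open Crest.Agent.R143.PP0x831 Crest.Agent.R143.FinMx609
open Crest.Agent.R143.PathDx503 Crest.Agent.R143.PathGx503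
open Crest.Agent.R143.RingPx503 Crest.Agent.R143.DCorGx713 Crest.Agent.R143.DCorFx713
open Crest.Agent.R143.CorHx713 (gO gA QA mem_QA)
open Crest.Agent.R143.TplIx204 (TB TB_true DT)

variable {S : Finset ℂ} {η d : ℝ} {o : ℤ} {Z : Set (ℂ × Bool)}

/-- the ball of the window of the tiles `o, .., o + 4` -/
def UW (η : ℝ) (W : ℤ → ℤ × ℤ) (o : ℤ) : Set ℂ :=
  Metric.closedBall (cen (100 * η) W (o + 2)) (1000 * η)

/-- the environment of the window -/
structure WEn (S : Finset ℂ) (M : ℕ) (W : ℤ → ℤ × ℤ) (η d : ℝ) (o : ℤ) : Prop where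
  path : FPath M W
  hM : M = 0 ∨ 5 < M
  e0 : 0 < η
  d0 : 0 < d
  de : 100 * d ≤ η
  gp : GP (S : Set ℂ)
  hol : Hol (S : Set ℂ) (UW η W o) d

/-- the five tiles carry the full tile event -/
def EvW (η : ℝ) (W : ℤ → ℤ × ℤ) (o : ℤ) (Z : Set (ℂ × Bool)) : Prop :=
  ∀ k : ℕ, k < 5 → TB true (RR (9 * η) (51 * η) (100 * η) W (o + k))
    (LG (gA η W (o + k)) (QA η W (o + k))) (LG (gA η W (o + k + 1)) (QA η W (o + k + 1))) Z

theorem sp_path (P : FPath M W) (hh : 0 ≤ h) (a : ℤ) (n : ℕ) :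
    sp (cen h W a) (cen h W (a + n)) ≤ n * h := by
  induction n with
  | zero =>
    rw [Nat.cast_zero, add_zero, sp_eq, sub_self]
    simp
  | succ n ih =>
    have e : a + ((n + 1 : ℕ) : ℤ) = a + n + 1 := by push_cast; ring
    rw [e]
    have h1 := sp_tri (cen h W a) (cen h W (a + n + 1)) (cen h W (a + n))
    have h2 := sp_cen (P.step (a + n)) hh (cen h W (a + n))
    rw [← cen_add h W (a + n) (a + n + 1)] at h2
    push_cast
    linarith

theorem sp_path' (P : FPath M W) (hh : 0 ≤ h) {a b : ℤ} {n : ℕ} (h1 : a - n ≤ b)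
    (h2 : b ≤ a + n) : sp (cen h W a) (cen h W b) ≤ n * h := by
  rcases le_total a b with h3 | h3
  · have h4 := sp_path P hh a (b - a).toNat
    have e : a + (((b - a).toNat : ℕ) : ℤ) = b := by omega
    rw [e] at h4
    refine h4.trans (mul_le_mul_of_nonneg_right ?_ hh)
    have : (b - a).toNat ≤ n := by omega
    exact_mod_cast this
  · have h4 := sp_path P hh b (a - b).toNat
    have e : b + (((a - b).toNat : ℕ) : ℤ) = a := by omega
    rw [e, sp_symm] at h4
    refine h4.trans (mul_le_mul_of_nonneg_right ?_ hh)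
    have : (a - b).toNat ≤ n := by omega
    exact_mod_cast this

theorem norm_sp (z w : ℂ) : ‖w - z‖ ≤ 2 * sp z w := by
  have h2 := Complex.norm_le_abs_re_add_abs_im (w - z)
  have h3 : |(w - z).re| ≤ sp z w := by rw [sp_eq]; exact le_max_left _ _
  have h4 : |(w - z).im| ≤ sp z w := by rw [sp_eq]; exact le_max_right _ _
  linarith

theorem sp_norm (z w : ℂ) : sp z w ≤ ‖w - z‖ := by
  rw [sp_eq]
  exact max_le (Complex.abs_re_le_norm _) (Complex.abs_im_le_norm _)

/-- points at sup distance at most `500 η` from the middle vertex -/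
theorem mem_UW {z : ℂ} (hz : sp (cen (100 * η) W (o + 2)) z ≤ 500 * η) : z ∈ UW η W o := by
  unfold UW
  rw [Metric.mem_closedBall, dist_eq_norm]
  have := norm_sp (cen (100 * η) W (o + 2)) z
  linarith

/-- the tiles `o, .., o + 4` with a neighbourhood -/
theorem tile_UW (P : FPath M W) (hη : 0 < η) (hAB : A ≤ B) (hB : B ≤ 100 * η) {k : ℕ} (hk : k < 5)
    {s t : ℂ} (hs : s ∈ RR A B (100 * η) W (o + k)) (ht : ‖t - s‖ ≤ 200 * η) : t ∈ UW η W o := by
  have h1 := sp_lt.2 (TileRx228.ball P hAB hs)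
  have h2 := sp_lip (cen (100 * η) W (o + k)) t s
  have h3 := sp_path' (a := o + 2) (b := o + k) (n := 2) P (by linarith : 0 ≤ 100 * η)
    (by push_cast; omega) (by push_cast; omega)
  have h4 := sp_tri (cen (100 * η) W (o + 2)) t (cen (100 * η) W (o + k))
  push_cast at h3
  refine mem_UW ?_
  linarith

/-- the gates `o, .., o + 5` with a neighbourhood -/
theorem gate_UW (P : FPath M W) (hη : 0 < η) {k : ℕ} (hk : k ≤ 5) {s : ℂ}
    (h1 : |X (gz (100 * η) W (o + k)) (ge W (o + k)) s| ≤ 40 * η)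
    (h2 : |Y (gz (100 * η) W (o + k)) (ge W (o + k)) s| ≤ 40 * η) : s ∈ UW η W o := by
  have h3 := RegBx523.norm_le_XY (c := gz (100 * η) W (o + k)) (s := s) (norm_ge P (o + k))
  have h4 : sp (gz (100 * η) W (o + k)) s ≤ 80 * η := (sp_norm _ _).trans (h3.trans (by linarith))
  have e : gz (100 * η) W (o + k) = cen (100 * η) W (o + k) +
      ((100 * η : ℝ) : ℂ) * cz (W (o + k - 1) - W (o + k)) / 2 := by
    unfold gz cen
    rw [TileRx228.cz_sub]
    ring
  have h5 : sp (cen (100 * η) W (o + k)) (gz (100 * η) W (o + k)) ≤ 100 * η := by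
    have h6 := sp_cen (P.step' (o + k)) (by linarith : 0 ≤ 100 * η) (cen (100 * η) W (o + k))
    rw [sp_eq, add_sub_cancel_left] at h6
    rw [sp_eq, e, add_sub_cancel_left]
    have e1 : ∀ z : ℂ, |(z / 2).re| ≤ |z.re| := by
      intro z
      have : (z / 2).re = z.re / 2 := by simp
      rw [this, abs_div, abs_of_pos (by norm_num : (0 : ℝ) < 2)]
      linarith [abs_nonneg z.re]
    have e2 : ∀ z : ℂ, |(z / 2).im| ≤ |z.im| := by
      intro z
      have : (z / 2).im = z.im / 2 := by simp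
      rw [this, abs_div, abs_of_pos (by norm_num : (0 : ℝ) < 2)]
      linarith [abs_nonneg z.im]
    exact (max_le_max (e1 _) (e2 _)).trans h6
  have h6 := sp_path' (a := o + 2) (b := o + k) (n := 3) P (by linarith : 0 ≤ 100 * η)
    (by push_cast; omega) (by push_cast; omega)
  have h7 := sp_tri (cen (100 * η) W (o + 2)) s (cen (100 * η) W (o + k))
  have h8 := sp_tri (cen (100 * η) W (o + k)) s (gz (100 * η) W (o + k))
  push_cast at h6
  refine mem_UW ?_
  linarith

namespace WEn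

variable (E : WEn S M W η d o)
include E

theorem num : Num (100 * η) (9 * η) (51 * η) η (10 * η) (-η) η (-(9 * η)) (10 * η) (2 * d) := by
  have h1 := E.e0
  have h2 := E.d0
  have h3 := E.de
  constructor <;> linarith

theorem dsj : Dsj (10 * η) (52 * η) (100 * η) M W := by
  have h1 := E.e0
  exact dsj_of E.path (by linarith) (by linarith) (by linarith)

theorem win_U {k : ℕ} (hk : k ≤ 5) : (gA η W (o + k)).win ⊆ UW η W o := by
  have h3 := E.e0
  rintro s ⟨⟨h4, h5⟩, h6, h7⟩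
  change -η < X (gz (100 * η) W (o + k)) (ge W (o + k)) s at h4
  change X (gz (100 * η) W (o + k)) (ge W (o + k)) s < η at h5
  change -(9 * η) - η ≤ Y (gz (100 * η) W (o + k)) (ge W (o + k)) s at h6
  change Y (gz (100 * η) W (o + k)) (ge W (o + k)) s ≤ 10 * η + η at h7
  refine gate_UW E.path h3 hk ?_ ?_
  · rw [abs_le]
    constructor <;> linarith
  · rw [abs_le]
    constructor <;> linarith

/-- the `2 d`-neighbourhood of a window is inside the gate box -/
theorem win_Q (a : ℤ) : ∀ w ∈ (gA η W a).win, ∀ s : ℂ, ‖s - w‖ < 2 * d → s ∈ QA η W a := by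
  have h1 := E.e0
  have h2 := E.d0
  have h3 := E.de
  rintro w ⟨⟨h4, h5⟩, h6, h7⟩ s hs
  change -η < X (gz (100 * η) W a) (ge W a) w at h4
  change X (gz (100 * η) W a) (ge W a) w < η at h5
  change -(9 * η) - η ≤ Y (gz (100 * η) W a) (ge W a) w at h6
  change Y (gz (100 * η) W a) (ge W a) w ≤ 10 * η + η at h7
  have x1 := (Crossx228.abs_X_sub (gz (100 * η) W a) (ge_d4 E.path a).norm s w).trans_lt hs
  have y1 := (Crossx228.abs_Y_sub (gz (100 * η) W a) (ge_d4 E.path a).norm s w).trans_lt hs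
  rw [abs_lt] at x1 y1
  rw [mem_QA, abs_lt, abs_lt]
  refine ⟨⟨?_, ?_⟩, ?_, ?_⟩ <;> linarith

theorem sub_U {A B : ℝ} (hAB : A ≤ B) (hB : B ≤ 100 * η) {k : ℕ} (hk : k < 5) :
    RR A B (100 * η) W (o + k) ⊆ UW η W o := fun s hs => by
  have := E.e0
  exact tile_UW E.path E.e0 hAB hB hk hs (by simp; linarith)

theorem inn {v : ℂ} (hv : v ∈ UW η W o) : ¬ OnHull S v :=
  fun ⟨a, h⟩ => (not_hull E.d0 E.hol hv a).2 h

theorem env : Envr S (UW η W o) (2 * d) := by
  refine ⟨fun u v h hu _ => ?_, fun _ _ hv => E.inn hv, fun z hz => ?_⟩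
  · rw [norm_sub_rev]
    exact (de_near E.d0 E.hol hu h).le
  · obtain ⟨a, b, c, h1, h2⟩ := exists_tri_W E.gp E.d0 E.hol hz
    exact ⟨(a, b, c), h1, h2⟩

/-- at least three sites -/
theorem card3 : 3 ≤ S.card := by
  have h0 := E.e0
  have h1 := E.d0
  have h2 := E.de
  have key : ∀ x : ℝ, |x| ≤ 500 * η → ∃ s ∈ S, ‖cen (100 * η) W (o + 2) + x - s‖ < d := by
    intro x hx
    have hm : cen (100 * η) W (o + 2) + x ∈ UW η W o := by
      refine mem_UW ?_
      rw [sp_eq, add_sub_cancel_left, Complex.ofReal_re, Complex.ofReal_im, abs_zero]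
      exact max_le hx (by linarith)
    obtain ⟨s, hs, h3⟩ := E.hol _ hm _ (by rw [sub_self, norm_zero]; exact h1.le)
    rw [norm_sub_rev] at h3
    exact ⟨s, hs, h3⟩
  obtain ⟨s1, m1, n1⟩ := key 0 (by rw [abs_zero]; linarith)
  obtain ⟨s2, m2, n2⟩ := key (100 * η) (by rw [abs_of_pos (by linarith)]; linarith)
  obtain ⟨s3, m3, n3⟩ := key (200 * η) (by rw [abs_of_pos (by linarith)]; linarith)
  set c := cen (100 * η) W (o + 2) with hc
  have far : ∀ x y : ℝ, 100 * η ≤ |x - y| → ∀ s : ℂ, ‖c + x - s‖ < d → ¬ ‖c + y - s‖ < d := by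
    intro x y hxy s hs1 hs2
    have e : ((x - y : ℝ) : ℂ) = (c + x - s) - (c + y - s) := by push_cast; ring
    have h3 := norm_sub_le (c + x - s) (c + y - s)
    rw [← e, Complex.norm_real, Real.norm_eq_abs] at h3
    linarith
  have h12 : s1 ≠ s2 := by
    rintro rfl
    refine far 0 (100 * η) ?_ s1 n1 n2
    rw [zero_sub, abs_neg, abs_of_pos (by linarith)]
  have h13 : s1 ≠ s3 := by
    rintro rfl
    refine far 0 (200 * η) ?_ s1 n1 n3
    rw [zero_sub, abs_neg, abs_of_pos (by linarith)]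
    linarith
  have h23 : s2 ≠ s3 := by
    rintro rfl
    refine far (100 * η) (200 * η) ?_ s2 n2 n3
    rw [show 100 * η - 200 * η = -(100 * η) by ring, abs_neg, abs_of_pos (by linarith)]
  have h4 : ({s1, s2, s3} : Finset ℂ) ⊆ S := by
    intro x hx
    simp only [Finset.mem_insert, Finset.mem_singleton] at hx
    rcases hx with rfl | rfl | rfl <;> assumption
  calc 3 = ({s1, s2, s3} : Finset ℂ).card := by
        rw [Finset.card_insert_of_notMem (by simp [h12, h13]),
          Finset.card_insert_of_notMem (by simp [h23]), Finset.card_singleton]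
    _ ≤ S.card := Finset.card_le_card h4

/-- 503's events along the window -/
theorem evp (hX : Z.Finite) (hSX : sX Z = S) (hV : EvW η W o Z) :
    Evp S S (bX Z) (100 * η) (9 * η) (51 * η) (-η) η (-(9 * η)) (10 * η) η W
      (fun a => ∃ k : ℕ, k < 5 ∧ a = o + k) (fun a => (dg (gA η W a) (QA η W a) Z).1)
      (fun a => (dg (gA η W a) (QA η W a) Z).2) := by
  subst hSX
  have hps : (sX Z : Set ℂ) = ps Z := coe_sX hX
  have hol : Hol (ps Z) (UW η W o) d := by rw [← hps]; exact E.hol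
  have tile : ∀ k : ℕ, k < 5 → ∃ p q, LG (gA η W (o + k)) (QA η W (o + k)) Z p ∧
      LG (gA η W (o + k + 1)) (QA η W (o + k + 1)) Z q ∧
      Tile (sX Z) (sX Z) (bX Z) (RR (9 * η) (51 * η) (100 * η) W (o + k)) p.1 p.2 q.1 q.2 := by
    intro k hk
    obtain ⟨-, p, q, hp, hq, h⟩ := TB_true.1 (hV k hk)
    exact ⟨p, q, hp, hq, h⟩
  have gate : ∀ k : ℕ, k ≤ 5 → ∃ p, LG (gA η W (o + k)) (QA η W (o + k)) Z p := by
    intro k hk
    rcases Nat.lt_or_ge k 5 with h1 | h1
    · obtain ⟨p, -, hp, -⟩ := tile k h1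
      exact ⟨p, hp⟩
    · have h2 : k = 5 := by omega
      subst h2
      obtain ⟨-, q, -, hq, -⟩ := tile 4 (by omega)
      have e : o + ((4 : ℕ) : ℤ) + 1 = o + ((5 : ℕ) : ℤ) := by push_cast; ring
      rw [e] at hq
      exact ⟨q, hq⟩
  refine ⟨fun a ha => ?_, fun a ha => ?_⟩
  · have h1 : ∃ k : ℕ, k ≤ 5 ∧ a = o + k := by
      rcases ha with ⟨k, hk, rfl⟩ | ⟨k, hk, h2⟩
      · exact ⟨k, by omega, rfl⟩
      · exact ⟨k + 1, by omega, by push_cast; omega⟩
    obtain ⟨k, hk, rfl⟩ := h1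
    have h2 := dg_spec (gate k hk)
    exact LG_neck hX E.d0 (hol.mono (E.win_U hk)) (E.win_Q _) h2
  · obtain ⟨k, hk, rfl⟩ := ha
    obtain ⟨p, q, hp, hq, h⟩ := tile k hk
    have e1 : dg (gA η W (o + k)) (QA η W (o + k)) Z = p := dg_eq hp
    have e2 : dg (gA η W (o + k + 1)) (QA η W (o + k + 1)) Z = q := dg_eq hq
    simp only [e1, e2]
    exact h

end WEn

end env

/-! ### the charge of the positions -/

section qf

open MeasureTheory
open Crest.Agent.R143.B0x346 Crest.Agent.R143.DelGx806 Crest.Agent.R143.DelRx806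
  Crest.Agent.R143.JColx54
open Crest.Agent.R143.Frame1x395 Crest.Agent.R143.Frame2x395 Crest.Agent.R143.Frame3x395
  Crest.Agent.R143.Frame4x395
open Crest.Agent.R143.Frame8x395 hiding cfg
open Crest.Agent.R143.Frame10x395
open Crest.Agent.R143.Frame5x395 (sd mem_sd th th_spec)
open Crest.Agent.R143.Coarsex166
open Crest.Agent.R143.Locx922 Crest.Agent.R143.WLocx713
open Crest.Agent.R143.Neckx921 (Neck NeckD Tile Lk)
open Crest.Agent.R143.PP0x831 Crest.Agent.R143.FinMx609 Crest.Agent.R143.PWx978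
  Crest.Agent.R143.IndLocx279
open Crest.Agent.R143.Janx304 (ovr)
open Crest.Agent.R143.PathDx503 Crest.Agent.R143.PathGx503
open Crest.Agent.R143.RingPx503 Crest.Agent.R143.DCorGx713 Crest.Agent.R143.DCorFx713
open Crest.Agent.R143.CorHx713 (gO gA QA mem_QA)
open Crest.Agent.R143.TplIx204 (TB TB_true DT)
open Crest.Agent.R143.FinCx811 (Cs cs)
open Crest.Agent.R143.Mass3x302 (restr)
open Crest.Agent.R143.Mass1x302 (T3 Nn)
open Crest.Agent.R143.TileMx683 (piT bl)
open Crest.Agent.R143.TileYx490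
open Crest.Agent.R143.Engx490 (Inn Eqi bk fc)
open Crest.Agent.R143.Dbl2x609 (paint)
open Crest.Agent.R143.TileFx176 (QF)
open Crest.Agent.R143.TileXx683
open Crest.Agent.R143.TileUx683 (hfar_std hrad_std)
open Crest.Agent.R143.SpRx169 (Rg Rg_near Rg_near')
open Crest.Agent.R143.Sptx832 (VX fQ)
open Crest.Agent.R143.SpRx169 (QX qx_full)
open Crest.Agent.R143.SpVx169 (VT AC reg3 VX_VT VT_local3)
open Crest.Agent.R143.CorVx169 (IsS)
open Crest.Agent.R143.SpMx169 (fP fP_Nn norm_om)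
open scoped ENNReal

/-- the charge of the positions is the conjugate of the charge `Nn`, up to a phase -/
theorem VT_fP {D : DT} (P : FPath M W) (r : ℝ) (a : ℤ) (X : Set (ℂ × Bool)) :
    om * VT D P r fP a X = (starRingEnd ℂ) (VT D P r Nn a X) := by
  unfold VT
  rw [Finset.mul_sum, map_sum]
  refine Finset.sum_congr rfl fun j _ => ?_
  unfold AC
  rw [VTcx169.zC_sum, VTcx169.zC_sum, Finset.mul_sum, map_sum]
  refine Finset.sum_congr rfl fun t _ => ?_
  unfold fQ
  split_ifs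
  · exact fP_Nn t
  · rw [mul_zero, map_zero]

theorem VT_norm {D : DT} (P : FPath M W) (r : ℝ) (a : ℤ) (X : Set (ℂ × Bool)) :
    ‖VT D P r fP a X‖ = ‖VT D P r Nn a X‖ := by
  have h := congrArg norm (VT_fP (D := D) P r a X)
  rwa [norm_mul, norm_om, one_mul, RCLike.norm_conj] at h

variable {S : Finset ℂ} {η d : ℝ} {o : ℤ} {Z : Set (ℂ × Bool)}

/-- a local functional on the window is a function of the colours of the inner sites -/
theorem WEn.inn_local (E : WEn S M W η d o) {R : Set ℂ} (hR : R ⊆ UW η W o) {Y : Type*}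
    {Φ : Set (ℂ × Bool) → Y} (hΦ : LocalOn R Φ) : Inn S Φ := by
  intro b c _ _ h
  have e : paint S b ∩ ovr R = paint S c ∩ ovr R := by
    ext p
    constructor
    · rintro ⟨⟨h1, h2⟩, h3⟩
      have h4 : p.1 ∈ R := h3
      exact ⟨⟨h1, h2.trans (h p.1 h1 (E.inn (hR h4)))⟩, h3⟩
    · rintro ⟨⟨h1, h2⟩, h3⟩
      have h4 : p.1 ∈ R := h3
      exact ⟨⟨h1, h2.trans (h p.1 h1 (E.inn (hR h4))).symm⟩, h3⟩
  have h1 : Φ (paint S b) = Φ (paint S b ∩ ovr R) := hΦ _
  have h2 : Φ (paint S c) = Φ (paint S c ∩ ovr R) := hΦ _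
  rw [h1, h2, e]

theorem EvW.gate (hV : EvW η W o Z) {k : ℕ} (hk : k ≤ 5) :
    ∃ p, LG (gA η W (o + k)) (QA η W (o + k)) Z p := by
  rcases Nat.lt_or_ge k 5 with h1 | h1
  · obtain ⟨-, p, -, hp, -⟩ := hV k h1
    exact ⟨p, hp⟩
  · have h2 : k = 5 := by omega
    subst h2
    obtain ⟨-, -, q, -, hq, -⟩ := hV 4 (by omega)
    have e : o + ((4 : ℕ) : ℤ) + 1 = o + ((5 : ℕ) : ℤ) := by push_cast; ring
    rw [e] at hq
    exact ⟨q, hq⟩

/-- the window -/
def W5 (η : ℝ) (W : ℤ → ℤ × ℤ) (o : ℤ) : Set ℂ := W3 (100 * η) (52 * η) W (o + 2)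

theorem WEn.W5_bdd (E : WEn S M W η d o) : Bornology.IsBounded (W5 η W o) :=
  W3_bdd E.path (by linarith [E.e0])

theorem WEn.W5_pre (E : WEn S M W η d o) : IsPreconnected (W5 η W o)ᶜ :=
  W3_pre E.path (by linarith [E.e0]) (by linarith [E.e0])

/-- the sites of the inner tiles are in the window -/
theorem WEn.hin (E : WEn S M W η d o) {k : ℕ} (h1 : 1 ≤ k) (h2 : k < 4) {v : ℂ} (hv : v ∈ S)
    (h : v ∈ RR (9 * η + η / 2) (51 * η + η / 2) (100 * η) W (o + k)) :
    cs E.gp E.card3 ⟨v, hv⟩ ∈ Tw E.gp E.card3 (W5 η W o) := by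
  have e0 := E.e0
  have d0 := E.d0
  have de := E.de
  refine Tw_of_ball E.W5_bdd d0 (fun z hz => ?_) fun z hz => ?_
  · obtain ⟨s, hs, h3⟩ := E.hol v (E.sub_U (by linarith) (by linarith) (by omega) h) z hz.le
    rw [norm_sub_rev] at h3
    exact ⟨s, hs, h3⟩
  · rw [Metric.mem_ball, dist_eq_norm] at hz
    refine W3_tile E.path ?_ (by linarith) h hz.le (by linarith)
    have h3 : k = 1 ∨ k = 2 ∨ k = 3 := by omega
    rcases h3 with rfl | rfl | rfl
    · left; push_cast; ring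
    · right; left; push_cast; ring
    · right; right; push_cast; ring

/-- the sites of the outer gates are off the window -/
theorem WEn.hout (E : WEn S M W η d o) {v : ℂ} (hv : v ∈ S)
    (h : v ∈ Win (gz (100 * η) W o) (ge W o) (-η) η (-(9 * η)) (10 * η) ∨
      v ∈ Win (gz (100 * η) W (o + 5)) (ge W (o + 5)) (-η) η (-(9 * η)) (10 * η)) :
    cs E.gp E.card3 ⟨v, hv⟩ ∉ Tw E.gp E.card3 (W5 η W o) := by
  have e0 := E.e0
  refine Tw_off E.W5_bdd ?_
  have key : ∀ j : ℤ, (j = o ∨ j = o + 5) →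
      v ∈ Win (gz (100 * η) W j) (ge W j) (-η) η (-(9 * η)) (10 * η) → v ∉ W5 η W o := by
    intro j hj hw
    refine W3_gate E.path (by linarith) (j := j) (r := 11 * η) (fun u h1 h2 => ?_) ?_ (by linarith)
    · rcases hj with rfl | rfl
      · exact ⟨nd_of E.hM (by omega) (by push_cast; omega) (by push_cast; omega),
          nd_of E.hM (by omega) (by push_cast; omega) (by push_cast; omega)⟩
      · exact ⟨nd_of E.hM (by omega) (by push_cast; omega) (by push_cast; omega),
          nd_of E.hM (by omega) (by push_cast; omega) (by push_cast; omega)⟩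
    · have h3 := RegBx523.norm_le_XY (c := gz (100 * η) W j) (s := v) (norm_ge E.path j)
      obtain ⟨⟨h4, h5⟩, h6, h7⟩ := hw
      have h8 : |X (gz (100 * η) W j) (ge W j) v| ≤ η := abs_le.2 ⟨by linarith, by linarith⟩
      have h9 : |Y (gz (100 * η) W j) (ge W j) v| ≤ 10 * η := abs_le.2 ⟨by linarith, by linarith⟩
      linarith
  rcases h with h | h
  · exact key o (Or.inl rfl) h
  · exact key (o + 5) (Or.inr rfl) h

set_option maxHeartbeats 1000000 in
/-- **the charge of the middle tile** -/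
theorem WEn.vt_le (E : WEn S M W η d o) {D : DT} (s : IsS D η) (hX : Z.Finite) (hSX : sX Z = S)
    {σ : Cs E.gp → ZMod 2} (hσ : ∀ v (hv : v ∈ S), cX Z v = σ (cs E.gp E.card3 ⟨v, hv⟩))
    (hχ : HullC S (cX Z)) (hV : EvW η W o Z) :
    ‖VT D E.path (η / 2) fP (o + 1) Z‖ ^ 2 ≤
      ∑ β ∈ blks (coarse (restr (cm0 E.gp)) (piT (Tw E.gp E.card3 (W5 η W o)))
          (cls_Tw E.W5_bdd E.W5_pre)) (Frame8x395.cfg (restr (cm0 E.gp))
            (bl (Tw E.gp E.card3 (W5 η W o)) σ)),
        ‖∑ g ∈ β, aD S (Rg D.h W (o + 2)) d g‖ ^ 2 := by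
  have e0 := E.e0
  have d0 := E.d0
  have de := E.de
  have key := evp_le (G := gA η W) (Q := QA η W) (A' := 10 * η) (B' := 52 * η) (τ := η / 2)
    (κ := η) (bb := 10 * η) (m := 2 * d) (U := UW η W o) hX hSX E.gp E.card3 hσ hχ
    (E.evp hX hSX hV) E.num E.path E.env (by linarith) (o := o) E.hM (fun k hk => ⟨k, hk, rfl⟩)
    (fun k hk => E.sub_U (by linarith) (by linarith) hk) le_rfl (by linarith) (by linarith)
    (by linarith) E.dsj (fun k hk => hV.gate hk) (cls_Tw E.W5_bdd E.W5_pre)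
    (fun k h1 h2 v hv hv2 => E.hin h1 h2 hv hv2) (fun v hv h => E.hout hv h)
    (D := Rg (100 * η) W (o + 2)) (ρ := d)
    (fun k hk a b c h1 h2 h3 => hfar_std e0 d0 de E.path E.hM E.hol k hk a b c h1 h2 h3)
    (fun k _ hk a b c h1 h2 h3 => hrad_std e0 d0 E.path E.hol k (by omega) a b c h1 h2 h3)
  rw [VT_norm]
  rw [s.h]
  refine le_trans (le_of_eq ?_) key
  congr 2
  -- identification of the charge
  have hps : (S : Set ℂ) = ps Z := by rw [← hSX]; exact coe_sX hX
  have hgp : GP (ps Z) := by rw [← hps]; exact E.gp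
  have hol : Hol (ps Z) (UW η W o) d := by rw [← hps]; exact E.hol
  have hA : D.A + η / 2 = 9 * η + η / 2 := by rw [s.A]
  have hB : D.B + η / 2 = 51 * η + η / 2 := by rw [s.B]
  have h := VX_VT D E.path (η / 2) hX hgp (by rw [hSX]; exact hχ) d0 (by rw [s.A']; linarith)
    (by rw [s.B', s.h]; linarith) (by rw [hA, s.A']; linarith) (by rw [hB, s.B']; linarith)
    (o := o) (n := 5) (l := 2) (by omega) (by omega) (fun k hk w hw => by
      refine hol w (E.sub_U (A := 9 * η + η / 2) (B := 51 * η + η / 2) (by linarith)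
        (by linarith) hk ?_)
      rw [hA, hB, s.h] at hw
      exact hw) (fun k hk p hp => by
      rw [CorVx169.St_eq s] at hp
      exact LG_occ hX (by rw [hSX]; exact hχ) d0 (hol.mono (E.win_U hk)) (E.win_Q _) hp) Nn
  have e2 : o + ((2 : ℕ) : ℤ) - 1 = o + 1 := by push_cast; ring
  rw [e2] at h
  rw [← h, hA, hB, s.h]
  unfold VX
  refine Finset.sum_congr rfl fun k _ => ?_
  rw [qx_full (by omega) (by omega)]
  have e3 : o + ((2 : ℕ) : ℤ) = o + 2 := by push_cast; ring
  rw [e3]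
  show zC (fQ Nn (Rg (100 * η) W (o + 2))) (RR (9 * η + η / 2) (51 * η + η / 2) (100 * η) W (o + k))
    (SpVx169.St D E.path (o + k)) (SpVx169.St D E.path (o + ((k + 1 : ℕ) : ℤ))) Z = _
  rw [CorVx169.St_eq s, CorVx169.St_eq s]
  rfl

theorem reg3_UW (E : WEn S M W η d o) {D : DT} (s : IsS D η) : reg3 D W (o + 1) ⊆ UW η W o := by
  have e0 := E.e0
  intro z hz
  obtain ⟨j, hj, hz⟩ := Set.mem_iUnion₂.1 hz
  have hj3 := Finset.mem_range.1 hj
  rw [s.A', s.B', s.h] at hz
  have e : o + 1 + (j : ℤ) = o + ((1 + j : ℕ) : ℤ) := by push_cast; ring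
  rw [e] at hz
  exact E.sub_U (by linarith) (by linarith) (by omega) hz

/-- **`QF` OF A FULL TILE**, one environment -/
theorem WEn.qf (E : WEn S M W η d o) {D : DT} (s : IsS D η) {w : Set (ℂ × Bool) → ℝ≥0∞}
    {R : Set ℂ} (hR : R ⊆ UW η W o) (hw : LocalOn R w)
    (hev : ∀ β ⊆ S, w (paint S β) ≠ 0 → EvW η W o (paint S β)) :
    QF S w (fun X => ENNReal.ofReal (‖VT D E.path (η / 2) fP (o + 1) X‖ ^ 2))
      (Rg D.h W (o + 2)) d := by
  right
  refine ⟨E.gp, E.card3, Tw E.gp E.card3 (W5 η W o), ne_Tw E.W5_bdd, cls_Tw E.W5_bdd E.W5_pre,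
    aD S (Rg D.h W (o + 2)) d, ?_, aD_spin E.gp _ _, aD_le _ _, fun g hg => aD_ne hg, ?_⟩
  · have h1 : LocalOn (UW η W o) w := IndLocx279.LocalOn.mono hR hw
    have h2 : LocalOn (UW η W o) (VT D E.path (η / 2) fP (o + 1)) :=
      IndLocx279.LocalOn.mono (reg3_UW E s) (VT_local3 D E.path (η / 2) fP (o + 1))
    refine E.inn_local subset_rfl fun X => ?_
    have e1 : w X = w (X ∩ ovr (UW η W o)) := h1 X
    have e2 : VT D E.path (η / 2) fP (o + 1) X =
      VT D E.path (η / 2) fP (o + 1) (X ∩ ovr (UW η W o)) := h2 X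
    show w X * ENNReal.ofReal (‖VT D E.path (η / 2) fP (o + 1) X‖ ^ 2) =
      w (X ∩ ovr (UW η W o)) *
        ENNReal.ofReal (‖VT D E.path (η / 2) fP (o + 1) (X ∩ ovr (UW η W o))‖ ^ 2)
    rw [← e1, ← e2]
  · intro σ h0
    have hV := hev _ (Engx490.bk_sub E.gp E.card3 σ) h0
    refine ENNReal.ofReal_le_ofReal ?_
    exact E.vt_le s (fin_paint E.gp E.card3 σ) (sX_paint E.gp E.card3 σ)
      (fun v hv => cX_paint E.gp E.card3 σ hv) (hullC_paint E.gp E.card3 σ) hV

end qf

end Crest.Agent.R143.QFZx490
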