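import Crest.Agent.R143.QuL_810
import Crest.Agent.R143.QuF_778
import Crest.Agent.R143.Uniq_323
import Crest.Agent.R143.Ext_358
import Crest.Agent.R143.StGlue_867
import Crest.Agent.R143.R5q_166

/-!
# Row 143 (S0194), RIG box Q2: the revealed set off a window, CMap level (helper535)

(notes 3970 (R-f), 810's DOM, 501's two sets.)  `M` closed map, `H` hull cells, `R` white strips,
`T` = cells of the enlarged window (`T2`), `Z k` (`k : κ`, one or two sides) = 323's zones of the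
strand pieces off the window (`T1`).

* `Zt`, `Bw`, `Pt` : blocking cells, white boundary, revealed cells `= A ∪ Ext' ∪ Bw`, where `Ext'`
  = cells joined to `H` off `A`, off the white cells of `R` and off `T`; `stopT` : decided by itself
* `Ac`, `EvP`, `Fix`, `fam`, `PP`, `stop` : the family of the strand pieces (`q : κ → D × ℕ`), ONE
  stopping set
* `gf` : the giants (left cells, right cells of the pieces; `Ext' ∪ Bw` without the pieces), `Gd`,
  `rr`, `fa`, `gts` : giants as a function of the revealed colours, 778's `Gts`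
* `win` : **second moment of one block sum relative to the weight off the window** (810's
  `part2_blk` with all its hypotheses on giants, merging and locality proved)
* `Wn` : the hypotheses at one colouring; `mr_agree`, `mr_blk`, `harm` : locality and merging
-/

set_option autoImplicit false
set_option linter.unusedSectionVars false

noncomputable section

open scoped Classical

namespace Crest.Agent.R143.PLx535

open Crest.Agent.R143.Frame1x395 Crest.Agent.R143.Frame2x395 Crest.Agent.R143.Frame3x395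
  Crest.Agent.R143.Frame4x395 Crest.Agent.R143.Frame8x395 Crest.Agent.R143.Frame9x395
  Crest.Agent.R143.NonXx592 Crest.Agent.R143.Coarsex166 Crest.Agent.R143.Runx535
  Crest.Agent.R143.Gntx535 Crest.Agent.R143.Resax778 Crest.Agent.R143.Partx778
  Crest.Agent.R143.K33x137 Crest.Agent.R143.Uniqx323
open Extx358 (Ext Ad)
open R5bx166 (Nb CCon nb_mono)
open StGluex867 (Fam out_eq out_none pick pick_eq pick_none pick_adp)

variable {D C : Type} [Fintype D] [Fintype C] {M : CMap D C} {H R T : Set C}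

/-! ### the exterior off `T` -/

section outT

variable {A A' : Finset C} {σ τ : C → ZMod 2}

/-- blocking cells -/
def Zt (R T : Set C) (A : Finset C) (σ : C → ZMod 2) : Set C :=
  {c | c ∈ A ∨ (c ∈ R ∧ σ c = 0) ∨ c ∈ T}

/-- white boundary of the exterior -/
def Bw (M : CMap D C) (H R T : Set C) (A : Finset C) (σ : C → ZMod 2) : Set C :=
  {c | c ∈ R ∧ σ c = 0 ∧ c ∉ T ∧ ∃ e, Ext M H (Zt R T A σ) e ∧ Ad M e c}

/-- revealed cells -/
def Pt (M : CMap D C) (H R T : Set C) (A : Finset C) (σ : C → ZMod 2) : Finset C :=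
  Finset.univ.filter fun c => c ∈ A ∨ Ext M H (Zt R T A σ) c ∨ c ∈ Bw M H R T A σ

theorem mem_Pt {c : C} : c ∈ Pt M H R T A σ ↔
    c ∈ A ∨ Ext M H (Zt R T A σ) c ∨ c ∈ Bw M H R T A σ := by
  unfold Pt
  rw [Finset.mem_filter]
  exact ⟨fun h => h.2, fun h => ⟨Finset.mem_univ _, h⟩⟩

/-- **the revealed cells are decided by themselves** -/
theorem stopT (hH : ∀ c ∈ H, c ∉ R) (h : ∀ c ∈ Pt M H R T A σ, τ c = σ c) :
    (∀ c, Ext M H (Zt R T A τ) c ↔ Ext M H (Zt R T A σ) c) ∧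
      Bw M H R T A τ = Bw M H R T A σ ∧ Pt M H R T A τ = Pt M H R T A σ := by
  have e3 : ∀ c, Ext M H (Zt R T A τ) c → Ext M H (Zt R T A σ) c := by
    intro c hc
    induction hc with
    | hull h1 h2 =>
      refine Ext.hull h1 fun h3 => ?_
      rcases h3 with h3 | h3 | h3
      · exact h2 (Or.inl h3)
      · exact hH _ h1 h3.1
      · exact h2 (Or.inr (Or.inr h3))
    | @step c c' h1 h2 h3 ih =>
      refine Ext.step ih h2 fun h4 => ?_
      rcases h4 with h4 | h4 | h4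
      · exact h3 (Or.inl h4)
      · by_cases hT : c' ∈ T
        · exact h3 (Or.inr (Or.inr hT))
        · have h5 : τ c' = σ c' := h _ (mem_Pt.2 (Or.inr (Or.inr ⟨h4.1, h4.2, hT, c, ih, h2⟩)))
          exact h3 (Or.inr (Or.inl ⟨h4.1, h5.trans h4.2⟩))
      · exact h3 (Or.inr (Or.inr h4))
  have e4 : ∀ c, Ext M H (Zt R T A σ) c → Ext M H (Zt R T A τ) c := by
    intro c hc
    refine hc.mono fun c' hc' h5 => ?_
    have h6 : τ c' = σ c' := h _ (mem_Pt.2 (Or.inr (Or.inl hc')))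
    rcases h5 with h5 | h5 | h5
    · exact hc'.off (Or.inl h5)
    · exact hc'.off (Or.inr (Or.inl ⟨h5.1, h6.symm.trans h5.2⟩))
    · exact hc'.off (Or.inr (Or.inr h5))
  have e5 : Bw M H R T A τ = Bw M H R T A σ := by
    ext c
    constructor
    · rintro ⟨h1, h2, h3, e, h4, h5⟩
      refine ⟨h1, ?_, h3, e, e3 _ h4, h5⟩
      by_cases hz : c ∈ Zt R T A σ
      · rcases hz with hz | hz | hz
        · rw [← h c (mem_Pt.2 (Or.inl hz))]
          exact h2
        · exact hz.2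
        · exact absurd hz h3
      · rw [← h c (mem_Pt.2 (Or.inr (Or.inl (Ext.step (e3 _ h4) h5 hz))))]
        exact h2
    · rintro ⟨h1, h2, h3, e, h4, h5⟩
      have h6 : τ c = σ c := h c (mem_Pt.2 (Or.inr (Or.inr ⟨h1, h2, h3, e, h4, h5⟩)))
      exact ⟨h1, h6.trans h2, h3, e, e4 _ h4, h5⟩
  refine ⟨fun c => ⟨e3 c, e4 c⟩, e5, ?_⟩
  ext c
  rw [mem_Pt, mem_Pt, e5]
  constructor
  · rintro (h1 | h1 | h1)
    · exact Or.inl h1
    · exact Or.inr (Or.inl (e3 _ h1))
    · exact Or.inr (Or.inr h1)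
  · rintro (h1 | h1 | h1)
    · exact Or.inl h1
    · exact Or.inr (Or.inl (e4 _ h1))
    · exact Or.inr (Or.inr h1)

end outT

/-! ### the family of the strand pieces -/

section fam

variable {κ : Type} [Fintype κ] {Z : κ → Zn M} {q q' : κ → D × ℕ} {σ τ : C → ZMod 2}

/-- the cells of the pieces -/
def Ac (M : CMap D C) (q : κ → D × ℕ) (σ : C → ZMod 2) : Finset C :=
  Finset.univ.biUnion fun k => Uniqx323.Sc M σ (q k).1 (q k).2

theorem mem_Ac {c : C} : c ∈ Ac M q σ ↔ ∃ k, c ∈ Uniqx323.Sc M σ (q k).1 (q k).2 := by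
  unfold Ac
  rw [Finset.mem_biUnion]
  exact ⟨fun ⟨k, _, h⟩ => ⟨k, h⟩, fun ⟨k, h⟩ => ⟨k, Finset.mem_univ _, h⟩⟩

/-- the event: every piece is a strand in its zone -/
def EvP (Z : κ → Zn M) (q : κ → D × ℕ) (σ : C → ZMod 2) : Prop :=
  ∀ k, Strd M (Z k) 1 σ (q k).1 (q k).2

/-- the revealed cells of the pieces `q` -/
def Po (M : CMap D C) (H R T : Set C) (q : κ → D × ℕ) (σ : C → ZMod 2) : Finset C :=
  Pt M H R T (Ac M q σ) σ

/-- the fixed data -/
structure Fix (M : CMap D C) (H R T : Set C) (Z : κ → Zn M) : Prop where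
  /-- the hull cells are not in the white strips -/
  hR : ∀ c ∈ H, c ∉ R
  /-- the regions of the two sides are disjoint -/
  dis : ∀ k k', k ≠ k' → Disjoint (Z k).R (Z k').R
  /-- the windows of the columns are off the white strips and off the window -/
  KR : ∀ k, Disjoint (Z k).K R
  KT : ∀ k, Disjoint (Z k).K T
  /-- the top zones are joined to the hull off all the strips -/
  top : ∀ k, ∀ t ∈ (Z k).T, Ext M H ((⋃ j, (Z j).R) ∪ R ∪ T) t
  /-- the exteriors are connected (`H` = one cell) -/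
  con : ∀ Y : Set C, CCon M {c | Ext M H Y c}

omit [Fintype C] in
theorem sc_R (h : EvP Z q σ) {k : κ} {c : C} (hc : c ∈ Uniqx323.Sc M σ (q k).1 (q k).2) : c ∈ (Z k).R := by
  unfold Uniqx323.Sc at hc
  rcases Finset.mem_union.1 hc with h1 | h1
  · exact (h k).lR h1
  · exact (h k).rR h1

omit [Fintype D] [Fintype C] in
/-- linked cells off the blocking cells -/
theorem lk_ext {Y B : Set C} (hB : ∀ c ∈ B, c ∉ Y) {u v : C} (h : Lk M B u v) :
    Ext M H Y u ↔ Ext M H Y v := by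
  have step : ∀ u v, v ∈ B → Ed M u v → Ext M H Y u → Ext M H Y v := by
    rintro u v hv ⟨d, rfl, rfl⟩ hu
    by_cases hd : d ∈ M.live
    · exact Ext.step hu ⟨d, hd, rfl, rfl⟩ (hB _ hv)
    · rwa [← M.dead d hd]
  induction h with
  | rel u v h => exact ⟨step u v h.2.1 h.2.2, step v u h.1 h.2.2.symm⟩
  | refl u => exact Iff.rfl
  | symm u v _ ih => exact ih.symm
  | trans u v w _ _ ih1 ih2 => exact ih1.trans ih2

/-- the top zones are in the exterior -/
theorem top_ext (F : Fix M H R T Z) (h : EvP Z q σ) {k : κ} {t : C} (ht : t ∈ (Z k).T) :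
    Ext M H (Zt R T (Ac M q σ) σ) t := by
  refine (F.top k t ht).mono fun c hc h1 => hc.off ?_
  rcases h1 with h1 | h1 | h1
  · obtain ⟨j, hj⟩ := mem_Ac.1 h1
    exact Or.inl (Or.inl (Set.mem_iUnion.2 ⟨j, sc_R h hj⟩))
  · exact Or.inl (Or.inr h1.1)
  · exact Or.inr h1

/-- the cells seen from the top are in the exterior -/
theorem ab_ext (F : Fix M H R T Z) (h : EvP Z q σ) {k : κ} {c : C}
    (hc : c ∈ Ab M (Z k) (Uniqx323.Sc M σ (q k).1 (q k).2 : Set C)) :
    Ext M H (Zt R T (Ac M q σ) σ) c := by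
  obtain ⟨-, -, t, ht, hl⟩ := hc
  refine (lk_ext (fun c hc h1 => ?_) hl).2 (top_ext F h ht)
  rcases hc with ⟨hK, hS⟩ | hc
  · rcases h1 with h1 | h1 | h1
    · obtain ⟨j, hj⟩ := mem_Ac.1 h1
      by_cases e : j = k
      · subst e
        exact hS (Finset.mem_coe.2 hj)
      · exact Set.disjoint_left.1 (F.dis j k e) (sc_R h hj) ((Z k).KR hK)
    · exact Set.disjoint_left.1 (F.KR k) hK h1.1
    · exact Set.disjoint_left.1 (F.KT k) hK h1
  · exact (top_ext F h hc).off h1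

/-- **the event is decided by the revealed cells** -/
theorem ev_dec (F : Fix M H R T Z) (h : EvP Z q σ) (ha : ∀ c ∈ Po M H R T q σ, τ c = σ c) :
    EvP Z q τ ∧ ∀ k, ∀ j ≤ (q k).2, P M (cfg M τ) (q k).1 j = P M (cfg M σ) (q k).1 j := by
  have key : ∀ k, Strd M (Z k) 1 τ (q k).1 (q k).2 ∧
      ∀ j ≤ (q k).2, P M (cfg M τ) (q k).1 j = P M (cfg M σ) (q k).1 j := fun k =>
    (h k).stable (O := (Po M H R T q σ : Set C))
      (fun c hc => Finset.mem_coe.2 (mem_Pt.2 (Or.inl (mem_Ac.2 ⟨k, hc⟩))))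
      (fun c hc => Finset.mem_coe.2 (mem_Pt.2 (Or.inr (Or.inl (ab_ext F h hc)))))
      fun c hc => ha c (Finset.mem_coe.1 hc)
  exact ⟨fun k => (key k).1, fun k => (key k).2⟩

theorem ac_eq (h : ∀ k, ∀ j ≤ (q k).2, P M (cfg M τ) (q k).1 j = P M (cfg M σ) (q k).1 j) :
    ∀ k, wl M (cfg M τ) (q k).1 (q k).2 = wl M (cfg M σ) (q k).1 (q k).2 ∧
      wr M (cfg M τ) (q k).1 (q k).2 = wr M (cfg M σ) (q k).1 (q k).2 := by
  intro k
  constructor
  · ext c
    rw [mem_wl, mem_wl]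
    exact ⟨fun ⟨j, hj, e⟩ => ⟨j, hj, by rw [← h k j hj]; exact e⟩,
      fun ⟨j, hj, e⟩ => ⟨j, hj, by rw [h k j hj]; exact e⟩⟩
  · ext c
    rw [mem_wr, mem_wr]
    exact ⟨fun ⟨j, hj, e⟩ => ⟨j, hj, by rw [← h k j hj]; exact e⟩,
      fun ⟨j, hj, e⟩ => ⟨j, hj, by rw [h k j hj]; exact e⟩⟩

/-- **everything is decided by the revealed cells** -/
theorem dec (F : Fix M H R T Z) (h : EvP Z q σ) (ha : ∀ c ∈ Po M H R T q σ, τ c = σ c) :
    EvP Z q τ ∧ (∀ k, wl M (cfg M τ) (q k).1 (q k).2 = wl M (cfg M σ) (q k).1 (q k).2 ∧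
      wr M (cfg M τ) (q k).1 (q k).2 = wr M (cfg M σ) (q k).1 (q k).2) ∧
    Ac M q τ = Ac M q σ ∧
    (∀ c, Ext M H (Zt R T (Ac M q τ) τ) c ↔ Ext M H (Zt R T (Ac M q σ) σ) c) ∧
    Bw M H R T (Ac M q τ) τ = Bw M H R T (Ac M q σ) σ ∧
    Po M H R T q τ = Po M H R T q σ := by
  obtain ⟨h1, h2⟩ := ev_dec F h ha
  have h3 := ac_eq h2
  have h4 : Ac M q τ = Ac M q σ := by
    unfold Ac
    refine Finset.biUnion_congr rfl fun k _ => ?_
    unfold Uniqx323.Sc
    rw [(h3 k).1, (h3 k).2]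
  obtain ⟨h5, h6, h7⟩ := stopT F.hR ha
  refine ⟨h1, h3, h4, ?_, ?_, ?_⟩
  · intro c
    rw [h4]
    exact h5 c
  · rw [h4]
    exact h6
  · unfold Po
    rw [h4]
    exact h7

theorem uni (h : EvP Z q σ) (h' : EvP Z q' σ) : q = q' := by
  funext k
  obtain ⟨e1, e2⟩ := Uniqx323.uniq (h k) (h' k)
  exact Prod.ext e1 e2

/-- **867's family** -/
theorem fam (F : Fix M H R T Z) : Fam (Po M H R T) (EvP Z) where
  stp q σ τ h ha := ⟨(dec F h ha).1, (dec F h ha).2.2.2.2.2⟩
  uni q q' σ h h' := by rw [uni h h']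

/-- the revealed set -/
def PP (M : CMap D C) (H R T : Set C) (Z : κ → Zn M) : (C → ZMod 2) → Finset C :=
  StGluex867.out (Po M H R T) (EvP Z)

/-- **ONE stopping set** -/
theorem stop (F : Fix M H R T Z) : StopSet (PP M H R T Z) := StGluex867.stop (fam F)

theorem pp_eq (F : Fix M H R T Z) (h : EvP Z q σ) : PP M H R T Z σ = Po M H R T q σ :=
  out_eq (fam F) h

end fam

/-! ### the giants -/

section giants

variable {κ : Type} [Fintype κ]

/-- a good family of giants: disjoint, connected -/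
def Gd (M : CMap D C) (S : Option (κ × Bool) → Finset C) : Prop :=
  (∀ i j c, c ∈ S i → c ∈ S j → i = j) ∧
    ∀ i, ∀ c ∈ S i, ∀ c' ∈ S i, Relation.EqvGen (AdjS M (S i)) c c'

/-- the family used in the coarse map -/
def fa (M : CMap D C) (o : Option (Option (κ × Bool) → Finset C)) : Option (κ × Bool) → Finset C :=
  match o with
  | some S => if Gd M S then S else fun _ => ∅
  | none => fun _ => ∅

/-- the index is good -/
def Hg (M : CMap D C) (o : Option (Option (κ × Bool) → Finset C)) : Prop :=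
  ∃ S, o = some S ∧ Gd M S

theorem fa_gd (o : Option (Option (κ × Bool) → Finset C)) : Gd M (fa M o) := by
  have h0 : Gd M (fun _ : Option (κ × Bool) => (∅ : Finset C)) :=
    ⟨fun _ _ _ h => absurd h (Finset.notMem_empty _),
      fun _ _ h => absurd h (Finset.notMem_empty _)⟩
  unfold fa
  split
  · split_ifs with h
    · exact h
    · exact h0
  · exact h0

theorem fa_some {S : Option (κ × Bool) → Finset C} (h : Gd M S) : fa M (some S) = S := by
  unfold fa
  simp only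
  rw [if_pos h]

/-- the cells of the coarse map -/
abbrev Cq (M : CMap D C) (o : Option (Option (κ × Bool) → Finset C)) : Type :=
  GQ (fa M o) (fa_gd o).1

instance (o : Option (Option (κ × Bool) → Finset C)) : Finite (Cq M o) := Quotient.finite _

instance (o : Option (Option (κ × Bool) → Finset C)) : Fintype (Cq M o) := Fintype.ofFinite _

/-- the contraction -/
abbrev pq (M : CMap D C) (o : Option (Option (κ × Bool) → Finset C)) : C → Cq M o :=
  gq (fa M o) (fa_gd o).1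

theorem pq_con (o : Option (Option (κ × Bool) → Finset C)) : ClsCon M (pq M o) :=
  gq_con (fa_gd o).2

/-- the revealed cells -/
def Eq (M : CMap D C) (o : Option (Option (κ × Bool) → Finset C)) : Finset C :=
  Finset.univ.biUnion (fa M o)

theorem mem_Eq {o : Option (Option (κ × Bool) → Finset C)} {c : C} :
    c ∈ Eq M o ↔ ∃ i, c ∈ fa M o i := by
  unfold Eq
  rw [Finset.mem_biUnion]
  exact ⟨fun ⟨i, _, h⟩ => ⟨i, h⟩, fun ⟨i, h⟩ => ⟨i, Finset.mem_univ _, h⟩⟩

/-- the prescribed colours -/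
def ch (M : CMap D C) (o : Option (Option (κ × Bool) → Finset C)) (c : C) : ZMod 2 :=
  if ∃ k, c ∈ fa M o (some (k, true)) then 1 else 0

/-- the colours of the giants -/
def vq (M : CMap D C) (o : Option (Option (κ × Bool) → Finset C)) (x : Cq M o) : ZMod 2 :=
  if ∃ k, ∃ c ∈ fa M o (some (k, true)), pq M o c = x then 1 else 0

theorem ch_eq {o : Option (Option (κ × Bool) → Finset C)} {i : Option (κ × Bool)} {c : C}
    (h : c ∈ fa M o i) : ch M o c = if ∃ k, i = some (k, true) then 1 else 0 := by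
  unfold ch
  congr 1
  exact propext ⟨fun ⟨k, hk⟩ => ⟨k, (fa_gd o).1 _ _ _ h hk⟩, fun ⟨k, hk⟩ => ⟨k, hk ▸ h⟩⟩

/-- **778's `Gts`** -/
theorem gts (o : Option (Option (κ × Bool) → Finset C)) :
    Gts (pq M o) (Eq M o) (ch M o) ((Eq M o).image (pq M o)) (vq M o) where
  surj := Quotient.mk_surjective
  inj c c' hc e := by
    rcases gq_eq.1 e with h | ⟨i, h1, -⟩
    · exact h
    · exact absurd (mem_Eq.2 ⟨i, h1⟩) hc
  mem c hc := Finset.mem_image_of_mem _ hc
  ex a ha := by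
    obtain ⟨c, hc, e⟩ := Finset.mem_image.1 ha
    exact ⟨c, hc, e⟩
  col c hc := by
    obtain ⟨i, hi⟩ := mem_Eq.1 hc
    unfold ch vq
    congr 1
    refine propext ⟨fun ⟨k, hk⟩ => ⟨k, c, hk, rfl⟩, ?_⟩
    rintro ⟨k, c', h1, h2⟩
    rcases gq_eq.1 h2 with h | ⟨j, h3, h4⟩
    · exact ⟨k, h ▸ h1⟩
    · have := (fa_gd o).1 _ _ _ h1 h3
      subst this
      exact ⟨k, h4⟩

theorem card_gts (o : Option (Option (κ × Bool) → Finset C)) :
    ((Eq M o).image (pq M o)).card ≤ 2 * Fintype.card κ + 1 := by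
  have h := gq_card (S := fa M o) (hS := (fa_gd o).1)
  rw [Fintype.card_option, Fintype.card_prod, Fintype.card_bool, Nat.mul_comm] at h
  exact h

/-- a colouring which has the prescribed colours on the giants is constant on the classes -/
theorem isC_glue (o : Option (Option (κ × Bool) → Finset C)) (μ : C → ZMod 2) :
    IsC (coarse M (pq M o) (pq_con o)) ∅ (cfg M (glue (Eq M o) (ch M o) μ)) := by
  have key : ∀ c c', pq M o c = pq M o c' →
      glue (Eq M o) (ch M o) μ c = glue (Eq M o) (ch M o) μ c' := by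
    intro c c' e
    rcases gq_eq.1 e with h | ⟨i, h1, h2⟩
    · rw [h]
    · rw [glue_on (mem_Eq.2 ⟨i, h1⟩), glue_on (mem_Eq.2 ⟨i, h2⟩), ch_eq h1, ch_eq h2]
  have hs : ∀ x : Cq M o, ∃ c, pq M o c = x := Quotient.mk_surjective
  obtain ⟨ψ, hψ⟩ : ∃ ψ : Cq M o → ZMod 2, (fun c => ψ (pq M o c)) = glue (Eq M o) (ch M o) μ :=
    ⟨fun x => glue (Eq M o) (ch M o) μ (hs x).choose,
      funext fun c => key _ _ (hs (pq M o c)).choose_spec⟩
  rw [← hψ, ← cfg_coarse (hπ := pq_con o)]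
  exact cfg_isC _

variable {Z : κ → Zn M} {q q' : κ → D × ℕ} {σ τ : C → ZMod 2}

/-- the giants of the pieces `q` -/
def gf (M : CMap D C) (H R T : Set C) (q : κ → D × ℕ) (σ : C → ZMod 2) :
    Option (κ × Bool) → Finset C
  | none => (Pt M H R T (Ac M q σ) σ).filter fun c => c ∉ Ac M q σ
  | some (k, true) => wl M (cfg M σ) (q k).1 (q k).2
  | some (k, false) => wr M (cfg M σ) (q k).1 (q k).2

theorem wl_Ac {k : κ} {c : C} (h : c ∈ wl M (cfg M σ) (q k).1 (q k).2) : c ∈ Ac M q σ :=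
  mem_Ac.2 ⟨k, Finset.mem_union.2 (Or.inl h)⟩

theorem wr_Ac {k : κ} {c : C} (h : c ∈ wr M (cfg M σ) (q k).1 (q k).2) : c ∈ Ac M q σ :=
  mem_Ac.2 ⟨k, Finset.mem_union.2 (Or.inr h)⟩

theorem gf_union {c : C} : (∃ i, c ∈ gf M H R T q σ i) ↔ c ∈ Po M H R T q σ := by
  constructor
  · rintro ⟨i, hi⟩
    rcases i with _ | ⟨k, b⟩
    · exact (Finset.mem_filter.1 hi).1
    · cases b
      · exact mem_Pt.2 (Or.inl (wr_Ac hi))
      · exact mem_Pt.2 (Or.inl (wl_Ac hi))
  · intro h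
    by_cases hA : c ∈ Ac M q σ
    · obtain ⟨k, hk⟩ := mem_Ac.1 hA
      rcases Finset.mem_union.1 hk with h1 | h1
      · exact ⟨some (k, true), h1⟩
      · exact ⟨some (k, false), h1⟩
    · exact ⟨none, Finset.mem_filter.2 ⟨h, hA⟩⟩

/-- **the giants are good** -/
theorem gf_gd (F : Fix M H R T Z) (h : EvP Z q σ) : Gd M (gf M H R T q σ) := by
  constructor
  · -- disjoint
    have hz : ∀ {k k' : κ} {c : C}, c ∈ (Z k).R → c ∈ (Z k').R → k = k' := by
      intro k k' c h1 h2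
      by_contra hne
      exact Set.disjoint_left.1 (F.dis k k' hne) h1 h2
    have hl : ∀ {k : κ} {c : C}, c ∈ wl M (cfg M σ) (q k).1 (q k).2 →
        c ∈ (Z k).R ∧ σ c = 1 := fun {k c} hc => ⟨(h k).lR hc, (h k).lcol hc⟩
    have hr : ∀ {k : κ} {c : C}, c ∈ wr M (cfg M σ) (q k).1 (q k).2 →
        c ∈ (Z k).R ∧ σ c = 1 + 1 := fun {k c} hc => ⟨(h k).rR hc, (h k).rcol hc⟩
    intro i j c hi hj
    rcases i with _ | ⟨k, b⟩ <;> rcases j with _ | ⟨k', b'⟩
    · rfl
    · exfalso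
      have h0 := (Finset.mem_filter.1 hi).2
      cases b'
      · exact h0 (wr_Ac hj)
      · exact h0 (wl_Ac hj)
    · exfalso
      have h0 := (Finset.mem_filter.1 hj).2
      cases b
      · exact h0 (wr_Ac hi)
      · exact h0 (wl_Ac hi)
    · cases b <;> cases b'
      · rw [hz (hr hi).1 (hr hj).1]
      · exact absurd ((hl hj).2.symm.trans (hr hi).2) (by decide)
      · exact absurd ((hl hi).2.symm.trans (hr hj).2) (by decide)
      · rw [hz (hl hi).1 (hl hj).1]
  · intro i c hc c' hc'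
    rcases i with _ | ⟨k, b⟩
    · -- the exterior
      have hadj : ∀ {a b : C}, a ∈ gf M H R T q σ none → b ∈ gf M H R T q σ none → Ad M a b →
          AdjS M (gf M H R T q σ none) a b := fun ha hb hab => ⟨ha, hb, hab⟩
      have hex : ∀ {e : C}, Ext M H (Zt R T (Ac M q σ) σ) e → e ∈ gf M H R T q σ none :=
        fun he => Finset.mem_filter.2 ⟨mem_Pt.2 (Or.inr (Or.inl he)), fun h1 => he.off (Or.inl h1)⟩
      have toE : ∀ c ∈ gf M H R T q σ none, ∃ e, Ext M H (Zt R T (Ac M q σ) σ) e ∧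
          Relation.EqvGen (AdjS M (gf M H R T q σ none)) e c := by
        intro c hc
        obtain ⟨h1, h2⟩ := Finset.mem_filter.1 hc
        rcases mem_Pt.1 h1 with h3 | h3 | ⟨-, -, -, e, h4, h5⟩
        · exact absurd h3 h2
        · exact ⟨c, h3, Relation.EqvGen.refl _⟩
        · exact ⟨e, h4, Relation.EqvGen.rel _ _ (hadj (hex h4) hc h5)⟩
      obtain ⟨e, he, g1⟩ := toE c hc
      obtain ⟨e', he', g2⟩ := toE c' hc'
      have g3 : Relation.EqvGen (AdjS M (gf M H R T q σ none)) e e' := by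
        have g4 := F.con (Zt R T (Ac M q σ) σ) e he e' he'
        clear g1 g2 he he'
        induction g4 with
        | rel a b hab => exact Relation.EqvGen.rel _ _ (hadj (hex hab.1) (hex hab.2.1) hab.2.2)
        | refl a => exact Relation.EqvGen.refl _
        | symm a b _ ih => exact ih.symm
        | trans a b c _ _ ih1 ih2 => exact ih1.trans _ _ _ ih2
      exact ((g1.symm _ _).trans _ _ _ g3).trans _ _ _ g2
    · cases b
      · exact wr_con (cfg_isC σ) (h k).occ hc hc'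
      · exact wl_con (cfg_isC σ) (h k).occ hc hc'

theorem gf_dec (F : Fix M H R T Z) (h : EvP Z q σ) (ha : ∀ c ∈ Po M H R T q σ, τ c = σ c) :
    gf M H R T q τ = gf M H R T q σ := by
  obtain ⟨h1, h2, h3, h4, h5, h6⟩ := dec F h ha
  funext i
  rcases i with _ | ⟨k, b⟩
  · have h6' : Pt M H R T (Ac M q τ) τ = Pt M H R T (Ac M q σ) σ := h6
    show (Pt M H R T (Ac M q τ) τ).filter (fun c => c ∉ Ac M q τ) =
      (Pt M H R T (Ac M q σ) σ).filter fun c => c ∉ Ac M q σ
    rw [h6', h3]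
  · cases b
    · exact (h2 k).2
    · exact (h2 k).1

/-- **the giants as a function of the revealed colours** -/
def rr (M : CMap D C) (H R T : Set C) (Z : κ → Zn M) :
    (C → ZMod 2) → Option (Option (κ × Bool) → Finset C) :=
  pick (EvP Z) (fun q σ => some (gf M H R T q σ)) none

theorem rr_eq (h : EvP Z q σ) : rr M H R T Z σ = some (gf M H R T q σ) :=
  pick_eq (fun q q' σ h h' => by rw [uni h h']) h

theorem rr_adp (F : Fix M H R T Z) : Adp (PP M H R T Z) (rr M H R T Z) :=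
  pick_adp (fam F) (fun q q' σ h h' => by rw [uni h h'])
    fun q σ τ h ha => by rw [gf_dec F h ha]

theorem rr_fa (F : Fix M H R T Z) (h : EvP Z q σ) : fa M (rr M H R T Z σ) = gf M H R T q σ := by
  rw [rr_eq h, fa_some (gf_gd F h)]

theorem rr_Eq (F : Fix M H R T Z) (h : EvP Z q σ) :
    Eq M (rr M H R T Z σ) = Po M H R T q σ := by
  ext c
  rw [mem_Eq, rr_fa F h, gf_union]

theorem rr_Hg (F : Fix M H R T Z) (h : EvP Z q σ) : Hg M (rr M H R T Z σ) :=
  ⟨_, rr_eq h, gf_gd F h⟩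

/-- the revealed cells are the giants -/
theorem pp_sub (F : Fix M H R T Z) (σ : C → ZMod 2) (hH : Hg M (rr M H R T Z σ)) :
    PP M H R T Z σ ⊆ Eq M (rr M H R T Z σ) := by
  by_cases h : ∃ q, EvP Z q σ
  · obtain ⟨q, hq⟩ := h
    rw [rr_Eq F hq, pp_eq F hq]
  · exfalso
    obtain ⟨S, h1, -⟩ := hH
    unfold rr at h1
    rw [pick_none h] at h1
    exact absurd h1 (by simp)

end giants

/-! ### the second moment of one block -/

section win

open C2SBx395 (Free)

variable {κ : Type} [Fintype κ] {Z : κ → Zn M} {O : (C → ZMod 2) → Finset C} {L : Finset C}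
  {G : D} {σ : C → ZMod 2} {q : κ → D × ℕ} {A : ZMod 3 → Set C} {i : ZMod 3}

/-- the hypotheses at one colouring `σ` : `q` = pieces, `A`, `G` = giants and root gap of the full
revealed set `O σ` -/
structure Wn (M : CMap D C) (H R T : Set C) (Z : κ → Zn M) (O : (C → ZMod 2) → Finset C)
    (L : Finset C) (G : D) (σ : C → ZMod 2) (q : κ → D × ℕ) (A : ZMod 3 → Set C)
    (i : ZMod 3) : Prop where
  ev : EvP Z q σ
  ex : QuFx778.Ex M A i G σ
  oo : ∀ c, c ∈ O σ ↔ ¬ Free A c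
  po : ∀ c ∈ Po M H R T q σ, c ∈ O σ
  ol : ∀ c ∈ O σ, c ∈ L → c ∈ Po M H R T q σ
  wi : ∀ c ∈ gf M H R T q σ none, c ∈ A (i + 2)
  lo : ∀ τ k, ∃ b, P M (cfg M (mix O σ τ)) (out M G) b = (q k).1

theorem Wn.mix_eq (W : Wn M H R T Z O L G σ q A i) (τ : C → ZMod 2) :
    mix O σ τ = QuFx778.mu A σ τ := by
  have e : O σ = QuFx778.Eo A := by
    ext c
    rw [W.oo, QuFx778.mem_Eo]
  unfold mix QuFx778.mu
  rw [e]

/-- the recoloured configuration -/
def mr (M : CMap D C) (H R T : Set C) (Z : κ → Zn M) (O : (C → ZMod 2) → Finset C)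
    (σ τ : C → ZMod 2) : C → ZMod 2 :=
  glue (Eq M (rr M H R T Z σ)) (ch M (rr M H R T Z σ)) (mix O σ τ)

theorem mr_gf (F : Fix M H R T Z) (W : Wn M H R T Z O L G σ q A i) (τ : C → ZMod 2)
    {j : Option (κ × Bool)} {c : C} (hc : c ∈ gf M H R T q σ j) :
    mr M H R T Z O σ τ c = if ∃ k, j = some (k, true) then 1 else 0 := by
  have h1 : c ∈ fa M (rr M H R T Z σ) j := by rw [rr_fa F W.ev]; exact hc
  unfold mr
  rw [glue_on (mem_Eq.2 ⟨j, h1⟩), ch_eq h1]

theorem mr_off (F : Fix M H R T Z) (W : Wn M H R T Z O L G σ q A i) (τ : C → ZMod 2)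
    {c : C} (hc : c ∉ Po M H R T q σ) : mr M H R T Z O σ τ c = mix O σ τ c := by
  unfold mr
  rw [glue_off (by rw [rr_Eq F W.ev]; exact hc)]

/-- the colours of the pieces -/
theorem sig_piece (h : EvP Z q σ) {k : κ} {b : Bool} {c : C}
    (hc : c ∈ gf M H R T q σ (some (k, b))) : σ c = if b then 1 else 0 := by
  cases b
  · have : σ c = 1 + 1 := (h k).rcol hc
    rw [this]; rfl
  · exact (h k).lcol hc

/-- on the pieces nothing is recoloured -/
theorem mr_piece (F : Fix M H R T Z) (W : Wn M H R T Z O L G σ q A i) (τ : C → ZMod 2)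
    {k : κ} {b : Bool} {c : C} (hc : c ∈ gf M H R T q σ (some (k, b))) :
    mr M H R T Z O σ τ c = σ c := by
  rw [mr_gf F W τ hc, sig_piece W.ev hc]
  cases b
  · rw [if_neg (by rintro ⟨k', hk'⟩; simp at hk')]
    rfl
  · rw [if_pos ⟨k, rfl⟩]
    rfl

/-- **locality** : the recoloured configuration agrees on what is seen from the root gap -/
theorem mr_agree (F : Fix M H R T Z) (W : Wn M H R T Z O L G σ q A i) (τ : C → ZMod 2) {c : C}
    (hc : c ∈ Reachx778.Rch M (QuFx778.Bd M A (i + 2)) {M.cell (M.rho G)} ∪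
      QuFx778.Bd M A (i + 2)) : mr M H R T Z O σ τ c = QuFx778.mt A i τ c := by
  rw [← W.ex.agree (σ := σ) (τ := τ) hc]
  by_cases hE : c ∈ Po M H R T q σ
  · obtain ⟨j, hj⟩ := gf_union.2 hE
    rcases j with _ | ⟨k, b⟩
    · have h1 := W.wi c hj
      have hb : c ∈ QuFx778.Bd M A (i + 2) := by
        rcases hc with hc | hc
        · exact absurd h1 (QuFx778.rch_not
            (fun h => (C2SBx395.z3a i).2.1 (W.ex.gi.disj _ _ _ W.ex.root.r1 h)) hc)
        · exact hc
      rw [mr_gf F W τ hj, if_neg (by rintro ⟨k', hk'⟩; simp at hk'), QuFx778.mu_on hb.1,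
        W.ex.w0 hb]
    · rw [mr_piece F W τ hj, ← W.mix_eq, mix_on (W.po c hE)]
  · rw [mr_off F W τ hE, W.mix_eq]

/-- the root gap -/
theorem mr_gap (F : Fix M H R T Z) (W : Wn M H R T Z O L G σ q A i) (τ : C → ZMod 2) :
    Gp M (cfg M (mr M H R T Z O σ τ)) G :=
  Reachx778.gp_loc (W.ex.gap (τ := τ)) W.ex.gs fun _ hc => mr_agree F W τ hc

/-- the root block -/
theorem mr_blk (F : Fix M H R T Z) (W : Wn M H R T Z O L G σ q A i) (τ : C → ZMod 2) :
    blk M (cfg M (mr M H R T Z O σ τ)) G = blk M (cfg M (mix O σ τ)) G := by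
  rw [W.mix_eq, W.ex.blk_mt]
  exact Reachx778.blk_loc (W := QuFx778.Bd M A (i + 2)) (A := {M.cell (M.rho G)})
    (fun _ hc => QuFx778.mt_w hc.1) W.ex.gap W.ex.gs fun _ hc => mr_agree F W τ hc

theorem mr_gs (F : Fix M H R T Z) (W : Wn M H R T Z O L G σ q A i) (τ : C → ZMod 2) :
    Reachx778.GS M (QuFx778.Bd M A (i + 2)) {M.cell (M.rho G)} (mr M H R T Z O σ τ) (out M G) :=
  (Reachx778.gs_out (fun _ hc => QuFx778.mt_w hc.1) (W.ex.gap (τ := τ)) W.ex.gs).congr
    fun _ hc => mr_agree F W τ hc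

/-- the left cells of the root loop are black -/
theorem mr_left (F : Fix M H R T Z) (W : Wn M H R T Z O L G σ q A i) (τ : C → ZMod 2) (n : ℕ) :
    mr M H R T Z O σ τ (M.cell (P M (cfg M (mr M H R T Z O σ τ)) (out M G) n)) = 1 := by
  have h1 := mr_gs F W τ
  have h2 := it_col (cfg_isC (mr M H R T Z O σ τ) : IsC M ∅ _) h1.occ
    (χ := mr M H R T Z O σ τ) (fun d hd => cfg_zero.1 hd) n
  exact h2.trans h1.l

/-- the walk from the root gap -/
theorem mr_walk (F : Fix M H R T Z) (W : Wn M H R T Z O L G σ q A i) (τ : C → ZMod 2) (n : ℕ) :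
    P M (cfg M (mr M H R T Z O σ τ)) (out M G) n = P M (cfg M (mix O σ τ)) (out M G) n := by
  have hg : Reachx778.GS M (QuFx778.Bd M A (i + 2)) {M.cell (M.rho G)} (QuFx778.mt A i τ)
      (out M G) :=
    Reachx778.gs_out (fun _ hc => QuFx778.mt_w hc.1) (W.ex.gap (τ := τ)) W.ex.gs
  rw [(Reachx778.walk_loc (χ' := mr M H R T Z O σ τ) (fun _ hc => QuFx778.mt_w hc.1) hg
    (fun _ hc => mr_agree F W τ hc) n).1, W.mix_eq,
    (Reachx778.walk_loc (χ' := QuFx778.mu A σ τ) (fun _ hc => QuFx778.mt_w hc.1) hg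
    (fun _ hc => W.ex.agree hc) n).1]

/-- the walk of a piece -/
theorem mr_arc (F : Fix M H R T Z) (W : Wn M H R T Z O L G σ q A i) (τ : C → ZMod 2) (k : κ) :
    ∀ j ≤ (q k).2, P M (cfg M (mr M H R T Z O σ τ)) (q k).1 j = P M (cfg M σ) (q k).1 j :=
  (walk_agree (W.ev k).occ fun c hc => by
    rcases Finset.mem_union.1 hc with h | h
    · exact mr_piece (b := true) F W τ h
    · exact mr_piece (b := false) F W τ h).2

/-- **the giants are harmless** -/
theorem harm (F : Fix M H R T Z) (W : Wn M H R T Z O L G σ q A i) (τ : C → ZMod 2)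
    {a : D → ℂ} (sup : ∀ h, a h ≠ 0 → ∀ k, ¬ (M.cell h ∈ (Z k).R ∧ M.cell (M.rho h) ∈ (Z k).R ∧
      M.cell (M.rho (M.rho h)) ∈ (Z k).R)) (c' : Cq M (rr M H R T Z σ)) :
    Harm M (pq M (rr M H R T Z σ)) (cfg M (mr M H R T Z O σ τ)) (out M G) (fun h => a h ≠ 0)
      c' := by
  obtain ⟨c, rfl⟩ : ∃ c, pq M (rr M H R T Z σ) c = c' := Quotient.mk_surjective c'
  have cls : ∀ {d : C} {j : Option (κ × Bool)}, c ∈ gf M H R T q σ j →
      pq M (rr M H R T Z σ) d = pq M (rr M H R T Z σ) c → d ∈ gf M H R T q σ j := by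
    intro d j hc e
    rcases gq_eq.1 e with h | ⟨l, h1, h2⟩
    · rw [h]; exact hc
    · rw [rr_fa F W.ev] at h1 h2
      have := (gf_gd F W.ev).1 _ _ _ h2 hc
      subst this
      exact h1
  by_cases hE : c ∈ Po M H R T q σ
  · obtain ⟨j, hj⟩ := gf_union.2 hE
    have white : (¬ ∃ k, j = some (k, true)) → ∀ n,
        pq M (rr M H R T Z σ) (M.cell (P M (cfg M (mr M H R T Z O σ τ)) (out M G) n)) ≠
          pq M (rr M H R T Z σ) c := by
      intro hj' n e
      have h1 := mr_gf F W τ (cls hj e)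
      rw [if_neg hj', mr_left F W τ n] at h1
      exact absurd h1 (by decide)
    rcases j with _ | ⟨k, b⟩
    · exact Or.inr (Or.inl (white (by rintro ⟨k', hk'⟩; simp at hk')))
    · cases b
      · exact Or.inr (Or.inl (white (by rintro ⟨k', hk'⟩; simp at hk')))
      · refine Or.inr (Or.inr ⟨(q k).1, (q k).2, ?_, ?_, ?_⟩)
        · obtain ⟨b, hb⟩ := W.lo τ k
          exact ⟨b, by rw [mr_walk F W τ b]; exact hb⟩
        · intro h hh n hn e
          rw [mr_arc F W τ k n hn.le] at e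
          have h1 := (W.ev k).inl n hn.le
          have h2 : M.cell (M.rho (P M (cfg M σ) (q k).1 n)) ∈ (Z k).R := (W.ev k).inr n hn.le
          have h3 := (W.ev k).third hn
          rw [e] at h1 h2 h3
          rw [M.rho3] at h3
          exact sup h hh k ⟨h3, h1, h2⟩
        · intro n hn
          have h1 : M.cell (P M (cfg M (mr M H R T Z O σ τ)) (out M G) n) ∈
              wl M (cfg M σ) (q k).1 (q k).2 := cls hj hn
          obtain ⟨l, hl, e⟩ := mem_wl.1 h1
          exact ⟨l, hl, by rw [mr_arc F W τ k l hl]; exact e⟩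
  · refine Or.inl fun c₁ c₂ h1 h2 => ?_
    have key : ∀ d, pq M (rr M H R T Z σ) d = pq M (rr M H R T Z σ) c → d = c := by
      intro d e
      rcases gq_eq.1 e with h | ⟨l, -, h2⟩
      · exact h
      · rw [rr_fa F W.ev] at h2
        exact absurd (gf_union.1 ⟨l, h2⟩) hE
    rw [key c₁ h1, key c₂ h2]

/-- **SECOND MOMENT OF THE ROOT BLOCK RELATIVE TO THE WEIGHT OFF THE WINDOW** -/
theorem win {w : ℂ} (w3 : w ^ 3 = 1) (w1 : w ≠ 1) (wc : (starRingEnd ℂ) w = w ^ 2)
    (hO : StopSet O) (F : Fix M H R T Z) {g g' : (C → ZMod 2) → ℝ} (hg : ∀ σ, 0 ≤ g σ)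
    (hg0 : ∀ σ, 0 ≤ g' σ) (hgg : ∀ σ, g σ ≤ g' σ)
    (hgL : ∀ σ τ, (∀ s ∈ L, τ s = σ s) → g' τ = g' σ) {a : D → ℂ} (ha : Spin M w a)
    (sup : ∀ h, a h ≠ 0 → ∀ k, ¬ (M.cell h ∈ (Z k).R ∧ M.cell (M.rho h) ∈ (Z k).R ∧
      M.cell (M.rho (M.rho h)) ∈ (Z k).R))
    {G : (C → ZMod 2) → D}
    (hW : ∀ σ, g σ ≠ 0 → ∃ q A i, Wn M H R T Z O L (G σ) σ q A i) :
    ∑ σ, ∑ τ, g σ * ‖∑ k ∈ blk M (cfg M (mix O σ τ)) (G σ), a k‖ ^ 2 ≤
      (2 : ℝ) ^ (2 * Fintype.card κ + 1) / 4 * Fintype.card (C → ZMod 2) *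
        ∑ σ, g' σ * ∑ k, ‖a k‖ ^ 2 := by
  refine QuLx810.part2_blk (hπ := fun o => pq_con o) (H := Hg M) w3 w1 wc hO (stop F) hg hg0 hgg hgL ?_ ?_
    (rr_adp F) (E := fun o => Eq M o) (χ₀ := fun o => ch M o) (pp_sub F)
    (A := fun o => (Eq M o).image (pq M o)) (v := fun o => vq M o)
    (fun o _ => card_gts o) (fun o _ => gts o) ha ?_ (Q := fun h => a h ≠ 0)
    (fun k hk => not_not.1 hk) ?_
  · intro σ h c hc
    obtain ⟨q, A, i, W⟩ := hW σ h
    rw [pp_eq F W.ev] at hc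
    exact W.po c hc
  · intro σ h c hc hL
    obtain ⟨q, A, i, W⟩ := hW σ h
    rw [pp_eq F W.ev]
    exact W.ol c hc hL
  · intro σ h
    obtain ⟨q, A, i, W⟩ := hW σ h
    exact rr_Hg F W.ev
  · intro σ τ h
    obtain ⟨q, A, i, W⟩ := hW σ h
    refine ⟨G σ, mr_gap F W τ, isC_glue _ _, le_of_eq ?_, harm F W τ sup⟩
    show _ = ‖∑ k ∈ blk M (cfg M (mr M H R T Z O σ τ)) (G σ), a k‖ ^ 2
    rw [mr_blk F W τ]

end win

end Crest.Agent.R143.PLx535
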