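import Crest.Agent.R143.QuW_810
import Crest.Agent.R143.SysC_166
import Crest.Agent.R143.PL_535

/-!
# Row 143 (S0194), box Q2: the inequality of one window on the cells (helper810)

* `cb_le` : 778's coarse block without the root: mean over the fresh colours of the square
* `wd_le` : second moment of 166's `Wd` (charge of the region `l` between the touches) from the bound
  of the root block
* **`wd_win`** : the inequality of one window: `Wn` of `PL_535` at every `σ` with weight `≠ 0`,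
  constant `48` (at most two pieces)
-/

set_option autoImplicit false
set_option linter.unusedSectionVars false

noncomputable section

open scoped Classical

namespace Crest.Agent.R143.QuXx810

open Crest.Agent.R143.Frame1x395 Crest.Agent.R143.Frame2x395 Crest.Agent.R143.Frame3x395
  Crest.Agent.R143.Frame4x395 Crest.Agent.R143.Frame8x395 Crest.Agent.R143.NonXx592
  Crest.Agent.R143.Coarsex166 Crest.Agent.R143.Giantx46 Crest.Agent.R143.Resax778
  Crest.Agent.R143.Partx778 Crest.Agent.R143.QuLx810 Crest.Agent.R143.QuWx810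
  Crest.Agent.R143.SysCx166

open QuFx778 (pz cq clsCon Eo mem_Eo cb)
open C2SBx395 (Free)
open Sptx169 (rst)
open OutSx358 (Sys OO gA gR)

variable {D C : Type} [Fintype D] [Fintype C] {M : CMap D C}

section one

variable {A : ZMod 3 → Set C} {i : ZMod 3} {g : D} {σ : C → ZMod 2}

/-- **778's coarse block** : mean over the fresh colours of the square -/
theorem cb_le {w : ℂ} (w3 : w ^ 3 = 1) (w1 : w ≠ 1) (wc : (starRingEnd ℂ) w = w ^ 2)
    (X : QuFx778.Ex M A i g σ) {a : D → ℂ} (ha : Spin M w a) :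
    ∑ τ, ‖∑ k ∈ cb M A i g τ, a k‖ ^ 2 ≤
      (2 : ℝ) ^ (3 + 1) * Fintype.card (C → ZMod 2) * ∑ k, ‖a k‖ ^ 2 := by
  have G := X.gi
  have hE : ∀ c, c ∈ Eo A ↔ ¬ Free A c := fun c => mem_Eo
  set χ₀ : C → ZMod 2 := fun c => if c ∈ A (i + 2) then 0 else 1 with hχ₀
  have hmt : ∀ τ, glue (Eo A) χ₀ τ = QuFx778.mt A i τ := by
    intro τ
    funext c
    by_cases hf : Free A c
    · rw [QuFx778.mt_free hf, glue_off fun h => mem_Eo.1 h hf]
    · rw [glue_on (mem_Eo.2 hf)]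
      unfold QuFx778.mt
      rw [if_neg hf]
  have hχ : ∀ j c c', c ∈ A j → c' ∈ A j → χ₀ c = χ₀ c' := by
    intro j c c' h h'
    show (if c ∈ A (i + 2) then (0 : ZMod 2) else 1) = if c' ∈ A (i + 2) then 0 else 1
    by_cases hj : j = i + 2
    · subst hj
      rw [if_pos h, if_pos h']
    · rw [if_neg fun h1 => hj (G.disj _ _ _ h h1), if_neg fun h1 => hj (G.disj _ _ _ h' h1)]
  have key := fresh_blk (M := M) (hπ := clsCon G) w3 w1 wc (gts3 G hE hχ) (card3 G hE)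
    (by norm_num) ha (k₀ := g) (k₁ := g) fun τ => ?_
  · refine le_trans (le_of_eq ?_) key
    refine Finset.sum_congr rfl fun τ _ => ?_
    rw [hmt τ, QuFx778.cb_eq G]
  · rw [hmt τ]
    have h := X.gap (τ := τ)
    exact ⟨h.1, h.2⟩

end one

section sys

variable {ι : Type} {H R : Set C} {Q : Set D} {pa : ι → (C → ZMod 2) → D}
  {na : ι → (C → ZMod 2) → ℕ} {Ev : ι → (C → ZMod 2) → Prop} {d₀ : D} {k : ZMod 3}

/-- 778's data of the system -/
theorem sys_ex (S : Sys M H R Q pa na Ev) {σ : C → ZMod 2} (h : ∃ i, Ev i σ) :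
    QuFx778.Ex M (gA M H R Q pa na Ev k σ) k (gR M Q pa na Ev d₀ σ) σ := by
  obtain ⟨h1, h2, h3, h4, h5, -⟩ := S.main d₀ k h
  exact ⟨h1, h2, h4, h3, h5⟩

/-- **second moment of the charge of the region `l` between the touches** -/
theorem wd_le {w : ℂ} (w3 : w ^ 3 = 1) (w1 : w ≠ 1) (wc : (starRingEnd ℂ) w = w ^ 2)
    (S : Sys M H R Q pa na Ev) {G : (C → ZMod 2) → Prop} {g' : (C → ZMod 2) → ℝ}
    (hg' : ∀ σ, 0 ≤ g' σ) (hev : ∀ σ, G σ → g' σ ≠ 0 → ∃ i, Ev i σ) {z : D → ℂ}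
    {F : ℕ → Set D} {l : ℕ} (ha : Spin M w (rst z (F l))) {c₁ : ℝ}
    (hβ : ∑ σ : C → ZMod 2, ∑ τ : C → ZMod 2, (if G σ then g' σ else 0) *
        ‖∑ h ∈ blk M (cfg M (mix (OO M H R pa na Ev) σ τ)) (gR M Q pa na Ev d₀ σ),
          rst z (F l) h‖ ^ 2 ≤
      c₁ * Fintype.card (C → ZMod 2) * ∑ σ, g' σ * ∑ h, ‖rst z (F l) h‖ ^ 2) :
    ∑ σ : C → ZMod 2, ∑ τ : C → ZMod 2,
        (if G σ then g' σ * ‖Wd M H R Q pa na Ev k d₀ z F l σ τ‖ ^ 2 else 0) ≤
      (2 * c₁ + 32) * Fintype.card (C → ZMod 2) *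
        ∑ σ, g' σ * ∑ h, ‖rst z (F l) h‖ ^ 2 := by
  set a : D → ℂ := rst z (F l) with hadef
  set Sa : ℝ := ∑ h, ‖a h‖ ^ 2 with hSa
  set Nc : ℝ := (Fintype.card (C → ZMod 2) : ℝ) with hNc
  have hSa0 : 0 ≤ Sa := Finset.sum_nonneg fun _ _ => by positivity
  have hN0 : 0 ≤ Nc := Nat.cast_nonneg _
  have h1 : ∀ σ : C → ZMod 2, ∑ τ : C → ZMod 2,
      (if G σ then g' σ * ‖Wd M H R Q pa na Ev k d₀ z F l σ τ‖ ^ 2 else 0) ≤
      2 * ∑ τ : C → ZMod 2, (if G σ then g' σ else 0) *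
        ‖∑ h ∈ blk M (cfg M (mix (OO M H R pa na Ev) σ τ)) (gR M Q pa na Ev d₀ σ), a h‖ ^ 2 +
      g' σ * (32 * Nc * Sa) := by
    intro σ
    by_cases hG : G σ
    · simp only [if_pos hG]
      rw [← Finset.mul_sum, ← Finset.mul_sum]
      by_cases h0 : g' σ = 0
      · rw [h0]; simp
      have X := sys_ex (d₀ := d₀) (k := k) S (hev σ hG h0)
      have h3 := cb_le w3 w1 wc X ha
      have h4 : ∑ τ, ‖Wd M H R Q pa na Ev k d₀ z F l σ τ‖ ^ 2 ≤
          2 * ∑ τ, ‖∑ h ∈ blk M (cfg M (mix (OO M H R pa na Ev) σ τ))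
            (gR M Q pa na Ev d₀ σ), a h‖ ^ 2 + 32 * Nc * Sa := by
        refine (Finset.sum_le_sum fun τ _ => sq_sub_le _ _).trans ?_
        rw [Finset.sum_add_distrib, ← Finset.mul_sum, ← Finset.mul_sum]
        have h5 : (2 : ℝ) ^ (3 + 1) = 16 := by norm_num
        rw [h5] at h3
        show 2 * ∑ τ, ‖∑ h ∈ blk M (cfg M (mix (OO M H R pa na Ev) σ τ))
            (gR M Q pa na Ev d₀ σ), a h‖ ^ 2 +
          2 * ∑ τ, ‖∑ h ∈ cb M (gA M H R Q pa na Ev k σ) k (gR M Q pa na Ev d₀ σ) τ,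
            a h‖ ^ 2 ≤ _
        linarith
      calc g' σ * ∑ τ, ‖Wd M H R Q pa na Ev k d₀ z F l σ τ‖ ^ 2
          ≤ g' σ * (2 * ∑ τ, ‖∑ h ∈ blk M (cfg M (mix (OO M H R pa na Ev) σ τ))
              (gR M Q pa na Ev d₀ σ), a h‖ ^ 2 + 32 * Nc * Sa) :=
            mul_le_mul_of_nonneg_left h4 (hg' σ)
        _ = _ := by ring
    · simp only [if_neg hG, Finset.sum_const_zero, zero_mul, mul_zero, zero_add]
      have := hg' σ
      positivity
  calc ∑ σ : C → ZMod 2, ∑ τ : C → ZMod 2,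
        (if G σ then g' σ * ‖Wd M H R Q pa na Ev k d₀ z F l σ τ‖ ^ 2 else 0)
      ≤ ∑ σ : C → ZMod 2, (2 * ∑ τ : C → ZMod 2, (if G σ then g' σ else 0) *
          ‖∑ h ∈ blk M (cfg M (mix (OO M H R pa na Ev) σ τ)) (gR M Q pa na Ev d₀ σ),
            a h‖ ^ 2 + g' σ * (32 * Nc * Sa)) := Finset.sum_le_sum fun σ _ => h1 σ
    _ = 2 * ∑ σ : C → ZMod 2, ∑ τ : C → ZMod 2, (if G σ then g' σ else 0) *
          ‖∑ h ∈ blk M (cfg M (mix (OO M H R pa na Ev) σ τ)) (gR M Q pa na Ev d₀ σ),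
            a h‖ ^ 2 + 32 * Nc * ∑ σ, g' σ * Sa := by
        rw [Finset.sum_add_distrib, ← Finset.mul_sum, Finset.mul_sum (s := Finset.univ)
          (f := fun σ => g' σ * Sa)]
        congr 1
        exact Finset.sum_congr rfl fun σ _ => by ring
    _ ≤ 2 * (c₁ * Nc * ∑ σ, g' σ * Sa) + 32 * Nc * ∑ σ, g' σ * Sa := by
        have := hβ
        linarith
    _ = _ := by ring

/-- **THE INEQUALITY OF ONE WINDOW** -/
theorem wd_win {w : ℂ} (w3 : w ^ 3 = 1) (w1 : w ≠ 1) (wc : (starRingEnd ℂ) w = w ^ 2)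
    (S : Sys M H R Q pa na Ev) {κ : Type} [Fintype κ] (hκ : Fintype.card κ ≤ 2)
    {Z : κ → Uniqx323.Zn M} {T : Set C} (Fx : PLx535.Fix M H R T Z) {L : Finset C}
    {G : (C → ZMod 2) → Prop} {g' : (C → ZMod 2) → ℝ} (hg' : ∀ σ, 0 ≤ g' σ)
    (hgL : ∀ σ τ, (∀ s ∈ L, τ s = σ s) → g' τ = g' σ)
    (hev : ∀ σ, G σ → g' σ ≠ 0 → ∃ i, Ev i σ) {z : D → ℂ}
    {F : ℕ → Set D} {l : ℕ} (ha : Spin M w (rst z (F l)))
    (sup : ∀ h, rst z (F l) h ≠ 0 → ∀ k, ¬ (M.cell h ∈ (Z k).R ∧ M.cell (M.rho h) ∈ (Z k).R ∧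
      M.cell (M.rho (M.rho h)) ∈ (Z k).R))
    (hW : ∀ σ, G σ → g' σ ≠ 0 → ∃ q A i, PLx535.Wn M H R T Z (OO M H R pa na Ev) L
      (gR M Q pa na Ev d₀ σ) σ q A i) :
    ∑ σ : C → ZMod 2, ∑ τ : C → ZMod 2,
        (if G σ then g' σ * ‖Wd M H R Q pa na Ev k d₀ z F l σ τ‖ ^ 2 else 0) ≤
      48 * Fintype.card (C → ZMod 2) * ∑ σ, g' σ * ∑ h, ‖rst z (F l) h‖ ^ 2 := by
  have hSa0 : 0 ≤ ∑ σ : C → ZMod 2, g' σ * ∑ h, ‖rst z (F l) h‖ ^ 2 :=
    Finset.sum_nonneg fun σ _ => mul_nonneg (hg' σ) (Finset.sum_nonneg fun _ _ => by positivity)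
  have key := PLx535.win (M := M) w3 w1 wc S.stop Fx (g := fun σ => if G σ then g' σ else 0)
    (fun σ => by
      show 0 ≤ if G σ then g' σ else 0
      split_ifs
      · exact hg' σ
      · exact le_rfl) hg'
    (fun σ => by
      show (if G σ then g' σ else 0) ≤ g' σ
      split_ifs
      · exact le_rfl
      · exact hg' σ) hgL ha sup (G := gR M Q pa na Ev d₀)
    (fun σ h => by
      have h' : (if G σ then g' σ else 0) ≠ 0 := h
      by_cases hG : G σ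
      · rw [if_pos hG] at h'
        exact hW σ hG h'
      · rw [if_neg hG] at h'
        exact absurd rfl h')
  have hc : (2 : ℝ) ^ (2 * Fintype.card κ + 1) / 4 ≤ 8 := by
    have : (2 : ℝ) ^ (2 * Fintype.card κ + 1) ≤ 2 ^ 5 :=
      pow_le_pow_right₀ (by norm_num) (by omega)
    norm_num at this
    linarith
  have key2 := wd_le (d₀ := d₀) (k := k) w3 w1 wc S hg' hev ha (c₁ := 8) (key.trans (by
    have hN : (0 : ℝ) ≤ Fintype.card (C → ZMod 2) := Nat.cast_nonneg _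
    gcongr))
  rw [show (2 : ℝ) * 8 + 32 = 48 by norm_num] at key2
  exact key2

end sys

end Crest.Agent.R143.QuXx810
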