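import Crest.Agent.R143.DryQ_597
import Crest.Agent.R143.QuX_810
import Crest.Agent.R143.PLS_535

/-!
# Row 143 (S0194), box Q2 (helper54): the weight off the window, field `hQ`

* `gw_split`, `gw_ne` : the weight is not zero if the weight off the window and the factors of the
  window are not zero; `gw_le_off`, `off_le_one`, real forms `gR_le_off`, `offR_le_one`
* `pos_cells` : the same at a colouring of the cells
* **`hQ_wn`** : field `hQ` of 166's `quen_of` from `PLx535.Wn` for every window and every colouring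
  of the cells with weight `≠ 0`
* **`hQ_sb`** : the same from `PLSx535.Sb`
-/

set_option autoImplicit false
set_option linter.unusedSectionVars false

noncomputable section

open scoped Classical

namespace Crest.Agent.R143.WndFx54

open MeasureTheory Set Filter Topology
open Crest.ProbabilityR.Voronoi
open Crest.Agent.R143.PP0x831 Crest.Agent.R143.Poisx304 Crest.Agent.R143.Janx304
open Crest.Agent.R143.Prodx609 Crest.Agent.R143.ColSumx304 Crest.Agent.R143.Lawx831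
open Crest.Agent.R143.Dblx609 Crest.Agent.R143.Dbl2x609
open Crest.Agent.R143.IndLocx279 Crest.Agent.R143.PWx978 Crest.Agent.R143.TilePx176
  Crest.Agent.R143.TileQx176 Crest.Agent.R143.TileRx176
open Crest.Agent.R143.B0x346 Crest.Agent.R143.DelGx806 Crest.Agent.R143.FinCx811
  Crest.Agent.R143.Mass3x302 Crest.Agent.R143.Mass4x302
open Crest.Agent.R143.Frame1x395 Crest.Agent.R143.Frame2x395 Crest.Agent.R143.Frame3x395
  Crest.Agent.R143.Frame4x395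
open Crest.Agent.R143.Frame8x395 hiding cfg
open Crest.Agent.R143.Frame9x395
open Crest.Agent.R143.Frame10x395
open Crest.Agent.R143.Frame5x395 (sd mem_sd th th_spec)
open Crest.Agent.R143.Mass1x302 (T3 Nn)
open Crest.Agent.R143.FinMx609 (cen3 rad3)
open Crest.Agent.R143.Engx490 (fc)
open Crest.Agent.R143.CorMx970 (av)
open Crest.Agent.R143.ColXx829 (Xc fin_Xc)
open Crest.Agent.R143.SmallAx304 (chiS)
open Crest.Agent.R143.IndLoc3x279 (clr)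
open Crest.Agent.R143.Sptx169 (rst)
open Crest.Agent.R143.SysCx166 (Wd)
open OutSx358 (Sys OO gA gR)
open scoped ENNReal

section net

variable {ε : ℝ} {ι κ : Type*} (M : Net ε ι κ) [DecidableEq ι] [DecidableEq κ] {I I₁ : Finset ι}
  {J J₁ : Finset κ} {X : Cf}

theorem gw_split (hI : I₁ ⊆ I) (hJ : J₁ ⊆ J) (X : Cf) :
    M.gw I J X = M.gw (I \ I₁) (J \ J₁) X * M.gw I₁ J₁ X := by
  unfold Net.gw
  rw [← Finset.prod_sdiff hI, ← Finset.prod_sdiff hJ]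
  ring

omit [DecidableEq ι] [DecidableEq κ] in
/-- the factors of the window -/
theorem win_ne (hX : X.Finite) (h : win M I₁ J₁ X ≠ 0) : M.gw I₁ J₁ X ≠ 0 := by
  unfold win at h
  have h1 := left_ne_zero_of_mul h
  have h2 := right_ne_zero_of_mul h
  unfold Net.gw
  refine mul_ne_zero h1 ?_
  rw [Finset.prod_ne_zero_iff] at h2 ⊢
  intro k hk
  unfold Net.fac
  refine mul_ne_zero (h2 k hk) (mul_ne_zero M.c0 (ENNReal.inv_ne_zero.2 ?_))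
  exact ne_top_of_le_ne_top ENNReal.one_ne_top (Rs_le M.eps (M.Cb k) (M.e1 k) (M.em k) hX)

/-- **the weight is not zero** if the weight off the window and the factors of the window are not
zero -/
theorem gw_ne (hI : I₁ ⊆ I) (hJ : J₁ ⊆ J) (hX : X.Finite) (h1 : M.gw (I \ I₁) (J \ J₁) X ≠ 0)
    (h2 : win M I₁ J₁ X ≠ 0) : M.gw I J X ≠ 0 := by
  rw [gw_split M hI hJ]
  exact mul_ne_zero h1 (win_ne M hX h2)

theorem gw_le_off (hI : I₁ ⊆ I) (hJ : J₁ ⊆ J) (hN : ∀ k ∈ J, M.N k ⊆ I) (hX : X.Finite) :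
    M.gw I J X ≤ M.gw (I \ I₁) (J \ J₁) X :=
  (gw_off_fin M hI hJ hN hX).trans (mul_le_of_le_one_right' (win_le_one M _))

theorem off_le_one (hN₁ : ∀ k ∈ J \ J₁, M.N k ⊆ I \ I₁) (hX : X.Finite) :
    M.gw (I \ I₁) (J \ J₁) X ≤ 1 := gw_fin_one M hN₁ hX

theorem off_top (hN₁ : ∀ k ∈ J \ J₁, M.N k ⊆ I \ I₁) (hX : X.Finite) :
    M.gw (I \ I₁) (J \ J₁) X ≠ ∞ := ne_top_of_le_ne_top ENNReal.one_ne_top (off_le_one M hN₁ hX)

theorem gR_le_off (hI : I₁ ⊆ I) (hJ : J₁ ⊆ J) (hN : ∀ k ∈ J, M.N k ⊆ I)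
    (hN₁ : ∀ k ∈ J \ J₁, M.N k ⊆ I \ I₁) (hX : X.Finite) :
    (M.gw I J X).toReal ≤ (M.gw (I \ I₁) (J \ J₁) X).toReal :=
  ENNReal.toReal_mono (off_top M hN₁ hX) (gw_le_off M hI hJ hN hX)

theorem offR_le_one (hN₁ : ∀ k ∈ J \ J₁, M.N k ⊆ I \ I₁) (hX : X.Finite) :
    (M.gw (I \ I₁) (J \ J₁) X).toReal ≤ 1 := by
  have := ENNReal.toReal_mono ENNReal.one_ne_top (off_le_one M hN₁ hX)
  rwa [ENNReal.toReal_one] at this

theorem winR_le_one (I₁ : Finset ι) (J₁ : Finset κ) (X : Cf) : (win M I₁ J₁ X).toReal ≤ 1 := by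
  have := ENNReal.toReal_mono ENNReal.one_ne_top (win_le_one M (I₁ := I₁) (J₁ := J₁) X)
  rwa [ENNReal.toReal_one] at this

/-- the weight and the weight off the window times the factors of the window -/
theorem gR_le_mul (hI : I₁ ⊆ I) (hJ : J₁ ⊆ J) (hN : ∀ k ∈ J, M.N k ⊆ I)
    (hN₁ : ∀ k ∈ J \ J₁, M.N k ⊆ I \ I₁) (hX : X.Finite) :
    (M.gw I J X).toReal ≤ (M.gw (I \ I₁) (J \ J₁) X).toReal * (win M I₁ J₁ X).toReal := by
  rw [← ENNReal.toReal_mul]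
  exact ENNReal.toReal_mono (ENNReal.mul_ne_top (off_top M hN₁ hX)
    (ne_top_of_le_ne_top ENNReal.one_ne_top (win_le_one M _))) (gw_off_fin M hI hJ hN hX)

/-- off the window and inside: real form -/
theorem ne_of_R (hI : I₁ ⊆ I) (hJ : J₁ ⊆ J) (hX : X.Finite)
    (h1 : (M.gw (I \ I₁) (J \ J₁) X).toReal ≠ 0) (h2 : win M I₁ J₁ X ≠ 0) : M.gw I J X ≠ 0 :=
  gw_ne M hI hJ hX (fun h => h1 (by rw [h, ENNReal.toReal_zero])) h2

end net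

/-! ### the field `hQ` -/

section sys

variable {S : Finset ℂ} {ε : ℝ} {ι κ : Type} [DecidableEq ι] [DecidableEq κ] {M : Net ε ι κ}
  {I : Finset ι} {J : Finset κ} {n : ℕ} {I₁ : ℕ → Finset ι} {J₁ : ℕ → Finset κ} {D : ℕ → Set ℂ}
  {d s : ℝ} {B : Set ℂ} {m0 : ℝ≥0∞}

/-- **FIELD `hQ` OF 166'S `quen_of`** : for every window `l < n` and every colouring `σ` of the cells
with weight `≠ 0` the data `PLx535.Wn` -/
theorem hQ_wn (h : Hqx304.Wnd M I J n I₁ J₁ D d s B m0) {ω : Sample}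
    (hi : ∀ c, Inj ε (toPos ω) c) (hA : (S : Set ℂ) = points ε ω ∩ B)
    (hS : GP (S : Set ℂ)) (h3 : 3 ≤ S.card) (off : ∀ v ∈ S, v ∈ M.reg I J → ¬ OnHull S v)
    {H R : Set (Cs hS)} {Q : Set (D0 S)} {ιs : Type} {pa : ιs → (Cs hS → ZMod 2) → D0 S}
    {na : ιs → (Cs hS → ZMod 2) → ℕ} {Ev : ιs → (Cs hS → ZMod 2) → Prop}
    (Y : Sys (rc0 hS) H R Q pa na Ev) {k : ZMod 3} {d₀ : D0 S} {w : ℂ} (w3 : w ^ 3 = 1)
    (w1 : w ≠ 1) (wc : (starRingEnd ℂ) w = w ^ 2) {z : D0 S → ℂ} {F : ℕ → Set (D0 S)}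
    (spin : ∀ l < n, Spin (rc0 hS) w (rst z (F l)))
    (ha : ∀ l < n, ∀ g : D0 S, ‖rst z (F l) g‖ ≤ ‖Nn (g.1.2, th S g.1, g.1.1)‖)
    (hs : ∀ l < n, ∀ g : D0 S, rst z (F l) g ≠ 0 → cen3 (fc S g) ∈ D l ∧ rad3 (fc S g) ≤ d)
    {K : ℕ → Type} [∀ l, Fintype (K l)] (hK : ∀ l, Fintype.card (K l) ≤ 2)
    {Z : ∀ l, K l → Uniqx323.Zn (rc0 hS)} {T : ℕ → Set (Cs hS)}
    (Fx : ∀ l < n, PLx535.Fix (rc0 hS) H R (T l) (Z l)) {L : ℕ → Finset (Cs hS)}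
    (hL : ∀ l < n, ∀ σ τ : Cs hS → ZMod 2, (∀ c ∈ L l, τ c = σ c) →
      M.gw (I \ I₁ l) (J \ J₁ l) (Xc hS h3 τ) = M.gw (I \ I₁ l) (J \ J₁ l) (Xc hS h3 σ))
    (sup : ∀ l < n, ∀ g, rst z (F l) g ≠ 0 → ∀ j, ¬ ((rc0 hS).cell g ∈ (Z l j).R ∧
      (rc0 hS).cell ((rc0 hS).rho g) ∈ (Z l j).R ∧
        (rc0 hS).cell ((rc0 hS).rho ((rc0 hS).rho g)) ∈ (Z l j).R))
    (hev : ∀ σ : Cs hS → ZMod 2, M.gw I J (Xc hS h3 σ) ≠ 0 → ∃ i, Ev i σ)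
    (hW : ∀ σ : Cs hS → ZMod 2, M.gw I J (Xc hS h3 σ) ≠ 0 → ∀ l < n, ∃ q A i,
      PLx535.Wn (rc0 hS) H R (T l) (Z l) (OO (rc0 hS) H R pa na Ev) (L l)
        (gR (rc0 hS) Q pa na Ev d₀ σ) σ q A i) :
    ∑ l ∈ Finset.range n, av S.powerset (fun β => (M.gw I J (clr S β)).toReal *
      av S.powerset fun β' => ‖Wd (rc0 hS) H R Q pa na Ev k d₀ z F l (chiS hS h3 β)
        (chiS hS h3 β')‖ ^ 2) ≤
      Hqx304.Qt M I J n I₁ J₁ D d B (9 * 48) ω := by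
  refine DryQx597.hQ_sites h hi hA hS h3 off
    (W := fun l σ τ => Wd (rc0 hS) H R Q pa na Ev k d₀ z F l σ τ)
    (a := fun l => rst z (F l)) ha hs
    (G := fun l σ => win M (I₁ l) (J₁ l) (Xc hS h3 σ) ≠ 0) (by norm_num) (fun l _ σ h => h)
    fun l hl => ?_
  have hne : ∀ σ : Cs hS → ZMod 2, win M (I₁ l) (J₁ l) (Xc hS h3 σ) ≠ 0 →
      (M.gw (I \ I₁ l) (J \ J₁ l) (Xc hS h3 σ)).toReal ≠ 0 → M.gw I J (Xc hS h3 σ) ≠ 0 :=
    fun σ h1 h2 => ne_of_R M (h.hI l hl) (h.hJ l hl) fin_Xc h2 h1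
  exact QuXx810.wd_win w3 w1 wc Y (hK l) (Fx l hl) (L := L l)
    (g' := fun σ => (M.gw (I \ I₁ l) (J \ J₁ l) (Xc hS h3 σ)).toReal)
    (fun σ => ENNReal.toReal_nonneg)
    (fun σ τ hστ => by
      show (M.gw (I \ I₁ l) (J \ J₁ l) (Xc hS h3 τ)).toReal = _
      rw [hL l hl σ τ hστ])
    (fun σ h1 h2 => hev σ (hne σ h1 h2)) (spin l hl) (sup l hl)
    fun σ h1 h2 => hW σ (hne σ h1 h2) l hl

/-- **FIELD `hQ`** from the pieces of the strand and LOCX (`PLSx535.Sb`) -/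
theorem hQ_sb (h : Hqx304.Wnd M I J n I₁ J₁ D d s B m0) {ω : Sample}
    (hi : ∀ c, Inj ε (toPos ω) c) (hA : (S : Set ℂ) = points ε ω ∩ B)
    (hS : GP (S : Set ℂ)) (h3 : 3 ≤ S.card) (off : ∀ v ∈ S, v ∈ M.reg I J → ¬ OnHull S v)
    {H R : Set (Cs hS)} {Q : Set (D0 S)} {ιs : Type} {pa : ιs → (Cs hS → ZMod 2) → D0 S}
    {na : ιs → (Cs hS → ZMod 2) → ℕ} {Ev : ιs → (Cs hS → ZMod 2) → Prop}
    (Y : Sys (rc0 hS) H R Q pa na Ev) {k : ZMod 3} {d₀ : D0 S} {w : ℂ} (w3 : w ^ 3 = 1)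
    (w1 : w ≠ 1) (wc : (starRingEnd ℂ) w = w ^ 2) {z : D0 S → ℂ} {F : ℕ → Set (D0 S)}
    (spin : ∀ l < n, Spin (rc0 hS) w (rst z (F l)))
    (ha : ∀ l < n, ∀ g : D0 S, ‖rst z (F l) g‖ ≤ ‖Nn (g.1.2, th S g.1, g.1.1)‖)
    (hs : ∀ l < n, ∀ g : D0 S, rst z (F l) g ≠ 0 → cen3 (fc S g) ∈ D l ∧ rad3 (fc S g) ≤ d)
    {K : ℕ → Type} [∀ l, Fintype (K l)] (hK : ∀ l, Fintype.card (K l) ≤ 2)
    {Z : ∀ l, K l → Uniqx323.Zn (rc0 hS)} {T : ℕ → Set (Cs hS)}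
    (Fx : ∀ l < n, PLx535.Fix (rc0 hS) H R (T l) (Z l)) {L : ℕ → Finset (Cs hS)}
    (hL : ∀ l < n, ∀ σ τ : Cs hS → ZMod 2, (∀ c ∈ L l, τ c = σ c) →
      M.gw (I \ I₁ l) (J \ J₁ l) (Xc hS h3 τ) = M.gw (I \ I₁ l) (J \ J₁ l) (Xc hS h3 σ))
    (sup : ∀ l < n, ∀ g, rst z (F l) g ≠ 0 → ∀ j, ¬ ((rc0 hS).cell g ∈ (Z l j).R ∧
      (rc0 hS).cell ((rc0 hS).rho g) ∈ (Z l j).R ∧
        (rc0 hS).cell ((rc0 hS).rho ((rc0 hS).rho g)) ∈ (Z l j).R))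
    (hW : ∀ σ : Cs hS → ZMod 2, M.gw I J (Xc hS h3 σ) ≠ 0 → ∃ i, Ev i σ ∧ ∀ l < n,
      ∃ q : K l → D0 S × ℕ,
        PLSx535.Sb (rc0 hS) H R (T l) (Z l) (L l) (pa i σ) (na i σ) σ q) :
    ∑ l ∈ Finset.range n, av S.powerset (fun β => (M.gw I J (clr S β)).toReal *
      av S.powerset fun β' => ‖Wd (rc0 hS) H R Q pa na Ev k d₀ z F l (chiS hS h3 β)
        (chiS hS h3 β')‖ ^ 2) ≤
      Hqx304.Qt M I J n I₁ J₁ D d B (9 * 48) ω := by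
  refine hQ_wn h hi hA hS h3 off Y (k := k) (d₀ := d₀) w3 w1 wc spin ha hs hK Fx hL sup
    (fun σ hσ => ?_) fun σ hσ l hl => ?_
  · obtain ⟨i, h1, -⟩ := hW σ hσ
    exact ⟨i, h1⟩
  · obtain ⟨i, h1, h2⟩ := hW σ hσ
    obtain ⟨q, B'⟩ := h2 l hl
    exact ⟨q, gA (rc0 hS) H R Q pa na Ev 0 σ, 0, PLSx535.wn_of Y h1 B' d₀ 0⟩

end sys

end Crest.Agent.R143.WndFx54
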