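import Crest.Agent.R143.TileU_683
import Crest.Agent.R143.GPosC_348
import Crest.Agent.R143.GPm_653
import Crest.Agent.R143.WndF_54
import Crest.Agent.R143.CorV_169
import Crest.Agent.R143.QFZ_490
import Crest.Agent.R143.MomI_854

/-!
# Row 143 (S0194), RIG, full tiles: law ⟹ events of the window of five tiles (helper683; for 490)

* `gp_Ap` : the finite set of the points of a bounded region is in general position (a.e.)
* **`ev5`** : a.e. environment without holes, all colourings: the weight of the window of the five tiles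
  `o .. o + 4` of type `(·, true)` is positive only if the five tile events hold (713's standard numbers)
* **`qfd_of`** : 854's `QFD 1000 (1 / 100)` (490's `WEn.qf`), the quenched input of field `mom`
-/

set_option autoImplicit false

noncomputable section

open scoped Classical

namespace Crest.Agent.R143.TileVx683

open MeasureTheory Set Filter Topology
open Crest.ProbabilityR.Voronoi
open Crest.Agent.R143.B0x346 Crest.Agent.R143.Locx922
open Crest.Agent.R143.PP0x831 Crest.Agent.R143.Poisx304 Crest.Agent.R143.Janx304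
open Crest.Agent.R143.Prodx609 Crest.Agent.R143.FinMx609 Crest.Agent.R143.FinM2x609
open Crest.Agent.R143.Dblx609 Crest.Agent.R143.Dbl2x609
open Crest.Agent.R143.IndLocx279 Crest.Agent.R143.PWx978 Crest.Agent.R143.Tplx978
open Crest.Agent.R143.WLocx713
open Crest.Agent.R143.TileRx228 Crest.Agent.R143.PthFx765 Crest.Agent.R143.TplIx204
open Crest.Agent.R143.GPosFx348 (gt bx ev_full)
open Crest.Agent.R143.GPosCx348 (NumC gt_eq bx_eq)
open Crest.Agent.R143.CorHx713 (gO gA QA)
open Crest.Agent.R143.TileUx683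
open scoped ENNReal

variable {ε : ℝ}

/-- the points of a bounded region are in general position -/
theorem gp_Ap (hε : 0 < ε) {B : Set ℂ} (hB : Bornology.IsBounded B) :
    ∀ᵐ ω ∂sampleLaw, GP (Ap ε B ω : Set ℂ) := by
  filter_upwards [GPmx653.gp_ae hε] with ω h
  rw [coe_Ap hε hB]
  exact Locx922.GP.mono h inter_subset_left

/-- **law ⟹ events of the window of five tiles** -/
theorem ev5 {hε : 0 < ε} {c : ℝ≥0∞} {c0 : c ≠ 0} {c1 : c ≤ 1} {D : DT} {η : ℝ} (hη : 0 < η)
    (s : CorVx169.IsS D η) {M : ℕ} {W : ℤ → ℤ × ℤ} (P : FPath M W)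
    (H : Std (D.raw ε hε c c0 c1).tpl D.A' D.B' D.h Prod.fst) {ty : ZMod M → Tn × Bool}
    (hty : Typ W Prod.fst ty) (hP : (D.raw ε hε c c0 c1).AePos) (hn : Pr M 5) (o : ℤ)
    {τ : ℕ → Tn × Bool} (hτ : ∀ j : ℕ, j < 5 → ty ((o + (j : ℤ) : ℤ) : ZMod M) = τ j)
    (hb : ∀ j < 5, (τ j).2 = true) {B : Set ℂ} (hB : Bornology.IsBounded B)
    (hR : (PthFx765.win P H hty hn o hτ).reg ⊆ B) {d : ℝ} (hd : 0 < d) (hdη : 100 * d ≤ η) :
    ∀ᵐ ω ∂sampleLaw,
      Hol (Ap ε B ω : Set ℂ) (Metric.closedBall (cen (100 * η) W (o + 2)) (1000 * η)) d →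
      ∀ β ⊆ Ap ε B ω, TilePx176.win (pth P H ty hty).net (PthFx765.win P H hty hn o hτ).I
          (PthFx765.win P H hty hn o hτ).J (paint (Ap ε B ω) β) ≠ 0 →
        ∀ k : ℕ, k < 5 → TplIx204.TB true (RR (9 * η) (51 * η) (100 * η) W (o + k))
          (LG (gA η W (o + k)) (QA η W (o + k)))
          (LG (gA η W (o + k + 1)) (QA η W (o + k + 1))) (paint (Ap ε B ω) β) := by
  have N : NumC D η := ⟨hη, s.g, s.A, s.B, s.A', s.B', s.h⟩
  set w5 := PthFx765.win P H hty hn o hτ with hw5
  -- the tiles and gates of the window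
  have hJ : ∀ {x : ZMod M}, x ∈ w5.J ↔ ∃ j : ℕ, j < 5 ∧ ((o + (j : ℤ) : ℤ) : ZMod M) = x := by
    intro x
    rw [hw5, PthFx765.win_J, Finset.mem_image]
    simp only [Finset.mem_range]
  have hI : ∀ {x : ZMod M}, x ∈ w5.I ↔ ∃ j : ℕ, j < 5 + 1 ∧ ((o + (j : ℤ) : ℤ) : ZMod M) = x := by
    intro x
    rw [hw5, PthFx765.win_I, Finset.mem_image]
    simp only [Finset.mem_range]
  have hN : ∀ k ∈ w5.J, k ∈ w5.I ∧ k + 1 ∈ w5.I := by
    intro k hk
    obtain ⟨j, hj, rfl⟩ := hJ.1 hk
    refine ⟨hI.2 ⟨j, by omega, rfl⟩, hI.2 ⟨j + 1, by omega, ?_⟩⟩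
    push_cast
    ring
  have ev := ev_full P H hty hP (I := w5.I) (J := w5.J) hN (S := fun ω => Ap ε B ω)
    (Eventually.of_forall fun ω => by
      rw [coe_Ap hε hB]
      exact ⟨inter_subset_left, inter_subset_inter_right _ hR⟩) hd
    (by rw [N.A, N.A']; linarith) (by rw [N.B, N.B']; linarith)
  filter_upwards [ev] with ω hω hH β hβ h0 k hk
  have hfin : (paint (Ap ε B ω) β).Finite := TileRx176.paint_finite _ _
  have h1 : (pth P H ty hty).net.gw w5.I w5.J (IndLoc3x279.clr (Ap ε B ω) β) ≠ 0 :=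
    WndFx54.win_ne (pth P H ty hty).net hfin h0
  obtain ⟨-, h2⟩ := hω (fun a ha => by
    obtain ⟨j, hj, e⟩ := hJ.1 ha
    have h3 : (M : ℤ) ∣ a - (o + (j : ℤ)) := (ZMod.intCast_eq_intCast_iff_dvd_sub _ _ _).1 e
    rw [PthFx765.RR_dvd P h3, N.A, N.B, N.h]
    exact hH.mono fun z hz => rr_ball P hη (by linarith) (by linarith) o hj hz) β hβ h1
  have h3 := h2 (o + k) (hJ.2 ⟨k, hk, rfl⟩)
  have h4 : (ty ((o + (k : ℤ) : ℤ) : ZMod M)).2 = true := by
    rw [hτ k hk]
    exact hb k hk
  rw [h4, gt_eq N P, gt_eq N P, bx_eq N, bx_eq N, N.A, N.B, N.h] at h3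
  exact h3

/-- the factors of a window are local -/
theorem win_local {ι κ : Type*} [DecidableEq ι] [DecidableEq κ] (M : Net ε ι κ) {I : Finset ι}
    {J : Finset κ} (hN : ∀ k ∈ J, M.N k ⊆ I) : LocalOn (M.reg I J) (TilePx176.win M I J) := by
  refine LocalOn.mul (M.a_local (I := I) (J := J)) (local_prod' J fun k hk =>
    LocalOn.mono ?_ (M.el k))
  exact union_subset_union (biUnion_subset_biUnion_left (hN k hk))
    (subset_biUnion_of_mem (u := M.C) hk)

/-- **854's quenched input of the second moments** -/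
theorem qfd_of : MomIx854.QFD 1000 (1 / 100) := by
  intro η ε D Nm hε c c0 c1 H hP M W P ty hty hn a τ hτ hτ2 B hB hBb hsub
  have h0 := Nm.pos
  have s : CorVx169.IsS D η := ⟨Nm.g, Nm.A, Nm.B, Nm.A', Nm.B', Nm.h⟩
  have hd : 0 < 1 / 100 * η := by positivity
  have hreg : (PthFx765.win P H hty hn a hτ).reg ⊆
      Metric.closedBall (cen (100 * η) W (a + 2)) (1000 * η) := by
    refine (MomIx854.reg5 P H hty hn a hτ).trans ?_
    rw [Nm.h]
    exact Metric.closedBall_subset_closedBall (by linarith)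
  have hballB : Metric.closedBall (cen (100 * η) W (a + 2)) (1000 * η) ⊆ B := by
    refine subset_trans ?_ hsub
    rw [Nm.h]
    exact Metric.closedBall_subset_closedBall (by linarith)
  filter_upwards [gp_Ap hε hBb, ev5 h0 s P H hty hP hn a hτ (fun j hj => hτ2 j hj) hBb
    (hreg.trans hballB) hd (by linarith)] with ω hgp hev hH
  rw [Nm.h] at hH
  have E : QFZx490.WEn (Ap ε B ω) M W η (1 / 100 * η) a :=
    { path := P
      hM := hn
      e0 := h0
      d0 := hd
      de := by linarith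
      gp := hgp
      hol := hH }
  exact E.qf s (R := (PthFx765.win P H hty hn a hτ).reg) hreg
    (win_local _ (PthFx765.win P H hty hn a hτ).hN) (hev hH)

end Crest.Agent.R143.TileVx683
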