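import Crest.Agent.R143.QFZ_490
import Crest.Agent.R143.TileV_683
import Crest.Agent.R143.MomI_854

/-!
# Row 143 (S0194), RIG: the quenched input `QFD` of the second moments (helper490)

* `win_local` : the weight of a window is local on its region
* **`qfd`** : 854's `QFD 1000 (1 / 100)`
-/

set_option autoImplicit false

noncomputable section

open scoped Classical

namespace Crest.Agent.R143.QFDx490

open MeasureTheory Set Filter Topology
open Crest.ProbabilityR.Voronoi
open Crest.Agent.R143.B0x346 Crest.Agent.R143.Locx922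
open Crest.Agent.R143.PP0x831 Crest.Agent.R143.Poisx304 Crest.Agent.R143.Janx304
open Crest.Agent.R143.Dblx609 Crest.Agent.R143.Dbl2x609
open Crest.Agent.R143.IndLocx279 Crest.Agent.R143.PWx978 Crest.Agent.R143.Tplx978
open Crest.Agent.R143.TileRx228 Crest.Agent.R143.PthFx765 Crest.Agent.R143.TplIx204
open Crest.Agent.R143.GPosCx348 (NumC)
open Crest.Agent.R143.TileFx176 Crest.Agent.R143.TilePx176
open Crest.Agent.R143.SpVx169 (VT)
open Crest.Agent.R143.SpRx169 (Rg)
open Crest.Agent.R143.SpMx169 (fP)
open Crest.Agent.R143.CorVx169 (IsS)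
open Crest.Agent.R143.QFZx490 Crest.Agent.R143.TileVx683
open scoped ENNReal

/-- the weight of a window is local on its region -/
theorem win_local {ε : ℝ} {ι κ : Type*} [DecidableEq ι] [DecidableEq κ] (M : Net ε ι κ)
    {I₀ : Finset ι} {J₀ : Finset κ} (hN : ∀ k ∈ J₀, M.N k ⊆ I₀) :
    LocalOn (M.reg I₀ J₀) (TilePx176.win M I₀ J₀) := by
  refine LocalOn.mul (M.a_local (I := I₀) (J := J₀)) (local_prod' J₀ fun k hk =>
    LocalOn.mono ?_ (M.el k))
  exact union_subset_union (biUnion_subset_biUnion_left (hN k hk))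
    (subset_biUnion_of_mem (u := M.C) hk)

/-- **the quenched input of a full tile** -/
theorem qfd : MomIx854.QFD 1000 (1 / 100) := by
  intro η ε D N hε c c0 c1 H hP M W P ty hty hn a τ hτ hb B hBm hBb hB
  have s : IsS D η := ⟨N.g, N.A, N.B, N.A', N.B', N.h⟩
  have hη := N.pos
  have h1 := MomIx854.reg5 P H hty hn a hτ
  have hreg : (PthFx765.win P H hty hn a hτ).reg ⊆ UW η W a := by
    refine h1.trans ?_
    unfold UW
    rw [N.h]
    exact Metric.closedBall_subset_closedBall (by linarith)
  have hregB : (PthFx765.win P H hty hn a hτ).reg ⊆ B := by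
    refine h1.trans (Subset.trans ?_ hB)
    rw [N.h]
    exact Metric.closedBall_subset_closedBall (by linarith)
  have hN0 : ∀ k ∈ (PthFx765.win P H hty hn a hτ).J,
      (pth P H ty hty).net.N k ⊆ (PthFx765.win P H hty hn a hτ).I := by
    intro k hk
    rw [win_J] at hk
    obtain ⟨j, hj, rfl⟩ := Finset.mem_image.1 hk
    rw [Finset.mem_range] at hj
    rw [net_N, win_I]
    intro i hi
    rw [Finset.mem_insert, Finset.mem_singleton] at hi
    rcases hi with rfl | rfl
    · exact Finset.mem_image.2 ⟨j, Finset.mem_range.2 (by omega), rfl⟩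
    · refine Finset.mem_image.2 ⟨j + 1, Finset.mem_range.2 (by omega), ?_⟩
      push_cast
      ring
  filter_upwards [gp_Ap hε hBb, ev5 hη s P H hty hP hn a hτ hb hBb hregB
    (d := 1 / 100 * η) (by positivity) (by linarith)] with ω hgp hev hH
  have hH' : Hol (Ap ε B ω : Set ℂ) (UW η W a) (1 / 100 * η) := by
    rw [N.h] at hH
    exact hH
  have E : WEn (Ap ε B ω) M W η (1 / 100 * η) a :=
    ⟨P, hn, hη, by positivity, by linarith, hgp, hH'⟩
  exact E.qf s hreg (win_local (pth P H ty hty).net hN0) fun β hβ h0 => hev hH' β hβ h0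

end Crest.Agent.R143.QFDx490
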