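import Crest.Agent.R143.UKinA_359
import Crest.Agent.R143.UKLowH_568
import Crest.Agent.R143.SepS_697
import Crest.Agent.R143.SxZ_832
import Crest.Agent.R143.PlR_930
import Crest.Agent.R143.HullC_40

/-!
# Row 143 (S0194), RIG, box (7): 923's `UKin` for 358's giants, shadow (helper571)

* **`uk_S`** : `UKin` on a fixed set of sites from `LayU`, `CorH`, `SDS`, `EvA` (571 / 568 / 359 / 697)
* **`uk_sx`** : `UKin` for the giants `GI` of 597's `Sx` with `R = Rc hS w N`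
* **`ukr_sx`** : 930's `UKR`; **`uk_env`** : the field `uk` of 894's `EnvD`
-/

set_option autoImplicit false
set_option linter.unusedSectionVars false

noncomputable section

open scoped Classical

namespace Crest.Agent.R143.UKinSx571

open Crest.Agent.R143.B0x346 Crest.Agent.R143.DelGx806 Crest.Agent.R143.DelRx806
open Crest.Agent.R143.Frame1x395 Crest.Agent.R143.Frame2x395 Crest.Agent.R143.Frame3x395
  Crest.Agent.R143.Frame4x395 Crest.Agent.R143.Frame8x395 Crest.Agent.R143.Frame9x395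
  Crest.Agent.R143.Frame10x395 Crest.Agent.R143.Frame11x395
open Crest.Agent.R143.WLocx713 Crest.Agent.R143.RingDx117
open Crest.Agent.R143.TileRx228
open Crest.Agent.R143.C2SBx395 (Root)
open Crest.Agent.R143.C2SCx395 (st Hl)
open Crest.Agent.R143.FinCx811 (Cs rc0 rcol cs)
open Crest.Agent.R143.RcTx422 (Hc RC Hc_eq)
open Crest.Agent.R143.R5qx166 (AA AA_2)
open Crest.Agent.R143.Extx358 (Ext)
open Crest.Agent.R143.OutSx358 (zc ac)
open Crest.Agent.R143.CorHx713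
open Crest.Agent.R143.SepHx697 (BR)
open Crest.Agent.R143.Layx416 (Lay g al mi be nn rr jj)
open Crest.Agent.R143.LayUx416 (LayU)
open Crest.Agent.R143.PolyUx346 (Poly)
open Crest.Agent.R143.DomAx722 (Dns)
open Crest.Agent.R143.OutCx571 (Far)
open Crest.Agent.R143.Brkx478 (cells)
open Crest.Agent.R143.R10Px923 (UKin Use Nw)
open Crest.Agent.R143.CorrIx831 (SDS Bk Col col_eq)
open Crest.Agent.R143.SysAx168 (EvA)
open Crest.Agent.R143.Uniqx323 (Zn)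
open Crest.Agent.R143.UKinCx571 (gA_AA root Ag reg_gA)
open Crest.Agent.R143.UKinBx571 (z3e)
open Crest.Agent.R143.UKLowx568 (low_gA nk_gA)
open Crest.Agent.R143.UKinAx359 (Tl rt_ex outs_aa far_aa)

section fix

variable {S : Finset ℂ} {hS : GP (S : Set ℂ)} {Rw : Set (Cs hS)} {h₀ : Cs hS}
  {Z : Zn (rc0 hS)} {s : Cs hS → ZMod 2} {q : D0 S} {T : ℕ → ℕ} {N : ℕ} {p : ℕ → D0 S}
  {X : Set (ℂ × Bool)} {U : Set ℂ} {M mm : ℕ} {u : Poly} {p' W : ℤ → ℤ × ℤ} {A e : ℤ → ℤ}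
  {η d : ℝ} {i : ZMod 3}

/-- the polygon is not in `Ext` -/
theorem notExt (L : LayU u mm M p' W A e) (hh : (mm : ℝ) * (100 * η) = u.s)
    (H : CorH X U M W η d (al A e i) (nn A e i)) (h3 : 3 ≤ S.card) (C : Col hS X s)
    (h0 : h₀ ∈ Hc hS)
    (hp : ∀ k : ℕ, (p k).1 = (yy η W X (al A e i + k), xx η W X (al A e i + k)))
    (hT : SDS hS s η W (al A e i) (nn A e i) p q N T)
    (hR2 : ∀ v ∈ S, v ∈ BR η W M (al A e i) (nn A e i) → ∃ c ∈ Rw, c.1 = Quot.mk _ v) :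
    ∀ v ∈ RegSx523.K0 (100 * η) (10 * η) u, ∀ c : Cs hS, c.1 = Quot.mk _ v →
      ¬ Ext (rc0 hS) (Hc hS) (zc (rc0 hS) Rw q (T (nn A e i)) s) c := by
  obtain rfl : sX X = S := C.e
  obtain rfl := col_eq H.hull h3 C
  have hpe : p = H.p := by
    funext k
    exact Subtype.ext (hp k)
  subst hpe
  have h := (SepSx697.notExt_sd L hh H hR2 h0 (Rs := RD (sX X) (CorrIx831.Rts η W (al A e i)
    (nn A e i))) (q := q) (N := N) (T := T) hT).1
  rw [← Hc_eq h0] at h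
  exact h

/-- **`UKin` on a fixed set of sites** -/
theorem uk_S (L : LayU u mm M p' W A e) (hh : (mm : ℝ) * (100 * η) = u.s)
    (H : CorH X U M W η d (al A e i) (nn A e i)) (h3 : 3 ≤ S.card) (C : Col hS X s)
    (h0 : h₀ ∈ Hc hS)
    (hp : ∀ k : ℕ, (p k).1 = (yy η W X (al A e i + k), xx η W X (al A e i + k)))
    (hT : SDS hS s η W (al A e i) (nn A e i) p q N T)
    (hE : EvA (rc0 hS) {h₀} Rw (RD S (Bk η W (al A e i) (rr A e i - 1))) Z (q, T (nn A e i)) s)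
    (hR1 : ∀ c ∈ Rw, ∃ v ∈ S, v ∈ BR η W M (al A e i) (nn A e i) ∧ c.1 = Quot.mk _ v)
    (hR2 : ∀ v ∈ S, v ∈ BR η W M (al A e i) (nn A e i) → ∃ c ∈ Rw, c.1 = Quot.mk _ v)
    {cc : ℂ} {Lr d' : ℝ} (hD : Dns S cc Lr d') (hd : d' ≤ η)
    (hin : ∀ z, Lr - 2 * d' ≤ ‖z - cc‖ → z ∈ Far u.s (3 / 2 * (100 * η)) (cells (u.U : Set _)))
    (hz : zc (rc0 hS) Rw q (T (nn A e i)) s ⊆ RC hS (Tl (19 / 2 * η) (103 / 2 * η) (100 * η) W)) :
    ∃ o, UKin S (Ag hS h₀ Rw Z η W A e i s) o i u.P (100 * η) (19 / 2 * η) (103 / 2 * η) (4 * η)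
      (-η) η (-(9 * η)) (10 * η) η W A e := by
  have e0 := H.e0
  -- hull cells are white
  have hn : h₀ ∉ zc (rc0 hS) Rw q (T (nn A e i)) s := fun h => (HullCx40.nRC h0) (hz h)
  have hl : Hl (AA (rc0 hS) s q (T (nn A e i)) (OutSx358.rr (rc0 hS) (cfg (rc0 hS) s) q
      (T (nn A e i)) (RD S (Bk η W (al A e i) (rr A e i - 1))))
      (Extx358.Ww (rc0 hS) {h₀} Rw q (T (nn A e i)) s) (i + 1)) (i + 1 + 2) := by
    intro c v hv e
    rw [AA_2, HullCx40.one h0 hv e]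
    exact Or.inl (Or.inl (Ext.hull rfl hn))
  obtain ⟨o, h1, h2⟩ := rt_ex (k := i + 1) hE.2.ex hl
  rw [z3e] at h1
  have hA : Ag hS h₀ Rw Z η W A e i s = st (AA (rc0 hS) s q (T (nn A e i))
      (OutSx358.rr (rc0 hS) (cfg (rc0 hS) s) q (T (nn A e i))
        (RD S (Bk η W (al A e i) (rr A e i - 1))))
      (Extx358.Ww (rc0 hS) {h₀} Rw q (T (nn A e i)) s) (i + 1)) := by
    unfold Ag
    rw [gA_AA hE]
  refine ⟨o, ?_, ?_, ?_, ?_, reg_gA L.lay H C.e hT hE, low_gA L hh H h3 C h0 hp hT hE hR1 hR2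
    le_rfl le_rfl, nk_gA L hh H h3 C h0 hp hT hE hR1 hR2⟩
  · rw [hA]; exact h1
  · rw [hA]; exact h2
  · rw [hA, ← Hc_eq h0]
    exact far_aa L hh (A0 := 10 * η) (B0 := 53 * η) (by linarith) (by linarith) (by linarith)
      (by linarith) (by linarith) (root hE).1.le hz
      (notExt L hh H h3 C h0 hp hT hR2)
  · rw [hA, ← Hc_eq h0]
    have h := outs_aa (k := i + 1) (r := OutSx358.rr (rc0 hS) (cfg (rc0 hS) s) q (T (nn A e i))
        (RD S (Bk η W (al A e i) (rr A e i - 1)))) L hh hD hin (A' := 19 / 2 * η)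
      (B' := 103 / 2 * η) (by linarith) (by linarith) (by linarith) hz
    rw [z3e] at h
    exact h

end fix

/-! ### 597's `Sx` -/

section sx

open Crest.ProbabilityR.Voronoi
open Crest.Agent.R143.CorEx133
open Crest.Agent.R143.IndLoc3x279 (clr)
open Crest.Agent.R143.SmallAx304
open Crest.Agent.R143.ColXx829 (Xc)
open Crest.Agent.R143.RigPx854 (ly ly_spec mN mN_hN hN hN_pos nT)
open Crest.Agent.R143.RigZdx609
open Crest.Agent.R143.QuenIx597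
open Crest.Agent.R143.CorrIx831 (col_Xc)

variable {Z : TData} {u : Poly} {w : ZMod 3} {N : ℕ} {ε : ℝ} {hn : u.n + 4 ≤ N} {he : 0 < ε}
  {ω : Sample} {hS : GP (SU u ε ω : Set ℂ)} {h3 : 3 ≤ (SU u ε ω).card} {h₀ : Cs hS}
  {R : Set (Cs hS)} {Zz : Zn (rc0 hS)} {K1 c2 ρ0 : ℝ}

/-- the blocking set is in the tiles -/
theorem zc_sub (X : Sx w Z hn he hS h3 h₀ R Zz) {q : D0 (SU u ε ω)} {n : ℕ} {s : Cs hS → ZMod 2}
    (hE : EvI hS w N h₀ R Zz (q, n) s) : zc (rc0 hS) R q n s ⊆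
      RC hS (Tl (19 / 2 * et N) (103 / 2 * et N) (100 * et N) (ly u N).W) := by
  rintro c ((h | h) | ⟨h, -⟩)
  · exact X.zR (hE.1.lR (Finset.mem_coe.1 h))
  · exact X.zR (hE.1.rR (Finset.mem_coe.1 h))
  · exact X.rR h

/-- **`UKin` for the giants of one environment** -/
theorem uk_sx (X : Sx w Z hn he hS h3 h₀ R Zz) (C : CorEnv u ε √ε K1 c2 ρ0 ω)
    (hd : 100 * √ε ≤ et N)
    (hR1 : ∀ c ∈ R, ∃ v ∈ SU u ε ω, v ∈ BR (et N) (ly u N).W (ly u N).M (oT u w N) (nT u w N) ∧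
      c.1 = Quot.mk _ v)
    (hR2 : ∀ v ∈ SU u ε ω, v ∈ BR (et N) (ly u N).W (ly u N).M (oT u w N) (nT u w N) →
      ∃ c ∈ R, c.1 = Quot.mk _ v) {σ : Finset ℂ}
    (hg : 0 < gW Z u w hn he (clr (SU u ε ω) σ)) :
    ∃ o, UKin (SU u ε ω) (GI hS h3 w N h₀ R Zz σ) o w u.P (100 * et N) (19 / 2 * et N)
      (103 / 2 * et N) (4 * et N) (-et N) (et N) (-(9 * et N)) (10 * et N) (et N) (ly u N).W
      (ly u N).A (ly u N).e := by
  have e0 := et_pos N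
  have e1 := SxZx832.et_le hn
  have e2 := Real.sqrt_nonneg ε
  rw [← gW_xc (hS := hS) (h3 := h3) Z hn he C] at hg
  obtain ⟨p, q, k, T, hp, hT, hv⟩ := X.out _ hg
  exact uk_S (ly_spec hn) (mh hn) (X.cor _ hg) h3 (col_Xc hS h3 _) X.h0 hp hT hv.1 hR1 hR2 C.dns
    (by linarith) (fun z hz => UKinAx359.hin_cor (ly_spec hn) (mh hn) (by linarith) hz)
    (zc_sub X hv.1)

/-- the white strips of 832 -/
theorem rc_R1 : ∀ c ∈ SxZx832.Rc hS w N, ∃ v ∈ SU u ε ω,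
    v ∈ BR (et N) (ly u N).W (ly u N).M (oT u w N) (nT u w N) ∧ c.1 = Quot.mk _ v := by
  rintro c ⟨v, h1, h2, h3⟩
  exact ⟨v, h1, h2, h3⟩

theorem rc_R2 (h3 : 3 ≤ (SU u ε ω).card) : ∀ v ∈ SU u ε ω,
    v ∈ BR (et N) (ly u N).W (ly u N).M (oT u w N) (nT u w N) →
      ∃ c ∈ SxZx832.Rc hS w N, c.1 = Quot.mk _ v :=
  fun v h1 h2 => ⟨cs hS h3 ⟨v, h1⟩, ⟨v, h1, h2, rfl⟩, rfl⟩

/-- **930's `UKR`** -/
theorem ukr_sx (X : Sx w Z hn he hS h3 h₀ (SxZx832.Rc hS w N) Zz)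
    (C : CorEnv u ε √ε K1 c2 ρ0 ω) (hd : 100 * √ε ≤ et N) {σ : Finset ℂ}
    (hg : 0 < gW Z u w hn he (clr (SU u ε ω) σ)) :
    PlRx930.UKR u w N ε ω (GI hS h3 w N h₀ (SxZx832.Rc hS w N) Zz σ) := by
  have e0 := et_pos N
  have e1 := et_h N
  have e2 := Real.sqrt_nonneg ε
  obtain ⟨o, h⟩ := uk_sx X C hd rc_R1 (rc_R2 h3) hg
  exact PlRx930.ukr_of' he (by linarith) (by linarith) (by linarith) h

/-- **the field `uk` of 894's `EnvD`** -/
theorem uk_env (X : Sx w Z hn he hS h3 h₀ (SxZx832.Rc hS w N) Zz)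
    (C : CorEnv u ε √ε K1 c2 ρ0 ω) (hd : 100 * √ε ≤ et N) :
    ∀ σ ∈ (SU u ε ω).powerset, 0 < gW Z u w hn he (clr (SU u ε ω) σ) →
      ∃ (o : ℂ × ℂ × ℂ) (i : ZMod 3) (A1 B1 w' a0 a1 b0 b1 m' : ℝ), A1 ≤ B1 ∧ B1 < hN N ∧
        Nw (hN N) √ε w' a0 a1 b0 b1 m' ∧
        UKin (SU u ε ω) (GI hS h3 w N h₀ (SxZx832.Rc hS w N) Zz σ) o i u.P (hN N) A1 B1 w' a0 a1
          b0 b1 m' (ly u N).W (ly u N).A (ly u N).e := by
  intro σ _ hg
  obtain ⟨o, A1, B1, w0, a0, a1, b0, b1, m', h1, h2, h3, h4⟩ := ukr_sx X C hd hg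
  exact ⟨o, w, A1, B1, w0, a0, a1, b0, b1, m', h1, h2, h3, h4⟩

end sx

end Crest.Agent.R143.UKinSx571
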