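import Crest.Agent.R143.EnvZ_597
import Crest.Agent.R143.UKinS_571
import Crest.Agent.R143.PLL_228
import Crest.Agent.R143.BrZ_609
import Crest.Agent.R143.FinL_894
import Crest.Agent.R143.QFD_490

/-!
# Row 143 (S0194), RIG: the row from the moments and the curtain (helper597)

* **`ukz`** : `UKZ` (571's `uk_env`), no hypothesis
* **`CUZ L`** : 228's `CurI` at almost every environment of the list; **`tiz_of : CUZ → TIZ`**
* `leaf_c : MomZ → (∀ u w, ∃ L, .. ∧ CUZ u w L) → Leaf894`; `momZ : MomZ` (490 `qfd`)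
* **`leaf_cur : (∀ u w, ∃ L, .. ∧ CUZ u w L) → Leaf894`**
-/

set_option autoImplicit false
set_option linter.all false

noncomputable section

open scoped Classical

namespace Crest.Agent.R143.EnvZx597

open MeasureTheory Set Filter Topology
open scoped ENNReal
open Crest.ProbabilityR.Voronoi
open Crest.Agent.R143.PP0x831 Crest.Agent.R143.B0x346
open Crest.Agent.R143.DelGx806 Crest.Agent.R143.DelRx806 Crest.Agent.R143.FinCx811
  Crest.Agent.R143.Resax778 Crest.Agent.R143.SmallAx304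
open Crest.Agent.R143.Frame1x395 Crest.Agent.R143.Frame2x395 Crest.Agent.R143.Frame10x395
open Crest.Agent.R143.Finx894
open Crest.Agent.R143.PolyUx346 (Poly)
open Crest.Agent.R143.IndLoc3x279 (clr)
open Crest.Agent.R143.Uniqx323 (Zn)
open Crest.Agent.R143.RcTx422 (Hc)
open Crest.Agent.R143.RigPx854 (ly ly_spec mN mN_hN mN_mono hN hN_pos nT)
open Crest.Agent.R143.RigZdx609 (TData gW et et_pos et_h)
open Crest.Agent.R143.RigZx609 (Ev)
open Crest.Agent.R143.CorEx133 (RU UU SU CorEnv)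
open Crest.Agent.R143.RigNx377
open Crest.Agent.R143.RigYx609 (CEs OkT)
open Crest.Agent.R143.PlRx930
open Crest.Agent.R143.QuenIx597
open Crest.Agent.R143.SxZx832

variable {u : Poly} {w : ZMod 3} {L : ℕ → List (ℝ × ℝ × ℝ)}

/-- **(K)** is a theorem -/
theorem ukz (u : Poly) (w : ZMod 3) (L : ℕ → List (ℝ × ℝ × ℝ)) : UKZ u w L :=
  OneZ.det fun N ε hn he ω hS h3 h₀ C hd hm hn6 hE h2 h100 hL h0 X => fun σ _ hg => UKinSx571.ukr_sx X C hd hg

/-- **(C)** : the curtain -/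
def CUZ (u : Poly) (w : ZMod 3) (L : ℕ → List (ℝ × ℝ × ℝ)) : Prop :=
  OneZ u w L fun N ε hn he ω hS h3 h₀ Zz => PLLx228.CurI w ZT hn he hS h3 (Rc hS w N) Zz

/-- **the tiles from the curtain** -/
theorem tiz_of (h : CUZ u w L) : TIZ u w L := by
  intro e0
  have k1 := h e0
  unfold Ev at k1 ⊢
  filter_upwards [k1, mN_mono (u := u) 40] with N k1 hm
  filter_upwards [k1] with ε k1 hn he hW hE
  filter_upwards [k1 hn he hW hE] with ω k1 hc C hd hS h3 h₀ h0 X
  exact PLLx228.tileI_of X C hd hm (BrZx609.Rc_RC (hS := hS) hn C) (k1 hc C hd hS h3 h₀ h0 X)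

/-- **the row** -/
theorem leaf_c (hm : FinKx894.MomZ) (h : ∀ (u : Poly) (w : ZMod 3),
    ∃ L : ℕ → List (ℝ × ℝ × ℝ), (∀ᶠ N in atTop, ∀ t ∈ L N, OkT t) ∧ CUZ u w L) : Leaf894 :=
  leaf_z hm fun u w => by
    obtain ⟨L, h1, h2⟩ := h u w
    exact ⟨L, h1, ukz u w L, tiz_of h2⟩

/-- **second moments** (854, 490, 683) -/
theorem momZ : FinKx894.MomZ := FinLx894.momZ_of QFDx490.qfd

/-- **the row from the curtain alone** -/
theorem leaf_cur (h : ∀ (u : Poly) (w : ZMod 3),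
    ∃ L : ℕ → List (ℝ × ℝ × ℝ), (∀ᶠ N in atTop, ∀ t ∈ L N, OkT t) ∧ CUZ u w L) : Leaf894 :=
  leaf_c momZ h

end Crest.Agent.R143.EnvZx597
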