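import Crest.Agent.R143.Frame8_395

/-!
# Row 143 (S0194): conditional frame with giants of known colours (helper421)

`M : CMap D C` (Frame1_395), `blks M (cfg M χ)` = blocks of the colouring `χ : C → ZMod 2` (Frame8_395).

* `frame_ev` : `∑ x even, ∑ β, ‖∑ g ∈ β, a g‖² ≤ #even * (1/4) * ∑ g, ‖a g‖²` (no hypothesis on the cells)
* `frame_all` : the same for the sum over all the colourings (`2 ^ #C * (1/4) * ∑ ‖a g‖²`; since
  `‖a ·‖` is constant on the faces the right side is `2 ^ #C * (3/4) * ∑ faces ‖a‖²`)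
* `frame_set` : for an arbitrary set `E` of colourings
* `giants` : colours prescribed on `F` : factor `2 ^ #F`
* `giants_dens` : after a further event of conditional density at least `c`
* `root_set`, `root_giants`, `root_dens` : the same for the block of one gap chosen as a function of
  the colouring
-/

set_option autoImplicit false

noncomputable section

open scoped Classical

namespace Crest.Agent.R143.Giantsx421

open Crest.Agent.R143.Frame1x395 Crest.Agent.R143.Frame2x395 Crest.Agent.R143.Frame3x395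
  Crest.Agent.R143.Frame4x395 Crest.Agent.R143.Frame8x395

variable {D C : Type} [Fintype D] {M : CMap D C}

/-- a nonnegative weight which is constant on the faces, against the numbers of gaps -/
theorem sum_nG_le {u : D → ℝ} (hu : ∀ g, u (M.rho g) = u g) (h0 : ∀ g, 0 ≤ u g) :
    ∑ g, u g * (nG M g : ℝ) ≤ (nE M : ℝ) * (1 / 4) * ∑ g, u g := by
  have e1 : ∑ g, u g * (nG M (M.rho g) : ℝ) = ∑ g, u g * (nG M g : ℝ) := by
    refine Fintype.sum_equiv (rhoE M) _ _ fun g => ?_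
    show u g * (nG M (M.rho g) : ℝ) = u (M.rho g) * (nG M (M.rho g) : ℝ)
    rw [hu]
  have e2 : ∑ g, u g * (nG M (M.rho (M.rho g)) : ℝ) = ∑ g, u g * (nG M g : ℝ) := by
    rw [← e1]
    refine Fintype.sum_equiv (rhoE M) _ _ fun g => ?_
    show u g * (nG M (M.rho (M.rho g)) : ℝ) = u (M.rho g) * (nG M (M.rho (M.rho g)) : ℝ)
    rw [hu]
  have e3 : 3 * ∑ g, u g * (nG M g : ℝ) =
      ∑ g, u g * ((nG M g + nG M (M.rho g) + nG M (M.rho (M.rho g)) : ℕ) : ℝ) := by
    have : ∑ g, u g * ((nG M g + nG M (M.rho g) + nG M (M.rho (M.rho g)) : ℕ) : ℝ) =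
        ∑ g, u g * (nG M g : ℝ) + ∑ g, u g * (nG M (M.rho g) : ℝ) +
          ∑ g, u g * (nG M (M.rho (M.rho g)) : ℝ) := by
      rw [← Finset.sum_add_distrib, ← Finset.sum_add_distrib]
      refine Finset.sum_congr rfl fun g _ => ?_
      push_cast
      ring
    rw [this, e1, e2]
    ring
  have e4 : ∑ g, u g * ((nG M g + nG M (M.rho g) + nG M (M.rho (M.rho g)) : ℕ) : ℝ) ≤
      ∑ g, u g * (3 / 4 * (nE M : ℝ)) :=
    Finset.sum_le_sum fun g _ => mul_le_mul_of_nonneg_left (nG_sum g) (h0 g)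
  rw [← Finset.sum_mul] at e4
  rw [← e3] at e4
  linarith

omit [Fintype D] in
theorem spin_norm {w : ℂ} (w3 : w ^ 3 = 1) {a : D → ℂ} (ha : Spin M w a) (g : D) :
    ‖a (M.rho g)‖ = ‖a g‖ := by
  have hw : ‖w‖ = 1 := by
    have h1 : ‖w‖ ^ 3 = 1 := by rw [← norm_pow, w3, norm_one]
    exact (pow_eq_one_iff_of_nonneg (norm_nonneg w) (by norm_num)).1 h1
  rw [ha, norm_mul, hw, one_mul]

/-- **frame**, even configurations, in terms of `#even` -/
theorem frame_ev {w : ℂ} (w3 : w ^ 3 = 1) (w1 : w ≠ 1) (wc : (starRingEnd ℂ) w = w ^ 2)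
    {a : D → ℂ} (ha : Spin M w a) :
    ∑ x ∈ ev M, ∑ β ∈ blks M x, ‖∑ g ∈ β, a g‖ ^ 2 ≤
      (nE M : ℝ) * (1 / 4) * ∑ g, ‖a g‖ ^ 2 := by
  rw [i1_norm w3 w1 wc ha]
  exact sum_nG_le (u := fun g => ‖a g‖ ^ 2) (fun g => by simp only [spin_norm w3 ha g])
    (fun g => by positivity)

/-- number of colourings = `nK * nE` -/
theorem card_col [Fintype C] : nK M * nE M = 2 ^ Fintype.card C := by
  have h1 := sum_cfg (M := M) (A := ℕ) (fun _ => 1)
  simp only [Finset.sum_const, Finset.card_univ, smul_eq_mul, mul_one] at h1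
  have h2 : (ev M).card = nE M := rfl
  rw [h2] at h1
  rw [← h1, Fintype.card_fun, ZMod.card]

/-- **frame**, all colourings -/
theorem frame_all [Fintype C] {w : ℂ} (w3 : w ^ 3 = 1) (w1 : w ≠ 1)
    (wc : (starRingEnd ℂ) w = w ^ 2) {a : D → ℂ} (ha : Spin M w a) :
    ∑ χ : C → ZMod 2, ∑ β ∈ blks M (cfg M χ), ‖∑ g ∈ β, a g‖ ^ 2 ≤
      (2 : ℝ) ^ Fintype.card C * (1 / 4) * ∑ g, ‖a g‖ ^ 2 := by
  rw [sum_cfg (M := M) (fun x => ∑ β ∈ blks M x, ‖∑ g ∈ β, a g‖ ^ 2), nsmul_eq_mul]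
  have h1 := frame_ev (M := M) w3 w1 wc ha
  have h2 : (2 : ℝ) ^ Fintype.card C = (nK M : ℝ) * (nE M : ℝ) := by
    rw [← Nat.cast_mul, card_col]
    push_cast
    ring
  rw [h2]
  calc (nK M : ℝ) * ∑ x ∈ ev M, ∑ β ∈ blks M x, ‖∑ g ∈ β, a g‖ ^ 2
      ≤ (nK M : ℝ) * ((nE M : ℝ) * (1 / 4) * ∑ g, ‖a g‖ ^ 2) :=
        mul_le_mul_of_nonneg_left h1 (Nat.cast_nonneg _)
    _ = _ := by ring

/-- frame, restricted to an arbitrary set of colourings -/
theorem frame_set [Fintype C] {w : ℂ} (w3 : w ^ 3 = 1) (w1 : w ≠ 1)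
    (wc : (starRingEnd ℂ) w = w ^ 2) {a : D → ℂ} (ha : Spin M w a)
    (E : Finset (C → ZMod 2)) :
    ∑ χ ∈ E, ∑ β ∈ blks M (cfg M χ), ‖∑ g ∈ β, a g‖ ^ 2 ≤
      (2 : ℝ) ^ Fintype.card C * (1 / 4) * ∑ g, ‖a g‖ ^ 2 :=
  le_trans (Finset.sum_le_sum_of_subset_of_nonneg (Finset.subset_univ E)
    (fun χ _ _ => Finset.sum_nonneg fun β _ => by positivity)) (frame_all w3 w1 wc ha)

/-- the colourings with the colours `s` on `F` -/
def pre [Fintype C] (F : Finset C) (s : C → ZMod 2) : Finset (C → ZMod 2) :=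
  Finset.univ.filter fun χ => ∀ c ∈ F, χ c = s c

theorem mem_pre [Fintype C] {F : Finset C} {s χ : C → ZMod 2} :
    χ ∈ pre F s ↔ ∀ c ∈ F, χ c = s c := by
  unfold pre
  simp

theorem card_pre [Fintype C] (F : Finset C) (s : C → ZMod 2) :
    2 ^ F.card * (pre F s).card = 2 ^ Fintype.card C := by
  induction F using Finset.induction_on with
  | empty =>
    have : pre (∅ : Finset C) s = Finset.univ := by
      ext χ
      simp [mem_pre]
    rw [this, Finset.card_empty, pow_zero, one_mul, Finset.card_univ, Fintype.card_fun, ZMod.card]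
  | insert c F hc ih =>
    rw [Finset.card_insert_of_notMem hc, pow_succ, ← ih, mul_assoc]
    congr 1
    -- the flip at `c` exchanges the two halves of `pre F s`
    have e1 : pre F s = pre (insert c F) s ∪
        (pre (insert c F) s).image (fun χ => Function.update χ c (χ c + 1)) := by
      ext χ
      rw [Finset.mem_union, Finset.mem_image, mem_pre, mem_pre]
      constructor
      · intro h
        by_cases h1 : χ c = s c
        · left
          intro d hd
          rcases Finset.mem_insert.1 hd with rfl | hd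
          · exact h1
          · exact h d hd
        · right
          have h2 : χ c + 1 = s c := by
            have : ∀ a b : ZMod 2, a ≠ b → a + 1 = b := by decide
            exact this _ _ h1
          refine ⟨Function.update χ c (χ c + 1), ?_, ?_⟩
          · rw [mem_pre]
            intro d hd
            rcases Finset.mem_insert.1 hd with rfl | hd
            · rw [Function.update_self, h2]
            · rw [Function.update_of_ne (show d ≠ c from fun e => hc (e ▸ hd))]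
              exact h d hd
          · rw [Function.update_self, Function.update_idem, add_assoc]
            have : (1 : ZMod 2) + 1 = 0 := by decide
            rw [this, add_zero, Function.update_eq_self]
      · rintro (h | ⟨ψ, h, rfl⟩)
        · exact fun d hd => h d (Finset.mem_insert_of_mem hd)
        · intro d hd
          rw [Function.update_of_ne (show d ≠ c from fun e => hc (by rw [← e]; exact hd))]
          exact mem_pre.1 h d (Finset.mem_insert_of_mem hd)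
    rw [e1, Finset.card_union_of_disjoint, Finset.card_image_of_injOn, two_mul]
    · intro χ hχ ψ hψ h
      have h1 := mem_pre.1 (Finset.mem_coe.1 hχ) c (Finset.mem_insert_self c F)
      have h2 := mem_pre.1 (Finset.mem_coe.1 hψ) c (Finset.mem_insert_self c F)
      funext d
      by_cases hd : d = c
      · rw [hd, h1, h2]
      · have := congrFun h d
        simp only [Function.update_of_ne hd] at this
        exact this
    · rw [Finset.disjoint_left]
      intro χ hχ hχ'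
      obtain ⟨ψ, hψ, rfl⟩ := Finset.mem_image.1 hχ'
      have h1 := mem_pre.1 hχ c (Finset.mem_insert_self c F)
      have h2 := mem_pre.1 hψ c (Finset.mem_insert_self c F)
      rw [Function.update_self, h2] at h1
      have : ∀ a : ZMod 2, a + 1 ≠ a := by decide
      exact this _ h1

theorem card_pre' [Fintype C] (F : Finset C) (s : C → ZMod 2) :
    (2 : ℝ) ^ Fintype.card C = 2 ^ F.card * ((pre F s).card : ℝ) := by
  have := card_pre F s
  exact_mod_cast this.symm

/-- **conditional frame with giants**: colours prescribed on `F` -/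
theorem giants [Fintype C] {w : ℂ} (w3 : w ^ 3 = 1) (w1 : w ≠ 1)
    (wc : (starRingEnd ℂ) w = w ^ 2) {a : D → ℂ} (ha : Spin M w a) (F : Finset C)
    (s : C → ZMod 2) :
    ∑ χ ∈ pre F s, ∑ β ∈ blks M (cfg M χ), ‖∑ g ∈ β, a g‖ ^ 2 ≤
      2 ^ F.card * ((pre F s).card : ℝ) * (1 / 4) * ∑ g, ‖a g‖ ^ 2 := by
  have h1 := frame_set (M := M) w3 w1 wc ha (pre F s)
  rwa [card_pre' F s] at h1

/-- conditional frame, after a further event of conditional density at least `c` -/
theorem giants_dens [Fintype C] {w : ℂ} (w3 : w ^ 3 = 1) (w1 : w ≠ 1)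
    (wc : (starRingEnd ℂ) w = w ^ 2) {a : D → ℂ} (ha : Spin M w a) (F : Finset C)
    (s : C → ZMod 2) {E : Finset (C → ZMod 2)} {c : ℝ} (hc : 0 < c)
    (hE : c * ((pre F s).card : ℝ) ≤ ((E ∩ pre F s).card : ℝ)) :
    ∑ χ ∈ E ∩ pre F s, ∑ β ∈ blks M (cfg M χ), ‖∑ g ∈ β, a g‖ ^ 2 ≤
      c⁻¹ * 2 ^ F.card * ((E ∩ pre F s).card : ℝ) * (1 / 4) * ∑ g, ‖a g‖ ^ 2 := by
  have h1 : ∑ χ ∈ E ∩ pre F s, ∑ β ∈ blks M (cfg M χ), ‖∑ g ∈ β, a g‖ ^ 2 ≤
      ∑ χ ∈ pre F s, ∑ β ∈ blks M (cfg M χ), ‖∑ g ∈ β, a g‖ ^ 2 :=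
    Finset.sum_le_sum_of_subset_of_nonneg Finset.inter_subset_right
      (fun χ _ _ => Finset.sum_nonneg fun β _ => by positivity)
  refine h1.trans ((giants w3 w1 wc ha F s).trans ?_)
  have h2 : ((pre F s).card : ℝ) ≤ c⁻¹ * ((E ∩ pre F s).card : ℝ) := by
    rw [inv_mul_eq_div, le_div_iff₀ hc, mul_comm]
    exact hE
  have h3 : (0 : ℝ) ≤ ∑ g, ‖a g‖ ^ 2 := Finset.sum_nonneg fun g _ => by positivity
  have h4 : (0 : ℝ) ≤ 2 ^ F.card := by positivity
  calc 2 ^ F.card * ((pre F s).card : ℝ) * (1 / 4) * ∑ g, ‖a g‖ ^ 2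
      = ((pre F s).card : ℝ) * (2 ^ F.card * (1 / 4) * ∑ g, ‖a g‖ ^ 2) := by ring
    _ ≤ (c⁻¹ * ((E ∩ pre F s).card : ℝ)) * (2 ^ F.card * (1 / 4) * ∑ g, ‖a g‖ ^ 2) :=
        mul_le_mul_of_nonneg_right h2 (by positivity)
    _ = _ := by ring

/-! ### the block of one gap -/

/-- one block is at most the sum over all the blocks -/
theorem one_le {x : D → ZMod 2} {a : D → ℂ} {o : D} (ho : Gp M x o) :
    ‖∑ g ∈ blk M x o, a g‖ ^ 2 ≤ ∑ β ∈ blks M x, ‖∑ g ∈ β, a g‖ ^ 2 := by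
  have h1 : blk M x o ∈ blks M x := Finset.mem_image_of_mem _ (mem_gaps.2 ho)
  exact Finset.single_le_sum (f := fun β => ‖∑ g ∈ β, a g‖ ^ 2) (fun β _ => by positivity) h1

/-- a gap chosen as a function of the colouring, arbitrary set of colourings -/
theorem root_set [Fintype C] {w : ℂ} (w3 : w ^ 3 = 1) (w1 : w ≠ 1)
    (wc : (starRingEnd ℂ) w = w ^ 2) {a : D → ℂ} (ha : Spin M w a)
    (E : Finset (C → ZMod 2)) (o : (C → ZMod 2) → D) (ho : ∀ χ ∈ E, Gp M (cfg M χ) (o χ)) :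
    ∑ χ ∈ E, ‖∑ g ∈ blk M (cfg M χ) (o χ), a g‖ ^ 2 ≤
      (2 : ℝ) ^ Fintype.card C * (1 / 4) * ∑ g, ‖a g‖ ^ 2 :=
  le_trans (Finset.sum_le_sum fun χ hχ => one_le (ho χ hχ)) (frame_set w3 w1 wc ha E)

/-- a gap chosen as a function of the colouring, giants -/
theorem root_giants [Fintype C] {w : ℂ} (w3 : w ^ 3 = 1) (w1 : w ≠ 1)
    (wc : (starRingEnd ℂ) w = w ^ 2) {a : D → ℂ} (ha : Spin M w a) (F : Finset C)
    (s : C → ZMod 2) (o : (C → ZMod 2) → D) (ho : ∀ χ ∈ pre F s, Gp M (cfg M χ) (o χ)) :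
    ∑ χ ∈ pre F s, ‖∑ g ∈ blk M (cfg M χ) (o χ), a g‖ ^ 2 ≤
      2 ^ F.card * ((pre F s).card : ℝ) * (1 / 4) * ∑ g, ‖a g‖ ^ 2 :=
  le_trans (Finset.sum_le_sum fun χ hχ => one_le (ho χ hχ)) (giants w3 w1 wc ha F s)

/-- a gap chosen as a function of the colouring, giants and a further event -/
theorem root_dens [Fintype C] {w : ℂ} (w3 : w ^ 3 = 1) (w1 : w ≠ 1)
    (wc : (starRingEnd ℂ) w = w ^ 2) {a : D → ℂ} (ha : Spin M w a) (F : Finset C)
    (s : C → ZMod 2) {E : Finset (C → ZMod 2)} {c : ℝ} (hc : 0 < c)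
    (hE : c * ((pre F s).card : ℝ) ≤ ((E ∩ pre F s).card : ℝ))
    (o : (C → ZMod 2) → D) (ho : ∀ χ ∈ E ∩ pre F s, Gp M (cfg M χ) (o χ)) :
    ∑ χ ∈ E ∩ pre F s, ‖∑ g ∈ blk M (cfg M χ) (o χ), a g‖ ^ 2 ≤
      c⁻¹ * 2 ^ F.card * ((E ∩ pre F s).card : ℝ) * (1 / 4) * ∑ g, ‖a g‖ ^ 2 :=
  le_trans (Finset.sum_le_sum fun χ hχ => one_le (ho χ hχ)) (giants_dens w3 w1 wc ha F s hc hE)

end Crest.Agent.R143.Giantsx421
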