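import Crest.Agent.R143.MassM_304
import Crest.Agent.R143.Mass5_302

/-!
# Row 143 (S0194): the sum rule with a measurable error, and in probability (helper304)

* `massC` : `∫ PsC κ U (cfg ε ·) → 0` (coloured loops of the sample)
* `prob_PsC`, `prob_Ps` : in probability (every bounded `U`, no measurability of `U`)
* `sum_rule_meas` : 302's sum rule with a measurable error function
* `prob_block` : the probability that some macroscopic block of an interface loop of the sample has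
  charge `≥ t` tends to `0`
-/

set_option autoImplicit false

noncomputable section

open scoped Classical

namespace Crest.Agent.R143.MassPx304

open MeasureTheory Set Filter Topology
open Crest.ProbabilityR.Voronoi
open Crest.Agent.R143.B0x346 Crest.Agent.R143.SumScx302 Crest.Agent.R143.PP0x831
  Crest.Agent.R143.ColSumx304 Crest.Agent.R143.MassCx304 Crest.Agent.R143.MassMx304
  Crest.Agent.R143.FinMx609 Crest.Agent.R143.Mass2x302 Crest.Agent.R143.Mass5x302
open Crest.Agent.R143.Mass1x302 hiding ps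
open Crest.Agent.R143.Frame1x395 Crest.Agent.R143.Frame2x395 Crest.Agent.R143.Frame3x395
  Crest.Agent.R143.Frame4x395 Crest.Agent.R143.Frame8x395
open scoped ENNReal

variable {κ : ℝ} {U : Set ℂ}

/-- energy of the macroscopic blocks of the interface loops of the sample -/
theorem massC (hκ : 0 < κ) (hU : Bornology.IsBounded U) :
    Tendsto (fun ε : ℝ => ∫⁻ ω, PsC κ U (cfg ε ω) ∂sampleLaw) (𝓝[>] 0) (𝓝 0) :=
  massC_of (mass0 hκ hU)

theorem PsC_mono {U' : Set ℂ} (h : U ⊆ U') (X : Set (ℂ × Bool)) : PsC κ U X ≤ PsC κ U' X := by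
  unfold PsC
  refine ENNReal.tsum_le_tsum fun o => ?_
  by_cases h1 : o ∈ OkM κ U (Mass1x302.ps X) ∧ Rz X (lf o.1) (rt o.1)
  · rw [if_pos h1, if_pos ⟨⟨h1.1.1, h1.1.2.1.trans h, h1.1.2.2⟩, h1.2⟩]
  · rw [if_neg h1]; exact zero_le

theorem disc_ball (r : ℝ) : MeasurableSet {t : ℂ × ℂ × ℂ |
    Metric.closedBall (cen3 t) (rad3 t) ⊆ Metric.closedBall (0 : ℂ) r} :=
  meas_disc_closed Metric.isClosed_closedBall

theorem prob_PsC (hκ : 0 < κ) (hU : Bornology.IsBounded U) {t : ℝ≥0∞} (ht : t ≠ 0)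
    (ht' : t ≠ ∞) :
    Tendsto (fun ε : ℝ => sampleLaw {ω | t ≤ PsC κ U (cfg ε ω)}) (𝓝[>] 0) (𝓝 0) := by
  obtain ⟨r, hr⟩ := hU.subset_closedBall 0
  have h := markov (F := fun ε ω => PsC κ (Metric.closedBall 0 r) (cfg ε ω))
    (fun ε hε => meas_PsC κ Metric.isBounded_closedBall (disc_ball r) hε)
    (massC hκ Metric.isBounded_closedBall) ht ht'
  refine tendsto_of_tendsto_of_tendsto_of_le_of_le tendsto_const_nhds h (fun _ => zero_le) ?_
  intro ε
  exact measure_mono fun ω hω => le_trans hω (PsC_mono hr _)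

theorem prob_Ps (hκ : 0 < κ) (hU : Bornology.IsBounded U) {t : ℝ≥0∞} (ht : t ≠ 0)
    (ht' : t ≠ ∞) :
    Tendsto (fun ε : ℝ => sampleLaw {ω | t ≤ fam.Ps κ U (cfg ε ω)}) (𝓝[>] 0) (𝓝 0) := by
  obtain ⟨r, hr⟩ := hU.subset_closedBall 0
  have h := markov (F := fun ε ω => fam.Ps κ (Metric.closedBall 0 r) (cfg ε ω))
    (fun ε hε => meas_Ps κ Metric.isBounded_closedBall (disc_ball r) hε)
    (mass0 hκ Metric.isBounded_closedBall) ht ht'
  refine tendsto_of_tendsto_of_tendsto_of_le_of_le tendsto_const_nhds h (fun _ => zero_le) ?_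
  intro ε
  exact measure_mono fun ω hω => le_trans hω (fam.Ps_mono hr le_rfl _)

/-- with high probability every macroscopic block of every interface loop of the sample inside `U`
has a small charge -/
theorem prob_block (hκ : 0 < κ) (hU : Bornology.IsBounded U) {t : ℝ} (ht : 0 < t) :
    Tendsto (fun ε : ℝ => sampleLaw {ω | ∃ o : Obj, IsOb (points ε ω) o ∧ spt o ⊆ U ∧
      (∀ z, ¬ spt o ⊆ sq z κ) ∧ Rz (cfg ε ω) (lf o.1) (rt o.1) ∧ t ≤ ‖NN o.2‖}) (𝓝[>] 0)
      (𝓝 0) := by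
  have ht2 : ENNReal.ofReal (t ^ 2) ≠ 0 := by
    rw [Ne, ENNReal.ofReal_eq_zero, not_le]; positivity
  refine tendsto_of_tendsto_of_tendsto_of_le_of_le tendsto_const_nhds
    (prob_PsC hκ hU ht2 ENNReal.ofReal_ne_top) (fun _ => zero_le) ?_
  intro ε
  refine measure_mono ?_
  rintro ω ⟨o, h1, h2, h3, h4, h5⟩
  show ENNReal.ofReal (t ^ 2) ≤ PsC κ U (cfg ε ω)
  refine le_trans ?_ (le_PsC (by rw [MassCx304.ps_cfg]; exact h1) h2 h3 h4)
  exact ENNReal.ofReal_le_ofReal (pow_le_pow_left₀ ht.le h5 2)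

/-- **302's sum rule with a measurable error** -/
theorem sum_rule_meas {k : ℝ} (hk : 0 < k) (hU : Bornology.IsBounded U) :
    ∃ E : ℝ → Sample → ℝ≥0∞, (∀ ε, 0 < ε → Measurable (E ε)) ∧
      Tendsto (fun ε : ℝ => ∫⁻ ω, E ε ω ∂sampleLaw) (𝓝[>] 0) (𝓝 0) ∧
      (∀ t : ℝ≥0∞, t ≠ 0 → t ≠ ∞ →
        Tendsto (fun ε : ℝ => sampleLaw {ω | t ≤ E ε ω}) (𝓝[>] 0) (𝓝 0)) ∧
      ∀ (ε : ℝ) (ω : Sample) (D C : Type) [Fintype D] (M : CMap D C) (δ : ℂ → ℂ → D)
        (κ : ℂ → C), Agr (points ε ω) U M δ κ → ∀ a : D → ℂ,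
        (∀ t : T3, Fc (points ε ω) U t.1 t.2.1 t.2.2 → a (gd δ t) = Nn t) →
        ∑ x ∈ ev M, ∑ β ∈ bigB (points ε ω) U M δ k x, ENNReal.ofReal (‖∑ g ∈ β, a g‖ ^ 2) ≤
          ((ev M).card : ℝ≥0∞) * E ε ω := by
  obtain ⟨r, hr⟩ := hU.subset_closedBall 0
  refine ⟨fun ε ω => fam.Ps k (Metric.closedBall 0 r) (cfg ε ω),
    fun ε hε => meas_Ps k Metric.isBounded_closedBall (disc_ball r) hε,
    mass0 hk Metric.isBounded_closedBall,
    fun t ht ht' => markov (F := fun ε ω => fam.Ps k (Metric.closedBall 0 r) (cfg ε ω))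
      (fun ε hε => meas_Ps k Metric.isBounded_closedBall (disc_ball r) hε)
      (mass0 hk Metric.isBounded_closedBall) ht ht', ?_⟩
  intro ε ω D C _ M δ κ A a ha
  refine (blocks_mass A (MassCx304.ps_cfg ε ω) k ha).trans ?_
  gcongr
  exact fam.Ps_mono hr le_rfl _

end Crest.Agent.R143.MassPx304
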