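import Crest.Agent.R143.FinC_811
import Crest.Agent.R143.MassP_304
import Crest.Agent.R143.Resa_778
import Crest.Agent.R143.Giants_421

/-!
# Row 143 (S0194), block RIG, box R7, quenched half (helper811): the sum rule for the resampled
configuration

`mix O σ τ` (778) = `σ` on the revealed cells, `τ` elsewhere, `σ`, `τ` uniform and independent.

* `mix_ev` : mean over `(σ, τ)` of a function of `cfg M (mix O σ τ)` = mean over the even
  configurations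
* `mix_rule` : with the measurable error `E` of 304's `sum_rule_meas`: for every closed map `M` with
  finitely many cells which agrees with the Delaunay triangulation in `U`, every stopping set `O`,
  every weight `0 ≤ g ≤ 1` and every choice `s0 σ τ` of a gap of the mixed configuration whose loop
  is in `U` and in no square of side `k` (where `g ≠ 0`):
  `∑ σ, ∑ τ, g σ τ * ‖∑ t ∈ block of s0, a t‖ ^ 2 ≤ 4 ^ #C * E ε ω`
* `mix_cm0` : the instance `M = rc0 hS` (= `cm0 hS` with its finitely many cells), field `RE` of 346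
-/

set_option autoImplicit false

noncomputable section

open scoped Classical

namespace Crest.Agent.R143.MixBx811

open MeasureTheory Set Filter Topology
open Crest.ProbabilityR.Voronoi
open Crest.Agent.R143.B0x346 Crest.Agent.R143.SumScx302 Crest.Agent.R143.PP0x831
  Crest.Agent.R143.MassPx304 Crest.Agent.R143.Mass2x302 Crest.Agent.R143.Mass3x302
  Crest.Agent.R143.Mass4x302 Crest.Agent.R143.Mass5x302 Crest.Agent.R143.DelGx806
  Crest.Agent.R143.DelRx806 Crest.Agent.R143.JColx54 Crest.Agent.R143.FinCx811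
  Crest.Agent.R143.Resax778
open Crest.Agent.R143.Mass1x302 hiding ps
open Crest.Agent.R143.Frame1x395 Crest.Agent.R143.Frame2x395 Crest.Agent.R143.Frame3x395
  Crest.Agent.R143.Frame4x395 Crest.Agent.R143.Frame8x395 Crest.Agent.R143.Frame10x395
open Crest.Agent.R143.Frame5x395 (sd mem_sd th th_spec)
open scoped ENNReal

variable {D C : Type} [Fintype D] [Fintype C] {M : CMap D C} {O : (C → ZMod 2) → Finset C}

/-- **the mixed configuration is uniform** -/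
theorem mix_ev (hO : StopSet O) (Φ : (D → ZMod 2) → ℝ≥0∞) :
    ((ev M).card : ℝ≥0∞) * ∑ σ : C → ZMod 2, ∑ τ : C → ZMod 2, Φ (cfg M (mix O σ τ)) =
      (2 ^ Fintype.card C) ^ 2 * ∑ x ∈ ev M, Φ x := by
  have h1 := sum_mix hO (fun μ => Φ (cfg M μ))
  have h2 := sum_cfg (M := M) Φ
  have h3 : ((nK M : ℝ≥0∞)) * ((ev M).card : ℝ≥0∞) = 2 ^ Fintype.card C := by
    have := Giantsx421.card_col (M := M)
    have h4 : (ev M).card = nE M := rfl
    rw [h4]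
    exact_mod_cast this
  rw [h1, h2, nsmul_eq_mul, nsmul_eq_mul, ZMod.card]
  push_cast
  calc ((ev M).card : ℝ≥0∞) * (2 ^ Fintype.card C * (nK M * ∑ x ∈ ev M, Φ x))
      = 2 ^ Fintype.card C * ((nK M : ℝ≥0∞) * ((ev M).card : ℝ≥0∞)) * ∑ x ∈ ev M, Φ x := by ring
    _ = _ := by rw [h3]; ring

/-- bound for a function of the mixed configuration -/
theorem mix_le (hO : StopSet O) {f : (C → ZMod 2) → (C → ZMod 2) → ℝ≥0∞}
    {Φ : (D → ZMod 2) → ℝ≥0∞} {E : ℝ≥0∞} (hf : ∀ σ τ, f σ τ ≤ Φ (cfg M (mix O σ τ)))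
    (hE : ∑ x ∈ ev M, Φ x ≤ ((ev M).card : ℝ≥0∞) * E) :
    ∑ σ, ∑ τ, f σ τ ≤ (2 ^ Fintype.card C) ^ 2 * E := by
  have hE0 : (ev M).card ≠ 0 := Finset.card_ne_zero_of_mem zero_ev
  have e0 : ((ev M).card : ℝ≥0∞) ≠ 0 := by exact_mod_cast hE0
  have e1 : ((ev M).card : ℝ≥0∞) ≠ ∞ := ENNReal.natCast_ne_top _
  have h1 : ∑ σ, ∑ τ, f σ τ ≤ ∑ σ : C → ZMod 2, ∑ τ : C → ZMod 2, Φ (cfg M (mix O σ τ)) :=
    Finset.sum_le_sum fun σ _ => Finset.sum_le_sum fun τ _ => hf σ τ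
  have h2 : ((ev M).card : ℝ≥0∞) * ∑ σ, ∑ τ, f σ τ ≤
      ((ev M).card : ℝ≥0∞) * ((2 ^ Fintype.card C) ^ 2 * E) := by
    calc ((ev M).card : ℝ≥0∞) * ∑ σ, ∑ τ, f σ τ
        ≤ ((ev M).card : ℝ≥0∞) * ∑ σ : C → ZMod 2, ∑ τ : C → ZMod 2, Φ (cfg M (mix O σ τ)) := by
          gcongr
      _ = (2 ^ Fintype.card C) ^ 2 * ∑ x ∈ ev M, Φ x := mix_ev hO Φ
      _ ≤ (2 ^ Fintype.card C) ^ 2 * (((ev M).card : ℝ≥0∞) * E) := by gcongr
      _ = _ := by ring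
  exact (ENNReal.mul_le_mul_iff_right e0 e1).1 h2

/-- **R7, quenched** -/
theorem mix_rule {k : ℝ} (hk : 0 < k) {U : Set ℂ} (hU : Bornology.IsBounded U) :
    ∃ E : ℝ → Sample → ℝ≥0∞, (∀ ε, 0 < ε → Measurable (E ε)) ∧
      Tendsto (fun ε : ℝ => ∫⁻ ω, E ε ω ∂sampleLaw) (𝓝[>] 0) (𝓝 0) ∧
      (∀ t : ℝ≥0∞, t ≠ 0 → t ≠ ∞ →
        Tendsto (fun ε : ℝ => sampleLaw {ω | t ≤ E ε ω}) (𝓝[>] 0) (𝓝 0)) ∧
      ∀ (ε : ℝ) (ω : Sample) (D C : Type) [Fintype D] [Fintype C] (M : CMap D C)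
        (δ : ℂ → ℂ → D) (κ : ℂ → C), Agr (points ε ω) U M δ κ → ∀ a : D → ℂ,
        (∀ t : T3, Fc (points ε ω) U t.1 t.2.1 t.2.2 → a (gd δ t) = Nn t) →
        ∀ O : (C → ZMod 2) → Finset C, StopSet O →
        ∀ (g : (C → ZMod 2) → (C → ZMod 2) → ℝ≥0∞) (s0 : (C → ZMod 2) → (C → ZMod 2) → D),
        (∀ σ τ, g σ τ ≤ 1) →
        (∀ σ τ, g σ τ ≠ 0 → Gp M (cfg M (mix O σ τ)) (s0 σ τ) ∧
          InU (points ε ω) U M δ (cfg M (mix O σ τ)) (s0 σ τ) ∧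
          Big (points ε ω) U M δ (cfg M (mix O σ τ)) k (s0 σ τ)) →
        ∑ σ, ∑ τ, g σ τ *
          ENNReal.ofReal (‖∑ t ∈ blk M (cfg M (mix O σ τ)) (s0 σ τ), a t‖ ^ 2) ≤
            (2 ^ Fintype.card C) ^ 2 * E ε ω := by
  obtain ⟨E, h1, h2, h3, h4⟩ := sum_rule_meas hk hU
  refine ⟨E, h1, h2, h3, ?_⟩
  intro ε ω D C _ _ M δ κ A a ha O hO g s0 hg hs
  refine mix_le hO (Φ := fun x => ∑ β ∈ bigB (points ε ω) U M δ k x,
    ENNReal.ofReal (‖∑ g ∈ β, a g‖ ^ 2)) (fun σ τ => ?_) (h4 ε ω D C M δ κ A a ha)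
  by_cases h0 : g σ τ = 0
  · rw [h0, zero_mul]; exact zero_le
  obtain ⟨s1, s2, s3⟩ := hs σ τ h0
  have hmem : blk M (cfg M (mix O σ τ)) (s0 σ τ) ∈
      bigB (points ε ω) U M δ k (cfg M (mix O σ τ)) := by
    unfold bigB
    exact Finset.mem_filter.2 ⟨Finset.mem_image_of_mem _ (mem_gaps.2 s1),
      ⟨s0 σ τ, self_mem s1, s2, s3⟩⟩
  calc g σ τ * ENNReal.ofReal (‖∑ t ∈ blk M (cfg M (mix O σ τ)) (s0 σ τ), a t‖ ^ 2)
      ≤ 1 * ENNReal.ofReal (‖∑ t ∈ blk M (cfg M (mix O σ τ)) (s0 σ τ), a t‖ ^ 2) := by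
        gcongr
        exact hg σ τ
    _ = ENNReal.ofReal (‖∑ t ∈ blk M (cfg M (mix O σ τ)) (s0 σ τ), a t‖ ^ 2) := one_mul _
    _ ≤ _ := Finset.single_le_sum (f := fun β => ENNReal.ofReal (‖∑ g ∈ β, a g‖ ^ 2))
        (fun _ _ => zero_le) hmem

/-! ### the plane map -/

/-- the charge of 302 is the conjugate of the small field of 346 -/
theorem nn_RE0 {S : Finset ℂ} (hS : GP (S : Set ℂ)) {t : T3} (ht : t ∈ delT S) :
    (starRingEnd ℂ) (DefsNx346.RE S (t.2.2, t.1)) = Nn t := by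
  obtain ⟨a, b, c⟩ := t
  have h1 : th S (c, a) = b := th0 hS (delT_rot hS (delT_rot hS ht))
  have h2 : (starRingEnd ℂ) om = om ^ 2 := Mass4x302.om_conj
  have h3 : (starRingEnd ℂ) (om ^ 2) = om := by
    rw [map_pow, h2]
    have := Mass4x302.om3
    linear_combination om * this
  show (starRingEnd ℂ) (th S (c, a) + om * c + om ^ 2 * a) =
    (starRingEnd ℂ) b + om * (starRingEnd ℂ) a + om ^ 2 * (starRingEnd ℂ) c
  rw [h1, map_add, map_add, map_mul, map_mul, h2, h3]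
  ring

/-- the conjugate of the small field at the gap darts of the faces of `U` -/
theorem conj_RE0 {S : Finset ℂ} (hS : GP (S : Set ℂ)) {P U : Set ℂ}
    (hPS : ∀ z ∈ U, z ∈ P ↔ z ∈ (S : Set ℂ)) (e0 : D0 S) {t : T3} (ht : Fc P U t.1 t.2.1 t.2.2) :
    (starRingEnd ℂ) (DefsNx346.RE S (gd (dl e0) t).1) = Nn t := by
  obtain ⟨a, b, c⟩ := t
  have hm : (a, b, c) ∈ delT S := mem_delT.2 (fc_congr hPS ht).1
  have hs : (c, a) ∈ sd S := mem_sd.2 ⟨b, delT_rot hS (delT_rot hS hm)⟩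
  show (starRingEnd ℂ) (DefsNx346.RE S (dl e0 c a).1) = Nn (a, b, c)
  rw [dl_eq hs]
  exact nn_RE0 hS hm

/-- **R7, quenched, plane map, small field.** `S` finite, equal to the sample in `U`, hull off `U`;
`O` a stopping set for the colourings of the (finitely many) cells of `cm0 hS`. -/
theorem mix_cm0 {k : ℝ} (hk : 0 < k) {U : Set ℂ} (hU : Bornology.IsBounded U) :
    ∃ E : ℝ → Sample → ℝ≥0∞, (∀ ε, 0 < ε → Measurable (E ε)) ∧
      Tendsto (fun ε : ℝ => ∫⁻ ω, E ε ω ∂sampleLaw) (𝓝[>] 0) (𝓝 0) ∧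
      (∀ t : ℝ≥0∞, t ≠ 0 → t ≠ ∞ →
        Tendsto (fun ε : ℝ => sampleLaw {ω | t ≤ E ε ω}) (𝓝[>] 0) (𝓝 0)) ∧
      ∀ (ε : ℝ) (ω : Sample) (S : Finset ℂ) (hS : GP (S : Set ℂ)), GP (points ε ω) →
        (∀ z ∈ U, z ∈ points ε ω ↔ z ∈ (S : Set ℂ)) → (∀ v ∈ S, v ∈ U → ¬ OnHull S v) →
        ∀ (e0 : D0 S) (O : (Cs hS → ZMod 2) → Finset (Cs hS)), StopSet O →
        ∀ (g : (Cs hS → ZMod 2) → (Cs hS → ZMod 2) → ℝ≥0∞)
          (s0 : (Cs hS → ZMod 2) → (Cs hS → ZMod 2) → D0 S),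
        (∀ σ τ, g σ τ ≤ 1) →
        (∀ σ τ, g σ τ ≠ 0 →
          Gp (cm0 hS) (cfg (rc0 hS) (mix O σ τ)) (s0 σ τ) ∧
          InU (points ε ω) U (cm0 hS) (dl e0) (cfg (rc0 hS) (mix O σ τ)) (s0 σ τ) ∧
          Big (points ε ω) U (cm0 hS) (dl e0) (cfg (rc0 hS) (mix O σ τ)) k (s0 σ τ)) →
        ∑ σ, ∑ τ, g σ τ * ENNReal.ofReal
          (‖∑ t ∈ blk (cm0 hS) (cfg (rc0 hS) (mix O σ τ)) (s0 σ τ),
            DefsNx346.RE S t.1‖ ^ 2) ≤ (2 ^ Fintype.card (Cs hS)) ^ 2 * E ε ω := by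
  obtain ⟨E, h1, h2, h3, h4⟩ := mix_rule hk hU
  refine ⟨E, h1, h2, h3, ?_⟩
  intro ε ω S hS hP hPS hin e0 O hO g s0 hg hs
  have A := agr_restr (agr0 hP hS hPS hin e0) e0
  have h5 := h4 ε ω (D0 S) (Cs hS) (rc0 hS) (dl e0) _ A
    (fun t => (starRingEnd ℂ) (DefsNx346.RE S t.1)) (fun t ht => conj_RE0 hS hPS e0 ht) O hO g s0
    hg (fun σ τ h0 => hs σ τ h0)
  convert h5 using 5
  rw [blk_rc0, ← map_sum, RCLike.norm_conj]

end Crest.Agent.R143.MixBx811
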