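import Crest.Agent.R143.MassQ_304
import Crest.Agent.R143.MixB_811

/-!
# Row 143 (S0194), block RIG, box R7 (helper811): the resampled configuration is equidistributed

`Eqd` = equidistribution over the even configurations (304's `MassQ_304`).
* `eqd_col` : the configuration of a uniform colouring (finitely many cells)
* `eqd_mix` : `(σ, τ) ↦ cfg M (mix O σ τ)` for every stopping set `O` (778)
* `eqd_restr` : `Eqd (restr M) x → Eqd M x`
* `eqd_cm0`, `eqd_cm0_mix` : the plane map, colourings of its finitely many cells `Cs hS`; so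
  `MassQx304.R7` applies with `I` = (pairs of) colourings
-/

set_option autoImplicit false

noncomputable section

open scoped Classical

namespace Crest.Agent.R143.EqdMx811

open Crest.Agent.R143.Mass3x302 Crest.Agent.R143.FinCx811 Crest.Agent.R143.Resax778
  Crest.Agent.R143.MassQx304 Crest.Agent.R143.B0x346
open Crest.Agent.R143.Frame1x395 Crest.Agent.R143.Frame2x395 Crest.Agent.R143.Frame3x395
  Crest.Agent.R143.Frame4x395 Crest.Agent.R143.Frame8x395 Crest.Agent.R143.Frame10x395

variable {D C : Type} [Fintype D] {M : CMap D C}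

/-- number of colourings of an even configuration -/
theorem card_fib [Fintype C] {y : D → ZMod 2} (hy : y ∈ ev M) :
    (∑ χ : C → ZMod 2, if cfg M χ = y then 1 else 0 : ℕ) = nK M := by
  rw [sum_cfg (M := M) (A := ℕ) fun x => if x = y then 1 else 0, Finset.sum_ite_eq', if_pos hy,
    smul_eq_mul, mul_one]

/-- colourings of a map with finitely many cells -/
theorem eqd_col [Fintype C] (M : CMap D C) : Eqd M fun χ : C → ZMod 2 => cfg M χ := by
  refine ⟨fun χ => mem_ev.2 (cfg_isC χ), fun y hy => le_of_eq ?_⟩
  have h2 := Giantsx421.card_col (M := M)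
  have h3 : (ev M).card = nE M := rfl
  rw [Finset.card_filter, card_fib hy, h3, h2, Fintype.card_fun, ZMod.card]

/-- **the resampled configuration is equidistributed** -/
theorem eqd_mix [Fintype C] (M : CMap D C) {O : (C → ZMod 2) → Finset C} (hO : StopSet O) :
    Eqd M fun p : (C → ZMod 2) × (C → ZMod 2) => cfg M (mix O p.1 p.2) := by
  refine ⟨fun χ => mem_ev.2 (cfg_isC _), fun y hy => le_of_eq ?_⟩
  have h2 := Giantsx421.card_col (M := M)
  have h3 : (ev M).card = nE M := rfl
  rw [Finset.card_filter, Fintype.sum_prod_type,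
    sum_mix hO (M := ℕ) fun μ => if cfg M μ = y then 1 else 0, card_fib hy, h3, smul_eq_mul,
    mul_assoc, h2, Fintype.card_prod, Fintype.card_fun, ZMod.card]

theorem eqd_restr {I : Type} [Fintype I] {x : I → D → ZMod 2} (h : Eqd (restr M) x) :
    Eqd M x := by
  refine ⟨fun i => ?_, fun y hy => ?_⟩
  · rw [← ev_restr]; exact h.ev i
  · rw [← ev_restr] at hy ⊢; exact h.fib y hy

variable {S : Finset ℂ}

/-- the plane map, one colouring of the cells -/
theorem eqd_cm0 (hS : GP (S : Set ℂ)) :
    Eqd (cm0 hS) fun χ : Cs hS → ZMod 2 => cfg (rc0 hS) χ := eqd_restr (eqd_col (rc0 hS))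

/-- **the plane map, resampled colouring of the cells** -/
theorem eqd_cm0_mix (hS : GP (S : Set ℂ)) {O : (Cs hS → ZMod 2) → Finset (Cs hS)}
    (hO : StopSet O) :
    Eqd (cm0 hS) fun p : (Cs hS → ZMod 2) × (Cs hS → ZMod 2) =>
      cfg (rc0 hS) (mix O p.1 p.2) := eqd_restr (eqd_mix (rc0 hS) hO)

end Crest.Agent.R143.EqdMx811
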