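import Mathlib

/-!
Error lemma of box R9 (row 143): the partial sum of the tile charges between two random places
is close, in `L¹` of a finite measure, to the partial sum between two other (independent) places.
Mathlib only.
-/

open MeasureTheory Finset Set
open scoped ENNReal

namespace Crest.Agent.R143.ErrLx168

variable {Ω : Type*} [MeasurableSpace Ω] {ν : Measure Ω}

/-- Cauchy–Schwarz on a measurable set. -/
theorem cs_set [IsFiniteMeasure ν] {f : Ω → ℂ} (hf : MemLp f 2 ν) {B : Set Ω}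
    {K m : ℝ} (hK : ∫ ω, ‖f ω‖ ^ 2 ∂ν ≤ K) (hm : ν.real B ≤ m) :
    ∫ ω in B, ‖f ω‖ ∂ν ≤ √K * √m := by
  have hfB : MemLp (fun ω => ‖f ω‖) (ENNReal.ofReal 2) (ν.restrict B) := by
    have := (hf.restrict B).norm
    simpa using this
  have h1 : MemLp (fun _ : Ω => (1 : ℝ)) (ENNReal.ofReal 2) (ν.restrict B) := memLp_const _
  have h := integral_mul_le_Lp_mul_Lq_of_nonneg (μ := ν.restrict B) (p := 2) (q := 2)
    Real.HolderConjugate.two_two (f := fun ω => ‖f ω‖) (g := fun _ => (1 : ℝ))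
    (Filter.Eventually.of_forall fun ω => norm_nonneg _)
    (Filter.Eventually.of_forall fun ω => zero_le_one) hfB h1
  simp only [mul_one, Real.one_rpow, integral_const, smul_eq_mul] at h
  refine h.trans ?_
  rw [← Real.sqrt_eq_rpow, ← Real.sqrt_eq_rpow]
  refine mul_le_mul (Real.sqrt_le_sqrt ?_) (Real.sqrt_le_sqrt ?_) (Real.sqrt_nonneg _)
    (Real.sqrt_nonneg _)
  · refine le_trans ?_ hK
    have hint : Integrable (fun ω => ‖f ω‖ ^ 2) ν := hf.integrable_norm_pow (by norm_num)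
    have := setIntegral_le_integral (s := B) hint
      (Filter.Eventually.of_forall fun ω => by positivity)
    refine le_trans (le_of_eq ?_) this
    congr 1
    ext ω
    norm_cast
  · refine le_trans (le_of_eq ?_) hm
    simp [Measure.real]

/-- `L¹` norm of the square function. -/
theorem sq_fun [IsFiniteMeasure ν] {κ : Type*} (T : Finset κ) {M : κ → Ω → ℂ}
    (hM : ∀ l ∈ T, MemLp (M l) 2 ν) {K G : ℝ} (hK : ∀ l ∈ T, ∫ ω, ‖M l ω‖ ^ 2 ∂ν ≤ K)
    (hG : ν.real univ ≤ G) :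
    Integrable (fun ω => √(∑ l ∈ T, ‖M l ω‖ ^ 2)) ν ∧
      ∫ ω, √(∑ l ∈ T, ‖M l ω‖ ^ 2) ∂ν ≤ √(T.card * K) * √G := by
  have hi : ∀ l ∈ T, Integrable (fun ω => ‖M l ω‖ ^ 2) ν := fun l hl =>
    (hM l hl).integrable_norm_pow (by norm_num)
  have hF : Integrable (fun ω => ∑ l ∈ T, ‖M l ω‖ ^ 2) ν := integrable_finsetSum _ hi
  have hmeas : AEStronglyMeasurable (fun ω => (√(∑ l ∈ T, ‖M l ω‖ ^ 2) : ℝ)) ν :=
    Real.continuous_sqrt.comp_aestronglyMeasurable hF.aestronglyMeasurable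
  have hsq : ∀ ω, (√(∑ l ∈ T, ‖M l ω‖ ^ 2)) ^ 2 = ∑ l ∈ T, ‖M l ω‖ ^ 2 := fun ω =>
    Real.sq_sqrt (Finset.sum_nonneg fun l _ => by positivity)
  have hmem : MemLp (fun ω => ((√(∑ l ∈ T, ‖M l ω‖ ^ 2) : ℝ) : ℂ)) 2 ν := by
    have h2 : MemLp (fun ω => (√(∑ l ∈ T, ‖M l ω‖ ^ 2) : ℝ)) 2 ν := by
      rw [memLp_two_iff_integrable_sq hmeas]
      simpa only [hsq] using hF
    exact h2.ofReal
  have hn : ∀ ω, ‖((√(∑ l ∈ T, ‖M l ω‖ ^ 2) : ℝ) : ℂ)‖ = √(∑ l ∈ T, ‖M l ω‖ ^ 2) := fun ω => by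
    rw [Complex.norm_real, Real.norm_of_nonneg (Real.sqrt_nonneg _)]
  refine ⟨?_, ?_⟩
  · have := (hmem.norm.integrable (by norm_num : (1 : ℝ≥0∞) ≤ 2))
    simpa only [hn] using this
  · have hKK : ∫ ω, ‖((√(∑ l ∈ T, ‖M l ω‖ ^ 2) : ℝ) : ℂ)‖ ^ 2 ∂ν ≤ T.card * K := by
      simp only [hn, hsq]
      rw [integral_finsetSum _ hi]
      calc ∑ l ∈ T, ∫ ω, ‖M l ω‖ ^ 2 ∂ν ≤ ∑ _l ∈ T, K := Finset.sum_le_sum hK
        _ = T.card * K := by simp
    have := cs_set hmem (B := univ) hKK hG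
    simpa only [hn, Measure.restrict_univ] using this

/-- Core estimate: two random index sets `I, I' ⊆ T`; off a bad set `B` an index in exactly one
of them puts `ω` in `D l`. -/
theorem core [IsFiniteMeasure ν] {ι : Type*} [DecidableEq ι] (T : Finset ι) {V : ι → Ω → ℂ}
    (hV : ∀ l ∈ T, MemLp (V l) 2 ν) {K m : ℝ} (hK : ∀ l ∈ T, ∫ ω, ‖V l ω‖ ^ 2 ∂ν ≤ K)
    {I I' : Ω → Finset ι} (hI : ∀ ω, I ω ⊆ T) (hI' : ∀ ω, I' ω ⊆ T)
    {D : ι → Set Ω} (hD : ∀ l ∈ T, MeasurableSet (D l)) {p : ι → ℝ}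
    (hp : ∀ l ∈ T, ∫ ω in D l, ‖V l ω‖ ∂ν ≤ p l) {B : Set Ω} (hB : ν.real B ≤ m)
    (h : ∀ ω, ω ∉ B → ∀ l, l ∈ I ω → l ∉ I' ω → ω ∈ D l)
    (h' : ∀ ω, ω ∉ B → ∀ l, l ∈ I' ω → l ∉ I ω → ω ∈ D l)
    {R : Ω → ℂ} {RR : Ω → ℝ} (hR : ∀ ω, ‖R ω‖ ≤ RR ω) (hRR : Integrable RR ν) {ρ : ℝ}
    (hρ : ∫ ω, RR ω ∂ν ≤ ρ) :
    ∫ ω, ‖(∑ l ∈ I ω, V l ω + R ω) - ∑ l ∈ I' ω, V l ω‖ ∂ν
      ≤ ∑ l ∈ T, p l + T.card * (√K * √m) + ρ := by
  have hVi : ∀ l ∈ T, Integrable (fun ω => ‖V l ω‖) ν := fun l hl =>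
    ((hV l hl).integrable (by norm_num)).norm
  set B' := toMeasurable ν B with hB'
  have hBm : MeasurableSet B' := measurableSet_toMeasurable ν B
  have hBs : B ⊆ B' := subset_toMeasurable ν B
  have hBr : ν.real B' ≤ m := by
    have : ν.real B' = ν.real B := by simp [Measure.real, hB']
    rw [this]; exact hB
  have hpt : ∀ ω, ‖(∑ l ∈ I ω, V l ω + R ω) - ∑ l ∈ I' ω, V l ω‖ ≤
      (∑ l ∈ T, (D l).indicator (fun ω => ‖V l ω‖) ω +
        ∑ l ∈ T, B'.indicator (fun ω => ‖V l ω‖) ω) + RR ω := by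
    intro ω
    have h1 : (∑ l ∈ I ω, V l ω + R ω) - ∑ l ∈ I' ω, V l ω =
        (∑ l ∈ I ω \ I' ω, V l ω - ∑ l ∈ I' ω \ I ω, V l ω) + R ω := by
      rw [Finset.sum_sdiff_sub_sum_sdiff]; ring
    rw [h1]
    refine (norm_add_le _ _).trans (add_le_add ?_ (hR ω))
    refine (norm_sub_le _ _).trans ?_
    have h2 : ‖∑ l ∈ I ω \ I' ω, V l ω‖ + ‖∑ l ∈ I' ω \ I ω, V l ω‖ ≤
        ∑ l ∈ (I ω \ I' ω) ∪ (I' ω \ I ω), ‖V l ω‖ := by
      rw [Finset.sum_union]
      · exact add_le_add (norm_sum_le _ _) (norm_sum_le _ _)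
      · refine Finset.disjoint_left.2 fun l hl hl' => ?_
        exact (Finset.mem_sdiff.1 hl).2 (Finset.mem_sdiff.1 hl').1
    refine h2.trans ?_
    have hsub : (I ω \ I' ω) ∪ (I' ω \ I ω) ⊆ T := Finset.union_subset
      (Finset.sdiff_subset.trans (hI ω)) (Finset.sdiff_subset.trans (hI' ω))
    by_cases hω : ω ∈ B
    · have h3 : ∑ l ∈ T, B'.indicator (fun ω => ‖V l ω‖) ω = ∑ l ∈ T, ‖V l ω‖ :=
        Finset.sum_congr rfl fun l _ => Set.indicator_of_mem (hBs hω) _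
      rw [h3]
      have h4 : 0 ≤ ∑ l ∈ T, (D l).indicator (fun ω => ‖V l ω‖) ω :=
        Finset.sum_nonneg fun l _ => Set.indicator_nonneg (fun _ _ => norm_nonneg _) _
      have h5 := Finset.sum_le_sum_of_subset_of_nonneg hsub
        (fun l _ _ => norm_nonneg (V l ω))
      linarith
    · have h4 : 0 ≤ ∑ l ∈ T, B'.indicator (fun ω => ‖V l ω‖) ω :=
        Finset.sum_nonneg fun l _ => Set.indicator_nonneg (fun _ _ => norm_nonneg _) _
      have h6 : ∑ l ∈ (I ω \ I' ω) ∪ (I' ω \ I ω), ‖V l ω‖ =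
          ∑ l ∈ (I ω \ I' ω) ∪ (I' ω \ I ω), (D l).indicator (fun ω => ‖V l ω‖) ω := by
        refine Finset.sum_congr rfl fun l hl => ?_
        rw [Set.indicator_of_mem]
        rcases Finset.mem_union.1 hl with hl | hl
        · exact h ω hω l (Finset.mem_sdiff.1 hl).1 (Finset.mem_sdiff.1 hl).2
        · exact h' ω hω l (Finset.mem_sdiff.1 hl).1 (Finset.mem_sdiff.1 hl).2
      have h5 := Finset.sum_le_sum_of_subset_of_nonneg hsub
        (fun l _ _ => Set.indicator_nonneg (s := D l) (f := fun ω => ‖V l ω‖)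
          (fun _ _ => norm_nonneg _) ω)
      rw [h6]
      linarith
  have hi1 : ∀ l ∈ T, Integrable ((D l).indicator (fun ω => ‖V l ω‖)) ν := fun l hl =>
    (hVi l hl).indicator (hD l hl)
  have hi2 : ∀ l ∈ T, Integrable (B'.indicator (fun ω => ‖V l ω‖)) ν := fun l hl =>
    (hVi l hl).indicator hBm
  have hs1 : Integrable (fun ω => ∑ l ∈ T, (D l).indicator (fun ω => ‖V l ω‖) ω) ν :=
    integrable_finsetSum _ hi1
  have hs2 : Integrable (fun ω => ∑ l ∈ T, B'.indicator (fun ω => ‖V l ω‖) ω) ν :=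
    integrable_finsetSum _ hi2
  refine (integral_mono_of_nonneg (Filter.Eventually.of_forall fun ω => norm_nonneg _)
    ((hs1.add hs2).add hRR) (Filter.Eventually.of_forall hpt)).trans ?_
  rw [integral_add' (hs1.add hs2) hRR, integral_add' hs1 hs2, integral_finsetSum _ hi1,
    integral_finsetSum _ hi2]
  refine add_le_add (add_le_add ?_ ?_) hρ
  · refine Finset.sum_le_sum fun l hl => ?_
    rw [integral_indicator (hD l hl)]
    exact hp l hl
  · calc ∑ l ∈ T, ∫ ω, B'.indicator (fun ω => ‖V l ω‖) ω ∂ν ≤ ∑ _l ∈ T, √K * √m := by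
          refine Finset.sum_le_sum fun l hl => ?_
          rw [integral_indicator hBm]
          exact cs_set (hV l hl) (hK l hl) hBr
      _ = T.card * (√K * √m) := by simp

/-- `l` is within `r` of `k`. -/
def Near (r l k : ℕ) : Prop := l ≤ k + r ∧ k ≤ l + r

theorem near_meas {a : Ω → ℕ} (ha : Measurable a) (r l : ℕ) :
    MeasurableSet {ω | Near r l (a ω)} :=
  ha (t := {k | Near r l k}) (Set.to_countable _).measurableSet

/-- `∑_l P(|l - a| ≤ r) ≤ (2 r + 1) P(univ)`. -/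
theorem sum_near [IsFiniteMeasure ν] {a : Ω → ℕ} (ha : Measurable a) (n r : ℕ) :
    ∑ l ∈ range n, ν.real {ω | Near r l (a ω)} ≤ (2 * r + 1) * ν.real univ := by
  have h1 : ∀ l, ν.real {ω | Near r l (a ω)} =
      ∫ ω, {ω | Near r l (a ω)}.indicator (fun _ => (1 : ℝ)) ω ∂ν := fun l => by
    rw [integral_indicator (near_meas ha r l)]; simp [Measure.real]
  simp only [h1]
  have hi : ∀ l ∈ range n,
      Integrable ({ω | Near r l (a ω)}.indicator (fun _ => (1 : ℝ))) ν := fun l _ =>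
    (integrable_const _).indicator (near_meas ha r l)
  rw [← integral_finsetSum _ hi]
  calc ∫ ω, ∑ l ∈ range n, {ω | Near r l (a ω)}.indicator (fun _ => (1 : ℝ)) ω ∂ν
      ≤ ∫ _ω, (2 * r + 1 : ℝ) ∂ν := by
        refine integral_mono (integrable_finsetSum _ hi) (integrable_const _) fun ω => ?_
        have h2 : ∑ l ∈ range n, {ω | Near r l (a ω)}.indicator (fun _ => (1 : ℝ)) ω ≤
            ((Finset.Icc (a ω - r) (a ω + r)).card : ℝ) := by
          classical
          rw [Finset.card_eq_sum_ones, Nat.cast_sum]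
          push_cast
          calc ∑ l ∈ range n, {ω | Near r l (a ω)}.indicator (fun _ => (1 : ℝ)) ω
              = ∑ l ∈ (range n).filter (fun l => Near r l (a ω)), (1 : ℝ) := by
                rw [Finset.sum_filter]
                refine Finset.sum_congr rfl fun l _ => ?_
                by_cases hl : Near r l (a ω)
                · rw [Set.indicator_of_mem (by exact hl), if_pos hl]
                · rw [Set.indicator_of_notMem (by exact hl), if_neg hl]
            _ ≤ ∑ l ∈ Finset.Icc (a ω - r) (a ω + r), (1 : ℝ) := by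
                refine Finset.sum_le_sum_of_subset_of_nonneg (fun l hl => ?_)
                  fun _ _ _ => zero_le_one
                have := (Finset.mem_filter.1 hl).2
                rw [Finset.mem_Icc]
                unfold Near at this
                omega
        refine h2.trans ?_
        rw [Nat.card_Icc]
        have : a ω + r + 1 - (a ω - r) ≤ 2 * r + 1 := by omega
        calc ((a ω + r + 1 - (a ω - r) : ℕ) : ℝ) ≤ ((2 * r + 1 : ℕ) : ℝ) := by exact_mod_cast this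
          _ = 2 * r + 1 := by push_cast; ring
    _ = (2 * r + 1) * ν.real univ := by simp [Measure.real, mul_comm]

/-- **The error lemma.**  Tiles `V 0, …, V (n-1)`, partial terms `M l, M' l` (`l ≤ n`), actual
places `a, b`, comparison places `a', b'`. -/
theorem err [IsFiniteMeasure ν] (n r : ℕ) {V M M' : ℕ → Ω → ℂ} {C s G θ : ℝ}
    (hC : 0 ≤ C) (hs : 0 ≤ s) (hG : 0 ≤ G) (hθ : 0 ≤ θ) (hν : ν.real univ ≤ G)
    (hV : ∀ l < n, MemLp (V l) 2 ν)
    (hV2 : ∀ l < n, ∫ ω, ‖V l ω‖ ^ 2 ∂ν ≤ C * s ^ 2 * G)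
    (hM : ∀ l ≤ n, MemLp (M l) 2 ν)
    (hM2 : ∀ l ≤ n, ∫ ω, ‖M l ω‖ ^ 2 ∂ν ≤ C * s ^ 2 * G)
    (hM' : ∀ l ≤ n, MemLp (M' l) 2 ν)
    (hM2' : ∀ l ≤ n, ∫ ω, ‖M' l ω‖ ^ 2 ∂ν ≤ C * s ^ 2 * G)
    {a b a' b' : Ω → ℕ} (ha : ∀ ω, a ω ≤ n) (hb : ∀ ω, b ω ≤ n)
    (ham : Measurable a') (hbm : Measurable b') (hb' : ∀ ω, b' ω ≤ n)
    {p q : ℕ → ℝ}
    (hp : ∀ l < n, ∫ ω in {ω | Near r l (a' ω)}, ‖V l ω‖ ∂ν ≤ p l * ∫ ω, ‖V l ω‖ ∂ν)
    (hq : ∀ l < n, ∫ ω in {ω | Near r l (b' ω)}, ‖V l ω‖ ∂ν ≤ q l * ∫ ω, ‖V l ω‖ ∂ν)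
    (hp0 : ∀ l < n, 0 ≤ p l) (hq0 : ∀ l < n, 0 ≤ q l)
    (hps : ∑ l ∈ range n, p l ≤ 2 * r + 1) (hqs : ∑ l ∈ range n, q l ≤ 2 * r + 1)
    {B : Set Ω} (hB : ν.real B ≤ θ * G)
    (hab : ∀ ω, ω ∉ B → Near r (a ω) (a' ω) ∧ Near r (b ω) (b' ω)) :
    ∫ ω, ‖(∑ l ∈ Finset.Ico (a ω) (b ω), V l ω + M (a ω) ω + M' (b ω) ω)
        - ∑ l ∈ Finset.Ico (a' ω) (b' ω), V l ω‖ ∂ν
      ≤ G * (2 * √C * ((2 * r + 1) * s) + √C * (n * s * √θ) + 2 * √C * (√(n + 1) * s)) := by
  classical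
  set K := C * s ^ 2 * G with hK
  have hK0 : 0 ≤ K := by positivity
  have hKG : √K * √G = √C * s * G := by
    rw [← Real.sqrt_mul hK0, hK]
    have : C * s ^ 2 * G * G = C * (s * G) ^ 2 := by ring
    rw [this, Real.sqrt_mul hC, Real.sqrt_sq (by positivity)]
    ring
  have hV' : ∀ l ∈ range n, MemLp (V l) 2 ν := fun l hl => hV l (Finset.mem_range.1 hl)
  have hV2' : ∀ l ∈ range n, ∫ ω, ‖V l ω‖ ^ 2 ∂ν ≤ K := fun l hl => hV2 l (Finset.mem_range.1 hl)
  have hV1 : ∀ l < n, ∫ ω, ‖V l ω‖ ∂ν ≤ √C * s * G := fun l hl => by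
    have := cs_set (hV l hl) (B := univ) (hV2 l hl) hν
    rw [hKG] at this
    simpa using this
  -- the square functions
  obtain ⟨hi1, hq1⟩ := sq_fun (ν := ν) (range (n + 1)) (M := M) (K := K) (G := G)
    (fun l hl => hM l (Nat.lt_succ_iff.1 (Finset.mem_range.1 hl)))
    (fun l hl => hM2 l (Nat.lt_succ_iff.1 (Finset.mem_range.1 hl))) hν
  obtain ⟨hi2, hq2⟩ := sq_fun (ν := ν) (range (n + 1)) (M := M') (K := K) (G := G)
    (fun l hl => hM' l (Nat.lt_succ_iff.1 (Finset.mem_range.1 hl)))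
    (fun l hl => hM2' l (Nat.lt_succ_iff.1 (Finset.mem_range.1 hl))) hν
  have hsq : √(((range (n + 1)).card : ℝ) * K) * √G = √C * (√(n + 1) * s) * G := by
    rw [Finset.card_range, Real.sqrt_mul (by positivity)]
    push_cast
    rw [mul_assoc, hKG]; ring
  rw [hsq] at hq1 hq2
  have hMle : ∀ (N : ℕ → Ω → ℂ) (k : ℕ) (ω : Ω), k ≤ n →
      ‖N k ω‖ ≤ √(∑ l ∈ range (n + 1), ‖N l ω‖ ^ 2) := fun N k ω hk => by
    rw [← Real.sqrt_sq (norm_nonneg (N k ω))]
    refine Real.sqrt_le_sqrt ?_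
    exact Finset.single_le_sum (f := fun l => ‖N l ω‖ ^ 2) (fun l _ => by positivity)
      (Finset.mem_range.2 (Nat.lt_succ_iff.2 hk))
  have hcore := core (ν := ν) (range n) (V := V) hV' (K := K) (m := θ * G) hV2'
    (I := fun ω => Finset.Ico (a ω) (b ω)) (I' := fun ω => Finset.Ico (a' ω) (b' ω))
    (fun ω l hl => Finset.mem_range.2 ((Finset.mem_Ico.1 hl).2.trans_le (hb ω)))
    (fun ω l hl => Finset.mem_range.2 ((Finset.mem_Ico.1 hl).2.trans_le (hb' ω)))
    (D := fun l => {ω | Near r l (a' ω)} ∪ {ω | Near r l (b' ω)})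
    (fun l _ => (near_meas ham r l).union (near_meas hbm r l))
    (p := fun l => p l * (√C * s * G) + q l * (√C * s * G))
    (fun l hl => by
      have hl' := Finset.mem_range.1 hl
      have hVi : Integrable (fun ω => ‖V l ω‖) ν := ((hV l hl').integrable (by norm_num)).norm
      calc ∫ ω in {ω | Near r l (a' ω)} ∪ {ω | Near r l (b' ω)}, ‖V l ω‖ ∂ν
          ≤ ∫ ω in {ω | Near r l (a' ω)}, ‖V l ω‖ ∂ν
            + ∫ ω in {ω | Near r l (b' ω)}, ‖V l ω‖ ∂ν := by
            rw [← integral_add_measure hVi.restrict hVi.restrict]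
            exact integral_mono_measure (Measure.restrict_union_le _ _)
              (Filter.Eventually.of_forall fun ω => norm_nonneg _)
              (hVi.restrict.add_measure hVi.restrict)
        _ ≤ p l * (√C * s * G) + q l * (√C * s * G) := by
            refine add_le_add ((hp l hl').trans ?_) ((hq l hl').trans ?_)
            · exact mul_le_mul_of_nonneg_left (hV1 l hl') (hp0 l hl')
            · exact mul_le_mul_of_nonneg_left (hV1 l hl') (hq0 l hl'))
    (B := B) hB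
    (fun ω hω l hl hl' => by
      obtain ⟨h1, h2⟩ := hab ω hω
      rw [Finset.mem_Ico] at hl hl'
      unfold Near at h1 h2
      by_cases h3 : a' ω ≤ l
      · right; show Near r l (b' ω); unfold Near; omega
      · left; show Near r l (a' ω); unfold Near; omega)
    (fun ω hω l hl hl' => by
      obtain ⟨h1, h2⟩ := hab ω hω
      rw [Finset.mem_Ico] at hl hl'
      unfold Near at h1 h2
      by_cases h3 : a ω ≤ l
      · right; show Near r l (b' ω); unfold Near; omega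
      · left; show Near r l (a' ω); unfold Near; omega)
    (R := fun ω => M (a ω) ω + M' (b ω) ω)
    (RR := fun ω => √(∑ l ∈ range (n + 1), ‖M l ω‖ ^ 2) + √(∑ l ∈ range (n + 1), ‖M' l ω‖ ^ 2))
    (fun ω => (norm_add_le _ _).trans (add_le_add (hMle M _ ω (ha ω)) (hMle M' _ ω (hb ω))))
    (hi1.add hi2) (ρ := √C * (√(n + 1) * s) * G + √C * (√(n + 1) * s) * G)
    (by rw [integral_add hi1 hi2]; exact add_le_add hq1 hq2)
  have hform : ∀ ω, (∑ l ∈ Finset.Ico (a ω) (b ω), V l ω + M (a ω) ω + M' (b ω) ω)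
      = ∑ l ∈ Finset.Ico (a ω) (b ω), V l ω + (M (a ω) ω + M' (b ω) ω) := fun ω => by ring
  simp only [hform]
  refine hcore.trans ?_
  have e1 : ∑ l ∈ range n, (p l * (√C * s * G) + q l * (√C * s * G)) ≤
      2 * ((2 * r + 1) * (√C * s * G)) := by
    rw [Finset.sum_add_distrib, ← Finset.sum_mul, ← Finset.sum_mul]
    have h0 : 0 ≤ √C * s * G := by positivity
    have := mul_le_mul_of_nonneg_right hps h0
    have := mul_le_mul_of_nonneg_right hqs h0
    linarith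
  have e2 : √K * √(θ * G) = √C * s * G * √θ := by
    rw [Real.sqrt_mul hθ, mul_comm √θ √G, ← mul_assoc, hKG]
  rw [e2, Finset.card_range]
  calc _ ≤ 2 * ((2 * r + 1) * (√C * s * G)) + n * (√C * s * G * √θ)
        + (√C * (√(n + 1) * s) * G + √C * (√(n + 1) * s) * G) := by
        gcongr
    _ = _ := by ring

/-! ### the hypothesis `hp` from independence -/

/-- `a` independent of `f` under a probability measure. -/
theorem near_indep {P : Measure Ω} {f : Ω → ℝ} (hf : AEStronglyMeasurable f P)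
    {a : Ω → ℕ} (ha : Measurable a) (hind : ProbabilityTheory.IndepFun f a P) (r l : ℕ) :
    ∫ ω in {ω | Near r l (a ω)}, f ω ∂P = P.real {ω | Near r l (a ω)} * ∫ ω, f ω ∂P := by
  classical
  have hφ : Measurable (fun k : ℕ => if Near r l k then (1 : ℝ) else 0) := measurable_from_nat
  have hi := ProbabilityTheory.IndepFun.integral_fun_mul_eq_mul_integral
    (hind.comp measurable_id hφ) hf ((hφ.comp ha).aestronglyMeasurable)
  have h1 : ∀ ω, f ω * ((fun k : ℕ => if Near r l k then (1 : ℝ) else 0) ∘ a) ω =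
      {ω | Near r l (a ω)}.indicator f ω := fun ω => by
    by_cases h : Near r l (a ω)
    · rw [Set.indicator_of_mem (by exact h)]; simp [h]
    · rw [Set.indicator_of_notMem (by exact h)]; simp [h]
  have h2 : ∀ ω, ((fun k : ℕ => if Near r l k then (1 : ℝ) else 0) ∘ a) ω =
      {ω | Near r l (a ω)}.indicator (fun _ => (1 : ℝ)) ω := fun ω => by
    by_cases h : Near r l (a ω)
    · rw [Set.indicator_of_mem (by exact h)]; simp [h]
    · rw [Set.indicator_of_notMem (by exact h)]; simp [h]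
  simp only [Function.comp_def, id] at hi h1 h2
  simp only [h1] at hi
  simp only [h2] at hi
  rw [integral_indicator (near_meas ha r l), integral_indicator (near_meas ha r l)] at hi
  rw [hi, mul_comm]
  simp [Measure.real]

/-- The same for a weighted measure `g • P`: `a` is independent of `g ‖V‖` under `P`. -/
theorem near_weight {P : Measure Ω} {g : Ω → NNReal} (hg : Measurable g) {V : Ω → ℂ}
    (hV : AEStronglyMeasurable V P) {a : Ω → ℕ} (ha : Measurable a)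
    (hind : ProbabilityTheory.IndepFun (fun ω => (g ω : ℝ) * ‖V ω‖) a P) (r l : ℕ) :
    ∫ ω in {ω | Near r l (a ω)}, ‖V ω‖ ∂(P.withDensity fun ω => (g ω : ℝ≥0∞)) =
      P.real {ω | Near r l (a ω)} *
        ∫ ω, ‖V ω‖ ∂(P.withDensity fun ω => (g ω : ℝ≥0∞)) := by
  rw [restrict_withDensity (near_meas ha r l),
    integral_withDensity_eq_integral_smul hg, integral_withDensity_eq_integral_smul hg]
  exact near_indep (P := P) (f := fun ω => (g ω : ℝ) * ‖V ω‖)
    ((hg.coe_nnreal_real.aestronglyMeasurable).mul hV.norm) ha hind r l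

/-- The same for a product measure: `V` depends on the first, `a` on the second coordinate. -/
theorem near_prod {X Y : Type*} [MeasurableSpace X] [MeasurableSpace Y] {μ : Measure X}
    {Q : Measure Y} [IsFiniteMeasure μ] [IsProbabilityMeasure Q] (V : X → ℂ)
    (a : Y → ℕ) (r l : ℕ) :
    ∫ ω in {ω : X × Y | Near r l (a ω.2)}, ‖V ω.1‖ ∂(μ.prod Q) =
      Q.real {y | Near r l (a y)} * ∫ ω : X × Y, ‖V ω.1‖ ∂(μ.prod Q) := by
  have h1 : {ω : X × Y | Near r l (a ω.2)} = univ ×ˢ {y | Near r l (a y)} := by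
    ext ω; simp
  have h2 := setIntegral_prod_mul (μ := μ) (ν := Q) (fun x => ‖V x‖) (fun _ => (1 : ℝ)) univ
    {y | Near r l (a y)}
  have h3 := integral_prod_mul (μ := μ) (ν := Q) (fun x => ‖V x‖) (fun _ => (1 : ℝ))
  simp only [mul_one] at h2 h3
  rw [h1, h2, h3]
  simp [Measure.real, mul_comm]

/-- **Main term**: the sum of the independent tiles between two comparison places. -/
theorem main_term [IsFiniteMeasure ν] (n : ℕ) {V : ℕ → Ω → ℂ} (hV : ∀ l < n, Integrable (V l) ν)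
    {a' b' : Ω → ℕ} (ham : Measurable a') (hbm : Measurable b') (hb' : ∀ ω, b' ω ≤ n)
    {f : Ω → ℂ} (hf : AEStronglyMeasurable f ν) {L : ℝ} (hfL : ∀ ω, ‖f ω‖ ≤ L) {m : ℂ}
    {d : ℕ → ℂ}
    (hmain : ∀ l < n, ∫ ω in {ω | a' ω ≤ l ∧ l < b' ω}, f ω * V l ω ∂ν =
      m * d l * ∫ ω in {ω | a' ω ≤ l ∧ l < b' ω}, f ω ∂ν) :
    ∫ ω, f ω * ∑ l ∈ Finset.Ico (a' ω) (b' ω), V l ω ∂ν =
      m * ∫ ω, f ω * ∑ l ∈ Finset.Ico (a' ω) (b' ω), d l ∂ν := by
  classical
  have hE : ∀ l, MeasurableSet {ω | a' ω ≤ l ∧ l < b' ω} := fun l =>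
    (measurableSet_le ham measurable_const).inter (measurableSet_lt measurable_const hbm)
  have hsum : ∀ (W : ℕ → Ω → ℂ) (ω : Ω), f ω * ∑ l ∈ Finset.Ico (a' ω) (b' ω), W l ω =
      ∑ l ∈ range n, {ω | a' ω ≤ l ∧ l < b' ω}.indicator (fun ω => f ω * W l ω) ω := by
    intro W ω
    rw [Finset.mul_sum]
    have : Finset.Ico (a' ω) (b' ω) = (range n).filter (fun l => a' ω ≤ l ∧ l < b' ω) := by
      ext l
      simp only [Finset.mem_Ico, Finset.mem_filter, Finset.mem_range]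
      have := hb' ω
      omega
    rw [this, Finset.sum_filter]
    refine Finset.sum_congr rfl fun l _ => ?_
    by_cases h : a' ω ≤ l ∧ l < b' ω
    · rw [Set.indicator_of_mem (by exact h), if_pos h]
    · rw [Set.indicator_of_notMem (by exact h), if_neg h]
  have hfi : Integrable f ν := Integrable.of_bound hf L (Filter.Eventually.of_forall hfL)
  have hi1 : ∀ l ∈ range n,
      Integrable ({ω | a' ω ≤ l ∧ l < b' ω}.indicator (fun ω => f ω * V l ω)) ν := fun l hl =>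
    ((hV l (Finset.mem_range.1 hl)).bdd_mul hf (Filter.Eventually.of_forall hfL)).indicator (hE l)
  have hi2 : ∀ l ∈ range n,
      Integrable ({ω | a' ω ≤ l ∧ l < b' ω}.indicator (fun ω => f ω * d l)) ν := fun l _ =>
    (hfi.mul_const (d l)).indicator (hE l)
  have hs2 := hsum (fun l _ => d l)
  simp only [hsum V, hs2]
  rw [integral_finsetSum _ hi1, integral_finsetSum _ hi2, Finset.mul_sum]
  refine Finset.sum_congr rfl fun l hl => ?_
  rw [integral_indicator (hE l), integral_indicator (hE l), hmain l (Finset.mem_range.1 hl),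
    integral_mul_const]
  ring

end Crest.Agent.R143.ErrLx168
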