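import Crest.Agent.R143.ErrL_168

/-!
Error lemma of box R9 for SPATIAL tile charges (176's 3617, 970's 3611): `V_K = ∑_{l<n} W_l`, where
`W_l` is the full tile charge `V_l` for `l` well inside `[a, b)`, zero well outside, anything with
the `L²` bound at the `≤ 4 c` other places.
-/

open MeasureTheory Finset Set
open scoped ENNReal

namespace Crest.Agent.R143.ErrSx168

open ErrLx168

variable {Ω : Type*} [MeasurableSpace Ω] {ν : Measure Ω}

theorem errS [IsFiniteMeasure ν] (n r c : ℕ) {V W : ℕ → Ω → ℂ} {C s G θ : ℝ}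
    (hC : 0 ≤ C) (hs : 0 ≤ s) (hG : 0 ≤ G) (hθ : 0 ≤ θ) (hν : ν.real univ ≤ G)
    (hV : ∀ l < n, MemLp (V l) 2 ν)
    (hV2 : ∀ l < n, ∫ ω, ‖V l ω‖ ^ 2 ∂ν ≤ C * s ^ 2 * G)
    (hW : ∀ l < n, MemLp (W l) 2 ν)
    (hW2 : ∀ l < n, ∫ ω, ‖W l ω‖ ^ 2 ∂ν ≤ C * s ^ 2 * G)
    {a b a' b' : Ω → ℕ}
    (hWV : ∀ ω, ∀ l < n, a ω + c ≤ l → l + c < b ω → W l ω = V l ω)
    (hW0 : ∀ ω, ∀ l < n, l + c < a ω ∨ b ω + c ≤ l → W l ω = 0)
    (ham : Measurable a') (hbm : Measurable b') (hb' : ∀ ω, b' ω ≤ n)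
    {p q : ℕ → ℝ}
    (hp : ∀ l < n, ∫ ω in {ω | Near (r + c) l (a' ω)}, ‖V l ω‖ ∂ν ≤ p l * ∫ ω, ‖V l ω‖ ∂ν)
    (hq : ∀ l < n, ∫ ω in {ω | Near (r + c) l (b' ω)}, ‖V l ω‖ ∂ν ≤ q l * ∫ ω, ‖V l ω‖ ∂ν)
    (hp0 : ∀ l < n, 0 ≤ p l) (hq0 : ∀ l < n, 0 ≤ q l)
    (hps : ∑ l ∈ range n, p l ≤ 2 * (r + c) + 1) (hqs : ∑ l ∈ range n, q l ≤ 2 * (r + c) + 1)
    {B : Set Ω} (hB : ν.real B ≤ θ * G)
    (hab : ∀ ω, ω ∉ B → Near r (a ω) (a' ω) ∧ Near r (b ω) (b' ω)) :
    ∫ ω, ‖∑ l ∈ range n, W l ω - ∑ l ∈ Finset.Ico (a' ω) (b' ω), V l ω‖ ∂ν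
      ≤ G * (2 * √C * ((2 * (r + c) + 1) * s) + √C * (n * s * √θ)
          + √(4 * c) * √C * (√n * s)) := by
  classical
  set K := C * s ^ 2 * G with hK
  have hK0 : 0 ≤ K := by positivity
  have hKG : √K * √G = √C * s * G := by
    rw [← Real.sqrt_mul hK0, hK]
    have : C * s ^ 2 * G * G = C * (s * G) ^ 2 := by ring
    rw [this, Real.sqrt_mul hC, Real.sqrt_sq (by positivity)]
    ring
  have hV' : ∀ l ∈ range n, MemLp (V l) 2 ν := fun l hl => hV l (Finset.mem_range.1 hl)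
  have hV2' : ∀ l ∈ range n, ∫ ω, ‖V l ω‖ ^ 2 ∂ν ≤ K := fun l hl => hV2 l (Finset.mem_range.1 hl)
  have hV1 : ∀ l < n, ∫ ω, ‖V l ω‖ ∂ν ≤ √C * s * G := fun l hl => by
    have := cs_set (hV l hl) (B := univ) (hV2 l hl) hν
    rw [hKG] at this
    simpa using this
  obtain ⟨hi1, hq1⟩ := sq_fun (ν := ν) (range n) (M := W) (K := K) (G := G)
    (fun l hl => hW l (Finset.mem_range.1 hl))
    (fun l hl => hW2 l (Finset.mem_range.1 hl)) hν
  have hsq : √(((range n).card : ℝ) * K) * √G = √C * (√n * s) * G := by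
    rw [Finset.card_range, Real.sqrt_mul (by positivity), mul_assoc, hKG]; ring
  rw [hsq] at hq1
  -- the three index sets
  let I : Ω → Finset ℕ := fun ω => (range n).filter fun l => a ω + c ≤ l ∧ l + c < b ω
  let J : Ω → Finset ℕ := fun ω => (range n).filter fun l =>
    ¬ (a ω + c ≤ l ∧ l + c < b ω) ∧ ¬ (l + c < a ω ∨ b ω + c ≤ l)
  have hJc : ∀ ω, ((J ω).card : ℝ) ≤ 4 * c := fun ω => by
    have h1 : J ω ⊆ Finset.Ico (a ω - c) (a ω + c) ∪ Finset.Ico (b ω - c) (b ω + c) := by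
      intro l hl
      obtain ⟨-, h2, h3⟩ := Finset.mem_filter.1 hl
      rw [Finset.mem_union, Finset.mem_Ico, Finset.mem_Ico]
      omega
    have h2 : (J ω).card ≤ 4 * c := by
      refine (Finset.card_le_card h1).trans ((Finset.card_union_le _ _).trans ?_)
      rw [Nat.card_Ico, Nat.card_Ico]
      omega
    exact_mod_cast h2
  have hsplit : ∀ ω, ∑ l ∈ range n, W l ω = ∑ l ∈ I ω, V l ω + ∑ l ∈ J ω, W l ω := fun ω => by
    rw [← Finset.sum_filter_add_sum_filter_not (range n)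
      (fun l => a ω + c ≤ l ∧ l + c < b ω) (fun l => W l ω)]
    congr 1
    · refine Finset.sum_congr rfl fun l hl => ?_
      obtain ⟨h1, h2, h3⟩ := Finset.mem_filter.1 hl
      exact hWV ω l (Finset.mem_range.1 h1) h2 h3
    · symm
      refine Finset.sum_subset (fun l hl => ?_) (fun l hl hl' => ?_)
      · obtain ⟨h1, h2, h3⟩ := Finset.mem_filter.1 hl
        exact Finset.mem_filter.2 ⟨h1, h2⟩
      · obtain ⟨h1, h2⟩ := Finset.mem_filter.1 hl
        refine hW0 ω l (Finset.mem_range.1 h1) ?_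
        by_contra h3
        exact hl' (Finset.mem_filter.2 ⟨h1, h2, h3⟩)
  have hR : ∀ ω, ‖∑ l ∈ J ω, W l ω‖ ≤ √(4 * c) * √(∑ l ∈ range n, ‖W l ω‖ ^ 2) := fun ω => by
    have h1 : (∑ l ∈ J ω, ‖W l ω‖) ^ 2 ≤ (4 * c) * ∑ l ∈ range n, ‖W l ω‖ ^ 2 := by
      refine (sq_sum_le_card_mul_sum_sq (s := J ω) (f := fun l => ‖W l ω‖)).trans ?_
      refine mul_le_mul (hJc ω) ?_ (Finset.sum_nonneg fun l _ => by positivity) (by positivity)
      exact Finset.sum_le_sum_of_subset_of_nonneg (Finset.filter_subset _ _)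
        fun l _ _ => by positivity
    refine (norm_sum_le _ _).trans ?_
    rw [← Real.sqrt_mul (by positivity)]
    refine Real.le_sqrt_of_sq_le h1
  have hcore := core (ν := ν) (range n) (V := V) hV' (K := K) (m := θ * G) hV2'
    (I := I) (I' := fun ω => Finset.Ico (a' ω) (b' ω))
    (fun ω => Finset.filter_subset _ _)
    (fun ω l hl => Finset.mem_range.2 ((Finset.mem_Ico.1 hl).2.trans_le (hb' ω)))
    (D := fun l => {ω | Near (r + c) l (a' ω)} ∪ {ω | Near (r + c) l (b' ω)})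
    (fun l _ => (near_meas ham (r + c) l).union (near_meas hbm (r + c) l))
    (p := fun l => p l * (√C * s * G) + q l * (√C * s * G))
    (fun l hl => by
      have hl' := Finset.mem_range.1 hl
      have hVi : Integrable (fun ω => ‖V l ω‖) ν := ((hV l hl').integrable (by norm_num)).norm
      calc ∫ ω in {ω | Near (r + c) l (a' ω)} ∪ {ω | Near (r + c) l (b' ω)}, ‖V l ω‖ ∂ν
          ≤ ∫ ω in {ω | Near (r + c) l (a' ω)}, ‖V l ω‖ ∂ν
            + ∫ ω in {ω | Near (r + c) l (b' ω)}, ‖V l ω‖ ∂ν := by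
            rw [← integral_add_measure hVi.restrict hVi.restrict]
            exact integral_mono_measure (Measure.restrict_union_le _ _)
              (Filter.Eventually.of_forall fun ω => norm_nonneg _)
              (hVi.restrict.add_measure hVi.restrict)
        _ ≤ p l * (√C * s * G) + q l * (√C * s * G) := by
            refine add_le_add ((hp l hl').trans ?_) ((hq l hl').trans ?_)
            · exact mul_le_mul_of_nonneg_left (hV1 l hl') (hp0 l hl')
            · exact mul_le_mul_of_nonneg_left (hV1 l hl') (hq0 l hl'))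
    (B := B) hB
    (fun ω hω l hl hl' => by
      obtain ⟨h1, h2⟩ := hab ω hω
      obtain ⟨-, h3, h4⟩ := Finset.mem_filter.1 hl
      rw [Finset.mem_Ico] at hl'
      unfold Near at h1 h2
      by_cases h5 : a' ω ≤ l
      · right; show Near (r + c) l (b' ω); unfold Near; omega
      · left; show Near (r + c) l (a' ω); unfold Near; omega)
    (fun ω hω l hl hl' => by
      obtain ⟨h1, h2⟩ := hab ω hω
      rw [Finset.mem_Ico] at hl
      have h3 : ¬ (a ω + c ≤ l ∧ l + c < b ω) := fun h3 =>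
        hl' (Finset.mem_filter.2 ⟨Finset.mem_range.2 (hl.2.trans_le (hb' ω)), h3⟩)
      unfold Near at h1 h2
      by_cases h5 : a ω + c ≤ l
      · right; show Near (r + c) l (b' ω); unfold Near; omega
      · left; show Near (r + c) l (a' ω); unfold Near; omega)
    (R := fun ω => ∑ l ∈ J ω, W l ω)
    (RR := fun ω => √(4 * c) * √(∑ l ∈ range n, ‖W l ω‖ ^ 2)) hR
    (hi1.const_mul _) (ρ := √(4 * c) * (√C * (√n * s) * G))
    (by rw [integral_const_mul]; exact mul_le_mul_of_nonneg_left hq1 (Real.sqrt_nonneg _))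
  simp only [hsplit]
  refine hcore.trans ?_
  have e1 : ∑ l ∈ range n, (p l * (√C * s * G) + q l * (√C * s * G)) ≤
      2 * ((2 * (r + c) + 1) * (√C * s * G)) := by
    rw [Finset.sum_add_distrib, ← Finset.sum_mul, ← Finset.sum_mul]
    have h0 : 0 ≤ √C * s * G := by positivity
    have := mul_le_mul_of_nonneg_right hps h0
    have := mul_le_mul_of_nonneg_right hqs h0
    linarith
  have e2 : √K * √(θ * G) = √C * s * G * √θ := by
    rw [Real.sqrt_mul hθ, mul_comm √θ √G, ← mul_assoc, hKG]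
  rw [e2, Finset.card_range]
  calc _ ≤ 2 * ((2 * (r + c) + 1) * (√C * s * G)) + n * (√C * s * G * √θ)
        + √(4 * c) * (√C * (√n * s) * G) := by
        gcongr
    _ = _ := by ring

end Crest.Agent.R143.ErrSx168
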