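import Crest.Agent.R143.RootJ_117
import Crest.Agent.R143.Uniq_323
import Crest.Agent.R143.R5q_166

/-!
# Row 143 (S0194), part B without E3: the strand of a corridor is an out strand (helper117)

* `strd_of` : `StrBx117.Str` (strand of the corridor in the fixed region) + zones + column ==>
  `Uniqx323.Strd` (the event of the family of out strands)
-/

set_option autoImplicit false

noncomputable section

open scoped Classical

namespace Crest.Agent.R143.EvGx117

open Crest.Agent.R143.Frame1x395 Crest.Agent.R143.Frame2x395 Crest.Agent.R143.Frame3x395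
  Crest.Agent.R143.Frame4x395 Crest.Agent.R143.Frame8x395 Crest.Agent.R143.Frame9x395
  Crest.Agent.R143.NonXx592 Crest.Agent.R143.Coarsex166
open Crest.Agent.R143.Splx117 Crest.Agent.R143.StrBx117 Crest.Agent.R143.Uniqx323
  Crest.Agent.R143.K33x137

variable {D C : Type} [Fintype D] {M : CMap D C} {χ : C → ZMod 2} {N : ℕ} {q : D} {Z : Zn M}
  {n : ℕ} {p : ℕ → D} {R : ℕ → Set D} {T : ℕ → ℕ}

/-- states with both cells in `A` -/
def Rd (M : CMap D C) (A : Set C) : Set D := {d | M.cell d ∈ A ∧ Rc M d ∈ A}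

omit [Fintype D] in
/-- the new cell of the face between two consecutive states -/
theorem third_next {x : D → ZMod 2} (h : IsC M ∅ x) {d : D} (hd : x d = 1) {A : Set C}
    (h1 : d ∈ Rd M A) (h2 : stp M x d ∉ Rd M A) :
    M.cell (M.rho (M.rho d)) ∉ A ∧
      (M.cell (M.rho (M.rho d)) = M.cell (stp M x d) ∨ M.cell (M.rho (M.rho d)) = Rc M (stp M x d)) := by
  rcases stp_cases h hd (Set.notMem_empty _) with ⟨h3, h4, e⟩ | ⟨h3, h4, e⟩
  · have hl := h.lv h3
    have c1 : M.cell (stp M x d) = M.cell (M.rho (M.rho d)) := by rw [e, M.cell_iota _ hl]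
    have c2 : Rc M (stp M x d) = Rc M d := by
      show M.cell (M.rho (stp M x d)) = _
      rw [e, cell_rho_iota M hl]
    refine ⟨fun hc => h2 ⟨by rw [c1]; exact hc, by rw [c2]; exact h1.2⟩, Or.inl c1.symm⟩
  · have hl := h.lv h4
    have c1 : M.cell (stp M x d) = M.cell d := by rw [e, M.cell_iota _ hl, M.rho3]
    have c2 : Rc M (stp M x d) = M.cell (M.rho (M.rho d)) := by
      show M.cell (M.rho (stp M x d)) = _
      rw [e, cell_rho_iota M hl]
    refine ⟨fun hc => h2 ⟨by rw [c1]; exact h1.1, by rw [c2]; exact hc⟩, Or.inr c2.symm⟩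

omit [Fintype D] in
/-- the third cell of the face behind a state is a cell of the previous state -/
theorem third_prev {x : D → ZMod 2} (h : IsC M ∅ x) {d : D} (hd : x d = 1) {A : Set C}
    (h1 : stp M x d ∈ Rd M A) (h2 : d ∉ Rd M A) :
    M.cell (M.rho (M.rho (M.iota (stp M x d)))) ∉ A ∧
      (M.cell (M.rho (M.rho (M.iota (stp M x d)))) = M.cell d ∨
        M.cell (M.rho (M.rho (M.iota (stp M x d)))) = Rc M d) := by
  rcases stp_cases h hd (Set.notMem_empty _) with ⟨h3, h4, e⟩ | ⟨h3, h4, e⟩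
  · have hl := h.lv h3
    have c2 : Rc M (stp M x d) = Rc M d := by
      show M.cell (M.rho (stp M x d)) = _
      rw [e, cell_rho_iota M hl]
    have e2 : M.cell (M.rho (M.rho (M.iota (stp M x d)))) = M.cell d := by
      rw [e, M.iota2, M.rho3]
    rw [e2]
    exact ⟨fun hc => h2 ⟨hc, by rw [← c2]; exact h1.2⟩, Or.inl rfl⟩
  · have hl := h.lv h4
    have c1 : M.cell (stp M x d) = M.cell d := by rw [e, M.cell_iota _ hl, M.rho3]
    have e2 : M.cell (M.rho (M.rho (M.iota (stp M x d)))) = Rc M d := by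
      rw [e, M.iota2, M.rho3]
    rw [e2]
    exact ⟨fun hc => h2 ⟨by rw [← c1]; exact h1.1, hc⟩, Or.inr rfl⟩

/-- **the strand of the corridor is an out strand** -/
theorem strd_of {b : ZMod 2}
    (A : Str M (cfg M χ) n (Rd M Z.R) p R q N T) (hb : χ (M.cell q) = b)
    (h0 : ∀ d ∈ R 0, ∀ c, (c = M.cell d ∨ c = Rc M d) → c ∉ Z.R → c ∈ Z.E)
    (h1 : ∀ d ∈ R (n - 1), ∀ c, (c = M.cell d ∨ c = Rc M d) → c ∉ Z.R → c ∈ Z.W)
    (hcol : ∃ j ≤ T n, ∃ t ∈ Z.T, Lk M ({c | c ∈ Z.K ∧ χ c = b + 1} ∪ Z.T)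
      (Rc M (P M (cfg M χ) q j)) t) : Strd M Z b χ q (T n) where
  bl := hb
  occ := A.lp.occ
  ent := by
    have hx : IsC M ∅ (cfg M χ) := cfg_isC χ
    have hN := A.lp.pos
    have e : stp M (cfg M χ) ((stp M (cfg M χ))^[N - 1] q) = q := by
      rw [← Function.iterate_succ_apply' (stp M (cfg M χ)), show (N - 1).succ = N by omega]
      exact A.lp.per
    have h2 := third_prev hx (A.lp.st (N - 1)) (A := Z.R) (by rw [e]; exact A.mem 0 (Nat.zero_le _))
      A.bef
    rw [e] at h2
    exact h0 _ A.befR _ h2.2 h2.1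
  inl := fun j hj => (A.mem j hj).1
  inr := fun j hj => (A.mem j hj).2
  ext := by
    have hx : IsC M ∅ (cfg M χ) := cfg_isC χ
    have e : stp M (cfg M χ) ((stp M (cfg M χ))^[T n] q) = (stp M (cfg M χ))^[T n + 1] q := by
      rw [Function.iterate_succ_apply']
    have h2 := third_next hx (A.lp.st (T n)) (A := Z.R) (A.mem (T n) le_rfl)
      (by rw [e]; exact A.aft)
    rw [e] at h2
    exact h1 _ A.aftR _ h2.2 h2.1
  col := hcol

end Crest.Agent.R143.EvGx117
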