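import Crest.Agent.R143.Strand_535
import Crest.Agent.R143.Ext_358
import Crest.Agent.R143.StGlue_867

/-!
# Row 143 (S0194), RIG, EXT design (notes 3646, 3765, 3791): the event of the out strand is decided

`Rt` = cells of the strips of the out tiles, `R` = cells of the white strips, `Ez`, `Wz` = the two
ends, `Tz` = the outer side, `Kc` = the region of the white column.

* `Ev` : the strand of `d` inside `Rt` goes from `Ez` to `Wz` and one of its right cells is joined to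
  `Tz` by white cells of `Kc`
* `zs_sub`, `tz_ext` : the blocking set is in `Rt ∪ R`, so `Tz ⊆ Ext`
* `dec` : **the event is decided by the colours on `Out_d`** (358's `outF`)
* `fam` : with uniqueness (323): 867's family; `stop` : one stopping set
-/

set_option autoImplicit false

noncomputable section

open scoped Classical

namespace Crest.Agent.R143.Evx903

open Crest.Agent.R143.Frame1x395 Crest.Agent.R143.Frame2x395 Crest.Agent.R143.Frame3x395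
  Crest.Agent.R143.Frame4x395 Crest.Agent.R143.Frame8x395 Crest.Agent.R143.Frame9x395
  Crest.Agent.R143.NonXx592 Crest.Agent.R143.CFramex358 Crest.Agent.R143.Gntx535
  Crest.Agent.R143.R5bx166 Crest.Agent.R143.Strandx535 Crest.Agent.R143.Extx358

variable {D C : Type} {M : CMap D C} {H R Rt Ez Wz Tz Kc : Set C} {σ τ : C → ZMod 2} {d : D}

/-- one step of the white column -/
def St (M : CMap D C) (Kc : Set C) (σ : C → ZMod 2) (a b : C) : Prop := Ad M a b ∧ b ∈ Kc ∧ σ b = 0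

/-- **the event of the out strand** through `d` -/
structure Ev (M : CMap D C) (Rt Ez Wz Tz Kc : Set C) (d : D) (σ : C → ZMod 2) : Prop where
  occ : cfg M σ d = 1
  blk : σ (M.cell d) = 1
  l : M.cell d ∈ Rt
  r : Rc M d ∈ Rt
  fwd : ∃ q, Str M (cfg M σ) Rt d q ∧ M.cell (M.rho (M.rho q)) ∈ Wz
  bwd : ∃ q, Str M (cfg M σ) Rt d q ∧ M.cell (M.rho (M.rho (M.iota q))) ∈ Ez
  col : ∃ q, Str M (cfg M σ) Rt d q ∧ ∃ a, ∃ t ∈ Tz,
    Relation.ReflTransGen (St M Kc σ) (Rc M q) a ∧ Ad M a t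

variable [Fintype D]

/-- the blocking set is in `Rt ∪ R` -/
theorem zs_sub (hd : cfg M σ d = 1) (h1 : M.cell d ∈ Rt) (h2 : Rc M d ∈ Rt) {c : C}
    (hc : c ∈ Zs (fun σ => (Sd M d Rt σ : Set C)) R σ) : c ∈ Rt ∪ R := by
  rcases hc with hc | hc
  · exact Or.inl (Sd_sub hd h1 h2 (Finset.mem_coe.1 hc))
  · exact Or.inr hc.1

/-- the outer side is in `Ext` -/
theorem tz_ext (hd : cfg M σ d = 1) (h1 : M.cell d ∈ Rt) (h2 : Rc M d ∈ Rt)
    (hT : ∀ t ∈ Tz, Ext M H (Rt ∪ R) t) {t : C} (ht : t ∈ Tz) :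
    Ext M H (Zs (fun σ => (Sd M d Rt σ : Set C)) R σ) t :=
  (hT t ht).mono fun _ hc hz => hc.off (zs_sub hd h1 h2 hz)

/-- the left cells of the strand are black, the right cells white -/
theorem str_col (hd : cfg M σ d = 1) (hb : σ (M.cell d) = 1) {q : D}
    (hq : Str M (cfg M σ) Rt d q) : σ (M.cell q) = 1 ∧ σ (Rc M q) = 0 := by
  have h := cfg_isC (M := M) σ
  have h1 : σ (M.cell q) = 1 := by
    rcases hq with ⟨j, -, rfl⟩ | hq
    · rw [← hb]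
      exact it_col h hd (fun d hd => cfg_zero.1 hd) j
    · obtain ⟨j, -, e⟩ := hq.rev' h hd
      have ho := str_occ h hd (Or.inr hq)
      have h2 := it_col h ho (χ := σ) (fun d hd => cfg_zero.1 hd) j
      rw [← hb, ← e]
      exact h2.symm
  refine ⟨h1, ?_⟩
  have ho := str_occ h hd hq
  have h3 := cfg_one.1 ho
  rw [h1] at h3
  rw [show Rc M q = M.cell (M.rho q) from rfl, h3]
  decide

/-- a white cell of the blocking set off `R` is a right cell of the strand -/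
theorem harc (hd : cfg M σ d = 1) (hb : σ (M.cell d) = 1) {c : C}
    (hc : c ∈ Zs (fun σ => (Sd M d Rt σ : Set C)) R σ) (h0 : σ c = 0) (hR : c ∉ R) :
    ∃ q, Str M (cfg M σ) Rt d q ∧ Rc M q = c := by
  rcases hc with hc | hc
  · obtain ⟨q, hq, e | e⟩ := (mem_Sd hd).1 (Finset.mem_coe.1 hc)
    · have := (str_col hd hb hq).1
      rw [← e, h0] at this
      exact absurd this (by decide)
    · exact ⟨q, hq, e.symm⟩
  · exact absurd hc.1 hR

/-- **cutting the column** at its last cell in the blocking set -/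
theorem cut (E : Ev M Rt Ez Wz Tz Kc d σ) (hK : ∀ c ∈ Kc, c ∉ R)
    (hT : ∀ t ∈ Tz, Ext M H (Rt ∪ R) t) :
    ∃ q, Str M (cfg M σ) Rt d q ∧ ∃ a, ∃ t ∈ Tz,
      Relation.ReflTransGen (fun a b => St M Kc σ a b ∧
        Ext M H (Zs (fun σ => (Sd M d Rt σ : Set C)) R σ) b) (Rc M q) a ∧ Ad M a t := by
  obtain ⟨q, hq, a, t, ht, hp, ha⟩ := E.col
  have key : ∀ c, Relation.ReflTransGen (St M Kc σ) c a →
      (Relation.ReflTransGen (fun a b => St M Kc σ a b ∧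
          Ext M H (Zs (fun σ => (Sd M d Rt σ : Set C)) R σ) b) c a ∧
        ∃ e, Ext M H (Zs (fun σ => (Sd M d Rt σ : Set C)) R σ) e ∧ Ad M e c) ∨
      ∃ q, Str M (cfg M σ) Rt d q ∧ Relation.ReflTransGen (fun a b => St M Kc σ a b ∧
        Ext M H (Zs (fun σ => (Sd M d Rt σ : Set C)) R σ) b) (Rc M q) a := by
    intro c hp
    induction hp using Relation.ReflTransGen.head_induction_on with
    | refl =>
      exact Or.inl ⟨Relation.ReflTransGen.refl, t, tz_ext E.occ E.l E.r hT ht, ha.symm⟩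
    | head h1 _ ih =>
      rename_i c c' _
      rcases ih with ⟨h2, e, h3, h4⟩ | h2
      · rcases ext_ad h3 h4 with h5 | h5
        · exact Or.inl ⟨Relation.ReflTransGen.head ⟨h1, h5⟩ h2, c', h5, h1.1.symm⟩
        · right
          obtain ⟨q', hq', e'⟩ := harc E.occ E.blk h5.1 h1.2.2 (hK _ h1.2.1)
          exact ⟨q', hq', by rw [e']; exact h2⟩
      · exact Or.inr h2
  rcases key _ hp with ⟨h1, -⟩ | ⟨q', hq', h1⟩
  · exact ⟨q, hq, a, t, ht, h1, ha⟩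
  · exact ⟨q', hq', a, t, ht, h1, ha⟩

/-- **the event is decided by the colours on `Out_d`** -/
theorem dec (hf : H.Finite) (hH : ∀ c ∈ H, c ∉ R) (hK : ∀ c ∈ Kc, c ∉ R)
    (hT : ∀ t ∈ Tz, Ext M H (Rt ∪ R) t) (E : Ev M Rt Ez Wz Tz Kc d σ)
    (ha : ∀ c ∈ outF M H R (Sd M d Rt) σ, τ c = σ c) :
    Ev M Rt Ez Wz Tz Kc d τ ∧ outF M H R (Sd M d Rt) τ = outF M H R (Sd M d Rt) σ ∧
      ∀ q, Str M (cfg M τ) Rt d q ↔ Str M (cfg M σ) Rt d q := by
  have harc' : ∀ c ∈ Sd M d Rt σ, τ c = σ c := fun c hc =>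
    ha c ((mem_outF hf).2 (out_arc (Finset.mem_coe.2 hc)))
  obtain ⟨h1, h2⟩ := str_agree E.occ harc'
  have hdc : τ (M.cell d) = σ (M.cell d) :=
    harc' _ ((mem_Sd E.occ).2 ⟨d, str_refl d, Or.inl rfl⟩)
  refine ⟨⟨h1, by rw [hdc]; exact E.blk, E.l, E.r, ?_, ?_, ?_⟩,
    outF_stp hf hH (Sd_stp d Rt) σ τ ha, h2⟩
  · obtain ⟨q, hq, h3⟩ := E.fwd
    exact ⟨q, (h2 q).2 hq, h3⟩
  · obtain ⟨q, hq, h3⟩ := E.bwd
    exact ⟨q, (h2 q).2 hq, h3⟩
  · obtain ⟨q, hq, a, t, ht, hp, hat⟩ := cut (H := H) E hK hT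
    refine ⟨q, (h2 q).2 hq, a, t, ht, ?_, hat⟩
    refine Relation.ReflTransGen.mono (fun a b hab => ⟨hab.1.1, hab.1.2.1, ?_⟩) _ _ hp
    rw [ha b ((mem_outF hf).2 (out_ext hab.2))]
    exact hab.1.2.2

/-- **867's family** -/
theorem fam (hf : H.Finite) (hH : ∀ c ∈ H, c ∉ R) (hK : ∀ c ∈ Kc, c ∉ R)
    (hT : ∀ t ∈ Tz, Ext M H (Rt ∪ R) t)
    (hU : ∀ d d' σ, Ev M Rt Ez Wz Tz Kc d σ → Ev M Rt Ez Wz Tz Kc d' σ →
      Str M (cfg M σ) Rt d d') :
    StGluex867.Fam (fun d => outF M H R (Sd M d Rt)) (fun d σ => Ev M Rt Ez Wz Tz Kc d σ) where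
  stp := fun d σ τ E ha => by
    obtain ⟨h1, h2, -⟩ := dec hf hH hK hT E ha
    exact ⟨h1, h2⟩
  uni := fun d d' σ E E' => by
    have h1 : Sd M d' Rt σ = Sd M d Rt σ := Sd_eq E.occ (hU d d' σ E E')
    show outF M H R (Sd M d Rt) σ = outF M H R (Sd M d' Rt) σ
    have h2 : Out M H R (fun σ => (Sd M d Rt σ : Set C)) σ =
        Out M H R (fun σ => (Sd M d' Rt σ : Set C)) σ := by
      unfold Out Zs
      beta_reduce
      rw [h1]
    apply Finset.coe_injective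
    rw [coe_outF hf, coe_outF hf, h2]

variable [Fintype C]

/-- **the revealed set of the out strand** : `Out_d` on the event, all cells otherwise -/
abbrev OutS (M : CMap D C) (H R Rt Ez Wz Tz Kc : Set C) : (C → ZMod 2) → Finset C :=
  StGluex867.out (fun d => outF M H R (Sd M d Rt)) (fun d σ => Ev M Rt Ez Wz Tz Kc d σ)

theorem outS_stop (hf : H.Finite) (hH : ∀ c ∈ H, c ∉ R) (hK : ∀ c ∈ Kc, c ∉ R)
    (hT : ∀ t ∈ Tz, Ext M H (Rt ∪ R) t)
    (hU : ∀ d d' σ, Ev M Rt Ez Wz Tz Kc d σ → Ev M Rt Ez Wz Tz Kc d' σ →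
      Str M (cfg M σ) Rt d d') : Resax778.StopSet (OutS M H R Rt Ez Wz Tz Kc) :=
  StGluex867.stop (fam hf hH hK hT hU)

theorem outS_eq (hf : H.Finite) (hH : ∀ c ∈ H, c ∉ R) (hK : ∀ c ∈ Kc, c ∉ R)
    (hT : ∀ t ∈ Tz, Ext M H (Rt ∪ R) t)
    (hU : ∀ d d' σ, Ev M Rt Ez Wz Tz Kc d σ → Ev M Rt Ez Wz Tz Kc d' σ →
      Str M (cfg M σ) Rt d d') (E : Ev M Rt Ez Wz Tz Kc d σ) :
    OutS M H R Rt Ez Wz Tz Kc σ = outF M H R (Sd M d Rt) σ :=
  StGluex867.out_eq (fam hf hH hK hT hU) E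

omit [Fintype C] in
/-- the strand as an arc: entry state `e`, length `n` -/
theorem arc_of (E : Ev M Rt Ez Wz Tz Kc d σ) (hW : ∀ c ∈ Wz, c ∉ Rt) :
    ∃ (e : D) (n : ℕ), cfg M σ e = 1 ∧ (∀ q, Str M (cfg M σ) Rt d q ↔ ∃ j ≤ n,
        P M (cfg M σ) e j = q) ∧ (∀ j < n, fc M Rt (P M (cfg M σ) e j)) ∧
      ¬ fc M Rt (P M (cfg M σ) e n) ∧ ¬ fc M Rt (M.iota e) ∧
      (∀ i j, i < j → j ≤ n → P M (cfg M σ) e i ≠ P M (cfg M σ) e j) ∧
      Sd M d Rt σ = wl M (cfg M σ) e n ∪ wr M (cfg M σ) e n ∧ σ (M.cell e) = 1 := by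
  obtain ⟨q, hq, h1⟩ := E.fwd
  obtain ⟨e, n, g1, g2, g3, g4, g5, g6⟩ := str_list (cfg_isC (M := M) σ) E.occ
    ⟨q, hq, fun h => hW _ h1 h.2.2⟩
  refine ⟨e, n, g1, g2, g3, g4, g5, g6, Sd_list E.occ g2, ?_⟩
  exact (str_col E.occ E.blk ((g2 e).2 ⟨0, Nat.zero_le _, rfl⟩)).1

end Crest.Agent.R143.Evx903
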