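import Crest.Agent.R143.Exc_790
import Crest.Agent.R143.GiantE_197
import Crest.Agent.R143.C2SB_395

/-!
# Row 143 (S0194), block H, H5 (C) (helper790): ring data imply `Net` for the three patterns

`K 0`, `K 1`, `K 2` the three arcs of the ring (disjoint connected sets of cells), `Ek` the cells
joined to the hull cell `h0` off the ring (197), `AK k` the giants of the pattern `k`: `Ek` is put into
`K k` (395's language: `Gi`, `Cq`, `Root`, `Rc`).
* `Rt M h0 K g` : the three arcs and the three FORWARD gaps `g k` on the outer side (old cell in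
  `K (k + 1)`, new cell in `K (k + 2)`, third cell in `Ek`)
* `Rt.gi`, `Rt.root` : 395's `Gi`, `Root` of every pattern
* `Rt.dir` : **no face with the cells `K (k + 1)`, `K (k + 2)`, `Ek` in the backward order** (`K₃₃`)
* `Rt.net` : **`Net` of `Exc_790`** for every pattern, any static colours, any real colours with
  `K (k + 1)`, `K (k + 2)` black, `K k` white, the free cells as in the static net
* `Lr` : the ring loop; `Lr.right` : its right cells are in `Ek`; `Lr.kc`, `Lr.oa` : outer arc of the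
  real configuration
* `Rt.jc`, `Rt.sum` : **one block of the real configuration for the root block of the pattern `k`**
-/

set_option autoImplicit false

noncomputable section

open scoped Classical

namespace Crest.Agent.R143.Exc2x790

open Crest.Agent.R143.Frame1x395 Crest.Agent.R143.Frame2x395 Crest.Agent.R143.Frame3x395
  Crest.Agent.R143.Frame8x395 Crest.Agent.R143.Frame9x395 Crest.Agent.R143.Frame11x395
  Crest.Agent.R143.NonXx592 Crest.Agent.R143.Coarsex166 Crest.Agent.R143.Coarse2x166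
  Crest.Agent.R143.Chordx355 Crest.Agent.R143.ChordCx357 Crest.Agent.R143.Chord2x355
  Crest.Agent.R143.H2x355 Crest.Agent.R143.K33x137 Crest.Agent.R143.GiantEx197
  Crest.Agent.R143.Excx790
open Crest.Agent.R143.C2SBx395 (Free Gi Cq Root Rc)
open Crest.Agent.R143.Exitx707 (Nb nb_symm)

variable {D C C' : Type} {M : CMap D C} {h0 : C} {K : ZMod 3 → Set C} {g : ZMod 3 → D} {k : ZMod 3}

/-- the cells of the ring -/
def KU (K : ZMod 3 → Set C) : Set C := {c | ∃ i, c ∈ K i}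

/-- the giants of the pattern `k` -/
def AK (M : CMap D C) (h0 : C) (K : ZMod 3 → Set C) (k j : ZMod 3) : Set C :=
  if j = k then K j ∪ Ek M h0 (KU K) else K j

theorem z3 : ∀ k : ZMod 3, k + 1 ≠ k ∧ k + 2 ≠ k ∧ k + 1 ≠ k + 2 ∧ k + 1 + 1 = k + 2 ∧
    k + 1 + 2 = k ∧ k + 2 + 2 = k + 1 ∧ k + 2 + 1 = k := by decide

theorem z3j : ∀ k j : ZMod 3, j = k ∨ j = k + 1 ∨ j = k + 2 := by decide

theorem ak0 : AK M h0 K k k = K k ∪ Ek M h0 (KU K) := if_pos rfl

theorem ak1 : AK M h0 K k (k + 1) = K (k + 1) := if_neg (z3 k).1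

theorem ak2 : AK M h0 K k (k + 2) = K (k + 2) := if_neg (z3 k).2.1

/-- the three arcs and the three forward gaps -/
structure Rt (M : CMap D C) (h0 : C) (K : ZMod 3 → Set C) (g : ZMod 3 → D) : Prop where
  disj : ∀ i j c, c ∈ K i → c ∈ K j → i = j
  con : ∀ i, Cn M (K i)
  hh : h0 ∉ KU K
  r0 : ∀ k, M.cell (g k) ∈ K (k + 2)
  r1 : ∀ k, M.cell (M.rho (g k)) ∈ K (k + 1)
  r2 : ∀ k, M.cell (M.rho (M.rho (g k))) ∈ Ek M h0 (KU K)

theorem ek_cn : Cn M (Ek M h0 (KU K)) := by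
  have key : ∀ c ∈ Ek M h0 (KU K), Lk M (Ek M h0 (KU K)) h0 c := by
    refine ek_ind (Relation.EqvGen.refl _) fun a c ha ih hn hc => ?_
    obtain ⟨d, e1, e2⟩ := hn
    exact ih.trans' (Lk.edge ha (ek_step ha ⟨d, e1, e2⟩ hc) ⟨d, e1, e2⟩)
  intro c hc c' hc'
  exact Relation.EqvGen.trans _ _ _ (Relation.EqvGen.symm _ _ (key c hc)) (key c' hc')

theorem ed_tri (d : D) : Ed M (M.cell d) (M.cell (M.rho (M.rho d))) := by
  have h : Ed M (M.cell (M.rho (M.rho d))) (M.cell (M.rho (M.rho (M.rho d)))) := ⟨_, rfl, rfl⟩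
  rw [M.rho3] at h
  exact h.symm

namespace Rt

theorem ek_off (H : Rt M h0 K g) {c : C} (hc : c ∈ Ek M h0 (KU K)) (i : ZMod 3) : c ∉ K i :=
  fun h => GiantEx197.ek_off H.hh hc ⟨i, h⟩

/-- **the giants of the pattern `k`** -/
theorem gi (H : Rt M h0 K g) (k : ZMod 3) : Gi M (AK M h0 K k) := by
  constructor
  · intro i j c hi hj
    have key : ∀ i, c ∈ AK M h0 K k i → (c ∈ K i) ∨ (i = k ∧ c ∈ Ek M h0 (KU K)) := by
      intro i hi
      unfold AK at hi
      by_cases e : i = k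
      · rw [if_pos e] at hi
        rcases hi with hi | hi
        · exact Or.inl hi
        · exact Or.inr ⟨e, hi⟩
      · rw [if_neg e] at hi
        exact Or.inl hi
    rcases key i hi with h1 | ⟨h1, h2⟩
    · rcases key j hj with h3 | ⟨h3, h4⟩
      · exact H.disj _ _ _ h1 h3
      · exact absurd h1 (H.ek_off h4 i)
    · rcases key j hj with h3 | ⟨h3, h4⟩
      · exact absurd h3 (H.ek_off h2 j)
      · rw [h1, h3]
  · intro i
    unfold AK
    by_cases e : i = k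
    · rw [if_pos e]
      have e1 := (z3 i).2.2.2.2.1
      have a1 : M.cell (g (i + 1)) ∈ K i := by
        have := H.r0 (i + 1)
        rwa [e1] at this
      exact (H.con i).union ek_cn a1 (H.r2 (i + 1)) (Or.inr (ed_tri _))
    · rw [if_neg e]
      exact H.con i

theorem root (H : Rt M h0 K g) (k : ZMod 3) : Root M (AK M h0 K k) (k + 1) (g k) := by
  obtain ⟨-, -, -, e1, e2, -, -⟩ := z3 k
  refine ⟨?_, ?_, ?_⟩
  · rw [e1, ak2]; exact H.r0 k
  · rw [ak1]; exact H.r1 k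
  · rw [e2, ak0]; exact Or.inr (H.r2 k)

/-- **no backward face on the outer side** -/
theorem dir [Finite D] (H : Rt M h0 K g) {h : D} (a0 : M.cell h ∈ K (k + 1))
    (a1 : M.cell (M.rho h) ∈ K (k + 2)) (a2 : M.cell (M.rho (M.rho h)) ∈ Ek M h0 (KU K)) :
    False := by
  obtain ⟨n1, n2, n3, e1, e2, e3, e4⟩ := z3 k
  have c2 : M.cell (g (k + 1)) ∈ K k := by
    have := H.r0 (k + 1)
    rwa [e2] at this
  have c3 : M.cell (M.rho (g (k + 1))) ∈ K (k + 2) := by
    have := H.r1 (k + 1)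
    rwa [e1] at this
  have hb : Cn M (K (k + 2) ∪ K k) :=
    (H.con (k + 2)).union (H.con k) c3 c2 (Or.inr (Ed.symm ⟨_, rfl, rfl⟩))
  have T : T3 M (K (k + 1)) (K (k + 2) ∪ K k) (Ek M h0 (KU K)) := by
    refine ⟨H.con _, hb, ek_cn, ?_, ?_, ?_⟩
    · refine Set.disjoint_left.2 fun c h1 h2 => ?_
      rcases h2 with h2 | h2
      · exact n3 (H.disj _ _ _ h1 h2)
      · exact n1 (H.disj _ _ _ h1 h2)
    · exact Set.disjoint_left.2 fun c h1 h2 => H.ek_off h2 _ h1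
    · refine Set.disjoint_left.2 fun c h1 h2 => ?_
      rcases h1 with h1 | h1
      · exact H.ek_off h2 _ h1
      · exact H.ek_off h2 _ h1
  have b0 : M.cell (g (k + 2)) ∈ K (k + 1) := by
    have := H.r0 (k + 2)
    rwa [e3] at this
  have b1 : M.cell (M.rho (g (k + 2))) ∈ K k := by
    have := H.r1 (k + 2)
    rwa [e4] at this
  have e : h = g (k + 2) := k33 T (d := h) (d' := g (k + 2)) ⟨a0, Or.inl a1, a2⟩
    ⟨b0, Or.inr b1, H.r2 _⟩
  rw [e] at a1
  exact n2 (H.disj _ _ _ a1 b1)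

variable {π : C → C'} {χ₀ χ' : C → ZMod 2}

/-- **`Net` of the pattern `k`** -/
theorem net [Finite D] (H : Rt M h0 K g) (Q : Cq π (AK M h0 K k)) (hc : Rc (AK M h0 K k) (k + 1) χ₀)
    (r1 : ∀ c ∈ K (k + 1), χ' c = 1) (r2 : ∀ c ∈ K (k + 2), χ' c = 1) (r0 : ∀ c ∈ K k, χ' c = 0)
    (rF : ∀ c, Free (AK M h0 K k) c → χ' c = χ₀ c) :
    Net M π (π (M.cell (g k))) (π (M.cell (M.rho (g k)))) (π (M.cell (M.rho (M.rho (g k))))) (K k)
      χ₀ χ' (g k) := by
  obtain ⟨n1, n2, n3, e1, e2, e3, e4⟩ := z3 k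
  have G := H.gi k
  have R := H.root k
  have R0 : M.cell (g k) ∈ AK M h0 K k (k + 2) := by rw [ak2]; exact H.r0 k
  have R1 : M.cell (M.rho (g k)) ∈ AK M h0 K k (k + 1) := R.r1
  have R2 : M.cell (M.rho (M.rho (g k))) ∈ AK M h0 K k k := by rw [ak0]; exact Or.inr (H.r2 k)
  have mA : ∀ c, π c = π (M.cell (g k)) → c ∈ K (k + 2) := fun c e => by
    have := Q.mem G R0 e
    rwa [ak2] at this
  have mB : ∀ c, π c = π (M.cell (M.rho (g k))) → c ∈ K (k + 1) := fun c e => by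
    have := Q.mem G R1 e
    rwa [ak1] at this
  have mW : ∀ c, π c = π (M.cell (M.rho (M.rho (g k)))) → c ∈ K k ∨ c ∈ Ek M h0 (KU K) :=
    fun c e => by
      have := Q.mem G R2 e
      rwa [ak0] at this
  have fr : ∀ c, Fr π (π (M.cell (g k))) (π (M.cell (M.rho (g k))))
      (π (M.cell (M.rho (M.rho (g k))))) c → Free (AK M h0 K k) c := by
    rintro c ⟨f1, f2, f3⟩ j hj
    rcases z3j k j with rfl | rfl | rfl
    · exact f3 (Q.eq hj R2)
    · exact f2 (Q.eq hj R1)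
    · exact f1 (Q.eq hj R0)
  have free_off : ∀ c, Free (AK M h0 K k) c → c ∉ Eg M h0 (KU K) := by
    rintro c hf (h | ⟨j, h⟩)
    · exact hf k (by rw [ak0]; exact Or.inr h)
    · rcases z3j k j with rfl | rfl | rfl
      · exact hf j (by rw [ak0]; exact Or.inl h)
      · exact hf (k + 1) (by rw [ak1]; exact h)
      · exact hf (k + 2) (by rw [ak2]; exact h)
  refine ⟨?_, ?_, ?_, ?_, ?_, rfl, rfl, rfl, fun c e => r2 c (mA c e), fun c e => r1 c (mB c e),
    fun c hf => rF c (fr c hf), ?_, ?_, ?_⟩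
  · intro e
    exact n3 (H.disj _ _ _ (mB _ e) (H.r0 k))
  · intro c e
    refine hc.c0 c ?_
    rw [e1, ak2]; exact mA c e
  · intro c e
    refine hc.c1 c ?_
    rw [ak1]; exact mB c e
  · intro c e
    refine hc.c2 c ?_
    rw [e2, ak0]; exact mW c e
  · intro c c' hf e
    rcases (Q.ker _ _).1 e with h | ⟨i, h1, -⟩
    · exact h
    · exact absurd h1 (fr c hf i)
  · intro c hcK
    refine ⟨?_, r0 c hcK⟩
    have : c ∈ AK M h0 K k k := by rw [ak0]; exact Or.inl hcK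
    exact Q.eq this R2
  · intro d _ hf hw
    rcases mW _ hw with h | h
    · exact h
    · exact absurd (nb_mem h (nb_symm ⟨d, rfl, rfl⟩)) (free_off _ (fr _ hf))
  · intro h _ h1 h2 h3
    rcases mW _ h3 with h4 | h4
    · exact h4
    · exact (H.dir (mB _ h2) (mA _ h1) h4).elim

end Rt

/-! ### the ring loop and the outer arc -/

variable {π : C → C'} {hπ : ClsCon M π} {χ χ₀ χ' : C → ZMod 2} {p p₀ : D} {m : ℕ}

/-- a connected set of white cells is joined by unoccupied darts -/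
theorem con_of_cn {A : Set C} (hA : Cn M A) (hw : ∀ c ∈ A, χ' c = 0) {c c' : C} (hc : c ∈ A)
    (hc' : c' ∈ A) : Con M (cfg M χ') c c' := by
  have h := hA c hc c' hc'
  clear hc hc'
  induction h with
  | rel u v h =>
    obtain ⟨hu, hv, d, rfl, rfl⟩ := h
    refine Relation.EqvGen.rel _ _ ⟨d, ?_, rfl, rfl⟩
    show χ' (M.cell d) + χ' (M.cell (M.rho d)) = 0
    rw [hw _ hu, hw _ hv]; decide
  | refl u => exact Relation.EqvGen.refl _
  | symm u v _ ih => exact Relation.EqvGen.symm _ _ ih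
  | trans u v w _ _ ih1 ih2 => exact Relation.EqvGen.trans _ _ _ ih1 ih2

/-- the ring loop `P p 0, P p 1, ..` of the colours `χ` -/
structure Lr (M : CMap D C) (χ : C → ZMod 2) (p : D) (h0 : C) (K : ZMod 3 → Set C) : Prop where
  occ : cfg M χ p = 1
  left : ∀ u, lc M (cfg M χ) p u ∈ KU K
  kb : ∀ c ∈ KU K, χ c = 1
  r : M.cell (M.rho p) ∈ Ek M h0 (KU K)

/-- the right cells are white -/
theorem Lr.white [Fintype D] (R : Lr M χ p h0 K) (u : ℕ) :
    χ (M.cell (M.rho (P M (cfg M χ) p u))) = 0 := by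
  have h1 : cfg M χ (P M (cfg M χ) p u) = 1 := P_occ (cfg_isC _) R.occ u
  have h2 : χ (M.cell (P M (cfg M χ) p u)) + χ (M.cell (M.rho (P M (cfg M χ) p u))) = 1 := h1
  have h3 : χ (M.cell (P M (cfg M χ) p u)) = 1 := R.kb _ (R.left u)
  rw [h3] at h2
  revert h2
  generalize χ (M.cell (M.rho (P M (cfg M χ) p u))) = s
  revert s; decide

/-- **the right cells are in `Ek`** -/
theorem Lr.right [Fintype D] (R : Lr M χ p h0 K) (u : ℕ) :
    M.cell (M.rho (P M (cfg M χ) p u)) ∈ Ek M h0 (KU K) := by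
  induction u with
  | zero => exact R.r
  | succ u ih =>
    have hx : IsC M ∅ (cfg M χ) := cfg_isC _
    have hw := R.white (u + 1)
    rcases stp_cases hx (P_occ hx R.occ u) (Set.notMem_empty _) with ⟨a1, a2, e⟩ | ⟨a1, a2, e⟩
    · rw [P_succ, e, cell_rho_iota M (hx.lv a1)]
      exact ih
    · have e1 : M.cell (M.rho (P M (cfg M χ) p (u + 1))) =
          M.cell (M.rho (M.rho (P M (cfg M χ) p u))) := by
        rw [P_succ, e, cell_rho_iota M (hx.lv a2)]
      rw [e1] at hw ⊢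
      refine ek_step ih ⟨M.rho (P M (cfg M χ) p u), rfl, rfl⟩ fun hK => ?_
      rw [R.kb _ hK] at hw
      exact absurd hw (by decide)

/-- **outer arc** of the pattern `k` in the real configuration -/
structure Oc (M : CMap D C) (h0 : C) (K : ZMod 3 → Set C) (k : ZMod 3) (χ' : C → ZMod 2) (p₀ : D)
    (m : ℕ) : Prop where
  occ : cfg M χ' p₀ = 1
  left : ∀ a, a < m → lc M (cfg M χ') p₀ a ∈ K (k + 1) ∨ lc M (cfg M χ') p₀ a ∈ K (k + 2)
  right : ∀ a, a < m → M.cell (M.rho (P M (cfg M χ') p₀ a)) ∈ Ek M h0 (KU K)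

/-- states of the ring loop which are the same in the real configuration -/
theorem Lr.oc [Fintype D] (R : Lr M χ p h0 K) {s : ℕ} (hp : p₀ = P M (cfg M χ) p s)
    (occ : cfg M χ' p₀ = 1) (same : ∀ a, a < m → P M (cfg M χ') p₀ a = P M (cfg M χ) p₀ a)
    (arc : ∀ a, a < m → lc M (cfg M χ) p (s + a) ∈ K (k + 1) ∨
      lc M (cfg M χ) p (s + a) ∈ K (k + 2)) : Oc M h0 K k χ' p₀ m := by
  refine ⟨occ, fun a ha => ?_, fun a ha => ?_⟩
  · have := arc a ha
    unfold lc at this ⊢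
    rw [same a ha, hp, ← P_add, add_comm a s]
    exact this
  · rw [same a ha, hp, ← P_add]
    exact R.right _

theorem Oc.oa [Fintype D] (O : Oc M h0 K k χ' p₀ m) : Oa M (cfg M χ') p₀ m (Ek M h0 (KU K)) :=
  ⟨cfg_isC _, O.occ, O.right⟩

theorem Oc.kc (O : Oc M h0 K k χ' p₀ m) {c : C} (hc : c ∈ Kc M (cfg M χ') p₀ m) :
    c ∈ K (k + 1) ∨ c ∈ K (k + 2) := by
  obtain ⟨a, ha, rfl⟩ := hc
  exact O.left a ha

namespace Rt

theorem kc (H : Rt M h0 K g) (Q : Cq π (AK M h0 K k)) (O : Oc M h0 K k χ' p₀ m) {c : C}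
    (hc : c ∈ Kc M (cfg M χ') p₀ m) : π c = π (M.cell (g k)) ∨ π c = π (M.cell (M.rho (g k))) := by
  rcases O.kc hc with h | h
  · right
    refine Q.eq (i := k + 1) (by rw [ak1]; exact h) ?_
    rw [ak1]; exact H.r1 k
  · left
    refine Q.eq (i := k + 2) (by rw [ak2]; exact h) ?_
    rw [ak2]; exact H.r0 k

theorem rv (H : Rt M h0 K g) (Q : Cq π (AK M h0 K k)) {c : C} (hc : c ∈ Ek M h0 (KU K)) :
    ¬ Fr π (π (M.cell (g k))) (π (M.cell (M.rho (g k)))) (π (M.cell (M.rho (M.rho (g k))))) c ∧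
      c ∉ K k := by
  refine ⟨fun hf => hf.2.2 ?_, H.ek_off hc k⟩
  refine Q.eq (i := k) (by rw [ak0]; exact Or.inr hc) ?_
  rw [ak0]; exact Or.inr (H.r2 k)

/-- **joined chord** of the real configuration for the pattern `k` -/
theorem jc [Fintype D] (H : Rt M h0 K g) (Q : Cq π (AK M h0 K k))
    (hc : Rc (AK M h0 K k) (k + 1) χ₀)
    (r1 : ∀ c ∈ K (k + 1), χ' c = 1) (r2 : ∀ c ∈ K (k + 2), χ' c = 1) (r0 : ∀ c ∈ K k, χ' c = 0)
    (rF : ∀ c, Free (AK M h0 K k) c → χ' c = χ₀ c) (O : Oc M h0 K k χ' p₀ m) {q : D} {n : ℕ}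
    (X : Rx M π (π (M.cell (g k))) (π (M.cell (M.rho (g k)))) χ₀ (g k) q n)
    (h1 : M.cell (M.rho q) ∈ Kc M (cfg M χ') p₀ m)
    (h2 : lc M (cfg M χ₀) (M.rho q) n ∈ Kc M (cfg M χ') p₀ m)
    (hj : ∃ c ∈ K k, Con M (cfg M χ') (M.cell (M.rho p₀)) c) :
    Jc M (cfg M χ') p₀ m (Ek M h0 (KU K)) q n := by
  obtain ⟨c, hcK, hcon⟩ := hj
  exact (H.net Q hc r1 r2 r0 rF).jc X (fun _ h => H.kc Q O h) (fun _ h => H.rv Q h) h1 h2
    fun c' hc' => Relation.EqvGen.trans _ _ _ hcon (con_of_cn (H.con k) r0 hcK hc')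

/-- **the root block of the pattern `k` = one block of the real configuration - potential** -/
theorem sum [Fintype D] (H : Rt M h0 K g) (Q : Cq π (AK M h0 K k))
    (hc : Rc (AK M h0 K k) (k + 1) χ₀)
    (r1 : ∀ c ∈ K (k + 1), χ' c = 1) (r2 : ∀ c ∈ K (k + 2), χ' c = 1) (r0 : ∀ c ∈ K k, χ' c = 0)
    (rF : ∀ c, Free (AK M h0 K k) c → χ' c = χ₀ c) (O : Oc M h0 K k χ' p₀ m)
    (h1 : M.cell (M.rho (kA (coarse M π hπ) (cfg M χ₀) (g k))) ∈ Kc M (cfg M χ') p₀ m)
    (h2 : M.cell (kB (coarse M π hπ) (cfg M χ₀) (g k)) ∈ Kc M (cfg M χ') p₀ m)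
    (hj : ∃ c ∈ K k, Con M (cfg M χ') (M.cell (M.rho p₀)) c) {A : Type} [AddCommGroup A]
    (φ : D → A) :
    ∑ h ∈ (blk (coarse M π hπ) (cfg M χ₀) (g k)).erase (g k), φ h =
      ∑ h ∈ blk M (cfg M χ') (kA (coarse M π hπ) (cfg M χ₀) (g k)), φ h -
        (pot M (cfg M χ') p₀ m φ (M.cell (M.rho (kA (coarse M π hπ) (cfg M χ₀) (g k)))) -
          pot M (cfg M χ') p₀ m φ (M.cell (kB (coarse M π hπ) (cfg M χ₀) (g k)))) := by
  obtain ⟨c, hcK, hcon⟩ := hj
  exact (H.net Q hc r1 r2 r0 rF).sum O.oa (fun _ h => H.kc Q O h) (fun _ h => H.rv Q h) h1 h2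
    (fun c' hc' => Relation.EqvGen.trans _ _ _ hcon (con_of_cn (H.con k) r0 hcK hc')) φ

end Rt

end Crest.Agent.R143.Exc2x790
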