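import Crest.Agent.R143.Exc_790
import Crest.Agent.R143.C2SB_395

/-!
# Row 143 (S0194), block H, H5 (C) (helper790): static net and real configuration, agreement on the
cells of the block only

`Net2` : `Net` of `Exc_790` where the real colours are known on a set `Gd` of ring cells only (the cells
of the block `K` of the ring loop) and on the fresh cells; `Rg` : the ring cells of the class `w`.
* `kin` : two ring cells of different classes joined by fresh cells (or adjacent) are in `Gd`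
* `Net2.faces`, `Net2.real` : **all ring cells seen by the excursion are in `Gd`**, same states
* `Net2.join` : a cell of `Gd` of the class `w` is joined to the right cell of the excursion
* `Net2.cd`, `Net2.jc`, `Net2.sum` : as in `Exc_790`
-/

set_option autoImplicit false
set_option linter.unusedSectionVars false

noncomputable section

open scoped Classical

namespace Crest.Agent.R143.Exc3x790

open Crest.Agent.R143.Frame1x395 Crest.Agent.R143.Frame2x395 Crest.Agent.R143.Frame3x395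
  Crest.Agent.R143.Frame8x395 Crest.Agent.R143.Frame9x395 Crest.Agent.R143.Frame11x395
  Crest.Agent.R143.NonXx592 Crest.Agent.R143.Coarsex166 Crest.Agent.R143.Coarse2x166
  Crest.Agent.R143.Chordx355 Crest.Agent.R143.ChordCx357 Crest.Agent.R143.Chord2x355
  Crest.Agent.R143.H2x355 Crest.Agent.R143.K33x137 Crest.Agent.R143.Excx790

variable {D C C' : Type} {M : CMap D C} {π : C → C'} {a b w : C'}

/-- a path of cells in `Q` from `c` -/
def Rch (M : CMap D C) (Q : C → Prop) (c f : C) : Prop :=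
  Relation.ReflTransGen (fun u v => Ed M u v ∧ Q v) c f

/-- `c` and `c'` are adjacent or joined by cells in `Q` -/
def Lnk (M : CMap D C) (Q : C → Prop) (c c' : C) : Prop := ∃ f, Rch M Q c f ∧ Ed M f c'

/-- static net `χ₀`, real configuration `χ'` -/
structure Net2 (M : CMap D C) (π : C → C') (a b w : C') (Rg Gd : Set C) (χ₀ χ' : C → ZMod 2)
    (g : D) : Prop where
  ab : a ≠ b
  aw : a ≠ w
  cA : ∀ c, π c = a → χ₀ c = 1
  cB : ∀ c, π c = b → χ₀ c = 1
  cW : ∀ c, π c = w → χ₀ c = 0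
  one : ∀ c c', Fr π a b w c → π c = π c' → c = c'
  ga : π (M.cell g) = a
  gb : π (M.cell (M.rho g)) = b
  gw : π (M.cell (M.rho (M.rho g))) = w
  gA : ∀ c ∈ Gd, π c = a → χ' c = 1
  gB : ∀ c ∈ Gd, π c = b → χ' c = 1
  gW : ∀ c ∈ Gd, π c = w → χ' c = 0
  rF : ∀ c, Fr π a b w c → χ' c = χ₀ c
  rim : ∀ c c', Fr π a b w c → Ed M c c' → π c' = w → c' ∈ Rg
  dir : ∀ h, Gp M (cfg M χ₀) h → π (M.cell (M.rho h)) = a → π (M.cell h) = b →
    π (M.cell (M.rho (M.rho h))) = w → M.cell (M.rho (M.rho h)) ∈ Rg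
  kin : ∀ c c', π c = a → (π c' = b ∨ (π c' = w ∧ c' ∈ Rg)) →
    (Lnk M (Fr π a b w) c c' ∨ Lnk M (Fr π a b w) c' c) → c ∈ Gd ∧ c' ∈ Gd

variable {Rg Gd : Set C} {χ₀ χ' : C → ZMod 2} {g k : D} {n : ℕ}

/-- a cell whose colour is known -/
def Kn (π : C → C') (a b w : C') (Gd : Set C) (c : C) : Prop := Fr π a b w c ∨ c ∈ Gd

namespace Net2

/-- the underlying static data in the form of `Exc_790` (real configuration = static one) -/
theorem net0 (T : Net2 M π a b w Rg Gd χ₀ χ' g) : Net M π a b w {c | π c = w} χ₀ χ₀ g :=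
  ⟨T.ab, T.cA, T.cB, T.cW, T.one, T.ga, T.gb, T.gw, T.cA, T.cB, fun _ _ => rfl,
    fun c hc => ⟨hc, T.cW c hc⟩, fun _ _ _ h => h, fun _ _ _ _ h => h⟩

theorem col (T : Net2 M π a b w Rg Gd χ₀ χ' g) {c : C} (h : Kn π a b w Gd c) : χ' c = χ₀ c := by
  rcases h with h | h
  · exact T.rF c h
  by_cases h1 : π c = a
  · rw [T.gA _ h h1, T.cA _ h1]
  by_cases h2 : π c = b
  · rw [T.gB _ h h2, T.cB _ h2]
  by_cases h3 : π c = w
  · rw [T.gW _ h h3, T.cW _ h3]
  exact T.rF _ ⟨h1, h2, h3⟩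

variable [Fintype D]

theorem gp (T : Net2 M π a b w Rg Gd χ₀ χ' g) : Gp M (cfg M χ₀) g := T.net0.gp

/-- the left cells of the excursion are reached by fresh cells -/
theorem rch (T : Net2 M π a b w Rg Gd χ₀ χ' g) (H : Rx M π a b χ₀ g k n) {u : ℕ} (hu : u < n) :
    Rch M (Fr π a b w) (M.cell (M.rho k)) (M.cell (P M (cfg M χ₀) (M.rho k) u)) := by
  have hx : IsC M ∅ (cfg M χ₀) := cfg_isC _
  induction u with
  | zero => exact Relation.ReflTransGen.refl
  | succ u ih =>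
    have h1 := ih (by omega)
    have hf : Fr π a b w (M.cell (P M (cfg M χ₀) (M.rho k) (u + 1))) := by
      obtain ⟨h2, h3⟩ := H.E.int (u + 1) (by omega) hu
      exact T.net0.fr_left (T.net0.st H (u + 1)).1 h2 h3
    rcases stp_cases hx (P_occ hx H.E.gp.2 u) (Set.notMem_empty _) with ⟨a1, a2, e⟩ | ⟨a1, a2, e⟩
    · have e1 : M.cell (P M (cfg M χ₀) (M.rho k) (u + 1)) =
          M.cell (M.rho (M.rho (P M (cfg M χ₀) (M.rho k) u))) := by
        rw [P_succ, e, M.cell_iota _ (hx.lv a1)]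
      rw [e1] at hf ⊢
      refine h1.tail ⟨?_, hf⟩
      refine Ed.symm ⟨M.rho (M.rho (P M (cfg M χ₀) (M.rho k) u)), rfl, ?_⟩
      rw [M.rho3]
    · have e1 : M.cell (P M (cfg M χ₀) (M.rho k) (u + 1)) = M.cell (P M (cfg M χ₀) (M.rho k) u) := by
        rw [P_succ, e, M.cell_iota _ (hx.lv a2), M.rho3]
      rw [e1]
      exact h1

/-- the third cell of a face is adjacent to the first -/
theorem ed3 (d : D) : Ed M (M.cell d) (M.cell (M.rho (M.rho d))) := by
  have h : Ed M (M.cell (M.rho (M.rho d))) (M.cell (M.rho (M.rho (M.rho d)))) := ⟨_, rfl, rfl⟩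
  rw [M.rho3] at h
  exact h.symm

/-- a step with a change of the left cell -/
theorem change (H : Rx M π a b χ₀ g k n) {u : ℕ}
    (h : M.cell (P M (cfg M χ₀) (M.rho k) (u + 1)) ≠ M.cell (P M (cfg M χ₀) (M.rho k) u)) :
    M.cell (P M (cfg M χ₀) (M.rho k) (u + 1)) =
      M.cell (M.rho (M.rho (P M (cfg M χ₀) (M.rho k) u))) ∧
    M.cell (M.rho (P M (cfg M χ₀) (M.rho k) (u + 1))) =
      M.cell (M.rho (P M (cfg M χ₀) (M.rho k) u)) := by
  have hx : IsC M ∅ (cfg M χ₀) := cfg_isC _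
  rcases stp_cases hx (P_occ hx H.E.gp.2 u) (Set.notMem_empty _) with ⟨a1, a2, e⟩ | ⟨a1, a2, e⟩
  · constructor
    · rw [P_succ, e, M.cell_iota _ (hx.lv a1)]
    · rw [P_succ, e, cell_rho_iota M (hx.lv a1)]
  · exfalso
    apply h
    rw [P_succ, e, M.cell_iota _ (hx.lv a2), M.rho3]

/-- the last step changes the left cell -/
theorem last_ne (T : Net2 M π a b w Rg Gd χ₀ χ' g) (H : Rx M π a b χ₀ g k n) {m : ℕ}
    (hm : n = m + 1) :
    M.cell (P M (cfg M χ₀) (M.rho k) (m + 1)) ≠ M.cell (P M (cfg M χ₀) (M.rho k) m) := by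
  intro e
  have e1 := congrArg π e
  have e2 := H.E.c1
  rw [hm] at e2
  rw [e2] at e1
  rcases Nat.eq_zero_or_pos m with rfl | h
  · exact T.ab (H.E.c0.symm.trans e1.symm)
  · exact (H.E.int m h (by omega)).2 e1.symm

/-- the two end cells are in `Gd` -/
theorem ends (T : Net2 M π a b w Rg Gd χ₀ χ' g) (H : Rx M π a b χ₀ g k n) :
    M.cell (M.rho k) ∈ Gd ∧ M.cell (P M (cfg M χ₀) (M.rho k) n) ∈ Gd := by
  obtain ⟨m, hm⟩ : ∃ m, n = m + 1 := ⟨n - 1, by have := H.E.pos; omega⟩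
  refine T.kin _ _ H.E.c0 (Or.inl H.E.c1) (Or.inl ⟨_, T.rch H (show m < n by omega), ?_⟩)
  rw [hm, (change H (T.last_ne H hm)).1]
  exact ed3 _

/-- the right cells -/
theorem kr (T : Net2 M π a b w Rg Gd χ₀ χ' g) (H : Rx M π a b χ₀ g k n) {u : ℕ} (hu : u < n) :
    Fr π a b w (M.cell (M.rho (P M (cfg M χ₀) (M.rho k) u))) ∨
      (π (M.cell (M.rho (P M (cfg M χ₀) (M.rho k) u))) = w ∧
        M.cell (M.rho (P M (cfg M χ₀) (M.rho k) u)) ∈ Gd) := by
  have hx : IsC M ∅ (cfg M χ₀) := cfg_isC _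
  by_cases hw : π (M.cell (M.rho (P M (cfg M χ₀) (M.rho k) u))) = w
  swap
  · exact Or.inl (T.net0.fr_white (T.net0.st H u).2 hw)
  right
  refine ⟨hw, ?_⟩
  have hR : M.cell (M.rho (P M (cfg M χ₀) (M.rho k) u)) ∈ Rg := by
    rcases Nat.eq_zero_or_pos u with rfl | hu0
    · have e1 : M.cell (P M (cfg M χ₀) (M.rho k) 1) = M.cell k := by
        rw [H.E.out_eq hx 0]
        exact cell_out hx H.E.gp
      rcases Nat.lt_or_ge 1 n with h1 | h1
      · obtain ⟨h2, h3⟩ := H.E.int 1 (by omega) h1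
        have hf := T.net0.fr_left (T.net0.st H 1).1 h2 h3
        rw [e1] at hf
        exact T.rim _ _ hf (ed3 k) hw
      · have hn : n = 1 := by have := H.E.pos; omega
        have h2 := H.E.c1
        rw [hn, e1] at h2
        exact T.dir k H.E.gp H.E.c0 h2 hw
    · obtain ⟨h2, h3⟩ := H.E.int u hu0 hu
      exact T.rim _ _ (T.net0.fr_left (T.net0.st H u).1 h2 h3) ⟨_, rfl, rfl⟩ hw
  exact (T.kin _ _ H.E.c0 (Or.inr ⟨hw, hR⟩) (Or.inl ⟨_, T.rch H hu, ⟨_, rfl, rfl⟩⟩)).2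

/-- **the faces of the excursion** -/
theorem faces (T : Net2 M π a b w Rg Gd χ₀ χ' g) (H : Rx M π a b χ₀ g k n) {u : ℕ}
    (hu : u < n) : Kn π a b w Gd (M.cell (P M (cfg M χ₀) (M.rho k) u)) ∧
      Kn π a b w Gd (M.cell (M.rho (P M (cfg M χ₀) (M.rho k) u))) ∧
      Kn π a b w Gd (M.cell (M.rho (M.rho (P M (cfg M χ₀) (M.rho k) u)))) := by
  have hx : IsC M ∅ (cfg M χ₀) := cfg_isC _
  -- left cells up to the time `n`
  have left : ∀ v, v ≤ n → Kn π a b w Gd (M.cell (P M (cfg M χ₀) (M.rho k) v)) := by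
    intro v hv
    rcases Nat.eq_zero_or_pos v with rfl | hv0
    · exact Or.inr (T.ends H).1
    rcases Nat.lt_or_eq_of_le hv with h | rfl
    · obtain ⟨h2, h3⟩ := H.E.int v hv0 h
      exact Or.inl (T.net0.fr_left (T.net0.st H v).1 h2 h3)
    · exact Or.inr (T.ends H).2
  have right : ∀ v, v < n → Kn π a b w Gd (M.cell (M.rho (P M (cfg M χ₀) (M.rho k) v))) :=
    fun v hv => (T.kr H hv).imp id fun h => h.2
  refine ⟨left u hu.le, right u hu, ?_⟩
  rcases stp_cases hx (P_occ hx H.E.gp.2 u) (Set.notMem_empty _) with ⟨a1, a2, e⟩ | ⟨a1, a2, e⟩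
  · have e1 : M.cell (P M (cfg M χ₀) (M.rho k) (u + 1)) =
        M.cell (M.rho (M.rho (P M (cfg M χ₀) (M.rho k) u))) := by
      rw [P_succ, e, M.cell_iota _ (hx.lv a1)]
    rw [← e1]
    exact left (u + 1) hu
  · have e1 : M.cell (M.rho (P M (cfg M χ₀) (M.rho k) (u + 1))) =
        M.cell (M.rho (M.rho (P M (cfg M χ₀) (M.rho k) u))) := by
      rw [P_succ, e, cell_rho_iota M (hx.lv a2)]
    have e2 : M.cell (P M (cfg M χ₀) (M.rho k) (u + 1)) = M.cell (P M (cfg M χ₀) (M.rho k) u) := by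
      rw [P_succ, e, M.cell_iota _ (hx.lv a2), M.rho3]
    have hlt : u + 1 < n := by
      rcases Nat.lt_or_ge (u + 1) n with h | h
      · exact h
      · exact absurd e2 (T.last_ne H (m := u) (by omega))
    rw [← e1]
    exact right (u + 1) hlt

/-- **same states in the real configuration** -/
theorem real (T : Net2 M π a b w Rg Gd χ₀ χ' g) (H : Rx M π a b χ₀ g k n) :
    ∀ u, u ≤ n → P M (cfg M χ') (M.rho k) u = P M (cfg M χ₀) (M.rho k) u := by
  intro u
  induction u with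
  | zero => intro _; rfl
  | succ u ih =>
    intro hu
    obtain ⟨-, h2, h3⟩ := T.faces H (show u < n by omega)
    rw [P_succ, P_succ, ih (by omega)]
    have e2 := T.col h2
    have e3 := T.col h3
    set p := P M (cfg M χ₀) (M.rho k) u
    have f1 : cfg M χ' (M.rho p) = cfg M χ₀ (M.rho p) := by
      show χ' (M.cell (M.rho p)) + χ' (M.cell (M.rho (M.rho p))) =
        χ₀ (M.cell (M.rho p)) + χ₀ (M.cell (M.rho (M.rho p)))
      rw [e2, e3]
    unfold stp
    rw [f1]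

theorem gpr (T : Net2 M π a b w Rg Gd χ₀ χ' g) (H : Rx M π a b χ₀ g k n) :
    Gp M (cfg M χ') k := by
  obtain ⟨h1, h2, h3⟩ := T.faces H H.E.pos
  have h1' : Kn π a b w Gd (M.cell (M.rho k)) := h1
  have h2' : Kn π a b w Gd (M.cell (M.rho (M.rho k))) := h2
  have h3' : Kn π a b w Gd (M.cell (M.rho (M.rho (M.rho k)))) := h3
  rw [M.rho3] at h3'
  obtain ⟨g1, g2⟩ := H.E.gp
  constructor
  · show χ' (M.cell k) + χ' (M.cell (M.rho k)) = 0
    rw [T.col h3', T.col h1']; exact g1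
  · show χ' (M.cell (M.rho k)) + χ' (M.cell (M.rho (M.rho k))) = 1
    rw [T.col h1', T.col h2']; exact g2

/-- **the right cells of the excursion are fresh or cells of `Gd` of the class `w`** -/
theorem right (T : Net2 M π a b w Rg Gd χ₀ χ' g) (H : Rx M π a b χ₀ g k n) {u : ℕ}
    (hu : u ≤ n) : Fr π a b w (M.cell (M.rho (P M (cfg M χ₀) (M.rho k) u))) ∨
      (π (M.cell (M.rho (P M (cfg M χ₀) (M.rho k) u))) = w ∧
        M.cell (M.rho (P M (cfg M χ₀) (M.rho k) u)) ∈ Gd) := by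
  rcases Nat.lt_or_eq_of_le hu with h | rfl
  · exact T.kr H h
  · obtain ⟨m, rfl⟩ : ∃ m, u = m + 1 := ⟨u - 1, by have := H.E.pos; omega⟩
    rw [(change H (T.last_ne H rfl)).2]
    exact T.kr H (by omega)

/-- **a cell of `Gd` of the class `w` is joined to the right cells in the real configuration** -/
theorem join (T : Net2 M π a b w Rg Gd χ₀ χ' g) (H : Rx M π a b χ₀ g k n) :
    ∃ c ∈ Gd, π c = w ∧ Con M (cfg M χ') c (M.cell (M.rho (M.rho k))) := by
  have hx : IsC M ∅ (cfg M χ₀) := cfg_isC _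
  have hp := T.gp.out hx
  have key : ∀ u, π (M.cell (M.rho (P M (cfg M χ₀) (out M g) u))) = w ∨
      ∃ c ∈ Rg, π c = w ∧
        Rch M (Fr π a b w) c (M.cell (M.rho (P M (cfg M χ₀) (out M g) u))) ∧
        (χ' c = 0 → Con M (cfg M χ') c (M.cell (M.rho (P M (cfg M χ₀) (out M g) u)))) := by
    intro u
    induction u with
    | zero =>
      left
      show π (M.cell (M.rho (out M g))) = w
      unfold out
      rw [cell_rho_iota M (hx.lv (T.gp.two hx))]
      exact T.gw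
    | succ u ih =>
      by_cases hw : π (M.cell (M.rho (P M (cfg M χ₀) (out M g) (u + 1)))) = w
      · exact Or.inl hw
      right
      have hf := T.net0.fr_white (T.net0.white (u + 1)) hw
      rcases stp_cases hx (P_occ hx hp u) (Set.notMem_empty _) with ⟨a1, a2, e⟩ | ⟨a1, a2, e⟩
      · have e1 : M.cell (M.rho (P M (cfg M χ₀) (out M g) (u + 1))) =
            M.cell (M.rho (P M (cfg M χ₀) (out M g) u)) := by
          rw [P_succ, e, cell_rho_iota M (hx.lv a1)]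
        rw [e1] at hw ⊢
        exact ih.resolve_left hw
      · have e1 : M.cell (M.rho (P M (cfg M χ₀) (out M g) (u + 1))) =
            M.cell (M.rho (M.rho (P M (cfg M χ₀) (out M g) u))) := by
          rw [P_succ, e, cell_rho_iota M (hx.lv a2)]
        rw [e1] at hw hf ⊢
        set d := M.rho (P M (cfg M χ₀) (out M g) u) with hd
        have hwd : χ₀ (M.cell d) = 0 := T.net0.white u
        have hwd' : χ₀ (M.cell (M.rho d)) = 0 := by
          have := T.net0.white (u + 1)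
          rwa [e1] at this
        have con : χ' (M.cell d) = 0 → Con M (cfg M χ') (M.cell d) (M.cell (M.rho d)) := by
          intro h
          refine Relation.EqvGen.rel _ _ ⟨d, ?_, rfl, rfl⟩
          show χ' (M.cell d) + χ' (M.cell (M.rho d)) = 0
          rw [h, T.rF _ hf, hwd']; decide
        by_cases hwu : π (M.cell d) = w
        · refine ⟨M.cell d, T.rim _ _ hf (Ed.symm ⟨d, rfl, rfl⟩) hwu, hwu,
            Relation.ReflTransGen.single ⟨⟨d, rfl, rfl⟩, hf⟩, con⟩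
        · obtain ⟨c, hc, hcw, h1, h2⟩ := ih.resolve_left hwu
          have hfd := T.net0.fr_white hwd hwu
          refine ⟨c, hc, hcw, h1.tail ⟨⟨d, rfl, rfl⟩, hf⟩, fun h3 =>
            Relation.EqvGen.trans _ _ _ (h2 h3) (con ?_)⟩
          rw [T.rF _ hfd]
          exact hwd
  obtain ⟨t, ht⟩ := H.on
  rcases key t with h | ⟨c, hc, hcw, h1, h2⟩
  · rw [← ht] at h
    rcases T.right H (Nat.zero_le n) with h1 | ⟨h1, h2⟩
    · exact absurd h h1.2.2
    · exact ⟨_, h2, h1, Relation.EqvGen.refl _⟩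
  · rw [← ht] at h1 h2
    have hl : Lnk M (Fr π a b w) c (M.cell (M.rho k)) :=
      ⟨_, h1, Ed.symm ⟨M.rho k, rfl, rfl⟩⟩
    have hG := (T.kin _ _ H.E.c0 (Or.inr ⟨hcw, hc⟩) (Or.inr hl)).2
    exact ⟨c, hG, hcw, h2 (T.gW c hG hcw)⟩

/-- **chord of the real configuration** -/
theorem cd (T : Net2 M π a b w Rg Gd χ₀ χ' g) (H : Rx M π a b χ₀ g k n) {p₀ : D} {m : ℕ}
    {Rv : Set C} (hK : ∀ c ∈ Kc M (cfg M χ') p₀ m, π c = a ∨ π c = b)
    (hR : ∀ c ∈ Rv, π c = w ∧ c ∉ Gd)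
    (h0 : M.cell (M.rho k) ∈ Kc M (cfg M χ') p₀ m)
    (h1 : lc M (cfg M χ₀) (M.rho k) n ∈ Kc M (cfg M χ') p₀ m) :
    Cd M (cfg M χ') p₀ m Rv k n := by
  have e := T.real H
  refine ⟨T.gpr H, H.E.pos, h0, ?_, fun u a1 a2 hc => ?_, fun u a1 hc => ?_⟩
  · unfold lc
    rw [e n le_rfl]
    exact h1
  · unfold lc at hc
    rw [e u a2.le] at hc
    obtain ⟨h2, h3⟩ := H.E.int u a1 a2
    rcases hK _ hc with h | h
    · exact h2 h
    · exact h3 h
  · rw [e u a1] at hc
    obtain ⟨h2, h3⟩ := hR _ hc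
    rcases T.right H a1 with h | h
    · exact h.2.2 h2
    · exact h3 h.2

/-- **joined chord of the real configuration** -/
theorem jc (T : Net2 M π a b w Rg Gd χ₀ χ' g) (H : Rx M π a b χ₀ g k n) {p₀ : D} {m : ℕ}
    {Rv : Set C} (hK : ∀ c ∈ Kc M (cfg M χ') p₀ m, π c = a ∨ π c = b)
    (hR : ∀ c ∈ Rv, π c = w ∧ c ∉ Gd)
    (h0 : M.cell (M.rho k) ∈ Kc M (cfg M χ') p₀ m)
    (h1 : lc M (cfg M χ₀) (M.rho k) n ∈ Kc M (cfg M χ') p₀ m)
    (hj : ∀ c ∈ Gd, π c = w → Con M (cfg M χ') (M.cell (M.rho p₀)) c) :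
    Jc M (cfg M χ') p₀ m Rv k n := by
  obtain ⟨c, hc, hw, h⟩ := T.join H
  exact (T.cd H hK hR h0 h1).jc (Relation.EqvGen.trans _ _ _ (hj c hc hw) h)

/-- **sum over the root block without `g` = one block of the real configuration - potential** -/
theorem sum (T : Net2 M π a b w Rg Gd χ₀ χ' g) {hπ : ClsCon M π} {p₀ : D} {m : ℕ}
    {Rv : Set C} (O : Oa M (cfg M χ') p₀ m Rv)
    (hK : ∀ c ∈ Kc M (cfg M χ') p₀ m, π c = a ∨ π c = b)
    (hR : ∀ c ∈ Rv, π c = w ∧ c ∉ Gd)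
    (h0 : M.cell (M.rho (kA (coarse M π hπ) (cfg M χ₀) g)) ∈ Kc M (cfg M χ') p₀ m)
    (h1 : M.cell (kB (coarse M π hπ) (cfg M χ₀) g) ∈ Kc M (cfg M χ') p₀ m)
    (hj : ∀ c ∈ Gd, π c = w → Con M (cfg M χ') (M.cell (M.rho p₀)) c) {A : Type}
    [AddCommGroup A] (φ : D → A) :
    (∃ n, Jc M (cfg M χ') p₀ m Rv (kA (coarse M π hπ) (cfg M χ₀) g) n) ∧
    ∑ h ∈ (blk (coarse M π hπ) (cfg M χ₀) g).erase g, φ h =
      ∑ h ∈ blk M (cfg M χ') (kA (coarse M π hπ) (cfg M χ₀) g), φ h -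
        (pot M (cfg M χ') p₀ m φ (M.cell (M.rho (kA (coarse M π hπ) (cfg M χ₀) g))) -
          pot M (cfg M χ') p₀ m φ (M.cell (kB (coarse M π hπ) (cfg M χ₀) g))) := by
  obtain ⟨k, n, H, hb, hg⟩ := T.net0.exists hπ
  have e1 := H.E.kA (hπ := hπ) T.net0.isC T.gp T.ga hb
  have e2 := H.E.kB (hπ := hπ) T.net0.isC T.ab T.gp T.gb hb
  rw [e1] at h0
  rw [e2] at h1
  have J := T.jc H hK hR h0 h1 hj
  have s := J.sum O φ
  have e3 : lc M (cfg M χ') (M.rho k) n = lc M (cfg M χ₀) (M.rho k) n := by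
    unfold lc
    rw [T.real H n le_rfl]
  have e4 : cset M (P M (cfg M χ') (M.rho k)) 0 n = cset M (P M (cfg M χ₀) (M.rho k)) 0 n :=
    cset_congr fun s _ h => T.real H s h
  rw [e3, e4] at s
  rw [e1]
  refine ⟨⟨n, J⟩, ?_⟩
  rw [hb, Finset.erase_insert hg, e2, s, add_sub_cancel_right]

end Net2

end Crest.Agent.R143.Exc3x790
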