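import Crest.Agent.R143.Coarse2_166

/-!
# Row 143 (S0194): flip of a stopping set; chords and closed circuits (helper166)

* `flipE` : flipping the colours of a stopping set inside a fixed region is a bijection
  (`flip_injOn` : local version on an event)
* `rel_char` : the relation of an inner gap to the root gap, in terms of the inner walk only
* `Loop`, `Exc` : loop `P 0 .. P (N-1)`, outer arc = times `< n`; excursion `(s, t)` of the inner arc
  between two touches of cells of the outer arc
* `exc_in` : two gaps of one excursion; `exc_after`, `exc_before` : other inner gaps are not related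
* `exc_out` : outer gap; `exc_out_nec` : necessary conditions
* `lobe_exc` : the same formula for an excursion from one giant to itself, in another map
-/

set_option autoImplicit false

noncomputable section

open scoped Classical

namespace Crest.Agent.R143.Flipx166

open Crest.Agent.R143.Frame1x395 Crest.Agent.R143.Frame2x395 Crest.Agent.R143.Frame3x395
  Crest.Agent.R143.Frame4x395 Crest.Agent.R143.Frame8x395 Crest.Agent.R143.Frame9x395
  Crest.Agent.R143.NonXx592 Crest.Agent.R143.Coarsex166 Crest.Agent.R143.Coarse2x166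

/-! ### flip of a stopping set -/

section flip

variable {C : Type}

/-- stopping set -/
def Stp (F : (C → ZMod 2) → Set C) : Prop :=
  ∀ ω ω' : C → ZMod 2, (∀ c ∈ F ω, ω' c = ω c) → F ω' = F ω

/-- flip on the set `A` -/
def fl (A : Set C) (ω : C → ZMod 2) (c : C) : ZMod 2 := if c ∈ A then ω c + 1 else ω c

theorem fl_fl (A : Set C) (ω : C → ZMod 2) : fl A (fl A ω) = ω := by
  funext c
  unfold fl
  by_cases hc : c ∈ A
  · rw [if_pos hc, if_pos hc, add_assoc, z_self, add_zero]
  · rw [if_neg hc, if_neg hc]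

/-- flip of the stopping set inside `R` -/
def Fl (F : (C → ZMod 2) → Set C) (R : Set C) (ω : C → ZMod 2) : C → ZMod 2 := fl (F ω ∩ R) ω

/-- the inverse -/
def Fi (F : (C → ZMod 2) → Set C) (R : Set C) (ω : C → ZMod 2) : C → ZMod 2 :=
  fl (F (fl R ω) ∩ R) ω

theorem agree1 (F : (C → ZMod 2) → Set C) (R : Set C) (ω : C → ZMod 2) :
    ∀ c ∈ F ω, fl R (Fl F R ω) c = ω c := by
  intro c hc
  unfold Fl fl
  by_cases hR : c ∈ R
  · rw [if_pos hR, if_pos ⟨hc, hR⟩, add_assoc, z_self, add_zero]
  · rw [if_neg hR, if_neg fun h => hR h.2]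

theorem agree2 (F : (C → ZMod 2) → Set C) (R : Set C) (ω : C → ZMod 2) :
    ∀ c ∈ F (fl R ω), Fi F R ω c = fl R ω c := by
  intro c hc
  unfold Fi fl
  unfold fl at hc
  by_cases hR : c ∈ R
  · rw [if_pos ⟨hc, hR⟩, if_pos hR]
  · rw [if_neg fun h => hR h.2, if_neg hR]

theorem Fi_Fl {F : (C → ZMod 2) → Set C} (hF : Stp F) (R : Set C) (ω : C → ZMod 2) :
    Fi F R (Fl F R ω) = ω := by
  unfold Fi
  rw [hF _ _ (agree1 F R ω)]
  exact fl_fl _ _

theorem Fl_Fi {F : (C → ZMod 2) → Set C} (hF : Stp F) (R : Set C) (ω : C → ZMod 2) :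
    Fl F R (Fi F R ω) = ω := by
  unfold Fl
  rw [hF _ _ (agree2 F R ω)]
  exact fl_fl _ _

/-- **the flip of a stopping set inside a fixed region is a bijection** -/
def flipE {F : (C → ZMod 2) → Set C} (hF : Stp F) (R : Set C) : (C → ZMod 2) ≃ (C → ZMod 2) where
  toFun := Fl F R
  invFun := Fi F R
  left_inv := Fi_Fl hF R
  right_inv := Fl_Fi hF R

/-- the flipped configuration determines the stopping set -/
theorem F_Fl {F : (C → ZMod 2) → Set C} (hF : Stp F) (R : Set C) (ω : C → ZMod 2) :
    F (fl R (Fl F R ω)) = F ω := hF _ _ (agree1 F R ω)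

/-- local version on an event -/
theorem flip_injOn {F : (C → ZMod 2) → Set C} {E : Set (C → ZMod 2)}
    (hF : ∀ ω ∈ E, ∀ ω' : C → ZMod 2, (∀ c ∈ F ω, ω' c = ω c) → ω' ∈ E ∧ F ω' = F ω)
    (R : Set C) : Set.InjOn (Fl F R) E := by
  intro ω hω ω' hω' e
  have h1 := (hF ω hω _ (agree1 F R ω)).2
  have h2 := (hF ω' hω' _ (agree1 F R ω')).2
  rw [e, h2] at h1
  have h3 : fl (F ω ∩ R) (Fl F R ω) = ω := fl_fl _ _
  have h4 : fl (F ω' ∩ R) (Fl F R ω') = ω' := fl_fl _ _
  rw [← h3, ← h4, e, h1]

/-- sums -/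
theorem sum_flip [Fintype C] {A : Type} [AddCommMonoid A] {F : (C → ZMod 2) → Set C}
    (hF : Stp F) (R : Set C) (G : (C → ZMod 2) → A) :
    ∑ ω, G (Fl F R ω) = ∑ ω, G ω :=
  Fintype.sum_equiv (flipE hF R) _ _ fun _ => rfl

end flip

/-! ### the root block in terms of the inner walk -/

variable {D C : Type} {M : CMap D C} {x : D → ZMod 2}

/-- **inner gaps related to the root gap**: a condition on the inner walk only -/
theorem rel_char (hx : IsC M ∅ x) {g₀ : D} (hg₀ : Gp M x g₀) {N b₁ b₂ : ℕ}
    (hN : P M x (out M g₀) N = out M g₀)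
    (hinj : ∀ a b, a < b → b < N → P M x (out M g₀) a ≠ P M x (out M g₀) b)
    (hlast : M.rho g₀ = P M x (out M g₀) (N - 1)) (h1 : 0 < b₁) (h12 : b₁ ≤ b₂) (h2 : b₂ < N)
    {A B : C} (hAB : A ≠ B) (hA : ∀ u, u < b₁ → M.cell (P M x (out M g₀) u) = A)
    (hB : ∀ u, b₂ ≤ u → u < N → M.cell (P M x (out M g₀) u) = B) {b : ℕ} (hb1 : b₁ ≤ b + 1)
    (hb2 : b + 1 ≤ b₂) {h : D} (hh : Gp M x h) (hhb : M.rho h = P M x (out M g₀) b) :
    Rel M x g₀ h ↔ (∀ u, b₁ ≤ u → u ≤ b → M.cell (P M x (out M g₀) u) ≠ B) ∧
      (∀ v, b < v → v < b₂ → M.cell (P M x (out M g₀) v) ≠ A) ∧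
      ∀ u, b₁ ≤ u → u ≤ b → ∀ v, b < v → v < b₂ →
        M.cell (P M x (out M g₀) u) ≠ M.cell (P M x (out M g₀) v) := by
  rw [rel_loop hx hg₀ hN hinj hlast (by omega) hh hhb]
  constructor
  · intro H
    refine ⟨fun u hu1 hu2 => ?_, fun v hv1 hv2 => ?_, fun u hu1 hu2 v hv1 hv2 =>
      H u hu2 v hv1 (by omega)⟩
    · rw [← hB b₂ le_rfl h2]
      exact H u hu2 b₂ (by omega) h2
    · rw [← hA 0 h1]
      exact (H 0 (Nat.zero_le _) v hv1 (by omega)).symm
  · rintro ⟨H1, H2, H3⟩ u hu v hv1 hv2
    rcases lt_or_ge u b₁ with c1 | c1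
    · rw [hA u c1]
      rcases lt_or_ge v b₂ with c2 | c2
      · exact (H2 v hv1 c2).symm
      · rw [hB v c2 hv2]
        exact hAB
    · rcases lt_or_ge v b₂ with c2 | c2
      · exact H3 u c1 hu v hv1 c2
      · rw [hB v c2 hv2]
        exact H1 u c1 hu

/-! ### excursions -/

/-- a loop -/
structure Loop (M : CMap D C) (x : D → ZMod 2) (p : D) (N : ℕ) : Prop where
  c : IsC M ∅ x
  occ : x p = 1
  per : P M x p N = p
  inj : ∀ a b, a < b → b < N → P M x p a ≠ P M x p b

/-- left cell at the time `u` -/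
abbrev lc (M : CMap D C) (x : D → ZMod 2) (p : D) (u : ℕ) : C := M.cell (P M x p u)

/-- **noncrossing**, cyclic form: at the times `t1 < t2 < t3 < t4 < t1 + N` -/
theorem Loop.nc [Finite D] {p : D} {N : ℕ} (L : Loop M x p N) {t1 t2 t3 t4 : ℕ} (h12 : t1 < t2)
    (h23 : t2 < t3) (h34 : t3 < t4) (h41 : t4 < t1 + N) (e1 : lc M x p t1 = lc M x p t3)
    (e2 : lc M x p t2 = lc M x p t4) : lc M x p t1 = lc M x p t2 := by
  have hadd : ∀ j, P M x (P M x p t1) j = P M x p (j + t1) := fun j => (P_add p j t1).symm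
  have key := noncross L.c (p := P M x p t1) (P_occ L.c L.occ t1) (k := t2 - t1) (j := t3 - t1)
    (l := t4 - t1) (by omega) (by omega) (by omega) ?_ ?_ ?_
  · rw [hadd, show t2 - t1 + t1 = t2 by omega] at key
    exact key.symm
  · intro a b hab hb e
    rw [hadd, hadd] at e
    -- reduce modulo `N`
    have hred : ∀ q, P M x p q = P M x p (q % N) := by
      intro q
      conv_lhs => rw [← Nat.mod_add_div q N]
      have : ∀ r, P M x p (N * r) = p := by
        intro r
        induction r with
        | zero => rfl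
        | succ r ih => rw [Nat.mul_succ, P_add, L.per, ih]
      rw [P_add, this]
    have hNpos : 0 < N := by omega
    rw [hred (a + t1), hred (b + t1)] at e
    have hne : (a + t1) % N ≠ (b + t1) % N := by
      intro h
      have h1 : (b + t1 - (a + t1)) % N = 0 := Nat.sub_mod_eq_zero_of_mod_eq h.symm
      rw [Nat.mod_eq_of_lt (by omega)] at h1
      omega
    rcases lt_or_gt_of_ne hne with hl | hl
    · exact L.inj _ _ hl (Nat.mod_lt _ hNpos) e
    · exact L.inj _ _ hl (Nat.mod_lt _ hNpos) e.symm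
  · rw [hadd, show t3 - t1 + t1 = t3 by omega]
    exact e1.symm
  · rw [hadd, hadd, show t2 - t1 + t1 = t2 by omega, show t4 - t1 + t1 = t4 by omega]
    exact e2

theorem lc_add {p : D} {N : ℕ} (L : Loop M x p N) (u : ℕ) : lc M x p (u + N) = lc M x p u :=
  congrArg M.cell (P_per L.per u)

/-- the relation of two gaps at the times `a < b` -/
theorem Loop.rel {p : D} {N : ℕ} (L : Loop M x p N) {a b : ℕ} (hab : a < b) (hbN : b < N)
    {g k : D} (hg : Gp M x g) (hk : Gp M x k) (ga : M.rho g = P M x p a)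
    (kb : M.rho k = P M x p b) :
    Rel M x g k ↔ ∀ u, a < u → u ≤ b → ∀ v, v < N → (v ≤ a ∨ b < v) →
      lc M x p u ≠ lc M x p v := by
  have hne : g ≠ k := by
    rintro rfl
    exact L.inj a b hab hbN (ga.symm.trans kb)
  constructor
  · intro H u hu1 hu2 v hv1 hv2
    rcases H (lc M x p u) with h1 | h1 | h1
    · exact absurd h1 hne
    · exact absurd rfl ((av_fwd L.c L.inj hab hbN hg ga kb _).1 h1 u hu1 hu2)
    · have h2 := (av_bwd L.c L.per L.inj hab hbN hk ga kb _).1 h1
      rcases hv2 with hv2 | hv2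
      · exact (h2.2 v hv2).symm
      · exact (h2.1 v hv2 hv1).symm
  · intro H c
    right
    by_cases h1 : ∀ u, a < u → u ≤ b → M.cell (P M x p u) ≠ c
    · left
      exact (av_fwd L.c L.inj hab hbN hg ga kb _).2 h1
    · right
      push Not at h1
      obtain ⟨u, hu1, hu2, rfl⟩ := h1
      rw [av_bwd L.c L.per L.inj hab hbN hk ga kb]
      exact ⟨fun v hv1 hv2 => (H u hu1 hu2 v hv2 (Or.inr hv1)).symm,
        fun v hv => (H u hu1 hu2 v (by omega) (Or.inl hv)).symm⟩

/-- excursion of the inner arc: outer arc = times `< n`, `cell (P s)` is seen at the outer time `s'`,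
`cell (P t)` at the outer time `t'`, the cells in between are not seen by the outer arc -/
structure Exc (M : CMap D C) (x : D → ZMod 2) (p : D) (N n s t s' t' : ℕ) : Prop where
  ns : n ≤ s
  st : s < t
  tN : t < N
  s'n : s' < n
  t'n : t' < n
  es : lc M x p s' = lc M x p s
  et : lc M x p t' = lc M x p t
  av : ∀ u, s < u → u < t → ∀ v, v < n → lc M x p u ≠ lc M x p v

/-- **two gaps of one excursion**: only the excursion matters -/
theorem exc_in [Finite D] {p : D} {N n s t s' t' : ℕ} (L : Loop M x p N)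
    (E : Exc M x p N n s t s' t') {a b : ℕ} (hsa : s ≤ a) (hab : a < b) (hbt : b < t) {g k : D}
    (hg : Gp M x g) (hk : Gp M x k) (ga : M.rho g = P M x p a) (kb : M.rho k = P M x p b) :
    Rel M x g k ↔ ∀ u, a < u → u ≤ b → ∀ v, s ≤ v → v ≤ t → (v ≤ a ∨ b < v) →
      lc M x p u ≠ lc M x p v := by
  obtain ⟨ns, st, tN, s'n, t'n, es, et, av⟩ := E
  rw [L.rel hab (by omega) hg hk ga kb]
  constructor
  · intro H u hu1 hu2 v hv1 hv2 hv3
    exact H u hu1 hu2 v (by omega) hv3
  · intro H u hu1 hu2 v hv1 hv2 e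
    have hus : s < u := by omega
    have hut : u < t := by omega
    rcases lt_or_ge v n with c1 | c1
    · exact av u hus hut v c1 e
    · rcases lt_or_ge v s with c2 | c2
      · -- `v`, `s`, `u`, `s' + N`
        have h := L.nc (t1 := v) (t2 := s) (t3 := u) (t4 := s' + N) c2 hus (by omega) (by omega)
          e.symm (by rw [lc_add L]; exact es.symm)
        exact av u hus hut s' s'n (by rw [e, h, es])
      · rcases le_or_gt v t with c3 | c3
        · exact H u hu1 hu2 v c2 c3 hv2 e
        · -- `u`, `t`, `v`, `t' + N`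
          have h := L.nc (t1 := u) (t2 := t) (t3 := v) (t4 := t' + N) hut c3 (by omega)
            (by omega) e (by rw [lc_add L]; exact et.symm)
          exact av u hus hut t' t'n (by rw [h, et])

/-- an inner gap after the excursion is not related to a gap of the excursion -/
theorem exc_after {p : D} {N n s t s' t' : ℕ} (L : Loop M x p N)
    (E : Exc M x p N n s t s' t') {a b : ℕ} (hsa : s ≤ a) (hat : a < t) (htb : t ≤ b)
    (hbN : b < N) {g k : D}
    (hg : Gp M x g) (hk : Gp M x k) (ga : M.rho g = P M x p a) (kb : M.rho k = P M x p b) :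
    ¬ Rel M x g k := by
  obtain ⟨ns, st, tN, s'n, t'n, es, et, av⟩ := E
  rw [L.rel (by omega) hbN hg hk ga kb]
  intro H
  exact H t hat htb t' (by omega) (Or.inl (by omega)) et.symm

/-- an inner gap before the excursion is not related to a gap of the excursion -/
theorem exc_before {p : D} {N n s t s' t' : ℕ} (L : Loop M x p N)
    (E : Exc M x p N n s t s' t') {a b : ℕ} (hna : n ≤ a) (has : a < s) (hsb : s ≤ b)
    (hbt : b < t) {g k : D}
    (hg : Gp M x g) (hk : Gp M x k) (ga : M.rho g = P M x p a) (kb : M.rho k = P M x p b) :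
    ¬ Rel M x g k := by
  obtain ⟨ns, st, tN, s'n, t'n, es, et, av⟩ := E
  rw [L.rel (by omega) (by omega) hg hk ga kb]
  intro H
  exact H s has hsb s' (by omega) (Or.inl (by omega)) es.symm

/-- **outer gaps, necessary conditions**: all outer visits of the cell at `t` (at `s`) are before
(after) the outer gap, and no cell is seen on both sides of the outer gap -/
theorem exc_out_nec {p : D} {N n s t s' t' : ℕ} (L : Loop M x p N)
    (E : Exc M x p N n s t s' t') {a b : ℕ} (han : a + 1 < n) (hsb : s ≤ b) (hbt : b < t)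
    {g k : D} (hg : Gp M x g) (hk : Gp M x k) (ga : M.rho g = P M x p a)
    (kb : M.rho k = P M x p b) (H : Rel M x g k) :
    (∀ v, v < n → lc M x p v = lc M x p t → v ≤ a) ∧
    (∀ v, v < n → lc M x p v = lc M x p s → a < v) ∧
    (∀ u, a < u → u < n → ∀ v, v ≤ a → lc M x p u ≠ lc M x p v) ∧
    (∀ u, s ≤ u → u ≤ b → ∀ v, b < v → v ≤ t → lc M x p u ≠ lc M x p v) := by
  obtain ⟨ns, st, tN, s'n, t'n, es, et, av⟩ := E
  rw [L.rel (by omega) (by omega) hg hk ga kb] at H
  refine ⟨fun v hv e => ?_, fun v hv e => ?_, fun u hu1 hu2 v hv => ?_,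
    fun u hu1 hu2 v hv1 hv2 => ?_⟩
  · by_contra hc
    exact H v (by omega) (by omega) t tN (Or.inr hbt) e
  · by_contra hc
    exact H s (by omega) hsb v (by omega) (Or.inl (by omega)) e.symm
  · exact H u hu1 (by omega) v (by omega) (Or.inl hv)
  · exact H u (by omega) hu2 v (by omega) (Or.inr hv1)

/-- **outer gaps, sufficient conditions** -/
theorem exc_out [Finite D] {p : D} {N n s t s' t' : ℕ} (L : Loop M x p N)
    (E : Exc M x p N n s t s' t') {a b : ℕ} (han : a + 1 < n) (hsb : s ≤ b) (hbt : b < t)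
    {g k : D} (hg : Gp M x g) (hk : Gp M x k) (ga : M.rho g = P M x p a)
    (kb : M.rho k = P M x p b) (ht' : t' ≤ a) (hs' : a < s')
    (hpin : ∀ u, a < u → u < n → ∀ v, v ≤ a → lc M x p u ≠ lc M x p v)
    (hexc : ∀ u, s ≤ u → u ≤ b → ∀ v, b < v → v ≤ t → lc M x p u ≠ lc M x p v) :
    Rel M x g k := by
  obtain ⟨ns, st, tN, s'n, t'n, es, et, av⟩ := E
  have hqr : lc M x p t ≠ lc M x p s := by
    rw [← et, ← es]
    exact (hpin s' hs' s'n t' ht').symm
  rw [L.rel (by omega) (by omega) hg hk ga kb]
  intro u hu1 hu2 v hv1 hv2 e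
  rcases hv2 with hv2 | hv2
  · -- `v` outer, `v ≤ a`
    rcases lt_or_ge u n with c1 | c1
    · exact hpin u hu1 c1 v hv2 e
    · rcases lt_trichotomy u s with c2 | c2 | c2
      · -- `v`, `s'`, `u`, `s`
        have h := L.nc (t1 := v) (t2 := s') (t3 := u) (t4 := s) (by omega) (by omega) c2 (by omega)
          e.symm es
        exact hpin s' hs' s'n v hv2 h.symm
      · rw [c2, ← es] at e
        exact hpin s' hs' s'n v hv2 e
      · exact av u c2 (by omega) v (by omega) e
  · -- `v` inner, `b < v`
    rcases lt_or_ge u n with c1 | c1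
    · -- `u` outer, `a < u`
      rcases lt_trichotomy v t with c2 | c2 | c2
      · exact av v (by omega) c2 u c1 e.symm
      · rw [c2, ← et] at e
        exact hpin u hu1 c1 t' ht' e
      · -- `u`, `t`, `v`, `t' + N`
        have h := L.nc (t1 := u) (t2 := t) (t3 := v) (t4 := t' + N) (by omega) c2 (by omega)
          (by omega) e (by rw [lc_add L]; exact et.symm)
        exact hpin u hu1 c1 t' ht' (by rw [h, et])
    · rcases lt_or_ge u s with c2 | c2
      · -- `u` inner before `s`
        rcases lt_trichotomy v t with c3 | c3 | c3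
        · have h := L.nc (t1 := u) (t2 := s) (t3 := v) (t4 := s' + N) c2 (by omega) (by omega)
            (by omega) e (by rw [lc_add L]; exact es.symm)
          exact av v (by omega) c3 s' s'n (by rw [← e, h, es])
        · rw [c3] at e
          have h := L.nc (t1 := u) (t2 := s) (t3 := t) (t4 := s' + N) c2 (by omega) (by omega)
            (by omega) e (by rw [lc_add L]; exact es.symm)
          exact hqr (by rw [← e, h])
        · have h1 := L.nc (t1 := u) (t2 := s) (t3 := v) (t4 := s' + N) c2 (by omega) (by omega)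
            (by omega) e (by rw [lc_add L]; exact es.symm)
          have h2 := L.nc (t1 := u) (t2 := t) (t3 := v) (t4 := t' + N) (by omega) c3 (by omega)
            (by omega) e (by rw [lc_add L]; exact et.symm)
          exact hqr (h2.symm.trans h1)
      · -- `u` in the excursion
        rcases le_or_gt v t with c3 | c3
        · exact hexc u c2 hu2 v hv2 c3 e
        · have h := L.nc (t1 := u) (t2 := t) (t3 := v) (t4 := t' + N) (by omega) c3 (by omega)
            (by omega) e (by rw [lc_add L]; exact et.symm)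
          rcases Nat.eq_or_lt_of_le c2 with c4 | c4
          · exact hqr (by rw [← h, c4])
          · exact av u c4 (by omega) t' t'n (by rw [h, et])

/-- the formula of `exc_in` for an excursion from one cell (giant) to itself, in any closed map -/
theorem lobe_exc [Finite D] {p : D} {N s t : ℕ} (L : Loop M x p N) (hst : s < t) (htN : t ≤ s + N)
    (hc : lc M x p s = lc M x p t) {a b : ℕ} (hsa : s ≤ a) (hab : a < b) (hbt : b < t) {g k : D}
    (hg : Gp M x g) (hk : Gp M x k) (ga : M.rho g = P M x p a) (kb : M.rho k = P M x p b) :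
    Rel M x g k ↔ ∀ u, a < u → u ≤ b → ∀ v, s ≤ v → v ≤ t → (v ≤ a ∨ b < v) →
      lc M x p u ≠ lc M x p v := by
  have hadd : ∀ j, P M x (P M x p s) j = P M x p (j + s) := fun j => (P_add p j s).symm
  have hred : ∀ q, P M x p q = P M x p (q % N) := by
    intro q
    conv_lhs => rw [← Nat.mod_add_div q N]
    have : ∀ r, P M x p (N * r) = p := by
      intro r
      induction r with
      | zero => rfl
      | succ r ih => rw [Nat.mul_succ, P_add, L.per, ih]
    rw [P_add, this]
  have hNpos : 0 < N := by omega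
  have hinj : ∀ i j, i < j → j < N → P M x (P M x p s) i ≠ P M x (P M x p s) j := by
    intro i j hij hj e
    rw [hadd, hadd, hred (i + s), hred (j + s)] at e
    have hne : (i + s) % N ≠ (j + s) % N := by
      intro h
      have h1 : (j + s - (i + s)) % N = 0 := Nat.sub_mod_eq_zero_of_mod_eq h.symm
      rw [Nat.mod_eq_of_lt (by omega)] at h1
      omega
    rcases lt_or_gt_of_ne hne with hl | hl
    · exact L.inj _ _ hl (Nat.mod_lt _ hNpos) e
    · exact L.inj _ _ hl (Nat.mod_lt _ hNpos) e.symm
  have key := lobe L.c (p := P M x p s) (P_occ L.c L.occ s) (N := N) (j := t - s)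
    (by rw [hadd, Nat.add_comm]; exact P_per L.per s) hinj (by omega)
    (by rw [hadd, show t - s + s = t by omega]; exact hc.symm) (a := a - s) (b := b - s) (by omega)
    (by omega) hg hk (by rw [hadd, show a - s + s = a by omega]; exact ga)
    (by rw [hadd, show b - s + s = b by omega]; exact kb)
  rw [key]
  constructor
  · intro H u hu1 hu2 v hv1 hv2 hv3
    have h := H (u - s) (by omega) (by omega) (v - s) (by omega) (by omega)
    rw [hadd, hadd, show u - s + s = u by omega, show v - s + s = v by omega] at h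
    exact h
  · intro H u hu1 hu2 v hv1 hv2
    rw [hadd, hadd]
    exact H (u + s) (by omega) (by omega) (v + s) (by omega) (by omega) (by omega)

end Crest.Agent.R143.Flipx166
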