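import Crest.Agent.R143.Chord2_355
import Crest.Agent.R143.Flip_166

/-!
# Row 143 (S0194), block H, H5 (b): the junction lemma (helper43; after notes 3505 (1), 3992, 4022)

`χ` = colouring (left cells of the ring loop and right cells have different colours), `p` = start of
the loop, `N` = its length, `T₁ < T₂ < N` the two inner marks (the third mark is `0 = N`).
* `Tch T` : the cells touched (left or right cell) at a time `≤ T`
* classes of the touched cells: `Dj 0 = Tch T₁`, `Dj 1 = Tch T₂ \ Tch T₁`, `Dj 2 = (Tch T₂)ᶜ`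
* `S` : times of the gaps of one block `K` of the loop
* `Ring` : the data; confinement: the touched cells at the times `[a₁, a₃]` are not in `Dj 0`, at the
  times `[a₂, N)` not in `Dj 1` (`T₁ ≤ a₁ ≤ T₂ ≤ a₂`)
* outer arc of the pattern `j`: times `[a₁, a₃]`, `[a₂, N + T₁]`, `[0, T₂]`
* `Jd j` : in the colouring with `Dj j` inverted every cell of `K` in `Dj j` is joined to the right
  cell at the start of the outer arc (`Con`)
* `two` : **at least two of the three patterns are joined** (for every colouring)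
* `arc0, arc1, arc2` : the outer arc of the inverted colouring has the same states
-/

set_option autoImplicit false
set_option linter.unusedSectionVars false

noncomputable section

open scoped Classical

namespace Crest.Agent.R143.Junx43

open Crest.Agent.R143.Frame1x395 Crest.Agent.R143.Frame2x395 Crest.Agent.R143.Frame3x395
  Crest.Agent.R143.Frame8x395 Crest.Agent.R143.Frame9x395 Crest.Agent.R143.Frame11x395
  Crest.Agent.R143.NonXx592 Crest.Agent.R143.Chordx355 Crest.Agent.R143.ChordCx357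
  Crest.Agent.R143.Chord2x355

variable {D C : Type} {M : CMap D C}

/-! ### steps of the walker, colours -/

/-- right cells -/
def rc (M : CMap D C) (x : D → ZMod 2) (p : D) (u : ℕ) : C := M.cell (M.rho (P M x p u))

theorem rc_shift {x : D → ZMod 2} (p : D) (t m : ℕ) : rc M x (P M x p t) m = rc M x p (t + m) := by
  unfold rc
  rw [← P_add, add_comm]

theorem eq_of_cfg {χ : C → ZMod 2} {d : D} (h : cfg M χ d = 0) :
    χ (M.cell d) = χ (M.cell (M.rho d)) := by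
  unfold cfg at h
  revert h
  generalize χ (M.cell d) = a
  generalize χ (M.cell (M.rho d)) = b
  revert a b; decide

theorem ne_of_cfg {χ : C → ZMod 2} {d : D} (h : cfg M χ d = 1) :
    χ (M.cell (M.rho d)) = χ (M.cell d) + 1 := by
  unfold cfg at h
  revert h
  generalize χ (M.cell d) = a
  generalize χ (M.cell (M.rho d)) = b
  revert a b; decide

/-- adjacent cells of the same colour -/
theorem con_col {χ : C → ZMod 2} (d : D) (e : χ (M.cell d) = χ (M.cell (M.rho d))) :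
    Con M (cfg M χ) (M.cell d) (M.cell (M.rho d)) := by
  refine Relation.EqvGen.rel _ _ ⟨d, ?_, rfl, rfl⟩
  unfold cfg
  rw [e]
  exact z_self _

theorem con_refl {x : D → ZMod 2} (c : C) : Con M x c c := Relation.EqvGen.refl _

theorem con_symm {x : D → ZMod 2} {a b : C} (h : Con M x a b) : Con M x b a :=
  Relation.EqvGen.symm _ _ h

theorem con_trans {x : D → ZMod 2} {a b c : C} (h : Con M x a b) (h' : Con M x b c) :
    Con M x a c := Relation.EqvGen.trans _ _ _ h h'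

/-- a step of the walker: either the left cell changes to the third cell or the right cell does -/
theorem step {x : D → ZMod 2} (h : IsC M ∅ x) {p : D} (hp : x p = 1) (u : ℕ) :
    (Gp M x (gt M x p u) ∧ lc M x p (u + 1) = M.cell (gt M x p u) ∧
      rc M x p (u + 1) = rc M x p u) ∨
    (x (M.rho (P M x p u)) = 0 ∧ rc M x p (u + 1) = M.cell (gt M x p u) ∧
      lc M x p (u + 1) = lc M x p u) := by
  have hu := P_occ h hp u
  unfold gt lc rc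
  rw [P_succ]
  rcases stp_cases h hu (Set.notMem_empty _) with ⟨h1, h2, e⟩ | ⟨h1, h2, e⟩
  · left
    refine ⟨⟨h2, by rw [M.rho3]; exact hu⟩, ?_, ?_⟩
    · rw [e, M.cell_iota _ (h.lv h1)]
    · rw [e, cell_rho_iota M (h.lv h1)]
  · right
    refine ⟨h1, ?_, ?_⟩
    · rw [e, cell_rho_iota M (h.lv h2)]
    · rw [e, M.cell_iota _ (h.lv h2), M.rho3]

/-- the third cell is touched at the next step -/
theorem third {x : D → ZMod 2} (h : IsC M ∅ x) {p : D} (hp : x p = 1) (u : ℕ) :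
    M.cell (gt M x p u) = lc M x p (u + 1) ∨ M.cell (gt M x p u) = rc M x p (u + 1) := by
  rcases step h hp u with ⟨-, e, -⟩ | ⟨-, e, -⟩
  · exact Or.inl e.symm
  · exact Or.inr e.symm

section chain

variable [Fintype D] {χ χ' : C → ZMod 2} {p : D}

/-- the colour of the left cells -/
theorem col_l (hp : cfg M χ p = 1) (u : ℕ) : χ (lc M (cfg M χ) p u) = χ (M.cell p) := by
  have h := cfg_isC (M := M) χ
  induction u with
  | zero => rfl
  | succ u ih =>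
    rw [← ih]
    rcases step h hp u with ⟨g, e, -⟩ | ⟨-, -, e⟩
    · rw [e, eq_of_cfg g.1, rho_gt]; rfl
    · rw [e]

/-- the colour of the right cells -/
theorem col_r (hp : cfg M χ p = 1) (u : ℕ) : χ (rc M (cfg M χ) p u) = χ (M.cell p) + 1 := by
  rw [← col_l hp u]
  exact ne_of_cfg (P_occ (cfg_isC χ) hp u)

theorem l_ne_r (hp : cfg M χ p = 1) (u v : ℕ) : lc M (cfg M χ) p u ≠ rc M (cfg M χ) p v := by
  intro e
  have h1 := col_l hp u
  rw [e, col_r hp v] at h1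
  revert h1
  generalize χ (M.cell p) = a
  revert a; decide

/-- left cell and right cell at the same time -/
theorem con_lr (u : ℕ) (e : χ' (lc M (cfg M χ) p u) = χ' (rc M (cfg M χ) p u)) :
    Con M (cfg M χ') (lc M (cfg M χ) p u) (rc M (cfg M χ) p u) := con_col _ e

/-- consecutive left cells -/
theorem con_l1 (hp : cfg M χ p = 1) (u : ℕ)
    (e : χ' (lc M (cfg M χ) p u) = χ' (lc M (cfg M χ) p (u + 1))) :
    Con M (cfg M χ') (lc M (cfg M χ) p u) (lc M (cfg M χ) p (u + 1)) := by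
  rcases step (cfg_isC χ) hp u with ⟨g, e1, -⟩ | ⟨-, -, e1⟩
  · have e2 : M.cell (M.rho (gt M (cfg M χ) p u)) = lc M (cfg M χ) p u := by rw [rho_gt]; rfl
    refine con_symm ?_
    rw [e1, ← e2]
    refine con_col _ ?_
    rw [e2, ← e1, e]
  · rw [e1]; exact con_refl _

/-- consecutive right cells -/
theorem con_r1 (hp : cfg M χ p = 1) (u : ℕ)
    (e : χ' (rc M (cfg M χ) p u) = χ' (rc M (cfg M χ) p (u + 1))) :
    Con M (cfg M χ') (rc M (cfg M χ) p u) (rc M (cfg M χ) p (u + 1)) := by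
  rcases step (cfg_isC χ) hp u with ⟨g, -, e1⟩ | ⟨-, e1, -⟩
  · rw [e1]; exact con_refl _
  · rw [e1]
    refine con_col _ ?_
    show χ' (rc M (cfg M χ) p u) = χ' (M.cell (gt M (cfg M χ) p u))
    rw [← e1, e]

/-- a chain of left cells of one colour -/
theorem con_l (hp : cfg M χ p = 1) {m n : ℕ} (hmn : m ≤ n) {a : ZMod 2}
    (e : ∀ u, m ≤ u → u ≤ n → χ' (lc M (cfg M χ) p u) = a) :
    Con M (cfg M χ') (lc M (cfg M χ) p m) (lc M (cfg M χ) p n) := by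
  induction n, hmn using Nat.le_induction with
  | base => exact con_refl _
  | succ n hn ih =>
    refine con_trans (ih fun u h1 h2 => e u h1 (by omega)) (con_l1 hp n ?_)
    rw [e n hn (by omega), e (n + 1) (by omega) le_rfl]

/-- a chain of right cells of one colour -/
theorem con_r (hp : cfg M χ p = 1) {m n : ℕ} (hmn : m ≤ n) {a : ZMod 2}
    (e : ∀ u, m ≤ u → u ≤ n → χ' (rc M (cfg M χ) p u) = a) :
    Con M (cfg M χ') (rc M (cfg M χ) p m) (rc M (cfg M χ) p n) := by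
  induction n, hmn using Nat.le_induction with
  | base => exact con_refl _
  | succ n hn ih =>
    refine con_trans (ih fun u h1 h2 => e u h1 (by omega)) (con_r1 hp n ?_)
    rw [e n hn (by omega), e (n + 1) (by omega) le_rfl]

/-- any two times of an interval -/
theorem con_l' (hp : cfg M χ p = 1) {m n : ℕ} {a : ZMod 2}
    (e : ∀ u, m ≤ u → u ≤ n → χ' (lc M (cfg M χ) p u) = a) {u v : ℕ} (hu : m ≤ u) (hu' : u ≤ n)
    (hv : m ≤ v) (hv' : v ≤ n) :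
    Con M (cfg M χ') (lc M (cfg M χ) p u) (lc M (cfg M χ) p v) := by
  rcases le_total u v with h | h
  · exact con_l hp h fun w h1 h2 => e w (by omega) (by omega)
  · exact con_symm (con_l hp h fun w h1 h2 => e w (by omega) (by omega))

theorem con_r' (hp : cfg M χ p = 1) {m n : ℕ} {a : ZMod 2}
    (e : ∀ u, m ≤ u → u ≤ n → χ' (rc M (cfg M χ) p u) = a) {u v : ℕ} (hu : m ≤ u) (hu' : u ≤ n)
    (hv : m ≤ v) (hv' : v ≤ n) :
    Con M (cfg M χ') (rc M (cfg M χ) p u) (rc M (cfg M χ) p v) := by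
  rcases le_total u v with h | h
  · exact con_r hp h fun w h1 h2 => e w (by omega) (by omega)
  · exact con_symm (con_r hp h fun w h1 h2 => e w (by omega) (by omega))

/-- **same states**: if the touched cells of `m + 1` states keep their colours, the walker of the new
colouring has the same states -/
theorem same (hp : cfg M χ p = 1) {m : ℕ}
    (e : ∀ u, u ≤ m → χ' (lc M (cfg M χ) p u) = χ (lc M (cfg M χ) p u) ∧
      χ' (rc M (cfg M χ) p u) = χ (rc M (cfg M χ) p u)) :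
    ∀ u, u ≤ m → P M (cfg M χ') p u = P M (cfg M χ) p u := by
  intro u
  induction u with
  | zero => intro _; rfl
  | succ u ih =>
    intro hu
    rw [P_succ, P_succ, ih (by omega)]
    have h3 : χ' (M.cell (gt M (cfg M χ) p u)) = χ (M.cell (gt M (cfg M χ) p u)) := by
      rcases third (cfg_isC χ) hp u with h | h
      · rw [h]; exact (e (u + 1) hu).1
      · rw [h]; exact (e (u + 1) hu).2
    have h4 : cfg M χ' (M.rho (P M (cfg M χ) p u)) = cfg M χ (M.rho (P M (cfg M χ) p u)) := by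
      show χ' (rc M (cfg M χ) p u) + χ' (M.cell (gt M (cfg M χ) p u)) =
        χ (rc M (cfg M χ) p u) + χ (M.cell (gt M (cfg M χ) p u))
      rw [h3, (e u (by omega)).2]
    unfold stp
    rw [h4]

end chain

/-! ### classes of the touched cells -/

/-- the cells touched at a time `≤ T` -/
def Tch (M : CMap D C) (x : D → ZMod 2) (p : D) (T : ℕ) : Set C :=
  {c | ∃ u, u ≤ T ∧ (lc M x p u = c ∨ rc M x p u = c)}

theorem Tch.l {x : D → ZMod 2} {p : D} {T u : ℕ} (h : u ≤ T) : lc M x p u ∈ Tch M x p T :=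
  ⟨u, h, Or.inl rfl⟩

theorem Tch.r {x : D → ZMod 2} {p : D} {T u : ℕ} (h : u ≤ T) : rc M x p u ∈ Tch M x p T :=
  ⟨u, h, Or.inr rfl⟩

theorem Tch.mono {x : D → ZMod 2} {p : D} {T T' : ℕ} (h : T ≤ T') {c : C}
    (hc : c ∈ Tch M x p T) : c ∈ Tch M x p T' := by
  obtain ⟨u, h1, h2⟩ := hc
  exact ⟨u, h1.trans h, h2⟩

theorem Tch.of_l [Fintype D] {χ : C → ZMod 2} {p : D} (hp : cfg M χ p = 1) {T u : ℕ}
    (h : lc M (cfg M χ) p u ∈ Tch M (cfg M χ) p T) :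
    ∃ v, v ≤ T ∧ lc M (cfg M χ) p v = lc M (cfg M χ) p u := by
  obtain ⟨v, h1, h2 | h2⟩ := h
  · exact ⟨v, h1, h2⟩
  · exact absurd h2.symm (l_ne_r hp u v)

theorem Tch.of_r [Fintype D] {χ : C → ZMod 2} {p : D} (hp : cfg M χ p = 1) {T u : ℕ}
    (h : rc M (cfg M χ) p u ∈ Tch M (cfg M χ) p T) :
    ∃ v, v ≤ T ∧ rc M (cfg M χ) p v = rc M (cfg M χ) p u := by
  obtain ⟨v, h1, h2 | h2⟩ := h
  · exact absurd h2 (l_ne_r hp v u)
  · exact ⟨v, h1, h2⟩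

/-- the classes of the touched cells -/
def Dj (M : CMap D C) (x : D → ZMod 2) (p : D) (T₁ T₂ : ℕ) (j : Fin 3) : Set C :=
  if j = 0 then Tch M x p T₁ else if j = 1 then Tch M x p T₂ \ Tch M x p T₁ else (Tch M x p T₂)ᶜ

/-- start of the outer arc of the pattern `j` -/
def ast (a₁ a₂ : ℕ) (j : Fin 3) : ℕ := if j = 0 then a₁ else if j = 1 then a₂ else 0

/-- number of steps of the outer arc of the pattern `j` -/
def aln (T₁ T₂ a₁ a₂ a₃ N : ℕ) (j : Fin 3) : ℕ :=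
  if j = 0 then a₃ - a₁ else if j = 1 then N + T₁ - a₂ else T₂

/-- `χ'` is `χ` with the touched cells in `Dj j` inverted -/
def Fl (M : CMap D C) (χ : C → ZMod 2) (p : D) (T₁ T₂ : ℕ) (j : Fin 3) (χ' : C → ZMod 2) : Prop :=
  ∀ u, (χ' (lc M (cfg M χ) p u) = χ (lc M (cfg M χ) p u) +
      if lc M (cfg M χ) p u ∈ Dj M (cfg M χ) p T₁ T₂ j then 1 else 0) ∧
    (χ' (rc M (cfg M χ) p u) = χ (rc M (cfg M χ) p u) +
      if rc M (cfg M χ) p u ∈ Dj M (cfg M χ) p T₁ T₂ j then 1 else 0)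

/-- the marked ring loop with the gap times `S` of one block -/
structure Ring (M : CMap D C) (χ : C → ZMod 2) (p : D) (N T₁ T₂ a₁ a₂ a₃ : ℕ) (S : Set ℕ) :
    Prop where
  lp : Lp M (cfg M χ) p N
  sN : ∀ s ∈ S, s < N
  sep : ∀ s ∈ S, ∀ s' ∈ S, s < s' → Sep (lc M (cfg M χ) p) N s s'
  nxt : ∀ s ∈ S, ∃ s' ∈ S, lc M (cfg M χ) p s' = lc M (cfg M χ) p (s + 1)
  prv : ∀ s ∈ S, ∃ s' ∈ S, lc M (cfg M χ) p (s' + 1) = lc M (cfg M χ) p s
  e0 : ∃ s ∈ S, s < T₁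
  e1 : ∃ s ∈ S, T₁ ≤ s ∧ s < T₂
  e2 : ∃ s ∈ S, T₂ ≤ s ∧ s < a₃
  e3 : ∃ s ∈ S, a₂ ≤ s
  h1 : T₁ ≤ a₁
  h2 : a₁ ≤ T₂
  h3 : T₂ ≤ a₂
  h4 : a₃ < N
  o1 : ∀ n, a₁ ≤ n → n ≤ a₃ → lc M (cfg M χ) p n ∉ Tch M (cfg M χ) p T₁ ∧
    rc M (cfg M χ) p n ∉ Tch M (cfg M χ) p T₁
  o2 : ∀ n, a₂ ≤ n → n < N →
    (lc M (cfg M χ) p n ∈ Tch M (cfg M χ) p T₂ → lc M (cfg M χ) p n ∈ Tch M (cfg M χ) p T₁) ∧
    (rc M (cfg M χ) p n ∈ Tch M (cfg M χ) p T₂ → rc M (cfg M χ) p n ∈ Tch M (cfg M χ) p T₁)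

section ring

variable [Fintype D] {χ : C → ZMod 2} {p : D} {N T₁ T₂ a₁ a₂ a₃ : ℕ} {S : Set ℕ}

theorem lc_per (L : Lp M (cfg M χ) p N) (n : ℕ) :
    lc M (cfg M χ) p (N + n) = lc M (cfg M χ) p n := by
  unfold lc
  rw [add_comm, P_per L.per]

theorem rc_per (L : Lp M (cfg M χ) p N) (n : ℕ) :
    rc M (cfg M χ) p (N + n) = rc M (cfg M χ) p n := by
  unfold rc
  rw [add_comm, P_per L.per]

/-- `Sep` with `v ≤ N` -/
theorem Ring.sep' (R : Ring M χ p N T₁ T₂ a₁ a₂ a₃ S) {s s' : ℕ} (hs : s ∈ S) (hs' : s' ∈ S)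
    (h : s < s') {u v : ℕ} (h1 : s < u) (h2 : u ≤ s') (hv : v ≤ N) (h3 : v ≤ s ∨ s' < v) :
    lc M (cfg M χ) p u ≠ lc M (cfg M χ) p v := by
  rcases Nat.lt_or_ge v N with h4 | h4
  · exact R.sep s hs s' hs' h u h1 h2 v h4 h3
  · have : v = N + 0 := by omega
    rw [this, lc_per R.lp]
    exact R.sep s hs s' hs' h u h1 h2 0 R.lp.pos (Or.inl (Nat.zero_le _))

/-- first gap of the block after a time -/
theorem first {T : ℕ} (h : ∃ s ∈ S, T ≤ s) :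
    ∃ s ∈ S, T ≤ s ∧ ∀ s' ∈ S, T ≤ s' → s ≤ s' := by
  obtain ⟨s, hs, hT⟩ := h
  have h1 : ∃ s, s ∈ S ∧ T ≤ s := ⟨s, hs, hT⟩
  exact ⟨Nat.find h1, (Nat.find_spec h1).1, (Nat.find_spec h1).2,
    fun s' h2 h3 => Nat.find_min' h1 ⟨h2, h3⟩⟩

/-- last gap of the block -/
theorem last (hN : ∀ s ∈ S, s < N) (h : ∃ s, s ∈ S) : ∃ s ∈ S, ∀ s' ∈ S, s' ≤ s := by
  obtain ⟨s, hs⟩ := h
  have h1 : ∃ k, k ≤ N ∧ N - k ∈ S := ⟨N - s, by omega, by rwa [show N - (N - s) = s by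
    have := hN s hs
    omega]⟩
  refine ⟨N - Nat.find h1, (Nat.find_spec h1).2, fun s' hs' => ?_⟩
  by_contra hc
  have h2 := hN s' hs'
  exact Nat.find_min h1 (m := N - s') (by omega) ⟨by omega, by
    rwa [show N - (N - s') = s' by omega]⟩

/-- the cell before the first gap after a mark is touched before the mark -/
theorem Ring.old (R : Ring M χ p N T₁ T₂ a₁ a₂ a₃ S) {T s₀ s : ℕ} (h0 : s₀ ∈ S) (h0T : s₀ < T)
    (hs : s ∈ S) (hT : T ≤ s) (hmin : ∀ s' ∈ S, T ≤ s' → s ≤ s') :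
    lc M (cfg M χ) p s ∈ Tch M (cfg M χ) p T := by
  obtain ⟨s', hs', e⟩ := R.prv s hs
  rcases Nat.lt_or_ge s' T with h1 | h1
  · rw [← e]
    exact Tch.l (by omega)
  · have h2 := hmin s' hs' h1
    have h3 := R.sN s' hs'
    exact absurd e.symm (R.sep' h0 hs (by omega) (u := s) (v := s' + 1) (by omega) le_rfl
      (by omega) (Or.inr (by omega)))

/-- the left cells between two gaps of the block after a mark are new -/
theorem Ring.new (R : Ring M χ p N T₁ T₂ a₁ a₂ a₃ S) {T s s' m : ℕ} (hs : s ∈ S) (hT : T ≤ s)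
    (hs' : s' ∈ S) (h1 : s < m) (h2 : m ≤ s') :
    lc M (cfg M χ) p m ∉ Tch M (cfg M χ) p T := by
  intro hc
  obtain ⟨v, hv, e⟩ := Tch.of_l R.lp.occ hc
  have h3 := R.sN s' hs'
  exact R.sep' hs hs' (by omega) h1 h2 (by omega) (Or.inl (by omega)) e.symm

variable {χ' : C → ZMod 2}

theorem fl0_l (F : Fl M χ p T₁ T₂ 0 χ') {u : ℕ} (h : lc M (cfg M χ) p u ∈ Tch M (cfg M χ) p T₁) :
    χ' (lc M (cfg M χ) p u) = χ (lc M (cfg M χ) p u) + 1 := by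
  rw [(F u).1, if_pos (show _ ∈ Dj M (cfg M χ) p T₁ T₂ 0 from h)]

theorem fl0_r' (F : Fl M χ p T₁ T₂ 0 χ') {u : ℕ}
    (h : rc M (cfg M χ) p u ∉ Tch M (cfg M χ) p T₁) :
    χ' (rc M (cfg M χ) p u) = χ (rc M (cfg M χ) p u) := by
  rw [(F u).2, if_neg (show _ ∉ Dj M (cfg M χ) p T₁ T₂ 0 from h), add_zero]

theorem fl1_l (F : Fl M χ p T₁ T₂ 1 χ') {u : ℕ} (h : lc M (cfg M χ) p u ∈ Tch M (cfg M χ) p T₂)
    (h' : lc M (cfg M χ) p u ∉ Tch M (cfg M χ) p T₁) :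
    χ' (lc M (cfg M χ) p u) = χ (lc M (cfg M χ) p u) + 1 := by
  rw [(F u).1, if_pos (show _ ∈ Dj M (cfg M χ) p T₁ T₂ 1 from ⟨h, h'⟩)]

theorem fl1_r' (F : Fl M χ p T₁ T₂ 1 χ') {u : ℕ}
    (h : rc M (cfg M χ) p u ∈ Tch M (cfg M χ) p T₂ → rc M (cfg M χ) p u ∈ Tch M (cfg M χ) p T₁) :
    χ' (rc M (cfg M χ) p u) = χ (rc M (cfg M χ) p u) := by
  rw [(F u).2, if_neg, add_zero]
  rintro ⟨h1, h2⟩
  exact h2 (h h1)

theorem fl2_l (F : Fl M χ p T₁ T₂ 2 χ') {u : ℕ}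
    (h : lc M (cfg M χ) p u ∉ Tch M (cfg M χ) p T₂) :
    χ' (lc M (cfg M χ) p u) = χ (lc M (cfg M χ) p u) + 1 := by
  rw [(F u).1, if_pos]
  exact h

theorem fl2_r' (F : Fl M χ p T₁ T₂ 2 χ') {u : ℕ}
    (h : rc M (cfg M χ) p u ∈ Tch M (cfg M χ) p T₂) :
    χ' (rc M (cfg M χ) p u) = χ (rc M (cfg M χ) p u) := by
  rw [(F u).2, if_neg, add_zero]
  exact fun h' => h' h

/-- the pattern `j` is joined: in the inverted colouring every cell of the block in `Dj j` is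
connected with the right cell of the first state of the outer arc -/
def Jd (M : CMap D C) (χ : C → ZMod 2) (p : D) (T₁ T₂ a₁ a₂ : ℕ) (S : Set ℕ) (j : Fin 3)
    (χ' : C → ZMod 2) : Prop :=
  ∀ s ∈ S, lc M (cfg M χ) p s ∈ Dj M (cfg M χ) p T₁ T₂ j →
    Con M (cfg M χ') (rc M (cfg M χ) p (ast a₁ a₂ j)) (lc M (cfg M χ) p s)

/-- case A at the first mark -/
def P1 (M : CMap D C) (χ : C → ZMod 2) (p : D) (T₁ T₂ : ℕ) (S : Set ℕ) : Prop :=
  ∃ s ∈ S, T₁ ≤ s ∧ ∃ n, s < n ∧ n ≤ T₂ ∧ rc M (cfg M χ) p n ∈ Tch M (cfg M χ) p T₁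

/-- case A at the second mark -/
def P2 (M : CMap D C) (χ : C → ZMod 2) (p : D) (T₂ : ℕ) (S : Set ℕ) : Prop :=
  ∃ s ∈ S, T₂ ≤ s ∧ ∃ s' ∈ S, ∃ n, s < n ∧ n ≤ s' ∧
    rc M (cfg M χ) p n ∈ Tch M (cfg M χ) p T₂

theorem Ring.kc1 (R : Ring M χ p N T₁ T₂ a₁ a₂ a₃ S) {s₁ : ℕ} (hs₁ : s₁ ∈ S) (hT₁ : T₁ ≤ s₁)
    (hmin : ∀ s' ∈ S, T₁ ≤ s' → s₁ ≤ s') {s : ℕ} (hs : s ∈ S)
    (h : lc M (cfg M χ) p s ∈ Tch M (cfg M χ) p T₂ \ Tch M (cfg M χ) p T₁) :
    ∃ m, s₁ < m ∧ m ≤ T₂ ∧ lc M (cfg M χ) p m = lc M (cfg M χ) p s := by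
  obtain ⟨u, hu, e⟩ := Tch.of_l R.lp.occ h.1
  have hu1 : T₁ < u := by
    by_contra hc
    apply h.2
    rw [← e]
    exact Tch.l (by omega)
  rcases Nat.lt_or_ge s₁ u with h1 | h1
  · exact ⟨u, h1, hu, e⟩
  · exfalso
    obtain ⟨s', hs', e'⟩ := R.prv s hs
    have h2 : T₁ ≤ s' := by
      by_contra hc
      apply h.2
      rw [← e']
      exact Tch.l (by omega)
    have h3 := hmin s' hs' h2
    have h5 := R.sN s' hs'
    obtain ⟨s₀, h0, h0T⟩ := R.e0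
    refine R.sep' h0 hs₁ (by omega) (u := u) (v := s' + 1) (by omega) h1 (by omega)
      (Or.inr (by omega)) ?_
    rw [e, e']

theorem zz : ∀ a : ZMod 2, a + 1 + 1 = a := by decide

/-- **case A at the first mark: the pattern 1 is joined** -/
theorem Ring.join1a (R : Ring M χ p N T₁ T₂ a₁ a₂ a₃ S) (F : Fl M χ p T₁ T₂ 1 χ')
    (H : P1 M χ p T₁ T₂ S) : Jd M χ p T₁ T₂ a₁ a₂ S 1 χ' := by
  have hp := R.lp.occ
  obtain ⟨s₁, hs₁, hT₁, hmin⟩ := first (T := T₁) (S := S)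
    (by obtain ⟨s, h1, h2, -⟩ := R.e1; exact ⟨s, h1, h2⟩)
  obtain ⟨s', hs', hT', n, hn1, hn2, hn3⟩ := H
  have h1 : s₁ < n := lt_of_le_of_lt (hmin s' hs' hT') hn1
  obtain ⟨s₂, hs₂, hT₂, -⟩ := R.e2
  have hfl : ∀ u, s₁ + 1 ≤ u → u ≤ T₂ → χ' (lc M (cfg M χ) p u) = χ (M.cell p) + 1 := by
    intro u hu1 hu2
    rw [fl1_l F (Tch.l hu2) (R.new hs₁ hT₁ hs₂ (by omega) (by omega)), col_l hp]
  obtain ⟨u, hu, e⟩ := Tch.of_r hp hn3
  have hr : ∀ v, χ' (rc M (cfg M χ) p v) = χ (M.cell p) + 1 ↔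
      χ' (rc M (cfg M χ) p v) = χ (rc M (cfg M χ) p v) := by
    intro v
    rw [col_r hp]
  have hT₁₁ : ∀ v, v ≤ T₁ → χ' (rc M (cfg M χ) p v) = χ (M.cell p) + 1 := by
    intro v hv
    rw [hr]
    exact fl1_r' F fun _ => Tch.r hv
  -- the outer arc
  have hout : ∀ v, a₂ ≤ v → v ≤ N + T₁ → χ' (rc M (cfg M χ) p v) = χ (M.cell p) + 1 := by
    intro v hv1 hv2
    rcases Nat.lt_or_ge v N with h2 | h2
    · rw [hr]
      exact fl1_r' F (R.o2 v hv1 h2).2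
    · obtain ⟨w, rfl⟩ := Nat.exists_eq_add_of_le h2
      rw [rc_per R.lp]
      exact hT₁₁ w (by omega)
  have haN : a₂ ≤ N := by
    obtain ⟨s, h2, h3⟩ := R.e3
    have := R.sN s h2
    omega
  intro s hs hsD
  have hsD' : lc M (cfg M χ) p s ∈ Tch M (cfg M χ) p T₂ \ Tch M (cfg M χ) p T₁ := hsD
  obtain ⟨m, hm1, hm2, em⟩ := R.kc1 hs₁ hT₁ hmin hs hsD'
  rw [← em]
  show Con M (cfg M χ') (rc M (cfg M χ) p a₂) _
  refine con_trans (con_r' hp hout (u := a₂) (v := N + u) le_rfl (by omega) (by omega)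
    (by omega)) ?_
  rw [rc_per R.lp, e]
  refine con_trans (con_symm (con_lr n ?_)) (con_l' hp hfl (by omega) hn2 (by omega) hm2)
  rw [hfl n (by omega) hn2, ← e, hT₁₁ u hu]

/-- **case B at the first mark: the pattern 0 is joined** -/
theorem Ring.join0b (R : Ring M χ p N T₁ T₂ a₁ a₂ a₃ S) (F : Fl M χ p T₁ T₂ 0 χ')
    (H : ¬ P1 M χ p T₁ T₂ S) : Jd M χ p T₁ T₂ a₁ a₂ S 0 χ' := by
  have hp := R.lp.occ
  obtain ⟨s₁, hs₁, hT₁, hmin⟩ := first (T := T₁) (S := S)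
    (by obtain ⟨s, h1, h2, -⟩ := R.e1; exact ⟨s, h1, h2⟩)
  obtain ⟨s₀, h0, h0T⟩ := R.e0
  have hs₁T : s₁ < T₂ := by
    obtain ⟨s, h1, h2, h3⟩ := R.e1
    have := hmin s h1 h2
    omega
  have hTa : T₂ ≤ a₃ := by
    obtain ⟨s, -, h2, h3⟩ := R.e2
    omega
  have ha1 := R.h1
  have ha2 := R.h2
  have hr : ∀ v, s₁ + 1 ≤ v ∨ a₁ ≤ v → v ≤ a₃ →
      χ' (rc M (cfg M χ) p v) = χ (M.cell p) + 1 := by
    intro v hv1 hv2
    rw [fl0_r' F, col_r hp]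
    rcases Nat.lt_or_ge v a₁ with h1 | h1
    · intro hc
      exact H ⟨s₁, hs₁, hT₁, v, by omega, by omega, hc⟩
    · exact (R.o1 v h1 hv2).2
  have hl : ∀ v, 0 ≤ v → v ≤ T₁ → χ' (lc M (cfg M χ) p v) = χ (M.cell p) + 1 := by
    intro v _ hv
    rw [fl0_l F (Tch.l hv), col_l hp]
  intro s hs hsD
  have hsD' : lc M (cfg M χ) p s ∈ Tch M (cfg M χ) p T₁ := hsD
  obtain ⟨m, hm, em⟩ := Tch.of_l hp hsD'
  rw [← em]
  show Con M (cfg M χ') (rc M (cfg M χ) p a₁) _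
  -- to the right cell at `s₁ + 1`
  have h2 : Con M (cfg M χ') (rc M (cfg M χ) p a₁) (rc M (cfg M χ) p (s₁ + 1)) := by
    rcases le_total a₁ (s₁ + 1) with h3 | h3
    · exact con_r hp h3 fun u h4 h5 => hr u (Or.inr h4) (by omega)
    · exact con_symm (con_r hp h3 fun u h4 h5 => hr u (Or.inl h4) (by omega))
  refine con_trans h2 ?_
  -- the gap at `s₁`
  obtain ⟨w, hw, ew⟩ := Tch.of_l hp (R.old h0 h0T hs₁ hT₁ hmin)
  have hne : lc M (cfg M χ) p (s₁ + 1) ≠ lc M (cfg M χ) p s₁ := by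
    obtain ⟨s₂, hs₂, hT₂, -⟩ := R.e2
    exact R.sep' hs₁ hs₂ (by omega) (u := s₁ + 1) (v := s₁) (by omega) (by omega)
      (R.sN _ hs₁).le (Or.inl le_rfl)
  have e3 : rc M (cfg M χ) p (s₁ + 1) = rc M (cfg M χ) p s₁ := by
    rcases step R.lp.ev hp s₁ with ⟨-, -, e⟩ | ⟨-, -, e⟩
    · exact e
    · exact absurd e hne
  have h4 : Con M (cfg M χ') (rc M (cfg M χ) p (s₁ + 1)) (lc M (cfg M χ) p s₁) := by
    rw [e3]
    refine con_symm (con_lr s₁ ?_)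
    rw [← e3, hr (s₁ + 1) (Or.inl le_rfl) (by omega), ← ew, hl w (Nat.zero_le _) hw]
  refine con_trans h4 ?_
  rw [← ew]
  exact con_l' hp hl (Nat.zero_le _) hw (Nat.zero_le _) hm

/-- **case B at the second mark: the pattern 1 is joined** -/
theorem Ring.join1b (R : Ring M χ p N T₁ T₂ a₁ a₂ a₃ S) (F : Fl M χ p T₁ T₂ 1 χ')
    (H : ¬ P2 M χ p T₂ S) : Jd M χ p T₁ T₂ a₁ a₂ S 1 χ' := by
  have hp := R.lp.occ
  obtain ⟨s₁, hs₁, hT₁, hmin⟩ := first (T := T₁) (S := S)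
    (by obtain ⟨s, h1, h2, -⟩ := R.e1; exact ⟨s, h1, h2⟩)
  have hs₁T : s₁ < T₂ := by
    obtain ⟨s, h1, h2, h3⟩ := R.e1
    have := hmin s h1 h2
    omega
  obtain ⟨s₂, hs₂, hT₂, hmin₂⟩ := first (T := T₂) (S := S)
    (by obtain ⟨s, h1, h2, -⟩ := R.e2; exact ⟨s, h1, h2⟩)
  obtain ⟨s₃, hs₃, hmax⟩ := last R.sN ⟨s₁, hs₁⟩
  have h23 : s₂ ≤ s₃ := hmax s₂ hs₂
  have ha23 : a₂ ≤ s₃ := by
    obtain ⟨s, h2, h3⟩ := R.e3
    exact h3.trans (hmax s h2)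
  have h3N := R.sN s₃ hs₃
  have ha3 := R.h3
  have hr : ∀ v, s₂ + 1 ≤ v ∨ a₂ ≤ v → v ≤ N + T₁ →
      χ' (rc M (cfg M χ) p v) = χ (M.cell p) + 1 := by
    intro v hv1 hv2
    rw [fl1_r' F, col_r hp]
    rcases Nat.lt_or_ge v a₂ with h1 | h1
    · intro hc
      exact absurd ⟨s₂, hs₂, hT₂, s₃, hs₃, v, by omega, by omega, hc⟩ H
    · rcases Nat.lt_or_ge v N with h2 | h2
      · exact (R.o2 v h1 h2).2
      · obtain ⟨w, rfl⟩ := Nat.exists_eq_add_of_le h2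
        rw [rc_per R.lp]
        exact fun _ => Tch.r (by omega)
  have hl : ∀ v, s₁ + 1 ≤ v → v ≤ T₂ → χ' (lc M (cfg M χ) p v) = χ (M.cell p) + 1 := by
    intro v hv1 hv2
    rw [fl1_l F (Tch.l hv2) (R.new hs₁ hT₁ hs₂ (by omega) (by omega)), col_l hp]
  intro s hs hsD
  have hsD' : lc M (cfg M χ) p s ∈ Tch M (cfg M χ) p T₂ \ Tch M (cfg M χ) p T₁ := hsD
  obtain ⟨m, hm1, hm2, em⟩ := R.kc1 hs₁ hT₁ hmin hs hsD'
  rw [← em]
  show Con M (cfg M χ') (rc M (cfg M χ) p a₂) _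
  have h2 : Con M (cfg M χ') (rc M (cfg M χ) p a₂) (rc M (cfg M χ) p (s₂ + 1)) := by
    rcases le_total a₂ (s₂ + 1) with h3 | h3
    · exact con_r hp h3 fun u h4 h5 => hr u (Or.inr h4) (by omega)
    · exact con_symm (con_r hp h3 fun u h4 h5 => hr u (Or.inl h4) (by omega))
  refine con_trans h2 ?_
  -- the gap at `s₂`
  obtain ⟨s', hs', e'⟩ := R.prv s₂ hs₂
  obtain ⟨s₀, h0, h0T⟩ := R.e0
  have hs'T : s' < T₂ := by
    by_contra hc
    have h3 := hmin₂ s' hs' (by omega)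
    have h4 := R.sN s' hs'
    exact R.sep' hs₁ hs₂ (by omega) (u := s₂) (v := s' + 1) (by omega) le_rfl (by omega)
      (Or.inr (by omega)) e'.symm
  have hs's : s₁ ≤ s' := by
    apply hmin s' hs'
    by_contra hc
    exact R.sep' hs₁ hs₂ (by omega) (u := s₂) (v := s' + 1) (by omega) le_rfl (by omega)
      (Or.inl (by omega)) e'.symm
  have h4N := R.sN s₂ hs₂
  have hne : lc M (cfg M χ) p (s₂ + 1) ≠ lc M (cfg M χ) p s₂ := fun e =>
    R.sep' hs₁ hs₂ (by omega) (u := s₂) (v := s₂ + 1) (by omega) le_rfl (by omega)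
      (Or.inr (by omega)) e.symm
  have e3 : rc M (cfg M χ) p (s₂ + 1) = rc M (cfg M χ) p s₂ := by
    rcases step R.lp.ev hp s₂ with ⟨-, -, e⟩ | ⟨-, -, e⟩
    · exact e
    · exact absurd e hne
  have h4 : Con M (cfg M χ') (rc M (cfg M χ) p (s₂ + 1)) (lc M (cfg M χ) p s₂) := by
    rw [e3]
    refine con_symm (con_lr s₂ ?_)
    rw [← e3, hr (s₂ + 1) (Or.inl le_rfl) (by omega), ← e', hl (s' + 1) (by omega) (by omega)]
  refine con_trans h4 ?_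
  rw [← e']
  exact con_l' hp hl (by omega) (by omega) (by omega) hm2

/-- **case A at the second mark: the pattern 2 is joined** -/
theorem Ring.join2a (R : Ring M χ p N T₁ T₂ a₁ a₂ a₃ S) (F : Fl M χ p T₁ T₂ 2 χ')
    (H : P2 M χ p T₂ S) : Jd M χ p T₁ T₂ a₁ a₂ S 2 χ' := by
  have hp := R.lp.occ
  obtain ⟨s₂, hs₂, hT₂, hmin₂⟩ := first (T := T₂) (S := S)
    (by obtain ⟨s, h1, h2, -⟩ := R.e2; exact ⟨s, h1, h2⟩)
  obtain ⟨s₃, hs₃, hmax⟩ := last R.sN ⟨s₂, hs₂⟩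
  obtain ⟨s', hs', hT', s'', hs'', n, hn1, hn2, hn3⟩ := H
  have h1 : s₂ < n := lt_of_le_of_lt (hmin₂ s' hs' hT') hn1
  have h2 : n ≤ s₃ := hn2.trans (hmax s'' hs'')
  have h3N := R.sN s₃ hs₃
  have hl : ∀ v, s₂ + 1 ≤ v → v ≤ s₃ → χ' (lc M (cfg M χ) p v) = χ (M.cell p) + 1 := by
    intro v hv1 hv2
    rw [fl2_l F (R.new hs₂ hT₂ hs₃ (by omega) hv2), col_l hp]
  have hr : ∀ v, 0 ≤ v → v ≤ T₂ → χ' (rc M (cfg M χ) p v) = χ (M.cell p) + 1 := by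
    intro v _ hv
    rw [fl2_r' F (Tch.r hv), col_r hp]
  obtain ⟨u, hu, e⟩ := Tch.of_r hp hn3
  intro s hs hsD
  have hsD' : lc M (cfg M χ) p s ∉ Tch M (cfg M χ) p T₂ := hsD
  have hs3 : s ≤ s₃ := hmax s hs
  obtain ⟨s₀, h0, h0T⟩ := R.e0
  have hT12 : T₁ ≤ T₂ := R.h1.trans R.h2
  have hs2 : s₂ < s := by
    have h5 : T₂ ≤ s := by
      by_contra hc
      exact hsD' (Tch.l (by omega))
    rcases lt_or_eq_of_le (hmin₂ s hs h5) with h6 | h6
    · exact h6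
    · exfalso
      apply hsD'
      rw [← h6]
      exact R.old h0 (by omega) hs₂ hT₂ hmin₂
  show Con M (cfg M χ') (rc M (cfg M χ) p 0) _
  refine con_trans (con_r' hp hr (u := 0) (v := u) le_rfl (Nat.zero_le _) (Nat.zero_le _) hu) ?_
  rw [e]
  refine con_trans (con_symm (con_lr n ?_)) (con_l' hp hl (by omega) h2 (by omega) hs3)
  rw [hl n (by omega) h2, ← e, hr u (Nat.zero_le _) hu]

/-- **case B at the closing mark: the pattern 0 is joined** -/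
theorem Ring.join0c (R : Ring M χ p N T₁ T₂ a₁ a₂ a₃ S) (F : Fl M χ p T₁ T₂ 0 χ')
    (H : ¬ P2 M χ p T₂ S) : Jd M χ p T₁ T₂ a₁ a₂ S 0 χ' := by
  have hp := R.lp.occ
  obtain ⟨s₂, hs₂, hT₂, hmin₂⟩ := first (T := T₂) (S := S)
    (by obtain ⟨s, h1, h2, -⟩ := R.e2; exact ⟨s, h1, h2⟩)
  have hs2a : s₂ < a₃ := by
    obtain ⟨s, h1, h2, h3⟩ := R.e2
    have := hmin₂ s h1 h2
    omega
  obtain ⟨s₃, hs₃, hmax⟩ := last R.sN ⟨s₂, hs₂⟩
  have h23 : s₂ ≤ s₃ := hmax s₂ hs₂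
  have h3N := R.sN s₃ hs₃
  obtain ⟨s₀, h0, h0T⟩ := R.e0
  have ha1 := R.h1
  have ha2 := R.h2
  have hT12 : T₁ ≤ T₂ := R.h1.trans R.h2
  have ha3 := R.h4
  have hl : ∀ v, 0 ≤ v → v ≤ T₁ → χ' (lc M (cfg M χ) p v) = χ (M.cell p) + 1 := by
    intro v _ hv
    rw [fl0_l F (Tch.l hv), col_l hp]
  have hr1 : ∀ v, a₁ ≤ v → v ≤ a₃ → χ' (rc M (cfg M χ) p v) = χ (M.cell p) + 1 := by
    intro v hv1 hv2
    rw [fl0_r' F (R.o1 v hv1 hv2).2, col_r hp]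
  have hr2 : ∀ v, s₂ + 1 ≤ v → v ≤ s₃ → χ' (rc M (cfg M χ) p v) = χ (M.cell p) + 1 := by
    intro v hv1 hv2
    rw [fl0_r' F, col_r hp]
    intro hc
    exact H ⟨s₂, hs₂, hT₂, s₃, hs₃, v, by omega, hv2, Tch.mono hT12 hc⟩
  -- the cell after the last gap is touched at a time `≤ T₁`
  have hk : ∃ w, w ≤ T₁ ∧ lc M (cfg M χ) p w = lc M (cfg M χ) p (s₃ + 1) := by
    obtain ⟨s', hs', e'⟩ := R.nxt s₃ hs₃
    refine ⟨s', ?_, e'⟩
    by_contra hc
    exact R.sep' h0 hs₃ (by omega) (u := s') (v := s₃ + 1) (by omega) (hmax s' hs') (by omega)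
      (Or.inr (by omega)) e'
  obtain ⟨w, hw, ew⟩ := hk
  have hne : lc M (cfg M χ) p (s₃ + 1) ≠ lc M (cfg M χ) p s₃ := fun e =>
    R.sep' h0 hs₃ (by omega) (u := s₃) (v := s₃ + 1) (by omega) le_rfl (by omega)
      (Or.inr (by omega)) e.symm
  have e3 : rc M (cfg M χ) p (s₃ + 1) = rc M (cfg M χ) p s₃ := by
    rcases step R.lp.ev hp s₃ with ⟨-, -, e⟩ | ⟨-, -, e⟩
    · exact e
    · exact absurd e hne
  -- colour of the right cell at `s₃ + 1` and connection with the outer arc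
  have hfin : χ' (rc M (cfg M χ) p (s₃ + 1)) = χ (M.cell p) + 1 ∧
      Con M (cfg M χ') (rc M (cfg M χ) p a₁) (rc M (cfg M χ) p (s₃ + 1)) := by
    have h5 : Con M (cfg M χ') (rc M (cfg M χ) p a₁) (rc M (cfg M χ) p (s₂ + 1)) :=
      con_r hp (by omega) fun u h4 h5 => hr1 u h4 (by omega)
    rcases Nat.lt_or_ge s₂ s₃ with h6 | h6
    · rw [e3]
      exact ⟨hr2 s₃ (by omega) le_rfl,
        con_trans h5 (con_r hp (by omega) fun u h7 h8 => hr2 u h7 h8)⟩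
    · have : s₃ = s₂ := by omega
      rw [this]
      exact ⟨hr1 _ (by omega) (by omega), h5⟩
  intro s hs hsD
  have hsD' : lc M (cfg M χ) p s ∈ Tch M (cfg M χ) p T₁ := hsD
  obtain ⟨m, hm, em⟩ := Tch.of_l hp hsD'
  rw [← em]
  show Con M (cfg M χ') (rc M (cfg M χ) p a₁) _
  refine con_trans hfin.2 ?_
  have h4 : Con M (cfg M χ') (rc M (cfg M χ) p (s₃ + 1)) (lc M (cfg M χ) p (s₃ + 1)) := by
    refine con_symm (con_lr (s₃ + 1) ?_)
    rw [hfin.1, ← ew, hl w (Nat.zero_le _) hw]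
  refine con_trans h4 ?_
  rw [← ew]
  exact con_l' hp hl (Nat.zero_le _) hw (Nat.zero_le _) hm

/-- **H5 (b): at least two of the three patterns are joined**; the choice depends on the loop only -/
theorem Ring.two (R : Ring M χ p N T₁ T₂ a₁ a₂ a₃ S) :
    ∃ i : Fin 3, ∀ j, j ≠ i → ∀ χ', Fl M χ p T₁ T₂ j χ' → Jd M χ p T₁ T₂ a₁ a₂ S j χ' := by
  by_cases h2 : P2 M χ p T₂ S
  · by_cases h1 : P1 M χ p T₁ T₂ S
    · refine ⟨0, fun j hj χ' F => ?_⟩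
      have : j = 1 ∨ j = 2 := by omega
      rcases this with rfl | rfl
      · exact R.join1a F h1
      · exact R.join2a F h2
    · refine ⟨1, fun j hj χ' F => ?_⟩
      have : j = 0 ∨ j = 2 := by omega
      rcases this with rfl | rfl
      · exact R.join0b F h1
      · exact R.join2a F h2
  · refine ⟨2, fun j hj χ' F => ?_⟩
    have : j = 0 ∨ j = 1 := by omega
    rcases this with rfl | rfl
    · exact R.join0c F h2
    · exact R.join1b F h2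

/-! ### the outer arcs -/

theorem fl_nl {j : Fin 3} (F : Fl M χ p T₁ T₂ j χ') {u : ℕ}
    (h : lc M (cfg M χ) p u ∉ Dj M (cfg M χ) p T₁ T₂ j) :
    χ' (lc M (cfg M χ) p u) = χ (lc M (cfg M χ) p u) := by
  rw [(F u).1, if_neg h, add_zero]

theorem fl_nr {j : Fin 3} (F : Fl M χ p T₁ T₂ j χ') {u : ℕ}
    (h : rc M (cfg M χ) p u ∉ Dj M (cfg M χ) p T₁ T₂ j) :
    χ' (rc M (cfg M χ) p u) = χ (rc M (cfg M χ) p u) := by
  rw [(F u).2, if_neg h, add_zero]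

/-- the cells touched by the outer arc are not inverted -/
theorem Ring.arc_off (R : Ring M χ p N T₁ T₂ a₁ a₂ a₃ S) (j : Fin 3) {u : ℕ}
    (hu : u ≤ aln T₁ T₂ a₁ a₂ a₃ N j) :
    lc M (cfg M χ) p (ast a₁ a₂ j + u) ∉ Dj M (cfg M χ) p T₁ T₂ j ∧
      rc M (cfg M χ) p (ast a₁ a₂ j + u) ∉ Dj M (cfg M χ) p T₁ T₂ j := by
  have h0 : j = 0 ∨ j = 1 ∨ j = 2 := by omega
  rcases h0 with rfl | rfl | rfl
  · have hu' : u ≤ a₃ - a₁ := hu
    show lc M (cfg M χ) p (a₁ + u) ∉ Tch M (cfg M χ) p T₁ ∧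
      rc M (cfg M χ) p (a₁ + u) ∉ Tch M (cfg M χ) p T₁
    have ha : a₁ ≤ a₃ := by
      obtain ⟨s, -, h2, h3⟩ := R.e2
      have := R.h2
      omega
    exact R.o1 (a₁ + u) (by omega) (by omega)
  · have hu' : u ≤ N + T₁ - a₂ := hu
    show lc M (cfg M χ) p (a₂ + u) ∉ Tch M (cfg M χ) p T₂ \ Tch M (cfg M χ) p T₁ ∧
      rc M (cfg M χ) p (a₂ + u) ∉ Tch M (cfg M χ) p T₂ \ Tch M (cfg M χ) p T₁
    rcases Nat.lt_or_ge (a₂ + u) N with h2 | h2
    · obtain ⟨h3, h4⟩ := R.o2 (a₂ + u) (by omega) h2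
      exact ⟨fun h => h.2 (h3 h.1), fun h => h.2 (h4 h.1)⟩
    · obtain ⟨w, hw⟩ := Nat.exists_eq_add_of_le h2
      rw [hw, lc_per R.lp, rc_per R.lp]
      have haN : a₂ ≤ N := by
        obtain ⟨s, h2, h3⟩ := R.e3
        have := R.sN s h2
        omega
      exact ⟨fun h => h.2 (Tch.l (by omega)), fun h => h.2 (Tch.r (by omega))⟩
  · have hu' : u ≤ T₂ := hu
    show lc M (cfg M χ) p (0 + u) ∉ (Tch M (cfg M χ) p T₂)ᶜ ∧
      rc M (cfg M χ) p (0 + u) ∉ (Tch M (cfg M χ) p T₂)ᶜ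
    rw [zero_add]
    exact ⟨fun h => h (Tch.l hu'), fun h => h (Tch.r hu')⟩

/-- **the outer arc has the same states in the inverted colouring** -/
theorem Ring.arc (R : Ring M χ p N T₁ T₂ a₁ a₂ a₃ S) {j : Fin 3} (F : Fl M χ p T₁ T₂ j χ') {u : ℕ}
    (hu : u ≤ aln T₁ T₂ a₁ a₂ a₃ N j) :
    P M (cfg M χ') (P M (cfg M χ) p (ast a₁ a₂ j)) u =
      P M (cfg M χ) (P M (cfg M χ) p (ast a₁ a₂ j)) u := by
  refine same (P_occ R.lp.ev R.lp.occ _) (m := aln T₁ T₂ a₁ a₂ a₃ N j) (fun v hv => ?_) u hu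
  rw [lc_shift, rc_shift]
  obtain ⟨h1, h2⟩ := R.arc_off j hv
  exact ⟨fl_nl F h1, fl_nr F h2⟩

/-- **355's outer arc in the inverted colouring**: `b` = number of states, `Rv` = right cells -/
theorem Ring.oa (R : Ring M χ p N T₁ T₂ a₁ a₂ a₃ S) {j : Fin 3} (F : Fl M χ p T₁ T₂ j χ')
    {Rv : Set C} (hRv : ∀ u, u ≤ aln T₁ T₂ a₁ a₂ a₃ N j →
      rc M (cfg M χ) p (ast a₁ a₂ j + u) ∈ Rv) :
    Oa M (cfg M χ') (P M (cfg M χ) p (ast a₁ a₂ j)) (aln T₁ T₂ a₁ a₂ a₃ N j + 1) Rv := by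
  refine ⟨cfg_isC χ', ?_, fun a ha => ?_⟩
  · obtain ⟨h1, h2⟩ := R.arc_off j (u := 0) (Nat.zero_le _)
    have h3 := fl_nl F h1
    have h4 := fl_nr F h2
    have h5 := P_occ R.lp.ev R.lp.occ (ast a₁ a₂ j + 0)
    show χ' (lc M (cfg M χ) p (ast a₁ a₂ j + 0)) + χ' (rc M (cfg M χ) p (ast a₁ a₂ j + 0)) = 1
    rw [h3, h4]
    exact h5
  · rw [R.arc F (by omega)]
    have := hRv a (by omega)
    rw [← rc_shift] at this
    exact this

end ring

/-! ### the gap times of a block -/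

/-- the times of the gaps of the block of `g₀` -/
def St (M : CMap D C) (x : D → ZMod 2) (p : D) (N : ℕ) (g₀ : D) : Set ℕ :=
  {s | s < N ∧ Gp M x (gt M x p s) ∧ Rel M x g₀ (gt M x p s)}

theorem St.sep [Fintype D] {x : D → ZMod 2} {p : D} {N : ℕ} (L : Lp M x p N) {g₀ : D}
    (hg₀ : Gp M x g₀) {s s' : ℕ} (hs : s ∈ St M x p N g₀) (hs' : s' ∈ St M x p N g₀)
    (h : s < s') : Sep (lc M x p) N s s' := by
  refine (L.rel h hs'.1 hs.2.1 hs'.2.1 (rho_gt p s) (rho_gt p s')).1 ?_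
  exact rel_trans L.ev hs.2.1 hg₀ hs'.2.1 (rel_symm hs.2.2) hs'.2.2

theorem St.nxt [Fintype D] {x : D → ZMod 2} {p : D} {N : ℕ} (L : Lp M x p N) {g₀ : D}
    (hg₀ : Gp M x g₀) {s : ℕ} (hs : s ∈ St M x p N g₀) :
    ∃ s' ∈ St M x p N g₀, lc M x p s' = lc M x p (s + 1) := by
  obtain ⟨hsN, hs1, hs2⟩ := hs
  obtain ⟨k, hk, e⟩ := Coarse2x166.exists_prev L.ev hg₀ (mem_blk.2 ⟨hs1, hs2⟩)
  obtain ⟨k1, k2⟩ := mem_blk.1 hk
  have hR : Rel M x (gt M x p s) k := rel_trans L.ev hs1 hg₀ k1 (rel_symm hs2) k2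
  obtain ⟨d, hd, hkd⟩ := L.time hs1 k1 (rho_gt p s) hR
  have e1 := gt_eq hkd
  refine ⟨d, ⟨hd, by rw [e1]; exact k1, by rw [e1]; exact k2⟩, ?_⟩
  show M.cell (P M x p d) = _
  rw [← hkd, e, lc, P_succ, ← rho_gt p s, hs1.stp L.ev, cell_out L.ev hs1]

theorem St.prv [Fintype D] {x : D → ZMod 2} {p : D} {N : ℕ} (L : Lp M x p N) {g₀ : D}
    (hg₀ : Gp M x g₀) {s : ℕ} (hs : s ∈ St M x p N g₀) :
    ∃ s' ∈ St M x p N g₀, lc M x p (s' + 1) = lc M x p s := by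
  obtain ⟨hsN, hs1, hs2⟩ := hs
  obtain ⟨k, hk, e⟩ := Coarse2x166.exists_next L.ev hg₀ (mem_blk.2 ⟨hs1, hs2⟩)
  obtain ⟨k1, k2⟩ := mem_blk.1 hk
  have hR : Rel M x (gt M x p s) k := rel_trans L.ev hs1 hg₀ k1 (rel_symm hs2) k2
  obtain ⟨d, hd, hkd⟩ := L.time hs1 k1 (rho_gt p s) hR
  have e1 := gt_eq hkd
  refine ⟨d, ⟨hd, by rw [e1]; exact k1, by rw [e1]; exact k2⟩, ?_⟩
  rw [lc, P_succ, ← hkd, k1.stp L.ev, cell_out L.ev k1, e, rho_gt]
  rfl

end Crest.Agent.R143.Junx43
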