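import Crest.Agent.R143.R5q_166
import Crest.Agent.R143.C2SD_395

/-!
# Row 143 (S0194), block H, H5 (S1): the three static patterns of a ring loop (helper828)

Loop `P 0 .. P (N-1)` of `x = cfg M σ` (black left cells), three gaps `g 0, g 1, g 2` of ONE block at the
times `r 0 < r 1 < r 2 < N` (`Rg3`).

* `Gc j` : left cells of the times in `(r j, r (j+1)]`, cyclic; `Lf` : all the left cells
* `Wc` : cells joined to the right cells off the left cells
* `AP k` : giants of the pattern `k` : `G j` (`j ≠ k`), `G k ∪ Wc`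
* `Rg3.gi` : `Gi M (AP k)`; `Rg3.root` : `Root M (AP k) (k+1) (g (k+2))`; `Rg3.rc` : colours
* `Rg3.free` : the free cells do not depend on `k`; `Rg3.lab` : a neighbour of a free cell is not in
  `Wc`: same label in all the patterns
* sites (`M = rc0 hS`): `fr_ap`, `lab_ap`, `hl_ap`, `far_ap`
-/

set_option autoImplicit false
set_option linter.unusedSectionVars false

noncomputable section

open scoped Classical

namespace Crest.Agent.R143.Patx828

open Crest.Agent.R143.Frame1x395 Crest.Agent.R143.Frame2x395 Crest.Agent.R143.Frame3x395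
  Crest.Agent.R143.Frame4x395 Crest.Agent.R143.Frame8x395 Crest.Agent.R143.Frame9x395
  Crest.Agent.R143.NonXx592 Crest.Agent.R143.Coarsex166 Crest.Agent.R143.Coarse2x166
  Crest.Agent.R143.Flipx166 Crest.Agent.R143.R5bx166 Crest.Agent.R143.R5qx166

open Splx117 (Lp InK gp)
open C2SBx395 (Cq Root Free Rc Pin)
open K33x137 (Cn Lk Ed)

variable {D C : Type} {M : CMap D C} {σ : C → ZMod 2} {p : D} {N : ℕ} {r : ZMod 3 → ℕ}
  {i j k l : ZMod 3} {c : C}

/-- **ring loop with three gaps of one block** -/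
structure Rg3 (M : CMap D C) (σ : C → ZMod 2) (p : D) (N : ℕ) (r : ZMod 3 → ℕ) : Prop where
  L : Lp M (cfg M σ) p N
  col : σ (M.cell p) = 1
  r01 : r 0 < r 1
  r12 : r 1 < r 2
  r2N : r 2 < N
  gap : ∀ j, cfg M σ (gp M (cfg M σ) p (r j)) = 0
  rel : Rel M (cfg M σ) (gp M (cfg M σ) p (r 0)) (gp M (cfg M σ) p (r 1))
  rel' : Rel M (cfg M σ) (gp M (cfg M σ) p (r 1)) (gp M (cfg M σ) p (r 2))

/-- times of the arc `j` -/
def Ti (N : ℕ) (r : ZMod 3 → ℕ) (j : ZMod 3) (u : ℕ) : Prop :=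
  if j = 0 then r 0 < u ∧ u ≤ r 1 else if j = 1 then r 1 < u ∧ u ≤ r 2 else
    r 2 < u ∧ u ≤ N + r 0

/-- left cells of the arc `j` -/
def Gc (M : CMap D C) (x : D → ZMod 2) (p : D) (N : ℕ) (r : ZMod 3 → ℕ) (j : ZMod 3) : Set C :=
  {c | ∃ u, Ti N r j u ∧ lc M x p u = c}

/-- all the left cells -/
def Lf (M : CMap D C) (x : D → ZMod 2) (p : D) : Set C := {c | ∃ u, lc M x p u = c}

/-- the outside: joined to the right cells off the left cells -/
def Wc (M : CMap D C) (x : D → ZMod 2) (p : D) : Set C :=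
  {c | c ∉ Lf M x p ∧ Relation.EqvGen (Nb M (Lf M x p)ᶜ) (M.cell (M.rho p)) c}

/-- **giants of the pattern `k`** -/
def AP (M : CMap D C) (x : D → ZMod 2) (p : D) (N : ℕ) (r : ZMod 3 → ℕ) (k j : ZMod 3) : Set C :=
  if j = k then Gc M x p N r j ∪ Wc M x p else Gc M x p N r j

theorem z3e : ∀ j : ZMod 3, j = 0 ∨ j = 1 ∨ j = 2 := by decide

theorem z3f : ∀ k : ZMod 3, k + 1 + 1 = k + 2 ∧ k + 2 + 2 = k + 1 ∧ k + 1 + 2 = k := by decide

theorem ti0 {u : ℕ} : Ti N r 0 u ↔ r 0 < u ∧ u ≤ r 1 := by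
  unfold Ti
  rw [if_pos rfl]

theorem ti1 {u : ℕ} : Ti N r 1 u ↔ r 1 < u ∧ u ≤ r 2 := by
  unfold Ti
  rw [if_neg (by decide), if_pos rfl]

theorem ti2 {u : ℕ} : Ti N r 2 u ↔ r 2 < u ∧ u ≤ N + r 0 := by
  unfold Ti
  rw [if_neg (by decide), if_neg (by decide)]

section

variable {x : D → ZMod 2}

theorem ap_self : AP M x p N r k k = Gc M x p N r k ∪ Wc M x p := if_pos rfl

theorem ap_ne (h : j ≠ k) : AP M x p N r k j = Gc M x p N r j := if_neg h

theorem gc_ap (h : c ∈ Gc M x p N r j) : c ∈ AP M x p N r k j := by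
  by_cases e : j = k
  · subst e
    rw [ap_self]
    exact Or.inl h
  · rw [ap_ne e]
    exact h

theorem ap_cases (h : c ∈ AP M x p N r k j) : c ∈ Gc M x p N r j ∨ (j = k ∧ c ∈ Wc M x p) := by
  by_cases e : j = k
  · subst e
    rw [ap_self] at h
    exact h.imp id fun h => ⟨rfl, h⟩
  · rw [ap_ne e] at h
    exact Or.inl h

theorem gc_lf (h : c ∈ Gc M x p N r j) : c ∈ Lf M x p := by
  obtain ⟨u, -, h⟩ := h
  exact ⟨u, h⟩

/-- the union of the giants -/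
theorem ap_union : (∃ j, c ∈ AP M x p N r k j) ↔ (∃ j, c ∈ Gc M x p N r j) ∨ c ∈ Wc M x p := by
  constructor
  · rintro ⟨j, hj⟩
    rcases ap_cases hj with h | ⟨-, h⟩
    · exact Or.inl ⟨j, h⟩
    · exact Or.inr h
  · rintro (⟨j, hj⟩ | h)
    · exact ⟨j, gc_ap hj⟩
    · refine ⟨k, ?_⟩
      rw [ap_self]
      exact Or.inr h

/-- **the free cells do not depend on the pattern** -/
theorem free_ap : Free (AP M x p N r k) c ↔ (∀ j, c ∉ Gc M x p N r j) ∧ c ∉ Wc M x p := by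
  have h := ap_union (M := M) (x := x) (p := p) (N := N) (r := r) (k := k) (c := c)
  unfold C2SBx395.Free
  rw [← not_iff_not]
  push Not
  rw [h]
  constructor
  · rintro (h | h) h'
    · obtain ⟨j, hj⟩ := h
      exact absurd hj (h' j)
    · exact h
  · intro h1
    by_cases h2 : ∃ j, c ∈ Gc M x p N r j
    · exact Or.inl h2
    · push Not at h2
      exact Or.inr (h1 h2)

end

/-! ### components -/

/-- the component of a cell off a set is connected -/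
theorem comp_ccon {X : Set C} {a : C} : CCon M {c | c ∈ X ∧ Relation.EqvGen (Nb M X) a c} := by
  set Z : Set C := {c | c ∈ X ∧ Relation.EqvGen (Nb M X) a c} with hZ
  have key : ∀ b c, Relation.EqvGen (Nb M X) b c →
      (b ∈ Z ↔ c ∈ Z) ∧ (b ∈ Z → Relation.EqvGen (Nb M Z) b c) := by
    intro b c h
    induction h with
    | rel b c h =>
      have h1 : b ∈ Z ↔ c ∈ Z := by
        constructor
        · rintro ⟨-, h3⟩
          exact ⟨h.2.1, h3.trans _ _ _ (Relation.EqvGen.rel _ _ h)⟩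
        · rintro ⟨-, h3⟩
          exact ⟨h.1, h3.trans _ _ _ (Relation.EqvGen.rel _ _ h).symm⟩
      exact ⟨h1, fun hb => Relation.EqvGen.rel _ _ ⟨hb, h1.1 hb, h.2.2⟩⟩
    | refl c => exact ⟨Iff.rfl, fun _ => Relation.EqvGen.refl _⟩
    | symm b c _ ih => exact ⟨ih.1.symm, fun hc => (ih.2 (ih.1.2 hc)).symm _ _⟩
    | trans b c d _ _ ih1 ih2 =>
      exact ⟨ih1.1.trans ih2.1, fun hb => (ih1.2 hb).trans _ _ _ (ih2.2 (ih1.1.1 hb))⟩
  intro c hc c' hc'
  exact (key c c' (hc.2.symm.trans _ _ _ hc'.2)).2 hc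

section

variable {x : D → ZMod 2}

theorem wc_ccon : CCon M (Wc M x p) := by
  have h := comp_ccon (M := M) (X := (Lf M x p)ᶜ) (a := M.cell (M.rho p))
  exact h

/-- a cell off the left cells next to the outside is in the outside -/
theorem wc_nb {c c' : C} (h : c ∈ Wc M x p) (hc' : c' ∉ Lf M x p) (he : Ed M c c') :
    c' ∈ Wc M x p := by
  refine ⟨hc', h.2.trans _ _ _ ?_⟩
  obtain ⟨d, rfl, rfl⟩ := he
  exact step_nb h.1 hc'

end

/-! ### the ring -/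

namespace Rg3

variable [Fintype D]

theorem gpx (X : Rg3 M σ p N r) (j : ZMod 3) : Gp M (cfg M σ) (gp M (cfg M σ) p (r j)) :=
  X.L.gap (X.gap j)

theorem even (_X : Rg3 M σ p N r) : IsC M ∅ (cfg M σ) := cfg_isC σ

theorem r_lt (X : Rg3 M σ p N r) : ∀ j, r j < N := by
  intro j
  have h1 := X.r01
  have h2 := X.r12
  have h3 := X.r2N
  rcases z3e j with rfl | rfl | rfl
  · omega
  · omega
  · omega

/-- every left cell is in one of the arcs -/
theorem lf_gc (X : Rg3 M σ p N r) (h : c ∈ Lf M (cfg M σ) p) :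
    ∃ j, c ∈ Gc M (cfg M σ) p N r j := by
  have h1 := X.r01
  have h2 := X.r12
  have h3 := X.r2N
  have L := loop_of X.L
  obtain ⟨u, rfl⟩ := h
  have key : ∃ v, v < N ∧ lc M (cfg M σ) p v = lc M (cfg M σ) p u := by
    refine ⟨u % N, Nat.mod_lt _ X.L.pos, ?_⟩
    conv_rhs => rw [← Nat.mod_add_div u N]
    generalize u / N = q
    induction q with
    | zero => rfl
    | succ q ih => rw [Nat.mul_succ, ← add_assoc, lc_add L, ← ih]
  obtain ⟨v, hv, e⟩ := key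
  rw [← e]
  rcases le_or_gt v (r 0) with h0 | h0
  · refine ⟨2, v + N, ti2.2 ⟨by omega, by omega⟩, ?_⟩
    rw [lc_add L]
  · rcases le_or_gt v (r 1) with h4 | h4
    · exact ⟨0, v, ti0.2 ⟨h0, h4⟩, rfl⟩
    · rcases le_or_gt v (r 2) with h5 | h5
      · exact ⟨1, v, ti1.2 ⟨h4, h5⟩, rfl⟩
      · exact ⟨2, v, ti2.2 ⟨h5, by omega⟩, rfl⟩

/-- times of the arc `2` modulo the period -/
theorem two_mod (X : Rg3 M σ p N r) {u : ℕ} (h : Ti N r 2 u) :
    ∃ v, v < N ∧ (v ≤ r 0 ∨ r 2 < v) ∧ lc M (cfg M σ) p v = lc M (cfg M σ) p u := by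
  have h1 := X.r01
  have h2 := X.r12
  have h3 := X.r2N
  obtain ⟨h4, h5⟩ := ti2.1 h
  rcases lt_or_ge u N with h6 | h6
  · exact ⟨u, h6, Or.inr h4, rfl⟩
  · refine ⟨u - N, by omega, Or.inl (by omega), ?_⟩
    have := lc_add (loop_of X.L) (u - N)
    rw [show u - N + N = u by omega] at this
    exact this.symm

theorem d01 (X : Rg3 M σ p N r) (h0 : c ∈ Gc M (cfg M σ) p N r 0)
    (h1 : c ∈ Gc M (cfg M σ) p N r 1) : False := by
  have a1 := X.r01
  have a2 := X.r12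
  have a3 := X.r2N
  obtain ⟨u, hu, rfl⟩ := h0
  obtain ⟨v, hv, e⟩ := h1
  rw [ti0] at hu
  rw [ti1] at hv
  exact ((loop_of X.L).rel a1 (by omega) (X.gpx 0) (X.gpx 1) (Splx117.rho_gp _)
    (Splx117.rho_gp _)).1 X.rel u hu.1 hu.2 v (by omega) (Or.inr hv.1) e.symm

theorem d02 (X : Rg3 M σ p N r) (h0 : c ∈ Gc M (cfg M σ) p N r 0)
    (h1 : c ∈ Gc M (cfg M σ) p N r 2) : False := by
  have a1 := X.r01
  have a2 := X.r12
  have a3 := X.r2N
  obtain ⟨u, hu, rfl⟩ := h0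
  obtain ⟨v', hv', e'⟩ := h1
  obtain ⟨v, hv, hv2, e⟩ := X.two_mod hv'
  rw [ti0] at hu
  exact ((loop_of X.L).rel a1 (by omega) (X.gpx 0) (X.gpx 1) (Splx117.rho_gp _)
    (Splx117.rho_gp _)).1 X.rel u hu.1 hu.2 v hv (by omega) (e.trans e').symm

theorem d12 (X : Rg3 M σ p N r) (h0 : c ∈ Gc M (cfg M σ) p N r 1)
    (h1 : c ∈ Gc M (cfg M σ) p N r 2) : False := by
  have a1 := X.r01
  have a2 := X.r12
  have a3 := X.r2N
  obtain ⟨u, hu, rfl⟩ := h0
  obtain ⟨v', hv', e'⟩ := h1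
  obtain ⟨v, hv, hv2, e⟩ := X.two_mod hv'
  rw [ti1] at hu
  exact ((loop_of X.L).rel a2 (by omega) (X.gpx 1) (X.gpx 2) (Splx117.rho_gp _)
    (Splx117.rho_gp _)).1 X.rel' u hu.1 hu.2 v hv (by omega) (e.trans e').symm

/-- **the arcs have disjoint left cells** -/
theorem disj (X : Rg3 M σ p N r) (h : c ∈ Gc M (cfg M σ) p N r j)
    (h' : c ∈ Gc M (cfg M σ) p N r l) : j = l := by
  rcases z3e j with rfl | rfl | rfl <;> rcases z3e l with rfl | rfl | rfl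
  · rfl
  · exact (X.d01 h h').elim
  · exact (X.d02 h h').elim
  · exact (X.d01 h' h).elim
  · rfl
  · exact (X.d12 h h').elim
  · exact (X.d02 h' h).elim
  · exact (X.d12 h' h).elim
  · rfl

theorem gc_ccon (X : Rg3 M σ p N r) (j : ZMod 3) : CCon M (Gc M (cfg M σ) p N r j) := by
  rcases z3e j with rfl | rfl | rfl
  · have e : Gc M (cfg M σ) p N r 0 =
        {c | ∃ u, r 0 + 1 ≤ u ∧ u ≤ r 1 ∧ lc M (cfg M σ) p u = c} := by
      ext c
      exact ⟨fun ⟨u, h, e⟩ => ⟨u, (ti0.1 h).1, (ti0.1 h).2, e⟩,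
        fun ⟨u, h1, h2, e⟩ => ⟨u, ti0.2 ⟨h1, h2⟩, e⟩⟩
    rw [e]
    exact lc_ccon X.even X.L.occ _ _
  · have e : Gc M (cfg M σ) p N r 1 =
        {c | ∃ u, r 1 + 1 ≤ u ∧ u ≤ r 2 ∧ lc M (cfg M σ) p u = c} := by
      ext c
      exact ⟨fun ⟨u, h, e⟩ => ⟨u, (ti1.1 h).1, (ti1.1 h).2, e⟩,
        fun ⟨u, h1, h2, e⟩ => ⟨u, ti1.2 ⟨h1, h2⟩, e⟩⟩
    rw [e]
    exact lc_ccon X.even X.L.occ _ _
  · have e : Gc M (cfg M σ) p N r 2 =
        {c | ∃ u, r 2 + 1 ≤ u ∧ u ≤ N + r 0 ∧ lc M (cfg M σ) p u = c} := by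
      ext c
      exact ⟨fun ⟨u, h, e⟩ => ⟨u, (ti2.1 h).1, (ti2.1 h).2, e⟩,
        fun ⟨u, h1, h2, e⟩ => ⟨u, ti2.2 ⟨h1, h2⟩, e⟩⟩
    rw [e]
    exact lc_ccon X.even X.L.occ _ _

theorem lcol (X : Rg3 M σ p N r) (u : ℕ) : σ (lc M (cfg M σ) p u) = 1 :=
  lc_col (loop_of X.L) rfl X.col u

theorem rcol (X : Rg3 M σ p N r) (u : ℕ) : σ (M.cell (M.rho (P M (cfg M σ) p u))) = 0 := by
  have h1 := P_occ X.even X.L.occ u
  have h2 := X.lcol u
  unfold cfg at h1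
  have h2' : σ (M.cell (P M (cfg M σ) p u)) = 1 := h2
  change σ (M.cell (P M (cfg M σ) p u)) + σ (M.cell (M.rho (P M (cfg M σ) p u))) = 1 at h1
  rw [h2'] at h1
  revert h1
  generalize σ (M.cell (M.rho (P M (cfg M σ) p u))) = a
  revert a; decide

theorem rc_lf (X : Rg3 M σ p N r) (u : ℕ) :
    M.cell (M.rho (P M (cfg M σ) p u)) ∉ Lf M (cfg M σ) p := by
  rintro ⟨v, e⟩
  have h1 := X.rcol u
  rw [← e, X.lcol v] at h1
  exact absurd h1 (by decide)

/-- **the right cells are in the outside** -/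
theorem rc_wc (X : Rg3 M σ p N r) (u : ℕ) :
    M.cell (M.rho (P M (cfg M σ) p u)) ∈ Wc M (cfg M σ) p := by
  refine ⟨X.rc_lf u, ?_⟩
  have h := rc_ccon X.even X.L.occ 0 u _ ⟨0, le_rfl, Nat.zero_le _, rfl⟩ _
    ⟨u, Nat.zero_le _, le_rfl, rfl⟩
  refine nb_mono ?_ h
  rintro c ⟨v, -, -, rfl⟩
  exact X.rc_lf v

theorem wc_gc (_X : Rg3 M σ p N r) (h : c ∈ Wc M (cfg M σ) p) (h' : c ∈ Gc M (cfg M σ) p N r j) :
    False := h.1 (gc_lf h')

/-- every arc has a state -/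
theorem time (X : Rg3 M σ p N r) (j : ZMod 3) : ∃ u, Ti N r j u := by
  have h1 := X.r01
  have h2 := X.r12
  have h3 := X.r2N
  rcases z3e j with rfl | rfl | rfl
  · exact ⟨r 1, ti0.2 ⟨h1, le_rfl⟩⟩
  · exact ⟨r 2, ti1.2 ⟨h2, le_rfl⟩⟩
  · exact ⟨N, ti2.2 ⟨h3, by omega⟩⟩

/-- **disjoint connected giants** -/
theorem gi (X : Rg3 M σ p N r) (k : ZMod 3) : C2SBx395.Gi M (AP M (cfg M σ) p N r k) := by
  constructor
  · intro i j c hi hj
    rcases ap_cases hi with h1 | ⟨e1, h1⟩ <;> rcases ap_cases hj with h2 | ⟨e2, h2⟩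
    · exact X.disj h1 h2
    · exact (X.wc_gc h2 h1).elim
    · exact (X.wc_gc h1 h2).elim
    · rw [e1, e2]
  · intro j
    refine cn_of ?_
    by_cases e : j = k
    · subst e
      rw [ap_self]
      obtain ⟨u, hu⟩ := X.time j
      exact union_ccon' (X.gc_ccon j) wc_ccon (d := P M (cfg M σ) p u) ⟨u, hu, rfl⟩ (X.rc_wc u)
    · rw [ap_ne e]
      exact X.gc_ccon j

/-- the gap of the junction `j | j + 1`, at the time `r (j + 1)`: its two cells -/
theorem junction (X : Rg3 M σ p N r) (j : ZMod 3) :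
    M.cell (gp M (cfg M σ) p (r j)) ∈ Gc M (cfg M σ) p N r j ∧
      M.cell (M.rho (gp M (cfg M σ) p (r j))) ∈ Gc M (cfg M σ) p N r (j + 2) ∧
      M.cell (M.rho (M.rho (gp M (cfg M σ) p (r j)))) ∈ Wc M (cfg M σ) p := by
  have h1 := X.r01
  have h2 := X.r12
  have h3 := X.r2N
  have L := loop_of X.L
  have e1 : M.cell (gp M (cfg M σ) p (r j)) = lc M (cfg M σ) p (r j + 1) := by
    rw [← cell_out X.even (X.gpx j), out_eq X.even (X.gpx j) (Splx117.rho_gp _)]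
  have e2 : M.cell (M.rho (gp M (cfg M σ) p (r j))) = lc M (cfg M σ) p (r j) := by
    rw [Splx117.rho_gp]
  rw [e1, e2, Splx117.rho_gp]
  refine ⟨?_, ?_, X.rc_wc _⟩
  · rcases z3e j with rfl | rfl | rfl
    · exact ⟨_, ti0.2 ⟨by omega, by omega⟩, rfl⟩
    · exact ⟨_, ti1.2 ⟨by omega, by omega⟩, rfl⟩
    · exact ⟨_, ti2.2 ⟨by omega, by omega⟩, rfl⟩
  · rcases z3e j with rfl | rfl | rfl
    · rw [show (0 : ZMod 3) + 2 = 2 by decide]
      refine ⟨r 0 + N, ti2.2 ⟨by omega, by omega⟩, ?_⟩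
      rw [lc_add L]
    · rw [show (1 : ZMod 3) + 2 = 0 by decide]
      exact ⟨r 1, ti0.2 ⟨by omega, by omega⟩, rfl⟩
    · rw [show (2 : ZMod 3) + 2 = 1 by decide]
      exact ⟨r 2, ti1.2 ⟨by omega, by omega⟩, rfl⟩

/-- **the root gap of the pattern `k`** : the junction of the two black arcs -/
theorem root (X : Rg3 M σ p N r) (k : ZMod 3) :
    Root M (AP M (cfg M σ) p N r k) (k + 1) (gp M (cfg M σ) p (r (k + 2))) := by
  obtain ⟨h1, h2, h3⟩ := X.junction (k + 2)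
  obtain ⟨e1, e2, e3⟩ := z3f k
  refine ⟨?_, ?_, ?_⟩
  · rw [e1]
    exact gc_ap h1
  · rw [← e2]
    exact gc_ap h2
  · rw [e3, ap_self]
    exact Or.inr h3

/-- colours of the giants -/
theorem rc (X : Rg3 M σ p N r) (k : ZMod 3) :
    Rc (AP M (cfg M σ) p N r k) (k + 1)
      (fun c => if c ∈ AP M (cfg M σ) p N r k k then 0 else 1) := by
  have h := C2SBx395.rc_exists (X.gi k) (k + 1)
  rw [(z3f k).2.2] at h
  exact h

/-- a free cell is off the left cells -/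
theorem free_lf (X : Rg3 M σ p N r) (h : Free (AP M (cfg M σ) p N r k) c) :
    c ∉ Lf M (cfg M σ) p ∧ c ∉ Wc M (cfg M σ) p := by
  obtain ⟨h1, h2⟩ := free_ap.1 h
  refine ⟨fun h3 => ?_, h2⟩
  obtain ⟨j, hj⟩ := X.lf_gc h3
  exact h1 j hj

/-- **the free cells are the cells off the left cells and the outside** -/
theorem free_iff (X : Rg3 M σ p N r) : Free (AP M (cfg M σ) p N r k) c ↔
    c ∉ Lf M (cfg M σ) p ∧ c ∉ Wc M (cfg M σ) p :=
  ⟨X.free_lf, fun h => free_ap.2 ⟨fun _ hj => h.1 (gc_lf hj), h.2⟩⟩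

/-- **a neighbour of a free cell is not in the outside** -/
theorem nb_free (X : Rg3 M σ p N r) {c' : C} (h : Free (AP M (cfg M σ) p N r k) c)
    (he : Ed M c c') : c' ∉ Wc M (cfg M σ) p := by
  intro h'
  obtain ⟨h1, h2⟩ := X.free_lf h
  exact h2 (wc_nb h' h1 he.symm)

/-- **same labels next to the free cells** -/
theorem lab (X : Rg3 M σ p N r) {c' : C} (h : Free (AP M (cfg M σ) p N r k) c)
    (he : Ed M c c') (l j : ZMod 3) :
    c' ∈ AP M (cfg M σ) p N r k j ↔ c' ∈ AP M (cfg M σ) p N r l j := by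
  have h1 := X.nb_free h he
  have key : ∀ k, c' ∈ AP M (cfg M σ) p N r k j ↔ c' ∈ Gc M (cfg M σ) p N r j := fun k =>
    ⟨fun h => (ap_cases h).resolve_right fun h' => h1 h'.2, gc_ap⟩
  rw [key, key]

theorem free_eq (X : Rg3 M σ p N r) (l : ZMod 3) :
    Free (AP M (cfg M σ) p N r k) c ↔ Free (AP M (cfg M σ) p N r l) c := by
  rw [X.free_iff, X.free_iff]

end Rg3

/-! ### sites -/

section sites

open Crest.Agent.R143.B0x346 Crest.Agent.R143.DelGx806 Crest.Agent.R143.DelRx806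
  Crest.Agent.R143.JColx54 Crest.Agent.R143.Frame10x395 Crest.Agent.R143.C2SCx395
open Crest.Agent.R143.FinCx811 (Cs rc0 cell_mem)
open Crest.Agent.R143.K33x877 (fr)

variable {S : Finset ℂ} {hS : GP (S : Set ℂ)} {σ : Cs hS → ZMod 2} {p : D0 S}

/-- sites of the giants of the pattern `k` -/
def sP (hS : GP (S : Set ℂ)) (σ : Cs hS → ZMod 2) (p : D0 S) (N : ℕ) (r : ZMod 3 → ℕ)
    (k : ZMod 3) : ZMod 3 → Set ℂ := st (AP (rc0 hS) (cfg (rc0 hS) σ) p N r k)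

theorem mem_fr_sP {v : ℂ} {c : Cs hS} (hv : v ∈ S) (e : c.1 = Quot.mk (hullE S) v) :
    v ∈ fr S (sP hS σ p N r k) ↔ Free (AP (rc0 hS) (cfg (rc0 hS) σ) p N r k) c :=
  ⟨fun h => free_of_fr h e, fun h => fr_of_free h hv e⟩

/-- **the free sites do not depend on the pattern** -/
theorem fr_ap (h3 : 3 ≤ S.card) (X : Rg3 (rc0 hS) σ p N r) (k l : ZMod 3) :
    fr S (sP hS σ p N r k) = fr S (sP hS σ p N r l) := by
  have key : ∀ k l : ZMod 3, fr S (sP hS σ p N r k) ⊆ fr S (sP hS σ p N r l) := by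
    intro k l v hv
    have hc : ∃ c : Cs hS, c.1 = Quot.mk (hullE S) v := ⟨⟨_, cell_mem hS h3 hv.1⟩, rfl⟩
    obtain ⟨c, e⟩ := hc
    exact (mem_fr_sP hv.1 e).2 ((X.free_eq l).1 ((mem_fr_sP hv.1 e).1 hv))
  exact (key k l).antisymm (key l k)

/-- **the labels next to the free sites do not depend on the pattern** -/
theorem lab_ap (X : Rg3 (rc0 hS) σ p N r) (k l : ZMod 3) :
    ∀ a ∈ fr S (sP hS σ p N r k), ∀ v, Adj S a v → ∀ j,
      (v ∈ sP hS σ p N r k j ↔ v ∈ sP hS σ p N r l j) := by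
  intro a ha v hav j
  obtain ⟨c, e⟩ := cell_ex (hS := hS) hav
  obtain ⟨c', e'⟩ := cell_ex (hS := hS) hav.symm
  have hf := free_of_fr ha e
  have he := ed_of_adj hav e e'
  have hvS := hav.mem.2
  rw [show (v ∈ sP hS σ p N r k j) = (v ∈ st (AP (rc0 hS) (cfg (rc0 hS) σ) p N r k) j) from rfl,
    show (v ∈ sP hS σ p N r l j) = (v ∈ st (AP (rc0 hS) (cfg (rc0 hS) σ) p N r l) j) from rfl,
    st_mem hvS e', st_mem hvS e']
  exact X.lab hf he l j

/-- the hull cell in the outside -/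
theorem hl_ap (H : ∀ c : Cs hS, ∀ v, OnHull S v → c.1 = Quot.mk (hullE S) v →
    c ∈ Wc (rc0 hS) (cfg (rc0 hS) σ) p) : Hl (AP (rc0 hS) (cfg (rc0 hS) σ) p N r k) k := by
  intro c v hv e
  rw [ap_self]
  exact Or.inr (H c v hv e)

theorem far_ap (H : ∀ d : D0 S, OnHull S d.1.1 →
    (rc0 hS).cell d ∈ Wc (rc0 hS) (cfg (rc0 hS) σ) p ∧
    (rc0 hS).cell ((rc0 hS).rho d) ∈ Wc (rc0 hS) (cfg (rc0 hS) σ) p ∧
    (rc0 hS).cell ((rc0 hS).rho ((rc0 hS).rho d)) ∈ Wc (rc0 hS) (cfg (rc0 hS) σ) p) :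
    Far (AP (rc0 hS) (cfg (rc0 hS) σ) p N r k) k := by
  intro d hd
  obtain ⟨h1, h2, h3⟩ := H d hd
  rw [ap_self]
  exact ⟨Or.inr h1, Or.inr h2, Or.inr h3⟩

end sites

end Crest.Agent.R143.Patx828
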