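import Crest.Agent.R143.Exc3_790
import Crest.Agent.R143.Pat_828
import Crest.Agent.R143.Jun_43

/-!
# Row 143 (S0194), block H, H5 (C) (helper790): the ring loop of 828 (`Rg3`) gives `Net2`

`x = cfg M σ`, loop `p`, `N`, three gap times `r 0 < r 1 < r 2` of ONE block, arcs `Gc j`, outside `Wc`,
giants `AP k` of the pattern `k` (828).
* `KC M x g₀` : the cells of the block of `g₀` (left cells at the gap times of the block)
* `Rg3.kin` : **two cells of different arcs joined by free cells (or adjacent) are cells of the block**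
* `Rg3.dir` : no backward transition on the outer side (`K₃₃`)
* `Rg3.net2` : `Net2` of `Exc3_790` for the pattern `k` : real colours known on the cells of the block
  (black in the arcs `k + 1`, `k + 2`, white in the arc `k`) and on the free cells (as in the static net)
* `Rg3.cj` : **the root block of the pattern `k` is a joined chord of the real configuration, its sum =
  one block of the real configuration - potential difference of the end cells**
-/

set_option autoImplicit false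
set_option linter.unusedSectionVars false

noncomputable section

open scoped Classical

namespace Crest.Agent.R143.Exc4x790

open Crest.Agent.R143.Frame1x395 Crest.Agent.R143.Frame2x395 Crest.Agent.R143.Frame3x395
  Crest.Agent.R143.Frame8x395 Crest.Agent.R143.Frame9x395 Crest.Agent.R143.Frame11x395
  Crest.Agent.R143.NonXx592 Crest.Agent.R143.Coarsex166 Crest.Agent.R143.Coarse2x166
  Crest.Agent.R143.Chord2x355 Crest.Agent.R143.H2x355 Crest.Agent.R143.Excx790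
  Crest.Agent.R143.Exc3x790 Crest.Agent.R143.Patx828
open Crest.Agent.R143.Flipx166 (Loop)
open Crest.Agent.R143.R5qx166 (loop_of)
open Crest.Agent.R143.C2SBx395 (Free Gi Cq Root Rc)
open Crest.Agent.R143.K33x137 (Ed Lk Cn mg mg_in mg_inl mg_inr mg_cls T3 k33)
open Crest.Agent.R143.Splx117 (gp)

variable {D C C' : Type} {M : CMap D C} {σ : C → ZMod 2} {p : D} {N : ℕ} {r : ZMod 3 → ℕ}

/-- the cells of the block of `g₀` -/
def KC (M : CMap D C) (x : D → ZMod 2) (g₀ : D) : Set C :=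
  {c | ∃ h, Gp M x h ∧ Rel M x g₀ h ∧ M.cell (M.rho h) = c}

/-- gap of the block at the time `s` -/
def Kg (M : CMap D C) (x : D → ZMod 2) (p : D) (g₀ : D) (s : ℕ) : Prop :=
  Gp M x (gp M x p s) ∧ Rel M x g₀ (gp M x p s)

section loop

variable {x : D → ZMod 2} {g₀ : D}

theorem gp_p (s : ℕ) : M.rho (gp M x p s) = P M x p s := Splx117.rho_gp s

theorem Kg.kc {s : ℕ} (h : Kg M x p g₀ s) : M.cell (P M x p s) ∈ KC M x g₀ :=
  ⟨_, h.1, h.2, by rw [gp_p]⟩

theorem Kg.add (L : Splx117.Lp M x p N) {s : ℕ} (h : Kg M x p g₀ s) : Kg M x p g₀ (s + N) := by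
  unfold Kg
  rw [L.gp_add]
  exact h

/-- shifted loop -/
theorem shift (L : Splx117.Lp M x p N) (s : ℕ) : Loop M x (P M x p s) N := by
  refine ⟨L.even, P_occ L.even L.occ s, ?_, fun a b hab hb e => ?_⟩
  · rw [← P_add, add_comm]
    exact L.add s
  · rw [← P_add, ← P_add] at e
    exact L.ne (i := a + s) (j := b + s) (by omega) (by omega) e

/-- **cyclic separation** -/
theorem csep [Fintype D] (L : Splx117.Lp M x p N) {s s' : ℕ} (hs : Kg M x p g₀ s) (hs' : Kg M x p g₀ s')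
    (hg₀ : Gp M x g₀) (h : s < s') (h' : s' < s + N) {u v : ℕ} (h1 : s < u) (h2 : u ≤ s')
    (h3 : s' < v) (h4 : v ≤ s + N) : M.cell (P M x p u) ≠ M.cell (P M x p v) := by
  have hR : Rel M x (gp M x p s) (gp M x p s') := rel_trans L.even hs.1 hg₀ hs'.1 (rel_symm hs.2) hs'.2
  have e0 : M.rho (gp M x p s) = P M x (P M x p s) 0 := gp_p s
  have e1 : M.rho (gp M x p s') = P M x (P M x p s) (s' - s) := by
    rw [gp_p, ← P_add, show s' - s + s = s' by omega]
  have key := ((shift L s).rel (a := 0) (b := s' - s) (by omega) (by omega) hs.1 hs'.1 e0 e1).1 hR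
  intro e
  rcases Nat.lt_or_eq_of_le h4 with h5 | h5
  · refine key (u - s) (by omega) (by omega) (v - s) (by omega) (Or.inr (by omega)) ?_
    show M.cell (P M x (P M x p s) (u - s)) = M.cell (P M x (P M x p s) (v - s))
    rw [← P_add, ← P_add, show u - s + s = u by omega, show v - s + s = v by omega]
    exact e
  · refine key (u - s) (by omega) (by omega) 0 (by omega) (Or.inl le_rfl) ?_
    show M.cell (P M x (P M x p s) (u - s)) = M.cell (P M x (P M x p s) 0)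
    rw [← P_add, ← P_add, show u - s + s = u by omega, zero_add, e, h5]
    exact congrArg M.cell (L.add s)

/-- the gap which leaves the new cell of the gap at the time `s` -/
theorem knx [Fintype D] (L : Splx117.Lp M x p N) {s : ℕ} (hs : Kg M x p g₀ s) (hg₀ : Gp M x g₀) :
    ∃ t, s < t ∧ t ≤ s + N ∧ Kg M x p g₀ t ∧ M.cell (P M x p t) = M.cell (P M x p (s + 1)) := by
  obtain ⟨h, hk, e⟩ := exists_prev L.even hg₀ (mem_blk.2 ⟨hs.1, hs.2⟩)
  obtain ⟨k1, k2⟩ := mem_blk.1 hk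
  have hR : Rel M x (gp M x p s) h := rel_trans L.even hs.1 hg₀ k1 (rel_symm hs.2) k2
  obtain ⟨d, hd, hkd⟩ := R5bx166.loop_mem (shift L s) L.pos hs.1 k1 (a := 0) (gp_p s) hR
  have e2 : M.rho h = P M x p (d + s) := by rw [hkd, ← P_add]
  have e3 : M.cell (M.rho h) = M.cell (P M x p (s + 1)) := by
    rw [e, ← cell_out L.even hs.1, NonXx592.out_eq L.even hs.1 (gp_p s)]
  have e4 : gp M x p (d + s) = h := by
    have : M.rho (gp M x p (d + s)) = M.rho h := by rw [gp_p, e2]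
    exact rho_inj M this
  have hK : Kg M x p g₀ (d + s) := by
    unfold Kg
    rw [e4]
    exact ⟨k1, k2⟩
  rcases Nat.eq_zero_or_pos d with rfl | hd0
  · refine ⟨s + N, by have := L.pos; omega, le_rfl, hs.add L, ?_⟩
    rw [← e3, e2, zero_add]
    exact congrArg M.cell (L.add s)
  · exact ⟨d + s, by omega, by omega, hK, by rw [← e2, e3]⟩

/-- **the two gaps of the block around a time** -/
theorem around [Fintype D] (L : Splx117.Lp M x p N) (hg₀ : Gp M x g₀) {ρ ρ' u : ℕ}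
    (h : Kg M x p g₀ ρ) (h' : Kg M x p g₀ ρ') (hu : ρ < u) (hu' : u ≤ ρ') :
    ∃ s s', ρ ≤ s ∧ s < u ∧ u ≤ s' ∧ s' ≤ ρ' ∧ Kg M x p g₀ s ∧ Kg M x p g₀ s' ∧
      M.cell (P M x p (s + 1)) = M.cell (P M x p s') := by
  obtain ⟨s', hs', hs'u, hs'm⟩ : ∃ s', Kg M x p g₀ s' ∧ u ≤ s' ∧
      ∀ t, Kg M x p g₀ t → u ≤ t → s' ≤ t := by
    have hex : ∃ s', Kg M x p g₀ s' ∧ u ≤ s' := ⟨ρ', h', hu'⟩
    exact ⟨Nat.find hex, (Nat.find_spec hex).1, (Nat.find_spec hex).2,
      fun t h1 h2 => Nat.find_min' hex ⟨h1, h2⟩⟩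
  obtain ⟨s, hs, hsu, hsm⟩ : ∃ s, Kg M x p g₀ s ∧ s < u ∧ ∀ t, Kg M x p g₀ t → t < u → t ≤ s := by
    have hex : ∃ k, k < u ∧ Kg M x p g₀ (u - 1 - k) :=
      ⟨u - 1 - ρ, by omega, by rwa [show u - 1 - (u - 1 - ρ) = ρ by omega]⟩
    refine ⟨u - 1 - Nat.find hex, (Nat.find_spec hex).2, by omega, fun t h1 h2 => ?_⟩
    by_contra hc
    refine Nat.find_min hex (m := u - 1 - t) (by omega) ⟨by omega, ?_⟩
    rwa [show u - 1 - (u - 1 - t) = t by omega]
  have hρs := hsm ρ h hu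
  have hs'ρ := hs'm ρ' h' hu'
  refine ⟨s, s', hρs, hsu, hs'u, hs'ρ, hs, hs', ?_⟩
  obtain ⟨t, ht1, ht2, ht3, ht4⟩ := knx L hs hg₀
  have ht5 : u ≤ t := by
    by_contra hc
    have := hsm t ht3 (by omega)
    omega
  have ht6 := hs'm t ht3 ht5
  rcases Nat.lt_or_eq_of_le ht6 with h1 | h1
  · exfalso
    exact csep L hs hs' hg₀ (by omega) (by omega) (u := s + 1) (v := t) (by omega) (by omega) h1 ht2
      ht4.symm
  · rw [h1]
    exact ht4.symm

end loop

/-! ### noncrossing with a connected set as one cell -/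

/-- the class map of one connected set -/
def qf (Q : Set C) : Unit → Set C := fun _ => Q

theorem qcls {Q : Set C} (hQ : Cn M Q) : ClsCon M (mg (qf Q)) :=
  mg_cls (fun _ _ _ _ _ => rfl) fun _ => hQ

/-- **noncrossing with a connected set `Q` as one cell**, cyclic form -/
theorem nc_q [Fintype D] (L : Splx117.Lp M (cfg M σ) p N) {Q : Set C}
    (hQ : Cn M Q) (hl : ∀ u, M.cell (P M (cfg M σ) p u) ∈ Q → σ (M.cell (P M (cfg M σ) p u)) = 1)
    (hr : ∀ u, M.cell (M.rho (P M (cfg M σ) p u)) ∉ Q) {t1 t2 t3 t4 : ℕ} (h12 : t1 < t2)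
    (h23 : t2 < t3) (h34 : t3 < t4) (h41 : t4 < t1 + N)
    (e1 : M.cell (P M (cfg M σ) p t1) = M.cell (P M (cfg M σ) p t3))
    (q2 : M.cell (P M (cfg M σ) p t2) ∈ Q) (q4 : M.cell (P M (cfg M σ) p t4) ∈ Q) :
    M.cell (P M (cfg M σ) p t1) ∈ Q := by
  set χ₁ : C → ZMod 2 := fun c => if c ∈ Q then 1 else σ c with hχ₁
  have k1 : ∀ u, χ₁ (M.cell (P M (cfg M σ) p u)) = σ (M.cell (P M (cfg M σ) p u)) := by
    intro u
    by_cases h : M.cell (P M (cfg M σ) p u) ∈ Q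
    · rw [hl u h]; exact if_pos h
    · exact if_neg h
  have k2 : ∀ u, χ₁ (M.cell (M.rho (P M (cfg M σ) p u))) =
      σ (M.cell (M.rho (P M (cfg M σ) p u))) := fun u => if_neg (hr u)
  have st : ∀ u, P M (cfg M χ₁) p u = P M (cfg M σ) p u := fun u =>
    Junx43.same L.occ (m := u) (fun v _ => ⟨k1 v, k2 v⟩) u le_rfl
  have hx : IsC (coarse M (mg (qf Q)) (qcls hQ)) ∅ (cfg M χ₁) := by
    refine isC_coarse.2 ⟨cfg_isC χ₁, fun d _ e => ?_⟩
    show χ₁ (M.cell d) + χ₁ (M.cell (M.rho d)) = 0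
    have e' : mg (qf Q) (M.cell d) = mg (qf Q) (M.cell (M.rho d)) := e
    rcases h : mg (qf Q) (M.cell d) with i | c
    · rw [h] at e'
      have h1 : M.cell d ∈ Q := mg_inl h
      have h2 : M.cell (M.rho d) ∈ Q := mg_inl e'.symm
      have f1 : χ₁ (M.cell d) = 1 := if_pos h1
      have f2 : χ₁ (M.cell (M.rho d)) = 1 := if_pos h2
      rw [f1, f2]; decide
    · rw [h] at e'
      rw [mg_inr h, mg_inr e'.symm]
      exact z_self _
  have L' : Loop (coarse M (mg (qf Q)) (qcls hQ)) (cfg M χ₁) p N := by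
    refine ⟨hx, ?_, ?_, ?_⟩
    · have h1 := k1 0
      have h2 := k2 0
      have h3 : σ (M.cell (P M (cfg M σ) p 0)) + σ (M.cell (M.rho (P M (cfg M σ) p 0))) = 1 := L.occ
      rw [← h1, ← h2] at h3
      exact h3
    · show P M (cfg M χ₁) p N = p
      rw [st]
      exact L.per
    · intro a b hab hb
      show P M (cfg M χ₁) p a ≠ P M (cfg M χ₁) p b
      rw [st, st]
      exact L.inj a b hab hb
  have lcc : ∀ u, Flipx166.lc (coarse M (mg (qf Q)) (qcls hQ)) (cfg M χ₁) p u =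
      mg (qf Q) (M.cell (P M (cfg M σ) p u)) := by
    intro u
    show mg (qf Q) (M.cell (P M (cfg M χ₁) p u)) = _
    rw [st]
  have mq : ∀ {c : C}, c ∈ Q → mg (qf Q) c = Sum.inl () := fun hc =>
    mg_in (fun _ _ _ _ _ => rfl) (i := ()) hc
  have key := L'.nc h12 h23 h34 h41 (by rw [lcc, lcc, e1]) (by rw [lcc, lcc, mq q2, mq q4])
  rw [lcc, lcc, mq q2] at key
  exact mg_inl key

/-- cells reached through `Fr` are connected -/
theorem rch_cn {Fq : C → Prop} {c : C} : Cn M {f | Rch M Fq c f} := by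
  have key : ∀ f, Rch M Fq c f → Lk M {f | Rch M Fq c f} c f := by
    intro f h
    induction h with
    | refl => exact Relation.EqvGen.refl _
    | @tail u v h1 h2 ih =>
      exact ih.trans' (K33x137.Lk.edge (show Rch M Fq c u from h1)
        (show Rch M Fq c v from h1.tail h2) h2.1)
  intro f hf f' hf'
  exact Relation.EqvGen.trans _ _ _ (Relation.EqvGen.symm _ _ (key f hf)) (key f' hf')

/-- the connected set of a link -/
theorem lnk_q {Fq : C → Prop} {c c' : C} (h : Lnk M Fq c c') :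
    ∃ Q : Set C, Cn M Q ∧ c ∈ Q ∧ c' ∈ Q ∧ ∀ q ∈ Q, q = c ∨ q = c' ∨ Fq q := by
  obtain ⟨f, hf, he⟩ := h
  refine ⟨{f | Rch M Fq c f} ∪ {c'}, ?_, Or.inl Relation.ReflTransGen.refl, Or.inr rfl, ?_⟩
  · refine rch_cn.union (b := c') ?_ (show f ∈ {f | Rch M Fq c f} from hf) rfl (Or.inr he)
    rintro u rfl v rfl
    exact Relation.EqvGen.refl _
  · rintro q (hq | rfl)
    · have hq' : Rch M Fq c q := hq
      rcases Relation.ReflTransGen.cases_tail hq' with h1 | ⟨u, -, h1⟩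
      · exact Or.inl h1
      · exact Or.inr (Or.inr h1.2)
    · exact Or.inr (Or.inl rfl)

/-! ### the ring -/

section ring

variable [Fintype D] {i j k : ZMod 3}

/-- gap of the arc ends -/
def g0 (M : CMap D C) (σ : C → ZMod 2) (p : D) (r : ZMod 3 → ℕ) : D := gp M (cfg M σ) p (r 0)

theorem g0_gp (X : Rg3 M σ p N r) : Gp M (cfg M σ) (g0 M σ p r) := X.gpx 0

theorem kg_r (X : Rg3 M σ p N r) (j : ZMod 3) : Kg M (cfg M σ) p (g0 M σ p r) (r j) := by
  refine ⟨X.gpx j, ?_⟩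
  rcases z3e j with rfl | rfl | rfl
  · exact rel_refl _
  · exact X.rel
  · exact rel_trans X.even (X.gpx 0) (X.gpx 1) (X.gpx 2) X.rel X.rel'

/-- the arc `j` as an interval between two gaps of the block, the other arcs are in the rest of the
period -/
theorem arc_int (X : Rg3 M σ p N r) (j : ZMod 3) : ∃ ρ ρ', Kg M (cfg M σ) p (g0 M σ p r) ρ ∧
    Kg M (cfg M σ) p (g0 M σ p r) ρ' ∧ ρ < ρ' ∧ ρ' ≤ ρ + N ∧
    (∀ u, Ti N r j u → ρ < u ∧ u ≤ ρ') ∧
    ∀ l, l ≠ j → ∀ c ∈ Gc M (cfg M σ) p N r l, ∃ v, ρ' < v ∧ v ≤ ρ + N ∧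
      M.cell (P M (cfg M σ) p v) = c := by
  have a1 := X.r01
  have a2 := X.r12
  have a3 := X.r2N
  have pd : ∀ v, M.cell (P M (cfg M σ) p (v + N)) = M.cell (P M (cfg M σ) p v) := fun v =>
    congrArg M.cell (X.L.add v)
  rcases z3e j with rfl | rfl | rfl
  · refine ⟨r 0, r 1, kg_r X 0, kg_r X 1, a1, by omega, fun u hu => ti0.1 hu, ?_⟩
    intro l hl c hc
    obtain ⟨v, hv, e⟩ := hc
    have e' : M.cell (P M (cfg M σ) p v) = c := e
    rcases z3e l with rfl | rfl | rfl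
    · exact absurd rfl hl
    · have := ti1.1 hv
      exact ⟨v, by omega, by omega, e'⟩
    · have := ti2.1 hv
      exact ⟨v, by omega, by omega, e'⟩
  · refine ⟨r 1, r 2, kg_r X 1, kg_r X 2, a2, by omega, fun u hu => ti1.1 hu, ?_⟩
    intro l hl c hc
    obtain ⟨v, hv, e⟩ := hc
    have e' : M.cell (P M (cfg M σ) p v) = c := e
    rcases z3e l with rfl | rfl | rfl
    · have := ti0.1 hv
      exact ⟨v + N, by omega, by omega, by rw [pd, e']⟩
    · exact absurd rfl hl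
    · have := ti2.1 hv
      exact ⟨v, by omega, by omega, e'⟩
  · refine ⟨r 2, r 0 + N, kg_r X 2, (kg_r X 0).add X.L, by omega, by omega,
      fun u hu => ⟨(ti2.1 hu).1, by have := (ti2.1 hu).2; omega⟩, ?_⟩
    intro l hl c hc
    obtain ⟨v, hv, e⟩ := hc
    have e' : M.cell (P M (cfg M σ) p v) = c := e
    rcases z3e l with rfl | rfl | rfl
    · have := ti0.1 hv
      exact ⟨v + N, by omega, by omega, by rw [pd, e']⟩
    · have := ti1.1 hv
      exact ⟨v + N, by omega, by omega, by rw [pd, e']⟩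
    · exact absurd rfl hl

/-- **KIN', one cell** -/
theorem kin1 (X : Rg3 M σ p N r) {c c' : C} (hc : c ∈ Gc M (cfg M σ) p N r i)
    (hc' : c' ∈ Gc M (cfg M σ) p N r j) (hij : j ≠ i) {Q : Set C} (hQ : Cn M Q) (h1 : c ∈ Q)
    (h2 : c' ∈ Q) (hf : ∀ q ∈ Q, q = c ∨ q = c' ∨ Free (AP M (cfg M σ) p N r k) q) :
    c ∈ KC M (cfg M σ) (g0 M σ p r) := by
  obtain ⟨ρ, ρ', kρ, kρ', hρ, hρN, hti, hoth⟩ := arc_int X i
  obtain ⟨u, hu, eu⟩ := hc
  have eu' : M.cell (P M (cfg M σ) p u) = c := eu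
  obtain ⟨hu1, hu2⟩ := hti u hu
  obtain ⟨v, hv1, hv2, ev⟩ := hoth j hij c' hc'
  obtain ⟨s, s', hs1, hs2, hs3, hs4, ks, ks', es⟩ := around X.L (g0_gp X) kρ kρ' hu1 hu2
  -- the cells of `Q` which are left cells
  have free_lf : ∀ q, Free (AP M (cfg M σ) p N r k) q → ∀ t, M.cell (P M (cfg M σ) p t) ≠ q := by
    intro q hq t e
    exact (X.free_lf hq).1 ⟨t, e⟩
  have hl : ∀ t, M.cell (P M (cfg M σ) p t) ∈ Q → σ (M.cell (P M (cfg M σ) p t)) = 1 :=
    fun t _ => X.lcol t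
  have hr : ∀ t, M.cell (M.rho (P M (cfg M σ) p t)) ∉ Q := by
    intro t ht
    rcases hf _ ht with h | h | h
    · exact X.rc_lf t ⟨u, by rw [h]; exact eu⟩
    · exact X.rc_lf t ⟨v, by rw [h]; exact ev⟩
    · exact (X.free_lf h).2 (X.rc_wc t)
  by_cases e : M.cell (P M (cfg M σ) p s') = c
  · rw [← e]; exact ks'.kc
  have hne1 : u ≠ s' := fun h => e (by rw [← h]; exact eu')
  have hne2 : u ≠ s + 1 := fun h => e (by rw [← es, ← h]; exact eu')
  have key := nc_q X.L hQ hl hr (t1 := s + 1) (t2 := u) (t3 := s') (t4 := v) (by omega)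
    (by omega) (by omega) (by omega) es (by rw [eu']; exact h1) (by rw [ev]; exact h2)
  rw [es] at key
  rcases hf _ key with h | h | h
  · exact absurd h e
  · exfalso
    exact csep X.L ks ks' (g0_gp X) (by omega) (by omega) (u := s') (v := v) (by omega) le_rfl
      (by omega) (by omega) (h.trans ev.symm)
  · exact absurd rfl (free_lf _ h s')

/-- **KIN'**: two cells of different arcs joined by free cells are cells of the block -/
theorem kin (X : Rg3 M σ p N r) {c c' : C} (hc : c ∈ Gc M (cfg M σ) p N r i)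
    (hc' : c' ∈ Gc M (cfg M σ) p N r j) (hij : j ≠ i)
    (h : Lnk M (Free (AP M (cfg M σ) p N r k)) c c') :
    c ∈ KC M (cfg M σ) (g0 M σ p r) ∧ c' ∈ KC M (cfg M σ) (g0 M σ p r) := by
  obtain ⟨Q, hQ, h1, h2, h3⟩ := lnk_q h
  exact ⟨kin1 X hc hc' hij hQ h1 h2 h3, kin1 X hc' hc hij.symm hQ h2 h1 fun q hq => by
    rcases h3 q hq with h | h | h
    · exact Or.inr (Or.inl h)
    · exact Or.inl h
    · exact Or.inr (Or.inr h)⟩

theorem z3q : ∀ k : ZMod 3, k + 1 ≠ k ∧ k + 2 ≠ k ∧ k + 1 ≠ k + 2 ∧ k + 2 ≠ k + 1 ∧ k ≠ k + 1 ∧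
    k ≠ k + 2 := by decide

/-- the outside is connected -/
theorem wc_cn {x : D → ZMod 2} : Cn M (Wc M x p) := R5qx166.cn_of wc_ccon

/-- **no backward transition on the outer side** -/
theorem dir (X : Rg3 M σ p N r) {h : D} (a0 : M.cell h ∈ Gc M (cfg M σ) p N r (k + 1))
    (a1 : M.cell (M.rho h) ∈ Gc M (cfg M σ) p N r (k + 2))
    (a2 : M.cell (M.rho (M.rho h)) ∈ Wc M (cfg M σ) p) : False := by
  obtain ⟨n1, n2, n3, n4, n5, n6⟩ := z3q k
  obtain ⟨b0, b1, b2⟩ := X.junction k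
  obtain ⟨c0, c1, c2⟩ := X.junction (k + 1)
  have e1 : k + 1 + 2 = k := (z3f k).2.2
  rw [e1] at c1
  have cn : ∀ j, Cn M (Gc M (cfg M σ) p N r j) := fun j => R5qx166.cn_of (X.gc_ccon j)
  have hb : Cn M (Gc M (cfg M σ) p N r (k + 2) ∪ Gc M (cfg M σ) p N r k) :=
    (cn (k + 2)).union (cn k) b1 b0 (Or.inr (K33x137.Ed.symm ⟨_, rfl, rfl⟩))
  have T : T3 M (Gc M (cfg M σ) p N r (k + 1))
      (Gc M (cfg M σ) p N r (k + 2) ∪ Gc M (cfg M σ) p N r k) (Wc M (cfg M σ) p) := by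
    refine ⟨cn _, hb, wc_cn, ?_, ?_, ?_⟩
    · refine Set.disjoint_left.2 fun c h1 h2 => ?_
      rcases h2 with h2 | h2
      · exact n3 (X.disj h1 h2)
      · exact n1 (X.disj h1 h2)
    · exact Set.disjoint_left.2 fun c h1 h2 => X.wc_gc h2 h1
    · refine Set.disjoint_left.2 fun c h1 h2 => ?_
      rcases h1 with h1 | h1
      · exact X.wc_gc h2 h1
      · exact X.wc_gc h2 h1
  have e : h = gp M (cfg M σ) p (r (k + 1)) := k33 T (d := h) (d' := gp M (cfg M σ) p (r (k + 1)))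
    ⟨a0, Or.inl a1, a2⟩ ⟨c0, Or.inr c1, c2⟩
  rw [e] at a1
  exact n2 (X.disj a1 c1)

variable {π : C → C'} {χ₀ χ' : C → ZMod 2}

/-- the root gap of the pattern `k` -/
def rg (M : CMap D C) (σ : C → ZMod 2) (p : D) (r : ZMod 3 → ℕ) (k : ZMod 3) : D :=
  gp M (cfg M σ) p (r (k + 2))

theorem root_mem (X : Rg3 M σ p N r) (k : ZMod 3) :
    M.cell (rg M σ p r k) ∈ Gc M (cfg M σ) p N r (k + 2) ∧
      M.cell (M.rho (rg M σ p r k)) ∈ Gc M (cfg M σ) p N r (k + 1) ∧
      M.cell (M.rho (M.rho (rg M σ p r k))) ∈ Wc M (cfg M σ) p := by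
  obtain ⟨b0, b1, b2⟩ := X.junction (k + 2)
  rw [(z3f k).2.1] at b1
  exact ⟨b0, b1, b2⟩

/-- **`Net2` of the pattern `k`** -/
theorem net2 (X : Rg3 M σ p N r) (Q : Cq π (AP M (cfg M σ) p N r k))
    (hc : Rc (AP M (cfg M σ) p N r k) (k + 1) χ₀)
    (g1 : ∀ c ∈ KC M (cfg M σ) (g0 M σ p r), c ∈ Gc M (cfg M σ) p N r (k + 1) → χ' c = 1)
    (g2 : ∀ c ∈ KC M (cfg M σ) (g0 M σ p r), c ∈ Gc M (cfg M σ) p N r (k + 2) → χ' c = 1)
    (g3 : ∀ c ∈ KC M (cfg M σ) (g0 M σ p r), c ∈ Gc M (cfg M σ) p N r k → χ' c = 0)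
    (gF : ∀ c, Free (AP M (cfg M σ) p N r k) c → χ' c = χ₀ c) :
    Net2 M π (π (M.cell (rg M σ p r k))) (π (M.cell (M.rho (rg M σ p r k))))
      (π (M.cell (M.rho (M.rho (rg M σ p r k))))) (Gc M (cfg M σ) p N r k)
      (KC M (cfg M σ) (g0 M σ p r)) χ₀ χ' (rg M σ p r k) := by
  obtain ⟨n1, n2, n3, n4, n5, n6⟩ := z3q k
  obtain ⟨e1, e2, e3⟩ := z3f k
  obtain ⟨b0, b1, b2⟩ := root_mem X k
  have G := X.gi k
  set AA := AP M (cfg M σ) p N r k with hAA
  have R0 : M.cell (rg M σ p r k) ∈ AA (k + 2) := gc_ap b0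
  have R1 : M.cell (M.rho (rg M σ p r k)) ∈ AA (k + 1) := gc_ap b1
  have R2 : M.cell (M.rho (M.rho (rg M σ p r k))) ∈ AA k := by
    rw [hAA, ap_self]; exact Or.inr b2
  have mA : ∀ c, π c = π (M.cell (rg M σ p r k)) → c ∈ Gc M (cfg M σ) p N r (k + 2) := fun c e => by
    have := Q.mem G R0 e
    rwa [hAA, ap_ne n2] at this
  have mB : ∀ c, π c = π (M.cell (M.rho (rg M σ p r k))) → c ∈ Gc M (cfg M σ) p N r (k + 1) :=
    fun c e => by
      have := Q.mem G R1 e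
      rwa [hAA, ap_ne n1] at this
  have mW : ∀ c, π c = π (M.cell (M.rho (M.rho (rg M σ p r k)))) →
      c ∈ Gc M (cfg M σ) p N r k ∨ c ∈ Wc M (cfg M σ) p := fun c e => by
    have := Q.mem G R2 e
    rwa [hAA, ap_self] at this
  have fr : ∀ c, Fr π (π (M.cell (rg M σ p r k))) (π (M.cell (M.rho (rg M σ p r k))))
      (π (M.cell (M.rho (M.rho (rg M σ p r k))))) c → Free AA c := by
    rintro c ⟨f1, f2, f3⟩ j hj
    have hj3 : ∀ k j : ZMod 3, j = k ∨ j = k + 1 ∨ j = k + 2 := by decide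
    rcases hj3 k j with rfl | rfl | rfl
    · exact f3 (Q.eq hj R2)
    · exact f2 (Q.eq hj R1)
    · exact f1 (Q.eq hj R0)
  have kl : ∀ c ∈ KC M (cfg M σ) (g0 M σ p r), c ∈ Lf M (cfg M σ) p := by
    rintro c ⟨h, h1, h2, rfl⟩
    obtain ⟨d, hd, e⟩ := R5bx166.loop_mem (loop_of X.L) X.L.pos (g0_gp X) h1 (a := r 0)
      (gp_p (r 0)) h2
    exact ⟨d, by rw [e]⟩
  refine ⟨?_, ?_, ?_, ?_, ?_, ?_, rfl, rfl, rfl, fun c h e => g2 c h (mA c e),
    fun c h e => g1 c h (mB c e), ?_, fun c hf => gF c (fr c hf), ?_, ?_, ?_⟩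
  · intro e
    exact n3 (X.disj (mB _ e) b0)
  · intro e
    rcases mW _ e with h | h
    · exact n2 (X.disj b0 h)
    · exact X.wc_gc h b0
  · intro c e
    refine hc.c0 c ?_
    rw [e1]; exact gc_ap (mA c e)
  · intro c e
    exact hc.c1 c (gc_ap (mB c e))
  · intro c e
    refine hc.c2 c ?_
    rw [e3, hAA, ap_self]; exact mW c e
  · intro c c' hf e
    rcases (Q.ker _ _).1 e with h | ⟨i, h1, -⟩
    · exact h
    · exact absurd h1 (fr c hf i)
  · intro c hcK e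
    rcases mW _ e with h | h
    · exact g3 c hcK h
    · exact absurd (kl c hcK) h.1
  · intro c c' hf he hw
    rcases mW _ hw with h | h
    · exact h
    · exact absurd h (X.nb_free (fr _ hf) he)
  · intro h _ h1 h2 h3
    rcases mW _ h3 with h4 | h4
    · exact h4
    · exact (dir X (mB _ h2) (mA _ h1) h4).elim
  · intro c c' ha hb hl
    have hl' : Lnk M (Free AA) c c' ∨ Lnk M (Free AA) c' c := by
      have mono : ∀ {c c' : C}, Lnk M (Fr π (π (M.cell (rg M σ p r k)))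
          (π (M.cell (M.rho (rg M σ p r k)))) (π (M.cell (M.rho (M.rho (rg M σ p r k)))))) c c' →
          Lnk M (Free AA) c c' := by
        rintro c c' ⟨f, h1, h2⟩
        refine ⟨f, ?_, h2⟩
        clear h2
        have h1' : Relation.ReflTransGen (fun u v => Ed M u v ∧
          Fr π (π (M.cell (rg M σ p r k))) (π (M.cell (M.rho (rg M σ p r k))))
            (π (M.cell (M.rho (M.rho (rg M σ p r k))))) v) c f := h1
        clear h1
        show Relation.ReflTransGen (fun u v => Ed M u v ∧ Free AA v) c f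
        induction h1' with
        | refl => exact Relation.ReflTransGen.refl
        | @tail u v h3 h4 ih => exact ih.tail ⟨h4.1, fr v h4.2⟩
      exact hl.imp mono mono
    have hcA := mA c ha
    obtain ⟨j, hj, hjk⟩ : ∃ j, c' ∈ Gc M (cfg M σ) p N r j ∧ j ≠ k + 2 := by
      rcases hb with hb | ⟨-, hb⟩
      · exact ⟨k + 1, mB _ hb, n3⟩
      · exact ⟨k, hb, n6⟩
    rcases hl' with hl' | hl'
    · exact kin X hcA hj hjk hl'
    · exact (kin X hj hcA hjk.symm hl').symm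

/-- outer arc of the real configuration for the pattern `k` -/
structure Oc (M : CMap D C) (x : D → ZMod 2) (p : D) (N : ℕ) (r : ZMod 3 → ℕ) (k : ZMod 3)
    (χ' : C → ZMod 2) (p₀ : D) (m : ℕ) : Prop where
  occ : cfg M χ' p₀ = 1
  left : ∀ a, a < m → M.cell (P M (cfg M χ') p₀ a) ∈ Gc M x p N r (k + 1) ∨
    M.cell (P M (cfg M χ') p₀ a) ∈ Gc M x p N r (k + 2)
  right : ∀ a, a < m → M.cell (M.rho (P M (cfg M χ') p₀ a)) ∈ Wc M x p

theorem Oc.oa {x : D → ZMod 2} {p₀ : D} {m : ℕ} (O : Oc M x p N r k χ' p₀ m) :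
    Oa M (cfg M χ') p₀ m (Wc M x p) := ⟨cfg_isC _, O.occ, O.right⟩

/-- **the root block of the pattern `k` is a joined chord of the real configuration; sum = one block of
the real configuration - potential difference** -/
theorem cj (X : Rg3 M σ p N r) (Q : Cq π (AP M (cfg M σ) p N r k)) {hπ : ClsCon M π}
    (hc : Rc (AP M (cfg M σ) p N r k) (k + 1) χ₀)
    (g1 : ∀ c ∈ KC M (cfg M σ) (g0 M σ p r), c ∈ Gc M (cfg M σ) p N r (k + 1) → χ' c = 1)
    (g2 : ∀ c ∈ KC M (cfg M σ) (g0 M σ p r), c ∈ Gc M (cfg M σ) p N r (k + 2) → χ' c = 1)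
    (g3 : ∀ c ∈ KC M (cfg M σ) (g0 M σ p r), c ∈ Gc M (cfg M σ) p N r k → χ' c = 0)
    (gF : ∀ c, Free (AP M (cfg M σ) p N r k) c → χ' c = χ₀ c) {p₀ : D} {m : ℕ}
    (O : Oc M (cfg M σ) p N r k χ' p₀ m)
    (hj : ∀ c ∈ KC M (cfg M σ) (g0 M σ p r), c ∈ Gc M (cfg M σ) p N r k →
      Con M (cfg M χ') (M.cell (M.rho p₀)) c)
    (h1 : M.cell (M.rho (kA (coarse M π hπ) (cfg M χ₀) (rg M σ p r k))) ∈ Kc M (cfg M χ') p₀ m)
    (h2 : M.cell (kB (coarse M π hπ) (cfg M χ₀) (rg M σ p r k)) ∈ Kc M (cfg M χ') p₀ m)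
    {A : Type} [AddCommGroup A] (φ : D → A) :
    (∃ n, Jc M (cfg M χ') p₀ m (Wc M (cfg M σ) p)
      (kA (coarse M π hπ) (cfg M χ₀) (rg M σ p r k)) n) ∧
    ∑ h ∈ (blk (coarse M π hπ) (cfg M χ₀) (rg M σ p r k)).erase (rg M σ p r k), φ h =
      ∑ h ∈ blk M (cfg M χ') (kA (coarse M π hπ) (cfg M χ₀) (rg M σ p r k)), φ h -
        (pot M (cfg M χ') p₀ m φ
            (M.cell (M.rho (kA (coarse M π hπ) (cfg M χ₀) (rg M σ p r k)))) -
          pot M (cfg M χ') p₀ m φ (M.cell (kB (coarse M π hπ) (cfg M χ₀) (rg M σ p r k)))) := by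
  obtain ⟨n1, n2, n3, n4, n5, n6⟩ := z3q k
  obtain ⟨b0, b1, b2⟩ := root_mem X k
  have G := X.gi k
  have T := net2 X Q hc g1 g2 g3 gF
  have R2 : M.cell (M.rho (M.rho (rg M σ p r k))) ∈ AP M (cfg M σ) p N r k k := by
    rw [ap_self]; exact Or.inr b2
  have kl : ∀ c ∈ KC M (cfg M σ) (g0 M σ p r), c ∈ Lf M (cfg M σ) p := by
    rintro c ⟨h, h1, h2, rfl⟩
    obtain ⟨d, hd, e⟩ := R5bx166.loop_mem (loop_of X.L) X.L.pos (g0_gp X) h1 (a := r 0)
      (gp_p (r 0)) h2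
    exact ⟨d, by rw [e]⟩
  refine T.sum O.oa ?_ ?_ h1 h2 ?_ φ
  · rintro c ⟨a, ha, rfl⟩
    rcases O.left a ha with h | h
    · exact Or.inr (Q.eq (i := k + 1) (gc_ap h) (gc_ap b1))
    · exact Or.inl (Q.eq (i := k + 2) (gc_ap h) (gc_ap b0))
  · intro c hc'
    refine ⟨Q.eq (i := k) ?_ R2, fun h => hc'.1 (kl c h)⟩
    rw [ap_self]; exact Or.inr hc'
  · intro c hcK e
    refine hj c hcK ?_
    have := Q.mem G R2 e
    rw [ap_self] at this
    rcases this with h | h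
    · exact h
    · exact absurd (kl c hcK) h.1

end ring

end Crest.Agent.R143.Exc4x790
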