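import Crest.Agent.R143.Jun_43

/-!
# Row 143 (S0194), block H, H5 (J): three forward junctions (helper565)

Repair of the closing junction: the start `p` of the ring loop is inside the third arc, the marks
`T₁ < T₂ < T₃` are all after `p`, `Q` = cells read to decide `p` (never inverted).
* `Ov T = Q ∪ Tch T` : the cells revealed up to the time `T`
* inverted cells: pattern `1` : `Ov T₂ \ Ov T₁`, pattern `2` : `Ov T₃ \ Ov T₂`, pattern `0` (the arc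
  which contains `p`) : the complement of `Ov T₃ \ Ov T₁` (= `Ov T₃ \ Ov T₁` up to the global
  inversion)
* outer arcs (times): pattern `0` : `[a₁, T₃]`, pattern `1` : `[a₂, N + T₁]`, pattern `2` :
  `[a₃, N + T₂]`
* `Ring3.two` : **at least two of the three patterns are joined**, for every colouring
* `Ring3.arc`, `Ring3.oa` : the outer arcs have the same states in the inverted colouring
-/

set_option autoImplicit false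
set_option linter.unusedSectionVars false

noncomputable section

open scoped Classical

namespace Crest.Agent.R143.Jun3x565

open Crest.Agent.R143.Frame1x395 Crest.Agent.R143.Frame2x395 Crest.Agent.R143.Frame3x395
  Crest.Agent.R143.Frame8x395 Crest.Agent.R143.Frame9x395 Crest.Agent.R143.Frame11x395
  Crest.Agent.R143.NonXx592 Crest.Agent.R143.Chordx355 Crest.Agent.R143.ChordCx357
  Crest.Agent.R143.Chord2x355 Crest.Agent.R143.Junx43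

variable {D C : Type} {M : CMap D C}

/-- the cells revealed up to the time `T` -/
def Ov (M : CMap D C) (x : D → ZMod 2) (p : D) (Q : Set C) (T : ℕ) : Set C := Q ∪ Tch M x p T

theorem Ov.mono {x : D → ZMod 2} {p : D} {Q : Set C} {T T' : ℕ} (h : T ≤ T') {c : C}
    (hc : c ∈ Ov M x p Q T) : c ∈ Ov M x p Q T' := by
  rcases hc with hc | hc
  · exact Or.inl hc
  · exact Or.inr (Tch.mono h hc)

/-- the inverted cells of the pattern `j` -/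
def Fs (M : CMap D C) (x : D → ZMod 2) (p : D) (Q : Set C) (T₁ T₂ T₃ : ℕ) (j : Fin 3) : Set C :=
  if j = 0 then (Ov M x p Q T₃ \ Ov M x p Q T₁)ᶜ
  else if j = 1 then Ov M x p Q T₂ \ Ov M x p Q T₁ else Ov M x p Q T₃ \ Ov M x p Q T₂

/-- start of the outer arc of the pattern `j` -/
def ast3 (a₁ a₂ a₃ : ℕ) (j : Fin 3) : ℕ := if j = 0 then a₁ else if j = 1 then a₂ else a₃

/-- number of steps of the outer arc of the pattern `j` -/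
def aln3 (T₁ T₂ T₃ a₁ a₂ a₃ N : ℕ) (j : Fin 3) : ℕ :=
  if j = 0 then T₃ - a₁ else if j = 1 then N + T₁ - a₂ else N + T₂ - a₃

/-- `χ'` is `χ` with the touched cells in `Fs j` inverted -/
def Fl3 (M : CMap D C) (χ : C → ZMod 2) (p : D) (Q : Set C) (T₁ T₂ T₃ : ℕ) (j : Fin 3)
    (χ' : C → ZMod 2) : Prop :=
  ∀ u, (χ' (lc M (cfg M χ) p u) = χ (lc M (cfg M χ) p u) +
      if lc M (cfg M χ) p u ∈ Fs M (cfg M χ) p Q T₁ T₂ T₃ j then 1 else 0) ∧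
    (χ' (rc M (cfg M χ) p u) = χ (rc M (cfg M χ) p u) +
      if rc M (cfg M χ) p u ∈ Fs M (cfg M χ) p Q T₁ T₂ T₃ j then 1 else 0)

/-- the marked ring loop, `p` inside the third arc, with the gap times `S` of one block -/
structure Ring3 (M : CMap D C) (χ : C → ZMod 2) (p : D) (N T₁ T₂ T₃ a₁ a₂ a₃ : ℕ) (S : Set ℕ)
    (Q : Set C) : Prop where
  lp : Lp M (cfg M χ) p N
  sN : ∀ s ∈ S, s < N
  sep : ∀ s ∈ S, ∀ s' ∈ S, s < s' → Sep (lc M (cfg M χ) p) N s s'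
  prv : ∀ s ∈ S, ∃ s' ∈ S, lc M (cfg M χ) p (s' + 1) = lc M (cfg M χ) p s
  e0 : ∃ s ∈ S, s < T₁
  e1 : ∃ s ∈ S, T₁ ≤ s ∧ s < T₂
  e2 : ∃ s ∈ S, T₂ ≤ s ∧ s < T₃
  e3 : ∃ s ∈ S, T₃ ≤ s
  h1 : T₁ ≤ a₁
  h2 : a₁ ≤ T₂
  h3 : T₂ ≤ a₂
  h4 : a₂ ≤ T₃
  h5 : T₃ ≤ a₃
  h6 : a₃ ≤ N
  oq : ∀ n, T₁ ≤ n → n ≤ T₃ → lc M (cfg M χ) p n ∉ Q ∧ rc M (cfg M χ) p n ∉ Q
  o1 : ∀ n, a₁ ≤ n → n ≤ T₃ → lc M (cfg M χ) p n ∉ Tch M (cfg M χ) p T₁ ∧
    rc M (cfg M χ) p n ∉ Tch M (cfg M χ) p T₁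
  o2 : ∀ n, a₂ ≤ n → n < N →
    lc M (cfg M χ) p n ∉ Ov M (cfg M χ) p Q T₂ \ Ov M (cfg M χ) p Q T₁ ∧
    rc M (cfg M χ) p n ∉ Ov M (cfg M χ) p Q T₂ \ Ov M (cfg M χ) p Q T₁
  o3 : ∀ n, a₃ ≤ n → n < N →
    lc M (cfg M χ) p n ∉ Ov M (cfg M χ) p Q T₃ \ Ov M (cfg M χ) p Q T₂ ∧
    rc M (cfg M χ) p n ∉ Ov M (cfg M χ) p Q T₃ \ Ov M (cfg M χ) p Q T₂

section ring

variable [Fintype D] {χ χ' : C → ZMod 2} {p : D} {N T₁ T₂ T₃ a₁ a₂ a₃ : ℕ} {S : Set ℕ}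
  {Q : Set C}

/-- **the link**: a chain of left cells and a chain of right cells of one colour, and a state whose
two cells are in the two chains -/
theorem link (hp : cfg M χ p = 1) {a : ZMod 2} {l0 l1 r0 r1 : ℕ}
    (hl : ∀ v, l0 ≤ v → v ≤ l1 → χ' (lc M (cfg M χ) p v) = a)
    (hr : ∀ v, r0 ≤ v → v ≤ r1 → χ' (rc M (cfg M χ) p v) = a) {t w u : ℕ}
    (hw : l0 ≤ w) (hw' : w ≤ l1) (ew : lc M (cfg M χ) p w = lc M (cfg M χ) p t)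
    (hu : r0 ≤ u) (hu' : u ≤ r1) (eu : rc M (cfg M χ) p u = rc M (cfg M χ) p t)
    {m r : ℕ} (hm : l0 ≤ m) (hm' : m ≤ l1) (hr0 : r0 ≤ r) (hr1 : r ≤ r1) :
    Con M (cfg M χ') (rc M (cfg M χ) p r) (lc M (cfg M χ) p m) := by
  refine con_trans (con_r' hp hr hr0 hr1 hu hu') ?_
  rw [eu]
  refine con_trans (con_symm (con_lr t ?_)) ?_
  · rw [← ew, ← eu, hl w hw hw', hr u hu hu']
  · rw [← ew]
    exact con_l' hp hl hw hw' hm hm'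

/-- `Sep` with `v ≤ N` -/
theorem Ring3.sep' (R : Ring3 M χ p N T₁ T₂ T₃ a₁ a₂ a₃ S Q) {s s' : ℕ} (hs : s ∈ S)
    (hs' : s' ∈ S) (h : s < s') {u v : ℕ} (h1 : s < u) (h2 : u ≤ s') (hv : v ≤ N)
    (h3 : v ≤ s ∨ s' < v) : lc M (cfg M χ) p u ≠ lc M (cfg M χ) p v := by
  rcases Nat.lt_or_ge v N with h4 | h4
  · exact R.sep s hs s' hs' h u h1 h2 v h4 h3
  · have : v = N + 0 := by omega
    rw [this, lc_per R.lp]
    exact R.sep s hs s' hs' h u h1 h2 0 R.lp.pos (Or.inl (Nat.zero_le _))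

/-- the previous gap of the first gap after a mark is before the mark -/
theorem Ring3.old (R : Ring3 M χ p N T₁ T₂ T₃ a₁ a₂ a₃ S Q) {T s₀ s : ℕ} (h0 : s₀ ∈ S)
    (h0T : s₀ < T) (hs : s ∈ S) (hT : T ≤ s) (hmin : ∀ s' ∈ S, T ≤ s' → s ≤ s') :
    ∃ s' ∈ S, s' < T ∧ s₀ ≤ s' ∧ lc M (cfg M χ) p (s' + 1) = lc M (cfg M χ) p s := by
  obtain ⟨s', hs', e⟩ := R.prv s hs
  refine ⟨s', hs', ?_, ?_, e⟩
  · by_contra hc
    have h2 := hmin s' hs' (by omega)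
    have h3 := R.sN s' hs'
    exact R.sep' h0 hs (by omega) (u := s) (v := s' + 1) (by omega) le_rfl (by omega)
      (Or.inr (by omega)) e.symm
  · by_contra hc
    exact R.sep' h0 hs (by omega) (u := s) (v := s' + 1) (by omega) le_rfl
      (by have := R.sN _ h0; omega) (Or.inl (by omega)) e.symm

/-- the left cells between two gaps of the block after a mark are new -/
theorem Ring3.new (R : Ring3 M χ p N T₁ T₂ T₃ a₁ a₂ a₃ S Q) {T s s' m : ℕ} (hs : s ∈ S)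
    (hT : T ≤ s) (hs' : s' ∈ S) (h1 : s < m) (h2 : m ≤ s') :
    lc M (cfg M χ) p m ∉ Tch M (cfg M χ) p T := by
  intro hc
  obtain ⟨v, hv, e⟩ := Tch.of_l R.lp.occ hc
  have h3 := R.sN s' hs'
  exact R.sep' hs hs' (by omega) h1 h2 (by omega) (Or.inl (by omega)) e.symm

/-- the right cell does not change at a gap -/
theorem Ring3.gap (R : Ring3 M χ p N T₁ T₂ T₃ a₁ a₂ a₃ S Q) {s s' : ℕ} (hs : s ∈ S)
    (hs' : s' ∈ S) (h : s < s') : rc M (cfg M χ) p (s + 1) = rc M (cfg M χ) p s := by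
  rcases step R.lp.ev R.lp.occ s with ⟨-, -, e⟩ | ⟨-, -, e⟩
  · exact e
  · exact absurd e (R.sep' hs hs' h (u := s + 1) (v := s) (by omega) (by omega) (R.sN _ hs).le
      (Or.inl le_rfl))

/-- the cells of the block in the class between two marks are touched after the first gap -/
theorem Ring3.kc (R : Ring3 M χ p N T₁ T₂ T₃ a₁ a₂ a₃ S Q) {T T' s₀ s₁ : ℕ} (h0 : s₀ ∈ S)
    (h0T : s₀ < T) (hs₁ : s₁ ∈ S) (hT₁ : T ≤ s₁) (hmin : ∀ s' ∈ S, T ≤ s' → s₁ ≤ s') {s : ℕ}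
    (hs : s ∈ S)
    (h : lc M (cfg M χ) p s ∈ Ov M (cfg M χ) p Q T' \ Ov M (cfg M χ) p Q T) :
    ∃ m, s₁ < m ∧ m ≤ T' ∧ lc M (cfg M χ) p m = lc M (cfg M χ) p s := by
  have h' : lc M (cfg M χ) p s ∈ Tch M (cfg M χ) p T' := by
    rcases h.1 with h2 | h2
    · exact absurd (Or.inl h2) h.2
    · exact h2
  obtain ⟨u, hu, e⟩ := Tch.of_l R.lp.occ h'
  have hu1 : T < u := by
    by_contra hc
    apply h.2
    rw [← e]
    exact Or.inr (Tch.l (by omega))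
  rcases Nat.lt_or_ge s₁ u with h1 | h1
  · exact ⟨u, h1, hu, e⟩
  · exfalso
    obtain ⟨s', hs', e'⟩ := R.prv s hs
    have h2 : T ≤ s' := by
      by_contra hc
      apply h.2
      rw [← e']
      exact Or.inr (Tch.l (by omega))
    have h3 := hmin s' hs' h2
    have h5 := R.sN s' hs'
    refine R.sep' h0 hs₁ (by omega) (u := u) (v := s' + 1) (by omega) h1 (by omega)
      (Or.inr (by omega)) ?_
    rw [e, e']

/-! ### inverted / not inverted cells -/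

theorem fl_on_l {j : Fin 3} (F : Fl3 M χ p Q T₁ T₂ T₃ j χ') {u : ℕ}
    (h : lc M (cfg M χ) p u ∈ Fs M (cfg M χ) p Q T₁ T₂ T₃ j) :
    χ' (lc M (cfg M χ) p u) = χ (lc M (cfg M χ) p u) + 1 := by
  rw [(F u).1, if_pos h]

theorem fl_off_l {j : Fin 3} (F : Fl3 M χ p Q T₁ T₂ T₃ j χ') {u : ℕ}
    (h : lc M (cfg M χ) p u ∉ Fs M (cfg M χ) p Q T₁ T₂ T₃ j) :
    χ' (lc M (cfg M χ) p u) = χ (lc M (cfg M χ) p u) := by
  rw [(F u).1, if_neg h, add_zero]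

theorem fl_off_r {j : Fin 3} (F : Fl3 M χ p Q T₁ T₂ T₃ j χ') {u : ℕ}
    (h : rc M (cfg M χ) p u ∉ Fs M (cfg M χ) p Q T₁ T₂ T₃ j) :
    χ' (rc M (cfg M χ) p u) = χ (rc M (cfg M χ) p u) := by
  rw [(F u).2, if_neg h, add_zero]

/-- the pattern `j` is joined -/
def Jd3 (M : CMap D C) (χ : C → ZMod 2) (p : D) (T₁ T₂ T₃ a₁ a₂ a₃ : ℕ) (S : Set ℕ) (Q : Set C)
    (j : Fin 3) (χ' : C → ZMod 2) : Prop :=
  ∀ s ∈ S, lc M (cfg M χ) p s ∈ Fs M (cfg M χ) p Q T₁ T₂ T₃ j →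
    Con M (cfg M χ') (rc M (cfg M χ) p (ast3 a₁ a₂ a₃ j)) (lc M (cfg M χ) p s)

/-- case A at the first mark -/
def PA1 (M : CMap D C) (χ : C → ZMod 2) (p : D) (T₁ T₂ : ℕ) (S : Set ℕ) : Prop :=
  ∃ s ∈ S, T₁ ≤ s ∧ ∃ n, s < n ∧ n ≤ T₂ ∧ rc M (cfg M χ) p n ∈ Tch M (cfg M χ) p T₁

/-- case A at the third mark -/
def PA3 (M : CMap D C) (χ : C → ZMod 2) (p : D) (N T₂ T₃ : ℕ) (S : Set ℕ) (Q : Set C) : Prop :=
  ∃ s ∈ S, T₃ ≤ s ∧ ∃ n, s < n ∧ n ≤ N ∧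
    rc M (cfg M χ) p n ∈ Ov M (cfg M χ) p Q T₃ \ Ov M (cfg M χ) p Q T₂

/-- the first gaps after the marks -/
structure Gaps (S : Set ℕ) (N T₁ T₂ T₃ s₀ s₁ s₂ s₃ : ℕ) : Prop where
  m0 : s₀ ∈ S
  m1 : s₁ ∈ S
  m2 : s₂ ∈ S
  m3 : s₃ ∈ S
  t0 : s₀ < T₁
  t1 : T₁ ≤ s₁
  u1 : s₁ < T₂
  t2 : T₂ ≤ s₂
  u2 : s₂ < T₃
  t3 : T₃ ≤ s₃
  u3 : s₃ < N
  f1 : ∀ s' ∈ S, T₁ ≤ s' → s₁ ≤ s'
  f2 : ∀ s' ∈ S, T₂ ≤ s' → s₂ ≤ s'
  f3 : ∀ s' ∈ S, T₃ ≤ s' → s₃ ≤ s'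

theorem Ring3.gaps (R : Ring3 M χ p N T₁ T₂ T₃ a₁ a₂ a₃ S Q) :
    ∃ s₀ s₁ s₂ s₃, Gaps S N T₁ T₂ T₃ s₀ s₁ s₂ s₃ := by
  obtain ⟨s₀, h0, h0T⟩ := R.e0
  obtain ⟨s₁, hs₁, hT₁, hm₁⟩ := first (T := T₁) (S := S)
    (by obtain ⟨s, h1, h2, -⟩ := R.e1; exact ⟨s, h1, h2⟩)
  obtain ⟨s₂, hs₂, hT₂, hm₂⟩ := first (T := T₂) (S := S)
    (by obtain ⟨s, h1, h2, -⟩ := R.e2; exact ⟨s, h1, h2⟩)
  obtain ⟨s₃, hs₃, hT₃, hm₃⟩ := first (T := T₃) (S := S) R.e3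
  refine ⟨s₀, s₁, s₂, s₃, h0, hs₁, hs₂, hs₃, h0T, hT₁, ?_, hT₂, ?_, hT₃, R.sN _ hs₃, hm₁, hm₂,
    hm₃⟩
  · obtain ⟨s, h1, h2, h3⟩ := R.e1
    have := hm₁ s h1 h2
    omega
  · obtain ⟨s, h1, h2, h3⟩ := R.e2
    have := hm₂ s h1 h2
    omega

section cases

variable {s₀ s₁ s₂ s₃ : ℕ}

/-- left cells of the class between the first and the second mark -/
theorem Ring3.l1 (R : Ring3 M χ p N T₁ T₂ T₃ a₁ a₂ a₃ S Q) (G : Gaps S N T₁ T₂ T₃ s₀ s₁ s₂ s₃)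
    (F : Fl3 M χ p Q T₁ T₂ T₃ 1 χ') :
    ∀ v, s₁ + 1 ≤ v → v ≤ T₂ → χ' (lc M (cfg M χ) p v) = χ (M.cell p) + 1 := by
  intro v h1 h2
  have g1 := G.t1; have g2 := G.t2; have g3 := G.u2
  rw [fl_on_l F, col_l R.lp.occ]
  show lc M (cfg M χ) p v ∈ Ov M (cfg M χ) p Q T₂ \ Ov M (cfg M χ) p Q T₁
  refine ⟨Or.inr (Tch.l h2), ?_⟩
  rintro (h | h)
  · exact (R.oq v (by omega) (by omega)).1 h
  · exact R.new G.m1 G.t1 G.m2 (m := v) (by omega) (by omega) h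

theorem Ring3.l2 (R : Ring3 M χ p N T₁ T₂ T₃ a₁ a₂ a₃ S Q) (G : Gaps S N T₁ T₂ T₃ s₀ s₁ s₂ s₃)
    (F : Fl3 M χ p Q T₁ T₂ T₃ 2 χ') :
    ∀ v, s₂ + 1 ≤ v → v ≤ T₃ → χ' (lc M (cfg M χ) p v) = χ (M.cell p) + 1 := by
  intro v h1 h2
  have g1 := G.t1; have g2 := G.t2; have g3 := G.u1; have g4 := G.t3
  rw [fl_on_l F, col_l R.lp.occ]
  show lc M (cfg M χ) p v ∈ Ov M (cfg M χ) p Q T₃ \ Ov M (cfg M χ) p Q T₂
  refine ⟨Or.inr (Tch.l h2), ?_⟩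
  rintro (h | h)
  · exact (R.oq v (by omega) (by omega)).1 h
  · exact R.new G.m2 G.t2 G.m3 (m := v) (by omega) (by omega) h

/-- the third arc (which contains the start) -/
theorem Ring3.l0 (R : Ring3 M χ p N T₁ T₂ T₃ a₁ a₂ a₃ S Q) (G : Gaps S N T₁ T₂ T₃ s₀ s₁ s₂ s₃)
    (F : Fl3 M χ p Q T₁ T₂ T₃ 0 χ') :
    ∀ v, s₃ + 1 ≤ v → v ≤ N + T₁ → χ' (lc M (cfg M χ) p v) = χ (M.cell p) + 1 := by
  intro v h1 h2
  have g0 := G.t0; have g1 := G.t1; have g2 := G.t2; have g3 := G.u1; have g4 := G.t3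
  have g5 := G.u2; have g6 := G.u3
  rw [fl_on_l F, col_l R.lp.occ]
  show lc M (cfg M χ) p v ∈ (Ov M (cfg M χ) p Q T₃ \ Ov M (cfg M χ) p Q T₁)ᶜ
  rintro ⟨h3, h4⟩
  rcases Nat.lt_or_ge v N with h5 | h5
  · have h6 : lc M (cfg M χ) p v ∈ Tch M (cfg M χ) p T₃ := by
      rcases h3 with h | h
      · exact absurd (Or.inl h) h4
      · exact h
    obtain ⟨u, hu, e⟩ := Tch.of_l R.lp.occ h6
    have hu1 : T₁ < u := by
      by_contra hc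
      apply h4
      rw [← e]
      exact Or.inr (Tch.l (by omega))
    rcases Nat.lt_or_ge s₁ u with h7 | h7
    · exact R.sep' G.m1 G.m3 (by omega) (u := u) (v := v) h7 (by omega) (by omega)
        (Or.inr (by omega)) e
    · exact R.sep' G.m0 G.m1 (by omega) (u := u) (v := v) (by omega) h7 (by omega)
        (Or.inr (by omega)) e
  · obtain ⟨w, rfl⟩ := Nat.exists_eq_add_of_le h5
    rw [lc_per R.lp] at h4
    exact h4 (Or.inr (Tch.l (by omega)))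

/-- the cells of the block in the third arc -/
theorem Ring3.kc0 (R : Ring3 M χ p N T₁ T₂ T₃ a₁ a₂ a₃ S Q) (G : Gaps S N T₁ T₂ T₃ s₀ s₁ s₂ s₃)
    {s : ℕ} (hs : s ∈ S)
    (h : lc M (cfg M χ) p s ∈ Fs M (cfg M χ) p Q T₁ T₂ T₃ 0) :
    ∃ m, s₃ + 1 ≤ m ∧ m ≤ N + T₁ ∧ lc M (cfg M χ) p m = lc M (cfg M χ) p s := by
  have g0 := G.t0; have g1 := G.t1; have g2 := G.t2; have g3 := G.u1; have g4 := G.t3
  have g5 := G.u2; have g6 := G.u3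
  have h' : lc M (cfg M χ) p s ∈ (Ov M (cfg M χ) p Q T₃ \ Ov M (cfg M χ) p Q T₁)ᶜ := h
  have hsN := R.sN s hs
  rcases Nat.lt_or_ge s₃ s with h1 | h1
  · exact ⟨s, h1, by omega, rfl⟩
  rcases Nat.lt_or_ge T₁ s with h2 | h2
  · -- `lc s` is touched at a time in `(T₁, T₃]`
    have h3 : ∃ v, T₁ ≤ v ∧ v ≤ T₃ ∧ lc M (cfg M χ) p v = lc M (cfg M χ) p s := by
      rcases Nat.lt_or_ge T₃ s with h4 | h4
      · have h5 : s = s₃ := le_antisymm h1 (G.f3 s hs (by omega))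
        subst h5
        obtain ⟨s', -, h6, h7, h8⟩ := R.old G.m2 G.u2 G.m3 G.t3 G.f3
        exact ⟨s' + 1, by omega, by omega, h8⟩
      · exact ⟨s, by omega, h4, rfl⟩
    obtain ⟨v, hv1, hv2, ev⟩ := h3
    have h4 : lc M (cfg M χ) p s ∈ Ov M (cfg M χ) p Q T₁ := by
      by_contra hc
      refine h' ⟨?_, hc⟩
      rw [← ev]
      exact Or.inr (Tch.l hv2)
    rcases h4 with h5 | h5
    · rw [← ev] at h5
      exact absurd h5 (R.oq v hv1 hv2).1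
    · obtain ⟨w, hw, ew⟩ := Tch.of_l R.lp.occ h5
      exact ⟨N + w, by omega, by omega, by rw [lc_per R.lp, ew]⟩
  · exact ⟨N + s, by omega, by omega, lc_per R.lp s⟩

/-- **case A at the first mark: the pattern 1 is joined** -/
theorem Ring3.join1a (R : Ring3 M χ p N T₁ T₂ T₃ a₁ a₂ a₃ S Q)
    (F : Fl3 M χ p Q T₁ T₂ T₃ 1 χ') (H : PA1 M χ p T₁ T₂ S) :
    Jd3 M χ p T₁ T₂ T₃ a₁ a₂ a₃ S Q 1 χ' := by
  obtain ⟨s₀, s₁, s₂, s₃, G⟩ := R.gaps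
  have hp := R.lp.occ
  obtain ⟨s', hs', hT', n, hn1, hn2, hn3⟩ := H
  have hn : s₁ < n := lt_of_le_of_lt (G.f1 s' hs' hT') hn1
  obtain ⟨u, hu, eu⟩ := Tch.of_r hp hn3
  have haN : a₂ ≤ N := by have := R.h4; have := R.h5; have := R.h6; omega
  intro s hs hsD
  obtain ⟨m, hm1, hm2, em⟩ := R.kc G.m0 G.t0 G.m1 G.t1 G.f1 hs hsD
  rw [← em]
  show Con M (cfg M χ') (rc M (cfg M χ) p a₂) _
  refine link hp (R.l1 G F) (r0 := a₂) (r1 := N + T₁) ?_ (t := n) (w := n) (u := N + u)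
    (by omega) hn2 rfl (by omega) (by omega) (by rw [rc_per R.lp, eu]) (by omega) hm2 le_rfl
    (by omega)
  intro v hv1 hv2
  rw [fl_off_r F, col_r hp]
  show rc M (cfg M χ) p v ∉ Ov M (cfg M χ) p Q T₂ \ Ov M (cfg M χ) p Q T₁
  rcases Nat.lt_or_ge v N with h2 | h2
  · exact (R.o2 v hv1 h2).2
  · obtain ⟨w, rfl⟩ := Nat.exists_eq_add_of_le h2
    rw [rc_per R.lp]
    exact fun h => h.2 (Or.inr (Tch.r (by omega)))

/-- **case B at the first mark: the pattern 0 is joined** -/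
theorem Ring3.join0b (R : Ring3 M χ p N T₁ T₂ T₃ a₁ a₂ a₃ S Q)
    (F : Fl3 M χ p Q T₁ T₂ T₃ 0 χ') (H : ¬ PA1 M χ p T₁ T₂ S) :
    Jd3 M χ p T₁ T₂ T₃ a₁ a₂ a₃ S Q 0 χ' := by
  obtain ⟨s₀, s₁, s₂, s₃, G⟩ := R.gaps
  have hp := R.lp.occ
  have g0 := G.t0; have g1 := G.t1; have g2 := G.t2; have g3 := G.u1; have g4 := G.t3
  have g5 := G.u2; have g6 := G.u3
  have c1 := R.h1; have c2 := R.h2; have c3 := R.h3; have c4 := R.h4
  obtain ⟨s', hs', hs'T, -, es'⟩ := R.old G.m0 G.t0 G.m1 G.t1 G.f1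
  intro s hs hsD
  obtain ⟨m, hm1, hm2, em⟩ := R.kc0 G hs hsD
  rw [← em]
  show Con M (cfg M χ') (rc M (cfg M χ) p a₁) _
  refine link hp (R.l0 G F) (r0 := min (s₁ + 1) a₁) (r1 := T₃) ?_ (t := s₁)
    (w := N + (s' + 1)) (u := s₁ + 1) (by omega) (by omega) (by rw [lc_per R.lp, es'])
    (by omega) (by omega) (R.gap G.m1 G.m2 (by omega)) hm1 hm2 (by omega) (by omega)
  intro v hv1 hv2
  rw [fl_off_r F, col_r hp]
  intro hc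
  have hc' : rc M (cfg M χ) p v ∈ (Ov M (cfg M χ) p Q T₃ \ Ov M (cfg M χ) p Q T₁)ᶜ := hc
  refine hc' ⟨Or.inr (Tch.r hv2), ?_⟩
  rintro (h | h)
  · exact (R.oq v (by omega) hv2).2 h
  · rcases Nat.lt_or_ge v a₁ with h1 | h1
    · exact H ⟨s₁, G.m1, G.t1, v, by omega, by omega, h⟩
    · exact (R.o1 v h1 hv2).2 h

/-- **case A at the second mark: the pattern 2 is joined** -/
theorem Ring3.join2a (R : Ring3 M χ p N T₁ T₂ T₃ a₁ a₂ a₃ S Q)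
    (F : Fl3 M χ p Q T₁ T₂ T₃ 2 χ') (H : PA1 M χ p T₂ T₃ S) :
    Jd3 M χ p T₁ T₂ T₃ a₁ a₂ a₃ S Q 2 χ' := by
  obtain ⟨s₀, s₁, s₂, s₃, G⟩ := R.gaps
  have hp := R.lp.occ
  obtain ⟨s', hs', hT', n, hn1, hn2, hn3⟩ := H
  have hn : s₂ < n := lt_of_le_of_lt (G.f2 s' hs' hT') hn1
  obtain ⟨u, hu, eu⟩ := Tch.of_r hp hn3
  have haN := R.h6
  intro s hs hsD
  obtain ⟨m, hm1, hm2, em⟩ := R.kc G.m1 G.u1 G.m2 G.t2 G.f2 hs hsD
  rw [← em]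
  show Con M (cfg M χ') (rc M (cfg M χ) p a₃) _
  refine link hp (R.l2 G F) (r0 := a₃) (r1 := N + T₂) ?_ (t := n) (w := n) (u := N + u)
    (by omega) hn2 rfl (by omega) (by omega) (by rw [rc_per R.lp, eu]) (by omega) hm2 le_rfl
    (by omega)
  intro v hv1 hv2
  rw [fl_off_r F, col_r hp]
  show rc M (cfg M χ) p v ∉ Ov M (cfg M χ) p Q T₃ \ Ov M (cfg M χ) p Q T₂
  rcases Nat.lt_or_ge v N with h2 | h2
  · exact (R.o3 v hv1 h2).2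
  · obtain ⟨w, rfl⟩ := Nat.exists_eq_add_of_le h2
    rw [rc_per R.lp]
    exact fun h => h.2 (Or.inr (Tch.r (by omega)))

/-- **case B at the second mark: the pattern 1 is joined** -/
theorem Ring3.join1b (R : Ring3 M χ p N T₁ T₂ T₃ a₁ a₂ a₃ S Q)
    (F : Fl3 M χ p Q T₁ T₂ T₃ 1 χ') (H : ¬ PA1 M χ p T₂ T₃ S) :
    Jd3 M χ p T₁ T₂ T₃ a₁ a₂ a₃ S Q 1 χ' := by
  obtain ⟨s₀, s₁, s₂, s₃, G⟩ := R.gaps
  have hp := R.lp.occ
  have g0 := G.t0; have g1 := G.t1; have g2 := G.t2; have g3 := G.u1; have g4 := G.t3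
  have g5 := G.u2; have g6 := G.u3
  have c1 := R.h1; have c2 := R.h2; have c3 := R.h3; have c4 := R.h4; have c5 := R.h5
  have c6 := R.h6
  obtain ⟨s', hs', hs'T, hs's, es'⟩ := R.old G.m1 G.u1 G.m2 G.t2 G.f2
  intro s hs hsD
  obtain ⟨m, hm1, hm2, em⟩ := R.kc G.m0 G.t0 G.m1 G.t1 G.f1 hs hsD
  rw [← em]
  show Con M (cfg M χ') (rc M (cfg M χ) p a₂) _
  refine link hp (R.l1 G F) (r0 := min (s₂ + 1) a₂) (r1 := N + T₁) ?_ (t := s₂)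
    (w := s' + 1) (u := s₂ + 1) (by omega) (by omega) es'
    (by omega) (by omega) (R.gap G.m2 G.m3 (by omega)) (by omega) hm2 (by omega) (by omega)
  intro v hv1 hv2
  rw [fl_off_r F, col_r hp]
  show rc M (cfg M χ) p v ∉ Ov M (cfg M χ) p Q T₂ \ Ov M (cfg M χ) p Q T₁
  rcases Nat.lt_or_ge v a₂ with h1 | h1
  · rintro ⟨h | h, h'⟩
    · exact h' (Or.inl h)
    · exact H ⟨s₂, G.m2, G.t2, v, by omega, by omega, h⟩
  rcases Nat.lt_or_ge v N with h2 | h2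
  · exact (R.o2 v h1 h2).2
  · obtain ⟨w, rfl⟩ := Nat.exists_eq_add_of_le h2
    rw [rc_per R.lp]
    exact fun h => h.2 (Or.inr (Tch.r (by omega)))

/-- **case A at the third mark: the pattern 0 is joined** -/
theorem Ring3.join0a (R : Ring3 M χ p N T₁ T₂ T₃ a₁ a₂ a₃ S Q)
    (F : Fl3 M χ p Q T₁ T₂ T₃ 0 χ') (H : PA3 M χ p N T₂ T₃ S Q) :
    Jd3 M χ p T₁ T₂ T₃ a₁ a₂ a₃ S Q 0 χ' := by
  obtain ⟨s₀, s₁, s₂, s₃, G⟩ := R.gaps
  have hp := R.lp.occ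
  have g0 := G.t0; have g1 := G.t1; have g2 := G.t2; have g3 := G.u1; have g4 := G.t3
  have g5 := G.u2; have g6 := G.u3
  have c1 := R.h1; have c2 := R.h2; have c3 := R.h3; have c4 := R.h4
  obtain ⟨s', hs', hT', n, hn1, hn2, hn3⟩ := H
  have hn : s₃ < n := lt_of_le_of_lt (G.f3 s' hs' hT') hn1
  have hn4 : rc M (cfg M χ) p n ∈ Tch M (cfg M χ) p T₃ := by
    rcases hn3.1 with h | h
    · exact absurd (Or.inl h) hn3.2
    · exact h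
  obtain ⟨u, hu, eu⟩ := Tch.of_r hp hn4
  have hu2 : T₂ < u := by
    by_contra hc
    apply hn3.2
    rw [← eu]
    exact Or.inr (Tch.r (by omega))
  intro s hs hsD
  obtain ⟨m, hm1, hm2, em⟩ := R.kc0 G hs hsD
  rw [← em]
  show Con M (cfg M χ') (rc M (cfg M χ) p a₁) _
  refine link hp (R.l0 G F) (r0 := a₁) (r1 := T₃) ?_ (t := n) (w := n) (u := u)
    (by omega) (by omega) rfl (by omega) hu eu hm1 hm2 le_rfl (by omega)
  intro v hv1 hv2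
  rw [fl_off_r F, col_r hp]
  intro hc
  have hc' : rc M (cfg M χ) p v ∈ (Ov M (cfg M χ) p Q T₃ \ Ov M (cfg M χ) p Q T₁)ᶜ := hc
  refine hc' ⟨Or.inr (Tch.r hv2), ?_⟩
  rintro (h | h)
  · exact (R.oq v (by omega) hv2).2 h
  · exact (R.o1 v hv1 hv2).2 h

/-- **case B at the third mark: the pattern 2 is joined** -/
theorem Ring3.join2b (R : Ring3 M χ p N T₁ T₂ T₃ a₁ a₂ a₃ S Q)
    (F : Fl3 M χ p Q T₁ T₂ T₃ 2 χ') (H : ¬ PA3 M χ p N T₂ T₃ S Q) :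
    Jd3 M χ p T₁ T₂ T₃ a₁ a₂ a₃ S Q 2 χ' := by
  obtain ⟨s₀, s₁, s₂, s₃, G⟩ := R.gaps
  have hp := R.lp.occ
  have g0 := G.t0; have g1 := G.t1; have g2 := G.t2; have g3 := G.u1; have g4 := G.t3
  have g5 := G.u2; have g6 := G.u3
  have c1 := R.h1; have c2 := R.h2; have c3 := R.h3; have c4 := R.h4; have c5 := R.h5
  have c6 := R.h6
  obtain ⟨s', hs', hs'T, hs's, es'⟩ := R.old G.m2 G.u2 G.m3 G.t3 G.f3
  -- the right cell at the third gap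
  have e3 : rc M (cfg M χ) p (s₃ + 1) = rc M (cfg M χ) p s₃ := by
    rcases step R.lp.ev R.lp.occ s₃ with ⟨-, -, e⟩ | ⟨-, -, e⟩
    · exact e
    · exfalso
      exact R.sep' G.m2 G.m3 (by omega) (u := s₃) (v := s₃ + 1) (by omega) le_rfl (by omega)
        (Or.inr (by omega)) e.symm
  intro s hs hsD
  obtain ⟨m, hm1, hm2, em⟩ := R.kc G.m1 G.u1 G.m2 G.t2 G.f2 hs hsD
  rw [← em]
  show Con M (cfg M χ') (rc M (cfg M χ) p a₃) _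
  refine link hp (R.l2 G F) (r0 := min (s₃ + 1) a₃) (r1 := N + T₂) ?_ (t := s₃)
    (w := s' + 1) (u := s₃ + 1) (by omega) (by omega) es'
    (by omega) (by omega) e3 (by omega) hm2 (by omega) (by omega)
  intro v hv1 hv2
  rw [fl_off_r F, col_r hp]
  show rc M (cfg M χ) p v ∉ Ov M (cfg M χ) p Q T₃ \ Ov M (cfg M χ) p Q T₂
  rcases Nat.lt_or_ge v a₃ with h1 | h1
  · intro h
    exact H ⟨s₃, G.m3, G.t3, v, by omega, by omega, h⟩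
  rcases Nat.lt_or_ge v N with h2 | h2
  · exact (R.o3 v h1 h2).2
  · obtain ⟨w, rfl⟩ := Nat.exists_eq_add_of_le h2
    rw [rc_per R.lp]
    exact fun h => h.2 (Or.inr (Tch.r (by omega)))

end cases

/-- the patterns which are joined, decided by the loop: `PA1 T₁ T₂`, `PA1 T₂ T₃`, `PA3` -/
def Good (M : CMap D C) (χ : C → ZMod 2) (p : D) (N T₁ T₂ T₃ : ℕ) (S : Set ℕ) (Q : Set C)
    (j : Fin 3) : Prop :=
  if j = 0 then ¬ PA1 M χ p T₁ T₂ S ∨ PA3 M χ p N T₂ T₃ S Q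
  else if j = 1 then PA1 M χ p T₁ T₂ S ∨ ¬ PA1 M χ p T₂ T₃ S
  else PA1 M χ p T₂ T₃ S ∨ ¬ PA3 M χ p N T₂ T₃ S Q

theorem Ring3.join (R : Ring3 M χ p N T₁ T₂ T₃ a₁ a₂ a₃ S Q) {j : Fin 3}
    (H : Good M χ p N T₁ T₂ T₃ S Q j) (F : Fl3 M χ p Q T₁ T₂ T₃ j χ') :
    Jd3 M χ p T₁ T₂ T₃ a₁ a₂ a₃ S Q j χ' := by
  have h0 : j = 0 ∨ j = 1 ∨ j = 2 := by omega
  rcases h0 with rfl | rfl | rfl
  · have H' : ¬ PA1 M χ p T₁ T₂ S ∨ PA3 M χ p N T₂ T₃ S Q := H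
    rcases H' with h | h
    · exact R.join0b F h
    · exact R.join0a F h
  · have H' : PA1 M χ p T₁ T₂ S ∨ ¬ PA1 M χ p T₂ T₃ S := H
    rcases H' with h | h
    · exact R.join1a F h
    · exact R.join1b F h
  · have H' : PA1 M χ p T₂ T₃ S ∨ ¬ PA3 M χ p N T₂ T₃ S Q := H
    rcases H' with h | h
    · exact R.join2a F h
    · exact R.join2b F h

omit [Fintype D] in
theorem good_two : ∃ i : Fin 3, ∀ j, j ≠ i → Good M χ p N T₁ T₂ T₃ S Q j := by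
  have g0 : Good M χ p N T₁ T₂ T₃ S Q 0 ↔ (¬ PA1 M χ p T₁ T₂ S ∨ PA3 M χ p N T₂ T₃ S Q) := Iff.rfl
  have g1 : Good M χ p N T₁ T₂ T₃ S Q 1 ↔ (PA1 M χ p T₁ T₂ S ∨ ¬ PA1 M χ p T₂ T₃ S) := Iff.rfl
  have g2 : Good M χ p N T₁ T₂ T₃ S Q 2 ↔ (PA1 M χ p T₂ T₃ S ∨ ¬ PA3 M χ p N T₂ T₃ S Q) := Iff.rfl
  by_cases h1 : PA1 M χ p T₁ T₂ S
  · by_cases h2 : PA1 M χ p T₂ T₃ S
    · refine ⟨0, fun j hj => ?_⟩
      have : j = 1 ∨ j = 2 := by omega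
      rcases this with rfl | rfl
      · exact g1.2 (Or.inl h1)
      · exact g2.2 (Or.inl h2)
    · by_cases h3 : PA3 M χ p N T₂ T₃ S Q
      · refine ⟨2, fun j hj => ?_⟩
        have : j = 0 ∨ j = 1 := by omega
        rcases this with rfl | rfl
        · exact g0.2 (Or.inr h3)
        · exact g1.2 (Or.inl h1)
      · refine ⟨0, fun j hj => ?_⟩
        have : j = 1 ∨ j = 2 := by omega
        rcases this with rfl | rfl
        · exact g1.2 (Or.inl h1)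
        · exact g2.2 (Or.inr h3)
  · by_cases h2 : PA1 M χ p T₂ T₃ S
    · refine ⟨1, fun j hj => ?_⟩
      have : j = 0 ∨ j = 2 := by omega
      rcases this with rfl | rfl
      · exact g0.2 (Or.inl h1)
      · exact g2.2 (Or.inl h2)
    · refine ⟨2, fun j hj => ?_⟩
      have : j = 0 ∨ j = 1 := by omega
      rcases this with rfl | rfl
      · exact g0.2 (Or.inl h1)
      · exact g1.2 (Or.inr h2)

/-- **H5 (b): at least two of the three patterns are joined**, for every colouring -/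
theorem Ring3.two (R : Ring3 M χ p N T₁ T₂ T₃ a₁ a₂ a₃ S Q) :
    ∃ i : Fin 3, ∀ j, j ≠ i → ∀ χ', Fl3 M χ p Q T₁ T₂ T₃ j χ' →
      Jd3 M χ p T₁ T₂ T₃ a₁ a₂ a₃ S Q j χ' := by
  obtain ⟨i, hi⟩ := good_two (M := M) (χ := χ) (p := p) (N := N) (T₁ := T₁) (T₂ := T₂) (T₃ := T₃)
    (S := S) (Q := Q)
  exact ⟨i, fun j hj χ' F => R.join (hi j hj) F⟩

/-! ### the outer arcs -/

/-- the cells touched by the outer arc are not inverted -/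
theorem Ring3.arc_off (R : Ring3 M χ p N T₁ T₂ T₃ a₁ a₂ a₃ S Q) (j : Fin 3) {u : ℕ}
    (hu : u ≤ aln3 T₁ T₂ T₃ a₁ a₂ a₃ N j) :
    lc M (cfg M χ) p (ast3 a₁ a₂ a₃ j + u) ∉ Fs M (cfg M χ) p Q T₁ T₂ T₃ j ∧
      rc M (cfg M χ) p (ast3 a₁ a₂ a₃ j + u) ∉ Fs M (cfg M χ) p Q T₁ T₂ T₃ j := by
  have h0 : j = 0 ∨ j = 1 ∨ j = 2 := by omega
  have c1 := R.h1; have c2 := R.h2; have c3 := R.h3; have c4 := R.h4; have c5 := R.h5
  have c6 := R.h6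
  rcases h0 with rfl | rfl | rfl
  · have hu' : u ≤ T₃ - a₁ := hu
    show lc M (cfg M χ) p (a₁ + u) ∉ (Ov M (cfg M χ) p Q T₃ \ Ov M (cfg M χ) p Q T₁)ᶜ ∧
      rc M (cfg M χ) p (a₁ + u) ∉ (Ov M (cfg M χ) p Q T₃ \ Ov M (cfg M χ) p Q T₁)ᶜ
    obtain ⟨q1, q2⟩ := R.oq (a₁ + u) (by omega) (by omega)
    obtain ⟨q3, q4⟩ := R.o1 (a₁ + u) (by omega) (by omega)
    constructor
    · intro h
      refine h ⟨Or.inr (Tch.l (by omega)), ?_⟩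
      rintro (h' | h')
      · exact q1 h'
      · exact q3 h'
    · intro h
      refine h ⟨Or.inr (Tch.r (by omega)), ?_⟩
      rintro (h' | h')
      · exact q2 h'
      · exact q4 h'
  · have hu' : u ≤ N + T₁ - a₂ := hu
    show lc M (cfg M χ) p (a₂ + u) ∉ Ov M (cfg M χ) p Q T₂ \ Ov M (cfg M χ) p Q T₁ ∧
      rc M (cfg M χ) p (a₂ + u) ∉ Ov M (cfg M χ) p Q T₂ \ Ov M (cfg M χ) p Q T₁
    rcases Nat.lt_or_ge (a₂ + u) N with h2 | h2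
    · exact R.o2 (a₂ + u) (by omega) h2
    · obtain ⟨w, hw⟩ := Nat.exists_eq_add_of_le h2
      rw [hw, lc_per R.lp, rc_per R.lp]
      exact ⟨fun h => h.2 (Or.inr (Tch.l (by omega))), fun h => h.2 (Or.inr (Tch.r (by omega)))⟩
  · have hu' : u ≤ N + T₂ - a₃ := hu
    show lc M (cfg M χ) p (a₃ + u) ∉ Ov M (cfg M χ) p Q T₃ \ Ov M (cfg M χ) p Q T₂ ∧
      rc M (cfg M χ) p (a₃ + u) ∉ Ov M (cfg M χ) p Q T₃ \ Ov M (cfg M χ) p Q T₂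
    rcases Nat.lt_or_ge (a₃ + u) N with h2 | h2
    · exact R.o3 (a₃ + u) (by omega) h2
    · obtain ⟨w, hw⟩ := Nat.exists_eq_add_of_le h2
      rw [hw, lc_per R.lp, rc_per R.lp]
      exact ⟨fun h => h.2 (Or.inr (Tch.l (by omega))), fun h => h.2 (Or.inr (Tch.r (by omega)))⟩

/-- **the outer arc has the same states in the inverted colouring** -/
theorem Ring3.arc (R : Ring3 M χ p N T₁ T₂ T₃ a₁ a₂ a₃ S Q) {j : Fin 3}
    (F : Fl3 M χ p Q T₁ T₂ T₃ j χ') {u : ℕ} (hu : u ≤ aln3 T₁ T₂ T₃ a₁ a₂ a₃ N j) :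
    P M (cfg M χ') (P M (cfg M χ) p (ast3 a₁ a₂ a₃ j)) u =
      P M (cfg M χ) (P M (cfg M χ) p (ast3 a₁ a₂ a₃ j)) u := by
  refine same (P_occ R.lp.ev R.lp.occ _) (m := aln3 T₁ T₂ T₃ a₁ a₂ a₃ N j) (fun v hv => ?_) u hu
  rw [lc_shift, rc_shift]
  obtain ⟨h1, h2⟩ := R.arc_off j hv
  exact ⟨fl_off_l F h1, fl_off_r F h2⟩

/-- **355's outer arc in the inverted colouring**: `aln3 + 1` = number of states, `Rv` = right
cells -/
theorem Ring3.oa (R : Ring3 M χ p N T₁ T₂ T₃ a₁ a₂ a₃ S Q) {j : Fin 3}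
    (F : Fl3 M χ p Q T₁ T₂ T₃ j χ') {Rv : Set C}
    (hRv : ∀ u, u ≤ aln3 T₁ T₂ T₃ a₁ a₂ a₃ N j →
      rc M (cfg M χ) p (ast3 a₁ a₂ a₃ j + u) ∈ Rv) :
    Oa M (cfg M χ') (P M (cfg M χ) p (ast3 a₁ a₂ a₃ j)) (aln3 T₁ T₂ T₃ a₁ a₂ a₃ N j + 1) Rv := by
  refine ⟨cfg_isC χ', ?_, fun a ha => ?_⟩
  · obtain ⟨h1, h2⟩ := R.arc_off j (u := 0) (Nat.zero_le _)
    have h3 := fl_off_l F h1
    have h4 := fl_off_r F h2
    have h5 := P_occ R.lp.ev R.lp.occ (ast3 a₁ a₂ a₃ j + 0)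
    show χ' (lc M (cfg M χ) p (ast3 a₁ a₂ a₃ j + 0)) +
      χ' (rc M (cfg M χ) p (ast3 a₁ a₂ a₃ j + 0)) = 1
    rw [h3, h4]
    exact h5
  · rw [R.arc F (by omega)]
    have := hRv a (by omega)
    rw [← rc_shift] at this
    exact this

end ring

end Crest.Agent.R143.Jun3x565
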