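import Crest.Agent.R143.HullK_715
import Crest.Agent.R143.Jun3_565

/-!
# Row 143 (S0194), block H, H5: the marked ring loop, instance from gates, tiles and the cut property
(helper715)

* `gt_of` : tiles (`TL`), 117's cut property `CutC`, different cells at consecutive gates
  ⟹ a gap time of one block in every tile (`GT`)
* **`ring3_of`** : 565's `Ring3`, marks at the gates `k₁ < k₂ < k₃`
* **`ring_of`** : 43's `Ring`, marks at the gates `k₁ < k₂`
* `TL.shift`, `lp_shift` : the origin moved to a gate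
* **`rg3_of`** : 828's `Rg3`, `r j` = first gap of the block after the mark `T (q j)`; `mk_of` : `Mk`
-/

set_option autoImplicit false
set_option linter.unusedSectionVars false

noncomputable section

open scoped Classical

namespace Crest.Agent.R143.RingMx715

open Crest.Agent.R143.Frame1x395 Crest.Agent.R143.Frame2x395 Crest.Agent.R143.Frame3x395
  Crest.Agent.R143.Frame8x395 Crest.Agent.R143.Frame9x395 Crest.Agent.R143.Frame11x395
  Crest.Agent.R143.NonXx592 Crest.Agent.R143.Junx43 Crest.Agent.R143.Patx828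
  Crest.Agent.R143.HullKx715 Crest.Agent.R143.Jun3x565
open Crest.Agent.R143.Chordx355 (lc gt rho_gt Sep)
open Crest.Agent.R143.Splx117 (InK gp CutC ink_exists ring_blk)

variable {D C : Type} {M : CMap D C} {x : D → ZMod 2} {p : D} {N n : ℕ} {T : ℕ → ℕ}
  {Reg : ℕ → Set C} {c : C}

/-- 355's loop is 117's loop -/
theorem lp117 (L : Chordx355.Lp M x p N) : Splx117.Lp M x p N :=
  ⟨L.ev, L.occ, L.pos, L.per, fun a b h1 h2 => L.inj a b h1 h2⟩

theorem lp355 (L : Splx117.Lp M x p N) : Chordx355.Lp M x p N :=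
  ⟨L.even, L.occ, L.pos, L.per, fun a b h1 h2 => L.inj a b h1 h2⟩

/-! ### a gap of one block in every tile -/

/-- **a gap time of one block in every tile** -/
theorem gt_of [Fintype D] (L : Chordx355.Lp M x p N) (R : TL M x p N n T Reg) (hn : 2 ≤ n)
    (hc : CutC M x p T n) (ne : ∀ k, k < n → lc M x p (T k) ≠ lc M x p (T (k + 1))) :
    ∃ g₀, Gp M x g₀ ∧ GT n T (St M x p N g₀) := by
  have L' := lp117 L
  have hlt : ∀ k, T (k + 1) < T k + N := fun k => by
    rw [← R.per k]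
    exact R.mono (by omega)
  obtain ⟨i0, hi0⟩ := ink_exists L' (R.le (show 0 ≤ 0 + 1 by omega)) (hlt 0) (ne 0 (by omega))
  refine ⟨gp M x p i0, L'.gap hi0.gap, fun k hk => ?_⟩
  obtain ⟨i, hi⟩ := ink_exists L' (R.le (show k ≤ k + 1 by omega)) (hlt k) (ne k hk)
  have h1 := (ring_blk L' hn R.zero R.top (fun k _ => R.le (Nat.le_succ k)) hc (k0 := 0)
    (by omega) hi0 (gp M x p i)).2 ⟨k, hk, i, hi, rfl⟩
  obtain ⟨h2, h3⟩ := mem_blk.1 h1
  refine ⟨i, ⟨?_, h2, h3⟩, hi.lo, hi.hi⟩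
  have h4 := hi.hi
  have h5 := R.le (show k + 1 ≤ n by omega)
  rw [R.top] at h5
  omega

/-! ### 565's ring, 43's ring -/

variable [Fintype D] {χ : C → ZMod 2} {k₁ k₂ k₃ : ℕ} {Q : Set C} {g₀ : D}

/-- **565's `Ring3`** : marks `T k₁`, `T k₂`, `T k₃` -/
theorem ring3_of (L : Chordx355.Lp M (cfg M χ) p N) (R : TL M (cfg M χ) p N n T Reg)
    (hg : Gp M (cfg M χ) g₀) (G : GT n T (St M (cfg M χ) p N g₀)) (h1 : 0 < k₁)
    (h12 : k₁ + 1 ≤ k₂) (h23 : k₂ + 1 ≤ k₃) (h3 : k₃ + 1 < n)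
    (hQ : ∀ k, k₁ ≤ k → k < k₃ → Disjoint (Reg k) Q) :
    Ring3 M χ p N (T k₁) (T k₂) (T k₃) (T (k₁ + 1)) (T (k₂ + 1)) (T (k₃ + 1))
      (St M (cfg M χ) p N g₀) Q := by
  have top := R.top
  have q0 : ∀ t, T k₁ ≤ t → t ≤ T k₃ → ∀ c, Tc M (cfg M χ) p t c → c ∉ Q := by
    intro t h4 h5 c hc hq
    obtain ⟨k, a1, a2, a3⟩ := R.breg (by omega) h4 h5 hc
    exact Set.disjoint_left.1 (hQ k a1 a2) a3 hq
  refine ⟨L, fun s hs => hs.1, fun s hs s' hs' h => St.sep L hg hs hs' h,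
    fun s hs => St.prv L hg hs, ?_, ?_, ?_, ?_, R.le (by omega), R.le h12, R.le (by omega),
    R.le h23, R.le (by omega), ?_, ?_, ?_, ?_, ?_⟩
  · obtain ⟨s, a1, a2, a3⟩ := G 0 (by omega)
    exact ⟨s, a1, lt_of_lt_of_le a3 (R.le (by omega))⟩
  · obtain ⟨s, a1, a2, a3⟩ := G k₁ (by omega)
    exact ⟨s, a1, a2, lt_of_lt_of_le a3 (R.le h12)⟩
  · obtain ⟨s, a1, a2, a3⟩ := G k₂ (by omega)
    exact ⟨s, a1, a2, lt_of_lt_of_le a3 (R.le h23)⟩
  · obtain ⟨s, a1, a2, a3⟩ := G k₃ (by omega)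
    exact ⟨s, a1, a2⟩
  · rw [← top]
    exact R.le (by omega)
  · intro t h4 h5
    exact ⟨q0 t h4 h5 _ (Or.inl rfl), q0 t h4 h5 _ (Or.inr rfl)⟩
  · intro t h4 h5
    have key : ∀ c, Tc M (cfg M χ) p t c → c ∉ Tch M (cfg M χ) p (T k₁) := fun c hc h =>
      R.o1 (Q := ∅) (k₃ := k₃) h1 (by omega) (by omega) (fun _ _ _ => by simp) h4 h5 hc
        (Or.inr h)
    exact ⟨key _ (Or.inl rfl), key _ (Or.inr rfl)⟩
  · intro t h4 h5
    have key : ∀ c, Tc M (cfg M χ) p t c →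
        c ∉ Ov M (cfg M χ) p Q (T k₂) \ Ov M (cfg M χ) p Q (T k₁) := fun c hc h =>
      h.2 (R.o2 h1 (by omega) (by omega) h4 h5.le hc h.1)
    exact ⟨key _ (Or.inl rfl), key _ (Or.inr rfl)⟩
  · intro t h4 h5
    have key : ∀ c, Tc M (cfg M χ) p t c →
        c ∉ Ov M (cfg M χ) p Q (T k₃) \ Ov M (cfg M χ) p Q (T k₂) := fun c hc h =>
      h.2 (R.o2 (by omega) (by omega) (by omega) h4 h5.le hc h.1)
    exact ⟨key _ (Or.inl rfl), key _ (Or.inr rfl)⟩

/-- **43's `Ring`** : marks `T k₁`, `T k₂` -/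
theorem ring_of (L : Chordx355.Lp M (cfg M χ) p N) (R : TL M (cfg M χ) p N n T Reg)
    (hg : Gp M (cfg M χ) g₀) (G : GT n T (St M (cfg M χ) p N g₀)) (h1 : 0 < k₁)
    (h12 : k₁ + 1 ≤ k₂) (h2 : k₂ + 2 ≤ n) :
    Junx43.Ring M χ p N (T k₁) (T k₂) (T (k₁ + 1)) (T (k₂ + 1)) (T (n - 1))
      (St M (cfg M χ) p N g₀) := by
  have top := R.top
  refine ⟨L, fun s hs => hs.1, fun s hs s' hs' h => St.sep L hg hs hs' h,
    fun s hs => St.nxt L hg hs, fun s hs => St.prv L hg hs, ?_, ?_, ?_, ?_, R.le (by omega),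
    R.le h12, R.le (by omega), ?_, ?_, ?_⟩
  · obtain ⟨s, a1, a2, a3⟩ := G 0 (by omega)
    exact ⟨s, a1, lt_of_lt_of_le a3 (R.le (by omega))⟩
  · obtain ⟨s, a1, a2, a3⟩ := G k₁ (by omega)
    exact ⟨s, a1, a2, lt_of_lt_of_le a3 (R.le h12)⟩
  · obtain ⟨s, a1, a2, a3⟩ := G k₂ (by omega)
    exact ⟨s, a1, a2, lt_of_lt_of_le a3 (R.le (by omega))⟩
  · obtain ⟨s, a1, a2, a3⟩ := G (k₂ + 1) (by omega)
    exact ⟨s, a1, a2⟩
  · rw [← top]
    exact R.mono (by omega)
  · exact fun t h4 h5 => R.jo1 h1 (by omega) h4 h5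
  · exact fun t h4 h5 => R.jo2 h1 (by omega) (by omega) h4 h5

/-! ### the origin at a gate -/

omit [Fintype D] in
/-- the origin moved to the gate `b` -/
theorem tl_shift (R : TL M x p N n T Reg) (b : ℕ) :
    TL M x (P M x p (T b)) N n (fun k => T (b + k) - T b) fun k => Reg (b + k) := by
  have le : ∀ k, T b ≤ T (b + k) := fun k => R.le (Nat.le_add_right _ _)
  refine ⟨fun k l h => ?_, by simp, fun k => ?_, fun k => ?_, fun k t h1 h2 => ?_,
    fun k j h1 h2 => ?_⟩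
  · have h3 : T (b + k) < T (b + l) := R.mono (by omega)
    have h4 := le k
    show T (b + k) - T b < T (b + l) - T b
    omega
  · have h3 := R.per (b + k)
    have h4 := le k
    show T (b + (k + n)) - T b = T (b + k) - T b + N
    rw [← add_assoc, h3]
    omega
  · show Reg (b + (k + n)) = Reg (b + k)
    rw [← add_assoc, R.perR]
  · have h3 : P M x (P M x p (T b)) t = P M x p (t + T b) := (P_add _ _ _).symm
    rw [h3]
    have h4 := le k
    have h1' : T (b + k) - T b ≤ t := h1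
    have h2' : t ≤ T (b + (k + 1)) - T b := h2
    exact R.tile (b + k) (t + T b) (by omega) (by
      have := le (k + 1)
      show t + T b ≤ T (b + k + 1)
      rw [add_assoc]
      omega)
  · have h3 := R.dis (b + k) j h1 h2
    rw [add_assoc] at h3
    exact h3

omit [Fintype D] in
theorem lp_shift (L : Chordx355.Lp M x p N) (t : ℕ) : Chordx355.Lp M x (P M x p t) N := by
  have h : ∀ u, P M x (P M x p t) u = P M x p (u + t) := fun u => (P_add _ _ _).symm
  refine ⟨L.ev, P_occ L.ev L.occ t, L.pos, ?_, fun a b hab hb => ?_⟩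
  · rw [h, add_comm, P_add, L.per]
  · rw [h, h]
    exact RWrx355.inj_shift L t hab hb

omit [Fintype D] in
theorem lc_sh (t u : ℕ) : lc M x (P M x p t) u = lc M x p (u + t) := by
  unfold Chordx355.lc
  rw [← P_add]

omit [Fintype D] in
theorem rc_sh (t u : ℕ) : rc M x (P M x p t) u = rc M x p (u + t) := by
  unfold Junx43.rc
  rw [← P_add]

omit [Fintype D] in
theorem gt_sh (t u : ℕ) : gt M x (P M x p t) u = gt M x p (u + t) := by
  unfold Chordx355.gt
  rw [← P_add]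

omit [Fintype D] in
/-- the gap times from the shifted origin -/
theorem st_shift (L : Chordx355.Lp M x p N) {b s : ℕ} (hb : b ≤ N) :
    s ∈ St M x (P M x p b) N g₀ ↔ s < N ∧ ((s + b < N ∧ s + b ∈ St M x p N g₀) ∨
      (N ≤ s + b ∧ s + b - N ∈ St M x p N g₀)) := by
  have h : ∀ u, gt M x p (u + N) = gt M x p u := fun u => by
    unfold Chordx355.gt
    rw [P_per L.per]
  show (s < N ∧ Gp M x (gt M x (P M x p b) s) ∧ Rel M x g₀ (gt M x (P M x p b) s)) ↔ _
  rw [gt_sh]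
  constructor
  · rintro ⟨h1, h2, h3⟩
    refine ⟨h1, ?_⟩
    rcases Nat.lt_or_ge (s + b) N with h4 | h4
    · exact Or.inl ⟨h4, h4, h2, h3⟩
    · right
      obtain ⟨u, hu⟩ := Nat.exists_eq_add_of_le h4
      rw [hu, add_comm N u, h] at h2 h3
      refine ⟨h4, ?_⟩
      rw [hu, Nat.add_sub_cancel_left]
      exact ⟨by omega, h2, h3⟩
  · rintro ⟨h1, ⟨h2, -, h3, h4⟩ | ⟨h2, -, h3, h4⟩⟩
    · exact ⟨h1, h3, h4⟩
    · obtain ⟨u, hu⟩ := Nat.exists_eq_add_of_le h2
      rw [hu, Nat.add_sub_cancel_left] at h3 h4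
      rw [hu, add_comm N u, h]
      exact ⟨h1, h3, h4⟩

omit [Fintype D] in
/-- a block gap in every tile, from the shifted origin -/
theorem gt_shift (L : Chordx355.Lp M x p N) (R : TL M x p N n T Reg)
    (G : GT n T (St M x p N g₀)) {b : ℕ} (hb : b ≤ n) :
    GT n (fun k => T (b + k) - T b) (St M x (P M x p (T b)) N g₀) := by
  have top := R.top
  have hbN : T b ≤ N := by rw [← top]; exact R.le hb
  intro k hk
  have le : ∀ k, T b ≤ T (b + k) := fun k => R.le (Nat.le_add_right _ _)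
  rcases Nat.lt_or_ge (b + k) n with h1 | h1
  · obtain ⟨s, a1, a2, a3⟩ := G (b + k) h1
    have h2 := le k
    refine ⟨s - T b, (st_shift L hbN).2 ⟨by have := a1.1; omega, Or.inl ?_⟩, ?_, ?_⟩
    · rw [Nat.sub_add_cancel (by omega)]
      exact ⟨a1.1, a1⟩
    · show T (b + k) - T b ≤ s - T b
      omega
    · show s - T b < T (b + (k + 1)) - T b
      rw [← add_assoc]
      omega
  · obtain ⟨j, hj⟩ := Nat.exists_eq_add_of_le h1
    obtain ⟨s, a1, a2, a3⟩ := G j (by omega)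
    have h2 : T (b + k) = T j + N := by rw [hj, add_comm n j, R.per]
    have h3 : T (b + (k + 1)) = T (j + 1) + N := by
      rw [← add_assoc, hj, show n + j + 1 = j + 1 + n by omega, R.per]
    have h4 : T (j + 1) ≤ T b := R.le (by omega)
    refine ⟨s + N - T b, (st_shift L hbN).2 ⟨by omega, Or.inr ?_⟩, ?_, ?_⟩
    · rw [show s + N - T b + T b = s + N by omega, Nat.add_sub_cancel]
      exact ⟨by omega, a1⟩
    · show T (b + k) - T b ≤ s + N - T b
      omega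
    · show s + N - T b < T (b + (k + 1)) - T b
      omega

/-! ### 828's three patterns -/

/-- first gap of `S` at or after the time `t` -/
def fg (S : Set ℕ) (t : ℕ) : ℕ := sInf {s | s ∈ S ∧ t ≤ s}

theorem fg_mem {S : Set ℕ} {t s : ℕ} (h : s ∈ S) (ht : t ≤ s) : fg S t ∈ S ∧ t ≤ fg S t :=
  Nat.sInf_mem (s := {s | s ∈ S ∧ t ≤ s}) ⟨s, h, ht⟩

theorem fg_le {S : Set ℕ} {t s : ℕ} (h : s ∈ S) (ht : t ≤ s) : fg S t ≤ s :=
  Nat.sInf_le (s := {s | s ∈ S ∧ t ≤ s}) ⟨h, ht⟩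

/-- the first gap after a gate is in the next tile -/
theorem fg_tile {S : Set ℕ} (G : GT n T S) {k : ℕ} (hk : k < n) :
    fg S (T k) ∈ S ∧ T k ≤ fg S (T k) ∧ fg S (T k) < T (k + 1) := by
  obtain ⟨s, a1, a2, a3⟩ := G k hk
  obtain ⟨h1, h2⟩ := fg_mem a1 a2
  exact ⟨h1, h2, lt_of_le_of_lt (fg_le a1 a2) a3⟩

/-- **828's `Rg3`** : the first gaps of the block after three gates -/
theorem rg3_of (L : Chordx355.Lp M (cfg M χ) p N) (hcol : χ (M.cell p) = 1)
    (R : TL M (cfg M χ) p N n T Reg) (hg : Gp M (cfg M χ) g₀)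
    (G : GT n T (St M (cfg M χ) p N g₀)) {q : ZMod 3 → ℕ} (q01 : q 0 < q 1) (q12 : q 1 < q 2)
    (q2 : q 2 < n) : Rg3 M χ p N fun j => fg (St M (cfg M χ) p N g₀) (T (q j)) := by
  set S := St M (cfg M χ) p N g₀ with hS
  obtain ⟨a0, b0, c0⟩ := fg_tile G (k := q 0) (by omega)
  obtain ⟨a1, b1, c1⟩ := fg_tile G (k := q 1) (by omega)
  obtain ⟨a2, b2, c2⟩ := fg_tile G (k := q 2) (by omega)
  have e1 := R.le (show q 0 + 1 ≤ q 1 by omega)
  have e2 := R.le (show q 1 + 1 ≤ q 2 by omega)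
  have hG : ∀ {s}, s ∈ S → Gp M (cfg M χ) (gp M (cfg M χ) p s) := fun h => h.2.1
  have hR : ∀ {s t}, s ∈ S → t ∈ S →
      Rel M (cfg M χ) (gp M (cfg M χ) p s) (gp M (cfg M χ) p t) := fun h h' =>
    rel_trans L.ev h.2.1 hg h'.2.1 (rel_symm h.2.2) h'.2.2
  refine ⟨lp117 L, hcol, ?_, ?_, ?_, ?_, hR a0 a1, hR a1 a2⟩
  · show fg S (T (q 0)) < fg S (T (q 1))
    omega
  · show fg S (T (q 1)) < fg S (T (q 2))
    omega
  · exact a2.1
  · intro j
    rcases z3e j with rfl | rfl | rfl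
    · exact (hG a0).1
    · exact (hG a1).1
    · exact (hG a2).1

omit [Fintype D] in
/-- the first gaps are within one tile of the marks -/
theorem mk_of {S : Set ℕ} (R : TL M x p N n T Reg) (G : GT n T S) {q : ZMod 3 → ℕ}
    (q0 : 1 ≤ q 0) (q01 : q 0 + 2 < q 1) (q12 : q 1 + 2 < q 2) (q2 : q 2 + 2 < n) :
    Mk n T q 1 fun j => fg S (T (q j)) := by
  have key : ∀ j, q j < n := by
    intro j
    rcases z3e j with rfl | rfl | rfl <;> omega
  refine ⟨q0, q01, q12, q2, fun j => ?_, fun j => ?_⟩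
  · exact (R.le (Nat.sub_le _ _)).trans (fg_tile G (key j)).2.1
  · exact (fg_tile G (key j)).2.2.le

end Crest.Agent.R143.RingMx715
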