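import Crest.Agent.R143.Jun3_565

/-!
# Row 143 (S0194), block H, H5 (J): three starts, one class (helper565; ruling 690, 17:52)

Every pattern `k` has its own start `p k` (middle of the arc `k - 1`) on the same loop and the same
form: marks `T₁ < T₂` after the start, `Q` = cells read to decide the start, inverted cells
`Dk = (Q ∪ Tch T₂) \ (Q ∪ Tch T₁)`, outer arc = times `[a, N + T₁]`.
* `RingK` : the data of one pattern; `NextK` : the next pattern (start moved by `m`, `loc` = locality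
  at the common mark)
* `PK` : a right cell after the first gap of the arc is old
* `RingK.joinA`, `RingK.joinB` : the pattern is joined
* `good_two`, **`two3`** : at least two of the three patterns are joined, for every colouring
* `RingK.arc_off`, `arc`, `oa` : the outer arc in the inverted colouring; `adv` : the outer arc may
  start later
-/

set_option autoImplicit false
set_option linter.unusedSectionVars false

noncomputable section

open scoped Classical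

namespace Crest.Agent.R143.Two3x565

open Crest.Agent.R143.Frame1x395 Crest.Agent.R143.Frame2x395 Crest.Agent.R143.Frame3x395
  Crest.Agent.R143.Frame8x395 Crest.Agent.R143.Frame9x395 Crest.Agent.R143.Frame11x395
  Crest.Agent.R143.NonXx592 Crest.Agent.R143.Chordx355 Crest.Agent.R143.ChordCx357
  Crest.Agent.R143.Chord2x355 Crest.Agent.R143.Junx43 Crest.Agent.R143.Jun3x565

variable {D C : Type} {M : CMap D C}

/-- the inverted cells -/
def Dk (M : CMap D C) (x : D → ZMod 2) (p : D) (Q : Set C) (T₁ T₂ : ℕ) : Set C :=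
  Ov M x p Q T₂ \ Ov M x p Q T₁

/-- `χ'` is `χ` with the touched cells in `Dk` inverted -/
def FlK (M : CMap D C) (χ : C → ZMod 2) (p : D) (Q : Set C) (T₁ T₂ : ℕ) (χ' : C → ZMod 2) :
    Prop :=
  ∀ u, (χ' (lc M (cfg M χ) p u) = χ (lc M (cfg M χ) p u) +
      if lc M (cfg M χ) p u ∈ Dk M (cfg M χ) p Q T₁ T₂ then 1 else 0) ∧
    (χ' (rc M (cfg M χ) p u) = χ (rc M (cfg M χ) p u) +
      if rc M (cfg M χ) p u ∈ Dk M (cfg M χ) p Q T₁ T₂ then 1 else 0)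

/-- the pattern is joined: every cell of the block in `Dk` is joined to the right cell at the
start `a` of the outer arc -/
def JdK (M : CMap D C) (χ : C → ZMod 2) (p : D) (T₁ T₂ a : ℕ) (S : Set ℕ) (Q : Set C)
    (χ' : C → ZMod 2) : Prop :=
  ∀ s ∈ S, lc M (cfg M χ) p s ∈ Dk M (cfg M χ) p Q T₁ T₂ →
    Con M (cfg M χ') (rc M (cfg M χ) p a) (lc M (cfg M χ) p s)

/-- case A: a right cell after the first gap of the arc is old -/
def PK (M : CMap D C) (χ : C → ZMod 2) (p : D) (T₁ T₂ : ℕ) (S : Set ℕ) : Prop :=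
  ∃ s ∈ S, T₁ ≤ s ∧ ∃ n, s < n ∧ n ≤ T₂ ∧ rc M (cfg M χ) p n ∈ Tch M (cfg M χ) p T₁

/-- the ring loop seen from the start of one pattern -/
structure RingK (M : CMap D C) (χ : C → ZMod 2) (p : D) (N T₁ T₂ a : ℕ) (S : Set ℕ) (Q : Set C) :
    Prop where
  lp : Lp M (cfg M χ) p N
  sN : ∀ s ∈ S, s < N
  sep : ∀ s ∈ S, ∀ s' ∈ S, s < s' → Sep (lc M (cfg M χ) p) N s s'
  prv : ∀ s ∈ S, ∃ s' ∈ S, lc M (cfg M χ) p (s' + 1) = lc M (cfg M χ) p s
  e0 : ∃ s ∈ S, s < T₁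
  e1 : ∃ s ∈ S, T₁ ≤ s ∧ s < T₂
  e2 : ∃ s ∈ S, T₂ ≤ s
  h1 : T₁ ≤ T₂
  h2 : T₂ ≤ a
  h3 : a ≤ N
  oq : ∀ n, T₁ ≤ n → n ≤ T₂ → lc M (cfg M χ) p n ∉ Q ∧ rc M (cfg M χ) p n ∉ Q
  o2 : ∀ n, a ≤ n → n < N → lc M (cfg M χ) p n ∉ Dk M (cfg M χ) p Q T₁ T₂ ∧
    rc M (cfg M χ) p n ∉ Dk M (cfg M χ) p Q T₁ T₂

/-- **the next pattern**: start moved by `m`, common mark `T₂ = m + T₁'`, locality at this mark -/
structure NextK (M : CMap D C) (χ : C → ZMod 2) (p p' : D) (m T₂ a T₁' T₂' : ℕ) (S S' : Set ℕ) :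
    Prop where
  st : p' = P M (cfg M χ) p m
  tm : T₂ = m + T₁'
  nx : a ≤ m + T₂' + 1
  sh : ∀ s ∈ S, T₂ ≤ s → s - m ∈ S'
  loc : ∀ n, T₂ ≤ n → n < a → rc M (cfg M χ) p n ∈ Tch M (cfg M χ) p T₂ →
    rc M (cfg M χ) p n ∈ Tch M (cfg M χ) p' T₁'

/-- the first gaps after the marks -/
structure GapK (S : Set ℕ) (N T₁ T₂ s₀ s₁ s₂ : ℕ) : Prop where
  m0 : s₀ ∈ S
  m1 : s₁ ∈ S
  m2 : s₂ ∈ S
  t0 : s₀ < T₁
  t1 : T₁ ≤ s₁
  u1 : s₁ < T₂
  t2 : T₂ ≤ s₂
  u2 : s₂ < N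
  f1 : ∀ s' ∈ S, T₁ ≤ s' → s₁ ≤ s'
  f2 : ∀ s' ∈ S, T₂ ≤ s' → s₂ ≤ s'

section ring

variable [Fintype D] {χ χ' : C → ZMod 2} {p : D} {N T₁ T₂ a : ℕ} {S : Set ℕ} {Q : Set C}

theorem RingK.gaps (R : RingK M χ p N T₁ T₂ a S Q) : ∃ s₀ s₁ s₂, GapK S N T₁ T₂ s₀ s₁ s₂ := by
  obtain ⟨s₀, h0, h0T⟩ := R.e0
  obtain ⟨s₁, hs₁, hT₁, hm₁⟩ := first (T := T₁) (S := S)
    (by obtain ⟨s, h1, h2, -⟩ := R.e1; exact ⟨s, h1, h2⟩)
  obtain ⟨s₂, hs₂, hT₂, hm₂⟩ := first (T := T₂) (S := S) R.e2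
  refine ⟨s₀, s₁, s₂, h0, hs₁, hs₂, h0T, hT₁, ?_, hT₂, R.sN _ hs₂, hm₁, hm₂⟩
  obtain ⟨s, h1, h2, h3⟩ := R.e1
  have := hm₁ s h1 h2
  omega

/-- `Sep` with `v ≤ N` -/
theorem RingK.sep' (R : RingK M χ p N T₁ T₂ a S Q) {s s' : ℕ} (hs : s ∈ S)
    (hs' : s' ∈ S) (h : s < s') {u v : ℕ} (h1 : s < u) (h2 : u ≤ s') (hv : v ≤ N)
    (h3 : v ≤ s ∨ s' < v) : lc M (cfg M χ) p u ≠ lc M (cfg M χ) p v := by
  rcases Nat.lt_or_ge v N with h4 | h4
  · exact R.sep s hs s' hs' h u h1 h2 v h4 h3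
  · have : v = N + 0 := by omega
    rw [this, lc_per R.lp]
    exact R.sep s hs s' hs' h u h1 h2 0 R.lp.pos (Or.inl (Nat.zero_le _))

/-- the previous gap of the first gap after a mark is before the mark -/
theorem RingK.old (R : RingK M χ p N T₁ T₂ a S Q) {T s₀ s : ℕ} (h0 : s₀ ∈ S)
    (h0T : s₀ < T) (hs : s ∈ S) (hT : T ≤ s) (hmin : ∀ s' ∈ S, T ≤ s' → s ≤ s') :
    ∃ s' ∈ S, s' < T ∧ s₀ ≤ s' ∧ lc M (cfg M χ) p (s' + 1) = lc M (cfg M χ) p s := by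
  obtain ⟨s', hs', e⟩ := R.prv s hs
  refine ⟨s', hs', ?_, ?_, e⟩
  · by_contra hc
    have h2 := hmin s' hs' (by omega)
    have h3 := R.sN s' hs'
    exact R.sep' h0 hs (by omega) (u := s) (v := s' + 1) (by omega) le_rfl (by omega)
      (Or.inr (by omega)) e.symm
  · by_contra hc
    exact R.sep' h0 hs (by omega) (u := s) (v := s' + 1) (by omega) le_rfl
      (by have := R.sN _ h0; omega) (Or.inl (by omega)) e.symm

/-- the left cells between two gaps of the block after a mark are new -/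
theorem RingK.new (R : RingK M χ p N T₁ T₂ a S Q) {T s s' m : ℕ} (hs : s ∈ S)
    (hT : T ≤ s) (hs' : s' ∈ S) (h1 : s < m) (h2 : m ≤ s') :
    lc M (cfg M χ) p m ∉ Tch M (cfg M χ) p T := by
  intro hc
  obtain ⟨v, hv, e⟩ := Tch.of_l R.lp.occ hc
  have h3 := R.sN s' hs'
  exact R.sep' hs hs' (by omega) h1 h2 (by omega) (Or.inl (by omega)) e.symm

/-- the cells of the block in `Dk` are left cells after the first gap -/
theorem RingK.kc (R : RingK M χ p N T₁ T₂ a S Q) {s₀ s₁ s₂ : ℕ}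
    (G : GapK S N T₁ T₂ s₀ s₁ s₂) {s : ℕ} (hs : s ∈ S)
    (h : lc M (cfg M χ) p s ∈ Dk M (cfg M χ) p Q T₁ T₂) :
    ∃ m, s₁ < m ∧ m ≤ T₂ ∧ lc M (cfg M χ) p m = lc M (cfg M χ) p s := by
  have h' : lc M (cfg M χ) p s ∈ Tch M (cfg M χ) p T₂ := by
    rcases h.1 with h2 | h2
    · exact absurd (Or.inl h2) h.2
    · exact h2
  have g0 := G.t0; have g1 := G.t1; have g2 := G.u1
  obtain ⟨u, hu, e⟩ := Tch.of_l R.lp.occ h'
  have hu1 : T₁ < u := by
    by_contra hc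
    apply h.2
    rw [← e]
    exact Or.inr (Tch.l (by omega))
  rcases Nat.lt_or_ge s₁ u with h1 | h1
  · exact ⟨u, h1, hu, e⟩
  · exfalso
    obtain ⟨s', hs', e'⟩ := R.prv s hs
    have h2 : T₁ ≤ s' := by
      by_contra hc
      apply h.2
      rw [← e']
      exact Or.inr (Tch.l (by omega))
    have h3 := G.f1 s' hs' h2
    have h5 := R.sN s' hs'
    refine R.sep' G.m0 G.m1 (by omega) (u := u) (v := s' + 1) (by omega) h1 (by omega)
      (Or.inr (by omega)) ?_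
    rw [e, e']

/-! ### inverted / not inverted cells -/

theorem flk_on_l (F : FlK M χ p Q T₁ T₂ χ') {u : ℕ}
    (h : lc M (cfg M χ) p u ∈ Dk M (cfg M χ) p Q T₁ T₂) :
    χ' (lc M (cfg M χ) p u) = χ (lc M (cfg M χ) p u) + 1 := by
  rw [(F u).1, if_pos h]

theorem flk_off_l (F : FlK M χ p Q T₁ T₂ χ') {u : ℕ}
    (h : lc M (cfg M χ) p u ∉ Dk M (cfg M χ) p Q T₁ T₂) :
    χ' (lc M (cfg M χ) p u) = χ (lc M (cfg M χ) p u) := by
  rw [(F u).1, if_neg h, add_zero]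

theorem flk_off_r (F : FlK M χ p Q T₁ T₂ χ') {u : ℕ}
    (h : rc M (cfg M χ) p u ∉ Dk M (cfg M χ) p Q T₁ T₂) :
    χ' (rc M (cfg M χ) p u) = χ (rc M (cfg M χ) p u) := by
  rw [(F u).2, if_neg h, add_zero]

/-- left cells after the first gap of the arc, up to the second mark -/
theorem RingK.l1 (R : RingK M χ p N T₁ T₂ a S Q) {s₀ s₁ s₂ : ℕ}
    (G : GapK S N T₁ T₂ s₀ s₁ s₂) (F : FlK M χ p Q T₁ T₂ χ') :
    ∀ v, s₁ + 1 ≤ v → v ≤ T₂ → χ' (lc M (cfg M χ) p v) = χ (M.cell p) + 1 := by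
  intro v h1 h2
  have g1 := G.t1; have g2 := G.t2
  rw [flk_on_l F, col_l R.lp.occ]
  refine ⟨Or.inr (Tch.l h2), ?_⟩
  rintro (h | h)
  · exact (R.oq v (by omega) (by omega)).1 h
  · exact R.new G.m1 G.t1 G.m2 (m := v) (by omega) (by omega) h

/-- the right cells of the outer arc are not inverted -/
theorem RingK.rout (R : RingK M χ p N T₁ T₂ a S Q) {v : ℕ} (h1 : a ≤ v) (h2 : v ≤ N + T₁) :
    rc M (cfg M χ) p v ∉ Dk M (cfg M χ) p Q T₁ T₂ := by
  rcases Nat.lt_or_ge v N with h3 | h3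
  · exact (R.o2 v h1 h3).2
  · obtain ⟨w, rfl⟩ := Nat.exists_eq_add_of_le h3
    rw [rc_per R.lp]
    exact fun h => h.2 (Or.inr (Tch.r (by omega)))

theorem RingK.lout (R : RingK M χ p N T₁ T₂ a S Q) {v : ℕ} (h1 : a ≤ v) (h2 : v ≤ N + T₁) :
    lc M (cfg M χ) p v ∉ Dk M (cfg M χ) p Q T₁ T₂ := by
  rcases Nat.lt_or_ge v N with h3 | h3
  · exact (R.o2 v h1 h3).1
  · obtain ⟨w, rfl⟩ := Nat.exists_eq_add_of_le h3
    rw [lc_per R.lp]
    exact fun h => h.2 (Or.inr (Tch.l (by omega)))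

/-- **case A at the first mark** -/
theorem RingK.joinA (R : RingK M χ p N T₁ T₂ a S Q) (F : FlK M χ p Q T₁ T₂ χ')
    (H : PK M χ p T₁ T₂ S) : JdK M χ p T₁ T₂ a S Q χ' := by
  obtain ⟨s₀, s₁, s₂, G⟩ := R.gaps
  have hp := R.lp.occ
  obtain ⟨s', hs', hT', n, hn1, hn2, hn3⟩ := H
  have hn : s₁ < n := lt_of_le_of_lt (G.f1 s' hs' hT') hn1
  obtain ⟨u, hu, eu⟩ := Tch.of_r hp hn3
  have haN := R.h3
  intro s hs hsD
  obtain ⟨m, hm1, hm2, em⟩ := R.kc G hs hsD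
  rw [← em]
  refine link hp (R.l1 G F) (r0 := a) (r1 := N + T₁) ?_ (t := n) (w := n) (u := N + u)
    (by omega) hn2 rfl (by omega) (by omega) (by rw [rc_per R.lp, eu]) (by omega) hm2 le_rfl
    (by omega)
  intro v hv1 hv2
  rw [flk_off_r F (R.rout hv1 hv2), col_r hp]

/-- **case B at the second mark** -/
theorem RingK.joinB (R : RingK M χ p N T₁ T₂ a S Q) (F : FlK M χ p Q T₁ T₂ χ')
    (H : ∀ s ∈ S, T₂ ≤ s → ∀ n, s < n → n < a →
      rc M (cfg M χ) p n ∉ Dk M (cfg M χ) p Q T₁ T₂) : JdK M χ p T₁ T₂ a S Q χ' := by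
  obtain ⟨s₀, s₁, s₂, G⟩ := R.gaps
  have hp := R.lp.occ
  have g0 := G.t0; have g1 := G.t1; have g2 := G.t2; have g3 := G.u1; have g4 := G.u2
  have c1 := R.h1; have c2 := R.h2; have c3 := R.h3
  obtain ⟨s', hs', hs'T, hs's, es'⟩ := R.old G.m1 G.u1 G.m2 G.t2 G.f2
  have e3 : rc M (cfg M χ) p (s₂ + 1) = rc M (cfg M χ) p s₂ := by
    rcases step R.lp.ev R.lp.occ s₂ with ⟨-, -, e⟩ | ⟨-, -, e⟩
    · exact e
    · exfalso
      exact R.sep' G.m1 G.m2 (by omega) (u := s₂) (v := s₂ + 1) (by omega) le_rfl (by omega)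
        (Or.inr (by omega)) e.symm
  intro s hs hsD
  obtain ⟨m, hm1, hm2, em⟩ := R.kc G hs hsD
  rw [← em]
  refine link hp (R.l1 G F) (r0 := min (s₂ + 1) a) (r1 := N + T₁) ?_ (t := s₂)
    (w := s' + 1) (u := s₂ + 1) (by omega) (by omega) es' (by omega) (by omega) e3
    (by omega) hm2 (by omega) (by omega)
  intro v hv1 hv2
  rw [flk_off_r F, col_r hp]
  rcases Nat.lt_or_ge v a with h1 | h1
  · exact H s₂ G.m2 G.t2 v (by omega) h1
  · exact R.rout h1 hv2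

/-- **locality**: an inverted right cell after the second mark is case A of the next pattern -/
theorem RingK.next (_R : RingK M χ p N T₁ T₂ a S Q) {p' : D} {m T₁' T₂' : ℕ} {S' : Set ℕ}
    (X : NextK M χ p p' m T₂ a T₁' T₂' S S') (H : ¬ PK M χ p' T₁' T₂' S') :
    ∀ s ∈ S, T₂ ≤ s → ∀ n, s < n → n < a →
      rc M (cfg M χ) p n ∉ Dk M (cfg M χ) p Q T₁ T₂ := by
  intro s hs hT n h1 h2 hc
  have h' : rc M (cfg M χ) p n ∈ Tch M (cfg M χ) p T₂ := by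
    rcases hc.1 with h2 | h2
    · exact absurd (Or.inl h2) hc.2
    · exact h2
  have h3 := X.loc n (by omega) h2 h'
  have h4 := X.tm
  have h5 := X.nx
  refine H ⟨s - m, X.sh s hs hT, by omega, n - m, by omega, by omega, ?_⟩
  rw [X.st, rc_shift, show m + (n - m) = n by omega, ← X.st]
  exact h3

/-! ### the outer arc -/

/-- the outer arc may start later -/
theorem RingK.adv (R : RingK M χ p N T₁ T₂ a S Q) {a' : ℕ} (h : a ≤ a') (h' : a' ≤ N) :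
    RingK M χ p N T₁ T₂ a' S Q :=
  ⟨R.lp, R.sN, R.sep, R.prv, R.e0, R.e1, R.e2, R.h1, R.h2.trans h, h', R.oq,
    fun n h1 h2 => R.o2 n (h.trans h1) h2⟩

theorem RingK.jd_adv (R : RingK M χ p N T₁ T₂ a S Q) (F : FlK M χ p Q T₁ T₂ χ') {a' : ℕ}
    (h : a ≤ a') (h' : a' ≤ N + T₁) (J : JdK M χ p T₁ T₂ a S Q χ') :
    JdK M χ p T₁ T₂ a' S Q χ' := by
  intro s hs hsD
  refine con_trans (con_symm ?_) (J s hs hsD)
  refine con_r' R.lp.occ (m := a) (n := N + T₁) (a := χ (M.cell p) + 1) ?_ le_rfl (by omega) h h'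
  intro v hv1 hv2
  rw [flk_off_r F (R.rout hv1 hv2), col_r R.lp.occ]

/-- number of steps of the outer arc -/
def alnK (N T₁ a : ℕ) : ℕ := N + T₁ - a

theorem RingK.arc_off (R : RingK M χ p N T₁ T₂ a S Q) {u : ℕ} (hu : u ≤ alnK N T₁ a) :
    lc M (cfg M χ) p (a + u) ∉ Dk M (cfg M χ) p Q T₁ T₂ ∧
      rc M (cfg M χ) p (a + u) ∉ Dk M (cfg M χ) p Q T₁ T₂ := by
  have c3 := R.h3
  unfold alnK at hu
  exact ⟨R.lout (by omega) (by omega), R.rout (by omega) (by omega)⟩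

/-- **the outer arc has the same states in the inverted colouring** -/
theorem RingK.arc (R : RingK M χ p N T₁ T₂ a S Q) (F : FlK M χ p Q T₁ T₂ χ') {u : ℕ}
    (hu : u ≤ alnK N T₁ a) :
    P M (cfg M χ') (P M (cfg M χ) p a) u = P M (cfg M χ) (P M (cfg M χ) p a) u := by
  refine same (P_occ R.lp.ev R.lp.occ _) (m := alnK N T₁ a) (fun v hv => ?_) u hu
  rw [lc_shift, rc_shift]
  obtain ⟨h1, h2⟩ := R.arc_off hv
  exact ⟨flk_off_l F h1, flk_off_r F h2⟩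

/-- the first state of the outer arc is occupied in the inverted colouring -/
theorem RingK.arc_occ (R : RingK M χ p N T₁ T₂ a S Q) (F : FlK M χ p Q T₁ T₂ χ') :
    cfg M χ' (P M (cfg M χ) p a) = 1 := by
  obtain ⟨h1, h2⟩ := R.arc_off (u := 0) (Nat.zero_le _)
  have h3 := flk_off_l F h1
  have h4 := flk_off_r F h2
  have h5 := P_occ R.lp.ev R.lp.occ (a + 0)
  show χ' (lc M (cfg M χ) p (a + 0)) + χ' (rc M (cfg M χ) p (a + 0)) = 1
  rw [h3, h4]
  exact h5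

/-- **355's outer arc in the inverted colouring** -/
theorem RingK.oa (R : RingK M χ p N T₁ T₂ a S Q) (F : FlK M χ p Q T₁ T₂ χ') {Rv : Set C}
    (hRv : ∀ u, u ≤ alnK N T₁ a → rc M (cfg M χ) p (a + u) ∈ Rv) :
    Oa M (cfg M χ') (P M (cfg M χ) p a) (alnK N T₁ a + 1) Rv := by
  refine ⟨cfg_isC χ', R.arc_occ F, fun b hb => ?_⟩
  rw [R.arc F (by omega)]
  have := hRv b (by omega)
  rw [← rc_shift] at this
  exact this

end ring

/-! ### two of three -/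

section two

variable {χ : C → ZMod 2} {p : ZMod 3 → D} {T U : ZMod 3 → ℕ} {S : ZMod 3 → Set ℕ}

/-- the pattern `k` is joined -/
def GoodK (M : CMap D C) (χ : C → ZMod 2) (p : ZMod 3 → D) (T U : ZMod 3 → ℕ)
    (S : ZMod 3 → Set ℕ) (k : ZMod 3) : Prop :=
  PK M χ (p k) (T k) (U k) (S k) ∨ ¬ PK M χ (p (k + 1)) (T (k + 1)) (U (k + 1)) (S (k + 1))

theorem two_of (B : ZMod 3 → Prop) : ∃ i : ZMod 3, ∀ k, k ≠ i → (B k ∨ ¬ B (k + 1)) := by
  have e : ∀ k : ZMod 3, k = 0 ∨ k = 1 ∨ k = 2 := by decide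
  have e2 : (2 : ZMod 3) + 1 = 0 := by decide
  have e1 : (1 : ZMod 3) + 1 = 2 := by decide
  have e0 : (0 : ZMod 3) + 1 = 1 := by decide
  by_cases h0 : B 0 ∨ ¬ B (0 + 1)
  · by_cases h1 : B 1 ∨ ¬ B (1 + 1)
    · refine ⟨2, fun k hk => ?_⟩
      rcases e k with rfl | rfl | rfl
      · exact h0
      · exact h1
      · exact absurd rfl hk
    · refine ⟨1, fun k hk => ?_⟩
      rcases e k with rfl | rfl | rfl
      · exact h0
      · exact absurd rfl hk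
      · rw [e1] at h1
        push Not at h1
        exact Or.inl h1.2
  · refine ⟨0, fun k hk => ?_⟩
    rw [e0] at h0
    push Not at h0
    rcases e k with rfl | rfl | rfl
    · exact absurd rfl hk
    · exact Or.inl h0.2
    · rw [e2]
      exact Or.inr h0.1

theorem good_two : ∃ i : ZMod 3, ∀ k, k ≠ i → GoodK M χ p T U S k :=
  two_of fun k => PK M χ (p k) (T k) (U k) (S k)

variable [Fintype D] {N : ℕ} {a m : ZMod 3 → ℕ} {Q : ZMod 3 → Set C} {k : ZMod 3}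

/-- a good pattern is joined -/
theorem joinK (R : RingK M χ (p k) N (T k) (U k) (a k) (S k) (Q k))
    (X : NextK M χ (p k) (p (k + 1)) (m k) (U k) (a k) (T (k + 1)) (U (k + 1)) (S k) (S (k + 1)))
    (H : GoodK M χ p T U S k) {χ' : C → ZMod 2} (F : FlK M χ (p k) (Q k) (T k) (U k) χ') :
    JdK M χ (p k) (T k) (U k) (a k) (S k) (Q k) χ' := by
  rcases H with H | H
  · exact R.joinA F H
  · exact R.joinB F (R.next X H)

/-- **at least two of the three patterns are joined**, for every colouring -/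
theorem two3 (R : ∀ k, RingK M χ (p k) N (T k) (U k) (a k) (S k) (Q k))
    (X : ∀ k, NextK M χ (p k) (p (k + 1)) (m k) (U k) (a k) (T (k + 1)) (U (k + 1)) (S k)
      (S (k + 1))) :
    ∃ i : ZMod 3, ∀ k, k ≠ i → ∀ χ', FlK M χ (p k) (Q k) (T k) (U k) χ' →
      JdK M χ (p k) (T k) (U k) (a k) (S k) (Q k) χ' := by
  obtain ⟨i, hi⟩ := good_two (M := M) (χ := χ) (p := p) (T := T) (U := U) (S := S)
  exact ⟨i, fun k hk χ' F => joinK (R k) (X k) (hi k hk) F⟩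

end two

end Crest.Agent.R143.Two3x565
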