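import Crest.Agent.R143.Exc4_790
import Crest.Agent.R143.Two3_565
import Crest.Agent.R143.RingM_715

/-!
# Row 143 (S0194), block H, H5 (C) (helper790): one pattern, one start

`X : Rg3 M σ p N r` (828), `x = cfg M σ`, start `p' = P M x p μ` of the pattern `k`, `s₁ < s₂ < s₃ < N`
the times (from `p'`) of the junction gaps `r k`, `r (k + 1)`, `r (k + 2)`. `Ds` = the flipped set,
`χ' = σ + 1_Ds` on the touched cells.
* `St3` : these data; `St3.gk`, `gk1`, `gk2` : the arcs `Gc k`, `Gc (k+1)`, `Gc (k+2)` = left cells of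
  the times `(s₁, s₂]`, `(s₂, s₃]`, `(s₃, s₁ + N]`
* `Pn` : the flip: the cells of the block in `Ds` are those at the gap times in `(s₁, s₂]`, the times
  `[a, b]` (outer arc, `s₂ < a ≤ b ≤ s₁ + N`) are off `Ds`
* `Pn.k1`, `k2`, `k3`, `Pn.oc`, `Pn.hj` : the hypotheses of `Exc4x790.cj`; `Pn.same` : same states on
  the outer arc; `Pn.ends` : the end cells of the root block are cells of the block in `Gc (k + 2)`,
  `Gc (k + 1)`
* `Pn.cj` : **the root block of the pattern `k` = joined chord of `χ'`, sum = one block - potential**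
* `kdK`, `pnK` : `Pn` from helper565's `RingK`, `GapK`, `FlK` (`Ds = Dk`, `b = N + T₁`)
* `on2` : a cell of the block in `Gc (k + 2)` is on the outer arc; `on1` : a cell of the block in
  `Gc (k + 1)` is on the outer arc or left at a gap time in `(s₂, a)`
* **`cjK`** : (C) for one pattern, from `RingK`, the static net, `JdK` and `mk` (the end cell `kB` is not
  left at a gap time in `(s₂, a)` = the tile after the second mark)
* **`gates`** : marks at gates (helper715): `St3`, `GapK` for a start at a gate `b`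
-/

set_option autoImplicit false
set_option linter.unusedSectionVars false

noncomputable section

open scoped Classical

namespace Crest.Agent.R143.Exc5x790

open Crest.Agent.R143.Frame1x395 Crest.Agent.R143.Frame2x395 Crest.Agent.R143.Frame3x395
  Crest.Agent.R143.Frame8x395 Crest.Agent.R143.Frame9x395 Crest.Agent.R143.Frame11x395
  Crest.Agent.R143.NonXx592 Crest.Agent.R143.Coarsex166 Crest.Agent.R143.Coarse2x166
  Crest.Agent.R143.Chord2x355 Crest.Agent.R143.H2x355 Crest.Agent.R143.Exc4x790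
  Crest.Agent.R143.Patx828
open Crest.Agent.R143.C2SBx395 (Free Gi Cq Root Rc)
open Crest.Agent.R143.Splx117 (gp)

variable {D C C' : Type} {M : CMap D C} {σ : C → ZMod 2} {p p' : D} {N μ : ℕ} {r : ZMod 3 → ℕ}
  {k : ZMod 3} {s₁ s₂ s₃ a b : ℕ}

/-- **start of the pattern `k`** and the times of the three junction gaps -/
structure St3 (M : CMap D C) (σ : C → ZMod 2) (p : D) (N : ℕ) (r : ZMod 3 → ℕ) (k : ZMod 3) (p' : D)
    (μ s₁ s₂ s₃ : ℕ) : Prop where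
  X : Rg3 M σ p N r
  hp : p' = P M (cfg M σ) p μ
  h12 : s₁ < s₂
  h23 : s₂ < s₃
  h3N : s₃ < N
  d1 : P M (cfg M σ) p' s₁ = P M (cfg M σ) p (r k)
  d2 : P M (cfg M σ) p' s₂ = P M (cfg M σ) p (r (k + 1))
  d3 : P M (cfg M σ) p' s₃ = P M (cfg M σ) p (r (k + 2))

/-- end of the arc `j` -/
def en (N : ℕ) (r : ZMod 3 → ℕ) (j : ZMod 3) : ℕ := if j = 0 then r 1 else if j = 1 then r 2 else
  N + r 0

theorem ti_iff {j : ZMod 3} {u : ℕ} : Ti N r j u ↔ r j < u ∧ u ≤ en N r j := by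
  rcases z3e j with rfl | rfl | rfl
  · exact ti0
  · exact ti1
  · exact ti2

section

variable [Fintype D]

theorem en_lt (X : Rg3 M σ p N r) (j : ZMod 3) : r j < en N r j ∧ en N r j < r j + N := by
  have h1 := X.r01
  have h2 := X.r12
  have h3 := X.r2N
  rcases z3e j with rfl | rfl | rfl
  · exact ⟨h1, show r 1 < r 0 + N by omega⟩
  · exact ⟨h2, show r 2 < r 1 + N by omega⟩
  · exact ⟨show r 2 < N + r 0 by omega, show N + r 0 < r 2 + N by omega⟩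

theorem en_P (X : Rg3 M σ p N r) (j : ZMod 3) :
    P M (cfg M σ) p (en N r j) = P M (cfg M σ) p (r (j + 1)) := by
  rcases z3e j with rfl | rfl | rfl
  · rfl
  · rfl
  · show P M (cfg M σ) p (N + r 0) = P M (cfg M σ) p (r 0)
    rw [add_comm]
    exact X.L.add (r 0)

/-- lengths of corresponding intervals -/
theorem seg (X : Rg3 M σ p N r) {s s' A B : ℕ} (e : P M (cfg M σ) p' s = P M (cfg M σ) p A)
    (e' : P M (cfg M σ) p' s' = P M (cfg M σ) p B) (h : s ≤ s') (h' : s' < s + N) (hAB : A ≤ B)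
    (hB : B < A + N) : s' - s = B - A := by
  have h1 : P M (cfg M σ) p (s' - s + A) = P M (cfg M σ) p B := by
    rw [P_add, ← e, ← P_add, show s' - s + s = s' by omega, e']
  by_contra hne
  rcases Nat.lt_or_gt_of_ne (show s' - s + A ≠ B by omega) with h2 | h2
  · exact X.L.ne (i := s' - s + A) (j := B) h2 (by omega) h1
  · exact X.L.ne (i := B) (j := s' - s + A) h2 (by omega) h1.symm

/-- **an arc in the time of the start `p'`** -/
theorem gc_iff (X : Rg3 M σ p N r) {j : ZMod 3} {s s' : ℕ}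
    (e : P M (cfg M σ) p' s = P M (cfg M σ) p (r j))
    (e' : P M (cfg M σ) p' s' = P M (cfg M σ) p (r (j + 1))) (h : s < s') (h' : s' < s + N) {c : C} :
    c ∈ Gc M (cfg M σ) p N r j ↔ ∃ v, s < v ∧ v ≤ s' ∧ M.cell (P M (cfg M σ) p' v) = c := by
  obtain ⟨h1, h2⟩ := en_lt X j
  have hl := seg X e (e'.trans (en_P X j).symm) h.le h' h1.le h2
  have key : ∀ i, P M (cfg M σ) p' (i + s) = P M (cfg M σ) p (i + r j) := by
    intro i
    rw [P_add, P_add, e]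
  constructor
  · rintro ⟨u, hu, rfl⟩
    obtain ⟨h3, h4⟩ := ti_iff.1 hu
    refine ⟨u - r j + s, by omega, by omega, ?_⟩
    rw [key, show u - r j + r j = u by omega]
  · rintro ⟨v, h3, h4, rfl⟩
    refine ⟨v - s + r j, ti_iff.2 ⟨by omega, by omega⟩, ?_⟩
    show M.cell (P M (cfg M σ) p (v - s + r j)) = M.cell (P M (cfg M σ) p' v)
    rw [← key, show v - s + s = v by omega]

theorem z3p : ∀ k : ZMod 3, k + 1 + 1 = k + 2 ∧ k + 2 + 1 = k := by decide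

namespace St3

theorem lp (T : St3 M σ p N r k p' μ s₁ s₂ s₃) : Splx117.Lp M (cfg M σ) p' N := by
  rw [T.hp]
  exact R5qx166.lp_of (shift T.X.L μ) T.X.L.pos

theorem per (T : St3 M σ p N r k p' μ s₁ s₂ s₃) (u : ℕ) :
    P M (cfg M σ) p' (u + N) = P M (cfg M σ) p' u := T.lp.add u

theorem gk (T : St3 M σ p N r k p' μ s₁ s₂ s₃) {c : C} : c ∈ Gc M (cfg M σ) p N r k ↔
    ∃ v, s₁ < v ∧ v ≤ s₂ ∧ M.cell (P M (cfg M σ) p' v) = c :=
  gc_iff T.X T.d1 T.d2 T.h12 (by have := T.h23; have := T.h3N; omega)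

theorem gk1 (T : St3 M σ p N r k p' μ s₁ s₂ s₃) {c : C} : c ∈ Gc M (cfg M σ) p N r (k + 1) ↔
    ∃ v, s₂ < v ∧ v ≤ s₃ ∧ M.cell (P M (cfg M σ) p' v) = c := by
  refine gc_iff T.X T.d2 ?_ T.h23 (by have := T.h3N; omega)
  rw [(z3p k).1]
  exact T.d3

theorem gk2 (T : St3 M σ p N r k p' μ s₁ s₂ s₃) {c : C} : c ∈ Gc M (cfg M σ) p N r (k + 2) ↔
    ∃ v, s₃ < v ∧ v ≤ s₁ + N ∧ M.cell (P M (cfg M σ) p' v) = c := by
  have h1 := T.h12
  have h2 := T.h23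
  have h3 := T.h3N
  refine gc_iff T.X T.d3 ?_ (by omega) (by omega)
  rw [(z3p k).2, T.per]
  exact T.d1

/-- the class of a time -/
theorem cls (T : St3 M σ p N r k p' μ s₁ s₂ s₃) {s : ℕ} (hs : s < N) :
    (s₁ < s ∧ s ≤ s₂ ∧ M.cell (P M (cfg M σ) p' s) ∈ Gc M (cfg M σ) p N r k) ∨
    (¬ (s₁ < s ∧ s ≤ s₂) ∧ (M.cell (P M (cfg M σ) p' s) ∈ Gc M (cfg M σ) p N r (k + 1) ∨
      M.cell (P M (cfg M σ) p' s) ∈ Gc M (cfg M σ) p N r (k + 2))) := by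
  have h1 := T.h12
  have h2 := T.h23
  rcases Nat.lt_or_ge s₁ s with h3 | h3
  · rcases Nat.lt_or_ge s₂ s with h4 | h4
    · refine Or.inr ⟨by omega, ?_⟩
      rcases Nat.lt_or_ge s₃ s with h5 | h5
      · exact Or.inr (T.gk2.2 ⟨s, h5, by omega, rfl⟩)
      · exact Or.inl (T.gk1.2 ⟨s, h4, h5, rfl⟩)
    · exact Or.inl ⟨h3, h4, T.gk.2 ⟨s, h3, h4, rfl⟩⟩
  · refine Or.inr ⟨by omega, Or.inr (T.gk2.2 ⟨s + N, by have := T.h3N; omega, by omega, ?_⟩)⟩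
    rw [T.per]

/-- the cells of the block are the left cells at the gap times -/
theorem kc (T : St3 M σ p N r k p' μ s₁ s₂ s₃) {c : C} (hc : c ∈ KC M (cfg M σ) (g0 M σ p r)) :
    ∃ s, s < N ∧ Kg M (cfg M σ) p' (g0 M σ p r) s ∧ M.cell (P M (cfg M σ) p' s) = c := by
  obtain ⟨h, h1, h2, h3⟩ := hc
  obtain ⟨g1, g2⟩ := kg_r T.X k
  have hR : Rel M (cfg M σ) (gp M (cfg M σ) p (r k)) h :=
    rel_trans T.X.even g1 (g0_gp T.X) h1 (rel_symm g2) h2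
  obtain ⟨s, hs, e⟩ := R5bx166.loop_mem (R5qx166.loop_of T.lp) T.lp.pos g1 h1 (a := s₁)
    (by rw [gp_p, T.d1]) hR
  have e2 : gp M (cfg M σ) p' s = h := by
    have : M.rho (gp M (cfg M σ) p' s) = M.rho h := by rw [gp_p, e]
    exact rho_inj M this
  refine ⟨s, hs, ?_, ?_⟩
  · unfold Kg
    rw [e2]
    exact ⟨h1, h2⟩
  · rw [← e, h3]

end St3

/-- **the flip of the pattern `k`** and the outer arc `[a, b]` -/
structure Pn (M : CMap D C) (σ : C → ZMod 2) (p : D) (N : ℕ) (r : ZMod 3 → ℕ) (k : ZMod 3) (p' : D)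
    (μ s₁ s₂ s₃ a b : ℕ) (Ds : Set C) (χ' : C → ZMod 2) : Prop extends
    St3 M σ p N r k p' μ s₁ s₂ s₃ where
  fl : ∀ u, χ' (M.cell (P M (cfg M σ) p' u)) = σ (M.cell (P M (cfg M σ) p' u)) +
    if M.cell (P M (cfg M σ) p' u) ∈ Ds then 1 else 0
  fr : ∀ u, χ' (M.cell (M.rho (P M (cfg M σ) p' u))) = σ (M.cell (M.rho (P M (cfg M σ) p' u))) +
    if M.cell (M.rho (P M (cfg M σ) p' u)) ∈ Ds then 1 else 0
  kd : ∀ s, s < N → Kg M (cfg M σ) p' (g0 M σ p r) s →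
    (M.cell (P M (cfg M σ) p' s) ∈ Ds ↔ s₁ < s ∧ s ≤ s₂)
  ab : a ≤ b
  ha : s₂ < a
  hb : b ≤ s₁ + N
  off : ∀ n, a ≤ n → n ≤ b → M.cell (P M (cfg M σ) p' n) ∉ Ds ∧
    M.cell (M.rho (P M (cfg M σ) p' n)) ∉ Ds

variable {Ds : Set C} {χ' χ₀ : C → ZMod 2}

namespace Pn

theorem black (T : Pn M σ p N r k p' μ s₁ s₂ s₃ a b Ds χ') (u : ℕ) :
    σ (M.cell (P M (cfg M σ) p' u)) = 1 := by
  rw [T.hp, ← P_add]
  exact T.X.lcol _

/-- the gap time of a cell of the block -/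
theorem tm (T : Pn M σ p N r k p' μ s₁ s₂ s₃ a b Ds χ') {c : C}
    (hc : c ∈ KC M (cfg M σ) (g0 M σ p r)) : ∃ s, s < N ∧ Kg M (cfg M σ) p' (g0 M σ p r) s ∧
      M.cell (P M (cfg M σ) p' s) = c ∧ (c ∈ Gc M (cfg M σ) p N r k ↔ s₁ < s ∧ s ≤ s₂) := by
  obtain ⟨s, hs, hK, e⟩ := T.toSt3.kc hc
  refine ⟨s, hs, hK, e, ?_⟩
  have n1 := z3q k
  rcases T.toSt3.cls hs with ⟨h1, h2, h3⟩ | ⟨h1, h3⟩
  · rw [e] at h3
    exact ⟨fun _ => ⟨h1, h2⟩, fun _ => h3⟩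
  · rw [e] at h3
    refine ⟨fun h => ?_, fun h => absurd h h1⟩
    rcases h3 with h3 | h3
    · exact absurd (T.X.disj h3 h) n1.1
    · exact absurd (T.X.disj h3 h) n1.2.1

theorem k3 (T : Pn M σ p N r k p' μ s₁ s₂ s₃ a b Ds χ') :
    ∀ c ∈ KC M (cfg M σ) (g0 M σ p r), c ∈ Gc M (cfg M σ) p N r k → χ' c = 0 := by
  intro c hc hk
  obtain ⟨s, hs, hK, e, h⟩ := T.tm hc
  have h1 := (T.kd s hs hK).2 (h.1 hk)
  rw [← e, T.fl s, if_pos h1, T.black s]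
  decide

theorem kn (T : Pn M σ p N r k p' μ s₁ s₂ s₃ a b Ds χ') {j : ZMod 3} (hj : j ≠ k) :
    ∀ c ∈ KC M (cfg M σ) (g0 M σ p r), c ∈ Gc M (cfg M σ) p N r j → χ' c = 1 := by
  intro c hc hk
  obtain ⟨s, hs, hK, e, h⟩ := T.tm hc
  have h1 : M.cell (P M (cfg M σ) p' s) ∉ Ds := fun h2 =>
    hj (T.X.disj hk (h.2 ((T.kd s hs hK).1 h2)))
  rw [← e, T.fl s, if_neg h1, T.black s]
  decide

theorem k1 (T : Pn M σ p N r k p' μ s₁ s₂ s₃ a b Ds χ') :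
    ∀ c ∈ KC M (cfg M σ) (g0 M σ p r), c ∈ Gc M (cfg M σ) p N r (k + 1) → χ' c = 1 :=
  T.kn (z3q k).1

theorem k2 (T : Pn M σ p N r k p' μ s₁ s₂ s₃ a b Ds χ') :
    ∀ c ∈ KC M (cfg M σ) (g0 M σ p r), c ∈ Gc M (cfg M σ) p N r (k + 2) → χ' c = 1 :=
  T.kn (z3q k).2.1

theorem flo (T : Pn M σ p N r k p' μ s₁ s₂ s₃ a b Ds χ') {n : ℕ} (h1 : a ≤ n) (h2 : n ≤ b) :
    χ' (M.cell (P M (cfg M σ) p' n)) = σ (M.cell (P M (cfg M σ) p' n)) ∧
    χ' (M.cell (M.rho (P M (cfg M σ) p' n))) = σ (M.cell (M.rho (P M (cfg M σ) p' n))) := by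
  obtain ⟨h3, h4⟩ := T.off n h1 h2
  exact ⟨by rw [T.fl, if_neg h3, add_zero], by rw [T.fr, if_neg h4, add_zero]⟩

/-- **same states on the outer arc** -/
theorem same (T : Pn M σ p N r k p' μ s₁ s₂ s₃ a b Ds χ') {u : ℕ} (hu : u ≤ b - a) :
    P M (cfg M χ') (P M (cfg M σ) p' a) u = P M (cfg M σ) p' (a + u) := by
  have h0 := T.ab
  have h := Junx43.same (χ := σ) (χ' := χ') (P_occ T.X.even T.lp.occ a) (m := b - a) (fun v hv => by
    rw [Junx43.rc_shift, Chordx355.lc_shift]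
    exact T.flo (n := a + v) (by omega) (by omega)) u hu
  rw [h, ← P_add, add_comm]

theorem gp12 (T : Pn M σ p N r k p' μ s₁ s₂ s₃ a b Ds χ') {n : ℕ} (h1 : s₂ < n) (h2 : n ≤ s₁ + N) :
    M.cell (P M (cfg M σ) p' n) ∈ Gc M (cfg M σ) p N r (k + 1) ∨
      M.cell (P M (cfg M σ) p' n) ∈ Gc M (cfg M σ) p N r (k + 2) := by
  rcases Nat.lt_or_ge s₃ n with h5 | h5
  · exact Or.inr (T.gk2.2 ⟨n, h5, h2, rfl⟩)
  · exact Or.inl (T.gk1.2 ⟨n, h1, h5, rfl⟩)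

/-- **outer arc** -/
theorem oc (T : Pn M σ p N r k p' μ s₁ s₂ s₃ a b Ds χ') :
    Oc M (cfg M σ) p N r k χ' (P M (cfg M σ) p' a) (b - a + 1) := by
  have h0 := T.ab
  have h1 := T.ha
  have h2 := T.hb
  refine ⟨?_, fun u hu => ?_, fun u hu => ?_⟩
  · obtain ⟨h3, h4⟩ := T.flo (n := a) le_rfl h0
    show χ' (M.cell (P M (cfg M σ) p' a)) + χ' (M.cell (M.rho (P M (cfg M σ) p' a))) = 1
    rw [h3, h4]
    exact P_occ T.X.even T.lp.occ a
  · rw [T.same (by omega)]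
    exact T.gp12 (by omega) (by omega)
  · rw [T.same (by omega), T.hp, ← P_add]
    exact T.X.rc_wc _

/-- the cells of the outer arc -/
theorem kcm (T : Pn M σ p N r k p' μ s₁ s₂ s₃ a b Ds χ') {c : C} :
    c ∈ Kc M (cfg M χ') (P M (cfg M σ) p' a) (b - a + 1) ↔
      ∃ n, a ≤ n ∧ n ≤ b ∧ M.cell (P M (cfg M σ) p' n) = c := by
  have h0 := T.ab
  constructor
  · rintro ⟨u, hu, e⟩
    refine ⟨a + u, by omega, by omega, ?_⟩
    rw [← T.same (by omega)]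
    exact e
  · rintro ⟨n, h1, h2, e⟩
    refine ⟨n - a, by omega, ?_⟩
    show M.cell (P M (cfg M χ') (P M (cfg M σ) p' a) (n - a)) = c
    rw [T.same (by omega), show a + (n - a) = n by omega]
    exact e

/-- the cells of the arc `k` are joined -/
theorem hj (T : Pn M σ p N r k p' μ s₁ s₂ s₃ a b Ds χ')
    (J : ∀ s, s < N → Kg M (cfg M σ) p' (g0 M σ p r) s → M.cell (P M (cfg M σ) p' s) ∈ Ds →
      Con M (cfg M χ') (M.cell (M.rho (P M (cfg M σ) p' a))) (M.cell (P M (cfg M σ) p' s))) :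
    ∀ c ∈ KC M (cfg M σ) (g0 M σ p r), c ∈ Gc M (cfg M σ) p N r k →
      Con M (cfg M χ') (M.cell (M.rho (P M (cfg M σ) p' a))) c := by
  intro c hc hk
  obtain ⟨s, hs, hK, e, h⟩ := T.tm hc
  rw [← e]
  exact J s hs hK ((T.kd s hs hK).2 (h.1 hk))

variable {π : C → C'}

/-- **the root block of the pattern `k` is a joined chord of `χ'`, its sum = one block - potential** -/
theorem cj (T : Pn M σ p N r k p' μ s₁ s₂ s₃ a b Ds χ') (Q : Cq π (AP M (cfg M σ) p N r k))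
    {hπ : ClsCon M π} (hc : Rc (AP M (cfg M σ) p N r k) (k + 1) χ₀)
    (gF : ∀ c, Free (AP M (cfg M σ) p N r k) c → χ' c = χ₀ c)
    (J : ∀ s, s < N → Kg M (cfg M σ) p' (g0 M σ p r) s → M.cell (P M (cfg M σ) p' s) ∈ Ds →
      Con M (cfg M χ') (M.cell (M.rho (P M (cfg M σ) p' a))) (M.cell (P M (cfg M σ) p' s)))
    (h1 : ∃ n, a ≤ n ∧ n ≤ b ∧ M.cell (P M (cfg M σ) p' n) =
      M.cell (M.rho (kA (coarse M π hπ) (cfg M χ₀) (rg M σ p r k))))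
    (h2 : ∃ n, a ≤ n ∧ n ≤ b ∧ M.cell (P M (cfg M σ) p' n) =
      M.cell (kB (coarse M π hπ) (cfg M χ₀) (rg M σ p r k)))
    {A : Type} [AddCommGroup A] (φ : D → A) :
    (∃ n, Jc M (cfg M χ') (P M (cfg M σ) p' a) (b - a + 1) (Wc M (cfg M σ) p)
      (kA (coarse M π hπ) (cfg M χ₀) (rg M σ p r k)) n) ∧
    ∑ h ∈ (blk (coarse M π hπ) (cfg M χ₀) (rg M σ p r k)).erase (rg M σ p r k), φ h =
      ∑ h ∈ blk M (cfg M χ') (kA (coarse M π hπ) (cfg M χ₀) (rg M σ p r k)), φ h -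
        (pot M (cfg M χ') (P M (cfg M σ) p' a) (b - a + 1) φ
            (M.cell (M.rho (kA (coarse M π hπ) (cfg M χ₀) (rg M σ p r k)))) -
          pot M (cfg M χ') (P M (cfg M σ) p' a) (b - a + 1) φ
            (M.cell (kB (coarse M π hπ) (cfg M χ₀) (rg M σ p r k)))) :=
  Exc4x790.cj T.X Q hc T.k1 T.k2 T.k3 gF T.oc (T.hj J) (T.kcm.2 h1) (T.kcm.2 h2) φ

/-- the end cells of the root block are cells of the block -/
theorem ends (T : Pn M σ p N r k p' μ s₁ s₂ s₃ a b Ds χ') (Q : Cq π (AP M (cfg M σ) p N r k))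
    {hπ : ClsCon M π} (hc : Rc (AP M (cfg M σ) p N r k) (k + 1) χ₀)
    (gF : ∀ c, Free (AP M (cfg M σ) p N r k) c → χ' c = χ₀ c) :
    (M.cell (M.rho (kA (coarse M π hπ) (cfg M χ₀) (rg M σ p r k))) ∈
        KC M (cfg M σ) (g0 M σ p r) ∧
      M.cell (M.rho (kA (coarse M π hπ) (cfg M χ₀) (rg M σ p r k))) ∈
        Gc M (cfg M σ) p N r (k + 2)) ∧
    (M.cell (kB (coarse M π hπ) (cfg M χ₀) (rg M σ p r k)) ∈ KC M (cfg M σ) (g0 M σ p r) ∧
      M.cell (kB (coarse M π hπ) (cfg M χ₀) (rg M σ p r k)) ∈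
        Gc M (cfg M σ) p N r (k + 1)) := by
  obtain ⟨n1, n2, -⟩ := z3q k
  obtain ⟨b0, b1, b2⟩ := root_mem T.X k
  have Y := net2 T.X Q hc T.k1 T.k2 T.k3 gF
  obtain ⟨h, n, H, hb, hg⟩ := Y.net0.exists hπ
  have e1 := H.E.kA (hπ := hπ) Y.net0.isC Y.gp Y.ga hb
  have e2 := H.E.kB (hπ := hπ) Y.net0.isC Y.ab Y.gp Y.gb hb
  obtain ⟨h1, h2⟩ := Y.ends H
  rw [e1, e2]
  refine ⟨⟨h1, ?_⟩, h2, ?_⟩
  · have := Q.mem (T.X.gi k) (gc_ap b0) H.E.c0
    rwa [ap_ne n2] at this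
  · have := Q.mem (T.X.gi k) (gc_ap b1) H.E.c1
    rwa [ap_ne n1] at this

end Pn

/-! ### from helper565's `RingK` -/

open Two3x565 (RingK GapK FlK Dk JdK)
open Junx43 (St Tch rc)
open Chordx355 (lc Sep)

variable {T₁ T₂ s₀ : ℕ} {Q : Set C} {g₀ g₁ : D}

theorem st_kg {x : D → ZMod 2} {s : ℕ} : s ∈ St M x p N g₀ ↔ s < N ∧ Kg M x p g₀ s := Iff.rfl

/-- `St` of two gaps of one block -/
theorem st_rel {x : D → ZMod 2} (hx : IsC M ∅ x) (h0 : Gp M x g₀) (h1 : Gp M x g₁)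
    (h : Rel M x g₀ g₁) : St M x p N g₀ = St M x p N g₁ := by
  ext s
  constructor
  · rintro ⟨a1, a2, a3⟩
    exact ⟨a1, a2, rel_trans hx h1 h0 a2 (rel_symm h) a3⟩
  · rintro ⟨a1, a2, a3⟩
    exact ⟨a1, a2, rel_trans hx h0 h1 a2 h a3⟩

/-- the gap times in `(s₁, s₂]` are those of the cells in `Dk` -/
theorem kdK {S : Set ℕ} (R : RingK M σ p' N T₁ T₂ a S Q) (G : GapK S N T₁ T₂ s₀ s₁ s₂) {s : ℕ}
    (hs : s ∈ S) : lc M (cfg M σ) p' s ∈ Dk M (cfg M σ) p' Q T₁ T₂ ↔ s₁ < s ∧ s ≤ s₂ := by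
  have c0 := G.t0; have c1 := G.t1; have c2 := G.u1; have c3 := G.t2
  constructor
  · intro h
    obtain ⟨m, m1, m2, e⟩ := R.kc G hs h
    by_contra hn
    exact R.sep _ G.m1 _ G.m2 (by omega) m m1 (by omega) s (R.sN s hs) (by omega) e
  · rintro ⟨h1, h2⟩
    -- a time `u ≤ T₂` with the same left cell
    obtain ⟨u, u1, u2, e⟩ : ∃ u, T₁ ≤ u ∧ u ≤ T₂ ∧ lc M (cfg M σ) p' u = lc M (cfg M σ) p' s := by
      rcases Nat.lt_or_ge T₂ s with h3 | h3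
      · have e0 : s = s₂ := le_antisymm h2 (G.f2 s hs h3.le)
        obtain ⟨s', -, a1, a2, a3⟩ := R.old G.m1 G.u1 G.m2 G.t2 G.f2
        exact ⟨s' + 1, by omega, by omega, by rw [a3, e0]⟩
      · exact ⟨s, by omega, h3, rfl⟩
    refine ⟨Or.inr ?_, ?_⟩
    · rw [← e]
      exact Junx43.Tch.l u2
    · rintro (h | h)
      · rw [← e] at h
        exact (R.oq u u1 u2).1 h
      · exact R.new G.m1 G.t1 hs h1 le_rfl h

/-- **`Pn` from `RingK`**, outer arc `[a, N + T₁]` -/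
theorem pnK (Z : St3 M σ p N r k p' μ s₁ s₂ s₃)
    (R : RingK M σ p' N T₁ T₂ a (St M (cfg M σ) p' N (g0 M σ p r)) Q)
    (G : GapK (St M (cfg M σ) p' N (g0 M σ p r)) N T₁ T₂ s₀ s₁ s₂) (F : FlK M σ p' Q T₁ T₂ χ')
    (ha : s₂ < a) :
    Pn M σ p N r k p' μ s₁ s₂ s₃ a (N + T₁) (Dk M (cfg M σ) p' Q T₁ T₂) χ' := by
  have c1 := G.t1
  have c2 := R.h3
  exact ⟨Z, fun u => (F u).1, fun u => (F u).2, fun s hs hK => kdK R G ⟨hs, hK⟩, by omega, ha,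
    by omega, fun n h1 h2 => ⟨R.lout h1 h2, R.rout h1 h2⟩⟩

/-- a gap time before `T₁`, equal to `s₁` or after `a`: the cell is on the outer arc -/
theorem arcK {S : Set ℕ} (R : RingK M σ p' N T₁ T₂ a S Q) (G : GapK S N T₁ T₂ s₀ s₁ s₂) {s : ℕ}
    (hs : s ∈ S) (h : s ≤ s₁ ∨ a ≤ s) :
    ∃ n, a ≤ n ∧ n ≤ N + T₁ ∧ lc M (cfg M σ) p' n = lc M (cfg M σ) p' s := by
  have c1 := G.t1
  have c2 := R.h3
  have c4 := R.sN s hs
  rcases h with h | h
  · rcases Nat.lt_or_ge s T₁ with h1 | h1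
    · exact ⟨N + s, by omega, by omega, Junx43.lc_per R.lp _⟩
    · have e0 : s = s₁ := le_antisymm h (G.f1 s hs h1)
      obtain ⟨s', -, a1, a2, a3⟩ := R.old G.m0 G.t0 G.m1 G.t1 G.f1
      exact ⟨N + (s' + 1), by omega, by omega, by rw [Junx43.lc_per R.lp, a3, e0]⟩
  · exact ⟨s, h, by omega, rfl⟩

/-- **a cell of the block in `Gc (k + 2)` is on the outer arc** -/
theorem on2 (Z : St3 M σ p N r k p' μ s₁ s₂ s₃)
    (R : RingK M σ p' N T₁ T₂ a (St M (cfg M σ) p' N (g0 M σ p r)) Q)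
    (G : GapK (St M (cfg M σ) p' N (g0 M σ p r)) N T₁ T₂ s₀ s₁ s₂) (h3 : a ≤ s₃ + 1) {c : C}
    (hc : c ∈ KC M (cfg M σ) (g0 M σ p r)) (hk : c ∈ Gc M (cfg M σ) p N r (k + 2)) :
    ∃ n, a ≤ n ∧ n ≤ N + T₁ ∧ M.cell (P M (cfg M σ) p' n) = c := by
  obtain ⟨s, hs, hK, e⟩ := Z.kc hc
  obtain ⟨n1, n2, n3, n4, n5, n6⟩ := z3q k
  obtain ⟨n, h1, h2, h4⟩ := arcK R G (s := s) ⟨hs, hK⟩ (by
    by_contra hn
    push Not at hn
    rcases Z.cls hs with ⟨a1, a2, a3⟩ | ⟨a1, -⟩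
    · rw [e] at a3
      exact n2 (Z.X.disj hk a3)
    · have := Z.gk1.2 ⟨s, by omega, by omega, e⟩
      exact n4 (Z.X.disj hk this))
  exact ⟨n, h1, h2, h4.trans e⟩

/-- **a cell of the block in `Gc (k + 1)` is on the outer arc or left at a gap time in `(s₂, a)`** -/
theorem on1 (Z : St3 M σ p N r k p' μ s₁ s₂ s₃)
    (R : RingK M σ p' N T₁ T₂ a (St M (cfg M σ) p' N (g0 M σ p r)) Q)
    (G : GapK (St M (cfg M σ) p' N (g0 M σ p r)) N T₁ T₂ s₀ s₁ s₂) {c : C}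
    (hc : c ∈ KC M (cfg M σ) (g0 M σ p r)) (hk : c ∈ Gc M (cfg M σ) p N r (k + 1)) :
    (∃ n, a ≤ n ∧ n ≤ N + T₁ ∧ M.cell (P M (cfg M σ) p' n) = c) ∨
      ∃ n, s₂ < n ∧ n < a ∧ Kg M (cfg M σ) p' (g0 M σ p r) n ∧
        M.cell (P M (cfg M σ) p' n) = c := by
  obtain ⟨s, hs, hK, e⟩ := Z.kc hc
  obtain ⟨n1, n2, n3, n4, n5, n6⟩ := z3q k
  by_cases h : s ≤ s₁ ∨ a ≤ s
  · obtain ⟨n, h1, h2, h4⟩ := arcK R G (s := s) ⟨hs, hK⟩ h
    exact Or.inl ⟨n, h1, h2, h4.trans e⟩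
  · push Not at h
    refine Or.inr ⟨s, ?_, h.2, hK, e⟩
    rcases Z.cls hs with ⟨a1, a2, a3⟩ | ⟨a1, -⟩
    · rw [e] at a3
      exact absurd (Z.X.disj hk a3) n1
    · omega

variable {π : C → C'}

/-- **(C) for one pattern**: `RingK` (helper565), static net `χ₀` of the pattern `k` on the class map
`π`, `JdK` = the pattern is joined, `mk` = the end cell `kB` is not left at a gap time in `(s₂, a)` -/
theorem cjK (Z : St3 M σ p N r k p' μ s₁ s₂ s₃)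
    (R : RingK M σ p' N T₁ T₂ a (St M (cfg M σ) p' N (g0 M σ p r)) Q)
    (G : GapK (St M (cfg M σ) p' N (g0 M σ p r)) N T₁ T₂ s₀ s₁ s₂) (F : FlK M σ p' Q T₁ T₂ χ')
    (ha : s₂ < a) (h3 : a ≤ s₃ + 1) (Qπ : Cq π (AP M (cfg M σ) p N r k)) {hπ : ClsCon M π}
    (hc : Rc (AP M (cfg M σ) p N r k) (k + 1) χ₀)
    (gF : ∀ c, Free (AP M (cfg M σ) p N r k) c → χ' c = χ₀ c)
    (J : JdK M σ p' T₁ T₂ a (St M (cfg M σ) p' N (g0 M σ p r)) Q χ')
    (mk : ∀ n, s₂ < n → n < a → Kg M (cfg M σ) p' (g0 M σ p r) n →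
      M.cell (P M (cfg M σ) p' n) ≠ M.cell (kB (coarse M π hπ) (cfg M χ₀) (rg M σ p r k)))
    {A : Type} [AddCommGroup A] (φ : D → A) :
    (∃ n, Jc M (cfg M χ') (P M (cfg M σ) p' a) (N + T₁ - a + 1) (Wc M (cfg M σ) p)
      (kA (coarse M π hπ) (cfg M χ₀) (rg M σ p r k)) n) ∧
    ∑ h ∈ (blk (coarse M π hπ) (cfg M χ₀) (rg M σ p r k)).erase (rg M σ p r k), φ h =
      ∑ h ∈ blk M (cfg M χ') (kA (coarse M π hπ) (cfg M χ₀) (rg M σ p r k)), φ h -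
        (pot M (cfg M χ') (P M (cfg M σ) p' a) (N + T₁ - a + 1) φ
            (M.cell (M.rho (kA (coarse M π hπ) (cfg M χ₀) (rg M σ p r k)))) -
          pot M (cfg M χ') (P M (cfg M σ) p' a) (N + T₁ - a + 1) φ
            (M.cell (kB (coarse M π hπ) (cfg M χ₀) (rg M σ p r k)))) := by
  have T := pnK Z R G F ha
  obtain ⟨⟨a1, a2⟩, b1, b2⟩ := T.ends (hπ := hπ) Qπ hc gF
  refine T.cj Qπ hc gF (fun s hs hK h => J s ⟨hs, hK⟩ h) (on2 Z R G h3 a1 a2) ?_ φ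
  rcases on1 Z R G b1 b2 with h | ⟨n, h1, h2, h4, h5⟩
  · exact h
  · exact absurd h5 (mk n h1 h2 h4)

/-! ### marks at gates -/

open RingMx715 (fg fg_tile fg_le)
open HullKx715 (TL GT)

/-- the first gap after a gate, gate index lifted by a period -/
theorem lift_gap {x : D → ZMod 2} {n : ℕ} {T : ℕ → ℕ} {Reg : ℕ → Set C}
    (L : Chordx355.Lp M x p N) (R : TL M x p N n T Reg) (G : GT n T (St M x p N g₀)) {q i : ℕ}
    (hq : q < n) (hi : i = q ∨ i = q + n) :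
    ∃ ρ, (ρ = fg (St M x p N g₀) (T q) ∨ ρ = fg (St M x p N g₀) (T q) + N) ∧ T i ≤ ρ ∧
      ρ < T (i + 1) ∧ Kg M x p g₀ ρ ∧ ∀ s, Kg M x p g₀ s → T i ≤ s → ρ ≤ s := by
  obtain ⟨f1, f2, f3⟩ := fg_tile G hq
  have L' := RingMx715.lp117 L
  have hK : Kg M x p g₀ (fg (St M x p N g₀) (T q)) := f1.2
  have hf := f1.1
  rcases hi with rfl | rfl
  · refine ⟨_, Or.inl rfl, f2, f3, hK, fun s hs h => ?_⟩
    rcases Nat.lt_or_ge s N with h1 | h1
    · exact fg_le ⟨h1, hs⟩ h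
    · omega
  · have e1 := R.per q
    have e2 := R.per (q + 1)
    refine ⟨_, Or.inr rfl, by omega, ?_, hK.add L', fun s hs h => ?_⟩
    · rw [show q + n + 1 = q + 1 + n by omega]
      omega
    · obtain ⟨t, rfl⟩ : ∃ t, s = t + N := ⟨s - N, by omega⟩
      rcases Nat.lt_or_ge t N with h1 | h1
      · have h2 : Kg M x p g₀ t := by
          unfold Kg at hs ⊢
          rwa [L'.gp_add] at hs
        have := fg_le (S := St M x p N g₀) (t := T q) (s := t) ⟨h1, h2⟩ (by omega)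
        omega
      · omega

theorem kg_shift {x : D → ZMod 2} {s b : ℕ} :
    Kg M x (P M x p b) g₀ s ↔ Kg M x p g₀ (s + b) := by
  have h : gp M x (P M x p b) s = gp M x p (s + b) := by
    show M.rho (M.rho (P M x (P M x p b) s)) = M.rho (M.rho (P M x p (s + b)))
    rw [P_add]
  unfold Kg
  rw [h]

/-- the dart at a lifted time -/
theorem dart_lift {x : D → ZMod 2} (L : Chordx355.Lp M x p N) {ρ ρ₀ b : ℕ}
    (h : ρ = ρ₀ ∨ ρ = ρ₀ + N) (hb : b ≤ ρ) : P M x (P M x p b) (ρ - b) = P M x p ρ₀ := by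
  rw [← P_add, show ρ - b + b = ρ by omega]
  rcases h with rfl | rfl
  · rfl
  · exact (RingMx715.lp117 L).add ρ₀

/-- **marks at gates**: base `p`, gates `T`, `r j` = first gap of the block after the gate `q j`;
start of the pattern `k` at the gate `b`, `i₁ < i₂ < i₃ < b + n` the gate indices `q k`, `q (k + 1)`,
`q (k + 2)` lifted by a period -/
theorem gates {n : ℕ} {T : ℕ → ℕ} {Reg : ℕ → Set C} {q : ZMod 3 → ℕ}
    (L : Chordx355.Lp M (cfg M σ) p N) (hcol : σ (M.cell p) = 1)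
    (R : TL M (cfg M σ) p N n T Reg) (hg : Gp M (cfg M σ) g₀)
    (G : GT n T (St M (cfg M σ) p N g₀)) (q01 : q 0 < q 1) (q12 : q 1 < q 2) (q2 : q 2 < n)
    {i₁ i₂ i₃ b : ℕ} (e1 : i₁ = q k ∨ i₁ = q k + n) (e2 : i₂ = q (k + 1) ∨ i₂ = q (k + 1) + n)
    (e3 : i₃ = q (k + 2) ∨ i₃ = q (k + 2) + n) (hb : b < i₁) (h12 : i₁ < i₂) (h23 : i₂ < i₃)
    (h3 : i₃ < b + n) :
    ∃ s₀ s₁ s₂ s₃, St3 M σ p N (fun j => fg (St M (cfg M σ) p N g₀) (T (q j))) k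
        (P M (cfg M σ) p (T b)) (T b) s₁ s₂ s₃ ∧
      St M (cfg M σ) (P M (cfg M σ) p (T b)) N
          (g0 M σ p fun j => fg (St M (cfg M σ) p N g₀) (T (q j))) =
        St M (cfg M σ) (P M (cfg M σ) p (T b)) N g₀ ∧
      GapK (St M (cfg M σ) (P M (cfg M σ) p (T b)) N g₀) N (T i₁ - T b) (T i₂ - T b) s₀ s₁ s₂ ∧
      s₂ < T (i₂ + 1) - T b ∧ T (i₂ + 1) - T b ≤ s₃ ∧
      (b ≤ n → GT n (fun j => T (b + j) - T b)
        (St M (cfg M σ) (P M (cfg M σ) p (T b)) N g₀)) := by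
  have hq : ∀ j, q j < n := by
    intro j
    rcases z3e j with rfl | rfl | rfl <;> omega
  have X := RingMx715.rg3_of L hcol R hg G q01 q12 q2
  obtain ⟨ρ₁, r1, a1, b1, k1, m1⟩ := lift_gap L R G (hq k) e1
  obtain ⟨ρ₂, r2, a2, b2, k2, m2⟩ := lift_gap L R G (hq (k + 1)) e2
  obtain ⟨ρ₃, r3, a3, b3, k3, m3⟩ := lift_gap L R G (hq (k + 2)) e3
  -- a gap in the tile `b`
  obtain ⟨ρ₀, a0, b0, k0⟩ : ∃ ρ₀, T b ≤ ρ₀ ∧ ρ₀ < T (b + 1) ∧ Kg M (cfg M σ) p g₀ ρ₀ := by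
    have hn : 0 < n := by omega
    have hdiv := Nat.div_add_mod b n
    -- every gate index is a lift of an index below `n`
    have key : ∀ m c, c < n → ∃ ρ, T (c + m * n) ≤ ρ ∧ ρ < T (c + m * n + 1) ∧
        Kg M (cfg M σ) p g₀ ρ := by
      intro m c hc
      induction m with
      | zero =>
        obtain ⟨f1, f2, f3⟩ := fg_tile G hc
        refine ⟨_, ?_, ?_, f1.2⟩
        · rwa [Nat.zero_mul, Nat.add_zero]
        · rwa [Nat.zero_mul, Nat.add_zero]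
      | succ m ih =>
        obtain ⟨ρ, h1, h2, h4⟩ := ih
        have u1 := R.per (c + m * n)
        have u2 := R.per (c + m * n + 1)
        refine ⟨ρ + N, ?_, ?_, h4.add (RingMx715.lp117 L)⟩
        · rw [show c + (m + 1) * n = c + m * n + n by ring]
          omega
        · rw [show c + (m + 1) * n + 1 = c + m * n + 1 + n by ring]
          omega
    obtain ⟨ρ, h1, h2, h4⟩ := key (b / n) (b % n) (Nat.mod_lt _ hn)
    have e : b % n + b / n * n = b := by rw [Nat.mul_comm]; omega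
    rw [e] at h1 h2
    exact ⟨ρ, h1, h2, h4⟩
  have t0 := R.le (show b + 1 ≤ i₁ by omega)
  have t1 := R.le (show i₁ + 1 ≤ i₂ by omega)
  have t2 := R.le (show i₂ + 1 ≤ i₃ by omega)
  have t3 := R.le (show i₃ + 1 ≤ b + n by omega)
  have t4 := R.per b
  have hS : ∀ s, s ∈ St M (cfg M σ) (P M (cfg M σ) p (T b)) N g₀ ↔
      s < N ∧ Kg M (cfg M σ) p g₀ (s + T b) := fun s => by rw [st_kg, kg_shift]
  refine ⟨ρ₀ - T b, ρ₁ - T b, ρ₂ - T b, ρ₃ - T b,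
    ⟨X, rfl, by omega, by omega, by omega, ?_, ?_, ?_⟩, ?_, ⟨?_, ?_, ?_, by omega, by omega,
      by omega, by omega, by omega, ?_, ?_⟩, by omega, by omega, ?_⟩
  · exact dart_lift L r1 (by omega)
  · exact dart_lift L r2 (by omega)
  · exact dart_lift L r3 (by omega)
  · obtain ⟨f1, -, -⟩ := fg_tile G (hq 0)
    exact (st_rel L.ev hg f1.2.1 f1.2.2).symm
  · exact (hS _).2 ⟨by omega, by rwa [Nat.sub_add_cancel (by omega)]⟩
  · exact (hS _).2 ⟨by omega, by rwa [Nat.sub_add_cancel (by omega)]⟩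
  · exact (hS _).2 ⟨by omega, by rwa [Nat.sub_add_cancel (by omega)]⟩
  · intro s hs h
    have := m1 _ ((hS s).1 hs).2 (by omega)
    omega
  · intro s hs h
    have := m2 _ ((hS s).1 hs).2 (by omega)
    omega
  · exact fun hbn => RingMx715.gt_shift L R G hbn

end

end Crest.Agent.R143.Exc5x790
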