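import Crest.Agent.R143.RingO_715
import Crest.Agent.R143.Two3_565

/-!
# Row 143 (S0194), block H, H5 (J): the instance of 565's three starts (helper715)

Absolute times on the ring loop with tiles `TL`; starts `m k` and marks `t k` with period three up to
one turn, `m k < t k < m (k + 1)`; `m k` between the gates `a k` and `b k`, `t k` between `l k` and
`u k` (`S3`).
* `ringk_of`, `nextk_of` : one `RingK`, one `NextK`
* **`S3.ringk`**, **`S3.nextk`** : all the hypotheses of 565's `two3`; **`S3.two`** : the conclusion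
-/

set_option autoImplicit false
set_option linter.unusedSectionVars false

noncomputable section

open scoped Classical

namespace Crest.Agent.R143.RingTx715

open Crest.Agent.R143.Frame1x395 Crest.Agent.R143.Frame2x395 Crest.Agent.R143.Frame3x395
  Crest.Agent.R143.Frame8x395 Crest.Agent.R143.Frame9x395 Crest.Agent.R143.Frame11x395
  Crest.Agent.R143.NonXx592 Crest.Agent.R143.Junx43 Crest.Agent.R143.Patx828
  Crest.Agent.R143.HullKx715 Crest.Agent.R143.Jun3x565 Crest.Agent.R143.RingMx715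
  Crest.Agent.R143.RingNx715 Crest.Agent.R143.RingOx715 Crest.Agent.R143.Two3x565
open Crest.Agent.R143.Chordx355 (lc gt rho_gt Sep)
open Crest.Agent.R143.Splx117 (gp)

variable {D C : Type} {M : CMap D C} {x : D → ZMod 2} {p : D} {N n : ℕ} {T : ℕ → ℕ}
  {Reg : ℕ → Set C} {c : C} {g₀ : D}

/-- 565's `RingK` from the fields -/
theorem RKK {χ : C → ZMod 2} {T₁ T₂ a₂ : ℕ} {S : Set ℕ} {Q : Set C}
    (H : RK M χ p N T₁ T₂ a₂ S Q) : RingK M χ p N T₁ T₂ a₂ S Q :=
  ⟨H.lp, H.sN, H.sep, H.prv, H.e0, H.e1, by obtain ⟨s, h1, h2, -⟩ := H.e2; exact ⟨s, h1, h2⟩,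
    H.h1, H.h2, H.h3, H.oq, H.o2⟩

/-- three starts and three marks on the loop, absolute times, periodic up to one turn -/
structure S3 (N n : ℕ) (T : ℕ → ℕ) (m t a b l u : ℕ → ℕ) : Prop where
  mN : ∀ k, m (k + 3) = m k + N
  tN : ∀ k, t (k + 3) = t k + N
  aN : ∀ k, a (k + 3) = a k + n
  ma : ∀ k, T (a k) ≤ m k
  mb : ∀ k, m k ≤ T (b k)
  tl : ∀ k, T (l k) ≤ t k
  tu : ∀ k, t k ≤ T (u k)
  bl : ∀ k, b k + 1 ≤ l k
  lu : ∀ k, l k ≤ u k
  ua : ∀ k, u k + 1 ≤ a (k + 1)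

namespace S3

variable {m t a b l u : ℕ → ℕ}

theorem ab (H : S3 N n T m t a b l u) (R : TL M x p N n T Reg) (k : ℕ) : a k ≤ b k :=
  R.mono.le_iff_le.1 ((H.ma k).trans (H.mb k))

/-- order of the windows -/
theorem ord (H : S3 N n T m t a b l u) (R : TL M x p N n T Reg) (k : ℕ) :
    a k ≤ b k ∧ b k + 1 ≤ l k ∧ l k ≤ u k ∧ u k + 1 ≤ a (k + 1) ∧
      u (k + 2) + 1 ≤ a k + n ∧ u (k + 1) + 2 ≤ a k + n := by
  have h1 := H.ua (k + 1)
  have h2 := H.ua (k + 2)
  have h3 := H.ab R (k + 2)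
  have h4 := H.bl (k + 2)
  have h5 := H.lu (k + 2)
  have h6 := H.aN k
  have e1 : k + 1 + 1 = k + 2 := by omega
  have e2 : k + 2 + 1 = k + 3 := by omega
  rw [e1] at h1
  rw [e2] at h2
  exact ⟨H.ab R k, H.bl k, H.lu k, H.ua k, by omega, by omega⟩

theorem mt (H : S3 N n T m t a b l u) (R : TL M x p N n T Reg) (k : ℕ) : m k ≤ t k :=
  (H.mb k).trans ((R.le (show b k ≤ l k by have := H.bl k; omega)).trans (H.tl k))

theorem tm (H : S3 N n T m t a b l u) (R : TL M x p N n T Reg) (k : ℕ) : t k ≤ m (k + 1) :=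
  (H.tu k).trans ((R.le (show u k ≤ a (k + 1) by have := H.ua k; omega)).trans (H.ma (k + 1)))

variable [Fintype D] {χ : C → ZMod 2}

/-- **`RingK` for the pattern `k`** : start `m k`, marks `t k`, `t (k + 1)`, outer arc from the gate
`u (k + 1) + 1` -/
theorem ringk (H : S3 N n T m t a b l u) (L : Chordx355.Lp M (cfg M χ) p N)
    (R : TL M (cfg M χ) p N n T Reg) (hg : Gp M (cfg M χ) g₀)
    (G : GT n T (St M (cfg M χ) p N g₀)) (k : ℕ) {Q : Set C}
    (hQ : ∀ i, l k ≤ i → i < u (k + 1) → Disjoint (Reg i) Q) :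
    RingK M χ (P M (cfg M χ) p (m k)) N (t k - m k) (t (k + 1) - m k)
      (T (u (k + 1) + 1) - m k) (St M (cfg M χ) (P M (cfg M χ) p (m k)) N g₀) Q := by
  obtain ⟨h1, h2, h3, h4, h5, h6⟩ := H.ord R k
  obtain ⟨g1, g2, g3, g4, -, -⟩ := H.ord R (k + 1)
  exact RKK (rk_of L R hg G (v₀ := a k) (v := b k) (l₁ := l k) (u₁ := u k) (l₂ := l (k + 1))
    (u₂ := u (k + 1)) (H.ma k) (H.mb k) h2 h3 (by omega) g3 (by omega) (H.tl k) (H.tu k)
    (H.tl (k + 1)) (H.tu (k + 1)) hQ)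

/-- **`NextK` from the pattern `k` to the pattern `k + 1`** -/
theorem nextk (H : S3 N n T m t a b l u) (R : TL M (cfg M χ) p N n T Reg) (k : ℕ) :
    NextK M χ (P M (cfg M χ) p (m k)) (P M (cfg M χ) p (m (k + 1))) (m (k + 1) - m k)
      (t (k + 1) - m k) (T (u (k + 1) + 1) - m k) (t (k + 1) - m (k + 1))
      (t (k + 2) - m (k + 1)) (St M (cfg M χ) (P M (cfg M χ) p (m k)) N g₀)
      (St M (cfg M χ) (P M (cfg M χ) p (m (k + 1))) N g₀) := by
  obtain ⟨h1, h2, h3, h4, h5, h6⟩ := H.ord R k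
  obtain ⟨g1, g2, g3, g4, -, -⟩ := H.ord R (k + 1)
  have e1 : k + 1 + 1 = k + 2 := by omega
  rw [e1] at g4
  obtain ⟨i1, i2, i3, -, -, -⟩ := H.ord R (k + 2)
  have m1 := H.mt R k
  have m2 := H.tm R k
  have m3 := H.mt R (k + 1)
  have m4 := H.tm R (k + 1)
  have m5 := H.mt R (k + 2)
  rw [e1] at m4
  have b1 : T (u (k + 1) + 1) ≤ T (l (k + 2)) := R.le (by omega)
  have b2 := H.tl (k + 2)
  have b3 : m (k + 1) ≤ T (l (k + 1) - 1) := (H.mb (k + 1)).trans (R.le (by omega))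
  refine ⟨next_start (by omega), by omega, by omega, ?_, ?_⟩
  · intro s hs h
    exact shift_of (by omega) hs (by omega)
  · intro s h7 h8 h9
    exact loc_of R (v₀ := a k) (l₂ := l (k + 1)) (u₂ := u (k + 1)) (H.ma k) (by omega)
      (by omega) g3 (H.tu (k + 1)) (H.tl (k + 1)) (by omega) b3 h7 h8 (Or.inr rfl) h9

end S3

/-! ### the three patterns -/

section three

variable [Fintype D] {χ : C → ZMod 2} {m t a b l u : ℕ → ℕ}

/-- values at `0, 1, 2` -/
theorem z3v (k : ZMod 3) : k = 0 ∨ k = 1 ∨ k = 2 := z3e k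

/-- **565's `two3` for the ring** : pattern `k` = start `m k`, marks `t k` and `t (k + 1)` -/
theorem S3.two (H : S3 N n T m t a b l u) (L : Chordx355.Lp M (cfg M χ) p N)
    (R : TL M (cfg M χ) p N n T Reg) (hg : Gp M (cfg M χ) g₀)
    (G : GT n T (St M (cfg M χ) p N g₀)) {Q : ZMod 3 → Set C}
    (hQ : ∀ k : ZMod 3, ∀ i, l k.val ≤ i → i < u (k.val + 1) → Disjoint (Reg i) (Q k)) :
    (∀ k : ZMod 3, RingK M χ (P M (cfg M χ) p (m k.val)) N (t k.val - m k.val)
      (t (k.val + 1) - m k.val) (T (u (k.val + 1) + 1) - m k.val)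
      (St M (cfg M χ) (P M (cfg M χ) p (m k.val)) N g₀) (Q k)) ∧
    (∀ k : ZMod 3, NextK M χ (P M (cfg M χ) p (m k.val)) (P M (cfg M χ) p (m (k + 1).val))
      (m (k.val + 1) - m k.val) (t (k.val + 1) - m k.val) (T (u (k.val + 1) + 1) - m k.val)
      (t (k + 1).val - m (k + 1).val) (t ((k + 1).val + 1) - m (k + 1).val)
      (St M (cfg M χ) (P M (cfg M χ) p (m k.val)) N g₀)
      (St M (cfg M χ) (P M (cfg M χ) p (m (k + 1).val)) N g₀)) ∧
    ∃ i : ZMod 3, ∀ k, k ≠ i → ∀ χ',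
      FlK M χ (P M (cfg M χ) p (m k.val)) (Q k) (t k.val - m k.val) (t (k.val + 1) - m k.val) χ' →
      JdK M χ (P M (cfg M χ) p (m k.val)) (t k.val - m k.val) (t (k.val + 1) - m k.val)
        (T (u (k.val + 1) + 1) - m k.val) (St M (cfg M χ) (P M (cfg M χ) p (m k.val)) N g₀)
        (Q k) χ' := by
  have hR : ∀ k : ZMod 3, RingK M χ (P M (cfg M χ) p (m k.val)) N (t k.val - m k.val)
      (t (k.val + 1) - m k.val) (T (u (k.val + 1) + 1) - m k.val)
      (St M (cfg M χ) (P M (cfg M χ) p (m k.val)) N g₀) (Q k) := fun k =>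
    H.ringk L R hg G k.val (hQ k)
  have hX : ∀ k : ZMod 3, NextK M χ (P M (cfg M χ) p (m k.val)) (P M (cfg M χ) p (m (k + 1).val))
      (m (k.val + 1) - m k.val) (t (k.val + 1) - m k.val) (T (u (k.val + 1) + 1) - m k.val)
      (t (k + 1).val - m (k + 1).val) (t ((k + 1).val + 1) - m (k + 1).val)
      (St M (cfg M χ) (P M (cfg M χ) p (m k.val)) N g₀)
      (St M (cfg M χ) (P M (cfg M χ) p (m (k + 1).val)) N g₀) := by
    intro k
    rcases z3v k with rfl | rfl | rfl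
    · exact H.nextk R 0
    · exact H.nextk R 1
    · have h1 := H.nextk (g₀ := g₀) R 2
      have e1 : P M (cfg M χ) p (m (2 + 1)) = P M (cfg M χ) p (m 0) := by
        rw [show (2 + 1 : ℕ) = 0 + 3 by rfl, H.mN, P_per L.per]
      have e2 : t (2 + 1) - m (2 + 1) = t 0 - m 0 := by
        rw [show (2 + 1 : ℕ) = 0 + 3 by rfl, H.mN, H.tN]
        omega
      have e3 : t (2 + 2) - m (2 + 1) = t 1 - m 0 := by
        rw [show (2 + 2 : ℕ) = 1 + 3 by rfl, show (2 + 1 : ℕ) = 0 + 3 by rfl, H.mN, H.tN]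
        omega
      rw [e1, e2, e3] at h1
      exact h1
  refine ⟨hR, hX, ?_⟩
  exact two3 (p := fun k => P M (cfg M χ) p (m k.val)) (T := fun k => t k.val - m k.val)
    (U := fun k => t (k.val + 1) - m k.val) (a := fun k => T (u (k.val + 1) + 1) - m k.val)
    (S := fun k => St M (cfg M χ) (P M (cfg M χ) p (m k.val)) N g₀) (Q := Q)
    (m := fun k => m (k.val + 1) - m k.val) hR hX

end three

end Crest.Agent.R143.RingTx715
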