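import Crest.Agent.R143.Exc5_790
import Crest.Agent.R143.RingT_715

/-!
# Row 143 (S0194), block H, H5 (C) (helper790): three patterns, three starts, on helper715's ring

`S3` (715): starts `m k`, marks `t k` (absolute times of the loop, period three = one turn),
`x = cfg M χ`, base point `P M x p (m 0)` of the three patterns, `r3 j` = first gap of the block at or
after the mark `t j`.
* `Af` : first gap of the block at or after an absolute time
* `S3.rg3` : 828's `Rg3`; `S3.st3` : `St3`, `GapK` for the pattern `k`, start `P M x p (m k)`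
* `RJ` : the root block of a static net is a joined chord of `χ'`, the sums
* **`S3.cj`** : (C) for one joined pattern; **`S3.cj3`** : for all but one of the three patterns
* `S3.same` : same states on the outer arc, absolute times `[T (u (k + 1) + 1), t k + N]`
-/

set_option autoImplicit false
set_option linter.unusedSectionVars false

noncomputable section

open scoped Classical

namespace Crest.Agent.R143.Exc6x790

open Crest.Agent.R143.Frame1x395 Crest.Agent.R143.Frame2x395 Crest.Agent.R143.Frame3x395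
  Crest.Agent.R143.Frame8x395 Crest.Agent.R143.Frame9x395 Crest.Agent.R143.Frame11x395
  Crest.Agent.R143.NonXx592 Crest.Agent.R143.Coarsex166 Crest.Agent.R143.Coarse2x166
  Crest.Agent.R143.Chord2x355 Crest.Agent.R143.H2x355 Crest.Agent.R143.Exc4x790
  Crest.Agent.R143.Exc5x790 Crest.Agent.R143.Patx828
open Crest.Agent.R143.C2SBx395 (Free Gi Cq Root Rc)
open Crest.Agent.R143.Splx117 (gp)
open Crest.Agent.R143.Junx43 (St Tch)
open Crest.Agent.R143.HullKx715 (TL GT)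
open Crest.Agent.R143.RingMx715 (fg fg_mem fg_le lp117)
open Crest.Agent.R143.RingOx715
open Crest.Agent.R143.RingTx715 (S3)
open Crest.Agent.R143.Two3x565 (RingK NextK GapK FlK Dk JdK)

variable {D C C' : Type} {M : CMap D C} {x : D → ZMod 2} {p : D} {N n : ℕ} {T : ℕ → ℕ}
  {Reg : ℕ → Set C} {g₀ : D} {m t a b l u : ℕ → ℕ}

/-- first gap of the block at or after the absolute time `τ` -/
def Af (M : CMap D C) (x : D → ZMod 2) (p g₀ : D) (τ : ℕ) : ℕ := sInf {s | AG M x p g₀ s ∧ τ ≤ s}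

theorem af_mem {τ s : ℕ} (h : AG M x p g₀ s) (hs : τ ≤ s) :
    AG M x p g₀ (Af M x p g₀ τ) ∧ τ ≤ Af M x p g₀ τ :=
  Nat.sInf_mem (s := {s | AG M x p g₀ s ∧ τ ≤ s}) ⟨s, h, hs⟩

theorem af_le {τ s : ℕ} (h : AG M x p g₀ s) (hs : τ ≤ s) : Af M x p g₀ τ ≤ s :=
  Nat.sInf_le (s := {s | AG M x p g₀ s ∧ τ ≤ s}) ⟨h, hs⟩

/-- the first gap after a time before the gate `i` is before the gate `i + 1` -/
theorem af_tile (L : Chordx355.Lp M x p N) (R : TL M x p N n T Reg) (G : GT n T (St M x p N g₀))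
    {τ i : ℕ} (h : τ ≤ T i) : AG M x p g₀ (Af M x p g₀ τ) ∧ τ ≤ Af M x p g₀ τ ∧
      Af M x p g₀ τ < T (i + 1) := by
  obtain ⟨s, h1, h2, h3⟩ := ga_of L R G i
  obtain ⟨h4, h5⟩ := af_mem h1 (h.trans h2)
  exact ⟨h4, h5, lt_of_le_of_lt (af_le h1 (h.trans h2)) h3⟩

/-- periodicity -/
theorem af_per (L : Chordx355.Lp M x p N) (R : TL M x p N n T Reg) (G : GT n T (St M x p N g₀))
    {τ i : ℕ} (h : τ ≤ T i) : Af M x p g₀ (τ + N) = Af M x p g₀ τ + N := by
  obtain ⟨h1, h2, -⟩ := af_tile L R G h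
  have h3 : AG M x p g₀ (Af M x p g₀ τ + N) := (ag_per L _).2 h1
  refine le_antisymm (af_le h3 (by omega)) ?_
  obtain ⟨h4, h5⟩ := af_mem h3 (show τ + N ≤ Af M x p g₀ τ + N by omega)
  obtain ⟨s, hs⟩ : ∃ s, Af M x p g₀ (τ + N) = s + N := ⟨Af M x p g₀ (τ + N) - N, by omega⟩
  rw [hs] at h4 h5 ⊢
  have := af_le ((ag_per L s).1 h4) (τ := τ) (by omega)
  omega

/-- the junction gaps (relative to the base point `P M x p (m 0)`) -/
def r3 (M : CMap D C) (x : D → ZMod 2) (p : D) (N : ℕ) (g₀ : D) (m t : ℕ → ℕ) (j : ZMod 3) : ℕ :=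
  fg (St M x (P M x p (m 0)) N g₀) (t j.val - m 0)

/-- index of the pattern as a number -/
theorem z3i (k : ZMod 3) : (k.val = (k + 0).val ∨ k.val = (k + 0).val + 3) ∧
    (k.val + 1 = (k + 1).val ∨ k.val + 1 = (k + 1).val + 3) ∧
    (k.val + 2 = (k + 2).val ∨ k.val + 2 = (k + 2).val + 3) ∧ k.val < 3 := by
  revert k
  decide

section s3

variable {M : CMap D C}

/-- `r3` in absolute time -/
theorem r3_eq (H : S3 N n T m t a b l u) (L : Chordx355.Lp M x p N) (R : TL M x p N n T Reg)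
    (G : GT n T (St M x p N g₀)) (j : ZMod 3) :
    r3 M x p N g₀ m t j + m 0 = Af M x p g₀ (t j.val) := by
  have hj : j.val < 3 := (z3i j).2.2.2
  -- `m 0 ≤ t j`, `t j ≤ T (u j)`, `T (u j + 1) ≤ m 0 + N`
  have h0 : m 0 ≤ t j.val := by
    have a0 := H.mt R 0
    have a1 : t 0 ≤ m 1 := H.tm R 0
    have a2 := H.mt R 1
    have a3 : t 1 ≤ m 2 := H.tm R 1
    have a4 := H.mt R 2
    interval_cases j.val <;> omega
  have hu : u j.val + 1 ≤ a 3 := by
    have a0 : u 0 + 1 ≤ a 1 := H.ua 0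
    have a1 : u 1 + 1 ≤ a 2 := H.ua 1
    have a2 : u 2 + 1 ≤ a 3 := H.ua 2
    have b1 := H.ord R 1
    have b2 := H.ord R 2
    interval_cases j.val <;> omega
  have h3 : T (u j.val + 1) ≤ m 0 + N := by
    have := H.ma 3
    have h4 := H.mN 0
    rw [zero_add] at h4
    have := R.le hu
    omega
  obtain ⟨h1, h2, h4⟩ := af_tile L R G (H.tu j.val)
  have hS : Af M x p g₀ (t j.val) - m 0 ∈ St M x (P M x p (m 0)) N g₀ :=
    st_abs.2 ⟨by omega, by rwa [Nat.sub_add_cancel (by omega)]⟩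
  obtain ⟨h5, h6⟩ := fg_mem hS (show t j.val - m 0 ≤ Af M x p g₀ (t j.val) - m 0 by omega)
  have h7 := fg_le hS (show t j.val - m 0 ≤ Af M x p g₀ (t j.val) - m 0 by omega)
  have h8 := af_le (st_abs.1 h5).2 (τ := t j.val) (by omega)
  unfold r3
  omega

/-- the dart at the junction gap `A` -/
theorem r3_P (H : S3 N n T m t a b l u) (L : Chordx355.Lp M x p N) (R : TL M x p N n T Reg)
    (G : GT n T (St M x p N g₀)) {j : ZMod 3} {i k : ℕ} (hi : i = j.val ∨ i = j.val + 3)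
    (hk : m k ≤ Af M x p g₀ (t i)) :
    P M x (P M x p (m k)) (Af M x p g₀ (t i) - m k) =
      P M x (P M x p (m 0)) (r3 M x p N g₀ m t j) := by
  rw [← P_add, ← P_add, Nat.sub_add_cancel hk, r3_eq H L R G]
  rcases hi with rfl | rfl
  · rfl
  · rw [H.tN, af_per L R G (H.tu j.val)]
    exact (lp117 L).add _

variable [Fintype D] {χ : C → ZMod 2}

/-- **828's `Rg3`** -/
theorem _root_.Crest.Agent.R143.RingTx715.S3.rg3 (H : S3 N n T m t a b l u)
    (L : Chordx355.Lp M (cfg M χ) p N) (hcol : χ (M.cell p) = 1)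
    (R : TL M (cfg M χ) p N n T Reg) (hg : Gp M (cfg M χ) g₀)
    (G : GT n T (St M (cfg M χ) p N g₀)) :
    Rg3 M χ (P M (cfg M χ) p (m 0)) N (r3 M (cfg M χ) p N g₀ m t) := by
  have o0 := H.ord R 0
  have o1 := H.ord R 1
  have o2 := H.ord R 2
  have c0 : u 0 + 1 ≤ a 1 := H.ua 0
  have c1 : u 1 + 1 ≤ a 2 := H.ua 1
  have c2 : u 2 + 1 ≤ a 3 := H.ua 2
  have c3 : a 3 = a 0 + n := H.aN 0
  refine rg3_o (v₀ := a 0) (v := b 0) (l := fun j => l j.val) (u := fun j => u j.val)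
    (t := fun j => t j.val) L hcol R hg G (H.ma 0) ?_ ⟨H.mb 0, ?_, fun j => H.lu _, ?_, ?_,
      fun j => H.tl _, fun j => H.tu _⟩
  · show u 2 + 1 ≤ a 0 + n
    omega
  · show b 0 ≤ l 0
    omega
  · show u 0 + 1 ≤ l 1
    omega
  · show u 1 + 1 ≤ l 2
    omega

/-- **`St3` and `GapK` of the pattern `k`** -/
theorem _root_.Crest.Agent.R143.RingTx715.S3.st3 (H : S3 N n T m t a b l u)
    (L : Chordx355.Lp M (cfg M χ) p N) (hcol : χ (M.cell p) = 1)
    (R : TL M (cfg M χ) p N n T Reg) (hg : Gp M (cfg M χ) g₀)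
    (G : GT n T (St M (cfg M χ) p N g₀)) (k : ZMod 3) :
    ∃ s₀ s₁ s₂ s₃, St3 M χ (P M (cfg M χ) p (m 0)) N (r3 M (cfg M χ) p N g₀ m t) k
        (P M (cfg M χ) p (m k.val)) (m k.val - m 0) s₁ s₂ s₃ ∧
      St M (cfg M χ) (P M (cfg M χ) p (m k.val)) N
          (g0 M χ (P M (cfg M χ) p (m 0)) (r3 M (cfg M χ) p N g₀ m t)) =
        St M (cfg M χ) (P M (cfg M χ) p (m k.val)) N g₀ ∧
      GapK (St M (cfg M χ) (P M (cfg M χ) p (m k.val)) N g₀) N (t k.val - m k.val)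
        (t (k.val + 1) - m k.val) s₀ s₁ s₂ ∧
      s₂ < T (u (k.val + 1) + 1) - m k.val ∧ T (u (k.val + 1) + 1) - m k.val ≤ s₃ := by
  obtain ⟨i0, i1, i2, i3⟩ := z3i k
  have X := H.rg3 L hcol R hg G
  generalize hκ : k.val = κ at *
  obtain ⟨A0, B0, C0⟩ := af_tile L R G (H.tu κ)
  obtain ⟨A1, B1, C1⟩ := af_tile L R G (H.tu (κ + 1))
  obtain ⟨A2, B2, C2⟩ := af_tile L R G (H.tu (κ + 2))
  obtain ⟨gb, A3, B3, C3⟩ := ga_of L R G (b κ)
  have e1 : κ + 1 + 1 = κ + 2 := rfl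
  have e2 : κ + 2 + 1 = κ + 3 := rfl
  have m0 := H.mt R κ
  have m1 := H.tm R κ
  have m2 := H.mt R (κ + 1)
  have m3 := H.tm R (κ + 1)
  have m4 := H.mt R (κ + 2)
  rw [e1] at m3
  have u0 := R.le (H.ua κ)
  have u1 := R.le (H.ua (κ + 1))
  have u2 := R.le (H.ua (κ + 2))
  rw [e1] at u1
  rw [e2] at u2
  have v0 := H.ma (κ + 1)
  have v1 := H.ma (κ + 2)
  have v2 := H.ma (κ + 3)
  have w0 := H.mN κ
  have b0 := H.mb κ
  have b1 := R.le (H.bl κ)
  have b2 := H.tl κ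
  have hm0 : m 0 ≤ m κ := by
    have c0 := H.mt R 0
    have c1 := H.tm R 0
    have c2 := H.mt R 1
    have c3 := H.tm R 1
    rw [zero_add] at c1
    have e3 : 1 + 1 = 2 := rfl
    rw [e3] at c3
    interval_cases κ <;> omega
  have hS : ∀ s, s ∈ St M (cfg M χ) (P M (cfg M χ) p (m κ)) N g₀ ↔
      s < N ∧ AG M (cfg M χ) p g₀ (s + m κ) := fun s => st_abs
  rw [add_zero, hκ] at i0
  refine ⟨gb - m κ, Af M (cfg M χ) p g₀ (t κ) - m κ, Af M (cfg M χ) p g₀ (t (κ + 1)) - m κ,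
    Af M (cfg M χ) p g₀ (t (κ + 2)) - m κ, ⟨X, ?_, by omega, by omega, by omega, ?_, ?_, ?_⟩, ?_,
    ⟨?_, ?_, ?_, by omega, by omega, by omega, by omega, by omega, ?_, ?_⟩, by omega, by omega⟩
  · rw [← P_add, Nat.sub_add_cancel hm0]
  · exact r3_P H L R G (Or.inl hκ.symm) (by omega)
  · exact r3_P H L R G i1 (by omega)
  · exact r3_P H L R G i2 (by omega)
  · have h1 : AG M (cfg M χ) p g₀ (r3 M (cfg M χ) p N g₀ m t 0 + m 0) := by
      rw [r3_eq H L R G]
      exact (af_tile L R G (H.tu _)).1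
    unfold AG Chordx355.gt at h1
    rw [P_add] at h1
    exact (st_rel L.ev hg h1.1 h1.2).symm
  · exact (hS _).2 ⟨by omega, by rwa [Nat.sub_add_cancel (by omega)]⟩
  · exact (hS _).2 ⟨by omega, by rwa [Nat.sub_add_cancel (by omega)]⟩
  · exact (hS _).2 ⟨by omega, by rwa [Nat.sub_add_cancel (by omega)]⟩
  · intro s hs h
    have := af_le ((hS s).1 hs).2 (τ := t κ) (by omega)
    omega
  · intro s hs h
    have := af_le ((hS s).1 hs).2 (τ := t (κ + 1)) (by omega)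
    omega

/-- **the root block of the root gap `g` of the static net `χ₀` is a joined chord of `χ'`** on the outer
arc of the `ν` states from `p₀`; the sums -/
structure RJ (M : CMap D C) (π : C → C') (hπ : ClsCon M π) (χ₀ χ' : C → ZMod 2) (g p₀ : D) (ν : ℕ)
    (Rv : Set C) : Prop where
  jc : ∃ s, Jc M (cfg M χ') p₀ ν Rv (kA (coarse M π hπ) (cfg M χ₀) g) s
  sum : ∀ (A : Type) [AddCommGroup A] (φ : D → A),
    ∑ h ∈ (blk (coarse M π hπ) (cfg M χ₀) g).erase g, φ h =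
      ∑ h ∈ blk M (cfg M χ') (kA (coarse M π hπ) (cfg M χ₀) g), φ h -
        (pot M (cfg M χ') p₀ ν φ (M.cell (M.rho (kA (coarse M π hπ) (cfg M χ₀) g))) -
          pot M (cfg M χ') p₀ ν φ (M.cell (kB (coarse M π hπ) (cfg M χ₀) g)))

/-- the three patterns of the ring: base point `P M x p (m 0)`, junction gaps `r3` -/
abbrev AP3 (M : CMap D C) (x : D → ZMod 2) (p : D) (N : ℕ) (g₀ : D) (m t : ℕ → ℕ) (k : ZMod 3) :
    ZMod 3 → Set C := AP M x (P M x p (m 0)) N (r3 M x p N g₀ m t) k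

/-- the root gap of the pattern `k` -/
abbrev rg3 (M : CMap D C) (χ : C → ZMod 2) (p : D) (N : ℕ) (g₀ : D) (m t : ℕ → ℕ) (k : ZMod 3) : D :=
  rg M χ (P M (cfg M χ) p (m 0)) (r3 M (cfg M χ) p N g₀ m t) k

/-- **(C) for one joined pattern** : start `P M x p (m k)`, marks `t k`, `t (k + 1)` -/
theorem _root_.Crest.Agent.R143.RingTx715.S3.cj (H : S3 N n T m t a b l u)
    (L : Chordx355.Lp M (cfg M χ) p N) (hcol : χ (M.cell p) = 1)
    (R : TL M (cfg M χ) p N n T Reg) (hg : Gp M (cfg M χ) g₀)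
    (G : GT n T (St M (cfg M χ) p N g₀)) (k : ZMod 3) {Q : Set C}
    (hQ : ∀ i, l k.val ≤ i → i < u (k.val + 1) → Disjoint (Reg i) Q) {χ₀ χ' : C → ZMod 2}
    (F : FlK M χ (P M (cfg M χ) p (m k.val)) Q (t k.val - m k.val)
      (t (k.val + 1) - m k.val) χ') {π : C → C'} (Qπ : Cq π (AP3 M (cfg M χ) p N g₀ m t k))
    {hπ : ClsCon M π} (hc : Rc (AP3 M (cfg M χ) p N g₀ m t k) (k + 1) χ₀)
    (gF : ∀ c, Free (AP3 M (cfg M χ) p N g₀ m t k) c → χ' c = χ₀ c)
    (J : JdK M χ (P M (cfg M χ) p (m k.val)) (t k.val - m k.val) (t (k.val + 1) - m k.val)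
      (T (u (k.val + 1) + 1) - m k.val) (St M (cfg M χ) (P M (cfg M χ) p (m k.val)) N g₀) Q χ')
    (mk : ∀ s, AG M (cfg M χ) p g₀ s → t (k.val + 1) ≤ s → s < T (u (k.val + 1) + 1) →
      M.cell (P M (cfg M χ) p s) ≠
        M.cell (kB (coarse M π hπ) (cfg M χ₀) (rg3 M χ p N g₀ m t k))) :
    RJ M π hπ χ₀ χ' (rg3 M χ p N g₀ m t k) (P M (cfg M χ) p (T (u (k.val + 1) + 1)))
      (t k.val + N - T (u (k.val + 1) + 1) + 1) (Wc M (cfg M χ) (P M (cfg M χ) p (m 0))) := by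
  obtain ⟨s₀, s₁, s₂, s₃, Z, eS, GK, h1, h2⟩ := H.st3 L hcol R hg G k
  have hR := H.ringk L R hg G k.val hQ
  rw [← eS] at hR GK J
  have v1 := H.mt R k.val
  have v2 := H.tm R k.val
  have v3 := H.mt R (k.val + 1)
  have v4 := H.tu (k.val + 1)
  have v5 := R.le (show u (k.val + 1) ≤ u (k.val + 1) + 1 by omega)
  have v6 := GK.t2
  have e1 : P M (cfg M χ) (P M (cfg M χ) p (m k.val)) (T (u (k.val + 1) + 1) - m k.val) =
      P M (cfg M χ) p (T (u (k.val + 1) + 1)) := by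
    rw [← P_add, Nat.sub_add_cancel (by omega)]
  have e2 : N + (t k.val - m k.val) - (T (u (k.val + 1) + 1) - m k.val) + 1 =
      t k.val + N - T (u (k.val + 1) + 1) + 1 := by omega
  have key := fun (A : Type) [AddCommGroup A] (φ : D → A) =>
    cjK Z hR GK F h1 (by omega) Qπ (hπ := hπ) hc gF J (by
      intro s h3 h4 hK
      have h5 : AG M (cfg M χ) p g₀ (s + m k.val) := by
        have h6 : s ∈ St M (cfg M χ) (P M (cfg M χ) p (m k.val)) N
            (g0 M χ (P M (cfg M χ) p (m 0)) (r3 M (cfg M χ) p N g₀ m t)) :=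
          ⟨by have := hR.h3; omega, hK⟩
        rw [eS] at h6
        exact (st_abs.1 h6).2
      have := mk _ h5 (by omega) (by omega)
      rwa [P_add] at this) φ
  rw [e1, e2] at key
  exact ⟨(key ℤ fun _ => 0).1, fun A _ φ => (key A φ).2⟩

/-- **at least two of the three patterns** : for all `k` but one, (C) holds for every flipped colouring,
every class map and every static net, off the mark event `mk` -/
theorem _root_.Crest.Agent.R143.RingTx715.S3.cj3 (H : S3 N n T m t a b l u)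
    (L : Chordx355.Lp M (cfg M χ) p N) (hcol : χ (M.cell p) = 1)
    (R : TL M (cfg M χ) p N n T Reg) (hg : Gp M (cfg M χ) g₀)
    (G : GT n T (St M (cfg M χ) p N g₀)) {Q : ZMod 3 → Set C}
    (hQ : ∀ k : ZMod 3, ∀ i, l k.val ≤ i → i < u (k.val + 1) → Disjoint (Reg i) (Q k)) :
    ∃ i : ZMod 3, ∀ k, k ≠ i → ∀ (C' : Type) (π : C → C') (hπ : ClsCon M π) (χ₀ χ' : C → ZMod 2),
      Cq π (AP3 M (cfg M χ) p N g₀ m t k) → Rc (AP3 M (cfg M χ) p N g₀ m t k) (k + 1) χ₀ →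
      (∀ c, Free (AP3 M (cfg M χ) p N g₀ m t k) c → χ' c = χ₀ c) →
      FlK M χ (P M (cfg M χ) p (m k.val)) (Q k) (t k.val - m k.val)
        (t (k.val + 1) - m k.val) χ' →
      (∀ s, AG M (cfg M χ) p g₀ s → t (k.val + 1) ≤ s → s < T (u (k.val + 1) + 1) →
        M.cell (P M (cfg M χ) p s) ≠
          M.cell (kB (coarse M π hπ) (cfg M χ₀) (rg3 M χ p N g₀ m t k))) →
      RJ M π hπ χ₀ χ' (rg3 M χ p N g₀ m t k) (P M (cfg M χ) p (T (u (k.val + 1) + 1)))
        (t k.val + N - T (u (k.val + 1) + 1) + 1)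
        (Wc M (cfg M χ) (P M (cfg M χ) p (m 0))) := by
  obtain ⟨i, hi⟩ := (H.two L R hg G hQ).2.2
  exact ⟨i, fun k hk C' π hπ χ₀ χ' Qπ hc gF F mk =>
    H.cj L hcol R hg G k (hQ k) F Qπ hc gF (hi k hk χ' F) mk⟩

/-- **same states on the outer arc** -/
theorem _root_.Crest.Agent.R143.RingTx715.S3.same (H : S3 N n T m t a b l u)
    (L : Chordx355.Lp M (cfg M χ) p N) (R : TL M (cfg M χ) p N n T Reg)
    (hg : Gp M (cfg M χ) g₀) (G : GT n T (St M (cfg M χ) p N g₀)) (k : ZMod 3) {Q : Set C}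
    (hQ : ∀ i, l k.val ≤ i → i < u (k.val + 1) → Disjoint (Reg i) Q) {χ' : C → ZMod 2}
    (F : FlK M χ (P M (cfg M χ) p (m k.val)) Q (t k.val - m k.val)
      (t (k.val + 1) - m k.val) χ') {s : ℕ} (hs : s ≤ t k.val + N - T (u (k.val + 1) + 1)) :
    P M (cfg M χ') (P M (cfg M χ) p (T (u (k.val + 1) + 1))) s =
      P M (cfg M χ) p (T (u (k.val + 1) + 1) + s) := by
  have hR := H.ringk L R hg G k.val hQ
  have v1 := H.mt R k.val
  have v2 := H.tm R k.val
  have v3 := H.mt R (k.val + 1)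
  have v4 := H.tu (k.val + 1)
  have v5 := R.le (show u (k.val + 1) ≤ u (k.val + 1) + 1 by omega)
  have e1 : P M (cfg M χ) (P M (cfg M χ) p (m k.val)) (T (u (k.val + 1) + 1) - m k.val) =
      P M (cfg M χ) p (T (u (k.val + 1) + 1)) := by
    rw [← P_add, Nat.sub_add_cancel (by omega)]
  have h := hR.arc F (u := s) (by unfold Two3x565.alnK; omega)
  rw [e1] at h
  rw [h, ← P_add, add_comm]

end s3

end Crest.Agent.R143.Exc6x790
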