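import Crest.Agent.R143.Exc6_790

/-!
# Row 143 (S0194), block H, H5 (C) (helper790): the end times of the joined chord

* `RJt` : `RJ` of `Exc6_790` with the last cell of the chord (`jct`) and the absolute times `i`, `j` of
  the two end cells on the outer arc (`tm`, `A ≤ j < i ≤ B`)
* **`S3.cjt`** : (C) for one joined pattern with the end times; **`S3.cjt3`** : for all but one of the
  three patterns
* `S3.endc` : the end cells are cells of the block in `Gc (k + 2)`, `Gc (k + 1)`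
-/

set_option autoImplicit false
set_option linter.unusedSectionVars false

noncomputable section

open scoped Classical

namespace Crest.Agent.R143.Exc7x790

open Crest.Agent.R143.Frame1x395 Crest.Agent.R143.Frame2x395 Crest.Agent.R143.Frame3x395
  Crest.Agent.R143.Frame8x395 Crest.Agent.R143.Frame9x395 Crest.Agent.R143.Frame11x395
  Crest.Agent.R143.NonXx592 Crest.Agent.R143.Coarsex166 Crest.Agent.R143.Coarse2x166
  Crest.Agent.R143.Chordx355 Crest.Agent.R143.ChordCx357 Crest.Agent.R143.Chord2x355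
  Crest.Agent.R143.H2x355 Crest.Agent.R143.K33x137 Crest.Agent.R143.Excx790
  Crest.Agent.R143.Exc3x790 Crest.Agent.R143.Exc4x790 Crest.Agent.R143.Exc5x790
  Crest.Agent.R143.Exc6x790 Crest.Agent.R143.Patx828
open Crest.Agent.R143.C2SBx395 (Free Gi Cq Root Rc)
open Crest.Agent.R143.Splx117 (gp)
open Crest.Agent.R143.Junx43 (St Tch)
open Crest.Agent.R143.HullKx715 (TL GT)
open Crest.Agent.R143.RingOx715
open Crest.Agent.R143.RingTx715 (S3)
open Crest.Agent.R143.Two3x565 (RingK NextK GapK FlK Dk JdK)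

section net

variable {D C C' : Type} {M : CMap D C} {π : C → C'} {a b w : C'} {Rg Gd : Set C}
  {χ₀ χ' : C → ZMod 2} {g k : D} {n : ℕ} [Fintype D]

/-- **the joined chord and its last cell** -/
theorem _root_.Crest.Agent.R143.Exc3x790.Net2.jct (T : Net2 M π a b w Rg Gd χ₀ χ' g)
    {hπ : ClsCon M π} {p₀ : D} {m : ℕ} {Rv : Set C}
    (hK : ∀ c ∈ Kc M (cfg M χ') p₀ m, π c = a ∨ π c = b)
    (hR : ∀ c ∈ Rv, π c = w ∧ c ∉ Gd)
    (h0 : M.cell (M.rho (kA (coarse M π hπ) (cfg M χ₀) g)) ∈ Kc M (cfg M χ') p₀ m)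
    (h1 : M.cell (kB (coarse M π hπ) (cfg M χ₀) g) ∈ Kc M (cfg M χ') p₀ m)
    (hj : ∀ c ∈ Gd, π c = w → Con M (cfg M χ') (M.cell (M.rho p₀)) c) :
    ∃ n, Jc M (cfg M χ') p₀ m Rv (kA (coarse M π hπ) (cfg M χ₀) g) n ∧
      lc M (cfg M χ') (M.rho (kA (coarse M π hπ) (cfg M χ₀) g)) n =
        M.cell (kB (coarse M π hπ) (cfg M χ₀) g) := by
  obtain ⟨k, n, H, hb, hg⟩ := T.net0.exists hπ
  have e1 := H.E.kA (hπ := hπ) T.net0.isC T.gp T.ga hb
  have e2 := H.E.kB (hπ := hπ) T.net0.isC T.ab T.gp T.gb hb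
  rw [e1] at h0
  rw [e2] at h1
  have J := T.jc H hK hR h0 h1 hj
  have e3 : lc M (cfg M χ') (M.rho k) n = lc M (cfg M χ₀) (M.rho k) n := by
    unfold lc
    rw [T.real H n le_rfl]
  refine ⟨n, ?_, ?_⟩
  · rw [e1]; exact J
  · rw [e1, e2, e3]

end net

variable {D C C' : Type} {M : CMap D C} [Fintype D]

section ring

variable {σ : C → ZMod 2} {p : D} {N : ℕ} {r : ZMod 3 → ℕ} {k : ZMod 3} {π : C → C'}
  {χ₀ χ' : C → ZMod 2}

/-- `Exc4x790.cj` with the last cell -/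
theorem cj4 (X : Rg3 M σ p N r) (Q : Cq π (AP M (cfg M σ) p N r k)) {hπ : ClsCon M π}
    (hc : Rc (AP M (cfg M σ) p N r k) (k + 1) χ₀)
    (g1 : ∀ c ∈ KC M (cfg M σ) (g0 M σ p r), c ∈ Gc M (cfg M σ) p N r (k + 1) → χ' c = 1)
    (g2 : ∀ c ∈ KC M (cfg M σ) (g0 M σ p r), c ∈ Gc M (cfg M σ) p N r (k + 2) → χ' c = 1)
    (g3 : ∀ c ∈ KC M (cfg M σ) (g0 M σ p r), c ∈ Gc M (cfg M σ) p N r k → χ' c = 0)
    (gF : ∀ c, Free (AP M (cfg M σ) p N r k) c → χ' c = χ₀ c) {p₀ : D} {m : ℕ}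
    (O : Oc M (cfg M σ) p N r k χ' p₀ m)
    (hj : ∀ c ∈ KC M (cfg M σ) (g0 M σ p r), c ∈ Gc M (cfg M σ) p N r k →
      Con M (cfg M χ') (M.cell (M.rho p₀)) c)
    (h1 : M.cell (M.rho (kA (coarse M π hπ) (cfg M χ₀) (rg M σ p r k))) ∈ Kc M (cfg M χ') p₀ m)
    (h2 : M.cell (kB (coarse M π hπ) (cfg M χ₀) (rg M σ p r k)) ∈ Kc M (cfg M χ') p₀ m) :
    ∃ n, Jc M (cfg M χ') p₀ m (Wc M (cfg M σ) p)
        (kA (coarse M π hπ) (cfg M χ₀) (rg M σ p r k)) n ∧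
      lc M (cfg M χ') (M.rho (kA (coarse M π hπ) (cfg M χ₀) (rg M σ p r k))) n =
        M.cell (kB (coarse M π hπ) (cfg M χ₀) (rg M σ p r k)) := by
  obtain ⟨b0, b1, b2⟩ := root_mem X k
  have G := X.gi k
  have T := net2 X Q hc g1 g2 g3 gF
  have R2 : M.cell (M.rho (M.rho (rg M σ p r k))) ∈ AP M (cfg M σ) p N r k k := by
    rw [ap_self]; exact Or.inr b2
  have kl : ∀ c ∈ KC M (cfg M σ) (g0 M σ p r), c ∈ Lf M (cfg M σ) p := by
    rintro c ⟨h, h1, h2, rfl⟩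
    obtain ⟨d, hd, e⟩ := R5bx166.loop_mem (R5qx166.loop_of X.L) X.L.pos (g0_gp X) h1 (a := r 0)
      (gp_p (r 0)) h2
    exact ⟨d, by rw [e]⟩
  refine T.jct ?_ ?_ h1 h2 ?_
  · rintro c ⟨a, ha, rfl⟩
    rcases O.left a ha with h | h
    · exact Or.inr (Q.eq (i := k + 1) (gc_ap h) (gc_ap b1))
    · exact Or.inl (Q.eq (i := k + 2) (gc_ap h) (gc_ap b0))
  · intro c hc'
    refine ⟨Q.eq (i := k) ?_ R2, fun h => hc'.1 (kl c h)⟩
    rw [ap_self]; exact Or.inr hc'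
  · intro c hcK e
    refine hj c hcK ?_
    have := Q.mem G R2 e
    rw [ap_self] at this
    rcases this with h | h
    · exact h
    · exact absurd (kl c hcK) h.1

variable {p' : D} {μ s₀ s₁ s₂ s₃ T₁ T₂ a : ℕ} {Q : Set C}

/-- **(C) for one pattern with the end times** (times from the start `p'`) -/
theorem cjKt (Z : St3 M σ p N r k p' μ s₁ s₂ s₃)
    (R : RingK M σ p' N T₁ T₂ a (St M (cfg M σ) p' N (g0 M σ p r)) Q)
    (G : GapK (St M (cfg M σ) p' N (g0 M σ p r)) N T₁ T₂ s₀ s₁ s₂) (F : FlK M σ p' Q T₁ T₂ χ')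
    (ha : s₂ < a) (h3 : a ≤ s₃ + 1) (Qπ : Cq π (AP M (cfg M σ) p N r k)) {hπ : ClsCon M π}
    (hc : Rc (AP M (cfg M σ) p N r k) (k + 1) χ₀)
    (gF : ∀ c, Free (AP M (cfg M σ) p N r k) c → χ' c = χ₀ c)
    (J : JdK M σ p' T₁ T₂ a (St M (cfg M σ) p' N (g0 M σ p r)) Q χ')
    (mk : ∀ n, s₂ < n → n < a → Kg M (cfg M σ) p' (g0 M σ p r) n →
      M.cell (P M (cfg M σ) p' n) ≠ M.cell (kB (coarse M π hπ) (cfg M χ₀) (rg M σ p r k))) :
    (∃ n, Jc M (cfg M χ') (P M (cfg M σ) p' a) (N + T₁ - a + 1) (Wc M (cfg M σ) p)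
        (kA (coarse M π hπ) (cfg M χ₀) (rg M σ p r k)) n ∧
      lc M (cfg M χ') (M.rho (kA (coarse M π hπ) (cfg M χ₀) (rg M σ p r k))) n =
        M.cell (kB (coarse M π hπ) (cfg M χ₀) (rg M σ p r k))) ∧
    ∃ i j, a ≤ j ∧ j < i ∧ i ≤ N + T₁ ∧
      M.cell (P M (cfg M σ) p' i) =
        M.cell (M.rho (kA (coarse M π hπ) (cfg M χ₀) (rg M σ p r k))) ∧
      M.cell (P M (cfg M σ) p' j) = M.cell (kB (coarse M π hπ) (cfg M χ₀) (rg M σ p r k)) := by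
  have T := pnK Z R G F ha
  obtain ⟨n1, n2, n3, n4, n5, n6⟩ := z3q k
  obtain ⟨⟨a1, a2⟩, b1, b2⟩ := T.ends (hπ := hπ) Qπ hc gF
  have c1 := G.t1
  obtain ⟨i, i1, i2, i3⟩ := on2 Z R G h3 a1 a2
  obtain ⟨j, j1, j2, j3⟩ : ∃ n, a ≤ n ∧ n ≤ N + T₁ ∧
      M.cell (P M (cfg M σ) p' n) =
        M.cell (kB (coarse M π hπ) (cfg M χ₀) (rg M σ p r k)) := by
    rcases on1 Z R G b1 b2 with h | ⟨n, h1, h2, h4, h5⟩
    · exact h
    · exact absurd h5 (mk n h1 h2 h4)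
  have hi : s₃ < i := by
    by_contra h
    have := Z.gk1.2 ⟨i, by omega, by omega, i3⟩
    exact n4 (Z.X.disj a2 this)
  have hj : j ≤ s₃ := by
    by_contra h
    have := Z.gk2.2 ⟨j, by omega, by omega, j3⟩
    exact n3 (Z.X.disj b2 this)
  refine ⟨?_, i, j, j1, by omega, i2, i3, j3⟩
  exact cj4 Z.X Qπ hc T.k1 T.k2 T.k3 gF T.oc (T.hj fun s hs hK h => J s ⟨hs, hK⟩ h)
    (T.kcm.2 ⟨i, i1, i2, i3⟩) (T.kcm.2 ⟨j, j1, j2, j3⟩)

end ring

/-! ### three patterns -/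

/-- `RJ` with the last cell of the chord and the times of the end cells on the outer arc
(absolute times `A .. B` of the loop `P M x p ·`) -/
structure RJt (M : CMap D C) (π : C → C') (hπ : ClsCon M π) (χ₀ χ' : C → ZMod 2) (g p₀ : D) (ν : ℕ)
    (Rv : Set C) (x : D → ZMod 2) (p : D) (A B : ℕ) : Prop
    extends RJ M π hπ χ₀ χ' g p₀ ν Rv where
  jct : ∃ s, Jc M (cfg M χ') p₀ ν Rv (kA (coarse M π hπ) (cfg M χ₀) g) s ∧
    lc M (cfg M χ') (M.rho (kA (coarse M π hπ) (cfg M χ₀) g)) s =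
      M.cell (kB (coarse M π hπ) (cfg M χ₀) g)
  tm : ∃ i j, A ≤ j ∧ j < i ∧ i ≤ B ∧
    M.cell (P M x p i) = M.cell (M.rho (kA (coarse M π hπ) (cfg M χ₀) g)) ∧
    M.cell (P M x p j) = M.cell (kB (coarse M π hπ) (cfg M χ₀) g)

variable {χ : C → ZMod 2} {p : D} {N n : ℕ} {T : ℕ → ℕ} {Reg : ℕ → Set C} {g₀ : D}
  {m t a b l u : ℕ → ℕ}

/-- **(C) for one joined pattern with the end times** -/
theorem _root_.Crest.Agent.R143.RingTx715.S3.cjt (H : S3 N n T m t a b l u)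
    (L : Chordx355.Lp M (cfg M χ) p N) (hcol : χ (M.cell p) = 1)
    (R : TL M (cfg M χ) p N n T Reg) (hg : Gp M (cfg M χ) g₀)
    (G : GT n T (St M (cfg M χ) p N g₀)) (k : ZMod 3) {Q : Set C}
    (hQ : ∀ i, l k.val ≤ i → i < u (k.val + 1) → Disjoint (Reg i) Q) {χ₀ χ' : C → ZMod 2}
    (F : FlK M χ (P M (cfg M χ) p (m k.val)) Q (t k.val - m k.val)
      (t (k.val + 1) - m k.val) χ') {π : C → C'} (Qπ : Cq π (AP3 M (cfg M χ) p N g₀ m t k))
    {hπ : ClsCon M π} (hc : Rc (AP3 M (cfg M χ) p N g₀ m t k) (k + 1) χ₀)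
    (gF : ∀ c, Free (AP3 M (cfg M χ) p N g₀ m t k) c → χ' c = χ₀ c)
    (J : JdK M χ (P M (cfg M χ) p (m k.val)) (t k.val - m k.val) (t (k.val + 1) - m k.val)
      (T (u (k.val + 1) + 1) - m k.val) (St M (cfg M χ) (P M (cfg M χ) p (m k.val)) N g₀) Q χ')
    (mk : ∀ s, AG M (cfg M χ) p g₀ s → t (k.val + 1) ≤ s → s < T (u (k.val + 1) + 1) →
      M.cell (P M (cfg M χ) p s) ≠
        M.cell (kB (coarse M π hπ) (cfg M χ₀) (rg3 M χ p N g₀ m t k))) :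
    RJt M π hπ χ₀ χ' (rg3 M χ p N g₀ m t k) (P M (cfg M χ) p (T (u (k.val + 1) + 1)))
      (t k.val + N - T (u (k.val + 1) + 1) + 1) (Wc M (cfg M χ) (P M (cfg M χ) p (m 0)))
      (cfg M χ) p (T (u (k.val + 1) + 1)) (t k.val + N) := by
  have base := H.cj L hcol R hg G k hQ F Qπ (hπ := hπ) hc gF J mk
  obtain ⟨s₀, s₁, s₂, s₃, Z, eS, GK, h1, h2⟩ := H.st3 L hcol R hg G k
  have hR := H.ringk L R hg G k.val hQ
  rw [← eS] at hR GK J
  have v1 := H.mt R k.val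
  have v2 := H.tm R k.val
  have v3 := H.mt R (k.val + 1)
  have v4 := H.tu (k.val + 1)
  have v5 := R.le (show u (k.val + 1) ≤ u (k.val + 1) + 1 by omega)
  have v6 := GK.t2
  have e1 : P M (cfg M χ) (P M (cfg M χ) p (m k.val)) (T (u (k.val + 1) + 1) - m k.val) =
      P M (cfg M χ) p (T (u (k.val + 1) + 1)) := by
    rw [← P_add, Nat.sub_add_cancel (by omega)]
  have e2 : N + (t k.val - m k.val) - (T (u (k.val + 1) + 1) - m k.val) + 1 =
      t k.val + N - T (u (k.val + 1) + 1) + 1 := by omega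
  obtain ⟨key, i, j, t1, t2, t3, t4, t5⟩ := cjKt Z hR GK F h1 (by omega) Qπ (hπ := hπ) hc gF J
    (by
      intro s h3 h4 hK
      have h5 : AG M (cfg M χ) p g₀ (s + m k.val) := by
        have h6 : s ∈ St M (cfg M χ) (P M (cfg M χ) p (m k.val)) N
            (g0 M χ (P M (cfg M χ) p (m 0)) (r3 M (cfg M χ) p N g₀ m t)) :=
          ⟨by have := hR.h3; omega, hK⟩
        rw [eS] at h6
        exact (st_abs.1 h6).2
      have := mk _ h5 (by omega) (by omega)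
      rwa [P_add] at this)
  rw [e1, e2] at key
  refine ⟨base, key, i + m k.val, j + m k.val, by omega, by omega, by omega, ?_, ?_⟩
  · rw [P_add]
    exact t4
  · rw [P_add]
    exact t5

/-- **at least two of the three patterns, with the end times** -/
theorem _root_.Crest.Agent.R143.RingTx715.S3.cjt3 (H : S3 N n T m t a b l u)
    (L : Chordx355.Lp M (cfg M χ) p N) (hcol : χ (M.cell p) = 1)
    (R : TL M (cfg M χ) p N n T Reg) (hg : Gp M (cfg M χ) g₀)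
    (G : GT n T (St M (cfg M χ) p N g₀)) {Q : ZMod 3 → Set C}
    (hQ : ∀ k : ZMod 3, ∀ i, l k.val ≤ i → i < u (k.val + 1) → Disjoint (Reg i) (Q k)) :
    ∃ i : ZMod 3, ∀ k, k ≠ i → ∀ (C' : Type) (π : C → C') (hπ : ClsCon M π) (χ₀ χ' : C → ZMod 2),
      Cq π (AP3 M (cfg M χ) p N g₀ m t k) → Rc (AP3 M (cfg M χ) p N g₀ m t k) (k + 1) χ₀ →
      (∀ c, Free (AP3 M (cfg M χ) p N g₀ m t k) c → χ' c = χ₀ c) →
      FlK M χ (P M (cfg M χ) p (m k.val)) (Q k) (t k.val - m k.val)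
        (t (k.val + 1) - m k.val) χ' →
      (∀ s, AG M (cfg M χ) p g₀ s → t (k.val + 1) ≤ s → s < T (u (k.val + 1) + 1) →
        M.cell (P M (cfg M χ) p s) ≠
          M.cell (kB (coarse M π hπ) (cfg M χ₀) (rg3 M χ p N g₀ m t k))) →
      RJt M π hπ χ₀ χ' (rg3 M χ p N g₀ m t k) (P M (cfg M χ) p (T (u (k.val + 1) + 1)))
        (t k.val + N - T (u (k.val + 1) + 1) + 1)
        (Wc M (cfg M χ) (P M (cfg M χ) p (m 0))) (cfg M χ) p (T (u (k.val + 1) + 1))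
        (t k.val + N) := by
  obtain ⟨i, hi⟩ := (H.two L R hg G hQ).2.2
  exact ⟨i, fun k hk C' π hπ χ₀ χ' Qπ hc gF F mk =>
    H.cjt L hcol R hg G k (hQ k) F Qπ hc gF (hi k hk χ' F) mk⟩

/-- the end cells are cells of the block in `Gc (k + 2)`, `Gc (k + 1)` (for every pattern, joined or
not) -/
theorem _root_.Crest.Agent.R143.RingTx715.S3.endc (H : S3 N n T m t a b l u)
    (L : Chordx355.Lp M (cfg M χ) p N) (hcol : χ (M.cell p) = 1)
    (R : TL M (cfg M χ) p N n T Reg) (hg : Gp M (cfg M χ) g₀)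
    (G : GT n T (St M (cfg M χ) p N g₀)) (k : ZMod 3) {Q : Set C}
    (hQ : ∀ i, l k.val ≤ i → i < u (k.val + 1) → Disjoint (Reg i) Q) {χ₀ χ' : C → ZMod 2}
    (F : FlK M χ (P M (cfg M χ) p (m k.val)) Q (t k.val - m k.val)
      (t (k.val + 1) - m k.val) χ') {π : C → C'} (Qπ : Cq π (AP3 M (cfg M χ) p N g₀ m t k))
    {hπ : ClsCon M π} (hc : Rc (AP3 M (cfg M χ) p N g₀ m t k) (k + 1) χ₀)
    (gF : ∀ c, Free (AP3 M (cfg M χ) p N g₀ m t k) c → χ' c = χ₀ c) :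
    M.cell (M.rho (kA (coarse M π hπ) (cfg M χ₀) (rg3 M χ p N g₀ m t k))) ∈
        Gc M (cfg M χ) (P M (cfg M χ) p (m 0)) N (r3 M (cfg M χ) p N g₀ m t) (k + 2) ∧
      M.cell (kB (coarse M π hπ) (cfg M χ₀) (rg3 M χ p N g₀ m t k)) ∈
        Gc M (cfg M χ) (P M (cfg M χ) p (m 0)) N (r3 M (cfg M χ) p N g₀ m t) (k + 1) ∧
      M.cell (M.rho (kA (coarse M π hπ) (cfg M χ₀) (rg3 M χ p N g₀ m t k))) ∈
        KC M (cfg M χ) (g0 M χ (P M (cfg M χ) p (m 0)) (r3 M (cfg M χ) p N g₀ m t)) ∧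
      M.cell (kB (coarse M π hπ) (cfg M χ₀) (rg3 M χ p N g₀ m t k)) ∈
        KC M (cfg M χ) (g0 M χ (P M (cfg M χ) p (m 0)) (r3 M (cfg M χ) p N g₀ m t)) := by
  obtain ⟨s₀, s₁, s₂, s₃, Z, eS, GK, h1, h2⟩ := H.st3 L hcol R hg G k
  have hR := H.ringk L R hg G k.val hQ
  rw [← eS] at hR GK
  obtain ⟨⟨a1, a2⟩, b1, b2⟩ := (pnK Z hR GK F h1).ends (hπ := hπ) Qπ hc gF
  exact ⟨a2, b2, a1, b1⟩

end Crest.Agent.R143.Exc7x790
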