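import Crest.Agent.R143.H2_355

/-!
# Row 143 (S0194), block H, H5 (b) item (2) (helper790): the root block of a static net with three
giants is a chord of the real configuration

`M` any closed map, `π` a giants map with the classes `a`, `b` (black), `w` (white), `χ₀` the colours
of the static net (`1` on `a`, `b`, `0` on `w`), `g` the root gap: `cell g` in `a`, `cell (rho g)` in
`b`, third cell in `w`.
* `Exc M π a b x k n` : EXCURSION of the walk of `x` from `a` to `b`: the gap `k` leaves the last cell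
  in `a`, after `n` steps the first cell in `b`, strictly between neither
* `root_exc` : **the root block = `g` and the chord set `cset` of one excursion**; `Exc.kA`, `Exc.kB` :
  its end cells are those of 166's `kA`, `kB`
* `Net` : static net and the real configuration `χ'` (`ω' = Φ_i ω`): `a`, `b` black, the fresh cells
  as in `χ₀`, the cells `Ki` (the flipped arc) of `w` white; `rim` : a cell of `w` next to a fresh
  cell is in `Ki`; `dir` : a direct transition from `a` to `b` has its third cell in `Ki` or fresh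
* `Net.real` : **same states in the real configuration**; `Net.right` : the right cells of the
  excursion are in `Ki` or fresh; `Net.join` : they are joined to a cell of `Ki` in the real
  configuration
* `Net.cd`, `Net.jc` : **`Cd` and `Jc` of the real configuration** for every outer arc with cells in
  `a ∪ b` which contains the two end cells, with right cells neither in `Ki` nor fresh, and whose
  first right cell is joined to the cells of `Ki` (helper43's junction lemma)
* `Net.sum` : **sum over the root block without `g` = one block of the real configuration - potential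
  difference**
-/

set_option autoImplicit false

noncomputable section

open scoped Classical

namespace Crest.Agent.R143.Excx790

open Crest.Agent.R143.Frame1x395 Crest.Agent.R143.Frame2x395 Crest.Agent.R143.Frame3x395
  Crest.Agent.R143.Frame8x395 Crest.Agent.R143.Frame9x395 Crest.Agent.R143.Frame11x395
  Crest.Agent.R143.NonXx592 Crest.Agent.R143.Coarsex166 Crest.Agent.R143.Coarse2x166
  Crest.Agent.R143.Chordx355 Crest.Agent.R143.ChordCx357 Crest.Agent.R143.Chord2x355
  Crest.Agent.R143.H2x355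

variable {D C C' : Type} {M : CMap D C} {x : D → ZMod 2} {π : C → C'} {hπ : ClsCon M π}
  {a b w : C'}

/-- **excursion** from `a` to `b` -/
structure Exc (M : CMap D C) (π : C → C') (a b : C') (x : D → ZMod 2) (k : D) (n : ℕ) : Prop where
  gp : Gp M x k
  pos : 0 < n
  c0 : π (M.cell (M.rho k)) = a
  c1 : π (M.cell (P M x (M.rho k) n)) = b
  int : ∀ u, 0 < u → u < n →
    π (M.cell (P M x (M.rho k) u)) ≠ a ∧ π (M.cell (P M x (M.rho k) u)) ≠ b

/-- the state does not change its left cell or passes a gap -/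
theorem step_gp (hx : IsC M ∅ x) {p : D} (hp : x p = 1) {j : ℕ}
    (h : M.cell (P M x p (j + 1)) ≠ M.cell (P M x p j)) : Gp M x (gt M x p j) := by
  have h1 := P_occ hx hp j
  rcases stp_cases hx h1 (Set.notMem_empty _) with ⟨-, a2, -⟩ | ⟨-, a2, e⟩
  · refine ⟨a2, ?_⟩
    rw [rho_gt]
    exact h1
  · exfalso
    apply h
    rw [P_succ, e, M.cell_iota _ (hx.lv a2), M.rho3]

/-- **the root block is `g` and one excursion** -/
theorem root_exc [Fintype D] (hx : IsC (coarse M π hπ) ∅ x) (hab : a ≠ b) {g : D}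
    (hg : Gp M x g) (ha : π (M.cell g) = a) (hb : π (M.cell (M.rho g)) = b)
    (single : ∀ u v, π (M.cell (P M x (out M g) u)) ≠ a → π (M.cell (P M x (out M g) u)) ≠ b →
      π (M.cell (P M x (out M g) u)) = π (M.cell (P M x (out M g) v)) →
      M.cell (P M x (out M g) u) = M.cell (P M x (out M g) v)) :
    ∃ k n t, M.rho k = P M x (out M g) t ∧ Exc M π a b x k n ∧
      blk (coarse M π hπ) x g = insert g (cset M (P M x (M.rho k)) 0 n) ∧
      g ∉ cset M (P M x (M.rho k)) 0 n := by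
  set K := coarse M π hπ with hK
  have hxM : IsC M ∅ x := IsC.of_coarse hx
  have hgK : Gp K x g := hg
  obtain ⟨N, hNpos, hN, hinj, hlast⟩ := exists_period hx hgK
  have L : Lp K x (out K g) N := ⟨hx, hgK.out hx, hNpos, hN, hinj⟩
  set Q : ℕ → D := fun u => P M x (out M g) u with hQ
  set cl : ℕ → C' := fun u => π (M.cell (Q u)) with hcl
  have nc : ∀ i j k l, i < j → j < k → k < l → l < N → cl i = cl k → cl j = cl l → cl j = cl i :=
    fun i j k l h1 h2 h3 h4 h5 h6 => L.nc i j k l h1 h2 h3 h4 h5 h6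
  have cl0 : cl 0 = a := by
    show π (M.cell (out M g)) = a
    rw [cell_out hxM hg]; exact ha
  have clN : cl (N - 1) = b := by
    have : M.rho g = Q (N - 1) := hlast
    show π (M.cell (Q (N - 1))) = b
    rw [← this]; exact hb
  -- last visit of `a`, first visit of `b`
  obtain ⟨t₁, h1a, h1N, h1l⟩ : ∃ t, cl t = a ∧ t < N ∧ ∀ u, t < u → u < N → cl u ≠ a := by
    have hs := Nat.findGreatest_spec (P := fun t => cl t = a) (Nat.zero_le (N - 1)) cl0
    have hl := Nat.findGreatest_le (P := fun t => cl t = a) (N - 1)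
    refine ⟨_, hs, by omega, fun u h2 h3 h4 => ?_⟩
    exact Nat.findGreatest_is_greatest h2 (by omega) h4
  obtain ⟨t₂, h2b, h2N, h2f⟩ : ∃ t, cl t = b ∧ t < N ∧ ∀ u, u < t → cl u ≠ b := by
    have h : ∃ t, cl t = b := ⟨N - 1, clN⟩
    refine ⟨Nat.find h, Nat.find_spec h, ?_, fun u hu => Nat.find_min h hu⟩
    have := Nat.find_min' h clN
    omega
  have h12 : t₁ < t₂ := by
    by_contra hc
    have e1 : t₁ ≠ t₂ := by
      rintro rfl
      exact hab (h1a.symm.trans h2b)
    have e2 : t₂ ≠ 0 := by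
      rintro rfl
      exact hab (cl0.symm.trans h2b)
    have e3 : t₁ ≠ N - 1 := by
      intro e
      rw [e, clN] at h1a
      exact hab h1a.symm
    have := nc 0 t₂ t₁ (N - 1) (by omega) (by omega) (by omega) (by omega)
      (cl0.trans h1a.symm) (h2b.trans clN.symm)
    exact hab (cl0.symm.trans (this.symm.trans h2b))
  obtain ⟨n, rfl⟩ : ∃ n, t₂ = t₁ + n := ⟨t₂ - t₁, by omega⟩
  have hn : 0 < n := by omega
  -- the start gap
  set k : D := gt M x (out M g) t₁ with hk
  have rk : M.rho k = Q t₁ := rho_gt _ _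
  have gk : Gp M x k := by
    refine step_gp hxM (hg.out hxM) fun e => ?_
    have e1 : cl (t₁ + 1) = cl t₁ := congrArg π e
    exact h1l (t₁ + 1) (by omega) (by omega) (e1.trans h1a)
  have sh : ∀ u, P M x (M.rho k) u = Q (t₁ + u) := by
    intro u
    rw [rk]
    show P M x (P M x (out M g) t₁) u = P M x (out M g) (t₁ + u)
    rw [← P_add, add_comm]
  have E : Exc M π a b x k n := by
    refine ⟨gk, hn, ?_, ?_, fun u h1 h2 => ⟨?_, ?_⟩⟩
    · rw [rk]; exact h1a
    · rw [sh]; exact h2b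
    · rw [sh]; exact h1l _ (by omega) (by omega)
    · rw [sh]; exact h2f _ (by omega)
  have ecs : cset M (P M x (M.rho k)) 0 n = cset M Q t₁ (t₁ + n) := by
    have := cset_shift (M := M) (Q := Q) (t₁ := 0) (t₂ := n) (a := t₁)
    rw [add_zero] at this
    rw [← this]
    congr 1
    funext u
    exact sh u
  have Qinj : ∀ i j, i < N → j < N → Q i = Q j → i = j := by
    intro i j hi hj e
    rcases lt_trichotomy i j with h | h | h
    · exact absurd e (hinj i j h hj)
    · exact h
    · exact absurd e.symm (hinj j i h hi)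
  refine ⟨k, n, t₁, rk, E, ?_, ?_⟩
  · rw [ecs]
    ext h
    rw [Finset.mem_insert, mem_cset]
    constructor
    · intro hh
      by_cases hhg : h = g
      · exact Or.inl hhg
      right
      obtain ⟨s, hsN, hhs⟩ := blk_time hx hgK hNpos hN hlast hh hhg
      obtain ⟨gh, rh⟩ := mem_blk.1 hh
      have hr := (rel_loop hx hgK hN hinj hlast hsN gh hhs).1 rh
      have hr' : ∀ u, u ≤ s → ∀ v, s < v → v < N → cl u ≠ cl v := hr
      have s1 : t₁ ≤ s := by
        by_contra hc
        exact hr' 0 (Nat.zero_le _) t₁ (by omega) h1N (cl0.trans h1a.symm)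
      have s2 : s < t₁ + n := by
        by_contra hc
        exact hr' (t₁ + n) (by omega) (N - 1) (by omega) (by omega) (h2b.trans clN.symm)
      have ghM : Gp M x h := gh
      refine ⟨s, s1, s2, hhs, ?_, ?_⟩
      · exact out_eq hxM ghM hhs
      · intro u v a1 a2 a3 a4 e
        exact hr' u a2 v a3 (by omega) (congrArg π e)
    · rintro (rfl | ⟨s, a1, a2, a3, a4, a5⟩)
      · exact Frame8x395.self_mem hgK
      · have gh : Gp M x h := gp_of_out hxM (P_occ hxM (hg.out hxM) s) a3 (by rw [a4, ← P_succ])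
        refine mem_blk.2 ⟨gh, (rel_loop hx hgK hN hinj hlast (by omega) gh a3).2 ?_⟩
        intro u hu v hv1 hv2 e
        have e' : cl u = cl v := e
        rcases lt_or_ge t₁ u with c1 | c1
        · have ua : cl u ≠ a := h1l u c1 (by omega)
          have ub : cl u ≠ b := h2f u (by omega)
          rcases lt_trichotomy v (t₁ + n) with c2 | c2 | c2
          · exact a5 u v c1 hu hv1 c2 (single u v ua ub e')
          · rw [c2] at e'
            exact ub (e'.trans h2b)
          · rcases Nat.eq_or_lt_of_le (show v ≤ N - 1 by omega) with c3 | c3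
            · rw [c3] at e'
              exact ub (e'.trans clN)
            · have := nc u (t₁ + n) v (N - 1) (by omega) c2 c3 (by omega) e' (h2b.trans clN.symm)
              exact ub (this.symm.trans h2b)
        · have va : cl v ≠ a := h1l v (by omega) hv2
          rcases Nat.eq_or_lt_of_le c1 with c2 | c2
          · rw [c2] at e'
            exact va (e'.symm.trans h1a)
          · rcases Nat.eq_zero_or_pos u with c3 | c3
            · rw [c3] at e'
              exact va (e'.symm.trans cl0)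
            · have := nc 0 u t₁ v c3 c2 (by omega) hv2 (cl0.trans h1a.symm) e'
              exact va (e'.symm.trans (this.trans cl0))
  · rw [ecs, mem_cset]
    rintro ⟨s, -, a2, a3, -, -⟩
    have h1 : Q (N - 1) = Q s := hlast.symm.trans a3
    have h2 := Qinj _ _ (by omega) (by omega) h1
    omega

/-! ### the end cells -/

theorem Exc.out_eq {k : D} {n : ℕ} (hx : IsC M ∅ x) (E : Exc M π a b x k n) (u : ℕ) :
    P M x (M.rho k) (u + 1) = P M x (out M k) u := by
  rw [P_add]
  congr 1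
  show stp M x (M.rho k) = _
  exact E.gp.stp hx

theorem Exc.start_mem [Fintype D] {k : D} {n : ℕ} (hx : IsC M ∅ x) (E : Exc M π a b x k n) :
    k ∈ cset M (P M x (M.rho k)) 0 n := by
  rw [mem_cset]
  exact ⟨0, le_rfl, E.pos, rfl, NonXx592.out_eq hx E.gp rfl, fun u v a1 a2 a3 a4 => by omega⟩

/-- the last gap of an excursion -/
theorem Exc.last [Fintype D] {k : D} {n : ℕ} (hx : IsC M ∅ x) (hab : a ≠ b)
    (E : Exc M π a b x k n) : ∃ k' ∈ cset M (P M x (M.rho k)) 0 n, Gp M x k' ∧
      M.rho k' = P M x (M.rho k) (n - 1) ∧ M.cell k' = M.cell (P M x (M.rho k) n) := by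
  have hn := E.pos
  have hne : M.cell (P M x (M.rho k) (n - 1 + 1)) ≠ M.cell (P M x (M.rho k) (n - 1)) := by
    intro e
    rw [show n - 1 + 1 = n by omega] at e
    have e1 := congrArg π e
    rw [E.c1] at e1
    rcases Nat.eq_zero_or_pos (n - 1) with h | h
    · rw [h] at e1
      exact hab (E.c0.symm.trans e1.symm)
    · exact (E.int (n - 1) h (by omega)).2 e1.symm
  have g' := step_gp hx E.gp.2 hne
  have e1 := NonXx592.out_eq hx g' (rho_gt (M.rho k) (n - 1))
  rw [show n - 1 + 1 = n by omega] at e1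
  refine ⟨gt M x (M.rho k) (n - 1), ?_, g', rho_gt _ _, ?_⟩
  · rw [mem_cset]
    refine ⟨n - 1, Nat.zero_le _, by omega, rho_gt _ _, ?_, fun u v a1 a2 a3 a4 => by omega⟩
    rw [show n - 1 + 1 = n by omega]
    exact e1
  · rw [← e1, cell_out hx g']

theorem Exc.kA [Fintype D] (hx : IsC (coarse M π hπ) ∅ x) {g k : D} {n : ℕ} (hg : Gp M x g)
    (ha : π (M.cell g) = a) (E : Exc M π a b x k n)
    (hb : blk (coarse M π hπ) x g = insert g (cset M (P M x (M.rho k)) 0 n)) :
    kA (coarse M π hπ) x g = k := by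
  have hgK : Gp (coarse M π hπ) x g := hg
  obtain ⟨h1, h2⟩ := kA_spec hx hgK
  refine blk_old_inj hx hgK h1 ?_ ?_
  · rw [hb]
    exact Finset.mem_insert_of_mem (E.start_mem (IsC.of_coarse hx))
  · rw [h2]
    show π (M.cell g) = π (M.cell (M.rho k))
    rw [ha, E.c0]

theorem Exc.kB [Fintype D] (hx : IsC (coarse M π hπ) ∅ x) (hab : a ≠ b) {g k : D} {n : ℕ}
    (hg : Gp M x g) (hgb : π (M.cell (M.rho g)) = b) (E : Exc M π a b x k n)
    (hb : blk (coarse M π hπ) x g = insert g (cset M (P M x (M.rho k)) 0 n)) :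
    M.cell (kB (coarse M π hπ) x g) = lc M x (M.rho k) n := by
  have hgK : Gp (coarse M π hπ) x g := hg
  obtain ⟨h1, h2⟩ := kB_spec hx hgK
  obtain ⟨k', h3, -, -, h4⟩ := E.last (IsC.of_coarse hx) hab
  have : Coarse2x166.kB (coarse M π hπ) x g = k' := by
    refine blk_new_inj hx hgK h1 ?_ ?_
    · rw [hb]
      exact Finset.mem_insert_of_mem h3
    · rw [h2]
      show π (M.cell (M.rho g)) = π (M.cell k')
      rw [hgb, h4, E.c1]
  rw [this, h4]
  rfl

/-! ### the static net and the real configuration -/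

/-- a cell of none of the three giants -/
def Fr (π : C → C') (a b w : C') (c : C) : Prop := π c ≠ a ∧ π c ≠ b ∧ π c ≠ w

/-- static net `χ₀` with the root gap `g` and the real configuration `χ'` with the white arc `Ki` -/
structure Net (M : CMap D C) (π : C → C') (a b w : C') (Ki : Set C) (χ₀ χ' : C → ZMod 2) (g : D) :
    Prop where
  ab : a ≠ b
  cA : ∀ c, π c = a → χ₀ c = 1
  cB : ∀ c, π c = b → χ₀ c = 1
  cW : ∀ c, π c = w → χ₀ c = 0
  one : ∀ c c', Fr π a b w c → π c = π c' → c = c'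
  ga : π (M.cell g) = a
  gb : π (M.cell (M.rho g)) = b
  gw : π (M.cell (M.rho (M.rho g))) = w
  rA : ∀ c, π c = a → χ' c = 1
  rB : ∀ c, π c = b → χ' c = 1
  rF : ∀ c, Fr π a b w c → χ' c = χ₀ c
  rK : ∀ c ∈ Ki, π c = w ∧ χ' c = 0
  rim : ∀ d ∈ M.live, Fr π a b w (M.cell d) → π (M.cell (M.rho d)) = w → M.cell (M.rho d) ∈ Ki
  dir : ∀ h, Gp M (cfg M χ₀) h → π (M.cell (M.rho h)) = a → π (M.cell h) = b →
    π (M.cell (M.rho (M.rho h))) = w → M.cell (M.rho (M.rho h)) ∈ Ki

variable {Ki : Set C} {χ₀ χ' : C → ZMod 2} {g : D}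

theorem Net.gp (T : Net M π a b w Ki χ₀ χ' g) : Gp M (cfg M χ₀) g := by
  constructor
  · show χ₀ (M.cell g) + χ₀ (M.cell (M.rho g)) = 0
    rw [T.cA _ T.ga, T.cB _ T.gb]; decide
  · show χ₀ (M.cell (M.rho g)) + χ₀ (M.cell (M.rho (M.rho g))) = 1
    rw [T.cB _ T.gb, T.cW _ T.gw]; decide

theorem Net.isC [Fintype D] (T : Net M π a b w Ki χ₀ χ' g) :
    IsC (coarse M π hπ) ∅ (cfg M χ₀) := by
  rw [isC_coarse]
  refine ⟨cfg_isC _, fun d _ e => ?_⟩
  show χ₀ (M.cell d) + χ₀ (M.cell (M.rho d)) = 0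
  by_cases h1 : π (M.cell d) = a
  · rw [T.cA _ h1, T.cA _ (e.symm.trans h1)]; decide
  by_cases h2 : π (M.cell d) = b
  · rw [T.cB _ h2, T.cB _ (e.symm.trans h2)]; decide
  by_cases h3 : π (M.cell d) = w
  · rw [T.cW _ h3, T.cW _ (e.symm.trans h3)]; decide
  rw [← T.one _ _ ⟨h1, h2, h3⟩ e, z_self]

/-- the left cells of the root loop are black -/
theorem Net.left [Fintype D] (T : Net M π a b w Ki χ₀ χ' g) (u : ℕ) :
    χ₀ (M.cell (P M (cfg M χ₀) (out M g) u)) = 1 := by
  have h0 : IsC M ∅ (cfg M χ₀) := cfg_isC _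
  have hz : ∀ d, cfg M χ₀ d = 0 → χ₀ (M.cell d) = χ₀ (M.cell (M.rho d)) := by
    intro d hd
    have : χ₀ (M.cell d) + χ₀ (M.cell (M.rho d)) = 0 := hd
    revert this
    generalize χ₀ (M.cell d) = s
    generalize χ₀ (M.cell (M.rho d)) = t
    revert s t; decide
  have h1 := it_col h0 (T.gp.out h0) hz u
  have h2 : χ₀ (M.cell (P M (cfg M χ₀) (out M g) u)) = χ₀ (M.cell (out M g)) := h1
  rw [h2, cell_out h0 T.gp, T.cA _ T.ga]

/-- the right cells of the root loop are white -/
theorem Net.white [Fintype D] (T : Net M π a b w Ki χ₀ χ' g) (u : ℕ) :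
    χ₀ (M.cell (M.rho (P M (cfg M χ₀) (out M g) u))) = 0 := by
  have h0 : IsC M ∅ (cfg M χ₀) := cfg_isC _
  have h1 : cfg M χ₀ (P M (cfg M χ₀) (out M g) u) = 1 := P_occ h0 (T.gp.out h0) u
  have h2 : χ₀ (M.cell (P M (cfg M χ₀) (out M g) u)) +
    χ₀ (M.cell (M.rho (P M (cfg M χ₀) (out M g) u))) = 1 := h1
  rw [T.left u] at h2
  revert h2
  generalize χ₀ (M.cell (M.rho (P M (cfg M χ₀) (out M g) u))) = s
  revert s; decide

/-- a black cell of neither `a` nor `b` is fresh -/
theorem Net.fr_left (T : Net M π a b w Ki χ₀ χ' g) {c : C} (h : χ₀ c = 1) (h1 : π c ≠ a)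
    (h2 : π c ≠ b) : Fr π a b w c := by
  refine ⟨h1, h2, fun h3 => ?_⟩
  rw [T.cW _ h3] at h
  exact absurd h (by decide)

/-- a white cell not in `w` is fresh -/
theorem Net.fr_white (T : Net M π a b w Ki χ₀ χ' g) {c : C} (h : χ₀ c = 0) (h3 : π c ≠ w) :
    Fr π a b w c := by
  refine ⟨fun h1 => ?_, fun h2 => ?_, h3⟩
  · rw [T.cA _ h1] at h
    exact absurd h (by decide)
  · rw [T.cB _ h2] at h
    exact absurd h (by decide)

/-- a cell whose colour is the same in both configurations -/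
def Ok (π : C → C') (w : C') (Ki : Set C) (c : C) : Prop := π c = w → c ∈ Ki

theorem Net.ok (T : Net M π a b w Ki χ₀ χ' g) {c : C} (h : Ok π w Ki c) : χ' c = χ₀ c := by
  by_cases h1 : π c = a
  · rw [T.rA _ h1, T.cA _ h1]
  by_cases h2 : π c = b
  · rw [T.rB _ h2, T.cB _ h2]
  by_cases h3 : π c = w
  · rw [(T.rK _ (h h3)).2, T.cW _ h3]
  exact T.rF _ ⟨h1, h2, h3⟩

/-- the cells of a face with a fresh cell -/
theorem Net.face (T : Net M π a b w Ki χ₀ χ' g) {d : D} (h : Fr π a b w (M.cell d)) :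
    Ok π w Ki (M.cell (M.rho d)) ∧ Ok π w Ki (M.cell (M.rho (M.rho d))) := by
  constructor
  · intro hw
    by_cases hl : d ∈ M.live
    · exact T.rim d hl h hw
    · rw [← M.dead d hl] at hw
      exact absurd hw h.2.2
  · intro hw
    by_cases hl : M.rho (M.rho d) ∈ M.live
    · have h1 := M.iota_live _ hl
      have e1 : M.cell (M.iota (M.rho (M.rho d))) = M.cell d := by
        rw [M.cell_iota _ hl, M.rho3]
      have e2 : M.cell (M.rho (M.iota (M.rho (M.rho d)))) = M.cell (M.rho (M.rho d)) :=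
        cell_rho_iota M hl
      have := T.rim _ h1 (by rw [e1]; exact h) (by rw [e2]; exact hw)
      rwa [e2] at this
    · have e := M.dead _ hl
      rw [M.rho3] at e
      rw [e] at hw
      exact absurd hw h.2.2

/-! ### the excursion in the real configuration -/

/-- an excursion on the root loop -/
structure Rx (M : CMap D C) (π : C → C') (a b : C') (χ₀ : C → ZMod 2) (g k : D) (n : ℕ) : Prop where
  E : Exc M π a b (cfg M χ₀) k n
  on : ∃ t, M.rho k = P M (cfg M χ₀) (out M g) t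

variable {k : D} {n : ℕ}

/-- **the root block of the static net is `g` and the chord set of an excursion** -/
theorem Net.exists [Fintype D] (T : Net M π a b w Ki χ₀ χ' g) (hπ : ClsCon M π) :
    ∃ k n, Rx M π a b χ₀ g k n ∧
      blk (coarse M π hπ) (cfg M χ₀) g = insert g (cset M (P M (cfg M χ₀) (M.rho k)) 0 n) ∧
      g ∉ cset M (P M (cfg M χ₀) (M.rho k)) 0 n := by
  obtain ⟨k, n, t, h1, h2, h3, h4⟩ := root_exc (hπ := hπ) T.isC T.ab T.gp T.ga T.gb
    (fun u v h1 h2 e => T.one _ _ (T.fr_left (T.left u) h1 h2) e)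
  exact ⟨k, n, ⟨h2, t, h1⟩, h3, h4⟩

theorem Net.st [Fintype D] (T : Net M π a b w Ki χ₀ χ' g) (H : Rx M π a b χ₀ g k n) (u : ℕ) :
    χ₀ (M.cell (P M (cfg M χ₀) (M.rho k) u)) = 1 ∧
      χ₀ (M.cell (M.rho (P M (cfg M χ₀) (M.rho k) u))) = 0 := by
  obtain ⟨t, ht⟩ := H.on
  rw [ht, ← P_add]
  exact ⟨T.left _, T.white _⟩

/-- the faces of the excursion -/
theorem Net.faces [Fintype D] (T : Net M π a b w Ki χ₀ χ' g) (H : Rx M π a b χ₀ g k n) {u : ℕ}
    (hu : u < n) : Ok π w Ki (M.cell (P M (cfg M χ₀) (M.rho k) u)) ∧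
      Ok π w Ki (M.cell (M.rho (P M (cfg M χ₀) (M.rho k) u))) ∧
      Ok π w Ki (M.cell (M.rho (M.rho (P M (cfg M χ₀) (M.rho k) u)))) := by
  have hx : IsC M ∅ (cfg M χ₀) := cfg_isC _
  have okb : ∀ {c : C}, χ₀ c = 1 → Ok π w Ki c := by
    intro c hc hw
    rw [T.cW _ hw] at hc
    exact absurd hc (by decide)
  rcases Nat.eq_zero_or_pos u with rfl | hu0
  · show Ok π w Ki (M.cell (M.rho k)) ∧ Ok π w Ki (M.cell (M.rho (M.rho k))) ∧
      Ok π w Ki (M.cell (M.rho (M.rho (M.rho k))))
    rw [M.rho3]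
    have e1 : M.cell (P M (cfg M χ₀) (M.rho k) 1) = M.cell k := by
      rw [H.E.out_eq hx 0]
      exact cell_out hx H.E.gp
    have c1 : χ₀ (M.cell k) = 1 := by
      rw [← e1]; exact (T.st H 1).1
    refine ⟨okb (T.st H 0).1, ?_, okb c1⟩
    rcases Nat.lt_or_ge 1 n with h1 | h1
    · obtain ⟨h2, h3⟩ := H.E.int 1 (by omega) h1
      rw [e1] at h2 h3
      exact (T.face (T.fr_left c1 h2 h3)).2
    · have hn : n = 1 := by have := H.E.pos; omega
      intro hw
      have h2 := H.E.c1
      rw [hn, e1] at h2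
      exact T.dir k H.E.gp H.E.c0 h2 hw
  · obtain ⟨h2, h3⟩ := H.E.int u hu0 hu
    have h4 := T.fr_left (T.st H u).1 h2 h3
    exact ⟨okb (T.st H u).1, (T.face h4).1, (T.face h4).2⟩

/-- **same states in the real configuration** -/
theorem Net.real [Fintype D] (T : Net M π a b w Ki χ₀ χ' g) (H : Rx M π a b χ₀ g k n) :
    ∀ u, u ≤ n → P M (cfg M χ') (M.rho k) u = P M (cfg M χ₀) (M.rho k) u := by
  intro u
  induction u with
  | zero => intro _; rfl
  | succ u ih =>
    intro hu
    obtain ⟨h1, h2, h3⟩ := T.faces H (show u < n by omega)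
    rw [P_succ, P_succ, ih (by omega)]
    have e1 := T.ok h1
    have e2 := T.ok h2
    have e3 := T.ok h3
    set p := P M (cfg M χ₀) (M.rho k) u
    have f1 : cfg M χ' (M.rho p) = cfg M χ₀ (M.rho p) := by
      show χ' (M.cell (M.rho p)) + χ' (M.cell (M.rho (M.rho p))) =
        χ₀ (M.cell (M.rho p)) + χ₀ (M.cell (M.rho (M.rho p)))
      rw [e2, e3]
    have f2 : cfg M χ' (M.rho (M.rho p)) = cfg M χ₀ (M.rho (M.rho p)) := by
      show χ' (M.cell (M.rho (M.rho p))) + χ' (M.cell (M.rho (M.rho (M.rho p)))) =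
        χ₀ (M.cell (M.rho (M.rho p))) + χ₀ (M.cell (M.rho (M.rho (M.rho p))))
      rw [M.rho3, e1, e3]
    unfold stp
    rw [f1]

theorem Net.gpr [Fintype D] (T : Net M π a b w Ki χ₀ χ' g) (H : Rx M π a b χ₀ g k n) :
    Gp M (cfg M χ') k := by
  obtain ⟨h1, h2, h3⟩ := T.faces H H.E.pos
  have h1' : Ok π w Ki (M.cell (M.rho k)) := h1
  have h2' : Ok π w Ki (M.cell (M.rho (M.rho k))) := h2
  have h3' : Ok π w Ki (M.cell (M.rho (M.rho (M.rho k)))) := h3
  rw [M.rho3] at h3'
  obtain ⟨g1, g2⟩ := H.E.gp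
  constructor
  · show χ' (M.cell k) + χ' (M.cell (M.rho k)) = 0
    rw [T.ok h3', T.ok h1']; exact g1
  · show χ' (M.cell (M.rho k)) + χ' (M.cell (M.rho (M.rho k))) = 1
    rw [T.ok h1', T.ok h2']; exact g2

/-- **the right cells of the excursion are fresh or in `Ki`** -/
theorem Net.right [Fintype D] (T : Net M π a b w Ki χ₀ χ' g) (H : Rx M π a b χ₀ g k n) {u : ℕ}
    (hu : u ≤ n) : Fr π a b w (M.cell (M.rho (P M (cfg M χ₀) (M.rho k) u))) ∨
      M.cell (M.rho (P M (cfg M χ₀) (M.rho k) u)) ∈ Ki := by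
  have hx : IsC M ∅ (cfg M χ₀) := cfg_isC _
  have key : ∀ u, u < n → Fr π a b w (M.cell (M.rho (P M (cfg M χ₀) (M.rho k) u))) ∨
      M.cell (M.rho (P M (cfg M χ₀) (M.rho k) u)) ∈ Ki := by
    intro u hu
    by_cases hw : π (M.cell (M.rho (P M (cfg M χ₀) (M.rho k) u))) = w
    · exact Or.inr ((T.faces H hu).2.1 hw)
    · exact Or.inl (T.fr_white (T.st H u).2 hw)
  rcases Nat.lt_or_eq_of_le hu with h | rfl
  · exact key u h
  · obtain ⟨m, rfl⟩ : ∃ m, u = m + 1 := ⟨u - 1, by have := H.E.pos; omega⟩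
    have h1 := key m (by omega)
    rcases stp_cases hx (P_occ hx H.E.gp.2 m) (Set.notMem_empty _) with ⟨a1, a2, e⟩ | ⟨a1, a2, e⟩
    · rw [P_succ, e, cell_rho_iota M (hx.lv a1)]
      exact h1
    · exfalso
      have e1 : M.cell (P M (cfg M χ₀) (M.rho k) (m + 1)) = M.cell (P M (cfg M χ₀) (M.rho k) m) := by
        rw [P_succ, e, M.cell_iota _ (hx.lv a2), M.rho3]
      have e2 := congrArg π e1
      rw [H.E.c1] at e2
      rcases Nat.eq_zero_or_pos m with rfl | h
      · exact T.ab (H.E.c0.symm.trans e2.symm)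
      · exact (H.E.int m h (by omega)).2 e2.symm

/-- **the right cells are joined to the arc `Ki` in the real configuration** -/
theorem Net.join [Fintype D] (T : Net M π a b w Ki χ₀ χ' g) (H : Rx M π a b χ₀ g k n) :
    ∃ c ∈ Ki, Con M (cfg M χ') c (M.cell (M.rho (M.rho k))) := by
  have hx : IsC M ∅ (cfg M χ₀) := cfg_isC _
  have hp := T.gp.out hx
  have key : ∀ u, π (M.cell (M.rho (P M (cfg M χ₀) (out M g) u))) = w ∨
      ∃ c ∈ Ki, Con M (cfg M χ') c (M.cell (M.rho (P M (cfg M χ₀) (out M g) u))) := by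
    intro u
    induction u with
    | zero =>
      left
      show π (M.cell (M.rho (out M g))) = w
      unfold out
      rw [cell_rho_iota M (hx.lv (T.gp.two hx))]
      exact T.gw
    | succ u ih =>
      by_cases hw : π (M.cell (M.rho (P M (cfg M χ₀) (out M g) (u + 1)))) = w
      · exact Or.inl hw
      right
      have hf := T.fr_white (T.white (u + 1)) hw
      rcases stp_cases hx (P_occ hx hp u) (Set.notMem_empty _) with ⟨a1, a2, e⟩ | ⟨a1, a2, e⟩
      · have e1 : M.cell (M.rho (P M (cfg M χ₀) (out M g) (u + 1))) =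
            M.cell (M.rho (P M (cfg M χ₀) (out M g) u)) := by
          rw [P_succ, e, cell_rho_iota M (hx.lv a1)]
        rw [e1] at hw ⊢
        exact ih.resolve_left hw
      · have e1 : M.cell (M.rho (P M (cfg M χ₀) (out M g) (u + 1))) =
            M.cell (M.rho (M.rho (P M (cfg M χ₀) (out M g) u))) := by
          rw [P_succ, e, cell_rho_iota M (hx.lv a2)]
        rw [e1] at hw hf ⊢
        set d := M.rho (P M (cfg M χ₀) (out M g) u) with hd
        have hwd : χ₀ (M.cell d) = 0 := T.white u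
        have hwd' : χ₀ (M.cell (M.rho d)) = 0 := by
          have := T.white (u + 1)
          rwa [e1] at this
        have con : Ok π w Ki (M.cell d) → Con M (cfg M χ') (M.cell d) (M.cell (M.rho d)) := by
          intro h
          refine Relation.EqvGen.rel _ _ ⟨d, ?_, rfl, rfl⟩
          show χ' (M.cell d) + χ' (M.cell (M.rho d)) = 0
          rw [T.ok h, T.rF _ hf, hwd, hwd']; decide
        by_cases hwu : π (M.cell d) = w
        · have ok : Ok π w Ki (M.cell d) := by
            have := (T.face (d := M.rho d) hf).2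
            rwa [M.rho3] at this
          exact ⟨M.cell d, ok hwu, con ok⟩
        · obtain ⟨c, hc, h⟩ := ih.resolve_left hwu
          exact ⟨c, hc, Relation.EqvGen.trans _ _ _ h (con fun h => absurd h hwu)⟩
  obtain ⟨t, ht⟩ := H.on
  rcases key t with h | h
  · rw [← ht] at h
    rcases T.right H (Nat.zero_le n) with h1 | h1
    · exact absurd h h1.2.2
    · exact ⟨_, h1, Relation.EqvGen.refl _⟩
  · rw [← ht] at h
    exact h

/-- **chord of the real configuration** -/
theorem Net.cd [Fintype D] (T : Net M π a b w Ki χ₀ χ' g) (H : Rx M π a b χ₀ g k n) {p₀ : D} {m : ℕ}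
    {Rv : Set C} (hK : ∀ c ∈ Kc M (cfg M χ') p₀ m, π c = a ∨ π c = b)
    (hR : ∀ c ∈ Rv, ¬ Fr π a b w c ∧ c ∉ Ki)
    (h0 : M.cell (M.rho k) ∈ Kc M (cfg M χ') p₀ m)
    (h1 : lc M (cfg M χ₀) (M.rho k) n ∈ Kc M (cfg M χ') p₀ m) :
    Cd M (cfg M χ') p₀ m Rv k n := by
  have e := T.real H
  refine ⟨T.gpr H, H.E.pos, h0, ?_, fun u a1 a2 hc => ?_, fun u a1 hc => ?_⟩
  · unfold lc
    rw [e n le_rfl]
    exact h1
  · unfold lc at hc
    rw [e u a2.le] at hc
    obtain ⟨h2, h3⟩ := H.E.int u a1 a2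
    rcases hK _ hc with h | h
    · exact h2 h
    · exact h3 h
  · rw [e u a1] at hc
    obtain ⟨h2, h3⟩ := hR _ hc
    rcases T.right H a1 with h | h
    · exact h2 h
    · exact h3 h

/-- **joined chord of the real configuration** -/
theorem Net.jc [Fintype D] (T : Net M π a b w Ki χ₀ χ' g) (H : Rx M π a b χ₀ g k n) {p₀ : D} {m : ℕ}
    {Rv : Set C} (hK : ∀ c ∈ Kc M (cfg M χ') p₀ m, π c = a ∨ π c = b)
    (hR : ∀ c ∈ Rv, ¬ Fr π a b w c ∧ c ∉ Ki)
    (h0 : M.cell (M.rho k) ∈ Kc M (cfg M χ') p₀ m)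
    (h1 : lc M (cfg M χ₀) (M.rho k) n ∈ Kc M (cfg M χ') p₀ m)
    (hj : ∀ c ∈ Ki, Con M (cfg M χ') (M.cell (M.rho p₀)) c) :
    Jc M (cfg M χ') p₀ m Rv k n := by
  obtain ⟨c, hc, h⟩ := T.join H
  exact (T.cd H hK hR h0 h1).jc (Relation.EqvGen.trans _ _ _ (hj c hc) h)

/-- the chord set in the real configuration -/
theorem Net.cset_real [Fintype D] (T : Net M π a b w Ki χ₀ χ' g) (H : Rx M π a b χ₀ g k n) :
    cset M (P M (cfg M χ') (M.rho k)) 0 n = cset M (P M (cfg M χ₀) (M.rho k)) 0 n :=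
  cset_congr fun s _ h => T.real H s h

/-- **sum over the root block without `g` = one block of the real configuration - potential** -/
theorem Net.sum [Fintype D] (T : Net M π a b w Ki χ₀ χ' g) {hπ : ClsCon M π} {p₀ : D} {m : ℕ}
    {Rv : Set C} (O : Oa M (cfg M χ') p₀ m Rv)
    (hK : ∀ c ∈ Kc M (cfg M χ') p₀ m, π c = a ∨ π c = b)
    (hR : ∀ c ∈ Rv, ¬ Fr π a b w c ∧ c ∉ Ki)
    (h0 : M.cell (M.rho (kA (coarse M π hπ) (cfg M χ₀) g)) ∈ Kc M (cfg M χ') p₀ m)
    (h1 : M.cell (kB (coarse M π hπ) (cfg M χ₀) g) ∈ Kc M (cfg M χ') p₀ m)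
    (hj : ∀ c ∈ Ki, Con M (cfg M χ') (M.cell (M.rho p₀)) c) {A : Type} [AddCommGroup A]
    (φ : D → A) :
    ∑ h ∈ (blk (coarse M π hπ) (cfg M χ₀) g).erase g, φ h =
      ∑ h ∈ blk M (cfg M χ') (kA (coarse M π hπ) (cfg M χ₀) g), φ h -
        (pot M (cfg M χ') p₀ m φ (M.cell (M.rho (kA (coarse M π hπ) (cfg M χ₀) g))) -
          pot M (cfg M χ') p₀ m φ (M.cell (kB (coarse M π hπ) (cfg M χ₀) g))) := by
  obtain ⟨k, n, H, hb, hg⟩ := T.exists hπ
  have e1 := H.E.kA (hπ := hπ) T.isC T.gp T.ga hb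
  have e2 := H.E.kB (hπ := hπ) T.isC T.ab T.gp T.gb hb
  rw [e1] at h0
  rw [e2] at h1
  have J := T.jc H hK hR h0 h1 hj
  have s := J.sum O φ
  have e3 : lc M (cfg M χ') (M.rho k) n = lc M (cfg M χ₀) (M.rho k) n := by
    unfold lc
    rw [T.real H n le_rfl]
  rw [e3, T.cset_real H] at s
  rw [hb, Finset.erase_insert hg, e1, e2, s, add_sub_cancel_right]

end Crest.Agent.R143.Excx790
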