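import Crest.Agent.R143.Exit_707
import Crest.Agent.R143.Chord2_355
import Crest.Agent.R143.ChordC_357

/-!
# Row 143 (S0194), block H: exit lemma ⟹ joined chords (helper707)

* `jc_of` : outer arc `Oa`, chord from the start gap `k` with `n` steps, a chain of white cells and
  of left cells of the chord, from the right of the outer arc to the chord, off the left cells of the
  outer arc ⟹ `Jc` (joined chord of `Chord2_355`)
* `same_sum` : a chord with equal end cells is a block of the fine map, without any join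
-/

set_option autoImplicit false

noncomputable section

open scoped Classical

namespace Crest.Agent.R143.Exit2x707

open Crest.Agent.R143.Frame1x395 Crest.Agent.R143.Frame2x395 Crest.Agent.R143.Frame3x395
  Crest.Agent.R143.Frame8x395 Crest.Agent.R143.Frame9x395 Crest.Agent.R143.Frame11x395
  Crest.Agent.R143.NonXx592 Crest.Agent.R143.Chordx355 Crest.Agent.R143.ChordCx357
  Crest.Agent.R143.Chord2x355

variable {D C : Type} {M : CMap D C} {x : D → ZMod 2}

/-- **exit lemma for the chords of `Chord2_355`** -/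
theorem jc_of [Finite D] {p₀ : D} {b : ℕ} {Rv : Set C} (O : Oa M x p₀ b Rv)
    (inj : ∀ i j, i < j → j < b → P M x p₀ i ≠ P M x p₀ j) {k : D} {n : ℕ}
    (gp : Gp M x k) (pos : 0 < n)
    (c0 : ∃ a, a < b ∧ lc M x p₀ a = M.cell (M.rho k))
    (c1 : ∃ a, a < b ∧ lc M x p₀ a = lc M x (M.rho k) n)
    (int : ∀ u, 0 < u → u < n → ∀ a, a < b → lc M x (M.rho k) u ≠ lc M x p₀ a)
    (new : ∀ u, u ≤ n → M.cell (M.rho (P M x (M.rho k) u)) ∉ Rv)
    (ord : ∀ a, a < b → lc M x p₀ a = lc M x (M.rho k) n →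
      ∃ a', a ≤ a' ∧ a' < b ∧ lc M x p₀ a' = M.cell (M.rho k))
    (ne : M.cell (M.rho k) ≠ lc M x (M.rho k) n)
    (gen0 : Gen M (M.cell (M.rho k))) (gen1 : Gen M (lc M x (M.rho k) n))
    {ψ : C → ZMod 2} (hψ : ∀ d, x d = ψ (M.cell d) + ψ (M.cell (M.rho d))) {w : ℕ → C} {l : ℕ}
    (h0 : ∃ j, j < b ∧ w 0 = M.cell (M.rho (P M x p₀ j)))
    (adj : ∀ i, i < l → Exitx707.Nb M (w i) (w (i + 1)))
    (hav : ∀ i, i ≤ l → ∀ j, j < b → w i ≠ lc M x p₀ j)
    (hcol : ∀ i, i ≤ l → ψ (w i) ≠ ψ (M.cell (M.rho k)) ∨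
      ∃ j, j ≤ n ∧ w i = lc M x (M.rho k) j)
    (hl : ∃ j, j ≤ n ∧ (w l = lc M x (M.rho k) j ∨ w l = M.cell (M.rho (P M x (M.rho k) j)))) :
    Jc M x p₀ b Rv k n := by
  refine ⟨gp, pos, c0, c1, int, new, ?_⟩
  obtain ⟨a0, ha0, -⟩ := c0
  have H : Exitx707.Ch M x (M.rho k) p₀ n (b - 1) := by
    refine ⟨O.ev, gp.2, O.occ, fun i j h1 h2 => inj i j h1 (by omega),
      fun u h1 h2 j hj => int u h1 h2 j (by omega), ?_, ?_, ne, gen0, gen1⟩
    · obtain ⟨a, ha, e⟩ := c1
      exact ⟨a, by omega, e⟩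
    · intro j hj e
      obtain ⟨a', h1, h2, h3⟩ := ord j (by omega) e
      exact ⟨a', h1, by omega, h3⟩
  obtain ⟨t, ht⟩ := Exitx707.join H hψ
    (by obtain ⟨j, hj, e⟩ := h0; exact ⟨j, by omega, e⟩) adj
    (fun i hi j hj => hav i hi j (by omega)) hcol hl
  have := con_right O.ev O.occ t
  rwa [ht] at this

/-! ### chords with equal end cells -/

/-- the identical coarsening -/
theorem clsCon_id (M : CMap D C) : Coarsex166.ClsCon M id := fun _ _ e => by
  change M.cell _ = M.cell _ at e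
  rw [e]
  exact Relation.EqvGen.refl _

theorem isC_id (hx : IsC M ∅ x) : IsC (Coarsex166.coarse M id (clsCon_id M)) ∅ x := by
  rw [Coarsex166.isC_coarse]
  refine ⟨hx, fun d _ e => ?_⟩
  obtain ⟨ψ, hψ⟩ := M.ex x hx.dead hx.iot (fun d => by rw [hx.par d, if_neg (Set.notMem_empty d)])
  change M.cell d = M.cell (M.rho d) at e
  rw [hψ d, e]
  exact z_self _

/-- **a chord with equal end cells is a block of the fine map** -/
theorem same_blk [Fintype D] (hx : IsC M ∅ x) {p : D} (hp : x p = 1) {t₁ t₂ : ℕ}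
    (h12 : t₁ < t₂) {k : D} (hk : Gp M x k) (hk₁ : M.rho k = P M x p t₁)
    (h2 : M.cell (P M x p t₂) = M.cell (P M x p t₁))
    (hin : ∀ u, t₁ < u → u < t₂ → M.cell (P M x p u) ≠ M.cell (P M x p t₁)) :
    blk M x k = cset M (P M x p) t₁ t₂ :=
  chord_coarse (π := id) (hπ := clsCon_id M) (isC_id hx) (fun _ _ _ e => e) hp h12 hk hk₁ rfl h2
    hin

/-- the same for the start gap `k` with `n` steps -/
theorem same_sum [Fintype D] (hx : IsC M ∅ x) {k : D} {n : ℕ} (hk : Gp M x k) (hn : 0 < n)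
    (h2 : lc M x (M.rho k) n = M.cell (M.rho k))
    (hin : ∀ u, 0 < u → u < n → lc M x (M.rho k) u ≠ M.cell (M.rho k)) {A : Type*}
    [AddCommMonoid A] (φ : D → A) :
    ∑ h ∈ blk M x k, φ h = ∑ h ∈ cset M (P M x (M.rho k)) 0 n, φ h := by
  rw [same_blk hx hk.2 (t₁ := 0) hn hk rfl h2 hin]

end Crest.Agent.R143.Exit2x707
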