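import Crest.Agent.R143.DomA_722
import Crest.Agent.R143.RE0_723
import Crest.Agent.R143.Circ_63

/-!
# Row 143 (S0194), HARM: the exit curve of a circle with centre on the boundary circle (helper920)

496's text (step (2) of `HarmOne`):
* `exit_curve` : the part of the circle `‖y - q‖ = ρ` (`‖q - x0‖ = L`) inside the hull which contains
  the top: connected, covered by the triangles, both ends on hull edges, far on the left and on the
  right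
-/

set_option autoImplicit false

noncomputable section

open scoped Classical
open Set

namespace Crest.Agent.R143.Exitx920

open Crest.Agent.R143.B0x346 Crest.Agent.R143.DelGx806 Crest.Agent.R143.DelRx806
  Crest.Agent.R143.DomAx722

variable {S : Finset ℂ} {x0 q u : ℂ} {L e ρ σ : ℝ}

/-- first exit -/
theorem first_exit {E : Finset (ℂ × ℂ)} {g : ℂ × ℂ → ℝ → ℝ} (hg : ∀ p ∈ E, Continuous (g p))
    (h0 : ∀ p ∈ E, 0 < g p 0) (h1 : ∃ p ∈ E, g p 1 ≤ 0) :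
    ∃ s : ℝ, 0 < s ∧ s ≤ 1 ∧ (∃ p ∈ E, g p s = 0) ∧
      ∀ t, 0 ≤ t → t ≤ s → ∀ p ∈ E, 0 ≤ g p t := by
  set Z : Set ℝ := ⋃ p ∈ E, Icc (0 : ℝ) 1 ∩ {t | g p t ≤ 0} with hZ
  have hc : IsCompact Z := E.isCompact_biUnion fun p hp =>
    isCompact_Icc.inter_right (isClosed_le (hg p hp) continuous_const)
  have mZ : ∀ t, t ∈ Z ↔ ∃ p ∈ E, (0 ≤ t ∧ t ≤ 1) ∧ g p t ≤ 0 := by
    intro t
    simp only [hZ, mem_iUnion, mem_inter_iff, mem_Icc, mem_setOf_eq, exists_prop]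
  obtain ⟨p1, hp1, h1⟩ := h1
  obtain ⟨s, hs, hs'⟩ := hc.exists_isLeast ⟨1, (mZ 1).2 ⟨p1, hp1, ⟨zero_le_one, le_rfl⟩, h1⟩⟩
  obtain ⟨p, hp, ⟨s0, s1⟩, hps⟩ := (mZ s).1 hs
  have spos : 0 < s := by
    rcases s0.eq_or_lt with h | h
    · rw [← h] at hps
      exact absurd (h0 p hp) (not_lt.2 hps)
    · exact h
  have key : ∀ t, 0 ≤ t → t ≤ s → ∀ p ∈ E, 0 ≤ g p t := by
    intro t ht hts p hp
    have hcl : IsClosed {t | 0 ≤ g p t} := isClosed_le continuous_const (hg p hp)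
    have hsub : Ico 0 s ⊆ {t | 0 ≤ g p t} := by
      rintro x ⟨hx0, hxs⟩
      by_contra hcon
      rw [mem_setOf_eq, not_le] at hcon
      have := hs' ((mZ x).2 ⟨p, hp, ⟨hx0, hxs.le.trans s1⟩, hcon.le⟩)
      linarith
    have := closure_minimal hsub hcl
    rw [closure_Ico spos.ne] at this
    exact this ⟨ht, hts⟩
  exact ⟨s, spos, s1, ⟨p, hp, le_antisymm hps (key s s0 le_rfl p hp)⟩, key⟩

/-- quarter of the circle: from the top to the side `σ = ± 1` -/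
def qp (q u : ℂ) (ρ σ s : ℝ) : ℂ :=
  q + u * (((ρ * σ * Real.sin (Real.pi / 2 * s) : ℝ) : ℂ) +
    ((ρ * Real.cos (Real.pi / 2 * s) : ℝ) : ℂ) * Complex.I)

theorem qp_cont : Continuous (qp q u ρ σ) := by
  unfold qp
  fun_prop

theorem qp_zero (σ : ℝ) : qp q u ρ σ 0 = q + u * ((ρ : ℂ) * Complex.I) := by
  unfold qp
  simp

theorem qp_norm (hu : ‖u‖ = 1) (hρ : 0 ≤ ρ) (hσ : σ ^ 2 = 1) (s : ℝ) :
    ‖qp q u ρ σ s - q‖ = ρ := by
  unfold qp
  rw [add_sub_cancel_left, norm_mul, hu, one_mul, Complex.norm_add_mul_I]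
  have h := Real.sin_sq_add_cos_sq (Real.pi / 2 * s)
  have e : (ρ * σ * Real.sin (Real.pi / 2 * s)) ^ 2 + (ρ * Real.cos (Real.pi / 2 * s)) ^ 2 =
      ρ ^ 2 := by
    calc _ = ρ ^ 2 * (σ ^ 2 * Real.sin (Real.pi / 2 * s) ^ 2 +
          Real.cos (Real.pi / 2 * s) ^ 2) := by ring
      _ = ρ ^ 2 := by rw [hσ, one_mul, h, mul_one]
  rw [e, Real.sqrt_sq hρ]

theorem qp_X (hu : ‖u‖ = 1) (s : ℝ) :
    RE0x723.X q u (qp q u ρ σ s) = ρ * σ * Real.sin (Real.pi / 2 * s) := by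
  have hu0 : u ≠ 0 := by
    rintro rfl
    simp at hu
  unfold RE0x723.X qp
  rw [add_sub_cancel_left, mul_div_cancel_left₀ _ hu0]
  simp only [Complex.add_re, Complex.ofReal_re, Complex.mul_re, Complex.I_re, Complex.I_im,
    Complex.ofReal_im]
  ring

theorem qp_dist (hu : ‖u‖ = 1) (hq : x0 = q + u * (L * Complex.I)) (hσ : σ ^ 2 = 1) (s : ℝ) :
    ‖qp q u ρ σ s - x0‖ ^ 2 = ρ ^ 2 + L ^ 2 - 2 * L * (ρ * Real.cos (Real.pi / 2 * s)) := by
  have e : qp q u ρ σ s - x0 = u * (((ρ * σ * Real.sin (Real.pi / 2 * s) : ℝ) : ℂ) +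
      ((ρ * Real.cos (Real.pi / 2 * s) - L : ℝ) : ℂ) * Complex.I) := by
    rw [hq]
    unfold qp
    push_cast
    ring
  rw [e, norm_mul, hu, one_mul, Complex.norm_add_mul_I, Real.sq_sqrt (by positivity)]
  have h := Real.sin_sq_add_cos_sq (Real.pi / 2 * s)
  calc _ = ρ ^ 2 * (σ ^ 2 * Real.sin (Real.pi / 2 * s) ^ 2 +
        Real.cos (Real.pi / 2 * s) ^ 2) + L ^ 2 - 2 * L * (ρ * Real.cos (Real.pi / 2 * s)) := by
        ring
    _ = _ := by rw [hσ, one_mul, h, mul_one]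

/-- one side of the exit curve -/
theorem side (hD : Dns S x0 L e) (hu : ‖u‖ = 1) (hq : x0 = q + u * (L * Complex.I))
    (h1 : 64 * √(L * e) ≤ ρ) (h2 : 8 * ρ ≤ L) (hσ : σ ^ 2 = 1) :
    ∃ s : ℝ, 0 < s ∧ s ≤ 1 ∧ (∃ a b, hullE S a b ∧ qp q u ρ σ s ∈ segment ℝ a b) ∧
      (∀ t, 0 ≤ t → t ≤ s → InHull S (qp q u ρ σ t)) ∧
      7 / 8 * ρ ≤ ρ * Real.sin (Real.pi / 2 * s) := by
  have he := hD.dpos
  have hL8 := hD.dL
  have hL : 0 < L := by linarith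
  have h3 := hD.card
  have hsq : 4096 * (L * e) ≤ ρ ^ 2 := by
    have h4 : 0 ≤ √(L * e) := Real.sqrt_nonneg _
    have h5 := Real.sq_sqrt (show 0 ≤ L * e by positivity)
    nlinarith
  have hρ : 0 < ρ := by
    have : 0 < √(L * e) := Real.sqrt_pos.2 (by positivity)
    linarith
  have hρe : 2 * e < ρ := by
    by_contra hcon
    push Not at hcon
    nlinarith
  set E : Finset (ℂ × ℂ) := (S ×ˢ S).filter fun p => hullE S p.1 p.2 with hE
  have mE : ∀ p : ℂ × ℂ, p ∈ E ↔ hullE S p.1 p.2 := by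
    intro p
    rw [hE, Finset.mem_filter, Finset.mem_product]
    exact ⟨fun h => h.2, fun h => ⟨⟨(hullE.mem h).1, (hullE.mem h).2⟩, h⟩⟩
  set g : ℂ × ℂ → ℝ → ℝ := fun p t => cr (p.2 - p.1) (qp q u ρ σ t - p.1) with hgd
  have hg : ∀ p ∈ E, Continuous (g p) := by
    intro p _
    have := qp_cont (q := q) (u := u) (ρ := ρ) (σ := σ)
    simp only [hgd]
    unfold cr
    fun_prop
  have g0 : ∀ p ∈ E, 0 < g p 0 := by
    rintro ⟨a, b⟩ hp
    rw [mE] at hp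
    have k1 := edge_dist hD hp
    have hn : 0 < ‖b - a‖ := norm_pos_iff.2 (sub_ne_zero.2 (hullE.ne hp).symm)
    have k2 := abs_cr_le (b - a) (qp q u ρ σ 0 - x0)
    have k3 : ‖qp q u ρ σ 0 - x0‖ = L - ρ := by
      have : ‖qp q u ρ σ 0 - x0‖ ^ 2 = (L - ρ) ^ 2 := by
        rw [qp_dist hu hq hσ 0]
        simp
        ring
      exact (sq_eq_sq₀ (norm_nonneg _) (by linarith)).1 this
    rw [k3] at k2
    have k4 := neg_le_of_abs_le k2
    have e1 : g (a, b) 0 = cr (b - a) (x0 - a) + cr (b - a) (qp q u ρ σ 0 - x0) := by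
      simp only [hgd]
      rw [← cr_add_right]
      congr 1
      ring
    rw [e1]
    nlinarith
  have g1 : ∃ p ∈ E, g p 1 ≤ 0 := by
    by_contra hcon
    push Not at hcon
    have hin : InHull S (qp q u ρ σ 1) := fun a b hab => (hcon (a, b) ((mE _).2 hab)).le
    obtain ⟨a, b, c, o, hT, hx, -⟩ := cover hD.gp h3 hin
    have h5 := inT_ball hT.pos hx (hD.sub a hT.ma) (hD.sub b hT.mb) (hD.sub c hT.mc)
    have h6 := qp_dist (ρ := ρ) hu hq hσ 1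
    rw [mul_one, Real.cos_pi_div_two, mul_zero, mul_zero, sub_zero] at h6
    nlinarith [norm_nonneg (qp q u ρ σ 1 - x0)]
  obtain ⟨s, s0, s1, ⟨⟨a, b⟩, hp, hps⟩, hall⟩ := first_exit hg g0 g1
  have hull : ∀ t, 0 ≤ t → t ≤ s → InHull S (qp q u ρ σ t) :=
    fun t ht hts a b hab => hall t ht hts (a, b) ((mE _).2 hab)
  rw [mE] at hp
  refine ⟨s, s0, s1, ⟨a, b, hp, mem_edge hD.gp h3 hp (hull s s0.le le_rfl) hps⟩, hull, ?_⟩
  -- the height of the exit point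
  have k1 := edge_dist hD hp
  have hn : 0 < ‖b - a‖ := norm_pos_iff.2 (sub_ne_zero.2 (hullE.ne hp).symm)
  have k2 : cr (b - a) (x0 - a) = -cr (b - a) (qp q u ρ σ s - x0) := by
    have e1 : cr (b - a) (qp q u ρ σ s - a) =
        cr (b - a) (x0 - a) + cr (b - a) (qp q u ρ σ s - x0) := by
      rw [← cr_add_right]
      congr 1
      ring
    simp only [hgd] at hps
    linarith
  have k3 := neg_le_of_abs_le (abs_cr_le (b - a) (qp q u ρ σ s - x0))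
  have k4 : L - 2 * e ≤ ‖qp q u ρ σ s - x0‖ := by
    by_contra hcon
    push Not at hcon
    nlinarith
  have k5 := qp_dist (ρ := ρ) hu hq hσ s
  have t1 : 0 ≤ Real.pi / 2 * s := by positivity
  have t2 : Real.pi / 2 * s ≤ Real.pi / 2 := by
    have := Real.pi_pos
    nlinarith
  have c0 : 0 ≤ Real.cos (Real.pi / 2 * s) :=
    Real.cos_nonneg_of_mem_Icc ⟨by linarith, t2⟩
  have n0 : 0 ≤ Real.sin (Real.pi / 2 * s) :=
    Real.sin_nonneg_of_nonneg_of_le_pi t1 (by linarith [Real.pi_pos])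
  have hsc := Real.sin_sq_add_cos_sq (Real.pi / 2 * s)
  set C := Real.cos (Real.pi / 2 * s) with hC
  set N := Real.sin (Real.pi / 2 * s) with hN
  have k6 : (L - 2 * e) ^ 2 ≤ ρ ^ 2 + L ^ 2 - 2 * L * (ρ * C) := by
    rw [← k5]
    exact pow_le_pow_left₀ (by linarith) k4 2
  have k7 : 2 * L * (ρ * C) ≤ 2 * ρ ^ 2 := by nlinarith
  have k8 : C ≤ 1 / 8 := by
    by_contra hcon
    push Not at hcon
    have : L * (ρ * C) ≤ ρ ^ 2 := by linarith
    have h5 : L * C ≤ ρ := by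
      by_contra hc2
      push Not at hc2
      nlinarith
    nlinarith
  have k9 : 7 / 8 ≤ N := by
    by_contra hcon
    push Not at hcon
    nlinarith
  nlinarith

/-- **the exit curve** (496's text) -/
theorem exit_curve (hD : Dns S x0 L e) (hu : ‖u‖ = 1) (hq : x0 = q + u * (L * Complex.I))
    (h1 : 64 * √(L * e) ≤ ρ) (h2 : 8 * ρ ≤ L) : ∃ Cv : Set ℂ, IsPreconnected Cv ∧
      (∀ y ∈ Cv, ‖y - q‖ = ρ ∧ ∃ t ∈ delT S, y ∈ Circx63.cT t) ∧
      (∃ y ∈ Cv, ∃ a b, hullE S a b ∧ y ∈ segment ℝ a b ∧ RE0x723.X q u y ≤ -(7 / 8 * ρ)) ∧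
      (∃ y ∈ Cv, ∃ a b, hullE S a b ∧ y ∈ segment ℝ a b ∧ 7 / 8 * ρ ≤ RE0x723.X q u y) := by
  have he := hD.dpos
  have hL8 := hD.dL
  have hρ : 0 ≤ ρ := by
    have := Real.sqrt_nonneg (L * e)
    linarith
  obtain ⟨s, s0, s1, ⟨a, b, hab, hs⟩, hin, hX⟩ :=
    side (σ := 1) hD hu hq h1 h2 (by norm_num)
  obtain ⟨s', s0', s1', ⟨a', b', hab', hs'⟩, hin', hX'⟩ :=
    side (σ := -1) hD hu hq h1 h2 (by norm_num)
  refine ⟨qp q u ρ 1 '' Icc 0 s ∪ qp q u ρ (-1) '' Icc 0 s', ?_, ?_, ?_, ?_⟩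
  · refine IsPreconnected.union (qp q u ρ 1 0) ⟨0, ⟨le_rfl, s0.le⟩, rfl⟩
      ⟨0, ⟨le_rfl, s0'.le⟩, by rw [qp_zero, qp_zero]⟩
      (isPreconnected_Icc.image _ qp_cont.continuousOn)
      (isPreconnected_Icc.image _ qp_cont.continuousOn)
  · have key : ∀ y, InHull S y → ∃ t ∈ delT S, y ∈ Circx63.cT t := by
      intro y hy
      obtain ⟨a, b, c, o, hT, hx, -⟩ := cover hD.gp hD.card hy
      exact ⟨(a, b, c), mem_delT_iff.2 ⟨o, hT⟩, hx⟩
    rintro y (⟨t, ht, rfl⟩ | ⟨t, ht, rfl⟩)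
    · exact ⟨qp_norm hu hρ (by norm_num) t, key _ (hin t ht.1 ht.2)⟩
    · exact ⟨qp_norm hu hρ (by norm_num) t, key _ (hin' t ht.1 ht.2)⟩
  · refine ⟨_, Or.inr ⟨s', ⟨s0'.le, le_rfl⟩, rfl⟩, a', b', hab', hs', ?_⟩
    rw [qp_X hu]
    linarith
  · refine ⟨_, Or.inl ⟨s, ⟨s0.le, le_rfl⟩, rfl⟩, a, b, hab, hs, ?_⟩
    rw [qp_X hu]
    linarith

end Crest.Agent.R143.Exitx920
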