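import Crest.Agent.R143.Y9D_831
import Crest.Agent.R143.Ex2_922
import Crest.Agent.R143.Ex_395

/-!
# Row 143 (S0194), leaf EXJL of Y9D_831 (helper922): existence of joins in the free disc
-/

set_option autoImplicit false
set_option linter.all false

noncomputable section

open scoped Classical

namespace Crest.Agent.R143.Exlx922

open Crest.ProbabilityR.Voronoi
open Crest.Agent.R143.B0x346 Crest.Agent.R143.B0Dx346 Crest.Agent.R143.DelGx806
  Crest.Agent.R143.DelRx806
open Crest.Agent.R143.Circx63 (cT seg_sub_cT)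
open Crest.Agent.R143.Locx922 (Hol norm_tri vedge_eq_inter vedge_sub_ball ring_W)
open Crest.Agent.R143.Ex0x922 Crest.Agent.R143.Ex2x922
open Crest.Agent.R143.Y8Dx831 Crest.Agent.R143.Y9Dx831
open Crest.Agent.R143.Spinex422 (Room Linked)

/-- **existence of joins for the half edges in the free disc**, for a finite set of sites -/
theorem hj_free {S : Finset ℂ} {D : Dom} {δ m R1 d : ℝ} (hD : D.OK δ) (hF : Free1 D R1)
    (hl : ∀ z : ℂ, ‖z - D.c‖ ≤ 2 * R1 → Linked D m z)
    (hS : DomAx722.Dns S D.c D.L d) (hd : 40000 * D.L ^ 5 * d ≤ δ ^ 6) (hm : 3 * d ≤ m)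
    (hdR : d ≤ R1) {a b c : ℂ} (ht : (a, b, c) ∈ delT S)
    (ha : a ∈ Metric.closedBall D.c (2 * R1)) :
    ((D.netS S).hj a b).Nonempty ∧ ((D.netS S).hj b a).Nonempty := by
  have hR := hF.pos
  have hL := hF.le
  have hd0 := hS.dpos
  have hN := DomAx722.d1_S hD hS hd
  have hT : (D.netS S).T = delT S := hN.tri
  have hH := hol_dns hS
  rw [Metric.mem_closedBall, dist_eq_norm] at ha
  have haW : a ∈ {w | ‖w - D.c‖ ≤ D.L - 2 * d} := by
    show ‖a - D.c‖ ≤ D.L - 2 * d
    linarith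
  have haS : a ∈ S := (mem_delT.1 ht).1
  obtain ⟨n, u, hR1, hall⟩ := ring_W hS.gp hd0 hH haW haS (G := (D.netS S).toTrg) hT
  -- live spokes
  have hlive : ∀ x, (a, x) ∉ (D.netS S).kl := by
    intro x hx
    rw [DomAx722.netS_kl hS.gp] at hx
    obtain ⟨z, hz, hzo⟩ := hx.1
    dsimp only at hz
    have h1 := (vedge_sub_ball hd0 hH haW hz).1
    have h2 := norm_tri z a D.c
    have h3 : z ∈ Metric.closedBall D.c (4 * R1) ∩ D.out := by
      refine ⟨?_, hzo⟩
      rw [Metric.mem_closedBall, dist_eq_norm]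
      linarith
    rw [hF.out] at h3
    exact h3
  obtain ⟨C, c1, c2, c3, c4, c5⟩ := hl a ha
  have hmeet : (cT (a, b, c) ∩ C).Nonempty :=
    ⟨a, seg_sub_cT (mem_delT.1 ht).2.2.2.1 (left_mem_segment ℝ a b), c2⟩
  obtain ⟨hE, -⟩ := exm_of_linked hD hS hd hm c1 (fun y hy => by
      have := c3 hy
      rwa [Metric.mem_closedBall, dist_eq_norm] at this) c4
    (fun y hy z hz h => by
      refine Set.disjoint_left.1 (c5 y hy) ?_ h
      rwa [Metric.mem_ball, dist_eq_norm]) ht hmeet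
  obtain ⟨i, h1, h2⟩ := hall b c ht
  have := Exx395.hj_ne_ring (J1x872.good_of_hnet hN) hR1 (fun i => hlive (u i))
    (i := i) (by rw [h1, h2]; exact hE)
  rw [h1] at this
  exact this

/-- **EXJL** -/
theorem exjl : EXJL := by
  intro D δ m R1 hD hF hm hl
  have hL := hD.Lpos
  have hδ := hD.dpos
  have hR := hF.pos
  refine ⟨min (min (δ ^ 6 / (40000 * D.L ^ 5)) (m / 3)) R1, by positivity, ?_⟩
  intro ε d M ω hε hd hd0 hE a b c ht ha hb
  have h1 : d ≤ δ ^ 6 / (40000 * D.L ^ 5) :=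
    hd0.trans ((min_le_left _ _).trans (min_le_left _ _))
  have h2 : d ≤ m / 3 := hd0.trans ((min_le_left _ _).trans (min_le_right _ _))
  have h3 : d ≤ R1 := hd0.trans (min_le_right _ _)
  have h4 : 40000 * D.L ^ 5 * d ≤ δ ^ 6 := by
    rw [le_div_iff₀ (by positivity)] at h1
    linarith
  have hS : DomAx722.Dns (D.sites ε ω) D.c D.L d :=
    DomAx722.dns_of_env hL (DomAx722.small_d hL hδ (DomAx722.lt_L hD).le h4) hE
  have := (hj_free hD hF hl hS h4 (by linarith) h3 ht ha).1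
  exact (Finset.card_pos.2 this).ne'

end Crest.Agent.R143.Exlx922
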