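import Crest.Agent.R143.DefsN_346

/-!
# Row 143 (S0194), route without E3 / ZF: exploration of the root leg, exact part (helper253)

(308's STEP 4 in 763's pathwise form, notes 2908 and 3147.)
Closed map `M : CMap D C`, root gap `o`, even configuration `x` with `Gp M x o`.

* `kill M K` : the same darts, the edges of `K` killed, their cells merged; `isC_kill`
* `sq M x o j` : the `j`-th state of the leg which starts at the root gap `o`
* `KE M x o n` : the gap sides of the first `n` faces of the leg; `ek M x o n` the explored map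
* `cl M x o n` : the configurations whose leg agrees up to the state `n`;
  `cl_eq` : `cl M x o n = ` the even configurations of `ek M x o n` with the gap `o`
* `ub M x o n` : the part of the block of `o` which is not yet explored at time `n`;
  `blk_ek` : it is the block of `o` in the explored map (without `o`)
* `zs M x o n u` : the sum of `u` over it. `sum_cl` : its conditional sum is `rs (ek M x o n) u o`;
  `frame_cl` : **conditional frame**
-/

set_option autoImplicit false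

noncomputable section

open scoped Classical

namespace Crest.Agent.R143.Explx253

open Crest.Agent.R143.Frame1x395 Crest.Agent.R143.Frame2x395 Crest.Agent.R143.Frame3x395
  Crest.Agent.R143.Frame4x395 Crest.Agent.R143.Frame8x395 Crest.Agent.R143.DefsNx346

variable {D C : Type} {M : CMap D C} {x y : D → ZMod 2} {K : Set D} {o g : D} {n : ℕ}

/-! ### killed edges -/

/-- cells joined through a killed edge -/
def KR (M : CMap D C) (K : Set D) (a b : C) : Prop := ∃ d ∈ K, a = M.cell d ∧ b = M.cell (M.rho d)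

theorem add_eq_zero_z2 : ∀ a b : ZMod 2, a + b = 0 ↔ a = b := by decide

/-- the map with the edges of `K` killed, their cells merged -/
def kill (M : CMap D C) (K : Set D) : CMap D (Quot (KR M K)) where
  rho := M.rho
  rho3 := M.rho3
  rho_ne := M.rho_ne
  iota := M.iota
  iota2 := M.iota2
  live := {d | d ∈ M.live ∧ d ∉ K ∧ M.iota d ∉ K}
  iota_live := fun d hd => ⟨M.iota_live d hd.1, hd.2.2, by rw [M.iota2]; exact hd.2.1⟩
  iota_ne := fun d hd => M.iota_ne d hd.1
  cell := fun d => Quot.mk _ (M.cell d)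
  cell_iota := fun d hd => by rw [M.cell_iota d hd.1]
  dead := fun d hd => by
    by_cases h : d ∈ M.live
    · by_cases h2 : d ∈ K
      · exact Quot.sound ⟨d, h2, rfl, rfl⟩
      · have h3 : M.iota d ∈ K := by
          by_contra h3
          exact hd ⟨h, h2, h3⟩
        symm
        refine Quot.sound ⟨M.iota d, h3, ?_, ?_⟩
        · exact (M.cell_iota d h).symm
        · exact (cell_rho_iota M h).symm
    · rw [M.dead d h]
  ex := fun x hd hi hp => by
    obtain ⟨χ, hχ⟩ := M.ex x (fun d h => hd d fun h' => h h'.1) hi hp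
    refine ⟨Quot.lift χ ?_, hχ⟩
    rintro a b ⟨d, hd', rfl, rfl⟩
    have h1 := hχ d
    rw [hd d fun h' => h'.2.1 hd'] at h1
    exact (add_eq_zero_z2 _ _).1 h1.symm

theorem isC_kill {O : Set D} : IsC (kill M K) O y ↔ IsC M O y ∧ ∀ d ∈ K, y d = 0 := by
  constructor
  · intro h
    refine ⟨⟨fun d hd => h.dead d fun h' => hd h'.1, h.iot, h.par⟩, fun d hd => ?_⟩
    exact h.dead d fun h' => h'.2.1 hd
  · rintro ⟨h, hK⟩
    refine ⟨fun d hd => ?_, h.iot, h.par⟩
    by_cases h1 : d ∈ M.live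
    · by_cases h2 : d ∈ K
      · exact hK d h2
      · have h3 : M.iota d ∈ K := by
          by_contra h3
          exact hd ⟨h1, h2, h3⟩
        rw [← h.iot]
        exact hK _ h3
    · exact h.dead d h1

theorem spin_kill {w : ℂ} {a : D → ℂ} : Spin (kill M K) w a ↔ Spin M w a := Iff.rfl

/-! ### the leg -/

/-- the `j`-th state of the leg which starts at the root gap -/
def sq (M : CMap D C) (x : D → ZMod 2) (o : D) (j : ℕ) : D := (stp M x)^[j] (out M o)

theorem sq_zero : sq M x o 0 = out M o := rfl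

theorem sq_succ (j : ℕ) : sq M x o (j + 1) = stp M x (sq M x o j) :=
  Function.iterate_succ_apply' _ _ _

theorem sq_occ (h : IsC M ∅ x) (ho : Gp M x o) (j : ℕ) : x (sq M x o j) = 1 :=
  occ_it h (ho.out h) j

/-- the gap sides of the first `n` faces of the leg -/
def KE (M : CMap D C) (x : D → ZMod 2) (o : D) (n : ℕ) : Set D :=
  {d | ∃ j < n, d ∈ Fa M (sq M x o j) ∧ x d = 0}

/-- the explored map -/
def ek (M : CMap D C) (x : D → ZMod 2) (o : D) (n : ℕ) : CMap D (Quot (KR M (KE M x o n))) :=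
  kill M (KE M x o n)

/-- the two kinds of steps -/
theorem step_gap (h : IsC M ∅ x) {p d : D} (hp : x p = 1) (hd : d ∈ Fa M p) (h0 : x d = 0) :
    (d = M.rho p ∧ stp M x p = M.iota (M.rho (M.rho p)) ∧ x (M.rho (M.rho p)) = 1) ∨
    (d = M.rho (M.rho p) ∧ stp M x p = M.iota (M.rho p) ∧ x (M.rho p) = 1) := by
  rcases hd with rfl | rfl | rfl
  · rw [hp] at h0; exact absurd h0 (by decide)
  · left
    rcases stp_cases h hp (Set.notMem_empty _) with ⟨h1, -, -⟩ | ⟨-, h2, e⟩
    · rw [h0] at h1; exact absurd h1 (by decide)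
    · exact ⟨rfl, e, h2⟩
  · right
    rcases stp_cases h hp (Set.notMem_empty _) with ⟨h1, -, e⟩ | ⟨-, h2, -⟩
    · exact ⟨rfl, e, h1⟩
    · rw [h0] at h2; exact absurd h2 (by decide)

theorem exists_gap (h : IsC M ∅ x) {p : D} (hp : x p = 1) : ∃ d ∈ Fa M p, x d = 0 := by
  rcases stp_cases h hp (Set.notMem_empty _) with ⟨-, h2, -⟩ | ⟨h1, -, -⟩
  · exact ⟨_, fa2 M p, h2⟩
  · exact ⟨_, fa1 M p, h1⟩

/-- the same step, the same gap -/
theorem stp_iff (h : IsC M ∅ x) (h' : IsC M ∅ y) {p : D} (hp : x p = 1) (hp' : y p = 1) :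
    stp M y p = stp M x p ↔ ∀ d ∈ Fa M p, x d = 0 → y d = 0 := by
  constructor
  · intro e d hd h0
    rcases step_gap h hp hd h0 with ⟨rfl, e1, h1⟩ | ⟨rfl, e1, h1⟩
    · rcases stp_cases h' hp' (Set.notMem_empty _) with ⟨h2, h3, e2⟩ | ⟨h2, -, -⟩
      · exfalso
        rw [e, e1] at e2
        exact M.rho_ne _ (iota_inj M e2)
      · exact h2
    · rcases stp_cases h' hp' (Set.notMem_empty _) with ⟨h2, h3, e2⟩ | ⟨h2, h3, e2⟩
      · exact h3
      · exfalso
        rw [e, e1] at e2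
        exact M.rho_ne _ (iota_inj M e2).symm
  · intro H
    obtain ⟨d, hd, h0⟩ := exists_gap h hp
    have h1 := H d hd h0
    rcases step_gap h hp hd h0 with ⟨e1, e2, -⟩ | ⟨e1, e2, -⟩ <;>
      rcases step_gap h' hp' hd h1 with ⟨e3, e4, -⟩ | ⟨e3, e4, -⟩
    · rw [e2, e4]
    · exact absurd (e3.symm.trans e1) (M.rho_ne _)
    · exact absurd (e1.symm.trans e3) (M.rho_ne _)
    · rw [e2, e4]

/-- **(X1)** the leg agrees up to time `n` iff the gap sides of the first `n` faces are empty -/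
theorem agree_iff (h : IsC M ∅ x) (ho : Gp M x o) (h' : IsC M ∅ y) (ho' : Gp M y o) :
    (∀ j ≤ n, sq M y o j = sq M x o j) ↔ ∀ d ∈ KE M x o n, y d = 0 := by
  constructor
  · rintro H d ⟨j, hj, hd, h0⟩
    have e1 := H j hj.le
    have e2 := H (j + 1) hj
    rw [sq_succ, sq_succ, e1] at e2
    have hy := sq_occ h' ho' j
    rw [e1] at hy
    exact (stp_iff h h' (sq_occ h ho j) hy).1 e2 d hd h0
  · intro H j
    induction j with
    | zero => intro _; rfl
    | succ j ih =>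
      intro hj
      have e1 := ih (by omega)
      rw [sq_succ, sq_succ, e1]
      have hy := sq_occ h' ho' j
      rw [e1] at hy
      exact (stp_iff h h' (sq_occ h ho j) hy).2 fun d hd h0 => H d ⟨j, hj, hd, h0⟩

theorem KE_eq (h : IsC M ∅ x) (ho : Gp M x o) (h' : IsC M ∅ y) (ho' : Gp M y o)
    (H : ∀ j ≤ n, sq M y o j = sq M x o j) : KE M y o n = KE M x o n := by
  have h1 := (agree_iff h ho h' ho').1 H
  have h2 := (agree_iff (n := n) h' ho' h ho).1 fun j hj => (H j hj).symm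
  ext d
  constructor
  · rintro ⟨j, hj, hd, h0⟩
    have h3 := h2 d ⟨j, hj, hd, h0⟩
    rw [H j hj.le] at hd
    exact ⟨j, hj, hd, h3⟩
  · rintro ⟨j, hj, hd, h0⟩
    have h3 := h1 d ⟨j, hj, hd, h0⟩
    rw [← H j hj.le] at hd
    exact ⟨j, hj, hd, h3⟩

theorem self_KE : ∀ d ∈ KE M x o n, x d = 0 := by
  rintro d ⟨j, hj, hd, h0⟩
  exact h0

theorem isC_ek (h : IsC M ∅ x) : IsC (ek M x o n) ∅ x :=
  isC_kill.2 ⟨h, by rintro d ⟨j, hj, hd, h0⟩; exact h0⟩

/-! ### the block of the root in the explored map -/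

theorem cell_stp_left (h : IsC M ∅ x) {p : D} (hp : x p = 1) :
    (∃ d ∈ Fa M p, x d = 0 ∧ M.cell (stp M x p) = M.cell d ∧ M.cell p = M.cell (M.rho d)) ∨
    M.cell (stp M x p) = M.cell p := by
  rcases stp_cases h hp (Set.notMem_empty _) with ⟨h1, h2, e⟩ | ⟨h1, h2, e⟩
  · left
    refine ⟨M.rho (M.rho p), fa2 M p, h2, ?_, ?_⟩
    · rw [e, M.cell_iota _ (h.lv h1)]
    · rw [M.rho3]
  · right
    rw [e, M.cell_iota _ (h.lv h2), M.rho3]

/-- the left cells of the explored part are merged -/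
theorem left_merged (h : IsC M ∅ x) (ho : Gp M x o) : ∀ j ≤ n,
    (Quot.mk (KR M (KE M x o n)) (M.cell (sq M x o j))) = Quot.mk _ (M.cell (out M o)) := by
  intro j
  induction j with
  | zero => intro _; rfl
  | succ j ih =>
    intro hj
    rw [← ih (by omega), sq_succ]
    rcases cell_stp_left h (sq_occ h ho j) with ⟨d, hd, h0, e1, e2⟩ | e
    · rw [e1, e2]
      exact Quot.sound ⟨d, ⟨j, hj, hd, h0⟩, rfl, rfl⟩
    · rw [e]

theorem rel_ek [Finite D] (h : IsC M ∅ x) (ho : Gp M x o) (hg : Gp M x g) (hne : o ≠ g) :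
    Rel (ek M x o n) x o g ↔ Rel M x o g ∧ ∀ j < n, sq M x o j ≠ M.rho g := by
  constructor
  · intro H
    refine ⟨fun c => ?_, fun j hj e => ?_⟩
    · rcases H (Quot.mk _ c) with h1 | ⟨m, h1, h2⟩ | ⟨m, h1, h2⟩
      · exact Or.inl h1
      · exact Or.inr (Or.inl ⟨m, h1, fun k hk e => h2 k hk (congrArg (Quot.mk _) e)⟩)
      · exact Or.inr (Or.inr ⟨m, h1, fun k hk e => h2 k hk (congrArg (Quot.mk _) e)⟩)
    · rcases H (Quot.mk _ (M.cell (out M o))) with h1 | ⟨m, h1, h2⟩ | ⟨m, h1, h2⟩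
      · exact hne h1
      · exact h2 0 (Nat.zero_le _) rfl
      · apply h2 0 (Nat.zero_le _)
        have e1 : out M g = sq M x o (j + 1) := by
          rw [sq_succ, e, hg.stp h]
        show Quot.mk _ (M.cell (out M g)) = _
        rw [e1]
        exact left_merged h ho (j + 1) hj
  · rintro ⟨H, hun⟩ q
    -- the two arcs
    have ex1 : (∃ k, (stp M x)^[k] (out M o) = M.rho g) ∧
        ∃ m, (stp M x)^[m] (out M g) = M.rho o := by
      rcases H (M.cell o) with h1 | ⟨k, h1, -⟩ | ⟨m, h1, -⟩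
      · exact absurd h1 hne
      · exact ⟨⟨k, h1⟩, come_back h ho hg h1⟩
      · exact ⟨come_back h hg ho h1, ⟨m, h1⟩⟩
    obtain ⟨E1, E2⟩ := ex1
    set k := Nat.find E1 with hk
    set m := Nat.find E2 with hm
    have ek' : (stp M x)^[k] (out M o) = M.rho g := Nat.find_spec E1
    have em' : (stp M x)^[m] (out M g) = M.rho o := Nat.find_spec E2
    have mk' : ∀ j, (stp M x)^[j] (out M o) = M.rho g → k ≤ j := fun j hj => Nat.find_min' E1 hj
    have mm' : ∀ j, (stp M x)^[j] (out M g) = M.rho o → m ≤ j := fun j hj => Nat.find_min' E2 hj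
    have hnk : n ≤ k := by
      by_contra hc
      push Not at hc
      exact hun k hc ek'
    have dj : ∀ a ≤ k, ∀ b ≤ m, M.cell (sq M x o a) ≠ M.cell ((stp M x)^[b] (out M g)) := by
      intro a ha b hb e
      rcases H (M.cell (sq M x o a)) with h1 | ⟨n', h1, h2⟩ | ⟨m', h1, h2⟩
      · exact hne h1
      · exact h2 a (ha.trans (mk' n' h1)) rfl
      · exact h2 b (hb.trans (mm' m' h1)) e.symm
    by_cases hq : ∀ a ≤ k, (Quot.mk (KR M (KE M x o n)) (M.cell (sq M x o a))) ≠ q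
    · exact Or.inr (Or.inl ⟨k, ek', fun a ha => hq a ha⟩)
    · push Not at hq
      obtain ⟨a, ha, hqa⟩ := hq
      refine Or.inr (Or.inr ⟨m, em', fun b hb e => ?_⟩)
      -- colours
      obtain ⟨χ, hχ⟩ := M.ex x h.dead h.iot
        (fun d => by rw [h.par d, if_neg (Set.notMem_empty d)])
      have hχ0 : ∀ d, x d = 0 → χ (M.cell d) = χ (M.cell (M.rho d)) := by
        intro d hd
        rw [hχ d] at hd
        exact (add_eq_zero_z2 _ _).1 hd
      have hχ1 : ∀ d, x d = 1 → χ (M.cell d) ≠ χ (M.cell (M.rho d)) := by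
        intro d hd hc
        rw [hχ d, (add_eq_zero_z2 _ _).2 hc] at hd
        exact absurd hd (by decide)
      have cL : ∀ j, χ (M.cell (sq M x o j)) = χ (M.cell (out M o)) := fun j =>
        it_col h (ho.out h) hχ0 j
      have cG : χ (M.cell (out M g)) = χ (M.cell (out M o)) := by
        rw [← cL (k + 1), sq_succ]
        show _ = χ (M.cell (stp M x ((stp M x)^[k] (out M o))))
        rw [ek', hg.stp h]
      have cA : ∀ j, χ (M.cell ((stp M x)^[j] (out M g))) = χ (M.cell (out M o)) := fun j =>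
        (it_col h (hg.out h) hχ0 j).trans cG
      -- the invariant
      have hF : ∀ c c' : C, KR M (KE M x o n) c c' →
          (∃ b ≤ m, M.cell ((stp M x)^[b] (out M g)) = c) =
          (∃ b ≤ m, M.cell ((stp M x)^[b] (out M g)) = c') := by
        rintro c c' ⟨d, ⟨j, hj, hd, h0⟩, rfl, rfl⟩
        have hp := sq_occ h ho j
        have no : ¬ (∃ b ≤ m, M.cell ((stp M x)^[b] (out M g)) = M.cell d) ∧
            ¬ (∃ b ≤ m, M.cell ((stp M x)^[b] (out M g)) = M.cell (M.rho d)) := by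
          rcases step_gap h hp hd h0 with ⟨rfl, e1, h1⟩ | ⟨rfl, e1, h1⟩
          · -- right cells
            have r0 : χ (M.cell (M.rho (sq M x o j))) ≠ χ (M.cell (out M o)) := by
              rw [← cL j]; exact (hχ1 _ hp).symm
            have r1 : χ (M.cell (M.rho (M.rho (sq M x o j)))) ≠ χ (M.cell (out M o)) := by
              rw [← hχ0 _ h0]; exact r0
            constructor
            · rintro ⟨b, -, eb⟩
              exact r0 (by rw [← eb]; exact cA b)
            · rintro ⟨b, -, eb⟩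
              exact r1 (by rw [← eb]; exact cA b)
          · -- left cells
            have l1 : M.cell (M.rho (M.rho (sq M x o j))) = M.cell (sq M x o (j + 1)) := by
              rw [sq_succ, e1, M.cell_iota _ (h.lv h1)]
            constructor
            · rintro ⟨b, hb, eb⟩
              rw [l1] at eb
              exact dj (j + 1) (by omega) b hb eb.symm
            · rintro ⟨b, hb, eb⟩
              rw [M.rho3] at eb
              exact dj j (by omega) b hb eb.symm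
        rw [eq_false no.1, eq_false no.2]
      set F : Quot (KR M (KE M x o n)) → Prop :=
        Quot.lift (fun c => ∃ b ≤ m, M.cell ((stp M x)^[b] (out M g)) = c) hF with hFd
      have e3 : (Quot.mk (KR M (KE M x o n)) (M.cell ((stp M x)^[b] (out M g)))) =
          Quot.mk _ (M.cell (sq M x o a)) := by
        rw [hqa]; exact e
      have e4 : F (Quot.mk _ (M.cell ((stp M x)^[b] (out M g)))) := ⟨b, hb, rfl⟩
      rw [e3] at e4
      obtain ⟨b', hb', eb'⟩ := e4
      exact dj a ha b' hb' eb'.symm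

section fin

variable [Fintype D]

/-- the part of the block of the root which is not explored at time `n` -/
def ub (M : CMap D C) (x : D → ZMod 2) (o : D) (n : ℕ) : Finset D :=
  (blk M x o).filter fun g => ∀ j < n, sq M x o j ≠ M.rho g

/-- **(X2)** exact: the block of the root in the explored map -/
theorem mem_blk_ek (h : IsC M ∅ x) (ho : Gp M x o) (hne : o ≠ g) :
    g ∈ blk (ek M x o n) x o ↔ g ∈ ub M x o n := by
  unfold ub
  rw [Finset.mem_filter, mem_blk, mem_blk]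
  constructor
  · rintro ⟨h1, h2⟩
    obtain ⟨h3, h4⟩ := (rel_ek h ho h1 hne).1 h2
    exact ⟨⟨h1, h3⟩, h4⟩
  · rintro ⟨⟨h1, h2⟩, h3⟩
    exact ⟨h1, (rel_ek h ho h1 hne).2 ⟨h2, h3⟩⟩

/-- block sum over the unexplored part -/
def zs (M : CMap D C) (x : D → ZMod 2) (o : D) (n : ℕ) (u : D → ℂ) : ℂ := ∑ g ∈ ub M x o n, u g

theorem zs_zero (u : D → ℂ) : zs M x o 0 u = bs M x u o := by
  unfold zs ub bs
  rw [Finset.filter_true_of_mem fun g _ j hj => absurd hj (Nat.not_lt_zero j)]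

theorem zs_eq {u : D → ℂ} (h : IsC M ∅ x) (ho : Gp M x o) (hu : u o = 0) :
    zs M x o n u = bs (ek M x o n) x u o := by
  unfold zs bs
  have e1 : ∀ s : Finset D, ∑ g ∈ s, u g = ∑ g ∈ s.erase o, u g := fun s =>
    (Finset.sum_erase s hu).symm
  rw [e1, e1 (blk _ _ _)]
  refine Finset.sum_congr ?_ fun _ _ => rfl
  ext g
  rw [Finset.mem_erase, Finset.mem_erase]
  constructor
  · rintro ⟨h1, h2⟩
    exact ⟨h1, (mem_blk_ek h ho (Ne.symm h1)).2 h2⟩
  · rintro ⟨h1, h2⟩
    exact ⟨h1, (mem_blk_ek h ho (Ne.symm h1)).1 h2⟩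

/-- the even configurations with the gap `o` -/
def A0 (M : CMap D C) (o : D) : Finset (D → ZMod 2) := (ev M).filter fun x => Gp M x o

theorem mem_A0 : x ∈ A0 M o ↔ IsC M ∅ x ∧ Gp M x o := by
  unfold A0
  rw [Finset.mem_filter, mem_ev]

theorem card_A0 : (A0 M o).card = nG M o := by
  unfold A0 nG ev
  rw [Finset.filter_filter]

/-- the configurations whose leg agrees with the leg of `x` up to the state `n` -/
def cl (M : CMap D C) (x : D → ZMod 2) (o : D) (n : ℕ) : Finset (D → ZMod 2) :=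
  (A0 M o).filter fun y => ∀ j ≤ n, sq M y o j = sq M x o j

theorem mem_cl : y ∈ cl M x o n ↔ (IsC M ∅ y ∧ Gp M y o) ∧ ∀ j ≤ n, sq M y o j = sq M x o j := by
  unfold cl
  rw [Finset.mem_filter, mem_A0]

theorem self_cl (h : IsC M ∅ x) (ho : Gp M x o) : x ∈ cl M x o n :=
  mem_cl.2 ⟨⟨h, ho⟩, fun _ _ => rfl⟩

theorem cl_cl (hy : y ∈ cl M x o n) : cl M y o n = cl M x o n := by
  obtain ⟨-, h2⟩ := mem_cl.1 hy
  ext z
  rw [mem_cl, mem_cl]
  constructor
  · rintro ⟨h3, h4⟩
    exact ⟨h3, fun j hj => (h4 j hj).trans (h2 j hj)⟩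
  · rintro ⟨h3, h4⟩
    exact ⟨h3, fun j hj => (h4 j hj).trans (h2 j hj).symm⟩

/-- **the conditional law** is uniform on the configurations of the explored map -/
theorem cl_eq (h : IsC M ∅ x) (ho : Gp M x o) : cl M x o n = A0 (ek M x o n) o := by
  ext y
  rw [mem_cl, mem_A0]
  constructor
  · rintro ⟨⟨h1, h2⟩, h3⟩
    exact ⟨isC_kill.2 ⟨h1, (agree_iff h ho h1 h2).1 h3⟩, h2⟩
  · rintro ⟨h1, h2⟩
    obtain ⟨h3, h4⟩ := isC_kill.1 h1
    exact ⟨⟨h3, h2⟩, (agree_iff h ho h3 h2).2 h4⟩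

theorem zs_cl {u : D → ℂ} (h : IsC M ∅ x) (ho : Gp M x o) (hy : y ∈ cl M x o n) (hu : u o = 0) :
    zs M y o n u = bs (ek M x o n) y u o := by
  obtain ⟨⟨h1, h2⟩, h3⟩ := mem_cl.1 hy
  rw [zs_eq h1 h2 hu]
  exact congrArg (fun K => bs (kill M K) y u o) (KE_eq h ho h1 h2 h3)

/-- **the conditional expectation** of the sum over the unexplored part -/
theorem sum_cl {u : D → ℂ} (h : IsC M ∅ x) (ho : Gp M x o) (hu : u o = 0) :
    ∑ y ∈ cl M x o n, zs M y o n u = rs (ek M x o n) u o := by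
  unfold rs
  have e := cl_eq (n := n) h ho
  unfold A0 at e
  rw [← e]
  exact Finset.sum_congr rfl fun y hy => zs_cl h ho hy hu

/-- numbers of gaps in a map with one configuration with the gap `o` -/
theorem nG_max (h : IsC M ∅ x) (ho : Gp M x o) : nZ M o = nG M o := by
  refine le_antisymm ?_ (nG_le o)
  unfold nZ nG
  refine Finset.card_le_card_of_injOn (fun y d => y d + x d) ?_ ?_
  · intro y hy
    obtain ⟨-, h1, h2, h3, h4⟩ := Finset.mem_filter.1 hy
    refine Finset.mem_coe.2 (Finset.mem_filter.2 ⟨Finset.mem_univ _, isC_add' h1 h, ?_, ?_⟩)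
    · show y o + x o = 0
      rw [h2, ho.1]; decide
    · show y (M.rho o) + x (M.rho o) = 1
      rw [h3, ho.2]; decide
  · intro y _ z _ hyz
    funext d
    exact add_right_cancel (congrFun hyz d)

theorem nE_max (h : IsC M ∅ x) (ho : Gp M x o) : (nE M : ℝ) ≤ 4 * (nG M o : ℝ) := by
  have h1 := nE_le (M := M) o
  rw [nG_max h ho] at h1
  linarith

/-- a weighted sum for a spin field -/
theorem spin_sum {w : ℂ} (w3 : w ^ 3 = 1) {u : D → ℂ} (hs : Spin M w u) :
    ∑ g, ‖u g‖ ^ 2 * (nG M g : ℝ) ≤ (nE M : ℝ) / 4 * ∑ g, ‖u g‖ ^ 2 := by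
  have hw : ‖w‖ = 1 := by
    have h1 : ‖w‖ ^ 3 = 1 := by rw [← norm_pow, w3, norm_one]
    exact (pow_eq_one_iff_of_nonneg (norm_nonneg _) (by norm_num)).1 h1
  have hn : ∀ d, ‖u (M.rho d)‖ = ‖u d‖ := fun d => by rw [hs, norm_mul, hw, one_mul]
  have e1 : ∑ g, ‖u g‖ ^ 2 * (nG M g : ℝ) = ∑ g, ‖u g‖ ^ 2 * (nG M (M.rho g) : ℝ) := by
    symm
    refine Fintype.sum_equiv (rhoE M) _ _ fun g => ?_
    show ‖u g‖ ^ 2 * (nG M (M.rho g) : ℝ) = ‖u (M.rho g)‖ ^ 2 * (nG M (M.rho g) : ℝ)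
    rw [hn]
  have e2 : ∑ g, ‖u g‖ ^ 2 * (nG M g : ℝ) = ∑ g, ‖u g‖ ^ 2 * (nG M (M.rho (M.rho g)) : ℝ) := by
    symm
    refine Fintype.sum_equiv ((rhoE M).trans (rhoE M)) _ _ fun g => ?_
    show ‖u g‖ ^ 2 * (nG M (M.rho (M.rho g)) : ℝ) =
      ‖u (M.rho (M.rho g))‖ ^ 2 * (nG M (M.rho (M.rho g)) : ℝ)
    rw [hn, hn]
  have e3 : ∑ g, ‖u g‖ ^ 2 * (nG M g : ℝ) + ∑ g, ‖u g‖ ^ 2 * (nG M (M.rho g) : ℝ) +
      ∑ g, ‖u g‖ ^ 2 * (nG M (M.rho (M.rho g)) : ℝ) ≤ 3 / 4 * (nE M : ℝ) * ∑ g, ‖u g‖ ^ 2 := by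
    rw [← Finset.sum_add_distrib, ← Finset.sum_add_distrib, Finset.mul_sum]
    refine Finset.sum_le_sum fun g _ => ?_
    have h1 := nG_sum (M := M) g
    push_cast at h1
    have h2 := mul_le_mul_of_nonneg_left h1 (sq_nonneg ‖u g‖)
    calc _ = ‖u g‖ ^ 2 * ((nG M g : ℝ) + nG M (M.rho g) + nG M (M.rho (M.rho g))) := by ring
      _ ≤ _ := h2
      _ = _ := by ring
  rw [← e1, ← e2] at e3
  linarith

/-- **(X3) conditional frame** -/
theorem frame_cl {w : ℂ} (w3 : w ^ 3 = 1) (w1 : w ≠ 1) (wc : (starRingEnd ℂ) w = w ^ 2)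
    {u : D → ℂ} (h : IsC M ∅ x) (ho : Gp M x o) (hu : u o = 0) (hs : Spin M w u) :
    ∑ y ∈ cl M x o n, ‖zs M y o n u‖ ^ 2 ≤ ((cl M x o n).card : ℝ) * ∑ g, ‖u g‖ ^ 2 := by
  have h1 := rs_bound w3 w1 wc (M := ek M x o n) (a := u) (spin_kill.2 hs) o
  have h2 := spin_sum (M := ek M x o n) w3 (u := u) (spin_kill.2 hs)
  have h3 := nE_max (M := ek M x o n) (isC_ek h) ho
  have e : ((cl M x o n).card : ℝ) = (nG (ek M x o n) o : ℝ) := by
    rw [cl_eq h ho, card_A0]
  have e2 : ∑ y ∈ cl M x o n, ‖zs M y o n u‖ ^ 2 =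
      ∑ x_1 ∈ (ev (ek M x o n)).filter (fun x_1 => Gp (ek M x o n) x_1 o),
        ‖bs (ek M x o n) x_1 u o‖ ^ 2 := by
    have e3 := cl_eq (n := n) h ho
    unfold A0 at e3
    rw [← e3]
    exact Finset.sum_congr rfl fun y hy => by rw [zs_cl h ho hy hu]
  rw [e2, e]
  have h4 : (0 : ℝ) ≤ ∑ g, ‖u g‖ ^ 2 := Finset.sum_nonneg fun g _ => by positivity
  calc _ ≤ _ := h1
    _ ≤ (nE (ek M x o n) : ℝ) / 4 * ∑ g, ‖u g‖ ^ 2 := h2
    _ ≤ _ := by
      refine mul_le_mul_of_nonneg_right ?_ h4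
      linarith

/-- conditional frame, first moment -/
theorem frame_cl1 {w : ℂ} (w3 : w ^ 3 = 1) (w1 : w ≠ 1) (wc : (starRingEnd ℂ) w = w ^ 2)
    {u : D → ℂ} (h : IsC M ∅ x) (ho : Gp M x o) (hu : u o = 0) (hs : Spin M w u) :
    ∑ y ∈ cl M x o n, ‖zs M y o n u‖ ≤ ((cl M x o n).card : ℝ) * √(∑ g, ‖u g‖ ^ 2) := by
  have h1 := frame_cl (n := n) w3 w1 wc h ho hu hs
  set c : ℝ := ((cl M x o n).card : ℝ) with hc
  set B : ℝ := ∑ g, ‖u g‖ ^ 2 with hB
  have hB0 : 0 ≤ B := Finset.sum_nonneg fun g _ => by positivity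
  have hc0 : 0 ≤ c := Nat.cast_nonneg _
  have h2 : (∑ y ∈ cl M x o n, ‖zs M y o n u‖) ^ 2 ≤ c * (c * B) := by
    have h3 := sq_sum_le_card_mul_sum_sq (s := cl M x o n) (f := fun y => ‖zs M y o n u‖)
    exact h3.trans (mul_le_mul_of_nonneg_left h1 hc0)
  have h4 : 0 ≤ ∑ y ∈ cl M x o n, ‖zs M y o n u‖ := Finset.sum_nonneg fun y _ => norm_nonneg _
  calc ∑ y ∈ cl M x o n, ‖zs M y o n u‖ ≤ √(c * (c * B)) := Real.le_sqrt_of_sq_le h2
    _ = c * √B := by
      rw [← mul_assoc, Real.sqrt_mul (by positivity), Real.sqrt_mul_self hc0]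

end fin

end Crest.Agent.R143.Explx253
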