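import Crest.Agent.R143.RcT_422
import Crest.Agent.R143.Xc_372
import Crest.Agent.R143.CorEh_829
import Crest.Agent.R143.SysA_168
import Crest.Agent.R143.FinM_609

/-!
# Row 143 (S0194), RIG, field `small`: the sites off the exterior lie near the polygon (helper387)

`S` dense in the disc (`Dns S c L d`), `F` = coarse squares of the polygon (478's `cells U`), coarse
side `m h`, origin `o`.  `Nr o H F r` = points at sup distance `≤ r` from the squares of `F`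
(complement of 372's `FaS`), `NrS` = at sup distance `< r` (complement of `Fa`).
* `ext_pth` : a path of sites with cells off `Z` to a hull site ==> the cell is in `Ext`
* `ext_far` : `Z ⊆ RC hS B`, `B ⊆ NrS (k h - 2 d)`, `2 k + 1 ≤ m` ==> the cell of every site at sup
  distance `> k h` is in `Ext (rc0 hS) (Hc hS) Z`; `near_of_off`
* **`off_near`** : a dart whose cell is off `Ww` (358's white giant) starts in `Nr (k h)`
* **`cdisc_near`**, **`off_disc`** : and its closed circumdisc is inside `Nr (k h + 2 d)`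
  (304's hypothesis `hd` of `InU_ex`, `Big_ex`, `small_ex`)
* `off_disc_brick` (bricks), `off_disc_strd` (358's blocking set `zc` of 323's strand `Strd`, zones
  inside `RC hS B`), `Nr_bdd`, `nr_inner` : `Nr` is bounded, no hull sites in it
-/

set_option autoImplicit false
set_option linter.unusedSectionVars false

noncomputable section

open scoped Classical

namespace Crest.Agent.R143.ExtUx387

open Crest.ProbabilityR.Voronoi
open Crest.Agent.R143.B0x346 Crest.Agent.R143.DelGx806 Crest.Agent.R143.DelRx806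
  Crest.Agent.R143.DomAx722 Crest.Agent.R143.JColx54 Crest.Agent.R143.RE0x723
  Crest.Agent.R143.Locx922 Crest.Agent.R143.Mass1x302 Crest.Agent.R143.Mass5x302
  Crest.Agent.R143.FinCx811 Crest.Agent.R143.Xcx372
open Crest.Agent.R143.Frame1x395 Crest.Agent.R143.Frame3x395
  Crest.Agent.R143.Frame4x395 Crest.Agent.R143.Frame8x395 Crest.Agent.R143.Frame9x395
  Crest.Agent.R143.Frame10x395
open Crest.Agent.R143.Frame5x395 (sd mem_sd th th_spec)
open Crest.Agent.R143.Extx358 (Ad Ext Sep Zc Bd)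
open Crest.Agent.R143.RcTx422 (Hc cs_Hc RC step_rc)
open Crest.Agent.R158.Sp896 (V Con)

variable {S : Finset ℂ} {hS : GP (S : Set ℂ)}

/-! ### paths of sites -/

/-- a path of sites whose cells are off `Z`, ending at a hull site -/
theorem ext_pth (h3 : 3 ≤ S.card) {Z : Set (Cs hS)} {W : Set ℂ}
    (hW : ∀ x (hx : x ∈ S), x ∈ W → cs hS h3 ⟨x, hx⟩ ∉ Z) {s a : ℂ}
    (h : RE0x723.Pth S W s a) (hs : s ∈ S) (ha : OnHull S a) :
    Ext (rc0 hS) (Hc hS) Z (cs hS h3 ⟨s, hs⟩) := by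
  have hp := h.symm
  have haS : a ∈ S := RcTx422.hull_mem ha
  refine RE0x723.Pth.ind (P := fun x => ∀ hx : x ∈ S,
    Ext (rc0 hS) (Hc hS) Z (cs hS h3 ⟨x, hx⟩)) hp ?_ ?_ hs
  · intro hx
    exact Ext.hull (cs_Hc h3 ha) (hW a hx hp.1)
  · intro x y hxV hyV hxy ih hy
    have hx := (Adj.mem hxy).1
    rcases step_rc (hS := hS) h3 (u := ⟨x, hx⟩) (w := ⟨y, hy⟩) hxy with e | e
    · rw [← e]; exact ih hx
    · exact Ext.step (ih hx) e (hW y hy hyV)

/-! ### neighbourhoods of the polygon -/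

/-- points at sup distance `≤ r` from the squares of `F` -/
def Nr (o : ℂ) (H : ℝ) (F : Set V) (r : ℝ) : Set ℂ :=
  {z | ∃ q ∈ F, o.re + H * q.1 - r ≤ z.re ∧ z.re ≤ o.re + H * (q.1 + 1) + r ∧
    o.im + H * q.2 - r ≤ z.im ∧ z.im ≤ o.im + H * (q.2 + 1) + r}

/-- points at sup distance `< r` from the squares of `F` -/
def NrS (o : ℂ) (H : ℝ) (F : Set V) (r : ℝ) : Set ℂ :=
  {z | ∃ q ∈ F, o.re + H * q.1 - r < z.re ∧ z.re < o.re + H * (q.1 + 1) + r ∧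
    o.im + H * q.2 - r < z.im ∧ z.im < o.im + H * (q.2 + 1) + r}

variable {o : ℂ} {H r e : ℝ} {F : Set V}

theorem mem_FaS {z : ℂ} : z ∈ FaS o H F r ↔ z ∉ Nr o H F r := by
  unfold FaS Nr
  simp only [Set.mem_ofPred_eq, not_exists, not_and]

theorem mem_Fa {z : ℂ} : z ∈ Fa o H F r ↔ z ∉ NrS o H F r := by
  unfold Fa NrS
  simp only [Set.mem_ofPred_eq, not_exists, not_and]

theorem NrS_sub : NrS o H F r ⊆ Nr o H F r := fun _ ⟨q, hq, h1, h2, h3, h4⟩ =>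
  ⟨q, hq, h1.le, h2.le, h3.le, h4.le⟩

theorem Nr_sub {r' : ℝ} (h : r < r') : Nr o H F r ⊆ NrS o H F r' := fun _ ⟨q, hq, h1, h2, h3, h4⟩ =>
  ⟨q, hq, by linarith, by linarith, by linarith, by linarith⟩

theorem Nr_mono {r' : ℝ} (h : r ≤ r') : Nr o H F r ⊆ Nr o H F r' := fun _ ⟨q, hq, h1, h2, h3, h4⟩ =>
  ⟨q, hq, by linarith, by linarith, by linarith, by linarith⟩

/-- a point near a near point -/
theorem Nr_near {x z : ℂ} (hz : z ∈ Nr o H F r) (hx : ‖x - z‖ ≤ e) : x ∈ Nr o H F (r + e) := by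
  obtain ⟨q, hq, h1, h2, h3, h4⟩ := hz
  have g1 := (Complex.abs_re_le_norm (x - z)).trans hx
  have g2 := (Complex.abs_im_le_norm (x - z)).trans hx
  rw [Complex.sub_re, abs_le] at g1
  rw [Complex.sub_im, abs_le] at g2
  exact ⟨q, hq, by linarith [g1.1], by linarith [g1.2], by linarith [g2.1], by linarith [g2.2]⟩

/-! ### far sites are in `Ext` -/

section far

variable {c : ℂ} {L d h : ℝ} {m k : ℤ} {B : Set ℂ} {Z : Set (Cs hS)}

/-- **far sites are in `Ext`** -/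
theorem ext_far (hD : Dns S c L d) (h3 : 3 ≤ S.card) (hh : 0 < h) (hk : 0 ≤ k)
    (hm : 2 * k + 1 ≤ m) (hF : ∀ q ∉ F, ∀ q' ∉ F, Con Fᶜ q q')
    (hin : ∀ z ∈ Nr o (m * h) F (k * h), ‖z - c‖ < L / 2)
    (hB : B ⊆ NrS o (m * h) F (k * h - 2 * d)) (hZ : Z ⊆ RC hS B) {s : ℂ} (hs : s ∈ S)
    (hf : s ∉ Nr o (m * h) F (k * h)) : Ext (rc0 hS) (Hc hS) Z (cs hS h3 ⟨s, hs⟩) := by
  obtain ⟨a, b, hab⟩ := exists_hull hS h3
  have hin' : ∀ z, L / 2 ≤ ‖z - c‖ → z ∈ FaS o (m * h) F (k * h) := fun z hz =>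
    mem_FaS.2 fun h => absurd (hin z h) (not_lt.2 hz)
  refine ext_pth h3 ?_ (xc hD hh hk hm hF hin' hs (mem_FaS.2 hf) hab).2 hs ⟨a, hab⟩
  rintro x hx ⟨-, hxF⟩ hxZ
  obtain ⟨w, hwS, hwB, hw, e⟩ := hZ hxZ
  have e' : (Quot.mk (hullE S) x : Quot (hullE S)) = Quot.mk _ w := e
  have hxw : x = w := quot_inner hS hw e'.symm
  exact mem_Fa.1 hxF (hxw ▸ hB hwB)

/-- sites whose cell is not in `Ext` are near -/
theorem near_of_off (hD : Dns S c L d) (h3 : 3 ≤ S.card) (hh : 0 < h) (hk : 0 ≤ k)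
    (hm : 2 * k + 1 ≤ m) (hF : ∀ q ∉ F, ∀ q' ∉ F, Con Fᶜ q q')
    (hin : ∀ z ∈ Nr o (m * h) F (k * h), ‖z - c‖ < L / 2)
    (hB : B ⊆ NrS o (m * h) F (k * h - 2 * d)) (hZ : Z ⊆ RC hS B) {s : ℂ} (hs : s ∈ S)
    (hf : ¬ Ext (rc0 hS) (Hc hS) Z (cs hS h3 ⟨s, hs⟩)) : s ∈ Nr o (m * h) F (k * h) := by
  by_contra hc
  exact hf (ext_far hD h3 hh hk hm hF hin hB hZ hs hc)

/-- **the closed circumdisc of a triangle at a near site** -/
theorem cdisc_near (hD : Dns S c L d) {a b x : ℂ} (ht : (a, b, x) ∈ delT S)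
    (ha : a ∈ Nr o H F r) (hac : ‖a - c‖ + 2 * d ≤ L) :
    cdisc (a, b, x) ⊆ Nr o H F (r + 2 * d) := by
  have ht' := mem_delT.1 ht
  have hH : Hol (S : Set ℂ) {a} d := CorEhx829.hol_dns hD (by
    rintro v rfl
    linarith)
  obtain ⟨q, h1, h2, -, -, h5, -⟩ := del_small hD.dpos hH (Set.mem_singleton a) (inD_self a b x) ht'
  rintro z ⟨o', g1, g2, g3⟩
  have hpos := ht'.2.2.2.1
  have e1 := (FinMx609.cen3_iff hpos).1 ⟨g1, g2⟩
  have e2 := (FinMx609.cen3_iff hpos).1 ⟨h1, h2⟩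
  have e3 : o' = q := e1.trans e2.symm
  subst e3
  refine Nr_near ha ?_
  have h6 : ‖z - a‖ ≤ ‖z - o'‖ + ‖a - o'‖ := by
    have : z - a = (z - o') - (a - o') := by ring
    rw [this]
    exact norm_sub_le _ _
  have g3' : ‖z - o'‖ ≤ ‖a - o'‖ := g3
  linarith

/-- the cell of a dart is the cell of its first site -/
theorem cell_eq (h3 : 3 ≤ S.card) (d0 : D0 S) :
    ∃ ha : d0.1.1 ∈ S, (rc0 hS).cell d0 = cs hS h3 ⟨d0.1.1, ha⟩ :=
  ⟨(mem_delT.1 (th_spec d0.2)).1, rfl⟩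

variable {W : Set (Cs hS)}

/-- **a dart with its cell off `W` starts near the polygon** -/
theorem off_near (hD : Dns S c L d) (h3 : 3 ≤ S.card) (hh : 0 < h) (hk : 0 ≤ k)
    (hm : 2 * k + 1 ≤ m) (hF : ∀ q ∉ F, ∀ q' ∉ F, Con Fᶜ q q')
    (hin : ∀ z ∈ Nr o (m * h) F (k * h), ‖z - c‖ < L / 2)
    (hB : B ⊆ NrS o (m * h) F (k * h - 2 * d)) (hZ : Z ⊆ RC hS B)
    (hW : ∀ c, Ext (rc0 hS) (Hc hS) Z c → c ∈ W) (d0 : D0 S) (hd : (rc0 hS).cell d0 ∉ W) :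
    d0.1.1 ∈ Nr o (m * h) F (k * h) := by
  obtain ⟨ha, e⟩ := cell_eq (hS := hS) h3 d0
  exact near_of_off hD h3 hh hk hm hF hin hB hZ ha fun h' => hd (hW _ (e ▸ h'))

/-- **304's `hd`**: the closed circumdisc of a dart with its cell off `W` is near the polygon -/
theorem off_disc (hD : Dns S c L d) (h3 : 3 ≤ S.card) (hh : 0 < h) (hk : 0 ≤ k)
    (hm : 2 * k + 1 ≤ m) (hF : ∀ q ∉ F, ∀ q' ∉ F, Con Fᶜ q q')
    (hin : ∀ z ∈ Nr o (m * h) F (k * h), ‖z - c‖ < L / 2)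
    (hB : B ⊆ NrS o (m * h) F (k * h - 2 * d)) (hZ : Z ⊆ RC hS B)
    (hW : ∀ c, Ext (rc0 hS) (Hc hS) Z c → c ∈ W) {U : Set ℂ}
    (hU : Nr o (m * h) F (k * h + 2 * d) ⊆ U) (d0 : D0 S) (hd : (rc0 hS).cell d0 ∉ W) :
    cdisc (d0.1.1, d0.1.2, th S d0.1) ⊆ U := by
  have h1 := off_near hD h3 hh hk hm hF hin hB hZ hW d0 hd
  have h2 := hin _ h1
  have h4 := hD.dL
  have h5 := hD.dpos
  exact (cdisc_near hD (th_spec d0.2) h1 (by linarith)).trans hU

/-- no hull sites near the polygon -/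
theorem nr_inner (hD : Dns S c L d) (hin : ∀ z ∈ Nr o H F r, ‖z - c‖ < L / 2) {v : ℂ}
    (hv : v ∈ Nr o H F r) : ¬ OnHull S v := by
  refine CorEhx829.not_hull hD ?_
  have h1 := hin v hv
  have h2 := hD.dL
  have h3 := hD.dpos
  linarith

theorem Nr_bdd (hin : ∀ z ∈ Nr o H F r, ‖z - c‖ < L / 2) : Bornology.IsBounded (Nr o H F r) := by
  refine (Metric.isBounded_ball (x := c) (r := L / 2)).subset fun z hz => ?_
  rw [Metric.mem_ball, dist_eq_norm]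
  exact hin z hz

end far

/-! ### bricks, strands -/

section strd

variable {c : ℂ} {L d h : ℝ} {m k : ℤ} {B : Set ℂ}

/-- complement of the cells of a set of bricks with connected complement -/
theorem conF {U : Set Brkx478.Bk} (hU : Brkx478.Conn Uᶜ) :
    ∀ q ∉ Brkx478.cells U, ∀ q' ∉ Brkx478.cells U, Con (Brkx478.cells U)ᶜ q q' := by
  intro q hq q' hq'
  rw [← Brkx478.cells_compl]
  exact Brkx478.con_cells hU q hq q' hq'

variable {R : Set (Cs hS)} {Zz : Uniqx323.Zn (rc0 hS)} {σ : Cs hS → ZMod 2} {q : D0 S} {n : ℕ}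

/-- the cells of `Ext` of the blocking set of the arc are in the white giant -/
theorem ext_Ww {cc : Cs hS} (h' : Ext (rc0 hS) (Hc hS) (OutSx358.zc (rc0 hS) R q n σ) cc) :
    cc ∈ Extx358.Ww (rc0 hS) (Hc hS) R q n σ := Or.inl (Or.inl h')

/-- **304's `hd` for 323's strands**: `W` = 358's white giant, zones inside `RC hS B` -/
theorem off_disc_strd (hD : Dns S c L d) (hh : 0 < h) (hk : 0 ≤ k) (hm : 2 * k + 1 ≤ m)
    {U : Set Brkx478.Bk} (hU : Brkx478.Conn Uᶜ)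
    (hin : ∀ z ∈ Nr o (m * h) (Brkx478.cells U) (k * h), ‖z - c‖ < L / 2)
    (hB : B ⊆ NrS o (m * h) (Brkx478.cells U) (k * h - 2 * d)) (hZR : Zz.R ⊆ RC hS B)
    (hR : R ⊆ RC hS B) (hst : Uniqx323.Strd (rc0 hS) Zz 1 σ q n) {U' : Set ℂ}
    (hU' : Nr o (m * h) (Brkx478.cells U) (k * h + 2 * d) ⊆ U') (d0 : D0 S)
    (hd : (rc0 hS).cell d0 ∉ Extx358.Ww (rc0 hS) (Hc hS) R q n σ) :
    cdisc (d0.1.1, d0.1.2, th S d0.1) ⊆ U' :=
  off_disc hD hD.card hh hk hm (conF hU) hin hB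
    ((SysAx168.zc_sub hst).trans (Set.union_subset hZR hR)) (fun _ h' => ext_Ww h') hU' d0 hd

/-- the starting site of the dart is near -/
theorem off_near_strd (hD : Dns S c L d) (hh : 0 < h) (hk : 0 ≤ k) (hm : 2 * k + 1 ≤ m)
    {U : Set Brkx478.Bk} (hU : Brkx478.Conn Uᶜ)
    (hin : ∀ z ∈ Nr o (m * h) (Brkx478.cells U) (k * h), ‖z - c‖ < L / 2)
    (hB : B ⊆ NrS o (m * h) (Brkx478.cells U) (k * h - 2 * d)) (hZR : Zz.R ⊆ RC hS B)
    (hR : R ⊆ RC hS B) (hst : Uniqx323.Strd (rc0 hS) Zz 1 σ q n) (d0 : D0 S)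
    (hd : (rc0 hS).cell d0 ∉ Extx358.Ww (rc0 hS) (Hc hS) R q n σ) :
    d0.1.1 ∈ Nr o (m * h) (Brkx478.cells U) (k * h) :=
  off_near hD hD.card hh hk hm (conF hU) hin hB
    ((SysAx168.zc_sub hst).trans (Set.union_subset hZR hR)) (fun _ h' => ext_Ww h') d0 hd

/-- the site form: a site whose cell is off the white giant is near -/
theorem site_near_strd (hD : Dns S c L d) (hh : 0 < h) (hk : 0 ≤ k) (hm : 2 * k + 1 ≤ m)
    {U : Set Brkx478.Bk} (hU : Brkx478.Conn Uᶜ)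
    (hin : ∀ z ∈ Nr o (m * h) (Brkx478.cells U) (k * h), ‖z - c‖ < L / 2)
    (hB : B ⊆ NrS o (m * h) (Brkx478.cells U) (k * h - 2 * d)) (hZR : Zz.R ⊆ RC hS B)
    (hR : R ⊆ RC hS B) (hst : Uniqx323.Strd (rc0 hS) Zz 1 σ q n) {s : ℂ} (hs : s ∈ S)
    (hd : cs hS hD.card ⟨s, hs⟩ ∉ Extx358.Ww (rc0 hS) (Hc hS) R q n σ) :
    s ∈ Nr o (m * h) (Brkx478.cells U) (k * h) :=
  near_of_off hD hD.card hh hk hm (conF hU) hin hB
    ((SysAx168.zc_sub hst).trans (Set.union_subset hZR hR)) hs fun h' => hd (ext_Ww h')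

end strd

end Crest.Agent.R143.ExtUx387
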