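import Crest.Agent.R143.Indep_583

/-!
# Row 143 (S0194), block X: monotonicity in the radius and locality (helper583)

* `Tips_mono` : a leg which reaches the smaller set reaches the bigger one (stop at the first tip)
* `HO_mono`, `HI_mono` (L1 of 654); `GO_HO`, `GI_HI`; `GO_mono_del`, `GI_mono_del` (in `δ`)
* `HO_flip`, `GO_flip` (flip inside), `HI_flip`, `GI_flip` (flip outside); `GO_at`
* `dep_GO`, `dep_GI`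
-/

set_option autoImplicit false

noncomputable section

open scoped Classical

namespace Crest.Agent.R143.IndepBx583

open Crest.Agent.R143.B0x346 Crest.Agent.R143.DelGx806 Crest.Agent.R143.DelRx806
open Crest.Agent.R143.ToolWx838 Crest.Agent.R143.Blkx838 Crest.Agent.R143.Harx315
open Crest.Agent.R143.RB0x838 Crest.Agent.R143.Planarx54
open Crest.Agent.R143.X0Bx683 Crest.Agent.R143.X0Cx683
open Crest.Agent.R143.JCardx872 Crest.Agent.R143.JWalkx872 Crest.Agent.R143.Indepx583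

variable {S : Finset ℂ} {N : Net ℂ} {z0 : ℂ} {R R1 d b0 C4 r : ℝ}

section walk

variable {G : Trg ℂ} {O : Set (ℂ × ℂ × ℂ)} {D : Set (ℂ × ℂ)} {J : Finset (ℂ × ℂ)} {W W' : Set ℂ}

/-- a leg which reaches the smaller set `W'` reaches the bigger set `W` -/
theorem legTip_mono (hW : W' ⊆ W) {p q : ℂ × ℂ} (hp : OutP W p) (h : LegTip G O D J W' p q) :
    ∃ m, LegTip G O D J W p m := by
  obtain ⟨h1, c, hc, ht⟩ := h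
  rcases leads_exit (W := W) hp (leadsO_leads h1) with h2 | ⟨m, m', hm, hs, hn, _⟩
  · exact ⟨q, h2, c, hW hc, ht⟩
  · exact ⟨m, hm, step_apex (leadsO_out hm) hs hn⟩

theorem Tips_mono (hW : W' ⊆ W) {st0 : ZMod 3 → ℂ × ℂ} (hp : ∀ i, OutP W (st0 i))
    (h : Tips G O D J W' st0) : Tips G O D J W st0 := by
  intro i
  obtain ⟨q, hq⟩ := h i
  exact legTip_mono hW (hp i) hq

theorem TipsS.tips {st0 : ZMod 3 → ℂ × ℂ} {η : ℝ} (h : TipsS G O D J W st0 η) :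
    Tips G O D J W st0 := by
  obtain ⟨q, hq, _⟩ := h
  exact fun i => ⟨q i, hq i⟩

theorem TipsS.mono {st0 : ZMod 3 → ℂ × ℂ} {η η' : ℝ} (hη : η' ≤ η)
    (h : TipsS G O D J W st0 η) : TipsS G O D J W st0 η' := by
  obtain ⟨q, hq, hs⟩ := h
  exact ⟨q, hq, fun i j hij => hη.trans (hs i j hij)⟩

end walk

theorem dsc_mono {ρ' ρ : ℝ} (h : ρ' ≤ ρ) : Dsc z0 ρ' ⊆ Dsc z0 ρ := fun _ hs => lt_of_lt_of_le hs h

theorem ex_OutP (hW : World S N z0 R R1 d b0 C4) {ρ : ℝ} (hρ : ρ ≤ R) (i : ZMod 3) :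
    OutP (Dsc z0 ρ) (N.ex i) := by
  have h := ex_out hW i
  exact ⟨fun h' => h.1 (lt_of_lt_of_le h' hρ), fun h' => h.2 (lt_of_lt_of_le h' hρ)⟩

/-- **(L1)** outer legs: reaching the smaller disc implies reaching the bigger disc -/
theorem HO_mono (hW : World S N z0 R R1 d b0 C4) {s0 : ℂ × ℂ × ℂ} {ρ' ρ : ℝ} (h : ρ' ≤ ρ)
    (hρ : ρ ≤ R) {J : Finset (ℂ × ℂ)} (hJ : HO N s0 z0 ρ' J) : HO N s0 z0 ρ J :=
  Tips_mono (dsc_mono h) (ex_OutP hW hρ) hJ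

/-- **(L1)** inner legs: reaching the bigger radius implies reaching the smaller radius -/
theorem HI_mono {t : ℂ × ℂ × ℂ} {ρ' ρ : ℝ} (h : ρ' ≤ ρ) (ht : ∀ i, ‖vt t i - z0‖ < ρ')
    {J : Finset (ℂ × ℂ)} (hJ : HI N t z0 ρ J) : HI N t z0 ρ' J := by
  refine ⟨hJ.1, Tips_mono (Set.compl_subset_compl.2 (dsc_mono h)) (fun i => ?_) hJ.2⟩
  exact ⟨fun h' => h' (ht (i + 1)), fun h' => h' (ht i)⟩

theorem GO_HO {s0 : ℂ × ℂ × ℂ} {ρ δ : ℝ} {J : Finset (ℂ × ℂ)} (h : GO N s0 z0 ρ δ J) :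
    HO N s0 z0 ρ J := TipsS.tips h

theorem GI_HI {t : ℂ × ℂ × ℂ} {ρ δ : ℝ} {J : Finset (ℂ × ℂ)} (h : GI N t z0 ρ δ J) :
    HI N t z0 ρ J := ⟨h.1, TipsS.tips h.2⟩

theorem GO_mono_del {s0 : ℂ × ℂ × ℂ} {ρ δ δ' : ℝ} (hρ : 0 ≤ ρ) (hδ : δ' ≤ δ)
    {J : Finset (ℂ × ℂ)} (h : GO N s0 z0 ρ δ J) : GO N s0 z0 ρ δ' J :=
  TipsS.mono (by nlinarith) h

theorem GI_mono_del {t : ℂ × ℂ × ℂ} {ρ δ δ' : ℝ} (hρ : 0 ≤ ρ) (hδ : δ' ≤ δ)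
    {J : Finset (ℂ × ℂ)} (h : GI N t z0 ρ δ J) : GI N t z0 ρ δ' J :=
  ⟨h.1, TipsS.mono (by nlinarith) h.2⟩

/-! ### locality -/

theorem HO_congr {s0 : ℂ × ℂ × ℂ} {ρ : ℝ} {J J' : Finset (ℂ × ℂ)}
    (h : ∀ a b : ℂ, ρ ≤ ‖a - z0‖ → ρ ≤ ‖b - z0‖ → ((a, b) ∈ J ↔ (a, b) ∈ J')) :
    HO N s0 z0 ρ J ↔ HO N s0 z0 ρ J' := by
  unfold HO
  exact Tips_congr (fun a b ha hb => h a b (not_lt.1 ha) (not_lt.1 hb)) (fun _ _ _ _ _ _ => Iff.rfl)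

theorem GO_congr {s0 : ℂ × ℂ × ℂ} {ρ δ : ℝ} {J J' : Finset (ℂ × ℂ)}
    (h : ∀ a b : ℂ, ρ ≤ ‖a - z0‖ → ρ ≤ ‖b - z0‖ → ((a, b) ∈ J ↔ (a, b) ∈ J')) :
    GO N s0 z0 ρ δ J ↔ GO N s0 z0 ρ δ J' := by
  unfold GO
  exact TipsS_congr (fun a b ha hb => h a b (not_lt.1 ha) (not_lt.1 hb)) (fun _ _ _ _ _ _ => Iff.rfl)

theorem HI_congr {t : ℂ × ℂ × ℂ} {ρ : ℝ} (ht : ∀ i, ‖vt t i - z0‖ < ρ) {J J' : Finset (ℂ × ℂ)}
    (h : ∀ a b : ℂ, ‖a - z0‖ < ρ → ‖b - z0‖ < ρ → ((a, b) ∈ J ↔ (a, b) ∈ J')) :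
    HI N t z0 ρ J ↔ HI N t z0 ρ J' := by
  unfold HI
  have h3 := Tips_congr (G := N.toTrg) (D := N.exS) (st0 := st t) (O := rots t) (O' := rots t)
    (W := (Dsc z0 ρ)ᶜ) (J := J) (J' := J')
    (fun a b ha hb => h a b (Set.notMem_compl_iff.1 ha) (Set.notMem_compl_iff.1 hb))
    (fun _ _ _ _ _ _ => Iff.rfl)
  exact and_congr (forall_congr' fun i => h _ _ (ht i) (ht (i + 1))) h3

theorem GI_congr {t : ℂ × ℂ × ℂ} {ρ δ : ℝ} (ht : ∀ i, ‖vt t i - z0‖ < ρ) {J J' : Finset (ℂ × ℂ)}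
    (h : ∀ a b : ℂ, ‖a - z0‖ < ρ → ‖b - z0‖ < ρ → ((a, b) ∈ J ↔ (a, b) ∈ J')) :
    GI N t z0 ρ δ J ↔ GI N t z0 ρ δ J' := by
  unfold GI
  have h3 := TipsS_congr (G := N.toTrg) (D := N.exS) (st0 := st t) (O := rots t) (O' := rots t)
    (W := (Dsc z0 ρ)ᶜ) (J := J) (J' := J') (η := δ * ρ)
    (fun a b ha hb => h a b (Set.notMem_compl_iff.1 ha) (Set.notMem_compl_iff.1 hb))
    (fun _ _ _ _ _ _ => Iff.rfl)
  exact and_congr (forall_congr' fun i => h _ _ (ht i) (ht (i + 1))) h3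

/-- a flip inside the disc is not seen by the outer legs -/
theorem flip_out {G : Trg ℂ} {J : Finset (ℂ × ℂ)} {ρ : ℝ} {β : Finset ℂ}
    (hβ : ∀ s ∈ β, ‖s - z0‖ < ρ) {a b : ℂ} (ha : ρ ≤ ‖a - z0‖) (hb : ρ ≤ ‖b - z0‖) :
    (a, b) ∈ X0Bx683.flip G J β ↔ (a, b) ∈ J := by
  have h : (a, b) ∉ bd G β := by
    rw [mem_bd]
    rintro ⟨_, h⟩
    exact h ⟨fun h' => absurd (hβ a h') (not_lt.2 ha), fun h' => absurd (hβ b h') (not_lt.2 hb)⟩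
  rw [mem_flip]
  tauto

/-- a flip outside the disc is not seen by the inner legs -/
theorem flip_in {G : Trg ℂ} {J : Finset (ℂ × ℂ)} {ρ : ℝ} {β : Finset ℂ}
    (hβ : ∀ s ∈ β, ρ ≤ ‖s - z0‖) {a b : ℂ} (ha : ‖a - z0‖ < ρ) (hb : ‖b - z0‖ < ρ) :
    (a, b) ∈ X0Bx683.flip G J β ↔ (a, b) ∈ J := by
  have h : (a, b) ∉ bd G β := by
    rw [mem_bd]
    rintro ⟨_, h⟩
    exact h ⟨fun h' => absurd (hβ a h') (not_le.2 ha), fun h' => absurd (hβ b h') (not_le.2 hb)⟩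
  rw [mem_flip]
  tauto

theorem HO_flip {s0 : ℂ × ℂ × ℂ} {ρ : ℝ} {J : Finset (ℂ × ℂ)} {β : Finset ℂ}
    (hβ : ∀ s ∈ β, ‖s - z0‖ < ρ) :
    HO N s0 z0 ρ (X0Bx683.flip N.toTrg J β) ↔ HO N s0 z0 ρ J :=
  HO_congr fun _ _ ha hb => flip_out hβ ha hb

theorem GO_flip {s0 : ℂ × ℂ × ℂ} {ρ δ : ℝ} {J : Finset (ℂ × ℂ)} {β : Finset ℂ}
    (hβ : ∀ s ∈ β, ‖s - z0‖ < ρ) :
    GO N s0 z0 ρ δ (X0Bx683.flip N.toTrg J β) ↔ GO N s0 z0 ρ δ J :=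
  GO_congr fun _ _ ha hb => flip_out hβ ha hb

theorem HI_flip {t : ℂ × ℂ × ℂ} {ρ : ℝ} (ht : ∀ i, ‖vt t i - z0‖ < ρ) {J : Finset (ℂ × ℂ)}
    {β : Finset ℂ} (hβ : ∀ s ∈ β, ρ ≤ ‖s - z0‖) :
    HI N t z0 ρ (X0Bx683.flip N.toTrg J β) ↔ HI N t z0 ρ J :=
  HI_congr ht fun _ _ ha hb => flip_in hβ ha hb

theorem GI_flip {t : ℂ × ℂ × ℂ} {ρ δ : ℝ} (ht : ∀ i, ‖vt t i - z0‖ < ρ) {J : Finset (ℂ × ℂ)}
    {β : Finset ℂ} (hβ : ∀ s ∈ β, ρ ≤ ‖s - z0‖) :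
    GI N t z0 ρ δ (X0Bx683.flip N.toTrg J β) ↔ GI N t z0 ρ δ J :=
  GI_congr ht fun _ _ ha hb => flip_in hβ ha hb

/-- `TipsS` version of `HO_at` -/
theorem GO_at (f : Fc S N z0 r) {t : ℂ × ℂ × ℂ} (ht : t ∈ f.T) {ρ δ : ℝ} (hr : r ≤ ρ)
    {J : Finset (ℂ × ℂ)} : GO N t z0 ρ δ (f.at' J t) ↔ GO N f.s0 z0 ρ δ J := by
  unfold GO
  have hro : ∀ s ∈ f.T, ∀ a b c : ℂ, a ∉ Dsc z0 ρ → (a, b, c) ∉ rots s := by
    intro s hs a b c ha h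
    have hv : ∀ i, vt s i ∈ Dsc z0 ρ := fun i => lt_of_lt_of_le (f.near s hs i) hr
    unfold rots at h
    simp only [Set.mem_insert_iff, Set.mem_singleton_iff] at h
    rcases h with h | h | h
    · exact ha (by have := hv 0; rw [vt_zero, ← h] at this; exact this)
    · rw [Prod.mk.injEq] at h
      exact ha (h.1 ▸ hv 1)
    · rw [Prod.mk.injEq] at h
      exact ha (h.1 ▸ hv 2)
  apply TipsS_congr
  · intro a b ha _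
    unfold Fc.at'
    rw [Finset.mem_symmDiff]
    have : (a, b) ∉ f.gam t := fun h => ha (lt_of_lt_of_le (f.pin t ht _ h).1 hr)
    tauto
  · intro a b c ha _ _
    exact ⟨fun h => absurd h (hro t ht a b c ha), fun h => absurd h (hro _ f.s0m a b c ha)⟩

theorem dep_GO {s0 : ℂ × ℂ × ℂ} {R' ρ δ : ℝ} {J : Finset (ℂ × ℂ)} :
    Dep (Fs S z0 R') (Fs S z0 R' \ Fs S z0 ρ)
      (fun β => GO N s0 z0 ρ δ (X0Bx683.flip N.toTrg J β)) := by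
  intro β hβ
  unfold GO
  exact TipsS_congr (fun a b ha hb => flip_congr (col_out hβ ha) (col_out hβ hb))
    (fun _ _ _ _ _ _ => Iff.rfl)

theorem dep_GI (f : Fc S N z0 r) {t : ℂ × ℂ × ℂ} (ht : t ∈ f.T) {R' ρ δ : ℝ} (hr : r ≤ ρ)
    {J : Finset (ℂ × ℂ)} :
    Dep (Fs S z0 R') (Fs S z0 ρ)
      (fun β => GI N t z0 ρ δ (f.at' (X0Bx683.flip N.toTrg J β) t)) := by
  intro β hβ
  refine GI_congr (fun i => lt_of_lt_of_le (f.near t ht i) hr) fun a b ha hb => ?_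
  unfold Fc.at'
  rw [Finset.mem_symmDiff, Finset.mem_symmDiff, flip_congr (col_in hβ ha) (col_in hβ hb)]

/-- marginals: the probability of the inner event does not depend on the radius `R' ≥ ρ` -/
theorem h_eq (f : Fc S N z0 r) {t : ℂ × ℂ × ℂ} (ht : t ∈ f.T) {R' ρ : ℝ} (hr : r ≤ ρ)
    (hρ : ρ ≤ R') {J : Finset (ℂ × ℂ)} : f.h R' ρ J t = f.h ρ ρ J t := by
  unfold Fc.h
  exact pr_dep (fun s hs => mem_Fs.2 ⟨(mem_Fs.1 hs).1, lt_of_lt_of_le (mem_Fs.1 hs).2 hρ⟩)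
    (dep_HI f ht hr)

theorem g_eq (f : Fc S N z0 r) {t : ℂ × ℂ × ℂ} (ht : t ∈ f.T) {R' ρ δ : ℝ} (hr : r ≤ ρ)
    (hρ : ρ ≤ R') {J : Finset (ℂ × ℂ)} : f.g R' ρ δ J t = f.g ρ ρ δ J t := by
  unfold Fc.g
  exact pr_dep (fun s hs => mem_Fs.2 ⟨(mem_Fs.1 hs).1, lt_of_lt_of_le (mem_Fs.1 hs).2 hρ⟩)
    (dep_GI f ht hr)

end Crest.Agent.R143.IndepBx583
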