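import Crest.Agent.R143.Blk_838
import Crest.Agent.R143.Planar_54
import Crest.Agent.R143.Circ4_838

/-!
# Row 143 (S0194), block X: topology leaves, object-free (helper343)

* `Touch l p` : the closed chain `l` uses the edge `p`
* `walk_asum` : as long as the walk does not touch the closed chain `l`, the total angle of `l` seen
  from the middle of its states (and from all points of its segments) does not change
* `exit_edge` : **T1** : a walk whose two ends see `l` under different angles touches `l`, and the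
  first contact comes before the angle changes
* `wind_zero` : **T3** : a closed polygon all of whose points see `l` under a nonzero angle has the
  same total angle around two points which are joined off `l` and see `l` under the angle `0`
* `wind_far` : the total angle is `0` if the second point is far away
-/

set_option autoImplicit false

noncomputable section

open scoped Classical

namespace Crest.Agent.R143.XGx343

open Crest.Agent.R143.B0x346 Crest.Agent.R143.DelGx806 Crest.Agent.R143.DelRx806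
open Crest.Agent.R143.ToolWx838 Crest.Agent.R143.Blkx838 Crest.Agent.R143.Planarx54
open Crest.Agent.R143.Circ4x838

variable {S : Finset ℂ} {G : Trg ℂ} {O : Set (ℂ × ℂ × ℂ)} {D : Set (ℂ × ℂ)} {J : Finset (ℂ × ℂ)}

/-- the closed chain `l` uses the edge `p` -/
def Touch (l : List ℂ) (p : ℂ × ℂ) : Prop := p ∈ prs l ∨ p.swap ∈ prs l

theorem avoid_iff {l : List ℂ} {p : ℂ × ℂ} : Avoid l p ↔ ¬ Touch l p := by
  unfold Avoid Touch
  tauto

/-- all points of the segment of a step see the chain under the same angle -/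
theorem seg_asum (hS : GP (S : Set ℂ)) {l : List ℂ} (hl : Loop S l) {a b c y : ℂ}
    (h : (a, b, c) ∈ delT S) (h1 : Avoid l (a, b)) (h2 : Avoid l (b, c))
    (hy : y ∈ segment ℝ (mid (a, b)) (mid (c, b))) : asum (mid (a, b)) l = asum y l := by
  refine asum_const hl.closed (convex_segment _ _).isPreconnected (fun z hz p hp hseg => ?_)
    (left_mem_segment ℝ _ _) hy
  rcases step_seg hS h hz (hl.del p hp) hseg with (⟨e1, e2⟩ | ⟨e1, e2⟩) | (⟨e1, e2⟩ | ⟨e1, e2⟩)
  · exact h1.1 (by rw [← e1, ← e2]; exact hp)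
  · exact h1.2 (by rw [Prod.swap_prod_mk, ← e1, ← e2]; exact hp)
  · exact h2.1 (by rw [← e1, ← e2]; exact hp)
  · exact h2.2 (by rw [Prod.swap_prod_mk, ← e1, ← e2]; exact hp)

/-- all points of the segment of a step of the walker see the chain under the same angle -/
theorem step_seg_asum (hS : GP (S : Set ℂ)) (hG : G.T = delT S) {l : List ℂ} (hl : Loop S l)
    {p q : ℂ × ℂ} (hp : Avoid l p) (hq : Avoid l q) (h : Step G O D J p q) {y : ℂ}
    (hy : y ∈ segment ℝ (mid p) (mid q)) : asum (mid p) l = asum y l := by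
  obtain ⟨a, b⟩ := p
  obtain ⟨c, hc, -, -, h | h⟩ := h
  · rw [hG] at hc
    obtain ⟨-, rfl⟩ := h
    exact seg_asum hS hl hc hp hq.swap hy
  · rw [hG] at hc
    obtain ⟨-, -, rfl⟩ := h
    have h3 := rot_mem (rot_mem hc)
    have e1 : mid (a, c) = mid (c, a) := mid_swap a c
    have e2 : mid (a, b) = mid (b, a) := mid_swap a b
    rw [e1, e2, segment_symm] at hy
    have k1 := seg_asum hS hl h3 hq.swap hp hy
    have k2 := seg_asum hS hl h3 hq.swap hp (right_mem_segment ℝ (mid (c, a)) (mid (b, a)))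
    rw [e2, ← k2, k1]

/-- along a walk which does not touch the chain the angle is constant -/
theorem walk_asum (hS : GP (S : Set ℂ)) (hG : G.T = delT S) {l : List ℂ} (hl : Loop S l) {n : ℕ}
    {p : ℕ → ℂ × ℂ} (hW : Wk G O D J n p) (h : ∀ k, k ≤ n → Avoid l (p k)) :
    ∀ k, k ≤ n → asum (mid (p k)) l = asum (mid (p 0)) l := by
  intro k
  induction k with
  | zero => intro _; rfl
  | succ k ih =>
    intro hk
    rw [← ih (by omega)]
    exact (step_asum hS hG hl (h k (by omega)) (h (k + 1) hk) (hW k (by omega))).symm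

/-- **T1**: a walk whose ends see the closed chain under different angles touches it; before the
first contact the angle is the one of the start -/
theorem exit_edge (hS : GP (S : Set ℂ)) (hG : G.T = delT S) {l : List ℂ} (hl : Loop S l) {n : ℕ}
    {p : ℕ → ℂ × ℂ} (hW : Wk G O D J n p) (h : asum (mid (p 0)) l ≠ asum (mid (p n)) l) :
    ∃ k, k ≤ n ∧ Touch l (p k) ∧ ∀ i, i < k → Avoid l (p i) ∧
      asum (mid (p i)) l = asum (mid (p 0)) l := by
  have hex : ∃ k, k ≤ n ∧ Touch l (p k) := by
    by_contra hcon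
    push Not at hcon
    exact h (walk_asum hS hG hl hW (fun k hk => avoid_iff.2 (hcon k hk)) n le_rfl).symm
  have hspec := Nat.find_spec hex
  refine ⟨Nat.find hex, hspec.1, hspec.2, ?_⟩
  have hav : ∀ i, i < Nat.find hex → Avoid l (p i) := by
    intro i hi
    have := Nat.find_min hex hi
    rw [avoid_iff]
    intro ht
    exact this ⟨by omega, ht⟩
  intro i hi
  refine ⟨hav i hi, ?_⟩
  exact walk_asum hS hG hl (n := i) (fun k hk => hW k (by omega)) (fun k hk => hav k (by omega)) i
    le_rfl

/-- **T1**, occupied form: the first contact is an occupied edge -/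
theorem exit_edge_occ (hS : GP (S : Set ℂ)) (hG : G.T = delT S) {l : List ℂ} (hl : Loop S l)
    {n : ℕ} {p : ℕ → ℂ × ℂ} (hW : Wk G O D J n p) (h0 : ((p 0).2, (p 0).1) ∈ J)
    (h : asum (mid (p 0)) l ≠ asum (mid (p n)) l) :
    ∃ k, k ≤ n ∧ Touch l (p k) ∧ ((p k).2, (p k).1) ∈ J ∧ ∀ i, i < k → Avoid l (p i) ∧
      asum (mid (p i)) l = asum (mid (p 0)) l := by
  obtain ⟨k, hk, h1, h2⟩ := exit_edge hS hG hl hW h
  exact ⟨k, hk, h1, hW.occ h0 k hk, h2⟩

/-- **T1**, gauge form: the occupied edges used by the closed chain belong to `Γ`; a walk whose ends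
see the chain under different angles and whose states before the end of the walk are not in `Γ'`
leaves the chain through an edge of `Γ` which is not in `Γ'` -/
theorem exit_gate (hS : GP (S : Set ℂ)) (hG : G.T = delT S) {l : List ℂ} (hl : Loop S l)
    {Γ Γ' : Set (ℂ × ℂ)} (hΓ : ∀ e, Touch l e → (e ∈ J ∨ e.swap ∈ J) → e ∈ Γ ∨ e.swap ∈ Γ)
    {n : ℕ} {p : ℕ → ℂ × ℂ} (hW : Wk G O D J n p) (h0 : ((p 0).2, (p 0).1) ∈ J)
    (h1 : ∀ k, k ≤ n → p k ∉ Γ' ∧ (p k).swap ∉ Γ')
    (h : asum (mid (p 0)) l ≠ asum (mid (p n)) l) :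
    ∃ k, k ≤ n ∧ Touch l (p k) ∧ (p k ∈ Γ \ Γ' ∨ (p k).swap ∈ Γ \ Γ') ∧
      ∀ i, i < k → Avoid l (p i) ∧ asum (mid (p i)) l = asum (mid (p 0)) l := by
  obtain ⟨k, hk, h2, h3, h4⟩ := exit_edge_occ hS hG hl hW h0 h
  refine ⟨k, hk, h2, ?_, h4⟩
  rcases hΓ (p k) h2 (Or.inr h3) with h5 | h5
  · exact Or.inl ⟨h5, (h1 k hk).1⟩
  · exact Or.inr ⟨h5, (h1 k hk).2⟩

/-- **T3**: the closed polygon `w` lies where the chain `l` is seen under a nonzero angle; `P` is
connected, off `l`, and `l` is seen from a point of `P` under the angle `0`: then `w` has the same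
total angle around all points of `P` -/
theorem wind_const {l w : List ℂ} (hl : l.head? = l.getLast?) (hw : w.head? = w.getLast?)
    (hin : ∀ p ∈ prs w, ∀ y ∈ segment ℝ p.1 p.2, asum y l ≠ 0) {P : Set ℂ}
    (hP : IsPreconnected P) (hoff : ∀ x ∈ P, Off x l) {x0 x1 x2 : ℂ} (h0 : x0 ∈ P) (h1 : x1 ∈ P)
    (h2 : x2 ∈ P) (hz : asum x2 l = 0) : asum x0 w = asum x1 w := by
  have hzero : ∀ x ∈ P, asum x l = 0 := fun x hx => (asum_const hl hP hoff hx h2).trans hz
  refine asum_const hw hP (fun x hx p hp hseg => ?_) h0 h1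
  exact hin p hp x hseg (hzero x hx)

/-- **T3**, far form: `x1` is separated from `w` by a line -/
theorem wind_zero {l w : List ℂ} (hl : l.head? = l.getLast?) (hw : w.head? = w.getLast?)
    (hin : ∀ p ∈ prs w, ∀ y ∈ segment ℝ p.1 p.2, asum y l ≠ 0) {P : Set ℂ}
    (hP : IsPreconnected P) (hoff : ∀ x ∈ P, Off x l) {x0 x1 x2 u : ℂ} (h0 : x0 ∈ P)
    (h1 : x1 ∈ P) (h2 : x2 ∈ P) (hz : asum x2 l = 0) (hfar : ∀ a ∈ w, 0 < ((a - x1) / u).re) :
    asum x0 w = 0 := by
  rw [wind_const hl hw hin hP hoff h0 h1 h2 hz]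
  exact asum_half_closed hw hfar

/-- the polygon of the middles of a walk -/
def mids (n : ℕ) (p : ℕ → ℂ × ℂ) : List ℂ := (List.range (n + 1)).map fun k => mid (p k)

theorem prs_mids (n : ℕ) (p : ℕ → ℂ × ℂ) {e : ℂ × ℂ} (he : e ∈ prs (mids n p)) :
    ∃ k, k < n ∧ e = (mid (p k), mid (p (k + 1))) := by
  induction n with
  | zero => simp [mids] at he
  | succ n ih =>
    have h1 : mids (n + 1) p = mids n p ++ [mid (p (n + 1))] := by
      unfold mids
      rw [List.range_succ, List.map_append]
      rfl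
    have h2 : mids n p = (List.range n).map (fun k => mid (p k)) ++ [mid (p n)] := by
      unfold mids
      rw [List.range_succ, List.map_append]
      rfl
    rw [h1, h2, List.append_assoc, List.singleton_append, prs_append] at he
    rcases List.mem_append.1 he with h | h
    · rw [← h2] at h
      obtain ⟨k, hk, h⟩ := ih h
      exact ⟨k, by omega, h⟩
    · have h3 : e = (mid (p n), mid (p (n + 1))) := by simpa [prs] using h
      exact ⟨n, by omega, h3⟩

/-- all points of the polygon of a walk which does not touch the chain see the chain under the same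
angle -/
theorem mids_asum (hS : GP (S : Set ℂ)) (hG : G.T = delT S) {l : List ℂ} (hl : Loop S l) {n : ℕ}
    {p : ℕ → ℂ × ℂ} (hW : Wk G O D J n p) (h : ∀ k, k ≤ n → Avoid l (p k)) {e : ℂ × ℂ}
    (he : e ∈ prs (mids n p)) {y : ℂ} (hy : y ∈ segment ℝ e.1 e.2) :
    asum y l = asum (mid (p 0)) l := by
  obtain ⟨k, hk, rfl⟩ := prs_mids n p he
  rw [← walk_asum hS hG hl hW h k (by omega)]
  exact (step_seg_asum hS hG hl (h k (by omega)) (h (k + 1) (by omega)) (hW k hk) hy).symm

end Crest.Agent.R143.XGx343
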