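import Crest.Agent.R143.Planar2_54
import Crest.Agent.R143.XG_343

import Crest.Agent.R143.IndepB_583

/-!
# Row 143 (S0194), block X: leaf FAC, definitions and tools (helper583)

* `Hit` : first contact of a leg with a closed chain, at a gate
* `AttG` : outer attachment with the label `n`; `InG` : inner attachment with the label `k`
* `Cg` : closed chain around `z0` whose occupied edges are three gates; `G3.cg`
* `ang_shift`, `Th_shift` : change of the base point
* `wk_rev`, `Th_rev` : reversed walk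
* `pred_uniq`, `no_meet` : walks from a side of an odd triangle and from a mark do not meet
* `hit_uniq` : the first contact is unique
-/

set_option autoImplicit false

noncomputable section

open scoped Classical

namespace Crest.Agent.R143.FacAx583

open Crest.Agent.R143.B0x346 Crest.Agent.R143.DelGx806 Crest.Agent.R143.DelRx806
open Crest.Agent.R143.ToolWx838 Crest.Agent.R143.Blkx838 Crest.Agent.R143.Harx315
open Crest.Agent.R143.RB0x838 Crest.Agent.R143.Planarx54
open Crest.Agent.R143.X0Bx683 Crest.Agent.R143.JCardx872 Crest.Agent.R143.JWalkx872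
open Crest.Agent.R143.Indepx583

/-! ### definitions -/

/-- the leg from `s` meets the closed chain `c` for the first time at the gate `g` (in one of its two
orientations); its total angle around `x` is `θ` -/
def Hit (G : Trg ℂ) (O : Set (ℂ × ℂ × ℂ)) (D : Set (ℂ × ℂ)) (J : Finset (ℂ × ℂ)) (x : ℂ)
    (c : List ℂ) (g s : ℂ × ℂ) (θ : ℝ) : Prop :=
  ∃ (m : ℕ) (p : ℕ → ℂ × ℂ), Wk G O D J m p ∧ p 0 = s ∧ (∀ j, j < m → Avoid c (p j)) ∧
    (p m = g ∨ p m = g.swap) ∧ Planar2x54.Th x p m = θ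

/-- **outer attachment**: the leg from the mark `k + n` meets `c` for the first time at the gate `k` -/
def AttG (N : Net ℂ) (s0 : ℂ × ℂ × ℂ) (z0 : ℂ) (lf0 : ℤ → ℝ) (c : List ℂ) (gt : ZMod 3 → ℂ × ℂ)
    (Gam : ℤ → ℝ) (J : Finset (ℂ × ℂ)) (n : ℤ) : Prop :=
  ∀ k : ℤ, Hit N.toTrg (rots s0) N.exS J z0 c (gt (k : ZMod 3)) (N.ex ((k + n : ℤ) : ZMod 3))
    (Gam k - lf0 (k + n))

/-- lifted direction of the gate `k` seen from `x` -/
def GamX (z0 : ℂ) (gt : ZMod 3 → ℂ × ℂ) (Gam : ℤ → ℝ) (x : ℂ) (k : ℤ) : ℝ :=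
  Gam k + ((mid (gt (k : ZMod 3)) - x) / (mid (gt (k : ZMod 3)) - z0)).arg

/-- **inner attachment**: the leg `i` of the face `t` meets `c` for the first time at the gate
`i + k` -/
def InG (N : Net ℂ) (t : ℂ × ℂ × ℂ) (x : ℂ) (a0 : ℝ) (z0 : ℂ) (c : List ℂ)
    (gt : ZMod 3 → ℂ × ℂ) (Gam : ℤ → ℝ) (J : Finset (ℂ × ℂ)) (k : ℤ) : Prop :=
  (∀ i, (vt t i, vt t (i + 1)) ∈ J) ∧
  (∀ i : ZMod 3, ∃ θ, Hit N.toTrg (rots t) N.exS J x c (gt (i + (k : ZMod 3))) (st t i) θ) ∧
  Hit N.toTrg (rots t) N.exS J x c (gt (k : ZMod 3)) (st t 0) (GamX z0 gt Gam x k - a0)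

/-- closed chain around `z0` whose occupied edges are the three gates -/
structure Cg (S : Finset ℂ) (z0 : ℂ) (q : ℝ) (J : Finset (ℂ × ℂ)) (c : List ℂ)
    (gt : ZMod 3 → ℂ × ℂ) : Prop where
  loop : Loop S c
  mem : ∀ s ∈ c, s ∈ S ∧ 100 * q ≤ ‖s - z0‖ ∧ ‖s - z0‖ < 200 * q
  wind : ∀ z : ℂ, ‖z - z0‖ ≤ 100 * q → asum z c = 2 * Real.pi
  gts : ∀ k, gt k ∈ prs c
  only : ∀ p ∈ prs c, (p ∈ J ∨ p.swap ∈ J) → ∃ k, p = gt k
  inj : ∀ i j, gt i = gt j → i = j
  inj' : ∀ i j, gt i ≠ (gt j).swap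

/-! ### change of the base point -/

theorem re_pos_of_norm {u v : ℂ} (h : ‖u‖ < ‖v‖) : 0 < ((v - u) / v).re := by
  have hv : v ≠ 0 := by
    rintro rfl
    rw [norm_zero] at h
    exact absurd h (not_lt.2 (norm_nonneg _))
  have e : (v - u) / v = 1 - u / v := by rw [sub_div, div_self hv]
  rw [e, Complex.sub_re, Complex.one_re]
  have h1 : (u / v).re ≤ ‖u / v‖ := Complex.re_le_norm _
  have h2 : ‖u / v‖ < 1 := by
    rw [norm_div, div_lt_one (norm_pos_iff.2 hv)]
    exact h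
  linarith

/-- the angle of a segment seen from two points -/
theorem ang_shift {z0 x a b : ℂ} (h : ∀ y ∈ segment ℝ a b, ‖x - z0‖ < ‖y - z0‖) :
    ToolWx838.ang x a b = ToolWx838.ang z0 a b + ((b - x) / (b - z0)).arg -
      ((a - x) / (a - z0)).arg := by
  have ha := h a (left_mem_segment ℝ a b)
  have hb := h b (right_mem_segment ℝ a b)
  have hx0 : ∀ y ∈ segment ℝ z0 x, ‖y - z0‖ ≤ ‖x - z0‖ := by
    rintro y ⟨s, t, hs, ht, hst, rfl⟩
    have e : s • z0 + t • x - z0 = (t : ℂ) * (x - z0) := by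
      have hs' : s = 1 - t := by linarith
      simp only [Complex.real_smul]
      rw [hs']; push_cast; ring
    rw [e, norm_mul, Complex.norm_real, Real.norm_of_nonneg ht]
    have : t ≤ 1 := by linarith
    nlinarith [norm_nonneg (x - z0)]
  have hoff : ∀ y ∈ segment ℝ z0 x, y ∉ segment ℝ a b := fun y hy hy' =>
    absurd (h y hy') (not_lt.2 (hx0 y hy))
  have hne : ∀ {v y : ℂ}, ‖y - z0‖ < ‖v - z0‖ → v - y ≠ 0 ∧ v - z0 ≠ 0 := by
    intro v y hv
    constructor
    · intro h0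
      rw [sub_eq_zero.1 h0] at hv
      exact lt_irrefl _ hv
    · intro h0
      rw [h0, norm_zero] at hv
      exact absurd hv (not_lt.2 (norm_nonneg _))
  have hre : ∀ {v y : ℂ}, ‖y - z0‖ < ‖v - z0‖ → 0 < ((v - y) / (v - z0)).re := by
    intro v y hv
    have e : v - y = (v - z0) - (y - z0) := by ring
    rw [e]
    exact re_pos_of_norm hv
  set F : ℂ → ℝ := fun y => (ToolWx838.ang y a b - ((b - y) / (b - z0)).arg +
    ((a - y) / (a - z0)).arg - ToolWx838.ang z0 a b) / (2 * Real.pi) with hF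
  have hpi : (2 * Real.pi) ≠ 0 := by positivity
  have hcont : ContinuousOn F (segment ℝ z0 x) := by
    intro y hy
    have hya : ‖y - z0‖ < ‖a - z0‖ := lt_of_le_of_lt (hx0 y hy) ha
    have hyb : ‖y - z0‖ < ‖b - z0‖ := lt_of_le_of_lt (hx0 y hy) hb
    have hc : ∀ {v : ℂ}, ‖y - z0‖ < ‖v - z0‖ →
        ContinuousAt (fun y : ℂ => ((v - y) / (v - z0)).arg) y := by
      intro v hv
      have h1 : ContinuousAt (fun y : ℂ => (v - y) / (v - z0)) y :=
        (continuousAt_const.sub continuousAt_id).div_const _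
      have h2 : ContinuousAt Complex.arg ((fun y : ℂ => (v - y) / (v - z0)) y) :=
        Complex.continuousAt_arg (Or.inl (hre hv))
      exact ContinuousAt.comp (f := fun y : ℂ => (v - y) / (v - z0)) h2 h1
    exact ((((ang_cont (hoff y hy)).sub (hc hyb)).add (hc hya)).sub
      continuousAt_const |>.div_const _).continuousWithinAt
  have hint : ∀ y ∈ segment ℝ z0 x, ∃ k : ℤ, F y = k := by
    intro y hy
    have hya : ‖y - z0‖ < ‖a - z0‖ := lt_of_le_of_lt (hx0 y hy) ha
    have hyb : ‖y - z0‖ < ‖b - z0‖ := lt_of_le_of_lt (hx0 y hy) hb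
    obtain ⟨a1, a2⟩ := hne hya
    obtain ⟨b1, b2⟩ := hne hyb
    have key : ((ToolWx838.ang y a b - ((b - y) / (b - z0)).arg +
        ((a - y) / (a - z0)).arg - ToolWx838.ang z0 a b : ℝ) : Real.Angle) = 0 := by
      unfold ToolWx838.ang
      rw [Real.Angle.coe_sub, Real.Angle.coe_add, Real.Angle.coe_sub]
      rw [Complex.arg_div_coe_angle b1 a1, Complex.arg_div_coe_angle b1 b2,
        Complex.arg_div_coe_angle a1 a2, Complex.arg_div_coe_angle b2 a2]
      abel
    rw [← Real.Angle.coe_zero, Real.Angle.angle_eq_iff_two_pi_dvd_sub] at key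
    obtain ⟨k, hk⟩ := key
    refine ⟨k, ?_⟩
    rw [hF]
    dsimp only
    rw [sub_zero] at hk
    rw [hk]
    field_simp
  have him := (convex_segment (𝕜 := ℝ) z0 x).isPreconnected.image _ hcont
  have h3 : F '' (segment ℝ z0 x) ⊆ Set.range ((↑) : ℤ → ℝ) := by
    rintro _ ⟨z, hz, rfl⟩
    obtain ⟨k, hk⟩ := hint z hz
    exact ⟨k, hk.symm⟩
  have h4 : (F '' (segment ℝ z0 x)).Subsingleton := by
    have htd : IsTotallyDisconnected (Set.range ((↑) : ℤ → ℝ)) :=
      (Set.countable_range _).isTotallyDisconnected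
    exact htd _ h3 him
  have h5 := h4 ⟨x, right_mem_segment ℝ z0 x, rfl⟩ ⟨z0, left_mem_segment ℝ z0 x, rfl⟩
  have h6 : F z0 = 0 := by
    obtain ⟨-, a2⟩ := hne (v := a) (y := z0) (by rw [sub_self, norm_zero]; exact lt_of_le_of_lt (norm_nonneg _) ha)
    obtain ⟨-, b2⟩ := hne (v := b) (y := z0) (by rw [sub_self, norm_zero]; exact lt_of_le_of_lt (norm_nonneg _) hb)
    rw [hF]
    dsimp only
    rw [div_self a2, div_self b2, Complex.arg_one]
    simp
  rw [h6, hF] at h5
  dsimp only at h5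
  rw [div_eq_zero_iff] at h5
  rcases h5 with h5 | h5
  · linarith
  · exact absurd h5 hpi

/-- the total angle of a walk seen from two points -/
theorem Th_shift {z0 x : ℂ} {p : ℕ → ℂ × ℂ} : ∀ {m : ℕ},
    (∀ j, j < m → ∀ y ∈ segment ℝ (mid (p j)) (mid (p (j + 1))), ‖x - z0‖ < ‖y - z0‖) →
    Planar2x54.Th x p m = Planar2x54.Th z0 p m + ((mid (p m) - x) / (mid (p m) - z0)).arg -
      ((mid (p 0) - x) / (mid (p 0) - z0)).arg := by
  intro m
  induction m with
  | zero => intro _; rw [Planar2x54.Th_zero, Planar2x54.Th_zero]; ring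
  | succ m ih =>
    intro h
    rw [Planar2x54.Th_succ, Planar2x54.Th_succ, ih (fun j hj => h j (by omega))]
    have h1 : Planar2x54.ang x (mid (p m)) (mid (p (m + 1))) =
        Planar2x54.ang z0 (mid (p m)) (mid (p (m + 1))) +
        ((mid (p (m + 1)) - x) / (mid (p (m + 1)) - z0)).arg -
        ((mid (p m) - x) / (mid (p m) - z0)).arg := ang_shift (h m (by omega))
    rw [h1]
    ring

/-! ### walks -/

section walk

variable {G : Trg ℂ} {kl : Set (ℂ × ℂ)} {O O' : Set (ℂ × ℂ × ℂ)} {D : Set (ℂ × ℂ)}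
  {J J' : Finset (ℂ × ℂ)}

theorem wk_mem (hJ : IsJoin G kl O D J) {m : ℕ} {p : ℕ → ℂ × ℂ} (hW : Wk G O D J m p)
    (h0 : p 0 ∈ J) {j : ℕ} (hj : j < m) : p j ∈ J :=
  leads_step_mem hJ h0 (hW.leads j hj.le) (hW j hj)

/-- reversed walk -/
theorem wk_rev (hJ : IsJoin G kl O D J) (hO : RotInv O) {m : ℕ} {p : ℕ → ℂ × ℂ}
    (hW : Wk G O D J m p) (h0 : p 0 ∈ J) : Wk G O D J m (fun j => (p (m - j)).swap) := by
  intro j hj
  have h1 : m - j = (m - (j + 1)) + 1 := by omega
  have h2 := hW (m - (j + 1)) (by omega)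
  have h3 := step_rev hJ hO (wk_mem hJ hW h0 (by omega)) h2
  rw [← h1] at h3
  exact h3

theorem mid_swap' (p : ℂ × ℂ) : mid p.swap = mid p := by
  unfold mid
  rw [Prod.fst_swap, Prod.snd_swap]
  ring

theorem Th_rev {x : ℂ} {m : ℕ} {p : ℕ → ℂ × ℂ}
    (h : ∀ j, j < m → x ∉ segment ℝ (mid (p j)) (mid (p (j + 1)))) :
    Planar2x54.Th x (fun j => (p (m - j)).swap) m = - Planar2x54.Th x p m := by
  unfold Planar2x54.Th
  rw [← Finset.sum_neg_distrib, ← Finset.sum_range_reflect]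
  apply Finset.sum_congr rfl
  intro j hj
  rw [Finset.mem_range] at hj
  simp only [mid_swap']
  have e1 : m - (m - 1 - j) = j + 1 := by omega
  have e2 : m - (m - 1 - j + 1) = j := by omega
  rw [e1, e2]
  exact ang_comm (h j hj)

theorem leadsA_trans {x : ℂ} {p q r : ℂ × ℂ} {θ θ' : ℝ} (h : LeadsA G O D J x p q θ)
    (h' : LeadsA G O D J x q r θ') : LeadsA G O D J x p r (θ + θ') := by
  induction h' with
  | refl => rw [add_zero]; exact h
  | tail a b φ _ h2 ih =>
    have := LeadsA.tail _ _ _ _ ih h2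
    rw [add_assoc] at this
    exact this

/-- the predecessor is unique -/
theorem pred_uniq (hJ : IsJoin G kl O D J) (hO : RotInv O) {a b v : ℂ × ℂ} (ha : a ∈ J)
    (hb : b ∈ J) (h1 : Step G O D J a v) (h2 : Step G O D J b v) : a = b := by
  have r1 := step_rev hJ hO ha h1
  have r2 := step_rev hJ hO hb h2
  have := step_det r1 r2
  rw [Prod.mk.injEq] at this
  exact Prod.ext this.2 this.1

/-- two walks which start at states without predecessor and end in the same state are equal -/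
theorem meet_eq (hJ : IsJoin G kl O D J) (hO : RotInv O) : ∀ {m m' : ℕ} {p p' : ℕ → ℂ × ℂ},
    Wk G O D J m p → Wk G O D J m' p' → p 0 ∈ J → p' 0 ∈ J →
    (∀ a, ¬ Step G O D J a (p 0)) → (∀ a, ¬ Step G O D J a (p' 0)) → p m = p' m' →
    p 0 = p' 0 := by
  intro m
  induction m with
  | zero =>
    intro m' p p' _ hW' _ _ h0 _ he
    rcases m' with _ | m'
    · exact he
    · exact absurd (he ▸ hW' m' (by omega)) (h0 _)
  | succ m ih =>
    intro m' p p' hW hW' hp hp' h0 h0' he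
    rcases m' with _ | m'
    · exact absurd (he ▸ hW m (by omega)) (h0' _)
    · have h1 := hW m (by omega)
      have h2 := hW' m' (by omega)
      rw [he] at h1
      have h3 := pred_uniq hJ hO (wk_mem hJ hW hp (by omega)) (wk_mem hJ hW' hp' (by omega)) h1 h2
      exact ih (fun k hk => hW k (by omega)) (fun k hk => hW' k (by omega)) hp hp' h0 h0' h3

/-- the first contact is unique -/
theorem hit_uniq {x : ℂ} {c : List ℂ} {g g' s : ℂ × ℂ} {θ θ' : ℝ} (hg : g ∈ prs c)
    (hg' : g' ∈ prs c) (h : Hit G O D J x c g s θ) (h' : Hit G O D J x c g' s θ') :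
    (g = g' ∨ g = g'.swap) ∧ θ = θ' := by
  obtain ⟨m, p, hW, h0, hav, hm, hθ⟩ := h
  obtain ⟨m', p', hW', h0', hav', hm', hθ'⟩ := h'
  have key : ∀ k, k ≤ m → k ≤ m' → p k = p' k := by
    intro k
    induction k with
    | zero => intro _ _; rw [h0, h0']
    | succ k ih =>
      intro h1 h2
      have h3 := ih (by omega) (by omega)
      have s1 := hW k (by omega)
      have s2 := hW' k (by omega)
      rw [h3] at s1
      exact step_det s1 s2
  have touch : ∀ {g v : ℂ × ℂ}, g ∈ prs c → (v = g ∨ v = g.swap) → ¬ Avoid c v := by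
    rintro g v hg (rfl | rfl) ⟨h1, h2⟩
    · exact h1 hg
    · rw [Prod.swap_swap] at h2
      exact h2 hg
  have hmm : m = m' := by
    rcases lt_trichotomy m m' with h | h | h
    · exact absurd (hav' m h) (by rw [← key m le_rfl h.le]; exact touch hg hm)
    · exact h
    · exact absurd (hav m' h) (by rw [key m' h.le le_rfl]; exact touch hg' hm')
  subst hmm
  have e := key m le_rfl le_rfl
  constructor
  · rw [← e] at hm'
    rcases hm with h1 | h1 <;> rcases hm' with h2 | h2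
    · exact Or.inl (h1.symm.trans h2)
    · exact Or.inr (h1.symm.trans h2)
    · right
      rw [← h2, h1, Prod.swap_swap]
    · left
      have := h1.symm.trans h2
      rw [← Prod.swap_swap g, this, Prod.swap_swap]
  · rw [← hθ, ← hθ']
    unfold Planar2x54.Th
    apply Finset.sum_congr rfl
    intro j hj
    rw [Finset.mem_range] at hj
    rw [key j (by omega) (by omega), key (j + 1) (by omega) (by omega)]

/-- transport of a walk -/
theorem wk_congr {m : ℕ} {p : ℕ → ℂ × ℂ} (hW : Wk G O D J m p)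
    (h : ∀ j, j < m → ∀ c, ((p j).1, (p j).2, c) ∈ G.T →
      (((p j).1, (p j).2, c) ∈ O' → ((p j).1, (p j).2, c) ∈ O) ∧
      (((p j).2, c) ∈ J ↔ ((p j).2, c) ∈ J') ∧ ((c, (p j).1) ∈ J ↔ (c, (p j).1) ∈ J')) :
    Wk G O' D J' m p := by
  intro j hj
  obtain ⟨c, hc, hcO, hD, hs⟩ := hW j hj
  obtain ⟨h1, h2, h3⟩ := h j hj c hc
  refine ⟨c, hc, fun h' => hcO (h1 h'), hD, ?_⟩
  rcases hs with ⟨a1, a2⟩ | ⟨a1, a2, a3⟩
  · exact Or.inl ⟨h2.1 a1, a2⟩
  · exact Or.inr ⟨h3.1 a1, fun h' => a2 (h2.2 h'), a3⟩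

end walk

end Crest.Agent.R143.FacAx583
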