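import Crest.Agent.R143.HRev_432
import Crest.Agent.R143.RingI1_503
import Crest.Agent.R143.AnnC_707
import Crest.Agent.R143.RcT_422

/-!
# Row 143 (S0194), block H (helper432): `Facts` from 503's closed ring

* `cw_mono` : the white cluster is monotone in `Dw`; `ac_of` : a white arm from `Far` ends in `Cw`
* `off_cell` : the cells of the sites inside the level `A1` are off `Far`, `Ann` and the hull (707's
  `Lev`)
* `cfg_scol` : colours of the sites / colours of the cells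
* `lp0_of` : my `Lp0` for a walk whose states are in a set of sites inside the level `A1`
* `lp0_clo`, `facts_clo` : for 503's `Clo`
-/

set_option autoImplicit false

noncomputable section

open scoped Classical

namespace Crest.Agent.R143.FactIx432

open Crest.Agent.R143.B0x346 Crest.Agent.R143.SumScx302 Crest.Agent.R143.Mass1x302
  Crest.Agent.R143.Mass2x302 Crest.Agent.R143.Mass3x302
  Crest.Agent.R143.Mass4x302 Crest.Agent.R143.Mass5x302 Crest.Agent.R143.DelGx806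
  Crest.Agent.R143.DelRx806 Crest.Agent.R143.JColx54
open Crest.Agent.R143.Frame1x395 Crest.Agent.R143.Frame2x395 Crest.Agent.R143.Frame3x395
  Crest.Agent.R143.Frame4x395 Crest.Agent.R143.Frame8x395 Crest.Agent.R143.Frame9x395
  Crest.Agent.R143.Frame10x395 Crest.Agent.R143.NonXx592
  Crest.Agent.R143.FinCx811 Crest.Agent.R143.SmallAx304 Crest.Agent.R143.GiantEx197
  Crest.Agent.R143.StgIx432 Crest.Agent.R143.HRevx432 Crest.Agent.R143.WLocx713
  Crest.Agent.R143.RingDx117 Crest.Agent.R143.RcTx422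
open Crest.Agent.R143.Frame5x395 (sd mem_sd th th_spec)
open Crest.Agent.R143.RevAx389 (Cl Lk coins seed_cl cl_step cl_ind cl_lk cl_col cl_mono)
open Crest.Agent.R143.RevCx389 (Rg Xs Fs Cw h0_xs xs_far xs_ann xs_ind lk_xs cw_white Ra R0 ra_stop)
open Crest.Agent.R143.Exitx707 (Nb nb_symm)
open Crest.Agent.R143.Meetx707 (cel mem_cel sr pl_rc0 Pl)
open Crest.Agent.R143.AnnCx707 (Lev)
open Crest.Agent.R143.CircPx838 (sup)
open Crest.Agent.R143.RingIx503 (Clo)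
open Crest.Agent.R143.TileRx228 (RR)

/-! ### the white cluster -/

section gen

variable {D C : Type} {M : CMap D C} {G G' : Rg D C} {ψ : C → ZMod 2}

/-- the explored outside does not depend on `Dw` -/
theorem xs_eq (h0 : G.h0 = G'.h0) (hF : G.Far = G'.Far) (hA : G.Ann = G'.Ann) :
    Xs M G ψ = Xs M G' ψ := by
  unfold Xs
  rw [h0, hF, hA]

theorem cw_mono (h0 : G.h0 = G'.h0) (hF : G.Far = G'.Far) (hA : G.Ann = G'.Ann)
    (hD : G.Dw ⊆ G'.Dw) : Cw M G ψ ⊆ Cw M G' ψ := by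
  have e : Fs M G ψ = Fs M G' ψ := by
    unfold Fs
    rw [xs_eq h0 hF hA, hA]
  unfold Cw
  rw [e]
  exact cl_mono hD subset_rfl

/-- **a white arm from `Far` ends in the outside or in the white cluster** -/
theorem ac_of (x1 : ∀ a ∈ Xs M G ψ, ∀ c, Nb M a c → c ∈ G.Far ∨ c ∈ G.Ann)
    (far : ∀ c ∈ G.Far, Relation.ReflTransGen (fun a a' => Nb M a a' ∧ a' ∈ G.Far) G.h0 c)
    {v : ℕ → C} {k : ℕ} (v0 : v 0 ∈ G.Far) (va : ∀ i, i < k → Nb M (v i) (v (i + 1)))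
    (vc : ∀ i, i ≤ k → v i ∈ G.Far ∨ (v i ∈ G.Dw ∧ ψ (v i) = 0)) :
    v k ∈ Xs M G ψ ∨ v k ∈ Cw M G ψ := by
  have fx : ∀ c ∈ G.Far, c ∈ Xs M G ψ := by
    intro c hc
    have h := far c hc
    clear hc
    induction h with
    | refl => exact h0_xs
    | tail _ h1 ih => exact xs_far ih h1.1 h1.2
  have key : ∀ i, i ≤ k → v i ∈ Xs M G ψ ∨ v i ∈ Cw M G ψ := by
    intro i
    induction i with
    | zero => exact fun _ => Or.inl (fx _ v0)
    | succ i ih =>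
      intro hi
      by_cases hx : v (i + 1) ∈ Xs M G ψ
      · exact Or.inl hx
      · right
        rcases ih (by omega) with h6 | h6
        · refine seed_cl ?_
          rcases x1 _ h6 _ (va i (by omega)) with h1 | h1
          · exact absurd (fx _ h1) hx
          · refine ⟨h1, ?_, v i, h6, va i (by omega)⟩
            by_contra h2
            have h3 : ψ (v (i + 1)) = 1 := by
              revert h2
              generalize ψ (v (i + 1)) = a
              revert a; decide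
            exact hx (xs_ann h6 (va i (by omega)) h1 h3)
        · rcases vc (i + 1) hi with h7 | ⟨h7, h8⟩
          · exact absurd (fx _ h7) hx
          · exact cl_step h6 (va i (by omega)) h7 h8
  exact key k le_rfl

/-- the cells of the outside are in `Far` or in `Ann` -/
theorem xs_sub (h0 : G.h0 ∈ G.Far) {c : C} (hc : c ∈ Xs M G ψ) : c ∈ G.Far ∨ c ∈ G.Ann := by
  refine xs_ind (Q := fun c => c ∈ G.Far ∨ c ∈ G.Ann) (Or.inl h0) ?_ c hc
  intro a c _ _ _ h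
  exact h.imp id fun h => h.1

end gen

section rc

variable {A β : Finset ℂ} {hS : GP (A : Set ℂ)} {h3 : 3 ≤ A.card} {G : Rg (D0 A) (Cs hS)}
  {zB : ℂ} {A1 A2 : ℝ} {p0 : D0 A} {N : ℕ}

/-- the cell of a dart of `rc0` -/
theorem cell_sr (h3 : 3 ≤ A.card) (d : D0 A) : (rc0 hS).cell d = sr hS h3 d.1.1 :=
  (pl_rc0 hS h3).cell d

theorem dart_mem (d : D0 A) : d.1.1 ∈ A ∧ d.1.2 ∈ A := by
  obtain ⟨c, hc⟩ := mem_sd.1 d.2
  exact ⟨(mem_delT.1 hc).1, (mem_delT.1 hc).2.1⟩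

/-- **the sites inside the level `A1`** -/
theorem off_cell (L : Lev A (sr hS h3) G zB A1 A2) (h12 : A1 ≤ A2) {v : ℂ} (hv : v ∈ A)
    (h : sup (v - zB) < A1) : sr hS h3 v ∉ G.Far ∧ sr hS h3 v ∉ G.Ann ∧ ¬ OnHull A v := by
  have hn : ¬ OnHull A v := fun hh => by
    have := L.hl v hv hh
    linarith
  refine ⟨?_, ?_, hn⟩
  · rw [L.far]
    rintro (h1 | h1)
    · exact hn (AnnCx707.hull_of_h0 (pl_rc0 hS h3) h3 L.h0 hv h1)
    · have := (mem_cel (pl_rc0 hS h3) hv hn).1 h1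
      linarith
  · rw [L.ann]
    intro h1
    have := (mem_cel (pl_rc0 hS h3) hv hn).1 h1
    linarith [this.1]

/-- **`Lp0` for a walk inside the level `A1`** -/
theorem lp0_of (L : Lev A (sr hS h3) G zB A1 A2) (h12 : A1 ≤ A2)
    (hDw : ∀ v ∈ A, sup (v - zB) < A1 → sr hS h3 v ∈ G.Dw)
    (bl : chiS hS h3 β ((rc0 hS).cell p0) = 1)
    (wh : chiS hS h3 β ((rc0 hS).cell ((rc0 hS).rho p0)) = 0)
    (hst : ∀ j ≤ N, sup ((P (cm0 hS) (cfg (rc0 hS) (chiS hS h3 β)) p0 j).1.1 - zB) < A1 ∧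
      sup ((P (cm0 hS) (cfg (rc0 hS) (chiS hS h3 β)) p0 j).1.2 - zB) < A1)
    (ac : ∃ t ≤ N, (rc0 hS).cell ((rc0 hS).rho (P (rc0 hS) (cfg (rc0 hS) (chiS hS h3 β)) p0 t)) ∈
      Cw (rc0 hS) G (chiS hS h3 β)) :
    Lp0 (rc0 hS) G (chiS hS h3 β) p0 N where
  bl := bl
  wh := wh
  h0 := L.h0_far
  off := by
    intro j hj
    rw [cell_sr h3]
    have h := off_cell L h12 (dart_mem _).1 (hst j hj).1
    exact ⟨h.1, h.2.1⟩
  dwl := by
    intro j hj
    rw [cell_sr h3]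
    exact hDw _ (dart_mem _).1 (hst j hj).1
  dwr := by
    intro j hj
    rw [cell_sr h3]
    exact hDw _ (dart_mem _).2 (hst j hj).2
  ac := ac

/-- colours of the sites of a colouring of the cells -/
theorem cfg_scol (h3 : 3 ≤ A.card) (β : Finset ℂ) :
    cfg (cm0 hS) (lift A (scol_hull (chiS hS h3 β))) = cfg (rc0 hS) (chiS hS h3 β) := by
  have h1 : xc hS (scol_hull (chiS hS h3 β)) =
      cfg (rc0 hS) (rcol hS (scol hS (chiS hS h3 β)) (scol_hull _)) := cfg_rc.symm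
  rw [rcol_scol] at h1
  exact h1

theorem scol_inner (h3 : 3 ≤ A.card) {v : ℂ} (hv : v ∈ A) (hn : ¬ OnHull A v) :
    scol hS (chiS hS h3 β) v = if v ∈ β then 1 else 0 := by
  rw [scol_cs h3 (chiS hS h3 β) ⟨v, hv⟩]
  exact chiS_inner hS h3 β (v := ⟨v, hv⟩) hn

end rc

/-! ### 503's closed ring -/

section clo

variable {S V β' β : Finset ℂ} {h A B A' B' m m' τ κ bb : ℝ} {a0 a1 b0 b1 : ℝ}
  {M : ℕ} {W : ℤ → ℤ × ℤ} {y x : ℤ → ℂ} {U U' Bx : Set ℂ} {hS : GP (S : Set ℂ)} {h3 : 3 ≤ S.card}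
  {G : Rg (D0 S) (Cs hS)} {zB : ℂ} {A1 A2 : ℝ}

/-- the walk of the closed ring -/
theorem lp0_clo (L : Lev S (sr hS h3) G zB A1 A2) (h12 : A1 ≤ A2)
    (hDw : ∀ v ∈ S, sup (v - zB) < A1 → sr hS h3 v ∈ G.Dw)
    (H : Clo S V β' (scol hS (chiS hS h3 β)) h A B A' B' κ bb a0 a1 b0 b1 m m' τ M W y x U)
    (hRR : ∀ a, ∀ v ∈ RR (A + τ) (B + τ) h W a, sup (v - zB) < A1) (o : ℤ) :
    ∃ (N : ℕ) (T : ℕ → ℕ),
      Winx355.RL (cm0 hS) (cfg (rc0 hS) (chiS hS h3 β))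
        (RingIx503.pz (scol_hull (chiS hS h3 β)) H o) N M T
        (fun k => RingIx503.cl S (RR (A + τ) (B + τ) h W (o - 1 - k))) ∧
      (∀ k, P (cm0 hS) (cfg (rc0 hS) (chiS hS h3 β))
        (RingIx503.pz (scol_hull (chiS hS h3 β)) H o) (T k) =
          RingIx503.pz (scol_hull (chiS hS h3 β)) H (o - k)) ∧
      (∀ k t, T k ≤ t → t ≤ T (k + 1) →
        P (cm0 hS) (cfg (rc0 hS) (chiS hS h3 β))
          (RingIx503.pz (scol_hull (chiS hS h3 β)) H o) t ∈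
          RD S (RR (A + τ) (B + τ) h W (o - 1 - k))) ∧
      ((∃ t ≤ N, (rc0 hS).cell ((rc0 hS).rho (P (rc0 hS) (cfg (rc0 hS) (chiS hS h3 β))
          (RingIx503.pz (scol_hull (chiS hS h3 β)) H o) t)) ∈ Cw (rc0 hS) G (chiS hS h3 β)) →
        Lp0 (rc0 hS) G (chiS hS h3 β) (RingIx503.pz (scol_hull (chiS hS h3 β)) H o) N) := by
  have e := cfg_scol (hS := hS) h3 β
  obtain ⟨N, T, h1, h2, h4⟩ := H.rl hS (scol_hull (chiS hS h3 β)) o
  rw [e] at h1 h2 h4
  refine ⟨N, T, h1, h2, h4, fun ac => lp0_of L h12 hDw ?_ ?_ ?_ ac⟩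
  · have h5 : (rc0 hS).cell (RingIx503.pz (scol_hull (chiS hS h3 β)) H o) =
        cs hS h3 ⟨y o, (dart_mem (RingIx503.pz (scol_hull (chiS hS h3 β)) H o)).1⟩ :=
      Subtype.ext rfl
    rw [h5, ← scol_cs h3 (chiS hS h3 β) ⟨y o, _⟩]
    exact H.cy o
  · have h5 : (rc0 hS).cell ((rc0 hS).rho (RingIx503.pz (scol_hull (chiS hS h3 β)) H o)) =
        cs hS h3 ⟨x o, (dart_mem (RingIx503.pz (scol_hull (chiS hS h3 β)) H o)).2⟩ :=
      Subtype.ext rfl
    rw [h5, ← scol_cs h3 (chiS hS h3 β) ⟨x o, _⟩]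
    exact H.cx o
  · intro j _
    obtain ⟨k, hk, hk'⟩ := h1.tile j
    have h6 := h4 k j hk hk'.le
    exact ⟨hRR _ _ h6.1, hRR _ _ h6.2⟩

/-- **`Facts` of the closed ring.** Left: `ac` (one right cell in the white cluster) and the
positions `out`, `fac`, `box` -/
theorem facts_clo (L : Lev S (sr hS h3) G zB A1 A2) (h12 : A1 ≤ A2)
    (hDw : ∀ v ∈ S, sup (v - zB) < A1 → sr hS h3 v ∈ G.Dw)
    (H : Clo S V β' (scol hS (chiS hS h3 β)) h A B A' B' κ bb a0 a1 b0 b1 m m' τ M W y x U)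
    (hRR : ∀ a, ∀ v ∈ RR (A + τ) (B + τ) h W a, sup (v - zB) < A1) (o : ℤ)
    {u : ℂ} (hu : OnHull S u) :
    ∃ (N : ℕ) (T : ℕ → ℕ),
      Winx355.RL (cm0 hS) (cfg (rc0 hS) (chiS hS h3 β))
        (RingIx503.pz (scol_hull (chiS hS h3 β)) H o) N M T
        (fun k => RingIx503.cl S (RR (A + τ) (B + τ) h W (o - 1 - k))) ∧
      (∀ k, P (cm0 hS) (cfg (rc0 hS) (chiS hS h3 β))
        (RingIx503.pz (scol_hull (chiS hS h3 β)) H o) (T k) =
          RingIx503.pz (scol_hull (chiS hS h3 β)) H (o - k)) ∧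
      (∀ k t, T k ≤ t → t ≤ T (k + 1) →
        P (cm0 hS) (cfg (rc0 hS) (chiS hS h3 β))
          (RingIx503.pz (scol_hull (chiS hS h3 β)) H o) t ∈
          RD S (RR (A + τ) (B + τ) h W (o - 1 - k))) ∧
      ((∃ t ≤ N, (rc0 hS).cell ((rc0 hS).rho (P (rc0 hS) (cfg (rc0 hS) (chiS hS h3 β))
          (RingIx503.pz (scol_hull (chiS hS h3 β)) H o) t)) ∈ Cw (rc0 hS) G (chiS hS h3 β)) →
        (∀ v ∈ S, v ∈ U' → ¬ OnHull S v) →
        (∀ a b c, (a, b, c) ∈ delT S →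
          (Quot.mk _ a : Quot (hullE S)) ∉ Eg (cm0 hS) (Quot.mk _ u)
            (Lf (cm0 hS) (cfg (rc0 hS) (chiS hS h3 β))
              (RingIx503.pz (scol_hull (chiS hS h3 β)) H o) N) → cdisc (a, b, c) ⊆ U') →
        (∀ v ∈ S, v ∈ Bx →
          (Quot.mk _ v : Quot (hullE S)) ∉ Eg (cm0 hS) (Quot.mk _ u)
            (Lf (cm0 hS) (cfg (rc0 hS) (chiS hS h3 β))
              (RingIx503.pz (scol_hull (chiS hS h3 β)) H o) N)) →
        Facts U' Bx S β (Ra (rc0 hS) G S (chiS hS h3) (Kc hS h3) β)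
          (Eg (cm0 hS) (Quot.mk _ u) (Lf (cm0 hS) (cfg (rc0 hS) (chiS hS h3 β))
            (RingIx503.pz (scol_hull (chiS hS h3 β)) H o) N))) := by
  obtain ⟨N, T, h1, h2, h4, h5⟩ := lp0_clo L h12 hDw H hRR o
  refine ⟨N, T, h1, h2, h4, fun ac out fac box => facts_ra h3 hu ?_ (h5 ac) out fac box⟩
  have huS : u ∈ S := by
    obtain ⟨a, ha⟩ := hu
    exact (hullE.mem ha).2
  rw [← L.h0 u hu]
  unfold sr
  rw [dif_pos huS]
  rfl

end clo

end Crest.Agent.R143.FactIx432
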