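import Crest.Agent.R143.FactI_432
import Crest.Agent.R143.RingC_312
import Crest.Agent.R143.RingI2_503

/-!
# Row 143 (S0194), block H (helper432): `Facts` of the square ring

`H : Clo ..` (503) along `W a = sqW K a + v`, `M = 4 K`, centre `zc h K v`; `hole` : the net is dense up
to the level `h2`; `h1` : level above the tiles.
* `cdisc_sub` : the circumdiscs of the faces at a site of level `≤ h1` are below the level `h1 + 2 r`
* `fac_sq`, `box_sq` : the position facts of the giant (312)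
* **`facts_sq`** : `Facts`; left: one right cell in the white cluster (`ac`), `Lev` (707)
* `ac_le` : `ac` from any time and from a window of 389
* `ub_sp`, `sq_kin` : the sets `Ub z b s`, `sq z b` in these terms
-/

set_option autoImplicit false

noncomputable section

open scoped Classical

namespace Crest.Agent.R143.FactJx432

open Crest.Agent.R143.B0x346 Crest.Agent.R143.SumScx302 Crest.Agent.R143.Mass1x302
  Crest.Agent.R143.Mass2x302 Crest.Agent.R143.Mass3x302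
  Crest.Agent.R143.Mass4x302 Crest.Agent.R143.Mass5x302 Crest.Agent.R143.DelGx806
  Crest.Agent.R143.DelRx806 Crest.Agent.R143.JColx54
open Crest.Agent.R143.Frame1x395 Crest.Agent.R143.Frame2x395 Crest.Agent.R143.Frame3x395
  Crest.Agent.R143.Frame4x395 Crest.Agent.R143.Frame8x395 Crest.Agent.R143.Frame9x395
  Crest.Agent.R143.Frame10x395 Crest.Agent.R143.NonXx592
  Crest.Agent.R143.FinCx811 Crest.Agent.R143.SmallAx304 Crest.Agent.R143.GiantEx197
  Crest.Agent.R143.StgIx432 Crest.Agent.R143.HRevx432 Crest.Agent.R143.WLocx713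
  Crest.Agent.R143.RingDx117 Crest.Agent.R143.RcTx422 Crest.Agent.R143.FactIx432
open Crest.Agent.R143.Frame5x395 (sd mem_sd th th_spec)
open Crest.Agent.R143.RevCx389 (Rg Xs Fs Cw Ra)
open Crest.Agent.R143.Exitx707 (Nb nb_symm)
open Crest.Agent.R143.Meetx707 (cel mem_cel sr pl_rc0 Pl)
open Crest.Agent.R143.AnnCx707 (Lev)
open Crest.Agent.R143.CircPx838 (sup)
open Crest.Agent.R143.RingIx503 (Clo pz)
open Crest.Agent.R143.TileRx228 (RR)
open Crest.Agent.R143.FarEkx88 (sp sp_lip)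
open Crest.Agent.R143.RingBx312 (Kin)
open Crest.Agent.R143.RingCx312 (zc NumS sp_tile box_not_eg far_in_ek pos)
open Crest.Agent.R143.SqPx503 (sqW)
open Crest.Agent.R143.HBudx136 (Ub)

/-! ### circumdiscs -/

/-- **the circumdisc of a face at a site with small holes** -/
theorem cdisc_sub {S : Finset ℂ} {a b c : ℂ} (ht : (a, b, c) ∈ delT S) {r : ℝ} (hr : 0 < r)
    (hole : ∀ p : ℂ, ‖p - a‖ ≤ r → ∃ t ∈ S, ‖t - p‖ < r) {z : ℂ} (hz : z ∈ cdisc (a, b, c)) :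
    ‖z - a‖ < 2 * r := by
  have ht' := mem_delT.1 ht
  have hH : Locx922.Hol (S : Set ℂ) {a} r := by
    rintro w rfl p hp
    obtain ⟨t, ht, h⟩ := hole p hp
    exact ⟨t, Finset.mem_coe.2 ht, h⟩
  obtain ⟨q, h1, h2, -, -, h5, -⟩ := Locx922.del_small hr hH (Set.mem_singleton a)
    (Locx922.inD_self a b c) ht'
  obtain ⟨o', g1, g2, g3⟩ := hz
  have hpos := ht'.2.2.2.1
  have e1 := (FinMx609.cen3_iff hpos).1 ⟨g1, g2⟩
  have e2 := (FinMx609.cen3_iff hpos).1 ⟨h1, h2⟩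
  have e3 : o' = q := e1.trans e2.symm
  subst e3
  have h6 : ‖z - a‖ ≤ ‖z - o'‖ + ‖a - o'‖ := by
    have : z - a = (z - o') - (a - o') := by ring
    rw [this]
    exact norm_sub_le _ _
  have g3' : ‖z - o'‖ ≤ ‖a - o'‖ := g3
  linarith

theorem sup_sp (z w : ℂ) : sup (w - z) = sp z w := by
  unfold sup sp
  rw [Complex.sub_re, Complex.sub_im]

/-! ### the white cluster -/

section ac

variable {D C : Type} {M : CMap D C} {G G' : Rg D C} {ψ : C → ZMod 2} {p0 : D} {N : ℕ}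

/-- one right cell of the loop in the white cluster of a window: one right cell in one period in the
full white cluster -/
theorem ac_le [Finite D] (Lp : Crest.Agent.R143.Chordx355.Lp M (cfg M ψ) p0 N)
    (h0 : G.h0 = G'.h0) (hF : G.Far = G'.Far) (hA : G.Ann = G'.Ann) (hD : G.Dw ⊆ G'.Dw)
    (ac : ∃ t, M.cell (M.rho (P M (cfg M ψ) p0 t)) ∈ Cw M G ψ) :
    ∃ t ≤ N, M.cell (M.rho (P M (cfg M ψ) p0 t)) ∈ Cw M G' ψ := by
  obtain ⟨t, ht⟩ := ac
  refine ⟨t % N, (Nat.mod_lt _ Lp.pos).le, ?_⟩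
  rw [← Lp.mod t]
  exact cw_mono h0 hF hA hD ht

end ac

section clo

variable {S V β' β : Finset ℂ} {h A B A' B' m m' τ κ bb : ℝ} {a0 a1 b0 b1 : ℝ}
  {K : ℕ} {v : ℤ × ℤ} {W : ℤ → ℤ × ℤ} {y x : ℤ → ℂ} {U U' Bx : Set ℂ} {hS : GP (S : Set ℂ)}
  {h3 : 3 ≤ S.card} {G : Rg (D0 S) (Cs hS)} {A1 A2 r h1 h2 : ℝ}
  {o : ℤ} {N : ℕ} {T : ℕ → ℕ}
  (H : Clo S V β' (scol hS (chiS hS h3 β)) h A B A' B' κ bb a0 a1 b0 b1 m m' τ (4 * K) W y x U)
  (R : Winx355.RL (cm0 hS) (cfg (rc0 hS) (chiS hS h3 β)) (pz (scol_hull (chiS hS h3 β)) H o) N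
    (4 * K) T (fun k => RingIx503.cl S (RR (A + τ) (B + τ) h W (o - 1 - k))))
  (TR : ∀ k t, T k ≤ t → t ≤ T (k + 1) →
    P (cm0 hS) (cfg (rc0 hS) (chiS hS h3 β)) (pz (scol_hull (chiS hS h3 β)) H o) t ∈
      RD S (RR (A + τ) (B + τ) h W (o - 1 - k)))

include R TR

/-- **the faces at the fresh sites** -/
theorem fac_sq (hK1 : 1 ≤ K) (hW : ∀ a, W a = sqW K a + v) (hr : 0 < r)
    (hh1 : h * K / 2 + (A + τ) + r ≤ h1) (hh2 : h1 + r ≤ h2)
    (hole : ∀ p : ℂ, sp (zc h K v) p ≤ h2 → ∃ t ∈ S, ‖t - p‖ < r)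
    (hU' : ∀ p : ℂ, sp (zc h K v) p < h1 + 2 * r → p ∈ U')
    {u : ℂ} (hu : OnHull S u) (hu' : h1 ≤ sp (zc h K v) u) :
    ∀ a b c, (a, b, c) ∈ delT S →
      (Quot.mk _ a : Quot (hullE S)) ∉ Eg (cm0 hS) (Quot.mk _ u)
        (Lf (cm0 hS) (cfg (rc0 hS) (chiS hS h3 β)) (pz (scol_hull (chiS hS h3 β)) H o) N) →
      cdisc (a, b, c) ⊆ U' := by
  intro a b c ht ha z hz
  have huS : u ∈ S := by
    obtain ⟨a, ha⟩ := hu
    exact (hullE.mem ha).2
  have haS : a ∈ S := (mem_delT.1 ht).1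
  have h4 : sp (zc h K v) a < h1 := by
    by_contra hc
    push Not at hc
    refine ha (Or.inl ?_)
    have e := cfg_scol (hS := hS) h3 β
    rw [← e] at R TR ⊢
    exact far_in_ek H R TR hK1 hW h3 hr.le hh1 (fun p hp => hole p (by rw [hp]; linarith)) huS hu'
      haS hc
  refine hU' z ?_
  have h5 := cdisc_sub ht hr (fun p hp => hole p (by
    have := sp_lip (zc h K v) p a
    linarith)) hz
  have := sp_lip (zc h K v) z a
  linarith

/-- **the sites of the box** -/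
theorem box_sq (Tp : ∀ k, P (cm0 hS) (cfg (rc0 hS) (chiS hS h3 β))
      (pz (scol_hull (chiS hS h3 β)) H o) (T k) = pz (scol_hull (chiS hS h3 β)) H (o - k))
    (Q : NumS h A B m τ K) (hW : ∀ a, W a = sqW K a + v) (hB : Bx ⊆ Kin h (A + τ + m) K v)
    {u : ℂ} (hu : OnHull S u) :
    ∀ w ∈ S, w ∈ Bx →
      (Quot.mk _ w : Quot (hullE S)) ∉ Eg (cm0 hS) (Quot.mk _ u)
        (Lf (cm0 hS) (cfg (rc0 hS) (chiS hS h3 β)) (pz (scol_hull (chiS hS h3 β)) H o) N) := by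
  intro w _ hw
  have e := cfg_scol (hS := hS) h3 β
  rw [← e] at R TR Tp ⊢
  exact box_not_eg H R TR Tp Q hW h3 (Nat.le_succ N) hu (hB hw)

/-- **`Facts` of the square ring** -/
theorem facts_sq (Tp : ∀ k, P (cm0 hS) (cfg (rc0 hS) (chiS hS h3 β))
      (pz (scol_hull (chiS hS h3 β)) H o) (T k) = pz (scol_hull (chiS hS h3 β)) H (o - k))
    (Q : NumS h A B m τ K) (hW : ∀ a, W a = sqW K a + v) (hB : Bx ⊆ Kin h (A + τ + m) K v)
    (hr : 0 < r) (hh1 : h * K / 2 + (A + τ) + r ≤ h1) (hh2 : h1 + r ≤ h2)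
    (hole : ∀ p : ℂ, sp (zc h K v) p ≤ h2 → ∃ t ∈ S, ‖t - p‖ < r)
    (hU' : ∀ p : ℂ, sp (zc h K v) p < h1 + 2 * r → p ∈ U')
    (out : ∀ w ∈ S, w ∈ U' → ¬ OnHull S w)
    (L : Lev S (sr hS h3) G (zc h K v) A1 A2) (h12 : A1 ≤ A2)
    (hA1 : h * K / 2 + (A + τ) ≤ A1)
    (hDw : ∀ w ∈ S, sup (w - zc h K v) < A1 → sr hS h3 w ∈ G.Dw)
    (ac : ∃ t ≤ N, (rc0 hS).cell ((rc0 hS).rho (P (rc0 hS) (cfg (rc0 hS) (chiS hS h3 β))
      (pz (scol_hull (chiS hS h3 β)) H o) t)) ∈ Cw (rc0 hS) G (chiS hS h3 β))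
    {u : ℂ} (hu : OnHull S u) (hu' : h1 ≤ sp (zc h K v) u) :
    Facts U' Bx S β (Ra (rc0 hS) G S (chiS hS h3) (Kc hS h3) β)
      (Eg (cm0 hS) (Quot.mk _ u) (Lf (cm0 hS) (cfg (rc0 hS) (chiS hS h3 β))
        (pz (scol_hull (chiS hS h3 β)) H o) N)) := by
  have hK1 : 1 ≤ K := by have := Q.K3; omega
  obtain ⟨p1, p2, p3, p4, p5⟩ := pos H
  have hRR : ∀ a, ∀ w ∈ RR (A + τ) (B + τ) h W a, sup (w - zc h K v) < A1 := fun a w hw => by
    rw [sup_sp]
    have := sp_tile hK1 hW H.F p2 p4 p1 hw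
    linarith
  have Lp : Lp0 (rc0 hS) G (chiS hS h3 β) (pz (scol_hull (chiS hS h3 β)) H o) N := by
    refine lp0_of L h12 hDw ?_ ?_ ?_ ac
    · have h5 : (rc0 hS).cell (pz (scol_hull (chiS hS h3 β)) H o) =
          cs hS h3 ⟨y o, (dart_mem (pz (scol_hull (chiS hS h3 β)) H o)).1⟩ :=
        Subtype.ext rfl
      rw [h5, ← scol_cs h3 (chiS hS h3 β) ⟨y o, _⟩]
      exact H.cy o
    · have h5 : (rc0 hS).cell ((rc0 hS).rho (pz (scol_hull (chiS hS h3 β)) H o)) =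
          cs hS h3 ⟨x o, (dart_mem (pz (scol_hull (chiS hS h3 β)) H o)).2⟩ :=
        Subtype.ext rfl
      rw [h5, ← scol_cs h3 (chiS hS h3 β) ⟨x o, _⟩]
      exact H.cx o
    · intro j _
      obtain ⟨k, hk, hk'⟩ := R.tile j
      have h6 := TR k j hk hk'.le
      exact ⟨hRR _ _ h6.1, hRR _ _ h6.2⟩
  refine facts_ra h3 hu ?_ Lp out ?_ ?_
  · have huS : u ∈ S := by
      obtain ⟨a, ha⟩ := hu
      exact (hullE.mem ha).2
    rw [← L.h0 u hu]
    unfold sr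
    rw [dif_pos huS]
    rfl
  · exact fac_sq H R TR hK1 hW hr hh1 hh2 hole hU' hu hu'
  · exact box_sq H R TR Tp Q hW hB hu

end clo

/-! ### the boxes -/

/-- `Ub z b s` contains the points of level `< b / 2 + s` -/
theorem ub_sp {z c : ℂ} {b s e : ℝ} (hc : c = z + ((b / 2 : ℝ) : ℂ) * (1 + Complex.I))
    (he : e ≤ b / 2 + s) {p : ℂ} (hp : sp c p < e) : p ∈ Ub z b s := by
  have h1 := (max_lt_iff.1 hp).1
  have h2 := (max_lt_iff.1 hp).2
  rw [abs_lt] at h1 h2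
  have e1 : c.re = z.re + b / 2 := by rw [hc]; simp
  have e2 : c.im = z.im + b / 2 := by rw [hc]; simp
  rw [e1] at h1
  rw [e2] at h2
  refine ⟨?_, ?_, ?_, ?_⟩
  · rw [HBudx136.re_k']; linarith [h1.1]
  · rw [HBudx136.re_k']; linarith [h1.2]
  · rw [HBudx136.im_k']; linarith [h2.1]
  · rw [HBudx136.im_k']; linarith [h2.2]

/-- the box is in the inner square -/
theorem sq_kin {z : ℂ} {b h A : ℝ} {K : ℕ} {v : ℤ × ℤ} (h1 : h * v.1 + A ≤ z.re)
    (h2 : z.re + b ≤ h * (v.1 + K) - A) (h3 : h * v.2 + A ≤ z.im)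
    (h4 : z.im + b ≤ h * (v.2 + K) - A) : sq z b ⊆ Kin h A K v := by
  rintro w ⟨w1, w2, w3, w4⟩
  exact ⟨⟨by linarith, by linarith⟩, by linarith, by linarith⟩

end Crest.Agent.R143.FactJx432
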