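import Crest.Agent.R143.IndLoc3_279

/-!
# R143 (helper279), box R8, Bochner forms

* `cav_lin` : `cav` commutes with real linear maps
* `int_cav` : `E F(cfg) = E cav F (sites)`, `F` real or complex, integrable
* `int_cav_mul` : `E [cav F * cav G] = E F(cfg) * E G(cfg)`, `F` local on `C`, `G` local on `U`
  (two independent colourings of the same sites)
* `int_cav_sum` : the same for a finite sum of products
* `norm_cav_le`, `int_cavcav` : the double sum over the two colourings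
-/

set_option autoImplicit false

noncomputable section

namespace Crest.Agent.R143.IndLoc4x279

open MeasureTheory Set ProbabilityTheory
open Crest.ProbabilityR.Voronoi
open Crest.Agent.R143.PP0x831 Crest.Agent.R143.Poisx304 Crest.Agent.R143.Janx304
open Crest.Agent.R143.IndLocx279 Crest.Agent.R143.IndLoc2x279 Crest.Agent.R143.IndLoc3x279
open scoped ENNReal Nat

variable {ε : ℝ}

/-! ## algebra of `cav` -/

lemma cav_lin {E F : Type*} [AddCommGroup E] [Module ℝ E] [AddCommGroup F] [Module ℝ F]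
    (L : E →ₗ[ℝ] F) (f : Set (ℂ × Bool) → E) (S : Finset ℂ) :
    cav (fun X => L (f X)) S = L (cav f S) := by
  unfold cav
  rw [map_smul, map_sum]

lemma cav_add {E : Type*} [AddCommGroup E] [Module ℝ E] (f g : Set (ℂ × Bool) → E)
    (S : Finset ℂ) : cav (fun X => f X + g X) S = cav f S + cav g S := by
  unfold cav
  rw [Finset.sum_add_distrib, smul_add]

lemma cav_const {E : Type*} [AddCommGroup E] [Module ℝ E] (c : E) (S : Finset ℂ) :
    cav (fun _ => c) S = c := by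
  unfold cav
  rw [Finset.sum_const, Finset.card_powerset, ← Nat.cast_smul_eq_nsmul ℝ, smul_smul]
  push_cast
  rw [← mul_pow, inv_mul_cancel₀ (by norm_num), one_pow, one_smul]

lemma cav_mono {f g : Set (ℂ × Bool) → ℝ} {S : Finset ℂ}
    (h : ∀ β ⊆ S, f (clr S β) ≤ g (clr S β)) : cav f S ≤ cav g S := by
  unfold cav
  refine smul_le_smul_of_nonneg_left ?_ (by positivity)
  exact Finset.sum_le_sum fun β hβ => h β (Finset.mem_powerset.1 hβ)

lemma norm_cav_le {E : Type*} [NormedAddCommGroup E] [NormedSpace ℝ E]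
    (f : Set (ℂ × Bool) → E) (S : Finset ℂ) : ‖cav f S‖ ≤ cav (fun X => ‖f X‖) S := by
  unfold cav
  rw [norm_smul, Real.norm_of_nonneg (by positivity), smul_eq_mul]
  exact mul_le_mul_of_nonneg_left (norm_sum_le _ _) (by positivity)

lemma cavE_toReal (f : Set (ℂ × Bool) → ℝ) (S : Finset ℂ) :
    (cavE (fun X => ENNReal.ofReal (f X)) S).toReal = cav (fun X => max (f X) 0) S := by
  unfold cavE cav
  rw [ENNReal.toReal_mul, ENNReal.toReal_pow, ENNReal.toReal_inv, ENNReal.toReal_ofNat,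
    ENNReal.toReal_sum fun _ _ => ENNReal.ofReal_ne_top, smul_eq_mul]
  congr 1

lemma cav_eq (f : Set (ℂ × Bool) → ℝ) (S : Finset ℂ) :
    cav f S = (cavE (fun X => ENNReal.ofReal (f X)) S).toReal -
      (cavE (fun X => ENNReal.ofReal (-f X)) S).toReal := by
  rw [cavE_toReal, cavE_toReal]
  unfold cav
  rw [← smul_sub, ← Finset.sum_sub_distrib]
  congr 1
  refine Finset.sum_congr rfl fun β _ => ?_
  show f (clr S β) = max (f (clr S β)) 0 - max (-f (clr S β)) 0
  rcases le_total 0 (f (clr S β)) with h | h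
  · rw [max_eq_left h, max_eq_right (by linarith), sub_zero]
  · rw [max_eq_right h, max_eq_left (by linarith)]; ring

/-! ## measurability -/

/-- positions in `B`, any values -/
lemma ps_measX {X : Type*} [MeasurableSpace X] {f : Set ℂ → X}
    (hf : ∀ n, Measurable fun z : Fin n → ℂ => f (range z)) {B : Set ℂ} (hB : MeasurableSet B) :
    FinMeas fun X : Set (ℂ × Bool) => f (psn X ∩ B) := by
  have h1 : FinMeas fun X : Set (ℂ × Bool) => f (psn X) := by
    intro n
    simp only [psn_range]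
    exact (hf n).comp (measurable_pi_iff.2 fun i => measurable_fst.comp (measurable_pi_apply i))
  have h2 := FinMeas_inter h1 hB
  simpa only [psn_inter] using h2

lemma cav_measR {F : Set (ℂ × Bool) → ℝ} (hF : FinMeas F) (n : ℕ) :
    Measurable fun z : Fin n → ℂ => cav F (fs (range z)) := by
  simp only [cav_eq]
  refine Measurable.sub ?_ ?_
  · exact (cavE_meas (F := fun X => ENNReal.ofReal (F X))
      (fun k => (hF k).ennreal_ofReal) n).ennreal_toReal
  · exact (cavE_meas (F := fun X => ENNReal.ofReal (-F X))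
      (fun k => (hF k).neg.ennreal_ofReal) n).ennreal_toReal

section RC

variable {𝕜 : Type*} [RCLike 𝕜]

lemma re_cav (f : Set (ℂ × Bool) → 𝕜) (S : Finset ℂ) :
    RCLike.re (cav f S) = cav (fun X => RCLike.re (f X)) S :=
  (cav_lin (RCLike.reLm (K := 𝕜)) f S).symm

lemma im_cav (f : Set (ℂ × Bool) → 𝕜) (S : Finset ℂ) :
    RCLike.im (cav f S) = cav (fun X => RCLike.im (f X)) S :=
  (cav_lin (RCLike.imLm (K := 𝕜)) f S).symm

lemma cav_meas {F : Set (ℂ × Bool) → 𝕜} (hF : FinMeas F) (n : ℕ) :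
    Measurable fun z : Fin n → ℂ => cav F (fs (range z)) := by
  have h1 : (fun z : Fin n → ℂ => cav F (fs (range z))) = fun z : Fin n → ℂ =>
      ((cav (fun X => RCLike.re (F X)) (fs (range z)) : ℝ) : 𝕜) +
        ((cav (fun X => RCLike.im (F X)) (fs (range z)) : ℝ) : 𝕜) * RCLike.I := by
    funext z
    rw [← re_cav, ← im_cav, RCLike.re_add_im]
  rw [h1]
  refine Measurable.add ?_ (Measurable.mul ?_ measurable_const)
  · exact RCLike.measurable_ofReal.comp
      (cav_measR (F := fun X => RCLike.re (F X)) (fun k => RCLike.measurable_re.comp (hF k)) n)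
  · exact RCLike.measurable_ofReal.comp
      (cav_measR (F := fun X => RCLike.im (F X)) (fun k => RCLike.measurable_im.comp (hF k)) n)

end RC

/-- `S ω` may be replaced by the points in `B` -/
lemma cav_ae {E : Type*} [AddCommGroup E] [Module ℝ E] {B : Set ℂ}
    {F : Set (ℂ × Bool) → E} (hF : LocalOn B F) {S : Sample → Finset ℂ}
    (hS : ∀ᵐ ω ∂sampleLaw, (S ω : Set ℂ) ⊆ points ε ω ∧ points ε ω ∩ B ⊆ S ω) :
    ∀ᵐ ω ∂sampleLaw, cav F (S ω) = cav F (fs (points ε ω ∩ B)) := by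
  filter_upwards [hS] with ω hω
  have hfin : (points ε ω ∩ B).Finite := (Finset.finite_toSet (S ω)).subset hω.2
  have e : fs (points ε ω ∩ B) = hfin.toFinset := by unfold fs; rw [dif_pos hfin]
  rw [e]
  refine cav_local hF ?_ ?_
  · intro x hx
    rw [Set.Finite.mem_toFinset] at hx
    exact hω.2 hx
  · intro x hx hB'
    rw [Set.Finite.mem_toFinset]
    exact ⟨hω.1 hx, hB'⟩

lemma cavE_ae {B : Set ℂ} {F : Set (ℂ × Bool) → ℝ≥0∞} (hF : LocalOn B F)
    {S : Sample → Finset ℂ}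
    (hS : ∀ᵐ ω ∂sampleLaw, (S ω : Set ℂ) ⊆ points ε ω ∧ points ε ω ∩ B ⊆ S ω) :
    ∀ᵐ ω ∂sampleLaw, cavE F (S ω) = cavE F (fs (points ε ω ∩ B)) := by
  filter_upwards [hS] with ω hω
  have hfin : (points ε ω ∩ B).Finite := (Finset.finite_toSet (S ω)).subset hω.2
  have e : fs (points ε ω ∩ B) = hfin.toFinset := by unfold fs; rw [dif_pos hfin]
  rw [e]
  refine cavE_local hF ?_ ?_
  · intro x hx
    rw [Set.Finite.mem_toFinset] at hx
    exact hω.2 hx
  · intro x hx hB'
    rw [Set.Finite.mem_toFinset]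
    exact ⟨hω.1 hx, hB'⟩

lemma cavE_aem (hε : 0 < ε) {B : Set ℂ} (hB : MeasurableSet B) (hb : Bornology.IsBounded B)
    {F : Set (ℂ × Bool) → ℝ≥0∞} (hF : LocalOn B F) (hm : FinMeas F) {S : Sample → Finset ℂ}
    (hS : ∀ᵐ ω ∂sampleLaw, (S ω : Set ℂ) ⊆ points ε ω ∧ points ε ω ∩ B ⊆ S ω) :
    AEMeasurable (fun ω => cavE F (S ω)) sampleLaw := by
  have h1 := meas_fun hε hB hb (ps_local (fun P => cavE F (fs P)) B)
    (ps_measX (f := fun P => cavE F (fs P)) (fun n => cavE_meas (show FM F from hm) n) hB)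
  simp only [psn_cfg] at h1
  exact ⟨_, h1, cavE_ae hF hS⟩

/-! ## real case -/

theorem int_cavR (hε : 0 < ε) {B : Set ℂ} (hB : MeasurableSet B) (hb : Bornology.IsBounded B)
    {F : Set (ℂ × Bool) → ℝ} (hF : LocalOn B F) (hm : FinMeas F)
    (hi : Integrable (fun ω => F (cfg ε ω)) sampleLaw) {S : Sample → Finset ℂ}
    (hS : ∀ᵐ ω ∂sampleLaw, (S ω : Set ℂ) ⊆ points ε ω ∧ points ε ω ∩ B ⊆ S ω) :
    Integrable (fun ω => cav F (S ω)) sampleLaw ∧
      ∫ ω, cav F (S ω) ∂sampleLaw = ∫ ω, F (cfg ε ω) ∂sampleLaw := by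
  have hF1 : LocalOn B fun X => ENNReal.ofReal (F X) := IndLocx279.LocalOn.comp hF ENNReal.ofReal
  have hF2 : LocalOn B fun X => ENNReal.ofReal (-F X) := IndLocx279.LocalOn.comp hF fun t => ENNReal.ofReal (-t)
  have hm1 : FinMeas fun X => ENNReal.ofReal (F X) := fun n => (hm n).ennreal_ofReal
  have hm2 : FinMeas fun X => ENNReal.ofReal (-F X) := fun n => (hm n).neg.ennreal_ofReal
  have e1 := lint_cav hε hB hb hF1 hm1 hS
  have e2 := lint_cav hε hB hb hF2 hm2 hS
  have m1 := cavE_aem hε hB hb hF1 hm1 hS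
  have m2 := cavE_aem hε hB hb hF2 hm2 hS
  have f1 : ∫⁻ ω, cavE (fun X => ENNReal.ofReal (F X)) (S ω) ∂sampleLaw ≠ ⊤ := by
    rw [e1]
    exact (hi.lintegral_lt_top).ne
  have f2 : ∫⁻ ω, cavE (fun X => ENNReal.ofReal (-F X)) (S ω) ∂sampleLaw ≠ ⊤ := by
    rw [e2]
    exact (hi.neg.lintegral_lt_top).ne
  have i1 := integrable_toReal_of_lintegral_ne_top m1 f1
  have i2 := integrable_toReal_of_lintegral_ne_top m2 f2
  simp only [cav_eq F]
  refine ⟨i1.sub i2, ?_⟩
  rw [integral_sub i1 i2, integral_toReal m1 (ae_lt_top' m1 f1),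
    integral_toReal m2 (ae_lt_top' m2 f2), e1, e2,
    integral_eq_lintegral_pos_part_sub_lintegral_neg_part hi]

/-! ## real or complex -/

section RC

variable {𝕜 : Type*} [RCLike 𝕜]

/-- **E F(cfg) = E (mean over the colourings of the sites)** -/
theorem int_cav (hε : 0 < ε) {B : Set ℂ} (hB : MeasurableSet B) (hb : Bornology.IsBounded B)
    {F : Set (ℂ × Bool) → 𝕜} (hF : LocalOn B F) (hm : FinMeas F)
    (hi : Integrable (fun ω => F (cfg ε ω)) sampleLaw) {S : Sample → Finset ℂ}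
    (hS : ∀ᵐ ω ∂sampleLaw, (S ω : Set ℂ) ⊆ points ε ω ∧ points ε ω ∩ B ⊆ S ω) :
    Integrable (fun ω => cav F (S ω)) sampleLaw ∧
      ∫ ω, cav F (S ω) ∂sampleLaw = ∫ ω, F (cfg ε ω) ∂sampleLaw := by
  obtain ⟨i1, e1⟩ := int_cavR hε hB hb (F := fun X => RCLike.re (F X))
    (IndLocx279.LocalOn.comp hF fun z => RCLike.re z)
    (fun n => RCLike.measurable_re.comp (hm n)) hi.re hS
  obtain ⟨i2, e2⟩ := int_cavR hε hB hb (F := fun X => RCLike.im (F X))
    (IndLocx279.LocalOn.comp hF fun z => RCLike.im z)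
    (fun n => RCLike.measurable_im.comp (hm n)) hi.im hS
  have i3 : Integrable (fun ω => cav F (S ω)) sampleLaw := by
    have h1 : (fun ω => cav F (S ω)) = fun ω =>
        ((cav (fun X => RCLike.re (F X)) (S ω) : ℝ) : 𝕜) +
          ((cav (fun X => RCLike.im (F X)) (S ω) : ℝ) : 𝕜) * RCLike.I := by
      funext ω
      rw [← re_cav, ← im_cav, RCLike.re_add_im]
    rw [h1]
    exact i1.ofReal.add (i2.ofReal.mul_const _)
  refine ⟨i3, ?_⟩
  refine RCLike.ext ?_ ?_
  · rw [← integral_re i3, ← integral_re hi]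
    simp only [re_cav]
    exact e1
  · rw [← integral_im i3, ← integral_im hi]
    simp only [im_cav]
    exact e2

/-- **R8**, Bochner form: two independent colourings, `F` looks at the corridor `C`, `G` at the
inside `U` -/
theorem int_cav_mul (hε : 0 < ε) {C U : Set ℂ} (hC : MeasurableSet C)
    (hCb : Bornology.IsBounded C) (hU : MeasurableSet U) (hUb : Bornology.IsBounded U)
    (hd : Disjoint C U) {F G : Set (ℂ × Bool) → 𝕜} (hF : LocalOn C F) (hG : LocalOn U G)
    (hm : FinMeas F) (hm' : FinMeas G) (hi : Integrable (fun ω => F (cfg ε ω)) sampleLaw)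
    (hi' : Integrable (fun ω => G (cfg ε ω)) sampleLaw) {S : Sample → Finset ℂ}
    (hS : ∀ᵐ ω ∂sampleLaw, (S ω : Set ℂ) ⊆ points ε ω ∧ points ε ω ∩ (C ∪ U) ⊆ S ω) :
    Integrable (fun ω => cav F (S ω) * cav G (S ω)) sampleLaw ∧
      ∫ ω, cav F (S ω) * cav G (S ω) ∂sampleLaw =
        (∫ ω, F (cfg ε ω) ∂sampleLaw) * ∫ ω, G (cfg ε ω) ∂sampleLaw := by
  have hSC : ∀ᵐ ω ∂sampleLaw, (S ω : Set ℂ) ⊆ points ε ω ∧ points ε ω ∩ C ⊆ S ω := by
    filter_upwards [hS] with ω hω
    exact ⟨hω.1, (inter_subset_inter_right _ subset_union_left).trans hω.2⟩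
  have hSU : ∀ᵐ ω ∂sampleLaw, (S ω : Set ℂ) ⊆ points ε ω ∧ points ε ω ∩ U ⊆ S ω := by
    filter_upwards [hS] with ω hω
    exact ⟨hω.1, (inter_subset_inter_right _ subset_union_right).trans hω.2⟩
  have ind := indepFun hε hC hCb hU hUb hd (ps_local (fun P => cav F (fs P)) C)
    (ps_local (fun P => cav G (fs P)) U)
    (ps_measX (f := fun P => cav F (fs P)) (fun n => cav_meas hm n) hC)
    (ps_measX (f := fun P => cav G (fs P)) (fun n => cav_meas hm' n) hU)
  simp only [psn_cfg] at ind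
  have a1 := cav_ae hF hSC
  have a2 := cav_ae hG hSU
  obtain ⟨i1, e1⟩ := int_cav hε hC hCb hF hm hi hSC
  obtain ⟨i2, e2⟩ := int_cav hε hU hUb hG hm' hi' hSU
  have ind' : IndepFun (fun ω => cav F (S ω)) (fun ω => cav G (S ω)) sampleLaw :=
    ind.congr (a1.mono fun ω h => h.symm) (a2.mono fun ω h => h.symm)
  refine ⟨ind'.integrable_mul i1 i2, ?_⟩
  rw [← e1, ← e2]
  exact ind'.integral_fun_mul_eq_mul_integral i1.aestronglyMeasurable i2.aestronglyMeasurable

/-- **R8** for a finite sum (the levels `l`) -/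
theorem int_cav_sum (hε : 0 < ε) {C U : Set ℂ} (hC : MeasurableSet C)
    (hCb : Bornology.IsBounded C) (hU : MeasurableSet U) (hUb : Bornology.IsBounded U)
    (hd : Disjoint C U) {ι : Type*} (s : Finset ι) {F G : ι → Set (ℂ × Bool) → 𝕜}
    (hF : ∀ i ∈ s, LocalOn C (F i)) (hG : ∀ i ∈ s, LocalOn U (G i))
    (hm : ∀ i ∈ s, FinMeas (F i)) (hm' : ∀ i ∈ s, FinMeas (G i))
    (hi : ∀ i ∈ s, Integrable (fun ω => F i (cfg ε ω)) sampleLaw)
    (hi' : ∀ i ∈ s, Integrable (fun ω => G i (cfg ε ω)) sampleLaw) {S : Sample → Finset ℂ}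
    (hS : ∀ᵐ ω ∂sampleLaw, (S ω : Set ℂ) ⊆ points ε ω ∧ points ε ω ∩ (C ∪ U) ⊆ S ω) :
    Integrable (fun ω => ∑ i ∈ s, cav (F i) (S ω) * cav (G i) (S ω)) sampleLaw ∧
      ∫ ω, ∑ i ∈ s, cav (F i) (S ω) * cav (G i) (S ω) ∂sampleLaw =
        ∑ i ∈ s, (∫ ω, F i (cfg ε ω) ∂sampleLaw) * ∫ ω, G i (cfg ε ω) ∂sampleLaw := by
  have h := fun i (h : i ∈ s) => int_cav_mul hε hC hCb hU hUb hd (hF i h) (hG i h) (hm i h)
    (hm' i h) (hi i h) (hi' i h) hS
  refine ⟨integrable_finset_sum _ fun i hi => (h i hi).1, ?_⟩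
  rw [integral_finset_sum _ fun i hi => (h i hi).1]
  exact Finset.sum_congr rfl fun i hi => (h i hi).2

/-- the product of two means = the mean over the PAIRS of colourings -/
lemma cav_mul (f g : Set (ℂ × Bool) → 𝕜) (S : Finset ℂ) :
    cav f S * cav g S = ((4⁻¹ : ℝ) ^ S.card) •
      ∑ β ∈ S.powerset, ∑ β' ∈ S.powerset, f (clr S β) * g (clr S β') := by
  unfold cav
  rw [smul_mul_smul_comm, Finset.sum_mul_sum, ← mul_pow]
  norm_num

end RC

end Crest.Agent.R143.IndLoc4x279
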