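import Crest.Agent.R143.PW_978
import Crest.Agent.R143.IndLoc4_279
import Crest.Agent.R143.Har_315

/-!
# R143 (helper653), box R1d/R1e: the annealed passage

Notation of `PWx978` (`Cf`, `Rs ε C F S` = the configuration in `C` is integrated out) and of
`IndLoc3x279` (`cavE` = mean over the colourings, `clr`, `fs`, `nu`).

* `qn C F S P` : quenched mean of `F ((S off C) ∪ X)` over the colours of the positions `P`
* `Rs_cav`, `Rs_int` : `Rs ε C F S = J (nu ε C) (qn C F S) = ∫⁻ qn C F S (points ∩ C)`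
* `Rs_ge` : `p ≤ qn C F S (points ε ω ∩ C)` on an arbitrary set `Gd` of samples implies
  `p * sampleLaw Gd ≤ Rs ε C F S`; `lint_ge` : the same for `∫⁻ F (cfg ε ω)`
* `mk_aux`, `markov`, `Rs_mk` : `a + b ≤ E f`, `f ≤ 1` implies `b ≤ P (a ≤ f)`
* `Rs_mono`, `Rs_drop` : monotone; parts of the tube which `F` does not see
* `ind2` : independence of the positions in disjoint regions
* `qn_drop` : the same for `qn`; `qn_local` : `qn` depends on the part of `S` which `F` sees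
* `tile`, `tile'` : **the annealed lower bound of a tile given two good gates**
* `good` : **good gates have positive probability**
* `cavE_pr`, `qn_pr` : `qn` of an event as `Harx315.pr`; `clr_un`
* `sx X`, `bk X` : sites and black sites of a configuration; `qn_ev` : the quenched mean of an event
  `E (sites) (black sites)` of the configuration in `B ∪ C` is `pr T (τ ↦ E (G ∪ T) (q ∪ τ))`
* `Sc X`, `eq_clr` : one colour per position, `X = clr (sx X) (bk X)`
-/

set_option autoImplicit false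

noncomputable section

open scoped Classical

namespace Crest.Agent.R143.Fairx653

open MeasureTheory Set ProbabilityTheory
open Crest.ProbabilityR.Voronoi
open Crest.Agent.R143.PP0x831 Crest.Agent.R143.Poisx304 Crest.Agent.R143.Janx304
open Crest.Agent.R143.IndLocx279 Crest.Agent.R143.IndLoc2x279 Crest.Agent.R143.IndLoc3x279
open Crest.Agent.R143.IndLoc4x279 Crest.Agent.R143.PWx978
open Crest.Agent.R143.Harx315 (pr nb)
open scoped ENNReal Nat

variable {ε : ℝ} {B B' C C' C1 C2 : Set ℂ} {F G H F1 F2 : Cf → ℝ≥0∞}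

/-! ## quenched mean -/

/-- quenched mean over the colours of the positions `P`; the rest of the configuration is `S` -/
def qn (C : Set ℂ) (F : Cf → ℝ≥0∞) (S : Cf) (P : Set ℂ) : ℝ≥0∞ :=
  cavE (fun X => F ((S ∩ ovr Cᶜ) ∪ X)) (fs P)

lemma qn_fm (hF : FinMeas F) {S : Cf} (hS : S.Finite) : FM (qn C F S) := fun n =>
  cavE_meas (fm_union_fin hF (hS.subset inter_subset_left)) n

theorem Rs_cav (hε : 0 < ε) (hCb : Bornology.IsBounded C) (hF : FinMeas F) {S : Cf}
    (hS : S.Finite) : Rs ε C F S = J (nu ε C) (qn C F S) := by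
  have := nu_fin hε hCb
  exact J_colour (nu ε C) (fun x => nu_sing x C) (fm_union_fin hF (hS.subset inter_subset_left))

theorem Rs_int (hε : 0 < ε) (hC : MeasurableSet C) (hCb : Bornology.IsBounded C)
    (hF : FinMeas F) {S : Cf} (hS : S.Finite) :
    Rs ε C F S = ∫⁻ ω, qn C F S (points ε ω ∩ C) ∂sampleLaw := by
  rw [Rs_cav hε hCb hF hS, lint_psn hε hC hCb (qn_fm hF hS)]

/-- measurability of functionals of the positions in `C` -/
lemma pt_meas {X : Type*} [MeasurableSpace X] {f : Set ℂ → X} (hε : 0 < ε) (hC : MeasurableSet C)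
    (hCb : Bornology.IsBounded C) (hf : ∀ n, Measurable fun z : Fin n → ℂ => f (range z)) :
    Measurable fun ω => f (points ε ω ∩ C) := by
  have h := meas_fun hε hC hCb (ps_local f C) (ps_measX hf hC)
  simpa only [psn_cfg] using h

lemma qn_meas (hε : 0 < ε) (hC : MeasurableSet C) (hCb : Bornology.IsBounded C)
    (hF : FinMeas F) {S : Cf} (hS : S.Finite) :
    Measurable fun ω => qn C F S (points ε ω ∩ C) :=
  pt_meas hε hC hCb (fun n => qn_fm hF hS n)

/-! ## lower bounds -/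

/-- **quenched lower bound on `Gd` gives an annealed lower bound** (`Gd` arbitrary) -/
theorem Rs_ge (hε : 0 < ε) (hC : MeasurableSet C) (hCb : Bornology.IsBounded C)
    (hF : FinMeas F) {S : Cf} (hS : S.Finite) {p : ℝ≥0∞} {Gd : Set Sample}
    (h : ∀ ω ∈ Gd, p ≤ qn C F S (points ε ω ∩ C)) : p * sampleLaw Gd ≤ Rs ε C F S := by
  rw [Rs_int hε hC hCb hF hS]
  refine (mul_le_mul_right (measure_mono (show Gd ⊆ {ω | p ≤ qn C F S (points ε ω ∩ C)} from h))
    p).trans ?_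
  exact mul_meas_ge_le_lintegral (qn_meas hε hC hCb hF hS) p

/-- the same for the full integral; `S ω` = sites -/
theorem lint_ge (hε : 0 < ε) (hB : MeasurableSet B) (hb : Bornology.IsBounded B)
    (hF : LocalOn B F) (hm : FinMeas F) {S : Sample → Finset ℂ}
    (hS : ∀ᵐ ω ∂sampleLaw, (S ω : Set ℂ) ⊆ points ε ω ∧ points ε ω ∩ B ⊆ S ω)
    {p : ℝ≥0∞} {Gd : Set Sample} (h : ∀ ω ∈ Gd, p ≤ cavE F (S ω)) :
    p * sampleLaw Gd ≤ ∫⁻ ω, F (cfg ε ω) ∂sampleLaw := by
  rw [← lint_cav hε hB hb hF hm hS]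
  refine (mul_le_mul_right (measure_mono (show Gd ⊆ {ω | p ≤ cavE F (S ω)} from h)) p).trans ?_
  exact mul_meas_ge_le_lintegral₀ (cavE_aem hε hB hb hF hm hS) p

/-! ## Markov -/

lemma mk_aux {Ω : Type*} [MeasurableSpace Ω] {μ : Measure Ω} [IsProbabilityMeasure μ]
    {f : Ω → ℝ≥0∞} (hf : Measurable f) (h1 : ∀ ω, f ω ≤ 1) {a b : ℝ≥0∞}
    (h : a + b ≤ ∫⁻ ω, f ω ∂μ) : b ≤ μ {ω | a ≤ f ω} := by
  have hs : MeasurableSet {ω | a ≤ f ω} := measurableSet_le measurable_const hf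
  have h2 : ∫⁻ ω, f ω ∂μ ≤ a + μ {ω | a ≤ f ω} := by
    calc ∫⁻ ω, f ω ∂μ ≤ ∫⁻ ω, (a + {ω | a ≤ f ω}.indicator 1 ω) ∂μ := by
          refine lintegral_mono fun ω => ?_
          by_cases hω : ω ∈ {ω | a ≤ f ω}
          · rw [indicator_of_mem hω]
            exact (h1 ω).trans le_add_self
          · rw [indicator_of_notMem hω, add_zero]
            exact (not_le.1 hω).le
      _ = a + μ {ω | a ≤ f ω} := by
          rw [lintegral_add_left measurable_const, lintegral_const, measure_univ, mul_one,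
            lintegral_indicator_one hs]
  by_cases ha : a = ⊤
  · exfalso
    have h3 : ∫⁻ ω, f ω ∂μ ≤ 1 := by
      calc ∫⁻ ω, f ω ∂μ ≤ ∫⁻ _, 1 ∂μ := lintegral_mono h1
        _ = 1 := by simp
    rw [ha, top_add, top_le_iff] at h
    rw [h] at h3
    exact absurd h3 (by simp)
  · exact (ENNReal.add_le_add_iff_left ha).1 (h.trans h2)

lemma cavE_le {f : Cf → ℝ≥0∞} {c : ℝ≥0∞} (h : ∀ X, f X ≤ c) (T : Finset ℂ) : cavE f T ≤ c := by
  unfold cavE
  calc (2⁻¹ : ℝ≥0∞) ^ T.card * ∑ β ∈ T.powerset, f (clr T β) ≤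
        (2⁻¹ : ℝ≥0∞) ^ T.card * ∑ β ∈ T.powerset, c :=
        mul_le_mul_right (Finset.sum_le_sum fun β _ => h _) _
    _ = c := by
        rw [Finset.sum_const, Finset.card_powerset, nsmul_eq_mul, ← mul_assoc]
        push_cast
        rw [← mul_pow, ENNReal.inv_mul_cancel (by norm_num) (by norm_num), one_pow, one_mul]

lemma qn_le {c : ℝ≥0∞} (h : ∀ X, F X ≤ c) (S : Cf) (P : Set ℂ) : qn C F S P ≤ c :=
  cavE_le (fun _ => h _) _

lemma qn_mono (h : ∀ X, F X ≤ G X) (S : Cf) (P : Set ℂ) : qn C F S P ≤ qn C G S P := by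
  unfold qn cavE
  exact mul_le_mul_right (Finset.sum_le_sum fun β _ => h _) _

instance : IsProbabilityMeasure sampleLaw := by unfold sampleLaw; infer_instance

/-- annealed to quenched: if the annealed mean of the tube is large then so is the quenched mean
for many positions -/
theorem Rs_mk (hε : 0 < ε) (hC : MeasurableSet C) (hCb : Bornology.IsBounded C)
    (hF : FinMeas F) (h1 : ∀ X, F X ≤ 1) {S : Cf} (hS : S.Finite) {a b : ℝ≥0∞}
    (h : a + b ≤ Rs ε C F S) : b ≤ sampleLaw {ω | a ≤ qn C F S (points ε ω ∩ C)} := by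
  rw [Rs_int hε hC hCb hF hS] at h
  exact mk_aux (qn_meas hε hC hCb hF hS) (fun ω => qn_le h1 _ _) h

lemma Rs_le1 (h1 : ∀ X, F X ≤ 1) (hε : 0 < ε) (hCb : Bornology.IsBounded C) (S : Cf) :
    Rs ε C F S ≤ 1 := by
  have := finite_mu' hε hCb
  calc Rs ε C F S ≤ J (mu ε C) fun _ => 1 := by
        unfold Rs J Q P
        gcongr
        exact h1 _
    _ = 1 := J_const _ _

/-- **Markov**: many good configurations outside the tube -/
theorem markov (hε : 0 < ε) (hB : MeasurableSet B) (hb : Bornology.IsBounded B)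
    (hC : MeasurableSet C) (hCb : Bornology.IsBounded C) (hF : LocalOn B F) (hm : FinMeas F)
    (h1 : ∀ X, F X ≤ 1) {a b : ℝ≥0∞} (h : a + b ≤ ∫⁻ ω, F (cfg ε ω) ∂sampleLaw) :
    b ≤ sampleLaw {ω | a ≤ Rs ε C F (cfg ε ω)} := by
  rw [Rs_tower hε hB hb hC hCb hF hm] at h
  exact mk_aux (meas_fun hε (hB.diff hC) (hb.subset sdiff_subset) (Rs_local hε hC hCb hF)
    (Rs_meas hε hC hCb hm)) (fun ω => Rs_le1 h1 hε hCb _) h

/-! ## monotone, drop -/

lemma J_mono {E : Type*} [MeasurableSpace E] {μ : Measure E} {F G : Set E → ℝ≥0∞}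
    (h : ∀ S, F S ≤ G S) : J μ F ≤ J μ G := by
  unfold J Q P
  gcongr
  exact h _

lemma Rs_mono (h : ∀ X, F X ≤ G X) (S : Cf) : Rs ε C F S ≤ Rs ε C G S :=
  J_mono fun _ => h _

/-- a part `C'` of the tube which `F` does not see may be dropped -/
theorem Rs_drop (hε : 0 < ε) (hCb : Bornology.IsBounded C)
    (hC' : MeasurableSet C') (hCb' : Bornology.IsBounded C') (hd : Disjoint C C')
    (hF : LocalOn B F) (hB : Disjoint B C') (hm : FinMeas F) {S : Cf} (hS : S.Finite) :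
    Rs ε (C ∪ C') F S = Rs ε C F S := by
  have := finite_mu' hε hCb
  have := finite_mu' hε hCb'
  have hG : FM fun T => F ((S ∩ ovr (C ∪ C')ᶜ) ∪ T) :=
    fm_union_fin hm (hS.subset inter_subset_left)
  unfold Rs
  rw [mu_union hε hC' hCb hCb' hd, J_add _ _ hG]
  congr 1
  funext T
  have e : J (mu ε C') (fun T' => F ((S ∩ ovr (C ∪ C')ᶜ) ∪ (T ∪ T'))) =
      J (mu ε C') fun _ => F ((S ∩ ovr Cᶜ) ∪ T) := by
    refine J_congr_ovr hε hC' hCb' fun T' hT' => local_eq' hF ?_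
    ext p
    have h1 : p.1 ∈ B → p.1 ∉ C' := fun h h' => Set.disjoint_left.1 hB h h'
    have h2 : p ∈ T' → p.1 ∈ C' := fun h => hT' h
    simp only [ovr, mem_inter_iff, mem_union, mem_ofPred_eq, mem_compl_iff]
    tauto
  rw [e, J_const]

lemma local_tr {X : Type*} {F : Cf → X} (hF : LocalOn B F) (Y : Cf) :
    LocalOn B fun X => F (Y ∪ X) := by
  refine localOn_of fun S T h => local_eq' hF ?_
  rw [union_inter_distrib_right, union_inter_distrib_right, h]

lemma fs_sub {P : Set ℂ} {z : ℂ} (h : z ∈ fs P) : z ∈ P := by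
  unfold fs at h
  split_ifs at h with hP
  · rwa [Set.Finite.mem_toFinset] at h
  · exact absurd h (Finset.notMem_empty _)

/-- `qn` only sees the part `B` of `S` and the part `C1` of the tube -/
theorem qn_drop (hF : LocalOn (B ∪ C1) F) (hB : Disjoint B C) (h1 : C1 ⊆ C) {S : Cf} {P : Set ℂ}
    (hP : P ⊆ C) (hf : P.Finite) : qn C F S P = qn C1 F S (P ∩ C1) := by
  unfold qn
  have hf1 : (P ∩ C1).Finite := hf.subset inter_subset_left
  rw [cavE_local (C := B ∪ C1) (A := fs (P ∩ C1)) (local_tr hF _)]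
  · congr 1
    funext X
    refine local_eq' hF ?_
    ext p
    have h2 : p.1 ∈ B → p.1 ∉ C := fun h h' => Set.disjoint_left.1 hB h h'
    have h3 : p.1 ∈ C1 → p.1 ∈ C := fun h => h1 h
    simp only [ovr, mem_inter_iff, mem_union, mem_ofPred_eq, mem_compl_iff]
    tauto
  · intro x hx
    have hx' := fs_sub hx
    unfold fs
    rw [dif_pos hf, Set.Finite.mem_toFinset]
    exact hx'.1
  · intro x hx hx'
    have hxP : x ∈ P := fs_sub hx
    unfold fs
    rw [dif_pos hf1, Set.Finite.mem_toFinset]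
    rcases hx' with h | h
    · exact absurd (hP hxP) (Set.disjoint_left.1 hB h)
    · exact ⟨hxP, h⟩

/-- `qn` depends on the part of `S` which `F` sees -/
theorem qn_local (hF : LocalOn (B ∪ C) F) {S S' : Cf} (h : S ∩ ovr B = S' ∩ ovr B)
    (hB : Disjoint B C) (P : Set ℂ) : qn C F S P = qn C F S' P := by
  unfold qn
  congr 1
  funext X
  refine local_eq' hF ?_
  ext p
  have h1 := Set.ext_iff.1 h p
  have h2 : p.1 ∈ B → p.1 ∉ C := fun h h' => Set.disjoint_left.1 hB h h'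
  simp only [ovr, mem_inter_iff, mem_union, mem_ofPred_eq, mem_compl_iff] at h1 ⊢
  tauto

theorem Rs_local' (hF : LocalOn (B ∪ C) F) {S S' : Cf} (h : S ∩ ovr B = S' ∩ ovr B)
    (hB : Disjoint B C) : Rs ε C F S = Rs ε C F S' := by
  unfold Rs
  congr 1
  funext X
  refine local_eq' hF ?_
  ext p
  have h1 := Set.ext_iff.1 h p
  have h2 : p.1 ∈ B → p.1 ∉ C := fun h h' => Set.disjoint_left.1 hB h h'
  simp only [ovr, mem_inter_iff, mem_union, mem_ofPred_eq, mem_compl_iff] at h1 ⊢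
  tauto

/-! ## independence -/

/-- events of the positions in disjoint regions are independent -/
theorem ind2 (hε : 0 < ε) (hC : MeasurableSet C) (hCb : Bornology.IsBounded C)
    (hC' : MeasurableSet C') (hCb' : Bornology.IsBounded C') (hd : Disjoint C C')
    {f g : Set ℂ → ℝ≥0∞} (hf : FM f) (hg : FM g) (a b : ℝ≥0∞) :
    sampleLaw ({ω | a ≤ f (points ε ω ∩ C)} ∩ {ω | b ≤ g (points ε ω ∩ C')}) =
      sampleLaw {ω | a ≤ f (points ε ω ∩ C)} * sampleLaw {ω | b ≤ g (points ε ω ∩ C')} := by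
  have h := indepFun hε hC hCb hC' hCb' hd (ps_local f C) (ps_local g C')
    (ps_measX (fun n => hf n) hC) (ps_measX (fun n => hg n) hC')
  simp only [psn_cfg] at h
  exact h.measure_inter_preimage_eq_mul (Ici a) (Ici b) measurableSet_Ici measurableSet_Ici

/-! ## the tile -/

/-- **annealed lower bound of a tile given two good gates**: `C1`, `C2` = parts of the tube next to
the two gates, `F1`, `F2` = extensions of the gates, `Gm` = good points of the tube -/
theorem tile (hε : 0 < ε) (hC : MeasurableSet C) (hCb : Bornology.IsBounded C)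
    (hC1 : MeasurableSet C1) (hC1b : Bornology.IsBounded C1)
    (hC2 : MeasurableSet C2) (hC2b : Bornology.IsBounded C2) (hd : Disjoint C1 C2)
    (hF : FinMeas F) (hF1 : FinMeas F1) (hF2 : FinMeas F2)
    (h1 : ∀ X, F1 X ≤ 1) (h2 : ∀ X, F2 X ≤ 1) {S : Cf} (hS : S.Finite) {a b p d : ℝ≥0∞}
    (hR1 : a + b ≤ Rs ε C1 F1 S) (hR2 : a + b ≤ Rs ε C2 F2 S) {Gm : Set Sample}
    (hGm : sampleLaw Gmᶜ ≤ d)
    (hq : ∀ ω ∈ Gm, a ≤ qn C1 F1 S (points ε ω ∩ C1) → a ≤ qn C2 F2 S (points ε ω ∩ C2) →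
      p ≤ qn C F S (points ε ω ∩ C)) :
    p * (b * b - d) ≤ Rs ε C F S := by
  set A1 : Set Sample := {ω | a ≤ qn C1 F1 S (points ε ω ∩ C1)} with hA1
  set A2 : Set Sample := {ω | a ≤ qn C2 F2 S (points ε ω ∩ C2)} with hA2
  have m1 : b ≤ sampleLaw A1 := Rs_mk hε hC1 hC1b hF1 h1 hS hR1
  have m2 : b ≤ sampleLaw A2 := Rs_mk hε hC2 hC2b hF2 h2 hS hR2
  have m3 : sampleLaw (A1 ∩ A2) = sampleLaw A1 * sampleLaw A2 :=
    ind2 hε hC1 hC1b hC2 hC2b hd (qn_fm hF1 hS) (qn_fm hF2 hS) a a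
  have m4 : b * b - d ≤ sampleLaw ((A1 ∩ A2) ∩ Gm) := by
    rw [tsub_le_iff_right]
    calc b * b ≤ sampleLaw (A1 ∩ A2) := by rw [m3]; exact mul_le_mul' m1 m2
      _ ≤ sampleLaw ((A1 ∩ A2) ∩ Gm ∪ Gmᶜ) := by
          refine measure_mono fun ω hω => ?_
          by_cases h : ω ∈ Gm
          · exact Or.inl ⟨hω, h⟩
          · exact Or.inr h
      _ ≤ sampleLaw ((A1 ∩ A2) ∩ Gm) + sampleLaw Gmᶜ := measure_union_le _ _
      _ ≤ sampleLaw ((A1 ∩ A2) ∩ Gm) + d := add_le_add_right hGm _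
  refine (mul_le_mul_right m4 p).trans (Rs_ge hε hC hCb hF hS ?_)
  rintro ω ⟨⟨hω1, hω2⟩, hω3⟩
  exact hq ω hω3 hω1 hω2

lemma pts_fin (hε : 0 < ε) (hCb : Bornology.IsBounded C) (ω : Sample) :
    (points ε ω ∩ C).Finite := by
  have h := cfg_finite hε hCb ω
  have h1 := h.image (Prod.fst : ℂ × Bool → ℂ)
  refine h1.subset ?_
  rintro z ⟨hz, hzC⟩
  rw [← psn_cfg (ε := ε) ω] at hz
  obtain ⟨p, hp, rfl⟩ := hz
  exact ⟨p, ⟨hp, hzC⟩, rfl⟩

/-- `tile` with all quenched means over the whole tube (form of `Thetax73.theta_ge`); the gates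
`B1`, `B2` are outside the tube -/
theorem tile' {B1 B2 : Set ℂ} (hε : 0 < ε) (hC : MeasurableSet C) (hCb : Bornology.IsBounded C)
    (hC1 : MeasurableSet C1) (hC2 : MeasurableSet C2) (hd : Disjoint C1 C2)
    (h1C : C1 ⊆ C) (h2C : C2 ⊆ C) (hB1 : Disjoint B1 C) (hB2 : Disjoint B2 C)
    (hl1 : LocalOn (B1 ∪ C1) F1) (hl2 : LocalOn (B2 ∪ C2) F2)
    (hF : FinMeas F) (hF1 : FinMeas F1) (hF2 : FinMeas F2)
    (h1 : ∀ X, F1 X ≤ 1) (h2 : ∀ X, F2 X ≤ 1) {S : Cf} (hS : S.Finite) {a b p d : ℝ≥0∞}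
    (hR1 : a + b ≤ Rs ε C1 F1 S) (hR2 : a + b ≤ Rs ε C2 F2 S) {Gm : Set Sample}
    (hGm : sampleLaw Gmᶜ ≤ d)
    (hq : ∀ ω ∈ Gm, a ≤ qn C F1 S (points ε ω ∩ C) → a ≤ qn C F2 S (points ε ω ∩ C) →
      p ≤ qn C F S (points ε ω ∩ C)) :
    p * (b * b - d) ≤ Rs ε C F S := by
  refine tile hε hC hCb hC1 (hCb.subset h1C) hC2 (hCb.subset h2C) hd hF hF1 hF2 h1 h2 hS hR1 hR2
    hGm fun ω hω h3 h4 => hq ω hω ?_ ?_
  · rw [qn_drop hl1 hB1 h1C inter_subset_right (pts_fin hε hCb ω), inter_assoc,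
      inter_eq_right.2 h1C]
    exact h3
  · rw [qn_drop hl2 hB2 h2C inter_subset_right (pts_fin hε hCb ω), inter_assoc,
      inter_eq_right.2 h2C]
    exact h4

/-- **good gates have positive probability**: `F` = gate event together with the two extensions
(regions `C1`, `C2` outside the gate box `B`) -/
theorem good (hε : 0 < ε) (hB : MeasurableSet B) (hb : Bornology.IsBounded B)
    (hC1 : MeasurableSet C1) (hC1b : Bornology.IsBounded C1)
    (hC2 : MeasurableSet C2) (hC2b : Bornology.IsBounded C2) (hd : Disjoint C1 C2)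
    (hd1 : Disjoint B C1) (hd2 : Disjoint B C2)
    (hF : LocalOn (B ∪ (C1 ∪ C2)) F) (hm : FinMeas F) (h1 : ∀ X, F X ≤ 1)
    (hF1 : LocalOn (B ∪ C1) F1) (hm1 : FinMeas F1) (hF2 : LocalOn (B ∪ C2) F2) (hm2 : FinMeas F2)
    (hFF1 : ∀ X, F X ≤ F1 X) (hFF2 : ∀ X, F X ≤ F2 X) {a b : ℝ≥0∞}
    (h : a + b ≤ ∫⁻ ω, F (cfg ε ω) ∂sampleLaw) :
    b ≤ sampleLaw {ω | a ≤ Rs ε C1 F1 (cfg ε ω) ∧ a ≤ Rs ε C2 F2 (cfg ε ω)} := by
  have hCm : MeasurableSet (C1 ∪ C2) := hC1.union hC2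
  have hCb : Bornology.IsBounded (C1 ∪ C2) := hC1b.union hC2b
  refine (markov hε (hB.union hCm) (hb.union hCb) hCm hCb hF hm h1 h).trans
    (measure_mono fun ω hω => ?_)
  have hω' : a ≤ Rs ε (C1 ∪ C2) F (cfg ε ω) := hω
  have hfin : (cfg ε ω ∩ ovr B).Finite := cfg_finite hε hb ω
  have hdB : Disjoint B (C1 ∪ C2) := disjoint_union_right.2 ⟨hd1, hd2⟩
  have l0 : LocalOn B (Rs ε (C1 ∪ C2) F) := by
    refine LocalOn.mono ?_ (Rs_local hε hCm hCb hF)
    rintro z ⟨hz | hz, hz'⟩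
    · exact hz
    · exact absurd hz hz'
  have l1 : LocalOn B (Rs ε C1 F1) := by
    refine LocalOn.mono ?_ (Rs_local hε hC1 hC1b hF1)
    rintro z ⟨hz | hz, hz'⟩
    · exact hz
    · exact absurd hz hz'
  have l2 : LocalOn B (Rs ε C2 F2) := by
    refine LocalOn.mono ?_ (Rs_local hε hC2 hC2b hF2)
    rintro z ⟨hz | hz, hz'⟩
    · exact hz
    · exact absurd hz hz'
  have e0 : Rs ε (C1 ∪ C2) F (cfg ε ω) = Rs ε (C1 ∪ C2) F (cfg ε ω ∩ ovr B) := l0 _
  have e1 : Rs ε C1 F1 (cfg ε ω) = Rs ε C1 F1 (cfg ε ω ∩ ovr B) := l1 _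
  have e2 : Rs ε C2 F2 (cfg ε ω) = Rs ε C2 F2 (cfg ε ω ∩ ovr B) := l2 _
  show a ≤ Rs ε C1 F1 (cfg ε ω) ∧ a ≤ Rs ε C2 F2 (cfg ε ω)
  rw [e1, e2]
  rw [e0] at hω'
  constructor
  · rw [← Rs_drop hε hC1b hC2 hC2b hd hF1 (disjoint_union_left.2 ⟨hd2, hd⟩) hm1 hfin]
    exact hω'.trans (Rs_mono hFF1 _)
  · rw [← Rs_drop hε hC2b hC1 hC1b hd.symm hF2 (disjoint_union_left.2 ⟨hd1, hd.symm⟩) hm2 hfin,
      union_comm]
    exact hω'.trans (Rs_mono hFF2 _)

/-! ## events -/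

lemma cavE_pr (E : Cf → Prop) (T : Finset ℂ) :
    cavE (fun X => if E X then 1 else 0) T = ENNReal.ofReal (pr T fun β => E (clr T β)) := by
  unfold cavE pr nb
  rw [Finset.sum_ite, Finset.sum_const_zero, add_zero, Finset.sum_const, nsmul_one,
    ENNReal.ofReal_div_of_pos (by positivity), ENNReal.ofReal_natCast,
    ENNReal.ofReal_pow (by norm_num), ENNReal.ofReal_ofNat, ← ENNReal.inv_pow, mul_comm,
    ← div_eq_mul_inv]
  rfl

/-- the quenched mean of an event -/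
theorem qn_pr (E : Cf → Prop) (S : Cf) (P : Set ℂ) :
    qn C (fun X => if E X then 1 else 0) S P =
      ENNReal.ofReal (pr (fs P) fun β => E ((S ∩ ovr Cᶜ) ∪ clr (fs P) β)) :=
  cavE_pr (fun X => E ((S ∩ ovr Cᶜ) ∪ X)) (fs P)

lemma clr_un {V T q β : Finset ℂ} (h : Disjoint V T) (hq : q ⊆ V) (hβ : β ⊆ T) :
    clr V q ∪ clr T β = clr (V ∪ T) (q ∪ β) := by
  ext p
  have h1 : p.1 ∈ V → p.1 ∉ T := fun h2 h3 => Finset.disjoint_left.1 h h2 h3
  have h2 : p.1 ∈ q → p.1 ∈ V := fun h => hq h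
  have h3 : p.1 ∈ β → p.1 ∈ T := fun h => hβ h
  simp only [clr, mem_union, mem_ofPred_eq, Finset.mem_union]
  tauto

lemma psn_clr (V β : Finset ℂ) : psn (clr V β) = V := by
  ext z
  simp only [psn, clr, mem_image, mem_ofPred_eq, Finset.mem_coe]
  constructor
  · rintro ⟨p, ⟨h, -⟩, rfl⟩; exact h
  · intro h
    exact ⟨(z, decide (z ∈ β)), ⟨h, by simp⟩, rfl⟩

lemma mem_clr {V β : Finset ℂ} {z : ℂ} {c : Bool} :
    (z, c) ∈ clr V β ↔ z ∈ V ∧ (c = true ↔ z ∈ β) := Iff.rfl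

lemma clr_finite (V β : Finset ℂ) : (clr V β).Finite := by
  refine ((V.finite_toSet).prod (Set.finite_univ (α := Bool))).subset ?_
  rintro ⟨z, c⟩ h
  exact ⟨h.1, mem_univ _⟩

lemma fs_coe (T : Finset ℂ) : fs (T : Set ℂ) = T := by
  unfold fs
  rw [dif_pos T.finite_toSet]
  simp

lemma mem_fs {P : Set ℂ} (h : P.Finite) {z : ℂ} : z ∈ fs P ↔ z ∈ P := by
  unfold fs
  rw [dif_pos h, Set.Finite.mem_toFinset]

/-! ## events `E (sites) (black sites)` -/

/-- sites -/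
def sx (X : Cf) : Finset ℂ := fs (psn X)

/-- black sites -/
def bk (X : Cf) : Finset ℂ := fs {z | (z, true) ∈ X}

lemma sx_clr (V β : Finset ℂ) : sx (clr V β) = V := by
  unfold sx
  rw [psn_clr, fs_coe]

lemma bk_clr {V β : Finset ℂ} (h : β ⊆ V) : bk (clr V β) = β := by
  unfold bk
  have e : {z | (z, true) ∈ clr V β} = (β : Set ℂ) := by
    ext z
    simp only [mem_ofPred_eq, mem_clr, true_iff, Finset.mem_coe]
    exact ⟨fun h => h.2, fun h' => ⟨h h', h'⟩⟩
  rw [e, fs_coe]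

/-- the event `E (sites) (black sites)` of the configuration in `D`, as a functional -/
def ev (D : Set ℂ) (E : Finset ℂ → Finset ℂ → Prop) (X : Cf) : ℝ≥0∞ :=
  if E (sx (X ∩ ovr D)) (bk (X ∩ ovr D)) then 1 else 0

lemma ev_le (D : Set ℂ) (E : Finset ℂ → Finset ℂ → Prop) (X : Cf) : ev D E X ≤ 1 := by
  unfold ev
  split_ifs <;> simp

lemma ev_local (D : Set ℂ) (E : Finset ℂ → Finset ℂ → Prop) : LocalOn D (ev D E) := by
  refine localOn_of fun S T h => ?_
  unfold ev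
  rw [h]

/-- **quenched mean of an event**: gate configuration `clr G q` in `B`, tube positions `P ⊆ C` -/
theorem qn_ev {E : Finset ℂ → Finset ℂ → Prop} {S : Cf} {G q : Finset ℂ}
    (hS : S ∩ ovr B = clr G q) (hq : q ⊆ G) (hB : Disjoint B C) {P : Set ℂ} (hP : P ⊆ C) :
    qn C (ev (B ∪ C) E) S P =
      ENNReal.ofReal (pr (fs P) fun τ => E (G ∪ fs P) (q ∪ τ)) := by
  unfold ev
  rw [qn_pr]
  have hd : Disjoint G (fs P) := by
    refine Finset.disjoint_left.2 fun x hx hx' => ?_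
    have h1 : (x, decide (x ∈ q)) ∈ S ∩ ovr B := by
      rw [hS, mem_clr]
      exact ⟨hx, by simp⟩
    exact Set.disjoint_left.1 hB h1.2 (hP (fs_sub hx'))
  congr 1
  refine Harx315.pr_congr fun τ hτ => ?_
  have e : ((S ∩ ovr Cᶜ) ∪ clr (fs P) τ) ∩ ovr (B ∪ C) = clr (G ∪ fs P) (q ∪ τ) := by
    rw [← clr_un hd hq hτ, ← hS]
    ext p
    have h1 : p.1 ∈ B → p.1 ∉ C := fun h h' => Set.disjoint_left.1 hB h h'
    have h2 : p ∈ clr (fs P) τ → p.1 ∈ C := fun h => hP (fs_sub h.1)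
    simp only [ovr, mem_inter_iff, mem_union, mem_ofPred_eq, mem_compl_iff]
    tauto
  rw [e, sx_clr, bk_clr (Finset.union_subset_union hq hτ)]

/-- one colour per position -/
def Sc (X : Cf) : Prop := ∀ z, (z, true) ∈ X → (z, false) ∉ X

lemma Sc.mono {X Y : Cf} (h : Sc X) (hY : Y ⊆ X) : Sc Y := fun z h1 h2 => h z (hY h1) (hY h2)

/-- a finite configuration with one colour per position -/
theorem eq_clr {X : Cf} (hX : X.Finite) (h : Sc X) : X = clr (sx X) (bk X) := by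
  have h1 : (psn X).Finite := hX.image _
  have h2 : {z | (z, true) ∈ X}.Finite := h1.subset fun z hz => ⟨(z, true), hz, rfl⟩
  ext ⟨z, c⟩
  rw [mem_clr, sx, bk, mem_fs h1, mem_fs h2]
  constructor
  · intro hz
    refine ⟨⟨(z, c), hz, rfl⟩, fun hc => hc ▸ hz, fun hz' => ?_⟩
    cases c with
    | true => rfl
    | false => exact absurd hz (h z hz')
  · rintro ⟨⟨⟨z', c'⟩, hz', rfl⟩, h4⟩
    cases c with
    | true => exact h4.1 rfl
    | false =>
      cases c' with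
      | false => exact hz'
      | true => exact absurd (h4.2 hz') (by simp)

lemma bk_sub {X : Cf} (hX : X.Finite) : bk X ⊆ sx X := by
  intro z hz
  have h1 : (psn X).Finite := hX.image _
  rw [sx, mem_fs h1]
  exact ⟨(z, true), fs_sub hz, rfl⟩

end Crest.Agent.R143.Fairx653
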