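import Mathlib
import Crest.Agent.R143.Energy_395
import Crest.Agent.R143.Rsw_63

/-!
# Row 143 (S0194), leaves T1, T2 for networks on Delaunay triangulations (helper395)

* `LV N a b` : the edge `{a, b}` is live: not killed, and not a hull edge which is not a mark.
* `Sides N inn arc` : the description of the boundary (leaf P2): inner vertices have a complete ring,
  the other vertices belong to one of the three arcs, the values of `F` at the edges of a vertex of
  the arc `i` are on the side `[om ^ i, om ^ (i + 1)]` of the big triangle.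
* `til_of` : `Til` (file `Energy_395`) for an `HNet` with `RelAt`, `E3`, `Sides`.
* `dis_of` : **T1**: `Dis U (hcen N) N.Q`.
* `energy_net` : **T2**: `∑ t ∈ U, ‖N.Q t‖ ^ 2 ≤ 12`.
-/

set_option autoImplicit false

noncomputable section

namespace Crest.Agent.R143.Tilingx395

open Set MeasureTheory
open scoped Classical
open Crest.Agent.R143.B0x346 Crest.Agent.R143.Oscx63 Crest.Agent.R143.Rswx63
open Crest.Agent.R143.Energyx395

/-! ### the interior of a triangle -/

theorem cr_affine (p q w : ℂ) : cr (p - w) (q - w) = cr p q + cr (q - p) w := by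
  unfold cr
  simp only [Complex.sub_re, Complex.sub_im]
  ring

theorem int_hull {p q z w : ℂ} (hpq : p ≠ q) (hz : 0 ≤ cr (p - z) (q - z))
    (hw : w ∈ interior (convexHull ℝ {p, q, z})) : 0 < cr (p - w) (q - w) := by
  have hconv : Convex ℝ {x : ℂ | 0 ≤ cr (p - x) (q - x)} := by
    intro x hx y hy a b ha hb hab
    have hx' : 0 ≤ cr (p - x) (q - x) := hx
    have hy' : 0 ≤ cr (p - y) (q - y) := hy
    show 0 ≤ cr (p - (a • x + b • y)) (q - (a • x + b • y))
    have e : cr (p - (a • x + b • y)) (q - (a • x + b • y)) =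
        a * cr (p - x) (q - x) + b * cr (p - y) (q - y) := by
      rw [cr_affine, cr_affine, cr_affine]
      have hb' : b = 1 - a := by linarith
      subst hb'
      unfold cr
      simp only [Complex.add_re, Complex.add_im, Complex.real_smul, Complex.mul_re,
        Complex.mul_im, Complex.ofReal_re, Complex.ofReal_im, Complex.sub_re, Complex.sub_im]
      ring
    rw [e]
    positivity
  have hsub : convexHull ℝ {p, q, z} ⊆ {x : ℂ | 0 ≤ cr (p - x) (q - x)} := by
    apply convexHull_min _ hconv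
    rintro x (rfl | rfl | rfl)
    · simp [cr]
    · simp [cr]
    · exact hz
  rw [mem_interior_iff_mem_nhds, Metric.mem_nhds_iff] at hw
  obtain ⟨r, hr, hb⟩ := hw
  by_contra hc
  push Not at hc
  set d : ℂ := -(Complex.I * (q - p)) with hd
  have hdn : 0 < ‖d‖ := by
    rw [hd, norm_neg, norm_mul, Complex.norm_I, one_mul, norm_pos_iff]
    exact sub_ne_zero.mpr (Ne.symm hpq)
  set s : ℝ := r / (2 * ‖d‖) with hs
  have hs0 : 0 < s := by positivity
  have hmem : w + (s : ℂ) * d ∈ Metric.ball w r := by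
    rw [Metric.mem_ball, dist_eq_norm, add_sub_cancel_left, norm_mul, Complex.norm_real,
      Real.norm_of_nonneg hs0.le, hs]
    have : r / (2 * ‖d‖) * ‖d‖ = r / 2 := by field_simp
    rw [this]; linarith
  have h1 : 0 ≤ cr (p - (w + (s : ℂ) * d)) (q - (w + (s : ℂ) * d)) := hsub (hb hmem)
  have h2 : cr (p - (w + (s : ℂ) * d)) (q - (w + (s : ℂ) * d)) =
      cr (p - w) (q - w) - s * Complex.normSq (q - p) := by
    rw [hd]
    unfold cr
    simp only [Complex.add_re, Complex.add_im, Complex.mul_re, Complex.mul_im, Complex.neg_re,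
      Complex.neg_im, Complex.ofReal_re, Complex.ofReal_im, Complex.sub_re, Complex.sub_im,
      Complex.I_re, Complex.I_im, Complex.normSq_apply]
    ring
  have h3 : 0 < Complex.normSq (q - p) :=
    Complex.normSq_pos.mpr (sub_ne_zero.mpr (Ne.symm hpq))
  have h4 : 0 < s * Complex.normSq (q - p) := mul_pos hs0 h3
  linarith

theorem om_ne_one : om ≠ 1 := by
  intro h
  have h2 := om_im_pos
  rw [h] at h2
  simp at h2

theorem cr_side {x y z q : ℂ} (h1 : y - x = (om - 1) * q) (h2 : z - x = (om ^ 2 - 1) * q) :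
    0 ≤ cr (x - z) (y - z) := by
  have e : cr (x - z) (y - z) = cr (y - x) (z - x) := by
    unfold cr
    simp only [Complex.sub_re, Complex.sub_im]
    ring
  rw [e, h1, h2, cr_om]
  have := om_im_pos
  have := Complex.normSq_nonneg q
  positivity

/-- the interior of `tri h Q` is the open triangle -/
theorem int_tri {h q w : ℂ} (hw : w ∈ interior (tri h q)) :
    0 < cr (h + q - w) (h + om * q - w) ∧ 0 < cr (h + om * q - w) (h + om ^ 2 * q - w) ∧
      0 < cr (h + om ^ 2 * q - w) (h + q - w) := by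
  have hq : q ≠ 0 := by
    rintro rfl
    rw [tri_zero, interior_singleton] at hw
    exact hw
  have h3 := om_pow_three
  have hne : ∀ c : ℂ, c ≠ 0 → h + c ≠ h + om * c := by
    intro c hc he
    have h4 : (om - 1) * c = 0 := by linear_combination -he
    rcases mul_eq_zero.mp h4 with h5 | h5
    · exact om_ne_one (by linear_combination h5)
    · exact hc h5
  have hom : om ≠ 0 := by
    intro h0
    have := norm_om
    rw [h0] at this
    simp at this
  unfold tri at hw
  refine ⟨?_, ?_, ?_⟩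
  · exact int_hull (hne q hq) (cr_side (q := q) (by ring) (by ring)) hw
  · have e : ({h + q, h + om * q, h + om ^ 2 * q} : Set ℂ) =
        {h + om * q, h + om ^ 2 * q, h + q} := by
      ext x; simp only [Set.mem_insert_iff, Set.mem_singleton_iff]; tauto
    rw [e] at hw
    apply int_hull _ (cr_side (q := om * q) (by ring) _) hw
    · have := hne (om * q) (mul_ne_zero hom hq)
      intro he
      apply this
      rw [he]; ring
    · linear_combination (-q) * h3
  · have e : ({h + q, h + om * q, h + om ^ 2 * q} : Set ℂ) =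
        {h + om ^ 2 * q, h + q, h + om * q} := by
      ext x; simp only [Set.mem_insert_iff, Set.mem_singleton_iff]; tauto
    rw [e] at hw
    apply int_hull _ (cr_side (q := om ^ 2 * q) _ _) hw
    · have := hne (om ^ 2 * q) (mul_ne_zero (pow_ne_zero 2 hom) hq)
      intro he
      apply this
      rw [he]
      linear_combination (-q) * h3
    · linear_combination (-q) * h3
    · linear_combination (-om * q) * h3

/-! ### networks -/

/-- live edge: not killed, and not a hull edge without mark -/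
def LV (N : Net ℂ) (a b : ℂ) : Prop :=
  (a, b) ∉ N.kl ∧ (((∃ c, (a, b, c) ∈ N.T) ∧ ∃ c, (b, a, c) ∈ N.T) ∨
    (a, b) ∈ N.exS ∨ (b, a) ∈ N.exS)

/-- the description of the boundary (leaf P2) -/
structure Sides (N : Net ℂ) (inn : ℂ → Prop) (arc : ℂ → ZMod 3) : Prop where
  /-- inner vertices: complete ring of live edges -/
  ring : ∀ v, inn v → ∃ (d : ℕ) (u : ℤ → ℂ), Ring N.toTrg v d u ∧ (∀ i, (v, u i) ∉ N.kl) ∧
    ∀ x y, (v, x, y) ∈ N.T → ∃ i : ℤ, x = u i ∧ y = u (i + 1)
  /-- an edge which is not live joins two vertices of the same arc -/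
  dead : ∀ a b c, (a, b, c) ∈ N.T → ¬ LV N a b → ¬ inn a ∧ ¬ inn b ∧ arc a = arc b
  /-- values on the sides -/
  side : ∀ a b, ¬ inn a → LV N a b → ((∃ c, (a, b, c) ∈ N.T) ∨ ∃ c, (b, a, c) ∈ N.T) →
    N.F a b ∈ segment ℝ (omz (arc a)) (omz (arc a + 1))
  m1 : ∀ k, ¬ inn (N.ex k).1 ∧ arc (N.ex k).1 = k - 1
  m2 : ∀ k, ¬ inn (N.ex k).2 ∧ arc (N.ex k).2 = k

theorem LV.symm {N : Net ℂ} {a b : ℂ} (h : LV N a b) : LV N b a := by
  refine ⟨fun h1 => h.1 (N.klsym b a h1), ?_⟩
  rcases h.2 with ⟨h1, h2⟩ | h1 | h1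
  · exact Or.inl ⟨h2, h1⟩
  · exact Or.inr (Or.inr h1)
  · exact Or.inr (Or.inl h1)

theorem ex_inj {S : Finset ℂ} {N : Net ℂ} (hN : HNet S N) : Function.Injective N.ex := by
  have h := hN.ccw
  have key : ∀ i j : ZMod 3, i ≠ j → N.ex i ≠ N.ex j := by
    have h01 : N.ex 0 ≠ N.ex 1 := by
      intro he; rw [he] at h; simp [cr] at h
    have h02 : N.ex 0 ≠ N.ex 2 := by
      intro he; rw [he] at h; simp [cr] at h
    have h12 : N.ex 1 ≠ N.ex 2 := by
      intro he; rw [he] at h
      have : cr (mid (N.ex 2) - mid (N.ex 0)) (mid (N.ex 2) - mid (N.ex 0)) = 0 := by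
        unfold cr; ring
      rw [this] at h
      exact lt_irrefl _ h
    intro i j hij
    fin_cases i <;> fin_cases j
    · exact absurd rfl hij
    · exact h01
    · exact h02
    · exact h01.symm
    · exact absurd rfl hij
    · exact h12
    · exact h02.symm
    · exact h12.symm
    · exact absurd rfl hij
  intro i j hij
  by_contra hne
  exact key i j hne hij

theorem ex_hull {S : Finset ℂ} {N : Net ℂ} (hN : HNet S N) (k : ZMod 3) (x : ℂ) :
    ((N.ex k).2, (N.ex k).1, x) ∉ N.T := by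
  rw [hN.tri]
  exact (hN.hex k).2 x

theorem F_ex {S : Finset ℂ} {N : Net ℂ} (hN : HNet S N) (k : ZMod 3) :
    N.F (N.ex k).1 (N.ex k).2 = omz k := by
  have h : ∃ j, N.ex j = ((N.ex k).1, (N.ex k).2) ∨ N.ex j = ((N.ex k).2, (N.ex k).1) :=
    ⟨k, Or.inl rfl⟩
  unfold Net.F
  rw [dif_pos h]
  have h1 := h.choose_spec
  rcases h1 with h1 | h1
  · congr 1
    exact ex_inj hN h1
  · exfalso
    obtain ⟨c, hc⟩ := (hN.hex h.choose).1
    rw [h1] at hc
    exact (hN.hex k).2 c hc

/-- the amplitude of a triangle with a hull side without mark vanishes -/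
theorem Q_hull {N : Net ℂ} {a b c : ℂ} (h : ∀ x, (b, a, x) ∉ N.T) (h1 : (a, b) ∉ N.exS) :
    N.Q (a, b, c) = 0 := by
  have hA : ∀ k, N.triA (a, b, c) k = 0 := by
    intro k
    unfold Net.triA
    have h2 : (N.tj (a, b, c)).filter (N.Tri3 (a, b, c) k) = ∅ := by
      apply Finset.filter_eq_empty_iff.mpr
      intro J hJ hT
      have hJ' : IsJoin N.toTrg N.kl (rots (a, b, c)) N.exS J := by
        have := hJ
        unfold Net.tj joins at this
        exact (Finset.mem_filter.mp this).2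
      exact (hJ'.bdr a b h h1).1 hT.1
    rw [h2]; simp
  unfold Net.Q
  simp [hA]

theorem Q_zero {S : Finset ℂ} {N : Net ℂ} (hN : HNet S N) {a b c : ℂ} (ht : (a, b, c) ∈ N.T)
    (h : ¬ LV N a b) : N.Q (a, b, c) = 0 := by
  by_cases hk : (a, b) ∈ N.kl
  · exact Q_kill hN hk
  · unfold LV at h
    push Not at h
    obtain ⟨h1, h2, -⟩ := h hk
    exact Q_hull (h1 ⟨c, ht⟩) h2

theorem Q_zero' {S : Finset ℂ} {N : Net ℂ} (hN : HNet S N) {t : ℂ × ℂ × ℂ} (ht : t ∈ N.T)
    (h : ¬ LiveT (LV N) t) : N.Q t = 0 := by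
  obtain ⟨a, b, c⟩ := t
  have r1 := N.rot ht
  have r2 := N.rot r1
  unfold LiveT at h
  simp only [not_and_or] at h
  rcases h with h | h | h
  · exact Q_zero hN ht h
  · rw [← norm_eq_zero, ← norm_Q_rot N a b c, Q_zero hN r1 h, norm_zero]
  · rw [← norm_eq_zero, ← norm_Q_rot N a b c, ← norm_Q_rot N b c a, Q_zero hN r2 h, norm_zero]

theorem til_of {S : Finset ℂ} {N : Net ℂ} (hN : HNet S N) (hR : ∀ t ∈ delT S, RelAt N t)
    (hE : E3) {inn : ℂ → Prop} {arc : ℂ → ZMod 3} (hB : Sides N inn arc) :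
    Til N.toTrg (LV N) N.F N.Q N.ex inn arc where
  lvs a b h := h.symm
  Fs := F_comm N
  tri3 a b c ht h1 h2 h3 := by
    rw [hN.tri] at ht
    exact (hR _ ht).j1 h1.1 h2.1 h3.1
  tri2 a b c ht h1 h2 h3 := by
    have ht' := ht
    rw [hN.tri] at ht'
    by_cases hk : (a, b) ∈ N.kl
    · exact (hR _ ht').j2 a b c (by simp [rots]) hk h2.1 h3.1
    · obtain ⟨h, -, e2, e3⟩ := (hR _ ht').j1 hk h2.1 h3.1
      simp only at e2 e3
      rw [e2, e3, Q_zero hN ht h1]
      ring
  inner v hv := by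
    obtain ⟨d, u, hr, hl, hc⟩ := hB.ring v hv
    refine ⟨d, u, hr, ?_, hc, ?_⟩
    · intro i
      refine ⟨hl i, Or.inl ⟨⟨_, hr.mem i⟩, ?_⟩⟩
      have h1 := hr.mem (i - 1)
      rw [sub_add_cancel] at h1
      exact ⟨_, N.rot (N.rot h1)⟩
    · obtain ⟨al, h1, h2, h3⟩ := hE S N hN v d u hr hl
      exact ⟨al, fun i => (h1 i).1, h2, h3⟩
  dead a b c ht h _ := hB.dead a b c ht h
  side := hB.side
  hull a b c _ h2 h3 := by
    rcases h3.2 with ⟨-, x, hx⟩ | ⟨k, hk⟩ | ⟨k, hk⟩
    · exact absurd hx (h2 x)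
    · exact ⟨k, hk⟩
    · exfalso
      obtain ⟨x, hx⟩ := (hN.hex k).1
      rw [hk, ← hN.tri] at hx
      exact h2 x hx
  exI := ex_inj hN
  exT k := by
    obtain ⟨x, hx⟩ := (hN.hex k).1
    rw [← hN.tri] at hx
    exact ⟨x, hx⟩
  exH := ex_hull hN
  exl k := ⟨hN.live k, Or.inr (Or.inl ⟨k, rfl⟩)⟩
  ex1 := hB.m1
  ex2 := hB.m2
  exF := F_ex hN

section net

variable {S : Finset ℂ} {N : Net ℂ} {inn : ℂ → Prop} {arc : ℂ → ZMod 3}

theorem hcen_live {t : ℂ × ℂ × ℂ} (h : LiveT (LV N) t) :
    hcen N t = (N.F t.1 t.2.1 + N.F t.2.1 t.2.2 + N.F t.2.2 t.1) / 3 := by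
  unfold hcen
  rw [if_neg h.1.1, if_neg h.2.1.1, if_neg h.2.2.1]

theorem hcen_rel {t : ℂ × ℂ × ℂ} (hR : RelAt N t) (h : LiveT (LV N) t) :
    N.F t.1 t.2.1 = hcen N t + N.Q t ∧ N.F t.2.1 t.2.2 = hcen N t + om * N.Q t ∧
      N.F t.2.2 t.1 = hcen N t + om ^ 2 * N.Q t := by
  obtain ⟨g, e1, e2, e3⟩ := hR.j1 h.1.1 h.2.1.1 h.2.2.1
  have hc : hcen N t = g := by
    rw [hcen_live h, e1, e2, e3]
    linear_combination (N.Q t / 3) * om_sq
  rw [hc]
  exact ⟨e1, e2, e3⟩

/-- a point of the interior of the drawn triangle -/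
theorem ins_of_int {t : ℂ × ℂ × ℂ} (hR : RelAt N t) (h : LiveT (LV N) t) {w : ℂ}
    (hw : w ∈ interior (tri (hcen N t) (N.Q t))) : InsT N.F w t := by
  obtain ⟨e1, e2, e3⟩ := hcen_rel hR h
  obtain ⟨h1, h2, h3⟩ := int_tri hw
  unfold InsT
  rw [e1, e2, e3]
  exact ⟨h1, h2, h3⟩

/-- **T1** -/
theorem dis_of (hN : HNet S N) (hR : ∀ t ∈ delT S, RelAt N t) (hE : E3)
    (hB : Sides N inn arc) {U : Finset (ℂ × ℂ × ℂ)} (hU : U ⊆ delT S)
    (hrep : ∀ s ∈ U, ∀ t ∈ U, s ≠ t → t ∉ rots s) : Dis U (hcen N) N.Q := by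
  intro s hs t ht hst
  have H := til_of hN hR hE hB
  have hs' : s ∈ N.T := by rw [hN.tri]; exact hU hs
  have ht' : t ∈ N.T := by rw [hN.tri]; exact hU ht
  rw [Set.disjoint_left]
  intro w hw hw'
  by_cases h1 : LiveT (LV N) s
  · by_cases h2 : LiveT (LV N) t
    · exact H.disj_ins hs' ht' h1 h2 (hrep s hs t ht hst) w
        ⟨ins_of_int (hR s (hU hs)) h1 hw, ins_of_int (hR t (hU ht)) h2 hw'⟩
    · rw [Q_zero' hN ht' h2, tri_zero, interior_singleton] at hw'
      exact hw'
  · rw [Q_zero' hN hs' h1, tri_zero, interior_singleton] at hw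
    exact hw

/-- a drawn triangle whose inner points are in the unit disc -/
theorem tri_sub_gen {t : ℂ × ℂ × ℂ} (hR : RelAt N t) (hl : LiveT (LV N) t)
    (hq : N.Q t ≠ 0) (hyp0 : ∀ w : ℂ, InsT N.F w t → ‖w‖ ≤ 1) :
    tri (hcen N t) (N.Q t) ⊆ Metric.closedBall 0 1 := by
  obtain ⟨e1, e2, e3⟩ := hcen_rel hR hl
  have him := om_im_pos
  have hre := om_re
  have h3 := om_pow_three
  have hsq := om_sq
  -- the point `h + s c`, `c` one of the three vertices
  have key : ∀ c : ℂ, Complex.normSq c ≠ 0 → (∀ w : ℂ, 0 < cr (hcen N t + c - w)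
      (hcen N t + om * c - w) → 0 < cr (hcen N t + om * c - w) (hcen N t + om ^ 2 * c - w) →
      0 < cr (hcen N t + om ^ 2 * c - w) (hcen N t + c - w) → ‖w‖ ≤ 1) →
      ‖hcen N t + c‖ ≤ 1 := by
    intro c hc hyp
    have hc0 : 0 < Complex.normSq c := lt_of_le_of_ne (Complex.normSq_nonneg c) (Ne.symm hc)
    have h4 : ∀ s : ℝ, 0 ≤ s → s < 1 → ‖hcen N t + (s : ℂ) * c‖ ≤ 1 := by
      intro s hs0 hs1
      apply hyp
      · have e : cr (hcen N t + c - (hcen N t + (s : ℂ) * c))
            (hcen N t + om * c - (hcen N t + (s : ℂ) * c)) =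
            (1 - s) * om.im * Complex.normSq c := by
          unfold cr
          simp only [Complex.add_re, Complex.add_im, Complex.mul_re, Complex.mul_im,
            Complex.sub_re, Complex.sub_im, Complex.ofReal_re, Complex.ofReal_im,
            Complex.normSq_apply]
          ring
        rw [e]
        have : 0 < 1 - s := by linarith
        positivity
      · have e : cr (hcen N t + om * c - (hcen N t + (s : ℂ) * c))
            (hcen N t + om ^ 2 * c - (hcen N t + (s : ℂ) * c)) =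
            (1 + 2 * s) * om.im * Complex.normSq c := by
          rw [hsq]
          unfold cr
          simp only [Complex.add_re, Complex.add_im, Complex.mul_re, Complex.mul_im,
            Complex.sub_re, Complex.sub_im, Complex.ofReal_re, Complex.ofReal_im,
            Complex.neg_re, Complex.neg_im, Complex.one_re, Complex.one_im,
            Complex.normSq_apply, hre]
          ring
        rw [e]
        positivity
      · have e : cr (hcen N t + om ^ 2 * c - (hcen N t + (s : ℂ) * c))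
            (hcen N t + c - (hcen N t + (s : ℂ) * c)) =
            (1 - s) * om.im * Complex.normSq c := by
          rw [hsq]
          unfold cr
          simp only [Complex.add_re, Complex.add_im, Complex.mul_re, Complex.mul_im,
            Complex.sub_re, Complex.sub_im, Complex.ofReal_re, Complex.ofReal_im,
            Complex.neg_re, Complex.neg_im, Complex.one_re, Complex.one_im,
            Complex.normSq_apply, hre]
          ring
        rw [e]
        have : 0 < 1 - s := by linarith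
        positivity
    have h5 : Filter.Tendsto (fun s : ℝ => ‖hcen N t + (s : ℂ) * c‖) (nhdsWithin 1 (Set.Iio 1))
        (nhds ‖hcen N t + ((1 : ℝ) : ℂ) * c‖) := by
      apply Filter.Tendsto.mono_left _ nhdsWithin_le_nhds
      exact (Continuous.tendsto (by fun_prop) 1)
    have h6 := le_of_tendsto h5 (by
      filter_upwards [Ioo_mem_nhdsLT (show (0 : ℝ) < 1 by norm_num)] with s hs
      exact h4 s hs.1.le hs.2)
    simpa using h6
  have hns : ∀ c : ℂ, c ≠ 0 → Complex.normSq c ≠ 0 := fun c hc => by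
    simpa using hc
  have hom : om ≠ 0 := by
    intro h0
    have := norm_om
    rw [h0] at this
    simp at this
  unfold InsT at hyp0
  rw [e1, e2, e3] at hyp0
  unfold tri
  apply convexHull_min _ (convex_closedBall 0 1)
  have m1 : om * (om ^ 2 * N.Q t) = N.Q t := by
    rw [← mul_assoc, ← pow_succ', h3, one_mul]
  have m2 : om ^ 2 * (om ^ 2 * N.Q t) = om * N.Q t := by
    linear_combination (om * N.Q t) * h3
  have m3 : om ^ 2 * (om * N.Q t) = N.Q t := by
    linear_combination (N.Q t) * h3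
  have m4 : om * (om * N.Q t) = om ^ 2 * N.Q t := by ring
  rintro x (rfl | rfl | rfl)
  · rw [mem_closedBall_zero_iff]
    exact key _ (hns _ hq) fun w h1 h2 h3 => hyp0 w ⟨h1, h2, h3⟩
  · rw [mem_closedBall_zero_iff]
    apply key _ (hns _ (mul_ne_zero hom hq))
    intro w h1 h2 h3
    rw [m4] at h1 h2
    rw [m3] at h2 h3
    exact hyp0 w ⟨h3, h1, h2⟩
  · rw [mem_closedBall_zero_iff]
    apply key _ (hns _ (mul_ne_zero (pow_ne_zero 2 hom) hq))
    intro w h1 h2 h3
    rw [m1] at h1 h2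
    rw [m2] at h2 h3
    exact hyp0 w ⟨h2, h3, h1⟩

/-- **T1**, the drawn triangles are in the unit disc -/
theorem tri_sub (hN : HNet S N) (hR : ∀ t ∈ delT S, RelAt N t) (hE : E3)
    (hB : Sides N inn arc) {t : ℂ × ℂ × ℂ} (ht : t ∈ delT S) (hl : LiveT (LV N) t)
    (hq : N.Q t ≠ 0) : tri (hcen N t) (N.Q t) ⊆ Metric.closedBall 0 1 := by
  have H := til_of hN hR hE hB
  have ht' : t ∈ N.T := by rw [hN.tri]; exact ht
  exact tri_sub_gen (hR t ht) hl hq fun w hw => (H.ins_sub ht' hl hw).norm_le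

/-- **T2**: total energy (`U` arbitrary, every triangle may be counted three times) -/
theorem energy_net (hN : HNet S N) (hR : ∀ t ∈ delT S, RelAt N t) (hE : E3)
    (hB : Sides N inn arc) {U : Finset (ℂ × ℂ × ℂ)} (hU : U ⊆ delT S) :
    ∑ t ∈ U, ‖N.Q t‖ ^ 2 ≤ 12 := by
  apply (til_of hN hR hE hB).energy_le U
  · intro t ht
    rw [hN.tri]
    exact hU ht
  · intro t ht
    by_cases h : LiveT (LV N) t
    · exact Or.inl h
    · exact Or.inr (Q_zero' hN (by rw [hN.tri]; exact hU ht) h)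

/-- **T2** for representatives -/
theorem energy_rep (hN : HNet S N) (hR : ∀ t ∈ delT S, RelAt N t) (hE : E3)
    (hB : Sides N inn arc) {U : Finset (ℂ × ℂ × ℂ)} (hU : U ⊆ delT S)
    (hrep : ∀ s ∈ U, ∀ t ∈ U, s ≠ t → t ∉ rots s) :
    ∑ t ∈ U, ‖N.Q t‖ ^ 2 ≤ 4 := by
  have h1 : ∑ t ∈ U, ‖N.Q t‖ ^ 2 = ∑ t ∈ U.filter (fun t => N.Q t ≠ 0), ‖N.Q t‖ ^ 2 := by
    rw [Finset.sum_filter]
    apply Finset.sum_congr rfl
    intro t _
    by_cases h : N.Q t = 0 <;> simp [h]
  rw [h1]
  have h2 := energy_ball (U := U.filter fun t => N.Q t ≠ 0) (h := hcen N) (Q := N.Q)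
    (dis_of hN hR hE hB ((Finset.filter_subset _ _).trans hU) (fun s hs t ht hst =>
      hrep s (Finset.filter_subset _ _ hs) t (Finset.filter_subset _ _ ht) hst)) 0 zero_le_one
    (by
      intro t ht
      rw [Finset.mem_filter] at ht
      have ht' := hU ht.1
      apply tri_sub hN hR hE hB ht' _ ht.2
      by_contra h
      exact ht.2 (Q_zero' hN (by rw [hN.tri]; exact ht') h))
  linarith

end net

end Crest.Agent.R143.Tilingx395
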