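import Crest.Agent.R143.Fam_930
import Crest.Agent.R143.Tiling_395

/-!
# Row 143 (S0194), leaf FAM, part 2: one oriented representative per triangle (helper930)
-/

set_option autoImplicit false

noncomputable section

namespace Crest.Agent.R143.FamRx930

open Set MeasureTheory
open scoped Classical
open Crest.Agent.R143.B0x346 Crest.Agent.R143.Oscx63 Crest.Agent.R143.DelGx806
open Crest.Agent.R143.Circx63 Crest.Agent.R143.Scalx63 Crest.Agent.R143.Rswx63
open Crest.Agent.R143.Famx930 Crest.Agent.R143.Tilingx395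

theorem rots_ne (t : ℂ × ℂ × ℂ) : (rots t).Nonempty := ⟨t, mem_rots_self t⟩

/-- a chosen representative -/
def rp (t : ℂ × ℂ × ℂ) : ℂ × ℂ × ℂ := (rots_ne t).some

theorem rp_mem (t : ℂ × ℂ × ℂ) : rp t ∈ rots t := Set.Nonempty.some_mem _

theorem rp_eq {t t' : ℂ × ℂ × ℂ} (h : t' ∈ rots t) : rp t' = rp t := by
  have key : ∀ (A B : Set (ℂ × ℂ × ℂ)) (_ : A = B) (hA : A.Nonempty) (hB : B.Nonempty),
      hA.some = hB.some := by
    intro A B hAB hA hB
    subst hAB
    rfl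
  exact key _ _ (rots_eq h) _ _

/-- **one oriented representative per triangle** -/
theorem exists_rep {S : Finset ℂ} (hS : GP (S : Set ℂ)) :
    ∃ U ⊆ delT S, Rep S U ∧ ∀ s ∈ U, ∀ t ∈ U, s ≠ t → t ∉ rots s := by
  refine ⟨(delT S).image rp, ?_, ?_, ?_⟩
  · intro t ht
    obtain ⟨t', ht', rfl⟩ := Finset.mem_image.1 ht
    exact delT_rots hS (rp_mem t') ht'
  · intro t ht
    exact ⟨rp t, Finset.mem_image_of_mem _ ht, rp_mem t⟩
  · intro s hs t ht hst hcon
    obtain ⟨s', _, rfl⟩ := Finset.mem_image.1 hs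
    obtain ⟨t', _, rfl⟩ := Finset.mem_image.1 ht
    apply hst
    have h1 : rp (rp t') = rp t' := rp_eq (rp_mem t')
    have h2 : rp (rp s') = rp s' := rp_eq (rp_mem s')
    have h3 : rp (rp t') = rp (rp s') := rp_eq hcon
    rw [← h1, ← h2, h3]

/-- **T1 with representatives** -/
theorem exists_dis {S : Finset ℂ} {N : Net ℂ} {inn : ℂ → Prop} {arc : ℂ → ZMod 3}
    (hN : HNet S N) (hR : ∀ t ∈ delT S, RelAt N t) (hE : E3) (hB : Sides N inn arc) :
    ∃ U ⊆ delT S, Rep S U ∧ Dis U (hcen N) N.Q := by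
  obtain ⟨U, h1, h2, h3⟩ := exists_rep hN.gp
  exact ⟨U, h1, h2, dis_of hN hR hE hB h1 h3⟩

end Crest.Agent.R143.FamRx930
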