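import Crest.Agent.R143.Win2_355

/-!
# Row 143 (S0194), block H, glue of [A], part 3 (helper355)

* `Gc.le` : the number of steps of a chord is at most the number of darts
* `mem_left` : the cells of a gap of a chord are left cells of the chord
* `farC_of_pos` : end cells at a distance are `FarC` for a ring of tiles
-/

set_option autoImplicit false

noncomputable section

open scoped Classical

namespace Crest.Agent.R143.FarIx355

open Crest.Agent.R143.Frame1x395 Crest.Agent.R143.Frame2x395 Crest.Agent.R143.Frame3x395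
  Crest.Agent.R143.Frame8x395 Crest.Agent.R143.Frame9x395 Crest.Agent.R143.Frame11x395
  Crest.Agent.R143.NonXx592 Crest.Agent.R143.Coarsex166 Crest.Agent.R143.Budx432
  Crest.Agent.R143.Bud2x432 Crest.Agent.R143.RevCx389
  Crest.Agent.R143.Chordx355 Crest.Agent.R143.ChordCx357 Crest.Agent.R143.Chord2x355
  Crest.Agent.R143.H2x355 Crest.Agent.R143.Ox355 Crest.Agent.R143.Winx355

variable {D C C' : Type} {M : CMap D C} {x : D → ZMod 2} {π : C → C'} {o : C'}

/-- the period is at most the number of darts -/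
theorem lp_le_card [Fintype D] {p : D} {N : ℕ} (L : Lp M x p N) : N ≤ Fintype.card D := by
  have h1 : Function.Injective (fun i : Fin N => P M x p i.1) := by
    intro i j e
    rcases lt_trichotomy i.1 j.1 with h | h | h
    · exact absurd e (L.inj _ _ h j.2)
    · exact Fin.ext h
    · exact absurd e.symm (L.inj _ _ h i.2)
  have h2 := Fintype.card_le_of_injective _ h1
  rwa [Fintype.card_fin] at h2

/-- the number of steps of a chord -/
theorem Gc.le [Fintype D] (hx : IsC M ∅ x) {k : D} {m : ℕ} (H : Gc M π o x k m) :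
    m ≤ Fintype.card D := by
  obtain ⟨N, L⟩ := exists_lp hx H.gp.2
  refine le_trans ?_ (lp_le_card L)
  by_contra hc
  apply H.int N L.pos (by omega)
  rw [L.per]
  exact H.c0

/-- the pairs of all chords -/
def allI (D : Type) [Fintype D] : Finset (D × ℕ) := Finset.univ ×ˢ Finset.range (Fintype.card D + 1)

theorem Gc.mem [Fintype D] (hx : IsC M ∅ x) {k : D} {m : ℕ} (H : Gc M π o x k m) :
    (k, m) ∈ allI D := by
  unfold allI
  rw [Finset.mem_product]
  exact ⟨Finset.mem_univ _, Finset.mem_range.2 (Nat.lt_succ_of_le (Gc.le hx H))⟩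

/-- the chord block is unique -/
theorem Gc.uniq {k : D} {m m' : ℕ} (H : Gc M π o x k m) (H' : Gc M π o x k m') : m = m' := by
  rcases lt_trichotomy m m' with h | h | h
  · exact absurd H.c1 (H'.int m H.pos h)
  · exact h
  · exact absurd H'.c1 (H.int m' H'.pos h)

/-- the cells of a gap of a chord are left cells of the chord -/
theorem mem_left [Fintype D] (hx : IsC M ∅ x) {e : D} (he : x e = 1) {m : ℕ}
    {g : D} (hg : g ∈ cset M (P M x e) 0 m) :
    ∃ u, u < m ∧ lc M x e u = M.cell (M.rho g) ∧ lc M x e (u + 1) = M.cell g ∧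
      M.cell (M.rho (P M x e u)) = M.cell (M.rho (M.rho g)) := by
  obtain ⟨s, -, h2, h3, h4, -⟩ := mem_cset.1 hg
  have hgp : Gp M x g := gp_of_out hx (P_occ hx he s) h3 (by rw [h4, P_succ])
  refine ⟨s, h2, ?_, ?_, ?_⟩
  · show M.cell (P M x e s) = _
    rw [← h3]
  · show M.cell (P M x e (s + 1)) = _
    rw [← h4, cell_out hx hgp]
  · rw [← h3]

/-- positions of the tiles -/
theorem walk_pos {W : ℕ → ℂ} {h0 : ℝ} (hW : ∀ k, ‖W (k + 1) - W k‖ ≤ h0) (s j : ℕ) :
    ‖W (s + j) - W s‖ ≤ j * h0 := by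
  induction j with
  | zero => simp
  | succ j ih =>
    have h1 : W (s + (j + 1)) - W s = (W (s + j + 1) - W (s + j)) + (W (s + j) - W s) := by
      rw [show s + (j + 1) = s + j + 1 by omega]; ring
    rw [h1]
    refine (norm_add_le _ _).trans ?_
    push_cast
    have := hW (s + j)
    linarith

/-- **far end cells** -/
theorem farC_of_pos {Reg : ℕ → Set C} {n h : ℕ} {W : ℕ → ℂ} {h0 r0 : ℝ} {pos : C → ℂ}
    (hW : ∀ k, ‖W (k + 1) - W k‖ ≤ h0) (hWn : ∀ k, W (k + n) = W k)
    (hR : ∀ k, ∀ c ∈ Reg k, ‖pos c - W k‖ ≤ r0) (h00 : 0 ≤ h0) {p q : C}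
    (hd : (2 * h + 9) * h0 + 2 * r0 < ‖pos p - pos q‖) : FarC Reg n h p q := by
  intro s t hp hq hst hts
  have h1 := hR s p hp
  have h2 := hR t q hq
  -- forward distance
  have f1 : ‖W t - W s‖ ≤ ((t - s : ℕ) : ℝ) * h0 := by
    have := walk_pos hW s (t - s)
    rwa [show s + (t - s) = t by omega] at this
  have f2 : ‖W s - W t‖ ≤ ((s + n - t : ℕ) : ℝ) * h0 := by
    have := walk_pos hW t (s + n - t)
    rwa [show t + (s + n - t) = s + n by omega, hWn] at this
  have tri : ‖pos p - pos q‖ ≤ 2 * r0 + ‖W t - W s‖ := by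
    have e : pos p - pos q = (pos p - W s) - (pos q - W t) - (W t - W s) := by ring
    rw [e]
    refine (norm_sub_le _ _).trans ?_
    have := norm_sub_le (pos p - W s) (pos q - W t)
    linarith
  have key : ∀ j : ℕ, ‖W t - W s‖ ≤ (j : ℝ) * h0 → 2 * h + 9 ≤ j := by
    intro j hj
    by_contra hc
    have hc' : (j : ℝ) ≤ 2 * h + 8 := by
      have : j ≤ 2 * h + 8 := by omega
      exact_mod_cast this
    have h3 : (j : ℝ) * h0 ≤ (2 * h + 8) * h0 := mul_le_mul_of_nonneg_right hc' h00
    nlinarith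
  constructor
  · exact key _ f1
  · have h3 := key (s + n - t) (by rw [norm_sub_rev]; exact f2)
    omega

end Crest.Agent.R143.FarIx355
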