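import Crest.Agent.R143.RevE_389
import Crest.Agent.R143.HGlue_136

/-!
# Row 143 (S0194), hedge block H, input [A] (helper389): the final sum

* `Phi` : `∑_{windows i} ∑_{(k, m)} ‖cv_i‖²` over the chords off the window `i` which are good and
  reach the core (first half of 355's `RW.sum_far`)
* **`sumA`** : `∑_b g b * (mean of Phi given the full exploration of b) ≤
  c⁻¹ * (windows) * (cores) * ∑_b ∑_{β ∈ Big b} ‖∑_β φ‖²`, `g` any weight `≤ 1`; ring data are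
  needed only where `g b ≠ 0`
-/

set_option autoImplicit false
set_option linter.unusedSectionVars false

noncomputable section

open scoped Classical

namespace Crest.Agent.R143.SumAx389

open Finset Crest.Agent.R143.Harx315 Crest.Agent.R143.Frame1x395 Crest.Agent.R143.Frame2x395
  Crest.Agent.R143.Frame3x395 Crest.Agent.R143.Frame8x395 Crest.Agent.R143.Frame9x395
  Crest.Agent.R143.Frame11x395 Crest.Agent.R143.NonXx592 Crest.Agent.R143.Chordx355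
  Crest.Agent.R143.Histx389 Crest.Agent.R143.RevAx389 Crest.Agent.R143.Tubex389
  Crest.Agent.R143.Chord2x355 Crest.Agent.R143.H2x355 Crest.Agent.R143.RevCx389
  Crest.Agent.R143.RingWx389 Crest.Agent.R143.RevEx389

open Crest.Agent.R143.Exitx707 (Nb nb_symm gap_cases)
open Crest.Agent.R143.HGluex136 (av sum_av)
open scoped ENNReal

variable {α D C ι : Type} {M : CMap D C} {G : ℕ → Rg D C} {Gf : Rg D C} {m₀ : ℕ} [Fintype D]

/-- sum over the windows and the good chords off the window -/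
def Phi (M : CMap D C) (G : ℕ → Rg D C) (m₀ : ℕ) (Co : Set C) (I : Finset (D × ℕ)) (φ : D → ℂ)
    (ψ : C → ZMod 2) : ℝ :=
  ∑ i ∈ range m₀, ∑ q ∈ I,
    if Cd M (cfg M ψ) (p0 M (G i) ψ) (ln M (G i) ψ) (Cw M (G i) ψ) q.1 q.2 ∧
      gd M (G i) Co ψ q.1 q.2 then
      ‖cv M (cfg M ψ) (p0 M (G i) ψ) (ln M (G i) ψ) φ q.1 q.2‖ ^ 2
    else 0

/-- ring data of `b` for the full exploration and for all windows -/
structure Rd (M : CMap D C) (Gf : Rg D C) (G : ℕ → Rg D C) (m₀ : ℕ) (ψ : C → ZMod 2) (r : D) :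
    Prop where
  occ : cfg M ψ r = 1
  lw : ∀ t, M.cell (P M (cfg M ψ) r t) ∈ Gf.Dw
  rcw : ∀ t, M.cell (M.rho (P M (cfg M ψ) r t)) ∈ Cw M Gf ψ
  rx : ∀ i, i < m₀ → ∃ (s : ℕ) (T : ℕ → ℕ) (m n : ℕ) (B : ℕ → Set C) (B' : Set C),
    RX M (G i) ψ (P M (cfg M ψ) r s) T m n B B' ∧ ∀ c ∈ B', ∃ t, c = M.cell (P M (cfg M ψ) r t)

/-- the full exploration from one window: all tiles in the domain of `Gf` -/
theorem rd_of {G0 : Rg D C} {ψ : C → ZMod 2} {r : D} {T : ℕ → ℕ} {m n : ℕ} {B : ℕ → Set C}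
    {B' : Set C} (L : Le G0 Gf) (R : RX M G0 ψ r T m n B B')
    (hd : ∀ k, k < n → ∀ c ∈ B k, c ∈ Gf.Dw)
    (h : ∀ i, i < m₀ → ∃ (s : ℕ) (T : ℕ → ℕ) (m n : ℕ) (B : ℕ → Set C) (B' : Set C),
      RX M (G i) ψ (P M (cfg M ψ) r s) T m n B B' ∧
        ∀ c ∈ B', ∃ t, c = M.cell (P M (cfg M ψ) r t)) : Rd M Gf G m₀ ψ r := by
  have hN := R.tn_pos
  have tl : ∀ t, ∃ k, k < n ∧ M.cell (P M (cfg M ψ) r t) ∈ B k ∧
      M.cell (M.rho (P M (cfg M ψ) r t)) ∈ B k := by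
    intro t
    obtain ⟨k, h1, h2, h3⟩ := R.tile_of le_rfl (Nat.mod_lt t hN)
    refine ⟨k, h1, ?_⟩
    have h4 := R.tile k h1 _ h2 h3.le
    rwa [R.mod] at h4
  refine ⟨R.occ, fun t => ?_, fun t => ?_, h⟩
  · obtain ⟨k, h1, h2, -⟩ := tl t
    exact hd k h1 _ h2
  · have h0 : M.cell (M.rho r) ∈ Cw M Gf ψ := L.cw (R.rcw (t := 0) (Nat.zero_le _))
    have key : ∀ t, M.cell (M.rho (P M (cfg M ψ) r t)) ∈ Cw M Gf ψ := by
      intro t
      induction t with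
      | zero => exact h0
      | succ t ih =>
        rcases R.rstep t with h1 | h1
        · rw [h1]; exact ih
        · obtain ⟨k, h2, -, h3⟩ := tl (t + 1)
          exact cl_step ih h1 (hd k h2 _ h3) (R.rwh _)
    exact key t

variable {V : Finset α} {χ : Finset α → C → ZMod 2} {K : C → Finset α} {b b' : Finset α} {r : D}

theorem Rd.tf (hχ : Coins V χ K) (hK : ∀ c, K c ⊆ V) (R : Rd M Gf G m₀ (χ b) r) (hb : b ⊆ V)
    (hb' : b' ⊆ V) (h : b ∩ Ra M Gf V χ K b = b' ∩ Ra M Gf V χ K b) : Tf M Gf V χ K b b' r :=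
  ⟨hχ, hK, hb, hb', h, R.occ, R.lw, R.rcw⟩

/-- **`Ow` for every window in every configuration with the same full exploration** -/
theorem Rd.ow (hχ : Coins V χ K) (hK : ∀ c, K c ⊆ V) (hLe : ∀ i, i < m₀ → Le (G i) Gf)
    (R : Rd M Gf G m₀ (χ b) r) (hb : b ⊆ V) (hb' : b' ⊆ V)
    (h : b ∩ Ra M Gf V χ K b = b' ∩ Ra M Gf V χ K b) {i : ℕ} (hi : i < m₀) :
    Ow M (G i) V χ K b' := by
  obtain ⟨s, T, m, n, B, B', h1, h2⟩ := R.rx i hi
  exact ((R.tf hχ hK hb hb' h).rx (hLe i hi) h1 h2).ow hK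

/-- the weight of the window -/
def wi (M : CMap D C) (G : Rg D C) (V : Finset α) (χ : Finset α → C → ZMod 2)
    (K : C → Finset α) (b : Finset α) : ℝ := if Ow M G V χ K b then 1 else 0

theorem wi_dec {G : Rg D C} (hχ : Coins V χ K) (hK : ∀ c, K c ⊆ V) :
    DecF V (R1 M G V χ K) (wi M G V χ K) :=
  (ow_dec (M := M) (G := G) hχ hK).comp fun p : Prop => if p then (1 : ℝ) else 0

theorem wi_ne {G : Rg D C} (h : wi M G V χ K b ≠ 0) : Ow M G V χ K b := by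
  by_contra hc
  exact h (if_neg hc)

/-- the terms of all windows and cores -/
def Ps (M : CMap D C) (G : ℕ → Rg D C) (m₀ : ℕ) (V : Finset α) (χ : Finset α → C → ZMod 2)
    (K : C → Finset α) (Z : Finset ι) (Co : ι → Set C) (I : Finset (D × ℕ)) (φ : D → ℂ)
    (b : Finset α) : ℝ :=
  ∑ i ∈ range m₀, ∑ z ∈ Z, ∑ q ∈ I, Fk M χ (fun b => p0 M (G i) (χ b)) (fun b => ln M (G i) (χ b))
    (fun b => Cw M (G i) (χ b)) (wi M (G i) V χ K) (fun b k n => gd M (G i) (Co z) (χ b) k n) φ q b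

theorem fk_nonneg {G : Rg D C} {Q : Finset α → D → ℕ → Prop} {φ : D → ℂ} {q : D × ℕ} :
    0 ≤ Fk M χ (fun b => p0 M G (χ b)) (fun b => ln M G (χ b)) (fun b => Cw M G (χ b))
      (wi M G V χ K) Q φ q b := by
  unfold Fk
  split_ifs
  · refine mul_nonneg ?_ (by positivity)
    unfold wi
    split_ifs <;> norm_num
  · exact le_rfl

theorem ps_nonneg {Z : Finset ι} {Co : ι → Set C} {I : Finset (D × ℕ)} {φ : D → ℂ} :
    0 ≤ Ps M G m₀ V χ K Z Co I φ b :=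
  sum_nonneg fun _ _ => sum_nonneg fun _ _ => sum_nonneg fun _ _ => fk_nonneg

/-- pointwise -/
theorem phi_le {Z : Finset ι} {Co : ι → Set C} {I : Finset (D × ℕ)} {φ : D → ℂ}
    (how : ∀ i, i < m₀ → Ow M (G i) V χ K b) :
    Phi M G m₀ (⋃ z ∈ Z, Co z) I φ (χ b) ≤ Ps M G m₀ V χ K Z Co I φ b := by
  unfold Phi Ps
  refine sum_le_sum fun i hi => ?_
  have hi' := how i (mem_range.1 hi)
  rw [sum_comm]
  refine sum_le_sum fun q _ => ?_
  split_ifs with h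
  · obtain ⟨h1, h2, h3, u, h4, h5⟩ := h
    obtain ⟨z, hz, h6⟩ := Set.mem_iUnion₂.1 h5
    refine le_trans (le_of_eq ?_) (single_le_sum (f := fun z => Fk M χ
      (fun b => p0 M (G i) (χ b)) (fun b => ln M (G i) (χ b)) (fun b => Cw M (G i) (χ b))
      (wi M (G i) V χ K) (fun b k n => gd M (G i) (Co z) (χ b) k n) φ q b)
      (fun z _ => fk_nonneg) hz)
    have e1 : wi M (G i) V χ K b = 1 := if_pos hi'
    unfold Fk
    rw [if_pos ⟨by rw [e1]; norm_num, h1, h2, h3, u, h4, h6⟩, e1, one_mul]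
  · exact sum_nonneg fun z _ => fk_nonneg

/-- H2 for all windows and cores -/
theorem ps_sum (hχ : Coins V χ K) (hK : ∀ c, K c ⊆ V)
    (hdis : ∀ c c' y, y ∈ K c → y ∈ K c' → c = c')
    (hTh : ∀ i, i < m₀ → ∀ c, c ∈ (G i).Dw → c ∉ (G i).Th)
    (hgen : ∀ i, i < m₀ → ∀ d, M.cell d ≠ (G i).h0 → Gen M (M.cell d))
    (Z : Finset ι) (Co : ι → Set C) (I : Finset (D × ℕ)) (φ : D → ℂ) {c : ℝ} (hc0 : 0 < c)
    {T : ℕ → ι → Finset α → Prop} (hc : ∀ i, i < m₀ → ∀ z ∈ Z, c ≤ pr V (T i z))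
    (hm : ∀ i, i < m₀ → ∀ z ∈ Z, ∀ b b', b ⊆ V → b' ⊆ V → Ow M (G i) V χ K b → T i z b' → ∀ k n,
      Cd M (cfg M (χ b)) (p0 M (G i) (χ b)) (ln M (G i) (χ b)) (Cw M (G i) (χ b)) k n →
      gd M (G i) (Co z) (χ b) k n → Meet M (G i) χ b b' k n)
    (Big : Finset α → Finset (Finset D))
    (hBig : ∀ i, i < m₀ → ∀ z ∈ Z, ∀ b, b ⊆ V → Ow M (G i) V χ K b → ∀ q ∈ I,
      Jc M (cfg M (χ b)) (p0 M (G i) (χ b)) (ln M (G i) (χ b)) (Cw M (G i) (χ b)) q.1 q.2 →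
      gd M (G i) (Co z) (χ b) q.1 q.2 → blk M (cfg M (χ b)) q.1 ∈ Big b) :
    ∑ b ∈ V.powerset, Ps M G m₀ V χ K Z Co I φ b ≤
      c⁻¹ * ((m₀ : ℝ) * Z.card) * ∑ b ∈ V.powerset, ∑ β ∈ Big b, ‖∑ h ∈ β, φ h‖ ^ 2 := by
  set E : ℝ := ∑ b ∈ V.powerset, ∑ β ∈ Big b, ‖∑ h ∈ β, φ h‖ ^ 2 with hE
  have key : ∀ i ∈ range m₀, ∀ z ∈ Z, ∑ b ∈ V.powerset, ∑ q ∈ I, Fk M χ
      (fun b => p0 M (G i) (χ b)) (fun b => ln M (G i) (χ b)) (fun b => Cw M (G i) (χ b))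
      (wi M (G i) V χ K) (fun b k n => gd M (G i) (Co z) (χ b) k n) φ q b ≤ c⁻¹ * E := by
    intro i hi z hz
    have hi' := mem_range.1 hi
    have w01 : ∀ b, 0 ≤ wi M (G i) V χ K b ∧ wi M (G i) V χ K b ≤ 1 := by
      intro b
      unfold wi
      split_ifs <;> norm_num
    have h1 := h2w (M := M) (G := G i) (Co := Co z) hχ hK hdis (hTh i hi') (hgen i hi')
      (w := wi M (G i) V χ K) (wi_dec hχ hK) (fun b _ => (w01 b).1) (fun b _ => (w01 b).2)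
      (fun b _ h => wi_ne h) φ I (hc i hi' z hz)
      (fun b b' hb hb' h hT k n => hm i hi' z hz b b' hb hb' (wi_ne h) hT k n) Big
      (fun b hb h q hq hJ hg => hBig i hi' z hz b hb (wi_ne h) q hq hJ hg)
    have h2 : ∑ b ∈ V.powerset, wi M (G i) V χ K b * ∑ β ∈ Big b, ‖∑ h ∈ β, φ h‖ ^ 2 ≤ E := by
      rw [hE]
      refine sum_le_sum fun b _ => ?_
      have h3 : 0 ≤ ∑ β ∈ Big b, ‖∑ h ∈ β, φ h‖ ^ 2 := sum_nonneg fun _ _ => by positivity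
      nlinarith [w01 b]
    have h3 := h1.trans h2
    rw [← div_eq_inv_mul, le_div_iff₀ hc0, mul_comm]
    exact h3
  unfold Ps
  rw [sum_comm]
  have h1 : ∀ i ∈ range m₀, ∑ b ∈ V.powerset, ∑ z ∈ Z, ∑ q ∈ I, Fk M χ
      (fun b => p0 M (G i) (χ b)) (fun b => ln M (G i) (χ b)) (fun b => Cw M (G i) (χ b))
      (wi M (G i) V χ K) (fun b k n => gd M (G i) (Co z) (χ b) k n) φ q b ≤
      Z.card * (c⁻¹ * E) := by
    intro i hi
    rw [sum_comm]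
    refine (sum_le_sum fun z hz => key i hi z hz).trans (le_of_eq ?_)
    rw [sum_const, nsmul_eq_mul]
  refine (sum_le_sum h1).trans (le_of_eq ?_)
  rw [sum_const, nsmul_eq_mul, card_range]
  ring

/-- **the final sum of [A]** -/
theorem sumA (hχ : Coins V χ K) (hK : ∀ c, K c ⊆ V)
    (hdis : ∀ c c' y, y ∈ K c → y ∈ K c' → c = c')
    (hTh : ∀ i, i < m₀ → ∀ c, c ∈ (G i).Dw → c ∉ (G i).Th)
    (hLe : ∀ i, i < m₀ → Le (G i) Gf)
    (hgen : ∀ i, i < m₀ → ∀ d, M.cell d ≠ (G i).h0 → Gen M (M.cell d))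
    {g : Finset α → ℝ≥0∞} (hg : ∀ b, g b ≤ 1)
    (hR : ∀ b, b ⊆ V → g b ≠ 0 → ∃ r, Rd M Gf G m₀ (χ b) r)
    (Z : Finset ι) (Co : ι → Set C) (I : Finset (D × ℕ)) (φ : D → ℂ) {c : ℝ} (hc0 : 0 < c)
    {T : ℕ → ι → Finset α → Prop} (hc : ∀ i, i < m₀ → ∀ z ∈ Z, c ≤ pr V (T i z))
    (hm : ∀ i, i < m₀ → ∀ z ∈ Z, ∀ b b', b ⊆ V → b' ⊆ V → Ow M (G i) V χ K b → T i z b' → ∀ k n,
      Cd M (cfg M (χ b)) (p0 M (G i) (χ b)) (ln M (G i) (χ b)) (Cw M (G i) (χ b)) k n →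
      gd M (G i) (Co z) (χ b) k n → Meet M (G i) χ b b' k n)
    (Big : Finset α → Finset (Finset D))
    (hBig : ∀ i, i < m₀ → ∀ z ∈ Z, ∀ b, b ⊆ V → Ow M (G i) V χ K b → ∀ q ∈ I,
      Jc M (cfg M (χ b)) (p0 M (G i) (χ b)) (ln M (G i) (χ b)) (Cw M (G i) (χ b)) q.1 q.2 →
      gd M (G i) (Co z) (χ b) q.1 q.2 → blk M (cfg M (χ b)) q.1 ∈ Big b) :
    ∑ b ∈ V.powerset, g b * av V (Ra M Gf V χ K b)
        (fun b => ENNReal.ofReal (Phi M G m₀ (⋃ z ∈ Z, Co z) I φ (χ b))) b ≤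
      ENNReal.ofReal (c⁻¹ * ((m₀ : ℝ) * Z.card)) *
        ∑ b ∈ V.powerset, ∑ β ∈ Big b, ENNReal.ofReal (‖∑ h ∈ β, φ h‖ ^ 2) := by
  have h1 : ∑ b ∈ V.powerset, g b * av V (Ra M Gf V χ K b)
        (fun b => ENNReal.ofReal (Phi M G m₀ (⋃ z ∈ Z, Co z) I φ (χ b))) b ≤
      ∑ b ∈ V.powerset, av V (Ra M Gf V χ K b)
        (fun b => ENNReal.ofReal (Ps M G m₀ V χ K Z Co I φ b)) b := by
    refine sum_le_sum fun b hb => ?_
    rw [mem_powerset] at hb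
    by_cases h0 : g b = 0
    · rw [h0, zero_mul]; exact zero_le
    · obtain ⟨r, R⟩ := hR b hb h0
      calc g b * av V (Ra M Gf V χ K b)
            (fun b => ENNReal.ofReal (Phi M G m₀ (⋃ z ∈ Z, Co z) I φ (χ b))) b
          ≤ 1 * av V (Ra M Gf V χ K b)
            (fun b => ENNReal.ofReal (Phi M G m₀ (⋃ z ∈ Z, Co z) I φ (χ b))) b := by
            gcongr; exact hg b
        _ = av V (Ra M Gf V χ K b)
            (fun b => ENNReal.ofReal (Phi M G m₀ (⋃ z ∈ Z, Co z) I φ (χ b))) b := one_mul _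
        _ ≤ _ := by
            unfold av
            gcongr with b' hb'
            rw [mem_powerset] at hb'
            refine ENNReal.ofReal_le_ofReal (phi_le ?_)
            intro i hi
            refine R.ow hχ hK hLe hb ?_ ?_ hi
            · exact union_subset (hb'.trans sdiff_subset) (inter_subset_left.trans hb)
            · ext y
              simp only [mem_inter, mem_union]
              constructor
              · rintro ⟨h1, h2⟩; exact ⟨Or.inr ⟨h1, h2⟩, h2⟩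
              · rintro ⟨h1 | h1, h2⟩
                · exact absurd h2 (mem_sdiff.1 (hb' h1)).2
                · exact h1
  refine h1.trans ?_
  rw [sum_av (ra_stop (M := M) (G := Gf) hχ hK)]
  have e2 : ∀ b ∈ V.powerset, ∀ β ∈ Big b, (0 : ℝ) ≤ ‖∑ h ∈ β, φ h‖ ^ 2 := fun _ _ _ _ => by
    positivity
  have e3 : ∑ b ∈ V.powerset, ∑ β ∈ Big b, ENNReal.ofReal (‖∑ h ∈ β, φ h‖ ^ 2) =
      ENNReal.ofReal (∑ b ∈ V.powerset, ∑ β ∈ Big b, ‖∑ h ∈ β, φ h‖ ^ 2) := by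
    rw [ENNReal.ofReal_sum_of_nonneg fun b hb => sum_nonneg (e2 b hb)]
    refine sum_congr rfl fun b hb => ?_
    rw [ENNReal.ofReal_sum_of_nonneg (e2 b hb)]
  rw [e3, ← ENNReal.ofReal_mul (by positivity),
    ← ENNReal.ofReal_sum_of_nonneg fun b _ => ps_nonneg]
  exact ENNReal.ofReal_le_ofReal (ps_sum hχ hK hdis hTh hgen Z Co I φ hc0 hc hm Big hBig)

end Crest.Agent.R143.SumAx389
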