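import Crest.Agent.R143.DecP_263
import Crest.Agent.R143.SumA_389
import Crest.Agent.R143.FarI_355

/-!
# Row 143 (S0194), block H (helper263): the far deep chords, mean over the fresh coins

* `PhG` : `∑_{windows i} ∑_{(k, m) ∈ I} ‖cv_i φ‖²` over the chords of the giant off the window `i`
  (as 389's `Phi`, with 355's `Gc` kept = sum over `i` of 126's `XG`), `phG_le : PhG ≤ Phi`
* `dec_farG` : one configuration
* `av_mono`, `av_add`, `av_mul`, `stg_mean` : mean over the coarse configurations = mean over the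
  fresh coins
* **`far_av`** : the mean energy of the far deep chords
-/

set_option autoImplicit false

noncomputable section

open scoped Classical

namespace Crest.Agent.R143.FarAx263

open Crest.Agent.R143.Frame1x395 Crest.Agent.R143.Frame2x395 Crest.Agent.R143.Frame3x395
  Crest.Agent.R143.Frame8x395 Crest.Agent.R143.Frame9x395 Crest.Agent.R143.Frame11x395
  Crest.Agent.R143.NonXx592 Crest.Agent.R143.Coarsex166 Crest.Agent.R143.Budx432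
  Crest.Agent.R143.Bud2x432 Crest.Agent.R143.RevCx389
  Crest.Agent.R143.ChordCx357 Crest.Agent.R143.Chord2x355
  Crest.Agent.R143.H2x355 Crest.Agent.R143.Ox355 Crest.Agent.R143.Winx355
  Crest.Agent.R143.Win2x355 Crest.Agent.R143.PotKx263 Crest.Agent.R143.PotPx263
  Crest.Agent.R143.DecPx263
open Crest.Agent.R143.Sptx169 (rst)
open Crest.Agent.R143.Chordx355 (lc)
open Crest.Agent.R143.HGluex136 (av avg_fil avg_coin fil_congr)
open Crest.Agent.R143.SumAx389 (Phi)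
open scoped ENNReal

variable {D C C' : Type} [Fintype D] {M : CMap D C} {ψ : C → ZMod 2} {π : C → C'}
  {hπ : ClsCon M π} {o : C'} {P₀ : D} {N n : ℕ} {T : ℕ → ℕ} {Reg : ℕ → Set C} {h l m₀ : ℕ}
  {G : ℕ → Rg D C} {tp tq : ℕ → ℕ} {F : ℕ → Set D}

/-- sum over the windows and the good chords of the giant off the window -/
def PhG (M : CMap D C) (π : C → C') (o : C') (G : ℕ → Rg D C) (m₀ : ℕ) (Co : Set C)
    (I : Finset (D × ℕ)) (φ : D → ℂ) (ψ : C → ZMod 2) : ℝ :=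
  ∑ i ∈ Finset.range m₀, ∑ q ∈ I,
    if Gc M π o (cfg M (fil π o ψ)) q.1 q.2 ∧
      Cd M (cfg M ψ) (RevCx389.p0 M (G i) ψ) (RevCx389.ln M (G i) ψ) (Cw M (G i) ψ) q.1 q.2 ∧
      gd M (G i) Co ψ q.1 q.2 then
      ‖cv M (cfg M ψ) (RevCx389.p0 M (G i) ψ) (RevCx389.ln M (G i) ψ) φ q.1 q.2‖ ^ 2
    else 0

theorem phG_nonneg {Co : Set C} {I : Finset (D × ℕ)} {φ : D → ℂ} :
    0 ≤ PhG M π o G m₀ Co I φ ψ := by
  refine Finset.sum_nonneg fun i _ => Finset.sum_nonneg fun q _ => ?_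
  split_ifs
  · positivity
  · exact le_rfl

theorem phG_le {Co : Set C} {I : Finset (D × ℕ)} {φ : D → ℂ} :
    PhG M π o G m₀ Co I φ ψ ≤ Phi M G m₀ Co I φ ψ := by
  refine Finset.sum_le_sum fun i _ => Finset.sum_le_sum fun q _ => ?_
  split_ifs with h1 h2
  · exact le_rfl
  · exact absurd h1.2 h2
  · positivity
  · exact le_rfl

/-- **the far deep chords of one configuration** -/
theorem dec_farG (W : RW M ψ π o P₀ N n T Reg h l m₀ G tp tq)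
    (Q : RQ M (cfg M ψ) P₀ N n T F) (h6 : 6 ≤ h) (hl1 : 1 ≤ l) (Co : Set C)
    (I : Finset (D × ℕ)) {𝒟 : Finset (Finset D)} (h𝒟 : 𝒟 ⊆ chd M π hπ o (cfg M (fil π o ψ)))
    (hG : ∀ β ∈ 𝒟, ∀ k ∈ β, ∀ m, Gc M π o (cfg M (fil π o ψ)) k m → (k, m) ∈ I ∧
      FarC Reg n h (M.cell (M.rho k)) (M.cell (P M (cfg M ψ) (M.rho k) m)) ∧
      ∃ u, u ≤ m ∧ lc M (cfg M ψ) (M.rho k) u ∈ Co) {φ : D → ℂ} {w : ℕ → ℂ} {κ : ℂ} {B K : ℝ}
    (hw : ∀ j, w (j + n) = w j) (hB : ∀ i j, i ≤ j → j ≤ n →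
      ‖∑ k ∈ Finset.Ico i j, Vg M (cfg M ψ) P₀ T n φ F k - κ * (w j - w i)‖ ^ 2 ≤ B)
    (hK : ∀ i j, ‖κ * (w j - w i)‖ ^ 2 ≤ K) :
    ∑ β ∈ 𝒟, ‖∑ d ∈ β, φ d‖ ^ 2 ≤
      4 * PhG M π o G m₀ Co I φ ψ +
      56 * ∑ j ∈ Finset.range n, PhG M π o G m₀ Co I (rst φ (F j)) ψ +
      56 * ∑ j ∈ Finset.range n, ∑ β ∈ 𝒟, ‖∑ d ∈ β, rst φ (F j) d‖ ^ 2 +
      𝒟.card * (16 * B + 4 * K) := by
  have hx' : IsC (coarse M π hπ) ∅ (cfg M (fil π o ψ)) := fil_isC W.gt ψ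
  have ch : ∀ β, β ∈ 𝒟 → ∃ q : D × ℕ, q.1 ∈ β ∧ Gc M π o (cfg M (fil π o ψ)) q.1 q.2 ∧
      β = cset M (P M (cfg M ψ) (M.rho q.1)) 0 q.2 := by
    intro β hβ
    obtain ⟨k, hk, m, h1, h2⟩ := chd_gc hx' W.gt (h𝒟 hβ)
    refine ⟨(k, m), hk, h1, h2.trans ?_⟩
    exact cset_congr (Q := P M (cfg M (fil π o ψ)) (M.rho k)) (Q' := P M (cfg M ψ) (M.rho k))
      fun s _ _ => (Rim.P W.rim h1.gp.2 s).symm
  have : Nonempty (D × ℕ) := ⟨(P₀, 0)⟩
  choose! e he using ch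
  -- the term of one window and one pair
  set g : (D → ℂ) → ℕ → D × ℕ → ℝ := fun φ i q =>
    if Gc M π o (cfg M (fil π o ψ)) q.1 q.2 ∧
      Cd M (cfg M ψ) (RevCx389.p0 M (G i) ψ) (RevCx389.ln M (G i) ψ) (Cw M (G i) ψ) q.1 q.2 ∧
      gd M (G i) Co ψ q.1 q.2 then
      ‖cv M (cfg M ψ) (RevCx389.p0 M (G i) ψ) (RevCx389.ln M (G i) ψ) φ q.1 q.2‖ ^ 2
    else 0 with hgdef
  have hg0 : ∀ φ i q, 0 ≤ g φ i q := by
    intro φ i q
    rw [hgdef]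
    dsimp only
    split_ifs
    · positivity
    · exact le_rfl
  have hinj : Set.InjOn e (𝒟 : Set (Finset D)) := by
    intro β hβ β' hβ' h1
    rw [(he β hβ).2.2, (he β' hβ').2.2, h1]
  have tot : ∀ φ : D → ℂ, ∑ β ∈ 𝒟, ∑ i ∈ Finset.range m₀, g φ i (e β) ≤
      PhG M π o G m₀ Co I φ ψ := by
    intro φ
    rw [Finset.sum_comm]
    refine Finset.sum_le_sum fun i _ => ?_
    rw [← Finset.sum_image (f := fun q => g φ i q) hinj]
    refine Finset.sum_le_sum_of_subset_of_nonneg ?_ fun q _ _ => hg0 φ i q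
    intro q hq
    obtain ⟨β, hβ, rfl⟩ := Finset.mem_image.1 hq
    exact (hG β hβ _ (he β hβ).1 _ (he β hβ).2.1).1
  have one : ∀ β ∈ 𝒟, ‖∑ d ∈ β, φ d‖ ^ 2 ≤ 4 * ∑ i ∈ Finset.range m₀, g φ i (e β) +
      56 * ∑ j ∈ Finset.range n, ∑ i ∈ Finset.range m₀, g (rst φ (F j)) i (e β) +
      56 * ∑ j ∈ Finset.range n, ‖∑ d ∈ β, rst φ (F j) d‖ ^ 2 + (16 * B + 4 * K) := by
    intro β hβ
    obtain ⟨h1, h2, h3⟩ := he β hβ
    obtain ⟨h4, h5, h7⟩ := hG β hβ (e β).1 h1 (e β).2 h2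
    obtain ⟨i, hi, h8, h9⟩ := W.window h2 h5
    have h10 := h9 Co h7
    have h11 := chord_law W Q h6 hl1 hi h8 h10 hw hB hK (φ := φ)
    rw [← h3, Finset.sum_add_distrib] at h11
    have h12 : ∀ φ : D → ℂ, ‖cv M (cfg M ψ) (RevCx389.p0 M (G i) ψ) (RevCx389.ln M (G i) ψ) φ
        (e β).1 (e β).2‖ ^ 2 ≤ ∑ i ∈ Finset.range m₀, g φ i (e β) := by
      intro φ
      refine le_trans (le_of_eq ?_) (Finset.single_le_sum (f := fun i => g φ i (e β))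
        (fun i _ => hg0 φ i _) (Finset.mem_range.2 hi))
      rw [hgdef]
      exact (if_pos ⟨h2, h8, h10⟩).symm
    have h13 := h12 φ
    have h14 : ∑ j ∈ Finset.range n, ‖cv M (cfg M ψ) (RevCx389.p0 M (G i) ψ)
        (RevCx389.ln M (G i) ψ) (rst φ (F j)) (e β).1 (e β).2‖ ^ 2 ≤
        ∑ j ∈ Finset.range n, ∑ i ∈ Finset.range m₀, g (rst φ (F j)) i (e β) :=
      Finset.sum_le_sum fun j _ => h12 _
    linarith
  refine (Finset.sum_le_sum one).trans ?_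
  rw [Finset.sum_add_distrib, Finset.sum_add_distrib, Finset.sum_add_distrib, Finset.sum_const,
    nsmul_eq_mul, ← Finset.mul_sum, ← Finset.mul_sum, ← Finset.mul_sum,
    Finset.sum_comm (s := 𝒟) (t := Finset.range n), Finset.sum_comm (s := 𝒟) (t := Finset.range n)]
  have h15 := tot φ
  have h16 : ∑ j ∈ Finset.range n, ∑ β ∈ 𝒟, ∑ i ∈ Finset.range m₀, g (rst φ (F j)) i (e β) ≤
      ∑ j ∈ Finset.range n, PhG M π o G m₀ Co I (rst φ (F j)) ψ :=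
    Finset.sum_le_sum fun j _ => tot _
  linarith

/-! ### means over the fresh coins -/

section mean

variable {α : Type*} {V R b : Finset α} {χ : Finset α → C → ZMod 2}

/-- the colourings of a mean -/
theorem av_sub {b' : Finset α} (hb : b ⊆ V) (hb' : b' ∈ (V \ R).powerset) :
    b' ∪ (b ∩ R) ⊆ V ∧ (b' ∪ (b ∩ R)) ∩ R = b ∩ R := by
  rw [Finset.mem_powerset] at hb'
  refine ⟨Finset.union_subset (hb'.trans Finset.sdiff_subset)
    (Finset.inter_subset_left.trans hb), ?_⟩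
  ext y
  simp only [Finset.mem_inter, Finset.mem_union]
  constructor
  · rintro ⟨h3 | h3, h4⟩
    · exact absurd h4 (Finset.mem_sdiff.1 (hb' h3)).2
    · exact h3
  · exact fun h3 => ⟨Or.inr h3, h3.2⟩

/-- monotone, only the colourings with the same revealed colours count -/
theorem av_mono {H H' : Finset α → ℝ≥0∞} (hb : b ⊆ V)
    (h : ∀ b', b' ⊆ V → b' ∩ R = b ∩ R → H b' ≤ H' b') : av V R H b ≤ av V R H' b := by
  unfold av
  refine mul_le_mul_right (Finset.sum_le_sum fun b' hb' => ?_) _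
  obtain ⟨h1, h2⟩ := av_sub hb hb'
  exact h _ h1 h2

theorem av_add (H H' : Finset α → ℝ≥0∞) :
    av V R (fun b => H b + H' b) b = av V R H b + av V R H' b := by
  unfold av
  rw [Finset.sum_add_distrib, mul_add]

theorem av_mul (c : ℝ≥0∞) (H : Finset α → ℝ≥0∞) :
    av V R (fun b => c * H b) b = c * av V R H b := by
  unfold av
  rw [← Finset.mul_sum]
  ring

theorem av_sum {ι : Type*} (J : Finset ι) (H : ι → Finset α → ℝ≥0∞) :
    av V R (fun b => ∑ j ∈ J, H j b) b = ∑ j ∈ J, av V R (H j) b := by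
  unfold av
  rw [Finset.sum_comm, Finset.mul_sum]

/-- fair fresh coins of 136's `Stg` -/
def Fair (V R : Finset α) (χ : Finset α → C → ZMod 2) (π : C → C') (o : C') : Prop :=
  ∃ (K0 : C → α) (u : C → ZMod 2), (∀ c, π c ≠ o → K0 c ∈ V \ R) ∧
    (∀ c c', π c ≠ o → π c' ≠ o → K0 c = K0 c' → c = c') ∧
    ∀ b', b' ⊆ V → ∀ c, π c ≠ o → χ b' c = (if K0 c ∈ b' then 1 else 0) + u c

/-- **mean over the configurations of the net with the giant = mean over the fresh coins** -/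
theorem stg_mean [Fintype C] (gt : Gt M π o) (fair : Fair V R χ π o) (hb : b ⊆ V)
    (Φ : (D → ZMod 2) → ℝ≥0∞) :
    ((ev (coarse M π hπ)).card : ℝ≥0∞)⁻¹ * ∑ x ∈ ev (coarse M π hπ), Φ x =
      av V R (fun b' => Φ (cfg M (fil π o (χ b')))) b := by
  obtain ⟨K0, u, f1, f2, f3⟩ := fair
  have hG : ∀ τ τ' : C → ZMod 2, (∀ c, π c ≠ o → τ c = τ' c) →
      Φ (cfg M (fil π o τ)) = Φ (cfg M (fil π o τ')) := by
    intro τ τ' h
    rw [fil_congr h]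
  unfold av
  rw [avg_fil gt Φ, ← avg_coin (u := u) f1 f2 hG]
  congr 1
  refine Finset.sum_congr rfl fun b' hb' => ?_
  obtain ⟨h1, -⟩ := av_sub hb hb'
  rw [Finset.mem_powerset] at hb'
  have h3 : fil π o (fun c => (if K0 c ∈ b' then 1 else 0) + u c) =
      fil π o (χ (b' ∪ (b ∩ R))) := by
    refine fil_congr fun c hc => ?_
    rw [f3 _ h1 c hc]
    congr 1
    refine if_congr ?_ rfl rfl
    have h4 := (Finset.mem_sdiff.1 (f1 c hc)).2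
    simp only [Finset.mem_union, Finset.mem_inter]
    exact ⟨Or.inl, fun h => h.elim id fun h => absurd h.2 h4⟩
  rw [h3]

/-- **the mean energy of the far deep chords** -/
theorem far_av [Fintype C] (gt : Gt M π o) (fair : Fair V R χ π o) (hb : b ⊆ V)
    {𝒟 : (D → ZMod 2) → Finset (Finset D)} {Co : Set C} {I : Finset (D × ℕ)}
    (h𝒟 : ∀ x, 𝒟 x ⊆ chd M π hπ o x)
    (hW : ∀ b', b' ⊆ V → b' ∩ R = b ∩ R →
      ∃ tp tq, RW M (χ b') π o P₀ N n T Reg h l m₀ G tp tq)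
    (hQ : ∀ b', b' ⊆ V → b' ∩ R = b ∩ R → RQ M (cfg M (χ b')) P₀ N n T F)
    (h6 : 6 ≤ h) (hl1 : 1 ≤ l)
    (hG : ∀ b', b' ⊆ V → b' ∩ R = b ∩ R → ∀ β ∈ 𝒟 (cfg M (fil π o (χ b'))), ∀ k ∈ β, ∀ m,
      Gc M π o (cfg M (fil π o (χ b'))) k m → (k, m) ∈ I ∧
      FarC Reg n h (M.cell (M.rho k)) (M.cell (P M (cfg M (χ b')) (M.rho k) m)) ∧
      ∃ u, u ≤ m ∧ lc M (cfg M (χ b')) (M.rho k) u ∈ Co)
    {φ : D → ℂ} {w : ℕ → ℂ} {κ : ℂ} {B K : ℝ} (hw : ∀ j, w (j + n) = w j)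
    (hB : ∀ b', b' ⊆ V → b' ∩ R = b ∩ R → ∀ i j, i ≤ j → j ≤ n →
      ‖∑ k ∈ Finset.Ico i j, Vg M (cfg M (χ b')) P₀ T n φ F k - κ * (w j - w i)‖ ^ 2 ≤ B)
    (hK : ∀ i j, ‖κ * (w j - w i)‖ ^ 2 ≤ K) :
    ((ev (coarse M π hπ)).card : ℝ≥0∞)⁻¹ * ∑ x ∈ ev (coarse M π hπ), ∑ β ∈ 𝒟 x, en φ β ≤
      4 * av V R (fun b' => ENNReal.ofReal (PhG M π o G m₀ Co I φ (χ b'))) b +
      56 * ∑ j ∈ Finset.range n,
        av V R (fun b' => ENNReal.ofReal (PhG M π o G m₀ Co I (rst φ (F j)) (χ b'))) b +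
      56 * ∑ j ∈ Finset.range n, ((ev (coarse M π hπ)).card : ℝ≥0∞)⁻¹ *
        ∑ x ∈ ev (coarse M π hπ), ∑ β ∈ 𝒟 x, en (rst φ (F j)) β +
      ENNReal.ofReal (16 * B + 4 * K) * (((ev (coarse M π hπ)).card : ℝ≥0∞)⁻¹ *
        ∑ x ∈ ev (coarse M π hπ), ((𝒟 x).card : ℝ≥0∞)) := by
  have hK0 : 0 ≤ K := (sq_nonneg _).trans (hK 0 0)
  have hB0 : 0 ≤ B := (sq_nonneg _).trans (hB b hb rfl 0 0 le_rfl (Nat.zero_le n))
  rw [stg_mean gt fair hb (fun x => ∑ β ∈ 𝒟 x, en φ β),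
    stg_mean gt fair hb (fun x => ((𝒟 x).card : ℝ≥0∞))]
  have e1 : ∀ j ∈ Finset.range n, ((ev (coarse M π hπ)).card : ℝ≥0∞)⁻¹ *
        ∑ x ∈ ev (coarse M π hπ), ∑ β ∈ 𝒟 x, en (rst φ (F j)) β =
      av V R (fun b' => ∑ β ∈ 𝒟 (cfg M (fil π o (χ b'))), en (rst φ (F j)) β) b := fun j _ =>
    stg_mean gt fair hb (fun x => ∑ β ∈ 𝒟 x, en (rst φ (F j)) β)
  rw [Finset.sum_congr rfl e1, ← av_sum, ← av_sum, ← av_mul, ← av_mul, ← av_mul, ← av_mul,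
    ← av_add, ← av_add, ← av_add]
  refine av_mono hb fun b' h1 h2 => ?_
  obtain ⟨tp, tq, W⟩ := hW b' h1 h2
  have key := dec_farG W (hQ b' h1 h2) h6 hl1 Co I (h𝒟 _) (hG b' h1 h2) hw (hB b' h1 h2) hK (φ := φ)
  have key2 : ∀ (𝒜 : Finset (Finset D)) (X Y0 : ℝ) (Y : ℕ → ℝ), 0 ≤ X → (∀ j, 0 ≤ Y j) →
      Y0 ≤ 4 * X + 56 * ∑ j ∈ Finset.range n, Y j +
        56 * ∑ j ∈ Finset.range n, ∑ β ∈ 𝒜, ‖∑ d ∈ β, rst φ (F j) d‖ ^ 2 +
        𝒜.card * (16 * B + 4 * K) →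
      ENNReal.ofReal Y0 ≤ 4 * ENNReal.ofReal X +
        56 * ∑ j ∈ Finset.range n, ENNReal.ofReal (Y j) +
        56 * ∑ j ∈ Finset.range n, ∑ β ∈ 𝒜, en (rst φ (F j)) β +
        ENNReal.ofReal (16 * B + 4 * K) * (𝒜.card : ℝ≥0∞) := by
    intro 𝒜 X Y0 Y hX hY hle
    have p2 : 0 ≤ ∑ j ∈ Finset.range n, Y j := Finset.sum_nonneg fun j _ => hY j
    have p3 : ∀ j, 0 ≤ ∑ β ∈ 𝒜, ‖∑ d ∈ β, rst φ (F j) d‖ ^ 2 := fun j =>
      Finset.sum_nonneg fun _ _ => by positivity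
    have p3' : 0 ≤ ∑ j ∈ Finset.range n, ∑ β ∈ 𝒜, ‖∑ d ∈ β, rst φ (F j) d‖ ^ 2 :=
      Finset.sum_nonneg fun j _ => p3 j
    have p4 : (0 : ℝ) ≤ 16 * B + 4 * K := by linarith
    refine (ENNReal.ofReal_le_ofReal hle).trans (le_of_eq ?_)
    rw [ENNReal.ofReal_add (by positivity) (by positivity),
      ENNReal.ofReal_add (by positivity) (by positivity),
      ENNReal.ofReal_add (by positivity) (by positivity),
      ENNReal.ofReal_mul (by norm_num), ENNReal.ofReal_mul (by norm_num),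
      ENNReal.ofReal_mul (by norm_num), ENNReal.ofReal_mul (by positivity),
      ENNReal.ofReal_sum_of_nonneg fun j _ => hY j, ENNReal.ofReal_sum_of_nonneg fun j _ => p3 j]
    have e5 : ∀ j ∈ Finset.range n, ENNReal.ofReal (∑ β ∈ 𝒜, ‖∑ d ∈ β, rst φ (F j) d‖ ^ 2) =
        ∑ β ∈ 𝒜, en (rst φ (F j)) β := fun j _ => by
      rw [ENNReal.ofReal_sum_of_nonneg fun β _ => by positivity]
      rfl
    rw [Finset.sum_congr rfl e5]
    have e6 : ENNReal.ofReal 4 = 4 := by norm_num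
    have e7 : ENNReal.ofReal 56 = 56 := by norm_num
    rw [e6, e7, ENNReal.ofReal_natCast, mul_comm (ENNReal.ofReal (16 * B + 4 * K))]
  have e0 : ∑ β ∈ 𝒟 (cfg M (fil π o (χ b'))), en φ β =
      ENNReal.ofReal (∑ β ∈ 𝒟 (cfg M (fil π o (χ b'))), ‖∑ d ∈ β, φ d‖ ^ 2) := by
    rw [ENNReal.ofReal_sum_of_nonneg fun β _ => by positivity]
    rfl
  rw [e0]
  exact key2 _ _ _ _ phG_nonneg (fun _ => phG_nonneg) key

end mean

end Crest.Agent.R143.FarAx263
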