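import Crest.Agent.R143.GiantE_197
import Crest.Agent.R143.OutC_571

/-!
# Row 143 (S0194), block H: the far sites are in the giant outside the barrier (helper88; leaf of 197)

`sup z w = max |re (w - z)| |im (w - z)|` (`sp`).
* `Cout z h` : points at sup distance `≥ h` from `z`; `cout_pre` : preconnected
* `cell_far` : a site whose Voronoi cell meets `Cout z h` is at sup distance `≥ h - r` if every point
  at sup distance exactly `h` has a site at distance `< r`
* `far_pth` : two sites at sup distance `≥ h` are joined by sites at sup distance `≥ h - r`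
* **`far_ek`** : a site at sup distance `≥ h` is in `Ek (cm0 hS) (hull cell) K` if the sites of the
  cells of `K` are at sup distance `< h - r`
* `far_ekd` : the same with `LDns S c L d` (`r = d`)
-/

set_option autoImplicit false

noncomputable section

open scoped Classical

namespace Crest.Agent.R143.FarEkx88

open Crest.ProbabilityR.Voronoi
open Crest.Agent.R143.B0x346 Crest.Agent.R143.DelGx806 Crest.Agent.R143.DelRx806
open Crest.Agent.R143.Frame1x395 Crest.Agent.R143.Frame5x395 Crest.Agent.R143.Frame10x395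
  Crest.Agent.R143.GiantEx197
open Crest.Agent.R143.JColx54 (Adj)
open Crest.Agent.R143.RE0x723 (Pth)
open Crest.Agent.R143.Exitx707 (Nb nb_symm)

/-- sup distance -/
def sp (z w : ℂ) : ℝ := max |w.re - z.re| |w.im - z.im|

theorem sp_lip (z w v : ℂ) : sp z w ≤ sp z v + ‖w - v‖ := by
  unfold sp
  have h1 := Complex.abs_re_le_norm (w - v)
  have h2 := Complex.abs_im_le_norm (w - v)
  rw [Complex.sub_re] at h1
  rw [Complex.sub_im] at h2
  have h3 : |w.re - z.re| ≤ |w.re - v.re| + |v.re - z.re| := abs_sub_le _ _ _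
  have h4 : |w.im - z.im| ≤ |w.im - v.im| + |v.im - z.im| := abs_sub_le _ _ _
  have h5 := le_max_left |v.re - z.re| |v.im - z.im|
  have h6 := le_max_right |v.re - z.re| |v.im - z.im|
  exact max_le (by linarith) (by linarith)

theorem sp_cont (z : ℂ) : Continuous (sp z) := by
  unfold sp
  fun_prop

/-- the points at sup distance at least `h` -/
def Cout (z : ℂ) (h : ℝ) : Set ℂ := {w | h ≤ sp z w}

/-- half planes -/
theorem half_conv (z : ℂ) (h : ℝ) : Convex ℝ {w : ℂ | h ≤ w.re - z.re} ∧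
    Convex ℝ {w : ℂ | h ≤ z.re - w.re} ∧ Convex ℝ {w : ℂ | h ≤ w.im - z.im} ∧
    Convex ℝ {w : ℂ | h ≤ z.im - w.im} := by
  have key : ∀ (c x y s t : ℝ), h ≤ x - c → h ≤ y - c → 0 ≤ s → 0 ≤ t → s + t = 1 →
      h ≤ s * x + t * y - c := by
    intro c x y s t ha hb hs ht hst
    have h1 := mul_le_mul_of_nonneg_left ha hs
    have h2 := mul_le_mul_of_nonneg_left hb ht
    have e : s * h + t * h = h := by rw [← add_mul, hst, one_mul]
    have e' : s * c + t * c = c := by rw [← add_mul, hst, one_mul]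
    linarith
  have key' : ∀ (c x y s t : ℝ), h ≤ c - x → h ≤ c - y → 0 ≤ s → 0 ≤ t → s + t = 1 →
      h ≤ c - (s * x + t * y) := by
    intro c x y s t ha hb hs ht hst
    have h1 := mul_le_mul_of_nonneg_left ha hs
    have h2 := mul_le_mul_of_nonneg_left hb ht
    have e : s * h + t * h = h := by rw [← add_mul, hst, one_mul]
    have e' : s * c + t * c = c := by rw [← add_mul, hst, one_mul]
    linarith
  refine ⟨?_, ?_, ?_, ?_⟩
  · intro a ha b hb s t hs ht hst
    have := key z.re a.re b.re s t ha hb hs ht hst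
    show h ≤ (s • a + t • b).re - z.re
    rw [Complex.add_re, Complex.smul_re, Complex.smul_re]
    exact this
  · intro a ha b hb s t hs ht hst
    have := key' z.re a.re b.re s t ha hb hs ht hst
    show h ≤ z.re - (s • a + t • b).re
    rw [Complex.add_re, Complex.smul_re, Complex.smul_re]
    exact this
  · intro a ha b hb s t hs ht hst
    have := key z.im a.im b.im s t ha hb hs ht hst
    show h ≤ (s • a + t • b).im - z.im
    rw [Complex.add_im, Complex.smul_im, Complex.smul_im]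
    exact this
  · intro a ha b hb s t hs ht hst
    have := key' z.im a.im b.im s t ha hb hs ht hst
    show h ≤ z.im - (s • a + t • b).im
    rw [Complex.add_im, Complex.smul_im, Complex.smul_im]
    exact this

theorem cout_eq (z : ℂ) (h : ℝ) : Cout z h =
    (({w : ℂ | h ≤ w.re - z.re} ∪ {w : ℂ | h ≤ w.im - z.im}) ∪ {w : ℂ | h ≤ z.re - w.re}) ∪
      {w : ℂ | h ≤ z.im - w.im} := by
  ext w
  simp only [Cout, sp, Set.mem_ofPred_eq, Set.mem_union]
  rw [le_max_iff, le_abs, le_abs]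
  have e1 : -(w.re - z.re) = z.re - w.re := by ring
  have e2 : -(w.im - z.im) = z.im - w.im := by ring
  rw [e1, e2]
  tauto

/-- **the outside of a square is preconnected** -/
theorem cout_pre (z : ℂ) (h : ℝ) : IsPreconnected (Cout z h) := by
  obtain ⟨c1, c2, c3, c4⟩ := half_conv z h
  rw [cout_eq]
  have m1 : (⟨z.re + |h|, z.im + |h|⟩ : ℂ) ∈ {w : ℂ | h ≤ w.re - z.re} ∩
      {w : ℂ | h ≤ w.im - z.im} := by
    constructor <;> simp [le_abs_self]
  have m2 : (⟨z.re - |h|, z.im + |h|⟩ : ℂ) ∈ {w : ℂ | h ≤ w.im - z.im} ∩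
      {w : ℂ | h ≤ z.re - w.re} := by
    constructor <;> simp [le_abs_self]
  have m3 : (⟨z.re - |h|, z.im - |h|⟩ : ℂ) ∈ {w : ℂ | h ≤ z.re - w.re} ∩
      {w : ℂ | h ≤ z.im - w.im} := by
    constructor <;> simp [le_abs_self]
  refine IsPreconnected.union _ (Or.inr m3.1) m3.2 (IsPreconnected.union _ (Or.inr m2.1) m2.2
    (IsPreconnected.union _ m1.1 m1.2 c1.isPreconnected c3.isPreconnected)
    c2.isPreconnected) c4.isPreconnected

variable {S : Finset ℂ} {zB : ℂ} {h r : ℝ}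

/-- **a site whose cell meets the outside of the square is near the outside** -/
theorem cell_far (hole : ∀ p : ℂ, sp zB p = h → ∃ t ∈ S, ‖t - p‖ < r) {v : ℂ}
    (hv : (Cout zB h ∩ voronoiCell (S : Set ℂ) v).Nonempty) : h - r < sp zB v ∨ h ≤ sp zB v := by
  obtain ⟨z, hz, hzv⟩ := hv
  by_cases h1 : h ≤ sp zB v
  · exact Or.inr h1
  · left
    push Not at h1
    have hpre := (convex_segment (𝕜 := ℝ) v z).isPreconnected
    obtain ⟨p, hp, hpn⟩ := hpre.intermediate_value (left_mem_segment ℝ v z)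
      (right_mem_segment ℝ v z) (sp_cont zB).continuousOn (⟨h1.le, hz⟩ : h ∈ Set.Icc _ _)
    obtain ⟨t, ht, h2⟩ := hole p hpn
    have hpv : p ∈ voronoiCell (S : Set ℂ) v :=
      (G6Vx408.convex_cell (S : Set ℂ) v).segment_subset (REwx838.self_cell v) hzv hp
    have h3 := hpv t (Finset.mem_coe.2 ht)
    have h4 := sp_lip zB p v
    rw [norm_sub_rev t p] at h2
    linarith

/-- **two far sites are joined by sites near the outside of the square** -/
theorem far_pth (hS : GP (S : Set ℂ)) (h3 : 3 ≤ S.card) (hr : 0 ≤ r)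
    (hole : ∀ p : ℂ, sp zB p = h → ∃ t ∈ S, ‖t - p‖ < r) {a b : ℂ} (ha : a ∈ S) (hb : b ∈ S)
    (ha' : h ≤ sp zB a) (hb' : h ≤ sp zB b) : Pth S {v | v ∈ S ∧ h - r ≤ sp zB v} a b := by
  refine REwx838.pth_of_set hS h3 (cout_pre zB h) ha hb ⟨ha', REwx838.self_cell a⟩
    ⟨hb', REwx838.self_cell b⟩ fun s hs hm => ⟨hs, ?_⟩
  rcases cell_far hole hm with h1 | h1
  · exact h1.le
  · linarith

/-- neighbouring cells -/
theorem nb_adj (hS : GP (S : Set ℂ)) {a b : ℂ} (h : Adj S a b) :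
    Nb (cm0 hS) (Quot.mk _ a) (Quot.mk _ b) := by
  have key : ∀ {a b : ℂ}, (∃ c, (a, b, c) ∈ delT S) →
      Nb (cm0 hS) (Quot.mk _ a) (Quot.mk _ b) := fun {a b} h =>
    ⟨⟨(a, b), mem_sd.2 h⟩, rfl, rfl⟩
  rcases h with h | h
  · exact key h
  · exact nb_symm (key h)

/-- a chain of sites whose cells are not in `K` -/
theorem ek_of_pth (hS : GP (S : Set ℂ)) {K : Set (Quot (hullE S))} {V : Set ℂ} {a b : ℂ}
    (hV : ∀ v ∈ V, (Quot.mk _ v : Quot (hullE S)) ∉ K) (h : Pth S V a b) :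
    (Quot.mk _ b : Quot (hullE S)) ∈ Ek (cm0 hS) (Quot.mk _ a) K := by
  refine Pth.ind (P := fun b => (Quot.mk _ b : Quot (hullE S)) ∈ Ek (cm0 hS) (Quot.mk _ a) K) h
    h0_ek ?_
  intro x y _ hy hxy hx
  exact ek_step hx (nb_adj hS hxy) (hV y hy)

/-- **the far sites are in `Ek`** -/
theorem far_ek (hS : GP (S : Set ℂ)) (h3 : 3 ≤ S.card) (hr : 0 ≤ r)
    (hole : ∀ p : ℂ, sp zB p = h → ∃ t ∈ S, ‖t - p‖ < r) {K : Set (Quot (hullE S))}
    (hK : ∀ v ∈ S, (Quot.mk _ v : Quot (hullE S)) ∈ K → sp zB v < h - r) {u s : ℂ} (hu : u ∈ S)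
    (hu' : h ≤ sp zB u) (hs : s ∈ S) (hs' : h ≤ sp zB s) :
    (Quot.mk _ s : Quot (hullE S)) ∈ Ek (cm0 hS) (Quot.mk _ u) K :=
  ek_of_pth hS (V := {v | v ∈ S ∧ h - r ≤ sp zB v})
    (fun v hv hvK => absurd (hK v hv.1 hvK) (not_lt.2 hv.2))
    (far_pth hS h3 hr hole hu hs hu' hs')

/-- the same for the giant, starting from any hull site -/
theorem far_eg (hS : GP (S : Set ℂ)) (h3 : 3 ≤ S.card) (hr : 0 ≤ r)
    (hole : ∀ p : ℂ, sp zB p = h → ∃ t ∈ S, ‖t - p‖ < r) {K : Set (Quot (hullE S))}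
    (hK : ∀ v ∈ S, (Quot.mk _ v : Quot (hullE S)) ∈ K → sp zB v < h - r) {u u' s : ℂ}
    (hu : OnHull S u) (hu0 : OnHull S u') (hu1 : u' ∈ S) (hu' : h ≤ sp zB u') (hs : s ∈ S)
    (hs' : h ≤ sp zB s) : (Quot.mk _ s : Quot (hullE S)) ∈ Ek (cm0 hS) (Quot.mk _ u) K := by
  rw [hull_mem hS h3 hu0 hu]
  exact far_ek hS h3 hr hole hK hu1 hu' hs hs'

/-- holes from `LDns` -/
theorem hole_dns {c : ℂ} {L d : ℝ} (hD : Crest.Agent.R143.RB0x838.LDns S c L d)
    (hL : ∀ p : ℂ, sp zB p = h → ‖p - c‖ ≤ L) : ∀ p : ℂ, sp zB p = h → ∃ t ∈ S, ‖t - p‖ < d :=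
  fun p hp => hD.hole p (hL p hp)

end Crest.Agent.R143.FarEkx88
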