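import Crest.Agent.R143.StgI_432
import Crest.Agent.R143.RevC_389

/-!
# Row 143 (S0194), block H (helper432): 389's exploration of the outside and 197's giant

* `Lp0` : data of a walk: black left / white right cells, states off `Far` and `Ann`, in `Dw`, one
  right cell in the white cluster `Cw`
* `Lp0.xs_ek`, `fs_ek`, `cw_ek` : explored outside, frontier, white cluster are in `Ek`;
  `Lp0.lk_eg` : the looked cells are in the giant; `Lp0.rcw` : all right cells are in `Cw`;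
  `Lp0.lf_lk` : the left cells are looked cells
* `Kc`, `coins_rc` : coins of the cells of `rc0`
* `Rfam`, `rfam_stop` : 389's exploration as a family, `IsStop`
* `ek_rc`, `eg_rc` : the giant of `rc0` = the giant of `cm0`
* `facts_ra` : my `Facts`; left: positions
-/

set_option autoImplicit false

noncomputable section

open scoped Classical

namespace Crest.Agent.R143.HRevx432

open Crest.Agent.R143.B0x346 Crest.Agent.R143.SumScx302 Crest.Agent.R143.Mass1x302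
  Crest.Agent.R143.Mass2x302 Crest.Agent.R143.Mass3x302
  Crest.Agent.R143.Mass4x302 Crest.Agent.R143.Mass5x302 Crest.Agent.R143.DelGx806
  Crest.Agent.R143.DelRx806 Crest.Agent.R143.JColx54
open Crest.Agent.R143.Frame1x395 Crest.Agent.R143.Frame2x395 Crest.Agent.R143.Frame3x395
  Crest.Agent.R143.Frame4x395 Crest.Agent.R143.Frame8x395 Crest.Agent.R143.Frame9x395
  Crest.Agent.R143.Frame10x395 Crest.Agent.R143.NonXx592
  Crest.Agent.R143.FinCx811 Crest.Agent.R143.SmallAx304 Crest.Agent.R143.GiantEx197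
  Crest.Agent.R143.StgIx432
open Crest.Agent.R143.Frame5x395 (sd mem_sd th th_spec)
open Crest.Agent.R143.Harx315 (IsStop)
open Crest.Agent.R143.Histx389 (Coins DecF)
open Crest.Agent.R143.RevAx389 (Cl Lk coins seed_cl cl_step cl_ind cl_lk cl_col)
open Crest.Agent.R143.RevCx389 (Rg Xs Fs Cw h0_xs xs_far xs_ann xs_ind lk_xs cw_white Ra R0 ra_stop)
open Crest.Agent.R143.Exitx707 (Nb nb_symm)

/-! ### the giant and the exploration -/

section gen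

variable {D C : Type} {M : CMap D C} {G : Rg D C} {ψ : C → ZMod 2} {p0 : D} {N : ℕ}

/-- a walk in the tiles -/
structure Lp0 (M : CMap D C) (G : Rg D C) (ψ : C → ZMod 2) (p0 : D) (N : ℕ) : Prop where
  bl : ψ (M.cell p0) = 1
  wh : ψ (M.cell (M.rho p0)) = 0
  h0 : G.h0 ∈ G.Far
  off : ∀ j ≤ N, M.cell (P M (cfg M ψ) p0 j) ∉ G.Far ∧ M.cell (P M (cfg M ψ) p0 j) ∉ G.Ann
  dwl : ∀ j ≤ N, M.cell (P M (cfg M ψ) p0 j) ∈ G.Dw
  dwr : ∀ j ≤ N, M.cell (M.rho (P M (cfg M ψ) p0 j)) ∈ G.Dw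
  ac : ∃ t ≤ N, M.cell (M.rho (P M (cfg M ψ) p0 t)) ∈ Cw M G ψ

variable [Fintype D]

theorem Lp0.occ (L : Lp0 M G ψ p0 N) : cfg M ψ p0 = 1 := by
  show ψ (M.cell p0) + ψ (M.cell (M.rho p0)) = 1
  rw [L.bl, L.wh]
  decide

/-- the left cells are black -/
theorem Lp0.black (L : Lp0 M G ψ p0 N) (j : ℕ) : ψ (M.cell (P M (cfg M ψ) p0 j)) = 1 := by
  rw [← L.bl]
  exact it_col (cfg_isC ψ) L.occ (fun d hd => by
    have h : ψ (M.cell d) + ψ (M.cell (M.rho d)) = 0 := hd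
    revert h
    generalize ψ (M.cell d) = a
    generalize ψ (M.cell (M.rho d)) = b
    revert a b; decide) j

/-- the right cells are white -/
theorem Lp0.white (L : Lp0 M G ψ p0 N) (j : ℕ) : ψ (M.cell (M.rho (P M (cfg M ψ) p0 j))) = 0 := by
  have h1 : ψ (M.cell (P M (cfg M ψ) p0 j)) + ψ (M.cell (M.rho (P M (cfg M ψ) p0 j))) = 1 :=
    P_occ (cfg_isC ψ) L.occ j
  rw [L.black j] at h1
  have h3 : ∀ a : ZMod 2, 1 + a = 1 → a = 0 := by decide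
  exact h3 _ h1

theorem Lp0.lf_black (L : Lp0 M G ψ p0 N) {c : C} (hc : c ∈ Lf M (cfg M ψ) p0 N) : ψ c = 1 := by
  obtain ⟨j, -, rfl⟩ := hc
  exact L.black j

theorem Lp0.lf_off (L : Lp0 M G ψ p0 N) {c : C} (hc : c ∈ Lf M (cfg M ψ) p0 N) :
    c ∉ G.Far ∧ c ∉ G.Ann := by
  obtain ⟨j, hj, rfl⟩ := hc
  exact L.off j hj

/-- consecutive right cells -/
theorem Lp0.rstep (L : Lp0 M G ψ p0 N) (t : ℕ) :
    M.cell (M.rho (P M (cfg M ψ) p0 (t + 1))) = M.cell (M.rho (P M (cfg M ψ) p0 t)) ∨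
      Nb M (M.cell (M.rho (P M (cfg M ψ) p0 t))) (M.cell (M.rho (P M (cfg M ψ) p0 (t + 1)))) := by
  have hI : IsC M ∅ (cfg M ψ) := cfg_isC ψ
  rw [P_succ]
  rcases stp_cases hI (P_occ hI L.occ t) (Set.notMem_empty _) with
    ⟨h1, h2, e⟩ | ⟨h1, h2, e⟩
  · left
    rw [e, cell_rho_iota M (hI.lv h1)]
  · right
    rw [e, cell_rho_iota M (hI.lv h2)]
    exact ⟨_, rfl, rfl⟩

/-- **all right cells are in the white cluster** -/
theorem Lp0.rcw (L : Lp0 M G ψ p0 N) {t : ℕ} (ht : t ≤ N) :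
    M.cell (M.rho (P M (cfg M ψ) p0 t)) ∈ Cw M G ψ := by
  obtain ⟨t1, ht1, h1⟩ := L.ac
  have up : ∀ u, t1 + u ≤ N → M.cell (M.rho (P M (cfg M ψ) p0 (t1 + u))) ∈ Cw M G ψ := by
    intro u
    induction u with
    | zero => exact fun _ => h1
    | succ u ih =>
      intro hu
      have h2 := ih (by omega)
      rcases L.rstep (t1 + u) with h | h
      · rw [← add_assoc, h]; exact h2
      · rw [← add_assoc]
        exact cl_step h2 h (L.dwr _ (by omega)) (L.white _)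
  have dn : ∀ u, u ≤ t1 → M.cell (M.rho (P M (cfg M ψ) p0 (t1 - u))) ∈ Cw M G ψ := by
    intro u
    induction u with
    | zero => exact fun _ => h1
    | succ u ih =>
      intro hu
      have h2 := ih (by omega)
      have e : t1 - u = (t1 - (u + 1)) + 1 := by omega
      rw [e] at h2
      rcases L.rstep (t1 - (u + 1)) with h | h
      · rw [← h]; exact h2
      · exact cl_step h2 (nb_symm h) (L.dwr _ (by omega)) (L.white _)
  rcases Nat.le_total t1 t with h | h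
  · obtain ⟨u, rfl⟩ := Nat.exists_eq_add_of_le h
    exact up u ht
  · have := dn (t1 - t) (by omega)
    rwa [Nat.sub_sub_self h] at this

theorem Lp0.xs_ek (L : Lp0 M G ψ p0 N) {c : C} (hc : c ∈ Xs M G ψ) :
    c ∈ Ek M G.h0 (Lf M (cfg M ψ) p0 N) := by
  refine xs_ind (Q := fun c => c ∈ Ek M G.h0 (Lf M (cfg M ψ) p0 N)) h0_ek ?_ c hc
  intro a c _ ih h1 h2
  refine ek_step ih h1 fun h3 => ?_
  have h4 := L.lf_off h3
  rcases h2 with h2 | h2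
  · exact h4.1 h2
  · exact h4.2 h2.1

theorem Lp0.fs_ek (L : Lp0 M G ψ p0 N) {c : C} (hc : c ∈ Fs M G ψ) :
    c ∈ Ek M G.h0 (Lf M (cfg M ψ) p0 N) := by
  obtain ⟨h1, -, a, ha, h2⟩ := hc
  exact ek_step (L.xs_ek ha) h2 fun h3 => (L.lf_off h3).2 h1

theorem Lp0.cw_ek (L : Lp0 M G ψ p0 N) {c : C} (hc : c ∈ Cw M G ψ) :
    c ∈ Ek M G.h0 (Lf M (cfg M ψ) p0 N) := by
  have key : ∀ c ∈ Cw M G ψ, c ∈ Ek M G.h0 (Lf M (cfg M ψ) p0 N) := by
    refine cl_ind (fun c hc => L.fs_ek hc) fun a c _ ih h1 _ h3 => ?_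
    refine ek_step ih h1 fun h4 => ?_
    rw [L.lf_black h4] at h3
    exact absurd h3 (by decide)
  exact key c hc

/-- the right cell of the start -/
theorem Lp0.hr (L : Lp0 M G ψ p0 N) :
    M.cell (M.rho p0) ∈ Ek M G.h0 (Lf M (cfg M ψ) p0 N) :=
  L.cw_ek (L.rcw (t := 0) (Nat.zero_le _))

/-- **the looked cells are in the giant** -/
theorem Lp0.lk_eg (L : Lp0 M G ψ p0 N) {c : C}
    (hc : c ∈ Lk (Nb M) G.Ann (Xs M G ψ) ∨ c ∈ Lk (Nb M) G.Dw (Cw M G ψ)) :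
    c ∈ Eg M G.h0 (Lf M (cfg M ψ) p0 N) := by
  rcases hc with hc | hc
  · rcases lk_xs hc with h | h
    · exact Or.inl (L.xs_ek h)
    · exact Or.inl (L.fs_ek h)
  · obtain ⟨-, a, ha, h⟩ := hc
    exact nb_mem (L.cw_ek ha) h

/-- **the left cells are looked cells** -/
theorem Lp0.lf_lk (L : Lp0 M G ψ p0 N) {j : ℕ} (hj : j ≤ N) :
    M.cell (P M (cfg M ψ) p0 j) ∈ Lk (Nb M) G.Dw (Cw M G ψ) :=
  ⟨L.dwl j hj, _, L.rcw hj, nb_symm ⟨_, rfl, rfl⟩⟩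

end gen

/-! ### `rc0` -/

section rc

variable {A β : Finset ℂ}

/-- the coin of a cell -/
def Kc (hS : GP (A : Set ℂ)) (h3 : 3 ≤ A.card) (c : Cs hS) : Finset ℂ := {(rp hS h3 c).1}

theorem kc_sub (hS : GP (A : Set ℂ)) (h3 : 3 ≤ A.card) (c : Cs hS) : Kc hS h3 c ⊆ A := by
  unfold Kc
  rw [Finset.singleton_subset_iff]
  exact (rp hS h3 c).2

theorem coins_rc (hS : GP (A : Set ℂ)) (h3 : 3 ≤ A.card) :
    Coins A (chiS hS h3) (Kc hS h3) := by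
  intro c b b' _ _ h
  unfold chiS
  refine if_congr ?_ rfl rfl
  have key : ∀ b : Finset ℂ, (rp hS h3 c).1 ∈ b ↔ (rp hS h3 c).1 ∈ b ∩ Kc hS h3 c := by
    intro b
    rw [Finset.mem_inter]
    exact ⟨fun h => ⟨h, Finset.mem_singleton_self _⟩, fun h => h.1⟩
  rw [key b, key b', h]

/-- **389's exploration as a family** -/
def Rfam (G : ∀ (A : Finset ℂ) (hS : GP (A : Set ℂ)), Rg (D0 A) (Cs hS)) (A β : Finset ℂ) :
    Finset ℂ :=
  if h : ∃ _ : GP (A : Set ℂ), 3 ≤ A.card then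
    Ra (rc0 h.choose) (G A h.choose) A (chiS h.choose h.choose_spec) (Kc h.choose h.choose_spec) β
  else ∅

theorem rfam_eq {G : ∀ (A : Finset ℂ) (hS : GP (A : Set ℂ)), Rg (D0 A) (Cs hS)}
    (hS : GP (A : Set ℂ)) (h3 : 3 ≤ A.card) :
    Rfam G A β = Ra (rc0 hS) (G A hS) A (chiS hS h3) (Kc hS h3) β := by
  have h : ∃ _ : GP (A : Set ℂ), 3 ≤ A.card := ⟨hS, h3⟩
  unfold Rfam
  rw [dif_pos h]

theorem rfam_stop (G : ∀ (A : Finset ℂ) (hS : GP (A : Set ℂ)), Rg (D0 A) (Cs hS))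
    (A : Finset ℂ) : IsStop A (Rfam G A) := by
  by_cases h : ∃ _ : GP (A : Set ℂ), 3 ≤ A.card
  · obtain ⟨hS, h3⟩ := h
    have e : Rfam G A = Ra (rc0 hS) (G A hS) A (chiS hS h3) (Kc hS h3) :=
      funext fun β => rfam_eq hS h3
    rw [e]
    exact ra_stop (coins_rc hS h3) (kc_sub hS h3)
  · have e : Rfam G A = fun _ => ∅ := funext fun β => dif_neg h
    rw [e]
    exact ⟨fun _ _ => Finset.empty_subset _, fun _ _ _ _ _ => rfl⟩

/-- a revealed site is the site of a looked cell -/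
theorem mem_ra {hS : GP (A : Set ℂ)} {h3 : 3 ≤ A.card} {G : Rg (D0 A) (Cs hS)} {v : ℂ} :
    v ∈ Ra (rc0 hS) G A (chiS hS h3) (Kc hS h3) β ↔ ∃ c : Cs hS, (rp hS h3 c).1 = v ∧
      (c ∈ Lk (Nb (rc0 hS)) G.Ann (Xs (rc0 hS) G (chiS hS h3 β)) ∨
        c ∈ Lk (Nb (rc0 hS)) G.Dw (Cw (rc0 hS) G (chiS hS h3 β))) := by
  unfold Ra R0 coins
  simp only [Finset.mem_union, Finset.mem_filter]
  constructor
  · rintro (⟨-, c, h1, h2⟩ | ⟨-, c, h1, h2⟩)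
    · exact ⟨c, (Finset.mem_singleton.1 h2).symm, Or.inl h1⟩
    · exact ⟨c, (Finset.mem_singleton.1 h2).symm, Or.inr h1⟩
  · rintro ⟨c, rfl, h1 | h1⟩
    · exact Or.inl ⟨(rp hS h3 c).2, c, h1, Finset.mem_singleton_self _⟩
    · exact Or.inr ⟨(rp hS h3 c).2, c, h1, Finset.mem_singleton_self _⟩

/-! ### the giant of `rc0` and of `cm0` -/

variable {hS : GP (A : Set ℂ)} {x : D0 A → ZMod 2} {p : D0 A} {N : ℕ} {h : Cs hS}

theorem P_rc (x : D0 A → ZMod 2) (p : D0 A) (n : ℕ) :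
    P (rc0 hS) x p n = P (cm0 hS) x p n := rfl

theorem nb_rc {c c' : Cs hS} : Nb (rc0 hS) c c' ↔ Nb (cm0 hS) c.1 c'.1 := by
  constructor
  · rintro ⟨d, rfl, rfl⟩
    exact ⟨d, rfl, rfl⟩
  · rintro ⟨d, h1, h2⟩
    exact ⟨d, Subtype.ext h1, Subtype.ext h2⟩

theorem lf_rc {c : Cs hS} : c ∈ Lf (rc0 hS) x p N ↔ c.1 ∈ Lf (cm0 hS) x p N := by
  constructor
  · rintro ⟨j, hj, e⟩
    exact ⟨j, hj, congrArg Subtype.val e⟩
  · rintro ⟨j, hj, e⟩
    exact ⟨j, hj, Subtype.ext e⟩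

theorem ek_rc {c : Cs hS} : c ∈ Ek (rc0 hS) h (Lf (rc0 hS) x p N) ↔
    c.1 ∈ Ek (cm0 hS) h.1 (Lf (cm0 hS) x p N) := by
  constructor
  · intro hc
    refine ek_ind (Q := fun c : Cs hS => c.1 ∈ Ek (cm0 hS) h.1 (Lf (cm0 hS) x p N)) h0_ek ?_ c hc
    intro a c _ ih h1 h2
    exact ek_step ih (nb_rc.1 h1) fun h3 => h2 (lf_rc.2 h3)
  · intro hc
    have key : ∀ c ∈ Ek (cm0 hS) h.1 (Lf (cm0 hS) x p N), ∀ hr : c ∈ Set.range (cm0 hS).cell,
        (⟨c, hr⟩ : Cs hS) ∈ Ek (rc0 hS) h (Lf (rc0 hS) x p N) := by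
      refine ek_ind (Q := fun c => ∀ hr : c ∈ Set.range (cm0 hS).cell,
        (⟨c, hr⟩ : Cs hS) ∈ Ek (rc0 hS) h (Lf (rc0 hS) x p N)) (fun _ => h0_ek) ?_
      intro a c _ ih h1 h2 hr
      have ha : a ∈ Set.range (cm0 hS).cell := by
        obtain ⟨d, e, -⟩ := h1
        exact ⟨d, e⟩
      exact ek_step (ih ha) (nb_rc.2 h1) fun h3 => h2 (lf_rc.1 h3)
    exact key c.1 hc c.2

theorem eg_rc {c : Cs hS} : c ∈ Eg (rc0 hS) h (Lf (rc0 hS) x p N) ↔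
    c.1 ∈ Eg (cm0 hS) h.1 (Lf (cm0 hS) x p N) := or_congr ek_rc lf_rc

/-- **`Facts` from 389's exploration and 197's giant**; left: positions -/
theorem facts_ra {U Bx : Set ℂ} (h3 : 3 ≤ A.card) {u : ℂ} (hu : OnHull A u)
    {G : Rg (D0 A) (Cs hS)} (hG : G.h0.1 = Quot.mk _ u) {p0 : D0 A}
    (L : Lp0 (rc0 hS) G (chiS hS h3 β) p0 N)
    (out : ∀ v ∈ A, v ∈ U → ¬ OnHull A v)
    (fac : ∀ a b c, (a, b, c) ∈ delT A →
      (Quot.mk _ a : Quot (hullE A)) ∉ Eg (cm0 hS) (Quot.mk _ u)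
        (Lf (cm0 hS) (cfg (rc0 hS) (chiS hS h3 β)) p0 N) → cdisc (a, b, c) ⊆ U)
    (box : ∀ v ∈ A, v ∈ Bx →
      (Quot.mk _ v : Quot (hullE A)) ∉ Eg (cm0 hS) (Quot.mk _ u)
        (Lf (cm0 hS) (cfg (rc0 hS) (chiS hS h3 β)) p0 N)) :
    Facts U Bx A β (Ra (rc0 hS) G A (chiS hS h3) (Kc hS h3) β)
      (Eg (cm0 hS) (Quot.mk _ u) (Lf (cm0 hS) (cfg (rc0 hS) (chiS hS h3 β)) p0 N)) := by
  set x := cfg (rc0 hS) (chiS hS h3 β) with hx
  have hxC : IsC (cm0 hS) ∅ x := by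
    have h1 : IsC (rc0 hS) ∅ x := cfg_isC _
    exact ⟨h1.dead, h1.iot, h1.par⟩
  have hnh : ∀ j ≤ N, ¬ OnHull A (P (cm0 hS) x p0 j).1.1 := by
    intro j hj hh
    have h1 := (L.off j hj).1
    refine h1 ?_
    have h2 : (rc0 hS).cell (P (rc0 hS) x p0 j) = G.h0 := by
      apply Subtype.ext
      rw [hG]
      exact hull_mem hS h3 hu hh
    rw [← hx, h2]
    exact L.h0
  refine facts_walk hS h3 hu hxC L.occ ?_ out fac box ?_ ?_
  · have h1 := L.hr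
    have h2 := ek_rc.1 h1
    rw [hG] at h2
    exact h2
  · intro v hv hR
    obtain ⟨c, rfl, hc⟩ := mem_ra.1 hR
    have h1 := eg_rc.1 (L.lk_eg hc)
    rw [hG] at h1
    have h2 : c.1 = Quot.mk _ (rp hS h3 c).1 := (congrArg Subtype.val (cs_rp hS h3 c)).symm
    rw [← h2]
    exact h1
  · intro j hj
    have hn := hnh j hj
    have hvA : (P (cm0 hS) x p0 j).1.1 ∈ A := by
      obtain ⟨c, hc⟩ := mem_sd.1 (P (cm0 hS) x p0 j).2
      exact (mem_delT.1 hc).1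
    have h1 : (rp hS h3 ((rc0 hS).cell (P (rc0 hS) x p0 j))).1 = (P (cm0 hS) x p0 j).1.1 := by
      have h2 : (rc0 hS).cell (P (rc0 hS) x p0 j) = cs hS h3 ⟨(P (cm0 hS) x p0 j).1.1, hvA⟩ :=
        Subtype.ext rfl
      rw [h2, rp_inner hS h3 (v := ⟨_, hvA⟩) hn]
    refine ⟨hn, mem_ra.2 ⟨_, h1, Or.inr (L.lf_lk hj)⟩, ?_⟩
    have h4 : chiS hS h3 β ((rc0 hS).cell (P (rc0 hS) x p0 j)) = 1 := L.black j
    have h6 : ∀ c, chiS hS h3 β c = if (rp hS h3 c).1 ∈ β then 1 else 0 := fun _ => rfl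
    rw [h6, h1] at h4
    by_contra h5
    rw [if_neg h5] at h4
    exact absurd h4 (by decide)

/-- the family form -/
theorem facts_rfam {U Bx : Set ℂ} (h3 : 3 ≤ A.card) {u : ℂ} (hu : OnHull A u)
    {G : ∀ (A : Finset ℂ) (hS : GP (A : Set ℂ)), Rg (D0 A) (Cs hS)}
    (hG : (G A hS).h0.1 = Quot.mk _ u) {p0 : D0 A}
    (L : Lp0 (rc0 hS) (G A hS) (chiS hS h3 β) p0 N)
    (out : ∀ v ∈ A, v ∈ U → ¬ OnHull A v)
    (fac : ∀ a b c, (a, b, c) ∈ delT A →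
      (Quot.mk _ a : Quot (hullE A)) ∉ Eg (cm0 hS) (Quot.mk _ u)
        (Lf (cm0 hS) (cfg (rc0 hS) (chiS hS h3 β)) p0 N) → cdisc (a, b, c) ⊆ U)
    (box : ∀ v ∈ A, v ∈ Bx →
      (Quot.mk _ v : Quot (hullE A)) ∉ Eg (cm0 hS) (Quot.mk _ u)
        (Lf (cm0 hS) (cfg (rc0 hS) (chiS hS h3 β)) p0 N)) :
    Facts U Bx A β (Rfam G A β)
      (Eg (cm0 hS) (Quot.mk _ u) (Lf (cm0 hS) (cfg (rc0 hS) (chiS hS h3 β)) p0 N)) := by
  rw [rfam_eq hS h3]
  exact facts_ra h3 hu hG L out fac box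

end rc

end Crest.Agent.R143.HRevx432
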