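import Crest.Agent.R143.Strip_707
import Crest.Agent.R143.SmallA_304

/-!
# Row 143 (S0194), block H: the location statement for any family of colourings (helper707)

* `Fre S V σ χ` : `V` = free inner sites: `χ b (σ s) = 1` iff `s ∈ b` for `s ∈ V`, any `b`
* `meet_tw'`, `meet_cd'` : the location statement; `h2_tube'` : H2 for one window and one core
* `tw_inter`, `pr_tw` : the tube event looks at `V` only
* `fre_chiS`, `coins_chiS`, `csub_chiS`, `cdis_chiS` : instance `chiS hS h3` of 304 on `rc0 hS`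
* `h2_chiS` : H2 for one window and one core in the form of `Asm4_414`
-/

set_option autoImplicit false

noncomputable section

open scoped Classical

namespace Crest.Agent.R143.Meet2x707

open Crest.Agent.R143.B0x346 Crest.Agent.R143.DelGx806 Crest.Agent.R143.DelRx806
open Crest.Agent.R143.ToolWx838 Crest.Agent.R143.Blkx838 Crest.Agent.R143.ToolW2x838
open Crest.Agent.R143.ToolW3x838 Crest.Agent.R143.Circ4x838 Crest.Agent.R143.Harx315
open Crest.Agent.R143.RB0x838 Crest.Agent.R143.CircPx838 Crest.Agent.R143.Gatex838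
open Crest.Agent.R143.CBx838 Crest.Agent.R143.Multix838 Crest.Agent.R143.RBmx838
open Crest.Agent.R143.JColx54
open Crest.Agent.R143.Frame1x395 Crest.Agent.R143.Frame2x395 Crest.Agent.R143.Frame3x395
  Crest.Agent.R143.Frame8x395 Crest.Agent.R143.Frame9x395 Crest.Agent.R143.Frame10x395
  Crest.Agent.R143.NonXx592
open Crest.Agent.R143.Frame5x395 (sd mem_sd th th_spec)
open Crest.Agent.R143.Tubex707 Crest.Agent.R143.Exitx707 Crest.Agent.R143.TubeWx707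
open Crest.Agent.R143.Histx389 Crest.Agent.R143.RevCx389 Crest.Agent.R143.Chordx355
  Crest.Agent.R143.Chord2x355
  Crest.Agent.R143.H2x355 Crest.Agent.R143.Meetx707 Crest.Agent.R143.Stripx707
open Crest.Agent.R143.FinCx811 (Cs rc0 cs cs_inj cs_hull cell_mem)
open Crest.Agent.R143.SmallAx304 (chiS rp cs_rp rp_inj rp_inner chiS_inner)

variable {S : Finset ℂ} {C : Type} {M : CMap (D0 S) C} {σ : ℂ → C} {hS : GP (S : Set ℂ)}

/-- free inner sites `V` of the family of colourings `χ` -/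
structure Fre (S V : Finset ℂ) (σ : ℂ → C) (χ : Finset ℂ → C → ZMod 2) : Prop where
  sub : V ⊆ S
  inn : ∀ s ∈ V, ¬ OnHull S s
  col : ∀ b s, s ∈ V → χ b (σ s) = if s ∈ b then 1 else 0

variable {V : Finset ℂ} {χ : Finset ℂ → C → ZMod 2} {b b' : Finset ℂ} {z1 z2 : ℂ} {r1 r2 : ℝ}
  {q : Rect} {G : Rg (D0 S) C}

theorem fre_chi (H : Pl hS M σ) (hV : V ⊆ S) (hVi : ∀ s ∈ V, ¬ OnHull S s) {χ0 : C → ZMod 2} :
    Fre S V σ (chi V σ χ0) :=
  ⟨hV, hVi, fun _ _ hs => chi_free H hV hVi hs⟩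

/-- **the location statement of one window** -/
theorem meet_tw' (H : Pl hS M σ) (h3 : 3 ≤ S.card) (h0 : ∀ s, OnHull S s → σ s = G.h0)
    (F : Fre S V σ χ) (hF : cel S σ (fun s => r2 ≤ sup (s - z2)) ⊆ G.Far)
    (hTD : ∀ s ∈ V, q.Reg s → σ s ∈ G.Th ∨ σ s ∈ G.Dp)
    (hDp : ∀ s ∈ V, r1 < sup (s - z1) → sup (s - z1) < 2 * r1 → σ s ∈ G.Dp)
    (ho : ∀ s ∈ V, q.Reg s → Rect.Out q s → 2 * r1 ≤ sup (s - z1) ∧ r2 ≤ sup (s - z2))
    (hi : ∀ s ∈ V, q.Reg s → Rect.Inn q s → sup (s - z1) ≤ r1)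
    (hT : TW S V z1 r1 q b') {k : D0 S} {n : ℕ}
    (hk : cfg M (χ b) (M.rho k) = 1) (hst : 2 * r1 ≤ sup (ls (M.rho k) - z1))
    (hd : ∃ u, u ≤ n ∧ lc M (cfg M (χ b)) (M.rho k) u ∈ cel S σ fun s => sup (s - z1) ≤ r1) :
    Meet M G χ b b' k n := by
  set x := cfg M (χ b) with hx
  have hC : IsC (cm0 hS) ∅ x := H.isC _
  obtain ⟨u, hu, hu'⟩ := hd
  have hu2 : sup (ls (P (cm0 hS) x (M.rho k) u) - z1) ≤ r1 := by
    have h4 := cel_dart (A := fun s => sup (s - z1) ≤ r1) H hu'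
    rw [H.P_eq] at h4
    exact h4
  obtain ⟨w, m, hw0, hw1, hw2, hw3, j, hj, hwj⟩ := tube_meet hS hT
    (fun s h1 h2 h3 => (ho s h1 h2 h3).1) hi hC hk hst ⟨u, hu, hu2⟩
  have hwV := hw2 0 (Nat.zero_le _)
  have hfar : σ (w 0) ∈ Xs M G (χ b) :=
    far_xs H h3 h0 hF (F.sub (Finset.mem_sdiff.1 hwV.1).1)
      (ho _ (Finset.mem_sdiff.1 hwV.1).1 hw1 hw0).2
  refine ⟨fun i => σ (w i), m, Or.inl hfar, fun i hi => H.nb (hw3 i hi), ?_, j, hj, Or.inl ?_⟩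
  · intro i hi
    right
    obtain ⟨h1, h2⟩ := hw2 i hi
    obtain ⟨h4, h5⟩ := Finset.mem_sdiff.1 h1
    refine ⟨?_, ?_⟩
    · rcases h2 with h2 | ⟨h2, h6⟩
      · exact hTD _ h4 h2
      · exact Or.inr (hDp _ h4 h2 h6)
    · show χ b' (σ (w i)) = 0
      rw [F.col _ _ h4, if_neg h5]
  · show σ (w m) = M.cell (P M x (M.rho k) j)
    rw [hwj, H.cell, H.P_eq]
    rfl

variable {A : Finset ℂ} {K : C → Finset ℂ}

/-- **389's location statement** for the chords of the arc which reach the core -/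
theorem meet_cd' (H : Pl hS M σ) (h3 : 3 ≤ S.card) (h0 : ∀ s, OnHull S s → σ s = G.h0)
    (F : Fre S V σ χ) (hG : Geo S V σ G z1 z2 r1 r2 q) (hO : Ow M G A χ K b)
    (hT : TW S V z1 r1 q b') {k : D0 S} {n : ℕ}
    (hc : Cd M (cfg M (χ b)) (p0 M G (χ b)) (ln M G (χ b)) (Cw M G (χ b)) k n)
    (hg : gd M G (core S σ z1 r1) (χ b) k n) : Meet M G χ b b' k n := by
  refine meet_tw' H h3 h0 F hG.far hG.td ?_ hG.out hG.inn hT hc.gp.2 ?_ hg.2.2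
  · intro s hs _ h2
    exact hG.dp ⟨s, F.sub hs, F.inn s hs, h2, rfl⟩
  · by_contra hlt
    push Not at hlt
    obtain ⟨a, ha, e⟩ := hc.c0
    have e' : M.cell (P M (cfg M (χ b)) (p0 M G (χ b)) a) = M.cell (M.rho k) := e
    have h1 : M.cell (M.rho k) ∉ G.Dp := by
      have h2 := (hO.lt a ha).2
      rw [e'] at h2
      exact h2
    have h2 : M.cell (M.rho k) ∉ Xs M G (χ b) := by
      have h2 := hO.lx a ha
      rw [e'] at h2
      exact h2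
    have h5 : ¬ OnHull S (ls (M.rho k)) := fun h => h2 (by
      rw [H.cell]
      rw [show σ (M.rho k).1.1 = G.h0 from h0 _ h]
      exact h0_xs)
    exact h1 (hG.dp ⟨ls (M.rho k), ls_mem _, h5, hlt, by rw [H.cell]; rfl⟩)

/-- **H2 for one window and one core square**, any family of colourings -/
theorem h2_tube' (H : Pl hS M σ) (h3 : 3 ≤ S.card) (h0 : ∀ s, OnHull S s → σ s = G.h0)
    (F : Fre S V σ χ) (hχ : Coins A χ K) (hK : ∀ c, K c ⊆ A)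
    (hdis : ∀ c c' y, y ∈ K c → y ∈ K c' → c = c') (hG : Geo S V σ G z1 z2 r1 r2 q)
    (hTh : ∀ c, c ∈ G.Dw → c ∉ G.Th) {w : Finset ℂ → ℝ}
    (hw : DecF A (R1 M G A χ K) w) (w0 : ∀ b, b ⊆ A → 0 ≤ w b)
    (w1 : ∀ b, b ⊆ A → w b ≤ 1)
    (ho : ∀ b, b ⊆ A → w b ≠ 0 → Ow M G A χ K b) (φ : D0 S → ℂ)
    (I : Finset (D0 S × ℕ)) {c : ℝ} (hc : c ≤ pr A (TW S V z1 r1 q))
    (Big : Finset ℂ → Finset (Finset (D0 S)))
    (hBig : ∀ b, b ⊆ A → w b ≠ 0 → ∀ i ∈ I,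
      Jc M (cfg M (χ b)) (p0 M G (χ b)) (ln M G (χ b)) (Cw M G (χ b)) i.1 i.2 →
      gd M G (core S σ z1 r1) (χ b) i.1 i.2 → blk M (cfg M (χ b)) i.1 ∈ Big b) :
    c * ∑ b ∈ A.powerset, ∑ i ∈ I, Fk M χ (fun b => p0 M G (χ b))
        (fun b => ln M G (χ b)) (fun b => Cw M G (χ b)) w
        (fun b k n => gd M G (core S σ z1 r1) (χ b) k n) φ i b ≤
      ∑ b ∈ A.powerset, w b * ∑ β ∈ Big b, ‖∑ h ∈ β, φ h‖ ^ 2 := by
  refine h2w hχ hK hdis hTh (fun d hd => H.gen h0 hd) hw w0 w1 ho φ I hc ?_ Big hBig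
  intro b b' hb _ hwb hT k n hcd hg
  exact meet_cd' H h3 h0 F hG (ho b hb hwb) hT hcd hg

/-! ### the tube event looks at `V` only -/

theorem tw_inter : TW S V z1 r1 q (b ∩ V) ↔ TW S V z1 r1 q b := by
  unfold TW
  rw [show V \ (b ∩ V) = V \ b by
    ext s
    simp only [Finset.mem_sdiff, Finset.mem_inter]
    tauto]

theorem pr_tw (hV : V ⊆ A) : pr A (TW S V z1 r1 q) = pr V (TW S V z1 r1 q) :=
  Crest.Agent.R143.Harx315.pr_dep hV fun _ _ => tw_inter.symm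

/-! ### 304's colourings -/

variable {h3 : 3 ≤ S.card}

theorem sr_cs {v : ℂ} (hv : v ∈ S) : sr hS h3 v = cs hS h3 ⟨v, hv⟩ := by
  unfold sr
  rw [dif_pos hv]

theorem fre_chiS (hV : V ⊆ S) (hVi : ∀ s ∈ V, ¬ OnHull S s) :
    Fre S V (sr hS h3) (chiS hS h3) where
  sub := hV
  inn := hVi
  col b s hs := by
    rw [sr_cs (hV hs)]
    exact chiS_inner hS h3 b (v := ⟨s, hV hs⟩) (hVi s hs)

/-- the coin of a cell -/
def cnS (hS : GP (S : Set ℂ)) (h3 : 3 ≤ S.card) (c : Cs hS) : Finset ℂ := {(rp hS h3 c).1}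

theorem coins_chiS : Coins S (chiS hS h3) (cnS hS h3) := by
  intro c b b' _ _ h
  unfold cnS at h
  unfold chiS
  have h1 : (rp hS h3 c).1 ∈ b ↔ (rp hS h3 c).1 ∈ b' := by
    have h2 : (rp hS h3 c).1 ∈ b ∩ {(rp hS h3 c).1} ↔ (rp hS h3 c).1 ∈ b' ∩ {(rp hS h3 c).1} := by
      rw [h]
    simpa using h2
  by_cases hb : (rp hS h3 c).1 ∈ b
  · rw [if_pos hb, if_pos (h1.1 hb)]
  · rw [if_neg hb, if_neg fun h => hb (h1.2 h)]

theorem csub_chiS (c : Cs hS) : cnS hS h3 c ⊆ S := by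
  unfold cnS
  rw [Finset.singleton_subset_iff]
  exact (rp hS h3 c).2

theorem cdis_chiS (c c' : Cs hS) (y : ℂ) (h : y ∈ cnS hS h3 c) (h' : y ∈ cnS hS h3 c') :
    c = c' := by
  unfold cnS at h h'
  rw [Finset.mem_singleton] at h h'
  exact rp_inj hS h3 (Subtype.ext (h.symm.trans h'))

/-- **H2 for one window and one core square for 304's colourings of all sites** -/
theorem h2_chiS {G : Rg (D0 S) (Cs hS)} (h0 : ∀ s, OnHull S s → sr hS h3 s = G.h0)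
    (hV : V ⊆ S) (hVi : ∀ s ∈ V, ¬ OnHull S s) (hG : Geo S V (sr hS h3) G z1 z2 r1 r2 q)
    (hTh : ∀ c, c ∈ G.Dw → c ∉ G.Th) {w : Finset ℂ → ℝ}
    (hw : DecF S (R1 (rc0 hS) G S (chiS hS h3) (cnS hS h3)) w) (w0 : ∀ b, b ⊆ S → 0 ≤ w b)
    (w1 : ∀ b, b ⊆ S → w b ≤ 1)
    (ho : ∀ b, b ⊆ S → w b ≠ 0 → Ow (rc0 hS) G S (chiS hS h3) (cnS hS h3) b) (φ : D0 S → ℂ)
    (I : Finset (D0 S × ℕ)) {c : ℝ} (hc : c ≤ pr V (TW S V z1 r1 q))
    (Big : Finset ℂ → Finset (Finset (D0 S)))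
    (hBig : ∀ b, b ⊆ S → w b ≠ 0 → ∀ i ∈ I,
      Jc (rc0 hS) (cfg (rc0 hS) (chiS hS h3 b)) (p0 (rc0 hS) G (chiS hS h3 b))
        (ln (rc0 hS) G (chiS hS h3 b)) (Cw (rc0 hS) G (chiS hS h3 b)) i.1 i.2 →
      gd (rc0 hS) G (core S (sr hS h3) z1 r1) (chiS hS h3 b) i.1 i.2 →
      blk (rc0 hS) (cfg (rc0 hS) (chiS hS h3 b)) i.1 ∈ Big b) :
    c * ∑ b ∈ S.powerset, ∑ i ∈ I, Fk (rc0 hS) (chiS hS h3)
        (fun b => p0 (rc0 hS) G (chiS hS h3 b))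
        (fun b => ln (rc0 hS) G (chiS hS h3 b)) (fun b => Cw (rc0 hS) G (chiS hS h3 b)) w
        (fun b k n => gd (rc0 hS) G (core S (sr hS h3) z1 r1) (chiS hS h3 b) k n) φ i b ≤
      ∑ b ∈ S.powerset, w b * ∑ β ∈ Big b, ‖∑ h ∈ β, φ h‖ ^ 2 :=
  h2_tube' (pl_rc0 hS h3) h3 h0 (fre_chiS hV hVi) coins_chiS csub_chiS cdis_chiS hG hTh hw w0 w1
    ho φ I (hc.trans (pr_tw hV).ge) Big hBig

end Crest.Agent.R143.Meet2x707
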