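import Crest.Agent.R143.SumA_389
import Crest.Agent.R143.BigF_357
import Crest.Agent.R143.Meet2_707
import Crest.Agent.R143.Asm4_414

/-!
# Row 143 (S0194), block H: the clause `RY` of `Asm4_414.ValsQ` from input [A] (helper136)

* `GeoA` : geometry of the windows and core squares at one set of sites `A`
* `hbig` : hypothesis `hBig` of 389's `sumA` (macroscopic blocks of 304); `hmeet` : hypothesis `hm`
* `avPhi` : the mean of 389's `Phi` given the full exploration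
* **`quenA`** : `Σ_b w b * av Out PhiA ≤ c⁻¹ (windows) (cores) 2^|A| E`, quenched
* `QA` : the data of [A] at one sample; **`majA`** : `QA` a.e. ==> `MajQ ε B g Y (const * E ε)` with
  one measurable `E` of `k` and `U`, `∫ E ε → 0`; **`majA_lim`** : the clause `RY`
-/

set_option autoImplicit false
set_option linter.unusedSectionVars false

noncomputable section

open scoped Classical ENNReal

namespace Crest.Agent.R143.MajAx136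

open MeasureTheory Filter Topology
open Crest.ProbabilityR.Voronoi
open Crest.Agent.R143.B0x346 Crest.Agent.R143.DelGx806 Crest.Agent.R143.DelRx806
  Crest.Agent.R143.PP0x831 Crest.Agent.R143.JColx54
  Crest.Agent.R143.SumScx302 Crest.Agent.R143.Mass1x302 Crest.Agent.R143.Mass2x302
  Crest.Agent.R143.Mass3x302 Crest.Agent.R143.Mass4x302 Crest.Agent.R143.Mass5x302
  Crest.Agent.R143.MassPx304 Crest.Agent.R143.MassQx304 Crest.Agent.R143.SmallAx304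
  Crest.Agent.R143.Frame1x395 Crest.Agent.R143.Frame2x395 Crest.Agent.R143.Frame3x395
  Crest.Agent.R143.Frame4x395
  Crest.Agent.R143.Frame8x395 Crest.Agent.R143.Frame9x395 Crest.Agent.R143.Frame10x395
  Crest.Agent.R143.Frame11x395 Crest.Agent.R143.NonXx592 Crest.Agent.R143.Harx315
  Crest.Agent.R143.Histx389 Crest.Agent.R143.Tubex389 Crest.Agent.R143.RevCx389
  Crest.Agent.R143.RevEx389 Crest.Agent.R143.RingWx389
  Crest.Agent.R143.SumAx389 Crest.Agent.R143.Chordx355 Crest.Agent.R143.Chord2x355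
  Crest.Agent.R143.H2x355 Crest.Agent.R143.BigFx357 Crest.Agent.R143.Meetx707
  Crest.Agent.R143.Meet2x707 Crest.Agent.R143.Asm4x414 Crest.Agent.R143.EqdMx811
  Crest.Agent.R143.Trans2x690 Crest.Agent.R143.Trans3x690
open Crest.Agent.R143.TubeWx707 (ls ls_mem TW)
open Crest.Agent.R143.CircPx838 (sup sup_le_norm)
open Crest.Agent.R143.Multix838 (Rect)
open Crest.Agent.R143.FinCx811 (Cs rc0)
open Crest.Agent.R143.HGluex136 (av real_le mq)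
open Crest.Agent.R143.Dbl2x609 (Ap paint coe_Ap)

variable {W0 U : Set ℂ} {k c : ℝ} {m₀ : ℕ} {ι : Type}

/-- geometry of the windows `i < m₀` and the core squares `(cz z, rz z)`, `z ∈ Z`, at one set of
sites `A` : regions `G i` (one window), `Gf` (full exploration), free sites `V`, big square `z2 r2`,
strips `q i z` -/
structure GeoA (U : Set ℂ) (k c : ℝ) (m₀ : ℕ) (A : Finset ℂ) (hS : GP (A : Set ℂ))
    (h3 : 3 ≤ A.card) (G : ℕ → Rg (D0 A) (Cs hS)) (Gf : Rg (D0 A) (Cs hS)) (V : Finset ℂ)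
    (Z : Finset ι) (cz : ι → ℂ) (rz : ι → ℝ) (z2 : ℂ) (r2 : ℝ) (q : ℕ → ι → Rect) : Prop where
  inn : ∀ v ∈ A, v ∈ U → ¬ OnHull A v
  dn : Dn A {v | sup (v - z2) < r2} U
  h0 : ∀ i, i < m₀ → ∀ s, OnHull A s → sr hS h3 s = (G i).h0
  le : ∀ i, i < m₀ → Le (G i) Gf
  th : ∀ i, i < m₀ → ∀ c, c ∈ (G i).Dw → c ∉ (G i).Th
  sub : V ⊆ A
  vin : ∀ s ∈ V, ¬ OnHull A s
  far : ∀ i, i < m₀ → cel A (sr hS h3) (fun s => r2 ≤ sup (s - z2)) ⊆ (G i).Far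
  geo : ∀ i, i < m₀ → ∀ z ∈ Z, Geo A V (sr hS h3) (G i) (cz z) z2 (rz z) r2 (q i z)
  rad : ∀ z ∈ Z, 2 * k ≤ rz z
  pr : ∀ i, i < m₀ → ∀ z ∈ Z, c ≤ pr V (TW A V (cz z) (rz z) (q i z))

variable {A : Finset ℂ} {hS : GP (A : Set ℂ)} {h3 : 3 ≤ A.card} {G : ℕ → Rg (D0 A) (Cs hS)}
  {Gf : Rg (D0 A) (Cs hS)} {V : Finset ℂ} {Z : Finset ι} {cz : ι → ℂ} {rz : ι → ℝ} {z2 : ℂ}
  {r2 : ℝ} {q : ℕ → ι → Rect}

theorem sup_sub_le (a b z : ℂ) : sup (a - z) ≤ sup (b - z) + ‖a - b‖ := by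
  have h1 : a - z = (b - z) + (a - b) := by ring
  have h2 : |(a - z).re| ≤ |(b - z).re| + |(a - b).re| := by
    rw [h1, Complex.add_re]; exact abs_add_le _ _
  have h3 : |(a - z).im| ≤ |(b - z).im| + |(a - b).im| := by
    rw [h1, Complex.add_im]; exact abs_add_le _ _
  have h4 := Complex.abs_re_le_norm (a - b)
  have h5 := Complex.abs_im_le_norm (a - b)
  have h6 : |(b - z).re| ≤ sup (b - z) := le_max_left _ _
  have h7 : |(b - z).im| ≤ sup (b - z) := le_max_right _ _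
  exact max_le (by linarith) (by linarith)

/-- **389's `hBig`** : the block of a good joined chord is a macroscopic block -/
theorem hbig (hPS : ∀ z ∈ U, z ∈ W0 ↔ z ∈ (A : Set ℂ))
    (H : GeoA U k c m₀ A hS h3 G Gf V Z cz rz z2 r2 q) (e0 : D0 A) {i : ℕ} (hi : i < m₀) {z : ι}
    (hz : z ∈ Z) {b : Finset ℂ} (hO : Ow (rc0 hS) (G i) A (chiS hS h3) (cnS hS h3) b) {s : D0 A}
    {n : ℕ}
    (J : Jc (rc0 hS) (cfg (rc0 hS) (chiS hS h3 b)) (p0 (rc0 hS) (G i) (chiS hS h3 b))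
      (ln (rc0 hS) (G i) (chiS hS h3 b)) (Cw (rc0 hS) (G i) (chiS hS h3 b)) s n)
    (hg : gd (rc0 hS) (G i) (core A (sr hS h3) (cz z) (rz z)) (chiS hS h3 b) s n) :
    blk (rc0 hS) (cfg (rc0 hS) (chiS hS h3 b)) s ∈
      bigB W0 U (rc0 hS) (dl e0) k (cfg (rc0 hS) (chiS hS h3 b)) := by
  have hP := pl_rc0 hS h3
  have O : Oa (rc0 hS) (cfg (rc0 hS) (chiS hS h3 b)) (p0 (rc0 hS) (G i) (chiS hS h3 b))
      (ln (rc0 hS) (G i) (chiS hS h3 b)) (Cw (rc0 hS) (G i) (chiS hS h3 b)) :=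
    ⟨cfg_isC _, hO.occ, hO.rt⟩
  obtain ⟨N, L⟩ := exists_lp O.ev O.occ
  obtain ⟨t, ht, -⟩ := J.ch O L
  obtain ⟨u, hu, hu'⟩ := hg.2.2
  -- the start cell of the chord is off the doubled core square
  have hfar : 2 * rz z ≤ sup (ls ((rc0 hS).rho s) - cz z) := by
    by_contra hlt
    push Not at hlt
    obtain ⟨a, ha, e'⟩ := J.c0
    have e'' : (rc0 hS).cell (P (rc0 hS) (cfg (rc0 hS) (chiS hS h3 b))
        (p0 (rc0 hS) (G i) (chiS hS h3 b)) a) = (rc0 hS).cell ((rc0 hS).rho s) := e'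
    have h1 : (rc0 hS).cell ((rc0 hS).rho s) ∉ (G i).Dp := by
      have h2 := (hO.lt a ha).2
      rw [e''] at h2
      exact h2
    have h2 : (rc0 hS).cell ((rc0 hS).rho s) ∉ Xs (rc0 hS) (G i) (chiS hS h3 b) := by
      have h2 := hO.lx a ha
      rw [e''] at h2
      exact h2
    have h5 : ¬ OnHull A (ls ((rc0 hS).rho s)) := fun h => h2 (by
      rw [hP.cell]
      rw [show sr hS h3 ((rc0 hS).rho s).1.1 = (G i).h0 from H.h0 i hi _ h]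
      exact h0_xs)
    exact h1 ((H.geo i hi z hz).dp ⟨ls ((rc0 hS).rho s), ls_mem _, h5, hlt, by rw [hP.cell]; rfl⟩)
  -- the cell in the core
  have hnear : sup (ls (P (rc0 hS) (cfg (rc0 hS) (chiS hS h3 b))
      ((rc0 hS).rho s) u) - cz z) ≤ rz z :=
    cel_dart (A := fun s => sup (s - cz z) ≤ rz z) hP hu'
  refine jc_bigB' hP hPS H.dn e0 hO.ext ?_ O hO.bl (hO.lx 0 ln_pos) J (n1 := t) (n2 := u + t) ?_
  · intro v hv hvW
    exact far_xs hP h3 (H.h0 i hi) (H.far i hi) hv (not_lt.1 hvW)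
  · have e1 : P (rc0 hS) (cfg (rc0 hS) (chiS hS h3 b))
        (p0 (rc0 hS) (G i) (chiS hS h3 b)) (u + t) =
        P (rc0 hS) (cfg (rc0 hS) (chiS hS h3 b)) ((rc0 hS).rho s) u := by
      rw [P_add, ← ht]
    rw [e1, ← ht]
    have h6 := sup_sub_le (ls ((rc0 hS).rho s)) (ls (P (rc0 hS)
      (cfg (rc0 hS) (chiS hS h3 b)) ((rc0 hS).rho s) u)) (cz z)
    have h7 := H.rad z hz
    linarith

/-- the mean of 389's `Phi` given the full exploration -/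
def avPhi (m₀ : ℕ) {A : Finset ℂ} (hS : GP (A : Set ℂ)) (h3 : 3 ≤ A.card)
    (G : ℕ → Rg (D0 A) (Cs hS)) (Gf : Rg (D0 A) (Cs hS)) (Z : Finset ι) (cz : ι → ℂ)
    (rz : ι → ℝ) (I : Finset (D0 A × ℕ)) (a : D0 A → ℂ) (b : Finset ℂ) : ℝ≥0∞ :=
  av A (Ra (rc0 hS) Gf A (chiS hS h3) (cnS hS h3) b)
    (fun b => ENNReal.ofReal (Phi (rc0 hS) G m₀ (⋃ z ∈ Z, core A (sr hS h3) (cz z) (rz z)) I a
      (chiS hS h3 b))) b

/-- **input [A], quenched** -/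
theorem quenA (hPS : ∀ z ∈ U, z ∈ W0 ↔ z ∈ (A : Set ℂ)) (hc : 0 < c)
    (H : GeoA U k c m₀ A hS h3 G Gf V Z cz rz z2 r2 q) (e0 : D0 A) {a : D0 A → ℂ}
    (I : Finset (D0 A × ℕ)) {E : ℝ≥0∞}
    (hE : ∑ y ∈ ev (rc0 hS), ∑ β ∈ bigB W0 U (rc0 hS) (dl e0) k y,
      ENNReal.ofReal (‖∑ t ∈ β, a t‖ ^ 2) ≤ ((ev (rc0 hS)).card : ℝ≥0∞) * E)
    {w : Finset ℂ → ℝ≥0∞} (hw : ∀ b, w b ≤ 1)
    (hR : ∀ b, b ⊆ A → w b ≠ 0 → ∃ r, Rd (rc0 hS) Gf G m₀ (chiS hS h3 b) r) :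
    ∑ b ∈ A.powerset, w b * avPhi m₀ hS h3 G Gf Z cz rz I a b ≤
      ENNReal.ofReal (c⁻¹ * ((m₀ : ℝ) * Z.card)) * (2 ^ A.card * E) := by
  have hP := pl_rc0 hS h3
  refine (sumA (M := rc0 hS) (G := G) (Gf := Gf) (V := A) (χ := chiS hS h3) (K := cnS hS h3)
    coins_chiS csub_chiS cdis_chiS H.th H.le (fun i hi d hd => hP.gen (H.h0 i hi) hd) hw hR Z
    (fun z => core A (sr hS h3) (cz z) (rz z)) I a hc
    (T := fun i z => TW A V (cz z) (rz z) (q i z))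
    (fun i hi z hz => (H.pr i hi z hz).trans (pr_tw H.sub).ge) ?_
    (fun b => bigB W0 U (rc0 hS) (dl e0) k (cfg (rc0 hS) (chiS hS h3 b))) ?_).trans
    (mul_le_mul_right (sum_bigB (fair_chiS hS h3).eqd hE) _)
  · intro i hi z hz b b' _ _ hO hT s n hcd hg
    exact meet_cd' hP h3 (H.h0 i hi) (fre_chiS H.sub H.vin) (H.geo i hi z hz) hO hT hcd hg
  · intro i hi z hz b _ hO _ _ J hg
    exact hbig hPS H e0 hi hz hO J hg

/-- the data of [A] at the set `A` of the points in the box, for a weight `w` and a function `Y` of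
the black sites; `kp` : constant -/
def QA (ι : Type) (kp : ℝ≥0∞) (k c : ℝ) (m₀ n₀ : ℕ) (W0 U : Set ℂ) (A : Finset ℂ)
    (w Y : Finset ℂ → ℝ≥0∞) : Prop :=
  (∀ b, b ⊆ A → w b * Y b = 0) ∨
  ∃ (hS : GP (A : Set ℂ)) (h3 : 3 ≤ A.card) (e0 : D0 A) (a : D0 A → ℂ)
    (G : ℕ → Rg (D0 A) (Cs hS)) (Gf : Rg (D0 A) (Cs hS)) (V : Finset ℂ) (Z : Finset ι)
    (cz : ι → ℂ) (rz : ι → ℝ) (z2 : ℂ) (r2 : ℝ) (q : ℕ → ι → Rect) (I : Finset (D0 A × ℕ)),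
    FldU W0 U (dl e0) a ∧ GeoA U k c m₀ A hS h3 G Gf V Z cz rz z2 r2 q ∧ Z.card ≤ n₀ ∧
    (∀ b, b ⊆ A → w b ≠ 0 → ∃ r, Rd (rc0 hS) Gf G m₀ (chiS hS h3 b) r) ∧
    ∀ b, b ⊆ A → w b ≠ 0 → Y b ≤ kp * avPhi m₀ hS h3 G Gf Z cz rz I a b

/-- **input [A] in the form of `Asm4_414`**: `E` is measurable, `∫ E ε → 0`, and depends only on
`k` and `U` -/
theorem majA {k : ℝ} (hk : 0 < k) {U : Set ℂ} (hU : Bornology.IsBounded U) :
    ∃ E : ℝ → Sample → ℝ≥0∞, (∀ ε, 0 < ε → Measurable (E ε)) ∧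
      Tendsto (fun ε : ℝ => ∫⁻ ω, E ε ω ∂sampleLaw) (𝓝[>] 0) (𝓝 0) ∧
      ∀ (ι : Type) (kp : ℝ≥0∞) (c : ℝ) (m₀ n₀ : ℕ), 0 < c → ∀ ε : ℝ, 0 < ε →
      ∀ B : Set ℂ, Bornology.IsBounded B → U ⊆ B →
      ∀ g : Set (ℂ × Bool) → ℝ≥0∞, (∀ X, g X ≤ 1) → ∀ Y : Finset ℂ → Finset ℂ → ℝ≥0∞,
      (∀ᵐ ω ∂sampleLaw, QA ι kp k c m₀ n₀ (points ε ω) U (Ap ε B ω)
        (fun β => g (paint (Ap ε B ω) β)) (Y (Ap ε B ω))) →
      MajQ ε B g Y fun ω => kp * ENNReal.ofReal (c⁻¹ * ((m₀ : ℝ) * n₀)) * E ε ω := by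
  obtain ⟨E, h1, h2, -, -, h5⟩ := R7b hk hU
  refine ⟨E, h1, h2, ?_⟩
  intro ι kp c m₀ n₀ hc ε hε B hB hUB g hg1 Y hQ
  refine ⟨((h1 ε hε).const_mul _).aemeasurable, ?_⟩
  have hGP : ∀ᵐ ω ∂sampleLaw, GP (points ε ω) := by
    filter_upwards [PoisM3x930.m3a ε hε] with ω h using h.1
  filter_upwards [hGP, hQ] with ω hP hq
  have hA := coe_Ap hε hB ω
  have hPS : ∀ z ∈ U, z ∈ points ε ω ↔ z ∈ ((Ap ε B ω : Finset ℂ) : Set ℂ) := by
    intro z hz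
    rw [hA]
    exact ⟨fun h => ⟨h, hUB hz⟩, fun h => h.1⟩
  rcases hq with hq | ⟨hS, h3, e0, a, G, Gf, V, Z, cz, rz, z2, r2, q, I, ⟨u, hu, ha⟩, H, hZ, hR, hY⟩
  · rw [Finset.sum_eq_zero fun β hβ => hq β (Finset.mem_powerset.1 hβ)]
    exact zero_le
  · have hE := h5 ε ω (Ap ε B ω) hS hP hPS H.inn e0 _ ha (Cs hS) (rc0 hS) (pl_sm (pl_rc0 hS h3) h3)
    have e1 : ∀ β : Finset (D0 (Ap ε B ω)), ‖∑ t ∈ β, u * a t‖ = ‖∑ t ∈ β, a t‖ := by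
      intro β
      rw [← Finset.mul_sum, norm_mul, hu, one_mul]
    simp only [e1] at hE
    have h6 := quenA hPS hc H e0 I hE (w := fun β => g (paint (Ap ε B ω) β)) (fun b => hg1 _) hR
    calc ∑ β ∈ (Ap ε B ω).powerset, g (paint (Ap ε B ω) β) * Y (Ap ε B ω) β
        ≤ ∑ β ∈ (Ap ε B ω).powerset, kp * (g (paint (Ap ε B ω) β) *
            avPhi m₀ hS h3 G Gf Z cz rz I a β) := by
          refine Finset.sum_le_sum fun β hβ => ?_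
          by_cases h0 : g (paint (Ap ε B ω) β) = 0
          · rw [h0, zero_mul]; exact zero_le
          · rw [mul_left_comm]
            exact mul_le_mul_right (hY β (Finset.mem_powerset.1 hβ) h0) _
      _ = kp * ∑ β ∈ (Ap ε B ω).powerset, g (paint (Ap ε B ω) β) *
            avPhi m₀ hS h3 G Gf Z cz rz I a β := (Finset.mul_sum _ _ _).symm
      _ ≤ kp * (ENNReal.ofReal (c⁻¹ * ((m₀ : ℝ) * Z.card)) * (2 ^ (Ap ε B ω).card * E ε ω)) :=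
          mul_le_mul_right h6 _
      _ ≤ kp * (ENNReal.ofReal (c⁻¹ * ((m₀ : ℝ) * n₀)) * (2 ^ (Ap ε B ω).card * E ε ω)) := by
          gcongr
      _ = _ := by ring

/-- **the clause `RY` of `ValsQ`** -/
theorem majA_lim {k : ℝ} (hk : 0 < k) {U : Set ℂ} (hU : Bornology.IsBounded U) (ι : Type)
    {kp : ℝ≥0∞} (hkp : kp ≠ ∞) {c : ℝ} (hc : 0 < c) (m₀ n₀ : ℕ) {δ : ℝ} (hδ : 0 < δ) :
    ∀ᶠ ε : ℝ in 𝓝[>] 0, ∀ B : Set ℂ, Bornology.IsBounded B → U ⊆ B →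
      ∀ g : Set (ℂ × Bool) → ℝ≥0∞, (∀ X, g X ≤ 1) → ∀ Y : Finset ℂ → Finset ℂ → ℝ≥0∞,
      (∀ᵐ ω ∂sampleLaw, QA ι kp k c m₀ n₀ (points ε ω) U (Ap ε B ω)
        (fun β => g (paint (Ap ε B ω) β)) (Y (Ap ε B ω))) →
      ∃ RY : Sample → ℝ≥0∞, MajQ ε B g Y RY ∧ ∫⁻ ω, RY ω ∂sampleLaw ≤ ENNReal.ofReal δ := by
  obtain ⟨E, h1, h2, h3⟩ := majA hk hU
  set C : ℝ≥0∞ := kp * ENNReal.ofReal (c⁻¹ * ((m₀ : ℝ) * n₀)) with hC
  have hCt : C ≠ ∞ := ENNReal.mul_ne_top hkp ENNReal.ofReal_ne_top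
  have h4 : Tendsto (fun ε : ℝ => C * ∫⁻ ω, E ε ω ∂sampleLaw) (𝓝[>] 0) (𝓝 0) := by
    have := ENNReal.Tendsto.const_mul (a := C) h2 (Or.inr hCt)
    rwa [mul_zero] at this
  have h5 : ∀ᶠ ε : ℝ in 𝓝[>] 0, C * ∫⁻ ω, E ε ω ∂sampleLaw ≤ ENNReal.ofReal δ :=
    (h4.eventually (gt_mem_nhds (ENNReal.ofReal_pos.2 hδ))).mono fun _ h => h.le
  have h6 : ∀ᶠ ε : ℝ in 𝓝[>] 0, 0 < ε := by
    filter_upwards [eventually_mem_nhdsWithin] with ε hε using hε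
  filter_upwards [h5, h6] with ε hε hε0 B hB hUB g hg1 Y hQ
  refine ⟨_, h3 ι kp c m₀ n₀ hc ε hε0 B hB hUB g hg1 Y hQ, ?_⟩
  rw [lintegral_const_mul _ (h1 ε hε0)]
  exact hε

end Crest.Agent.R143.MajAx136
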