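import Crest.Agent.R143.CorrD_117

/-!
# Row 143 (S0194), CORE-C, box R6: spatial tile charges (helper169, notes 3617 of 176 and 3611 of 970)

Walk `stp^[i] q`, cut times `T 0 ≤ .. ≤ T n` (117's `Cut`), a field `w` on the darts, sets `F l` of darts
(`l < m`; in use: darts whose face has its centre in the region `l`).

* `rst w F` : the field restricted to `F`
* `KP M x q w A B a b` : charge of the gaps of the block path of `[A, B]` with times in `[a, b)`
  (`K[y → x]` of the out arc)
* `Near n l` : the arcs `k < n` with `|k - l| ≤ 1`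
* `vl_eq` : the spatial charge of `F l` is the sum of the charges of the arcs `l - 1, l, l + 1`
* `ks_reg` : the charge is the sum of the spatial charges
* `kp_split` : `K[y → x]` = full regions + partial regions; `part_sub` : the partial regions are next to the
  two ends
-/

set_option autoImplicit false

noncomputable section

open scoped Classical

namespace Crest.Agent.R143.Sptx169

open Crest.Agent.R143.Frame1x395 Crest.Agent.R143.Frame2x395 Crest.Agent.R143.Frame3x395
  Crest.Agent.R143.Frame4x395 Crest.Agent.R143.Frame8x395 Crest.Agent.R143.Frame9x395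
  Crest.Agent.R143.Frame11x395
open Crest.Agent.R143.Splx117

variable {D C : Type} {M : CMap D C} {x : D → ZMod 2} {q : D} {n m : ℕ} {T : ℕ → ℕ}
  {E : Type} [AddCommMonoid E] {w : D → E} {F : ℕ → Set D}

/-- the field `w` restricted to `F` -/
def rst (w : D → E) (F : Set D) (d : D) : E := if d ∈ F then w d else 0

theorem rst_of {G : Set D} {d : D} (h : d ∈ G) : rst w G d = w d := if_pos h

theorem rst_not {G : Set D} {d : D} (h : d ∉ G) : rst w G d = 0 := if_neg h

/-- charge of the gaps of the block path of `[A, B]` with times in `[a, b)` -/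
def KP (M : CMap D C) (x : D → ZMod 2) (q : D) (w : D → E) (A B a b : ℕ) : E :=
  ∑ i ∈ (Finset.Ico a b).filter (InK M x q A B), w (gp M x q i)

theorem kp_self (A B : ℕ) : KP M x q w A B A B = KS M x q w A B := rfl

theorem kp_empty {A B a b : ℕ} (h : b ≤ a) : KP M x q w A B a b = 0 := by
  unfold KP
  rw [Finset.Ico_eq_empty (by omega)]
  rfl

/-- additivity in the window of times -/
theorem kp_add {A B a c b : ℕ} (h1 : a ≤ c) (h2 : c ≤ b) :
    KP M x q w A B a b = KP M x q w A B a c + KP M x q w A B c b := by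
  unfold KP
  rw [← Finset.sum_union]
  · congr 1
    rw [← Finset.filter_union, Finset.Ico_union_Ico_eq_Ico h1 h2]
  · rw [Finset.disjoint_left]
    intro i hi hi'
    rw [Finset.mem_filter, Finset.mem_Ico] at hi hi'
    omega

/-- additivity in the field -/
theorem kp_sum {ι : Type} (s : Finset ι) (v : ι → D → E) (A B a b : ℕ) :
    KP M x q (fun d => ∑ l ∈ s, v l d) A B a b = ∑ l ∈ s, KP M x q (v l) A B a b := by
  unfold KP
  rw [Finset.sum_comm]

theorem kp_congr {v : D → E} {A B a b : ℕ}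
    (h : ∀ i, a ≤ i → i < b → InK M x q A B i → w (gp M x q i) = v (gp M x q i)) :
    KP M x q w A B a b = KP M x q v A B a b := by
  unfold KP
  refine Finset.sum_congr rfl fun i hi => ?_
  rw [Finset.mem_filter, Finset.mem_Ico] at hi
  exact h i hi.1.1 hi.1.2 hi.2

theorem kp_zero {A B a b : ℕ}
    (h : ∀ i, a ≤ i → i < b → InK M x q A B i → w (gp M x q i) = 0) :
    KP M x q w A B a b = 0 := by
  unfold KP
  refine Finset.sum_eq_zero fun i hi => ?_
  rw [Finset.mem_filter, Finset.mem_Ico] at hi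
  exact h i hi.1.1 hi.1.2 hi.2

/-- the window of one arc -/
theorem kp_arc (hmono : ∀ k, 0 ≤ k → k < n → T k ≤ T (k + 1)) (hcut : Cut M x q T 0 n) {k : ℕ}
    (hk : k < n) : KP M x q w (T 0) (T n) (T k) (T (k + 1)) = KS M x q w (T k) (T (k + 1)) := by
  unfold KP KS
  refine Finset.sum_congr ?_ fun _ _ => rfl
  ext i
  simp only [Finset.mem_filter, Finset.mem_Ico]
  constructor
  · rintro ⟨h1, h2⟩
    exact ⟨h1, (ink_tile hmono hcut (Nat.zero_le k) hk h1.1 h1.2).1 h2⟩
  · rintro ⟨h1, h2⟩
    exact ⟨h1, (ink_tile hmono hcut (Nat.zero_le k) hk h1.1 h1.2).2 h2⟩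

/-- the window of several arcs -/
theorem kp_arcs (hmono : ∀ k, 0 ≤ k → k < n → T k ≤ T (k + 1)) (hcut : Cut M x q T 0 n) {a b : ℕ}
    (hab : a ≤ b) (hb : b ≤ n) : KP M x q w (T 0) (T n) (T a) (T b) =
      ∑ k ∈ Finset.Ico a b, KS M x q w (T k) (T (k + 1)) := by
  induction b with
  | zero =>
    rw [Nat.le_zero.1 hab, kp_empty le_rfl]
    simp
  | succ b ih =>
    rcases hab.lt_or_eq with h1 | h1
    · have h2 : a ≤ b := by omega
      rw [kp_add (mono_of hmono (Nat.zero_le a) h2 (by omega)) (hmono b (Nat.zero_le b) (by omega)),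
        ih h2 (by omega), kp_arc hmono hcut (by omega), Finset.sum_Ico_succ_top h2]
    · rw [h1, kp_empty le_rfl]
      simp

/-! ### regions -/

/-- the arcs next to the region `l` -/
def Near (n l : ℕ) : Finset ℕ := (Finset.range n).filter fun k => k ≤ l + 1 ∧ l ≤ k + 1

theorem mem_near {l k : ℕ} : k ∈ Near n l ↔ k < n ∧ k ≤ l + 1 ∧ l ≤ k + 1 := by
  unfold Near
  rw [Finset.mem_filter, Finset.mem_range]

/-- **hypotheses on the regions** `F l`, `l < m`: every gap of the block path lies in exactly one of them,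
the gaps of the arc `k` lie in the regions `k - 1, k, k + 1` -/
structure Reg (M : CMap D C) (x : D → ZMod 2) (q : D) (T : ℕ → ℕ) (n m : ℕ) (F : ℕ → Set D) :
    Prop where
  mono : ∀ k, 0 ≤ k → k < n → T k ≤ T (k + 1)
  cut : Cut M x q T 0 n
  cov : ∀ i, T 0 ≤ i → i < T n → InK M x q (T 0) (T n) i → ∃ l, l < m ∧ gp M x q i ∈ F l
  dis : ∀ i, T 0 ≤ i → i < T n → InK M x q (T 0) (T n) i → ∀ l l', gp M x q i ∈ F l →
    gp M x q i ∈ F l' → l = l'
  near : ∀ k, k < n → ∀ i, T k ≤ i → i < T (k + 1) → InK M x q (T 0) (T n) i → ∀ l,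
    gp M x q i ∈ F l → k ≤ l + 1 ∧ l ≤ k + 1

theorem Reg.sum_rst (R : Reg M x q T n m F) {i : ℕ} (h1 : T 0 ≤ i) (h2 : i < T n)
    (h3 : InK M x q (T 0) (T n) i) :
    ∑ l ∈ Finset.range m, rst w (F l) (gp M x q i) = w (gp M x q i) := by
  obtain ⟨l, hl, hl'⟩ := R.cov i h1 h2 h3
  rw [Finset.sum_eq_single l]
  · exact rst_of hl'
  · intro l' _ hne
    exact rst_not fun h => hne (R.dis i h1 h2 h3 l' l h hl')
  · intro h
    exact absurd (Finset.mem_range.2 hl) h

/-- **every window is the sum of its regions** -/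
theorem Reg.kp_reg (R : Reg M x q T n m F) {a b : ℕ} (ha : T 0 ≤ a) (hb : b ≤ T n) :
    KP M x q w (T 0) (T n) a b =
      ∑ l ∈ Finset.range m, KP M x q (rst w (F l)) (T 0) (T n) a b := by
  rw [← kp_sum]
  refine kp_congr fun i h1 h2 h3 => ?_
  exact (R.sum_rst (ha.trans h1) (h2.trans_le hb) h3).symm

/-- the spatial charge of the region `l` -/
def Vl (M : CMap D C) (x : D → ZMod 2) (q : D) (T : ℕ → ℕ) (n : ℕ) (w : D → E) (F : ℕ → Set D)
    (l : ℕ) : E := KS M x q (rst w (F l)) (T 0) (T n)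

/-- **the charge of the out arc is the sum of the spatial charges** -/
theorem Reg.ks_reg (R : Reg M x q T n m F) :
    KS M x q w (T 0) (T n) = ∑ l ∈ Finset.range m, Vl M x q T n w F l := by
  have := R.kp_reg (w := w) (a := T 0) (b := T n) le_rfl le_rfl
  exact this

/-- the charge of an arc which is not next to `l` in the region `l` -/
theorem Reg.far_arc (R : Reg M x q T n m F) {k l : ℕ} (hk : k < n) (hl : k ∉ Near n l) {a b : ℕ}
    (ha : T k ≤ a) (hb : b ≤ T (k + 1)) :
    KP M x q (rst w (F l)) (T 0) (T n) a b = 0 := by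
  refine kp_zero fun i h1 h2 h3 => rst_not fun h4 => hl ?_
  exact mem_near.2 ⟨hk, R.near k hk i (ha.trans h1) (h2.trans_le hb) h3 l h4⟩

/-- **the spatial charge is the sum over the arcs `l - 1, l, l + 1`** -/
theorem Reg.vl_eq (R : Reg M x q T n m F) (l : ℕ) :
    Vl M x q T n w F l = ∑ k ∈ Near n l, KS M x q (rst w (F l)) (T k) (T (k + 1)) := by
  have h1 : Vl M x q T n w F l =
      ∑ k ∈ Finset.Ico 0 n, KS M x q (rst w (F l)) (T k) (T (k + 1)) := by
    have := kp_arcs (w := rst w (F l)) R.mono R.cut (Nat.zero_le n) le_rfl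
    exact this
  rw [h1, ← Finset.range_eq_Ico]
  symm
  refine Finset.sum_subset (fun k hk => Finset.mem_range.2 (mem_near.1 hk).1) fun k hk hk' => ?_
  have hk1 := Finset.mem_range.1 hk
  rw [← kp_arc R.mono R.cut hk1]
  exact R.far_arc hk1 hk' le_rfl le_rfl

/-- a window outside of the arcs next to `l` does not see the region `l` -/
theorem Reg.kp_off (R : Reg M x q T n m F) {l a b : ℕ} (ha : T 0 ≤ a) (hb : b ≤ T n)
    (h : ∀ k ∈ Near n l, b ≤ T k ∨ T (k + 1) ≤ a) :
    KP M x q (rst w (F l)) (T 0) (T n) a b = 0 := by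
  refine kp_zero fun i h1 h2 h3 => rst_not fun h4 => ?_
  have hn : 0 < n := by
    rcases Nat.eq_zero_or_pos n with h0 | h0
    · rw [h0] at hb
      omega
    · exact h0
  obtain ⟨k, -, hk, h5, h6⟩ : ∃ k, 0 ≤ k ∧ k < n ∧ T k ≤ i ∧ i < T (k + 1) := by
    obtain ⟨k, b1, b2, b3, b4⟩ := arc_of (T := T) hn (ha.trans h1) (h2.le.trans hb)
    rcases b4.lt_or_eq with b5 | b5
    · exact ⟨k, b1, b2, b3, b5⟩
    · -- `i = T (k + 1)`: go to the next arc with positive length
      have key : ∀ j, k + 1 ≤ j → j ≤ n → (∃ k', 0 ≤ k' ∧ k' < n ∧ T k' ≤ i ∧ i < T (k' + 1)) ∨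
          T j = i := by
        intro j hj hj'
        induction j with
        | zero => omega
        | succ j ih =>
          rcases hj.lt_or_eq with c1 | c1
          · rcases ih (by omega) (by omega) with c2 | c2
            · exact Or.inl c2
            · have c3 := R.mono j (Nat.zero_le j) (by omega)
              rcases c3.lt_or_eq with c4 | c4
              · exact Or.inl ⟨j, Nat.zero_le j, by omega, c2.le, by omega⟩
              · exact Or.inr (by omega)
          · right
            have c5 : j = k := by omega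
            rw [c5, ← b5]
      rcases key n (by omega) le_rfl with c | c
      · exact c
      · omega
  have h7 := R.near k hk i h5 h6 h3 l h4
  rcases h k (mem_near.2 ⟨hk, h7⟩) with h8 | h8
  · omega
  · omega

/-- **a full region**: all arcs next to `l` are inside the window -/
theorem Reg.kp_full (R : Reg M x q T n m F) {l a b : ℕ} (ha : T 0 ≤ a) (hab : a ≤ b) (hb : b ≤ T n)
    (h : ∀ k ∈ Near n l, a ≤ T k ∧ T (k + 1) ≤ b) :
    KP M x q (rst w (F l)) (T 0) (T n) a b = Vl M x q T n w F l := by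
  have e1 : Vl M x q T n w F l = KP M x q (rst w (F l)) (T 0) (T n) (T 0) (T n) := rfl
  rw [e1, kp_add (ha) (hab.trans hb), kp_add (a := a) hab hb,
    R.kp_off (a := T 0) (b := a) le_rfl (hab.trans hb) (fun k hk => Or.inl (h k hk).1),
    R.kp_off (a := b) (b := T n) (ha.trans hab) le_rfl (fun k hk => Or.inr (h k hk).2),
    zero_add, add_zero]

/-- the full regions of a window -/
def Full (T : ℕ → ℕ) (n m a b : ℕ) : Finset ℕ :=
  (Finset.range m).filter fun l => ∀ k ∈ Near n l, a ≤ T k ∧ T (k + 1) ≤ b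

/-- the partial regions of a window -/
def Prt (T : ℕ → ℕ) (n m a b : ℕ) : Finset ℕ :=
  (Finset.range m).filter fun l => (¬ ∀ k ∈ Near n l, a ≤ T k ∧ T (k + 1) ≤ b) ∧
    ¬ ∀ k ∈ Near n l, b ≤ T k ∨ T (k + 1) ≤ a

/-- **splitting of `K[y → x]`**: spatial charges of the full regions + partial regions -/
theorem Reg.kp_split (R : Reg M x q T n m F) {a b : ℕ} (ha : T 0 ≤ a) (hab : a ≤ b)
    (hb : b ≤ T n) : KP M x q w (T 0) (T n) a b =
      ∑ l ∈ Full T n m a b, Vl M x q T n w F l +
        ∑ l ∈ Prt T n m a b, KP M x q (rst w (F l)) (T 0) (T n) a b := by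
  rw [R.kp_reg ha hb, ← Finset.sum_filter_add_sum_filter_not (Finset.range m)
    (fun l => ∀ k ∈ Near n l, a ≤ T k ∧ T (k + 1) ≤ b)]
  congr 1
  · refine Finset.sum_congr rfl fun l hl => ?_
    exact R.kp_full ha hab hb (Finset.mem_filter.1 hl).2
  · symm
    refine Finset.sum_subset (fun l hl => ?_) fun l hl hl' => ?_
    · obtain ⟨h1, h2, -⟩ := Finset.mem_filter.1 hl
      exact Finset.mem_filter.2 ⟨h1, h2⟩
    · obtain ⟨h1, h2⟩ := Finset.mem_filter.1 hl
      apply R.kp_off ha hb
      by_contra h3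
      exact hl' (Finset.mem_filter.2 ⟨h1, h2, h3⟩)

/-- **the partial regions are next to the arcs of the two ends** -/
theorem prt_sub (hmono : ∀ k, 0 ≤ k → k < n → T k ≤ T (k + 1)) {a b ka kb : ℕ}
    (ha1 : T ka ≤ a) (ha2 : a < T (ka + 1)) (hka : ka < n) (hb1 : T kb < b) (hb2 : b ≤ T (kb + 1))
    (hkb : kb < n) {l : ℕ} (hl : l ∈ Prt T n m a b) :
    (l ≤ ka + 1 ∧ ka ≤ l + 1) ∨ (l ≤ kb + 1 ∧ kb ≤ l + 1) := by
  obtain ⟨-, h1, h2⟩ := Finset.mem_filter.1 hl
  push Not at h1 h2
  obtain ⟨k1, k1m, hk1⟩ := h1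
  obtain ⟨k2, k2m, hk2, hk2'⟩ := h2
  rw [mem_near] at k1m k2m
  have mo : ∀ {i j : ℕ}, i ≤ j → j ≤ n → T i ≤ T j := fun {i j} h h' =>
    mono_of hmono (Nat.zero_le i) h h'
  -- the arc `k2` meets the window
  have c1 : ka ≤ k2 := by
    by_contra hc
    have := mo (show k2 + 1 ≤ ka by omega) (by omega)
    omega
  have c2 : k2 ≤ kb := by
    by_contra hc
    have := mo (show kb + 1 ≤ k2 by omega) (by omega)
    omega
  -- the arc `k1` is not inside
  rcases Nat.lt_or_ge (T k1) a with h3 | h3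
  · have c3 : k1 ≤ ka := by
      by_contra hc
      have := mo (show ka + 1 ≤ k1 by omega) (by omega)
      omega
    left
    omega
  · have h4 := hk1 h3
    have c3 : kb ≤ k1 := by
      by_contra hc
      have := mo (show k1 + 1 ≤ kb by omega) (by omega)
      omega
    right
    omega

/-- a region far from the two end arcs and between them is full -/
theorem full_of (hmono : ∀ k, 0 ≤ k → k < n → T k ≤ T (k + 1)) {a b ka kb : ℕ}
    (ha2 : a ≤ T (ka + 1)) (hb1 : T kb ≤ b) (hkb : kb < n) {l : ℕ}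
    (hl : l < m) (h1 : ka + 2 ≤ l) (h2 : l + 2 ≤ kb) : l ∈ Full T n m a b := by
  refine Finset.mem_filter.2 ⟨Finset.mem_range.2 hl, fun k hk => ?_⟩
  rw [mem_near] at hk
  have mo : ∀ {i j : ℕ}, i ≤ j → j ≤ n → T i ≤ T j := fun {i j} h h' =>
    mono_of hmono (Nat.zero_le i) h h'
  have e1 := mo (show ka + 1 ≤ k by omega) (by omega)
  have e2 := mo (show k + 1 ≤ kb by omega) (by omega)
  omega

/-- a full region lies between the two end arcs -/
theorem of_full (hlt : ∀ k, k < n → T k < T (k + 1)) {a b ka kb : ℕ}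
    (ha1 : T ka ≤ a) (hka : ka < n) (hb2 : b ≤ T (kb + 1))
    (hm : m ≤ n) {l : ℕ} (hl : l ∈ Full T n m a b) : ka ≤ l ∧ l ≤ kb := by
  obtain ⟨h0, h1⟩ := Finset.mem_filter.1 hl
  have hl' := Finset.mem_range.1 h0
  have mo : ∀ {i j : ℕ}, i ≤ j → j ≤ n → T i ≤ T j := fun {i j} h h' =>
    mono_of (a := 0) (b := n) (fun k _ hk => (hlt k hk).le) (Nat.zero_le i) h h'
  have h2 := h1 l (mem_near.2 ⟨by omega, by omega, by omega⟩)
  have h3 := hlt l (by omega)
  constructor
  · by_contra hc
    have := mo (show l + 1 ≤ ka by omega) (by omega)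
    omega
  · by_contra hc
    have := mo (show kb + 1 ≤ l by omega) (by omega)
    omega

end Crest.Agent.R143.Sptx169
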