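import Crest.Agent.R143.LayM_88
import Crest.Agent.R143.HInst2_432
import Crest.Agent.R143.Spt_169

/-!
# Row 143 (S0194), block H (helper88): the frame of the strip (263's term `∑_j mE ∑_{chd} |∑ rst a F_j|²`)

`F j` (`j < n`) families of faces (invariant under `rho`) of the net with one giant, no face of `F j` is a
face inside `Q`, every face is in at most `m` of the `F j`.
* `strip_det` : **`∑_j mE (∑_{β block} |∑_β rst a F_j|²) + m Wf Q ≤ m Wf U`**
* `strip_chd` : the same for the chords, `strip_sub` : for any subfamilies of blocks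
* `strip_maj` : majorant, `∫ R ≤ m (wD (4 b (s + d) + 4 s²) E g + δ)`
* `strip_maj'` : relative form, `∫ R ≤ τ E g` if `m wD (4 b (s + d) + 4 s²) < τ` and `c ≤ E g`
-/

set_option autoImplicit false

noncomputable section

open scoped Classical

namespace Crest.Agent.R143.LaySx88

open MeasureTheory Filter Topology
open Crest.ProbabilityR.Voronoi
open Crest.Agent.R143.B0x346 Crest.Agent.R143.SumScx302 Crest.Agent.R143.Mass1x302
  Crest.Agent.R143.Mass2x302 Crest.Agent.R143.Mass3x302 Crest.Agent.R143.Mass4x302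
  Crest.Agent.R143.Mass5x302
open Crest.Agent.R143.Frame1x395 Crest.Agent.R143.Frame2x395 Crest.Agent.R143.Frame3x395
  Crest.Agent.R143.Frame4x395 Crest.Agent.R143.Frame8x395 Crest.Agent.R143.Frame9x395
  Crest.Agent.R143.Coarsex166 Crest.Agent.R143.Budx432 Crest.Agent.R143.Bud2x432
  Crest.Agent.R143.Bud3x432 Crest.Agent.R143.PP0x831 Crest.Agent.R143.Trans3x690
  Crest.Agent.R143.HBudx136 Crest.Agent.R143.Layx88 Crest.Agent.R143.HGluex136
  Crest.Agent.R143.Asm3x414 Crest.Agent.R143.FinCx811 Crest.Agent.R143.SmallAx304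
  Crest.Agent.R143.Dblx609 Crest.Agent.R143.Dbl2x609 Crest.Agent.R143.LayMx88
open Crest.Agent.R143.Trans2x690 (Wf)
open Crest.Agent.R143.HInst2x432 (mE card_ev)
open Crest.Agent.R143.Sptx169 (rst rst_of rst_not)
open scoped ENNReal

section det

variable {D C C' : Type} {M : CMap D C} {P Q U : Set ℂ} {δ : ℂ → ℂ → D} {κ : ℂ → C}
variable {π : C → C'} {hπ : ClsCon M π} {o : C'} {a : D → ℂ}

theorem rst_spin {w : ℂ} (sa : Spin M w a) {G : Set D} (hG : ∀ d, M.rho d ∈ G ↔ d ∈ G) :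
    Spin M w (rst a G) := by
  intro g
  unfold rst
  rw [if_congr (hG g) rfl rfl, sa g]
  split_ifs
  · rfl
  · rw [mul_zero]

/-- **the frame of the strip**, sums over the configurations -/
theorem strip_sum [Fintype D] (A : Agr P U M δ κ) (F : FrF P U M π o δ) (hQ : Q ⊆ U)
    (ha : ∀ t : T3, Fc P U t.1 t.2.1 t.2.2 → a (gd δ t) = Nn t)
    {w : ℂ} (w3 : w ^ 3 = 1) (w1 : w ≠ 1) (wc : (starRingEnd ℂ) w = w ^ 2) (sa : Spin M w a)
    {G : ℕ → Set D} {n m : ℕ} (inv : ∀ j < n, ∀ d, M.rho d ∈ G j ↔ d ∈ G j)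
    (off : ∀ j < n, ∀ d ∈ G j, d ∉ FD P Q δ)
    (mult : ∀ d, ((Finset.range n).filter fun j => d ∈ G j).card ≤ m) :
    ∑ j ∈ Finset.range n, ∑ x ∈ ev (coarse M π hπ), ∑ β ∈ blks (coarse M π hπ) x,
        en (rst a (G j)) β + m * (((ev (coarse M π hπ)).card : ℝ≥0∞) * Wf P Q) ≤
      m * (((ev (coarse M π hπ)).card : ℝ≥0∞) * Wf P U) := by
  have h := lay_det (hπ := hπ) A F hQ ha w3 w1 wc sa
  set M' := coarse M π hπ with hM'
  have h1 : ∑ j ∈ Finset.range n, ∑ x ∈ ev M', ∑ β ∈ blks M' x, en (rst a (G j)) β ≤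
      m * ∑ x ∈ ev M', ∑ β ∈ blks M' x, en (ly P Q δ a) β := by
    rw [sum_en w3 w1 wc (spin_coarse (ly_spin A hQ sa))]
    have e1 : ∀ j ∈ Finset.range n, ∑ x ∈ ev M', ∑ β ∈ blks M' x, en (rst a (G j)) β =
        ENNReal.ofReal (∑ g, ‖rst a (G j) g‖ ^ 2 * (nG M' g : ℝ)) := fun j hj =>
      sum_en w3 w1 wc (spin_coarse (rst_spin sa (inv j (Finset.mem_range.1 hj))))
    rw [Finset.sum_congr rfl e1, ← ENNReal.ofReal_sum_of_nonneg
      (fun j _ => Finset.sum_nonneg fun g _ => by positivity), ← ENNReal.ofReal_natCast,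
      ← ENNReal.ofReal_mul (Nat.cast_nonneg _)]
    apply ENNReal.ofReal_le_ofReal
    rw [Finset.sum_comm, Finset.mul_sum]
    refine Finset.sum_le_sum fun g _ => ?_
    have e2 : ∑ j ∈ Finset.range n, ‖rst a (G j) g‖ ^ 2 * (nG M' g : ℝ) =
        (((Finset.range n).filter fun j => g ∈ G j).card : ℝ) * (‖a g‖ ^ 2 * (nG M' g : ℝ)) := by
      rw [Finset.card_filter, Nat.cast_sum, Finset.sum_mul]
      refine Finset.sum_congr rfl fun j _ => ?_
      unfold rst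
      split_ifs <;> simp
    rw [e2]
    by_cases h1 : g ∈ FD P Q δ
    · have h0 : ((Finset.range n).filter fun j => g ∈ G j).card = 0 := by
        rw [Finset.card_eq_zero, Finset.filter_eq_empty_iff]
        intro j hj hg
        exact off j (Finset.mem_range.1 hj) g hg h1
      rw [h0, Nat.cast_zero, zero_mul]
      positivity
    · unfold ly
      rw [if_neg h1]
      have h2 : (((Finset.range n).filter fun j => g ∈ G j).card : ℝ) ≤ m := by
        exact_mod_cast mult g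
      exact mul_le_mul_of_nonneg_right h2 (by positivity)
  calc _ ≤ m * ∑ x ∈ ev M', ∑ β ∈ blks M' x, en (ly P Q δ a) β +
        m * (((ev M').card : ℝ≥0∞) * Wf P Q) := by gcongr
    _ = m * (∑ x ∈ ev M', ∑ β ∈ blks M' x, en (ly P Q δ a) β +
        ((ev M').card : ℝ≥0∞) * Wf P Q) := by rw [mul_add]
    _ ≤ _ := by gcongr

/-- **the frame of the strip**, any subfamilies of blocks -/
theorem strip_sub [Fintype D] (A : Agr P U M δ κ) (F : FrF P U M π o δ) (hQ : Q ⊆ U)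
    (ha : ∀ t : T3, Fc P U t.1 t.2.1 t.2.2 → a (gd δ t) = Nn t)
    {w : ℂ} (w3 : w ^ 3 = 1) (w1 : w ≠ 1) (wc : (starRingEnd ℂ) w = w ^ 2) (sa : Spin M w a)
    {G : ℕ → Set D} {n m : ℕ} (inv : ∀ j < n, ∀ d, M.rho d ∈ G j ↔ d ∈ G j)
    (off : ∀ j < n, ∀ d ∈ G j, d ∉ FD P Q δ)
    (mult : ∀ d, ((Finset.range n).filter fun j => d ∈ G j).card ≤ m)
    {B : (D → ZMod 2) → Finset (Finset D)} (hB : ∀ x, B x ⊆ blks (coarse M π hπ) x) :
    ∑ j ∈ Finset.range n, mE M π hπ (fun x => ∑ β ∈ B x, en (rst a (G j)) β) + m * Wf P Q ≤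
      m * Wf P U := by
  have h := strip_sum (hπ := hπ) A F hQ ha w3 w1 wc sa inv off mult
  have h0 := card_ev (coarse M π hπ)
  have ht : ((ev (coarse M π hπ)).card : ℝ≥0∞) ≠ ∞ := ENNReal.natCast_ne_top _
  set c : ℝ≥0∞ := ((ev (coarse M π hπ)).card : ℝ≥0∞) with hc
  have h3 : c * (∑ j ∈ Finset.range n, mE M π hπ (fun x => ∑ β ∈ B x, en (rst a (G j)) β) +
      m * Wf P Q) ≤ c * (m * Wf P U) := by
    rw [mul_add, Finset.mul_sum]
    have e1 : ∀ j ∈ Finset.range n, c * mE M π hπ (fun x => ∑ β ∈ B x, en (rst a (G j)) β) ≤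
        ∑ x ∈ ev (coarse M π hπ), ∑ β ∈ blks (coarse M π hπ) x, en (rst a (G j)) β := by
      intro j _
      unfold mE
      rw [ENNReal.mul_div_cancel h0 ht]
      exact Finset.sum_le_sum fun x _ => Finset.sum_le_sum_of_subset (hB x)
    calc _ ≤ ∑ j ∈ Finset.range n, ∑ x ∈ ev (coarse M π hπ),
          ∑ β ∈ blks (coarse M π hπ) x, en (rst a (G j)) β + c * (m * Wf P Q) := by
          gcongr with j hj
          exact e1 j hj
      _ = ∑ j ∈ Finset.range n, ∑ x ∈ ev (coarse M π hπ),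
          ∑ β ∈ blks (coarse M π hπ) x, en (rst a (G j)) β + m * (c * Wf P Q) := by ring
      _ ≤ m * (c * Wf P U) := h
      _ = _ := by ring
  exact (ENNReal.mul_le_mul_iff_right h0 ht).1 h3

theorem chd_sub [Fintype D] (x : D → ZMod 2) :
    chd M π hπ o x ⊆ blks (coarse M π hπ) x := by
  unfold chd
  exact Finset.filter_subset _ _

/-- **the frame of the strip**, chords -/
theorem strip_chd [Fintype D] (A : Agr P U M δ κ) (F : FrF P U M π o δ) (hQ : Q ⊆ U)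
    (ha : ∀ t : T3, Fc P U t.1 t.2.1 t.2.2 → a (gd δ t) = Nn t)
    {w : ℂ} (w3 : w ^ 3 = 1) (w1 : w ≠ 1) (wc : (starRingEnd ℂ) w = w ^ 2) (sa : Spin M w a)
    {G : ℕ → Set D} {n m : ℕ} (inv : ∀ j < n, ∀ d, M.rho d ∈ G j ↔ d ∈ G j)
    (off : ∀ j < n, ∀ d ∈ G j, d ∉ FD P Q δ)
    (mult : ∀ d, ((Finset.range n).filter fun j => d ∈ G j).card ≤ m) :
    ∑ j ∈ Finset.range n, mE M π hπ (fun x => ∑ β ∈ chd M π hπ o x, en (rst a (G j)) β) +
      m * Wf P Q ≤ m * Wf P U :=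
  strip_sub A F hQ ha w3 w1 wc sa inv off mult fun x => chd_sub x

end det

/-- **majorant of the strip** -/
theorem strip_maj (z : ℂ) {b s d δ : ℝ} (hb : 0 < b) (hs : 0 < s) (hd : 0 ≤ d)
    (hdb : 2 * d < b) (hδ : 0 < δ) {m : ℕ} (hm : 0 < m) : ∀ᶠ ε : ℝ in 𝓝[>] 0,
    ∀ B : Set ℂ, MeasurableSet B → Bornology.IsBounded B →
    ∀ g X : Set (ℂ × Bool) → ℝ≥0∞, Poisx304.FM g → (∀ Y, g Y ≤ 1) →
      (∀ᵐ ω ∂sampleLaw, ∀ β ∈ (Ap ε B ω).powerset,
        g (paint (Ap ε B ω) β) ≠ 0 →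
        X (paint (Ap ε B ω) β) + m * Wf (ps (cfg ε ω)) (Sb z b d) ≤
        m * Wf (ps (cfg ε ω)) (Ub z b s)) →
      ∃ R : Sample → ℝ≥0∞, Maj ε B g X R ∧
        ∫⁻ ω, R ω ∂sampleLaw ≤ m * (ENNReal.ofReal (wD * (4 * b * (s + d) + 4 * s ^ 2)) *
          Mg ε B g + ENNReal.ofReal δ) := by
  have m0 : (m : ℝ≥0∞) ≠ 0 := Nat.cast_ne_zero.2 hm.ne'
  have mt : (m : ℝ≥0∞) ≠ ∞ := ENNReal.natCast_ne_top _
  have key : ∀ y : ℝ≥0∞, (m : ℝ≥0∞) * ((m : ℝ≥0∞)⁻¹ * y) = y := fun y => by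
    rw [← mul_assoc, ENNReal.mul_inv_cancel m0 mt, one_mul]
  filter_upwards [lay_maj Crest.Agent.R143.LLN4x432.lln_famF z hb hs hd hdb hδ]
    with ε h B hBm hB g X hg hg1 hX
  obtain ⟨R, h1, h2⟩ := h B hBm hB g (fun Y => (m : ℝ≥0∞)⁻¹ * X Y) hg hg1 (by
    filter_upwards [hX] with ω hω β hβ h0
    refine (ENNReal.mul_le_mul_iff_right m0 mt).1 ?_
    rw [mul_add, key]
    exact hω β hβ h0)
  refine ⟨fun ω => m * R ω, ?_, ?_⟩
  · have h3 := h1.mul (m : ℝ≥0∞)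
    have e : (fun Z => (m : ℝ≥0∞) * ((m : ℝ≥0∞)⁻¹ * X Z)) = X := funext fun Z => key _
    rwa [e] at h3
  · rw [lintegral_const_mul'' _ h1.me]
    gcongr

/-- **majorant of the strip, relative form** -/
theorem strip_maj' (z : ℂ) {b s d c τ : ℝ} (hb : 0 < b) (hs : 0 < s) (hd : 0 ≤ d)
    (hdb : 2 * d < b) (hc : 0 < c) {m : ℕ} (hm : 0 < m)
    (hτ : m * (wD * (4 * b * (s + d) + 4 * s ^ 2)) < τ) : ∀ᶠ ε : ℝ in 𝓝[>] 0,
    ∀ B : Set ℂ, MeasurableSet B → Bornology.IsBounded B →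
    ∀ g X : Set (ℂ × Bool) → ℝ≥0∞, Poisx304.FM g → (∀ Y, g Y ≤ 1) →
      ENNReal.ofReal c ≤ Mg ε B g →
      (∀ᵐ ω ∂sampleLaw, ∀ β ∈ (Ap ε B ω).powerset,
        g (paint (Ap ε B ω) β) ≠ 0 →
        X (paint (Ap ε B ω) β) + m * Wf (ps (cfg ε ω)) (Sb z b d) ≤
        m * Wf (ps (cfg ε ω)) (Ub z b s)) →
      ∃ R : Sample → ℝ≥0∞, Maj ε B g X R ∧
        ∫⁻ ω, R ω ∂sampleLaw ≤ ENNReal.ofReal τ * Mg ε B g := by
  have hw := wD_nonneg
  have hmr : (0 : ℝ) < m := by exact_mod_cast hm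
  set K : ℝ := wD * (4 * b * (s + d) + 4 * s ^ 2) with hK
  have hK0 : 0 ≤ K := mul_nonneg hw (by positivity)
  set δ : ℝ := (τ - m * K) * c / m with hδ
  have hδ0 : 0 < δ := div_pos (mul_pos (by linarith) hc) hmr
  filter_upwards [strip_maj z hb hs hd hdb hδ0 hm] with ε h B hBm hB g X hg hg1 hcg hX
  obtain ⟨R, h1, h2⟩ := h B hBm hB g X hg hg1 hX
  refine ⟨R, h1, h2.trans ?_⟩
  have e1 : (m : ℝ≥0∞) * ENNReal.ofReal δ ≤ ENNReal.ofReal (τ - m * K) * Mg ε B g := by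
    calc (m : ℝ≥0∞) * ENNReal.ofReal δ = ENNReal.ofReal (m * δ) := by
          rw [ENNReal.ofReal_mul hmr.le, ENNReal.ofReal_natCast]
      _ = ENNReal.ofReal ((τ - m * K) * c) := by
          congr 1
          rw [hδ]
          field_simp
      _ = ENNReal.ofReal (τ - m * K) * ENNReal.ofReal c :=
          ENNReal.ofReal_mul (by linarith)
      _ ≤ _ := by gcongr
  calc (m : ℝ≥0∞) * (ENNReal.ofReal K * Mg ε B g + ENNReal.ofReal δ)
      = (m * ENNReal.ofReal K) * Mg ε B g + m * ENNReal.ofReal δ := by ring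
    _ ≤ (m * ENNReal.ofReal K) * Mg ε B g + ENNReal.ofReal (τ - m * K) * Mg ε B g := by
        gcongr
    _ = ENNReal.ofReal τ * Mg ε B g := by
        rw [← add_mul, ← ENNReal.ofReal_natCast, ← ENNReal.ofReal_mul hmr.le,
          ← ENNReal.ofReal_add (by positivity) (by linarith)]
        congr 2
        ring

end Crest.Agent.R143.LaySx88
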