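import Crest.Agent.R143.HComp_197
import Crest.Agent.R143.LayS_88
import Crest.Agent.R143.RingT_263
import Crest.Agent.R143.Eng_490

/-!
# Row 143 (S0194), block H (helper88): the strip part of the far chords, language of `HComp_197`

`FR S Q l` (263) faces with centre in `Q l`; `Q l` (`l < n`) disjoint and disjoint from the box.
* `stripf a n Q E` : `∑_{j < n}` mean energy of the chords of the field `rst a (FR Q j)`
* `strip_one` : `stripf + Wf (Sb z b 0) ≤ Wf (Ub z b s)` for one configuration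
* **`stripQ`** : majorant `MajQ` with `∫ R ≤ τ E g`
-/

set_option autoImplicit false

noncomputable section

open scoped Classical

namespace Crest.Agent.R143.StripQx88

open MeasureTheory Filter Topology
open Crest.ProbabilityR.Voronoi
open Crest.Agent.R143.B0x346 Crest.Agent.R143.SumScx302 Crest.Agent.R143.Mass1x302
  Crest.Agent.R143.Mass2x302 Crest.Agent.R143.Mass4x302
  Crest.Agent.R143.Mass5x302 Crest.Agent.R143.DelGx806 Crest.Agent.R143.DelRx806
open Crest.Agent.R143.PP0x831 Crest.Agent.R143.Trans3x690 Crest.Agent.R143.Trans5x690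
  Crest.Agent.R143.HBudx136 Crest.Agent.R143.HGluex136 Crest.Agent.R143.JColx54
  Crest.Agent.R143.SmallAx304 Crest.Agent.R143.Dblx609 Crest.Agent.R143.Dbl2x609
  Crest.Agent.R143.Asm3x414 Crest.Agent.R143.Asm4x414
open Crest.Agent.R143.Frame1x395 Crest.Agent.R143.Frame2x395 Crest.Agent.R143.Frame8x395
  Crest.Agent.R143.Frame10x395
open Crest.Agent.R143.Frame5x395 (sd mem_sd th th_spec)
open Crest.Agent.R143.Coarsex166 (ClsCon coarse)
open Crest.Agent.R143.Bud2x432 (chd en clb FrF)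
open Crest.Agent.R143.Bud3x432 (FD)
open Crest.Agent.R143.HInst1x432 (pe pe_none pe_eq)
open Crest.Agent.R143.HInst2x432 (mE fr_cm0)
open Crest.Agent.R143.StgIx432
open Crest.Agent.R143.HCompx197
open Crest.Agent.R143.RingTx263 (FR)
open Crest.Agent.R143.Sptx169 (rst)
open Crest.Agent.R143.FinMx609 (cen3 cen3_iff)
open Crest.Agent.R143.Trans2x690 (Wf)
open scoped ENNReal

variable {z : ℂ} {b s : ℝ} {n : ℕ} {Q : ℕ → Set ℂ} {E : EFam} {a : ∀ A : Finset ℂ, D0 A → ℂ}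
  {A β Rv : Finset ℂ}

/-- the strip part of the energy of the chords -/
def stripf (a : ∀ A : Finset ℂ, D0 A → ℂ) (n : ℕ) (Q : ℕ → Set ℂ) (E : EFam)
    (A β : Finset ℂ) : ℝ≥0∞ :=
  ∑ j ∈ Finset.range n, mn E (fun A hS _ hπ x =>
    ∑ β' ∈ chd (cm0 hS) (pe _) hπ none x, en (rst (a A) (FR A Q j)) β') A β

/-- the faces of `FR` are invariant -/
theorem fr_rho (hS : GP (A : Set ℂ)) (j : ℕ) (d : D0 A) :
    (cm0 hS).rho d ∈ FR A Q j ↔ d ∈ FR A Q j := by
  obtain ⟨⟨p, q⟩, he⟩ := d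
  have h1 : (p, q, th A (p, q)) ∈ delT A := th_spec he
  have h2 : th A (q, th A (p, q)) = p := th0 hS (delT_rot hS h1)
  have hd := (mem_delT.1 h1).2.2.2.1
  have hd2 := (mem_delT.1 (delT_rot hS h1)).2.2.2.1
  show cen3 (th A (p, q), th A (q, th A (p, q)), q) ∈ Q j ↔ cen3 (q, th A (p, q), p) ∈ Q j
  rw [h2, Engx490.cen3_rot hd2, Engx490.cen3_rot hd]

/-- a face with centre outside `V` is not inside `V` -/
theorem fr_off (hS : GP (A : Set ℂ)) {P V : Set ℂ} (hPS : ∀ w ∈ V, w ∈ P ↔ w ∈ (A : Set ℂ))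
    {j : ℕ} (hQ : Disjoint (Q j) V) {e0 d : D0 A} (hd : d ∈ FR A Q j) : d ∉ FD P V (dl e0) := by
  rintro ⟨p, q, r, hf, rfl⟩
  have hD := (fc_congr hPS hf).1
  have h1 : (p, q, r) ∈ delT A := mem_delT.2 hD
  have h2 : (p, q) ∈ sd A := mem_sd.2 ⟨r, h1⟩
  rw [dl_eq h2] at hd
  have h3 : cen3 (q, th A (p, q), p) ∈ Q j := hd
  rw [th0 hS h1, Engx490.cen3_rot hD.2.2.2.1] at h3
  obtain ⟨h4, h5⟩ := (cen3_iff hD.2.2.2.1).2 rfl
  refine Set.disjoint_left.1 hQ h3 (hf.2 ⟨cen3 (p, q, r), h4, h5, ?_⟩)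
  rw [sub_self, norm_zero]
  exact norm_nonneg _

/-- every face is in at most one of the families -/
theorem fr_mult (dis : ∀ l j, 0 < j → j < n → Disjoint (Q l) (Q (l + j))) (d : D0 A) :
    ((Finset.range n).filter fun j => d ∈ FR A Q j).card ≤ 1 := by
  refine Finset.card_le_one.2 fun i hi j hj => ?_
  obtain ⟨i1, i2⟩ := Finset.mem_filter.1 hi
  obtain ⟨j1, j2⟩ := Finset.mem_filter.1 hj
  rw [Finset.mem_range] at i1 j1
  rcases lt_trichotomy i j with h | h | h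
  · have := dis i (j - i) (by omega) (by omega)
    rw [Nat.add_sub_cancel' h.le] at this
    exact (Set.disjoint_left.1 this i2 j2).elim
  · exact h
  · have := dis j (i - j) (by omega) (by omega)
    rw [Nat.add_sub_cancel' h.le] at this
    exact (Set.disjoint_left.1 this j2 i2).elim

/-- **the strip, one configuration** -/
theorem strip_one (F : Facts (Ub z b s) (sq z b) A β Rv (E A β)) (hs : 0 ≤ s)
    (ha : Fld (Ub z b s) a) (dis : ∀ l j, 0 < j → j < n → Disjoint (Q l) (Q (l + j)))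
    (hQ : ∀ l < n, Disjoint (Q l) (sq z b)) :
    stripf a n Q E A β + Wf (A : Set ℂ) (Sb z b 0) ≤ Wf (A : Set ℂ) (Ub z b s) := by
  obtain ⟨e0⟩ := exists_dart F.gp F.c3
  have hsub : Sb z b 0 ⊆ Ub z b s := sb_sub hs le_rfl
  have h := LaySx88.strip_chd (P := (A : Set ℂ)) (Q := Sb z b 0) (U := Ub z b s)
    (hπ := F.cls) (a := a A) (agr0 F.gp F.gp (fun _ _ => Iff.rfl) F.out e0)
    (fr_cm0 F.gp (fun _ _ => Iff.rfl) F.fac) hsub (fun t ht => ha.nn A F.gp e0 t ht) om3 om_ne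
    om_conj (ha.spin A F.gp) (G := FR A Q) (n := n) (m := 1) (fun j _ d => fr_rho F.gp j d)
    (fun j hj d hd => fr_off F.gp (fun _ _ => Iff.rfl)
      ((hQ j hj).mono_right (HDecx197.sb_sub_sq le_rfl)) hd) (fr_mult dis)
  rw [Nat.cast_one, one_mul, one_mul] at h
  unfold stripf
  rw [Finset.sum_congr rfl fun j _ => mn_eq F.gp F.cls]
  exact h

/-- **the strip part** : majorant relative to the weight -/
theorem stripQ (z : ℂ) {b s c τ : ℝ} (hb : 0 < b) (hs : 0 < s) (hc : 0 < c)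
    (hτ : wD * (4 * b * s + 4 * s ^ 2) < τ) : ∀ᶠ ε : ℝ in 𝓝[>] 0,
    ∀ B : Set ℂ, MeasurableSet B → Bornology.IsBounded B → Ub z b s ⊆ B →
    ∀ (g : Set (ℂ × Bool) → ℝ≥0∞) (E : EFam) (Rv : Finset ℂ → Finset ℂ → Finset ℂ)
      (a : ∀ A : Finset ℂ, D0 A → ℂ) (n : ℕ) (Q : ℕ → Set ℂ), Poisx304.FM g → (∀ X, g X ≤ 1) →
      ENNReal.ofReal c ≤ Mg ε B g → Fld (Ub z b s) a →
      FactsAe ε B (Ub z b s) (sq z b) g Rv E →
      (∀ l j, 0 < j → j < n → Disjoint (Q l) (Q (l + j))) →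
      (∀ l < n, Disjoint (Q l) (sq z b)) →
      ∃ R : Sample → ℝ≥0∞, MajQ ε B g (stripf a n Q E) R ∧
        ∫⁻ ω, R ω ∂sampleLaw ≤ ENNReal.ofReal τ * Mg ε B g := by
  have h0 : ((1 : ℕ) : ℝ) * (wD * (4 * b * (s + 0) + 4 * s ^ 2)) < τ := by
    rw [Nat.cast_one, one_mul, add_zero]
    exact hτ
  filter_upwards [LaySx88.strip_maj' z (m := 1) hb hs le_rfl (by linarith) hc one_pos h0,
    eventually_mem_nhdsWithin] with ε h hε
  have hε : 0 < ε := hε
  intro B hBm hB hUB g E Rv a n Q hg hg1 hcg ha hF dis hQ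
  obtain ⟨R, h1, h2⟩ := h B hBm hB g (val (stripf a n Q E)) hg hg1 hcg (by
    filter_upwards [hF] with ω hF β hβ h0
    rw [val_paint _ (Finset.mem_powerset.1 hβ), Nat.cast_one, one_mul, one_mul]
    have h1 := strip_one (hF β hβ h0) hs.le ha dis hQ
    rwa [wf_congr fun w hw => (ps_iff hε hB hUB ω w hw).symm,
      wf_congr (U := Sb z b 0) fun w hw => (ps_iff hε hB hUB ω w
        (sb_sub hs.le le_rfl hw)).symm] at h1)
  exact ⟨R, majQ_of h1, h2⟩

end Crest.Agent.R143.StripQx88
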