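import Crest.Agent.R143.RcT_263
import Crest.Agent.R143.StripQ_88
import Crest.Agent.R143.HRev_432
import Crest.Agent.R143.MajA_136

/-!
# Row 143 (S0194), block H (helper263): the far deep chords, language of `HComp_197`

* `farC_dart` : 355's `FarC` from the positions of two darts
* `rw_all` : 355's `RW` (classes `pc hS E` of 432) at every configuration with the same full
  exploration, from the ring data `RcTx263.Wn` of one configuration
* `nn_gap` : on the chords `nn = aU`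
* `avG` : mean of `PhG` given the full exploration
* **`far_one`** : `Fg ≤ 2 Lg + 8 avPhi + 112 ∑_j avG + 112 stripf + (32 B + 8 K) Ng`
-/

set_option autoImplicit false

noncomputable section

open scoped Classical

namespace Crest.Agent.R143.FarFx263

open Crest.ProbabilityR.Voronoi
open Crest.Agent.R143.B0x346 Crest.Agent.R143.SumScx302 Crest.Agent.R143.Mass1x302
  Crest.Agent.R143.Mass2x302 Crest.Agent.R143.Mass3x302 Crest.Agent.R143.Mass4x302
  Crest.Agent.R143.Mass5x302 Crest.Agent.R143.DelGx806 Crest.Agent.R143.DelRx806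
  Crest.Agent.R143.JColx54 Crest.Agent.R143.HBudx136
open Crest.Agent.R143.Frame1x395 Crest.Agent.R143.Frame2x395 Crest.Agent.R143.Frame3x395
  Crest.Agent.R143.Frame8x395 Crest.Agent.R143.Frame9x395 Crest.Agent.R143.Frame10x395
  Crest.Agent.R143.Frame11x395 Crest.Agent.R143.NonXx592
open Crest.Agent.R143.Frame5x395 (sd mem_sd th th_spec)
open Crest.Agent.R143.Coarsex166 (ClsCon coarse)
open Crest.Agent.R143.Budx432 Crest.Agent.R143.Bud2x432
open Crest.Agent.R143.Bud3x432 (FD)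
open Crest.Agent.R143.HInst1x432 (pe pe_none)
open Crest.Agent.R143.HInst2x432 (mE)
open Crest.Agent.R143.FinCx811 Crest.Agent.R143.SmallAx304 Crest.Agent.R143.GiantEx197
  Crest.Agent.R143.StgIx432 Crest.Agent.R143.HDecx197 Crest.Agent.R143.HCompx197
  Crest.Agent.R143.HRevx432
open Crest.Agent.R143.StrHx795 (dchE cchE Df)
open Crest.Agent.R143.RevCx389 Crest.Agent.R143.RevAx389 Crest.Agent.R143.RevEx389
open Crest.Agent.R143.ChordCx357 Crest.Agent.R143.Chord2x355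
  Crest.Agent.R143.H2x355 Crest.Agent.R143.Ox355 Crest.Agent.R143.Winx355
  Crest.Agent.R143.Win2x355 Crest.Agent.R143.FarIx355
open Crest.Agent.R143.PotKx263 Crest.Agent.R143.PotPx263 Crest.Agent.R143.FarAx263
  Crest.Agent.R143.RcTx263
open Crest.Agent.R143.Chordx355 (lc)
open Crest.Agent.R143.Sptx169 (rst)
open Crest.Agent.R143.HGluex136 (av)
open Crest.Agent.R143.Engx490 (nn)
open Crest.Agent.R143.RingTx263 (FR)
open Crest.Agent.R143.StripQx88 (stripf)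
open Crest.Agent.R143.MajAx136 (avPhi)
open Crest.Agent.R143.Meetx707 (sr core)
open Crest.Agent.R143.Meet2x707 (cnS)
open scoped ENNReal

/-! ### positions -/

/-- **far end cells** from the positions of two darts -/
theorem farC_dart {C : Type} {Reg : ℕ → Set C} {n h : ℕ} {W : ℕ → ℂ} {h0 r0 : ℝ}
    (hW : ∀ k, ‖W (k + 1) - W k‖ ≤ h0) (hWn : ∀ k, W (k + n) = W k) {p q : C} {a b : ℂ}
    (hp : ∀ k, p ∈ Reg k → ‖a - W k‖ ≤ r0) (hq : ∀ k, q ∈ Reg k → ‖b - W k‖ ≤ r0)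
    (h00 : 0 ≤ h0) (hd : (2 * h + 9) * h0 + 2 * r0 < ‖a - b‖) : FarC Reg n h p q := by
  intro s t hps hqt hst hts
  have h1 := hp s hps
  have h2 := hq t hqt
  have f1 : ‖W t - W s‖ ≤ ((t - s : ℕ) : ℝ) * h0 := by
    have := walk_pos hW s (t - s)
    rwa [show s + (t - s) = t by omega] at this
  have f2 : ‖W s - W t‖ ≤ ((s + n - t : ℕ) : ℝ) * h0 := by
    have := walk_pos hW t (s + n - t)
    rwa [show t + (s + n - t) = s + n by omega, hWn] at this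
  have tri : ‖a - b‖ ≤ 2 * r0 + ‖W t - W s‖ := by
    have e : a - b = (a - W s) - (b - W t) - (W t - W s) := by ring
    rw [e]
    refine (norm_sub_le _ _).trans ?_
    have := norm_sub_le (a - W s) (b - W t)
    linarith
  have key : ∀ j : ℕ, ‖W t - W s‖ ≤ (j : ℝ) * h0 → 2 * h + 9 ≤ j := by
    intro j hj
    by_contra hc
    have hc' : (j : ℝ) ≤ 2 * h + 8 := by
      have : j ≤ 2 * h + 8 := by omega
      exact_mod_cast this
    have h3 : (j : ℝ) * h0 ≤ (2 * h + 8) * h0 := mul_le_mul_of_nonneg_right hc' h00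
    nlinarith
  constructor
  · exact key _ f1
  · have h3 := key (s + n - t) (by rw [norm_sub_rev]; exact f2)
    omega

section one

variable {A β Rv : Finset ℂ} {U Bx : Set ℂ} {E : Set (Quot (hullE A))}

theorem gc_rc {hS : GP (A : Set ℂ)} {x : D0 A → ZMod 2} {k : D0 A} {m : ℕ}
    (H : Gc (rc0 hS) (pc hS E) none x k m) : Gc (cm0 hS) (pe E) none x k m :=
  ⟨H.gp, H.pos, H.c0, H.c1, H.int⟩

/-- **355's structure at every configuration with the same full exploration** -/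
theorem rw_all (F : Facts U Bx A β Rv E) {Gf : Rg (D0 A) (Cs F.gp)} {G : ℕ → Rg (D0 A) (Cs F.gp)}
    (hRv : Rv = Ra (rc0 F.gp) Gf A (chiS F.gp F.c3) (Kc F.gp F.c3) β)
    {P₀ : D0 A} {N n : ℕ} {T : ℕ → ℕ} {Reg : ℕ → Set (Cs F.gp)} {h l m₀ : ℕ}
    {B' : ℕ → Set (Cs F.gp)}
    (W : Wn (rc0 F.gp) Gf G Gf.h0 (chiS F.gp F.c3 β) P₀ N n T Reg h l m₀ B')
    (hLe : ∀ i, i < m₀ → Le (G i) Gf) (hβ : β ⊆ A)
    (hE : E = Eg (cm0 F.gp) Gf.h0.1
      (Lf (cm0 F.gp) (cfg (rc0 F.gp) (chiS F.gp F.c3 β)) P₀ N))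
    {b' : Finset ℂ} (hb' : b' ⊆ A) (e : b' ∩ Rv = β ∩ Rv) :
    Wn (rc0 F.gp) Gf G Gf.h0 (chiS F.gp F.c3 b') P₀ N n T Reg h l m₀ B' ∧
    (∀ t, P (rc0 F.gp) (cfg (rc0 F.gp) (chiS F.gp F.c3 b')) P₀ t =
      P (rc0 F.gp) (cfg (rc0 F.gp) (chiS F.gp F.c3 β)) P₀ t) ∧
    ∃ tp tq, RW (rc0 F.gp) (chiS F.gp F.c3 b') (pc F.gp E) none P₀ N n T Reg h l m₀ G tp tq := by
  rw [hRv] at e
  have H := W.toTf (coins_rc F.gp F.c3) (kc_sub F.gp F.c3) hβ hb' e.symm
  have W' := W.tf (coins_rc F.gp F.c3) (kc_sub F.gp F.c3) hβ hb' e.symm hLe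
  refine ⟨W', H.st, ?_⟩
  -- the giant
  have eL : Lf (rc0 F.gp) (cfg (rc0 F.gp) (chiS F.gp F.c3 b')) P₀ N =
      Lf (rc0 F.gp) (cfg (rc0 F.gp) (chiS F.gp F.c3 β)) P₀ N := by
    ext c
    constructor
    · rintro ⟨j, hj, rfl⟩
      exact ⟨j, hj, by rw [H.st]⟩
    · rintro ⟨j, hj, rfl⟩
      exact ⟨j, hj, by rw [H.st]⟩
  have he : ∀ c : Cs F.gp, c ∈ Eg (rc0 F.gp) Gf.h0
      (Lf (rc0 F.gp) (cfg (rc0 F.gp) (chiS F.gp F.c3 b')) P₀ N) ↔ c.1 ∈ E := by
    intro c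
    rw [eL, eg_rc, ← hE]
  have hpc : ∀ c : Cs F.gp, pe (Eg (rc0 F.gp) Gf.h0
      (Lf (rc0 F.gp) (cfg (rc0 F.gp) (chiS F.gp F.c3 b')) P₀ N)) c = none ↔
      pc F.gp E c = none := by
    intro c
    rw [pe_none, he]
    exact pe_none.symm
  obtain ⟨tp, tq, R⟩ := W'.rw (fun c hc => F.gt.gen c fun h => hc ((he c).2 (pe_none.1 h)))
  exact ⟨tp, tq, rw_cls R hpc F.gt⟩

/-- on the gaps of the coarse configurations the two fields agree -/
theorem nn_gap {z : ℂ} {b s : ℝ} (F : Facts (Ub z b s) (sq z b) A β Rv E) {x : D0 A → ZMod 2}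
    (hx : IsC (coarse (cm0 F.gp) (pe E) F.cls) ∅ x) {g : D0 A}
    (hg : Gp (coarse (cm0 F.gp) (pe E) F.cls) x g) : aU (A : Set ℂ) z b s A g = nn A g := by
  obtain ⟨e0⟩ := exists_dart F.gp F.c3
  have h1 : g ∈ FD (A : Set ℂ) (Ub z b s) (dl e0) :=
    Layx88.gap_fd (agr0 F.gp F.gp (fun _ _ => Iff.rfl) F.out e0)
      (HInst2x432.fr_cm0 F.gp (fun _ _ => Iff.rfl) F.fac) hx hg
  obtain ⟨p, q, r, hf, e⟩ := h1
  have ht : (p, q, r) ∈ delT A := mem_delT.2 hf.1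
  have hm : (p, q) ∈ sd A := mem_sd.2 ⟨r, ht⟩
  rw [dl_eq hm] at e
  subst e
  have e2 : th A (p, q) = r := th0 F.gp ht
  show (if Fc (A : Set ℂ) (Ub z b s) p q (th A (p, q)) then Nn (q, th A (p, q), p) else 0) =
    Nn (q, th A (p, q), p)
  rw [e2, if_pos hf]

end one

/-! ### the theorem for one configuration -/

/-- mean of `PhG` given the full exploration `Rv` -/
def avG (m₀ : ℕ) {A : Finset ℂ} (hS : GP (A : Set ℂ)) (h3 : 3 ≤ A.card)
    (G : ℕ → Rg (D0 A) (Cs hS)) (E : Set (Quot (hullE A))) (Rv : Finset ℂ) (Co : Set (Cs hS))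
    (a : D0 A → ℂ) (β : Finset ℂ) : ℝ≥0∞ :=
  av A Rv (fun b => ENNReal.ofReal (PhG (rc0 hS) (pc hS E) none G m₀ Co (allI (D0 A)) a
    (chiS hS h3 b))) β

variable {A β Rv : Finset ℂ} {E : EFam} {z : ℂ} {b s : ℝ}

/-- **the far deep chords of one configuration** -/
theorem far_one {d0 r : ℝ} (F : Facts (Ub z b s) (sq z b) A β Rv (E A β)) (hβ : β ⊆ A)
    {Gf : Rg (D0 A) (Cs F.gp)} {G : ℕ → Rg (D0 A) (Cs F.gp)}
    (hRv : Rv = Ra (rc0 F.gp) Gf A (chiS F.gp F.c3) (Kc F.gp F.c3) β)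
    {P₀ : D0 A} {N n : ℕ} {T : ℕ → ℕ} {Reg : ℕ → Set (Cs F.gp)} {h l m₀ : ℕ}
    {B' : ℕ → Set (Cs F.gp)}
    (W : Wn (rc0 F.gp) Gf G Gf.h0 (chiS F.gp F.c3 β) P₀ N n T Reg h l m₀ B')
    (hLe : ∀ i, i < m₀ → Le (G i) Gf)
    (hE : E A β = Eg (cm0 F.gp) Gf.h0.1
      (Lf (cm0 F.gp) (cfg (rc0 F.gp) (chiS F.gp F.c3 β)) P₀ N))
    -- regions and the law of the charges
    {Q : ℕ → Set ℂ}
    (hQ : RQ (rc0 F.gp) (cfg (rc0 F.gp) (chiS F.gp F.c3 β)) P₀ N n T (FR A Q))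
    {w : ℕ → ℂ} {κ : ℂ} {Bd K : ℝ} (hw : ∀ j, w (j + n) = w j)
    (hB : ∀ i j, i ≤ j → j ≤ n →
      ‖∑ k ∈ Finset.Ico i j, Vg (rc0 F.gp) (cfg (rc0 F.gp) (chiS F.gp F.c3 β)) P₀ T n
        (nn A) (FR A Q) k - κ * (w j - w i)‖ ^ 2 ≤ Bd)
    (hK : ∀ i j, ‖κ * (w j - w i)‖ ^ 2 ≤ K)
    -- positions of the tiles
    {Wc : ℕ → ℂ} {h0 r0 : ℝ} (hW : ∀ k, ‖Wc (k + 1) - Wc k‖ ≤ h0)
    (hWn : ∀ k, Wc (k + n) = Wc k) (h00 : 0 ≤ h0)
    (hR : ∀ k, ∀ d : D0 A, (rc0 F.gp).cell d ∈ Reg k → ‖d.1.1 - Wc k‖ ≤ r0)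
    (hr : (2 * h + 9) * h0 + 2 * r0 < r)
    -- the cores
    {ι : Type} {Z : Finset ι} {cz : ι → ℂ} {rz : ι → ℝ}
    (hCo : ∀ g ∈ Df A (Sb z b d0), (rc0 F.gp).cell g ∈
      ⋃ q ∈ Z, core A (sr F.gp F.c3) (cz q) (rz q)) :
    Fg z b d0 r E A β ≤ 2 * Lg z b s d0 E A β +
      8 * avPhi m₀ F.gp F.c3 G Gf Z cz rz (allI (D0 A)) (nn A) β +
      112 * ∑ j ∈ Finset.range n, avG m₀ F.gp F.c3 G (E A β) Rv
        (⋃ q ∈ Z, core A (sr F.gp F.c3) (cz q) (rz q)) (rst (nn A) (FR A Q j)) β +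
      112 * stripf nn n Q E A β + ENNReal.ofReal (32 * Bd + 8 * K) * Ng z b d0 E A β := by
  set M := rc0 F.gp with hM
  set χ := chiS F.gp F.c3 with hχ
  set Co : Set (Cs F.gp) := ⋃ q ∈ Z, core A (sr F.gp F.c3) (cz q) (rz q) with hCod
  have cls := F.cls
  have hst := fun {b' : Finset ℂ} (h1 : b' ⊆ A) (h2 : b' ∩ Rv = β ∩ Rv) =>
    rw_all F hRv W hLe hβ hE h1 h2
  -- fair coins
  obtain ⟨e0⟩ := exists_dart F.gp F.c3
  have S := F.stg (P := (A : Set ℂ)) (fun _ _ => Iff.rfl) e0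
  have fair : Fair A Rv χ (pc F.gp (E A β)) none := S.fair
  -- the deep far chords
  set 𝒟 : (D0 A → ZMod 2) → Finset (Finset (D0 A)) := fun x => fchE F.gp cls (Sb z b d0) r x
    with h𝒟
  have hsub : ∀ x, 𝒟 x ⊆ chd (cm0 F.gp) (pe (E A β)) cls none x := fun x =>
    (Finset.filter_subset _ _).trans (Finset.filter_subset _ _)
  have hsubd : ∀ x, 𝒟 x ⊆ dchE F.gp cls (Sb z b d0) x := fun x => Finset.filter_subset _ _
  -- 1. the main estimate
  have main := far_av (M := M) (π := pc F.gp (E A β)) (hπ := clsCon_pc cls) (o := none)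
    (V := A) (R := Rv) (b := β) (χ := χ) (𝒟 := 𝒟) (Co := Co) (I := allI (D0 A)) (φ := nn A)
    (F := FR A Q) (w := w) (κ := κ) (B := Bd) (K := K) F.gt fair hβ hsub
    (fun b' h1 h2 => (hst h1 h2).2.2)
    (fun b' h1 h2 => by
      obtain ⟨W', hP, -⟩ := hst h1 h2
      exact rq_congr hQ (cfg_isC _) W'.rl.L.occ hP) W.hh W.hl1
    (fun b' h1 h2 β' hβ' k hk m hc => by
      obtain ⟨W', hP, tp, tq, RWb⟩ := hst h1 h2
      have hx : IsC M ∅ (cfg M (fil (pc F.gp (E A β)) none (χ b'))) := cfg_isC _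
      have hx' : IsC (coarse M (pc F.gp (E A β)) (clsCon_pc cls)) ∅
        (cfg M (fil (pc F.gp (E A β)) none (χ b'))) := fil_isC F.gt (χ b')
      obtain ⟨g1, g2⟩ := Finset.mem_filter.1 hβ'
      refine ⟨Gc.mem hx hc, ?_, ?_⟩
      · -- far
        refine farC_dart hW hWn (fun j hj => hR j (M.rho k) hj)
          (fun j hj => hR j (P M (cfg M (χ b')) (M.rho k) m) hj) h00 (hr.trans_le ?_)
        rw [Rim.P RWb.rim hc.gp.2 m]
        by_contra hlt
        push Not at hlt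
        refine g2 (Finset.mem_filter.2 ⟨hsub _ hβ', k, hk, m, gc_rc hc, hlt⟩)
      · -- deep
        obtain ⟨-, g, hg, hgD⟩ := Finset.mem_filter.1 g1
        have hch := hsub _ hβ'
        obtain ⟨hb1, -⟩ := Finset.mem_filter.1 hch
        have hbk : β' = blk (coarse M (pc F.gp (E A β)) (clsCon_pc cls))
            (cfg M (fil (pc F.gp (E A β)) none (χ b'))) k := (mem_blks hx' hb1 hk).2
        rw [hbk, hc.blk hx' F.gt] at hg
        obtain ⟨u, hu1, -, hu2, -⟩ := mem_left hx hc.gp.2 hg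
        refine ⟨u + 1, hu1, ?_⟩
        have h4 : lc M (cfg M (χ b')) (M.rho k) (u + 1) =
            lc M (cfg M (fil (pc F.gp (E A β)) none (χ b'))) (M.rho k) (u + 1) := by
          unfold lc
          rw [Rim.P RWb.rim hc.gp.2 (u + 1)]
        rw [h4, hu2]
        exact hCo g hgD) hw
    (fun b' h1 h2 i j h3 h4 => by
      obtain ⟨W', hP, -⟩ := hst h1 h2
      have e1 : ∀ k, Vg M (cfg M (χ b')) P₀ T n (nn A) (FR A Q) k =
          Vg M (cfg M (χ β)) P₀ T n (nn A) (FR A Q) k := fun k =>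
        vg_congr (cfg_isC _) (cfg_isC _) W.rl.L.occ W'.rl.L.occ hP _ _
      rw [Finset.sum_congr rfl fun k _ => e1 k]
      exact hB i j h3 h4) hK
  -- 2. from `aD` to `nn`
  have eF : Fg z b d0 r E A β = mE (cm0 F.gp) (pe (E A β)) cls
      (fun x => ∑ β' ∈ 𝒟 x, en (aD (A : Set ℂ) z b d0 A) β') := mn_eq F.gp cls
  have eL : Lg z b s d0 E A β = mE (cm0 F.gp) (pe (E A β)) cls
      (fun x => ∑ β' ∈ chd (cm0 F.gp) (pe (E A β)) cls none x,
        en (aL (A : Set ℂ) z b s d0 A) β') := mn_eq F.gp cls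
  have eN : Ng z b d0 E A β = mE (cm0 F.gp) (pe (E A β)) cls
      (fun x => ((dchE F.gp cls (Sb z b d0) x).card : ℝ≥0∞)) := mn_eq F.gp cls
  have s1 : Fg z b d0 r E A β ≤ 2 * Lg z b s d0 E A β +
      2 * mE (cm0 F.gp) (pe (E A β)) cls (fun x => ∑ β' ∈ 𝒟 x, en (nn A) β') := by
    rw [eF, eL, ← mE_smul, ← mE_smul, ← mE_add]
    refine mE_mono fun x hx => ?_
    have hx' := mem_ev.1 hx
    have h1 : ∑ β' ∈ 𝒟 x, en (aD (A : Set ℂ) z b d0 A) β' ≤
        ∑ β' ∈ 𝒟 x, (2 * en (aL (A : Set ℂ) z b s d0 A) β' + 2 * en (nn A) β') := by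
      refine Finset.sum_le_sum fun β' hβ' => ?_
      have hgap : ∀ g ∈ β', Gp (coarse (cm0 F.gp) (pe (E A β)) cls) x g := by
        intro g hg
        obtain ⟨hb1, -⟩ := Finset.mem_filter.1 (hsub x hβ')
        exact (mem_blks hx' hb1 hg).1
      have e3 : en (aD (A : Set ℂ) z b d0 A) β' =
          en (fun g => -aL (A : Set ℂ) z b s d0 A g + nn A g) β' := by
        unfold en
        congr 3
        refine Finset.sum_congr rfl fun g hg => ?_
        show aD (A : Set ℂ) z b d0 A g = -aL (A : Set ℂ) z b s d0 A g + nn A g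
        rw [← nn_gap F hx' (hgap g hg), aU_eq (d0 := d0) g]
        ring
      have e4 : en (fun g => -aL (A : Set ℂ) z b s d0 A g) β' =
          en (aL (A : Set ℂ) z b s d0 A) β' := by
        unfold en
        rw [Finset.sum_neg_distrib, norm_neg]
      rw [e3, ← e4]
      exact en_add _ _ _
    refine h1.trans ?_
    rw [Finset.sum_add_distrib, ← Finset.mul_sum, ← Finset.mul_sum]
    exact add_le_add (mul_le_mul_right (Finset.sum_le_sum_of_subset (hsub x)) _) le_rfl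
  -- 3. the terms
  have eM : mE (cm0 F.gp) (pe (E A β)) cls (fun x => ∑ β' ∈ 𝒟 x, en (nn A) β') =
      ((ev (coarse M (pc F.gp (E A β)) (clsCon_pc cls))).card : ℝ≥0∞)⁻¹ *
        ∑ x ∈ ev (coarse M (pc F.gp (E A β)) (clsCon_pc cls)), ∑ β' ∈ 𝒟 x, en (nn A) β' :=
    ENNReal.div_eq_inv_mul
  have t1 : av A Rv (fun b' => ENNReal.ofReal (PhG M (pc F.gp (E A β)) none G m₀ Co
      (allI (D0 A)) (nn A) (χ b'))) β ≤
      avPhi m₀ F.gp F.c3 G Gf Z cz rz (allI (D0 A)) (nn A) β := by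
    have e5 : avPhi m₀ F.gp F.c3 G Gf Z cz rz (allI (D0 A)) (nn A) β =
        av A Rv (fun b' => ENNReal.ofReal (SumAx389.Phi M G m₀ Co (allI (D0 A)) (nn A)
          (χ b'))) β :=
      (congrArg (fun R => av A R (fun b' => ENNReal.ofReal (SumAx389.Phi M G m₀ Co
        (allI (D0 A)) (nn A) (χ b'))) β) hRv).symm
    rw [e5]
    exact av_mono hβ fun b' _ _ => ENNReal.ofReal_le_ofReal phG_le
  have t2 : ∑ j ∈ Finset.range n, ((ev (coarse M (pc F.gp (E A β)) (clsCon_pc cls))).card :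
      ℝ≥0∞)⁻¹ * ∑ x ∈ ev (coarse M (pc F.gp (E A β)) (clsCon_pc cls)),
        ∑ β' ∈ 𝒟 x, en (rst (nn A) (FR A Q j)) β' ≤ stripf nn n Q E A β := by
    unfold stripf
    refine Finset.sum_le_sum fun j _ => ?_
    rw [mn_eq F.gp cls]
    unfold mE
    rw [ENNReal.div_eq_inv_mul]
    exact mul_le_mul_right (Finset.sum_le_sum fun x _ =>
      Finset.sum_le_sum_of_subset (hsub x)) _
  have t3 : ((ev (coarse M (pc F.gp (E A β)) (clsCon_pc cls))).card : ℝ≥0∞)⁻¹ *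
      ∑ x ∈ ev (coarse M (pc F.gp (E A β)) (clsCon_pc cls)), ((𝒟 x).card : ℝ≥0∞) ≤
      Ng z b d0 E A β := by
    rw [eN]
    unfold mE
    rw [ENNReal.div_eq_inv_mul]
    refine mul_le_mul_right (Finset.sum_le_sum fun x _ => ?_) _
    exact_mod_cast Finset.card_le_card (hsubd x)
  have hK0 : 0 ≤ K := (sq_nonneg _).trans (hK 0 0)
  have hB0 : 0 ≤ Bd := (sq_nonneg _).trans (hB 0 0 le_rfl (Nat.zero_le n))
  have e8 : ENNReal.ofReal (32 * Bd + 8 * K) = 2 * ENNReal.ofReal (16 * Bd + 4 * K) := by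
    rw [show (2 : ℝ≥0∞) = ENNReal.ofReal 2 by norm_num, ← ENNReal.ofReal_mul (by norm_num)]
    congr 1
    ring
  calc Fg z b d0 r E A β ≤ 2 * Lg z b s d0 E A β +
        2 * mE (cm0 F.gp) (pe (E A β)) cls (fun x => ∑ β' ∈ 𝒟 x, en (nn A) β') := s1
    _ ≤ 2 * Lg z b s d0 E A β + 2 * (4 * avPhi m₀ F.gp F.c3 G Gf Z cz rz (allI (D0 A)) (nn A) β +
        56 * ∑ j ∈ Finset.range n, avG m₀ F.gp F.c3 G (E A β) Rv Co
          (rst (nn A) (FR A Q j)) β + 56 * stripf nn n Q E A β +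
        ENNReal.ofReal (16 * Bd + 4 * K) * Ng z b d0 E A β) := by
        rw [eM]
        refine add_le_add le_rfl (mul_le_mul_right (main.trans ?_) _)
        refine add_le_add (add_le_add (add_le_add ?_ ?_) ?_) ?_
        · exact mul_le_mul_right t1 _
        · exact le_rfl
        · exact mul_le_mul_right t2 _
        · exact mul_le_mul_right t3 _
    _ = _ := by
        rw [e8]
        ring

end Crest.Agent.R143.FarFx263
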