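import Crest.Agent.R143.FarF_263

/-!
# Row 143 (S0194), block H (helper263): the far clause of `HCompx197.Ring1`

* `RgF`, `RgW` : regions of the full exploration / of the windows as families; `RvEq`
* `yf`, `pf` : `8 avPhi`, `∑_j avG` as functions of (sites, black sites)
* `FarD`, `FarAe` : ring data where the weight is not zero
* **`far_clause`** : `Fg ≤ 2 Lg + (112 pf + (112 stripf + 32 B Ng)) + yf + 8 K Ng`
* **`ring1_of`** : `Ring1` from the facts, the ring data, and the majorants of `pf` (352 / 126), of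
  `B Ng` (88), of `yf` (136's `QA`)
-/

set_option autoImplicit false

noncomputable section

open scoped Classical

namespace Crest.Agent.R143.FarGx263

open MeasureTheory Filter Topology
open Crest.ProbabilityR.Voronoi
open Crest.Agent.R143.B0x346 Crest.Agent.R143.SumScx302 Crest.Agent.R143.Mass1x302
  Crest.Agent.R143.Mass2x302 Crest.Agent.R143.Mass4x302
  Crest.Agent.R143.Mass5x302 Crest.Agent.R143.DelGx806 Crest.Agent.R143.DelRx806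
  Crest.Agent.R143.PP0x831 Crest.Agent.R143.Trans3x690 Crest.Agent.R143.Trans5x690
  Crest.Agent.R143.HBudx136 Crest.Agent.R143.HGluex136 Crest.Agent.R143.JColx54
  Crest.Agent.R143.SmallAx304 Crest.Agent.R143.Dblx609 Crest.Agent.R143.Dbl2x609
  Crest.Agent.R143.Asm3x414 Crest.Agent.R143.Asm4x414
  Crest.Agent.R143.Frame1x395 Crest.Agent.R143.Frame2x395 Crest.Agent.R143.Frame8x395
  Crest.Agent.R143.Frame10x395 Crest.Agent.R143.FinCx811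
open Crest.Agent.R143.GiantEx197 (Eg Lf)
open Crest.Agent.R143.StgIx432 Crest.Agent.R143.HCompx197 Crest.Agent.R143.HRevx432
open Crest.Agent.R143.StrHx795 (Df)
open Crest.Agent.R143.CntGx197 (Dense)
open Crest.Agent.R143.Harx315 (IsStop)
open Crest.Agent.R143.RevCx389 (Rg Ra)
open Crest.Agent.R143.RevEx389 (Le)
open Crest.Agent.R143.FarIx355 (allI)
open Crest.Agent.R143.PotPx263 (RQ Vg)
open Crest.Agent.R143.RcTx263 (Wn)
open Crest.Agent.R143.Sptx169 (rst)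
open Crest.Agent.R143.Engx490 (nn)
open Crest.Agent.R143.RingTx263 (FR)
open Crest.Agent.R143.StripQx88 (stripf)
open Crest.Agent.R143.MajAx136 (avPhi QA)
open Crest.Agent.R143.Meetx707 (sr core)
open Crest.Agent.R143.Trans2x690 (Wf)
open Crest.Agent.R143.FarFx263
open scoped ENNReal

/-- regions of the full exploration, for every set of sites -/
abbrev RgF := ∀ (A : Finset ℂ) (hS : GP (A : Set ℂ)), 3 ≤ A.card → Rg (D0 A) (Cs hS)

/-- regions of the windows, for every set of sites -/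
abbrev RgW := ∀ (A : Finset ℂ) (hS : GP (A : Set ℂ)), 3 ≤ A.card → ℕ → Rg (D0 A) (Cs hS)

/-- `Rv` is the full exploration of the regions `Gr` -/
def RvEq (Gr : RgF) (Rv : Finset ℂ → Finset ℂ → Finset ℂ) : Prop :=
  ∀ (A β : Finset ℂ) (hS : GP (A : Set ℂ)) (h3 : 3 ≤ A.card),
    Rv A β = Ra (rc0 hS) (Gr A hS h3) A (chiS hS h3) (Kc hS h3) β

variable {ι : Type}

/-- the core cells -/
abbrev cor {A : Finset ℂ} (hS : GP (A : Set ℂ)) (h3 : 3 ≤ A.card) (Z : Finset ι) (cz : ι → ℂ)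
    (rz : ι → ℝ) : Set (Cs hS) := ⋃ q ∈ Z, core A (sr hS h3) (cz q) (rz q)

/-- the joined part -/
def yf (m₀ : ℕ) (Gw : RgW) (Gr : RgF) (Z : Finset ι) (cz : ι → ℂ) (rz : ι → ℝ)
    (A β : Finset ℂ) : ℝ≥0∞ :=
  if h : ∃ _ : GP (A : Set ℂ), 3 ≤ A.card then
    8 * avPhi m₀ h.choose h.choose_spec (Gw A h.choose h.choose_spec)
      (Gr A h.choose h.choose_spec) Z cz rz (allI (D0 A)) (nn A) β
  else 0

theorem yf_eq {m₀ : ℕ} {Gw : RgW} {Gr : RgF} {Z : Finset ι} {cz : ι → ℂ} {rz : ι → ℝ}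
    {A β : Finset ℂ} (hS : GP (A : Set ℂ)) (h3 : 3 ≤ A.card) : yf m₀ Gw Gr Z cz rz A β =
      8 * avPhi m₀ hS h3 (Gw A hS h3) (Gr A hS h3) Z cz rz (allI (D0 A)) (nn A) β := by
  have h : ∃ _ : GP (A : Set ℂ), 3 ≤ A.card := ⟨hS, h3⟩
  unfold yf
  rw [dif_pos h]

/-- the partial tiles -/
def pf (m₀ n : ℕ) (Gw : RgW) (Rv : Finset ℂ → Finset ℂ → Finset ℂ) (E : EFam) (Z : Finset ι)
    (cz : ι → ℂ) (rz : ι → ℝ) (Q : ℕ → Set ℂ) (A β : Finset ℂ) : ℝ≥0∞ :=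
  if h : ∃ _ : GP (A : Set ℂ), 3 ≤ A.card then
    ∑ j ∈ Finset.range n, avG m₀ h.choose h.choose_spec (Gw A h.choose h.choose_spec) (E A β)
      (Rv A β) (cor h.choose h.choose_spec Z cz rz) (rst (nn A) (FR A Q j)) β
  else 0

theorem pf_eq {m₀ n : ℕ} {Gw : RgW} {Rv : Finset ℂ → Finset ℂ → Finset ℂ} {E : EFam}
    {Z : Finset ι} {cz : ι → ℂ} {rz : ι → ℝ} {Q : ℕ → Set ℂ} {A β : Finset ℂ}
    (hS : GP (A : Set ℂ)) (h3 : 3 ≤ A.card) :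
    pf m₀ n Gw Rv E Z cz rz Q A β = ∑ j ∈ Finset.range n, avG m₀ hS h3 (Gw A hS h3) (E A β)
      (Rv A β) (cor hS h3 Z cz rz) (rst (nn A) (FR A Q j)) β := by
  have h : ∃ _ : GP (A : Set ℂ), 3 ≤ A.card := ⟨hS, h3⟩
  unfold pf
  rw [dif_pos h]

/-- the numbers and places of the ring at one mesh -/
structure Pl (ι : Type) where
  m₀ : ℕ
  n : ℕ
  h : ℕ
  l : ℕ
  Q : ℕ → Set ℂ
  w : ℕ → ℂ
  κ : ℂ
  K : ℝ
  Wc : ℕ → ℂ
  h0 : ℝ
  r0 : ℝ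
  Z : Finset ι
  cz : ι → ℂ
  rz : ι → ℝ

/-- the numbers are consistent, far radius `r`, box `z`, `b` -/
structure Pl.Ok (X : Pl ι) (z : ℂ) (b r : ℝ) : Prop where
  perw : ∀ j, X.w (j + X.n) = X.w j
  hK : ∀ i j, ‖X.κ * (X.w j - X.w i)‖ ^ 2 ≤ X.K
  step : ∀ k, ‖X.Wc (k + 1) - X.Wc k‖ ≤ X.h0
  perW : ∀ k, X.Wc (k + X.n) = X.Wc k
  h00 : 0 ≤ X.h0
  hr : (2 * X.h + 9) * X.h0 + 2 * X.r0 < r
  dis : ∀ l j, 0 < j → j < X.n → Disjoint (X.Q l) (X.Q (l + j))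
  off : ∀ l < X.n, Disjoint (X.Q l) (sq z b)

/-- **ring data at one configuration** -/
structure FarD (X : Pl ι) (z : ℂ) (b d0 : ℝ) {A : Finset ℂ} (hS : GP (A : Set ℂ))
    (h3 : 3 ≤ A.card) (Gf : Rg (D0 A) (Cs hS)) (G : ℕ → Rg (D0 A) (Cs hS))
    (E : Set (Quot (hullE A))) (Bd : ℝ) (β : Finset ℂ) (P₀ : D0 A) (N : ℕ) (T : ℕ → ℕ)
    (Reg B' : ℕ → Set (Cs hS)) : Prop where
  W : Wn (rc0 hS) Gf G Gf.h0 (chiS hS h3 β) P₀ N X.n T Reg X.h X.l X.m₀ B'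
  le : ∀ i, i < X.m₀ → Le (G i) Gf
  hE : E = Eg (cm0 hS) Gf.h0.1 (Lf (cm0 hS) (cfg (rc0 hS) (chiS hS h3 β)) P₀ N)
  rq : RQ (rc0 hS) (cfg (rc0 hS) (chiS hS h3 β)) P₀ N X.n T (FR A X.Q)
  law : ∀ i j, i ≤ j → j ≤ X.n →
    ‖∑ k ∈ Finset.Ico i j, Vg (rc0 hS) (cfg (rc0 hS) (chiS hS h3 β)) P₀ T X.n
      (nn A) (FR A X.Q) k - X.κ * (X.w j - X.w i)‖ ^ 2 ≤ Bd
  reg : ∀ k, ∀ d : D0 A, (rc0 hS).cell d ∈ Reg k → ‖d.1.1 - X.Wc k‖ ≤ X.r0
  core : ∀ g ∈ Df A (Sb z b d0), (rc0 hS).cell g ∈ cor hS h3 X.Z X.cz X.rz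

/-- ring data where the weight is not zero -/
def FarAe (ε : ℝ) (B : Set ℂ) (g : Set (ℂ × Bool) → ℝ≥0∞) (X : Pl ι) (z : ℂ) (b d0 : ℝ)
    (Gr : RgF) (Gw : RgW) (E : EFam) (Bf : Finset ℂ → Finset ℂ → ℝ) : Prop :=
  ∀ᵐ ω ∂sampleLaw, ∀ β ∈ (Ap ε B ω).powerset, g (paint (Ap ε B ω) β) ≠ 0 →
    ∃ (hS : GP ((Ap ε B ω : Finset ℂ) : Set ℂ)) (h3 : 3 ≤ (Ap ε B ω).card)
      (P₀ : D0 (Ap ε B ω)) (N : ℕ) (T : ℕ → ℕ) (Reg B' : ℕ → Set (Cs hS)),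
      FarD X z b d0 hS h3 (Gr _ hS h3) (Gw _ hS h3) (E (Ap ε B ω) β) (Bf (Ap ε B ω) β) β P₀ N T
        Reg B'

/-- **the far clause** -/
theorem far_clause {ε : ℝ} {B : Set ℂ} {g : Set (ℂ × Bool) → ℝ≥0∞} {X : Pl ι} {z : ℂ}
    {b s d0 r : ℝ} {Gr : RgF} {Gw : RgW} {Rv : Finset ℂ → Finset ℂ → Finset ℂ} {E : EFam}
    {Bf : Finset ℂ → Finset ℂ → ℝ} (hX : X.Ok z b r) (hv : RvEq Gr Rv)
    (hF : FactsAe ε B (Ub z b s) (sq z b) g Rv E)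
    (hR : FarAe ε B g X z b d0 Gr Gw E Bf) :
    ∀ᵐ ω ∂sampleLaw, ∀ β ∈ (Ap ε B ω).powerset, g (paint (Ap ε B ω) β) ≠ 0 →
      Fg z b d0 r E (Ap ε B ω) β ≤ 2 * Lg z b s d0 E (Ap ε B ω) β +
        (112 * pf X.m₀ X.n Gw Rv E X.Z X.cz X.rz X.Q (Ap ε B ω) β +
          (112 * stripf nn X.n X.Q E (Ap ε B ω) β +
            ENNReal.ofReal (32 * Bf (Ap ε B ω) β) * Ng z b d0 E (Ap ε B ω) β)) +
        yf X.m₀ Gw Gr X.Z X.cz X.rz (Ap ε B ω) β +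
        ENNReal.ofReal (8 * X.K) * Ng z b d0 E (Ap ε B ω) β := by
  filter_upwards [hF, hR] with ω hF hR β hβ h0
  have F := hF β hβ h0
  obtain ⟨hS, h3, P₀, N, T, Reg, B', D⟩ := hR β hβ h0
  have hK0 : 0 ≤ X.K := (sq_nonneg _).trans (hX.hK 0 0)
  have hB0 : 0 ≤ Bf (Ap ε B ω) β := (sq_nonneg _).trans (D.law 0 0 le_rfl (Nat.zero_le _))
  have key := far_one (r := r) F (Finset.mem_powerset.1 hβ) (hv _ β hS h3) D.W D.le D.hE D.rq
    hX.perw D.law hX.hK hX.step hX.perW hX.h00 D.reg hX.hr D.core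
  refine key.trans (le_of_eq ?_)
  rw [pf_eq hS h3, yf_eq hS h3, ENNReal.ofReal_add (by positivity) (by positivity)]
  ring

/-- **197's `Ring1`** -/
theorem ring1_of (z : ℂ) {b s c d0 R K c1 c2 C4 τ δ : ℝ} (hb : 0 < b) (hs : 0 < s) (hs1 : s ≤ 1)
    (hc : 0 < c) (hd0 : 0 < d0) (hdb : 2 * d0 < b) (hδ : 0 < δ) (hτ : 0 < τ)
    (hτs : wD * (4 * b * s + 4 * s ^ 2) < τ / 448) {k cA : ℝ} (hk : 0 < k) (hcA : 0 < cA)
    {U : Set ℂ} (hU : Bornology.IsBounded U) (m₀ n₀ : ℕ) :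
    ∀ᶠ ε : ℝ in 𝓝[>] 0, ∀ (B : Set ℂ) (g : Set (ℂ × Bool) → ℝ≥0∞) (X : Pl ι) (Gr : RgF)
      (Gw : RgW) (Rv : Finset ℂ → Finset ℂ → Finset ℂ) (E : EFam)
      (Bf : Finset ℂ → Finset ℂ → ℝ), RvEq Gr Rv → (∀ A, IsStop A (Rv A)) →
      MeasurableSet B → Bornology.IsBounded B → Ub z b s ⊆ B → U ⊆ B → Poisx304.FM g →
      (∀ X, g X ≤ 1) → ENNReal.ofReal c ≤ Mg ε B g → X.m₀ = m₀ → X.Ok z b (2 * R) →
      X.K ≤ τ / 8 →
      FactsAe ε B (Ub z b s) (sq z b) g Rv E →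
      (∀ᵐ ω ∂sampleLaw, ∀ β ∈ (Ap ε B ω).powerset, g (paint (Ap ε B ω) β) ≠ 0 →
        ∃ d : ℝ, 0 < d ∧ 2 * d ≤ R ∧ d ≤ c1 * R ∧
          Dense (Ap ε B ω) z (3 * b + 2) K d c2 R (d0 / 2) C4) →
      FarAe ε B g X z b d0 Gr Gw E Bf →
      (∀ᵐ ω ∂sampleLaw, QA ι 8 k cA m₀ n₀ (points ε ω) U (Ap ε B ω)
        (fun β => g (paint (Ap ε B ω) β))
        (yf X.m₀ Gw Gr X.Z X.cz X.rz (Ap ε B ω))) →
      (∃ RP : Sample → ℝ≥0∞, MajQ ε B g (pf X.m₀ X.n Gw Rv E X.Z X.cz X.rz X.Q) RP ∧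
        ∫⁻ ω, RP ω ∂sampleLaw ≤ ENNReal.ofReal (τ / 448) * Mg ε B g) →
      (∃ RB : Sample → ℝ≥0∞, MajQ ε B g
          (fun A β => ENNReal.ofReal (32 * Bf A β) * Ng z b d0 E A β) RB ∧
        ∫⁻ ω, RB ω ∂sampleLaw ≤ ENNReal.ofReal (τ / 4) * Mg ε B g) →
      Ring1 z b s ε c d0 R K c1 c2 C4 (2 * LayMx88.clL b) τ δ := by
  have hcl := LayMx88.clL_nonneg hb
  filter_upwards [LayMx88.lay_maj' z (b := b) (s := s) (d := d0) (δ := δ / 2) hb hs hs1 hd0.le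
      hdb (by positivity), StripQx88.stripQ z (τ := τ / 448) hb hs hc hτs,
    MajAx136.majA_lim hk hU ι (kp := 8) (by norm_num) hcA m₀ n₀ hδ,
    eventually_mem_nhdsWithin] with ε hlay hstrip hA hε
  have hε : 0 < ε := hε
  intro B g X Gr Gw Rv E Bf hv hst hBm hB hUB hUB' hg hg1 hcg hm hX hXK hF hDe hR hQA hP hBN
  -- the layer
  obtain ⟨R1, mL', iL⟩ := hlay B hBm hB g (val (Lg z b s d0 E)) hg hg1 (by
    filter_upwards [hF] with ω hF β hβ h0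
    have F := hF β hβ h0
    have H := fac_ste F
    obtain ⟨e0⟩ := exists_dart F.gp F.c3
    rw [val_paint _ (Finset.mem_powerset.1 hβ)]
    have h1 : Lg z b s d0 E (Ap ε B ω) β + Wf ((Ap ε B ω : Finset ℂ) : Set ℂ) (Sb z b d0) ≤
        Wf ((Ap ε B ω : Finset ℂ) : Set ℂ) (Ub z b s) := by
      unfold Lg
      rw [mn_eq F.gp F.cls]
      exact HDecx197.lay_le F.gp H F.out hs.le hd0.le e0 F.cls
    rwa [wf_congr fun w hw => (ps_iff hε hB hUB ω w hw).symm,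
      wf_congr (U := Sb z b d0) fun w hw => (ps_iff hε hB hUB ω w
        (sb_sub hs.le hd0.le hw)).symm] at h1)
  have mL := majQ_of mL'
  -- the strips
  obtain ⟨R2, mS, iS⟩ := hstrip B hBm hB hUB g E Rv nn X.n X.Q hg hg1 hcg
    (fld_nn _) hF hX.dis hX.off
  -- the joined part
  obtain ⟨RY, mY, iY⟩ := hA B hB hUB' g hg1 _ hQA
  obtain ⟨RP, mP, iP⟩ := hP
  obtain ⟨RB, mB, iB⟩ := hBN
  refine ⟨B, g, E, Rv, fun A β => 2 * Lg z b s d0 E A β,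
    fun A β => 112 * pf X.m₀ X.n Gw Rv E X.Z X.cz X.rz X.Q A β +
      (112 * stripf nn X.n X.Q E A β + ENNReal.ofReal (32 * Bf A β) * Ng z b d0 E A β),
    yf X.m₀ Gw Gr X.Z X.cz X.rz, fun ω => 2 * R1 ω,
    fun ω => 112 * RP ω + (112 * R2 ω + RB ω), RY, ENNReal.ofReal (8 * X.K),
    ⟨hBm, hB, hUB, hg, hg1, hcg⟩, ⟨?_, hF, hDe⟩, far_clause hX hv hF hR, mL.mul 2,
    (mP.mul 112).add ((mS.mul 112).add mB), mY, ?_, ?_, iY, ?_⟩
  · exact Filter.Eventually.of_forall fun ω => hst _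
  · rw [lintegral_const_mul'' _ mL.me]
    calc _ ≤ 2 * (ENNReal.ofReal (LayMx88.clL b * (d0 + s) + δ / 2) * Mg ε B g +
          ENNReal.ofReal (δ / 2)) := mul_le_mul_right iL _
      _ = 2 * ENNReal.ofReal (LayMx88.clL b * (d0 + s) + δ / 2) * Mg ε B g +
          2 * ENNReal.ofReal (δ / 2) := by ring
      _ = _ := by
          rw [show (2 : ℝ≥0∞) = ENNReal.ofReal 2 by norm_num, ← ENNReal.ofReal_mul (by norm_num),
            ← ENNReal.ofReal_mul (by norm_num)]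
          congr 3 <;> ring
  · rw [lintegral_add_left' (mP.me.const_mul _), lintegral_add_left' (mS.me.const_mul _),
      lintegral_const_mul'' _ mP.me, lintegral_const_mul'' _ mS.me]
    calc _ ≤ 112 * (ENNReal.ofReal (τ / 448) * Mg ε B g) +
          (112 * (ENNReal.ofReal (τ / 448) * Mg ε B g) + ENNReal.ofReal (τ / 4) * Mg ε B g) :=
          add_le_add (mul_le_mul_right iP _) (add_le_add (mul_le_mul_right iS _) iB)
      _ = (112 * ENNReal.ofReal (τ / 448) + 112 * ENNReal.ofReal (τ / 448) +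
          ENNReal.ofReal (τ / 4)) * Mg ε B g := by ring
      _ ≤ _ := by
          refine mul_le_mul_left ?_ _
          rw [show (112 : ℝ≥0∞) = ENNReal.ofReal 112 by norm_num,
            ← ENNReal.ofReal_mul (by norm_num), ← ENNReal.ofReal_add (by positivity)
            (by positivity), ← ENNReal.ofReal_add (by positivity) (by positivity)]
          refine ENNReal.ofReal_le_ofReal ?_
          linarith
  · exact ENNReal.ofReal_le_ofReal (by linarith)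

end Crest.Agent.R143.FarGx263
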