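import Crest.Agent.R143.RingL_239

/-!
# Row 143 (S0194), block H, note 4372 (R2): two nets on disjoint regions (helper366)

`M : PWx978.Net ε ι κ`, `M' : Net ε ι' κ'` (the closed path `W` and the white path `W'`), weight
`g_in = M.gw I J`, `g_out = M'.gw I' J'`.

* `low` : the same net with a smaller constant; `wm_low` : the same weighted law
* `Dj`, `sum` : the union of two nets on disjoint regions (`gw`, `reg`, `mass`), so `RingLx239`
  (`prod_rule`, `Cyc`, `Lin`, `lin_int`) holds for the product weight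
* `box` : weightless boxes (columns of the arms) are added to a net
* `lint_two`, `int_two`, `mass_two`, `lint_left`, `lint_right` : independence, direct form
* `lprod` : nonnegative form of 239's `prod_rule`
* `low_mean`, `low_mean_ae` : **relative lower bound from an annealed box**:
  `c₁ ≤ Rs (V₀ ∪ J₀) (∏ a ∏ e · F)` on good gates implies `c₁ E[g] ≤ E[g F]`
* `arms` : `c₁^m E[g] ≤ E[g ∏ F]` for events on disjoint sub-nets with relative means `≥ c₁`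
* `bx_sdiff`, `arms_two`, `arms_two_ae` : the same for two nets and columns, from the annealed bound of one arm
-/

set_option autoImplicit false

noncomputable section

namespace Crest.Agent.R143.TwoNx366

open MeasureTheory Set ProbabilityTheory
open Crest.ProbabilityR.Voronoi
open Crest.Agent.R143.PP0x831 Crest.Agent.R143.Poisx304 Crest.Agent.R143.Janx304
open Crest.Agent.R143.IndLocx279 Crest.Agent.R143.PWx978 Crest.Agent.R143.RingLx239
open scoped ENNReal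

variable {ε : ℝ} {ι κ ι' κ' ν : Type*}

/-! ### a smaller constant -/

/-- the same net with the constant `c ≤ M.c` -/
def low (M : Net ε ι κ) (c : ℝ≥0∞) (h0 : c ≠ 0) (h : c ≤ M.c) : Net ε ι κ :=
  { M with
    c := c
    c0 := h0
    c1 := ne_top_of_le_ne_top M.c1 h
    pos := fun k S hS hg => h.trans (M.pos k S hS hg) }

section low

variable (M : Net ε ι κ) {c : ℝ≥0∞} (h0 : c ≠ 0) (h : c ≤ M.c)

theorem gw_low (I : Finset ι) (J : Finset κ) (S : Cf) :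
    (low M c h0 h).gw I J S = (c * M.c⁻¹) ^ J.card * M.gw I J S := by
  unfold Net.gw
  have e : ∏ k ∈ J, (low M c h0 h).fac k S = (c * M.c⁻¹) ^ J.card * ∏ k ∈ J, M.fac k S := by
    rw [← Finset.prod_const, ← Finset.prod_mul_distrib]
    refine Finset.prod_congr rfl fun k _ => ?_
    change M.e k S * (c * (Rs ε (M.C k) (M.e k) S)⁻¹) =
      c * M.c⁻¹ * (M.e k S * (M.c * (Rs ε (M.C k) (M.e k) S)⁻¹))
    calc M.e k S * (c * (Rs ε (M.C k) (M.e k) S)⁻¹)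
        = (M.c⁻¹ * M.c) * (c * (M.e k S * (Rs ε (M.C k) (M.e k) S)⁻¹)) := by
          rw [ENNReal.inv_mul_cancel M.c0 M.c1]; ring
      _ = _ := by ring
  rw [e]
  change (∏ i ∈ I, M.a i S) * _ = _
  ring

theorem reg_low (I : Finset ι) (J : Finset κ) : (low M c h0 h).reg I J = M.reg I J := rfl

theorem mass_low (I : Finset ι) (J : Finset κ) :
    mass (low M c h0 h) I J = (c * M.c⁻¹) ^ J.card * mass M I J := by
  unfold mass
  simp_rw [gw_low]
  refine lintegral_const_mul' _ _ (ENNReal.pow_ne_top ?_)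
  exact ENNReal.mul_ne_top (ne_top_of_le_ne_top M.c1 h) (ENNReal.inv_ne_top.2 M.c0)

/-- **the weighted law does not change** -/
theorem wm_low (I : Finset ι) (J : Finset κ) : wm (low M c h0 h) I J = wm M I J := by
  have h1 : (c * M.c⁻¹) ^ J.card ≠ 0 :=
    pow_ne_zero _ (mul_ne_zero h0 (ENNReal.inv_ne_zero.2 M.c1))
  have h2 : (c * M.c⁻¹) ^ J.card ≠ ∞ := ENNReal.pow_ne_top
    (ENNReal.mul_ne_top (ne_top_of_le_ne_top M.c1 h) (ENNReal.inv_ne_top.2 M.c0))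
  unfold wm
  rw [mass_low]
  simp_rw [gw_low]
  have e : (sampleLaw.withDensity fun ω => (c * M.c⁻¹) ^ J.card * M.gw I J (cfg ε ω)) =
      (c * M.c⁻¹) ^ J.card • sampleLaw.withDensity fun ω => M.gw I J (cfg ε ω) := by
    exact withDensity_smul' _ _ h2
  rw [e, smul_smul, ENNReal.mul_inv (Or.inl h1) (Or.inl h2)]
  congr 1
  calc ((c * M.c⁻¹) ^ J.card)⁻¹ * (mass M I J)⁻¹ * (c * M.c⁻¹) ^ J.card
      = (((c * M.c⁻¹) ^ J.card)⁻¹ * (c * M.c⁻¹) ^ J.card) * (mass M I J)⁻¹ := by ring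
    _ = (mass M I J)⁻¹ := by rw [ENNReal.inv_mul_cancel h1 h2, one_mul]

end low

/-! ### two nets -/

/-- two nets with the same constant on disjoint regions -/
structure Dj (M : Net ε ι κ) (M' : Net ε ι' κ') : Prop where
  c : M'.c = M.c
  BB : ∀ i i', Disjoint (M.B i) (M'.B i')
  BC : ∀ i k', Disjoint (M.B i) (M'.C k')
  CB : ∀ k i', Disjoint (M.C k) (M'.B i')
  CC : ∀ k k', Disjoint (M.C k) (M'.C k')

/-- gates of the sum -/
abbrev inlE (ι ι' : Type*) : ι ↪ ι ⊕ ι' := ⟨Sum.inl, Sum.inl_injective⟩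

/-- gates of the sum -/
abbrev inrE (ι ι' : Type*) : ι' ↪ ι ⊕ ι' := ⟨Sum.inr, Sum.inr_injective⟩

variable {M : Net ε ι κ} {M' : Net ε ι' κ'}

/-- **the union of two nets** -/
def sum (H : Dj M M') : Net ε (ι ⊕ ι') (κ ⊕ κ') where
  B := Sum.elim M.B M'.B
  C := Sum.elim M.C M'.C
  a := Sum.elim M.a M'.a
  e := Sum.elim M.e M'.e
  N := Sum.elim (fun k => (M.N k).map (inlE ι ι')) fun k => (M'.N k).map (inrE ι ι')
  c := M.c
  eps := M.eps
  c0 := M.c0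
  c1 := M.c1
  Bm := by
    rintro (i | i)
    · exact M.Bm i
    · exact M'.Bm i
  Bb := by
    rintro (i | i)
    · exact M.Bb i
    · exact M'.Bb i
  Cm := by
    rintro (i | i)
    · exact M.Cm i
    · exact M'.Cm i
  Cb := by
    rintro (i | i)
    · exact M.Cb i
    · exact M'.Cb i
  BB := by
    rintro (i | i) (j | j) h
    · exact M.BB i j fun e => h (e ▸ rfl)
    · exact H.BB i j
    · exact (H.BB j i).symm
    · exact M'.BB i j fun e => h (e ▸ rfl)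
  CC := by
    rintro (i | i) (j | j) h
    · exact M.CC i j fun e => h (e ▸ rfl)
    · exact H.CC i j
    · exact (H.CC j i).symm
    · exact M'.CC i j fun e => h (e ▸ rfl)
  BC := by
    rintro (i | i) (j | j)
    · exact M.BC i j
    · exact H.BC i j
    · exact (H.CB j i).symm
    · exact M'.BC i j
  al := by
    rintro (i | i)
    · exact M.al i
    · exact M'.al i
  am := by
    rintro (i | i)
    · exact M.am i
    · exact M'.am i
  a1 := by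
    rintro (i | i)
    · exact M.a1 i
    · exact M'.a1 i
  el := by
    rintro (k | k)
    · refine LocalOn.mono ?_ (M.el k)
      refine union_subset_union_left _ (iUnion₂_subset fun i hi => ?_)
      exact subset_biUnion_of_mem (u := Sum.elim M.B M'.B) (x := Sum.inl i)
        (Finset.mem_map_of_mem (inlE ι ι') hi)
    · refine LocalOn.mono ?_ (M'.el k)
      refine union_subset_union_left _ (iUnion₂_subset fun i hi => ?_)
      exact subset_biUnion_of_mem (u := Sum.elim M.B M'.B) (x := Sum.inr i)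
        (Finset.mem_map_of_mem (inrE ι ι') hi)
  em := by
    rintro (i | i)
    · exact M.em i
    · exact M'.em i
  e1 := by
    rintro (i | i)
    · exact M.e1 i
    · exact M'.e1 i
  pos := by
    rintro (k | k) S hS h
    · exact M.pos k S hS fun i hi => h (Sum.inl i) (Finset.mem_map_of_mem (inlE ι ι') hi)
    · rw [← H.c]
      exact M'.pos k S hS fun i hi => h (Sum.inr i) (Finset.mem_map_of_mem (inrE ι ι') hi)

section sum

variable (H : Dj M M') {I I₁ I₂ : Finset ι} {J J₁ J₂ : Finset κ} {I' I₁' I₂' : Finset ι'}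
  {J' J₁' J₂' : Finset κ'}

/-- the weight of the sum is the product -/
theorem gw_sum (I : Finset ι) (J : Finset κ) (I' : Finset ι') (J' : Finset κ') (S : Cf) :
    (sum H).gw (I.disjSum I') (J.disjSum J') S = M.gw I J S * M'.gw I' J' S := by
  unfold Net.gw
  rw [Finset.prod_disjSum, Finset.prod_disjSum]
  have e1 : ∏ k ∈ J, (sum H).fac (Sum.inl k) S = ∏ k ∈ J, M.fac k S := rfl
  have e2 : ∏ k ∈ J', (sum H).fac (Sum.inr k) S = ∏ k ∈ J', M'.fac k S := by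
    refine Finset.prod_congr rfl fun k _ => ?_
    change M'.e k S * (M.c * (Rs ε (M'.C k) (M'.e k) S)⁻¹) = _
    rw [← H.c]
    rfl
  rw [e1, e2]
  change ((∏ i ∈ I, M.a i S) * ∏ i ∈ I', M'.a i S) * _ = _
  ring

/-- the region of the sum -/
theorem reg_sum (I : Finset ι) (J : Finset κ) (I' : Finset ι') (J' : Finset κ') :
    (sum H).reg (I.disjSum I') (J.disjSum J') = M.reg I J ∪ M'.reg I' J' := by
  ext z
  simp only [Net.reg, mem_union, mem_iUnion, Finset.mem_disjSum, exists_prop]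
  constructor
  · rintro (⟨i, ⟨j, hj, rfl⟩ | ⟨j, hj, rfl⟩, h⟩ | ⟨i, ⟨j, hj, rfl⟩ | ⟨j, hj, rfl⟩, h⟩)
    · exact Or.inl (Or.inl ⟨j, hj, h⟩)
    · exact Or.inr (Or.inl ⟨j, hj, h⟩)
    · exact Or.inl (Or.inr ⟨j, hj, h⟩)
    · exact Or.inr (Or.inr ⟨j, hj, h⟩)
  · rintro ((⟨j, hj, h⟩ | ⟨j, hj, h⟩) | (⟨j, hj, h⟩ | ⟨j, hj, h⟩))
    · exact Or.inl ⟨Sum.inl j, Or.inl ⟨j, hj, rfl⟩, h⟩
    · exact Or.inr ⟨Sum.inl j, Or.inl ⟨j, hj, rfl⟩, h⟩
    · exact Or.inl ⟨Sum.inr j, Or.inr ⟨j, hj, rfl⟩, h⟩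
    · exact Or.inr ⟨Sum.inr j, Or.inr ⟨j, hj, rfl⟩, h⟩

/-- gates of the tubes -/
theorem N_sum (hN : ∀ k ∈ J, M.N k ⊆ I) (hN' : ∀ k ∈ J', M'.N k ⊆ I') :
    ∀ k ∈ J.disjSum J', (sum H).N k ⊆ I.disjSum I' := by
  intro k hk i hi
  rcases Finset.mem_disjSum.1 hk with ⟨j, hj, rfl⟩ | ⟨j, hj, rfl⟩
  · obtain ⟨i', hi', rfl⟩ := Finset.mem_map.1 hi
    exact Finset.inl_mem_disjSum.2 (hN j hj hi')
  · obtain ⟨i', hi', rfl⟩ := Finset.mem_map.1 hi
    exact Finset.inr_mem_disjSum.2 (hN' j hj hi')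

theorem sum_univ [Fintype ι] [Fintype ι'] :
    (Finset.univ : Finset ι).disjSum (Finset.univ : Finset ι') = Finset.univ := by
  ext x
  rcases x with x | x <;> simp

theorem disj_sum {α β : Type*} {s s' : Finset α} {t t' : Finset β} (h : Disjoint s s')
    (h' : Disjoint t t') : Disjoint (s.disjSum t) (s'.disjSum t') := by
  rw [Finset.disjoint_left]
  intro x hx hx'
  rcases Finset.mem_disjSum.1 hx with ⟨j, hj, rfl⟩ | ⟨j, hj, rfl⟩
  · exact Finset.disjoint_left.1 h hj (Finset.inl_mem_disjSum.1 hx')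
  · exact Finset.disjoint_left.1 h' hj (Finset.inr_mem_disjSum.1 hx')

theorem mass_sum (hN : ∀ k ∈ J, M.N k ⊆ I) (hN' : ∀ k ∈ J', M'.N k ⊆ I') :
    mass (sum H) (I.disjSum I') (J.disjSum J') = mass M I J * mass M' I' J' := by
  rw [mass_eq _ (N_sum H hN hN'), mass_eq M hN, mass_eq M' hN', Finset.prod_disjSum,
    Finset.card_disjSum, H.c, pow_add]
  change M.c ^ J.card * M.c ^ J'.card *
    ((∏ i ∈ I, ∫⁻ ω, M.a i (cfg ε ω) ∂sampleLaw) * ∏ i ∈ I', ∫⁻ ω, M'.a i (cfg ε ω) ∂sampleLaw) = _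
  ring

end sum

/-! ### direct forms (any two nets, constants may differ) -/

section direct

variable {I : Finset ι} {J : Finset κ} {I' : Finset ι'} {J' : Finset κ'}

/-- **independence of two nets** -/
theorem lint_two (hN : ∀ k ∈ J, M.N k ⊆ I) (hN' : ∀ k ∈ J', M'.N k ⊆ I')
    (hd : Disjoint (M.reg I J) (M'.reg I' J')) {F G : Cf → ℝ≥0∞}
    (hF : LocalOn (M.reg I J) F) (hFm : FinMeas F) (hG : LocalOn (M'.reg I' J') G)
    (hGm : FinMeas G) :
    ∫⁻ ω, M.gw I J (cfg ε ω) * M'.gw I' J' (cfg ε ω) * (F (cfg ε ω) * G (cfg ε ω)) ∂sampleLaw =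
      (∫⁻ ω, M.gw I J (cfg ε ω) * F (cfg ε ω) ∂sampleLaw) *
        ∫⁻ ω, M'.gw I' J' (cfg ε ω) * G (cfg ε ω) ∂sampleLaw := by
  rw [← lint_mul (F := fun S => M.gw I J S * F S) (G := fun S => M'.gw I' J' S * G S) M.eps
    (M.reg_meas I J) (M.reg_bdd I J) (M'.reg_meas I' J') (M'.reg_bdd I' J') hd
    (LocalOn.mul (M.gw_local hN) hF) (LocalOn.mul (M'.gw_local hN') hG)
    (fm_mul (M.gw_meas I J) hFm) (fm_mul (M'.gw_meas I' J') hGm)]
  refine lintegral_congr fun ω => ?_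
  ring

theorem mass_two (hN : ∀ k ∈ J, M.N k ⊆ I) (hN' : ∀ k ∈ J', M'.N k ⊆ I')
    (hd : Disjoint (M.reg I J) (M'.reg I' J')) :
    ∫⁻ ω, M.gw I J (cfg ε ω) * M'.gw I' J' (cfg ε ω) ∂sampleLaw = mass M I J * mass M' I' J' :=
  lint_mul M.eps (M.reg_meas I J) (M.reg_bdd I J) (M'.reg_meas I' J') (M'.reg_bdd I' J') hd
    (M.gw_local hN) (M'.gw_local hN') (M.gw_meas I J) (M'.gw_meas I' J')

/-- the second net factors out -/
theorem lint_left (hN : ∀ k ∈ J, M.N k ⊆ I) (hN' : ∀ k ∈ J', M'.N k ⊆ I')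
    (hd : Disjoint (M.reg I J) (M'.reg I' J')) {F : Cf → ℝ≥0∞}
    (hF : LocalOn (M.reg I J) F) (hFm : FinMeas F) :
    ∫⁻ ω, M.gw I J (cfg ε ω) * M'.gw I' J' (cfg ε ω) * F (cfg ε ω) ∂sampleLaw =
      (∫⁻ ω, M.gw I J (cfg ε ω) * F (cfg ε ω) ∂sampleLaw) * mass M' I' J' := by
  have h := lint_two hN hN' hd hF hFm (G := fun _ => 1) (fun _ => rfl) (fun n => measurable_const)
  unfold mass
  simpa using h

/-- the first net factors out -/
theorem lint_right (hN : ∀ k ∈ J, M.N k ⊆ I) (hN' : ∀ k ∈ J', M'.N k ⊆ I')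
    (hd : Disjoint (M.reg I J) (M'.reg I' J')) {G : Cf → ℝ≥0∞}
    (hG : LocalOn (M'.reg I' J') G) (hGm : FinMeas G) :
    ∫⁻ ω, M.gw I J (cfg ε ω) * M'.gw I' J' (cfg ε ω) * G (cfg ε ω) ∂sampleLaw =
      mass M I J * ∫⁻ ω, M'.gw I' J' (cfg ε ω) * G (cfg ε ω) ∂sampleLaw := by
  have h := lint_two hN hN' hd (F := fun _ => 1) (fun _ => rfl) (fun n => measurable_const) hG hGm
  unfold mass
  simpa using h

/-- **relative form**: a bound relative to the inner net holds relative to the pair -/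
theorem rel_left (hN : ∀ k ∈ J, M.N k ⊆ I) (hN' : ∀ k ∈ J', M'.N k ⊆ I')
    (hd : Disjoint (M.reg I J) (M'.reg I' J')) {F : Cf → ℝ≥0∞}
    (hF : LocalOn (M.reg I J) F) (hFm : FinMeas F) {b : ℝ≥0∞}
    (h : ∫⁻ ω, M.gw I J (cfg ε ω) * F (cfg ε ω) ∂sampleLaw ≤ b * mass M I J) :
    ∫⁻ ω, M.gw I J (cfg ε ω) * M'.gw I' J' (cfg ε ω) * F (cfg ε ω) ∂sampleLaw ≤
      b * ∫⁻ ω, M.gw I J (cfg ε ω) * M'.gw I' J' (cfg ε ω) ∂sampleLaw := by
  rw [lint_left hN hN' hd hF hFm, mass_two hN hN' hd, ← mul_assoc]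
  gcongr

/-- **transfer**: with `g ≤ g_in g_out` and `c E[g_in] E[g_out] ≤ E g`, a bound relative to the
inner net holds relative to `g` up to the factor `c` -/
theorem transfer (hN : ∀ k ∈ J, M.N k ⊆ I) (hN' : ∀ k ∈ J', M'.N k ⊆ I')
    (hd : Disjoint (M.reg I J) (M'.reg I' J')) {F : Cf → ℝ≥0∞}
    (hF : LocalOn (M.reg I J) F) (hFm : FinMeas F) {b c : ℝ≥0∞}
    (h : ∫⁻ ω, M.gw I J (cfg ε ω) * F (cfg ε ω) ∂sampleLaw ≤ b * mass M I J)
    {g : Cf → ℝ≥0∞} (hg : ∀ ω, g (cfg ε ω) ≤ M.gw I J (cfg ε ω) * M'.gw I' J' (cfg ε ω))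
    (hc : c * (mass M I J * mass M' I' J') ≤ ∫⁻ ω, g (cfg ε ω) ∂sampleLaw) :
    c * ∫⁻ ω, g (cfg ε ω) * F (cfg ε ω) ∂sampleLaw ≤
      b * ∫⁻ ω, g (cfg ε ω) ∂sampleLaw := by
  calc c * ∫⁻ ω, g (cfg ε ω) * F (cfg ε ω) ∂sampleLaw
      ≤ c * ∫⁻ ω, M.gw I J (cfg ε ω) * M'.gw I' J' (cfg ε ω) * F (cfg ε ω) ∂sampleLaw := by
        gcongr with ω
        exact hg ω
    _ ≤ c * (b * (mass M I J * mass M' I' J')) := by
        rw [← mass_two hN hN' hd]
        gcongr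
        exact rel_left hN hN' hd hF hFm h
    _ = b * (c * (mass M I J * mass M' I' J')) := by ring
    _ ≤ _ := by gcongr

/-- **independence of two nets**, complex valued functions -/
theorem int_two (hN : ∀ k ∈ J, M.N k ⊆ I) (hN' : ∀ k ∈ J', M'.N k ⊆ I')
    (hd : Disjoint (M.reg I J) (M'.reg I' J')) {F G : Cf → ℂ}
    (hF : LocalOn (M.reg I J) F) (hFm : FinMeas F) (hG : LocalOn (M'.reg I' J') G)
    (hGm : FinMeas G) :
    ∫ ω, (M.gw I J (cfg ε ω) * M'.gw I' J' (cfg ε ω)).toReal • (F (cfg ε ω) * G (cfg ε ω))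
        ∂sampleLaw =
      (∫ ω, (M.gw I J (cfg ε ω)).toReal • F (cfg ε ω) ∂sampleLaw) *
        ∫ ω, (M'.gw I' J' (cfg ε ω)).toReal • G (cfg ε ω) ∂sampleLaw := by
  have e1 : ∀ ω, (M.gw I J (cfg ε ω) * M'.gw I' J' (cfg ε ω)).toReal •
      (F (cfg ε ω) * G (cfg ε ω)) = ((M.gw I J (cfg ε ω)).toReal • F (cfg ε ω)) *
        ((M'.gw I' J' (cfg ε ω)).toReal • G (cfg ε ω)) := by
    intro ω
    rw [ENNReal.toReal_mul]
    simp only [Complex.real_smul, Complex.ofReal_mul]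
    ring
  simp_rw [e1]
  have l1 : LocalOn (M.reg I J) fun S => (M.gw I J S).toReal • F S := by
    intro S
    have h1 := M.gw_local hN S
    have h2 := hF S
    change (M.gw I J S).toReal • F S = _
    rw [h1, h2]
  have l2 : LocalOn (M'.reg I' J') fun S => (M'.gw I' J' S).toReal • G S := by
    intro S
    have h1 := M'.gw_local hN' S
    have h2 := hG S
    change (M'.gw I' J' S).toReal • G S = _
    rw [h1, h2]
  have m1 : FinMeas fun S => (M.gw I J S).toReal • F S := fun n =>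
    ((M.gw_meas I J n).ennreal_toReal).smul (hFm n)
  have m2 : FinMeas fun S => (M'.gw I' J' S).toReal • G S := fun n =>
    ((M'.gw_meas I' J' n).ennreal_toReal).smul (hGm n)
  have hi := indepFun M.eps (M.reg_meas I J) (M.reg_bdd I J) (M'.reg_meas I' J')
    (M'.reg_bdd I' J') hd l1 l2 m1 m2
  exact hi.integral_fun_mul_eq_mul_integral
    (meas_fun M.eps (M.reg_meas I J) (M.reg_bdd I J) l1 m1).aestronglyMeasurable
    (meas_fun M'.eps (M'.reg_meas I' J') (M'.reg_bdd I' J') l2 m2).aestronglyMeasurable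

end direct

/-! ### weightless boxes -/

/-- boxes off the net -/
structure Bx (M : Net ε ι κ) (D : ν → Set ℂ) : Prop where
  m : ∀ v, MeasurableSet (D v)
  b : ∀ v, Bornology.IsBounded (D v)
  DD : ∀ v v', v ≠ v' → Disjoint (D v) (D v')
  BD : ∀ i v, Disjoint (M.B i) (D v)
  DC : ∀ v k, Disjoint (D v) (M.C k)

variable {D : ν → Set ℂ}

/-- **the net with extra weightless boxes** -/
def box (H : Bx M D) : Net ε (ι ⊕ ν) κ where
  B := Sum.elim M.B D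
  C := M.C
  a := Sum.elim M.a fun _ _ => 1
  e := M.e
  N k := (M.N k).map (inlE ι ν)
  c := M.c
  eps := M.eps
  c0 := M.c0
  c1 := M.c1
  Bm := by
    rintro (i | i)
    · exact M.Bm i
    · exact H.m i
  Bb := by
    rintro (i | i)
    · exact M.Bb i
    · exact H.b i
  Cm := M.Cm
  Cb := M.Cb
  BB := by
    rintro (i | i) (j | j) h
    · exact M.BB i j fun e => h (e ▸ rfl)
    · exact H.BD i j
    · exact (H.BD j i).symm
    · exact H.DD i j fun e => h (e ▸ rfl)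
  CC := M.CC
  BC := by
    rintro (i | i) j
    · exact M.BC i j
    · exact H.DC i j
  al := by
    rintro (i | i)
    · exact M.al i
    · exact fun _ => rfl
  am := by
    rintro (i | i)
    · exact M.am i
    · exact fun n => measurable_const
  a1 := by
    rintro (i | i) S
    · exact M.a1 i S
    · exact le_rfl
  el k := by
    refine LocalOn.mono ?_ (M.el k)
    refine union_subset_union_left _ (iUnion₂_subset fun i hi => ?_)
    exact subset_biUnion_of_mem (u := Sum.elim M.B D) (x := Sum.inl i)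
      (Finset.mem_map_of_mem (inlE ι ν) hi)
  em := M.em
  e1 := M.e1
  pos k S hS h := M.pos k S hS fun i hi => h (Sum.inl i) (Finset.mem_map_of_mem (inlE ι ν) hi)

section box

variable (H : Bx M D) {I : Finset ι} {J : Finset κ} {V : Finset ν}

theorem gw_box (I : Finset ι) (V : Finset ν) (J : Finset κ) (S : Cf) :
    (box H).gw (I.disjSum V) J S = M.gw I J S := by
  unfold Net.gw
  rw [Finset.prod_disjSum]
  change ((∏ i ∈ I, M.a i S) * ∏ _i ∈ V, (1 : ℝ≥0∞)) * ∏ k ∈ J, M.fac k S = _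
  rw [Finset.prod_const_one, mul_one]

theorem mass_box (I : Finset ι) (V : Finset ν) (J : Finset κ) :
    mass (box H) (I.disjSum V) J = mass M I J := by
  unfold mass
  simp_rw [gw_box]

theorem reg_box (I : Finset ι) (V : Finset ν) (J : Finset κ) :
    (box H).reg (I.disjSum V) J = M.reg I J ∪ ⋃ v ∈ V, D v := by
  ext z
  simp only [Net.reg, mem_union, mem_iUnion, Finset.mem_disjSum, exists_prop]
  constructor
  · rintro (⟨i, ⟨j, hj, rfl⟩ | ⟨j, hj, rfl⟩, h⟩ | ⟨i, hi, h⟩)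
    · exact Or.inl (Or.inl ⟨j, hj, h⟩)
    · exact Or.inr ⟨j, hj, h⟩
    · exact Or.inl (Or.inr ⟨i, hi, h⟩)
  · rintro ((⟨j, hj, h⟩ | ⟨j, hj, h⟩) | ⟨j, hj, h⟩)
    · exact Or.inl ⟨Sum.inl j, Or.inl ⟨j, hj, rfl⟩, h⟩
    · exact Or.inr ⟨j, hj, h⟩
    · exact Or.inl ⟨Sum.inr j, Or.inr ⟨j, hj, rfl⟩, h⟩

theorem N_box (hN : ∀ k ∈ J, M.N k ⊆ I) (V : Finset ν) :
    ∀ k ∈ J, (box H).N k ⊆ I.disjSum V := by
  intro k hk i hi
  obtain ⟨i', hi', rfl⟩ := Finset.mem_map.1 hi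
  exact Finset.inl_mem_disjSum.2 (hN k hk hi')

end box

/-! ### products, nonnegative form -/

section prod

variable (M) {I I₁ I₂ I₀ V₀ : Finset ι} {J J₁ J₂ J₀ : Finset κ}

/-- **product rule**, nonnegative functions: `E[g] E[g F G] = E[g F] E[g G]` -/
theorem lprod (hI₁ : I₁ ⊆ I) (hI₂ : I₂ ⊆ I) (hJ₁ : J₁ ⊆ J) (hJ₂ : J₂ ⊆ J)
    (hN : ∀ k ∈ J, M.N k ⊆ I) (hI : Disjoint I₁ I₂) (hJ : Disjoint J₁ J₂)
    (hN₁ : ∀ k ∈ J₁, M.N k ⊆ I₁) (hN₂ : ∀ k ∈ J₂, M.N k ⊆ I₂)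
    {F G : Cf → ℝ≥0∞} (hF : LocalOn (M.reg I₁ J₁) F) (hFm : FinMeas F)
    (hG : LocalOn (M.reg I₂ J₂) G) (hGm : FinMeas G) :
    mass M I J * ∫⁻ ω, M.gw I J (cfg ε ω) * (F (cfg ε ω) * G (cfg ε ω)) ∂sampleLaw =
      (∫⁻ ω, M.gw I J (cfg ε ω) * F (cfg ε ω) ∂sampleLaw) *
        ∫⁻ ω, M.gw I J (cfg ε ω) * G (cfg ε ω) ∂sampleLaw := by
  classical
  have hN' : ∀ k ∈ J₁ ∪ J₂, M.N k ⊆ I₁ ∪ I₂ := by
    intro k hk
    rcases Finset.mem_union.1 hk with h | h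
    · exact (hN₁ k h).trans Finset.subset_union_left
    · exact (hN₂ k h).trans Finset.subset_union_right
  have lFG : LocalOn (M.reg (I₁ ∪ I₂) (J₁ ∪ J₂)) fun S => F S * G S :=
    LocalOn.mul (LocalOn.mono (M.reg_mono Finset.subset_union_left Finset.subset_union_left) hF)
      (LocalOn.mono (M.reg_mono Finset.subset_union_right Finset.subset_union_right) hG)
  have a1 := M.local_law hI₁ hJ₁ hN hN₁ hF hFm
  have a2 := M.local_law hI₂ hJ₂ hN hN₂ hG hGm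
  have a3 := M.local_law (Finset.union_subset hI₁ hI₂) (Finset.union_subset hJ₁ hJ₂) hN hN' lFG
    (fm_mul hFm hGm)
  have a4 : ∫⁻ ω, M.gw (I₁ ∪ I₂) (J₁ ∪ J₂) (cfg ε ω) * (F (cfg ε ω) * G (cfg ε ω)) ∂sampleLaw =
      (∫⁻ ω, M.gw I₁ J₁ (cfg ε ω) * F (cfg ε ω) ∂sampleLaw) *
        ∫⁻ ω, M.gw I₂ J₂ (cfg ε ω) * G (cfg ε ω) ∂sampleLaw := by
    rw [← lint_two hN₁ hN₂ (reg_disj M hI hJ) hF hFm hG hGm]
    refine lintegral_congr fun ω => ?_
    rw [gw_union M hI hJ]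
  rw [a1, a2, a3, a4, mass_eq M hN]
  have c0 : (J \ (J₁ ∪ J₂)).card + J.card = (J \ J₁).card + (J \ J₂).card := by
    have h1 := Finset.card_sdiff_add_card_eq_card hJ₁
    have h2 := Finset.card_sdiff_add_card_eq_card hJ₂
    have h3 := Finset.card_sdiff_add_card_eq_card (Finset.union_subset hJ₁ hJ₂)
    have h4 := Finset.card_union_of_disjoint hJ
    omega
  have p1 : (∏ i ∈ I \ I₁, ∫⁻ ω, M.a i (cfg ε ω) ∂sampleLaw) =
      (∏ i ∈ I \ (I₁ ∪ I₂), ∫⁻ ω, M.a i (cfg ε ω) ∂sampleLaw) *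
        ∏ i ∈ I₂, ∫⁻ ω, M.a i (cfg ε ω) ∂sampleLaw := by
    rw [← Finset.prod_union]
    · congr 1
      ext i
      have h1 := fun h : i ∈ I₁ => Finset.disjoint_left.1 hI h
      have h2 := @hI₂ i
      simp only [Finset.mem_sdiff, Finset.mem_union]
      tauto
    · rw [Finset.disjoint_left]
      intro i hi hi'
      exact (Finset.mem_sdiff.1 hi).2 (Finset.mem_union_right _ hi')
  have p2 : (∏ i ∈ I, ∫⁻ ω, M.a i (cfg ε ω) ∂sampleLaw) =
      (∏ i ∈ I \ I₂, ∫⁻ ω, M.a i (cfg ε ω) ∂sampleLaw) *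
        ∏ i ∈ I₂, ∫⁻ ω, M.a i (cfg ε ω) ∂sampleLaw := (Finset.prod_sdiff hI₂).symm
  rw [p1, p2]
  calc _ = (M.c ^ ((J \ (J₁ ∪ J₂)).card + J.card)) *
        ((∏ i ∈ I \ (I₁ ∪ I₂), ∫⁻ ω, M.a i (cfg ε ω) ∂sampleLaw) *
          (∏ i ∈ I₂, ∫⁻ ω, M.a i (cfg ε ω) ∂sampleLaw) *
          (∏ i ∈ I \ I₂, ∫⁻ ω, M.a i (cfg ε ω) ∂sampleLaw) *
          ((∫⁻ ω, M.gw I₁ J₁ (cfg ε ω) * F (cfg ε ω) ∂sampleLaw) *
            ∫⁻ ω, M.gw I₂ J₂ (cfg ε ω) * G (cfg ε ω) ∂sampleLaw)) := by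
        rw [pow_add]; ring
    _ = _ := by rw [c0, pow_add]; ring

/-- the unnormalised weight is a lower bound (`π ≤ 1`) -/
theorem gw_ge_fin (I : Finset ι) (J : Finset κ) {S : Cf} (hS : S.Finite) :
    M.c ^ J.card * ((∏ i ∈ I, M.a i S) * ∏ k ∈ J, M.e k S) ≤ M.gw I J S := by
  have h1 : M.c ^ J.card * ∏ k ∈ J, M.e k S ≤ ∏ k ∈ J, M.fac k S := by
    rw [← Finset.prod_const, ← Finset.prod_mul_distrib]
    refine Finset.prod_le_prod' fun k _ => ?_
    unfold Net.fac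
    have h2 : Rs ε (M.C k) (M.e k) S ≤ 1 := Rs_le M.eps (M.Cb k) (M.e1 k) (M.em k) hS
    calc M.c * M.e k S = M.e k S * (M.c * 1) := by ring
      _ ≤ M.e k S * (M.c * (Rs ε (M.C k) (M.e k) S)⁻¹) := by
          gcongr
          exact ENNReal.one_le_inv.2 h2
  unfold Net.gw
  calc _ = (∏ i ∈ I, M.a i S) * (M.c ^ J.card * ∏ k ∈ J, M.e k S) := by ring
    _ ≤ _ := by gcongr

theorem gw_ge (hN : ∀ k ∈ J, M.N k ⊆ I) (ω : Sample) :
    M.c ^ J.card * ((∏ i ∈ I, M.a i (cfg ε ω)) * ∏ k ∈ J, M.e k (cfg ε ω)) ≤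
      M.gw I J (cfg ε ω) := by
  have h1 := gw_ge_fin M I J (cfg_finite M.eps (M.reg_bdd I J) ω)
  have h2 := M.gw_local hN (cfg ε ω)
  have h4 : LocalOn (M.reg I J) fun S => (∏ i ∈ I, M.a i S) * ∏ k ∈ J, M.e k S := by
    refine LocalOn.mul M.a_local (local_prod' J fun k hk => LocalOn.mono ?_ (M.el k))
    exact union_subset_union (biUnion_subset_biUnion_left (hN k hk))
      (subset_biUnion_of_mem (u := M.C) hk)
  have h5 : (∏ i ∈ I, M.a i (cfg ε ω)) * ∏ k ∈ J, M.e k (cfg ε ω) = _ := h4 (cfg ε ω)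
  rw [h2, h5]
  exact h1

/-- **RELATIVE LOWER BOUND from an annealed box**, almost sure hypothesis: the boxes `V₀` (gates, e.g. weightless) and the
tubes `J₀` are integrated out, the other gates of `I₀` are kept -/
theorem low_mean_ae [DecidableEq ι] (hI : I₀ ⊆ I) (hJ : J₀ ⊆ J) (hN : ∀ k ∈ J, M.N k ⊆ I)
    (hN₀ : ∀ k ∈ J₀, M.N k ⊆ I₀) (hV : V₀ ⊆ I₀) {F : Cf → ℝ≥0∞}
    (hF : LocalOn (M.reg I₀ J₀) F) (hFm : FinMeas F) {c₁ : ℝ≥0∞}
    (hc : ∀ᵐ ω ∂sampleLaw, (∀ i ∈ I₀ \ V₀, M.a i (cfg ε ω) ≠ 0) →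
      c₁ ≤ Rs ε (M.reg V₀ J₀)
        (fun S => ((∏ i ∈ V₀, M.a i S) * ∏ k ∈ J₀, M.e k S) * F S) (cfg ε ω)) :
    c₁ * mass M I J ≤ ∫⁻ ω, M.gw I J (cfg ε ω) * F (cfg ε ω) ∂sampleLaw := by
  classical
  by_cases h0 : mass M I J = 0
  · rw [h0, mul_zero]; exact zero_le
  have hd : Disjoint (M.reg (I₀ \ V₀) ∅) (M.reg V₀ J₀) :=
    reg_disj M Finset.sdiff_disjoint (Finset.disjoint_empty_left J₀)
  set G : Cf → ℝ≥0∞ := fun S => ((∏ i ∈ V₀, M.a i S) * ∏ k ∈ J₀, M.e k S) * F S with hG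
  have hGm : FinMeas G :=
    fm_mul (fm_mul (fm_prod V₀ fun i _ => M.am i) (fm_prod J₀ fun k _ => M.em k)) hFm
  have hGl : LocalOn (M.reg I₀ J₀) G := by
    refine LocalOn.mul (LocalOn.mul ?_ ?_) hF
    · exact LocalOn.mono (M.reg_mono hV subset_rfl) (M.a_local (J := J₀))
    · refine local_prod' J₀ fun k hk => LocalOn.mono ?_ (M.el k)
      exact union_subset_union (biUnion_subset_biUnion_left (hN₀ k hk))
        (subset_biUnion_of_mem (u := M.C) hk)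
  have hAl : LocalOn (M.reg (I₀ \ V₀) ∅) fun S => ∏ i ∈ I₀ \ V₀, M.a i S := M.a_local
  have hAm : FinMeas fun S => ∏ i ∈ I₀ \ V₀, M.a i S := fm_prod _ fun i _ => M.am i
  -- the mean over the box
  have k1 : c₁ * ∫⁻ ω, ∏ i ∈ I₀ \ V₀, M.a i (cfg ε ω) ∂sampleLaw ≤
      ∫⁻ ω, (∏ i ∈ I₀ \ V₀, M.a i (cfg ε ω)) * G (cfg ε ω) ∂sampleLaw := by
    have hl : LocalOn (M.reg I₀ J₀) fun S => (∏ i ∈ I₀ \ V₀, M.a i S) * G S :=
      LocalOn.mul (LocalOn.mono (M.reg_mono Finset.sdiff_subset (Finset.empty_subset J₀)) hAl) hGl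
    rw [Rs_tower (F := fun S => (∏ i ∈ I₀ \ V₀, M.a i S) * G S) M.eps (M.reg_meas I₀ J₀)
      (M.reg_bdd I₀ J₀) (M.reg_meas V₀ J₀) (M.reg_bdd V₀ J₀) hl (fm_mul hAm hGm)]
    have hl2 : LocalOn (M.reg I₀ J₀)
        (Rs ε (M.reg V₀ J₀) fun S => (∏ i ∈ I₀ \ V₀, M.a i S) * G S) :=
      LocalOn.mono sdiff_subset (Rs_local M.eps (M.reg_meas V₀ J₀) (M.reg_bdd V₀ J₀) hl)
    have hl3 : LocalOn (M.reg I₀ J₀) fun S => ∏ i ∈ I₀ \ V₀, M.a i S :=
      LocalOn.mono (M.reg_mono Finset.sdiff_subset (Finset.empty_subset J₀)) hAl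
    rw [← lintegral_const_mul _
      (meas_fun M.eps (M.reg_meas _ _) (M.reg_bdd _ _) hl3 hAm)]
    refine lintegral_mono_ae ?_
    filter_upwards [hc] with ω hω
    have e1 : ∏ i ∈ I₀ \ V₀, M.a i (cfg ε ω) =
      ∏ i ∈ I₀ \ V₀, M.a i (cfg ε ω ∩ ovr (M.reg I₀ J₀)) := hl3 (cfg ε ω)
    have e2 : Rs ε (M.reg V₀ J₀) (fun S => (∏ i ∈ I₀ \ V₀, M.a i S) * G S) (cfg ε ω) =
      Rs ε (M.reg V₀ J₀) (fun S => (∏ i ∈ I₀ \ V₀, M.a i S) * G S)
        (cfg ε ω ∩ ovr (M.reg I₀ J₀)) := hl2 (cfg ε ω)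
    have e3 : Rs ε (M.reg V₀ J₀) G (cfg ε ω) =
        Rs ε (M.reg V₀ J₀) G (cfg ε ω ∩ ovr (M.reg I₀ J₀)) :=
      (LocalOn.mono sdiff_subset
        (Rs_local M.eps (M.reg_meas V₀ J₀) (M.reg_bdd V₀ J₀) hGl)) (cfg ε ω)
    have hfin := cfg_finite M.eps (M.reg_bdd I₀ J₀) ω
    rw [Rs_mul M.eps (M.reg_meas V₀ J₀) (M.reg_bdd V₀ J₀) hAl hd hGm hfin, ← e3] at e2
    change c₁ * ∏ i ∈ I₀ \ V₀, M.a i (cfg ε ω) ≤
      Rs ε (M.reg V₀ J₀) (fun S => (∏ i ∈ I₀ \ V₀, M.a i S) * G S) (cfg ε ω)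
    rw [e2, ← e1]
    by_cases hz : ∏ i ∈ I₀ \ V₀, M.a i (cfg ε ω) = 0
    · rw [hz, mul_zero]; exact zero_le
    · have h1 := hω fun i hi h => hz (Finset.prod_eq_zero hi h)
      rw [mul_comm]
      exact mul_le_mul' le_rfl h1
  -- the gates are independent
  have k2 : ∫⁻ ω, ∏ i ∈ I₀ \ V₀, M.a i (cfg ε ω) ∂sampleLaw =
      ∏ i ∈ I₀ \ V₀, ∫⁻ ω, M.a i (cfg ε ω) ∂sampleLaw := by
    have h1 := M.mass (I := I₀ \ V₀) (J := ∅) (by simp)
    simpa [Net.gw] using h1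
  have k3 : c₁ * mass M I₀ J₀ ≤ ∫⁻ ω, M.gw I₀ J₀ (cfg ε ω) * F (cfg ε ω) ∂sampleLaw := by
    have h1 : mass M I₀ J₀ ≤ M.c ^ J₀.card *
        ∏ i ∈ I₀ \ V₀, ∫⁻ ω, M.a i (cfg ε ω) ∂sampleLaw := by
      rw [mass_eq M hN₀, ← Finset.prod_sdiff hV]
      have : IsProbabilityMeasure sampleLaw := by unfold sampleLaw; infer_instance
      have h2 : ∏ i ∈ V₀, ∫⁻ ω, M.a i (cfg ε ω) ∂sampleLaw ≤ 1 := by
        refine Finset.prod_le_one' fun i _ => ?_
        calc ∫⁻ ω, M.a i (cfg ε ω) ∂sampleLaw ≤ ∫⁻ _, 1 ∂sampleLaw :=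
              lintegral_mono fun ω => M.a1 i _
          _ = 1 := by simp
      calc _ ≤ M.c ^ J₀.card * ((∏ i ∈ I₀ \ V₀, ∫⁻ ω, M.a i (cfg ε ω) ∂sampleLaw) * 1) := by
            gcongr
        _ = _ := by rw [mul_one]
    have h3 : ∀ ω, M.c ^ J₀.card * ((∏ i ∈ I₀ \ V₀, M.a i (cfg ε ω)) * G (cfg ε ω)) ≤
        M.gw I₀ J₀ (cfg ε ω) * F (cfg ε ω) := by
      intro ω
      have h4 := gw_ge M hN₀ ω
      rw [← Finset.prod_sdiff hV] at h4
      simp only [hG]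
      calc M.c ^ J₀.card * ((∏ i ∈ I₀ \ V₀, M.a i (cfg ε ω)) *
            (((∏ i ∈ V₀, M.a i (cfg ε ω)) * ∏ k ∈ J₀, M.e k (cfg ε ω)) * F (cfg ε ω)))
          = M.c ^ J₀.card * (((∏ i ∈ I₀ \ V₀, M.a i (cfg ε ω)) * ∏ i ∈ V₀, M.a i (cfg ε ω)) *
            ∏ k ∈ J₀, M.e k (cfg ε ω)) * F (cfg ε ω) := by ring
        _ ≤ _ := by gcongr
    calc c₁ * mass M I₀ J₀ ≤ c₁ * (M.c ^ J₀.card *
          ∏ i ∈ I₀ \ V₀, ∫⁻ ω, M.a i (cfg ε ω) ∂sampleLaw) := by gcongr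
      _ = M.c ^ J₀.card * (c₁ * ∫⁻ ω, ∏ i ∈ I₀ \ V₀, M.a i (cfg ε ω) ∂sampleLaw) := by
          rw [k2]; ring
      _ ≤ M.c ^ J₀.card * ∫⁻ ω, (∏ i ∈ I₀ \ V₀, M.a i (cfg ε ω)) * G (cfg ε ω) ∂sampleLaw := by
          gcongr
      _ = ∫⁻ ω, M.c ^ J₀.card * ((∏ i ∈ I₀ \ V₀, M.a i (cfg ε ω)) * G (cfg ε ω)) ∂sampleLaw :=
          (lintegral_const_mul' _ _ (ENNReal.pow_ne_top M.c1)).symm
      _ ≤ _ := lintegral_mono h3
  have hm0 := mass_sub_ne M hN hN₀ hI h0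
  have hmt := mass_ne_top M hN₀
  have h4 := M.ratio hI hJ hN hN₀ hF hFm
  change _ * mass M I₀ J₀ = mass M I J * _ at h4
  have h5 : c₁ * mass M I J * mass M I₀ J₀ ≤
      (∫⁻ ω, M.gw I J (cfg ε ω) * F (cfg ε ω) ∂sampleLaw) * mass M I₀ J₀ := by
    rw [h4]
    calc c₁ * mass M I J * mass M I₀ J₀ = mass M I J * (c₁ * mass M I₀ J₀) := by ring
      _ ≤ _ := by gcongr
  exact (ENNReal.mul_le_mul_iff_left hm0 hmt).1 h5

/-- the same, hypothesis at all finite configurations -/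
theorem low_mean [DecidableEq ι] (hI : I₀ ⊆ I) (hJ : J₀ ⊆ J) (hN : ∀ k ∈ J, M.N k ⊆ I)
    (hN₀ : ∀ k ∈ J₀, M.N k ⊆ I₀) (hV : V₀ ⊆ I₀) {F : Cf → ℝ≥0∞}
    (hF : LocalOn (M.reg I₀ J₀) F) (hFm : FinMeas F) {c₁ : ℝ≥0∞}
    (hc : ∀ S : Cf, S.Finite → (∀ i ∈ I₀ \ V₀, M.a i S ≠ 0) →
      c₁ ≤ Rs ε (M.reg V₀ J₀)
        (fun S => ((∏ i ∈ V₀, M.a i S) * ∏ k ∈ J₀, M.e k S) * F S) S) :
    c₁ * mass M I J ≤ ∫⁻ ω, M.gw I J (cfg ε ω) * F (cfg ε ω) ∂sampleLaw := by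
  refine low_mean_ae M hI hJ hN hN₀ hV hF hFm (Filter.Eventually.of_forall fun ω hω => ?_)
  set G : Cf → ℝ≥0∞ := fun S => ((∏ i ∈ V₀, M.a i S) * ∏ k ∈ J₀, M.e k S) * F S with hG
  have hGl : LocalOn (M.reg I₀ J₀) G := by
    refine LocalOn.mul (LocalOn.mul ?_ ?_) hF
    · exact LocalOn.mono (M.reg_mono hV subset_rfl) (M.a_local (J := J₀))
    · refine local_prod' J₀ fun k hk => LocalOn.mono ?_ (M.el k)
      exact union_subset_union (biUnion_subset_biUnion_left (hN₀ k hk))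
        (subset_biUnion_of_mem (u := M.C) hk)
  have e3 : Rs ε (M.reg V₀ J₀) G (cfg ε ω) =
      Rs ε (M.reg V₀ J₀) G (cfg ε ω ∩ ovr (M.reg I₀ J₀)) :=
    (LocalOn.mono sdiff_subset
      (Rs_local M.eps (M.reg_meas V₀ J₀) (M.reg_bdd V₀ J₀) hGl)) (cfg ε ω)
  rw [e3]
  refine hc _ (cfg_finite M.eps (M.reg_bdd I₀ J₀) ω) fun i hi => ?_
  have h1 : M.a i (cfg ε ω ∩ ovr (M.reg I₀ J₀)) = M.a i (cfg ε ω) := by
    have hl : LocalOn (M.reg I₀ J₀) (M.a i) := LocalOn.mono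
      ((subset_biUnion_of_mem (u := M.B) (Finset.mem_sdiff.1 hi).1).trans subset_union_left)
      (M.al i)
    exact (hl (cfg ε ω)).symm
  rw [h1]
  exact hω i hi

/-- **several arms**: events on disjoint sub-nets with relative means at least `c₁` -/
theorem arms {α : Type*} [DecidableEq ι] [DecidableEq κ] (T : Finset α) (hN : ∀ k ∈ J, M.N k ⊆ I)
    {II : α → Finset ι} {JJ : α → Finset κ} {F : α → Cf → ℝ≥0∞} {c₁ : ℝ≥0∞}
    (hII : ∀ t ∈ T, II t ⊆ I) (hJJ : ∀ t ∈ T, JJ t ⊆ J) (hNN : ∀ t ∈ T, ∀ k ∈ JJ t, M.N k ⊆ II t)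
    (hdI : ∀ t ∈ T, ∀ t' ∈ T, t ≠ t' → Disjoint (II t) (II t'))
    (hdJ : ∀ t ∈ T, ∀ t' ∈ T, t ≠ t' → Disjoint (JJ t) (JJ t'))
    (hF : ∀ t ∈ T, LocalOn (M.reg (II t) (JJ t)) (F t)) (hFm : ∀ t ∈ T, FinMeas (F t))
    (hc : ∀ t ∈ T, c₁ * mass M I J ≤ ∫⁻ ω, M.gw I J (cfg ε ω) * F t (cfg ε ω) ∂sampleLaw) :
    c₁ ^ T.card * mass M I J ≤
      ∫⁻ ω, M.gw I J (cfg ε ω) * ∏ t ∈ T, F t (cfg ε ω) ∂sampleLaw := by
  classical
  by_cases h0 : mass M I J = 0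
  · rw [h0, mul_zero]; exact zero_le
  have hmt := mass_ne_top M hN
  induction T using Finset.induction_on with
  | empty =>
    simp only [Finset.card_empty, pow_zero, one_mul, Finset.prod_empty, mul_one]
    exact le_rfl
  | insert t T ht ih =>
    have mem : ∀ j ∈ T, j ∈ insert t T := fun j hj => Finset.mem_insert_of_mem hj
    have mt : t ∈ insert t T := Finset.mem_insert_self t T
    have ih' := ih (fun j hj => hII j (mem j hj)) (fun j hj => hJJ j (mem j hj))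
      (fun j hj => hNN j (mem j hj)) (fun j hj k hk => hdI j (mem j hj) k (mem k hk))
      (fun j hj k hk => hdJ j (mem j hj) k (mem k hk)) (fun j hj => hF j (mem j hj))
      (fun j hj => hFm j (mem j hj)) (fun j hj => hc j (mem j hj))
    have d1 : Disjoint (II t) (T.biUnion II) := by
      rw [Finset.disjoint_biUnion_right]
      intro j hj
      exact hdI t mt j (mem j hj) fun e => ht (e ▸ hj)
    have d2 : Disjoint (JJ t) (T.biUnion JJ) := by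
      rw [Finset.disjoint_biUnion_right]
      intro j hj
      exact hdJ t mt j (mem j hj) fun e => ht (e ▸ hj)
    have hNb : ∀ k ∈ T.biUnion JJ, M.N k ⊆ T.biUnion II := by
      intro k hk
      obtain ⟨j, hj, hk'⟩ := Finset.mem_biUnion.1 hk
      exact (hNN j (mem j hj) k hk').trans (Finset.subset_biUnion_of_mem II hj)
    have hl : LocalOn (M.reg (T.biUnion II) (T.biUnion JJ)) fun S => ∏ j ∈ T, F j S :=
      local_prod' T fun j hj => LocalOn.mono (M.reg_mono (Finset.subset_biUnion_of_mem II hj)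
        (Finset.subset_biUnion_of_mem JJ hj)) (hF j (mem j hj))
    have key := lprod M (hII t mt) (Finset.biUnion_subset.2 fun j hj => hII j (mem j hj))
      (hJJ t mt) (Finset.biUnion_subset.2 fun j hj => hJJ j (mem j hj)) hN d1 d2 (hNN t mt) hNb
      (hF t mt) (hFm t mt) hl (fm_prod T fun j hj => hFm j (mem j hj))
    rw [Finset.card_insert_of_notMem ht]
    simp only [Finset.prod_insert ht]
    refine (ENNReal.mul_le_mul_iff_right h0 hmt).1 ?_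
    rw [key]
    calc mass M I J * (c₁ ^ (T.card + 1) * mass M I J)
        = (c₁ * mass M I J) * (c₁ ^ T.card * mass M I J) := by rw [pow_succ]; ring
      _ ≤ _ := mul_le_mul' (hc t mt) ih'

end prod

/-! ### the weight of 4372: two nets, columns, arms -/

section pack

variable {I : Finset ι} {J : Finset κ} {I' : Finset ι'} {J' : Finset κ'}

/-- columns minus the regions of a finite net -/
theorem bx_sdiff [Fintype ι] [Fintype κ] (M : Net ε ι κ) {D : ν → Set ℂ}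
    (hm : ∀ v, MeasurableSet (D v)) (hb : ∀ v, Bornology.IsBounded (D v))
    (hd : ∀ v v', v ≠ v' → Disjoint (D v) (D v')) :
    Bx M fun v => D v \ M.reg Finset.univ Finset.univ where
  m v := (hm v).diff (M.reg_meas _ _)
  b v := (hb v).subset sdiff_subset
  DD v v' h := (hd v v' h).mono sdiff_subset sdiff_subset
  BD i v := by
    rw [Set.disjoint_left]
    intro z hz hz'
    exact hz'.2 (Or.inl (mem_iUnion₂.2 ⟨i, Finset.mem_univ i, hz⟩))
  DC v k := by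
    rw [Set.disjoint_left]
    intro z hz hz'
    exact hz.2 (Or.inr (mem_iUnion₂.2 ⟨k, Finset.mem_univ k, hz'⟩))

/-- **ARMS**: two nets on disjoint regions, one arm `F t` through the tube `j t` of `M`, the tube
`a t` of `M'` and the column `D t`, each with an annealed lower bound `c₁` given good gates:
`c₁^m E[g_in] E[g_out] ≤ E[g_in g_out ∏ F]` -/
theorem arms_two {α : Type*} [DecidableEq α] [DecidableEq ι] [DecidableEq κ] [DecidableEq ι']
    [DecidableEq κ'] (H : Dj M M') {D : α → Set ℂ} (B : Bx (sum H) D) (T : Finset α)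
    (hN : ∀ k ∈ J, M.N k ⊆ I) (hN' : ∀ k ∈ J', M'.N k ⊆ I') {j : α → κ} {a : α → κ'}
    {F : α → Cf → ℝ≥0∞} {c₁ : ℝ≥0∞} (hj : ∀ t ∈ T, j t ∈ J) (ha : ∀ t ∈ T, a t ∈ J')
    (hji : ∀ t ∈ T, ∀ t' ∈ T, t ≠ t' → j t ≠ j t') (hai : ∀ t ∈ T, ∀ t' ∈ T, t ≠ t' → a t ≠ a t')
    (hjN : ∀ t ∈ T, ∀ t' ∈ T, t ≠ t' → Disjoint (M.N (j t)) (M.N (j t')))
    (haN : ∀ t ∈ T, ∀ t' ∈ T, t ≠ t' → Disjoint (M'.N (a t)) (M'.N (a t')))
    (hF : ∀ t ∈ T, LocalOn ((((⋃ i ∈ M.N (j t), M.B i) ∪ M.C (j t)) ∪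
      ((⋃ i ∈ M'.N (a t), M'.B i) ∪ M'.C (a t))) ∪ D t) (F t))
    (hFm : ∀ t ∈ T, FinMeas (F t))
    (hc : ∀ t ∈ T, ∀ S : Cf, S.Finite → (∀ i ∈ M.N (j t), M.a i S ≠ 0) →
      (∀ i ∈ M'.N (a t), M'.a i S ≠ 0) →
      c₁ ≤ Rs ε ((M.C (j t) ∪ M'.C (a t)) ∪ D t)
        (fun S => (M.e (j t) S * M'.e (a t) S) * F t S) S) :
    c₁ ^ T.card * (mass M I J * mass M' I' J') ≤
      ∫⁻ ω, M.gw I J (cfg ε ω) * M'.gw I' J' (cfg ε ω) * ∏ t ∈ T, F t (cfg ε ω) ∂sampleLaw := by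
  classical
  set P := box B with hP
  set II : α → Finset ((ι ⊕ ι') ⊕ α) := fun t =>
    ((M.N (j t)).disjSum (M'.N (a t))).disjSum {t} with hII
  set JJ : α → Finset (κ ⊕ κ') := fun t => ({j t} : Finset κ).disjSum {a t} with hJJ
  set IA : Finset ((ι ⊕ ι') ⊕ α) := (I.disjSum I').disjSum T with hIA
  set JA : Finset (κ ⊕ κ') := J.disjSum J' with hJA
  have hNA : ∀ k ∈ JA, P.N k ⊆ IA := N_box B (N_sum H hN hN') T
  have hsI : ∀ t ∈ T, II t ⊆ IA := by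
    intro t ht
    refine Finset.disjSum_mono (Finset.disjSum_mono (hN _ (hj t ht)) (hN' _ (ha t ht))) ?_
    exact Finset.singleton_subset_iff.2 ht
  have hsJ : ∀ t ∈ T, JJ t ⊆ JA := fun t ht => Finset.disjSum_mono
    (Finset.singleton_subset_iff.2 (hj t ht)) (Finset.singleton_subset_iff.2 (ha t ht))
  have hNt : ∀ t ∈ T, ∀ k ∈ JJ t, P.N k ⊆ II t := by
    intro t _
    refine N_box B (N_sum H ?_ ?_) {t}
    · intro k hk
      rw [Finset.mem_singleton.1 hk]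
    · intro k hk
      rw [Finset.mem_singleton.1 hk]
  have hreg : ∀ t, P.reg (II t) (JJ t) = (((⋃ i ∈ M.N (j t), M.B i) ∪ M.C (j t)) ∪
      ((⋃ i ∈ M'.N (a t), M'.B i) ∪ M'.C (a t))) ∪ D t := by
    intro t
    rw [hP, hII, hJJ]
    simp only [reg_box, reg_sum]
    simp [Net.reg]
  have hlow : ∀ t ∈ T, c₁ * mass P IA JA ≤
      ∫⁻ ω, P.gw IA JA (cfg ε ω) * F t (cfg ε ω) ∂sampleLaw := by
    intro t ht
    refine low_mean P (I₀ := II t) (J₀ := JJ t)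
      (V₀ := ((∅ : Finset ι).disjSum (∅ : Finset ι')).disjSum {t}) (hsI t ht) (hsJ t ht) hNA
      (hNt t ht) ?_ ?_ (hFm t ht) ?_
    · exact Finset.disjSum_mono (Finset.disjSum_mono (Finset.empty_subset _)
        (Finset.empty_subset _)) subset_rfl
    · rw [hreg t]
      exact hF t ht
    · intro S hS hg
      have e1 : P.reg (((∅ : Finset ι).disjSum (∅ : Finset ι')).disjSum {t}) (JJ t) =
          (M.C (j t) ∪ M'.C (a t)) ∪ D t := by
        rw [hP, hJJ]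
        simp only [reg_box, reg_sum]
        simp [Net.reg]
      have e2 : (fun S : Cf => ((∏ i ∈ ((∅ : Finset ι).disjSum (∅ : Finset ι')).disjSum {t},
          P.a i S) * ∏ k ∈ JJ t, P.e k S) * F t S) =
          fun S => (M.e (j t) S * M'.e (a t) S) * F t S := by
        funext S
        rw [hJJ]
        simp only [Finset.prod_disjSum, Finset.prod_empty, Finset.prod_singleton, one_mul]
        change 1 * (M.e (j t) S * M'.e (a t) S) * F t S = _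
        rw [one_mul]
      rw [e1, e2]
      refine hc t ht S hS ?_ ?_
      · intro i hi
        refine hg (Sum.inl (Sum.inl i)) (Finset.mem_sdiff.2 ⟨?_, ?_⟩)
        · exact Finset.inl_mem_disjSum.2 (Finset.inl_mem_disjSum.2 hi)
        · simp
      · intro i hi
        refine hg (Sum.inl (Sum.inr i)) (Finset.mem_sdiff.2 ⟨?_, ?_⟩)
        · exact Finset.inl_mem_disjSum.2 (Finset.inr_mem_disjSum.2 hi)
        · simp
  have key := arms P T hNA hsI hsJ hNt ?_ ?_ (F := F) (fun t ht => by rw [hreg t]; exact hF t ht)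
    hFm hlow
  · have e1 : mass P IA JA = mass M I J * mass M' I' J' := by
      rw [hP, hIA, hJA, mass_box, mass_sum H hN hN']
    have e2 : ∀ S, P.gw IA JA S = M.gw I J S * M'.gw I' J' S := by
      intro S
      rw [hP, hIA, hJA, gw_box, gw_sum]
    rw [e1] at key
    simpa only [e2] using key
  · intro t ht t' ht' hne
    refine disj_sum (disj_sum (hjN t ht t' ht' hne) (haN t ht t' ht' hne)) ?_
    exact Finset.disjoint_singleton.2 hne
  · intro t ht t' ht' hne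
    exact disj_sum (Finset.disjoint_singleton.2 (hji t ht t' ht' hne))
      (Finset.disjoint_singleton.2 (hai t ht t' ht' hne))

/-- **ARMS**, almost sure hypothesis: two nets on disjoint regions, one arm `F t` through the tube `j t` of `M`, the tube
`a t` of `M'` and the column `D t`, each with an annealed lower bound `c₁` given good gates:
`c₁^m E[g_in] E[g_out] ≤ E[g_in g_out ∏ F]` -/
theorem arms_two_ae {α : Type*} [DecidableEq α] [DecidableEq ι] [DecidableEq κ] [DecidableEq ι']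
    [DecidableEq κ'] (H : Dj M M') {D : α → Set ℂ} (B : Bx (sum H) D) (T : Finset α)
    (hN : ∀ k ∈ J, M.N k ⊆ I) (hN' : ∀ k ∈ J', M'.N k ⊆ I') {j : α → κ} {a : α → κ'}
    {F : α → Cf → ℝ≥0∞} {c₁ : ℝ≥0∞} (hj : ∀ t ∈ T, j t ∈ J) (ha : ∀ t ∈ T, a t ∈ J')
    (hji : ∀ t ∈ T, ∀ t' ∈ T, t ≠ t' → j t ≠ j t') (hai : ∀ t ∈ T, ∀ t' ∈ T, t ≠ t' → a t ≠ a t')
    (hjN : ∀ t ∈ T, ∀ t' ∈ T, t ≠ t' → Disjoint (M.N (j t)) (M.N (j t')))
    (haN : ∀ t ∈ T, ∀ t' ∈ T, t ≠ t' → Disjoint (M'.N (a t)) (M'.N (a t')))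
    (hF : ∀ t ∈ T, LocalOn ((((⋃ i ∈ M.N (j t), M.B i) ∪ M.C (j t)) ∪
      ((⋃ i ∈ M'.N (a t), M'.B i) ∪ M'.C (a t))) ∪ D t) (F t))
    (hFm : ∀ t ∈ T, FinMeas (F t))
    (hc : ∀ t ∈ T, ∀ᵐ ω ∂sampleLaw, (∀ i ∈ M.N (j t), M.a i (cfg ε ω) ≠ 0) →
      (∀ i ∈ M'.N (a t), M'.a i (cfg ε ω) ≠ 0) →
      c₁ ≤ Rs ε ((M.C (j t) ∪ M'.C (a t)) ∪ D t)
        (fun S => (M.e (j t) S * M'.e (a t) S) * F t S) (cfg ε ω)) :
    c₁ ^ T.card * (mass M I J * mass M' I' J') ≤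
      ∫⁻ ω, M.gw I J (cfg ε ω) * M'.gw I' J' (cfg ε ω) * ∏ t ∈ T, F t (cfg ε ω) ∂sampleLaw := by
  classical
  set P := box B with hP
  set II : α → Finset ((ι ⊕ ι') ⊕ α) := fun t =>
    ((M.N (j t)).disjSum (M'.N (a t))).disjSum {t} with hII
  set JJ : α → Finset (κ ⊕ κ') := fun t => ({j t} : Finset κ).disjSum {a t} with hJJ
  set IA : Finset ((ι ⊕ ι') ⊕ α) := (I.disjSum I').disjSum T with hIA
  set JA : Finset (κ ⊕ κ') := J.disjSum J' with hJA
  have hNA : ∀ k ∈ JA, P.N k ⊆ IA := N_box B (N_sum H hN hN') T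
  have hsI : ∀ t ∈ T, II t ⊆ IA := by
    intro t ht
    refine Finset.disjSum_mono (Finset.disjSum_mono (hN _ (hj t ht)) (hN' _ (ha t ht))) ?_
    exact Finset.singleton_subset_iff.2 ht
  have hsJ : ∀ t ∈ T, JJ t ⊆ JA := fun t ht => Finset.disjSum_mono
    (Finset.singleton_subset_iff.2 (hj t ht)) (Finset.singleton_subset_iff.2 (ha t ht))
  have hNt : ∀ t ∈ T, ∀ k ∈ JJ t, P.N k ⊆ II t := by
    intro t _
    refine N_box B (N_sum H ?_ ?_) {t}
    · intro k hk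
      rw [Finset.mem_singleton.1 hk]
    · intro k hk
      rw [Finset.mem_singleton.1 hk]
  have hreg : ∀ t, P.reg (II t) (JJ t) = (((⋃ i ∈ M.N (j t), M.B i) ∪ M.C (j t)) ∪
      ((⋃ i ∈ M'.N (a t), M'.B i) ∪ M'.C (a t))) ∪ D t := by
    intro t
    rw [hP, hII, hJJ]
    simp only [reg_box, reg_sum]
    simp [Net.reg]
  have hlow : ∀ t ∈ T, c₁ * mass P IA JA ≤
      ∫⁻ ω, P.gw IA JA (cfg ε ω) * F t (cfg ε ω) ∂sampleLaw := by
    intro t ht
    refine low_mean_ae P (I₀ := II t) (J₀ := JJ t)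
      (V₀ := ((∅ : Finset ι).disjSum (∅ : Finset ι')).disjSum {t}) (hsI t ht) (hsJ t ht) hNA
      (hNt t ht) ?_ ?_ (hFm t ht) ?_
    · exact Finset.disjSum_mono (Finset.disjSum_mono (Finset.empty_subset _)
        (Finset.empty_subset _)) subset_rfl
    · rw [hreg t]
      exact hF t ht
    · filter_upwards [hc t ht] with ω hω hg
      have e1 : P.reg (((∅ : Finset ι).disjSum (∅ : Finset ι')).disjSum {t}) (JJ t) =
          (M.C (j t) ∪ M'.C (a t)) ∪ D t := by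
        rw [hP, hJJ]
        simp only [reg_box, reg_sum]
        simp [Net.reg]
      have e2 : (fun S : Cf => ((∏ i ∈ ((∅ : Finset ι).disjSum (∅ : Finset ι')).disjSum {t},
          P.a i S) * ∏ k ∈ JJ t, P.e k S) * F t S) =
          fun S => (M.e (j t) S * M'.e (a t) S) * F t S := by
        funext S
        rw [hJJ]
        simp only [Finset.prod_disjSum, Finset.prod_empty, Finset.prod_singleton, one_mul]
        change 1 * (M.e (j t) S * M'.e (a t) S) * F t S = _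
        rw [one_mul]
      rw [e1, e2]
      refine hω ?_ ?_
      · intro i hi
        refine hg (Sum.inl (Sum.inl i)) (Finset.mem_sdiff.2 ⟨?_, ?_⟩)
        · exact Finset.inl_mem_disjSum.2 (Finset.inl_mem_disjSum.2 hi)
        · simp
      · intro i hi
        refine hg (Sum.inl (Sum.inr i)) (Finset.mem_sdiff.2 ⟨?_, ?_⟩)
        · exact Finset.inl_mem_disjSum.2 (Finset.inr_mem_disjSum.2 hi)
        · simp
  have key := arms P T hNA hsI hsJ hNt ?_ ?_ (F := F) (fun t ht => by rw [hreg t]; exact hF t ht)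
    hFm hlow
  · have e1 : mass P IA JA = mass M I J * mass M' I' J' := by
      rw [hP, hIA, hJA, mass_box, mass_sum H hN hN']
    have e2 : ∀ S, P.gw IA JA S = M.gw I J S * M'.gw I' J' S := by
      intro S
      rw [hP, hIA, hJA, gw_box, gw_sum]
    rw [e1] at key
    simpa only [e2] using key
  · intro t ht t' ht' hne
    refine disj_sum (disj_sum (hjN t ht t' ht' hne) (haN t ht t' ht' hne)) ?_
    exact Finset.disjoint_singleton.2 hne
  · intro t ht t' ht' hne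
    exact disj_sum (Finset.disjoint_singleton.2 (hji t ht t' ht' hne))
      (Finset.disjoint_singleton.2 (hai t ht t' ht' hne))

end pack

end Crest.Agent.R143.TwoNx366
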