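import Crest.Agent.R143.WgtH_445
import Crest.Agent.R143.RingN_765
import Crest.Agent.R143.TwoN_366
import Crest.Agent.R143.EnvR_795

/-!
# Row 143 (S0194), block H: the weight of the closed ring with arms (helper445)

`P : FPath M W` inner path (full tiles), `P' : FPath M' W'` outer path (white tiles), the same template
`T` (765's `Std`), tiles of `W` and `W'` disjoint.

* `rall_dis` : the regions are disjoint; `dj` : 366's `Dj` for the two nets
* `bx` : 366's `Bx` for columns off both regions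
* **`wd`** : the data `WD` of the weight from `arm` and `bad`
* `eB` : 795's environment seen in the box
* **`wd_ev`** : for all small `ε` the data `WD` with 795's environment and the lower bound
-/

set_option autoImplicit false

noncomputable section

open scoped Classical

namespace Crest.Agent.R143.RingWDx445

open MeasureTheory Set Filter Topology
open Crest.ProbabilityR.Voronoi
open Crest.Agent.R143.PP0x831 Crest.Agent.R143.Poisx304 Crest.Agent.R143.Janx304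
open Crest.Agent.R143.IndLocx279 Crest.Agent.R143.PWx978 Crest.Agent.R143.Tplx978
open Crest.Agent.R143.TileRx228 Crest.Agent.R143.PthFx765 Crest.Agent.R143.CorNx765
open Crest.Agent.R143.TplIx204 Crest.Agent.R143.RngNx765 Crest.Agent.R143.TwoNx366
open Crest.Agent.R143.Dblx609 Crest.Agent.R143.Dbl2x609 Crest.Agent.R143.HGluex136
open Crest.Agent.R143.Asm3x414 Crest.Agent.R143.Asm4x414 Crest.Agent.R143.WgtHx445
open scoped ENNReal

variable {M M' : ℕ} {W W' : ℤ → ℤ × ℤ} {A B h ε : ℝ} {T : Tpl ε (Tn × Bool)}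

/-! ### the two nets -/

/-- the regions of paths with disjoint tiles are disjoint -/
theorem rall_dis (hd : ∀ a b : ℤ, Disjoint (RR A B h W a) (RR A B h W' b)) :
    Disjoint (Rall A B h W) (Rall A B h W') := by
  unfold Rall
  rw [disjoint_iUnion_left]
  intro a
  rw [disjoint_iUnion_right]
  exact fun b => hd a b

variable (P : FPath M W) (P' : FPath M' W') (Hs : Std T A B h Prod.fst) (b b' : Bool)
  [Fintype (ZMod M)] [Fintype (ZMod M')]

theorem B_sub (i : ZMod M) : (rpth P Hs b).net.B i ⊆ Rall A B h W := by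
  rw [← rreg P Hs b]
  exact fun z hz => Or.inl (mem_iUnion₂.2 ⟨i, Finset.mem_univ i, hz⟩)

theorem C_sub (k : ZMod M) : (rpth P Hs b).net.C k ⊆ Rall A B h W := by
  rw [← rreg P Hs b]
  exact fun z hz => Or.inr (mem_iUnion₂.2 ⟨k, Finset.mem_univ k, hz⟩)

/-- **the two nets are disjoint** -/
theorem dj (hd : Disjoint (Rall A B h W) (Rall A B h W')) :
    Dj (rpth P Hs b).net (rpth P' Hs b').net where
  c := rfl
  BB i i' := hd.mono (B_sub P Hs b i) (B_sub P' Hs b' i')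
  BC i k' := hd.mono (B_sub P Hs b i) (C_sub P' Hs b' k')
  CB k i' := hd.mono (C_sub P Hs b k) (B_sub P' Hs b' i')
  CC k k' := hd.mono (C_sub P Hs b k) (C_sub P' Hs b' k')

/-- columns off both regions -/
theorem bx (hd : Disjoint (Rall A B h W) (Rall A B h W')) {α : Type*} {D : α → Set ℂ}
    (hm : ∀ t, MeasurableSet (D t)) (hb : ∀ t, Bornology.IsBounded (D t))
    (hDD : ∀ t t', t ≠ t' → Disjoint (D t) (D t')) (hW : ∀ t, Disjoint (D t) (Rall A B h W))
    (hW' : ∀ t, Disjoint (D t) (Rall A B h W')) :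
    Bx (TwoNx366.sum (dj P P' Hs b b' hd)) D where
  m := hm
  b := hb
  DD := hDD
  BD := by
    rintro (i | i) t
    · exact ((hW t).mono_right (B_sub P Hs b i)).symm
    · exact ((hW' t).mono_right (B_sub P' Hs b' i)).symm
  DC := by
    rintro t (k | k)
    · exact (hW t).mono_right (C_sub P Hs b k)
    · exact (hW' t).mono_right (C_sub P' Hs b' k)

/-! ### the weight -/

/-- **the data of the weight** : inner ring `gO P Hs true`, outer ring `gO P' Hs false` -/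
theorem wd (hM : 0 < M) (hM' : 0 < M') (hd : Disjoint (Rall A B h W) (Rall A B h W'))
    {Bb : Set ℂ} (hBm : MeasurableSet Bb) (hBb : Bornology.IsBounded Bb)
    (h1 : Rall A B h W ⊆ Bb) (h2 : Rall A B h W' ⊆ Bb) {F e : Cf → ℝ≥0∞}
    (hF : LocalOn Bb F) (he : LocalOn Bb e) (mF : FM F) (me : FM e)
    (F1 : ∀ X : Cf, X.Finite → F X ≤ 1) (e1 : ∀ X : Cf, X.Finite → e X ≤ 1) {c : ℝ≥0∞}
    (c0 : c ≠ 0) (ct : c ≠ ∞)
    (arm : c * (Ex ε (gO P Hs true) * Ex ε (gO P' Hs false)) ≤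
      Ex ε fun X => gO P Hs true X * gO P' Hs false X * F X)
    (bad : 2 * c⁻¹ * (Ex ε fun X => 1 - e X) ≤ Ex ε (gO P Hs true) * Ex ε (gO P' Hs false)) :
    WD ε Bb (Rall A B h W) (Rall A B h W') (gO P Hs true) (gO P' Hs false) F e c⁻¹ where
  eps := T.eps
  Bm := hBm
  Bb := hBb
  im := Rall_meas P Hs hM
  om := Rall_meas P' Hs hM'
  iB := h1
  oB := h2
  io := hd
  il := gO_local P Hs true
  ol := gO_local P' Hs false
  Fl := hF
  el := he
  ifm := gO_fm P Hs true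
  ofm := gO_fm P' Hs false
  Ffm := mF
  efm := me
  i1 := fun X hX => gO_le_fin P Hs true hX
  o1 := fun X hX => gO_le_fin P' Hs false hX
  F1 := F1
  e1 := e1
  K1 := ENNReal.inv_ne_top.2 c0
  arm := by
    calc Ex ε (gO P Hs true) * Ex ε (gO P' Hs false) =
          c⁻¹ * (c * (Ex ε (gO P Hs true) * Ex ε (gO P' Hs false))) := by
          rw [← mul_assoc, ENNReal.inv_mul_cancel c0 ct, one_mul]
      _ ≤ _ := mul_le_mul_right arm _
  bad := bad

/-! ### the environment -/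

/-- 795's environment seen in the box -/
def eB (Bb : Set ℂ) (R d ρ0 : ℝ) (X : Cf) : ℝ≥0∞ := EnvRx795.eF R d ρ0 (X ∩ ovr Bb)

theorem eB_local (Bb : Set ℂ) (R d ρ0 : ℝ) : LocalOn Bb (eB Bb R d ρ0) :=
  localOn_of fun S T h => by unfold eB; rw [h]

theorem eB_fm {Bb : Set ℂ} (hB : MeasurableSet Bb) (R d ρ0 : ℝ) : FM (eB Bb R d ρ0) :=
  fm_inter (F := EnvRx795.eF R d ρ0) (EnvRx795.eF_fm R d ρ0) hB

theorem eB_le (Bb : Set ℂ) (R d ρ0 : ℝ) (X : Cf) : eB Bb R d ρ0 X ≤ 1 := EnvRx795.eF_le _ _ _ _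

/-- at a painted configuration in the box -/
theorem eB_paint {Bb : Set ℂ} {A β : Finset ℂ} (hA : (A : Set ℂ) ⊆ Bb) (R d ρ0 : ℝ) :
    eB Bb R d ρ0 (paint A β) = EnvRx795.eF R d ρ0 (paint A β) := by
  unfold eB
  congr 1
  exact inter_eq_left.2 fun p hp => hA hp.1

theorem eB_ne {Bb : Set ℂ} {A β : Finset ℂ} (hA : (A : Set ℂ) ⊆ Bb) {R d ρ0 : ℝ}
    (h : eB Bb R d ρ0 (paint A β) ≠ 0) : EnvRx795.EnvS A R d ρ0 := by
  rw [eB_paint hA] at h
  exact EnvRx795.eF_ne h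

theorem eB_sub {Bb : Set ℂ} {R d ρ0 : ℝ} (hε : 0 < ε) (hBm : MeasurableSet Bb)
    (hBb : Bornology.IsBounded Bb) : (Ex ε fun X => 1 - eB Bb R d ρ0 X) =
      sampleLaw {ω | EnvRx795.eF R d ρ0 (cfg ε ω ∩ ovM Bool Bb) = 0} := by
  have m2 : Measurable fun ω => EnvRx795.eF R d ρ0 (cfg ε ω ∩ ovM Bool Bb) :=
    Dblx609.meas_mcf Janx304.measurable_dec hε hBm hBb (F := EnvRx795.eF R d ρ0)
      (EnvRx795.eF_fm R d ρ0)
  have m3 : MeasurableSet {ω | EnvRx795.eF R d ρ0 (cfg ε ω ∩ ovM Bool Bb) = 0} :=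
    m2 (measurableSet_singleton 0)
  rw [← lintegral_indicator_one m3]
  refine lintegral_congr fun ω => ?_
  show 1 - EnvRx795.eF R d ρ0 (cfg ε ω ∩ ovM Bool Bb) =
    ({ω | EnvRx795.eF R d ρ0 (cfg ε ω ∩ ovM Bool Bb) = 0} : Set Sample).indicator 1 ω
  rcases EnvRx795.eF_01 R d ρ0 (cfg ε ω ∩ ovM Bool Bb) with h | h
  · have hm : ω ∈ {ω | EnvRx795.eF R d ρ0 (cfg ε ω ∩ ovM Bool Bb) = 0} := h
    rw [indicator_of_mem hm, h, tsub_zero, Pi.one_apply]
  · have hm : ω ∉ {ω | EnvRx795.eF R d ρ0 (cfg ε ω ∩ ovM Bool Bb) = 0} := by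
      intro h'
      change EnvRx795.eF R d ρ0 (cfg ε ω ∩ ovM Bool Bb) = 0 at h'
      rw [h] at h'
      exact one_ne_zero h'
    rw [indicator_of_notMem hm, h, tsub_self]

/-! ### all small `ε` -/

/-- **THE WEIGHT OF THE CLOSED RING WITH ARMS, for all small `ε`** : the data `WD` with 795's
environment, and the uniform lower bound -/
theorem wd_ev (P : FPath M W) (P' : FPath M' W') (hM : 0 < M) (hM' : 0 < M')
    (hd : Disjoint (Rall A B h W) (Rall A B h W')) {Bb : Set ℂ} (hBm : MeasurableSet Bb)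
    (hBb : Bornology.IsBounded Bb) (h1 : Rall A B h W ⊆ Bb) (h2 : Rall A B h W' ⊆ Bb) {R ρ0 : ℝ}
    (hR : Metric.closedBall (0 : ℂ) (R + 1) ⊆ Bb) (hρ0 : 0 < ρ0) {cc ca c : ℝ} (hcc : 0 < cc)
    (hca : 0 < ca) (hc : 0 < c) :
    ∀ᶠ ε : ℝ in 𝓝[>] 0, ∀ (T : Tpl ε (Tn × Bool)) (Hs : Std T A B h Prod.fst),
      ENNReal.ofReal cc ≤ T.c → ENNReal.ofReal ca ≤ ∫⁻ ω, T.A (cfg ε ω) ∂sampleLaw →
      ∀ F : Cf → ℝ≥0∞, LocalOn Bb F → FM F → (∀ X : Cf, X.Finite → F X ≤ 1) →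
      (ENNReal.ofReal c * (Ex ε (gO P Hs true) * Ex ε (gO P' Hs false)) ≤
        Ex ε fun X => gO P Hs true X * gO P' Hs false X * F X) →
      WD ε Bb (Rall A B h W) (Rall A B h W') (gO P Hs true) (gO P' Hs false) F
          (eB Bb R √ε ρ0) (ENNReal.ofReal c)⁻¹ ∧
        ENNReal.ofReal (c * (cc ^ M * ca ^ M * (cc ^ M' * ca ^ M')) / 2) ≤
          Mg ε Bb (wt Bb (gO P Hs true) (gO P' Hs false) F (eB Bb R √ε ρ0)) := by
  set q : ℝ := cc ^ M * ca ^ M * (cc ^ M' * ca ^ M') with hq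
  have hq0 : 0 < q := by positivity
  have f1 := EnvRx795.env_sqrt R 1 1 ρ0 one_pos hρ0
  have f2 : ∀ᶠ ε : ℝ in 𝓝[>] 0, ε < c * q / 2 :=
    nhdsWithin_le_nhds (eventually_lt_nhds (by positivity))
  have f3 : ∀ᶠ ε : ℝ in 𝓝[>] 0, 0 < ε := eventually_mem_nhdsWithin
  filter_upwards [f1, f2, f3] with ε g1 g2 hε
  intro T Hs hTc hTA F hF mF F1 harm
  have i1 : ENNReal.ofReal (cc ^ M * ca ^ M) ≤ Ex ε (gO P Hs true) := by
    rw [ENNReal.ofReal_mul (by positivity), ENNReal.ofReal_pow hcc.le, ENNReal.ofReal_pow hca.le]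
    exact gO_ge P Hs true hTc hTA
  have i2 : ENNReal.ofReal (cc ^ M' * ca ^ M') ≤ Ex ε (gO P' Hs false) := by
    rw [ENNReal.ofReal_mul (by positivity), ENNReal.ofReal_pow hcc.le, ENNReal.ofReal_pow hca.le]
    exact gO_ge P' Hs false hTc hTA
  have hQ : ENNReal.ofReal q ≤ Ex ε (gO P Hs true) * Ex ε (gO P' Hs false) := by
    rw [hq, ENNReal.ofReal_mul (by positivity)]
    exact mul_le_mul' i1 i2
  have hc0 : ENNReal.ofReal c ≠ 0 := (ENNReal.ofReal_pos.2 hc).ne'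
  have hct : ENNReal.ofReal c ≠ ∞ := ENNReal.ofReal_ne_top
  have hbad : 2 * (ENNReal.ofReal c)⁻¹ * (Ex ε fun X => 1 - eB Bb R √ε ρ0 X) ≤
      Ex ε (gO P Hs true) * Ex ε (gO P' Hs false) := by
    refine le_trans ?_ hQ
    rw [eB_sub hε hBm hBb]
    have h4 := g1.2 Bb hBb hR
    rw [Real.rpow_one] at h4
    calc 2 * (ENNReal.ofReal c)⁻¹ *
          sampleLaw {ω | EnvRx795.eF R √ε ρ0 (cfg ε ω ∩ ovM Bool Bb) = 0}
        ≤ 2 * (ENNReal.ofReal c)⁻¹ * ENNReal.ofReal (c * q / 2) :=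
          mul_le_mul_right (h4.trans (ENNReal.ofReal_le_ofReal g2.le)) _
      _ = ENNReal.ofReal q := by
          rw [← ENNReal.ofReal_inv_of_pos hc, show (2 : ℝ≥0∞) = ENNReal.ofReal 2 by norm_num,
            ← ENNReal.ofReal_mul (by norm_num), ← ENNReal.ofReal_mul (by positivity)]
          congr 1
          field_simp
  have hw := wd P P' Hs hM hM' hd hBm hBb h1 h2 hF (eB_local Bb R √ε ρ0) mF
    (eB_fm hBm R √ε ρ0) F1 (fun X _ => eB_le Bb R √ε ρ0 X) hc0 hct harm hbad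
  refine ⟨hw, ?_⟩
  have h5 := hQ.trans hw.mass_le
  set I := Mg ε Bb (wt Bb (gO P Hs true) (gO P' Hs false) F (eB Bb R √ε ρ0))
  have h6 : ENNReal.ofReal (c * q / 2) = ENNReal.ofReal (c / 2) * ENNReal.ofReal q := by
    rw [← ENNReal.ofReal_mul (by positivity)]
    congr 1
    ring
  rw [h6]
  calc ENNReal.ofReal (c / 2) * ENNReal.ofReal q
      ≤ ENNReal.ofReal (c / 2) * (2 * (ENNReal.ofReal c)⁻¹ * I) := mul_le_mul_right h5 _
    _ = I := by
        rw [← mul_assoc, ← ENNReal.ofReal_inv_of_pos hc,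
          show (2 : ℝ≥0∞) = ENNReal.ofReal 2 by norm_num, ← ENNReal.ofReal_mul (by norm_num),
          ← ENNReal.ofReal_mul (by positivity)]
        have : c / 2 * (2 * c⁻¹) = 1 := by field_simp
        rw [this, ENNReal.ofReal_one, one_mul]

end Crest.Agent.R143.RingWDx445
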