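import Crest.Agent.R143.RingT_197
import Crest.Agent.R143.FactJ_432
import Crest.Agent.R143.RingX_713
import Crest.Agent.R143.RingC_312
import Crest.Agent.R143.SqG_445
import Crest.Agent.R143.EnvR_795
import Crest.Agent.R143.RingWD_445
import Crest.Agent.R143.ColX_829

/-!
# Row 143 (S0194), block H, COMPOSITION, part 4 (helper197): the family, `RDat`

Numbers of the family (`z = 0`, `b = 1`): `n` tiles on the unit side, `et n = 1 / (100 n)`, tile
`100 * et n = 1 / n`, `Wi n = sqV (n + 2) (-1, -1)`, `Wo n = sqV (n + 22) (-11, -11)`, centre `zB`.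
* `lf_same` : the left cells of a loop do not depend on the start and on the number of steps
* `clo_X` : 503's `Clo` for the colours of the cells, from 713's `RngH`
* **`EF W η`** : the giant of the ring through the selected dart of the gate `0`; `ef_eq`
* **`facts_one`** : 432's `Facts` of one configuration; `RC` : the ring configuration; `Rvf`
* **`rdat_of`** : `RDat` for 445's weight with 795's environment
-/

set_option autoImplicit false

noncomputable section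

open scoped Classical

namespace Crest.Agent.R143.RingUx197

open MeasureTheory Filter Topology Set
open Crest.ProbabilityR.Voronoi
open Crest.Agent.R143.B0x346 Crest.Agent.R143.SumScx302 Crest.Agent.R143.Mass1x302
  Crest.Agent.R143.Mass2x302 Crest.Agent.R143.Mass3x302 Crest.Agent.R143.Mass4x302
  Crest.Agent.R143.Mass5x302 Crest.Agent.R143.DelGx806 Crest.Agent.R143.DelRx806
open Crest.Agent.R143.PP0x831 Crest.Agent.R143.HBudx136 Crest.Agent.R143.HGluex136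
  Crest.Agent.R143.JColx54 Crest.Agent.R143.SmallAx304 Crest.Agent.R143.Dblx609
  Crest.Agent.R143.Dbl2x609 Crest.Agent.R143.Asm3x414 Crest.Agent.R143.Asm4x414
open Crest.Agent.R143.Frame1x395 Crest.Agent.R143.Frame2x395 Crest.Agent.R143.Frame3x395
  Crest.Agent.R143.Frame8x395 Crest.Agent.R143.Frame10x395
open Crest.Agent.R143.Frame5x395 (sd mem_sd th th_spec)
open Crest.Agent.R143.NonXx592 (P)
open Crest.Agent.R143.GiantEx197 (Ek Eg Lf hull_mem)
open Crest.Agent.R143.StgIx432 Crest.Agent.R143.HRevx432 Crest.Agent.R143.FactIx432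
  Crest.Agent.R143.FactJx432
open Crest.Agent.R143.RcTx422 (scol scol_hull scol_cs)
open Crest.Agent.R143.ColXx829 Crest.Agent.R143.WLocx713 Crest.Agent.R143.CorHx713
open Crest.Agent.R143.RingXx713 Crest.Agent.R143.RingIx503 Crest.Agent.R143.RingCx312
open Crest.Agent.R143.RevCx389 (Rg Xs Fs Cw Ra)
open Crest.Agent.R143.Meetx707 (sr)
open Crest.Agent.R143.AnnCx707 (Lev)
open Crest.Agent.R143.TileRx228 (RR)
open Crest.Agent.R143.SqGx445 (sqV sqv_fpath)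
open Crest.Agent.R143.CircPx838 (sup)
open Crest.Agent.R143.FarEkx88 (sp)
open Crest.Agent.R143.EnvRx795 (EnvS eF)
open Crest.Agent.R143.Chordx355 (Lp)
open Crest.Agent.R143.RingTx197
open Crest.Agent.R143.FinCx811
open scoped ENNReal

/-! ### the left cells of a loop -/

section loop

variable {D C : Type} {M : CMap D C} {x : D → ZMod 2} {p p' : D} {N n n' j : ℕ}

theorem p_mod (h : P M x p N = p) (t : ℕ) : P M x p (t % N) = P M x p t := by
  have key : ∀ q r : ℕ, P M x p (r + q * N) = P M x p r := by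
    intro q r
    induction q with
    | zero => simp
    | succ q ih =>
      rw [show r + (q + 1) * N = (r + q * N) + N by ring]
      unfold NonXx592.P at ih h ⊢
      rw [Function.iterate_add_apply, h, ih]
  conv_rhs => rw [← Nat.mod_add_div t N, mul_comm]
  rw [key]

/-- **the left cells of a loop** -/
theorem lf_same (h : P M x p N = p) (hN : 0 < N) (hn : N ≤ n + 1) (hn' : N ≤ n' + 1)
    (hj : P M x p j = p') : Lf M x p' n' = Lf M x p n := by
  have hadd : ∀ i, P M x p' i = P M x p (i + j) := by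
    intro i
    rw [← hj]
    unfold NonXx592.P
    rw [Function.iterate_add_apply]
  have h' : P M x p' N = p' := by
    rw [hadd, add_comm, ← hj]
    unfold NonXx592.P at h ⊢
    rw [Function.iterate_add_apply, h]
  ext c
  constructor
  · rintro ⟨i, -, rfl⟩
    refine ⟨(i + j) % N, by have := Nat.mod_lt (i + j) hN; omega, ?_⟩
    rw [p_mod h, hadd]
  · rintro ⟨i, -, rfl⟩
    have hle : j ≤ i + j * N := by nlinarith
    refine ⟨(i + j * N - j) % N, by have := Nat.mod_lt (i + j * N - j) hN; omega, ?_⟩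
    rw [p_mod h', hadd, Nat.sub_add_cancel hle]
    congr 1
    rw [← p_mod h (i + j * N), ← p_mod h i, Nat.add_mul_mod_self_right]

theorem per_card [Fintype D] (L : Lp M x p N) : N ≤ Fintype.card D := by
  have h1 : Function.Injective fun i : Fin N => P M x p i := by
    intro a b h
    rcases lt_trichotomy a.1 b.1 with h1 | h1 | h1
    · exact absurd h (L.inj _ _ h1 b.2)
    · exact Fin.ext h1
    · exact absurd h.symm (L.inj _ _ h1 a.2)
  have := Fintype.card_le_of_injective _ h1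
  rwa [Fintype.card_fin] at this

end loop

/-! ### the numbers -/

/-- unit: tiles have size `100 * et n = 1 / n` -/
def et (n : ℕ) : ℝ := 1 / (100 * n)

theorem et_pos {n : ℕ} (hn : 0 < n) : 0 < et n := by
  unfold et
  have : (0 : ℝ) < n := by exact_mod_cast hn
  positivity

theorem et_mul {n : ℕ} (hn : 0 < n) : 100 * et n * n = 1 := by
  unfold et
  have : (n : ℝ) ≠ 0 := by exact_mod_cast hn.ne'
  field_simp

/-- the path of the ring: half side `1/2 + 1/n` -/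
def Wi (n : ℕ) : ℤ → ℤ × ℤ := sqV (n + 2) (-1, -1)

/-- the path of the white circuit: half side `1/2 + 11/n` -/
def Wo (n : ℕ) : ℤ → ℤ × ℤ := sqV (n + 22) (-11, -11)

/-- the centre -/
def zB : ℂ := ⟨1 / 2, 1 / 2⟩

theorem zc_eq {n : ℕ} (hn : 0 < n) : zc (100 * et n) (n + 2) (-1, -1) = zB := by
  have h := et_mul hn
  unfold zc zB
  apply Complex.ext
  · show 100 * et n * (((-1 : ℤ) : ℝ) + ((n + 2 : ℕ) : ℝ) / 2) = 1 / 2
    push_cast
    linear_combination h / 2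
  · show 100 * et n * (((-1 : ℤ) : ℝ) + ((n + 2 : ℕ) : ℝ) / 2) = 1 / 2
    push_cast
    linear_combination h / 2

/-! ### the colours of the cells -/

section col

variable {A : Finset ℂ} {hS : GP (A : Set ℂ)} {h3 : 3 ≤ A.card} {σ : Cs hS → ZMod 2}

theorem cX_scol : cX (Xc hS h3 σ) = scol hS σ := by
  funext v
  by_cases hv : v ∈ A
  · rw [cX_Xc hv, scol_cs h3 σ ⟨v, hv⟩]
  · have h1 : (v, true) ∉ Xc hS h3 σ := fun h => hv (mem_Xc.1 h).choose
    unfold cX scol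
    rw [if_neg h1, dif_neg]
    rintro ⟨d, hd⟩
    have hd' : (Quot.mk _ d.1.1 : Quot (hullE A)) = Quot.mk _ v := hd
    have hdA : d.1.1 ∈ A := (dart_mem d).1
    have key : ∀ a b : ℂ, Relation.EqvGen (hullE A) a b → (a ∈ A ↔ b ∈ A) := by
      intro a b h
      induction h with
      | rel a b h => exact ⟨fun _ => (mem_hull h).2, fun _ => (mem_hull h).1⟩
      | refl => exact Iff.rfl
      | symm _ _ _ ih => exact ih.symm
      | trans _ _ _ _ _ h1 h2 => exact h1.trans h2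
    exact hv ((key _ _ (Quot.eqvGen_exact hd')).1 hdA)

variable {U : Set ℂ} {M : ℕ} {W : ℤ → ℤ × ℤ} {η d : ℝ}

/-- **503's `Clo` for the colours of the cells** -/
theorem clo_X (R : RngH (Xc hS h3 σ) U M W η d) :
    Clo A A (bs hS h3 σ) (scol hS σ) (100 * η) (9 * η) (51 * η) (10 * η) (52 * η) η (10 * η) (-η) η
      (-(9 * η)) (10 * η) (2 * d) η (η / 2) M W (yy η W (Xc hS h3 σ)) (xx η W (Xc hS h3 σ)) U := by
  have h := R.clo
  rw [sX_Xc, bX_Xc, cX_scol] at h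
  exact h

end col

/-! ### the giant -/

/-- **the giant of the ring**: ring loop through the selected dart of the gate `0` -/
def EF (W : ℤ → ℤ × ℤ) (η : ℝ) : EFam := fun A β =>
  if h : ∃ (hS : GP (A : Set ℂ)) (h3 : 3 ≤ A.card) (u : ℂ) (p : D0 A), OnHull A u ∧
      p.1 = sdt η W (Xc hS h3 (chiS hS h3 β)) 0 then
    Eg (cm0 h.choose) (Quot.mk _ h.choose_spec.choose_spec.choose)
      (Lf (cm0 h.choose) (cfg (rc0 h.choose) (chiS h.choose h.choose_spec.choose β))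
        h.choose_spec.choose_spec.choose_spec.choose (Fintype.card (D0 A)))
  else ∅

theorem ef_eq {W : ℤ → ℤ × ℤ} {η : ℝ} {A β : Finset ℂ} (hS : GP (A : Set ℂ)) (h3 : 3 ≤ A.card)
    {u : ℂ} (hu : OnHull A u) {p : D0 A} (hp : p.1 = sdt η W (Xc hS h3 (chiS hS h3 β)) 0) :
    EF W η A β = Eg (cm0 hS) (Quot.mk _ u)
      (Lf (cm0 hS) (cfg (rc0 hS) (chiS hS h3 β)) p (Fintype.card (D0 A))) := by
  have h : ∃ (hS : GP (A : Set ℂ)) (h3 : 3 ≤ A.card) (u : ℂ) (p : D0 A), OnHull A u ∧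
      p.1 = sdt η W (Xc hS h3 (chiS hS h3 β)) 0 := ⟨hS, h3, u, p, hu, hp⟩
  unfold EF
  rw [dif_pos h]
  obtain ⟨h1, h2⟩ := h.choose_spec.choose_spec.choose_spec.choose_spec
  have e1 : (Quot.mk _ h.choose_spec.choose_spec.choose : Quot (hullE A)) = Quot.mk _ u :=
    hull_mem hS h3 hu h1
  have e2 : h.choose_spec.choose_spec.choose_spec.choose = p := Subtype.ext (h2.trans hp.symm)
  rw [e1, e2]

/-- **the giant from any gate and any number of steps** -/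
theorem ef_gate {W : ℤ → ℤ × ℤ} {η d : ℝ} {A β : Finset ℂ} {U : Set ℂ} {K : ℕ}
    {hS : GP (A : Set ℂ)} {h3 : 3 ≤ A.card} (R : RngH (Xc hS h3 (chiS hS h3 β)) U (4 * K) W η d)
    {u : ℂ} (hu : OnHull A u) {o : ℤ} {N : ℕ} {T : ℕ → ℕ}
    (L : Lp (cm0 hS) (cfg (rc0 hS) (chiS hS h3 β))
      (pz (scol_hull (chiS hS h3 β)) (clo_X R) o) N)
    (Tp : ∀ k, P (cm0 hS) (cfg (rc0 hS) (chiS hS h3 β))
      (pz (scol_hull (chiS hS h3 β)) (clo_X R) o) (T k) =
        pz (scol_hull (chiS hS h3 β)) (clo_X R) (o - k)) {n' : ℕ} (hn : N ≤ n' + 1) :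
    EF W η A β = Eg (cm0 hS) (Quot.mk _ u) (Lf (cm0 hS) (cfg (rc0 hS) (chiS hS h3 β))
      (pz (scol_hull (chiS hS h3 β)) (clo_X R) o) n') := by
  rw [ef_eq hS h3 hu (p := pz (scol_hull (chiS hS h3 β)) (clo_X R) 0) rfl]
  congr 1
  have e := cfg_scol (hS := hS) h3 β
  obtain ⟨i, hi⟩ := pz_loop (clo_X R) o (hS := hS) (hχ := scol_hull (chiS hS h3 β)) (T := T)
    (by rw [e]; exact Tp) 0
  refine lf_same L.per L.pos hn ((per_card L).trans (Nat.le_succ _)) (j := i) ?_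
  have e' : xc hS (scol_hull (chiS hS h3 β)) = cfg (rc0 hS) (chiS hS h3 β) := e
  rw [e'] at hi
  exact hi

/-! ### one configuration -/

/-- one right cell of the ring loop is in the white cluster -/
def Acw {W : ℤ → ℤ × ℤ} {η d : ℝ} {A β : Finset ℂ} {U : Set ℂ} {M : ℕ}
    {hS : GP (A : Set ℂ)} {h3 : 3 ≤ A.card} (R : RngH (Xc hS h3 (chiS hS h3 β)) U M W η d)
    (G : Rg (D0 A) (Cs hS)) : Prop :=
  ∃ t, (rc0 hS).cell ((rc0 hS).rho (P (rc0 hS) (cfg (rc0 hS) (chiS hS h3 β))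
    (pz (scol_hull (chiS hS h3 β)) (clo_X R) 0) t)) ∈ Cw (rc0 hS) G (chiS hS h3 β)

theorem norm_sp (p : ℂ) : ‖p‖ ≤ 2 * sp zB p + 1 := by
  have h1 : ‖p‖ ≤ |p.re| + |p.im| := Complex.norm_le_abs_re_add_abs_im p
  have h2 : |p.re - 1 / 2| ≤ sp zB p := le_max_left _ _
  have h3 : |p.im - 1 / 2| ≤ sp zB p := le_max_right _ _
  have h4 : |p.re| ≤ |p.re - 1 / 2| + 1 / 2 := by
    have := abs_add_le (p.re - 1 / 2) (1 / 2)
    rw [sub_add_cancel, abs_of_pos (by norm_num : (0 : ℝ) < 1 / 2)] at this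
    exact this
  have h5 : |p.im| ≤ |p.im - 1 / 2| + 1 / 2 := by
    have := abs_add_le (p.im - 1 / 2) (1 / 2)
    rw [sub_add_cancel, abs_of_pos (by norm_num : (0 : ℝ) < 1 / 2)] at this
    exact this
  linarith

/-- **432's `Facts` of one configuration** -/
theorem facts_one {n : ℕ} (hn : 4 ≤ n) {A β : Finset ℂ} {U : Set ℂ} {d Rr ρ0 A1 A2 : ℝ}
    {hS : GP (A : Set ℂ)} {h3 : 3 ≤ A.card}
    (R : RngH (Xc hS h3 (chiS hS h3 β)) U (4 * (n + 2)) (Wi n) (et n) d)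
    (env : EnvS A Rr d ρ0) (hRr : 4 ≤ Rr) {G : Rg (D0 A) (Cs hS)}
    (L : Lev A (sr hS h3) G zB A1 A2) (h12 : A1 ≤ A2) (hA1 : 1 / 2 + 2 * (100 * et n) ≤ A1)
    (hDw : ∀ w ∈ A, sup (w - zB) < A1 → sr hS h3 w ∈ G.Dw) (ac : Acw R G) :
    Facts (Ub 0 1 (2 * (100 * et n))) (sq 0 1) A β (Ra (rc0 hS) G A (chiS hS h3) (Kc hS h3) β)
      (EF (Wi n) (et n) A β) := by
  have n0 : 0 < n := by omega
  have hη := et_pos n0
  have hηn := et_mul n0
  have hd := R.d0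
  have hde := R.de
  have hn4 : (4 : ℝ) ≤ n := by exact_mod_cast hn
  have hη4 : 100 * et n ≤ 1 / 4 := by nlinarith
  have hK : 100 * et n * ((n + 2 : ℕ) : ℝ) = 1 + 2 * (100 * et n) := by
    push_cast
    linear_combination hηn
  have e := cfg_scol (hS := hS) h3 β
  obtain ⟨N, T, h1, h2, h4⟩ := (clo_X R).rl hS (scol_hull (chiS hS h3 β)) 0
  rw [e] at h1 h2 h4
  obtain ⟨a, ha, hua⟩ := AnnCx707.hull_ex hS h3
  have hz := zc_eq n0
  have hle : 100 * et n * ((n + 2 : ℕ) : ℝ) / 2 + (9 * et n + et n / 2) + d ≤ 1 := by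
    rw [hK]; linarith
  have Lr : Lp (rc0 hS) (cfg (rc0 hS) (chiS hS h3 β))
      (pz (scol_hull (chiS hS h3 β)) (clo_X R) 0) N :=
    ⟨cfg_isC _, h1.L.occ, h1.L.pos, h1.L.per, h1.L.inj⟩
  have ac' := ac_le (G := G) (G' := G) Lr rfl rfl rfl subset_rfl ac
  have hole : ∀ p : ℂ, sp (zc (100 * et n) (n + 2) (-1, -1)) p ≤
      100 * et n * ((n + 2 : ℕ) : ℝ) / 2 + (9 * et n + et n / 2) + d + d →
      ∃ t ∈ A, ‖t - p‖ < d := by
    intro p hp
    rw [hz] at hp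
    refine env.hole p ?_
    have := norm_sp p
    linarith
  have F := facts_sq (hS := hS) (h3 := h3) (β := β) (W := Wi n) (v := (-1, -1)) (K := n + 2)
    (U' := Ub 0 1 (2 * (100 * et n))) (Bx := sq 0 1) (clo_X R) h1 h4 h2
    ⟨by omega, by linarith, by linarith⟩ (fun a => rfl) ?_ hd
    (h1 := 100 * et n * ((n + 2 : ℕ) : ℝ) / 2 + (9 * et n + et n / 2) + d) le_rfl le_rfl hole
    ?_ ?_ (by rw [hz]; exact L) h12 ?_ (by rw [hz]; exact hDw) ac' hua ?_
  · rwa [ef_gate R hua h1.L h2 (Nat.le_succ N)]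
  · refine sq_kin ?_ ?_ ?_ ?_
    · show 100 * et n * ((-1 : ℤ) : ℝ) + _ ≤ 0
      push_cast
      linarith
    · show (0 : ℝ) + 1 ≤ 100 * et n * (((-1 : ℤ) : ℝ) + _) - _
      rw [mul_add, hK]
      push_cast
      linarith
    · show 100 * et n * ((-1 : ℤ) : ℝ) + _ ≤ 0
      push_cast
      linarith
    · show (0 : ℝ) + 1 ≤ 100 * et n * (((-1 : ℤ) : ℝ) + _) - _
      rw [mul_add, hK]
      push_cast
      linarith
  · intro p hp
    refine ub_sp (c := zc (100 * et n) (n + 2) (-1, -1)) ?_ ?_ hp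
    · rw [hz]
      unfold zB
      apply Complex.ext <;> simp
    · rw [hK]; linarith
  · intro w hw hwU
    refine env.inn ?_
    obtain ⟨w1, w2, w3, w4⟩ := hwU
    rw [HBudx136.re_k'] at w1 w2
    rw [HBudx136.im_k'] at w3 w4
    have h5 := Complex.norm_le_abs_re_add_abs_im w
    have h6 : |w.re| ≤ 3 / 2 := abs_le.2 ⟨by simp at w1; linarith, by simp at w2; linarith⟩
    have h7 : |w.im| ≤ 3 / 2 := abs_le.2 ⟨by simp at w3; linarith, by simp at w4; linarith⟩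
    linarith
  · rw [hK]; linarith
  · rw [hz]
    have h5 := env.hull_far hua
    have := norm_sp a
    linarith

/-! ### `RDat` -/

/-- **the ring configuration** at `(A, β)` : ring (713), outside levels (707), one right cell of the
ring loop in the white cluster -/
def RC (n : ℕ) (d A1 A2 : ℝ) (U : Set ℂ)
    (Gf : ∀ (A : Finset ℂ) (hS : GP (A : Set ℂ)), 3 ≤ A.card → Rg (D0 A) (Cs hS))
    (A β : Finset ℂ) : Prop :=
  ∃ (hS : GP (A : Set ℂ)) (h3 : 3 ≤ A.card)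
    (R : RngH (Xc hS h3 (chiS hS h3 β)) U (4 * (n + 2)) (Wi n) (et n) d),
    Lev A (sr hS h3) (Gf A hS h3) zB A1 A2 ∧
    (∀ w ∈ A, sup (w - zB) < A1 → sr hS h3 w ∈ (Gf A hS h3).Dw) ∧ Acw R (Gf A hS h3)

/-- the revealed sites of the full exploration -/
def Rvf (Gf : ∀ (A : Finset ℂ) (hS : GP (A : Set ℂ)), 3 ≤ A.card → Rg (D0 A) (Cs hS))
    (A β : Finset ℂ) : Finset ℂ :=
  if h : ∃ _ : GP (A : Set ℂ), 3 ≤ A.card then
    Ra (rc0 h.choose) (Gf A h.choose h.choose_spec) A (chiS h.choose h.choose_spec)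
      (Kc h.choose h.choose_spec) β
  else ∅

variable {n : ℕ} {Rr ρ0 A1 A2 d ε : ℝ} {U B : Set ℂ}
  {Gf : ∀ (A : Finset ℂ) (hS : GP (A : Set ℂ)), 3 ≤ A.card → Rg (D0 A) (Cs hS)}

theorem rvf_eq {A β : Finset ℂ} (hS : GP (A : Set ℂ)) (h3 : 3 ≤ A.card) :
    Rvf Gf A β = Ra (rc0 hS) (Gf A hS h3) A (chiS hS h3) (Kc hS h3) β := by
  have h : ∃ _ : GP (A : Set ℂ), 3 ≤ A.card := ⟨hS, h3⟩
  unfold Rvf
  rw [dif_pos h]

theorem rvf_stop (A : Finset ℂ) : Crest.Agent.R143.Harx315.IsStop A (Rvf Gf A) := by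
  by_cases h : ∃ _ : GP (A : Set ℂ), 3 ≤ A.card
  · obtain ⟨hS, h3⟩ := h
    have e : Rvf Gf A = Ra (rc0 hS) (Gf A hS h3) A (chiS hS h3) (Kc hS h3) :=
      funext fun β => rvf_eq hS h3
    rw [e]
    exact RevCx389.ra_stop (coins_rc hS h3) (kc_sub hS h3)
  · have e : Rvf Gf A = fun _ => ∅ := funext fun β => dif_neg h
    rw [e]
    exact ⟨fun _ _ => Finset.empty_subset _, fun _ _ _ _ _ => rfl⟩

theorem RC.facts {A β : Finset ℂ} (H : RC n d A1 A2 U Gf A β) (hn : 4 ≤ n)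
    (env : EnvS A Rr d ρ0) (hRr : 4 ≤ Rr) (h12 : A1 ≤ A2) (hA1 : 1 / 2 + 2 * (100 * et n) ≤ A1) :
    Facts (Ub 0 1 (2 * (100 * et n))) (sq 0 1) A β (Rvf Gf A β) (EF (Wi n) (et n) A β) := by
  obtain ⟨hS, h3, R, L, hDw, ac⟩ := H
  rw [rvf_eq hS h3]
  exact facts_one hn R env hRr L h12 hA1 hDw ac

/-- **432's `FactsAe`** -/
theorem factsAe_of {g : Set (ℂ × Bool) → ℝ≥0∞} (hn : 4 ≤ n) (hRr : 4 ≤ Rr) (h12 : A1 ≤ A2)
    (hA1 : 1 / 2 + 2 * (100 * et n) ≤ A1)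
    (H : ∀ᵐ ω ∂sampleLaw, ∀ β ∈ (Ap ε B ω).powerset, g (paint (Ap ε B ω) β) ≠ 0 →
      EnvS (Ap ε B ω) Rr d ρ0 ∧ RC n d A1 A2 U Gf (Ap ε B ω) β) :
    FactsAe ε B (Ub 0 1 (2 * (100 * et n))) (sq 0 1) g (Rvf Gf) (EF (Wi n) (et n)) := by
  filter_upwards [H] with ω h β hβ h0
  obtain ⟨h1, h2⟩ := h β hβ h0
  exact h2.facts hn h1 hRr h12 hA1

theorem ub_ball {s r : ℝ} (hs : s ≤ 1) (hr : 4 ≤ r) : Ub 0 1 s ⊆ Metric.closedBall (0 : ℂ) r := by
  intro w hw
  have h := HCompx197.norm_ub (z := 0) (b := 1) (by norm_num) hs hw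
  rw [sub_zero] at h
  rw [mem_closedBall_zero_iff]
  linarith

/-- the box of the family -/
abbrev Bx (Rr : ℝ) : Set ℂ := Metric.closedBall (0 : ℂ) (Rr + 1)

/-- the weight of the family -/
abbrev gw (Rr ρ0 ε : ℝ) (gi go F : Set (ℂ × Bool) → ℝ≥0∞) : Set (ℂ × Bool) → ℝ≥0∞ :=
  WgtHx445.wt (Bx Rr) gi go F (RingWDx445.eB (Bx Rr) Rr √ε ρ0)

/-- where the weight is not zero the environment is good -/
theorem gw_env {Ui Uo : Set ℂ} {gi go F : Set (ℂ × Bool) → ℝ≥0∞} {Kw : ℝ≥0∞}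
    (H : WgtHx445.WD ε (Bx Rr) Ui Uo gi go F (RingWDx445.eB (Bx Rr) Rr √ε ρ0) Kw) (ω : Sample)
    {β : Finset ℂ} (h0 : gw Rr ρ0 ε gi go F (paint (Ap ε (Bx Rr) ω) β) ≠ 0) :
    EnvS (Ap ε (Bx Rr) ω) Rr √ε ρ0 := by
  have h1 := (H.w_ne ((paint_fin _ β).subset Set.inter_subset_left) h0).2.2.2
  refine RingWDx445.eB_ne ?_ h1
  rw [coe_Ap H.eps H.Bb]
  exact Set.inter_subset_right

/-- **`RDat` of the family** : 445's weight with 795's environment `eB .. Rr √ε ρ0` -/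
theorem rdat_of {Ui Uo : Set ℂ} {gi go F : Set (ℂ × Bool) → ℝ≥0∞} {Kw : ℝ≥0∞}
    {c d0 R K c1 c2 : ℝ}
    (H : WgtHx445.WD ε (Bx Rr) Ui Uo gi go F (RingWDx445.eB (Bx Rr) Rr √ε ρ0) Kw)
    (mass : ENNReal.ofReal c ≤ Mg ε (Bx Rr) (gw Rr ρ0 ε gi go F))
    (hn : 4 ≤ n) (h12 : A1 ≤ A2) (hA1 : 1 / 2 + 2 * (100 * et n) ≤ A1)
    (hRr : 5 + K * (d0 / 2) + d0 / 2 + 1 < Rr) (hK : 0 ≤ K) (hd0 : 0 ≤ d0) (hρ : ρ0 ≤ 1 / 2)
    (hρR : ρ0 ≤ c2 * R) (e1 : √ε ≤ 1) (e2 : 2 * √ε ≤ R) (e3 : √ε ≤ c1 * R)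
    (hRC : ∀ᵐ ω ∂sampleLaw, ∀ β ∈ (Ap ε (Bx Rr) ω).powerset,
      gw Rr ρ0 ε gi go F (paint (Ap ε (Bx Rr) ω) β) ≠ 0 →
      RC n √ε A1 A2 U Gf (Ap ε (Bx Rr) ω) β) :
    RDat 0 1 (2 * (100 * et n)) ε c d0 R K c1 c2 EnvRx795.Ce (Bx Rr)
      (gw Rr ρ0 ε gi go F) (EF (Wi n) (et n)) (Rvf Gf) := by
  have n0 : 0 < n := by omega
  have hη := et_pos n0
  have hηn := et_mul n0
  have hn4 : (4 : ℝ) ≤ n := by exact_mod_cast hn
  have hη4 : 100 * et n ≤ 1 / 4 := by nlinarith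
  have hKd : 0 ≤ K * (d0 / 2) := by positivity
  have hR4 : 4 ≤ Rr := by linarith
  refine ⟨H.Bm, H.Bb, ub_ball (by linarith) (by linarith), H.w_fm, fun X => WgtHx445.WD.w_le_one X,
    mass, Eventually.of_forall fun ω => rvf_stop _, ?_, ?_⟩
  · refine factsAe_of (Rr := Rr) (ρ0 := ρ0) (d := √ε) (U := U) hn hR4 h12 hA1 ?_
    filter_upwards [hRC] with ω h β hβ h0
    exact ⟨gw_env H ω h0, h β hβ h0⟩
  · refine Eventually.of_forall fun ω β hβ h0 => ?_
    have h1 := gw_env H ω h0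
    refine ⟨√ε, h1.dpos, e2, e3, h1.dense hρ e1 ?_ (by positivity) hρR⟩
    rw [norm_zero]
    linarith

end Crest.Agent.R143.RingUx197
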