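import Crest.Agent.R143.Meet_707

/-!
# Row 143 (S0194), block H: the explicit strips (helper707)

Square `sup (s - zB) ≤ hB`. Side = direction `u` (`u = 1, I, -1, -I`; inner normal `u`), local
coordinates `X zB u s`, `Y zB u s`; the side is `X = - hB`. Window : `|Y - c0| ≤ l`.
Core square : centre `z1` of depth `≥ d0`, half side `r1`.
* `strip` : the straight strip of half width `et` from the window to the core
* `Par` : conditions on the parameters
* `strip_fit`, `strip_reg`, `strip_out`, `strip_inn`, `core_dp` : everything which is needed in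
  `Meetx707.Geo`
* `geo` : `Geo` from the inclusions of the regions
* `strip_pr` : the probability of the tube event, the same constants for all windows and cores
* `core_cover` : finitely many cores cover the points of depth `≥ d0`
-/

set_option autoImplicit false

noncomputable section

open scoped Classical

namespace Crest.Agent.R143.Stripx707

open Crest.Agent.R143.B0x346 Crest.Agent.R143.DelGx806 Crest.Agent.R143.DelRx806
open Crest.Agent.R143.ToolWx838 Crest.Agent.R143.Blkx838 Crest.Agent.R143.ToolW2x838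
open Crest.Agent.R143.ToolW3x838 Crest.Agent.R143.Circ4x838 Crest.Agent.R143.Harx315
open Crest.Agent.R143.RB0x838 Crest.Agent.R143.CircPx838 Crest.Agent.R143.Gatex838
open Crest.Agent.R143.CBx838 Crest.Agent.R143.Multix838 Crest.Agent.R143.RBmx838
open Crest.Agent.R143.Frame10x395
open Crest.Agent.R143.Tubex707 Crest.Agent.R143.Exitx707 Crest.Agent.R143.TubeWx707
open Crest.Agent.R143.RevCx389 Crest.Agent.R143.Meetx707

/-- the four directions -/
def Dir (u : ℂ) : Prop := u = 1 ∨ u = Complex.I ∨ u = -1 ∨ u = -Complex.I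

theorem Dir.norm {u : ℂ} (hu : Dir u) : ‖u‖ = 1 := by
  rcases hu with rfl | rfl | rfl | rfl <;> simp

theorem Dir.ne {u : ℂ} (hu : Dir u) : u ≠ 0 := by
  intro h
  have := hu.norm
  rw [h, norm_zero] at this
  exact absurd this (by norm_num)

theorem Dir.sup {u : ℂ} (hu : Dir u) (z s : ℂ) :
    sup (s - z) = max |X z u s| |Y z u s| := by
  unfold CircPx838.sup X Y
  set w := s - z with hw
  rcases hu with rfl | rfl | rfl | rfl
  · simp
  · rw [Complex.div_I]
    simp [max_comm]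
  · have : w / (-1) = -w := by ring
    rw [this]
    simp
  · have : w / (-Complex.I) = w * Complex.I := by
      rw [div_neg, Complex.div_I, neg_neg]
    rw [this]
    simp [max_comm]

/-- length of the axis of the strip -/
def len (u zB : ℂ) (hB c0 : ℝ) (z1 : ℂ) : ℝ := ‖z1 - (zB + u * (-hB + Complex.I * c0))‖

/-- direction of the strip (from the window to the core) -/
def dir (u zB : ℂ) (hB c0 : ℝ) (z1 : ℂ) : ℂ :=
  (z1 - (zB + u * (-hB + Complex.I * c0))) / (len u zB hB c0 z1 : ℂ)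

/-- **the strip** from the window `c0` of the side `u` to the core `z1` -/
def strip (u zB : ℂ) (hB c0 : ℝ) (z1 : ℂ) (E et : ℝ) : Rect where
  z := z1
  e := dir u zB hB c0 z1
  x0 := -(len u zB hB c0 z1 + E)
  x1 := 0
  y0 := -et
  y1 := et
  m := et
  hor := true

/-- conditions on the parameters: `hB` half side, `d0` depth of the cores, `l` half length of the
windows, `t0` depth of the deep region, `a2` height of the far region, `r1` half side of the cores,
`et` half width of the strips, `E` length of the outer part of the strips -/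
structure Par (hB d0 l t0 a2 r1 et E : ℝ) : Prop where
  pB : 0 < hB
  pd : 0 < d0
  pa : 0 < a2
  pe : 0 < et
  pr : 0 < r1
  dh : d0 ≤ hB
  et_t0 : et ≤ t0
  et_r1 : 2 * et ≤ r1
  t0_d0 : t0 + 2 * et ≤ d0
  r1_d0 : 2 * r1 + t0 ≤ d0
  E_eq : (a2 + et) * (3 * hB) ≤ d0 * E
  l_t0 : (t0 + et) * (3 * hB) + d0 * et ≤ d0 * l
  l_E : E + 2 * et ≤ l

variable {u zB z1 : ℂ} {hB d0 l t0 a2 r1 et E c0 : ℝ}

theorem Par.E0 (P : Par hB d0 l t0 a2 r1 et E) : 0 < E := by
  have h1 := P.E_eq
  have h2 : 0 < (a2 + et) * (3 * hB) := by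
    have := P.pa; have := P.pe; have := P.pB
    positivity
  by_contra hc
  push Not at hc
  nlinarith [P.pd, P.E_eq]

/-- local coordinates of the strip -/
structure Loc (u zB z1 : ℂ) (hB c0 : ℝ) (al be L : ℝ) : Prop where
  one : al ^ 2 + be ^ 2 = 1
  a : al * L = X zB u z1 + hB
  c : be * L = Y zB u z1 - c0
  x : ∀ s, X zB u s = X zB u z1 + al * X z1 (dir u zB hB c0 z1) s -
    be * Y z1 (dir u zB hB c0 z1) s
  y : ∀ s, Y zB u s = Y zB u z1 + be * X z1 (dir u zB hB c0 z1) s +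
    al * Y z1 (dir u zB hB c0 z1) s

theorem loc (hu : Dir u) (hL : 0 < len u zB hB c0 z1) :
    ‖dir u zB hB c0 z1‖ = 1 ∧
    Loc u zB z1 hB c0 (dir u zB hB c0 z1 / u).re (dir u zB hB c0 z1 / u).im
      (len u zB hB c0 z1) := by
  set L := len u zB hB c0 z1 with hLd
  set e := dir u zB hB c0 z1 with he
  have hLc : (L : ℂ) ≠ 0 := by exact_mod_cast hL.ne'
  have hu0 := hu.ne
  have h1 : e * L = z1 - (zB + u * (-hB + Complex.I * c0)) := by
    rw [he]; unfold dir; rw [← hLd]; field_simp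
  have hn : ‖e‖ = 1 := by
    rw [he]; unfold dir
    rw [norm_div, Complex.norm_real, ← hLd]
    rw [show ‖z1 - (zB + u * (-hB + Complex.I * c0))‖ = L from rfl]
    rw [Real.norm_of_nonneg hL.le, div_self hL.ne']
  have he0 : e ≠ 0 := by
    intro h
    rw [h, norm_zero] at hn
    exact absurd hn (by norm_num)
  have h2 : e / u * L = (z1 - zB) / u + hB - Complex.I * c0 := by
    have : e / u * L = (e * L) / u := by ring
    rw [this, h1]
    field_simp
    ring
  refine ⟨hn, ?_, ?_, ?_, ?_, ?_⟩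
  · have h3 : Complex.normSq (e / u) = 1 := by
      rw [Complex.normSq_eq_norm_sq, norm_div, hn, hu.norm]; norm_num
    rw [Complex.normSq_apply] at h3
    nlinarith
  · have h3 := congrArg Complex.re h2
    simp only [Complex.mul_re, Complex.ofReal_re, Complex.ofReal_im, Complex.sub_re,
      Complex.add_re, Complex.I_re, Complex.I_im] at h3
    unfold X
    linarith
  · have h3 := congrArg Complex.im h2
    simp only [Complex.mul_im, Complex.ofReal_re, Complex.ofReal_im, Complex.sub_im,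
      Complex.add_im, Complex.I_re, Complex.I_im] at h3
    unfold Y
    linarith
  all_goals
    intro s
    have h3 : (s - zB) / u = (z1 - zB) / u + (e / u) * ((s - z1) / e) := by
      field_simp
      ring
  · have h4 := congrArg Complex.re h3
    simp only [Complex.add_re, Complex.mul_re] at h4
    unfold X Y
    linarith
  · have h4 := congrArg Complex.im h3
    simp only [Complex.add_im, Complex.mul_im] at h4
    unfold X Y
    linarith

theorem sup_tri (a b c : ℂ) : sup (a - c) ≤ sup (a - b) + sup (b - c) := by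
  unfold CircPx838.sup
  have h1 := le_max_left |(a - b).re| |(a - b).im|
  have h2 := le_max_right |(a - b).re| |(a - b).im|
  have h3 := le_max_left |(b - c).re| |(b - c).im|
  have h4 := le_max_right |(b - c).re| |(b - c).im|
  have e1 : (a - c).re = (a - b).re + (b - c).re := by simp
  have e2 : (a - c).im = (a - b).im + (b - c).im := by simp
  apply max_le
  · rw [e1]; exact (abs_add_le _ _).trans (by linarith)
  · rw [e2]; exact (abs_add_le _ _).trans (by linarith)

/-- position of window and core -/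
structure Pos (u zB z1 : ℂ) (hB d0 l c0 : ℝ) : Prop where
  dir : Dir u
  core : sup (z1 - zB) ≤ hB - d0
  win : |c0| ≤ hB - l

theorem Pos.xy (Q : Pos u zB z1 hB d0 l c0) :
    |X zB u z1| ≤ hB - d0 ∧ |Y zB u z1| ≤ hB - d0 := by
  have h := Q.core
  rw [Q.dir.sup] at h
  exact max_le_iff.1 h

theorem len_eq (hu : Dir u) :
    len u zB hB c0 z1 = ‖((X zB u z1 + hB : ℝ) : ℂ) + Complex.I * ((Y zB u z1 - c0 : ℝ) : ℂ)‖ := by
  have h1 : z1 - (zB + u * (-hB + Complex.I * c0)) =
      u * (((X zB u z1 + hB : ℝ) : ℂ) + Complex.I * ((Y zB u z1 - c0 : ℝ) : ℂ)) := by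
    have h2 : (z1 - zB) / u = (X zB u z1 : ℂ) + Complex.I * (Y zB u z1 : ℂ) := by
      unfold X Y
      rw [mul_comm]
      exact (Complex.re_add_im _).symm
    have h3 : z1 - zB = u * ((X zB u z1 : ℂ) + Complex.I * (Y zB u z1 : ℂ)) := by
      rw [← h2]
      field_simp [hu.ne]
    push_cast
    linear_combination h3
  unfold len
  rw [h1, norm_mul, hu.norm, one_mul]

theorem len_lo (Q : Pos u zB z1 hB d0 l c0) :
    d0 ≤ len u zB hB c0 z1 := by
  rw [len_eq Q.dir]
  refine le_trans ?_ (Complex.re_le_norm _)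
  simp only [Complex.add_re, Complex.ofReal_re, Complex.mul_re, Complex.I_re, zero_mul,
    Complex.I_im, Complex.ofReal_im, mul_zero, sub_zero, add_zero]
  have := (abs_le.1 Q.xy.1).1
  linarith

theorem len_up (P : Par hB d0 l t0 a2 r1 et E) (hl : 0 ≤ l) (Q : Pos u zB z1 hB d0 l c0) :
    len u zB hB c0 z1 ≤ 3 * hB := by
  rw [len_eq Q.dir]
  have h1 := abs_le.1 Q.xy.1
  have h2 := abs_le.1 Q.xy.2
  have h3 := abs_le.1 Q.win
  have hd := P.pd
  have hB' := P.pB
  set a := X zB u z1 + hB with ha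
  set b := Y zB u z1 - c0 with hb
  have ha1 : 0 ≤ a ∧ a ≤ 2 * hB := ⟨by linarith [h1.1], by linarith [h1.2]⟩
  have hb1 : -(2 * hB) ≤ b ∧ b ≤ 2 * hB := ⟨by linarith [h2.1, h3.2], by linarith [h2.2, h3.1]⟩
  have h4 : ‖((a : ℝ) : ℂ) + Complex.I * ((b : ℝ) : ℂ)‖ ^ 2 = a ^ 2 + b ^ 2 := by
    rw [← Complex.normSq_eq_norm_sq, Complex.normSq_apply]
    simp
    ring
  have h5 : ‖((a : ℝ) : ℂ) + Complex.I * ((b : ℝ) : ℂ)‖ ^ 2 ≤ (3 * hB) ^ 2 := by
    rw [h4]
    nlinarith [mul_nonneg ha1.1 (sub_nonneg.2 ha1.2), mul_nonneg (sub_nonneg.2 hb1.2)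
      (by linarith [hb1.1] : 0 ≤ b + 2 * hB)]
  exact le_of_sq_le_sq h5 (by positivity)

/-- **the parameters exist**: the depth `t0` of the deep region and the height `a2` of the far region
are at most `d0 * l / (32 * hB)`; they do not depend on the size of the tiles -/
theorem par_ex (h1 : 0 < hB) (h2 : 0 < d0) (h3 : d0 ≤ hB) (h4 : 0 < l) (h5 : l ≤ hB) (h6 : 0 < t0)
    (h7 : 0 < a2) (h8 : 32 * hB * t0 ≤ d0 * l) (h9 : 32 * hB * a2 ≤ d0 * l) :
    Par hB d0 l t0 a2 (d0 / 4) t0 ((a2 + t0) * (3 * hB) / d0) := by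
  have i1 : 32 * t0 ≤ d0 := by
    have : 32 * t0 * hB ≤ d0 * hB := by nlinarith
    exact le_of_mul_le_mul_right this h1
  have i2 : 32 * t0 ≤ l := by
    have : 32 * t0 * hB ≤ l * hB := by nlinarith
    exact le_of_mul_le_mul_right this h1
  have i3 : (a2 + t0) * (3 * hB) / d0 ≤ l / 2 := by
    rw [div_le_iff₀ h2]
    nlinarith
  refine ⟨h1, h2, h7, h6, by linarith, h3, le_rfl, by linarith, by linarith, by linarith, ?_, ?_, ?_⟩
  · rw [mul_div_cancel₀ _ h2.ne']
  · nlinarith
  · linarith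

theorem Par.l0 (P : Par hB d0 l t0 a2 r1 et E) : 3 * (t0 + et) ≤ l := by
  have h1 := P.l_t0
  have h2 := P.dh
  have h3 := P.pd
  have h4 := P.pe
  have h5 := P.et_t0
  have h6 : d0 * (3 * (t0 + et)) ≤ d0 * l := by
    nlinarith [mul_le_mul_of_nonneg_left h2 (by linarith : (0:ℝ) ≤ 3 * (t0 + et))]
  exact le_of_mul_le_mul_left h6 h3

/-- all numbers of a strip -/
structure Num (u zB z1 : ℂ) (hB d0 c0 : ℝ) (al be L : ℝ) : Prop where
  loc : Loc u zB z1 hB c0 al be L
  n1 : ‖dir u zB hB c0 z1‖ = 1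
  lo : d0 ≤ L
  up : L ≤ 3 * hB
  al0 : 0 < al
  al1 : al ≤ 1
  be1 : |be| ≤ 1
  al3 : d0 ≤ al * (3 * hB)

theorem num (P : Par hB d0 l t0 a2 r1 et E) (Q : Pos u zB z1 hB d0 l c0) :
    ∃ al be, Num u zB z1 hB d0 c0 al be (len u zB hB c0 z1) := by
  have hd := P.pd
  have hl := P.l0
  have hl0 : 0 ≤ l := by linarith [P.pe, P.et_t0]
  have h1 := len_lo Q
  have h2 := len_up P hl0 Q
  obtain ⟨hn, hL⟩ := loc (zB := zB) (hB := hB) (c0 := c0) (z1 := z1) Q.dir (by linarith)
  refine ⟨_, _, hL, hn, h1, h2, ?_, ?_, ?_, ?_⟩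
  · have h3 := hL.a
    have h4 := (abs_le.1 Q.xy.1).1
    by_contra hc
    push Not at hc
    nlinarith
  · nlinarith [hL.one]
  · rw [abs_le]
    constructor <;> nlinarith [hL.one]
  · have h3 := hL.a
    have h4 := (abs_le.1 Q.xy.1).1
    have h5 : 0 < (dir u zB hB c0 z1 / u).re := by
      by_contra hc
      push Not at hc
      nlinarith
    nlinarith

variable {al be L : ℝ}

/-- region of the strip in its coordinates -/
theorem reg_iff {s : ℂ} : (strip u zB hB c0 z1 E et).Reg s ↔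
    (-et < Y z1 (dir u zB hB c0 z1) s ∧ Y z1 (dir u zB hB c0 z1) s < et) ∧
    -(len u zB hB c0 z1 + E) - et ≤ X z1 (dir u zB hB c0 z1) s ∧
    X z1 (dir u zB hB c0 z1) s ≤ 0 + et := by
  unfold Rect.Reg strip
  simp

theorem abs_mul_le {x y r : ℝ} (hx : |x| ≤ 1) (hy : |y| ≤ r) : |x * y| ≤ r := by
  rw [abs_mul]
  calc |x| * |y| ≤ 1 * |y| := mul_le_mul_of_nonneg_right hx (abs_nonneg _)
    _ ≤ r := by linarith

/-- **inner end** -/
theorem strip_inn (P : Par hB d0 l t0 a2 r1 et E) (Q : Pos u zB z1 hB d0 l c0) {s : ℂ}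
    (hs : (strip u zB hB c0 z1 E et).Reg s) (hi : Rect.Inn (strip u zB hB c0 z1 E et) s) :
    sup (s - z1) ≤ r1 := by
  obtain ⟨al, be, N⟩ := num P Q
  rw [reg_iff] at hs
  have hi' : 0 ≤ X z1 (dir u zB hB c0 z1) s := by
    unfold Rect.Inn strip at hi
    simpa using hi
  have h1 : ‖(s - z1) / dir u zB hB c0 z1‖ ≤ |X z1 (dir u zB hB c0 z1) s| +
      |Y z1 (dir u zB hB c0 z1) s| := Complex.norm_le_abs_re_add_abs_im _
  rw [norm_div, N.n1, div_one] at h1
  have h2 : |X z1 (dir u zB hB c0 z1) s| ≤ et := abs_le.2 ⟨by linarith [P.pe], by linarith [hs.2.2]⟩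
  have h3 : |Y z1 (dir u zB hB c0 z1) s| ≤ et := abs_le.2 ⟨by linarith [hs.1.1], by linarith [hs.1.2]⟩
  have h4 := sup_le_norm (s - z1)
  linarith [P.et_r1]

/-- **outer end** -/
theorem strip_out (P : Par hB d0 l t0 a2 r1 et E) (Q : Pos u zB z1 hB d0 l c0) {s : ℂ}
    (hs : (strip u zB hB c0 z1 E et).Reg s) (ho : Rect.Out (strip u zB hB c0 z1 E et) s) :
    2 * r1 ≤ sup (s - z1) ∧ hB + a2 ≤ sup (s - zB) := by
  obtain ⟨al, be, N⟩ := num P Q
  rw [reg_iff] at hs
  have ho' : X z1 (dir u zB hB c0 z1) s ≤ -(len u zB hB c0 z1 + E) := by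
    unfold Rect.Out strip at ho
    simpa using ho
  set ξ := X z1 (dir u zB hB c0 z1) s with hξ
  set ζ := Y z1 (dir u zB hB c0 z1) s with hζ
  set L := len u zB hB c0 z1 with hL
  have hx : X zB u s = X zB u z1 + al * ξ - be * ζ := N.loc.x s
  have hz : |ζ| ≤ et := abs_le.2 ⟨by linarith [hs.1.1], by linarith [hs.1.2]⟩
  have hbz := abs_le.1 (abs_mul_le N.be1 hz)
  have haL := N.loc.a
  have hE : a2 + et ≤ al * E := by
    have h1 : (a2 + et) * (3 * hB) ≤ (al * E) * (3 * hB) := by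
      have h2 := P.E_eq
      have h3 := mul_le_mul_of_nonneg_right N.al3 P.E0.le
      nlinarith
    exact le_of_mul_le_mul_right h1 (by linarith [P.pB])
  have h5 : al * ξ ≤ al * (-(L + E)) := mul_le_mul_of_nonneg_left ho' N.al0.le
  have hxs : X zB u s ≤ -(hB + a2) := by
    rw [hx]
    nlinarith [hbz.1, hbz.2]
  constructor
  · have h6 : sup (s - z1) = max |X z1 u s| |Y z1 u s| := Q.dir.sup z1 s
    have h7 : X z1 u s = X zB u s - X zB u z1 := by
      unfold X
      rw [← Complex.sub_re]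
      congr 1
      ring
    have h8 := (abs_le.1 Q.xy.1).1
    rw [h6]
    refine le_trans ?_ (le_max_left _ _)
    rw [h7]
    refine le_trans ?_ (neg_le_abs _)
    linarith [P.r1_d0, P.et_t0, P.pe, P.pa]
  · rw [Q.dir.sup]
    refine le_trans ?_ (le_max_left _ _)
    refine le_trans ?_ (neg_le_abs _)
    linarith

/-- the sector over the window -/
def Sec (u zB : ℂ) (hB t0 c0 l : ℝ) (s : ℂ) : Prop :=
  X zB u s < -(hB - t0) ∧ |Y zB u s - c0| ≤ l

/-- **the strip is in the sector or deep** -/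
theorem strip_reg (P : Par hB d0 l t0 a2 r1 et E) (Q : Pos u zB z1 hB d0 l c0) {s : ℂ}
    (hs : (strip u zB hB c0 z1 E et).Reg s) :
    Sec u zB hB t0 c0 l s ∨ sup (s - zB) ≤ hB - t0 := by
  obtain ⟨al, be, N⟩ := num P Q
  rw [reg_iff] at hs
  set ξ := X z1 (dir u zB hB c0 z1) s with hξ
  set ζ := Y z1 (dir u zB hB c0 z1) s with hζ
  set L := len u zB hB c0 z1 with hL
  have hx : X zB u s = X zB u z1 + al * ξ - be * ζ := N.loc.x s
  have hy : Y zB u s = Y zB u z1 + be * ξ + al * ζ := N.loc.y s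
  have hz : |ζ| ≤ et := abs_le.2 ⟨by linarith [hs.1.1], by linarith [hs.1.2]⟩
  have hbz := abs_le.1 (abs_mul_le N.be1 hz)
  have haz := abs_le.1 (abs_mul_le (x := al) (abs_le.2 ⟨by linarith [N.al0], N.al1⟩) hz)
  have haL := N.loc.a
  have hcL := N.loc.c
  have hB0 := P.pB
  have hd0 := P.pd
  have he0 := P.pe
  have het := P.et_t0
  have hl0 := P.l0
  by_cases hc : X zB u s < -(hB - t0)
  · left
    refine ⟨hc, ?_⟩
    have e1 : Y zB u s - c0 = be * (L + ξ) + al * ζ := by linear_combination hy - hcL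
    have e2 : al * (L + ξ) = X zB u s + hB + be * ζ := by linear_combination haL - hx
    have h1 : al * (L + ξ) ≤ t0 + et := by linarith only [hbz.2, e2, hc]
    have h2 : |L + ξ| ≤ l - et := by
      rw [abs_le]
      constructor
      · linarith only [P.l_E, hs.2.1]
      · by_contra hcon
        push Not at hcon
        have h3 : 0 < L + ξ := by linarith only [hcon, hl0, het, he0]
        have h4 : d0 * (L + ξ) ≤ (t0 + et) * (3 * hB) := by
          have h5 := mul_le_mul_of_nonneg_right N.al3 h3.le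
          have h6 := mul_le_mul_of_nonneg_right h1 (by linarith only [hB0] : (0:ℝ) ≤ 3 * hB)
          linarith only [h5, h6]
        have h6 := P.l_t0
        have h7 := mul_lt_mul_of_pos_left hcon hd0
        linarith only [h4, h6, h7]
    rw [e1]
    have h7 := abs_mul_le N.be1 h2
    refine (abs_add_le _ _).trans ?_
    have h8 : |al * ζ| ≤ et := abs_le.2 haz
    linarith only [h7, h8]
  · right
    push Not at hc
    rw [Q.dir.sup]
    have hq1 := abs_le.1 Q.xy.1
    have hq2 := abs_le.1 Q.xy.2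
    have hq3 := abs_le.1 Q.win
    have htd := P.t0_d0
    have hξ2 : ξ ≤ et := by linarith only [hs.2.2]
    have hal0 := N.al0
    have hal1 := N.al1
    have hξ1 : al * ξ ≤ et := by
      rcases le_total ξ 0 with h | h
      · have : al * ξ ≤ 0 := mul_nonpos_of_nonneg_of_nonpos hal0.le h
        linarith only [this, he0]
      · have : al * ξ ≤ 1 * ξ := mul_le_mul_of_nonneg_right hal1 h
        linarith only [this, hξ2]
    have hτ : 0 ≤ L + ξ := by
      have h1 : 0 ≤ al * (L + ξ) := by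
        have : al * (L + ξ) = X zB u s + hB + be * ζ := by linear_combination haL - hx
        linarith only [hbz.1, this, hc, het]
      exact le_of_mul_le_mul_left (by linarith only [h1]) hal0
    apply max_le
    · rw [abs_le]
      exact ⟨hc, by linarith only [hx, hξ1, hbz.1, hq1.2, htd]⟩
    · -- tangential coordinate
      have e1 : Y zB u s = c0 + be * (L + ξ) + al * ζ := by linear_combination hy - hcL
      have hL0 : 0 < L := by linarith only [N.lo, hd0]
      have g1 : c0 ≤ hB - t0 - et := by linarith only [hq3.2, hl0, het, he0]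
      have g2 : -(hB - t0 - et) ≤ c0 := by linarith only [hq3.1, hl0, het, he0]
      have g3 : Y zB u z1 ≤ hB - t0 - et := by linarith only [hq2.2, htd, he0]
      have g4 : -(hB - t0 - et) ≤ Y zB u z1 := by linarith only [hq2.1, htd, he0]
      rcases le_total ξ 0 with h | h
      · -- between window and core
        have h0 : 0 ≤ -ξ := by linarith only [h]
        have h1 : L * (c0 + be * (L + ξ)) = c0 * (-ξ) + Y zB u z1 * (L + ξ) := by
          linear_combination (L + ξ) * hcL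
        have h2 : c0 + be * (L + ξ) ≤ hB - t0 - et := by
          have : L * (c0 + be * (L + ξ)) ≤ L * (hB - t0 - et) := by
            rw [h1]
            have a1 := mul_le_mul_of_nonneg_right g1 h0
            have a2 := mul_le_mul_of_nonneg_right g3 hτ
            linarith only [a1, a2]
          exact le_of_mul_le_mul_left this hL0
        have h3 : -(hB - t0 - et) ≤ c0 + be * (L + ξ) := by
          have : L * (-(hB - t0 - et)) ≤ L * (c0 + be * (L + ξ)) := by
            rw [h1]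
            have a1 := mul_le_mul_of_nonneg_right g2 h0
            have a2 := mul_le_mul_of_nonneg_right g4 hτ
            linarith only [a1, a2]
          exact le_of_mul_le_mul_left this hL0
        rw [abs_le, e1]
        exact ⟨by linarith only [haz.1, h3], by linarith only [haz.2, h2]⟩
      · -- beyond the core
        have h1 : |ξ| ≤ et := abs_le.2 ⟨by linarith only [h, he0], hξ2⟩
        have h2 := abs_le.1 (abs_mul_le N.be1 h1)
        rw [abs_le, hy]
        exact ⟨by linarith only [haz.1, htd, h2.1, hq2.1], by linarith only [haz.2, htd, h2.2, hq2.2]⟩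

/-- **the circuit square is deep** -/
theorem core_dp (P : Par hB d0 l t0 a2 r1 et E) (Q : Pos u zB z1 hB d0 l c0) {s : ℂ}
    (hs : sup (s - z1) < 2 * r1) : sup (s - zB) ≤ hB - t0 := by
  have h1 := sup_tri s z1 zB
  linarith [Q.core, P.r1_d0]

/-- the sites of the strip are near the square -/
theorem strip_sup (P : Par hB d0 l t0 a2 r1 et E) (Q : Pos u zB z1 hB d0 l c0) {s : ℂ}
    (hs : (strip u zB hB c0 z1 E et).Reg s) : sup (s - zB) ≤ hB + l := by
  have hl0 := P.l0
  have he0 := P.pe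
  have het := P.et_t0
  rcases strip_reg P Q hs with h | h
  · obtain ⟨al, be, N⟩ := num P Q
    rw [reg_iff] at hs
    have hx := N.loc.x s
    have haL := N.loc.a
    have hz : |Y z1 (dir u zB hB c0 z1) s| ≤ et :=
      abs_le.2 ⟨by linarith [hs.1.1], by linarith [hs.1.2]⟩
    have hbz := abs_le.1 (abs_mul_le N.be1 hz)
    have h1 : -(E + et) ≤ al * (len u zB hB c0 z1 + X z1 (dir u zB hB c0 z1) s) := by
      have h2 : -(E + et) ≤ len u zB hB c0 z1 + X z1 (dir u zB hB c0 z1) s := by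
        linarith only [hs.2.1]
      rcases le_total 0 (len u zB hB c0 z1 + X z1 (dir u zB hB c0 z1) s) with h3 | h3
      · have := mul_nonneg N.al0.le h3
        linarith only [this, P.E0, he0]
      · have := mul_le_mul_of_nonpos_right N.al1 h3
        linarith only [this, h2]
    have h3 := abs_le.1 h.2
    have h4 := abs_le.1 Q.win
    rw [Q.dir.sup]
    apply max_le
    · rw [abs_le]
      exact ⟨by linarith only [hx, haL, h1, hbz.2, P.l_E], by linarith only [h.1, P.pB, hl0, het, he0]⟩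
    · rw [abs_le]
      exact ⟨by linarith only [h3.1, h4.1, hl0, het, he0],
        by linarith only [h3.2, h4.2, hl0, het, he0]⟩
  · linarith only [h, hl0, het, he0]

/-- **the geometric hypotheses of `Meetx707`** -/
theorem geo {S V : Finset ℂ} {C : Type} {σ : ℂ → C} {G : Rg (D0 S) C}
    (P : Par hB d0 l t0 a2 r1 et E) (Q : Pos u zB z1 hB d0 l c0)
    (hF : cel S σ (fun s => hB + a2 ≤ sup (s - zB)) ⊆ G.Far)
    (hT : cel S σ (Sec u zB hB t0 c0 l) ⊆ G.Th)
    (hD : cel S σ (fun s => sup (s - zB) ≤ hB - t0) ⊆ G.Dp) (hV : V ⊆ S)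
    (hVi : ∀ s ∈ V, ¬ OnHull S s) :
    Geo S V σ G z1 zB r1 (hB + a2) (strip u zB hB c0 z1 E et) where
  far := hF
  td s hs h := by
    rcases strip_reg P Q h with h1 | h1
    · exact Or.inl (hT ⟨s, hV hs, hVi s hs, h1, rfl⟩)
    · exact Or.inr (hD ⟨s, hV hs, hVi s hs, h1, rfl⟩)
  dp := (cel_mono fun s _ _ h => core_dp P Q h).trans hD
  out s _ h h' := strip_out P Q h h'
  inn s _ h h' := strip_inn P Q h h'

/-- shape of the strips at the scale `r1` -/
theorem strip_fit (P : Par hB d0 l t0 a2 r1 et E) (Q : Pos u zB z1 hB d0 l c0) {k : ℝ}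
    (h1 : 3 * hB + l ≤ k * r1) (h2 : r1 ≤ k * et) (hk : 1 ≤ k) :
    (strip u zB hB c0 z1 E et).Fit k r1 := by
  obtain ⟨al, be, N⟩ := num P Q
  have hE := P.E0
  have he0 := P.pe
  have hr := P.pr
  have hl := P.l_E
  have hlo := N.lo
  have hup := N.up
  have hd := P.pd
  have h3 := P.r1_d0
  have h4 := P.et_t0
  have h5 := P.et_r1
  have h6 : r1 ≤ k * r1 := by nlinarith
  refine ⟨N.n1, ?_, ?_, ?_, ?_, ?_, ?_, ?_⟩
  · show |-(len u zB hB c0 z1 + E)| ≤ k * r1
    rw [abs_neg, abs_of_nonneg (by linarith)]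
    linarith
  · show |(0:ℝ)| ≤ k * r1
    rw [abs_zero]; linarith
  · show |-et| ≤ k * r1
    rw [abs_neg, abs_of_pos he0]; linarith
  · show |et| ≤ k * r1
    rw [abs_of_pos he0]; linarith
  · show r1 ≤ k * (0 - -(len u zB hB c0 z1 + E))
    have : len u zB hB c0 z1 + E ≤ k * (len u zB hB c0 z1 + E) := by nlinarith
    linarith
  · show r1 ≤ k * (et - -et)
    have : 0 ≤ k * et := by positivity
    linarith
  · show et - -et ≤ 2 * r1 ∧ (et - -et) / 2 ≤ et
    exact ⟨by linarith, by linarith⟩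

/-- **probability of the tube events, the same constants for all windows and cores** -/
theorem strip_pr (hRB : RBm) (P : Par hB d0 l t0 a2 r1 et E) : ∀ C4 : ℝ, 0 ≤ C4 →
    ∃ p c1 c2 K : ℝ, 0 < p ∧ 0 < c1 ∧ 0 < c2 ∧ c2 ≤ 1 ∧ 0 < K ∧
    ∀ (S : Finset ℂ) (z0 : ℂ) (R d : ℝ), NvA S z0 R c2 r1 d C4 → d ≤ c1 * r1 →
    ∀ V : Finset ℂ, V ⊆ S → ∀ u zB z1 : ℂ, ∀ c0 : ℝ, Pos u zB z1 hB d0 l c0 →
    ‖z1 - z0‖ + K * r1 ≤ R → (∀ s ∈ S, sup (s - zB) ≤ hB + l → s ∈ V) →
    p ≤ pr V (TW S V z1 r1 (strip u zB hB c0 z1 E et)) := by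
  intro C4 hC4
  have he0 := P.pe
  have hr := P.pr
  have hl0 := P.l0
  have het := P.et_t0
  set k : ℝ := 1 + (3 * hB + l) / r1 + r1 / et with hk
  have hB0 := P.pB
  have hl : 0 < l := by linarith
  have k1 : 1 ≤ k := by
    have h1 : 0 ≤ (3 * hB + l) / r1 := by positivity
    have h2 : 0 ≤ r1 / et := by positivity
    linarith
  have k2 : 3 * hB + l ≤ k * r1 := by
    have h1 : (3 * hB + l) / r1 * r1 = 3 * hB + l := by field_simp
    have h2 : 0 ≤ r1 / et * r1 := by positivity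
    have : k * r1 = r1 + (3 * hB + l) / r1 * r1 + r1 / et * r1 := by rw [hk]; ring
    linarith
  have k3 : r1 ≤ k * et := by
    have h1 : r1 / et * et = r1 := by field_simp
    have h2 : 0 ≤ (3 * hB + l) / r1 * et := by positivity
    have : k * et = et + (3 * hB + l) / r1 * et + r1 / et * et := by rw [hk]; ring
    linarith
  obtain ⟨p, c1, c2, K, hp, hc1, hc2, hc2', hK, H⟩ := tube_pr hRB k k1 C4 hC4
  refine ⟨p, c1, c2, K, hp, hc1, hc2, hc2', hK, ?_⟩
  intro S z0 R d hN hd V hV u zB z1 c0 Q hR hVs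
  refine H S z0 R r1 d hr hN hd V hV z1 r1 _ (by nlinarith) le_rfl hR hR (strip_fit P Q k2 k3 k1)
    (fun s hs _ h => hVs s hs ?_) (fun s hs h => hVs s hs (strip_sup P Q h))
  have h1 := core_dp P Q h
  linarith

/-! ### finitely many cores -/

/-- the centres of the cores -/
def cores (zB : ℂ) (H r : ℝ) : Finset ℂ :=
  ((Finset.Icc (-⌊H / r⌋) ⌊H / r⌋) ×ˢ (Finset.Icc (-⌊H / r⌋) ⌊H / r⌋)).image fun j =>
    zB + (((j.1 : ℝ) * r : ℝ) : ℂ) + Complex.I * (((j.2 : ℝ) * r : ℝ) : ℂ)

theorem grid1 {t H r : ℝ} (hr : 0 < r) (ht : |t| ≤ H) :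
    ∃ j : ℤ, -⌊H / r⌋ ≤ j ∧ j ≤ ⌊H / r⌋ ∧ |t - j * r| ≤ r := by
  obtain ⟨h1, h2⟩ := abs_le.1 ht
  rcases le_total 0 t with h | h
  · refine ⟨⌊t / r⌋, ?_, Int.floor_le_floor (by gcongr), ?_⟩
    · have h3 : 0 ≤ ⌊t / r⌋ := Int.floor_nonneg.2 (by positivity)
      have h4 : 0 ≤ ⌊H / r⌋ := Int.floor_nonneg.2 (div_nonneg (by linarith) hr.le)
      omega
    · have h3 := Int.floor_le (t / r)
      have h4 := Int.lt_floor_add_one (t / r)
      rw [le_div_iff₀ hr] at h3
      rw [div_lt_iff₀ hr] at h4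
      rw [abs_le]
      constructor
      · linarith
      · linarith
  · refine ⟨-⌊(-t) / r⌋, ?_, ?_, ?_⟩
    · have : ⌊(-t) / r⌋ ≤ ⌊H / r⌋ := Int.floor_le_floor (by gcongr; linarith)
      omega
    · have h3 : 0 ≤ ⌊(-t) / r⌋ := Int.floor_nonneg.2 (div_nonneg (by linarith) hr.le)
      have h4 : 0 ≤ ⌊H / r⌋ := Int.floor_nonneg.2 (div_nonneg (by linarith) hr.le)
      omega
    · have h3 := Int.floor_le ((-t) / r)
      have h4 := Int.lt_floor_add_one ((-t) / r)
      rw [le_div_iff₀ hr] at h3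
      rw [div_lt_iff₀ hr] at h4
      push_cast
      rw [abs_le]
      constructor
      · linarith
      · linarith

/-- **the cores are in the square and cover it** -/
theorem core_cover {H r : ℝ} (hH : 0 ≤ H) (hr : 0 < r) (zB : ℂ) :
    (∀ z ∈ cores zB H r, sup (z - zB) ≤ H) ∧
    (∀ s : ℂ, sup (s - zB) ≤ H → ∃ z ∈ cores zB H r, sup (s - z) ≤ r) ∧
    ((cores zB H r).card : ℝ) ≤ (2 * (H / r) + 1) ^ 2 := by
  have hN : 0 ≤ ⌊H / r⌋ := Int.floor_nonneg.2 (by positivity)
  have hNr : (⌊H / r⌋ : ℝ) * r ≤ H := by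
    have := Int.floor_le (H / r)
    rwa [le_div_iff₀ hr] at this
  have key : ∀ j : ℤ, -⌊H / r⌋ ≤ j → j ≤ ⌊H / r⌋ → |(j : ℝ) * r| ≤ H := by
    intro j h1 h2
    have h1' : -(⌊H / r⌋ : ℝ) ≤ j := by exact_mod_cast h1
    have h2' : (j : ℝ) ≤ ⌊H / r⌋ := by exact_mod_cast h2
    have h3 := mul_le_mul_of_nonneg_right h1' hr.le
    have h4 := mul_le_mul_of_nonneg_right h2' hr.le
    rw [abs_le]
    constructor <;> linarith
  refine ⟨?_, ?_, ?_⟩
  · intro z hz
    obtain ⟨⟨j, k⟩, hjk, rfl⟩ := Finset.mem_image.1 hz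
    obtain ⟨h1, h2⟩ := Finset.mem_product.1 hjk
    rw [Finset.mem_Icc] at h1 h2
    unfold CircPx838.sup
    apply max_le
    · have : (zB + (((j : ℝ) * r : ℝ) : ℂ) + Complex.I * (((k : ℝ) * r : ℝ) : ℂ) - zB).re =
          (j : ℝ) * r := by simp
      rw [this]
      exact key j h1.1 h1.2
    · have : (zB + (((j : ℝ) * r : ℝ) : ℂ) + Complex.I * (((k : ℝ) * r : ℝ) : ℂ) - zB).im =
          (k : ℝ) * r := by simp
      rw [this]
      exact key k h2.1 h2.2
  · intro s hs
    unfold CircPx838.sup at hs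
    obtain ⟨h1, h2⟩ := max_le_iff.1 hs
    obtain ⟨j, j1, j2, j3⟩ := grid1 hr h1
    obtain ⟨k, k1, k2, k3⟩ := grid1 hr h2
    refine ⟨_, Finset.mem_image.2 ⟨(j, k), Finset.mem_product.2 ⟨Finset.mem_Icc.2 ⟨j1, j2⟩,
      Finset.mem_Icc.2 ⟨k1, k2⟩⟩, rfl⟩, ?_⟩
    unfold CircPx838.sup
    apply max_le
    · have : (s - (zB + (((j : ℝ) * r : ℝ) : ℂ) + Complex.I * (((k : ℝ) * r : ℝ) : ℂ))).re =
          (s - zB).re - j * r := by simp; ring
      show |(s - (zB + (((j : ℝ) * r : ℝ) : ℂ) + Complex.I * (((k : ℝ) * r : ℝ) : ℂ))).re| ≤ r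
      rw [this]; exact j3
    · have : (s - (zB + (((j : ℝ) * r : ℝ) : ℂ) + Complex.I * (((k : ℝ) * r : ℝ) : ℂ))).im =
          (s - zB).im - k * r := by simp; ring
      show |(s - (zB + (((j : ℝ) * r : ℝ) : ℂ) + Complex.I * (((k : ℝ) * r : ℝ) : ℂ))).im| ≤ r
      rw [this]; exact k3
  · have h1 : (cores zB H r).card ≤ ((Finset.Icc (-⌊H / r⌋) ⌊H / r⌋) ×ˢ
        (Finset.Icc (-⌊H / r⌋) ⌊H / r⌋)).card := Finset.card_image_le
    rw [Finset.card_product, Int.card_Icc] at h1
    have h2 : ((⌊H / r⌋ + 1 - -⌊H / r⌋).toNat : ℝ) = 2 * (⌊H / r⌋ : ℝ) + 1 := by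
      have : ((⌊H / r⌋ + 1 - -⌊H / r⌋).toNat : ℤ) = 2 * ⌊H / r⌋ + 1 := by
        rw [Int.toNat_of_nonneg (by omega)]; ring
      exact_mod_cast this
    have h3 : ((cores zB H r).card : ℝ) ≤ (2 * (⌊H / r⌋ : ℝ) + 1) * (2 * (⌊H / r⌋ : ℝ) + 1) := by
      rw [← h2]
      exact_mod_cast h1
    refine h3.trans ?_
    have h4 : (⌊H / r⌋ : ℝ) ≤ H / r := Int.floor_le _
    have h5 : (0 : ℝ) ≤ ⌊H / r⌋ := by exact_mod_cast hN
    nlinarith

end Crest.Agent.R143.Stripx707
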