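import Crest.Agent.R143.RingC_312
import Crest.Agent.R143.Strip_707

/-!
# Row 143 (S0194), block H: the tiles of the square in 707's coordinates (helper503)

`W a = sqW K a + v`, `zB = zc h K v`, half side `h K / 2`. Side `r : Fin 4` : inner normal `us r`
(`1, -I, -1, I`), `bi K r a = (a - r K) mod 4 K` (index from the first corner of the side `r`).
* `X_cen`, `Y_cen` : the centres of the tiles in the frame of the side `r`
* `rr_ball` : `RR A B h W a` is in the square of half side `B` with centre `cen h W a`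
* **`tile_sec`** : a tile which meets the sector `X < -(hB - t0)`, `y0 ≤ Y + hB ≤ y1` is on the side
  `r`, `y0 - B < h (bi K r a) < y1 + B`
* `tile_sup` : the tiles are in `hB - A < sup (z - zB) < hB + A`
-/

set_option autoImplicit false

noncomputable section

open scoped Classical

namespace Crest.Agent.R143.SqGx503

open Crest.Agent.R143.ToolWx838 Crest.Agent.R143.CircPx838
open Crest.Agent.R143.Gatex838 (X Y)
open Crest.Agent.R143.TileRx228 Crest.Agent.R143.SqPx503 Crest.Agent.R143.RingBx312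
open Crest.Agent.R143.RingCx312 (zc)
open Crest.Agent.R143.Stripx707 (Dir Sec)

/-- inner normal of the side `r` -/
def us (r : Fin 4) : ℂ := match r with
  | 0 => 1
  | 1 => -Complex.I
  | 2 => -1
  | 3 => Complex.I

theorem dir_us (r : Fin 4) : Dir (us r) := by
  fin_cases r
  · exact Or.inl rfl
  · exact Or.inr (Or.inr (Or.inr rfl))
  · exact Or.inr (Or.inr (Or.inl rfl))
  · exact Or.inr (Or.inl rfl)

/-- index from the first corner of the side `r` -/
def bi (K : ℕ) (r : Fin 4) (a : ℤ) : ℤ := (a - (r : ℕ) * K) % (4 * K)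

theorem bi_rng {K : ℕ} (hK : 1 ≤ K) (r : Fin 4) (a : ℤ) : 0 ≤ bi K r a ∧ bi K r a < 4 * K :=
  ⟨Int.emod_nonneg _ (by omega), Int.emod_lt_of_pos _ (by omega)⟩

theorem XY_us (r : Fin 4) (z s : ℂ) :
    X z (us r) s = (match r with
      | 0 => (s - z).re | 1 => -(s - z).im | 2 => -(s - z).re | 3 => (s - z).im) ∧
    Y z (us r) s = (match r with
      | 0 => (s - z).im | 1 => (s - z).re | 2 => -(s - z).im | 3 => -(s - z).re) := by
  unfold X Y
  fin_cases r <;> simp only [us]
  · simp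
  · rw [div_neg, Complex.div_I, neg_neg]; simp
  · rw [div_neg, div_one]; simp
  · rw [Complex.div_I]; simp

variable {h A B : ℝ} {K : ℕ} {v : ℤ × ℤ} {W : ℤ → ℤ × ℤ}

theorem sq0_rot {K : ℤ} (hK : 1 ≤ K) {r a b : ℤ} (hr : r = 0 ∨ r = 1 ∨ r = 2 ∨ r = 3)
    (ha0 : 0 ≤ a) (ha1 : a < 4 * K) (hb0 : 0 ≤ b) (hb1 : b < 4 * K) (q : ℤ)
    (e : a - r * K = b + 4 * K * q) :
    (r = 0 → sq0 K a = sq0 K b) ∧
    (r = 1 → sq0 K a = ((sq0 K b).2, K - (sq0 K b).1)) ∧
    (r = 2 → sq0 K a = (K - (sq0 K b).1, K - (sq0 K b).2)) ∧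
    (r = 3 → sq0 K a = (K - (sq0 K b).2, (sq0 K b).1)) := by
  have hq : q = 0 ∨ q = -1 := by
    rcases lt_trichotomy q 0 with h1 | h1 | h1
    · rcases lt_trichotomy q (-1) with h2 | h2 | h2
      · exfalso
        have : 4 * K * q ≤ 4 * K * (-2) := mul_le_mul_of_nonneg_left (by omega) (by omega)
        rcases hr with rfl | rfl | rfl | rfl <;> omega
      · exact Or.inr h2
      · omega
    · exact Or.inl h1
    · exfalso
      have : 4 * K * 1 ≤ 4 * K * q := mul_le_mul_of_nonneg_left (by omega) (by omega)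
      rcases hr with rfl | rfl | rfl | rfl <;> omega
  refine ⟨fun h => ?_, fun h => ?_, fun h => ?_, fun h => ?_⟩ <;> subst h <;>
    rcases hq with rfl | rfl
  all_goals
    unfold sq0
    split_ifs <;> refine Prod.ext ?_ ?_ <;> dsimp only <;> omega

/-- **the centres of the tiles in the frame of the side `r`** -/
theorem cen_frame (hK : 1 ≤ K) (hW : ∀ a, W a = sqW K a + v) (r : Fin 4) (a : ℤ) :
    X (zc h K v) (us r) (cen h W a) = h * (sq0 K (bi K r a)).1 - h * K / 2 ∧
    Y (zc h K v) (us r) (cen h W a) = h * (sq0 K (bi K r a)).2 - h * K / 2 := by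
  have hK' : (1 : ℤ) ≤ K := by exact_mod_cast hK
  have a0 := Int.emod_nonneg a (show (4 * K : ℤ) ≠ 0 by omega)
  have a1 := Int.emod_lt_of_pos a (show (0 : ℤ) < 4 * K by omega)
  obtain ⟨b0, b1⟩ := bi_rng hK r a
  -- the two residues
  obtain ⟨q, hq⟩ : ∃ q : ℤ, a % (4 * K) - (r : ℕ) * K = bi K r a + 4 * K * q := by
    have e1 := Int.emod_add_mul_ediv a (4 * K)
    have e2 := Int.emod_add_mul_ediv (a - (r : ℕ) * K) (4 * K)
    refine ⟨(a - (r : ℕ) * K) / (4 * K) - a / (4 * K), ?_⟩
    unfold bi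
    rw [mul_sub]
    linarith
  have hr : ((r : ℕ) : ℤ) = 0 ∨ ((r : ℕ) : ℤ) = 1 ∨ ((r : ℕ) : ℤ) = 2 ∨ ((r : ℕ) : ℤ) = 3 := by
    have := r.2
    omega
  obtain ⟨k0, k1, k2, k3⟩ := sq0_rot hK' hr a0 a1 b0 b1 q hq
  have e1 : (W a).1 = (sq0 K (a % (4 * K))).1 + v.1 := by rw [hW]; rfl
  have e2 : (W a).2 = (sq0 K (a % (4 * K))).2 + v.2 := by rw [hW]; rfl
  obtain ⟨x1, x2⟩ := XY_us r (zc h K v) (cen h W a)
  rw [x1, x2]
  have z1 : (zc h K v).re = h * (v.1 + K / 2) := rfl
  have z2 : (zc h K v).im = h * (v.2 + K / 2) := rfl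
  fin_cases r
  · have k := k0 rfl
    simp only [Complex.sub_re, Complex.sub_im, cen_re, cen_im, z1, z2, e1, e2, k]
    push_cast
    constructor <;> ring
  · have k := k1 rfl
    simp only [Complex.sub_re, Complex.sub_im, cen_re, cen_im, z1, z2, e1, e2, k]
    push_cast
    constructor <;> ring
  · have k := k2 rfl
    simp only [Complex.sub_re, Complex.sub_im, cen_re, cen_im, z1, z2, e1, e2, k]
    push_cast
    constructor <;> ring
  · have k := k3 rfl
    simp only [Complex.sub_re, Complex.sub_im, cen_re, cen_im, z1, z2, e1, e2, k]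
    push_cast
    constructor <;> ring

/-- a tile is in the square of half side `B` about its centre -/
theorem rr_ball (F : FPath (4 * K) W) (_hA : 0 < A) (hAB : A ≤ B) {a : ℤ} {z : ℂ}
    (hz : z ∈ RR A B h W a) : |(z - cen h W a).re| < B ∧ |(z - cen h W a).im| < B := by
  have key : ∀ u : ℂ, (u = 1 ∨ u = -1 ∨ u = Complex.I ∨ u = -Complex.I) →
      z ∈ Arm A B (cen h W a) u → |(z - cen h W a).re| < B ∧ |(z - cen h W a).im| < B := by
    rintro u hu ⟨⟨h1, h2⟩, h3⟩
    unfold X at h1 h2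
    unfold Y at h3
    rw [abs_lt] at h3
    rcases hu with rfl | rfl | rfl | rfl
    · rw [div_one] at h1 h2 h3
      exact ⟨abs_lt.2 ⟨by linarith, by linarith⟩, abs_lt.2 ⟨by linarith [h3.1], by linarith [h3.2]⟩⟩
    · rw [div_neg, div_one, Complex.neg_re] at h1 h2
      rw [div_neg, div_one, Complex.neg_im] at h3
      exact ⟨abs_lt.2 ⟨by linarith, by linarith⟩, abs_lt.2 ⟨by linarith [h3.2], by linarith [h3.1]⟩⟩
    · rw [Complex.div_I] at h1 h2 h3
      simp only [Complex.neg_re, Complex.neg_im, Complex.mul_re, Complex.mul_im, Complex.I_re,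
        Complex.I_im, mul_zero, mul_one, zero_sub, neg_neg, add_zero] at h1 h2 h3
      exact ⟨abs_lt.2 ⟨by linarith [h3.2], by linarith [h3.1]⟩, abs_lt.2 ⟨by linarith, by linarith⟩⟩
    · rw [div_neg, Complex.div_I, neg_neg] at h1 h2 h3
      simp only [Complex.mul_re, Complex.mul_im, Complex.I_re,
        Complex.I_im, mul_zero, mul_one, zero_sub, add_zero] at h1 h2 h3
      exact ⟨abs_lt.2 ⟨by linarith [h3.1], by linarith [h3.2]⟩, abs_lt.2 ⟨by linarith, by linarith⟩⟩
  have hu4 : ∀ u : ℤ × ℤ, U4 u → (cz u = 1 ∨ cz u = -1 ∨ cz u = Complex.I ∨ cz u = -Complex.I) := by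
    intro u hu
    rcases hu with rfl | rfl | rfl | rfl
    · left; apply Complex.ext <;> simp [cz]
    · right; right; left; apply Complex.ext <;> simp [cz]
    · right; left; apply Complex.ext <;> simp [cz]
    · right; right; right; apply Complex.ext <;> simp [cz]
  rcases hz with hz | hz
  · exact key _ (hu4 _ (F.step' a)) hz
  · exact key _ (hu4 _ (F.step a)) hz

/-- frame coordinates of a difference -/
theorem frame_abs (r : Fin 4) {z s q : ℂ} {B : ℝ} (h1 : |(s - q).re| < B) (h2 : |(s - q).im| < B) :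
    |X z (us r) s - X z (us r) q| < B ∧ |Y z (us r) s - Y z (us r) q| < B := by
  obtain ⟨x1, x2⟩ := XY_us r z s
  obtain ⟨y1, y2⟩ := XY_us r z q
  rw [x1, x2, y1, y2]
  rw [Complex.sub_re] at h1
  rw [Complex.sub_im] at h2
  fin_cases r <;> simp only [Complex.sub_re, Complex.sub_im]
  · exact ⟨by rwa [sub_sub_sub_cancel_right], by rwa [sub_sub_sub_cancel_right]⟩
  · exact ⟨by rw [show -(s.im - z.im) - -(q.im - z.im) = -(s.im - q.im) by ring, abs_neg]; exact h2,
      by rwa [sub_sub_sub_cancel_right]⟩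
  · exact ⟨by rw [show -(s.re - z.re) - -(q.re - z.re) = -(s.re - q.re) by ring, abs_neg]; exact h1,
      by rw [show -(s.im - z.im) - -(q.im - z.im) = -(s.im - q.im) by ring, abs_neg]; exact h2⟩
  · exact ⟨by rwa [sub_sub_sub_cancel_right],
      by rw [show -(s.re - z.re) - -(q.re - z.re) = -(s.re - q.re) by ring, abs_neg]; exact h1⟩

/-- **a tile which meets the sector `y0 ≤ Y + hB ≤ y1` over the side `r`** -/
theorem tile_sec (hK : 1 ≤ K) (hW : ∀ a, W a = sqW K a + v) (F : FPath (4 * K) W)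
    (hA : 0 < A) (hAB : A ≤ B) {t0 y0 y1 : ℝ} (h0 : B ≤ y0) (h1 : y1 + B ≤ h * K)
    (ht : t0 + B ≤ h * K) (r : Fin 4) {a : ℤ} {z : ℂ} (hz : z ∈ RR A B h W a)
    (hX : X (zc h K v) (us r) z < -(h * K / 2 - t0)) (hy0 : y0 ≤ Y (zc h K v) (us r) z + h * K / 2)
    (hy1 : Y (zc h K v) (us r) z + h * K / 2 ≤ y1) :
    bi K r a < K ∧ y0 - B < h * bi K r a ∧ h * bi K r a < y1 + B := by
  obtain ⟨c1, c2⟩ := cen_frame (h := h) hK hW r a
  obtain ⟨g1, g2⟩ := rr_ball F hA hAB hz
  obtain ⟨f1, f2⟩ := frame_abs r (z := zc h K v) g1 g2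
  rw [c1, abs_lt] at f1
  rw [c2, abs_lt] at f2
  obtain ⟨b0, b1⟩ := bi_rng hK r a
  set b := bi K r a with hb
  have e1 : h * ((sq0 K b).1 : ℝ) < t0 + B := by linarith [f1.1, f1.2]
  have e2 : h * ((sq0 K b).2 : ℝ) < y1 + B := by linarith [f2.1, f2.2]
  have e3 : y0 - B < h * ((sq0 K b).2 : ℝ) := by linarith [f2.1, f2.2]
  have hbK : b < K := by
    by_contra hc
    push Not at hc
    rcases lt_or_ge b (2 * K) with h3 | h3
    · have : (sq0 K b).2 = K := by
        unfold sq0
        rw [if_neg (by omega), if_pos h3]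
      rw [this] at e2
      have e2' : h * (K : ℝ) < y1 + B := by exact_mod_cast e2
      linarith
    · rcases lt_or_ge b (3 * K) with h4 | h4
      · have : (sq0 K b).1 = K := by
          unfold sq0
          rw [if_neg (by omega), if_neg (by omega), if_pos h4]
        rw [this] at e1
        have e1' : h * (K : ℝ) < t0 + B := by exact_mod_cast e1
        linarith
      · have : (sq0 K b).2 = 0 := by
          unfold sq0
          rw [if_neg (by omega), if_neg (by omega), if_neg (by omega)]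
        rw [this] at e3
        rw [Int.cast_zero, mul_zero] at e3
        linarith
  have h5 : (sq0 K b).2 = b := by
    unfold sq0
    rw [if_pos hbK]
  rw [h5] at e2 e3
  exact ⟨hbK, e3, e2⟩

theorem sup_eq_sp (z c : ℂ) : sup (z - c) = FarEkx88.sp c z := by
  unfold sup FarEkx88.sp
  rw [Complex.sub_re, Complex.sub_im]

/-- **the tiles are near the boundary** -/
theorem tile_sup (hK : 1 ≤ K) (hW : ∀ a, W a = sqW K a + v) (F : FPath (4 * K) W) (hA : 0 < A)
    (hB : B ≤ h) (hh : 0 < h) {a : ℤ} {z : ℂ} (hz : z ∈ RR A B h W a) :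
    h * K / 2 - A < sup (z - zc h K v) ∧ sup (z - zc h K v) < h * K / 2 + A := by
  constructor
  · obtain ⟨-, h1⟩ := sq_strip hK hW F hA hB hh hz
    have z1 : (zc h K v).re = h * (v.1 + K / 2) := rfl
    have z2 : (zc h K v).im = h * (v.2 + K / 2) := rfl
    unfold sup
    rw [lt_max_iff, lt_abs, lt_abs, Complex.sub_re, Complex.sub_im, z1, z2]
    rcases h1 with h1 | h1 | h1 | h1
    · left; right; nlinarith
    · left; left; nlinarith
    · right; right; nlinarith
    · right; left; nlinarith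
  · rw [sup_eq_sp]
    exact RingCx312.sp_tile hK hW F hA hB hh hz

end Crest.Agent.R143.SqGx503
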