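import Crest.Agent.R143.RegG_707
import Crest.Agent.R143.SqG_503

/-!
# Row 143 (S0194), block H: the windows of the square ring for 707's regions (helper503)

`K = (2 j + 10) m1`, `4 m1` windows of `2 j + 1` tiles, gap of `9` tiles, the corners are in the middle
of gaps. Walk order: tile `k` = tile `2 j + 5 - k` of the square path (base gate `o = 2 j + 6`), window
`i` = tiles `(2 j + 10) i + t`, `0 ≤ t ≤ 2 j`, centre `ac j i`.
* `wp` : side of the window; `stretch` : the `2 (j + 5) + 1` vertices about the centre are on it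
* `no_win`, `no_ra`, `no_rb` : the tiles off the window, the vertices of the radial chains
* `cw0` : centre of the window in the coordinate `Y`; `cw0_le`
-/

set_option autoImplicit false

noncomputable section

open scoped Classical

namespace Crest.Agent.R143.WinRx503

open Crest.Agent.R143.ToolWx838 Crest.Agent.R143.CircPx838
open Crest.Agent.R143.Gatex838 (X Y)
open Crest.Agent.R143.TileRx228 Crest.Agent.R143.SqPx503
open Crest.Agent.R143.Stripx707 (Dir Sec)
open Crest.Agent.R143.RegGx707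

/-- tiles per window and gap -/
def hb (j : ℕ) : ℕ := 2 * j + 10

/-- centre of the window -/
def ac (j i : ℕ) : ℤ := j + 5 - hb j * i

/-- the window is on the side `p` -/
def OnS (K j i : ℕ) (p : Fin 4) : Prop := ∃ q : ℤ, 4 * K * q + p * K ≤ -((hb j : ℤ) * i) ∧
  -((hb j : ℤ) * i) + hb j ≤ 4 * K * q + (p + 1) * K

variable {K j m1 : ℕ}

theorem side_int (hK : K = hb j * m1) (m1p : 1 ≤ m1) {i : ℕ} (hi : i < 4 * m1) :
    ∃ p : Fin 4, OnS K j i p := by
  obtain ⟨p, q, h3, h2, h1⟩ : ∃ p q : ℕ, p < 4 ∧ q < m1 ∧ i = m1 * p + q :=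
    ⟨i / m1, i % m1, Nat.div_lt_of_lt_mul (by omega), Nat.mod_lt _ (by omega),
      (Nat.div_add_mod i m1).symm⟩
  have hKz : (K : ℤ) = hb j * m1 := by rw [hK]; push_cast; ring
  have h1' : (i : ℤ) = m1 * p + q := by rw [h1]; push_cast; ring
  have hb0 : (0 : ℤ) < hb j := by unfold hb; positivity
  have hw : (hb j : ℤ) ≤ K := by
    rw [hKz]
    have : (1 : ℤ) ≤ m1 := by exact_mod_cast m1p
    nlinarith
  rcases Nat.eq_zero_or_pos q with hq0 | hq0
  · have e : (hb j : ℤ) * i = K * p := by
      rw [h1', hq0, hKz]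
      push_cast
      ring
    unfold OnS
    rw [e]
    interval_cases p
    · exact ⟨0, 0, by simp, by simp; exact_mod_cast hw⟩
    · exact ⟨3, -1, by push_cast; norm_num; linarith, by push_cast; norm_num; linarith⟩
    · exact ⟨2, -1, by push_cast; norm_num; linarith, by push_cast; norm_num; linarith⟩
    · exact ⟨1, -1, by push_cast; norm_num; linarith, by push_cast; norm_num; linarith⟩
  · have b1 : (hb j : ℤ) * (m1 - q) + hb j * q = K := by rw [hKz]; ring
    have b2 : (hb j : ℤ) * 1 ≤ hb j * q :=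
      mul_le_mul_of_nonneg_left (by exact_mod_cast hq0) hb0.le
    have b3 : (hb j : ℤ) * 1 ≤ hb j * (m1 - q) :=
      mul_le_mul_of_nonneg_left (by omega) hb0.le
    have e : (hb j : ℤ) * i = K * p + hb j * q := by rw [h1', hKz]; ring
    unfold OnS
    rw [e]
    interval_cases p
    · exact ⟨3, -1, by push_cast; norm_num; linarith, by push_cast; norm_num; linarith⟩
    · exact ⟨2, -1, by push_cast; norm_num; linarith, by push_cast; norm_num; linarith⟩
    · exact ⟨1, -1, by push_cast; norm_num; linarith, by push_cast; norm_num; linarith⟩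
    · exact ⟨0, -1, by push_cast; norm_num; linarith, by push_cast; norm_num; linarith⟩

/-- **the side of the window `i`** -/
def wp (K j i : ℕ) : Fin 4 := if h : ∃ p, OnS K j i p then h.choose else 0

theorem wp_on (hK : K = hb j * m1) (m1p : 1 ≤ m1) {i : ℕ} (hi : i < 4 * m1) :
    OnS K j i (wp K j i) := by
  unfold wp
  rw [dif_pos (side_int hK m1p hi)]
  exact (side_int hK m1p hi).choose_spec

theorem K_pos (hK : K = hb j * m1) (m1p : 1 ≤ m1) : 10 ≤ K := by
  rw [hK]
  unfold hb
  nlinarith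

variable {h : ℝ} {j0 : ℤ}

/-- **the stretch about the window is on its side** -/
theorem stretch (hK : K = hb j * m1) (m1p : 1 ≤ m1) {i : ℕ} (hi : i < 4 * m1) (t : ℤ)
    (ht : |t| ≤ ((j + 5 : ℕ) : ℤ)) :
    X (zq h K j0) (du (wp K j i)) (cen h (sqs K j0) (ac j i + t)) = -(h * K / 2) := by
  obtain ⟨q, h1, h2⟩ := wp_on hK m1p hi
  have hK1 := K_pos hK m1p
  rw [abs_le] at ht
  push_cast at ht
  have e : (hb j : ℤ) = 2 * j + 10 := by unfold hb; push_cast; ring
  refine side_x (by omega) h j0 (wp K j i) q ?_ ?_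
  · refine h1.trans ?_
    unfold ac
    linarith
  · refine le_trans ?_ h2
    unfold ac
    rw [e]
    linarith

/-- the tiles off the window -/
theorem no_win (hK : K = hb j * m1) (m1p : 1 ≤ m1) {i k : ℕ} (hk : k < 4 * K - (2 * j + 1)) {t : ℤ}
    (ht : |t| ≤ j) :
    sqs K j0 (2 * j + 5 - ((hb j * i + (2 * j + 1) + k : ℕ) : ℤ)) ≠ sqs K j0 (ac j i + t) := by
  have hK1 := K_pos hK m1p
  rw [abs_le] at ht
  intro e
  unfold sqs at e
  have h1 := (sq_fpath (K := K) (by omega)).simple _ _ (sub_left_injective e)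
  have e1 : ac j i + t - (2 * j + 5 - ((hb j * i + (2 * j + 1) + k : ℕ) : ℤ)) = j + 1 + k + t := by
    unfold ac
    push_cast
    ring
  rw [e1] at h1
  have h2 := Int.le_of_dvd (by omega) h1
  push_cast at h2
  omega

/-- the vertex of the first radial chain -/
theorem no_ra (hK : K = hb j * m1) (m1p : 1 ≤ m1) {i k : ℕ} (hk : k < 4 * K)
    (e : sqs K j0 (2 * j + 5 - ((hb j * i + (2 * j + 1) + k : ℕ) : ℤ)) =
      sqs K j0 (ac j i + -(j + 2))) : k < 3 := by
  have hK1 := K_pos hK m1p
  unfold sqs at e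
  have h1 := (sq_fpath (K := K) (by omega)).simple _ _ (sub_left_injective e)
  have e1 : ac j i + -(j + 2) - (2 * j + 5 - ((hb j * i + (2 * j + 1) + k : ℕ) : ℤ)) = k - 1 := by
    unfold ac
    push_cast
    ring
  rw [e1] at h1
  by_contra hc
  have h2 := Int.le_of_dvd (by omega) h1
  push_cast at h2
  omega

/-- the vertex of the second radial chain -/
theorem no_rb (hK : K = hb j * m1) (m1p : 1 ≤ m1) {i k : ℕ} (hk : k < 4 * K)
    (e : sqs K j0 (2 * j + 5 - ((hb j * i + (2 * j + 1) + k : ℕ) : ℤ)) =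
      sqs K j0 (ac j i + (j + 2))) :
    4 * K - (2 * j + 1) ≤ k + 3 ∧ k < 4 * K - (2 * j + 1) := by
  have hK1 : 2 * j + 10 ≤ K := by
    rw [hK]
    unfold hb
    nlinarith
  unfold sqs at e
  have h1 := (sq_fpath (K := K) (by omega)).simple _ _ (sub_left_injective e)
  have e1 : ac j i + (j + 2) - (2 * j + 5 - ((hb j * i + (2 * j + 1) + k : ℕ) : ℤ)) =
      k + (2 * j + 3) := by
    unfold ac
    push_cast
    ring
  rw [e1] at h1
  have h2 := Int.le_of_dvd (by omega) h1
  push_cast at h2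
  obtain ⟨c, hc⟩ := h1
  have h3 : c = 1 := by
    have g1 : c < 2 := by
      by_contra hc2
      push Not at hc2
      have : ((4 * K : ℕ) : ℤ) * 2 ≤ ((4 * K : ℕ) : ℤ) * c :=
        mul_le_mul_of_nonneg_left hc2 (by positivity)
      push_cast at this hc
      omega
    have g2 : 0 < c := by
      by_contra hc2
      push Not at hc2
      have : ((4 * K : ℕ) : ℤ) * c ≤ 0 := mul_nonpos_of_nonneg_of_nonpos (by positivity) hc2
      omega
    omega
  rw [h3] at hc
  push_cast at hc
  omega

/-- the centre of the window in the coordinate `Y` of its side -/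
def cw0 (h : ℝ) (K : ℕ) (j0 : ℤ) (j i : ℕ) : ℝ :=
  Y (zq h K j0) (du (wp K j i)) (cen h (sqs K j0) (ac j i))

/-- **the window is far from the corners** (136's `win`) -/
theorem cw0_le (hh : 0 < h) (hK : K = hb j * m1) (m1p : 1 ≤ m1) {i : ℕ} (hi : i < 4 * m1) :
    |cw0 h K j0 j i| ≤ h * K / 2 - h * (j + 5) := by
  have hK1 := K_pos hK m1p
  have h1 := stretch_y (sqr_sqW (K := K) (by omega) hh j0) (dir_du (wp K j i)) hh (ac := ac j i)
    (J := j + 5) (by omega) (stretch hK m1p hi) (i := 0) (n := 0) (by simp) (by omega)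
  rw [add_zero] at h1
  unfold cw0
  refine h1.trans (le_of_eq ?_)
  push_cast
  ring

/-- **707's regions of the window `i`**, levels `D1 < A1 < A2`, sector of half length `l ≤ h j` and
depth `t0` -/
def rgi {C : Type} (S : Finset ℂ) (σ : ℂ → C) (h0 : C) (h : ℝ) (K : ℕ) (j0 : ℤ) (A1 A2 D1 t0 l : ℝ)
    (j i : ℕ) (La Lb : ℕ → ℕ → Crest.Agent.R143.Frame10x395.D0 S) :
    Crest.Agent.R143.RevCx389.Rg (Crest.Agent.R143.Frame10x395.D0 S) C :=
  rg S σ h0 (zq h K j0) A1 A2 D1
    (Sec (du (wp K j i)) (zq h K j0) (h * K / 2) t0 (cw0 h K j0 j i) l) (La i) (Lb i)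

end Crest.Agent.R143.WinRx503
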