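import Crest.Agent.R143.FarG_263
import Crest.Agent.R143.RingU_197
import Crest.Agent.R143.RegG_707
import Crest.Agent.R143.WinR_503
import Crest.Agent.R143.VgL_239

/-!
# Row 143 (S0194), block H: the numbers and places of the square ring (helper88)

* **`XS n j m1 κ Z r1`** : 263's `Pl` for the square family of `RingU_197` with 503's windows
  (`WinR_503`: `4 m1` windows, `hb j = 2 j + 10`, base gate `og j = 2 j + 6`) and 239's law
* **`xs_ok`** : `Pl.Ok 0 1 (2 R)` for `n + 2 = hb j * m1`, `2 ≤ m1 R`, `n` large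
-/

set_option autoImplicit false

noncomputable section

open scoped Classical

namespace Crest.Agent.R143.PlSx88

open Filter Topology
open Crest.Agent.R143.SumScx302 Crest.Agent.R143.HBudx136
open Crest.Agent.R143.TileRx228 Crest.Agent.R143.SqPx503 Crest.Agent.R143.SqGx445
open Crest.Agent.R143.RingUx197 Crest.Agent.R143.FarGx263
open Crest.Agent.R143.SpRx169 (Rg Rg_disj Rg_coord Rg_per)
open Crest.Agent.R143.WinRx503 (hb)
open Crest.Agent.R143.VgLx239 (wl wl_per)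
open Crest.Agent.R143.RingXx713.RngH (QO)
open Crest.Agent.R143.CircPx838 (sup)
open scoped ComplexConjugate

/-! ### geometry of the square path -/

theorem wi_fpath (n : ℕ) : FPath (4 * (n + 2)) (Wi n) := sqv_fpath (by omega) _

theorem wi_sqs (n : ℕ) : Wi n = RegGx707.sqs (n + 2) 1 := by
  funext a
  unfold Wi sqV RegGx707.sqs
  rw [sub_eq_add_neg, Prod.neg_mk]

/-- tile size -/
def hh (n : ℕ) : ℝ := 100 * et n

theorem hh_pos {n : ℕ} (hn : 0 < n) : 0 < hh n := by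
  have := et_pos hn
  unfold hh
  linarith

theorem hh_mul {n : ℕ} (hn : 0 < n) : hh n * n = 1 := et_mul hn

theorem hh_eq {n : ℕ} (hn : 0 < n) : hh n = 1 / n := by
  have h1 := hh_mul hn
  have h2 : (n : ℝ) ≠ 0 := by exact_mod_cast hn.ne'
  field_simp
  exact h1

theorem zq_eq {n : ℕ} (hn : 0 < n) : RegGx707.zq (hh n) (n + 2) 1 = zB := by
  have h := hh_mul hn
  have e : hh n * (((n + 2 : ℕ) : ℝ) / 2 - ((1 : ℤ) : ℝ)) = 1 / 2 := by
    push_cast
    linear_combination h / 2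
  unfold RegGx707.zq zB
  rw [e]

/-- **the vertices are on the boundary of the square of half side `1/2 + 1/n`** -/
theorem cen_sup {n : ℕ} (hn : 0 < n) (a : ℤ) : sup (cen (hh n) (Wi n) a - zB) = 1 / 2 + hh n := by
  have H := (RegGx707.sqr_sqW (K := n + 2) (by omega) (hh_pos hn) 1).bd a
  rw [← wi_sqs, zq_eq hn] at H
  rw [H]
  have h := hh_mul hn
  push_cast
  linear_combination h / 2

theorem sup_re (z : ℂ) : |z.re| ≤ sup z := le_max_left _ _

theorem sup_im (z : ℂ) : |z.im| ≤ sup z := le_max_right _ _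

/-- distance of two vertices -/
theorem cen_dist {n : ℕ} (hn : 4 ≤ n) (a b : ℤ) :
    |(cen (hh n) (Wi n) a - cen (hh n) (Wi n) b).re| ≤ 3 / 2 ∧
      |(cen (hh n) (Wi n) a - cen (hh n) (Wi n) b).im| ≤ 3 / 2 := by
  have n0 : 0 < n := by omega
  have hn4 : (4 : ℝ) ≤ n := by exact_mod_cast hn
  have h1 := hh_mul n0
  have h2 := hh_pos n0
  have h4 : hh n ≤ 1 / 4 := by nlinarith
  have key : ∀ a, |(cen (hh n) (Wi n) a - zB).re| ≤ 3 / 4 ∧
      |(cen (hh n) (Wi n) a - zB).im| ≤ 3 / 4 := by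
    intro a
    have h5 := cen_sup n0 a
    have h6 := sup_re (cen (hh n) (Wi n) a - zB)
    have h7 := sup_im (cen (hh n) (Wi n) a - zB)
    constructor <;> linarith
  have ea : cen (hh n) (Wi n) a - cen (hh n) (Wi n) b =
      (cen (hh n) (Wi n) a - zB) - (cen (hh n) (Wi n) b - zB) := by ring
  obtain ⟨p1, p2⟩ := key a
  obtain ⟨q1, q2⟩ := key b
  rw [ea, Complex.sub_re, Complex.sub_im]
  rw [abs_le] at p1 p2 q1 q2
  constructor <;> rw [abs_le] <;> constructor <;> linarith [p1.1, p1.2, p2.1, p2.2, q1.1, q1.2,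
    q2.1, q2.2]

theorem gz_cen (h : ℝ) (W : ℤ → ℤ × ℤ) (a : ℤ) :
    gz h W a = (cen h W (a - 1) + cen h W a) / 2 := by
  unfold gz cen
  ring

/-- distance of two gates -/
theorem gz_dist {n : ℕ} (hn : 4 ≤ n) (a b : ℤ) :
    ‖gz (hh n) (Wi n) a - gz (hh n) (Wi n) b‖ ≤ 3 := by
  obtain ⟨h1, h2⟩ := cen_dist hn (a - 1) (b - 1)
  obtain ⟨h3, h4⟩ := cen_dist hn a b
  have n1 := Complex.norm_le_abs_re_add_abs_im (cen (hh n) (Wi n) (a - 1) - cen (hh n) (Wi n) (b - 1))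
  have n2 := Complex.norm_le_abs_re_add_abs_im (cen (hh n) (Wi n) a - cen (hh n) (Wi n) b)
  have e : gz (hh n) (Wi n) a - gz (hh n) (Wi n) b =
      ((cen (hh n) (Wi n) (a - 1) - cen (hh n) (Wi n) (b - 1)) +
        (cen (hh n) (Wi n) a - cen (hh n) (Wi n) b)) / 2 := by
    rw [gz_cen, gz_cen]
    ring
  rw [e, norm_div, Complex.norm_ofNat]
  have := norm_add_le (cen (hh n) (Wi n) (a - 1) - cen (hh n) (Wi n) (b - 1))
    (cen (hh n) (Wi n) a - cen (hh n) (Wi n) b)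
  linarith

theorem wi_per (n : ℕ) (a : ℤ) : Wi n (a - (4 * (n + 2) : ℕ)) = Wi n a := by
  have := (wi_fpath n).per (a - (4 * (n + 2) : ℕ))
  rw [sub_add_cancel] at this
  exact this.symm

theorem cen_per (n : ℕ) (h : ℝ) (a : ℤ) : cen h (Wi n) (a - (4 * (n + 2) : ℕ)) = cen h (Wi n) a := by
  unfold cen
  rw [wi_per]

theorem gz_per (n : ℕ) (h : ℝ) (a : ℤ) : gz h (Wi n) (a - (4 * (n + 2) : ℕ)) = gz h (Wi n) a := by
  rw [gz_cen, gz_cen, cen_per, show a - ((4 * (n + 2) : ℕ) : ℤ) - 1 = a - 1 - ((4 * (n + 2) : ℕ) : ℤ)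
    by ring, cen_per]

theorem norm_u4 {u : ℤ × ℤ} (hu : U4 u) : ‖cz u‖ = 1 := by
  rcases hu with rfl | rfl | rfl | rfl
  · have : cz (1, 0) = 1 := by apply Complex.ext <;> simp [cz]
    rw [this, norm_one]
  · have : cz (0, 1) = Complex.I := by apply Complex.ext <;> simp [cz]
    rw [this, Complex.norm_I]
  · have : cz (-1, 0) = -1 := by apply Complex.ext <;> simp [cz]
    rw [this, norm_neg, norm_one]
  · have : cz (0, -1) = -Complex.I := by apply Complex.ext <;> simp [cz]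
    rw [this, norm_neg, Complex.norm_I]

/-- one step -/
theorem cen_step {n : ℕ} (hn : 0 < n) (a : ℤ) :
    ‖cen (hh n) (Wi n) (a - 1) - cen (hh n) (Wi n) a‖ ≤ hh n := by
  have h1 := (wi_fpath n).step (a - 1)
  rw [sub_add_cancel] at h1
  have e : cen (hh n) (Wi n) (a - 1) - cen (hh n) (Wi n) a =
      -((hh n : ℂ) * cz (Wi n a - Wi n (a - 1))) := by
    unfold cen cz
    apply Complex.ext <;> simp <;> ring
  rw [e, norm_neg, norm_mul, norm_u4 h1, mul_one, Complex.norm_real,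
    Real.norm_of_nonneg (hh_pos hn).le]

/-- **two tiles of one period are disjoint** -/
theorem rg_dis {n : ℕ} (hn : 0 < n) {a : ℤ} {j : ℕ} (h0 : 0 < j) (hj : j < 4 * (n + 2)) :
    Disjoint (Rg (hh n) (Wi n) a) (Rg (hh n) (Wi n) (a - j)) := by
  rw [Set.disjoint_left]
  intro s h1 h2
  have h3 := Rg_disj (wi_fpath n) (hh_pos hn) h1 h2
  have h4 := Int.le_of_dvd (by omega) (dvd_neg.2 h3)
  omega

/-- **the tiles are off the unit square** -/
theorem rg_off {n : ℕ} (hn : 0 < n) (a : ℤ) : Disjoint (Rg (hh n) (Wi n) a) (sq 0 1) := by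
  rw [Set.disjoint_left]
  intro s h1 h2
  obtain ⟨c1, c2, -⟩ := Rg_coord (wi_fpath n) h1
  have h3 := cen_sup hn a
  have h4 := hh_pos hn
  obtain ⟨s1, s2, s3, s4⟩ := h2
  simp only [Complex.zero_re, Complex.zero_im, zero_add] at s1 s2 s3 s4
  rw [Complex.sub_re, abs_le] at c1
  rw [Complex.sub_im, abs_le] at c2
  have e1 : (cen (hh n) (Wi n) a - zB).re = (cen (hh n) (Wi n) a).re - 1 / 2 := rfl
  have e2 : (cen (hh n) (Wi n) a - zB).im = (cen (hh n) (Wi n) a).im - 1 / 2 := rfl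
  have h5 : sup (cen (hh n) (Wi n) a - zB) ≤ 1 / 2 + hh n / 2 := by
    refine max_le ?_ ?_
    · rw [e1, abs_le]
      constructor <;> linarith [c1.1, c1.2]
    · rw [e2, abs_le]
      constructor <;> linarith [c2.1, c2.2]
  linarith

/-! ### the numbers and places -/

/-- base gate (503's windows) -/
def og (j : ℕ) : ℤ := 2 * j + 6

/-- **263's `Pl` of the square family**, windows of `WinR_503`, law of `VgL_239` -/
def XS (n j m1 : ℕ) (κ : ℂ) (Z : Finset ℂ) (r1 : ℝ) : Pl ℂ where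
  m₀ := 4 * m1
  n := 4 * (n + 2)
  h := hb j
  l := 2 * j + 1
  Q := QO (et n) (Wi n) (og j)
  w := wl (hh n) (Wi n) (og j)
  κ := κ
  K := 9 * ‖κ‖ ^ 2
  Wc k := cen (hh n) (Wi n) (og j - 1 - k)
  h0 := hh n
  r0 := hh n
  Z := Z
  cz := id
  rz _ := r1

/-- **`Pl.Ok`** -/
theorem xs_ok {n j m1 : ℕ} (hn : 4 ≤ n) (hm : n + 2 = hb j * m1) {κ : ℂ} {Z : Finset ℂ}
    {r1 R : ℝ} (h1 : 2 ≤ m1 * R) (h2 : 2 * R + 13 < n * R) :
    (XS n j m1 κ Z r1).Ok 0 1 (2 * R) where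
  perw l := wl_per (wi_fpath n) (hh n) (og j) l
  hK i l := by
    show ‖κ * (wl (hh n) (Wi n) (og j) l - wl (hh n) (Wi n) (og j) i)‖ ^ 2 ≤ 9 * ‖κ‖ ^ 2
    unfold wl
    rw [← map_sub, norm_mul, RCLike.norm_conj, mul_pow]
    have := gz_dist hn (og j - l) (og j - i)
    have h3 : ‖gz (hh n) (Wi n) (og j - l) - gz (hh n) (Wi n) (og j - i)‖ ^ 2 ≤ 9 := by
      calc _ ≤ (3 : ℝ) ^ 2 := by gcongr
        _ = 9 := by norm_num
    nlinarith [sq_nonneg ‖κ‖]
  step k := by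
    show ‖cen (hh n) (Wi n) (og j - 1 - ((k + 1 : ℕ) : ℤ)) - cen (hh n) (Wi n) (og j - 1 - k)‖ ≤
      hh n
    rw [show og j - 1 - ((k + 1 : ℕ) : ℤ) = og j - 1 - k - 1 by push_cast; ring]
    exact cen_step (by omega) _
  perW k := by
    show cen (hh n) (Wi n) (og j - 1 - ((k + 4 * (n + 2) : ℕ) : ℤ)) =
      cen (hh n) (Wi n) (og j - 1 - k)
    rw [show og j - 1 - ((k + 4 * (n + 2) : ℕ) : ℤ) = og j - 1 - k - ((4 * (n + 2) : ℕ) : ℤ) by
      push_cast; ring, cen_per]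
  h00 := (hh_pos (by omega)).le
  hr := by
    show (2 * (hb j : ℝ) + 9) * hh n + 2 * hh n < 2 * R
    have n0 : (0 : ℝ) < n := by exact_mod_cast (show 0 < n by omega)
    have e1 : ((n : ℝ) + 2) = (hb j : ℝ) * m1 := by exact_mod_cast hm
    have hw : (0 : ℝ) ≤ (hb j : ℝ) := Nat.cast_nonneg _
    have e2 : 2 * (hb j : ℝ) ≤ ((n : ℝ) + 2) * R := by
      rw [e1]
      nlinarith
    rw [← add_mul, hh_eq (by omega), mul_one_div, div_lt_iff₀ n0]
    nlinarith
  dis l k h3 h4 := by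
    show Disjoint (Rg (hh n) (Wi n) (og j - 1 - l)) (Rg (hh n) (Wi n) (og j - 1 - ((l + k : ℕ) : ℤ)))
    rw [show og j - 1 - ((l + k : ℕ) : ℤ) = og j - 1 - l - k by push_cast; ring]
    exact rg_dis (by omega) h3 h4
  off l _ := rg_off (by omega) _

end Crest.Agent.R143.PlSx88
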