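import Crest.Agent.R143.FarK_263
import Crest.Agent.R143.RingG_355
import Crest.Agent.R143.RingU_197
import Crest.Agent.R143.VgL_239
import Crest.Agent.R143.PlS_88
import Crest.Agent.R143.Core_389
import Crest.Agent.R143.EFam_432

/-!
# Row 143 (S0194), block H (helper263): the ring data `FarD` of the family

* `wn_of` : `Wn` from 355's `SiteR`
* `ef_of` : 197's giant `EF` from the outputs of 239's `ring_all`
* `bo_chi` : 765's dominating function does not see the hull colours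
* **`farD_of`** : `FarD` of 88's `XS` from `ring_all`, `SiteR`, the law, the cores
* **`farAe_of`** : `FarAe`
-/

set_option autoImplicit false

noncomputable section

open scoped Classical

namespace Crest.Agent.R143.FarIx263

open MeasureTheory Filter Topology
open Crest.ProbabilityR.Voronoi
open Crest.Agent.R143.B0x346 Crest.Agent.R143.SumScx302 Crest.Agent.R143.Mass1x302
  Crest.Agent.R143.Mass2x302 Crest.Agent.R143.Mass3x302 Crest.Agent.R143.Mass4x302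
  Crest.Agent.R143.Mass5x302 Crest.Agent.R143.DelGx806 Crest.Agent.R143.DelRx806
  Crest.Agent.R143.PP0x831 Crest.Agent.R143.HBudx136 Crest.Agent.R143.HGluex136
  Crest.Agent.R143.JColx54 Crest.Agent.R143.SmallAx304 Crest.Agent.R143.Dblx609
  Crest.Agent.R143.Dbl2x609
open Crest.Agent.R143.Frame1x395 Crest.Agent.R143.Frame2x395 Crest.Agent.R143.Frame3x395
  Crest.Agent.R143.Frame8x395 Crest.Agent.R143.Frame10x395 Crest.Agent.R143.FinCx811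
open Crest.Agent.R143.Frame5x395 (sd mem_sd th th_spec)
open Crest.Agent.R143.NonXx592 (P)
open Crest.Agent.R143.GiantEx197 (Eg Lf)
open Crest.Agent.R143.StgIx432 Crest.Agent.R143.HRevx432
open Crest.Agent.R143.ColXx829 Crest.Agent.R143.WLocx713 Crest.Agent.R143.CorHx713
open Crest.Agent.R143.RevCx389 (Rg)
open Crest.Agent.R143.RevEx389 (Le)
open Crest.Agent.R143.Meetx707 (sr core pl_rc0 Pl)
open Crest.Agent.R143.TileRx228 (RR Arm FPath)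
open Crest.Agent.R143.CircPx838 (sup)
open Crest.Agent.R143.Chordx355 (Lp)
open Crest.Agent.R143.RWrx355 (RLW)
open Crest.Agent.R143.Winx355 (RL)
open Crest.Agent.R143.RingGx355
open Crest.Agent.R143.RingXx713 (RngH)
open Crest.Agent.R143.RingXx713.RngH (BT QO)
open Crest.Agent.R143.PotPx263 (RQ Vg)
open Crest.Agent.R143.RingTx263 (FR)
open Crest.Agent.R143.RcTx263 (Wn)
open Crest.Agent.R143.RngNx765 (BO)
open Crest.Agent.R143.Tplx978 Crest.Agent.R143.TplIx204 Crest.Agent.R143.PthFx765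
open Crest.Agent.R143.GPosCx348 (NumC)
open Crest.Agent.R143.RngNx765 Crest.Agent.R143.CorNx765
open Crest.Agent.R143.IndLocx279
open Crest.Agent.R143.Engx490 (nn)
open Crest.Agent.R143.VgLx239 (clR wl kap)
open Crest.Agent.R143.PlSx88 (XS og hh)
open Crest.Agent.R143.WinRx503 (hb)
open Crest.Agent.R143.RingUx197
open Crest.Agent.R143.StrHx795 (Df)
open Crest.Agent.R143.FarGx263
open scoped ENNReal

/-! ### `Wn` from `SiteR` -/

section wn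

variable {S : Finset ℂ} {hS : GP (S : Set ℂ)} {C : Type} {M : CMap (D0 S) C} {σ : ℂ → C}
  {h0 : C} {zB : ℂ} {A0 A1 A2 : ℝ} {ψ : C → ZMod 2} {P₀ : D0 S} {N n : ℕ} {T : ℕ → ℕ}
  {Reg : ℕ → Set C} {Rk : ℕ → Set ℂ} {h w m₀ : ℕ} {Th : ℕ → ℂ → Prop} {G : ℕ → Rg (D0 S) C}

/-- **`Wn` from 355's `SiteR`** -/
theorem wn_of (H : SiteR hS M σ h0 zB A0 A1 A2 ψ P₀ N n T Reg Rk h w m₀ Th G) {Gf : Rg (D0 S) C}
    (hf : Rgs S σ Gf zB A0 A1 A2 fun _ => False) (hLe : ∀ i, i < m₀ → Le (G i) Gf)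
    (h6 : 6 ≤ h) (m2 : 2 ≤ m₀) (hl : w ≤ h) (hl1 : 1 ≤ w) :
    Wn M Gf G Gf.h0 ψ P₀ N n T Reg h w m₀
      (fun _ => {c | ∃ t, c = M.cell (P M (cfg M ψ) P₀ t)}) := by
  have R := H.rd hf hLe
  exact ⟨H.R.toRL, H.R.bl, R.lw, R.rcw, h6, H.hn, m2, hl, hl1, fun i hi => (hLe i hi).h0.symm,
    fun i hi => H.rx hi, fun _ _ _ hc => hc⟩

/-- the sites of the cells of a tile -/
theorem reg_site (H : SiteR hS M σ h0 zB A0 A1 A2 ψ P₀ N n T Reg Rk h w m₀ Th G) {k : ℕ}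
    {d : D0 S} (hd : M.cell d ∈ Reg k) : d.1.1 ∈ Rk k := by
  obtain ⟨s, h1, h2, h3, e⟩ := H.reg hd
  rw [H.pl.cell] at e
  have h4 : d.1.1 ∈ S := by
    obtain ⟨c, hc⟩ := mem_sd.1 d.2
    exact (mem_delT.1 hc).1
  have := H.pl.inj _ _ h4 h1 h2 e
  rw [this]
  exact h3

end wn

/-! ### the giant -/

theorem lp_un {D C : Type} {M : CMap D C} {x : D → ZMod 2} {p : D} {N : ℕ}
    (L : Lp (restr M) x p N) : Lp M x p N :=
  ⟨isC_restr.1 L.ev, L.occ, L.pos, L.per, L.inj⟩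

section ef

variable {U : Set ℂ} {K : ℕ} {W : ℤ → ℤ × ℤ} {η d : ℝ} {A β : Finset ℂ} {hS : GP (A : Set ℂ)}
  {h3 : 3 ≤ A.card}

/-- **the giant of the family** from the outputs of `ring_all` -/
theorem ef_of (R : RngH (Xc hS h3 (chiS hS h3 β)) U (4 * K) W η d) {o : ℤ} {p : ℤ → D0 A}
    {T : ℕ → ℕ} {N : ℕ}
    (hp : ∀ a, (p a).1 = (yy η W (Xc hS h3 (chiS hS h3 β)) a,
      xx η W (Xc hS h3 (chiS hS h3 β)) a))
    (L : Lp (rc0 hS) (cfg (rc0 hS) (chiS hS h3 β)) (p o) N)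
    (Tp : ∀ k : ℕ, P (rc0 hS) (cfg (rc0 hS) (chiS hS h3 β)) (p o) (T k) = p (o - k))
    {h0 : Cs hS} (hh0 : ∀ s, OnHull A s → sr hS h3 s = h0) :
    EF W η A β = Eg (cm0 hS) h0.1 (Lf (cm0 hS) (cfg (rc0 hS) (chiS hS h3 β)) (p o) N) := by
  have e : ∀ a, p a = RingIx503.pz (RcTx422.scol_hull (chiS hS h3 β)) (clo_X R) a := fun a =>
    Subtype.ext (hp a)
  obtain ⟨u, huA, hu⟩ := AnnCx707.hull_ex hS h3
  have e0 : h0.1 = Quot.mk _ u := by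
    rw [← hh0 u hu, EFamx432.sr_val huA]
  have L' := lp_un L
  rw [e0, e o]
  rw [e o] at L'
  refine ef_gate R hu L' (T := T) (fun k => ?_) (Nat.le_succ N)
  rw [← e o, ← e]
  exact Tp k

end ef

/-! ### the law at `paint` -/

section bo

variable {U : Set ℂ} {M : ℕ} {W : ℤ → ℤ × ℤ} {η d : ℝ} {A β : Finset ℂ} {hS : GP (A : Set ℂ)}
  {h3 : 3 ≤ A.card} {ε : ℝ} {T₀ : Tpl ε (Tn × Bool)} {D : DT} [Fintype (ZMod M)]

theorem isS (N : NumC D η) : CorVx169.IsS D η := ⟨N.g, N.A, N.B, N.A', N.B', N.h⟩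

/-- the dominating function does not see the colours of the hull -/
theorem bo_chi (N : NumC D η) (R : RngH (Xc hS h3 (chiS hS h3 β)) U M W η d)
    (Hs : Std T₀ D.A' D.B' D.h Prod.fst) {b : Bool} {r : ℝ} {o : ℤ} {t : ℕ} {C : ℝ}
    (L : VgLx239.LawH R.path Hs b r o t C) :
    BO R.path Hs b r (o - M) t C (Xc hS h3 (chiS hS h3 β)) =
      BO R.path Hs b r (o - M) t C (paint A β) := by
  have h1 := (ring_law R.path Hs b r L.hA0 (o - M) L.ht L.htM L.hM L.C0 L.hC).2.2.2.2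
  rw [N.A', N.B', N.h] at h1
  refine LawRx239.chi_loc h1 (LawRx239.rall_inn R.path R.e0 R.fat R.d0 ?_)
  have h2 := R.hol
  rwa [ps_Xc] at h2

end bo

/-! ### `FarD` -/

section fam

variable {n j m1 : ℕ} {A β : Finset ℂ} {hS : GP (A : Set ℂ)} {h3 : 3 ≤ A.card} {U : Set ℂ}
  {d d0 r1 Bd : ℝ} {κ : ℂ} {Z : Finset ℂ}

/-- points of a strip are near its vertex -/
theorem rr_near {M : ℕ} {W : ℤ → ℤ × ℤ} (hW : FPath M W) {A' B' : ℝ} (hAB : A' ≤ B') {h : ℝ}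
    {a : ℤ} {w : ℂ} (hw : w ∈ RR A' B' h W a) : ‖w - TileRx228.cen h W a‖ ≤ A' + B' := by
  have key : ∀ u : ℂ, ‖u‖ = 1 → w ∈ Arm A' B' (TileRx228.cen h W a) u →
      ‖w - TileRx228.cen h W a‖ ≤ A' + B' := by
    rintro u hu ⟨⟨h1, h2⟩, h3⟩
    have h4 := RegBx523.norm_le_XY (c := TileRx228.cen h W a) (s := w) hu
    have h5 : |Gatex838.X (TileRx228.cen h W a) u w| ≤ B' := abs_le.2 ⟨by linarith, h2.le⟩
    linarith
  rcases hw with hw | hw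
  · exact key _ (TileRx228.norm_cz (hW.step' a)) hw
  · exact key _ (TileRx228.norm_cz (hW.step a)) hw

/-- the sites of a tile are near its vertex -/
theorem bt_near (hn : 0 < n) {a : ℤ} {s : ℂ} (hs : s ∈ BT (et n) (Wi n) a) :
    ‖s - TileRx228.cen (hh n) (Wi n) a‖ ≤ hh n := by
  have h1 := et_pos hn
  have h2 := rr_near (PlSx88.wi_fpath n) (by linarith : 19 / 2 * et n ≤ 103 / 2 * et n) hs
  unfold hh
  linarith

/-- **`FarD` of 88's `XS`** -/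
theorem farD_of (R : RngH (Xc hS h3 (chiS hS h3 β)) U (4 * (n + 2)) (Wi n) (et n) d)
    {p : ℤ → D0 A} {T : ℕ → ℕ} {N : ℕ} {Reg : ℕ → Set (Cs hS)} {h0 : Cs hS} {zb : ℂ}
    {A0 A1 A2 : ℝ} {Rk : ℕ → Set ℂ} {Th : ℕ → ℂ → Prop} {G : ℕ → Rg (D0 A) (Cs hS)}
    {Gf : Rg (D0 A) (Cs hS)}
    (hp : ∀ a, (p a).1 = (yy (et n) (Wi n) (Xc hS h3 (chiS hS h3 β)) a,
      xx (et n) (Wi n) (Xc hS h3 (chiS hS h3 β)) a))
    (Tp : ∀ k : ℕ, P (rc0 hS) (cfg (rc0 hS) (chiS hS h3 β)) (p (og j)) (T k) = p (og j - k))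
    (Q : RQ (rc0 hS) (cfg (rc0 hS) (chiS hS h3 β)) (p (og j)) N (4 * (n + 2)) T
      (FR A (QO (et n) (Wi n) (og j))))
    (law : ∀ i l, i ≤ l → l ≤ 4 * (n + 2) →
      ‖∑ k ∈ Finset.Ico i l, Vg (rc0 hS) (cfg (rc0 hS) (chiS hS h3 β)) (p (og j)) T (4 * (n + 2))
        (nn A) (FR A (QO (et n) (Wi n) (og j))) k -
          κ * (wl (hh n) (Wi n) (og j) l - wl (hh n) (Wi n) (og j) i)‖ ^ 2 ≤ Bd)
    (H : SiteR hS (rc0 hS) (sr hS h3) h0 zb A0 A1 A2 (chiS hS h3 β) (p (og j)) N (4 * (n + 2)) T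
      Reg Rk (hb j) (2 * j + 1) (4 * m1) Th G)
    (hRk : ∀ k, ∀ s ∈ Rk k, ‖s - TileRx228.cen (hh n) (Wi n) (og j - 1 - k)‖ ≤ hh n)
    (hf : Rgs A (sr hS h3) Gf zb A0 A1 A2 fun _ => False) (m1p : 1 ≤ m1)
    (hLe : ∀ i, i < 4 * m1 → Le (G i) Gf)
    (hc : ∀ g ∈ Df A (Sb 0 1 d0), (rc0 hS).cell g ∈ ⋃ q ∈ Z, core A (sr hS h3) (id q) r1) :
    FarD (XS n j m1 κ Z r1) 0 1 d0 hS h3 Gf G (EF (Wi n) (et n) A β) Bd β (p (og j)) N T Reg
      (fun _ => {c | ∃ t, c = (rc0 hS).cell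
        (P (rc0 hS) (cfg (rc0 hS) (chiS hS h3 β)) (p (og j)) t)}) where
  W := wn_of H hf hLe (by unfold hb; omega) (by show 2 ≤ 4 * m1; omega)
    (by show 2 * j + 1 ≤ hb j; unfold hb; omega) (by show 1 ≤ 2 * j + 1; omega)
  le := hLe
  hE := ef_of R hp H.R.L Tp hf.lev.h0
  rq := Q
  law := law
  reg k d' hd := hRk k _ (reg_site H hd)
  core := hc

/-- one configuration of the family: ring, windows, cores -/
structure Conf (n j m1 : ℕ) (d0 : ℝ) (U : Set ℂ) (d : ℝ) (Z : Finset ℂ) (r1 : ℝ) {A : Finset ℂ}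
    (β : Finset ℂ) (hS : GP (A : Set ℂ)) (h3 : 3 ≤ A.card) (Gf : Rg (D0 A) (Cs hS))
    (G : ℕ → Rg (D0 A) (Cs hS)) : Prop where
  ring : RngH (Xc hS h3 (chiS hS h3 β)) U (4 * (n + 2)) (Wi n) (et n) d
  site : ∀ (p : ℤ → D0 A) (T : ℕ → ℕ),
    (∀ a, (p a).1 = (yy (et n) (Wi n) (Xc hS h3 (chiS hS h3 β)) a,
      xx (et n) (Wi n) (Xc hS h3 (chiS hS h3 β)) a)) →
    RLW (rc0 hS) (chiS hS h3 β) (p (og j)) (T (4 * (n + 2))) (4 * (n + 2)) T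
      (fun k : ℕ => clR hS (BT (et n) (Wi n) (og j - 1 - k))) →
    (∀ k : ℕ, P (rc0 hS) (cfg (rc0 hS) (chiS hS h3 β)) (p (og j)) (T k) = p (og j - k)) →
    ∃ (h0 : Cs hS) (zb : ℂ) (A0 A1 A2 : ℝ) (Rk : ℕ → Set ℂ) (Th : ℕ → ℂ → Prop),
      SiteR hS (rc0 hS) (sr hS h3) h0 zb A0 A1 A2 (chiS hS h3 β) (p (og j)) (T (4 * (n + 2)))
        (4 * (n + 2)) T (fun k : ℕ => clR hS (BT (et n) (Wi n) (og j - 1 - k))) Rk (hb j)
        (2 * j + 1) (4 * m1) Th G ∧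
      (∀ k, ∀ s ∈ Rk k, ‖s - TileRx228.cen (hh n) (Wi n) (og j - 1 - k)‖ ≤ hh n) ∧
      Rgs A (sr hS h3) Gf zb A0 A1 A2 fun _ => False
  le : ∀ i, i < 4 * m1 → Le (G i) Gf
  core : ∀ g ∈ Df A (Sb 0 1 d0), (rc0 hS).cell g ∈ ⋃ q ∈ Z, core A (sr hS h3) (id q) r1

variable {ε : ℝ} {T₀ : Tpl ε (Tn × Bool)} {D : DT} [Fintype (ZMod (4 * (n + 2)))]

/-- **`FarD` from one configuration** -/
theorem Conf.farD {Gf : Rg (D0 A) (Cs hS)} {G : ℕ → Rg (D0 A) (Cs hS)}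
    (F : Conf n j m1 d0 U d Z r1 β hS h3 Gf G) (m1p : 1 ≤ m1) (N : NumC D (et n))
    (Pi : FPath (4 * (n + 2)) (Wi n)) (Hs : Std T₀ D.A' D.B' D.h Prod.fst) {t : ℕ} {C : ℝ}
    (L : VgLx239.LawH Pi Hs true (et n / 2) (og j) t C) :
    ∃ (P₀ : D0 A) (N' : ℕ) (T : ℕ → ℕ) (Reg B' : ℕ → Set (Cs hS)),
      FarD (XS n j m1 (kap D Hs true (et n / 2)) Z r1) 0 1 d0 hS h3 Gf G (EF (Wi n) (et n) A β)
        (BO Pi Hs true (et n / 2) (og j - (4 * (n + 2) : ℕ)) t C (paint A β)) β P₀ N' T Reg B' := by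
  obtain ⟨p, T, hp, -, Q, RW, Tp, -, law⟩ := VgLx239.ring_all F.ring (og j)
  obtain ⟨h0, zb, A0, A1, A2, Rk, Th, H, hRk, hf⟩ := F.site p T hp RW Tp
  refine ⟨p (og j), T (4 * (n + 2)), T, _, _, farD_of F.ring hp Tp Q ?_ H hRk hf m1p F.le F.core⟩
  intro i l hil hl
  have h1 := law (isS N) Hs L i l hil hl
  rw [bo_chi N F.ring Hs L, N.h] at h1
  exact h1

/-- **`FarAe` of the family** -/
theorem farAe_of {B : Set ℂ} {g : Set (ℂ × Bool) → ℝ≥0∞} {Gr : RgF} {Gw : RgW} (m1p : 1 ≤ m1)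
    (N : NumC D (et n)) (Pi : FPath (4 * (n + 2)) (Wi n))
    (Hs : Std T₀ D.A' D.B' D.h Prod.fst) {t : ℕ} {C : ℝ}
    (L : VgLx239.LawH Pi Hs true (et n / 2) (og j) t C)
    (H : ∀ᵐ ω ∂sampleLaw, ∀ β ∈ (Ap ε B ω).powerset, g (paint (Ap ε B ω) β) ≠ 0 →
      ∃ (hS : GP ((Ap ε B ω : Finset ℂ) : Set ℂ)) (h3 : 3 ≤ (Ap ε B ω).card),
        Conf n j m1 d0 U d Z r1 β hS h3 (Gr _ hS h3) (Gw _ hS h3)) :
    FarAe ε B g (XS n j m1 (kap D Hs true (et n / 2)) Z r1) 0 1 d0 Gr Gw (EF (Wi n) (et n))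
      (fun A β => BO Pi Hs true (et n / 2) (og j - (4 * (n + 2) : ℕ)) t C (paint A β)) := by
  filter_upwards [H] with ω H β hβ h0
  obtain ⟨hS, h3, F⟩ := H β hβ h0
  obtain ⟨P₀, N', T, Reg, B', D⟩ := F.farD m1p N Pi Hs L
  exact ⟨hS, h3, P₀, N', T, Reg, B', D⟩

end fam

end Crest.Agent.R143.FarIx263
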