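import Crest.Agent.R143.RingT_197
import Crest.Agent.R143.KapA_690

/-!
# Row 143 (S0194), block H, the choice of the tile size (helper414)

* `RFarK` : 197's `RFar` at the tile size `s`, with the errors `CZ √s` and the number `κf` explicit
* `RingM z b κ` : for fixed depth `d0` and radius `R` all rings of small tile size, all small meshes
* `ringT_of_mesh` : `KapH κ` and `RingM z b κ` ⟹ `RingT z b`; `body_of_mesh`
-/

set_option autoImplicit false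

noncomputable section

open scoped Classical

namespace Crest.Agent.R143.QNumx414

open MeasureTheory Filter Topology
open Crest.ProbabilityR.Voronoi
open Crest.Agent.R143.B0x346 Crest.Agent.R143.SumScx302 Crest.Agent.R143.Mass1x302
open Crest.Agent.R143.PP0x831 Crest.Agent.R143.Trans3x690
  Crest.Agent.R143.HBudx136 Crest.Agent.R143.HGluex136
  Crest.Agent.R143.SmallAx304 Crest.Agent.R143.Dblx609 Crest.Agent.R143.Dbl2x609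
  Crest.Agent.R143.Asm3x414 Crest.Agent.R143.Asm4x414
open Crest.Agent.R143.StgIx432
open Crest.Agent.R143.HDecx197 Crest.Agent.R143.HCompx197 Crest.Agent.R143.RingTx197
open Crest.Agent.R143.KapAx690 (KapH)
open Crest.Agent.R143.Spinex422 (Body)
open scoped ENNReal

/-- the far deep chords at one mesh and tile size; `RZ` bounds the part which is small relative to
`g` (full tiles, partial tiles, strips), `κf` is the constant times `|κ|²` -/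
def RFarK (z : ℂ) (b s ε d0 R Cf CZ δ : ℝ) (κf : ℝ≥0∞) (cF : ℕ) (B : Set ℂ)
    (g : Set (ℂ × Bool) → ℝ≥0∞) (E : EFam) : Prop :=
  ∃ (Lf Zf Yf : Finset ℂ → Finset ℂ → ℝ≥0∞) (RL RZ RY : Sample → ℝ≥0∞),
    (∀ᵐ ω ∂sampleLaw, ∀ β ∈ (Ap ε B ω).powerset, g (paint (Ap ε B ω) β) ≠ 0 →
      Fg z b d0 (2 * R) E (Ap ε B ω) β ≤ cF * Lg z b s d0 E (Ap ε B ω) β +
        Lf (Ap ε B ω) β + Zf (Ap ε B ω) β + Yf (Ap ε B ω) β +
        κf * Ng z b d0 E (Ap ε B ω) β) ∧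
      MajQ ε B g Lf RL ∧ MajQ ε B g Zf RZ ∧ MajQ ε B g Yf RY ∧
      ∫⁻ ω, RL ω ∂sampleLaw ≤ ENNReal.ofReal (Cf * (d0 + s) + δ) * Mg ε B g +
        ENNReal.ofReal δ ∧
      ∫⁻ ω, RZ ω ∂sampleLaw ≤ ENNReal.ofReal (CZ * Real.sqrt s) * Mg ε B g +
        ENNReal.ofReal δ ∧
      ∫⁻ ω, RY ω ∂sampleLaw ≤ ENNReal.ofReal δ

theorem RFarK.rfar {z : ℂ} {b s ε d0 R Cf CZ δ τ : ℝ} {κf : ℝ≥0∞} {cF : ℕ} {B : Set ℂ}
    {g : Set (ℂ × Bool) → ℝ≥0∞} {E : EFam} (H : RFarK z b s ε d0 R Cf CZ δ κf cF B g E)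
    (h1 : CZ * Real.sqrt s ≤ τ) (h2 : κf ≤ ENNReal.ofReal τ) :
    RFar z b s ε d0 R Cf τ δ cF B g E := by
  obtain ⟨Lf, Zf, Yf, RL, RZ, RY, hp, jL, jZ, jY, iL, iZ, iY⟩ := H
  refine ⟨Lf, Zf, Yf, RL, RZ, RY, κf, hp, jL, jZ, jY, iL, iZ.trans ?_, iY, h2⟩
  gcongr

/-- all rings of small tile size `s = 2 / n`, all small meshes -/
def RingM (z : ℂ) (b : ℝ) (κ : ℕ → ℝ → ℂ) : Prop :=
  ∃ C4 : ℝ, 0 ≤ C4 ∧ ∃ Cf : ℝ, 0 ≤ Cf ∧ ∃ cF : ℕ,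
    ∀ K c1 c2 : ℝ, 1 ≤ K → 0 < c1 → 0 < c2 → c2 ≤ 1 → ∀ d0 : ℝ, 0 < d0 → d0 ≤ b / 4 →
      ∀ R : ℝ, 0 < R → R ≤ d0 / 10 → ∃ CZ CK : ℝ, 0 ≤ CZ ∧ 0 ≤ CK ∧ ∀ᶠ n : ℕ in atTop,
        ∃ c : ℝ, 0 < c ∧ ∀ δ : ℝ, 0 < δ → ∀ᶠ ε : ℝ in 𝓝[>] 0, ∃ (B : Set ℂ)
          (g : Set (ℂ × Bool) → ℝ≥0∞) (E : EFam) (Rv : Finset ℂ → Finset ℂ → Finset ℂ),
          RDat z b (2 / n) ε c d0 R K c1 c2 C4 B g E Rv ∧
          RFarK z b (2 / n) ε d0 R Cf CZ δ (ENNReal.ofReal (CK * ‖κ n ε‖ ^ 2)) cF B g E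

/-- **the choice of the tile size** -/
theorem ringT_of_mesh {z : ℂ} {b : ℝ} {κ : ℕ → ℝ → ℂ} (hκ : KapH κ) (H : RingM z b κ) :
    RingT z b := by
  obtain ⟨C4, hC4, Cf, hCf, cF, H⟩ := H
  refine ⟨C4, hC4, Cf, hCf, cF, fun K c1 c2 hK h1 h2 h3 d0 hd0 hdb R hR hRd τ hτ => ?_⟩
  obtain ⟨CZ, CK, hCZ, hCK, H⟩ := H K c1 c2 hK h1 h2 h3 d0 hd0 hdb R hR hRd
  -- the size of `κ`
  set η : ℝ := min 1 (τ / (CK + 1)) with hη
  have hη0 : 0 < η := by positivity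
  have e1 := hκ η hη0
  -- the tile size
  have t0 : Tendsto (fun n : ℕ => (2 : ℝ) / n) atTop (𝓝 0) :=
    tendsto_const_nhds.div_atTop tendsto_natCast_atTop_atTop
  have e2 : ∀ᶠ n : ℕ in atTop, (2 : ℝ) / n ≤ τ :=
    (t0.eventually (ge_mem_nhds hτ))
  have t1 : Tendsto (fun n : ℕ => CZ * Real.sqrt ((2 : ℝ) / n)) atTop (𝓝 0) := by
    have h4 := (Real.continuous_sqrt.tendsto 0).comp t0
    rw [Real.sqrt_zero] at h4
    have h5 := h4.const_mul CZ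
    rw [mul_zero] at h5
    exact h5
  have e3 : ∀ᶠ n : ℕ in atTop, CZ * Real.sqrt ((2 : ℝ) / n) ≤ τ :=
    t1.eventually (ge_mem_nhds hτ)
  obtain ⟨n, ⟨⟨⟨⟨c, hc, hn⟩, h4⟩, h5⟩, h6⟩, h7⟩ :=
    ((((H.and e1).and e2).and e3).and (eventually_gt_atTop 0)).exists
  have hn0 : (0 : ℝ) < n := Nat.cast_pos.2 h7
  refine ⟨2 / n, c, by positivity, h5, hc, fun δ hδ => ?_⟩
  refine ((hn δ hδ).and h4).frequently.mono fun ε hε => ?_
  obtain ⟨⟨B, g, E, Rv, hD, hF⟩, h8⟩ := hε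
  refine ⟨B, g, E, Rv, hD, hF.rfar h6 (ENNReal.ofReal_le_ofReal ?_)⟩
  have h9 : ‖κ n ε‖ ^ 2 ≤ η := by
    calc ‖κ n ε‖ ^ 2 ≤ η ^ 2 := by gcongr
      _ ≤ η := by
        have : η ≤ 1 := min_le_left _ _
        nlinarith
  calc CK * ‖κ n ε‖ ^ 2 ≤ CK * (τ / (CK + 1)) := by
        gcongr
        exact h9.trans (min_le_right _ _)
    _ ≤ τ := by
        rw [mul_div_assoc', div_le_iff₀ (by positivity)]
        nlinarith

theorem body_of_mesh {z : ℂ} {b : ℝ} (hb : 0 < b) {κ : ℕ → ℝ → ℂ} (hκ : KapH κ)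
    (H : RingM z b κ) : Body := body_of_ringT hb (ringT_of_mesh hκ H)

end Crest.Agent.R143.QNumx414
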