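import Crest.Agent.R143.FarG_263
import Crest.Agent.R143.QNum_414

/-!
# Row 143 (S0194), block H (helper263): 414's `RFarK` from the ring data

* `maj_sqrt` : `wD (4 b s + 4 s²) < (clL b + 1) √s`
* **`rfark_of`** : `RFarK z b s ε d0 R 0 CZ δ (CK ‖κ‖²) 2 B g E` from `RDat`, the ring data `FarAe`, the
  majorants of `pf` (352 / 126), `32 B Ng` (88), `yf` (136)
-/

set_option autoImplicit false

noncomputable section

open scoped Classical

namespace Crest.Agent.R143.FarKx263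

open MeasureTheory Filter Topology
open Crest.ProbabilityR.Voronoi
open Crest.Agent.R143.B0x346 Crest.Agent.R143.SumScx302 Crest.Agent.R143.Mass1x302
open Crest.Agent.R143.PP0x831 Crest.Agent.R143.Trans3x690
  Crest.Agent.R143.HBudx136 Crest.Agent.R143.HGluex136
  Crest.Agent.R143.SmallAx304 Crest.Agent.R143.Dblx609 Crest.Agent.R143.Dbl2x609
  Crest.Agent.R143.Asm3x414 Crest.Agent.R143.Asm4x414
open Crest.Agent.R143.StgIx432
open Crest.Agent.R143.HCompx197 Crest.Agent.R143.HRevx432 Crest.Agent.R143.RingTx197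
open Crest.Agent.R143.StripQx88 (stripf)
open Crest.Agent.R143.Engx490 (nn)
open Crest.Agent.R143.QNumx414 (RFarK)
open Crest.Agent.R143.FarGx263
open scoped ENNReal

theorem maj_sqrt {b s : ℝ} (hb : 0 < b) (hs : 0 < s) (hs1 : s ≤ 1) :
    wD * (4 * b * s + 4 * s ^ 2) < (LayMx88.clL b + 1) * Real.sqrt s := by
  have hw := wD_nonneg
  have h1 : s ≤ Real.sqrt s := by
    have h2 := Real.sq_sqrt hs.le
    have h3 : Real.sqrt s ≤ 1 := Real.sqrt_le_one.2 hs1 
    have h4 := Real.sqrt_nonneg s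
    nlinarith
  have h5 : 0 < Real.sqrt s := Real.sqrt_pos.2 hs
  have h6 : 4 * b * s + 4 * s ^ 2 ≤ (4 * b + 4) * Real.sqrt s := by nlinarith
  unfold LayMx88.clL
  have h7 := mul_le_mul_of_nonneg_left h6 hw
  nlinarith

variable {ι : Type}

/-- **414's `RFarK` from the ring data and the majorants** -/
theorem rfark_of (z : ℂ) {b s c d0 R K c1 c2 C4 δ CP CB CK : ℝ} (hb : 0 < b) (hs : 0 < s)
    (hs1 : s ≤ 1) (hc : 0 < c) (hδ : 0 < δ) (hCP : 0 ≤ CP) (hCB : 0 ≤ CB) :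
    ∀ᶠ ε : ℝ in 𝓝[>] 0, ∀ (B : Set ℂ) (g : Set (ℂ × Bool) → ℝ≥0∞) (X : Pl ι) (Gr : RgF)
      (Gw : RgW) (Rv : Finset ℂ → Finset ℂ → Finset ℂ) (E : EFam)
      (Bf : Finset ℂ → Finset ℂ → ℝ),
      RDat z b s ε c d0 R K c1 c2 C4 B g E Rv → RvEq Gr Rv → X.Ok z b (2 * R) →
      8 * X.K ≤ CK * ‖X.κ‖ ^ 2 → FarAe ε B g X z b d0 Gr Gw E Bf →
      (∃ RP : Sample → ℝ≥0∞, MajQ ε B g (pf X.m₀ X.n Gw Rv E X.Z X.cz X.rz X.Q) RP ∧
        ∫⁻ ω, RP ω ∂sampleLaw ≤ ENNReal.ofReal (CP * Real.sqrt s) * Mg ε B g +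
          ENNReal.ofReal (δ / 448)) →
      (∃ RB : Sample → ℝ≥0∞, MajQ ε B g
          (fun A β => ENNReal.ofReal (32 * Bf A β) * Ng z b d0 E A β) RB ∧
        ∫⁻ ω, RB ω ∂sampleLaw ≤ ENNReal.ofReal (CB * Real.sqrt s) * Mg ε B g +
          ENNReal.ofReal (δ / 4)) →
      (∃ RY : Sample → ℝ≥0∞, MajQ ε B g (yf X.m₀ Gw Gr X.Z X.cz X.rz) RY ∧
        ∫⁻ ω, RY ω ∂sampleLaw ≤ ENNReal.ofReal δ) →
      RFarK z b s ε d0 R 0 (112 * CP + 112 * (LayMx88.clL b + 1) + CB) δ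
        (ENNReal.ofReal (CK * ‖X.κ‖ ^ 2)) 2 B g E := by
  have hcl := LayMx88.clL_nonneg hb
  have hsq := Real.sqrt_nonneg s
  filter_upwards [StripQx88.stripQ z (τ := (LayMx88.clL b + 1) * Real.sqrt s) hb hs hc
    (maj_sqrt hb hs hs1), eventually_mem_nhdsWithin] with ε hstrip hε
  have hε : 0 < ε := hε
  intro B g X Gr Gw Rv E Bf hD hv hX hK hR hP hBN hY
  obtain ⟨R2, mS, iS⟩ := hstrip B hD.Bm hD.Bb hD.UB g E Rv nn X.n X.Q hD.gm hD.g1 hD.mass
    (fld_nn _) hD.facts hX.dis hX.off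
  obtain ⟨RY, mY, iY⟩ := hY
  obtain ⟨RP, mP, iP⟩ := hP
  obtain ⟨RB, mB, iB⟩ := hBN
  refine ⟨fun _ _ => 0, fun A β => 112 * pf X.m₀ X.n Gw Rv E X.Z X.cz X.rz X.Q A β +
      (112 * stripf nn X.n X.Q E A β + ENNReal.ofReal (32 * Bf A β) * Ng z b d0 E A β),
    yf X.m₀ Gw Gr X.Z X.cz X.rz, fun _ => 0,
    fun ω => 112 * RP ω + (112 * R2 ω + RB ω), RY, ?_, ?_,
    (mP.mul 112).add ((mS.mul 112).add mB), mY, ?_, ?_, iY⟩
  · filter_upwards [far_clause (s := s) hX hv hD.facts hR] with ω h β hβ h0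
    refine (h β hβ h0).trans ?_
    push_cast
    rw [add_zero]
    refine add_le_add le_rfl (mul_le_mul_left (ENNReal.ofReal_le_ofReal hK) _)
  · exact ⟨aemeasurable_const, Filter.Eventually.of_forall fun ω => by simp⟩
  · rw [lintegral_const, zero_mul]
    exact zero_le
  · rw [lintegral_add_left' (mP.me.const_mul _), lintegral_add_left' (mS.me.const_mul _),
      lintegral_const_mul'' _ mP.me, lintegral_const_mul'' _ mS.me]
    calc _ ≤ 112 * (ENNReal.ofReal (CP * Real.sqrt s) * Mg ε B g + ENNReal.ofReal (δ / 448)) +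
          (112 * (ENNReal.ofReal ((LayMx88.clL b + 1) * Real.sqrt s) * Mg ε B g) +
          (ENNReal.ofReal (CB * Real.sqrt s) * Mg ε B g + ENNReal.ofReal (δ / 4))) :=
          add_le_add (mul_le_mul_right iP _) (add_le_add (mul_le_mul_right iS _) iB)
      _ = (112 * ENNReal.ofReal (CP * Real.sqrt s) +
          112 * ENNReal.ofReal ((LayMx88.clL b + 1) * Real.sqrt s) +
          ENNReal.ofReal (CB * Real.sqrt s)) * Mg ε B g +
          (112 * ENNReal.ofReal (δ / 448) + ENNReal.ofReal (δ / 4)) := by ring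
      _ ≤ _ := by
          rw [show (112 : ℝ≥0∞) = ENNReal.ofReal 112 by norm_num,
            ← ENNReal.ofReal_mul (by norm_num), ← ENNReal.ofReal_mul (by norm_num),
            ← ENNReal.ofReal_mul (by norm_num), ← ENNReal.ofReal_add (by positivity)
            (by positivity), ← ENNReal.ofReal_add (by positivity) (by positivity),
            ← ENNReal.ofReal_add (by positivity) (by positivity)]
          refine add_le_add (mul_le_mul_left (ENNReal.ofReal_le_ofReal ?_) _)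
            (ENNReal.ofReal_le_ofReal ?_)
          · nlinarith
          · linarith

end Crest.Agent.R143.FarKx263
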