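import Crest.Agent.R143.Disp_951

/-!
# Row 143 (S0194), CONT, (K7), MARK : labels near the marks (helper723)

* `near_fh` : near the first half of the mark edge `k b` neither the position label nor the label of
  a boundary edge is `b + 1`
* `near_md` : near the middle of a boundary edge the label is the label of this edge
-/

set_option autoImplicit false

noncomputable section

open scoped Classical

namespace Crest.Agent.R143.Farx723

open Crest.Agent.R158.Sp896 (V lc rc pt ed sq Cyc)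
open Crest.Agent.R143.PolyUx346 (Poly)
open Crest.Agent.R143.ArcPx571 Crest.Agent.R143.Dispx951

variable {u : Poly} {l : V → V → ZMod 3} {x : ℂ}

theorem eq_mod {a b L : ℕ} (h : a ≡ b [MOD L]) (h1 : a < b + L) (h2 : b < a + L) : a = b :=
  Nat.ModEq.eq_of_abs_lt h (by rw [abs_lt]; constructor <;> omega)

/-- a point near the first half of the mark edge -/
theorem fh_pt {b : Fin 3} (hx : Metric.infDist x (FH u b) ≤ 3 / 16 * u.s) :
    ∃ t, 0 ≤ t ∧ t ≤ 1 / 2 ∧ ‖x - bp u (u.k b) t‖ < 24 / 100 * u.s := by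
  have hs := u.s_pos
  obtain ⟨y, hy, hxy⟩ := (Metric.infDist_lt_iff (FH_nonempty u b)).1
    (lt_of_le_of_lt hx (by linarith : 3 / 16 * u.s < 24 / 100 * u.s))
  unfold FH at hy
  rw [mid_eq, ← ep_zero, bp, seg_ep, segment_eq_Icc (by norm_num : (0 : ℝ) ≤ 1 / 2)] at hy
  obtain ⟨t, ht, rfl⟩ := hy
  exact ⟨t, ht.1, ht.2, by rw [← dist_eq_norm]; exact hxy⟩

/-- a point near an edge -/
theorem ed_pt {κ : ℕ} (hx : Metric.infDist x (ed u.s (u.v κ) (u.v (κ + 1))) ≤ u.s / 8) :
    ∃ t, 0 ≤ t ∧ t ≤ 1 ∧ ‖x - bp u κ t‖ < 13 / 100 * u.s := by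
  have hs := u.s_pos
  have hne : (ed u.s (u.v κ) (u.v (κ + 1))).Nonempty := ⟨_, left_mem_segment ℝ _ _⟩
  obtain ⟨y, hy, hxy⟩ := (Metric.infDist_lt_iff hne).1
    (lt_of_le_of_lt hx (by linarith : u.s / 8 < 13 / 100 * u.s))
  obtain ⟨t, t0, t1, rfl⟩ := mem_ed.1 hy
  exact ⟨t, t0, t1, by rw [← dist_eq_norm]; exact hxy⟩

/-- two points near `x` have close coordinates -/
theorem close {p q : ℂ} {α β : ℝ} (hp : ‖x - p‖ < α) (hq : ‖x - q‖ < β) {c : ℝ} (h : α + β ≤ c) :
    |p.re - q.re| < c ∧ |p.im - q.im| < c := by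
  have h1 : ‖p - q‖ < c := by
    have e : p - q = -(x - p) + (x - q) := by ring
    rw [e]
    refine lt_of_le_of_lt (norm_add_le _ _) ?_
    rw [norm_neg]
    linarith
  constructor
  · rw [← Complex.sub_re]
    exact lt_of_le_of_lt (Complex.abs_re_le_norm _) h1
  · rw [← Complex.sub_im]
    exact lt_of_le_of_lt (Complex.abs_im_le_norm _) h1

/-- edges near the first half of the mark edge: this edge or the edge before it -/
theorem fh_edge {b : Fin 3} {κ : ℕ} {t t' : ℝ} (t0 : 0 ≤ t) (t1 : t ≤ 1 / 2) (t0' : 0 ≤ t')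
    (t1' : t' ≤ 1) (h1 : ‖x - bp u (u.k b) t‖ < 24 / 100 * u.s)
    (h2 : ‖x - bp u κ t'‖ < 24 / 100 * u.s) :
    u.k b ≡ κ [MOD u.L] ∨ u.k b ≡ κ + 1 [MOD u.L] := by
  have hs := u.s_pos
  obtain ⟨g1, g2⟩ := close h1 h2 (by linarith : 24 / 100 * u.s + 24 / 100 * u.s ≤ u.s / 2)
  rcases ep_sep u.cyc hs t0 (by linarith) t0' t1' (by linarith) (by linarith) with h | h | h
  · exact Or.inl h
  · exfalso
    have e : bp u κ t' = bp u (u.k b + 1) t' := ep_mod u.cyc h.symm t'
    rw [e] at g1 g2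
    rcases nb_sep u.cyc hs (u.k b) (by linarith : t ≤ 1) t0' (Or.inl t1) with g | g <;> linarith
  · exact Or.inr h

/-- no position label `b + 1` near the first half of the mark edge -/
theorem near_fh_lab {b : Fin 3} (hx : Metric.infDist x (FH u b) ≤ 3 / 16 * u.s) :
    u.Lab x ≠ ((b : ℕ) : ZMod 3) + 1 := by
  intro hcon
  have hs := u.s_pos
  have C := u.cyc
  obtain ⟨t, t0, t1, hxt⟩ := fh_pt hx
  obtain ⟨j, hnear, hlab, -⟩ := Poly.near_lab (u := u) x
  have hj : j = nx b := by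
    rw [hlab, ← nx_cast] at hcon
    have : ∀ i j : Fin 3, ((i : ℕ) : ZMod 3) = ((j : ℕ) : ZMod 3) → i = j := by decide
    exact this _ _ hcon
  obtain ⟨i, hi⟩ := cover_arc (u := u) (u.k b) t0 (by linarith)
  have h2 : Metric.infDist x (u.Arc j) < 24 / 100 * u.s :=
    lt_of_le_of_lt (hnear i) (lt_of_le_of_lt (Metric.infDist_le_dist_of_mem hi)
      (by rw [dist_eq_norm]; exact hxt))
  have hne' : (u.Arc j).Nonempty := by
    refine ⟨bp u (u.k j) (1 / 2), arc_iff.2 ⟨u.k j, 1 / 2, by norm_num, by norm_num, le_rfl, ?_, rfl⟩⟩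
    have : (u.k j : ℝ) ≤ u.k' j := by exact_mod_cast (k_lt j).le
    linarith
  obtain ⟨z, hz, hxz⟩ := (Metric.infDist_lt_iff hne').1 h2
  obtain ⟨a, t', t0', t1', ha, ha', rfl⟩ := arc_iff.1 hz
  rw [dist_eq_norm] at hxz
  have a1 : u.k j ≤ a := by
    by_contra hc
    push Not at hc
    have : (a : ℝ) + 1 ≤ u.k j := by exact_mod_cast hc
    linarith
  have a2 : a ≤ u.k' j := by
    by_contra hc
    push Not at hc
    have : (u.k' j : ℝ) + 1 ≤ a := by exact_mod_cast hc
    linarith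
  have k1 := u.k01
  have k2 := u.k12
  have k3 := u.k20
  have e0 : u.k' 0 = u.k 1 := by unfold Poly.k'; simp
  have e1 : u.k' 1 = u.k 2 := by unfold Poly.k'; simp
  have e2 : u.k' 2 = u.k 0 + u.L := by unfold Poly.k'; simp
  have n0 : nx 0 = 1 := rfl
  have n1 : nx 1 = 2 := rfl
  have n2 : nx 2 = 0 := rfl
  have hb3 : b = 0 ∨ b = 1 ∨ b = 2 := by omega
  rcases fh_edge t0 t1 t0' t1' hxt hxz with h | h
  · -- the same edge
    rcases hb3 with rfl | rfl | rfl
    · rw [n0] at hj; subst hj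
      rw [e1] at a2
      have := eq_mod h (by omega) (by omega)
      omega
    · rw [n1] at hj; subst hj
      rw [e2] at a2
      have := eq_mod h (by omega) (by omega)
      omega
    · rw [n2] at hj; subst hj
      rw [e0] at a2
      have := eq_mod h (by omega) (by omega)
      omega
  · -- the edge before it
    have hak : a = u.k' j := by
      rcases hb3 with rfl | rfl | rfl
      · rw [n0] at hj; subst hj
        rw [e1] at a2 ⊢
        have h' : u.k 0 + u.L ≡ a + 1 [MOD u.L] := by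
          refine Nat.ModEq.trans ?_ h
          unfold Nat.ModEq; simp
        have := eq_mod h' (by omega) (by omega)
        omega
      · rw [n1] at hj; subst hj
        rw [e2] at a2 ⊢
        have h' : u.k 1 + u.L ≡ a + 1 [MOD u.L] := by
          refine Nat.ModEq.trans ?_ h
          unfold Nat.ModEq; simp
        have := eq_mod h' (by omega) (by omega)
        omega
      · rw [n2] at hj; subst hj
        rw [e0] at a2 ⊢
        have := eq_mod h (by omega) (by omega)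
        omega
    have ht' : t' ≤ 1 / 2 := by
      have : (a : ℝ) = u.k' j := by rw [hak]
      linarith
    obtain ⟨g1, g2⟩ := close hxz hxt (by linarith : 24 / 100 * u.s + 24 / 100 * u.s ≤ u.s / 2)
    have e : bp u (u.k b) t = bp u (a + 1) t := ep_mod C h t
    rw [e] at g1 g2
    rcases nb_sep C hs a t1' t0 (Or.inl ht') with g | g <;> linarith

/-- no edge label `b + 1` near the first half of the mark edge -/
theorem near_fh_edge (h : Int3 u l) {b : Fin 3} (hx : Metric.infDist x (FH u b) ≤ 3 / 16 * u.s)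
    {κ : ℕ} (hκ : Metric.infDist x (ed u.s (u.v κ) (u.v (κ + 1))) ≤ u.s / 8) :
    l (u.v κ) (u.v (κ + 1)) ≠ ((b : ℕ) : ZMod 3) + 1 := by
  have hs := u.s_pos
  obtain ⟨t, t0, t1, hxt⟩ := fh_pt hx
  obtain ⟨t', t0', t1', hxt'⟩ := ed_pt hκ
  rcases fh_edge t0 t1 t0' t1' hxt (lt_of_lt_of_le hxt' (by linarith)) with g | g
  · rw [show l (u.v κ) (u.v (κ + 1)) = ((b : ℕ) : ZMod 3) from lb_at h b g.symm]
    exact z3b b
  · rw [show l (u.v κ) (u.v (κ + 1)) = ((b : ℕ) : ZMod 3) + 2 from lb_prev h b g.symm]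
    exact z3d b

/-- **`near_fh`** -/
theorem near_fh (h : Int3 u l) {b : Fin 3} (hx : Metric.infDist x (FH u b) ≤ 3 / 16 * u.s) :
    u.Lab x ≠ ((b : ℕ) : ZMod 3) + 1 ∧
      ∀ k, Metric.infDist x (ed u.s (u.v k) (u.v (k + 1))) ≤ u.s / 8 →
        l (u.v k) (u.v (k + 1)) ≠ ((b : ℕ) : ZMod 3) + 1 :=
  ⟨near_fh_lab hx, fun _ hk => near_fh_edge h hx hk⟩

/-- a boundary edge near the middle of the edge `j` is the edge `j` -/
theorem near_md_mod {j k : ℕ} (hx : ‖x - u.mid j‖ ≤ u.s / 8)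
    (hk : Metric.infDist x (ed u.s (u.v k) (u.v (k + 1))) ≤ u.s / 8) : j ≡ k [MOD u.L] := by
  have hs := u.s_pos
  obtain ⟨t', t0', t1', hxt'⟩ := ed_pt hk
  rw [mid_eq] at hx
  obtain ⟨g1, g2⟩ := close hxt' (lt_of_le_of_lt hx (by linarith : u.s / 8 < 13 / 100 * u.s))
    (by linarith : 13 / 100 * u.s + 13 / 100 * u.s ≤ u.s / 2)
  exact mid_sep u.cyc hs t0' t1' g1 g2

/-- **`near_md`** -/
theorem near_md {j k : ℕ} (hx : ‖x - u.mid j‖ ≤ u.s / 8)
    (hk : Metric.infDist x (ed u.s (u.v k) (u.v (k + 1))) ≤ u.s / 8) :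
    l (u.v k) (u.v (k + 1)) = l (u.v j) (u.v (j + 1)) :=
  (lb_mod (l := l) (near_md_mod hx hk)).symm

end Crest.Agent.R143.Farx723
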