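import Crest.Agent.R143.DtaB_440
import Crest.Agent.R143.DtaG_277
import Crest.Agent.R143.FactJ_432
import Crest.Agent.R143.RevE_389

/-!
# Row 143 (S0194), block H, H5 (helper162): the fields `look`, `frees`, `rbf` of 440's facts

* `Cl0` : 432's `Lp0` with the period `N` (closed walk through `p0`), hull class; `Cl0.mod`
* `scol_chi` : 829's `scol` and 304's `chiS` agree on the inner cells
* **`Cl0.tg`** : from any state of the loop: `Tg` (440) for `chiS` / `scol`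
* `Ru` : revealed sites of the full record and of the three boxes; `ru_stop`, `ru_box` (`rbf`)
* **`Cl0.coins_look`** : the coins of the left and right cells of the loop are revealed;
  **`Cl0.frees_box`, `Cl0.frees_u`, `Cl0.frees`** : the free sites of a pattern are not revealed
* `cl0_clo` : `Cl0` for 503's `Clo`; **`fb_of`, `fb_clo`** : 440's `Fb` from `Cl0` and 277's `Geo`
-/

set_option autoImplicit false
set_option linter.unusedSectionVars false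

noncomputable section

open scoped Classical

namespace Crest.Agent.R143.FcIx162

open Crest.Agent.R143.B0x346 Crest.Agent.R143.DelGx806 Crest.Agent.R143.DelRx806
  Crest.Agent.R143.JColx54
open Crest.Agent.R143.Frame1x395 Crest.Agent.R143.Frame2x395 Crest.Agent.R143.Frame3x395
  Crest.Agent.R143.Frame4x395 Crest.Agent.R143.Frame8x395 Crest.Agent.R143.Frame9x395
  Crest.Agent.R143.Frame10x395 Crest.Agent.R143.C2SCx395 Crest.Agent.R143.C2SDx395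
open Crest.Agent.R143.NonXx592 (P P_occ)
open Crest.Agent.R143.GiantEx197 (Ek Eg ek_step ek_off ek_ind h0_ek hull_mem nb_mem)
open Crest.Agent.R143.FactIx432 (dart_mem)
open Crest.Agent.R143.NetUx346 (ff Ey TS mem_ff)
open Crest.Agent.R143.FinCx811 (Cs rc0 cell_mem)
open Crest.Agent.R143.SmallAx304
open Crest.Agent.R143.Freshx829 (scol Inn rep rep_spec rep_eq)
open Crest.Agent.R143.K33x877 (fr CtrX)
open Crest.Agent.R143.K33x137 (Cn Ed)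
open Crest.Agent.R143.Harx315 (IsStop)
open Crest.Agent.R143.Histx389 (DecF)
open Crest.Agent.R143.HRevx432
open Crest.Agent.R143.RevCx389 (Rg Xs Fs Cw Ra ra_stop xs_ind)
open Crest.Agent.R143.RevAx389 (Lk cl_lk cl_ind)
open Crest.Agent.R143.Exitx707 (Nb nb_symm)
open Crest.Agent.R143.DtaRx440 Crest.Agent.R143.DtaBx440 Crest.Agent.R143.S1x828
open Crest.Agent.R143.Patx828 (Rg3 Gc Wc AP)

variable {S β : Finset ℂ} {hS : GP (S : Set ℂ)} {h3 : 3 ≤ S.card} {G : Rg (D0 S) (Cs hS)} {u : ℂ}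
  {p0 : D0 S} {N : ℕ}

/-- **a closed walk with 432's data** -/
structure Cl0 (hS : GP (S : Set ℂ)) (h3 : 3 ≤ S.card) (G : Rg (D0 S) (Cs hS)) (β : Finset ℂ)
    (u : ℂ) (p0 : D0 S) (N : ℕ) : Prop where
  L : Lp0 (rc0 hS) G (chiS hS h3 β) p0 N
  hu : OnHull S u
  hG : G.h0.1 = Quot.mk _ u
  pos : 0 < N
  per : P (rc0 hS) (cfg (rc0 hS) (chiS hS h3 β)) p0 N = p0

/-! ### colours -/

/-- an inner cell and its site -/
theorem inn_rp {q : Cs hS} (hq : Inn hS q) : (rp hS h3 q).1 = rep hS q := by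
  obtain ⟨h1, h2, h4⟩ := rep_spec hq
  have e : q = FinCx811.cs hS h3 ⟨rep hS q, h1⟩ := Subtype.ext h2
  have h5 := congrArg (fun c => (rp hS h3 c).1) e
  refine h5.trans ?_
  show (rp hS h3 (FinCx811.cs hS h3 ⟨rep hS q, h1⟩)).1 = _
  rw [rp_inner hS h3 (v := ⟨rep hS q, h1⟩) h4]

/-- **`scol` and `chiS` agree on the inner cells** -/
theorem scol_chi {q : Cs hS} (hq : Inn hS q) :
    scol hS (β : Set ℂ) q = chiS hS h3 β q := by
  unfold Freshx829.scol chiS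
  rw [inn_rp (h3 := h3) hq]
  by_cases h : rep hS q ∈ β
  · rw [if_pos ⟨hq, Finset.mem_coe.2 h⟩, if_pos h]
  · rw [if_neg fun h' => h (Finset.mem_coe.1 h'.2), if_neg h]

/-- a white cell is white in both -/
theorem scol_chi_white {q : Cs hS} (hq : chiS hS h3 β q = 0) :
    scol hS (β : Set ℂ) q = chiS hS h3 β q := by
  by_cases h : Inn hS q
  · exact scol_chi h
  · rw [hq]
    unfold Freshx829.scol
    rw [if_neg fun h' => h h'.1]

/-- a record (arm box): its hull cell is outside, its `Far` and `Ann` are off the left cells -/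
structure Bx0 (hS : GP (S : Set ℂ)) (h3 : 3 ≤ S.card) (G' : Rg (D0 S) (Cs hS)) (β : Finset ℂ)
    (h0' : Cs hS) (p0 : D0 S) (N : ℕ) : Prop where
  h0 : G'.h0 ∈ Ek (rc0 hS) h0' (GiantEx197.Lf (rc0 hS) (cfg (rc0 hS) (chiS hS h3 β)) p0 N)
  off : ∀ j ≤ N, (rc0 hS).cell (P (rc0 hS) (cfg (rc0 hS) (chiS hS h3 β)) p0 j) ∉ G'.Far ∧
    (rc0 hS).cell (P (rc0 hS) (cfg (rc0 hS) (chiS hS h3 β)) p0 j) ∉ G'.Ann

/-! ### the exploration: full record and boxes -/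

/-- **the revealed sites** of the full record `G` and of the boxes `Gk` -/
def Ru (hS : GP (S : Set ℂ)) (h3 : 3 ≤ S.card) (G : Rg (D0 S) (Cs hS))
    (Gk : ZMod 3 → Rg (D0 S) (Cs hS)) (b : Finset ℂ) : Finset ℂ :=
  Ra (rc0 hS) G S (chiS hS h3) (Kc hS h3) b ∪
    (Finset.univ : Finset (ZMod 3)).biUnion fun k => Ra (rc0 hS) (Gk k) S (chiS hS h3) (Kc hS h3) b

variable {Gk : ZMod 3 → Rg (D0 S) (Cs hS)}

theorem ru_full : Ra (rc0 hS) G S (chiS hS h3) (Kc hS h3) β ⊆ Ru hS h3 G Gk β :=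
  Finset.subset_union_left

/-- **field `rbf`** -/
theorem ru_box (k : ZMod 3) :
    Ra (rc0 hS) (Gk k) S (chiS hS h3) (Kc hS h3) β ⊆ Ru hS h3 G Gk β :=
  (Finset.subset_biUnion_of_mem (fun k => Ra (rc0 hS) (Gk k) S (chiS hS h3) (Kc hS h3) β)
    (Finset.mem_univ k)).trans Finset.subset_union_right

/-- **it is a stopping set** -/
theorem ru_stop : IsStop S (Ru hS h3 G Gk) where
  sub b hb := Finset.union_subset ((ra_stop (coins_rc hS h3) (kc_sub hS h3)).sub b hb)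
    (Finset.biUnion_subset.2 fun _ _ => (ra_stop (coins_rc hS h3) (kc_sub hS h3)).sub b hb)
  stop b b' hb hb' h := by
    have h1 : ∀ G', Ra (rc0 hS) G' S (chiS hS h3) (Kc hS h3) b ⊆ Ru hS h3 G Gk b →
        Ra (rc0 hS) G' S (chiS hS h3) (Kc hS h3) b' =
          Ra (rc0 hS) G' S (chiS hS h3) (Kc hS h3) b := fun G' hs =>
      (ra_stop (coins_rc hS h3) (kc_sub hS h3)).stop b b' hb hb' (Histx389.inter_sub h hs)
    unfold Ru
    rw [h1 G ru_full]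
    congr 1
    refine Finset.biUnion_congr rfl fun k _ => h1 (Gk k) (ru_box k)

/-- boxes which are parts of the full record (389's `Le`) reveal nothing new -/
theorem ru_le (h : ∀ k, RevEx389.Le (Gk k) G) :
    Ru hS h3 G Gk β = Ra (rc0 hS) G S (chiS hS h3) (Kc hS h3) β := by
  unfold Ru
  rw [Finset.union_eq_left]
  exact Finset.biUnion_subset.2 fun k _ => (h k).ra

namespace Cl0

variable (C : Cl0 hS h3 G β u p0 N)

include C

/-! ### the states -/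

theorem mod (j : ℕ) : P (rc0 hS) (cfg (rc0 hS) (chiS hS h3 β)) p0 (j % N) =
    P (rc0 hS) (cfg (rc0 hS) (chiS hS h3 β)) p0 j :=
  Function.IsPeriodicPt.iterate_mod_apply (f := stp (rc0 hS) (cfg (rc0 hS) (chiS hS h3 β))) C.per j

theorem off (j : ℕ) : ¬ OnHull S (P (rc0 hS) (cfg (rc0 hS) (chiS hS h3 β)) p0 j).1.1 := by
  intro hh
  rw [← C.mod j] at hh
  refine (C.L.off (j % N) (Nat.mod_lt _ C.pos).le).1 ?_
  have h2 : (rc0 hS).cell (P (rc0 hS) (cfg (rc0 hS) (chiS hS h3 β)) p0 (j % N)) = G.h0 := by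
    apply Subtype.ext
    rw [C.hG]
    exact hull_mem hS h3 C.hu hh
  rw [h2]
  exact C.L.h0

/-- the left cells are inner cells -/
theorem inn (j : ℕ) : Inn hS ((rc0 hS).cell (P (rc0 hS) (cfg (rc0 hS) (chiS hS h3 β)) p0 j)) :=
  ⟨_, (dart_mem _).1, rfl, C.off j⟩

theorem add (t v : ℕ) : P (rc0 hS) (cfg (rc0 hS) (chiS hS h3 β))
    (P (rc0 hS) (cfg (rc0 hS) (chiS hS h3 β)) p0 t) v =
      P (rc0 hS) (cfg (rc0 hS) (chiS hS h3 β)) p0 (v + t) :=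
  (Function.iterate_add_apply _ v t p0).symm

theorem occ (t : ℕ) : cfg (rc0 hS) (chiS hS h3 β)
    (P (rc0 hS) (cfg (rc0 hS) (chiS hS h3 β)) p0 t) = 1 := P_occ (cfg_isC _) C.L.occ t

/-- **the colourings agree on the loop** -/
theorem tg (t : ℕ) : Tg (rc0 hS) (chiS hS h3 β) (scol hS (β : Set ℂ))
    (P (rc0 hS) (cfg (rc0 hS) (chiS hS h3 β)) p0 t) := by
  intro v
  rw [C.add]
  exact ⟨scol_chi (C.inn _), scol_chi_white (C.L.white _)⟩

/-- **the states of `scol`** -/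
theorem walk (t v : ℕ) : P (rc0 hS) (cfg (rc0 hS) (scol hS (β : Set ℂ)))
    (P (rc0 hS) (cfg (rc0 hS) (chiS hS h3 β)) p0 t) v =
      P (rc0 hS) (cfg (rc0 hS) (chiS hS h3 β)) p0 (v + t) :=
  ((C.tg t).walk (C.occ t) v).trans (C.add t v)

/-! ### looked cells -/

/-- **the site of a looked cell is revealed** -/
theorem lk_of {c : Cs hS} (hc : Inn hS c)
    (h : c ∈ Lk (Nb (rc0 hS)) G.Ann (Xs (rc0 hS) G (chiS hS h3 β)) ∨
      c ∈ Lk (Nb (rc0 hS)) G.Dw (Cw (rc0 hS) G (chiS hS h3 β))) :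
    rep hS c ∈ Ra (rc0 hS) G S (chiS hS h3) (Kc hS h3) β :=
  mem_ra.2 ⟨c, inn_rp hc, h⟩

theorem lk_left (j : ℕ) : (rc0 hS).cell (P (rc0 hS) (cfg (rc0 hS) (chiS hS h3 β)) p0 j) ∈
    Lk (Nb (rc0 hS)) G.Dw (Cw (rc0 hS) G (chiS hS h3 β)) := by
  rw [← C.mod j]
  exact C.L.lf_lk (Nat.mod_lt _ C.pos).le

theorem cw_right (j : ℕ) :
    (rc0 hS).cell ((rc0 hS).rho (P (rc0 hS) (cfg (rc0 hS) (chiS hS h3 β)) p0 j)) ∈
      Cw (rc0 hS) G (chiS hS h3 β) := by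
  rw [← C.mod j]
  exact C.L.rcw (Nat.mod_lt _ C.pos).le

theorem lk_right (j : ℕ) :
    (rc0 hS).cell ((rc0 hS).rho (P (rc0 hS) (cfg (rc0 hS) (chiS hS h3 β)) p0 j)) ∈
      Lk (Nb (rc0 hS)) G.Ann (Xs (rc0 hS) G (chiS hS h3 β)) ∨
    (rc0 hS).cell ((rc0 hS).rho (P (rc0 hS) (cfg (rc0 hS) (chiS hS h3 β)) p0 j)) ∈
      Lk (Nb (rc0 hS)) G.Dw (Cw (rc0 hS) G (chiS hS h3 β)) := by
  rcases cl_lk (C.cw_right j) with h | h
  · left
    obtain ⟨h1, -, a, h2, h4⟩ := h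
    exact ⟨h1, a, h2, h4⟩
  · exact Or.inr h

/-- **the coins of the left and right cells of the loop are revealed** -/
theorem coins_look {Rf : Finset ℂ} (hR : Ra (rc0 hS) G S (chiS hS h3) (Kc hS h3) β ⊆ Rf) (j : ℕ) :
    Kc hS h3 ((rc0 hS).cell (P (rc0 hS) (cfg (rc0 hS) (chiS hS h3 β)) p0 j)) ⊆ Rf ∧
    Kc hS h3 ((rc0 hS).cell ((rc0 hS).rho (P (rc0 hS) (cfg (rc0 hS) (chiS hS h3 β)) p0 j))) ⊆
      Rf := by
  unfold Kc
  rw [Finset.singleton_subset_iff, Finset.singleton_subset_iff]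
  exact ⟨hR (mem_ra.2 ⟨_, rfl, Or.inr (C.lk_left j)⟩), hR (mem_ra.2 ⟨_, rfl, C.lk_right j⟩)⟩

/-! ### the free sites -/

theorem h0_off : G.h0 ∉ GiantEx197.Lf (rc0 hS) (cfg (rc0 hS) (chiS hS h3 β)) p0 N :=
  fun h => (C.L.lf_off h).1 C.L.h0

/-- **the left cells** -/
theorem lf_iff (t : ℕ) (q : Cs hS) :
    q ∈ Patx828.Lf (rc0 hS) (cfg (rc0 hS) (chiS hS h3 β))
      (P (rc0 hS) (cfg (rc0 hS) (chiS hS h3 β)) p0 t) ↔
    q ∈ GiantEx197.Lf (rc0 hS) (cfg (rc0 hS) (chiS hS h3 β)) p0 N := by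
  constructor
  · rintro ⟨v, rfl⟩
    refine ⟨(v + t) % N, (Nat.mod_lt _ C.pos).le, ?_⟩
    rw [C.mod]
    show _ = (rc0 hS).cell (P (rc0 hS) (cfg (rc0 hS) (chiS hS h3 β)) _ v)
    rw [C.add]
  · rintro ⟨j, -, rfl⟩
    have hN := C.pos
    refine ⟨j + t * N - t, ?_⟩
    show (rc0 hS).cell (P (rc0 hS) (cfg (rc0 hS) (chiS hS h3 β)) _ (j + t * N - t)) = _
    rw [C.add, Nat.sub_add_cancel (by nlinarith), ← C.mod (j + t * N), Nat.add_mul_mod_self_right,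
      C.mod]

/-- **the explored outside is in 828's outside** -/
theorem ek_wc (t : ℕ) {q : Cs hS}
    (hq : q ∈ Ek (rc0 hS) G.h0 (GiantEx197.Lf (rc0 hS) (cfg (rc0 hS) (chiS hS h3 β)) p0 N)) :
    q ∈ Wc (rc0 hS) (cfg (rc0 hS) (chiS hS h3 β))
      (P (rc0 hS) (cfg (rc0 hS) (chiS hS h3 β)) p0 t) := by
  set Kc' := GiantEx197.Lf (rc0 hS) (cfg (rc0 hS) (chiS hS h3 β)) p0 N with hKc
  set p' := P (rc0 hS) (cfg (rc0 hS) (chiS hS h3 β)) p0 t with hp'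
  have hlf : ∀ q : Cs hS, q ∈ Patx828.Lf (rc0 hS) (cfg (rc0 hS) (chiS hS h3 β)) p' ↔ q ∈ Kc' :=
    C.lf_iff t
  have key : ∀ b ∈ Ek (rc0 hS) G.h0 Kc',
      (b ∈ Wc (rc0 hS) (cfg (rc0 hS) (chiS hS h3 β)) p' ↔
        G.h0 ∈ Wc (rc0 hS) (cfg (rc0 hS) (chiS hS h3 β)) p') := by
    refine ek_ind Iff.rfl ?_
    intro a b ha ih hab hb
    obtain ⟨e, rfl, rfl⟩ := hab
    have ha' := ek_off C.h0_off ha
    have n1 : (rc0 hS).cell e ∉ Patx828.Lf (rc0 hS) (cfg (rc0 hS) (chiS hS h3 β)) p' :=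
      fun h => ha' ((hlf _).1 h)
    have n2 : (rc0 hS).cell ((rc0 hS).rho e) ∉
        Patx828.Lf (rc0 hS) (cfg (rc0 hS) (chiS hS h3 β)) p' := fun h => hb ((hlf _).1 h)
    have he : Ed (rc0 hS) ((rc0 hS).cell e) ((rc0 hS).cell ((rc0 hS).rho e)) := ⟨e, rfl, rfl⟩
    exact ⟨fun h => ih.1 (Patx828.wc_nb h n1 he.symm), fun h => Patx828.wc_nb (ih.2 h) n2 he⟩
  have hr : (rc0 hS).cell ((rc0 hS).rho p') ∈ Ek (rc0 hS) G.h0 Kc' := C.L.cw_ek (C.cw_right t)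
  have h1 : (rc0 hS).cell ((rc0 hS).rho p') ∈ Wc (rc0 hS) (cfg (rc0 hS) (chiS hS h3 β)) p' :=
    ⟨fun h => ek_off C.h0_off hr ((hlf _).1 h), Relation.EqvGen.refl _⟩
  exact (key _ hq).2 ((key _ hr).1 h1)

/-- **the looked cells of any record whose `Far`, `Ann` are off the left cells are in the giant** -/
theorem lk_eg {G' : Rg (D0 S) (Cs hS)} (B : Bx0 hS h3 G' β G.h0 p0 N) {c : Cs hS}
    (hc : c ∈ Lk (Nb (rc0 hS)) G'.Ann (Xs (rc0 hS) G' (chiS hS h3 β)) ∨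
      c ∈ Lk (Nb (rc0 hS)) G'.Dw (Cw (rc0 hS) G' (chiS hS h3 β))) :
    c ∈ Eg (rc0 hS) G.h0 (GiantEx197.Lf (rc0 hS) (cfg (rc0 hS) (chiS hS h3 β)) p0 N) := by
  have hX : ∀ c ∈ Xs (rc0 hS) G' (chiS hS h3 β), c ∈ Ek (rc0 hS) G.h0
      (GiantEx197.Lf (rc0 hS) (cfg (rc0 hS) (chiS hS h3 β)) p0 N) := by
    refine xs_ind B.h0 ?_
    intro a c _ ih h1 h2
    refine ek_step ih h1 ?_
    rintro ⟨j, hj, rfl⟩
    rcases h2 with h2 | h2
    · exact (B.off j hj).1 h2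
    · exact (B.off j hj).2 h2.1
  have hW : ∀ c ∈ Cw (rc0 hS) G' (chiS hS h3 β), c ∈ Ek (rc0 hS) G.h0
      (GiantEx197.Lf (rc0 hS) (cfg (rc0 hS) (chiS hS h3 β)) p0 N) := by
    refine cl_ind ?_ ?_
    · rintro c ⟨h1, -, a, ha, h2⟩
      refine ek_step (hX a ha) h2 ?_
      rintro ⟨j, hj, rfl⟩
      exact (B.off j hj).2 h1
    · intro a c _ ih h1 _ h4
      refine ek_step ih h1 fun h5 => ?_
      rw [C.L.lf_black h5] at h4
      exact absurd h4 (by decide)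
  rcases hc with ⟨-, a, ha, h⟩ | ⟨-, a, ha, h⟩
  · exact nb_mem (hX a ha) h
  · exact nb_mem (hW a ha) h

/-- the full exploration -/
theorem bx0 : Bx0 hS h3 G β G.h0 p0 N := ⟨h0_ek, C.L.off⟩

/-- a part of the full record (389's `Le`) -/
theorem bx_le {G' : Rg (D0 S) (Cs hS)} (h : RevEx389.Le G' G) : Bx0 hS h3 G' β G.h0 p0 N := by
  refine ⟨?_, fun j hj => ?_⟩
  · rw [← h.h0]
    exact h0_ek
  · rw [← h.far, ← h.ann]
    exact C.L.off j hj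

/-- **the free sites are not revealed**, for `chiS`, any record -/
theorem frees_box {G' : Rg (D0 S) (Cs hS)} (B : Bx0 hS h3 G' β G.h0 p0 N) (t : ℕ) {N' : ℕ}
    {r : ZMod 3 → ℕ} {k : ZMod 3}
    (X : Rg3 (rc0 hS) (chiS hS h3 β) (P (rc0 hS) (cfg (rc0 hS) (chiS hS h3 β)) p0 t) N' r) :
    Ra (rc0 hS) G' S (chiS hS h3) (Kc hS h3) β ⊆ S \ ff S (st (AP (rc0 hS)
      (cfg (rc0 hS) (chiS hS h3 β)) (P (rc0 hS) (cfg (rc0 hS) (chiS hS h3 β)) p0 t) N' r k)) := by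
  intro v hv
  obtain ⟨c, rfl, hc⟩ := mem_ra.1 hv
  refine Finset.mem_sdiff.2 ⟨(rp hS h3 c).2, fun h5 => ?_⟩
  have e : c.1 = Quot.mk (hullE S) (rp hS h3 c).1 :=
    (congrArg Subtype.val (cs_rp hS h3 c)).symm
  obtain ⟨h1, h2⟩ := X.free_lf (free_of_fr (mem_ff.1 h5) e)
  rcases C.lk_eg B hc with h | h
  · exact h2 (C.ek_wc t h)
  · exact h1 ((C.lf_iff t _).2 h)

/-- **field `frees`, for `chiS`** : the full exploration and the boxes -/
theorem frees_u {Gk : ZMod 3 → Rg (D0 S) (Cs hS)} (B : ∀ k, Bx0 hS h3 (Gk k) β G.h0 p0 N) (t : ℕ)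
    {N' : ℕ} {r : ZMod 3 → ℕ} {k : ZMod 3}
    (X : Rg3 (rc0 hS) (chiS hS h3 β) (P (rc0 hS) (cfg (rc0 hS) (chiS hS h3 β)) p0 t) N' r) :
    Ru hS h3 G Gk β ⊆ S \ ff S (st (AP (rc0 hS) (cfg (rc0 hS) (chiS hS h3 β))
      (P (rc0 hS) (cfg (rc0 hS) (chiS hS h3 β)) p0 t) N' r k)) := by
  unfold Ru
  refine Finset.union_subset (C.frees_box C.bx0 t X) ?_
  intro v hv
  obtain ⟨i, -, hi⟩ := Finset.mem_biUnion.1 hv
  exact C.frees_box (B i) t X hi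

/-- **field `frees`**, for 829's `scol` -/
theorem frees {Gk : ZMod 3 → Rg (D0 S) (Cs hS)} (B : ∀ k, Bx0 hS h3 (Gk k) β G.h0 p0 N) (t : ℕ)
    {N' : ℕ} {r : ZMod 3 → ℕ} {k : ZMod 3}
    (X : Rg3 (rc0 hS) (scol hS (β : Set ℂ)) (P (rc0 hS) (cfg (rc0 hS) (chiS hS h3 β)) p0 t) N' r) :
    Ru hS h3 G Gk β ⊆ S \ ff S (st (AP (rc0 hS) (cfg (rc0 hS) (scol hS (β : Set ℂ)))
      (P (rc0 hS) (cfg (rc0 hS) (chiS hS h3 β)) p0 t) N' r k)) := by
  have h1 := C.frees_u B t (k := k) (stab2 X ((C.tg t).symm (C.occ t)))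
  rw [ap2 (C.tg t) (C.occ t)]
  exact h1

end Cl0

/-! ### `Fc` -/

open Crest.Agent.R143.DomAx722 (Dns)
open Crest.Agent.R143.WLocx713 (HullC lift xc)
open Crest.Agent.R143.RcTx422 (scol_hull)
open Crest.Agent.R143.RingIx503 (Clo pz)
open Crest.Agent.R143.RingBx312 Crest.Agent.R143.RingCx312
open Crest.Agent.R143.SqPx503 (sqW)
open Crest.Agent.R143.TileRx228 (RR)
open Crest.Agent.R143.DtaGx277 (Geo)
open Crest.Agent.R143.Meetx707 (sr)
open Crest.Agent.R143.AnnCx707 (Lev)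
open Crest.Agent.R143.CircPx838 (sup)

variable {Dd : Finset ℂ → Dt S} {Rf : Finset ℂ → Finset ℂ} {t : ℕ}

variable {V β' : Finset ℂ} {χ : ℂ → ZMod 2} {h A B A' B' κ bb m m' τ : ℝ} {a0 a1 b0 b1 : ℝ}
  {K : ℕ} {v : ℤ × ℤ} {W : ℤ → ℤ × ℤ} {y x : ℤ → ℂ} {U : Set ℂ} {hχ : HullC S χ} {c : ℂ} {L d : ℝ}
  {H : Clo S V β' χ h A B A' B' κ bb a0 a1 b0 b1 m m' τ (4 * K) W y x U}

/-- **`Fb` (440) of one colouring** from the closed walk and the geometry of the ring (`chiS`) -/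
theorem fb_of (C : Cl0 hS h3 G β u p0 N)
    (hp : (Dd β).p = P (rc0 hS) (cfg (rc0 hS) (chiS hS h3 β)) p0 t)
    (hR : Rf β = Ru hS h3 G Gk β) (B : ∀ k, Bx0 hS h3 (Gk k) β G.h0 p0 N)
    (Gm : Geo H hS hχ (chiS hS h3 β) (Dd β).p v c L d)
    (X : Rg3 (rc0 hS) (chiS hS h3 β) (Dd β).p (Dd β).N (Dd β).r)
    (ctr : ∃ Y, CtrX S (st (AP (rc0 hS) (cfg (rc0 hS) (chiS hS h3 β)) (Dd β).p (Dd β).N
      (Dd β).r 0)) Y) :
    Fb hS Dd Rf β := by
  have T : Tg (rc0 hS) (chiS hS h3 β) (scol hS (β : Set ℂ)) (Dd β).p := by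
    rw [hp]
    exact C.tg t
  have occ : cfg (rc0 hS) (chiS hS h3 β) (Dd β).p = 1 := by
    rw [hp]
    exact C.occ t
  have eW := wc2 T occ
  refine ⟨stab2 X T, fun v => ?_, ?_, fun q w hw e => ?_, fun e he => ?_, ?_⟩
  · have e : P (rc0 hS) (cfg (rc0 hS) (scol hS (β : Set ℂ))) (Dd β).p v =
        P (rc0 hS) (cfg (rc0 hS) (chiS hS h3 β)) p0 (v + t) := by
      rw [hp, C.walk]
    rw [e, hR]
    exact ⟨fun h => ru_full (C.lk_of h (Or.inr (C.lk_left _))),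
      fun h => ru_full (C.lk_of h (C.lk_right _))⟩
  · rw [hR]
    unfold dF dA
    rw [ap2 T occ]
    rw [hp] at X ⊢
    exact C.frees_u B t X
  · rw [eW]
    exact Gm.hull q w hw e
  · rw [eW]
    exact Gm.far e he
  · unfold dA
    rw [ap2 T occ]
    exact ctr

/-! ### 503's closed ring at the colours of `chiS` -/

section clo

variable {A1 A2 : ℝ} {o : ℤ}
  (Hc : Clo S V β' (RcTx422.scol hS (chiS hS h3 β)) h A B A' B' κ bb a0 a1 b0 b1 m m' τ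
    (4 * K) W y x U)

include Hc in
theorem pz_int (j a : ℤ) :
    pz (scol_hull (chiS hS h3 β)) Hc (a + j * ((4 * K : ℕ) : ℤ)) =
      pz (scol_hull (chiS hS h3 β)) Hc a := by
  induction j using Int.induction_on generalizing a with
  | zero => rw [zero_mul, add_zero]
  | succ i ih =>
    rw [show a + ((i : ℤ) + 1) * ((4 * K : ℕ) : ℤ) =
      a + i * ((4 * K : ℕ) : ℤ) + ((4 * K : ℕ) : ℤ) by ring, Hc.pz_per]
    exact ih a
  | pred i ih =>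
    have h1 := Hc.pz_per (hχ := scol_hull (chiS hS h3 β)) (a + (-(i : ℤ) - 1) * ((4 * K : ℕ) : ℤ))
    rw [show a + (-(i : ℤ) - 1) * ((4 * K : ℕ) : ℤ) + ((4 * K : ℕ) : ℤ) =
      a + -(i : ℤ) * ((4 * K : ℕ) : ℤ) by ring] at h1
    rw [← h1]
    exact ih a

/-- **any gate is on the loop of any gate** -/
theorem reach (o o' : ℤ) : ∃ t, pz (scol_hull (chiS hS h3 β)) Hc o' =
    P (rc0 hS) (cfg (rc0 hS) (chiS hS h3 β)) (pz (scol_hull (chiS hS h3 β)) Hc o) t := by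
  obtain ⟨N, T, -, h2, -⟩ := Hc.rl hS (scol_hull (chiS hS h3 β)) o
  rw [FactIx432.cfg_scol] at h2
  have hM := Hc.M5
  have hk : ∃ k : ℕ, ∃ j : ℤ, o - k = o' + j * ((4 * K : ℕ) : ℤ) := by
    refine ⟨(o - o' + (|o| + |o'|) * ((4 * K : ℕ) : ℤ)).toNat, -(|o| + |o'|), ?_⟩
    have h3 : (0 : ℤ) ≤ o - o' + (|o| + |o'|) * ((4 * K : ℕ) : ℤ) := by
      have h4 := neg_abs_le o
      have h5 := le_abs_self o'
      have h6 := abs_nonneg o
      have h7 := abs_nonneg o'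
      have h8 : (1 : ℤ) ≤ ((4 * K : ℕ) : ℤ) := by exact_mod_cast (by omega : 1 ≤ 4 * K)
      nlinarith
    rw [Int.toNat_of_nonneg h3]
    ring
  obtain ⟨k, j, hj⟩ := hk
  refine ⟨T k, ?_⟩
  rw [← pz_int Hc j o', ← hj]
  exact (h2 k).symm

/-- **the closed walk of the ring** -/
theorem cl0_clo (Lv : Lev S (sr hS h3) G (zc h K v) A1 A2) (h12 : A1 ≤ A2)
    (hDw : ∀ w ∈ S, sup (w - zc h K v) < A1 → sr hS h3 w ∈ G.Dw) (Q : NumS h A B m τ K)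
    (hW : ∀ a, W a = sqW K a + v) (hA1 : h * K / 2 + (A + τ) ≤ A1)
    (ac : ∃ o' t, (rc0 hS).cell ((rc0 hS).rho (P (rc0 hS) (cfg (rc0 hS) (chiS hS h3 β))
      (pz (scol_hull (chiS hS h3 β)) Hc o') t)) ∈ Cw (rc0 hS) G (chiS hS h3 β))
    (hu : OnHull S u) (o : ℤ) :
    ∃ N, Cl0 hS h3 G β u (pz (scol_hull (chiS hS h3 β)) Hc o) N := by
  have hK1 : 1 ≤ K := by have := Q.K3; omega
  obtain ⟨p1, p2, p3, p4, p5⟩ := RingCx312.pos Hc
  have hRR : ∀ a, ∀ w ∈ RR (A + τ) (B + τ) h W a, sup (w - zc h K v) < A1 := fun a w hw => by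
    rw [FactJx432.sup_sp]
    have := sp_tile hK1 hW Hc.F p2 p4 p1 hw
    linarith
  obtain ⟨N, T, R, -, -, h5⟩ := FactIx432.lp0_clo Lv h12 hDw Hc hRR o
  have hper : P (rc0 hS) (cfg (rc0 hS) (chiS hS h3 β)) (pz (scol_hull (chiS hS h3 β)) Hc o) N =
      pz (scol_hull (chiS hS h3 β)) Hc o := R.L.per
  have hpos : 0 < N := R.L.pos
  have ac' : ∃ t ≤ N, (rc0 hS).cell ((rc0 hS).rho (P (rc0 hS) (cfg (rc0 hS) (chiS hS h3 β))
      (pz (scol_hull (chiS hS h3 β)) Hc o) t)) ∈ Cw (rc0 hS) G (chiS hS h3 β) := by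
    obtain ⟨o', t, ht⟩ := ac
    obtain ⟨s, hs⟩ := reach Hc o o'
    have e : P (rc0 hS) (cfg (rc0 hS) (chiS hS h3 β)) (pz (scol_hull (chiS hS h3 β)) Hc o') t =
        P (rc0 hS) (cfg (rc0 hS) (chiS hS h3 β)) (pz (scol_hull (chiS hS h3 β)) Hc o)
          ((t + s) % N) := by
      rw [hs]
      have e1 := Function.IsPeriodicPt.iterate_mod_apply
        (f := stp (rc0 hS) (cfg (rc0 hS) (chiS hS h3 β))) hper (t + s)
      exact (Function.iterate_add_apply _ t s _).symm.trans e1.symm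
    exact ⟨(t + s) % N, (Nat.mod_lt _ hpos).le, by rw [← e]; exact ht⟩
  refine ⟨N, h5 ac', hu, ?_, hpos, hper⟩
  have huS : u ∈ S := by
    obtain ⟨a, ha⟩ := hu
    exact (hullE.mem ha).2
  rw [← Lv.h0 u hu]
  unfold sr
  rw [dif_pos huS]
  rfl

/-- 277's geometry for `chiS` -/
theorem geo_chi {q : D0 S} (D : Dns S c L d) (Q : NumS h A B m τ K)
    (hW : ∀ a, W a = sqW K a + v) (hb : A + τ + d ≤ b1)
    (hin : ‖zc h K v - c‖ + 2 * (h * K / 2 + b1) ≤ L - 4 * d)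
    (hq : q = P (rc0 hS) (cfg (rc0 hS) (chiS hS h3 β)) (pz (scol_hull (chiS hS h3 β)) Hc o) t) :
    Geo Hc hS (scol_hull (chiS hS h3 β)) (chiS hS h3 β) q v c L d where
  D := D
  Q := Q
  hW := hW
  hb := hb
  hin := hin
  col := by
    intro r s hs e
    have h1 : r = FinCx811.cs hS h3 ⟨s, hs⟩ := Subtype.ext e
    rw [h1, ← RcTx422.scol_cs h3 (chiS hS h3 β) ⟨s, hs⟩]
  on := ⟨o, t, by
    rw [hq]
    show _ = P (cm0 hS) (cfg (cm0 hS) (lift S (scol_hull (chiS hS h3 β)))) _ t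
    rw [FactIx432.cfg_scol]
    rfl⟩

include Hc in
/-- **`Fb` of the square ring at one colouring.** Left: the ring data `X`, `ctr` (715's `Lo.ring`) -/
theorem fb_clo (Lv : Lev S (sr hS h3) G (zc h K v) A1 A2) (h12 : A1 ≤ A2)
    (hDw : ∀ w ∈ S, sup (w - zc h K v) < A1 → sr hS h3 w ∈ G.Dw)
    (hA1 : h * K / 2 + (A + τ) ≤ A1) (D : Dns S c L d) (Q : NumS h A B m τ K)
    (hW : ∀ a, W a = sqW K a + v) (hb : A + τ + d ≤ b1)
    (hin : ‖zc h K v - c‖ + 2 * (h * K / 2 + b1) ≤ L - 4 * d)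
    (ac : ∃ o' t, (rc0 hS).cell ((rc0 hS).rho (P (rc0 hS) (cfg (rc0 hS) (chiS hS h3 β))
      (pz (scol_hull (chiS hS h3 β)) Hc o') t)) ∈ Cw (rc0 hS) G (chiS hS h3 β))
    (hp : (Dd β).p = P (rc0 hS) (cfg (rc0 hS) (chiS hS h3 β)) (pz (scol_hull (chiS hS h3 β)) Hc o) t)
    (hle : ∀ k, RevEx389.Le (Gk k) G) (hR : Rf β = Ru hS h3 G Gk β)
    (X : Rg3 (rc0 hS) (chiS hS h3 β) (Dd β).p (Dd β).N (Dd β).r)
    (ctr : ∃ Y, CtrX S (st (AP (rc0 hS) (cfg (rc0 hS) (chiS hS h3 β)) (Dd β).p (Dd β).N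
      (Dd β).r 0)) Y) :
    Fb hS Dd Rf β := by
  obtain ⟨u, hu, -⟩ := (geo_chi Hc D Q hW hb hin hp).hull_ex
  obtain ⟨N, C⟩ := cl0_clo Hc Lv h12 hDw Q hW hA1 ac hu o
  exact fb_of C hp hR (fun k => C.bx_le (hle k)) (geo_chi Hc D Q hW hb hin hp) X ctr

end clo

end Crest.Agent.R143.FcIx162
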