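import Crest.Agent.R143.LawOm_139
import Crest.Agent.R143.CNT_930
import Crest.Agent.R143.Mab3_377
import Crest.Agent.R143.EQE3_63

/-!
# Row 143, STEP 4, number of steps, part 2 (helper139): the number of steps in one disc

* `left_conn` : the left sites of a walk of the join of a colouring are connected, with one colour
* `mid_small` : the ends of an edge are near its middle
* `arm_of_state` : a leg from outside of the disc which visits the box `B(b, s)` makes an arm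
* `NST` : strand count (leaf of helper700), literal form
* `disc_count` : average number of steps with tip in a disc
-/

set_option autoImplicit false

noncomputable section

open scoped Classical

namespace Crest.Agent.R143.StpIx139

open Crest.Agent.R143.B0x346 Crest.Agent.R143.DelGx806 Crest.Agent.R143.DelRx806
  Crest.Agent.R143.B0Dx346 Crest.Agent.R143.JColx54 Crest.Agent.R143.JCol2x54
  Crest.Agent.R143.Harx315 Crest.Agent.R143.XW1x315 Crest.Agent.R143.J8x872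
  Crest.Agent.R143.JCardx872 Crest.Agent.R143.JWalkx872 Crest.Agent.R143.J1x872
  Crest.Agent.R143.J4x872 Crest.Agent.R143.LawOmx139 Crest.Agent.R143.CNTx930
  Crest.Agent.R143.D3Fx802 Crest.Agent.R143.EQE3x63 Crest.Agent.R143.Mabx377
open Crest.Agent.R143.RB0x838 (LDns Mesh)
open Crest.Agent.R143.Lawx872 (ConnIn)
open Crest.Agent.R143.X0Bx683 (Fs)

variable {S V B : Finset ℂ} {N : Net ℂ} {k : ZMod 3} {d l R ρ : ℝ}

/-! ### the left chain -/

/-- left sites of a step -/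
theorem left_step (H : HNet S N) (hJ : IsJoin N.toTrg N.kl ∅ (Dk N k) (jn N k B)) {p q : ℂ × ℂ}
    (hp : p ∈ jn N k B) (h : Step N.toTrg ∅ (Dk N k) (jn N k B) p q) :
    q.1 = p.1 ∨ (Adj S p.1 q.1 ∧ (q.1 ∈ B ↔ p.1 ∈ B)) := by
  obtain ⟨u, hu⟩ := step_turn h
  have hne := turn_empty hJ hp hu h
  obtain ⟨c, hc, h1⟩ := hu
  rcases h1 with ⟨rfl, rfl⟩ | ⟨rfl, rfl⟩
  · right
    have ht : (p.1, p.2, c) ∈ delT S := by rw [← H.tri]; exact hc
    have ht' : (c, p.1, p.2) ∈ delT S := delT_rot H.gp (delT_rot H.gp ht)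
    have hadj : Adj S c p.1 := adj_tri ht'
    refine ⟨hadj.symm, ?_⟩
    have h2 := occ_iff H.tri (fun a b h => (dk_hull (k := k) H a b h).2) hJ ht'
    have h3 := jn_occ (k := k) (B := B) H hadj
    have h4 : ¬ (c ∈ B ↔ p.1 ∉ B) := by
      rw [← h3, h2]
      exact hne
    dsimp only
    tauto
  · left; rfl

/-- **the left sites of a walk are connected, with one colour** -/
theorem left_conn (H : HNet S N) (hJ : IsJoin N.toTrg N.kl ∅ (Dk N k) (jn N k B)) {p q : ℂ × ℂ}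
    (hp : p ∈ jn N k B) (hpS : p.1 ∈ S) (h : Leads N.toTrg ∅ (Dk N k) (jn N k B) p q) :
    (q.1 ∈ B ↔ p.1 ∈ B) ∧ q.1 ∈ S ∧ ConnIn S (if p.1 ∈ B then B else S \ B) p.1 q.1 := by
  induction h with
  | refl => exact ⟨Iff.rfl, hpS, Relation.ReflTransGen.refl⟩
  | @tail q r hpq hqr ih =>
    have hq := leads_step_mem hJ hp hpq hqr
    obtain ⟨i1, i2, i3⟩ := ih
    rcases left_step H hJ hq hqr with h1 | ⟨h1, h2⟩
    · rw [h1]; exact ⟨i1, i2, i3⟩
    · refine ⟨h2.trans i1, h1.mem.2, i3.tail ⟨h1, ?_, ?_⟩⟩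
      · split_ifs with h3
        · exact i1.2 h3
        · exact Finset.mem_sdiff.2 ⟨i2, fun h4 => h3 (i1.1 h4)⟩
      · split_ifs with h3
        · exact h2.2 (i1.2 h3)
        · exact Finset.mem_sdiff.2 ⟨h1.mem.2, fun h4 => h3 (i1.1 (h2.1 h4))⟩

/-! ### short edges -/

/-- the ends of an edge are near its middle -/
theorem mid_small {p : ℂ} (h : LDns S p R d) {u v : ℂ} (ha : Adj S u v)
    (hu : ‖mid (u, v) - p‖ + d ≤ R) : ‖u - mid (u, v)‖ < 2 * d ∧ ‖v - mid (u, v)‖ < 2 * d := by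
  have hH : Locx922.Hol (S : Set ℂ) {w | ‖w - p‖ + d ≤ R} d := by
    intro w hw z hz
    have hw' : ‖w - p‖ + d ≤ R := hw
    obtain ⟨s, hs, h1⟩ := h.hole z (by
      have := Locx922.norm_tri z w p
      linarith)
    exact ⟨s, hs, h1⟩
  have hin : ∀ a b c : ℂ, Locx922.InD (mid (a, b)) a b c := by
    intro a b c o h1 _
    have e : mid (a, b) - o = ((a - o) + (b - o)) / 2 := by
      unfold mid; ring
    rw [e, norm_div]
    have h2 := norm_add_le (a - o) (b - o)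
    have h3 : ‖(2 : ℂ)‖ = 2 := by norm_num
    rw [h3]
    linarith
  rcases ha with ⟨c, hc⟩ | ⟨c, hc⟩
  · obtain ⟨o, -, -, -, -, -, h6, h7, -⟩ := Locx922.del_small h.dpos hH
      (show mid (u, v) ∈ {w | ‖w - p‖ + d ≤ R} from hu) (hin u v c) (mem_delT.1 hc)
    exact ⟨h6, h7⟩
  · have e : mid (u, v) = mid (v, u) := by unfold mid; ring
    rw [e] at hu ⊢
    obtain ⟨o, -, -, -, -, -, h6, h7, -⟩ := Locx922.del_small h.dpos hH
      (show mid (v, u) ∈ {w | ‖w - p‖ + d ≤ R} from hu) (hin v u c) (mem_delT.1 hc)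
    exact ⟨h7, h6⟩

/-! ### the arm -/

theorem join_jn (H : HNet S N) (hB : B ∈ Ck S N k) :
    IsJoin N.toTrg N.kl ∅ (Dk N k) (jn N k B) := mem_Omk.1 (jn_mem H hB)

/-- **a leg which visits the box makes an arm** -/
theorem arm_of_state {z b : ℂ} {Rw s : ℝ} (W : Wd S N z Rw d) (hB : B ∈ Ck S N k) {e0 q : ℂ × ℂ}
    (he0 : e0 ∈ Dk N k) (h : Leads N.toTrg ∅ (Dk N k) (jn N k B) e0 q)
    (hq : ‖mid q - b‖ ≤ s) (hs : s + 2 * d ≤ l) (hlR : l < R)
    (hw : ‖b - z‖ + R + 2 * d < Rw) : Arm2 S (Fs S z Rw) b l R (B ∩ Fs S z Rw) := by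
  have H := W.hnet
  have hJ := join_jn H hB
  have hd := W.dns.dpos
  have he1 := dk_hull H e0.1 e0.2 he0
  have he0J : e0 ∈ jn N k B := (hJ.mark e0.1 e0.2 he0).1
  have heS : e0.1 ∈ S := (hullE.mem he1).1
  obtain ⟨c1, c2, c3⟩ := left_conn H hJ he0J heS h
  -- `q` is an edge
  have hqA : Adj S q.1 q.2 := by
    rcases leads_mem hJ he0J h with h1 | h1
    · exact (mem_E H.tri).1 (hJ.sub h1)
    · exact (Or.inl (dk_hull H _ _ h1).1 : Adj S q.2 q.1).symm
  have hball : ∀ w : ℂ, ‖w - b‖ ≤ R + 2 * d → ‖w - z‖ < Rw := by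
    intro w hw'
    have := Locx922.norm_tri w b z
    linarith
  have hbR : LDns S b (R + 2 * d) d := by
    refine ⟨W.dns.gp, hd, fun w hw' => W.dns.hole w ?_⟩
    linarith [hball w hw']
  obtain ⟨m1, -⟩ := mid_small hbR hqA (by
    show ‖mid q - b‖ + d ≤ R + 2 * d
    linarith)
  have hq1 : ‖q.1 - b‖ ≤ l := by
    have := Locx922.norm_tri q.1 (mid q) b
    have e : mid (q.1, q.2) = mid q := rfl
    rw [e] at m1
    linarith
  -- the start is far
  have hfar : R ≤ ‖e0.1 - b‖ := by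
    by_contra hcon
    push Not at hcon
    exact (W.inner e0.1 e0.2 (hball _ (by linarith))).1 he1
  have hst : ∀ u v, Adj S u v → ‖u - b‖ < R → ‖v - u‖ ≤ 2 * d := fun u v huv hu =>
    (ArmPx930.adj_small hbR huv (by linarith)).le
  have key : ∀ A : Finset ℂ, A ⊆ S → q.1 ∈ A → ConnIn S A q.1 e0.1 →
      CArm S (A ∩ Fs S z Rw) b l R := by
    intro A hAS hqA' hc
    obtain ⟨x', y', k1, k2, k3, k4, k5⟩ := extract (S := S) (β := A) (p := b) (a := l)
      (b := R) (e := 2 * d) hlR hst hqA' hq1 hfar hc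
    have hsub : (A.filter fun s => l - 2 * d ≤ ‖s - b‖ ∧ ‖s - b‖ ≤ R + 2 * d) ⊆
        A ∩ Fs S z Rw := by
      intro x hx
      rw [Finset.mem_filter] at hx
      exact Finset.mem_inter.2 ⟨hx.1, Finset.mem_filter.2 ⟨hAS hx.1, hball x hx.2.2⟩⟩
    exact ⟨x', y', hsub k1, hsub k2, k3, k4, conn_mono hsub k5⟩
  have hBS : B ⊆ S := Finset.mem_powerset.1 (Finset.mem_filter.1 hB).1
  by_cases h0 : e0.1 ∈ B
  · rw [if_pos h0] at c3
    exact Or.inl (key B hBS (c1.2 h0) c3.symm)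
  · rw [if_neg h0] at c3
    right
    have h1 := key (S \ B) Finset.sdiff_subset (Finset.mem_sdiff.2 ⟨c2, fun h2 => h0 (c1.1 h2)⟩)
      c3.symm
    refine carm_mono ?_ h1
    intro x hx
    rw [Finset.mem_inter, Finset.mem_sdiff] at hx
    rw [Finset.mem_sdiff, Finset.mem_inter]
    exact ⟨hx.2, fun h3 => hx.1.2 h3.1⟩

/-! ### the number of steps in a disc -/

/-- states with tip in a disc -/
def cnt (N : Net ℂ) (l : ℝ) (J : Finset (ℂ × ℂ)) (m : ℕ) (b : ℂ) (s : ℝ) : ℕ :=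
  ((Finset.range m).filter fun j => ‖mid (xs N l J j).2 - b‖ ≤ s).card

/-- **strand count** (leaf NST, helper700) : literal form, with the second moment -/
def NST2 : Prop := ∀ C4 : ℝ, 0 ≤ C4 → ∃ C0 c1 c2 K : ℝ, 0 < c1 ∧ 0 < c2 ∧ c2 ≤ 1 ∧ 1 ≤ K ∧
  ∀ (S : Finset ℂ) (b : ℂ) (d l : ℝ), 0 < l → LDns S b (K * l) d →
    (∀ x, c2 * l ≤ x → x ≤ l → Mesh S b (K * l) x C4) → d ≤ c1 * l →
    ∃ X : Finset ℂ → ℝ, (∀ β, 0 ≤ X β) ∧ (∀ β, X β = X (β.filter fun s => ‖s - b‖ < l)) ∧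
      (∀ V ⊆ S, (∀ s ∈ S, ‖s - b‖ < l → s ∈ V) →
        ex V X ≤ C0 ∧ ex V (fun β => X β ^ 2) ≤ C0) ∧
      ∀ N : Net ℂ, HNet S N →
        (∀ a x, ‖a - b‖ < K * l → (a, x) ∉ N.kl ∧ ¬ hullE S a x ∧ ¬ hullE S x a) →
        ∀ B ∈ Ck S N 2, ∀ m, (cnt N l (jn N 2 B) m b (l / 10) : ℝ) ≤ X B

/-- **the number of steps in a disc**, deterministic bound and moments -/
theorem disc (hN : NST2) : ∀ C4 : ℝ, 0 ≤ C4 → ∃ C c c1 c2 K : ℝ, 0 < C ∧ 0 < c ∧ 0 < c1 ∧ 0 < c2 ∧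
    c2 ≤ 1 ∧ 1 ≤ K ∧ ∀ (S : Finset ℂ) (N : Net ℂ) (z : ℂ) (Rw d l ρ R : ℝ), Wd S N z Rw d → 0 < l →
    l / 10 ≤ ρ → 2 * l ≤ R → 4 * ρ + K * R ≤ Rw →
    (∀ x, c2 * l ≤ x → x ≤ R → Mesh S z Rw x C4) → d ≤ c1 * l →
    ∃ F : Finset ℂ → ℝ, (∀ β, 0 ≤ F β) ∧ (∀ β, β ⊆ S → F β = F (β ∩ Fs S z Rw)) ∧
      (∀ B ∈ Ck S N 2, ∀ m, (cnt N l (jn N 2 B) m z ρ : ℝ) ≤ F B) ∧
      ex (Fs S z Rw) F ≤ C * (ρ / l) ^ 2 * (l / R) ^ c ∧
      ex (Fs S z Rw) (fun β => F β ^ 2) ≤ C * (ρ / l) ^ 4 := by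
  intro C4 hC4
  obtain ⟨C0, a1, a2, Ka, ha1, ha2, ha2', hKa, HA⟩ := hN C4 hC4
  obtain ⟨C, c, b1, b2, Kb, hC, hc, hb1, hb2, hb2', hKb, HB⟩ := sum_grid C4 hC4
  refine ⟨6250000 * (C + 1) * (|C0| + 1), c, min (min a1 b1) (1 / 8), min a2 b2,
    max (max Ka Kb) 2, by positivity, hc, by positivity, by positivity,
    (min_le_left _ _).trans ha2', le_trans (by norm_num) (le_max_right _ _), ?_⟩
  intro S N z Rw d l ρ R W hl hsρ hlR hRw hM hd
  have H := W.hnet
  have hdp := W.dns.dpos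
  have hR : 0 < R := by linarith
  have hρ : 0 < ρ := by linarith
  set V := Fs S z Rw with hV
  have hVS : V ⊆ S := Finset.filter_subset _ _
  set s := l / 10 with hs
  have hs0 : 0 < s := by positivity
  set K := max (max Ka Kb) 2 with hK
  have k1 : Ka ≤ K := (le_max_left _ _).trans (le_max_left _ _)
  have k2 : Kb ≤ K := (le_max_right _ _).trans (le_max_left _ _)
  have k3 : 2 ≤ K := le_max_right _ _
  have d1 : d ≤ a1 * l := hd.trans (mul_le_mul_of_nonneg_right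
    ((min_le_left _ _).trans (min_le_left _ _)) hl.le)
  have d2 : d ≤ b1 * l := hd.trans (mul_le_mul_of_nonneg_right
    ((min_le_left _ _).trans (min_le_right _ _)) hl.le)
  have d3 : d ≤ 1 / 8 * l := hd.trans (mul_le_mul_of_nonneg_right (min_le_right _ _) hl.le)
  have q1 : Ka * l ≤ K * R := by
    calc Ka * l ≤ K * l := mul_le_mul_of_nonneg_right k1 hl.le
      _ ≤ K * R := mul_le_mul_of_nonneg_left (by linarith) (by linarith)
  have q2 : Kb * R ≤ K * R := mul_le_mul_of_nonneg_right k2 hR.le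
  have q3 : 2 * R ≤ K * R := mul_le_mul_of_nonneg_right k3 hR.le
  have gn : ∀ b ∈ grid z ρ s, ‖b - z‖ ≤ 4 * ρ := fun b hb => by
    have := grid_near hs0 hb
    linarith
  have hin : ∀ b ∈ grid z ρ s, ∀ w : ℂ, ‖w - b‖ ≤ Ka * l → ‖w - z‖ ≤ Rw := by
    intro b hb w hw
    have := Locx922.norm_tri w b z
    have := gn b hb
    linarith
  -- the counts
  have hex : ∀ b ∈ grid z ρ s, ∃ X : Finset ℂ → ℝ, (∀ β, 0 ≤ X β) ∧
      (∀ β, X β = X (β.filter fun s => ‖s - b‖ < l)) ∧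
      (∀ V ⊆ S, (∀ s ∈ S, ‖s - b‖ < l → s ∈ V) → ex V X ≤ C0 ∧ ex V (fun β => X β ^ 2) ≤ C0) ∧
      ∀ B ∈ Ck S N 2, ∀ m, (cnt N l (jn N 2 B) m b (l / 10) : ℝ) ≤ X B := by
    intro b hb
    obtain ⟨X, x1, x2, x3, x4⟩ := HA S b d l hl
      ⟨W.dns.gp, hdp, fun w hw => W.dns.hole w (by linarith [hin b hb w hw])⟩
      (fun x hx1 hx2 w hw => hM x ((mul_le_mul_of_nonneg_right (min_le_left _ _) hl.le).trans hx1)
        (by linarith) w (hin b hb w hw)) d1
    refine ⟨X, x1, x2, x3, x4 N H ?_⟩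
    intro a x ha
    have ha' : ‖a - z‖ < Rw := by
      have := Locx922.norm_tri a b z
      have := gn b hb
      linarith
    exact ⟨W.live a x ha', W.inner a x ha'⟩
  choose! X x1 x2 x3 x4 using hex
  have hVb : ∀ b ∈ grid z ρ s, ∀ x ∈ S, ‖x - b‖ < l → x ∈ V := by
    intro b hb x hx hxb
    refine Finset.mem_filter.2 ⟨hx, ?_⟩
    have := Locx922.norm_tri x b z
    have := gn b hb
    linarith
  have hXV : ∀ b ∈ grid z ρ s, ∀ β, β ⊆ S → X b β = X b (β ∩ V) := by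
    intro b hb β hβ
    rw [x2 b hb β, x2 b hb (β ∩ V)]
    congr 1
    ext x
    rw [Finset.mem_filter, Finset.mem_filter, Finset.mem_inter]
    constructor
    · rintro ⟨h1, h2⟩; exact ⟨⟨h1, hVb b hb x (hβ h1) h2⟩, h2⟩
    · rintro ⟨h1, h2⟩; exact ⟨h1.1, h2⟩
  set F : Finset ℂ → ℝ := fun β => ∑ b ∈ grid z ρ s, X b β *
    (if Arm2 S V b l R (β ∩ V) then 1 else 0) with hF
  have hind : ∀ P : Prop, 0 ≤ (if P then (1 : ℝ) else 0) ∧ (if P then (1 : ℝ) else 0) ≤ 1 := by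
    intro P; split_ifs <;> norm_num
  have hC0 : 0 ≤ |C0| := abs_nonneg _
  have hρs : ρ / s = 10 * (ρ / l) := by rw [hs]; field_simp
  have hpos : 0 ≤ ρ / l := by positivity
  refine ⟨F, ?_, ?_, ?_, ?_, ?_⟩
  · intro β
    exact Finset.sum_nonneg fun b hb => mul_nonneg (x1 b hb β) (hind _).1
  · intro β hβ
    rw [hF]
    refine Finset.sum_congr rfl fun b hb => ?_
    rw [hXV b hb β hβ, Finset.inter_assoc, Finset.inter_self]
  · intro B hB m
    have hJ := jn_mem H hB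
    have h1 : ((Finset.range m).filter fun j => ‖mid (xs N l (jn N 2 B) j).2 - z‖ ≤ ρ) ⊆
        (grid z ρ s).biUnion fun b =>
          (Finset.range m).filter fun j => ‖mid (xs N l (jn N 2 B) j).2 - b‖ ≤ s := by
      intro j hj
      rw [Finset.mem_filter] at hj
      obtain ⟨b, hb, hb'⟩ := grid_cover hs0 hj.2
      exact Finset.mem_biUnion.2 ⟨b, hb, Finset.mem_filter.2 ⟨hj.1, hb'⟩⟩
    have h2 : (cnt N l (jn N 2 B) m z ρ : ℝ) ≤
        ∑ b ∈ grid z ρ s, (cnt N l (jn N 2 B) m b s : ℝ) := by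
      have := (Finset.card_le_card h1).trans Finset.card_biUnion_le
      unfold cnt
      exact_mod_cast this
    refine h2.trans (Finset.sum_le_sum fun b hb => ?_)
    by_cases h0 : cnt N l (jn N 2 B) m b s = 0
    · rw [h0]
      simpa using mul_nonneg (x1 b hb B) (hind (Arm2 S V b l R (B ∩ V))).1
    · have h3 : Arm2 S V b l R (B ∩ V) := by
        obtain ⟨j, hj⟩ := Finset.card_pos.1 (Nat.pos_of_ne_zero h0)
        rw [Finset.mem_filter] at hj
        refine arm_of_state (k := 2) (s := s) W hB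
          (Mabx377.ex0_mem N (good_of_hnet H)) (q := (xs N l (jn N 2 B) j).2) ?_ hj.2
          (by rw [hs]; linarith) (by linarith) ?_
        · exact fol_leads _ _ _ (xs_fol (good_of_hnet H) hJ j)
        · have := gn b hb
          linarith
      rw [if_pos h3, mul_one]
      exact x4 b hb B hB m
  · have h1 := HB S z d l s ρ R hs0 (by rw [hs]; linarith) hsρ hlR
      ⟨W.dns.gp, hdp, fun w hw => W.dns.hole w (by linarith)⟩
      (fun x hx1 hx2 w hw => hM x ((mul_le_mul_of_nonneg_right (min_le_right _ _) hl.le).trans hx1)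
        hx2 w (by linarith)) d2 V hVS |C0| X F (fun b hb β _ => x1 b hb β) ?_
      (fun b hb => (x3 b hb V hVS (hVb b hb)).1.trans (le_abs_self _)) ?_
    · refine h1.trans ?_
      have hp : 0 ≤ (l / R) ^ c := Real.rpow_nonneg (by positivity) _
      have e : C * |C0| * (ρ / s) ^ 2 * (l / R) ^ c = 100 * (C * |C0|) * ((ρ / l) ^ 2 * (l / R) ^ c) := by
        rw [hρs]; ring
      have e' : 6250000 * (C + 1) * (|C0| + 1) * (ρ / l) ^ 2 * (l / R) ^ c =
        6250000 * ((C + 1) * (|C0| + 1)) * ((ρ / l) ^ 2 * (l / R) ^ c) := by ring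
      rw [e, e']
      refine mul_le_mul_of_nonneg_right ?_ (by positivity)
      nlinarith [mul_nonneg hC.le hC0]
    · intro b hb β hβ
      rw [x2 b hb β, x2 b hb (β ∩ V.filter fun s => ‖s - b‖ < l)]
      congr 1
      ext x
      rw [Finset.mem_filter, Finset.mem_filter, Finset.mem_inter, Finset.mem_filter]
      constructor
      · rintro ⟨h1, h2⟩; exact ⟨⟨h1, hβ h1, h2⟩, h2⟩
      · rintro ⟨h1, h2⟩; exact ⟨h1.1, h2⟩
    · intro β hβ
      rw [hF]
      simp only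
      rw [Finset.inter_eq_left.2 hβ]
  · have h1 : ∀ β, β ⊆ V → F β ^ 2 ≤ ((grid z ρ s).card : ℝ) * ∑ b ∈ grid z ρ s, X b β ^ 2 := by
      intro β _
      have h2 : F β ≤ ∑ b ∈ grid z ρ s, X b β := by
        refine Finset.sum_le_sum fun b hb => ?_
        exact mul_le_of_le_one_right (x1 b hb β) (hind _).2
      have h3 : 0 ≤ F β := Finset.sum_nonneg fun b hb => mul_nonneg (x1 b hb β) (hind _).1
      calc F β ^ 2 ≤ (∑ b ∈ grid z ρ s, X b β) ^ 2 := pow_le_pow_left₀ h3 h2 2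
        _ ≤ _ := sq_sum_le_card_mul_sum_sq
    refine (ex_mono h1).trans ?_
    rw [ex_mul_const, ex_sum]
    have h2 : ∑ b ∈ grid z ρ s, ex V (fun β => X b β ^ 2) ≤ (grid z ρ s).card * |C0| := by
      rw [← nsmul_eq_mul, ← Finset.sum_const]
      exact Finset.sum_le_sum fun b hb => (x3 b hb V hVS (hVb b hb)).2.trans (le_abs_self _)
    have h3 := grid_card z hs0 hsρ
    rw [hρs] at h3
    have h4 : (0 : ℝ) ≤ (grid z ρ s).card := Nat.cast_nonneg _
    calc ((grid z ρ s).card : ℝ) * ∑ b ∈ grid z ρ s, ex V (fun β => X b β ^ 2)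
        ≤ (grid z ρ s).card * ((grid z ρ s).card * |C0|) := mul_le_mul_of_nonneg_left h2 h4
      _ = (grid z ρ s).card ^ 2 * |C0| := by ring
      _ ≤ (25 * (10 * (ρ / l)) ^ 2) ^ 2 * |C0| :=
          mul_le_mul_of_nonneg_right (pow_le_pow_left₀ h4 h3 2) hC0
      _ = 6250000 * |C0| * (ρ / l) ^ 4 := by ring
      _ ≤ 6250000 * (C + 1) * (|C0| + 1) * (ρ / l) ^ 4 := by
          refine mul_le_mul_of_nonneg_right ?_ (by positivity)
          nlinarith [mul_nonneg hC.le hC0]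

end Crest.Agent.R143.StpIx139
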