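import Crest.Agent.R143.UIJ_136
import Crest.Agent.R143.StpI_139

/-!
# Row 143 (S0194), leaf NST (helper528, shadow of 139): number of steps for the exits of `l`-balls

* `nst2` : `NST2` of StpI_139 (two moments of the number of steps in one disc)
* `quenchedN` : mean number of steps in a good disc
* `nstP : (Adm → D.W) → NST Adm`
-/

set_option autoImplicit false

noncomputable section

open scoped Classical

namespace Crest.Agent.R143.NstPx528

open Set Filter Topology MeasureTheory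
open scoped ENNReal
open Crest.ProbabilityR.Voronoi
open Crest.Agent.R143.B0x346 Crest.Agent.R143.B0Dx346
open Crest.Agent.R143.Y0x831 (Good)
open Crest.Agent.R143.PP1x831 (rad)
open Crest.Agent.R143.X0Bx683 (Fs)
open Crest.Agent.R143.Mabx377
open Crest.Agent.R143.Spinex422 (Room Linked)
open Crest.Agent.R143.B6Ix903 (net)
open Crest.Agent.R143.DicCx831 (rad_small ev_unit log_small)
open Crest.Agent.R143.DicDx831 (good_ev room_norm)
open Crest.Agent.R143.RB0x838 Crest.Agent.R143.RBmx838 Crest.Agent.R143.CircPx838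
open Crest.Agent.R143.Harx315 Crest.Agent.R143.XW1x315
open Crest.Agent.R143.NstAx700 Crest.Agent.R143.NstBx700
open Crest.Agent.R143.NstCx700 (nst_t ex_geo)
open Crest.Agent.R143.LawOmx139 Crest.Agent.R143.CNTx930 Crest.Agent.R143.UIx136
open Crest.Agent.R143.EQE3x63 Crest.Agent.R143.AsmNx758

/-- **strand count** with two moments -/
theorem nst2 : StpIx139.NST2 := by
  intro C4 hC4
  obtain ⟨p, c1, c2, K, hp, hp1, hc1, hc2, hc2', hK, h⟩ := nst_t C4 hC4
  refine ⟨512 / p ^ 2, c1, c2, K, hc1, hc2, hc2', hK, ?_⟩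
  intro S b d l hl hD hM hd
  obtain ⟨h1, h2, h3⟩ := h S b d l hl hD hM hd
  refine ⟨fun B => 4 * ∑ k : Fin 4, (KE S b (l / 5) k B : ℝ), fun B => by positivity, fun B => ?_,
    fun V hV hVs => ⟨?_, ?_⟩, ?_⟩
  · simp only
    congr 1
    refine Finset.sum_congr rfl fun k _ => ?_
    rw [h1 k B]
  · rw [ex_mul_const, ex_sum]
    have h5 : ∑ k : Fin 4, ex V (fun β => (KE S b (l / 5) k β : ℝ)) ≤ 4 * (4 / p ^ 2) := by
      refine (Finset.sum_le_sum fun k _ => ex_geo hp hp1 (h2 V hV hVs k)).trans ?_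
      rw [Finset.sum_const, Finset.card_univ, Fintype.card_fin, nsmul_eq_mul]
      norm_num
    have h6 : 4 * (4 * (4 / p ^ 2)) ≤ 512 / p ^ 2 := by
      have e : 4 * (4 * (4 / p ^ 2)) = 64 / p ^ 2 := by ring
      rw [e]
      gcongr
      norm_num
    exact (mul_le_mul_of_nonneg_left h5 (by norm_num)).trans h6
  · have h5 := UIJx136.xb_sq (V := V) (S := S) (b := b) (q := l / 5) hp hp1
      (fun k j => h2 V hV hVs k j)
    refine le_trans (le_of_eq ?_) h5
    refine ex_congr fun β _ => ?_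
    unfold XB
    push_cast
    ring
  · intro N H hN B hB m
    have := h3 N H hN B hB ((Finset.range m).filter fun j =>
      ‖mid (xs N l (jn N 2 B) j).2 - b‖ ≤ l / 10) (fun j hj => (Finset.mem_filter.1 hj).2)
    show _ ≤ 4 * ∑ k : Fin 4, (KE S b (l / 5) k B : ℝ)
    unfold StpIx139.cnt
    exact_mod_cast this

theorem wd_shift {S : Finset ℂ} {N : Net ℂ} {z b : ℂ} {R R' d : ℝ} (W : Wd S N z R d)
    (h : ‖b - z‖ + R' ≤ R) : Wd S N b R' d := by
  have tri : ∀ x y w : ℂ, ‖x - w‖ ≤ ‖x - y‖ + ‖y - w‖ :=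
    fun x y w => norm_sub_le_norm_sub_add_norm_sub x y w
  refine ⟨W.hnet, LDns.shift W.dns (by linarith), fun a x ha => W.live a x ?_,
    fun a x ha => W.inner a x ?_⟩
  · linarith [tri a b z]
  · linarith [tri a b z]

/-- **the quenched estimate** -/
theorem quenchedN : ∀ C4 : ℝ, 0 ≤ C4 → ∃ C c c1 c2 K : ℝ, 0 < C ∧ 0 < c ∧ 0 < c1 ∧ 0 < c2 ∧
    c2 ≤ 1 ∧ 1 ≤ K ∧ ∀ (S : Finset ℂ) (N : Net ℂ) (z : ℂ) (Rw d l ρ σ R : ℝ), Wd S N z Rw d →
    0 < l → l / 10 ≤ σ → 2 * l ≤ R → 0 ≤ ρ → ρ + 5 * σ + K * R ≤ Rw →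
    (∀ b : ℂ, ‖b - z‖ ≤ ρ + σ → ∀ x, c2 * l ≤ x → x ≤ R → Mesh S b (4 * σ + K * R) x C4) →
    d ≤ c1 * l →
    av N (fun J => (cnt S N l z ρ J : ℝ)) ≤
      ((grid z ρ σ).card : ℝ) * (C * (σ / l) ^ 2 * (l / R) ^ c) := by
  intro C4 hC4
  obtain ⟨C, c, c1, c2, K, hC, hc, hc1, hc2, hc2', hK, h⟩ := StpIx139.disc nst2 C4 hC4
  refine ⟨C, c, c1, c2, K, hC, hc, hc1, hc2, hc2', hK, ?_⟩
  intro S N z Rw d l ρ σ R W hl hσ hlR hρ hRw hM hd
  have hσ0 : 0 < σ := by linarith
  have hR0 : 0 < R := by linarith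
  have hKR : 0 < K * R := by positivity
  set t : Finset ℂ := (grid z ρ σ).filter fun b => ‖b - z‖ ≤ ρ + σ with ht
  have htz : ∀ b ∈ t, ‖b - z‖ ≤ ρ + σ := fun b hb => (Finset.mem_filter.1 hb).2
  have tri : ∀ x y w : ℂ, ‖x - w‖ ≤ ‖x - y‖ + ‖y - w‖ :=
    fun x y w => norm_sub_le_norm_sub_add_norm_sub x y w
  have hWb : ∀ b ∈ t, Wd S N b (4 * σ + K * R) d := fun b hb =>
    wd_shift W (by linarith [htz b hb])
  have hdisc : ∀ b ∈ t, ∃ F : Finset ℂ → ℝ, (∀ β, 0 ≤ F β) ∧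
      (∀ β, β ⊆ S → F β = F (β ∩ Fs S b (4 * σ + K * R))) ∧
      (∀ B ∈ Ck S N 2, ∀ m, (StpIx139.cnt N l (jn N 2 B) m b σ : ℝ) ≤ F B) ∧
      ex (Fs S b (4 * σ + K * R)) F ≤ C * (σ / l) ^ 2 * (l / R) ^ c := by
    intro b hb
    obtain ⟨F, f1, f2, f3, f4, -⟩ := h S N b (4 * σ + K * R) d l σ R (hWb b hb) hl hσ hlR le_rfl
      (fun x hx1 hx2 => hM b (htz b hb) x hx1 hx2) hd
    exact ⟨F, f1, f2, f3, f4⟩
  choose! F f1 f2 f3 f4 using hdisc
  set A : ℝ := C * (σ / l) ^ 2 * (l / R) ^ c with hA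
  have hA0 : 0 ≤ A := by positivity
  have hcard := Planarx54.HNet.card W.hnet
  have hcb : ∀ J, (cnt S N l z ρ J : ℝ) ≤ ∑ b ∈ t, (StpIx139.cnt N l J (fuel N + 1) b σ : ℝ) := by
    intro J
    have hc : cnt S N l z ρ J ≤ ∑ b ∈ t, StpIx139.cnt N l J (fuel N + 1) b σ := by
      unfold cnt StpIx139.cnt
      refine (Finset.card_le_card (t := t.biUnion fun b => (Finset.range (fuel N + 1)).filter
        fun j => ‖mid (xs N l J j).2 - b‖ ≤ σ) ?_).trans Finset.card_biUnion_le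
      intro j hj
      obtain ⟨hj1, -, hj2⟩ := Finset.mem_filter.1 hj
      rw [dist_eq_norm] at hj2
      obtain ⟨b, hb, hb2⟩ := grid_cover (z := z) (s := σ) hσ0 hj2.le
      rw [Finset.mem_biUnion]
      refine ⟨b, Finset.mem_filter.2 ⟨hb, ?_⟩, Finset.mem_filter.2 ⟨hj1, hb2⟩⟩
      have h2 := tri b (mid (xs N l J j).2) z
      have h3 := norm_sub_rev b (mid (xs N l J j).2)
      linarith
    exact_mod_cast hc
  have hone : ∀ b ∈ t, ∑ J ∈ Omk N 2, (StpIx139.cnt N l J (fuel N + 1) b σ : ℝ) ≤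
      (Omk N 2).card * A := by
    intro b hb
    have h1 := avg_free (k := 2) W.hnet hcard (hWb b hb).free (Finset.filter_subset _ _)
      (g := fun J => (StpIx139.cnt N l J (fuel N + 1) b σ : ℝ)) (F := F b) (f2 b hb)
      (fun B hB => f3 b hb B hB _)
    exact h1.trans (mul_le_mul_of_nonneg_left (f4 b hb) (Nat.cast_nonneg _))
  have hOm : Om N = Omk N 2 := rfl
  unfold AsmNx758.av
  rcases Nat.eq_zero_or_pos (Om N).card with h0 | h0
  · rw [h0, Nat.cast_zero, div_zero]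
    positivity
  · rw [div_le_iff₀ (by exact_mod_cast h0)]
    calc ∑ J ∈ Om N, (cnt S N l z ρ J : ℝ)
        ≤ ∑ J ∈ Om N, ∑ b ∈ t, (StpIx139.cnt N l J (fuel N + 1) b σ : ℝ) :=
          Finset.sum_le_sum fun J _ => hcb J
      _ = ∑ b ∈ t, ∑ J ∈ Om N, (StpIx139.cnt N l J (fuel N + 1) b σ : ℝ) := Finset.sum_comm
      _ ≤ ∑ b ∈ t, ((Om N).card : ℝ) * A := Finset.sum_le_sum fun b hb => hone b hb
      _ = (t.card : ℝ) * (((Om N).card : ℝ) * A) := by rw [Finset.sum_const, nsmul_eq_mul]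
      _ ≤ ((grid z ρ σ).card : ℝ) * (((Om N).card : ℝ) * A) := by
          gcongr
          exact Finset.filter_subset _ _
      _ = _ := by ring

/-- **leaf NST** -/
theorem nstP {Adm : Dom → ℝ → Prop} (hAdm : ∀ D δ, Adm D δ → D.W δ) : NST Adm := by
  intro D δ hD m hm r hr z hz hli η hη
  have hW := hAdm D δ hD
  have hL := hW.Lpos
  obtain ⟨C, Kg, a, C4, hC, hKg, ha, hC4, hgood⟩ := good_ev D hL
  obtain ⟨C', c, c1, c2, K, hC', hc, hc1, hc2, hc2', hK, hq⟩ := quenchedN (36 * C4) (by positivity)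
  have h1 := room_norm hz (by linarith)
  have hK0 : 0 < K := by linarith
  set σ : ℝ := r / 10 with hσ
  have hσ0 : 0 < σ := by positivity
  set R : ℝ := min (r / (2 * K)) (1 / 3) with hR
  have hR0 : 0 < R := by positivity
  have hR1 : K * R ≤ r / 2 := by
    have : R ≤ r / (2 * K) := min_le_left _ _
    rw [le_div_iff₀ (by positivity)] at this
    linarith
  have hR2 : R ≤ 1 / 3 := min_le_right _ _
  have hR3 : R ≤ r / 2 := by nlinarith
  set A : ℝ := ((grid z (2 * r) σ).card : ℝ) * C' * σ ^ 2 with hA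
  have hA0 : 0 ≤ A := by positivity
  set y : ℝ := η / (A + 1) with hy
  have hy0 : 0 < y := by positivity
  refine ⟨min (min (10 * σ) (R / 2)) (R * y ^ (1 / c)), by positivity, ?_⟩
  intro l hl hl0
  have l1 : l ≤ 10 * σ := hl0.le.trans ((min_le_left _ _).trans (min_le_left _ _))
  have l2 : l ≤ R / 2 := hl0.le.trans ((min_le_left _ _).trans (min_le_right _ _))
  have l3 : l ≤ R * y ^ (1 / c) := hl0.le.trans (min_le_right _ _)
  have l4 : (l / R) ^ c ≤ y := by
    have h2 : l / R ≤ y ^ (1 / c) := by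
      rw [div_le_iff₀ hR0]
      linarith
    calc (l / R) ^ c ≤ (y ^ (1 / c)) ^ c := Real.rpow_le_rpow (by positivity) h2 hc.le
      _ = y := by
        rw [← Real.rpow_mul hy0.le, one_div, inv_mul_cancel₀ hc.ne', Real.rpow_one]
  filter_upwards [ev_unit, hnet_evW (C := C) hW, hgood, (rad_small C).eventually
    (ge_mem_nhds (show (0 : ℝ) < min (min (c1 * l) (r / 8)) (min (c2 * l / 2) (D.L / 8)) by positivity)),
    (log_small a).eventually (ge_mem_nhds (show (0 : ℝ) < c2 * l by positivity)),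
    nhdsWithin_le_nhds (ge_mem_nhds (show (0 : ℝ) < η from hη))] with ε e1 e2 e3 e4 e5 e6
  refine (measure_mono ?_).trans (e3.trans (ENNReal.ofReal_le_ofReal e6))
  intro ω hω hG
  change η < _ at hω
  have hd0 : 0 < rad C ε := DicCx831.rad_pos hC e1
  have d1 : rad C ε ≤ c1 * l := e4.trans ((min_le_left _ _).trans (min_le_left _ _))
  have d2 : rad C ε ≤ r / 8 := e4.trans ((min_le_left _ _).trans (min_le_right _ _))
  have d3 : rad C ε ≤ c2 * l / 2 := e4.trans ((min_le_right _ _).trans (min_le_left _ _))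
  have d4 : rad C ε ≤ D.L / 8 := e4.trans ((min_le_right _ _).trans (min_le_right _ _))
  have hN := e2 Kg a C4 ω hG
  have hWd : Wd (D.sites ε ω) (net D ε ω) z (3 * r) (rad C ε) :=
    EQE4x63.wd_of_env hd0 hG.env hN hz (by linarith) (by linarith)
  have h7 : 4 * r ≤ D.L / 2 := by
    have h0 : 0 ≤ ‖z - D.c‖ := norm_nonneg _
    linarith
  have hbnd := hq (D.sites ε ω) (net D ε ω) z (3 * r) (rad C ε) l (2 * r) σ R hWd hl
    (by linarith) (by linarith) (by linarith) (by rw [hσ]; linarith) (fun b hb b' hb1 hb2 => by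
      have hb0 : 0 < b' := lt_of_lt_of_le (by positivity) hb1
      have hKq : (4 * σ + K * R) / b' * b' = 4 * σ + K * R := by field_simp
      have h5 := norm_sub_le_norm_sub_add_norm_sub b z D.c
      have h8 := XW6x315.mesh_good (w := b) hG hd0 hC4.le (K1 := (4 * σ + K * R) / b') hb0.le
        (by linarith) (by linarith) (by linarith) (by
          rw [hKq]
          rw [hσ] at hb ⊢
          linarith)
      rwa [hKq] at h8) d1
  have h9 : l ^ 2 * av (net D ε ω) (fun J => (cnt (D.sites ε ω) (net D ε ω) l z (2 * r) J : ℝ)) ≤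
      A * (l / R) ^ c := by
    refine (mul_le_mul_of_nonneg_left hbnd (sq_nonneg l)).trans (le_of_eq ?_)
    rw [hA]
    field_simp
  have h10 : A * (l / R) ^ c ≤ η := by
    refine (mul_le_mul_of_nonneg_left l4 hA0).trans ?_
    rw [hy, mul_div_assoc', div_le_iff₀ (by positivity)]
    nlinarith
  exact absurd (h9.trans h10) (not_le.2 hω)

end Crest.Agent.R143.NstPx528
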