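import Crest.Agent.R143.X0B_683
import Crest.Agent.R143.XW1_315
import Crest.Agent.R143.JCol2_54

/-!
# Row 143, block J, leaf J8 / gauge (helper872)

* `FreeS S N V` : the sites of `V` can be flipped (live, no hull edge, hence no mark)
* `flip_flip`, `flip_isJoin`, `flip_mem` (a join stays a join), `occ_flip` (occupied edges of a flipped
  join), `flip_inj`
* `sum_tj` : **averaging identity** `∑ J ∈ tj, f J = ∑ J ∈ tj, ex V (fun β => f (flip J β))`,
  `card_tj` : the same for counts, `sum_joins`, `card_joins'` : any odd set / marks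
* `loc_col` : **local colouring**: away from the cut of a branch `B` of the argument seen from a point
  of the odd triangle the join is the boundary of a colouring; `loc_col_hp` (half plane),
  `loc_col_open` (convex open set), `loc_col_closed` (convex compact set)
-/

set_option autoImplicit false

noncomputable section

open scoped Classical

namespace Crest.Agent.R143.J8x872

open Crest.Agent.R143.B0x346 Crest.Agent.R143.DelGx806 Crest.Agent.R143.DelRx806
  Crest.Agent.R143.JColx54 Crest.Agent.R143.JCol2x54 Crest.Agent.R143.Planarx54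
  Crest.Agent.R143.Planar2x54 Crest.Agent.R143.Harx315

local notation "flp" => Crest.Agent.R143.X0Bx683.flip
local notation "bdy" => Crest.Agent.R143.X0Bx683.bd
local notation "eex" => Crest.Agent.R143.XW1x315.ex

variable {S : Finset ℂ} {N : Net ℂ} {G : Trg ℂ} {kl : Set (ℂ × ℂ)} {O : Set (ℂ × ℂ × ℂ)}
  {D : Set (ℂ × ℂ)} {J J' : Finset (ℂ × ℂ)} {V β β' : Finset ℂ}

/-- sites which may be flipped: all edges at the site are live and not on the hull -/
def FreeS (S : Finset ℂ) (kl : Set (ℂ × ℂ)) (V : Finset ℂ) : Prop :=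
  ∀ s ∈ V, ∀ x, (s, x) ∉ kl ∧ (x, s) ∉ kl ∧ ¬ hullE S s x ∧ ¬ hullE S x s

theorem FreeS.mono (h : FreeS S kl V) (hβ : β ⊆ V) : FreeS S kl β := fun s hs => h s (hβ hs)

/-- the sites of the disc of a standard world are free -/
theorem free_world {z0 : ℂ} {R R1 d b0 C4 : ℝ} (h : X0Bx683.World S N z0 R R1 d b0 C4) {ρ : ℝ}
    (hρ : ρ ≤ R) : FreeS S N.kl (X0Bx683.Fs S z0 ρ) := by
  intro s hs x
  have hs' : ‖s - z0‖ < R := lt_of_lt_of_le (Finset.mem_filter.1 hs).2 hρ
  exact ⟨h.live s x hs', fun h' => h.live s x hs' (N.klsym x s h'), (h.inner s x hs').1,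
    (h.inner s x hs').2⟩

theorem mem_bd (hG : G.T = delT S) {a b : ℂ} :
    (a, b) ∈ bdy G β ↔ Adj S a b ∧ ¬ (a ∈ β ↔ b ∈ β) := by
  unfold X0Bx683.bd
  rw [Finset.mem_filter, mem_E hG]

theorem bd_symmDiff : bdy G (symmDiff β β') = symmDiff (bdy G β) (bdy G β') := by
  ext p
  unfold X0Bx683.bd
  simp only [Finset.mem_filter, Finset.mem_symmDiff]
  tauto

theorem flip_flip : flp G (flp G J β) β' = flp G J (symmDiff β β') := by
  unfold X0Bx683.flip
  rw [bd_symmDiff, symmDiff_assoc]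

theorem flip_self : flp G (flp G J β) β = J := by
  unfold X0Bx683.flip
  exact symmDiff_symmDiff_cancel_right _ _

theorem bd_isJoin (hS : GP (S : Set ℂ)) (hG : G.T = delT S) (hβ : FreeS S kl β) : IsJoin G kl ∅ ∅ (bdy G β) := by
  refine ⟨Finset.filter_subset _ _, ?_, ?_, ?_, ?_, ?_⟩
  · intro a b _ _
    rw [mem_bd hG, mem_bd hG]
    constructor
    · rintro ⟨h1, h2⟩
      exact ⟨h1.symm, fun h => h2 h.symm⟩
    · rintro ⟨h1, h2⟩
      exact ⟨h1.symm, fun h => h2 h.symm⟩
  · intro a b h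
    simp at h
  · intro a b h1 _
    rw [hG] at h1
    have key : Adj S a b → (a ∈ β ↔ b ∈ β) := by
      intro hab
      have hh : hullE S a b := by
        rcases hab with hc | ⟨c, hc⟩
        · exact ⟨hc, h1⟩
        · exact absurd hc (h1 c)
      constructor
      · intro ha
        exact absurd hh (hβ a ha b).2.2.1
      · intro hb
        exact absurd hh (hβ b hb a).2.2.2
    rw [mem_bd hG, mem_bd hG]
    exact ⟨fun h => h.2 (key h.1), fun h => h.2 (key h.1.symm).symm⟩
  · intro a b h1 _ _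
    have key : (a ∈ β ↔ b ∈ β) := by
      constructor
      · intro ha
        exact absurd h1 (hβ a ha b).1
      · intro hb
        exact absurd h1 (hβ b hb a).2.1
    rw [mem_bd hG, mem_bd hG]
    exact ⟨fun h => h.2 key, fun h => h.2 key.symm⟩
  · intro a b c h
    rw [hG] at h
    have e1 : (a, b) ∈ bdy G β ↔ ¬ (a ∈ β ↔ b ∈ β) := by
      rw [mem_bd hG]; exact ⟨fun h => h.2, fun h' => ⟨adj_tri h, h'⟩⟩
    have e2 : (b, c) ∈ bdy G β ↔ ¬ (b ∈ β ↔ c ∈ β) := by
      rw [mem_bd hG]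
      exact ⟨fun h => h.2, fun h' => ⟨adj_tri' hS h, h'⟩⟩
    have e3 : (c, a) ∈ bdy G β ↔ ¬ (c ∈ β ↔ a ∈ β) := by
      rw [mem_bd hG]
      exact ⟨fun h => h.2, fun h' => ⟨adj_tri'' hS h, h'⟩⟩
    simp only [e1, e2, e3, Set.mem_empty_iff_false, if_false]
    by_cases x1 : a ∈ β <;> by_cases x2 : b ∈ β <;> by_cases x3 : c ∈ β <;>
      simp [x1, x2, x3]

/-- a mark on the hull is not at a free site -/
theorem bd_mark (hD : ∀ a b, (a, b) ∈ D → hullE S a b) (hG : G.T = delT S)
    (hβ : FreeS S kl β) : ∀ x ∈ D, x ∉ bdy G β := by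
  rintro ⟨a, b⟩ hx h
  obtain ⟨-, h2⟩ := (mem_bd hG).1 h
  have hh := hD a b hx
  apply h2
  constructor
  · intro ha
    exact absurd hh (hβ a ha b).2.2.1
  · intro hb
    exact absurd hh (hβ b hb a).2.2.2

/-- flipping free sites, any odd set, marks avoiding the boundary of `β` -/
theorem flip_isJoin (hS : GP (S : Set ℂ)) (hG : G.T = delT S) (hβ : FreeS S kl β)
    (hD : ∀ x ∈ D, x ∉ bdy G β) (hJ : IsJoin G kl O D J) : IsJoin G kl O D (flp G J β) := by
  have h := JCardx872.xor_isJoin (bd_isJoin hS hG hβ) hD hJ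
  have e : symmDiff O (∅ : Set (ℂ × ℂ × ℂ)) = O := by
    have : (∅ : Set (ℂ × ℂ × ℂ)) = ⊥ := rfl
    rw [this, symmDiff_bot]
  rw [e, symmDiff_comm] at h
  exact h

theorem flip_joins_iff (hS : GP (S : Set ℂ)) (hG : G.T = delT S) (hβ : FreeS S kl β)
    (hD : ∀ x ∈ D, x ∉ bdy G β) : flp G J β ∈ joins G kl O D ↔ J ∈ joins G kl O D := by
  rw [JCardx872.mem_joins, JCardx872.mem_joins]
  refine ⟨fun h => ?_, flip_isJoin hS hG hβ hD⟩
  have := flip_isJoin hS hG hβ hD h
  rwa [flip_self] at this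

/-- **a join stays a join** -/
theorem flip_mem (H : HNet S N) (hβ : FreeS S N.kl β) {t : ℂ × ℂ × ℂ} :
    flp N.toTrg J β ∈ N.tj t ↔ J ∈ N.tj t := by
  refine flip_joins_iff H.gp H.tri hβ (bd_mark (fun a b h => ?_) H.tri hβ)
  obtain ⟨k, hk⟩ := h
  have := H.hex k
  rw [hk] at this
  exact this

/-- occupied edges of the flipped join -/
theorem occ_flip (hG : G.T = delT S) (hD : ∀ x ∈ D, x ∉ bdy G β) (hJ : IsJoin G kl O D J) {a b : ℂ}
    (hab : Adj S a b) : ((a, b) ∈ flp G J β ∨ (b, a) ∈ flp G J β) ↔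
      (((a, b) ∈ J ∨ (b, a) ∈ J) ↔ (a ∈ β ↔ b ∈ β)) := by
  unfold X0Bx683.flip
  rw [Finset.mem_symmDiff, Finset.mem_symmDiff, mem_bd hG, mem_bd hG]
  have h1 := hab.symm
  by_cases hd : (a, b) ∈ D
  · have h2 := hJ.mark a b hd
    have h3 := hD _ hd
    rw [mem_bd hG] at h3
    tauto
  · by_cases hd' : (b, a) ∈ D
    · have h2 := hJ.mark b a hd'
      have h3 := hD _ hd'
      rw [mem_bd hG] at h3
      tauto
    · have h2 := hJ.sym a b hd hd'
      tauto

/-- a set of free sites is determined by the flipped join -/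
theorem flip_inj (H : HNet S N) (hV : FreeS S kl V) (hVS : V ⊆ S) (h1 : β ⊆ V) (h2 : β' ⊆ V)
    (h : flp N.toTrg J β = flp N.toTrg J β') : β = β' := by
  have hb : bdy N.toTrg β = bdy N.toTrg β' := by
    unfold X0Bx683.flip at h
    exact symmDiff_right_injective J h
  have hc : ∀ a b, Adj S a b → ((a ∈ symmDiff β β') = (b ∈ symmDiff β β')) := by
    intro a b hab
    have e1 := mem_bd (β := β) H.tri (a := a) (b := b)
    have e2 := mem_bd (β := β') H.tri (a := a) (b := b)
    rw [hb] at e1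
    rw [Finset.mem_symmDiff, Finset.mem_symmDiff, eq_iff_iff]
    tauto
  have hcst := const H.gp (HNet.card H) hc
  have h0 := (H.hex 0).1
  obtain ⟨c, hc0⟩ := h0
  have hm := (adj_tri hc0).mem.1
  have hout : (N.ex 0).1 ∉ V := fun hv => (hV _ hv (N.ex 0).2).2.2.1 (H.hex 0)
  ext s
  by_cases hs : s ∈ S
  · have := hcst s hs _ hm
    have h3 : (N.ex 0).1 ∉ symmDiff β β' := by
      rw [Finset.mem_symmDiff]
      exact fun h => hout (h.elim (fun h => h1 h.1) (fun h => h2 h.1))
    rw [← this, Finset.mem_symmDiff] at h3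
    tauto
  · exact ⟨fun h => absurd (hVS (h1 h)) hs, fun h => absurd (hVS (h2 h)) hs⟩

/-! ### averaging -/

/-- **averaging identity** -/
theorem sum_joins (hS : GP (S : Set ℂ)) (hG : G.T = delT S) (hV : FreeS S kl V)
    (hD : ∀ β, β ⊆ V → ∀ x ∈ D, x ∉ bdy G β) (f : Finset (ℂ × ℂ) → ℝ) :
    ∑ J ∈ joins G kl O D, f J = ∑ J ∈ joins G kl O D, eex V (fun β => f (flp G J β)) := by
  unfold XW1x315.ex
  rw [← Finset.sum_div, Finset.sum_comm]
  have key : ∀ β ∈ V.powerset, ∑ J ∈ joins G kl O D, f (flp G J β) = ∑ J ∈ joins G kl O D, f J := by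
    intro β hβ
    rw [Finset.mem_powerset] at hβ
    have hi : ∀ J, flp G J β ∈ joins G kl O D ↔ J ∈ joins G kl O D := fun J =>
      flip_joins_iff hS hG (hV.mono hβ) (hD β hβ)
    refine Finset.sum_bij' (fun J _ => flp G J β) (fun J _ => flp G J β) ?_ ?_ ?_ ?_ ?_
    · intro J hJ
      exact (hi J).2 hJ
    · intro J hJ
      exact (hi J).2 hJ
    · intro J _
      exact flip_self
    · intro J _
      exact flip_self
    · intro J _
      rfl
  rw [Finset.sum_congr rfl key, Finset.sum_const, Finset.card_powerset, nsmul_eq_mul]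
  push_cast
  field_simp

theorem bd_mark' (H : HNet S N) (hV : FreeS S N.kl V) :
    ∀ β, β ⊆ V → ∀ x ∈ N.exS, x ∉ bdy N.toTrg β := fun β hβ =>
  bd_mark (fun a b h => by
    obtain ⟨k, hk⟩ := h
    have := H.hex k
    rw [hk] at this
    exact this) H.tri (hV.mono hβ)

/-- **averaging identity** for the joins with the odd triangle `t` -/
theorem sum_tj (H : HNet S N) (hV : FreeS S N.kl V) (t : ℂ × ℂ × ℂ) (f : Finset (ℂ × ℂ) → ℝ) :
    ∑ J ∈ N.tj t, f J = ∑ J ∈ N.tj t, eex V (fun β => f (flp N.toTrg J β)) :=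
  sum_joins H.gp H.tri hV (bd_mark' H hV) f

/-- counts as sums of probabilities -/
theorem card_joins (hS : GP (S : Set ℂ)) (hG : G.T = delT S) (hV : FreeS S kl V)
    (hD : ∀ β, β ⊆ V → ∀ x ∈ D, x ∉ bdy G β) (P : Finset (ℂ × ℂ) → Prop) :
    (((joins G kl O D).filter P).card : ℝ) =
      ∑ J ∈ joins G kl O D, pr V (fun β => P (flp G J β)) := by
  rw [Finset.card_filter]
  push_cast
  rw [sum_joins hS hG hV hD]
  refine Finset.sum_congr rfl fun J _ => ?_
  exact XW1x315.ex_ind _

/-- counts as sums of probabilities -/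
theorem card_tj (H : HNet S N) (hV : FreeS S N.kl V) (t : ℂ × ℂ × ℂ)
    (P : Finset (ℂ × ℂ) → Prop) :
    (((N.tj t).filter P).card : ℝ) = ∑ J ∈ N.tj t, pr V (fun β => P (flp N.toTrg J β)) :=
  card_joins H.gp H.tri hV (bd_mark' H hV) P

/-! ### local colourings -/

theorem exS_hull (H : HNet S N) : HullM S N.exS := by
  rintro a b ⟨k, hk⟩
  have := H.hex k
  rw [hk] at this
  exact this.2

/-- **local colouring**: `B` a branch of the argument seen from a point `x` of the odd triangle -/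
theorem loc_col (H : HNet S N) {t : ℂ × ℂ × ℂ} (ht : t ∈ delT S) {x : ℂ} (hx : InO' x t)
    (hJ : J ∈ N.tj t) (B : ℂ → ℝ)
    (hB : ∀ a b, Adj S a b → ∃ k : ℤ, ang x a b = B b - B a + k * (2 * Real.pi)) :
    ∃ τ : ℂ → Bool, ∀ a b, Adj S a b → ang x a b = B b - B a →
      (τ a ≠ τ b ↔ ((a, b) ∈ J ∨ (b, a) ∈ J)) := by
  have hJ' : IsJoin N.toTrg N.kl (rots t) N.exS J := JCardx872.mem_joins.1 hJ
  have hpi := Real.pi_pos
  choose! n hn using hB
  have hadd : ∀ a b, Adj S a b → n b a = - n a b := by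
    intro a b hab
    have h1 := hn a b hab
    have h2 := hn b a hab.symm
    have h3 := adj_anti H.gp ht hx hab
    have h4 : ((n b a + n a b : ℤ) : ℝ) * (2 * Real.pi) = 0 := by
      push_cast
      linarith
    have h5 : ((n b a + n a b : ℤ) : ℝ) = 0 := by
      rcases mul_eq_zero.1 h4 with h | h
      · exact h
      · exact absurd h (by positivity)
    have h6 : n b a + n a b = 0 := by exact_mod_cast h5
    omega
  have htri : ∀ a b c, (a, b, c) ∈ delT S →
      n a b + n b c + n c a = if (a, b, c) ∈ rots t then 1 else 0 := by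
    intro a b c h
    have h1 := hn a b (adj_tri h)
    have h2 := hn b c (adj_tri' H.gp h)
    have h3 := hn c a (adj_tri'' H.gp h)
    have h4 := ang_tri H.gp ht hx h
    have h5 : ((n a b + n b c + n c a : ℤ) : ℝ) * (2 * Real.pi) =
        (if (a, b, c) ∈ rots t then 1 else 0) * (2 * Real.pi) := by
      push_cast
      split_ifs at h4 ⊢ <;> linarith
    have h6 : ((n a b + n b c + n c a : ℤ) : ℝ) = if (a, b, c) ∈ rots t then 1 else 0 :=
      mul_right_cancel₀ (by positivity) h5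
    split_ifs at h6 ⊢ <;> exact_mod_cast h6
  obtain ⟨σ, hσ⟩ := exact H.gp (A := ZMod 2)
    (f := fun a b => (if (a, b) ∈ J ∨ (b, a) ∈ J then 1 else 0) + (n a b : ZMod 2))
    (by
      intro a b hab
      have e : ((b, a) ∈ J ∨ (a, b) ∈ J) ↔ ((a, b) ∈ J ∨ (b, a) ∈ J) := or_comm
      simp only [e, hadd a b hab]
      push_cast
      generalize ((n a b : ℤ) : ZMod 2) = u
      split_ifs <;> revert u <;> decide)
    (by
      intro a b c h
      have hG' : (a, b, c) ∈ N.T := by rw [H.tri]; exact h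
      have h1 := occ_iff H.tri (exS_hull H) hJ' h
      have h2 := occ_iff H.tri (exS_hull H) hJ' (delT_rot H.gp h)
      have h3 := occ_iff H.tri (exS_hull H) hJ' (delT_rot H.gp (delT_rot H.gp h))
      have hp := hJ'.par a b c hG'
      have hk := congrArg (fun z : ℤ => (z : ZMod 2)) (htri a b c h)
      simp only [h1, h2, h3]
      push_cast at hk
      generalize ((n a b : ℤ) : ZMod 2) = u at hk ⊢
      generalize ((n b c : ℤ) : ZMod 2) = v at hk ⊢
      generalize ((n c a : ℤ) : ZMod 2) = w at hk ⊢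
      by_cases hr : (a, b, c) ∈ rots t
      · simp only [hr, if_true] at hp hk
        by_cases x1 : (a, b) ∈ J <;> by_cases x2 : (b, c) ∈ J <;> by_cases x3 : (c, a) ∈ J <;>
          simp only [x1, x2, x3, if_true, if_false] at hp ⊢ <;>
          first
            | omega
            | (revert hk; revert u v w; decide)
      · simp only [hr, if_false] at hp hk
        by_cases x1 : (a, b) ∈ J <;> by_cases x2 : (b, c) ∈ J <;> by_cases x3 : (c, a) ∈ J <;>
          simp only [x1, x2, x3, if_true, if_false] at hp ⊢ <;>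
          first
            | omega
            | (revert hk; revert u v w; decide))
  refine ⟨fun a => decide (σ a = 1), fun a b hab hang => ?_⟩
  have h := hσ a b hab
  have h0 : n a b = 0 := by
    have h1 := hn a b hab
    rw [hang] at h1
    have h2 : ((n a b : ℤ) : ℝ) * (2 * Real.pi) = 0 := by linarith
    rcases mul_eq_zero.1 h2 with h3 | h3
    · exact_mod_cast h3
    · exact absurd h3 (by positivity)
  simp only [h0, Int.cast_zero, add_zero] at h
  by_cases hx : (a, b) ∈ J ∨ (b, a) ∈ J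
  · simp only [hx, if_true] at h
    simp only [hx, iff_true, ne_eq, decide_eq_decide]
    generalize σ a = u at h
    generalize σ b = v at h
    revert u v
    decide
  · simp only [hx, if_false] at h
    simp only [hx, iff_false, ne_eq, not_not, decide_eq_decide]
    generalize σ a = u at h
    generalize σ b = v at h
    revert u v
    decide

/-- the sites are not the point `x` of an open triangle -/
theorem adj_ne (hS : GP (S : Set ℂ)) {t : ℂ × ℂ × ℂ} (ht : t ∈ delT S) {x : ℂ} (hx : InO' x t)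
    {a b : ℂ} (h : Adj S a b) : a - x ≠ 0 ∧ b - x ≠ 0 := by
  obtain ⟨d, h1, h2⟩ := adj_hp hS ht hx h
  exact ⟨h1.ne, h2.ne⟩

/-- the argument relative to a direction is a branch -/
theorem branch_L (hS : GP (S : Set ℂ)) {t : ℂ × ℂ × ℂ} (ht : t ∈ delT S) {x : ℂ} (hx : InO' x t)
    {d : ℂ} (hd : d ≠ 0) {a b : ℂ} (h : Adj S a b) :
    ∃ k : ℤ, ang x a b = L d x b - L d x a + k * (2 * Real.pi) := by
  obtain ⟨ha, hb⟩ := adj_ne hS ht hx h
  have e1 : ∀ y : ℂ, y - x ≠ 0 → Rot (L d x y) d (y - x) := by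
    intro y hy
    refine ⟨‖(y - x) / d‖, norm_pos_iff.2 (div_ne_zero hy hd), ?_⟩
    unfold L
    rw [Complex.norm_mul_exp_arg_mul_I]
    field_simp
  have h1 := (e1 a ha).trans (ang_rot ha hb)
  obtain ⟨k, hk⟩ := Rot.unique hd (e1 b hb) h1
  exact ⟨k, by linarith⟩

/-- **local colouring in a half plane** -/
theorem loc_col_hp (H : HNet S N) {t : ℂ × ℂ × ℂ} (ht : t ∈ delT S) {x : ℂ} (hx : InO' x t)
    (hJ : J ∈ N.tj t) {d : ℂ} (hd : d ≠ 0) :
    ∃ τ : ℂ → Bool, ∀ a b, Adj S a b → HP d x a → HP d x b →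
      (τ a ≠ τ b ↔ ((a, b) ∈ J ∨ (b, a) ∈ J)) := by
  obtain ⟨τ, hτ⟩ := loc_col H ht hx hJ (L d x) (fun a b h => branch_L H.gp ht hx hd h)
  exact ⟨τ, fun a b h h1 h2 => hτ a b h (ang_hp h1 h2)⟩

theorem exists_hp_open {C : Set ℂ} (hC : Convex ℝ C) (ho : IsOpen C) {x : ℂ} (hx : x ∉ C)
    (hne : C.Nonempty) : ∃ d : ℂ, d ≠ 0 ∧ ∀ y ∈ C, HP d x y := by
  obtain ⟨f, hf⟩ := geometric_hahn_banach_open_point hC ho hx
  have hrep : ∀ y : ℂ, f y = f 1 * y.re + f Complex.I * y.im := by
    intro y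
    have : y = (y.re : ℝ) • (1 : ℂ) + (y.im : ℝ) • Complex.I := by
      apply Complex.ext <;> simp
    conv_lhs => rw [this]
    rw [map_add, map_smul, map_smul]
    simp only [smul_eq_mul]
    ring
  refine ⟨⟨- f Complex.I, f 1⟩, ?_, ?_⟩
  · intro h0
    obtain ⟨y, hy⟩ := hne
    have h1 := hf y hy
    have h2 : f Complex.I = 0 := by
      have := congrArg Complex.re h0
      simpa using this
    have h3 : f 1 = 0 := by
      have := congrArg Complex.im h0
      simpa using this
    rw [hrep y, hrep x, h2, h3] at h1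
    simp at h1
  · intro y hy
    have h1 := hf y hy
    rw [hrep y, hrep x] at h1
    unfold HP cr
    simp only [Complex.sub_re, Complex.sub_im]
    linarith

/-- **local colouring in a convex open set** which does not contain `x` -/
theorem loc_col_open (H : HNet S N) {t : ℂ × ℂ × ℂ} (ht : t ∈ delT S) {x : ℂ} (hx : InO' x t)
    (hJ : J ∈ N.tj t) {C : Set ℂ} (hC : Convex ℝ C) (ho : IsOpen C) (hxC : x ∉ C) :
    ∃ τ : ℂ → Bool, ∀ a b, Adj S a b → a ∈ C → b ∈ C →
      (τ a ≠ τ b ↔ ((a, b) ∈ J ∨ (b, a) ∈ J)) := by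
  rcases C.eq_empty_or_nonempty with rfl | hne
  · exact ⟨fun _ => true, fun a b _ h => absurd h (Set.notMem_empty _)⟩
  obtain ⟨d, hd, h⟩ := exists_hp_open hC ho hxC hne
  obtain ⟨τ, hτ⟩ := loc_col_hp H ht hx hJ hd
  exact ⟨τ, fun a b hab ha hb => hτ a b hab (h a ha) (h b hb)⟩

/-- **local colouring of a convex set** whose closure does not contain `x` -/
theorem loc_col_closed (H : HNet S N) {t : ℂ × ℂ × ℂ} (ht : t ∈ delT S) {x : ℂ} (hx : InO' x t)
    (hJ : J ∈ N.tj t) {C : Set ℂ} (hC : Convex ℝ C) (hxC : x ∉ closure C) :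
    ∃ τ : ℂ → Bool, ∀ a b, Adj S a b → a ∈ C → b ∈ C →
      (τ a ≠ τ b ↔ ((a, b) ∈ J ∨ (b, a) ∈ J)) := by
  obtain ⟨ε, hε, hball⟩ := Metric.isOpen_iff.1 isClosed_closure.isOpen_compl x hxC
  have hopen : IsOpen (Metric.thickening ε C) := Metric.isOpen_thickening
  have hsub : C ⊆ Metric.thickening ε C := Metric.self_subset_thickening hε C
  have hx' : x ∉ Metric.thickening ε C := by
    rw [Metric.mem_thickening_iff]
    rintro ⟨z, hz, hd⟩
    have : z ∈ Metric.ball x ε := by
      rw [Metric.mem_ball, dist_comm]; exact hd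
    exact hball this (subset_closure hz)
  obtain ⟨τ, hτ⟩ := loc_col_open H ht hx hJ (hC.thickening ε) hopen hx'
  exact ⟨τ, fun a b hab ha hb => hτ a b hab (hsub ha) (hsub hb)⟩

end Crest.Agent.R143.J8x872
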