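import Crest.Agent.R143.JCol2_54
import Crest.Agent.R143.XW1_315
import Crest.Agent.R143.J8_872

/-!
# Row 143, STEP 4, number of steps, part 1 (helper139): joins with two marks = fair colourings

* `Dk N k` = the marks except `ex k`, `Omk N k` = the joins without odd triangle with these marks,
  `Ck S N k` = the valid colourings (sets of black sites), `jn N k B` = the join of `B`
* `sum_join` : `∑ over colourings = 2 ∑ over joins`
* `sum_free` : a function of the colours of the free sites `V` has the fair average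
* `avg_free` : average over the joins of a function which is bounded through the colours
-/

set_option autoImplicit false

noncomputable section

open scoped Classical

namespace Crest.Agent.R143.LawOmx139

open Crest.Agent.R143.B0x346 Crest.Agent.R143.DelGx806 Crest.Agent.R143.DelRx806
  Crest.Agent.R143.B0Dx346 Crest.Agent.R143.JColx54 Crest.Agent.R143.JCol2x54
  Crest.Agent.R143.Harx315 Crest.Agent.R143.XW1x315 Crest.Agent.R143.J8x872

variable {S : Finset ℂ} {N : Net ℂ} {k : ZMod 3} {V : Finset ℂ}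

/-- the marks except `ex k` -/
def Dk (N : Net ℂ) (k : ZMod 3) : Set (ℂ × ℂ) := N.exS \ {N.ex k}

/-- joins without odd triangle, with the two marks `Dk` -/
def Omk (N : Net ℂ) (k : ZMod 3) : Finset (Finset (ℂ × ℂ)) := joins N.toTrg N.kl ∅ (Dk N k)

/-- valid colourings -/
def Ck (S : Finset ℂ) (N : Net ℂ) (k : ZMod 3) : Finset (Finset ℂ) := cols S N.kl (Dk N k)

/-- the join of a set of black sites -/
def jn (N : Net ℂ) (k : ZMod 3) (B : Finset ℂ) : Finset (ℂ × ℂ) := setJ N.toTrg (Dk N k) B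

theorem dk_hull (H : HNet S N) (a b : ℂ) (h : (a, b) ∈ Dk N k) : hullE S a b := by
  obtain ⟨⟨j, hj⟩, -⟩ := h
  have := H.hex j
  rw [hj] at this
  exact this

theorem mem_Omk {J : Finset (ℂ × ℂ)} : J ∈ Omk N k ↔ IsJoin N.toTrg N.kl ∅ (Dk N k) J :=
  JCardx872.mem_joins

theorem jn_mem (H : HNet S N) {B : Finset ℂ} (hB : B ∈ Ck S N k) : jn N k B ∈ Omk N k :=
  setJ_mem H.gp H.tri (dk_hull H) N.klsym hB

/-- occupied edges = two colours -/
theorem jn_occ (H : HNet S N) {B : Finset ℂ} {a b : ℂ} (hab : Adj S a b) :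
    ((a, b) ∈ jn N k B ∨ (b, a) ∈ jn N k B) ↔ (a ∈ B ↔ b ∉ B) := by
  have hm : ∀ x y : ℂ, Adj S x y → ((x, y) ∈ jn N k B ↔ ((x ∈ B ↔ y ∉ B) ∧ (y, x) ∉ Dk N k)) := by
    intro x y hxy
    unfold jn setJ colJ
    rw [Finset.mem_filter, mem_E H.tri]
    have e : (decide (x ∈ B) ≠ decide (y ∈ B)) ↔ (x ∈ B ↔ y ∉ B) := by
      by_cases x ∈ B <;> by_cases y ∈ B <;> simp [*]
    dsimp only
    rw [e]
    exact ⟨fun h => h.2, fun h => ⟨hxy, h⟩⟩
  rw [hm a b hab, hm b a hab.symm]
  have hnot : ¬ ((b, a) ∈ Dk N k ∧ (a, b) ∈ Dk N k) := by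
    rintro ⟨h1, h2⟩
    obtain ⟨⟨c, hc⟩, -⟩ := dk_hull H _ _ h1
    exact (dk_hull H _ _ h2).2 c hc
  have e : (b ∈ B ↔ a ∉ B) ↔ (a ∈ B ↔ b ∉ B) := by
    by_cases a ∈ B <;> by_cases b ∈ B <;> simp [*]
  rw [e]
  tauto

/-- **two colourings for every join** -/
theorem sum_join (H : HNet S N) (h3 : 3 ≤ S.card) (g : Finset (ℂ × ℂ) → ℝ) :
    ∑ B ∈ Ck S N k, g (jn N k B) = 2 * ∑ J ∈ Omk N k, g J := by
  rw [← Finset.sum_fiberwise_of_maps_to (s := Ck S N k) (t := Omk N k) (g := jn N k)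
    (fun B hB => jn_mem H hB), Finset.mul_sum]
  refine Finset.sum_congr rfl fun J hJ => ?_
  have h1 := card_cols H.gp h3 H.tri (fun a b h => dk_hull (k := k) H a b h) N.klsym
    (fun J' => J' = J)
  have h2 : ((joins N.toTrg N.kl ∅ (Dk N k)).filter (fun J' => J' = J)).card = 1 := by
    have hJ' : J ∈ joins N.toTrg N.kl ∅ (Dk N k) := hJ
    rw [Finset.card_eq_one]
    refine ⟨J, ?_⟩
    ext J'
    rw [Finset.mem_filter, Finset.mem_singleton]
    exact ⟨fun h => h.2, fun h => ⟨h ▸ hJ', h⟩⟩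
  have h4 : ∑ B ∈ (Ck S N k).filter (fun B => jn N k B = J), g (jn N k B) =
      ∑ B ∈ (Ck S N k).filter (fun B => jn N k B = J), g J := by
    refine Finset.sum_congr rfl fun B hB => ?_
    rw [(Finset.mem_filter.1 hB).2]
  rw [h4, Finset.sum_const, nsmul_eq_mul]
  have h5 : ((Ck S N k).filter (fun B => jn N k B = J)).card = 2 := by
    have e : ((Ck S N k).filter (fun B => jn N k B = J)).card =
      2 * ((joins N.toTrg N.kl ∅ (Dk N k)).filter (fun J' => J' = J)).card := by
      unfold Ck jn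
      convert h1
    rw [e]
    have h2' : ((joins N.toTrg N.kl ∅ (Dk N k)).filter (fun J' => J' = J)).card = 1 := by
      convert h2
    rw [h2']
  rw [h5]
  norm_num

theorem card_join (H : HNet S N) (h3 : 3 ≤ S.card) :
    ((Ck S N k).card : ℝ) = 2 * ((Omk N k).card : ℝ) := by
  have := sum_join H h3 (k := k) (fun _ => 1)
  simpa using this

theorem mem_symm {B β : Finset ℂ} {a : ℂ} (h : a ∉ β) : a ∈ symmDiff B β ↔ a ∈ B := by
  rw [Finset.mem_symmDiff]
  tauto

/-- flips of free sites -/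
theorem flip_col (H : HNet S N) (hV : FreeS S N.kl V) (hVS : V ⊆ S) {B β : Finset ℂ} (hβ : β ⊆ V)
    (hB : B ∈ Ck S N k) : symmDiff B β ∈ Ck S N k := by
  unfold Ck cols at hB ⊢
  rw [Finset.mem_filter, Finset.mem_powerset] at hB ⊢
  obtain ⟨hBS, hB⟩ := hB
  have hd : ∀ a, a ∉ V → decide (a ∈ symmDiff B β) = decide (a ∈ B) := by
    intro a ha
    rw [decide_eq_decide]
    exact mem_symm fun h => ha (hβ h)
  refine ⟨(symmDiff_le_sup (a := B) (b := β)).trans (Finset.union_subset hBS (hβ.trans hVS)), ?_, ?_,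
    ?_⟩
  · intro a b h1 h2 h3 h4
    have ha : a ∉ V := fun h => (hV a h b).1 h2
    have hb : b ∉ V := fun h => (hV b h a).2.1 h2
    rw [hd a ha, hd b hb]
    exact hB.kill a b h1 h2 h3 h4
  · intro a b h1 h2
    have ha : a ∉ V := fun h => (hV a h b).2.2.1 h1
    have hb : b ∉ V := fun h => (hV b h a).2.2.2 h1
    rw [hd a ha, hd b hb]
    exact hB.hull a b h1 h2
  · intro a b h1
    have h0 := dk_hull H a b h1
    have ha : a ∉ V := fun h => (hV a h b).2.2.1 h0
    have hb : b ∉ V := fun h => (hV b h a).2.2.2 h0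
    rw [hd a ha, hd b hb]
    exact hB.mark a b h1

/-- the sum over the colourings is invariant under flips of free sites -/
theorem sum_flip (H : HNet S N) (hV : FreeS S N.kl V) (hVS : V ⊆ S) {β : Finset ℂ} (hβ : β ⊆ V)
    (F : Finset ℂ → ℝ) : ∑ B ∈ Ck S N k, F (symmDiff B β) = ∑ B ∈ Ck S N k, F B := by
  apply Finset.sum_bij (fun B _ => symmDiff B β)
  · intro B hB; exact flip_col H hV hVS hβ hB
  · intro B _ B' _ h; exact symmDiff_left_injective _ h
  · intro B hB
    exact ⟨symmDiff B β, flip_col H hV hVS hβ hB, symmDiff_symmDiff_cancel_right _ B⟩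
  · intro _ _; rfl

theorem inter_symm {B β : Finset ℂ} (hβ : β ⊆ V) : symmDiff B β ∩ V = symmDiff β (B ∩ V) := by
  ext x
  simp only [Finset.mem_inter, Finset.mem_symmDiff]
  have := @hβ x
  tauto

/-- **the colours of free sites are fair** -/
theorem sum_free (H : HNet S N) (hV : FreeS S N.kl V) (hVS : V ⊆ S) {F : Finset ℂ → ℝ}
    (hF : ∀ B, B ⊆ S → F B = F (B ∩ V)) :
    ∑ B ∈ Ck S N k, F B = (Ck S N k).card * ex V F := by
  have h1 : ∑ B ∈ Ck S N k, F B = ∑ B ∈ Ck S N k, ex V (fun β => F (symmDiff B β)) := by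
    unfold ex
    rw [← Finset.sum_div, Finset.sum_comm]
    have h1 : ∀ β ∈ V.powerset, ∑ B ∈ Ck S N k, F (symmDiff B β) = ∑ B ∈ Ck S N k, F B :=
      fun β hβ => sum_flip H hV hVS (Finset.mem_powerset.1 hβ) F
    rw [Finset.sum_congr rfl h1, Finset.sum_const, Finset.card_powerset, nsmul_eq_mul]
    push_cast
    field_simp
  have h2 : ∀ B ∈ Ck S N k, ex V (fun β => F (symmDiff B β)) = ex V F := by
    intro B hB
    have hBS : B ⊆ S := Finset.mem_powerset.1 (Finset.mem_filter.1 hB).1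
    rw [← ex_symm (V := V) (τ := B ∩ V) Finset.inter_subset_right F]
    apply ex_congr
    intro β hβ
    rw [hF _ ((symmDiff_le_sup (a := B) (b := β)).trans (Finset.union_subset hBS (hβ.trans hVS))),
      inter_symm hβ]
  rw [h1, Finset.sum_congr rfl h2, Finset.sum_const, nsmul_eq_mul]

/-- **average over the joins** of a function bounded through the colours of free sites -/
theorem avg_free (H : HNet S N) (h3 : 3 ≤ S.card) (hV : FreeS S N.kl V) (hVS : V ⊆ S)
    {g : Finset (ℂ × ℂ) → ℝ} {F : Finset ℂ → ℝ} (hF : ∀ B, B ⊆ S → F B = F (B ∩ V))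
    (hg : ∀ B ∈ Ck S N k, g (jn N k B) ≤ F B) :
    ∑ J ∈ Omk N k, g J ≤ (Omk N k).card * ex V F := by
  have h1 := sum_join H h3 (k := k) g
  have h2 := Finset.sum_le_sum hg
  rw [sum_free H hV hVS hF, card_join H h3] at h2
  linarith

end Crest.Agent.R143.LawOmx139
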