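import Crest.Agent.R143.RE5_723
import Crest.Agent.R143.REw_838
import Crest.Agent.R143.EPG_930
import Crest.Agent.R143.Qd4_54

/-!
# Row 143: quenched RSW without E3 (helper723, with 54, 306, 838, 930)

`geo3 : GEO3`, `rbm : RBm`
-/

set_option autoImplicit false

noncomputable section

namespace Crest.Agent.R143.RBEx723

open Crest.Agent.R143.RE0x723

/-- **the polygon of a strip** -/
theorem geo3 : GEO3 := RE5x723.geo3_of
  (fun _ _ _ _ _ _ _ H h4 _ hv hx hy => REwx838.walkB H h4 hv hx hy)
  (fun _ _ _ _ _ _ _ H h4 _ hv hx hy => REwx838.walkT H h4 hv hx hy)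

/-- **quenched RSW without E3** -/
theorem rbm : RBmx838.RBm := Qd4x54.rbm_of geo3 (EPGx930.epg Qd3x54.epq)

end Crest.Agent.R143.RBEx723
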