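import Crest.Agent.R143.NstB_700
import Crest.Agent.R143.Mab3_377
import Crest.Agent.R143.LawOm_139
import Crest.Agent.R143.RBE_723

/-!
# Row 143, leaf NST (helper700), part C: the number of `l`-steps which start in a box

* `steps_le` : the number of the states `xs N l J j` (helper377) with tip near `b` is at most `XB`
* `nst_t : NSTt` : with the functionals `KE` and their geometric tails
* `nst : NST` : the form of helper139 (37005)
-/

set_option autoImplicit false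

noncomputable section

open scoped Classical

namespace Crest.Agent.R143.NstCx700

open Crest.Agent.R143.B0x346 Crest.Agent.R143.DelGx806 Crest.Agent.R143.DelRx806
open Crest.Agent.R143.ToolWx838 hiding dir
open Crest.Agent.R143.Blkx838 Crest.Agent.R143.ToolW2x838
open Crest.Agent.R143.ToolW3x838 Crest.Agent.R143.Circ4x838 Crest.Agent.R143.Harx315
open Crest.Agent.R143.RB0x838 Crest.Agent.R143.CircPx838 Crest.Agent.R143.Gatex838
open Crest.Agent.R143.RBmx838 Crest.Agent.R143.JColx54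
open Crest.Agent.R143.NstAx700 Crest.Agent.R143.NstBx700
open Crest.Agent.R143.JWalkx872 Crest.Agent.R143.J1x872 Crest.Agent.R143.J4x872
  Crest.Agent.R143.XFx903 Crest.Agent.R143.EQE1x63
open Crest.Agent.R143.Mabx377 (xs D2 Om xs_step xs_fol fol_norep ex0_mem)
open Crest.Agent.R143.LawOmx139 (Ck jn jn_occ jn_mem Omk)

variable {S V : Finset ℂ} {N : Net ℂ} {b : ℂ} {r d l R : ℝ}

theorem mid_sub (p : ℂ × ℂ) (z : ℂ) : ‖mid p - z‖ ≤ (‖p.1 - z‖ + ‖p.2 - z‖) / 2 := by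
  have e : mid p - z = ((p.1 - z) + (p.2 - z)) / 2 := by unfold mid; ring
  rw [e, norm_div, Complex.norm_ofNat]
  exact div_le_div_of_nonneg_right (norm_add_le _ _) (by norm_num)

theorem mid_sw (p : ℂ × ℂ) : mid (sw p) = mid p := by unfold mid sw; ring

theorem mid_seg (p : ℂ × ℂ) : mid p ∈ segment ℝ p.1 p.2 := by
  refine ⟨1 / 2, 1 / 2, by norm_num, by norm_num, by norm_num, ?_⟩
  unfold mid
  rw [Complex.real_smul, Complex.real_smul]
  push_cast
  ring

/-- the triangle of a centroid near `b` is small -/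
theorem gc_small (hD : LDns S b R d) {t : ℂ × ℂ × ℂ} (ht : t ∈ delT S) {ρ : ℝ} (hρ : ρ + d ≤ R)
    (h : ‖gc t - b‖ ≤ ρ) : ‖t.1 - gc t‖ < 2 * d ∧ ‖t.2.1 - gc t‖ < 2 * d ∧ ‖t.2.2 - gc t‖ < 2 * d := by
  obtain ⟨x, y, z⟩ := t
  have hH := hol_ldns hD hρ
  have hw : gc (x, y, z) ∈ Metric.closedBall b ρ := by
    rw [Metric.mem_closedBall, dist_eq_norm]; exact h
  have hpos := B1gx991.tri_pos ht
  have hin := gc_in ht
  obtain ⟨o, -, -, -, -, -, g1, g2, g3⟩ := Locx922.del_small hD.dpos hH hw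
    (Locx922.InT.inD hpos (⟨le_of_lt hin.1, le_of_lt hin.2.1, le_of_lt hin.2.2⟩)) (mem_delT.1 ht)
  exact ⟨g1, g2, g3⟩

variable {c : List ℂ} {β : Finset ℂ}

/-- the total angle ahead of a state near the centre -/
theorem al_near (hc : CircC S b r β c) (hD : LDns S b R d) {p : ℂ × ℂ} {x : ℂ}
    (hx : (p.1, p.2, x) ∈ delT S) (hp : ‖mid p - b‖ ≤ r / 2) (hd : 8 * d ≤ r)
    (hR : 2 * r ≤ R) : AL S c p = 2 * Real.pi := by
  have hd0 := hD.dpos
  have hS := hD.gp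
  have hr : 0 < r := by linarith
  have hadj : Adj S p.1 p.2 := Or.inl ⟨x, hx⟩
  obtain ⟨h1, h2⟩ := Gax950.adj_seg hD (ρ := r) (by linarith) hadj (mid_seg p) (by linarith)
  have h3 : ‖p.1 - b‖ < r / 2 + 2 * d := by
    have e : p.1 - b = (p.1 - mid p) + (mid p - b) := by ring
    rw [e]
    exact (norm_add_le _ _).trans_lt (by linarith)
  have h4 : ‖p.2 - b‖ < r / 2 + 2 * d := by
    have e : p.2 - b = (p.2 - mid p) + (mid p - b) := by ring
    rw [e]
    exact (norm_add_le _ _).trans_lt (by linarith)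
  obtain ⟨-, h5, -⟩ := GapIx877.tri_small hD hx (by linarith)
  have h6 : ‖x - b‖ < r := by
    have e : x - b = (x - p.1) + (p.1 - b) := by ring
    rw [e]
    exact (norm_add_le _ _).trans_lt (by linarith)
  have h7 : ‖gc (p.1, p.2, x) - b‖ < r := gc_near ⟨by simp only; linarith, by simp only; linarith, h6⟩
  have e : AL S c p = AL S c (p.1, p.2) := rfl
  rw [e, al_tri hS hx]
  exact hc.wind _ ((sup_le_norm _).trans h7.le)

/-- the total angle behind a state far from the centre -/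
theorem al_far (hc : CircC S b r β c) (hD : LDns S b R d) {p : ℂ × ℂ}
    (hp : 4 * r + 2 * d ≤ ‖mid p - b‖) (hR : 4 * r + d ≤ R) : AL S c p.swap = 0 := by
  have hd0 := hD.dpos
  have hS := hD.gp
  by_cases hx : ∃ x, (p.2, p.1, x) ∈ delT S
  · obtain ⟨x, hx⟩ := hx
    have e : AL S c p.swap = AL S c (p.2, p.1) := rfl
    rw [e, al_tri hS hx]
    refine hc.out ?_
    by_contra hcon
    push Not at hcon
    have h1 : ‖gc (p.2, p.1, x) - b‖ ≤ 4 * r := by
      have := norm_le_sup (gc (p.2, p.1, x) - b)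
      linarith
    obtain ⟨h2, h3, -⟩ := gc_small hD hx (by linarith) h1
    have h4 := mid_sub p (gc (p.2, p.1, x))
    have h5 : ‖mid p - b‖ ≤ ‖mid p - gc (p.2, p.1, x)‖ + ‖gc (p.2, p.1, x) - b‖ := by
      have e : mid p - b = (mid p - gc (p.2, p.1, x)) + (gc (p.2, p.1, x) - b) := by ring
      rw [e]
      exact norm_add_le _ _
    have h2' : ‖p.2 - gc (p.2, p.1, x)‖ < 2 * d := h2
    have h3' : ‖p.1 - gc (p.2, p.1, x)‖ < 2 * d := h3
    linarith
  · push Not at hx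
    exact al_none hx

/-- the total angle at a mark -/
theorem al_mark (H : HNet S N) (hc : CircC S b r β c) (hcS : ∀ s ∈ c, s ∈ S) {k : ZMod 3}
    (hav : Avoid c (N.ex k)) : AL S c (N.ex k) = 0 := by
  have hh := H.hex k
  obtain ⟨x, hx⟩ := hh.1
  have e : AL S c (N.ex k) = AL S c ((N.ex k).1, (N.ex k).2) := rfl
  rw [e, al_tri H.gp hx, asum_open_mid H.gp hc.loop hx (gc_in hx) hav]
  exact asum_hull H.gp hc.loop hcS hh hav

/-- later paths extend earlier ones -/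
theorem xs_prefix (hg : Good N) (hl : 0 < l) {J : Finset (ℂ × ℂ)} (hJ : J ∈ Om N) (i : ℕ) :
    ∀ j, i ≤ j → ∃ M, (xs N l J j).1 = (xs N l J i).1 ++ M := by
  intro j hij
  induction j, hij using Nat.le_induction with
  | base => exact ⟨[], by simp⟩
  | succ j _ ih =>
    obtain ⟨M, hM⟩ := ih
    obtain ⟨L, hL, -⟩ := xs_step hg hl hJ j
    exact ⟨M ++ L, by rw [hL, hM, List.append_assoc]⟩

/-- a followed path crosses triangles -/
theorem fol_de {G : Trg ℂ} {O : Set (ℂ × ℂ × ℂ)} {D : Set (ℂ × ℂ)} {J : Finset (ℂ × ℂ)}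
    (hG : G.T = delT S) : ∀ (L : List ((ℂ × ℂ) × (ℂ × ℂ))) (p q : ℂ × ℂ), Fol G O D J p L q →
    ∀ a ∈ L, DE S a.1.1 a.1.2 := by
  intro L
  induction L with
  | nil => intro p q _ a ha; simp at ha
  | cons a L ih =>
    rintro p q ⟨h1, m, ⟨x, hx, _⟩, h3, h4⟩ y hy
    rcases List.mem_cons.1 hy with rfl | hy
    · rw [h1]
      exact Or.inl ⟨x, hG ▸ hx⟩
    · exact ih m q h4 y hy

theorem fol_occ {G : Trg ℂ} {kl : Set (ℂ × ℂ)} {O : Set (ℂ × ℂ × ℂ)} {D : Set (ℂ × ℂ)}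
    {J : Finset (ℂ × ℂ)} (hJ : IsJoin G kl O D J) :
    ∀ (L : List ((ℂ × ℂ) × (ℂ × ℂ))) (p q : ℂ × ℂ), (p ∈ J ∨ sw p ∈ D) → Fol G O D J p L q →
    ∀ a ∈ L, a.1 ∈ J := by
  intro L
  induction L with
  | nil => intro p q _ _ a ha; simp at ha
  | cons a L ih =>
    rintro p q hp ⟨h1, m, h2, h3, h4⟩ y hy
    rcases List.mem_cons.1 hy with rfl | hy
    · rw [h1]
      rcases hp with hp | hp
      · exact hp
      · exact absurd hp (step_pre h3)
    · exact ih m q (step_mem hJ h3) h4 y hy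

/-- **the number of `l`-steps which start near `b` is at most `XB`** -/
theorem steps_le (H : HNet S N) (hl : 0 < l) (hr : 0 < r) (hlr : 5 * r ≤ l) (hd : 8 * d ≤ r)
    (hD : LDns S b R d) (hR : 5 * r ≤ R)
    (hex : ∀ a x : ℂ, ‖a - b‖ < R → ¬ hullE S a x ∧ ¬ hullE S x a)
    (hC : ∀ k : Fin 4, ∃ l, Cross S (zc b r k) (CircPx838.dir k) (3 / 2 * r) (1 / 4 * r) S l)
    {B : Finset ℂ} (hB : B ∈ Ck S N 2) (A : Finset ℕ)
    (hA : ∀ j ∈ A, ‖mid (xs N l (jn N 2 B) j).2 - b‖ ≤ r / 2) : A.card ≤ XB S b r B := by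
  have hS := H.gp
  have hg := good_of_hnet H
  have hd0 := hD.dpos
  set J := jn N 2 B with hJdef
  have hJ : J ∈ Om N := jn_mem H hB
  have hJ' : IsJoin N.toTrg N.kl ∅ (D2 N) J := JCardx872.mem_joins.1 hJ
  obtain ⟨c, hc, E, hE, hEm⟩ := circ_few hS hr hC B
  have hcS : ∀ s ∈ c, s ∈ S := hc.col
  have hav : ∀ k, Avoid c (N.ex k) := by
    intro k
    have hh := H.hex k
    have key : ∀ p ∈ prs c, ¬ hullE S p.1 p.2 ∧ ¬ hullE S p.2 p.1 := by
      intro p hp
      refine hex p.1 p.2 ?_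
      have h1 := hc.up _ (mem_of_prs hp).1
      have h2 := norm_le_sup (p.1 - b)
      linarith
    exact ⟨fun h => (key _ h).1 hh, fun h => (key _ h).2 hh⟩
  have hal : ∀ k, AL S c (N.ex k) = 0 := fun k => al_mark H hc hcS (hav k)
  have hfar : ∀ k, 5 * r - d < ‖mid (N.ex k) - b‖ := fun k =>
    mark_far H hD (by linarith) k
  have hend : ∀ q : ℂ × ℂ, sw q ∈ D2 N → ∃ k, sw q = N.ex k := by
    rintro q ⟨⟨k, hk⟩, -⟩
    exact ⟨k, hk.symm⟩
  -- the crossing state of the step `j`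
  have key : ∀ j ∈ A, ∃ s, s ∈ E ∧ ∃ L'', (xs N l J (j + 1)).1 = (xs N l J j).1 ++ L'' ∧
      Fol N.toTrg ∅ (D2 N) J (xs N l J j).2 L'' (xs N l J (j + 1)).2 ∧ ∃ a ∈ L'', a.1 = s := by
    intro j hj
    have hq := hA j hj
    set q := (xs N l J j).2 with hqdef
    obtain ⟨L'', e1, e2, -, e4⟩ := xs_step hg hl hJ j
    rw [← hqdef] at e2 e4
    have hqn : sw q ∉ D2 N := by
      intro h
      obtain ⟨k, hk⟩ := hend q h
      have h1 := hfar k
      rw [← hk, mid_sw] at h1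
      linarith
    have hqJ : q ∈ J := by
      rcases leads_mem hJ' (hJ'.mark _ _ (ex0_mem N hg)).1
        (fol_leads _ _ _ (xs_fol (l := l) hg hJ j)) with h | h
      · exact h
      · exact absurd h hqn
    obtain ⟨x, hx⟩ := occ_tri hJ' hqJ
    rw [H.tri] at hx
    have a1 : AL S c q ≠ 0 := by
      rw [al_near hc hD hx hq hd (by linarith)]
      exact (by positivity : (0 : ℝ) < 2 * Real.pi).ne'
    have a2 : AL S c (xs N l J (j + 1)).2.swap = 0 := by
      rcases e4 with e4 | e4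
      · refine al_far hc hD ?_ (by linarith)
        rw [dist_eq_norm] at e4
        have e : mid (xs N l J (j + 1)).2 - mid q = (mid (xs N l J (j + 1)).2 - b) - (mid q - b) := by
          ring
        rw [e] at e4
        have := norm_sub_le (mid (xs N l J (j + 1)).2 - b) (mid q - b)
        linarith
      · obtain ⟨k, hk⟩ := hend _ e4
        have e : (xs N l J (j + 1)).2.swap = N.ex k := hk
        rw [e]
        exact hal k
    have a3 : L'' ≠ [] := by
      rintro rfl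
      have e5 : q = (xs N l J (j + 1)).2 := e2
      rw [← e5] at e4
      rcases e4 with e4 | e4
      · rw [dist_self] at e4
        linarith
      · exact hqn e4
    obtain ⟨a, ha, ha'⟩ := walk_cross hS H.tri L'' q _ e2 a1 a2 a3
    have hde := fol_de H.tri L'' _ _ e2 a ha
    have hocc : a.1 ∈ J := fol_occ hJ' L'' _ _ (Or.inl hqJ) e2 a ha
    refine ⟨a.1, hEm _ ?_ ?_, L'', e1, e2, a, ha, rfl⟩
    · intro hv
      exact ha' (al_swap hS hc.loop hcS hde hv)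
    · have h1 := (jn_occ H (k := 2) (B := B) (a := a.1.1) (b := a.1.2) hde).1 (Or.inl hocc)
      unfold bic
      tauto
  choose! s hs1 hs2 using key
  refine le_trans (Finset.card_le_card_of_injOn s hs1 ?_) hE
  -- injectivity
  have hlt : ∀ i ∈ A, ∀ j ∈ A, i < j → s i ≠ s j := by
    intro i hi j hj hij h
    obtain ⟨L1, e1, -, a1, m1, f1⟩ := hs2 i hi
    obtain ⟨L2, e2, g2, a2, m2, f2⟩ := hs2 j hj
    obtain ⟨M, hM⟩ := xs_prefix hg hl hJ (i + 1) j hij
    have hn := (fol_norep hJ' rotInv_empty (ex0_mem N hg) (xs_fol (l := l) hg hJ j) g2).2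
    refine hn a1 ?_ a2 m2 ?_
    · rw [hM, e1]
      simp [m1]
    · rw [f1, f2, h]
  intro i hi j hj h
  rcases lt_trichotomy i j with h1 | h1 | h1
  · exact absurd h (hlt i hi j hj h1)
  · exact h1
  · exact absurd h.symm (hlt j hj i hi h1)

/-! ### the law -/

open Crest.Agent.R143.XW1x315

/-- expectation from a geometric tail -/
theorem ex_geo {V : Finset ℂ} {f : Finset ℂ → ℕ} {p : ℝ} (hp : 0 < p) (hp1 : p ≤ 1)
    (h : ∀ k : ℕ, pr V (fun β => k ≤ f β) ≤ (1 - p) ^ k) : ex V (fun β => (f β : ℝ)) ≤ 4 / p ^ 2 := by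
  have hx : (1 + p / 2) * (1 - p) < 1 := by nlinarith
  have h1 := ex_pow_le (x := 1 + p / 2) (by linarith) (by linarith) hx h
  have h2 : ex V (fun β => (f β : ℝ)) ≤ 2 / p * ex V (fun β => (1 + p / 2) ^ f β) := by
    rw [← ex_mul_const]
    refine ex_mono fun β _ => ?_
    have h3 := one_add_mul_le_pow (a := p / 2) (by linarith) (f β)
    rw [div_mul_eq_mul_div, le_div_iff₀ hp]
    nlinarith
  have h4 : 1 / (1 - (1 + p / 2) * (1 - p)) ≤ 2 / p := by
    rw [div_le_div_iff₀ (by linarith) hp]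
    nlinarith
  calc ex V (fun β => (f β : ℝ)) ≤ 2 / p * ex V (fun β => (1 + p / 2) ^ f β) := h2
    _ ≤ 2 / p * (2 / p) := mul_le_mul_of_nonneg_left (h1.trans h4) (by positivity)
    _ = 4 / p ^ 2 := by ring

/-- helper139's form -/
def NST : Prop := ∀ C4 : ℝ, 0 ≤ C4 → ∃ C0 c1 c2 K : ℝ, 0 < c1 ∧ 0 < c2 ∧ c2 ≤ 1 ∧ 1 ≤ K ∧
  ∀ (S : Finset ℂ) (b : ℂ) (d l : ℝ), 0 < l → LDns S b (K * l) d →
  (∀ x : ℝ, c2 * l ≤ x → x ≤ l → Mesh S b (K * l) x C4) → d ≤ c1 * l →
  ∃ X : Finset ℂ → ℝ, (∀ B, 0 ≤ X B) ∧ (∀ B, X B = X (B.filter fun s => ‖s - b‖ < l)) ∧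
    (∀ V : Finset ℂ, V ⊆ S → (∀ s ∈ S, ‖s - b‖ < l → s ∈ V) → ex V X ≤ C0) ∧
    ∀ N : Net ℂ, HNet S N → (∀ a x : ℂ, ‖a - b‖ < K * l → (a, x) ∉ N.kl ∧ ¬ hullE S a x ∧
      ¬ hullE S x a) → ∀ B ∈ Ck S N 2, ∀ m : ℕ,
      (((Finset.range m).filter fun j => ‖mid (xs N l (jn N 2 B) j).2 - b‖ ≤ l / 10).card : ℝ) ≤ X B

/-- the same with the four functionals and their tails -/
def NSTt : Prop := ∀ C4 : ℝ, 0 ≤ C4 → ∃ p c1 c2 K : ℝ, 0 < p ∧ p ≤ 1 ∧ 0 < c1 ∧ 0 < c2 ∧ c2 ≤ 1 ∧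
  1 ≤ K ∧ ∀ (S : Finset ℂ) (b : ℂ) (d l : ℝ), 0 < l → LDns S b (K * l) d →
  (∀ x : ℝ, c2 * l ≤ x → x ≤ l → Mesh S b (K * l) x C4) → d ≤ c1 * l →
    (∀ (k : Fin 4) (B : Finset ℂ),
      KE S b (l / 5) k B = KE S b (l / 5) k (B.filter fun s => ‖s - b‖ < l)) ∧
    (∀ V : Finset ℂ, V ⊆ S → (∀ s ∈ S, ‖s - b‖ < l → s ∈ V) → ∀ (k : Fin 4) (j : ℕ),
      pr V (fun B => j ≤ KE S b (l / 5) k B) ≤ (1 - p) ^ j) ∧
    ∀ N : Net ℂ, HNet S N → (∀ a x : ℂ, ‖a - b‖ < K * l → (a, x) ∉ N.kl ∧ ¬ hullE S a x ∧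
      ¬ hullE S x a) → ∀ B ∈ Ck S N 2, ∀ A : Finset ℕ,
      (∀ j ∈ A, ‖mid (xs N l (jn N 2 B) j).2 - b‖ ≤ l / 10) →
      A.card ≤ 4 * ∑ k : Fin 4, KE S b (l / 5) k B

theorem nst_t : NSTt := by
  intro C4 hC4
  obtain ⟨p, c1, c2, K, hp, hp1, hc1, hc2, hc2', hK, h⟩ := ke_tail RBEx723.rbm C4 hC4
  refine ⟨p, min (c1 / 5) (1 / 40), c2 / 5, K / 5 + 1, hp, hp1, by positivity, by positivity,
    by linarith, by linarith [hK], ?_⟩
  intro S b d l hl hD hM hd
  have hr : 0 < l / 5 := by positivity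
  have hKl : K * (l / 5) ≤ (K / 5 + 1) * l := by nlinarith
  have hd1 : d ≤ c1 * (l / 5) := by
    have := hd.trans (mul_le_mul_of_nonneg_right (min_le_left _ _) hl.le)
    linarith
  have hd2 : 8 * d ≤ l / 5 := by
    have := hd.trans (mul_le_mul_of_nonneg_right (min_le_right _ _) hl.le)
    linarith
  have hD' : LDns S b (K * (l / 5)) d := LDns.mono hD hKl
  have hM' : MeshA S b (K * (l / 5)) c2 (l / 5) C4 := by
    intro x hx1 hx2
    refine mesh_shift (hM x (by linarith) (by linarith)) ?_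
    rw [sub_self, norm_zero]
    linarith
  obtain ⟨hC, hT⟩ := h S b (l / 5) d hr hD' hM' hd1
  have hreg : ∀ s : ℂ, sup (s - b) < 2 * (l / 5) → ‖s - b‖ < l := by
    intro s hs
    have := norm_le_sup (s - b)
    linarith
  refine ⟨fun k B => ke_congr hr fun s _ _ hs => ?_, fun V hV hVs k j => ?_, ?_⟩
  · rw [Finset.mem_filter]
    exact ⟨fun h => ⟨h, hreg s hs⟩, fun h => h.1⟩
  · exact hT V hV (fun s hs _ h2 => hVs s hs (hreg s h2)) k j
  · intro N H hN B hB A hA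
    exact steps_le (l := l) H hl hr (by linarith) hd2 hD (by nlinarith)
      (fun a x ha => (hN a x ha).2) hC hB A fun j hj => (hA j hj).trans (by linarith)

theorem nst : NST := by
  intro C4 hC4
  obtain ⟨p, c1, c2, K, hp, hp1, hc1, hc2, hc2', hK, h⟩ := nst_t C4 hC4
  refine ⟨4 * (4 * (4 / p ^ 2)), c1, c2, K, hc1, hc2, hc2', hK, ?_⟩
  intro S b d l hl hD hM hd
  obtain ⟨h1, h2, h3⟩ := h S b d l hl hD hM hd
  refine ⟨fun B => 4 * ∑ k : Fin 4, (KE S b (l / 5) k B : ℝ), fun B => by positivity, fun B => ?_,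
    fun V hV hVs => ?_, ?_⟩
  · simp only
    congr 1
    refine Finset.sum_congr rfl fun k _ => ?_
    rw [h1 k B]
  · rw [ex_mul_const, ex_sum]
    refine mul_le_mul_of_nonneg_left ?_ (by norm_num)
    refine (Finset.sum_le_sum fun k _ => ex_geo hp hp1 (h2 V hV hVs k)).trans ?_
    rw [Finset.sum_const, Finset.card_univ, Fintype.card_fin, nsmul_eq_mul]
    norm_num
  · intro N H hN B hB m
    have := h3 N H hN B hB ((Finset.range m).filter fun j =>
      ‖mid (xs N l (jn N 2 B) j).2 - b‖ ≤ l / 10) (fun j hj => (Finset.mem_filter.1 hj).2)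
    show _ ≤ 4 * ∑ k : Fin 4, (KE S b (l / 5) k B : ℝ)
    exact_mod_cast this

end Crest.Agent.R143.NstCx700

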