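import Crest.Agent.R143.XW5_315
import Crest.Agent.R143.B6I_903

/-!
# R143, block X, winding tail XW (helper315), part 6: circuits in a good environment, walls on arcs

* `circ_good` : circuits around every point at every scale in a good environment
* `reg_free` : the region of a disc which does not meet the outside
* `reg_arc` : the region of a disc centred on the arc from the axis of the tentacle `0` to the middle
  of the sector of the region `0`
-/

set_option autoImplicit false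

noncomputable section

open scoped Classical

namespace Crest.Agent.R143.XW6x315

open Finset
open Crest.ProbabilityR.Voronoi
open Crest.Agent.R143.B0x346 Crest.Agent.R143.DelGx806 Crest.Agent.R143.DelRx806
open Crest.Agent.R143.B0Dx346 Crest.Agent.R143.JColx54 Crest.Agent.R143.JCol2x54
open Crest.Agent.R143.PP1x831 Crest.Agent.R143.Y0x831
open Crest.Agent.R143.Planarx54 Crest.Agent.R143.Planar2x54
open Crest.Agent.R143.DomAx722 hiding ang
open Crest.Agent.R143.DomBx722 Crest.Agent.R143.DomCx722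
open Crest.Agent.R143.Harx315 Crest.Agent.R143.XW1x315 Crest.Agent.R143.XW2x315
open Crest.Agent.R143.XW3x315 Crest.Agent.R143.XW4x315 Crest.Agent.R143.XW5x315
open Crest.Agent.R143.CircPx838 Crest.Agent.R143.Blkx838 Crest.Agent.R143.RB0x838

variable {S : Finset ℂ} {N : Net ℂ} {J : Finset (ℂ × ℂ)} {t : ℂ × ℂ × ℂ} {x w : ℂ} {r : ℝ}
  {V : Finset ℂ}

/-! ### circuits -/

/-- size of the triangles in a good environment -/
theorem mesh_good {D : Dom} {ε C K a C4 : ℝ} {ω : Sample} (hG : Good D ε C K a C4 ω)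
    (hd0 : 0 < rad C ε) (hC4 : 0 ≤ C4) {K1 b : ℝ} (hb : 0 ≤ b) (h1 : ε * Real.log (1 / ε) ^ a ≤ 3 * b)
    (h2 : 3 * b ≤ 1) (h3 : 2 * rad C ε ≤ b)
    (h4 : ‖w - D.c‖ + K1 * b + b + 2 * rad C ε ≤ D.L) :
    Mesh (D.sites ε ω) w (K1 * b) b (36 * C4) := by
  intro z hz
  have hzc : ‖z - D.c‖ ≤ K1 * b + ‖w - D.c‖ := by
    have := norm_add_le (z - w) (w - D.c)
    rw [sub_add_sub_cancel] at this
    linarith
  have hM := M4Ux991.sum_V' hd0 hG.env (V := Metric.closedBall z b) (W := Metric.ball z (3 * b))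
    (C := C4 * (3 * b) ^ 2) ?_ ?_ (by positivity) ?_
  · refine hM.trans (le_of_eq ?_)
    ring
  · intro y hy
    rw [mem_closedBall_iff_norm] at hy ⊢
    have := norm_add_le (y - z) (z - D.c)
    rw [sub_add_sub_cancel] at this
    linarith
  · intro y hy u hu
    rw [mem_closedBall_iff_norm] at hy
    rw [mem_ball_iff_norm] at hu ⊢
    have := norm_add_le (u - y) (y - z)
    rw [sub_add_sub_cancel] at this
    linarith
  · refine hG.diam z ?_ (3 * b) h1 h2
    rw [mem_closedBall_iff_norm]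
    linarith

/-- **circuits in a good environment** -/
theorem circ_good (hRB : RB) : ∃ C1 c1 K1 : ℝ, 0 < C1 ∧ 0 < c1 ∧ 0 < K1 ∧
    ∀ (D : Dom) (ε C K a C4 : ℝ) (ω : Sample) (w : ℂ) (b : ℝ), Good D ε C K a C4 ω →
    0 < rad C ε → 0 ≤ C4 → Dns (D.sites ε ω) D.c D.L (rad C ε) → 0 < b →
    ε * Real.log (1 / ε) ^ a ≤ 3 * b → 3 * b ≤ 1 → 2 * rad C ε ≤ b → rad C ε ≤ c1 * b →
    ‖w - D.c‖ + K1 * b + b + 2 * rad C ε ≤ D.L →
    Real.exp (-C1 * (1 + 36 * C4)) ≤
      pr ((D.sites ε ω).filter fun a => a ∈ Sq w (2 * b)) (fun β =>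
        ∃ c, CircC (D.sites ε ω) w b β c) := by
  obtain ⟨C1, c1, K1, hC1, hc1, hK1, h⟩ := circ_pr hRB
  refine ⟨C1, c1, K1, hC1, hc1, hK1, ?_⟩
  intro D ε C K a C4 ω w b hG hd0 hC4 hS hb h1 h2 h3 h4 h5
  refine h (D.sites ε ω) w b (rad C ε) (36 * C4) hb ⟨hS.gp, hd0, fun z hz => ?_⟩ (by positivity)
    (mesh_good hG hd0 hC4 hb.le h1 h2 h3 h5) h4 _ (filter_subset _ _) ?_
  · refine hS.hole z ?_
    have := norm_add_le (z - w) (w - D.c)
    rw [sub_add_sub_cancel] at this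
    linarith
  · intro s hs _ h7
    exact mem_filter.2 ⟨hs, h7⟩

/-! ### free discs -/

variable {d δ : ℝ}

/-- **the region of a disc which does not meet the outside** -/
theorem reg_free {D : Dom} (hS : Dns S D.c D.L d) (hr : 0 < r) (h30 : 30 * r ≤ ‖w - x‖)
    (hu : ‖t.2.1 - x‖ ≤ r) (hw : ‖w - D.c‖ + 4 * r + 2 * d ≤ D.L)
    (hout : Disjoint (Metric.ball w (4 * r + d)) D.out) :
    Reg S (D.netS S) t x (Sqc w r) (Sq w (2 * r)) (Metric.ball w (30 * r))
      (S.filter fun a => a ∈ Sq w (2 * r) ∧ Fr S (D.netS S) a) := by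
  refine reg_disc hr h30 hu ?_
  intro J _ a ha haQ hafr
  exfalso
  have h1 := Sq_norm haQ
  have h2 : ‖a - D.c‖ < D.L - 2 * d := by
    have := norm_add_le (a - w) (w - D.c)
    rw [sub_add_sub_cancel] at this
    linarith
  obtain ⟨y, hy, hyo⟩ := not_fr hS ha h2 hafr
  have h3 := cell_ball hS h2.le hy
  refine Set.disjoint_left.1 hout ?_ hyo
  rw [Metric.mem_ball, dist_eq_norm]
  have := norm_add_le (y - a) (a - w)
  rw [sub_add_sub_cancel] at this
  linarith

/-! ### discs on the arc -/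

/-- small perturbations of a vector have a small angle -/
theorem arg_small {u : ℂ} {η : ℝ} (hη : η ≤ 1 / 50) (hu : ‖u‖ ≤ η) :
    |(1 + u).arg| ≤ 2 * η := by
  have hη0 : 0 ≤ η := (norm_nonneg _).trans hu
  have hpi := Real.pi_pos
  have hpi2 : Real.pi < 3.15 := Real.pi_lt_d2
  have hre := (abs_le.1 (Complex.abs_re_le_norm u)).1
  have him := Complex.abs_im_le_norm u
  have hre0 : 0 < (1 + u).re := by simp only [Complex.add_re, Complex.one_re]; linarith
  have hn : 49 / 50 ≤ ‖1 + u‖ := by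
    have h1 := Complex.abs_re_le_norm (1 + u)
    have h2 := le_abs_self (1 + u).re
    simp only [Complex.add_re, Complex.one_re] at h1 h2
    linarith
  have hs : |Real.sin (1 + u).arg| ≤ 50 / 49 * η := by
    rw [Complex.sin_arg, abs_div, abs_of_pos (a := ‖1 + u‖) (by linarith), div_le_iff₀ (by linarith)]
    have h1 : |(1 + u).im| ≤ η := by
      simp only [Complex.add_im, Complex.one_im, zero_add]
      exact him.trans hu
    nlinarith
  have harg : |(1 + u).arg| ≤ Real.pi / 2 := (Complex.abs_arg_lt_pi_div_two_iff.2 (Or.inl hre0)).le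
  have hj := Real.mul_le_sin (abs_nonneg (1 + u).arg) harg
  have hsin : Real.sin |(1 + u).arg| = |Real.sin (1 + u).arg| := by
    rcases le_total 0 (1 + u).arg with h | h
    · rw [abs_of_nonneg h, abs_of_nonneg]
      rw [abs_of_nonneg h] at harg
      exact Real.sin_nonneg_of_nonneg_of_le_pi h (by linarith)
    · rw [abs_of_nonpos h, Real.sin_neg, abs_of_nonpos]
      rw [abs_of_nonpos h] at harg
      exact Real.sin_nonpos_of_nonpos_of_neg_pi_le h (by linarith)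
  rw [hsin] at hj
  have h2 : 2 / Real.pi * |(1 + u).arg| ≤ 50 / 49 * η := hj.trans hs
  have h3 : |(1 + u).arg| ≤ Real.pi / 2 * (50 / 49 * η) := by
    have := mul_le_mul_of_nonneg_left h2 (by positivity : 0 ≤ Real.pi / 2)
    have e : Real.pi / 2 * (2 / Real.pi * |(1 + u).arg|) = |(1 + u).arg| := by field_simp
    linarith
  nlinarith

/-- polar coordinates of a point near a point of the circle -/
theorem polar_near {c y : ℂ} {ρ0 φ τ : ℝ} (hρ : 0 < ρ0) (hτ : 50 * τ ≤ ρ0)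
    (hy : ‖y - (c + ρ0 * Complex.exp (φ * Complex.I))‖ ≤ τ) :
    ∃ ψ : ℝ, |ψ - φ| ≤ 2 * (τ / ρ0) ∧ y = c + (‖y - c‖ : ℝ) * Complex.exp (ψ * Complex.I) ∧
      |‖y - c‖ - ρ0| ≤ τ := by
  set E := Complex.exp (φ * Complex.I) with hE
  have hEn : ‖E‖ = 1 := Complex.norm_exp_ofReal_mul_I _
  have hE0 : E ≠ 0 := Complex.exp_ne_zero _
  have hρc : (ρ0 : ℂ) ≠ 0 := Complex.ofReal_ne_zero.2 hρ.ne'
  set u : ℂ := (y - (c + ρ0 * E)) / (ρ0 * E) with hu
  have hun : ‖u‖ ≤ τ / ρ0 := by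
    rw [hu, norm_div, norm_mul, hEn, mul_one, Complex.norm_real, Real.norm_eq_abs, abs_of_pos hρ]
    exact div_le_div_of_nonneg_right hy hρ.le
  have hη : τ / ρ0 ≤ 1 / 50 := by
    rw [div_le_iff₀ hρ]; linarith
  have e1 : y - c = (1 + u) * (ρ0 * E) := by
    rw [hu]; field_simp; ring
  have hne : 1 + u ≠ 0 := by
    intro h
    have h1 : u = -1 := by linear_combination h
    rw [h1, norm_neg, norm_one] at hun
    linarith
  refine ⟨φ + (1 + u).arg, ?_, ?_, ?_⟩
  · rw [add_sub_cancel_left]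
    exact arg_small hη hun
  · have h1 := Complex.norm_mul_exp_arg_mul_I (1 + u)
    have hn : ‖y - c‖ = ‖1 + u‖ * ρ0 := by
      rw [e1, norm_mul, norm_mul, hEn, mul_one, Complex.norm_real, Real.norm_eq_abs, abs_of_pos hρ]
    rw [hn]
    push_cast
    rw [add_mul, Complex.exp_add]
    have h2 : y = c + (1 + u) * (ρ0 * E) := by rw [← e1]; ring
    calc y = c + (1 + u) * (ρ0 * E) := h2
      _ = c + (‖1 + u‖ * Complex.exp ((1 + u).arg * Complex.I)) * (ρ0 * E) := by rw [h1]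
      _ = _ := by ring
  · have h1 : ‖(ρ0 : ℂ) * E‖ = ρ0 := by
      rw [norm_mul, hEn, mul_one, Complex.norm_real, Real.norm_eq_abs, abs_of_pos hρ]
    have h2 := abs_norm_sub_norm_le (y - c) (ρ0 * E)
    rw [h1] at h2
    refine h2.trans ?_
    have e : y - c - ρ0 * E = y - (c + ρ0 * E) := by ring
    rw [e]
    exact hy

theorem norm_exp_sub (a b : ℝ) :
    ‖Complex.exp (a * Complex.I) - Complex.exp (b * Complex.I)‖ ≤ |a - b| := by
  have h1 : Complex.exp (a * Complex.I) - Complex.exp (b * Complex.I) =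
      Complex.exp (b * Complex.I) * (Complex.exp (((a - b : ℝ) : ℂ) * Complex.I) - 1) := by
    rw [mul_sub, mul_one, ← Complex.exp_add]
    congr 2
    push_cast
    ring
  rw [h1, norm_mul, Complex.norm_exp_ofReal_mul_I, one_mul]
  have h2 := Real.norm_exp_I_mul_ofReal_sub_one_le (x := a - b)
  rw [mul_comm Complex.I] at h2
  exact h2

/-- **the region of a disc centred on the arc** -/
theorem reg_arc {D : Dom} {n : ℕ} {R : ZMod n → Set ℂ} {q : ZMod n → ℂ} {th : ℤ → ℝ}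
    (H : HNet S (D.netS S)) (hF : FanA n D.c D.L δ R q th) (hout : D.out = ⋃ i, R i)
    (hS : Dns S D.c D.L d) (hkl : ∀ p, p ∈ D.kl S → p ∈ (D.netS S).kl) (hr : 0 < r)
    (hdr : d ≤ r / 2) (hrL : 1000 * r ≤ D.L) (hrδ : 20 * r < δ) {φ : ℝ} (h1 : th 0 ≤ φ)
    (h2 : φ ≤ (th 0 + th 1) / 2) (hw : w = D.c + ((3 / 4 * D.L : ℝ) : ℂ) * Complex.exp (φ * Complex.I))
    (h30 : 30 * r ≤ ‖w - x‖) (hu : ‖t.2.1 - x‖ ≤ r) :
    Reg S (D.netS S) t x (Sqc w r) (Sq w (2 * r)) (Metric.ball w (30 * r))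
      (S.filter fun a => a ∈ Sq w (2 * r) ∧ Fr S (D.netS S) a) := by
  have hL := hF.fan.Lpos
  have hd := hS.dpos
  have hδ := hF.fan.dpos
  have hα := hF.ang_pos
  set α := DomAx722.ang (δ / D.L) with hαd
  -- `δ / L ≤ α`
  have hαδ : δ / D.L ≤ α := by
    have h3 : Real.sin α = δ / D.L := sin_ang hF.fan.eta_pos.le hF.fan.eta_lt.le
    rw [← h3]
    exact Real.sin_le hα.le
  set τ : ℝ := 5 * r with hτ
  set s1 : ℝ := 2 * (τ / (3 / 4 * D.L)) with hs1
  have hs10 : 0 ≤ s1 := by positivity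
  have hs1α : s1 < α := by
    refine lt_of_lt_of_le ?_ hαδ
    rw [hs1, hτ, lt_div_iff₀ hL]
    field_simp
    linarith
  set U : Set ℂ := (fun p : ℝ × ℝ => D.c + (p.1 : ℂ) * Complex.exp (p.2 * Complex.I)) ''
    (Set.Icc (3 / 4 * D.L - τ) (3 / 4 * D.L + τ) ×ˢ
      (Set.Ioo (th 0 + α) (th 1 - α) ∩ Set.Icc (φ - s1) (φ + s1))) with hU
  have hUpre : IsPreconnected U := by
    refine IsPreconnected.image ?_ _ (by fun_prop)
    refine isPreconnected_Icc.prod ?_
    exact (Set.ordConnected_Ioo.inter Set.ordConnected_Icc).isPreconnected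
  have hcn : ∀ (ρ ψ : ℝ), 0 ≤ ρ → ‖D.c + (ρ : ℂ) * Complex.exp (ψ * Complex.I) - D.c‖ = ρ := by
    intro ρ ψ hρ
    rw [add_sub_cancel_left, norm_mul, Complex.norm_exp_ofReal_mul_I, mul_one, Complex.norm_real,
      Real.norm_eq_abs, abs_of_nonneg hρ]
  have hUo : U ⊆ D.out := by
    rintro _ ⟨⟨ρ, ψ⟩, ⟨⟨hρ1, hρ2⟩, ⟨hψ1, hψ2⟩, -⟩, rfl⟩
    rw [hout]
    refine Set.mem_iUnion.2 ⟨((0 : ℤ) : ZMod n), ?_⟩
    dsimp only at hρ1 hρ2 hψ1 hψ2 ⊢
    refine hF.sector (by linarith) hψ1 ?_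
    rw [zero_add]
    exact hψ2
  have hUw : ∀ y ∈ U, ‖y - w‖ + d ≤ 30 * r := by
    rintro _ ⟨⟨ρ, ψ⟩, ⟨⟨hρ1, hρ2⟩, -, ⟨hψ1, hψ2⟩⟩, rfl⟩
    dsimp only at hρ1 hρ2 hψ1 hψ2 ⊢
    have e : D.c + (ρ : ℂ) * Complex.exp (ψ * Complex.I) - w =
        ((ρ - 3 / 4 * D.L : ℝ) : ℂ) * Complex.exp (ψ * Complex.I) +
        ((3 / 4 * D.L : ℝ) : ℂ) * (Complex.exp (ψ * Complex.I) - Complex.exp (φ * Complex.I)) := by
      rw [hw]; push_cast; ring
    have h3 : ‖D.c + (ρ : ℂ) * Complex.exp (ψ * Complex.I) - w‖ ≤ τ + 3 / 4 * D.L * s1 := by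
      rw [e]
      refine (norm_add_le _ _).trans ?_
      rw [norm_mul, norm_mul, Complex.norm_exp_ofReal_mul_I, mul_one, Complex.norm_real,
        Complex.norm_real, Real.norm_eq_abs, Real.norm_eq_abs,
        abs_of_pos (by positivity : (0 : ℝ) < 3 / 4 * D.L)]
      have h4 : |ρ - 3 / 4 * D.L| ≤ τ := by rw [abs_le]; constructor <;> linarith
      have h5 : |ψ - φ| ≤ s1 := by rw [abs_le]; constructor <;> linarith
      have h6 := (norm_exp_sub ψ φ).trans h5
      have h7 := mul_le_mul_of_nonneg_left h6 (by positivity : (0 : ℝ) ≤ 3 / 4 * D.L)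
      linarith
    have h8 : 3 / 4 * D.L * s1 = 2 * τ := by
      rw [hs1]; field_simp
    linarith
  have hUc : ∀ y ∈ U, ‖y - D.c‖ ≤ D.L - d := by
    rintro _ ⟨⟨ρ, ψ⟩, ⟨⟨hρ1, hρ2⟩, -⟩, rfl⟩
    dsimp only at hρ1 hρ2 ⊢
    rw [hcn ρ ψ (by linarith)]
    linarith
  have hwc : ‖w - D.c‖ = 3 / 4 * D.L := by
    rw [hw]
    exact hcn _ _ (by positivity)
  have hmeet : ∀ a ∈ S, a ∈ Sq w (2 * r) → ¬ Fr S (D.netS S) a →
      (cell (S : Set ℂ) a ∩ U).Nonempty := by
    intro a ha haQ hafr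
    have k1 := Sq_norm haQ
    have k2 : ‖a - D.c‖ < D.L - 2 * d := by
      have := norm_add_le (a - w) (w - D.c)
      rw [sub_add_sub_cancel] at this
      linarith
    obtain ⟨y, hy, hyo⟩ := not_fr hS ha k2 hafr
    have k3 := cell_ball hS k2.le hy
    have k4 : ‖y - w‖ ≤ τ := by
      have := norm_add_le (y - a) (a - w)
      rw [sub_add_sub_cancel] at this
      linarith
    rw [hw] at k4
    obtain ⟨ψ, p1, p2, p3⟩ := polar_near (ρ0 := 3 / 4 * D.L) (by positivity) (by linarith) k4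
    rw [abs_le] at p1 p3
    have k5 : D.L / 2 < ‖y - D.c‖ := by linarith [p3.1]
    rw [hout] at hyo
    obtain ⟨l, hl⟩ := Set.mem_iUnion.1 hyo
    rw [p2] at hl
    obtain ⟨k, -, m1, m2⟩ := hF.sector_conv k5 hl
    have hk0 : k = 0 := by
      by_contra hne
      rcases lt_or_gt_of_ne hne with h | h
      · have h3 := hF.cyc.mono.monotone (show k + 1 ≤ 0 by omega)
        linarith [p1.1]
      · have h3 := hF.cyc.mono.monotone (show 1 ≤ k by omega)
        have h4 := hF.cyc.mono (show (0 : ℤ) < 1 by omega)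
        linarith [p1.2]
    rw [hk0] at m1 m2
    rw [zero_add] at m2
    refine ⟨y, hy, ⟨‖y - D.c‖, ψ⟩, ⟨⟨by linarith [p3.1], by linarith [p3.2]⟩, ⟨m1, m2⟩,
      ⟨by linarith [p1.1], by linarith [p1.2]⟩⟩, p2.symm⟩
  refine reg_disc hr h30 hu ?_
  intro J hJ a ha haQ hafr b hb hbQ hbfr
  exact wall_conn H hS hkl hJ hUpre hUo hUw hUc ha hb (hmeet a ha haQ hafr) (hmeet b hb hbQ hbfr)

end Crest.Agent.R143.XW6x315
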