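import Crest.Agent.R143.UI_136
import Crest.Agent.R143.NstC_700
import Crest.Agent.R143.CNT_930
import Crest.Agent.R143.EQE4_63
import Crest.Agent.R143.XW6_315
import Crest.Agent.R143.AsmO_758

/-!
# Row 143 (S0194), leaf UIJ (helper136): uniform integrability of the number of steps

* `quenched` : truncated mean of the number of steps in a good disc
* `uij : (Adm → D.W) → UIJ Adm`
-/

set_option autoImplicit false

noncomputable section

open scoped Classical

namespace Crest.Agent.R143.UIJx136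

open Set Filter Topology MeasureTheory
open scoped ENNReal
open Crest.ProbabilityR.Voronoi
open Crest.Agent.R143.B0x346 Crest.Agent.R143.B0Dx346
open Crest.Agent.R143.Y0x831 (Good)
open Crest.Agent.R143.PP1x831 (rad)
open Crest.Agent.R143.X0Bx683 (Fs)
open Crest.Agent.R143.Mabx377
open Crest.Agent.R143.Spinex422 (Room Linked)
open Crest.Agent.R143.B6Ix903 (net)
open Crest.Agent.R143.DicCx831 (rad_small ev_unit log_small)
open Crest.Agent.R143.DicDx831 (good_ev room_norm)
open Crest.Agent.R143.RB0x838 Crest.Agent.R143.RBmx838 Crest.Agent.R143.CircPx838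
open Crest.Agent.R143.Harx315 Crest.Agent.R143.XW1x315
open Crest.Agent.R143.NstAx700 Crest.Agent.R143.NstBx700 Crest.Agent.R143.NstCx700
open Crest.Agent.R143.LawOmx139 Crest.Agent.R143.CNTx930 Crest.Agent.R143.UIx136
open Crest.Agent.R143.NstUIx136 Crest.Agent.R143.EQE3x63 Crest.Agent.R143.AsmNx758

/-- second moment of the functional of one box -/
theorem xb_sq {V : Finset ℂ} {S : Finset ℂ} {b : ℂ} {q p : ℝ} (hp : 0 < p) (hp1 : p ≤ 1)
    (h : ∀ (k : Fin 4) (j : ℕ), pr V (fun β => j ≤ KE S b q k β) ≤ (1 - p) ^ j) :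
    ex V (fun β => (XB S b q β : ℝ) ^ 2) ≤ 512 / p ^ 2 := by
  have h1 := ex_sq (V := V) (t := (Finset.univ : Finset (Fin 4))) (N := fun k β => KE S b q k β)
    (p := 1 - p) (by linarith) (by linarith) (fun k _ j => h k j)
  have h2 : ex V (fun β => (XB S b q β : ℝ) ^ 2) =
      16 * ex V (fun β => (∑ k : Fin 4, (KE S b q k β : ℝ)) ^ 2) := by
    rw [← ex_mul_const]
    refine ex_congr fun β _ => ?_
    unfold XB
    push_cast
    ring
  rw [h2]
  refine (mul_le_mul_of_nonneg_left h1 (by norm_num)).trans (le_of_eq ?_)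
  rw [Finset.card_univ, Fintype.card_fin, sub_sub_cancel]
  push_cast
  ring

/-- **the quenched estimate** -/
theorem quenched : ∀ C4 : ℝ, 0 ≤ C4 → ∃ p c1 c2 K : ℝ, 0 < p ∧ 0 < c1 ∧ 0 < c2 ∧ c2 ≤ 1 ∧
    0 < K ∧ ∀ (S : Finset ℂ) (N : Net ℂ) (z : ℂ) (R d l q ρ : ℝ), Wd S N z R d → 0 < q →
    5 * q ≤ l → 0 ≤ ρ → ρ + (K + 6) * q ≤ R →
    (∀ b : ℂ, ‖b - z‖ ≤ ρ + q → MeshA S b (K * q) c2 q C4) → d ≤ c1 * q →
    ∀ M : ℕ, 0 < M → av N (fun J => if M < cnt S N l z ρ J then (cnt S N l z ρ J : ℝ) else 0) ≤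
      ((grid z ρ (q / 2)).card : ℝ) ^ 2 * (512 / p ^ 2) / M := by
  intro C4 hC4
  obtain ⟨p, c1, c2, K, hp, hp1, hc1, hc2, hc2', hK, h⟩ := ke_tail RBEx723.rbm C4 hC4
  refine ⟨p, min c1 (1 / 8), c2, K, hp, by positivity, hc2, hc2', hK, ?_⟩
  intro S N z R d l q ρ W hq hql hρ hR hM hd M hM0
  have hd1 : d ≤ c1 * q := hd.trans (mul_le_mul_of_nonneg_right (min_le_left _ _) hq.le)
  have hd2 : 8 * d ≤ q := by
    have := hd.trans (mul_le_mul_of_nonneg_right (min_le_right _ _) hq.le)
    linarith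
  have hd0 := W.dns.dpos
  have hKq : 0 < K * q := by positivity
  have hR' : ρ + K * q + 6 * q ≤ R := by nlinarith
  set t : Finset ℂ := (grid z ρ (q / 2)).filter fun b => ‖b - z‖ ≤ ρ + q with ht
  have htz : ∀ b ∈ t, ‖b - z‖ ≤ ρ + q := fun b hb => (Finset.mem_filter.1 hb).2
  have tri : ∀ x y w : ℂ, ‖x - w‖ ≤ ‖x - y‖ + ‖y - w‖ := fun x y w => norm_sub_le_norm_sub_add_norm_sub x y w
  -- the sites
  set V := Fs S z R with hV
  have hVS : V ⊆ S := Finset.filter_subset _ _
  have hann : ∀ b ∈ t, ∀ s ∈ S, q < sup (s - b) → sup (s - b) < 2 * q → s ∈ V := by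
    intro b hb s hs _ h2
    refine Finset.mem_filter.2 ⟨hs, ?_⟩
    have h3 := norm_le_sup (s - b)
    have h4 := htz b hb
    have h5 := tri s b z
    linarith
  have hbox : ∀ b ∈ t, (∀ k : Fin 4, ∃ l, Cross S (zc b q k) (CircPx838.dir k) (3 / 2 * q)
      (1 / 4 * q) S l) ∧ ∀ (k : Fin 4) (j : ℕ), pr V (fun β => j ≤ KE S b q k β) ≤ (1 - p) ^ j := by
    intro b hb
    have h4 := htz b hb
    have hD : LDns S b (K * q) d := LDns.shift W.dns (by linarith)
    obtain ⟨h1, h2⟩ := h S b q d hq hD (hM b h4) hd1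
    exact ⟨h1, fun k j => h2 V hVS (hann b hb) k j⟩
  have hcard := Planarx54.HNet.card W.hnet
  have main := avg_ui (S := S) (N := N) (k := 2) (V := V) W.hnet hcard W.free hVS (t := t)
    (X := fun b B => (XB S b q B : ℝ)) (C0 := 512 / p ^ 2) (M := (M : ℝ)) (by exact_mod_cast hM0)
    (fun b _ B => Nat.cast_nonneg _) (fun b hb => xb_sq hp hp1 (hbox b hb).2)
    (fun b hb B _ => by
      have : XB S b q B = XB S b q (B ∩ V) := by
        unfold XB
        congr 1
        exact Finset.sum_congr rfl fun k _ => ke_dep hq B (hann b hb)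
      rw [this])
    (g := fun J => (cnt S N l z ρ J : ℝ)) ?_
  · have hle : av N (fun J => if M < cnt S N l z ρ J then (cnt S N l z ρ J : ℝ) else 0) ≤
        (t.card : ℝ) ^ 2 * (512 / p ^ 2) / M := by
      unfold AsmNx758.av
      rcases Nat.eq_zero_or_pos (Om N).card with h0 | h0
      · rw [h0, Nat.cast_zero, div_zero]
        positivity
      · rw [div_le_iff₀ (by exact_mod_cast h0), mul_comm _ ((Om N).card : ℝ)]
        refine le_trans (le_of_eq ?_) main
        refine Finset.sum_congr rfl fun J _ => ?_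
        simp only [Nat.cast_lt]
    refine hle.trans ?_
    gcongr
    exact Finset.filter_subset _ _
  · intro B hB
    have hc : cnt S N l z ρ (jn N 2 B) ≤ ∑ b ∈ t, XB S b q B := by
      unfold cnt
      set F := (Finset.range (fuel N + 1)).filter fun j =>
        Alive S N (xs N l (jn N 2 B) j) ∧ dist (mid (xs N l (jn N 2 B) j).2) z < ρ with hF
      have hsub : F ⊆ t.biUnion fun b => F.filter fun j =>
          ‖mid (xs N l (jn N 2 B) j).2 - b‖ ≤ q / 2 := by
        intro j hj
        have h1 := (Finset.mem_filter.1 hj).2.2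
        rw [dist_eq_norm] at h1
        obtain ⟨b, hb, hb2⟩ := grid_cover (z := z) (s := q / 2) (by linarith) h1.le
        rw [Finset.mem_biUnion]
        refine ⟨b, Finset.mem_filter.2 ⟨hb, ?_⟩, Finset.mem_filter.2 ⟨hj, hb2⟩⟩
        have h2 := tri b (mid (xs N l (jn N 2 B) j).2) z
        have h3 := norm_sub_rev b (mid (xs N l (jn N 2 B) j).2)
        linarith
      refine (Finset.card_le_card hsub).trans (Finset.card_biUnion_le.trans ?_)
      refine Finset.sum_le_sum fun b hb => ?_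
      have h4 := htz b hb
      refine steps_le (r := q) (R := 5 * q) (d := d) W.hnet (by linarith) hq hql hd2
        (LDns.shift W.dns (by linarith)) le_rfl (fun a x ha => W.inner a x ?_) (hbox b hb).1 hB _
        fun j hj => (Finset.mem_filter.1 hj).2
      have h5 := tri a b z
      linarith
    show (cnt S N l z ρ (jn N 2 B) : ℝ) ≤ ∑ b ∈ t, (XB S b q B : ℝ)
    exact_mod_cast hc

/-- **leaf UIJ** -/
theorem uij {Adm : Dom → ℝ → Prop} (hAdm : ∀ D δ, Adm D δ → D.W δ) : UIJ Adm := by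
  intro D δ hD m hm r hr z hz hli l hl hlr η hη
  have hW := hAdm D δ hD
  have hL := hW.Lpos
  obtain ⟨C, Kg, a, C4, hC, hKg, ha, hC4, hgood⟩ := good_ev D hL
  obtain ⟨p, c1, c2, K, hp, hc1, hc2, hc2', hK, hq⟩ := quenched (36 * C4) (by positivity)
  have h1 := room_norm hz (by linarith)
  set q : ℝ := min (l / 5) (min (r / (2 * (K + 6))) (1 / 6)) with hqdef
  have hq0 : 0 < q := by positivity
  have hq1 : 5 * q ≤ l := by
    have : q ≤ l / 5 := min_le_left _ _
    linarith
  have hq2 : (K + 6) * q ≤ r / 2 := by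
    have : q ≤ r / (2 * (K + 6)) := (min_le_right _ _).trans (min_le_left _ _)
    rw [le_div_iff₀ (by positivity)] at this
    linarith
  have hq3 : q ≤ 1 / 6 := (min_le_right _ _).trans (min_le_right _ _)
  set A : ℝ := ((grid z (2 * r) (q / 2)).card : ℝ) ^ 2 * (512 / p ^ 2) with hA
  have hA0 : 0 ≤ A := by positivity
  obtain ⟨M, hM⟩ := exists_nat_gt (A / η)
  have hM1 : 0 < M + 1 := Nat.succ_pos M
  refine ⟨M + 1, ?_⟩
  filter_upwards [ev_unit, hnet_evW (C := C) hW, hgood, (rad_small C).eventually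
    (ge_mem_nhds (show (0 : ℝ) < min (min (c1 * q) (r / 8)) (min (c2 * q / 2) (D.L / 8)) by positivity)),
    (log_small a).eventually (ge_mem_nhds (show (0 : ℝ) < c2 * q by positivity)),
    nhdsWithin_le_nhds (ge_mem_nhds (show (0 : ℝ) < η from hη))] with ε e1 e2 e3 e4 e5 e6
  refine (measure_mono ?_).trans (e3.trans (ENNReal.ofReal_le_ofReal e6))
  intro ω hω hG
  change η < _ at hω
  have hd0 : 0 < rad C ε := DicCx831.rad_pos hC e1
  have d1 : rad C ε ≤ c1 * q := e4.trans ((min_le_left _ _).trans (min_le_left _ _))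
  have d2 : rad C ε ≤ r / 8 := e4.trans ((min_le_left _ _).trans (min_le_right _ _))
  have d3 : rad C ε ≤ c2 * q / 2 := e4.trans ((min_le_right _ _).trans (min_le_left _ _))
  have d4 : rad C ε ≤ D.L / 8 := e4.trans ((min_le_right _ _).trans (min_le_right _ _))
  have hN := e2 Kg a C4 ω hG
  have hWd : Wd (D.sites ε ω) (net D ε ω) z (3 * r) (rad C ε) :=
    EQE4x63.wd_of_env hd0 hG.env hN hz (by linarith) (by linarith)
  have h7 : 4 * r ≤ D.L / 2 := by
    have h0 : 0 ≤ ‖z - D.c‖ := norm_nonneg _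
    linarith
  have hbnd := hq (D.sites ε ω) (net D ε ω) z (3 * r) (rad C ε) l q (2 * r) hWd hq0 hq1
    (by linarith) (by linarith) (fun b hb b' hb1 hb2 => by
      have hb0 : 0 < b' := lt_of_lt_of_le (by positivity) hb1
      have hKq : K * q / b' * b' = K * q := by field_simp
      have h5 := norm_sub_le_norm_sub_add_norm_sub b z D.c
      have h8 := XW6x315.mesh_good (w := b) hG hd0 hC4.le (K1 := K * q / b') hb0.le
        (by linarith) (by linarith) (by linarith) (by
          rw [hKq]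
          nlinarith)
      rwa [hKq] at h8) d1 (M + 1) hM1
  have : A / ((M + 1 : ℕ) : ℝ) ≤ η := by
    rw [div_lt_iff₀ hη] at hM
    rw [div_le_iff₀ (by positivity)]
    push_cast
    nlinarith
  exact absurd (hbnd.trans this) (not_le.2 hω)

end Crest.Agent.R143.UIJx136
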