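import Crest.Agent.R143.Final_894
import Crest.Agent.R143.DicF_831
import Crest.Agent.R143.AsmC_758
import Crest.Agent.R143.Bnd_377
import Crest.Agent.R143.UIJ_136
import Crest.Agent.R143.NstP_528

/-!
# Row 143 (S0194): bridges from the forms of the core to the leaf (helper894)

831's `YG`, `YE`, `YL`, `YW` and 758's five Props `NST`, `UIJ`, `BND`, `CONT`, `POLY`, all on
422's domains `AdP`, give `Finx894.Leaf894` and hence the row.
-/

set_option autoImplicit false

noncomputable section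

namespace Crest.Agent.R143.FinBx894

open Crest.ProbabilityR.Voronoi
open Crest.Agent.R143.B0Dx346 Crest.Agent.R143.Spinex422 Crest.Agent.R143.GeoSeqPx422
open Crest.Agent.R143.AsmNx758 Crest.Agent.R143.Finx894

/-- 831's copy of the leaf and the leaf of the spine agree -/
theorem lminW_iff (Adm : Dom → ℝ → Prop) : DicDx831.LMinW Adm ↔ LMinW Adm := Iff.rfl

theorem adP_w (D : Dom) (δ : ℝ) (h : AdP D δ) : D.W δ := h.1.w

theorem leaf_of_yg (h : DicEx831.YG AdP) : Leaf894 := DicEx831.lmin_of_yg adP_w h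

theorem leaf_of_ye (h : DicEx831.YE AdP) : Leaf894 := DicEx831.lmin_of_ye adP_w h

theorem leaf_of_yl (h : DicFx831.YL AdP) : Leaf894 := DicFx831.lmin_of_yl adP_w h

theorem leaf_of_yw (h : DicDx831.YW AdP) : Leaf894 := DicDx831.lmin_of_yw adP_w h

/-- the leaf from 758's five Props -/
theorem leaf_of_five {U U' : Type} {T : U → ℝ → Sample → ℂ} {T' : U' → ℝ → Sample → ℂ}
    (h1 : NST AdP) (h2 : UIJ AdP) (h3 : BND we AdP) (h3' : BND wd AdP)
    (h4 : CONT we T AdP) (h4' : CONT wd T' AdP) (h5 : POLY T T') : Leaf894 :=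
  leaf_of_yw (yw_of adP_w h1 h2 h3 h3' h4 h4' h5)

theorem body_of_five {U U' : Type} {T : U → ℝ → Sample → ℂ} {T' : U' → ℝ → Sample → ℂ}
    (h1 : NST AdP) (h2 : UIJ AdP) (h3 : BND we AdP) (h3' : BND wd AdP)
    (h4 : CONT we T AdP) (h4' : CONT wd T' AdP) (h5 : POLY T T') : Body :=
  body (leaf_of_five h1 h2 h3 h3' h4 h4' h5)

/-- `NST` is 528's theorem, `UIJ` 136's, `BND` 377's: what is left of 758's interface -/
theorem leaf_of_cont {U U' : Type} {T : U → ℝ → Sample → ℂ} {T' : U' → ℝ → Sample → ℂ}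
    (h4 : CONT we T AdP) (h4' : CONT wd T' AdP) (h5 : POLY T T') : Leaf894 :=
  leaf_of_five (NstPx528.nstP adP_w) (UIJx136.uij adP_w) (Mabx377.bnd_we fun _ _ h => h.1)
    (Mabx377.bnd_wd fun _ _ h => h.1) h4 h4' h5

/-- `CONT` from 758's `AREA` and `DC` -/
theorem leaf_of_dc {U U' : Type} {T : U → ℝ → Sample → ℂ} {T' : U' → ℝ → Sample → ℂ}
    (hA : AREA AdP) (h4 : DC we T AdP) (h4' : DC wd T' AdP) (h5 : POLY T T') : Leaf894 :=
  leaf_of_cont (cont_of h4 hA) (cont_of h4' hA) h5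

end Crest.Agent.R143.FinBx894
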