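import Crest.Agent.R143.FinB_894
import Crest.Agent.R143.PolyU_346
import Crest.Agent.R143.AsmD_377
import Crest.Agent.R143.K33R_877

/-!
# Row 143 (S0194): what is left, in the frozen objects (helper894)

`T := PolyUx346.Poly.T`, `T' := PolyUx346.Poly.T'` (346's frozen totals of a labelled polygon).
* `leaf_frozen` : `CONT we T AdP → CONT wd T' AdP → POLY T T' → Leaf894`
* `leaf_vis` : the same with 377's `SMALL`, `VIS` for the two weights, any predicate `Sm`
-/

set_option autoImplicit false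

noncomputable section

namespace Crest.Agent.R143.FinCx894

open Crest.ProbabilityR.Voronoi
open Crest.Agent.R143.B0Dx346 Crest.Agent.R143.GeoSeqPx422
open Crest.Agent.R143.AsmNx758 Crest.Agent.R143.Finx894 Crest.Agent.R143.PolyUx346
open Crest.Agent.R143.Mabx377 (SMALL VIS)

/-- CONT, weight `e` -/
abbrev ContB : Prop := CONT we Poly.T AdP

/-- CONT, weight `conj e` -/
abbrev ContD : Prop := CONT wd Poly.T' AdP

/-- RIG -/
abbrev Rig : Prop := POLY Poly.T Poly.T'

theorem leaf_frozen (h : ContB) (h' : ContD) (h5 : Rig) : Leaf894 :=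
  FinBx894.leaf_of_cont h h' h5

theorem contB_of {Sm : Finset ℂ → (ZMod 3 → Set ℂ) → ℝ → Prop} (h1 : SMALL Sm id AdP)
    (h2 : VIS Sm Poly.T id AdP) : ContB :=
  Mabx377.cont_we K33x877.hitu (fun _ _ h => h.1) h1 h2

theorem contD_of {Sm : Finset ℂ → (ZMod 3 → Set ℂ) → ℝ → Prop}
    (h1 : SMALL Sm (starRingEnd ℂ) AdP) (h2 : VIS Sm Poly.T' (starRingEnd ℂ) AdP) : ContD :=
  Mabx377.cont_wd K33x877.hitu (fun _ _ h => h.1) h1 h2

/-- the row from `SMALL`, `VIS` and RIG -/
theorem leaf_vis {Sm Sm' : Finset ℂ → (ZMod 3 → Set ℂ) → ℝ → Prop}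
    (h1 : SMALL Sm id AdP) (h1' : SMALL Sm' (starRingEnd ℂ) AdP)
    (h2 : VIS Sm Poly.T id AdP) (h2' : VIS Sm' Poly.T' (starRingEnd ℂ) AdP) (h5 : Rig) :
    Leaf894 :=
  leaf_frozen (contB_of h1 h2) (contD_of h1' h2') h5

end Crest.Agent.R143.FinCx894
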