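import Crest.Agent.R143.PolyU_346
import Crest.Agent.R143.DomA_722
import Crest.Agent.R143.CenS_496
import Crest.Agent.R143.GateK_421
import Crest.Agent.R143.Lab_755

/-!
# Row 143 (S0194), CONT, (K7): literal statement and sub-leaves (helper359)

Plan = 723's (no rainbow disc): ALL good bricks `Gd`, one layer (583) for all of them, a centre of
the enlarged classes `A'` is small (then `A` has a small centre) or a connected set of free sites in
ONE component `U` of the good bricks; all three labels occur on the boundary of `U`.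

* `Stg` : the setting; `Gd` : good bricks; `Al` : their region; `Va` : the deep sites
* `Lay`, `LAYER` (583 / 453): the enlarged classes
* `Cm`, `GRID` (991): components of `Gd`
* `CENT` (723): small centre, or a connected free centre of `A'` in one component
* `Bd` : boundary data of a component: walk, labels of the edges
* `THR` (755 / 951): the labels form three intervals
* `Mks`, `MARK` : the disputed sites at the marks
* `Out`, **`K7`** : the result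
-/

set_option autoImplicit false

noncomputable section

open scoped Classical

namespace Crest.Agent.R143.K7Dx359

open Crest.Agent.R158.Sp896 (V lc rc pt ed sq Cyc)
open Crest.Agent.R143.JColx54 (Adj)
open Crest.Agent.R143.RE0x723 (Pth)
open Crest.Agent.R143.K33x877 (Tr fr CtrT CtrX)
open Crest.Agent.R143.Brkx478 (Bk Nb Conn cells)
open Crest.Agent.R143.Tenx416 (Pg)
open Crest.Agent.R143.DomAx722 (Dns)
open Crest.Agent.R143.CenSx496 (SmC)
open Crest.Agent.R143.GateKx421 (Thin)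
open Crest.Agent.R143.NetVx346 (Vin Bl)
open Crest.Agent.R143.PolyUx346 (Poly)

variable {S : Finset ℂ} {A A' : ZMod 3 → Set ℂ} {x0 : ℂ} {L d s C : ℝ}

/-- **setting**: dense sites in the disc `(x0, L)` (holes `d`), three classes in counterclockwise
order, unit `s` with `√(L d) ≪ s ≪ L` -/
structure Stg (S : Finset ℂ) (A : ZMod 3 → Set ℂ) (x0 : ℂ) (L d s : ℝ) : Prop where
  dns : Dns S x0 L d
  card : 3 ≤ S.card
  tr : Tr S A
  pg : ∃ (n : ℕ) (w : ℤ → ℂ) (p : ℕ → ℤ),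
    RE0x723.Pg S n w 2 p fun j => S.filter fun x => x ∈ A (j : ZMod 3)
  scl : 2 ^ 20 * √(L * d) ≤ s
  sL : 2 ^ 10 * s ≤ L

/-- closed tile of a brick -/
def tile (s : ℝ) (b : Bk) : Set ℂ := Pg s (cells {b})

/-- **good bricks**: the brick and its six neighbours are well inside the disc and contain no site
of a class -/
def Gd (A : ZMod 3 → Set ℂ) (x0 : ℂ) (L s : ℝ) : Set Bk :=
  {b | ∀ c, (c = b ∨ Nb b c) → (∀ z ∈ tile s c, ‖z - x0‖ ≤ L - 2 * s) ∧
    ∀ i, ∀ e ∈ A i, e ∉ tile s c}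

/-- region of all good bricks -/
def Al (A : ZMod 3 → Set ℂ) (x0 : ℂ) (L s : ℝ) : Set ℂ := Pg s (cells (Gd A x0 L s))

/-- all deep sites -/
def Va (S : Finset ℂ) (A : ZMod 3 → Set ℂ) (x0 : ℂ) (L d s : ℝ) : Finset ℂ := Vin S (Al A x0 L s) d

/-- `(a, b)` is a boundary dart of the set of bricks `G` (`G` on the left) -/
def Dart (G : Set Bk) (a b : V) : Prop := Crest.Agent.R158.Sp896.Adj a b ∧ lc a b ∈ cells G ∧
  rc a b ∉ cells G

/-- every site of `A' j` is joined to `A j` in `A' j` within the distance `r` (no condition on the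
site: FULL version of 421's `Thin`) -/
def ThF (S : Finset ℂ) (A A' : ZMod 3 → Set ℂ) (j : ZMod 3) (r : ℝ) : Prop :=
  ∀ x ∈ A' j, ∃ a ∈ A j, Pth S {y | y ∈ A' j ∧ ‖y - x‖ ≤ r} x a

theorem ThF.thin {j : ZMod 3} {r : ℝ} (h : ThF S A A' j r) : Thin S A A' j r :=
  fun x hx _ => h x hx

theorem ThF.mono {j : ZMod 3} {r r' : ℝ} (h : ThF S A A' j r) (hr : r ≤ r') : ThF S A A' j r' :=
  fun x hx => by
    obtain ⟨a, ha, hp⟩ := h x hx
    exact ⟨a, ha, hp.mono fun y hy => ⟨hy.1, hy.2.trans hr⟩⟩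

/-! ### the layer -/

/-- **enlarged classes**: free sites = deep sites of the good bricks, `l` labels of the boundary
darts -/
structure Lay (S : Finset ℂ) (A : ZMod 3 → Set ℂ) (x0 : ℂ) (L d s C : ℝ) (l : V → V → ZMod 3)
    (A' : ZMod 3 → Set ℂ) : Prop where
  tr : Tr S A'
  sub : ∀ i, A i ⊆ A' i
  fr : fr S A' = (Va S A x0 L d s : Set ℂ)
  /-- every site of `A' j` is joined to `A j` in `A' j` within `C s` -/
  thin : ∀ j, ThF S A A' j (C * s)
  /-- the label of a site next to a free site is the label of a boundary edge at distance `≤ s / 8` -/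
  lab : ∀ i, ∀ x ∈ A' i, (∃ v ∈ Va S A x0 L d s, Adj S x v) →
    ∃ a b, Dart (Gd A x0 L s) a b ∧ l a b = i ∧ Metric.infDist x (ed s a b) ≤ s / 8

/-- **LAYER** (583, 453) -/
def LAYER : Prop := ∃ C : ℝ, 1 ≤ C ∧ ∀ (S : Finset ℂ) (A : ZMod 3 → Set ℂ) (x0 : ℂ) (L d s : ℝ),
  Stg S A x0 L d s → ∃ l A', Lay S A x0 L d s C l A'

/-! ### components of the good bricks -/

/-- component of the good bricks -/
structure Cm (A : ZMod 3 → Set ℂ) (x0 : ℂ) (L s : ℝ) (U : Finset Bk) : Prop where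
  ne : U.Nonempty
  sub : ∀ b ∈ U, b ∈ Gd A x0 L s
  con : Conn (U : Set Bk)
  con' : Conn (U : Set Bk)ᶜ
  cl : ∀ b ∈ U, ∀ c, Nb b c → c ∈ Gd A x0 L s → c ∈ U

/-- **GRID** (991): every good brick is in a component with connected complement -/
def GRID : Prop := ∀ (S : Finset ℂ) (A : ZMod 3 → Set ℂ) (x0 : ℂ) (L d s : ℝ),
  Stg S A x0 L d s → ∀ b ∈ Gd A x0 L s, ∃ U, Cm A x0 L s U ∧ b ∈ U

/-- the deep sites of a component -/
def Vu (S : Finset ℂ) (d s : ℝ) (U : Finset Bk) : Finset ℂ := Vin S (Pg s (cells (U : Set Bk))) d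

/-- **COMP** : `Vu` is a union of components of the free sites; a connected set of free sites is in
one `Vu`; a boundary dart of `Gd` near a site next to `Vu` is a boundary dart of `U` -/
def COMP : Prop := ∀ (S : Finset ℂ) (A : ZMod 3 → Set ℂ) (x0 : ℂ) (L d s : ℝ),
  Stg S A x0 L d s →
    (∀ U, Cm A x0 L s U → (∀ v ∈ Vu S d s U, v ∈ Va S A x0 L d s) ∧
      (∀ v ∈ Vu S d s U, ∀ w ∈ Va S A x0 L d s, Adj S v w → w ∈ Vu S d s U) ∧
      (∀ v ∈ Vu S d s U, ∀ x, Adj S x v → ∀ a b, Dart (Gd A x0 L s) a b →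
        Metric.infDist x (ed s a b) ≤ s / 8 → Dart (U : Set Bk) a b)) ∧
    ∀ v ∈ Va S A x0 L d s, ∃ b ∈ Gd A x0 L s, ∀ U, Cm A x0 L s U → b ∈ U → v ∈ Vu S d s U

/-- **CENT** (723): small centre of `A`, or a connected free centre of `A'`, which meets every other
one (and `A'` has no triangle centre) -/
def CENT : Prop := ∀ C : ℝ, 1 ≤ C → ∃ C' : ℝ, 1 ≤ C' ∧
  ∀ (S : Finset ℂ) (A A' : ZMod 3 → Set ℂ) (x0 : ℂ) (L d s : ℝ) (l : V → V → ZMod 3),
  Stg S A x0 L d s → Lay S A x0 L d s C l A' →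
    (∃ p, SmC S A p (C' * s)) ∨ ((∀ t, ¬ CtrT S A' t) ∧ ∃ X, CtrX S A' X ∧
      (∀ x ∈ X, x ∈ Va S A x0 L d s) ∧ ∀ Y, CtrX S A' Y → ¬ Disjoint X Y)

/-! ### three intervals -/

/-- boundary walk of a component with the labels of its edges; every label is the label of an edge
near a site of the class next to `Vu` -/
structure Bd (S : Finset ℂ) (A' : ZMod 3 → Set ℂ) (d s : ℝ) (U : Finset Bk) (l : V → V → ZMod 3)
    (N : ℕ) (v : ℕ → V) : Prop where
  cyc : Cyc (cells (U : Set Bk)) N v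
  lab : ∀ i, ∀ x ∈ A' i, (∃ v ∈ Vu S d s U, Adj S x v) →
    ∃ k, l (v k) (v (k + 1)) = i ∧ Metric.infDist x (ed s (v k) (v (k + 1))) ≤ s / 8
  all : ∀ i, ∃ k, l (v k) (v (k + 1)) = i

/-- **THR** (755 `ord`, 951 `spk_ex`, `three_comb`): three intervals of labels in this order -/
def THR : Prop := ∀ (S : Finset ℂ) (A A' : ZMod 3 → Set ℂ) (x0 : ℂ) (L d s C : ℝ)
  (l : V → V → ZMod 3) (U : Finset Bk) (N : ℕ) (v : ℕ → V), 1 ≤ C →
  Stg S A x0 L d s → Lay S A x0 L d s C l A' → Cm A x0 L s U → Bd S A' d s U l N v →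
    ∃ k : Fin 3 → ℕ, k 0 < k 1 ∧ k 1 < k 2 ∧ k 2 < k 0 + N ∧
      (∀ j, k 0 ≤ j → j < k 1 → l (v j) (v (j + 1)) = 0) ∧
      (∀ j, k 1 ≤ j → j < k 2 → l (v j) (v (j + 1)) = 1) ∧
      (∀ j, k 2 ≤ j → j < k 0 + N → l (v j) (v (j + 1)) = 2)

/-! ### marks -/

/-- **marks** (STAB', 331 / 660; `De` : 741, 359): every site next to `V` is undisputed or disputed
at some `b` -/
structure Mks (S V : Finset ℂ) (A B : ZMod 3 → Set ℂ) {ι : Type} (m : ι → ℂ) (e : ι → ZMod 3)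
    (N De : ι → Set ℂ) (ρ : ℝ) : Prop where
  lab : ∀ x ∈ S, x ∉ V → (∃ v ∈ V, Adj S x v) → (∀ l, x ∈ A l ↔ x ∈ B l) ∨
    ∃ b, (∀ v ∈ V, Adj S x v → v ∈ N b ∨ v ∈ De b) ∧ x ∉ A (e b) ∧ x ∉ B (e b)
  nV : ∀ b, ∀ x ∈ N b, x ∈ V
  ncon : ∀ b, ∀ x ∈ N b, ∀ y ∈ N b, Pth S (N b) x y
  nball : ∀ b, ∀ x ∈ N b, ‖x - m b‖ ≤ ρ
  nadj : ∀ b l, l ≠ e b → ∃ x ∈ N b, ∃ y ∈ A l, Adj S x y
  /-- dead sites: a union of components of `V` which are not next to the label `e b` -/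
  dV : ∀ b, ∀ x ∈ De b, x ∈ V
  dcl : ∀ b, ∀ x ∈ De b, ∀ y ∈ V, Adj S x y → y ∈ De b
  dno : ∀ b, ∀ x ∈ De b, ∀ y, Adj S x y → y ∉ A (e b) ∧ y ∉ B (e b)

/-- **MARK** : the marks of a polygon whose edges have the labels `0` on `[k 0, k 1)`, `1` on
`[k 1, k 2)`, `2` on `[k 2, k 0 + L)` -/
def MARK : Prop := ∀ (S : Finset ℂ) (A A' : ZMod 3 → Set ℂ) (x0 : ℂ) (L d s C : ℝ)
  (l : V → V → ZMod 3) (u : Poly), 1 ≤ C → u.s = s →
  Stg S A x0 L d s → Lay S A x0 L d s C l A' → Cm A x0 L s u.U → Bd S A' d s u.U l u.L u.v →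
  (∀ j, u.k 0 ≤ j → j < u.k 1 → l (u.v j) (u.v (j + 1)) = 0) →
  (∀ j, u.k 1 ≤ j → j < u.k 2 → l (u.v j) (u.v (j + 1)) = 1) →
  (∀ j, u.k 2 ≤ j → j < u.k 0 + u.L → l (u.v j) (u.v (j + 1)) = 2) →
    ∃ N De : Fin 3 → Set ℂ, Mks S (Vin S u.P d) A' (Bl S (Vin S u.P d) u.Lab)
      (fun b => u.mid (u.k b)) (fun b => ((b : ℕ) : ZMod 3) + 1) N De (2 * s)

/-! ### the result -/

/-- **output of (K7)** -/
structure Out (S : Finset ℂ) (A : ZMod 3 → Set ℂ) (x0 : ℂ) (L d C : ℝ) (u : Poly)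
    (A' : ZMod 3 → Set ℂ) : Prop where
  ball : u.P ⊆ Metric.closedBall x0 (L - 2 * u.s)
  tr : Tr S A'
  sub : ∀ i, A i ⊆ A' i
  thin : ∀ j, ThF S A A' j (C * u.s)
  free : ∀ v ∈ Vin S u.P d, v ∈ fr S A'
  /-- `V` is a union of components of the free sites of `A'` -/
  comp : ∀ v ∈ Vin S u.P d, ∀ w ∈ fr S A', Adj S v w → w ∈ Vin S u.P d
  /-- no triangle centre; every connected free centre meets a centre inside `V` -/
  noT : ∀ t, ¬ CtrT S A' t
  ctr : ∃ X, CtrX S A' X ∧ (∀ x ∈ X, x ∈ Vin S u.P d) ∧ ∀ Y, CtrX S A' Y → ¬ Disjoint X Y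
  mks : ∃ N De : Fin 3 → Set ℂ, Mks S (Vin S u.P d) A' (Bl S (Vin S u.P d) u.Lab)
    (fun b => u.mid (u.k b)) (fun b => ((b : ℕ) : ZMod 3) + 1) N De (2 * u.s)

/-- **(K7)** : small centre or labelled polygon, unit `2⁻ⁿ` -/
def K7 : Prop := ∃ C : ℝ, 1 ≤ C ∧ ∀ (S : Finset ℂ) (A : ZMod 3 → Set ℂ) (x0 : ℂ) (L d : ℝ) (n : ℕ),
  Stg S A x0 L d ((1 / 2) ^ n) → (∃ p, SmC S A p (C * (1 / 2) ^ n)) ∨
    ∃ (u : Poly) (A' : ZMod 3 → Set ℂ), u.n = n ∧ Out S A x0 L d C u A'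

end Crest.Agent.R143.K7Dx359
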