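import Crest.Agent.R143.Stb_660
import Crest.Agent.R143.LocT_700

/-!
# Row 143 (S0194), CONT: STAB' when the free set has several components (helper660)

`V` a union of components of the free sites of `A` which meets every centre of `A` (723: the bricks
of the other components stay free).

* `hitO_hitV` : the oriented hits of `A` are the hits of `(V, A)`
* `TS_TV` : `TS S A z = TV S V A z`
* **`stabV`**, **`stabV_le`** : STAB' for `TV S V B z`
-/

set_option autoImplicit false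

noncomputable section

open scoped Classical

namespace Crest.Agent.R143.Stbx660

open Set
open Crest.Agent.R143.B0x346 Crest.Agent.R143.JColx54 Crest.Agent.R143.RE0x723
  Crest.Agent.R143.K33x877 Crest.Agent.R143.NetUx346 Crest.Agent.R143.NetVx346
open Crest.Agent.R143.ContTx571 (cp cp_sub cp_con cp_self z3)
open Crest.Agent.R143.Harx315 (pr)
open Crest.Agent.R143.D3Fx802 (CArm)

variable {S V : Finset ℂ} {A B : ZMod 3 → Set ℂ} {i : ZMod 3} {t : ℂ × ℂ × ℂ}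

/-- `V` is a union of components of the free sites which meets every centre -/
structure CV (S : Finset ℂ) (A : ZMod 3 → Set ℂ) (V : Finset ℂ) : Prop where
  sub : ∀ v ∈ V, v ∈ ff S A
  cl : ∀ v ∈ V, ∀ x ∈ ff S A, Adj S v x → x ∈ V
  ctr : ∀ X : Set ℂ, CtrX S A X → ∃ x ∈ X, x ∈ V

theorem CV.pth (h : CV S A V) {W : Set ℂ} (hW : ∀ x ∈ W, x ∈ ff S A) {x y : ℂ}
    (hp : Pth S W x y) (hx : x ∈ V) : y ∈ V :=
  hp.ind (P := fun y => y ∈ V) hx fun a b _ hb hab ha => h.cl a ha b (hW b hb) hab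

theorem hitO_hitV (hS : GP (S : Set ℂ)) (hCT : ∀ t, ¬ CtrT S A t) (hV : CV S A V)
    {T : Set ℂ} : HitO S A i T t ↔ HitV S V A i T t := by
  constructor
  · intro h
    have hdg := hdeg hCT h
    obtain ⟨y, b, w⟩ := t
    obtain ⟨ht, hy, hb, hw⟩ := h
    dsimp only at ht hy hb hw hdg
    obtain ⟨c1, h1, f1⟩ := foot_of hb
    obtain ⟨c2, h2, f2⟩ := foot_of hw
    have hyb : Adj S y b := adj_tri ht
    have hbw : Adj S b w := adj_tri' hS ht
    have hyw : Adj S y w := (adj_tri'' hS ht).symm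
    set W1 : Set ℂ := fr S A ∩ T with hW1
    set W2 : Set ℂ := fr S A \ T with hW2
    have w1 : ∀ x ∈ W1, x ∈ ff S A := fun x hx => mem_ff.2 hx.1
    have w2 : ∀ x ∈ W2, x ∈ ff S A := fun x hx => mem_ff.2 hx.1
    have hAV : ∀ l, ∀ x ∈ A l, x ∉ ff S A := fun l x hx h => (mem_ff.1 h).2 l hx
    have d1 : b ∈ ff S A → b ∈ W1 := by
      intro hb
      rcases f1 with rfl | ⟨q, g1, g2⟩
      · exact absurd hb (hAV _ _ h1)
      · exact g2.snd
    have d2 : w ∈ ff S A → w ∈ W2 := by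
      intro hw
      rcases f2 with rfl | ⟨q, g1, g2⟩
      · exact absurd hw (hAV _ _ h2)
      · exact g2.snd
    set X : Set ℂ := cp S W1 b ∪ cp S W2 w with hX
    have hXf : ∀ x ∈ X, x ∈ ff S A := by
      rintro x (h | h)
      · exact w1 x (cp_sub h)
      · exact w2 x (cp_sub h)
    have hXc : Cn S X := by
      by_cases hb' : b ∈ ff S A
      · by_cases hw' : w ∈ ff S A
        · exact cn_union cn_cp cn_cp (cp_self (d1 hb')) (cp_self (d2 hw')) (Or.inr hbw)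
        · have : X = cp S W1 b := by
            ext x
            exact ⟨fun h => h.resolve_right fun h' => hw' (w2 w h'.1), Or.inl⟩
          rw [this]
          exact cn_cp
      · have : X = cp S W2 w := by
          ext x
          exact ⟨fun h => h.resolve_left fun h' => hb' (w1 b h'.1), Or.inr⟩
        rw [this]
        exact cn_cp
    -- `X` is a centre
    have a0 : ∃ x ∈ X, Adj S y x := by
      rcases hdg with h | h
      · exact ⟨b, Or.inl (cp_self (d1 h)), hyb⟩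
      · exact ⟨w, Or.inr (cp_self (d2 h)), hyw⟩
    have a1 : ∃ x ∈ X, Adj S c1 x := by
      rcases f1 with rfl | ⟨q, g1, g2⟩
      · have h : w ∈ ff S A := hdg.resolve_left (hAV _ _ h1)
        exact ⟨w, Or.inr (cp_self (d2 h)), hbw⟩
      · exact ⟨q, Or.inl g2.symm, g1⟩
    have a2 : ∃ x ∈ X, Adj S c2 x := by
      rcases f2 with rfl | ⟨q, g1, g2⟩
      · have h : b ∈ ff S A := hdg.resolve_right (hAV _ _ h2)
        exact ⟨b, Or.inl (cp_self (d1 h)), hbw.symm⟩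
      · exact ⟨q, Or.inr g2.symm, g1⟩
    have hctr : CtrX S A X := by
      refine ⟨fun l => Set.disjoint_left.2 fun x hx hx' => hAV l x hx' (hXf x hx), hXc,
        fun l => ?_⟩
      have hl : ∀ i l : ZMod 3, l = i ∨ l = i + 1 ∨ l = i + 2 := by decide
      rcases hl i l with rfl | rfl | rfl
      · obtain ⟨x, hx, ha⟩ := a0
        exact ⟨x, hx, y, hy, ha.symm⟩
      · obtain ⟨x, hx, ha⟩ := a1
        exact ⟨x, hx, c1, h1, ha.symm⟩
      · obtain ⟨x, hx, ha⟩ := a2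
        exact ⟨x, hx, c2, h2, ha.symm⟩
    obtain ⟨x0, hx0, hx0V⟩ := hV.ctr X hctr
    have hXV : ∀ x ∈ X, x ∈ V := fun x hx => hV.pth hXf (hXc x0 hx0 x hx) hx0V
    have m1 : ∀ {q}, Pth S W1 q b → Pth S ({x | x ∈ V} ∩ T) q b := by
      intro q hq
      refine (Pth.self hq).mono ?_
      rintro v ⟨g1, g2⟩
      exact ⟨hXV v (Or.inl g2.symm), g1.2⟩
    have m2 : ∀ {q}, Pth S W2 q w → Pth S ({x | x ∈ V} \ T) q w := by
      intro q hq
      refine (Pth.self hq).mono ?_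
      rintro v ⟨g1, g2⟩
      exact ⟨hXV v (Or.inr g2.symm), g1.2⟩
    refine ⟨ht, hy, ?_, ?_, ?_⟩
    · rcases hdg with h | h
      · exact Or.inl (hXV b (Or.inl (cp_self (d1 h))))
      · exact Or.inr (hXV w (Or.inr (cp_self (d2 h))))
    · refine foot_clu (c := c1) ?_ h1
      rcases f1 with h | ⟨q, g1, g2⟩
      · exact Or.inl h
      · exact Or.inr ⟨q, g1, m1 g2⟩
    · refine foot_clu (c := c2) ?_ h2
      rcases f2 with h | ⟨q, g1, g2⟩
      · exact Or.inl h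
      · exact Or.inr ⟨q, g1, m2 g2⟩
  · rintro ⟨h1, h2, _, h3, h4⟩
    have e1 : ({x | x ∈ V} ∩ T : Set ℂ) ⊆ fr S A ∩ T := fun x hx =>
      ⟨mem_ff.1 (hV.sub x hx.1), hx.2⟩
    have e2 : ({x | x ∈ V} \ T : Set ℂ) ⊆ fr S A \ T := fun x hx =>
      ⟨mem_ff.1 (hV.sub x hx.1), hx.2⟩
    obtain ⟨x1, g1, g2⟩ := h3
    obtain ⟨x2, g3, g4⟩ := h4
    exact ⟨h1, h2, ⟨x1, g1, g2.mono (Set.union_subset_union_left _ e1)⟩,
      ⟨x2, g3, g4.mono (Set.union_subset_union_left _ e2)⟩⟩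

theorem hitV_inter {T : Set ℂ} : HitV S V B i (T ∩ {x | x ∈ V}) t ↔ HitV S V B i T t := by
  have e1 : ({x | x ∈ V} ∩ (T ∩ {x | x ∈ V}) : Set ℂ) = {x | x ∈ V} ∩ T := by
    ext x
    simp only [mem_inter_iff, Set.mem_ofPred_eq]
    tauto
  have e2 : ({x | x ∈ V} \ (T ∩ {x | x ∈ V}) : Set ℂ) = {x | x ∈ V} \ T := by
    ext x
    simp only [mem_inter_iff, Set.mem_sdiff, Set.mem_ofPred_eq]
    tauto
  unfold HitV
  rw [e1, e2]

theorem zV_inter {T : Finset ℂ} (z : ℂ → ℂ) :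
    zV S V B i ((T ∩ V : Finset ℂ) : Set ℂ) z = zV S V B i (T : Set ℂ) z := by
  have e : hitsV S V B i ((T ∩ V : Finset ℂ) : Set ℂ) = hitsV S V B i (T : Set ℂ) := by
    ext t
    rw [mem_hitsV, mem_hitsV]
    have : ((T ∩ V : Finset ℂ) : Set ℂ) = (T : Set ℂ) ∩ {x | x ∈ V} := by
      ext x
      simp
    rw [this]
    exact hitV_inter
  unfold zV
  rw [e]

/-- **`TS` of the net is `TV` of the components `V`** -/
theorem TS_TV (hS : GP (S : Set ℂ)) (hX : Hex S A) (hCT : ∀ t, ¬ CtrT S A t) (hV : CV S A V)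
    (z : ℂ → ℂ) : TS S A z = TV S V A z := by
  have hsub : V ⊆ ff S A := fun v hv => hV.sub v hv
  unfold TS TV
  congr 1
  refine Finset.sum_congr rfl fun i _ => ?_
  congr 1
  rw [Ey_eq hX, ← LocTx700.exC_dep hsub]
  unfold exC
  congr 1
  refine Finset.sum_congr rfl fun T hT => ?_
  beta_reduce
  rw [zV_inter]
  obtain ⟨t, h1, h2⟩ := hX i T (Finset.mem_powerset.1 hT)
  rw [hv_eq hX (Finset.mem_powerset.1 hT) h1]
  exact (zV_eq ((hitO_hitV hS hCT hV).1 h1)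
    (fun t' h' => h2 t' ((hitO_hitV hS hCT hV).2 h')) z).symm

section
variable {p : ZMod 3 → ℂ} {e : ZMod 3 → ZMod 3} {Nb : ZMod 3 → Set ℂ} {ρ η m D D' : ℝ}

/-- **STAB'**, several components -/
theorem stabV (hS : GP (S : Set ℂ)) (hX : Hex S A) (hCT : ∀ t, ¬ CtrT S A t) (hV : CV S A V)
    (hM : Mk S V A B p e Nb ρ) (hBV : ∀ l, ∀ x ∈ B l, x ∉ V)
    (hm : ∀ v ∈ V, ∀ x, Adj S v x → ‖v - x‖ ≤ m)
    (hρ : 0 ≤ ρ) (hρη : ρ ≤ η) (hηD : η ≤ D') (hD : D' + 2 * ρ ≤ D)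
    (hNC : ∀ b, ∀ X : Set ℂ, (∀ x ∈ X, ‖x - p b‖ ≤ D) → ¬ CtrX S A X)
    {z : ℂ → ℂ} {k : ℝ} (hk : 0 ≤ k)
    (hA : ∀ l, ∀ v ∈ A l, ‖z v‖ ≤ k) (hB : ∀ l, ∀ v ∈ B l, ‖z v‖ ≤ k) :
    ‖TS S A z - TV S V B z‖ ≤ 18 * k * pr V (BadT S V p ρ η m D') := by
  rw [TS_TV hS hX hCT hV z]
  refine TV_sub hk hA hB fun T _ hT i t => ?_
  obtain ⟨n1, n2⟩ := noAr_of hT
  have hAV : ∀ l, ∀ x ∈ A l, x ∉ V := fun l x hx h => (mem_ff.1 (hV.sub x h)).2 l hx
  exact hit_iff hS hM hAV hBV hm hρ hρη hηD hD hNC n1 n2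

/-- **STAB'**, several components, with the arm bounds -/
theorem stabV_le (hS : GP (S : Set ℂ)) (hX : Hex S A) (hCT : ∀ t, ¬ CtrT S A t) (hV : CV S A V)
    (hM : Mk S V A B p e Nb ρ) (hBV : ∀ l, ∀ x ∈ B l, x ∉ V)
    (hm : ∀ v ∈ V, ∀ x, Adj S v x → ‖v - x‖ ≤ m)
    (hρ : 0 ≤ ρ) (hρη : ρ ≤ η) (hηD : η ≤ D') (hD : D' + 2 * ρ ≤ D)
    (hNC : ∀ b, ∀ X : Set ℂ, (∀ x ∈ X, ‖x - p b‖ ≤ D) → ¬ CtrX S A X)
    {z : ℂ → ℂ} {k q1 q2 : ℝ} (hk : 0 ≤ k)
    (hA : ∀ l, ∀ v ∈ A l, ‖z v‖ ≤ k) (hB : ∀ l, ∀ v ∈ B l, ‖z v‖ ≤ k)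
    (h1 : ∀ b, pr V (fun β => CArm S β (p b) ρ η) ≤ q1)
    (h2 : ∀ b, pr V (fun β => CArm S β (p b) (η + m) D') ≤ q2) :
    ‖TS S A z - TV S V B z‖ ≤ 108 * k * (q1 + q2) := by
  refine (stabV hS hX hCT hV hM hBV hm hρ hρη hηD hD hNC hk hA hB).trans ?_
  have h3 := pr_bad (S := S) (V := V) (p := p) (ρ := ρ) (η := η) (m := m) (D' := D')
    (q1 := fun _ => q1) (q2 := fun _ => q2) h1 h2
  rw [Finset.sum_const, Finset.card_univ, ZMod.card, nsmul_eq_mul] at h3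
  push_cast at h3
  have h4 := mul_le_mul_of_nonneg_left h3 (show 0 ≤ 18 * k by linarith)
  linarith

end

end Crest.Agent.R143.Stbx660
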