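import Crest.Agent.R143.DetV_877
import Crest.Agent.R143.VisC_877
import Crest.Agent.R143.K7D_359
import Crest.Agent.R143.Stb2_660
import Crest.Agent.R143.Disc_683
import Crest.Agent.R143.Loc8_277

/-!
# Row 143 (S0194), VIS: composition at one `S` (helper877)

* `PG` : a proper counterclockwise triple in 723's form (hull cycle)
* `mk_of` : 359's `Mks` ⇒ 660's `Stbx660.Mk`
* `pow_small` : choice of scales
* **`detv : K7 → PG → DETV z`** : polygon (K7), static CONT (`cont_TS`), STAB' (`stabV_le`)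
-/

set_option autoImplicit false

noncomputable section

open scoped Classical

namespace Crest.Agent.R143.VisDx877

open Crest.Agent.R143.Harx315
open Crest.Agent.R143.D3Fx802 (CArm)
open Crest.Agent.R143.JColx54 (Adj)
open Crest.Agent.R143.RE0x723 (Pth)
open Crest.Agent.R143.B0x346 Crest.Agent.R143.DelGx806
open Crest.Agent.R143.K33x877 (Tr fr CtrT CtrX)
open Crest.Agent.R143.Hexx877 (Ccw hex_tr)
open Crest.Agent.R143.NetUx346 (TS ff Hex mem_ff)
open Crest.Agent.R143.NetVx346 (TU TV Vin Bl)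
open Crest.Agent.R143.PolyUx346 (Poly)
open Crest.Agent.R143.DomAx722 (Dns)
open Crest.Agent.R143.Mabx377 (HM Arms Sm1 edge_of_hm)
open Crest.Agent.R143.Cont6x920 (ArmV)
open Crest.Agent.R143.CenSx496 (SmC)
open Crest.Agent.R143.GateKx421 (Thin)
open Crest.Agent.R143.K7Dx359 (Stg Mks Out K7)
open Crest.Agent.R143.Stbx660 (CV Mk Dead stabV_le)
open Crest.Agent.R143.VisCx877 (cont_TS errC errC_small ccw_up)
open Crest.Agent.R143.CtrUpx877 (ctr_up)

variable {S V : Finset ℂ} {A A' B : ZMod 3 → Set ℂ} {x0 : ℂ} {L d e e' : ℝ}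

/-- a proper counterclockwise triple in 723's form -/
def PG : Prop := ∀ (S : Finset ℂ) (A : ZMod 3 → Set ℂ), Tr S A → Ccw S A → 3 ≤ S.card →
  ∃ (n : ℕ) (w : ℤ → ℂ) (p : ℕ → ℤ),
    RE0x723.Pg S n w 2 p fun j => S.filter fun x => x ∈ A (j : ZMod 3)

theorem dns_mono (h : Dns S x0 L e) (he : e ≤ e') (h8 : 8 * e' ≤ L) : Dns S x0 L e' where
  gp := h.gp
  dpos := lt_of_lt_of_le h.dpos he
  dL := h8
  sub := h.sub
  hole z hz := by
    obtain ⟨s, h1, h2⟩ := h.hole z (by linarith)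
    exact ⟨s, h1, by linarith⟩

/-- **the marks in 660's form** -/
theorem mk_of {m : Fin 3 → ℂ} {c : Fin 3 → ZMod 3} {N De : Fin 3 → Set ℂ} {ρ : ℝ}
    (h : Mks S V A B m c N De ρ) :
    Mk S V A B (fun b : ZMod 3 => m b) (fun b : ZMod 3 => c b) (fun b : ZMod 3 => N b) ρ where
  sub b x hx := h.nV b x hx
  con b x hx y hy := h.ncon b x hx y hy
  near b x hx := h.nball b x hx
  adj b l hl := h.nadj b l hl
  und x hx hv := by
    obtain ⟨v, hv1, hv2⟩ := hv
    rcases h.lab x hv2.mem.1 hx ⟨v, hv1, hv2⟩ with h1 | ⟨b, h1, h2, h3⟩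
    · exact Or.inl h1
    · refine Or.inr ⟨b, fun v hv hxv => ?_, h2, h3⟩
      rcases h1 v hv hxv with h4 | h4
      · exact Or.inl h4
      · right
        intro v' y hp hy hyV hvy
        have h5 : v' ∈ De b := hp.ind (P := fun w => w ∈ De b) h4
          fun a c' _ hc' hac ha => h.dcl b a ha c' hc' hac
        exact h.dno b v' h5 y hvy

/-- choice of scales -/
theorem pow_small {c : ℝ} (hc : 0 < c) {K R θ : ℝ} (hK : 0 ≤ K) (hR : 0 < R) (hθ : 0 < θ) :
    ∃ r0 > 0, ∀ r, 0 ≤ r → r ≤ r0 → K * (r / R) ^ c ≤ θ := by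
  refine ⟨R * (θ / (K + 1)) ^ (1 / c), by positivity, fun r hr hr' => ?_⟩
  have h1 : r / R ≤ (θ / (K + 1)) ^ (1 / c) := by
    rw [div_le_iff₀ hR]
    linarith
  have h2 : (r / R) ^ c ≤ θ / (K + 1) := by
    refine (Real.rpow_le_rpow (by positivity) h1 hc.le).trans (le_of_eq ?_)
    rw [← Real.rpow_mul (by positivity), one_div_mul_cancel hc.ne', Real.rpow_one]
  calc K * (r / R) ^ c ≤ K * (θ / (K + 1)) := mul_le_mul_of_nonneg_left h2 hK
    _ ≤ (K + 1) * (θ / (K + 1)) := mul_le_mul_of_nonneg_right (by linarith) (by positivity)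
    _ = θ := by field_simp

/-- a small power of two -/
theorem exists_s {t : ℝ} (ht : 0 < t) : ∃ n : ℕ, ((1 : ℝ) / 2) ^ n ≤ t := by
  obtain ⟨n, hn⟩ := exists_pow_lt_of_lt_one ht (by norm_num : (1 : ℝ) / 2 < 1)
  exact ⟨n, hn.le⟩

theorem smc_mono {p : ℂ} {r r' : ℝ} (h : SmC S A p r) (hr : r ≤ r') : SmC S A p r' := by
  rcases h with ⟨t, h1, h2⟩ | ⟨X, h1, h2⟩
  · exact Or.inl ⟨t, h1, fun v hv => (h2 v hv).trans hr⟩
  · exact Or.inr ⟨X, h1, fun v hv => (h2 v hv).trans hr⟩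

/-- no hull edge at a free site -/
theorem ff_hull (hT : Tr S A) {v : ℂ} (hv : v ∈ ff S A) (u : ℂ) :
    ¬ hullE S v u ∧ ¬ hullE S u v := by
  have hv' := (mem_ff.1 hv).2
  constructor
  · intro h
    obtain ⟨i, hi⟩ := hT.hull v u h
    exact hv' i hi
  · intro h
    obtain ⟨i, hi⟩ := hT.hull_mem (Or.inr h)
    exact hv' i hi

/-- **one `S`, one polygon** -/
theorem vis_one {z : ℂ → ℂ} (hz : ∀ a b, ‖z a - z b‖ ≤ ‖a - b‖) (hz0 : z 0 = 0)
    {C c K s ρ η1 m b0 : ℝ} {u : Poly} (hu : u.s = s) (hs : 0 < s) (hK : 1 ≤ K) (he' : 0 ≤ e')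
    (hC : 1 ≤ C) (hc : 0 < c) (hT : Tr S A) (hcc : Ccw S A) (hno : ¬ Sm1 S A ρ)
    (hO : Out S A x0 L e' K u A') (hball : ∀ v ∈ S, ‖v - x0‖ ≤ L)
    (hm0 : 0 ≤ m) (hm : ∀ a b, Adj S a b → ‖b - a‖ ≤ m) (hms : m ≤ s)
    (hsL : (K + 2) * s ≤ 2 * L) (hA : Arms S x0 L C c b0) (hb0 : b0 ≤ s)
    (h2s : 2 * s ≤ η1) (hη1 : 2 * η1 ≤ ρ / 4) (hmη : m ≤ η1) (h4s : 4 * s ≤ ρ / 4)
    (hKs : (K + 1) * s ≤ ρ / 2) :
    ‖TS S A z - TU S u.P e' u.Lab z‖ ≤ errC C c L ((K + 2) * s) +
      108 * (‖x0‖ + L) * (C * (2 * s / η1) ^ c + C * (2 * η1 / (ρ / 4)) ^ c) := by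
  have hS := hT.gp
  have hC0 : 0 ≤ C := by linarith
  have hη1p : 0 < η1 := by linarith
  have hρp : 0 < ρ := by linarith
  have hthin : ∀ l, Thin S A A' l (K * s) := by
    intro l
    have := (hO.thin l).thin
    rwa [hu] at this
  -- static CONT
  have hAV : ArmV S (ff S A) (Metric.closedBall x0 L) ((K + 2) * s) (2 * L) C c := by
    intro p hp r R h1 h2 _ W hW
    rw [Metric.mem_closedBall, dist_eq_norm] at hp
    exact hA p hp r R (by nlinarith) h2 W (hW.trans (Finset.filter_subset _ _))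
      fun v hv w => ff_hull hT (hW hv) w
  obtain ⟨X, hX, hXV, hXY⟩ := hO.ctr
  have h1 : ‖TS S A z - TS S A' z‖ ≤ errC C c L ((K + 2) * s) := by
    refine cont_TS (x0 := x0) (d0 := K * s) (m := m) hT hcc hO.tr hO.sub ⟨X, hX⟩ (by positivity)
      hm0 (by linarith) (by positivity) hsL ?_ hthin hball hC hc.le hAV hz
    intro a _ b hab
    rw [norm_sub_rev]
    exact hm a b hab
  -- STAB'
  obtain ⟨N, De, hM⟩ := hO.mks
  have hM' := mk_of hM
  rw [hu] at hM'
  set V : Finset ℂ := Vin S u.P e' with hV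
  have hfree : ∀ v ∈ V, v ∈ ff S A' := fun v hv => mem_ff.2 (hO.free v hv)
  have hCV : CV S A' V := by
    refine ⟨hfree, fun v hv x hx hvx => hO.comp v hv x (mem_ff.1 hx) hvx, fun Y hY => ?_⟩
    obtain ⟨x, h2, h3⟩ := Set.not_disjoint_iff.1 (hXY Y hY)
    exact ⟨x, h3, hXV x h2⟩
  have hVL : ∀ v ∈ V, ‖v - x0‖ ≤ L - 2 * s := by
    intro v hv
    have h2 : Metric.closedBall v (2 * e') ⊆ u.P := (Finset.mem_filter.1 hv).2
    have h3 := hO.ball (h2 (Metric.mem_closedBall_self (by linarith)))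
    rw [Metric.mem_closedBall, dist_eq_norm, hu] at h3
    exact h3
  have hpL : ∀ b : ZMod 3, ‖u.mid (u.k b) - x0‖ ≤ L := by
    intro b
    obtain ⟨x, hx, -⟩ := hM'.adj b (((b.val : ℕ) : ZMod 3) + 1 + 1) (by
      revert b
      decide)
    have h2 := hM'.near b x hx
    have h3 := hVL x (hM'.sub b x hx)
    have : u.mid (u.k b) - x0 = (x - x0) - (x - u.mid (u.k b)) := by ring
    rw [this]
    exact (norm_sub_le _ _).trans (by linarith)
  have hzk : ∀ v ∈ S, ‖z v‖ ≤ ‖x0‖ + L := by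
    intro v hv
    have h2 := hz v 0
    rw [hz0, sub_zero, sub_zero] at h2
    have h3 := hball v hv
    have h4 : ‖v‖ ≤ ‖v - x0‖ + ‖x0‖ := by
      have := norm_add_le (v - x0) x0
      rwa [sub_add_cancel] at this
    linarith
  have hk : 0 ≤ ‖x0‖ + L := by
    obtain ⟨x, hx, -⟩ := hX.2.2 0
    have h2 := hVL x (hXV x hx)
    have := norm_nonneg (x - x0)
    have := norm_nonneg x0
    linarith
  have hVh : ∀ v ∈ V, ∀ w, ¬ hullE S v w ∧ ¬ hullE S w v := fun v hv w =>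
    ff_hull hO.tr (hfree v hv) w
  have hVS : V ⊆ S := Finset.filter_subset _ _
  have h2 : ‖TS S A' z - TV S V (Bl S V u.Lab) z‖ ≤
      108 * (‖x0‖ + L) * (C * (2 * s / η1) ^ c + C * (2 * η1 / (ρ / 4)) ^ c) := by
    refine stabV_le (η := η1) (m := m) (D' := ρ / 4) (D := ρ / 2) hS
      (hex_tr hO.tr (ccw_up hO.sub hcc)) hO.noT hCV hM'
      (fun l x hx => hx.2.1) (fun v _ x hvx => ?_) (by positivity) h2s (by linarith) (by linarith)
      ?_ hk (fun l v hv => hzk v (hO.tr.sub l hv)) (fun l v hv => hzk v hv.1) ?_ ?_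
    · rw [norm_sub_rev]
      exact hm v x hvx
    · intro b Y hY hY'
      have hYf : Y ⊆ fr S A' := fun y hy => ⟨Loc8x277.ctr_sub hY' hy, fun l hl =>
        Set.disjoint_left.1 (hY'.1 l) hy hl⟩
      obtain ⟨X', -, h3, h4⟩ := ctr_up (p := u.mid (u.k b)) hO.sub hO.tr.disj (d := K * s)
        (fun l => hthin l) hY' hYf hY (fun x _ y hxy => hm x y hxy) (by positivity) hm0
      refine hno ⟨u.mid (u.k b), Or.inr ⟨X', h3, fun x hx => (h4 x hx).trans ?_⟩⟩
      linarith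
    · intro b
      exact hA _ (hpL b) _ _ (by linarith) h2s V hVS hVh
    · intro b
      refine (hA _ (hpL b) _ _ (by linarith) (by linarith) V hVS hVh).trans ?_
      refine mul_le_mul_of_nonneg_left ?_ hC0
      refine Real.rpow_le_rpow (by positivity) ?_ hc.le
      exact div_le_div_of_nonneg_right (by linarith) (by positivity)
  have h3 : TS S A z - TU S u.P e' u.Lab z =
      (TS S A z - TS S A' z) + (TS S A' z - TV S V (Bl S V u.Lab) z) := by
    unfold TU
    ring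
  rw [h3]
  exact (norm_add_le _ _).trans (add_le_add h1 h2)

/-- **deterministic VIS** -/
theorem detv (hK7 : K7) (hPG : PG) {z : ℂ → ℂ} (hz : ∀ a b, ‖z a - z b‖ ≤ ‖a - b‖)
    (hz0 : z 0 = 0) : DETV z := by
  intro x0 L C4 C c hL hC4 hC hc ρ hρ η hη
  obtain ⟨K, hK, hK7⟩ := hK7
  have hC0 : 0 ≤ C := by linarith
  set k : ℝ := ‖x0‖ + L with hk
  have hk0 : 0 ≤ k := by positivity
  -- the outer scale
  obtain ⟨r1, hr1, H1⟩ := pow_small hc (K := 108 * k * C) (R := ρ / 4) (θ := η / 4) (by positivity)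
    (by positivity) (by positivity)
  set η1 : ℝ := min (r1 / 2) (ρ / 8) with hη1
  have hη1p : 0 < η1 := lt_min (by positivity) (by positivity)
  have e1 : η1 ≤ r1 / 2 := min_le_left _ _
  have e2 : η1 ≤ ρ / 8 := min_le_right _ _
  -- the inner scale
  obtain ⟨r2, hr2, H2⟩ := pow_small hc (K := 108 * k * C) (R := η1) (θ := η / 4) (by positivity)
    hη1p (by positivity)
  obtain ⟨r3, hr3, H3⟩ := errC_small (C := C) (c := c) (L := L) hC0 hc hL (η := η / 2)
    (by positivity)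
  set t : ℝ := min (min (L / 2 ^ 10) (ρ / (4 * (K + 2)))) (min (min (r2 / 2) (r3 / (K + 2)))
    (min (η1 / 2) (2 * L / (K + 2)))) with ht
  have htp : 0 < t := by positivity
  obtain ⟨n, hn⟩ := exists_s htp
  set s : ℝ := (1 / 2) ^ n with hs
  have hsp : 0 < s := by positivity
  have t1 : s ≤ L / 2 ^ 10 := hn.trans ((min_le_left _ _).trans (min_le_left _ _))
  have t2 : s ≤ ρ / (4 * (K + 2)) := hn.trans ((min_le_left _ _).trans (min_le_right _ _))
  have t3 : s ≤ r2 / 2 := hn.trans ((min_le_right _ _).trans ((min_le_left _ _).trans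
    (min_le_left _ _)))
  have t4 : s ≤ r3 / (K + 2) := hn.trans ((min_le_right _ _).trans ((min_le_left _ _).trans
    (min_le_right _ _)))
  have t5 : s ≤ η1 / 2 := hn.trans ((min_le_right _ _).trans ((min_le_right _ _).trans
    (min_le_left _ _)))
  have t6 : s ≤ 2 * L / (K + 2) := hn.trans ((min_le_right _ _).trans ((min_le_right _ _).trans
    (min_le_right _ _)))
  rw [le_div_iff₀ (by positivity)] at t1 t2 t4 t6
  -- the mesh
  set b0 : ℝ := min (min 1 s) (min (s / (√C4 + 1)) (min (s ^ 2 / (2 ^ 40 * L)) (L / 8))) with hb0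
  have hsq : 0 ≤ √C4 := Real.sqrt_nonneg _
  have hb0p : 0 < b0 := by positivity
  have b1 : b0 ≤ 1 := (min_le_left _ _).trans (min_le_left _ _)
  have b2 : b0 ≤ s := (min_le_left _ _).trans (min_le_right _ _)
  have b3 : b0 ≤ s / (√C4 + 1) := (min_le_right _ _).trans (min_le_left _ _)
  have b4 : b0 ≤ s ^ 2 / (2 ^ 40 * L) := (min_le_right _ _).trans ((min_le_right _ _).trans
    (min_le_left _ _))
  have b5 : b0 ≤ L / 8 := (min_le_right _ _).trans ((min_le_right _ _).trans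
    (min_le_right _ _))
  refine ⟨n, b0, hb0p, ?_⟩
  intro S e e' hD hee he' hM hA A hT hcc hno
  have hD' := dns_mono hD hee (by linarith)
  have he'0 : 0 < e' := hD'.dpos
  have hms : √C4 * b0 ≤ s := by
    calc √C4 * b0 ≤ (√C4 + 1) * (s / (√C4 + 1)) :=
          mul_le_mul (by linarith) b3 hb0p.le (by positivity)
      _ = s := by field_simp
  have hStg : Stg S A x0 L e' ((1 / 2) ^ n) := by
    refine ⟨hD', Discx683.card_S hT, hT, hPG S A hT hcc (Discx683.card_S hT), ?_, ?_⟩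
    · have h1 : √(L * e') ≤ s / 2 ^ 20 := by
        rw [Real.sqrt_le_left (by positivity)]
        have h2 : e' ≤ s ^ 2 / (2 ^ 40 * L) := he'.trans b4
        rw [le_div_iff₀ (by positivity)] at h2
        rw [div_pow, le_div_iff₀ (by positivity)]
        nlinarith
      calc 2 ^ 20 * √(L * e') ≤ 2 ^ 20 * (s / 2 ^ 20) :=
            mul_le_mul_of_nonneg_left h1 (by positivity)
        _ = s := by ring
    · show 2 ^ 10 * s ≤ L
      linarith
  rcases hK7 S A x0 L e' n hStg with ⟨p, hp⟩ | ⟨u, A', hu, hO⟩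
  · exact absurd ⟨p, smc_mono hp (by nlinarith)⟩ hno
  · have hus : u.s = s := by
      unfold Poly.s
      rw [hu]
    refine ⟨u, hu, hO.ball.trans (Metric.closedBall_subset_closedBall (by rw [hus]; linarith)), ?_⟩
    have hm : ∀ a b, Adj S a b → ‖b - a‖ ≤ √C4 * b0 := fun a b hab =>
      edge_of_hm hD.sub hM hb0p b1 hab
    refine (vis_one hz hz0 (C := C) (c := c) (K := K) (s := s) (ρ := ρ) (η1 := η1)
      (m := √C4 * b0) (b0 := b0) hus hsp hK he'0.le hC hc hT hcc hno hO hD.sub (by positivity) hm hms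
      (by linarith) hA b2 (by linarith) (by linarith) (by linarith) (by nlinarith)
      (by nlinarith)).trans ?_
    have g1 := H3 ((K + 2) * s) (by positivity) (by linarith)
    have g2 := H2 (2 * s) (by positivity) (by linarith)
    have g3 := H1 (2 * η1) (by positivity) (by linarith)
    have g4 : 108 * k * (C * (2 * s / η1) ^ c + C * (2 * η1 / (ρ / 4)) ^ c) =
        108 * k * C * (2 * s / η1) ^ c + 108 * k * C * (2 * η1 / (ρ / 4)) ^ c := by ring
    rw [g4]
    linarith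

theorem detv_id (hK7 : K7) (hPG : PG) : DETV id := detv hK7 hPG (fun _ _ => le_rfl) rfl

theorem detv_conj (hK7 : K7) (hPG : PG) : DETV (starRingEnd ℂ) :=
  detv hK7 hPG (fun u v => by rw [← map_sub, Complex.norm_conj]) (map_zero _)

end Crest.Agent.R143.VisDx877
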