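import Crest.Agent.R143.FinD_894
import Crest.Agent.R143.VisE_377
import Crest.Agent.R143.PolyE_854
import Crest.Agent.R143.VisD_877
import Crest.Agent.R143.K7_359

/-!
# Row 143 (S0194): what is left, third form (helper894)

* `leaf_det` : `HarmOne` (496), `DETQ id`, `DETQ conj` (877), `Rig` give the leaf
* `rig_of_t3` : 854's end of RIG
* `leaf_k7`, `leaf_k7_leaves` : `DETQ` from 359's `K7` and 877's `PG`
-/

set_option autoImplicit false

noncomputable section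

namespace Crest.Agent.R143.FinEx894

open Filter Topology
open Crest.ProbabilityR.Voronoi
open Crest.Agent.R143.B0x346 Crest.Agent.R143.B0Dx346 Crest.Agent.R143.GeoSeqPx422
open Crest.Agent.R143.AsmNx758 Crest.Agent.R143.Finx894 Crest.Agent.R143.PolyUx346
open Crest.Agent.R143.FinCx894 Crest.Agent.R143.FinDx894

theorem contB_det (h : HarmSx496.HarmOne) (hz : Mabx377.DETQ id) : ContB :=
  Mabx377.cont_we_det adP_ad h hz

theorem contD_det (h : HarmSx496.HarmOne) (hz : Mabx377.DETQ (starRingEnd ℂ)) : ContD :=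
  Mabx377.cont_wd_det adP_ad h hz

/-- the row from `HarmOne`, `DETQ`, RIG -/
theorem leaf_det (h : HarmSx496.HarmOne) (h1 : Mabx377.DETQ id)
    (h2 : Mabx377.DETQ (starRingEnd ℂ)) (h5 : Rig) : Leaf894 :=
  leaf_frozen (contB_det h h1) (contD_det h h2) h5

/-- RIG from 854's `polyP_of_t3` -/
theorem rig_of_t3 {I : Type} {𝓁 : Filter I} [𝓁.NeBot] {κ : I → ℝ → ℂ}
    {e : Poly → ZMod 3 → ℝ → I → ℝ → ℝ} (he : ∀ u k, PolyEx854.T3 𝓁 (e u k))
    (h : ∀ u k, ∀ᶠ e0 : ℝ in 𝓝[>] 0, ∀ᶠ N in 𝓁, ∀ᶠ ε : ℝ in 𝓝[>] 0,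
      PolyEx854.L1D (omz k ^ 2) (κ N ε) (PolyMx346.a u ε)
        (fun ω => PolyMx346.D u ε ω k) (e u k e0 N ε)) : Rig :=
  PolyEx854.polyP_of_t3 he h

theorem detq_id (hK : K7Dx359.K7) (hP : VisDx877.PG) : Mabx377.DETQ id := VisDx877.detv_id hK hP

theorem detq_conj (hK : K7Dx359.K7) (hP : VisDx877.PG) : Mabx377.DETQ (starRingEnd ℂ) :=
  VisDx877.detv_conj hK hP

/-- the row from `HarmOne`, `K7`, `PG`, RIG -/
theorem leaf_k7 (h : HarmSx496.HarmOne) (hK : K7Dx359.K7) (hP : VisDx877.PG) (h5 : Rig) :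
    Leaf894 :=
  leaf_det h (detq_id hK hP) (detq_conj hK hP) h5

/-- the row from the leaves of `K7` -/
theorem leaf_k7_leaves (h : HarmSx496.HarmOne) (hP : VisDx877.PG)
    (h1 : K7Dx359.LAYER) (h2 : K7Dx359.GRID) (h3 : K7Dx359.COMP) (h4 : K7Dx359.CENT)
    (h5 : K7Dx359.THR) (h6 : K7Dx359.MARK) (h7 : Rig) : Leaf894 :=
  leaf_k7 h (K7x359.k7_of h1 h2 h3 h4 h5 h6) hP h7

end Crest.Agent.R143.FinEx894
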