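import Crest.Agent.R143.NetH_346
import Crest.Agent.R143.K33_877
import Crest.Agent.R143.GateK_421
import Crest.Agent.R143.Cont2_920
import Crest.Agent.R143.ContT_571
import Crest.Agent.R143.D1_377

/-!
# Row 143 (S0194): uniqueness of the hit, end point formula in the frozen language (helper54)

* `enl` : the classes enlarged by the black / white clusters, `tr_enl : Tr S A → Tr S (enl ..)`
* **`hitu : HITU`**, `hitO_unique` : uniqueness of the hit (from 877's `ktt`)
* `hex_net : Hex S (sA S N)`, **`TT_TS : TT N z = TS S (sA S N) z`** (346's bridge, discharged)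
* `tg_hex : Tg S B r → Hex S B`, `tg_TS : TT O.N z = TS S B z` (848's three classes)
* `Y_TS` : **(D1) in the frozen form** `Y S N (rr z) x = TS S (sA S (knet N x.1)) z`, with `Hex`
* `yv_hit`, `yv_hv`, `mu_hits` without hypothesis
-/
set_option autoImplicit false
set_option linter.unusedSimpArgs false

noncomputable section

open scoped Classical

namespace Crest.Agent.R143.HitUx54

open Crest.Agent.R143.B0x346 Crest.Agent.R143.DelGx806 Crest.Agent.R143.DelRx806
  Crest.Agent.R143.JColx54 Crest.Agent.R143.RE0x723 Crest.Agent.R143.K33x877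
  Crest.Agent.R143.NetUx346 Crest.Agent.R143.HitLx54
open Crest.Agent.R143.Bsumx848 (TT rr mu)
open Crest.Agent.R143.Massx848 (Pairs)
open Crest.Agent.R143.Sidesx697 (Side)
open Crest.Agent.R143.RB2x54 (Vt)

variable {S : Finset ℂ} {A : ZMod 3 → Set ℂ} {i j k : ZMod 3}

/-! ### enlarged classes -/

/-- the class `i` with the black cluster, the class `j` with the white cluster -/
def enl (S : Finset ℂ) (A : ZMod 3 → Set ℂ) (i j : ZMod 3) (T : Set ℂ) (l : ZMod 3) : Set ℂ :=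
  if l = i then Clu S (fr S A ∩ T) (A i) else if l = j then Clu S (fr S A \ T) (A j) else A l

theorem enl_i {T : Set ℂ} : enl S A i j T i = Clu S (fr S A ∩ T) (A i) := if_pos rfl

theorem enl_j (h : i ≠ j) {T : Set ℂ} : enl S A i j T j = Clu S (fr S A \ T) (A j) := by
  unfold enl
  rw [if_neg (Ne.symm h), if_pos rfl]

theorem enl_k (h : k ≠ i) (h' : k ≠ j) {T : Set ℂ} : enl S A i j T k = A k := by
  unfold enl
  rw [if_neg h, if_neg h']

theorem enl_cases (l : ZMod 3) (T : Set ℂ) :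
    (l = i ∧ enl S A i j T l = Clu S (fr S A ∩ T) (A i)) ∨
    (l = j ∧ l ≠ i ∧ enl S A i j T l = Clu S (fr S A \ T) (A j)) ∨
    (l ≠ i ∧ l ≠ j ∧ enl S A i j T l = A l) := by
  unfold enl
  by_cases h1 : l = i
  · exact Or.inl ⟨h1, if_pos h1⟩
  · by_cases h2 : l = j
    · right; left
      exact ⟨h2, h1, by rw [if_neg h1, if_pos h2]⟩
    · right; right
      exact ⟨h1, h2, by rw [if_neg h1, if_neg h2]⟩

theorem sub_enl (T : Set ℂ) (l : ZMod 3) : A l ⊆ enl S A i j T l := by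
  rcases enl_cases (S := S) (A := A) (i := i) (j := j) l T with ⟨rfl, h⟩ | ⟨rfl, -, h⟩ | ⟨-, -, h⟩
  · rw [h]; exact fun x hx => Cont2x920.clu_self hx
  · rw [h]; exact fun x hx => Cont2x920.clu_self hx
  · rw [h]

/-- a site of an enlarged class: of the class, or free of the right colour -/
theorem enl_mem {T : Set ℂ} {l : ZMod 3} {x : ℂ} (h : x ∈ enl S A i j T l) :
    x ∈ A l ∨ (x ∈ fr S A ∧ ((l = i ∧ x ∈ T) ∨ (l = j ∧ l ≠ i ∧ x ∉ T))) := by
  rcases enl_cases (S := S) (A := A) (i := i) (j := j) l T with ⟨rfl, e⟩ | ⟨rfl, h1, e⟩ | ⟨-, -, e⟩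
  · rw [e] at h
    rcases Cont2x920.clu_mem h with h | h
    · exact Or.inr ⟨h.1, Or.inl ⟨rfl, h.2⟩⟩
    · exact Or.inl h
  · rw [e] at h
    rcases Cont2x920.clu_mem h with h | h
    · exact Or.inr ⟨h.1, Or.inr ⟨rfl, h1, h.2⟩⟩
    · exact Or.inl h
  · rw [e] at h
    exact Or.inl h

theorem enl_subS (hA : ∀ l, A l ⊆ (S : Set ℂ)) (T : Set ℂ) (l : ZMod 3) :
    enl S A i j T l ⊆ (S : Set ℂ) := by
  intro x hx
  rcases enl_mem hx with h | h
  · exact hA l h
  · exact h.1.1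

theorem enl_disj (hA : ∀ l m, l ≠ m → Disjoint (A l) (A m)) (T : Set ℂ) {l m : ZMod 3}
    (hlm : l ≠ m) : Disjoint (enl S A i j T l) (enl S A i j T m) := by
  rw [Set.disjoint_left]
  intro x h1 h2
  rcases enl_mem h1 with h1 | ⟨f1, c1⟩
  · rcases enl_mem h2 with h2 | ⟨f2, -⟩
    · exact Set.disjoint_left.1 (hA l m hlm) h1 h2
    · exact f2.2 l h1
  · rcases enl_mem h2 with h2 | ⟨-, c2⟩
    · exact f1.2 m h2
    · rcases c1 with ⟨e1, t1⟩ | ⟨e1, -, t1⟩ <;> rcases c2 with ⟨e2, t2⟩ | ⟨e2, -, t2⟩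
      · exact hlm (e1.trans e2.symm)
      · exact t2 t1
      · exact t1 t2
      · exact hlm (e1.trans e2.symm)

theorem clu_con {T B : Set ℂ} (hB : ∀ x ∈ B, ∀ y ∈ B, Pth S B x y) {x y : ℂ}
    (hx : x ∈ Clu S T B) (hy : y ∈ Clu S T B) : Pth S (Clu S T B) x y := by
  obtain ⟨a, ha, h1⟩ := Cont2x920.clu_pth hx
  obtain ⟨b, hb, h2⟩ := Cont2x920.clu_pth hy
  exact (h1.symm.trans ((hB a ha b hb).mono fun z hz => Cont2x920.clu_self hz)).trans h2

theorem enl_con (hA : ∀ l, ∀ x ∈ A l, ∀ y ∈ A l, Pth S (A l) x y) (T : Set ℂ) (l : ZMod 3) {x y : ℂ}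
    (hx : x ∈ enl S A i j T l) (hy : y ∈ enl S A i j T l) : Pth S (enl S A i j T l) x y := by
  rcases enl_cases (S := S) (A := A) (i := i) (j := j) l T with ⟨rfl, e⟩ | ⟨rfl, h1, e⟩ | ⟨-, -, e⟩
  · rw [e] at hx hy ⊢
    exact clu_con (hA l) hx hy
  · rw [e] at hx hy ⊢
    exact clu_con (hA l) hx hy
  · rw [e] at hx hy ⊢
    exact hA l x hx y hy

theorem tr_enl (hT : Tr S A) (i j : ZMod 3) (T : Set ℂ) : Tr S (enl S A i j T) :=
  GateKx421.absorb hT (sub_enl T) (enl_subS hT.sub T) (fun _ _ h => enl_disj hT.disj T h)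
    fun l _ hx _ hy => enl_con hT.con T l hx hy

/-! ### uniqueness -/

theorem z3 : ∀ i j k : ZMod 3, i ≠ j → i ≠ k → j ≠ k → ∀ l, l = i ∨ l = j ∨ l = k := by decide

theorem hitu : HITU := by
  intro S A hT i j k hij hik hjk T b v u b' v' u' h h'
  have hE := tr_enl hT i j T
  have hb : b ∈ enl S A i j T i := by rw [enl_i]; exact h.hb
  have hb' : b' ∈ enl S A i j T i := by rw [enl_i]; exact h'.hb
  have hv : v ∈ enl S A i j T j := by rw [enl_j hij]; exact h.hv
  have hv' : v' ∈ enl S A i j T j := by rw [enl_j hij]; exact h'.hv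
  have hu : u ∈ enl S A i j T k := by rw [enl_k hik.symm hjk.symm]; exact h.hu
  have hu' : u' ∈ enl S A i j T k := by rw [enl_k hik.symm hjk.symm]; exact h'.hu
  have d : ∀ l m x, l ≠ m → x ∈ enl S A i j T l → x ∈ enl S A i j T m → False :=
    fun l m x hlm h1 h2 => Set.disjoint_left.1 (hE.disj l m hlm) h1 h2
  -- the two triangles are the same
  obtain ⟨t, ht, t1, t2, t3⟩ := ContTx571.ctrT_of hij hik hjk hb hv hu h.tri
  obtain ⟨t', ht', t1', t2', t3'⟩ := ContTx571.ctrT_of hij hik hjk hb' hv' hu' h'.tri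
  have hr : t ∈ rots t' := ktt S _ hE t' t ht' ht
  have q1 : Vt t b' := ContTx571.vt_rots hr t1'
  have q2 : Vt t v' := ContTx571.vt_rots hr t2'
  have q3 : Vt t u' := ContTx571.vt_rots hr t3'
  -- the vertices of `t` are `b, v, u`
  have all : ∀ x, Vt t x → x = b ∨ x = v ∨ x = u := by
    have nbv : b ≠ v := fun e => d i j b hij hb (e ▸ hv)
    have nbu : b ≠ u := fun e => d i k b hik hb (e ▸ hu)
    have nvu : v ≠ u := fun e => d j k v hjk hv (e ▸ hu)
    intro x hx
    obtain ⟨p, q, r⟩ := t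
    unfold Vt at t1 t2 t3 hx
    simp only at t1 t2 t3 hx
    rcases t1 with t1 | t1 | t1 <;> rcases t2 with t2 | t2 | t2 <;> rcases t3 with t3 | t3 | t3 <;>
      first
      | exact absurd (t1.trans t2.symm) nbv
      | exact absurd (t1.trans t3.symm) nbu
      | exact absurd (t2.trans t3.symm) nvu
      | (subst t1 t2 t3; tauto)
  refine ⟨?_, ?_, ?_⟩
  · rcases all b' q1 with e | e | e
    · exact e
    · exact (d i j b' hij hb' (e ▸ hv)).elim
    · exact (d i k b' hik hb' (e ▸ hu)).elim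
  · rcases all v' q2 with e | e | e
    · exact (d i j v' hij (e ▸ hb) hv').elim
    · exact e
    · exact (d j k v' hjk hv' (e ▸ hu)).elim
  · rcases all u' q3 with e | e | e
    · exact (d i k u' hik (e ▸ hb) hu').elim
    · exact (d j k u' hjk (e ▸ hv) hu').elim
    · exact e

/-- **uniqueness of the oriented hit** -/
theorem hitO_unique (hT : Tr S A) {T : Set ℂ} {t t' : ℂ × ℂ × ℂ} (h : HitO S A i T t)
    (h' : HitO S A i T t') : t' = t := by
  have h1 := ((hitO_iff hT.gp).1 h).1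
  have h2 := ((hitO_iff hT.gp).1 h').1
  obtain ⟨e1, e2, e3⟩ := hitu S A hT (i + 1) (i + 2) i (z3x i).2.2.1 (z3x i).1 (z3x i).2.1 _ _ _ _
    _ _ _ h1 h2
  exact Prod.ext e3 (Prod.ext e1 e2)

/-! ### networks -/

variable {N : Net ℂ} {In : Finset ℂ}

/-- **exactly one oriented hit** -/
theorem hex_net (h : HNet S N) (hd : Dj N) (F : Crsx117.Free S N In) : Hex S (sA S N) :=
  NetHx346.hex_of hitu h hd F

/-- **END POINT FORMULA in the frozen language** -/
theorem TT_TS (h : HNet S N) (hd : Dj N) (F : Crsx117.Free S N In) (z : ℂ → ℂ) :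
    TT N z = TS S (sA S N) z :=
  NetHx346.TT_TS hitu h hd F z

theorem yv_hit (h : HNet S N) (hd : Dj N) (F : Crsx117.Free S N In) {i : ZMod 3}
    {T : Finset ℂ} (hT : T ⊆ In) {v : ℂ} :
    yv N i T = v ↔ ∃ b w, Hit S (sA S N) (i + 1) (i + 2) i (T : Set ℂ) b w v :=
  yv_iff hitu h hd F hT

theorem yv_hv (h : HNet S N) (hd : Dj N) (F : Crsx117.Free S N In) {i : ZMod 3}
    {T : Finset ℂ} (hT : T ⊆ In) : hv S (sA S N) i (T : Set ℂ) = yv N i T := by
  obtain ⟨b, w, hb⟩ := NetHx346.hitO_yv h hd F (i := i) hT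
  refine hv_eq (hex_net h hd F) ?_ hb
  rw [NetHx346.ff_eq h F]
  exact hT

/-- **`mu N i v` = probability of a hit at `v`** -/
theorem mu_hits (h : HNet S N) (hd : Dj N) (F : Crsx117.Free S N In) {i : ZMod 3}
    {v : ℂ} (hv : Side N i v) : mu N i v = Harx315.pr In (fun T =>
      ∃ b w, Hit S (sA S N) (i + 1) (i + 2) i (T : Set ℂ) b w v) :=
  mu_hit hitu h hd F hv

/-! ### three classes of 848 -/

section tg

variable {B : ZMod 3 → Set ℂ} {r : ZMod 3 → ℂ × ℂ}

theorem tg_sA (O : PgNx848.Tg S B r) : sA S O.N = B := by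
  funext i
  ext v
  exact O.side_iff

theorem tg_tr (O : PgNx848.Tg S B r) : Tr S B := by
  have h := tr_of O.hnet (Mabx377.dj_of O.hnet O.pairs)
  rwa [tg_sA O] at h

theorem tg_hex (O : PgNx848.Tg S B r) : Hex S B := by
  have h := hex_net O.hnet (Mabx377.dj_of O.hnet O.pairs) (Mabx377.free_of O.hnet O.pairs O.att)
  rwa [tg_sA O] at h

/-- **`T` of three classes** -/
theorem tg_TS (O : PgNx848.Tg S B r) (z : ℂ → ℂ) : TT O.N z = TS S B z := by
  have h := TT_TS O.hnet (Mabx377.dj_of O.hnet O.pairs)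
    (Mabx377.free_of O.hnet O.pairs O.att) z
  rwa [tg_sA O] at h

end tg

/-! ### explored networks -/

section alive

open Crest.Agent.R143.Mabx377 (Y_static Y_diff alive_net alive_pairs kl_side hnet_ok Y_eq_TT)

/-- **(D1), frozen form**: the total of an alive state is the static `T` of its three sides -/
theorem Y_TS (h : HNet S N)
    (hkl : ∀ a b : ℂ, (a, b) ∈ N.kl → (a, b) ∈ N.E → ∃ i, Side N i a)
    {x : Mabx377.St ℂ} (hok : Mabx377.Ok N x.1 x.2) (hA : Mabx377.Alive S N x) (z : ℂ → ℂ) :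
    Mabx377.Y S N (rr z) x = TS S (sA S (J4x872.knet N x.1)) z ∧
      Hex S (sA S (J4x872.knet N x.1)) ∧ Tr S (sA S (J4x872.knet N x.1)) := by
  obtain ⟨hN, -, hd, hF, hT, -⟩ := alive_net h hkl hok hA
  exact ⟨(Y_eq_TT h hA z).trans (TT_TS hN hd hF z), hex_net hN hd hF, hT⟩

end alive

end Crest.Agent.R143.HitUx54
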