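import Crest.Agent.R143.Ord_755
import Crest.Agent.R143.Hex_877
import Crest.Agent.R143.HitU_54

/-!
# Row 143 (S0194), CONT (K7): hull arcs of three classes (helper755)

* `hul_of_tr` : `Tr S A` with counterclockwise classes => hull arcs `Hul S A n w p`
* `ccw_of_hex` : `Tr S A` and `Hex S A` => `Ccw S A`
-/

set_option autoImplicit false

noncomputable section

open scoped Classical

namespace Crest.Agent.R143.Hulx755

open Set
open Crest.Agent.R143.B0x346 Crest.Agent.R143.DelGx806 Crest.Agent.R143.DelRx806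
open Crest.Agent.R143.Blkx838 (rot_mem)
open Crest.Agent.R143.K33x877 Crest.Agent.R143.NetUx346 Crest.Agent.R143.Hexx877
open Crest.Agent.R143.Ordx755 (Hul)

variable {S : Finset ℂ} {A : ZMod 3 → Set ℂ}

theorem hull_asymm {a b : ℂ} (h : hullE S a b) : ¬ hullE S b a := fun h' => by
  obtain ⟨c, hc⟩ := h'.1
  exact h.2 c hc

theorem card3 {a b : ℂ} (h : hullE S a b) : 3 ≤ S.card := by
  obtain ⟨⟨c, hc⟩, -⟩ := h
  obtain ⟨o, ht⟩ := mem_delT_iff.1 hc
  have h1 : ({a, b, c} : Finset ℂ) ⊆ S := by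
    intro x hx
    simp only [Finset.mem_insert, Finset.mem_singleton] at hx
    rcases hx with rfl | rfl | rfl
    · exact ht.ma
    · exact ht.mb
    · exact ht.mc
  have h2 : a ≠ b := by
    rintro rfl
    have := ht.pos
    simp [cr] at this
  have h3 : a ≠ c := by
    rintro rfl
    have := ht.pos
    simp [cr] at this
  have h4 : b ≠ c := by
    rintro rfl
    have := ht.pos
    unfold cr at this
    linarith
  calc 3 = ({a, b, c} : Finset ℂ).card := (Finset.card_eq_three.2 ⟨a, b, c, h2, h3, h4, rfl⟩).symm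
    _ ≤ S.card := Finset.card_le_card h1

section walk

variable {n : ℕ} {w : ℤ → ℂ}

theorem cls_of (hT : Tr S A) (H : HullCyc S n w) (j : ℤ) : ∃ i, w j ∈ A i :=
  hT.hull _ _ (H.edge j)

theorem uniq (hT : Tr S A) {i j : ZMod 3} {x : ℂ} (h1 : x ∈ A i) (h2 : x ∈ A j) : i = j := by
  by_contra h
  exact Set.disjoint_left.1 (hT.disj i j h) h1 h2

/-- representative of a position in `(q, q + n]` -/
theorem exists_rep (H : HullCyc S n w) {a b : ℂ} (h : hullE S a b) (q : ℤ) :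
    ∃ j, q < j ∧ j ≤ q + n ∧ w j = a ∧ w (j + 1) = b := by
  obtain ⟨i, h1, h2, h3, h4⟩ := H.all a b h
  have hn : (0 : ℤ) < n := by exact_mod_cast H.pos
  have e : ∀ t : ℤ, w (q + 1 + (i - (q + 1)) % n + t) = w (i + t) := by
    intro t
    rw [← mod_per H.pos H.per, ← mod_per H.pos H.per (i + t)]
    congr 1
    have : q + 1 + (i - (q + 1)) % n + t = (i + t) + n * (- ((i - (q + 1)) / n)) := by
      have := Int.emod_def (i - (q + 1)) n
      rw [this]; ring
    rw [this, Int.add_mul_emod_self_left]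
  refine ⟨q + 1 + (i - (q + 1)) % n, ?_, ?_, ?_, ?_⟩
  · have := Int.emod_nonneg (i - (q + 1)) hn.ne'
    omega
  · have := Int.emod_lt_of_pos (i - (q + 1)) hn
    omega
  · have := e 0
    rw [add_zero, add_zero] at this
    rw [this, h3]
  · rw [e 1, h4]

theorem ne_lt (H : HullCyc S n w) {i j : ℤ} (h1 : i < j) (h2 : j < i + n) : w i ≠ w j :=
  ne_of_lt H.pos H.per H.inj h1 h2

/-- the unique hull edge between two classes -/
theorem edge_eq (hT : Tr S A) {i j : ZMod 3} (hij : i ≠ j) {a b a' b' : ℂ}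
    (h : hullE S a b ∨ hullE S b a) (ha : a ∈ A i) (hb : b ∈ A j)
    (h' : hullE S a' b' ∨ hullE S b' a') (ha' : a' ∈ A i) (hb' : b' ∈ A j) :
    a' = a ∧ b' = b := by
  obtain ⟨x, y, -, -, -, hu⟩ := hT.one i j hij
  obtain ⟨h1, h2⟩ := hu a b h ha hb
  obtain ⟨h3, h4⟩ := hu a' b' h' ha' hb'
  exact ⟨h3.trans h1.symm, h4.trans h2.symm⟩

theorem z3 (i : ZMod 3) : i + 1 ≠ i ∧ i ≠ i + 1 ∧ i + 1 + 1 ≠ i ∧ i + 1 + 1 ≠ i + 1 := by
  revert i; decide

theorem z3' (i l : ZMod 3) : l = i ∨ l = i + 1 ∨ l = i + 1 + 1 := by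
  revert i l; decide

/-- the part of the hull in the class `i + 1` after the mark `i` -/
theorem arc (hT : Tr S A) (H : HullCyc S n w) {i : ZMod 3} {a b : ℂ} (h : hullE S a b)
    (ha : a ∈ A i) (hb : b ∈ A (i + 1)) {q : ℤ} (hq : w q = a) (hq' : w (q + 1) = b) :
    ∃ q', q < q' ∧ q' < q + n ∧ (∀ j, q < j → j ≤ q' → w j ∈ A (i + 1)) ∧
      w (q' + 1) ∈ A (i + 1 + 1) := by
  -- first position after `q` whose successor leaves the class
  have hn : (0 : ℤ) < n := by exact_mod_cast H.pos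
  have hex : ∃ t : ℕ, w (q + 1 + t + 1) ∉ A (i + 1) := by
    have h2 : w (q + n) ∉ A (i + 1) := by
      rw [H.per, hq]
      exact fun h' => (z3 i).2.1 (uniq hT ha h')
    have h3 : 2 ≤ n := by
      by_contra hlt
      have : (n : ℤ) = 1 := by omega
      have h4 := H.per q
      rw [this] at h4
      rw [h4, hq] at hq'
      exact h2 (by rw [H.per, hq, hq']; exact hb)
    refine ⟨n - 2, ?_⟩
    have : q + 1 + ((n - 2 : ℕ) : ℤ) + 1 = q + n := by push_cast [Nat.cast_sub h3]; ring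
    rw [this]
    exact h2
  set t := Nat.find hex with ht
  have h1 : w (q + 1 + t + 1) ∉ A (i + 1) := Nat.find_spec hex
  have h2 : ∀ j : ℤ, q < j → j ≤ q + 1 + t → w j ∈ A (i + 1) := by
    intro j j1 j2
    rcases eq_or_lt_of_le (show q + 1 ≤ j by omega) with e | j3
    · rw [← e, hq']; exact hb
    · have := Nat.find_min hex (m := (j - (q + 2)).toNat) (by omega)
      rw [not_not] at this
      have e : q + 1 + ((j - (q + 2)).toNat : ℤ) + 1 = j := by omega
      rwa [e] at this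
  have h3 : q + 1 + (t : ℤ) < q + n := by
    by_contra hge
    have := h2 (q + n) (by omega) (by omega)
    rw [H.per, hq] at this
    exact (z3 i).2.1 (uniq hT ha this)
  refine ⟨q + 1 + t, by omega, h3, h2, ?_⟩
  have h4 : w (q + 1 + t) ∈ A (i + 1) := h2 _ (by omega) le_rfl
  obtain ⟨l, hl⟩ := cls_of hT H (q + 1 + t + 1)
  rcases z3' i l with rfl | rfl | rfl
  · exfalso
    obtain ⟨e1, e2⟩ := edge_eq hT (z3 l).2.1 (Or.inl h) ha hb (Or.inr (H.edge (q + 1 + t))) hl h4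
    have h5 := H.edge (q + 1 + t)
    rw [e1, e2] at h5
    exact hull_asymm h h5
  · exact absurd hl h1
  · exact hl

/-- **hull arcs** -/
theorem hul_of_tr (hT : Tr S A) (hc : Ccw S A) : ∃ n w p, Hul S A n w p := by
  obtain ⟨a, b, hab, ha, hb⟩ := hc 2
  have z20 : (2 : ZMod 3) + 1 = 0 := by decide
  have z01 : (0 : ZMod 3) + 1 = 1 := by decide
  have z12 : (1 : ZMod 3) + 1 = 2 := by decide
  rw [z20] at hb
  obtain ⟨n, w, H⟩ := hull_cycle hT.gp (card3 hab)
  obtain ⟨q, -, -, hq, hq'⟩ := exists_rep H hab 0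
  obtain ⟨q0, h1, h2, h3, h4⟩ := arc hT H (i := 2) hab ha (by rw [z20]; exact hb) hq hq'
  rw [z20] at h3 h4
  rw [z01] at h4
  have m0 : w q0 ∈ A 0 := h3 q0 h1 le_rfl
  obtain ⟨q1, k1, k2, k3, k4⟩ := arc hT H (i := 0) (H.edge q0) m0 (by rw [z01]; exact h4) rfl rfl
  rw [z01] at k3 k4
  rw [z12] at k4
  have m1 : w q1 ∈ A 1 := k3 q1 k1 le_rfl
  obtain ⟨q2, l1, l2, l3, l4⟩ := arc hT H (i := 1) (H.edge q1) m1 (by rw [z12]; exact k4) rfl rfl
  rw [z12] at l3 l4
  rw [z20] at l4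
  have d1 : q1 < q + n := by
    by_contra hge
    have := k3 (q + n) (by omega) (by omega)
    rw [H.per, hq] at this
    exact absurd (uniq hT ha this) (by decide)
  have d2 : q2 = q + n := by
    have m2 : w q2 ∈ A 2 := l3 q2 l1 le_rfl
    obtain ⟨e1, e2⟩ := edge_eq hT (i := 2) (j := 0) (by decide) (Or.inl hab) ha hb
      (Or.inl (H.edge q2)) m2 l4
    have e3 : w q2 = w (q + n) := by rw [H.per, hq, e1]
    by_contra hne
    rcases lt_or_gt_of_ne hne with h | h
    · exact ne_lt H h (by omega) e3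
    · exact ne_lt H h (by omega) e3.symm
  refine ⟨n, w, fun j => if j = 0 then q else if j = 1 then q0 else q1, H, ?_, ?_, ?_, ?_, ?_, ?_⟩
  · simpa using h1
  · simpa using k1
  · simpa using d1
  · intro k
    simpa using h3 k
  · intro k
    simpa using k3 k
  · intro k
    have := l3 k
    rw [d2] at this
    simpa using this

end walk

/-! ### orientation from the oriented hits -/

theorem hul_mono {B : ZMod 3 → Set ℂ} {n : ℕ} {w : ℤ → ℂ} {p : ℕ → ℤ} (h : Hul S A n w p)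
    (hAB : ∀ i, A i ⊆ B i) : Hul S B n w p :=
  ⟨h.cyc, h.lt0, h.lt1, h.lt2, fun k h1 h2 => hAB 0 (h.a0 k h1 h2),
    fun k h1 h2 => hAB 1 (h.a1 k h1 h2), fun k h1 h2 => hAB 2 (h.a2 k h1 h2)⟩

/-- one mark in the positive direction => all -/
theorem pos_all (hT : Tr S A) {i : ZMod 3} {a b : ℂ} (h : hullE S a b)
    (ha : a ∈ A i) (hb : b ∈ A (i + 1)) : Ccw S A := by
  obtain ⟨n, w, H⟩ := hull_cycle hT.gp (card3 h)
  have key : ∀ (i : ZMod 3) (a b : ℂ), hullE S a b → a ∈ A i → b ∈ A (i + 1) →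
      ∃ a' b', hullE S a' b' ∧ a' ∈ A (i + 1) ∧ b' ∈ A (i + 1 + 1) := by
    intro i a b h ha hb
    obtain ⟨q, -, -, hq, hq'⟩ := exists_rep H h 0
    obtain ⟨q', h1, h2, h3, h4⟩ := arc hT H h ha hb hq hq'
    exact ⟨_, _, H.edge q', h3 q' h1 le_rfl, h4⟩
  obtain ⟨a1, b1, h1, h2, h3⟩ := key i a b h ha hb
  obtain ⟨a2, b2, h4, h5, h6⟩ := key (i + 1) a1 b1 h1 h2 h3
  intro l
  rcases z3' i l with rfl | rfl | rfl
  · exact ⟨a, b, h, ha, hb⟩
  · exact ⟨a1, b1, h1, h2, h3⟩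
  · exact ⟨a2, b2, h4, h5, h6⟩

/-- reversed classes -/
theorem tr_neg (hT : Tr S A) : Tr S (fun i => A (-i)) where
  gp := hT.gp
  sub i := hT.sub _
  disj i j hij := hT.disj _ _ fun h => hij (neg_injective h)
  con i := hT.con _
  hull a b h := by
    obtain ⟨i, hi⟩ := hT.hull a b h
    exact ⟨-i, by simpa using hi⟩
  one i j hij := hT.one _ _ fun h => hij (neg_injective h)

theorem fr_neg : fr S (fun i => A (-i)) = fr S A := by
  ext v
  unfold fr
  simp only [Set.mem_setOf_eq]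
  refine and_congr_right fun _ => ⟨fun h i => ?_, fun h i => h (-i)⟩
  simpa using h (-i)

/-- **orientation** -/
theorem ccw_of_hex (hT : Tr S A) (hX : Hex S A) : Ccw S A := by
  by_cases hp : ∃ (i : ZMod 3) (a b : ℂ), hullE S a b ∧ a ∈ A i ∧ b ∈ A (i + 1)
  · obtain ⟨i, a, b, h, ha, hb⟩ := hp
    exact pos_all hT h ha hb
  exfalso
  push Not at hp
  have hneg : Ccw S (fun i => A (-i)) := by
    intro i
    obtain ⟨a, b, h, ha, hb, -⟩ := hT.one (-i) (-(i + 1)) fun h => (z3 i).2.1 (neg_injective h)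
    rcases h with h | h
    · exact ⟨a, b, h, ha, hb⟩
    · exfalso
      refine hp (-(i + 1)) b a h hb ?_
      have : -(i + 1) + 1 = -i := by ring
      rw [this]; exact ha
  have hX' := hex_tr (tr_neg hT) hneg
  obtain ⟨t, ht, -⟩ := hX 0 ∅ (Finset.empty_subset _)
  obtain ⟨t', ht', -⟩ := hX' 0 (ff S fun i => A (-i)) (Finset.Subset.refl _)
  obtain ⟨u, b, v⟩ := t
  obtain ⟨u', v', b'⟩ := t'
  obtain ⟨g1, g2, g3, g4⟩ := ht
  obtain ⟨f1, f2, f3, f4⟩ := ht'
  simp only at g1 g2 g3 g4 f1 f2 f3 f4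
  have m1 : (-(0 + 1) : ZMod 3) = 2 := by decide
  have m2 : (-(0 + 2) : ZMod 3) = 1 := by decide
  have m3 : (0 + 1 : ZMod 3) = 1 := by decide
  have m4 : (0 + 2 : ZMod 3) = 2 := by decide
  have hff : ((ff S fun i => A (-i) : Finset ℂ) : Set ℂ) = fr S A := by
    ext x
    rw [Finset.mem_coe, mem_ff, fr_neg]
  rw [hff, fr_neg] at f3 f4
  rw [m1, Set.inter_self] at f3
  rw [m2, Set.diff_self] at f4
  rw [m3, Finset.coe_empty, Set.inter_empty] at g3
  rw [m4, Finset.coe_empty, Set.diff_empty] at g4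
  rw [neg_zero] at f2
  have r1 : (b, v, u) ∈ delT S := rot_mem g1
  have r2 : (v', b', u') ∈ delT S := rot_mem f1
  have H1 : Hit S A 1 2 0 ∅ b v u := ⟨Or.inl r1, by rw [Set.inter_empty]; exact g3,
    by rw [Set.diff_empty]; exact g4, g2⟩
  have H2 : Hit S A 1 2 0 ∅ b' v' u' := ⟨Or.inr r2, by rw [Set.inter_empty]; exact f4,
    by rw [Set.diff_empty]; exact f3, f2⟩
  obtain ⟨e1, e2, e3⟩ := HitUx54.hitu S A hT 1 2 0 (by decide) (by decide) (by decide) ∅ _ _ _ _ _ _
    H1 H2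
  rw [e1, e2, e3] at r2
  obtain ⟨o, p1⟩ := mem_delT_iff.1 r1
  obtain ⟨o', p2⟩ := mem_delT_iff.1 r2
  have q1 := p1.pos
  have q2 := p2.pos
  unfold cr at q1 q2
  simp only [Complex.sub_re, Complex.sub_im] at q1 q2
  nlinarith

/-- **hull arcs from `Tr` and `Hex`** -/
theorem hul_of_hex (hT : Tr S A) (hX : Hex S A) : ∃ n w p, Hul S A n w p :=
  hul_of_tr hT (ccw_of_hex hT hX)

/-! ### 723's polygon with the three classes -/

theorem tr_eq (hT : Tr S A) (i : ZMod 3) : ((S.filter fun x => x ∈ A i : Finset ℂ) : Set ℂ) = A i := by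
  ext x
  simp only [Finset.coe_filter, Set.mem_ofPred_eq]
  exact ⟨fun h => h.2, fun h => ⟨hT.sub i h, h⟩⟩

theorem pg_of_hul {n : ℕ} {w : ℤ → ℂ} {p : ℕ → ℤ} (hT : Tr S A) (h : Hul S A n w p) :
    RE0x723.Pg S n w 2 p fun j => S.filter fun x => x ∈ A (j : ZMod 3) where
  gp := hT.gp
  cyc := h.cyc
  mono j hj := by
    interval_cases j
    · exact h.lt0
    · exact h.lt1
  last := h.lt2
  sub j _ := Finset.filter_subset _ _
  disj i j hi hj hij := by
    rw [Finset.disjoint_left]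
    intro x hx hy
    have h1 := uniq hT (Finset.mem_filter.1 hx).2 (Finset.mem_filter.1 hy).2
    interval_cases i <;> interval_cases j <;> first | exact hij rfl | exact absurd h1 (by decide)
  con j _ x hx y hy := by
    rw [tr_eq hT]
    exact hT.con _ x (Finset.mem_filter.1 hx).2 y (Finset.mem_filter.1 hy).2
  arc j hj k h1 h2 := by
    interval_cases j
    · have := h.a0 k h1 h2
      simp only [Nat.cast_zero, Finset.mem_filter]
      exact ⟨hT.sub _ this, this⟩
    · have := h.a1 k h1 h2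
      simp only [Nat.cast_one, Finset.mem_filter]
      exact ⟨hT.sub _ this, this⟩
  arcl k h1 h2 := by
    have := h.a2 k h1 h2
    simp only [Nat.cast_ofNat, Finset.mem_filter]
    exact ⟨hT.sub _ this, this⟩

/-- **723's polygon from counterclockwise classes** -/
theorem pg_of_ccw (hT : Tr S A) (hc : Ccw S A) : ∃ (n : ℕ) (w : ℤ → ℂ) (p : ℕ → ℤ),
    RE0x723.Pg S n w 2 p fun j => S.filter fun x => x ∈ A (j : ZMod 3) := by
  obtain ⟨n, w, p, h⟩ := hul_of_tr hT hc
  exact ⟨n, w, p, pg_of_hul hT h⟩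

/-- **723's polygon from `Hex`** -/
theorem pg_of_hex (hT : Tr S A) (hX : Hex S A) : ∃ (n : ℕ) (w : ℤ → ℂ) (p : ℕ → ℤ),
    RE0x723.Pg S n w 2 p fun j => S.filter fun x => x ∈ A (j : ZMod 3) :=
  pg_of_ccw hT (ccw_of_hex hT hX)

/-- hull arcs of 723's polygon, for larger classes -/
theorem hul_of_pg {B : ZMod 3 → Set ℂ} {n : ℕ} {w : ℤ → ℂ} {p : ℕ → ℤ}
    (h : RE0x723.Pg S n w 2 p fun j => S.filter fun x => x ∈ A (j : ZMod 3))
    (hAB : ∀ i, A i ⊆ B i) : Hul S B n w p := by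
  refine ⟨h.cyc, h.mono 0 (by norm_num), h.mono 1 (by norm_num), h.last, fun k h1 h2 => ?_,
    fun k h1 h2 => ?_, fun k h1 h2 => ?_⟩
  · have := (Finset.mem_filter.1 (h.arc 0 (by norm_num) k h1 h2)).2
    exact hAB 0 (by simpa using this)
  · have := (Finset.mem_filter.1 (h.arc 1 (by norm_num) k h1 h2)).2
    exact hAB 1 (by simpa using this)
  · have := (Finset.mem_filter.1 (h.arcl k h1 h2)).2
    exact hAB 2 (by simpa using this)

/-- the converse: 723's polygon gives counterclockwise classes -/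
theorem ccw_of_pg {n : ℕ} {w : ℤ → ℂ} {p : ℕ → ℤ} (hT : Tr S A)
    (h : RE0x723.Pg S n w 2 p fun j => S.filter fun x => x ∈ A (j : ZMod 3)) : Ccw S A := by
  have H := hul_of_pg h fun i => Subset.rfl
  have h1 : w (p 1) ∈ A 0 := H.a0 _ H.lt0 le_rfl
  have h2 : w (p 1 + 1) ∈ A (0 + 1) := by
    rw [zero_add]
    exact H.a1 _ (by omega) (by have := H.lt1; omega)
  exact pos_all hT (H.cyc.edge (p 1)) h1 h2

end Crest.Agent.R143.Hulx755
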