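import Crest.Agent.R143.FinE_377
import Crest.Agent.R143.VisD_877
import Crest.Agent.R143.Hul_755
import Crest.Agent.R143.K7_359
import Crest.Agent.R143.Comp_66

/-!
# Row 143 (S0194): what is left, fourth form (helper377)

* `pg : PG` (755), `detq_id`, `detq_conj` : `K7 → DETQ z`
* **`leaf_k7`** : `HarmOne → K7 → RIGP Poly.T Dk → Leaf894`
* **`leaf_k7'`** : the same with K7 cut into 359's leaves (COMP is 66's theorem)
-/

set_option autoImplicit false

noncomputable section

namespace Crest.Agent.R143.Mabx377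

open Crest.ProbabilityR.Voronoi
open Crest.Agent.R143.Finx894 Crest.Agent.R143.PolyUx346 Crest.Agent.R143.RelPx62
open Crest.Agent.R143.PolyQx854 (RIGP)
open Crest.Agent.R143.FinCx894 (ContB ContD)

theorem pg : VisDx877.PG := fun _ _ hT hc _ => Hulx755.pg_of_ccw hT hc

theorem detq_id (h : K7Dx359.K7) : DETQ id := VisDx877.detv_id h pg

theorem detq_conj (h : K7Dx359.K7) : DETQ (starRingEnd ℂ) := VisDx877.detv_conj h pg

theorem contB_k7 (h1 : HarmSx496.HarmOne) (h2 : K7Dx359.K7) : ContB := contB_det h1 (detq_id h2)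

theorem contD_k7 (h1 : HarmSx496.HarmOne) (h2 : K7Dx359.K7) : ContD := contD_det h1 (detq_conj h2)

/-- **the row from `HarmOne`, `K7` and RIG** -/
theorem leaf_k7 (h1 : HarmSx496.HarmOne) (h2 : K7Dx359.K7) (h5 : RIGP Poly.T Dk) : Leaf894 :=
  leaf_det h1 (detq_id h2) (detq_conj h2) h5

/-- the row from the leaves of K7 -/
theorem leaf_k7' (h1 : HarmSx496.HarmOne) (a : K7Dx359.LAYER) (b : K7Dx359.GRID)
    (d : K7Dx359.CENT) (e : K7Dx359.THR) (f : K7Dx359.MARK) (h5 : RIGP Poly.T Dk) : Leaf894 :=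
  leaf_k7 h1 (K7x359.k7_of a b Compx66.comp d e f) h5

end Crest.Agent.R143.Mabx377
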